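import Crest.Agent.R235.CurvesProps_489
import Crest.Agent.R240.TopAll
import Crest.Agent.R240.N8

/-!
Row 235 (S0364), CURVES, helper819: from a tamed to an almost Kaehler structure.

* `exists_ak`  : for every `D : Dat M` there is `D' : Dat M` with `D'.J = D.J` and `AK D'` (R240);
* `meas_le`    : `∫ f ds' ≤ C ∫ f ds` for all smooth `f ≥ 0` ⟹ `s' ≤ C s`;
* `cur_ak`     : `Cur D Φ s` ⟹ `Cur D' Φ s'`, `s ≤ C s'`, `s' ≤ C s`;
* `zero_of_le`, `msupp_eq` : zero densities and supports are the same.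
-/

set_option autoImplicit false
set_option maxSynthPendingDepth 3

open Set Function Filter MeasureTheory Metric
open scoped Manifold ContDiff Topology ENNReal

universe u

namespace Crest.Agent.R235.AK_819

open Crest.Agent.R240 Crest.Agent.R240.Ch Crest.Agent.R240.En4 Crest.Agent.R235
  Crest.Agent.R235.T1_195 Crest.Agent.R235.Curves_489

noncomputable section

variable {M : Type*} [MetricSpace M] [CompactSpace M] [ChartedSpace E4 M]
    [IsManifold 𝓘(ℝ, E4) ∞ M] [MeasurableSpace M] [BorelSpace M]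

/-- **a tamed structure is compatible** (S0371). -/
theorem exists_ak (D : Dat M) : ∃ D' : Dat M, D'.J = D.J ∧ AK D' := by
  obtain ⟨c, hs, hc, hp⟩ := D.sposG_of_goal (Dat.goal_of_N8 D (Dat.n8 D))
  obtain ⟨D', hJ, ha⟩ := Int.exists_dat D.bl D.smJ D.sq hs hc (fun x v hv => (hp x).pos v hv)
  refine ⟨D', hJ, fun x u v => ?_⟩
  rw [hJ, ha]
  exact (hp x).inv u v

/-- comparison of finite measures by smooth functions. -/
theorem meas_le {s s' : Measure M} (hs : IsFiniteMeasure s) (hs' : IsFiniteMeasure s') {C : ℝ}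
    (hC : 0 ≤ C)
    (h : ∀ f : M → ℝ, SmoothF E4 f → (∀ x, 0 ≤ f x) → ∫ x, f x ∂s' ≤ C * ∫ x, f x ∂s) :
    s' ≤ ENNReal.ofReal C • s := by
  -- closed sets
  have hK : ∀ K : Set M, IsClosed K → s' K ≤ ENNReal.ofReal C * s K := by
    intro K hKc
    have h1 : ∀ U : Set M, IsOpen U → K ⊆ U → s' K ≤ ENNReal.ofReal C * s U := by
      intro U hU hKU
      obtain ⟨f, hf0, hf1, hfI⟩ := exists_contMDiffMap_zero_one_of_isClosed 𝓘(ℝ, E4)
        hU.isClosed_compl hKc (disjoint_compl_left_iff_subset.2 hKU)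
      have hfs : SmoothF E4 (f : M → ℝ) := (smoothF_iff _).1 f.contMDiff
      have hfc : Continuous (f : M → ℝ) := f.contMDiff.continuous
      have h2 := h f hfs (fun x => (hfI x).1)
      have h3 : s'.real K ≤ ∫ x, f x ∂s' := by
        rw [← integral_indicator_one hKc.measurableSet]
        refine integral_mono ((integrable_const (1:ℝ)).indicator hKc.measurableSet)
          (integrable_s hs' hfc) fun x => ?_
        by_cases hx : x ∈ K
        · rw [indicator_of_mem hx]
          exact (hf1 hx).ge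
        · rw [indicator_of_notMem hx]
          exact (hfI x).1
      have h4 : ∫ x, f x ∂s ≤ s.real U := by
        rw [← integral_indicator_one hU.measurableSet]
        refine integral_mono (integrable_s hs hfc)
          ((integrable_const (1:ℝ)).indicator hU.measurableSet) fun x => ?_
        by_cases hx : x ∈ U
        · rw [indicator_of_mem hx]
          exact (hfI x).2
        · rw [indicator_of_notMem hx]
          exact (hf0 hx).le
      have h5 : s'.real K ≤ C * s.real U := h3.trans (h2.trans (by gcongr))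
      rw [measureReal_def, measureReal_def] at h5
      have h6 := ENNReal.ofReal_le_ofReal h5
      rwa [ENNReal.ofReal_toReal (measure_ne_top _ _), ENNReal.ofReal_mul hC,
        ENNReal.ofReal_toReal (measure_ne_top _ _)] at h6
    rw [Set.measure_eq_iInf_isOpen K s]
    rcases eq_or_ne (ENNReal.ofReal C) 0 with h0 | h0
    · rw [h0, zero_mul]
      have := h1 univ isOpen_univ (subset_univ _)
      rwa [h0, zero_mul] at this
    · refine (ENNReal.div_le_iff_le_mul (Or.inl h0) (Or.inl ENNReal.ofReal_ne_top)).1 ?_ |>.trans_eq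
        (mul_comm _ _)
      refine le_iInf fun U => le_iInf fun hKU => le_iInf fun hU => ?_
      refine (ENNReal.div_le_iff_le_mul (Or.inl h0) (Or.inl ENNReal.ofReal_ne_top)).2 ?_
      rw [mul_comm]
      exact h1 U hU hKU
  refine Measure.le_iff.2 fun B hB => ?_
  rw [hB.measure_eq_iSup_isClosed_of_ne_top (measure_ne_top s' B)]
  refine iSup_le fun K => iSup_le fun hKB => iSup_le fun hKc => ?_
  refine (hK K hKc).trans ?_
  rw [Measure.smul_apply, smul_eq_mul]
  gcongr

/-- comparison of the trace measures of a current for two structures with the same `J`. -/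
theorem cur_le {D D' : Dat M} (hJ : D'.J = D.J) {Φ : X2 M →ₗ[ℝ] ℝ} {s s' : Measure M}
    (h : Cur D Φ s) (h' : Cur D' Φ s') : ∃ C : ℝ, 0 < C ∧ s' ≤ ENNReal.ofReal C • s := by
  obtain ⟨K, hK⟩ := (isCompact_univ (X := M)).exists_bound_of_continuousOn
    (cont_nr D D'.FX.2).continuousOn
  refine ⟨2 * (|K| + 1), by positivity, meas_le h.fin h'.fin (by positivity) fun f hf h0 => ?_⟩
  have e1 : Φ (fX f hf D'.FX) = ∫ x, f x ∂s' := h'.rm.trace f hf _ rfl
  have e2 : D.pi' (fX f hf D'.FX) = fX f hf D'.FX := by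
    apply ext_at2
    intro x
    show invp (atJ D.J x) (at2 (fX f hf D'.FX).1 x) = at2 (fX f hf D'.FX).1 x
    refine invp_of_inv fun u v => ?_
    have h1 : ∀ a b, at2 (fX f hf D'.FX).1 x a b = f x * at2 D'.F x a b := fun a b => rfl
    rw [h1, h1, ← hJ]
    congr 1
    exact invp_inv (D'.sq x) _ u v
  rw [← e1, ← e2]
  refine (le_abs_self _).trans ((h.rm.bound _).trans ?_)
  rw [mul_assoc]
  gcongr
  rw [← integral_const_mul]
  refine integral_mono (integrable_s h.fin (cont_nr D (fX f hf D'.FX).2))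
    ((integrable_s h.fin (sF_continuous hf)).const_mul _) fun x => ?_
  show D.nr (fX f hf D'.FX).1 x ≤ (|K| + 1) * f x
  rw [nr_fX D hf h0, mul_comm]
  have h2 := hK x (mem_univ x)
  rw [Real.norm_eq_abs] at h2
  have h3 := le_abs_self (D.nr D'.FX.1 x)
  have h4 := le_abs_self K
  have h5 := h0 x
  gcongr
  linarith

/-- **the current for the almost Kaehler structure**, with comparable trace measures. -/
theorem cur_ak (D : Dat M) {Φ : X2 M →ₗ[ℝ] ℝ} {s : Measure M} (h : Cur D Φ s) :
    ∃ (D' : Dat M) (s' : Measure M) (C : ℝ), D'.J = D.J ∧ AK D' ∧ Cur D' Φ s' ∧ 0 < C ∧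
      s ≤ ENNReal.ofReal C • s' ∧ s' ≤ ENNReal.ofReal C • s := by
  obtain ⟨D', hJ, hAK⟩ := exists_ak D
  have hpi : ∀ b, D'.pi' b = D.pi' b := by
    intro b
    apply ext_at2
    intro x
    show invp (atJ D'.J x) (at2 b.1 x) = invp (atJ D.J x) (at2 b.1 x)
    rw [hJ]
  have h1 : D'.IsInv Φ := fun b => by rw [hpi]; exact h.inv b
  have h2 : D'.IsNonneg Φ := fun P hP => h.nonneg P (by
    have : PosG D'.J (P : F2 E4 M) := hP
    rw [hJ] at this
    exact this)
  obtain ⟨s', hs'⟩ := exists_cur D' h1 h2 h.closed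
  obtain ⟨C1, hC1, h3⟩ := cur_le hJ h hs'
  obtain ⟨C2, hC2, h4⟩ := cur_le hJ.symm hs' h
  have hle : ∀ {C : ℝ} {m m' : Measure M}, C ≤ max C1 C2 → m ≤ ENNReal.ofReal C • m' →
      m ≤ ENNReal.ofReal (max C1 C2) • m' := by
    intro C m m' hC hm
    refine hm.trans ?_
    refine Measure.le_iff.2 fun B _ => ?_
    rw [Measure.smul_apply, Measure.smul_apply, smul_eq_mul, smul_eq_mul]
    gcongr
  exact ⟨D', s', max C1 C2, hJ, hAK, hs', lt_max_of_lt_left hC1, hle (le_max_right _ _) h4,
    hle (le_max_left _ _) h3⟩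

omit [MetricSpace M] [ChartedSpace E4 M] [IsManifold 𝓘(ℝ, E4) ∞ M] [CompactSpace M] [BorelSpace M] in
theorem real_le {s s' : Measure M} (hs' : IsFiniteMeasure s') {C : ℝ} (hC : 0 ≤ C)
    (h : s ≤ ENNReal.ofReal C • s') (B : Set M) : s.real B ≤ C * s'.real B := by
  have h1 := h B
  rw [Measure.smul_apply, smul_eq_mul] at h1
  rw [measureReal_def, measureReal_def]
  refine (ENNReal.toReal_mono (ENNReal.mul_ne_top ENNReal.ofReal_ne_top (measure_ne_top _ _)) h1).trans
    ?_
  rw [ENNReal.toReal_mul, ENNReal.toReal_ofReal hC]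

omit [ChartedSpace E4 M] [IsManifold 𝓘(ℝ, E4) ∞ M] [CompactSpace M] [BorelSpace M] in
/-- zero densities. -/
theorem zero_of_le {s s' : Measure M} (hs' : IsFiniteMeasure s') {C : ℝ} (hC : 0 ≤ C)
    (h : s ≤ ENNReal.ofReal C • s') (hz : Dat.ZeroDens s') : Dat.ZeroDens s := by
  have hac : s ≪ s' := (Measure.absolutelyContinuous_of_le h).trans
    (Measure.smul_absolutelyContinuous)
  have h1 : ∀ᵐ x ∂s, Tendsto (fun r : ℝ => s'.real (ball x r) / r ^ 2) (𝓝[>] 0) (𝓝 0) :=
    hac.ae_le hz
  refine h1.mono fun x hx => ?_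
  have h2 : Tendsto (fun r : ℝ => C * (s'.real (ball x r) / r ^ 2)) (𝓝[>] 0) (𝓝 0) := by
    have := hx.const_mul C
    rwa [mul_zero] at this
  refine squeeze_zero (fun r => by positivity) (fun r => ?_) h2
  rw [← mul_div_assoc]
  gcongr
  exact real_le hs' hC h _

omit [ChartedSpace E4 M] [IsManifold 𝓘(ℝ, E4) ∞ M] [CompactSpace M] [BorelSpace M] in
/-- supports. -/
theorem msupp_mono {s s' : Measure M} {C : ℝ} (h : s ≤ ENNReal.ofReal C • s') :
    msupp s ⊆ msupp s' := by
  intro x hx U hU hxU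
  have h1 := hx U hU hxU
  have h2 := h U
  rw [Measure.smul_apply, smul_eq_mul] at h2
  by_contra h3
  rw [not_lt, nonpos_iff_eq_zero] at h3
  rw [h3, mul_zero, nonpos_iff_eq_zero] at h2
  exact h1.ne' h2

end

end Crest.Agent.R235.AK_819
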