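import Crest.Agent.R235.STFProps_861
import Crest.Agent.R240.TopAll
import Crest.Agent.R240.N8

/-!
Row 235, package STF (leader helper861), leaf APX (helper291): approximately compatible forms in
the class of a Kaehler current.

* dichotomy (R240 `N2.n2_core`) with `Z` = the forms `t a + exact`;
* if the first alternative fails: `L` kills `a` and the exact forms, `L ≥ 0`, `L F = 1`;
* smoothings `T_e` of `Φ - δ F`: `L T_e → Φ a_L - δ = -δ`, but `liminf L T_e ≥ 0` (zero density).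
-/

set_option autoImplicit false
set_option maxSynthPendingDepth 3

open Set Function Filter MeasureTheory Metric
open scoped Manifold ContDiff Topology ENNReal

universe u

namespace Crest.Agent.R235.Apx_291

open Crest.Agent.R240 Crest.Agent.R240.Ch Crest.Agent.R235.STF_861

noncomputable section

variable {M : Type u} [MetricSpace M] [CompactSpace M] [ChartedSpace E4 M]
    [IsManifold 𝓘(ℝ, E4) ∞ M] [MeasurableSpace M] [BorelSpace M] (D : Dat M)

/-- the forms `t a + exact`. -/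
def ZS (a : X2 M) : Submodule ℝ (X2 M) := St1.ExS M ⊔ Submodule.span ℝ {a}

omit [CompactSpace M] [MeasurableSpace M] [BorelSpace M] in
theorem mem_ZS {a b : X2 M} : b ∈ ZS a ↔ ∃ t : ℝ, IsEx ((b - t • a : X2 M) : F2 E4 M) := by
  unfold ZS
  rw [Submodule.mem_sup]
  constructor
  · rintro ⟨y, hy, z, hz, rfl⟩
    obtain ⟨t, rfl⟩ := Submodule.mem_span_singleton.1 hz
    refine ⟨t, ?_⟩
    rw [add_sub_cancel_right]
    exact hy
  · rintro ⟨t, ht⟩
    exact ⟨b - t • a, ht, t • a, Submodule.mem_span_singleton.2 ⟨t, rfl⟩, by abel⟩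

/-- the dichotomy. -/
theorem dich (a : X2 M) (𝒰 : Cover M) (m : ℕ) (ρ : ℝ) (hρ : 0 < ρ) :
    (∃ b ∈ ZS a, D.pi' b - D.FX ∈ D.Pp ∧ 𝒰.cm m ((D.pi'' b : X2 M) : F2 E4 M) < ρ) ∨
    ∃ L : X2 M →ₗ[ℝ] ℝ, (∀ b ∈ ZS a, L b = 0) ∧ D.IsNonneg L ∧ L D.FX = 1 ∧
      ∀ b : X2 M, |L (D.pi'' b)| ≤ ρ⁻¹ * 𝒰.cm m ((D.pi'' b : X2 M) : F2 E4 M) := by
  have hunit : ∀ b : X2 M, ∃ t : ℝ, ∀ x (v : E4),
      |at2 b.1 x v (atJ D.J x v)| ≤ t * at2 D.FX.1 x v (atJ D.J x v) := by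
    intro b
    obtain ⟨t, -, ht⟩ := order_unit (En4.smF D) b.2 D.smJ (fun x v hv => (En4.spos D x).pos v hv)
    exact ⟨t, ht⟩
  rcases N2.n2_core D.sq (X2 M) (fun a ha x => ha.1 x) D.pi' D.pi'' (fun b => rfl) (fun b => rfl)
    (ZS a) D.FX (N24.posF D) hunit (N24.cmS 𝒰 m) ρ hρ with ⟨b, hb, h1, h2⟩ | ⟨L, h1, h2, h3, h4⟩
  · left
    refine ⟨b, hb, ?_, h2⟩
    intro x
    exact h1 x
  · right
    refine ⟨L, h1, fun P hP => h2 P hP, h3, fun b => ?_⟩
    refine h4 (D.pi'' b) ?_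
    have h := En4.pi''_pi'' D b
    exact congrArg Subtype.val h

omit [ChartedSpace E4 M] [IsManifold 𝓘(ℝ, E4) ∞ M] in
theorem integrable_fin {ν : Measure M} [IsFiniteMeasure ν] {f : M → ℝ} (hf : Continuous f) :
    Integrable f ν :=
  hf.integrable_of_hasCompactSupport (HasCompactSupport.of_compactSpace _)

omit [ChartedSpace E4 M] [IsManifold 𝓘(ℝ, E4) ∞ M] [CompactSpace M] in
theorem meas_ball (s₀ : Measure M) [IsFiniteMeasure s₀] [SecondCountableTopology M] (r : ℝ) :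
    Measurable fun x : M => s₀.real (ball x r) := by
  have hS : MeasurableSet {z : M × M | dist z.2 z.1 < r} :=
    (isOpen_lt (by fun_prop) (by fun_prop)).measurableSet
  have := measurable_measure_prodMk_left (ν := s₀) hS
  exact this.ennreal_toReal

/-- the lower bound for `L b`, `b` = a smoothed current. -/
theorem lower {L : X2 M →ₗ[ℝ] ℝ} {sT : Measure M} {C5 : ℝ} (hsT : D.IsRM L sT)
    (hC5 : ∀ b : X2 M, |L (D.pi'' b)| ≤ C5 * D.n2 ((D.pi'' b : X2 M) : F2 E4 M))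
    {s₀ : Measure M} [IsFiniteMeasure s₀] {C : ℝ} (hC : 0 < C) {e : ℝ} (he : 0 < e)
    {b : X2 M} {p : M → ℝ} (hpc : Continuous p)
    (hp : ∀ x, 0 ≤ p x ∧ p x ≤ C * (s₀.real (ball x (C * e)) / e ^ 4))
    (hge : GeF D.J D.F (b : F2 E4 M) (fun x => - (C * e ^ 2 * p x)))
    (hnr : ∀ x, D.nr ((D.pi'' b : X2 M) : F2 E4 M) x ≤ C * e * p x) :
    - (C ^ 2 * ∫ x, s₀.real (ball x (C * e)) / e ^ 2 ∂sT +
        |C5| * √(C ^ 4 * ∫ x, s₀.real (ball x (C * e)) / e ^ 2 *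
          (s₀.real (ball x (C * e)) / e ^ 4) ∂D.μ)) ≤ L b := by
  have hfin := hsT.fin
  have hμfin := D.fin
  have hlow := hsT.lower b (fun x => - (C * e ^ 2 * p x)) (by fun_prop) hge
  have hbd : ∀ r : ℝ, ∀ x : M, s₀.real (ball x r) ≤ s₀.real univ := fun r x =>
    measureReal_mono (subset_univ _)
  have hI1 : Integrable (fun x => s₀.real (ball x (C * e)) / e ^ 2) sT := by
    apply Integrable.mono' (integrable_const (s₀.real univ / e ^ 2))
      ((meas_ball s₀ _).div_const _).aestronglyMeasurable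
    refine ae_of_all _ fun x => ?_
    have h0 : 0 ≤ s₀.real (ball x (C * e)) := measureReal_nonneg
    rw [Real.norm_eq_abs, abs_of_nonneg (by positivity)]
    exact div_le_div_of_nonneg_right (hbd (C * e) x) (by positivity)
  have hI2 : Integrable (fun x => s₀.real (ball x (C * e)) / e ^ 2 *
      (s₀.real (ball x (C * e)) / e ^ 4)) D.μ := by
    apply Integrable.mono' (integrable_const (s₀.real univ / e ^ 2 * (s₀.real univ / e ^ 4)))
      (((meas_ball s₀ _).div_const _).mul ((meas_ball s₀ _).div_const _)).aestronglyMeasurable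
    refine ae_of_all _ fun x => ?_
    have h0 : 0 ≤ s₀.real (ball x (C * e)) := measureReal_nonneg
    have h1 : s₀.real (ball x (C * e)) / e ^ 2 ≤ s₀.real univ / e ^ 2 :=
      div_le_div_of_nonneg_right (hbd (C * e) x) (by positivity)
    have h2 : s₀.real (ball x (C * e)) / e ^ 4 ≤ s₀.real univ / e ^ 4 :=
      div_le_div_of_nonneg_right (hbd (C * e) x) (by positivity)
    have h3 : 0 ≤ s₀.real univ / e ^ 2 := le_trans (by positivity) h1
    have h4 : 0 ≤ s₀.real (ball x (C * e)) / e ^ 2 * (s₀.real (ball x (C * e)) / e ^ 4) := by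
      positivity
    show ‖s₀.real (ball x (C * e)) / e ^ 2 * (s₀.real (ball x (C * e)) / e ^ 4)‖ ≤ _
    rw [Real.norm_eq_abs, abs_of_nonneg h4]
    exact mul_le_mul h1 h2 (by positivity) h3
  have hpe : ∀ x, e ^ 2 * p x ≤ C * (s₀.real (ball x (C * e)) / e ^ 2) := by
    intro x
    calc e ^ 2 * p x ≤ e ^ 2 * (C * (s₀.real (ball x (C * e)) / e ^ 4)) := by
          have := (hp x).2
          gcongr
      _ = C * (s₀.real (ball x (C * e)) / e ^ 2) := by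
          field_simp
  -- first integral
  have h1 : ∫ x, - (C * e ^ 2 * p x) ∂sT = - (C * ∫ x, e ^ 2 * p x ∂sT) := by
    rw [integral_neg, ← integral_const_mul]
    congr 2
    funext x
    ring
  have h2 : C * ∫ x, e ^ 2 * p x ∂sT ≤ C ^ 2 * ∫ x, s₀.real (ball x (C * e)) / e ^ 2 ∂sT := by
    calc C * ∫ x, e ^ 2 * p x ∂sT ≤ C * (C * ∫ x, s₀.real (ball x (C * e)) / e ^ 2 ∂sT) := by
          gcongr
          rw [← integral_const_mul]
          exact integral_mono (integrable_fin (by fun_prop)) (hI1.const_mul C) hpe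
      _ = _ := by ring
  -- second integral
  have h3 : ∫ x, nsqG D.J D.F ((D.pi'' b : X2 M) : F2 E4 M) x ∂D.μ ≤
      C ^ 4 * ∫ x, s₀.real (ball x (C * e)) / e ^ 2 *
        (s₀.real (ball x (C * e)) / e ^ 4) ∂D.μ := by
    rw [← integral_const_mul]
    apply integral_mono_of_nonneg
    · refine ae_of_all _ fun x => ?_
      show 0 ≤ nsqG D.J D.F ((D.pi'' b : X2 M) : F2 E4 M) x
      rw [D.nsq_eq]; positivity
    · exact hI2.const_mul _
    · refine ae_of_all _ fun x => ?_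
      show nsqG D.J D.F ((D.pi'' b : X2 M) : F2 E4 M) x ≤ _
      rw [D.nsq_eq]
      have h4 := hnr x
      have h40 := D.nr_nonneg ((D.pi'' b : X2 M) : F2 E4 M) x
      have h5 := (hp x).1
      have h6 := (hp x).2
      calc D.nr ((D.pi'' b : X2 M) : F2 E4 M) x ^ 2 ≤ (C * e * p x) ^ 2 := by gcongr
        _ = C ^ 2 * ((e ^ 2 * p x) * p x) := by ring
        _ ≤ C ^ 2 * ((C * (s₀.real (ball x (C * e)) / e ^ 2)) *
              (C * (s₀.real (ball x (C * e)) / e ^ 4))) := by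
            have := hpe x
            gcongr
        _ = C ^ 4 * (s₀.real (ball x (C * e)) / e ^ 2 *
              (s₀.real (ball x (C * e)) / e ^ 4)) := by ring
  have h4 : |L (D.pi'' b)| ≤ |C5| * √(C ^ 4 * ∫ x, s₀.real (ball x (C * e)) / e ^ 2 *
        (s₀.real (ball x (C * e)) / e ^ 4) ∂D.μ) := by
    calc |L (D.pi'' b)| ≤ C5 * D.n2 ((D.pi'' b : X2 M) : F2 E4 M) := hC5 b
      _ ≤ |C5| * D.n2 ((D.pi'' b : X2 M) : F2 E4 M) := by
          apply mul_le_mul_of_nonneg_right (le_abs_self _) (Real.sqrt_nonneg _)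
      _ ≤ _ := by
          apply mul_le_mul_of_nonneg_left _ (abs_nonneg _)
          exact Real.sqrt_le_sqrt h3
  have h5 : L b = L (D.pi' b) + L (D.pi'' b) := by rw [← map_add, D.pi_add]
  have h6 := neg_abs_le (L (D.pi'' b))
  rw [h1] at hlow
  linarith

/-- `Φ - δ F`. -/
def Φ₁ (δ : ℝ) (Φ : X2 M →ₗ[ℝ] ℝ) : X2 M →ₗ[ℝ] ℝ := Φ - δ • St1.IX D D.FX

theorem Φ₁_apply (δ : ℝ) (Φ : X2 M →ₗ[ℝ] ℝ) (b : X2 M) :
    Φ₁ D δ Φ b = Φ b - δ * D.I (b : F2 E4 M) D.F := by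
  show Φ b - δ * D.I D.F (b : F2 E4 M) = _
  rw [St1.I_comm]

theorem Φ₁_inv {δ : ℝ} {Φ : X2 M →ₗ[ℝ] ℝ} (h : D.IsInv Φ) : D.IsInv (Φ₁ D δ Φ) := by
  intro b
  rw [Φ₁_apply, Φ₁_apply, ← h b]
  have h1 := En4.I_pi'_right D b D.FX
  rw [St1.pi'_FX] at h1
  have h2 : D.I (b : F2 E4 M) D.F = D.I ((D.pi' b : X2 M) : F2 E4 M) D.F := h1
  rw [h2]

theorem Φ₁_nonneg {a : X2 M} {δ : ℝ} {Φ : X2 M →ₗ[ℝ] ℝ} (h : KCur D a δ Φ) :
    D.IsNonneg (Φ₁ D δ Φ) := by
  intro P hP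
  rw [Φ₁_apply]
  linarith [h.ge P hP]

theorem Φ₁_exact {a : X2 M} {δ : ℝ} {Φ : X2 M →ₗ[ℝ] ℝ} (hFX : D.FX ∈ Z2 M) (ha : a ∈ Z2 M)
    (h : KCur D a δ Φ) : Dat.KillsExact (Φ₁ D δ Φ) := by
  intro b hb
  rw [Φ₁_apply, h.cls b (St1.ex_closed hb), St1.stokes D a ha b hb, St1.I_comm,
    show D.I D.F (b : F2 E4 M) = 0 from St1.stokes D D.FX hFX b hb, mul_zero, sub_zero]

/-- **APX** from N5E. -/
theorem apx (h5 : N5E.{u}) : APX.{u} := by
  intro M _ _ _ _ _ _ D a δ Φ hFX ha hK hPD hZD 𝒰 m ρ hρ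
  rcases dich D a 𝒰 m ρ hρ with ⟨b, hb, hb1, hb2⟩ | ⟨L, hL0, hLn, hLF, hLf⟩
  · obtain ⟨t, ht⟩ := mem_ZS.1 hb
    refine ⟨b, ?_, t, ht, hb1, hb2⟩
    have h1 := (Z2 M).add_mem (St1.ex_closed ht) ((Z2 M).smul_mem t ha)
    rwa [sub_add_cancel] at h1
  exfalso
  -- the class of `L`
  have hLex : Dat.KillsExact L := fun b hb => hL0 b (mem_ZS.2 ⟨0, by rwa [zero_smul, sub_zero]⟩)
  have hLa : L a = 0 := hL0 a (mem_ZS.2 ⟨1, by
    rw [one_smul, sub_self]
    exact (St1.ExS M).zero_mem⟩)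
  obtain ⟨aL, haL, hLI⟩ := hPD L hLex
  obtain ⟨sL, hsL⟩ := N24.n4 D L hLn
  obtain ⟨hgL, C5, hC5⟩ := h5 M D L sL aL haL hLI hLn (by rw [hLF]; norm_num) ⟨𝒰, m, ρ⁻¹, hLf⟩ hsL
  -- the current `Φ₁`
  have hinv := Φ₁_inv D (δ := δ) hK.inv
  have hnn := Φ₁_nonneg D hK
  have hex := Φ₁_exact D hFX ha hK
  obtain ⟨s₁, hs₁⟩ := N24.n4 D _ hnn
  have hg₁ : Dat.Growth2 s₁ := N5P.n5'_of D (Dat.n8 D) (node_N9 D) (Fund.fund D) _ s₁ hinv hnn
    hex hs₁
  have hz₁ : Dat.ZeroDens s₁ := hZD _ s₁ hinv hnn hex hs₁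
  have hfin₁ := hs₁.fin
  have hfinL := hsL.fin
  -- smoothing
  obtain ⟨𝒰'⟩ := Int.node_COV D
  obtain ⟨S⟩ := Dat.n8 D 𝒰'
  have hn := N5P.nrcm D 𝒰'
  obtain ⟨C1, hC1, hT⟩ := En4.tpart D S hn
  obtain ⟨C2, hC2, hrepm⟩ := S.repm
  obtain ⟨C3, happ⟩ := S.approx 0
  obtain ⟨C4, hC40, hC4⟩ := NrCm.nr_le_cm D 𝒰'
  set C : ℝ := C1 + C2 with hC
  have hC0 : 0 < C := by linarith
  -- the value `Φ₁ a_L = - δ`
  have hval : Φ₁ D δ Φ aL = - δ := by
    rw [Φ₁_apply, hK.cls aL haL, St1.I_comm, ← hLI a ha, hLa]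
    have h1 := hLI D.FX hFX
    rw [hLF] at h1
    have h2 : D.I (aL : F2 E4 M) D.F = 1 := h1.symm
    rw [h2]; ring
  set K : ℝ := 2 * (s₁.real univ * (C4 * (C3 * 𝒰'.cm 1 (aL : F2 E4 M)))) with hKdef
  -- for each small `e`
  have key : ∀ e : ℝ, 0 < e → e ≤ S.e0 →
      δ ≤ K * e + (C ^ 2 * ∫ x, s₁.real (ball x (C * e)) / e ^ 2 ∂sL +
        |C5| * √(C ^ 4 * ∫ x, s₁.real (ball x (C * e)) / e ^ 2 *
          (s₁.real (ball x (C * e)) / e ^ 4) ∂D.μ)) := by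
    intro e he hee
    obtain ⟨g, hgS, hg0, hgd, hgle, -⟩ := hrepm s₁ hfin₁ e he hee
    obtain ⟨T, hT0, -, -, hT3, hT4, -, -⟩ :=
      hT _ s₁ hs₁ e he hee g hgS hg0 hgd S.one (S.one_mem 0)
    have hT1 : ∀ b : X2 M, Φ₁ D δ Φ (S.A e S.one b) = D.I (T : F2 E4 M) (b : F2 E4 M) := by
      intro b
      rw [← hT0 b, ← hinv]
    have hTZ : T ∈ Z2 M := by
      refine Fund.fund D T fun b hb => ?_
      rw [← hT1]
      exact hex _ (S.exact e S.one he hee b hb)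
    have hlow := lower D hsL hC5 (s₀ := s₁) hC0 he (b := T) (p := g) (En4.sF_continuous hgS)
      (fun x => ⟨hg0 x, by
        have h0 : 0 ≤ s₁.real (ball x (C2 * e)) := measureReal_nonneg
        have h1 : s₁.real (ball x (C2 * e)) ≤ s₁.real (ball x (C * e)) :=
          measureReal_mono (ball_subset_ball (by
            apply mul_le_mul_of_nonneg_right _ he.le
            linarith)) (measure_ne_top s₁ _)
        calc g x ≤ C2 / e ^ 4 * s₁.real (ball x (C2 * e)) := hgle x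
          _ ≤ C / e ^ 4 * s₁.real (ball x (C * e)) := by
              gcongr
              linarith
          _ = _ := by ring⟩)
      (En4.GeF.mono D hT3 fun x => by
        have := hg0 x
        have h2 : 0 ≤ e ^ 2 * g x := by positivity
        have h3 : C1 * (e ^ 2 * g x) ≤ C * (e ^ 2 * g x) := by
          apply mul_le_mul_of_nonneg_right _ h2
          linarith
        linarith)
      (fun x => (hT4 x).trans (by
        have := hg0 x
        have h2 : 0 ≤ e * g x := by positivity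
        have h3 : C1 * (e * g x) ≤ C * (e * g x) := by
          apply mul_le_mul_of_nonneg_right _ h2
          linarith
        linarith))
    -- `L T = Φ₁ (A a_L)`
    have h1 : L T = Φ₁ D δ Φ (S.A e S.one aL) := by
      rw [hLI T hTZ, St1.I_comm, hT1]
    have h2 : Φ₁ D δ Φ (S.A e S.one aL) = - δ + Φ₁ D δ Φ (S.A e S.one aL - aL) := by
      rw [map_sub, hval]; ring
    have h3 : |Φ₁ D δ Φ (S.A e S.one aL - aL)| ≤ K * e := by
      rw [hinv]
      have hb := hs₁.bound (S.A e S.one aL - aL)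
      have hi : ∫ x, D.nr ((S.A e S.one aL - aL : X2 M) : F2 E4 M) x ∂s₁ ≤
          ∫ _x, C4 * 𝒰'.cm 0 ((S.A e S.one aL - aL : X2 M) : F2 E4 M) ∂s₁ :=
        integral_mono (integrable_fin (En4.cont_nr D (S.A e S.one aL - aL).2))
          (integrable_const _) (fun x => hC4 _ x)
      rw [integral_const, smul_eq_mul] at hi
      have ha2 := (happ e he hee aL).2
      have hs0 : 0 ≤ s₁.real univ := measureReal_nonneg
      calc |Φ₁ D δ Φ (D.pi' (S.A e S.one aL - aL))|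
          ≤ 2 * ∫ x, D.nr ((S.A e S.one aL - aL : X2 M) : F2 E4 M) x ∂s₁ := hb
        _ ≤ 2 * (s₁.real univ * (C4 * 𝒰'.cm 0 ((S.A e S.one aL - aL : X2 M) : F2 E4 M))) := by
            linarith
        _ ≤ 2 * (s₁.real univ * (C4 * (C3 * e * 𝒰'.cm 1 (aL : F2 E4 M)))) := by
            gcongr
        _ = K * e := by rw [hKdef]; ring
    have h4 := neg_abs_le (Φ₁ D δ Φ (S.A e S.one aL - aL))
    have h5 := le_abs_self (Φ₁ D δ Φ (S.A e S.one aL - aL))
    linarith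
  -- the limit
  have h7 := D.n7_proof s₁ sL hfin₁ hfinL hg₁ hgL hz₁ C hC0
  have hlim : Tendsto (fun e : ℝ => K * e + (C ^ 2 * ∫ x, s₁.real (ball x (C * e)) / e ^ 2 ∂sL +
        |C5| * √(C ^ 4 * ∫ x, s₁.real (ball x (C * e)) / e ^ 2 *
          (s₁.real (ball x (C * e)) / e ^ 4) ∂D.μ))) (𝓝[>] 0) (𝓝 0) := by
    have t1 : Tendsto (fun e : ℝ => K * e) (𝓝[>] 0) (𝓝 (K * 0)) :=
      (tendsto_id.mono_left nhdsWithin_le_nhds).const_mul K
    have t2 := h7.1.const_mul (C ^ 2)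
    have t3 := (h7.2.const_mul (C ^ 4)).sqrt.const_mul |C5|
    have := t1.add (t2.add t3)
    simpa using this
  have hev : ∀ᶠ e in 𝓝[>] (0 : ℝ), δ ≤ K * e +
      (C ^ 2 * ∫ x, s₁.real (ball x (C * e)) / e ^ 2 ∂sL +
        |C5| * √(C ^ 4 * ∫ x, s₁.real (ball x (C * e)) / e ^ 2 *
          (s₁.real (ball x (C * e)) / e ^ 4) ∂D.μ)) := by
    filter_upwards [Ioc_mem_nhdsGT S.e0_pos] with e he
    exact key e he.1 he.2
  have := ge_of_tendsto hlim hev
  linarith [hK.dpos]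

end

end Crest.Agent.R235.Apx_291
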