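import Crest.Agent.R235.AddJ_344
import Crest.Agent.R235.Mdl2_755

/-!
Row 235, PACKAGE SW, block MODEL (task 337), part 2 (helper344): the Clifford pair with connection
`∇ + v ⊗ J`.

* `CJ P J0 J1` : parallel endomorphisms of the two bundles of a Clifford pair, intertwined by the
  symbol;
* `CJ.add` : the Clifford pair with connections `∇ + v ⊗ J0`, `∇ + v ⊗ J1`;
* `opA_addJ`, `opB_addJ`, `potQ_addJ`.
-/

set_option autoImplicit false
set_option maxSynthPendingDepth 3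
set_option linter.unusedSectionVars false

open Filter Topology Set Bundle Manifold Matrix
open scoped ContDiff
open Crest.GeometryTopology.CoordMetric Crest.GeometryTopology.ChartCurvature
  Crest.GeometryTopology.PointedLimit
open Crest.Agent.R202.Tens Crest.Agent.R247.Bo84 Crest.Agent.R249.FrmB_285 Crest.Agent.R249.Vf281
  Crest.Agent.R249.Tz1_805 Crest.Agent.R249.Tz2_805
open Crest.Agent.R249.Fr129 Crest.Agent.R249.C2_198
open Crest.Agent.R249.Sg129 hiding fg fg_add fg_sub fg_mul fg_const fg_sum ev_fg contMDiff_inner VSm_mCov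
open Crest.Agent.R249.Tz805 Crest.Agent.R235.Mdl2_755

noncomputable section

namespace Crest.Agent.R235.AddJ_344

variable {n : ℕ} {M : Type*} [TopologicalSpace M] [ChartedSpace (EuclideanSpace ℝ (Fin n)) M]
  [IsManifold 𝓘(ℝ, EuclideanSpace ℝ (Fin n)) ∞ M]
  [RiemannianBundle (fun x : M => TangentSpace 𝓘(ℝ, EuclideanSpace ℝ (Fin n)) x)]
  [IsContMDiffRiemannianBundle 𝓘(ℝ, EuclideanSpace ℝ (Fin n)) ∞ (EuclideanSpace ℝ (Fin n))
      (fun x : M => TangentSpace 𝓘(ℝ, EuclideanSpace ℝ (Fin n)) x)]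

local notation "𝔼" => EuclideanSpace ℝ (Fin n)
local notation "𝓘E" => 𝓘(ℝ, EuclideanSpace ℝ (Fin n))

section ops

variable {κ κ0 κ1 : Type} [Fintype κ] [Fintype κ0] [Fintype κ1]
  {cc : κ1 → κ0 → (p : M) → TangentSpace 𝓘(ℝ, EuclideanSpace ℝ (Fin n)) p}
  {v : (p : M) → TangentSpace 𝓘(ℝ, EuclideanSpace ℝ (Fin n)) p}

lemma opA_addJ {D0 : Bun n M κ0} {J : κ0 → κ0 → M → ℝ} (h : PJ D0 J) (hv : ∀ z, VSm n ∞ v z)
    (u : κ0 → M → ℝ) (x : κ1) (z : M) :
    opA (addJ D0 h hv) cc u x z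
      = opA D0 cc u x z + ∑ y, (∑ b, J y b z * u b z) * inner ℝ (v z) (cc x y z) := by
  rw [opA, opA, ← Finset.sum_add_distrib]
  refine Finset.sum_congr rfl fun y _ => ?_
  rw [cv_addJ, inner_add_left, real_inner_smul_left]

lemma opB_addJ {D1 : Bun n M κ1} {J : κ1 → κ1 → M → ℝ} (h : PJ D1 J) (hv : ∀ z, VSm n ∞ v z)
    (w : κ1 → M → ℝ) (y : κ0) (z : M) :
    opB (addJ D1 h hv) cc w y z
      = opB D1 cc w y z - ∑ x, (∑ b, J x b z * w b z) * inner ℝ (v z) (cc x y z) := by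
  rw [opB, opB, ← neg_add', ← Finset.sum_add_distrib]
  congr 1
  refine Finset.sum_congr rfl fun x _ => ?_
  rw [cv_addJ, inner_add_left, real_inner_smul_left]

/-- `J` as a matrix at `z`. -/
def Jz {κ : Type} (J : κ → κ → M → ℝ) (z : M) : Matrix κ κ ℝ := Matrix.of fun a b => J a b z

/-- the additional potential `-(1/2) ∑ dv(s_C, s_D) c(s_C)ᵀ c(s_D) J`. -/
def potE (s : PF n M κ)
    (cc : κ1 → κ0 → (p : M) → TangentSpace 𝓘(ℝ, EuclideanSpace ℝ (Fin n)) p)
    (J : κ0 → κ0 → M → ℝ) (v : (p : M) → TangentSpace 𝓘(ℝ, EuclideanSpace ℝ (Fin n)) p)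
    (z : M) : Matrix κ0 κ0 ℝ :=
  -(1 / 2 : ℝ) • ∑ C, ∑ D, dd v z (s.s C z) (s.s D z) •
    ((ccX cc z (s.s C z))ᵀ * ccX cc z (s.s D z) * Jz J z)

theorem potQ_addJ (s : PF n M κ) {D0 : Bun n M κ0} {J : κ0 → κ0 → M → ℝ} (h : PJ D0 J)
    (hv : ∀ z, VSm n ∞ v z) (y y' : κ0) (z : M) :
    potQ s (addJ D0 h hv) cc y y' z = potQ s D0 cc y y' z + potE s cc J v z y y' := by
  have e1 : potE s cc J v z y y' = -(1 / 2) * ∑ y'', ∑ x, ∑ C, ∑ D,
      inner ℝ (cc x y z) (s.s C z) * inner ℝ (cc x y'' z) (s.s D z)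
        * (J y'' y' z * dd v z (s.s C z) (s.s D z)) := by
    rw [potE, Matrix.smul_apply, smul_eq_mul]
    congr 1
    simp only [Matrix.sum_apply, Matrix.smul_apply, Matrix.mul_apply, Matrix.transpose_apply,
      smul_eq_mul, Finset.mul_sum, Finset.sum_mul]
    rw [Finset.sum_congr rfl fun C _ => Finset.sum_comm, Finset.sum_comm]
    refine Finset.sum_congr rfl fun y'' _ => ?_
    rw [Finset.sum_congr rfl fun C _ => Finset.sum_comm, Finset.sum_comm]
    refine Finset.sum_congr rfl fun x _ => Finset.sum_congr rfl fun C _ =>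
      Finset.sum_congr rfl fun D _ => ?_
    simp only [ccX, Jz, Matrix.of_apply]
    ring
  rw [e1, potQ, potQ, ← mul_add]
  congr 1
  simp only [← Finset.sum_add_distrib]
  refine Finset.sum_congr rfl fun y'' _ => Finset.sum_congr rfl fun x _ =>
    Finset.sum_congr rfl fun C _ => Finset.sum_congr rfl fun D _ => ?_
  rw [Om_addJ]
  ring

end ops

/-! ### local frames -/

section lf

variable {z : M} {e : Fin n → EuclideanSpace ℝ (Fin n) → EuclideanSpace ℝ (Fin n)}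
  {h : ONF (chartMetric n M z) (chartAt (EuclideanSpace ℝ (Fin n)) z).target
      (chartCentre n M z) e}
  {κ : Type} [Fintype κ] {ι : Type} [Fintype ι] [DecidableEq ι]
  {v : (p : M) → TangentSpace 𝓘(ℝ, EuclideanSpace ℝ (Fin n)) p}

variable (n) in
/-- germ of the matrix `J` -/
def Jg {κ : Type} (z : M) (J : κ → κ → M → ℝ) : Matrix κ κ (SG (chartCentre n M z)) :=
  Matrix.of fun x y => fg (n := n) z (J x y)

/-- `J` in a local frame -/
def Jl (z : M) (J : κ → κ → M → ℝ) (j : Matrix κ ι (SG (chartCentre n M z))) :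
    Matrix ι ι (SG (chartCentre n M z)) := jᵀ * (Jg n z J * j)

lemma PJ.germ {D : Bun n M κ} {J : κ → κ → M → ℝ} (hJ : PJ D J) :
    (Matrix.of fun x y => fg (n := n) z (D.p x y)) * Jg n z J = Jg n z J := by
  ext x y
  rw [Matrix.mul_apply]
  have e1 : J x y = fun q => ∑ c, D.p x c q * J c y q := funext fun q => (hJ.pJ x y q).symm
  have e2 : Jg n z J x y = fg z (fun q => ∑ c, D.p x c q * J c y q) := by
    rw [← e1]; rfl
  rw [e2, fg_sum (n := n) (z := z) Finset.univ (F := fun c q => D.p x c q * J c y q)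
    (fun c => (D.smp x c).mul (hJ.sm c y))]
  exact Finset.sum_congr rfl fun c _ => (fg_mul (D.smp x c) (hJ.sm c y)).symm

theorem lf_addJ {D : Bun n M κ} {J : κ → κ → M → ℝ} (hJ : PJ D J) (hv : ∀ z, VSm n ∞ v z)
    {a : Fin n → Matrix ι ι (SG (chartCentre n M z))} {j : Matrix κ ι (SG (chartCentre n M z))}
    (L : LF D h a j) :
    LF (addJ D hJ hv) h (fun k => a k + vg z e v k • Jl z J j) j where
  jtj := L.jtj
  jjt := L.jjt
  dj k := by
    have e1 : (Matrix.of fun x y => vg z e ((addJ D hJ hv).W x y) k)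
        = (Matrix.of fun x y => vg z e (D.W x y) k) + vg z e v k • Jg n z J := by
      ext x y
      have h1 : vg z e ((addJ D hJ hv).W x y) k
          = vg z e (D.W x y) k + fg z (J x y) * vg z e v k := by
        have h2 := vg_add h (D.smW x y)
          (fun q => VSm.smul le_rfl (hJ.sm x y).contMDiffAt (hv q)) k
        rw [vg_smul h (hJ.sm x y) hv] at h2
        exact h2
      rw [Matrix.add_apply, Matrix.smul_apply, Matrix.of_apply, Matrix.of_apply, h1, Jg,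
        Matrix.of_apply, smul_eq_mul, mul_comm (vg z e v k)]
    have e2 : j * Jl z J j = Jg n z J * j := by
      rw [Jl, ← Matrix.mul_assoc, L.jjt, ← Matrix.mul_assoc, hJ.germ]
    rw [e1, Matrix.add_mul, ← add_assoc, L.dj k, Matrix.mul_add, Matrix.mul_smul, e2,
      Matrix.smul_mul]

end lf

/-! ### the Clifford pair -/

section pair

variable {κ κ0 κ1 : Type} [Fintype κ] [Fintype κ0] [Fintype κ1]

/-- parallel endomorphisms of the bundles of a Clifford pair, intertwined by the symbol. -/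
structure CJ (P : CPair n M κ κ0 κ1) (J0 : κ0 → κ0 → M → ℝ) (J1 : κ1 → κ1 → M → ℝ) : Prop where
  p0 : PJ P.D0 J0
  p1 : PJ P.D1 J1
  comm : ∀ x y z, ∑ x', J1 x x' z • P.cc x' y z = ∑ y', J0 y' y z • P.cc x y' z

variable {P : CPair n M κ κ0 κ1} {J0 : κ0 → κ0 → M → ℝ} {J1 : κ1 → κ1 → M → ℝ}
  {v : (p : M) → TangentSpace 𝓘(ℝ, EuclideanSpace ℝ (Fin n)) p}

lemma Jz_t {κ : Type} [Fintype κ] {D : Bun n M κ} {J : κ → κ → M → ℝ} (h : PJ D J) (z : M) :
    (Jz J z)ᵀ = - Jz J z := by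
  ext a b
  exact h.skew b a z

lemma CJ.mat (h : CJ P J0 J1) (z : M) (X : TangentSpace 𝓘(ℝ, EuclideanSpace ℝ (Fin n)) z) :
    Jz J1 z * ccX P.cc z X = ccX P.cc z X * Jz J0 z := by
  ext x y
  rw [Matrix.mul_apply, Matrix.mul_apply]
  have h1 := congrArg (fun t => (inner ℝ t X : ℝ)) (h.comm x y z)
  simp only [sum_inner, real_inner_smul_left] at h1
  simp only [Jz, ccX, Matrix.of_apply]
  rw [h1]
  exact Finset.sum_congr rfl fun y' _ => mul_comm _ _

lemma CJ.mat_t (h : CJ P J0 J1) (z : M) (X : TangentSpace 𝓘(ℝ, EuclideanSpace ℝ (Fin n)) z) :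
    Jz J0 z * (ccX P.cc z X)ᵀ = (ccX P.cc z X)ᵀ * Jz J1 z := by
  have h1 := congrArg Matrix.transpose (h.mat z X)
  rw [Matrix.transpose_mul, Matrix.transpose_mul, Jz_t h.p0, Jz_t h.p1, Matrix.mul_neg,
    Matrix.neg_mul] at h1
  exact (neg_injective h1).symm

/-- abstract symmetry of the additional potential -/
lemma symE {A B : Type} [Fintype A] [Fintype B] {ι : Type*} [Fintype ι] (c : ι → Matrix A B ℝ)
    (b : ι → ι → ℝ) (hb : ∀ i j, b i j = - b j i) (J : Matrix B B ℝ) (hJ : Jᵀ = -J)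
    (hc : ∀ i j, J * ((c i)ᵀ * c j) = (c i)ᵀ * c j * J) :
    (∑ i, ∑ j, b i j • ((c i)ᵀ * c j * J))ᵀ = ∑ i, ∑ j, b i j • ((c i)ᵀ * c j * J) := by
  have h1 : ∀ i j, ((c i)ᵀ * c j * J)ᵀ = - ((c j)ᵀ * c i * J) := by
    intro i j
    rw [Matrix.transpose_mul, Matrix.transpose_mul, Matrix.transpose_transpose, hJ, Matrix.neg_mul,
      hc]
  simp only [Matrix.transpose_sum, Matrix.transpose_smul, h1]
  rw [Finset.sum_comm]
  refine Finset.sum_congr rfl fun i _ => Finset.sum_congr rfl fun j _ => ?_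
  rw [hb j i, neg_smul, smul_neg, neg_neg]

lemma CJ.sE0 (h : CJ P J0 J1) (z : M) :
    (potE P.s P.cc J0 v z)ᵀ = potE P.s P.cc J0 v z := by
  rw [potE, Matrix.transpose_smul]
  congr 1
  refine symE (fun C => ccX P.cc z (P.s.s C z)) (fun C D => dd v z (P.s.s C z) (P.s.s D z))
    (fun C D => dd_anti v z _ _) (Jz J0 z) (Jz_t h.p0 z) fun C D => ?_
  rw [← Matrix.mul_assoc, h.mat_t, Matrix.mul_assoc, h.mat, Matrix.mul_assoc]

lemma CJ.sE1 (h : CJ P J0 J1) (z : M) :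
    (potE P.s (fun y x => P.cc x y) J1 v z)ᵀ = potE P.s (fun y x => P.cc x y) J1 v z := by
  have e0 : ∀ X : TangentSpace 𝓘(ℝ, EuclideanSpace ℝ (Fin n)) z,
      ccX (fun y x => P.cc x y) z X = (ccX P.cc z X)ᵀ := fun X => rfl
  rw [potE, Matrix.transpose_smul]
  congr 1
  refine symE (fun C => ccX (fun y x => P.cc x y) z (P.s.s C z))
    (fun C D => dd v z (P.s.s C z) (P.s.s D z))
    (fun C D => dd_anti v z _ _) (Jz J1 z) (Jz_t h.p1 z) fun C D => ?_
  rw [e0, e0, Matrix.transpose_transpose, ← Matrix.mul_assoc, h.mat, Matrix.mul_assoc, h.mat_t,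
    Matrix.mul_assoc]

/-- the symbol in local frames commutes with `J` -/
lemma CJ.loc (h : CJ P J0 J1) {z : M}
    {e : Fin n → EuclideanSpace ℝ (Fin n) → EuclideanSpace ℝ (Fin n)}
    {hf : ONF (chartMetric n M z) (chartAt (EuclideanSpace ℝ (Fin n)) z).target
      (chartCentre n M z) e}
    {ι0 ι1 : Type} [Fintype ι0] [DecidableEq ι0] [Fintype ι1] [DecidableEq ι1]
    {a0 : Fin n → Matrix ι0 ι0 (SG (chartCentre n M z))}
    {a1 : Fin n → Matrix ι1 ι1 (SG (chartCentre n M z))}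
    {c : Fin n → Matrix ι1 ι0 (SG (chartCentre n M z))}
    {j0 : Matrix κ0 ι0 (SG (chartCentre n M z))} {j1 : Matrix κ1 ι1 (SG (chartCentre n M z))}
    (C : CLoc P.D0 P.D1 P.cc hf a0 a1 c j0 j1) (i : Fin n) :
    Jl z J1 j1 * c i = c i * Jl z J0 j0 := by
  have e1 : Jg n z J1 * (j1 * c i * j0ᵀ) = (j1 * c i * j0ᵀ) * Jg n z J0 := by
    ext x y
    rw [Matrix.mul_apply, Matrix.mul_apply]
    have e2 : (fun q => ∑ x', J1 x x' q • P.cc x' y q) = fun q => ∑ y', J0 y' y q • P.cc x y' q :=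
      funext fun q => h.comm x y q
    have e3 : vg z e (fun q => ∑ x', J1 x x' q • P.cc x' y q) i
        = vg z e (fun q => ∑ y', J0 y' y q • P.cc x y' q) i := by rw [e2]
    rw [vg_sum hf Finset.univ (F := fun x' q => J1 x x' q • P.cc x' y q)
        (fun x' q => VSm.smul le_rfl (h.p1.sm x x').contMDiffAt (P.smc x' y q)),
      vg_sum hf Finset.univ (F := fun y' q => J0 y' y q • P.cc x y' q)
        (fun y' q => VSm.smul le_rfl (h.p0.sm y' y).contMDiffAt (P.smc x y' q))] at e3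
    have e4 : ∀ x', vg z e (fun q => J1 x x' q • P.cc x' y q) i
        = Jg n z J1 x x' * (j1 * c i * j0ᵀ) x' y := fun x' => by
      rw [vg_smul hf (h.p1.sm x x') (P.smc x' y), C.sym x' y i]; rfl
    have e5 : ∀ y', vg z e (fun q => J0 y' y q • P.cc x y' q) i
        = (j1 * c i * j0ᵀ) x y' * Jg n z J0 y' y := fun y' => by
      rw [vg_smul hf (h.p0.sm y' y) (P.smc x y'), C.sym x y' i, mul_comm]; rfl
    rw [Finset.sum_congr rfl fun x' _ => e4 x', Finset.sum_congr rfl fun y' _ => e5 y'] at e3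
    exact e3
  have e6 : j1ᵀ * (Jg n z J1 * (j1 * c i * j0ᵀ)) * j0 = Jl z J1 j1 * c i := by
    have : j1ᵀ * (Jg n z J1 * (j1 * c i * j0ᵀ)) * j0
        = j1ᵀ * (Jg n z J1 * j1) * c i * (j0ᵀ * j0) := by simp only [Matrix.mul_assoc]
    rw [this, C.l0.jtj, Matrix.mul_one, Jl]
  have e7 : j1ᵀ * ((j1 * c i * j0ᵀ) * Jg n z J0) * j0 = c i * Jl z J0 j0 := by
    have : j1ᵀ * ((j1 * c i * j0ᵀ) * Jg n z J0) * j0
        = (j1ᵀ * j1) * c i * (j0ᵀ * (Jg n z J0 * j0)) := by simp only [Matrix.mul_assoc]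
    rw [this, C.l1.jtj, Matrix.one_mul, Jl]
  rw [← e6, e1, e7]

theorem CJ.cloc (h : CJ P J0 J1) (hv : ∀ z, VSm n ∞ v z) {z : M}
    {e : Fin n → EuclideanSpace ℝ (Fin n) → EuclideanSpace ℝ (Fin n)}
    {hf : ONF (chartMetric n M z) (chartAt (EuclideanSpace ℝ (Fin n)) z).target
      (chartCentre n M z) e}
    {ι0 ι1 : Type} [Fintype ι0] [DecidableEq ι0] [Fintype ι1] [DecidableEq ι1]
    {a0 : Fin n → Matrix ι0 ι0 (SG (chartCentre n M z))}
    {a1 : Fin n → Matrix ι1 ι1 (SG (chartCentre n M z))}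
    {c : Fin n → Matrix ι1 ι0 (SG (chartCentre n M z))}
    {j0 : Matrix κ0 ι0 (SG (chartCentre n M z))} {j1 : Matrix κ1 ι1 (SG (chartCentre n M z))}
    (C : CLoc P.D0 P.D1 P.cc hf a0 a1 c j0 j1) :
    CLoc (addJ P.D0 h.p0 hv) (addJ P.D1 h.p1 hv) P.cc hf
      (fun k => a0 k + vg z e v k • Jl z J0 j0) (fun k => a1 k + vg z e v k • Jl z J1 j1)
      c j0 j1 where
  l0 := lf_addJ h.p0 hv C.l0
  l1 := lf_addJ h.p1 hv C.l1
  par :=
    { const := C.par.const
      par := fun m i => by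
        rw [Matrix.add_mul, Matrix.mul_add, C.par.par m i, Matrix.smul_mul, Matrix.mul_smul,
          h.loc C i]
        abel }
  cl0 := C.cl0
  cl1 := C.cl1
  sym := C.sym

/-- **the Clifford pair with the connection `∇ + v ⊗ J`.** -/
def CJ.add (h : CJ P J0 J1) (hv : ∀ z, VSm n ∞ v z) : CPair n M κ κ0 κ1 where
  s := P.s
  D0 := addJ P.D0 h.p0 hv
  D1 := addJ P.D1 h.p1 hv
  cc := P.cc
  smc := P.smc
  loc z := by
    obtain ⟨e, hf, ι0, ι1, i1, i2, i3, i4, a0, a1, c, j0, j1, C⟩ := P.loc z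
    exact ⟨e, hf, ι0, ι1, i1, i2, i3, i4, _, _, c, j0, j1, h.cloc hv C⟩
  sym0 y y' z := by
    rw [potQ_addJ, potQ_addJ, P.sym0 y y' z]
    congr 1
    exact congrFun (congrFun (h.sE0 (v := v) z).symm y) y'
  sym1 x x' z := by
    rw [potQ_addJ, potQ_addJ, P.sym1 x x' z]
    congr 1
    exact congrFun (congrFun (h.sE1 (v := v) z).symm x) x'

end pair

end Crest.Agent.R235.AddJ_344
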