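import Crest.Agent.R249.Idx5_789
import Crest.Agent.R249.Wk2_198
import Crest.Agent.R249.DenQ_714

/-!
Row 235, PACKAGE SW, block MODEL (task 337), part 1 (helper344): adding a real one-form to the
connection of a Clifford pair of row 249.

* `PJ D J` : `J` is a parallel skew endomorphism of the bundle `D`;
* `addJ D h v hv` : the bundle `D` with the connection `∇ + v ⊗ J`;
* `Om_addJ` : its curvature is `Ω + J · dv`;
* `cloc_addJ` : local frames.
-/

set_option autoImplicit false
set_option maxSynthPendingDepth 3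
set_option linter.unusedSectionVars false

open Filter Topology Set Bundle Manifold Matrix
open scoped ContDiff
open Crest.GeometryTopology.CoordMetric Crest.GeometryTopology.ChartCurvature
  Crest.GeometryTopology.PointedLimit
open Crest.Agent.R202.Tens Crest.Agent.R247.Bo84 Crest.Agent.R249.FrmB_285 Crest.Agent.R249.Vf281
  Crest.Agent.R249.Tz1_805 Crest.Agent.R249.Tz2_805
open Crest.Agent.R249.Fr129 Crest.Agent.R249.C2_198
open Crest.Agent.R249.Sg129 hiding fg fg_add fg_sub fg_mul fg_const fg_sum ev_fg contMDiff_inner VSm_mCov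
open Crest.Agent.R249.Tz805 Crest.Agent.R249.Dic805

noncomputable section

namespace Crest.Agent.R235.AddJ_344

variable {n : ℕ} {M : Type*} [TopologicalSpace M] [ChartedSpace (EuclideanSpace ℝ (Fin n)) M]
  [IsManifold 𝓘(ℝ, EuclideanSpace ℝ (Fin n)) ∞ M]
  [RiemannianBundle (fun x : M => TangentSpace 𝓘(ℝ, EuclideanSpace ℝ (Fin n)) x)]
  [IsContMDiffRiemannianBundle 𝓘(ℝ, EuclideanSpace ℝ (Fin n)) ∞ (EuclideanSpace ℝ (Fin n))
      (fun x : M => TangentSpace 𝓘(ℝ, EuclideanSpace ℝ (Fin n)) x)]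

local notation "𝔼" => EuclideanSpace ℝ (Fin n)
local notation "𝓘E" => 𝓘(ℝ, EuclideanSpace ℝ (Fin n))

/-! ### calculus of fields -/

section calcf

variable {X Y : (p : M) → TangentSpace 𝓘(ℝ, EuclideanSpace ℝ (Fin n)) p} {f : M → ℝ} {z : M}

lemma mCov_add (hX : VSm n 1 X z) (hY : VSm n 1 Y z) (v : TangentSpace 𝓘E z) :
    mCov n (fun q => X q + Y q) z v = mCov n X z v + mCov n Y z v := by
  have e : vCh n z (fun q => X q + Y q) = fun y => vCh n z X y + vCh n z Y y :=
    funext fun y => vCh_add X Y z y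
  have h1 := ContDiffAt.differentiableAt hX (by norm_num)
  have h2 := ContDiffAt.differentiableAt hY (by norm_num)
  rw [mCov, e, cov_apply, fderiv_fun_add h1 h2]
  refine (congrArg (dSy z (chartCentre n M z)) ?_).trans (map_add _ _ _)
  rw [cov_apply, cov_apply, _root_.add_apply, map_add]
  abel

lemma mCov_smul (hf : MDifferentiableAt 𝓘E 𝓘(ℝ, ℝ) f z) (hX : VSm n 1 X z)
    (v : TangentSpace 𝓘E z) :
    mCov n (fun q => f q • X q) z v = f z • mCov n X z v + dM n f z v • X z := by
  have e : vCh n z (fun q => f q • X q) = fun y => inCh n z f y • vCh n z X y :=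
    funext fun y => vCh_smul f X z y
  have h1 := differentiableAt_centre hf
  have h2 := ContDiffAt.differentiableAt hX (by norm_num)
  have h3 : (X z : 𝔼) = dSy z (chartCentre n M z) (vCh n z X (chartCentre n M z)) := by
    rw [vCh_centre]
    exact (dSy_dCh z (mem_chart_source 𝔼 z) _).symm
  have h4 : dM n f z v = fderiv ℝ (inCh n z f) (chartCentre n M z) (dCh z z v) := by
    rw [dM_eq, mfderiv_centre]
  rw [mCov, e, cov_apply, fderiv_fun_smul h1 h2, h4]
  refine Eq.trans ?_ (congrArg₂ (fun a b : 𝔼 => a + b) (map_smul (dSy z (chartCentre n M z)) (f z) _)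
    ((map_smul (dSy z (chartCentre n M z)) _ _).trans (congrArg _ h3.symm)))
  rw [← map_add]
  congr 1
  rw [cov_apply, inCh_centre, _root_.add_apply, _root_.smul_apply, ContinuousLinearMap.smulRight_apply,
    map_smul, smul_add]
  abel

end calcf

/-! ### parallel endomorphisms -/

section bun

variable {κ : Type} [Fintype κ]

/-- `J` is a parallel skew endomorphism of `D`. -/
structure PJ (D : Bun n M κ) (J : κ → κ → M → ℝ) : Prop where
  sm : ∀ a b, ContMDiff 𝓘(ℝ, EuclideanSpace ℝ (Fin n)) 𝓘(ℝ, ℝ) ∞ (J a b)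
  skew : ∀ a b z, J a b z = - J b a z
  pJ : ∀ a b z, ∑ c, D.p a c z * J c b z = J a b z
  par : ∀ a b z, mgrad n (J a b) z + ∑ c, (J c b z • D.W a c z - J a c z • D.W c b z) = 0

variable {D : Bun n M κ} {J : κ → κ → M → ℝ}

lemma PJ.Jp (h : PJ D J) (a b : κ) (z : M) : ∑ c, J a c z * D.p c b z = J a b z := by
  rw [h.skew a b z, ← h.pJ b a z, ← Finset.sum_neg_distrib]
  refine Finset.sum_congr rfl fun c _ => ?_
  rw [h.skew a c z, D.symmp c b z]; ring

variable (D) in
/-- the bundle `D` with the connection `∇ + v ⊗ J`. -/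
def addJ (h : PJ D J) {v : (p : M) → TangentSpace 𝓘(ℝ, EuclideanSpace ℝ (Fin n)) p}
    (hv : ∀ z, VSm n ∞ v z) : Bun n M κ where
  W a b z := D.W a b z + J a b z • v z
  p := D.p
  smW a b z := (D.smW a b z).add (VSm.smul le_rfl (h.sm a b).contMDiffAt (hv z))
  skew a b z := by rw [D.skew a b z, h.skew a b z, neg_smul, neg_add]
  smp := D.smp
  symmp := D.symmp
  idem := D.idem
  par a b z := by
    have h1 : ∑ c, (D.p c b z • (D.W a c z + J a c z • v z)
          - D.p a c z • (D.W c b z + J c b z • v z))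
        = ∑ c, (D.p c b z • D.W a c z - D.p a c z • D.W c b z) := by
      have e1 : ∀ c, D.p c b z • (D.W a c z + J a c z • v z)
            - D.p a c z • (D.W c b z + J c b z • v z)
          = (D.p c b z • D.W a c z - D.p a c z • D.W c b z)
            + ((J a c z * D.p c b z) • v z - (D.p a c z * J c b z) • v z) := by
        intro c
        rw [smul_add, smul_add, smul_smul, smul_smul, mul_comm (J a c z)]
        abel
      have e2 : ∑ c, ((J a c z * D.p c b z) • v z - (D.p a c z * J c b z) • v z) = 0 := by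
        rw [Finset.sum_sub_distrib, ← Finset.sum_smul, ← Finset.sum_smul, h.Jp, h.pJ, sub_self]
      rw [Finset.sum_congr rfl fun c _ => e1 c, Finset.sum_add_distrib, e2, add_zero]
    exact (congrArg (fun t => mgrad n (D.p a b) z + t) h1).trans (D.par a b z)

variable {v : (p : M) → TangentSpace 𝓘(ℝ, EuclideanSpace ℝ (Fin n)) p}

lemma cv_addJ (h : PJ D J) (hv : ∀ z, VSm n ∞ v z) (u : κ → M → ℝ) (a : κ) (z : M) :
    (addJ D h hv).cv u a z = D.cv u a z + (∑ b, J a b z * u b z) • v z := by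
  have e1 : (addJ D h hv).cv u a z
      = mgrad n (u a) z + ∑ b, u b z • (D.W a b z + J a b z • v z) := rfl
  rw [e1, Bun.cv, Finset.sum_smul, add_assoc, ← Finset.sum_add_distrib]
  congr 1
  refine Finset.sum_congr rfl fun b _ => ?_
  rw [smul_add, smul_smul, mul_comm (u b z)]

/-- the differential of the one-form `⟨v, ·⟩`. -/
def dd (v : (p : M) → TangentSpace 𝓘(ℝ, EuclideanSpace ℝ (Fin n)) p) (z : M)
    (X Y : TangentSpace 𝓘(ℝ, EuclideanSpace ℝ (Fin n)) z) : ℝ :=
  inner ℝ (mCov n v z X) Y - inner ℝ (mCov n v z Y) X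

lemma dd_anti (v : (p : M) → TangentSpace 𝓘(ℝ, EuclideanSpace ℝ (Fin n)) p) (z : M)
    (X Y : TangentSpace 𝓘(ℝ, EuclideanSpace ℝ (Fin n)) z) : dd v z X Y = - dd v z Y X := by
  rw [dd, dd]; ring

lemma inner_mCov_addJ (h : PJ D J) (hv : ∀ z, VSm n ∞ v z) (a b : κ) (z : M)
    (X Y : TangentSpace 𝓘(ℝ, EuclideanSpace ℝ (Fin n)) z) :
    (inner ℝ (mCov n ((addJ D h hv).W a b) z X) Y : ℝ)
      = inner ℝ (mCov n (D.W a b) z X) Y + J a b z * inner ℝ (mCov n v z X) Y
        + inner ℝ (mgrad n (J a b) z) X * inner ℝ (v z) Y := by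
  have hJ : MDifferentiableAt 𝓘E 𝓘(ℝ, ℝ) (J a b) z := (h.sm a b z).mdifferentiableAt (by simp)
  have hv1 : VSm n 1 v z := (hv z).of_le (by simp)
  have hW1 : VSm n 1 (D.W a b) z := (D.smW a b z).of_le (by simp)
  have hs : VSm n 1 (fun q => J a b q • v q) z :=
    (VSm.smul le_rfl (h.sm a b).contMDiffAt (hv z)).of_le (by simp)
  have e1 : mCov n ((addJ D h hv).W a b) z X
      = mCov n (D.W a b) z X + (J a b z • mCov n v z X + dM n (J a b) z X • v z) :=
    (mCov_add hW1 hs X).trans (congrArg (fun t => mCov n (D.W a b) z X + t) (mCov_smul hJ hv1 X))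
  rw [e1, inner_add_left, inner_add_left, real_inner_smul_left, real_inner_smul_left,
    inner_mgrad']
  ring

/-- curvature of the connection `∇ + v ⊗ J`. -/
theorem Om_addJ (h : PJ D J) (hv : ∀ z, VSm n ∞ v z)
    (X Y : (p : M) → TangentSpace 𝓘(ℝ, EuclideanSpace ℝ (Fin n)) p) (a b : κ) (z : M) :
    (addJ D h hv).Om X Y a b z = D.Om X Y a b z + J a b z * dd v z (X z) (Y z) := by
  have e1 : (addJ D h hv).Om X Y a b z
      = inner ℝ (mCov n ((addJ D h hv).W a b) z (X z)) (Y z)
        - inner ℝ (mCov n ((addJ D h hv).W a b) z (Y z)) (X z)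
        + ∑ c, (inner ℝ (D.W a c z + J a c z • v z) (X z)
            * inner ℝ (D.W c b z + J c b z • v z) (Y z)
          - inner ℝ (D.W a c z + J a c z • v z) (Y z)
            * inner ℝ (D.W c b z + J c b z • v z) (X z)) := rfl
  have hp : ∀ V : TangentSpace 𝓘(ℝ, EuclideanSpace ℝ (Fin n)) z,
      inner ℝ (mgrad n (J a b) z) V = - ∑ c, (J c b z * inner ℝ (D.W a c z) V
        - J a c z * inner ℝ (D.W c b z) V) := by
    intro V
    have h1 := congrArg (fun t => (inner ℝ t V : ℝ)) (h.par a b z)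
    simp only [inner_add_left, sum_inner, inner_sub_left, real_inner_smul_left, inner_zero_left]
      at h1
    linarith
  rw [e1, inner_mCov_addJ, inner_mCov_addJ, Bun.Om, hp, hp, dd]
  simp only [inner_add_left, real_inner_smul_left]
  have e2 : ∑ c, ((inner ℝ (D.W a c z) (X z) + J a c z * inner ℝ (v z) (X z))
            * (inner ℝ (D.W c b z) (Y z) + J c b z * inner ℝ (v z) (Y z))
          - (inner ℝ (D.W a c z) (Y z) + J a c z * inner ℝ (v z) (Y z))
            * (inner ℝ (D.W c b z) (X z) + J c b z * inner ℝ (v z) (X z)))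
      = ∑ c, (inner ℝ (D.W a c z) (X z) * inner ℝ (D.W c b z) (Y z)
          - inner ℝ (D.W a c z) (Y z) * inner ℝ (D.W c b z) (X z))
        + (∑ c, (J c b z * inner ℝ (D.W a c z) (X z) - J a c z * inner ℝ (D.W c b z) (X z)))
            * inner ℝ (v z) (Y z)
        - (∑ c, (J c b z * inner ℝ (D.W a c z) (Y z) - J a c z * inner ℝ (D.W c b z) (Y z)))
            * inner ℝ (v z) (X z) := by
    rw [Finset.sum_mul, Finset.sum_mul, ← Finset.sum_add_distrib, ← Finset.sum_sub_distrib]
    refine Finset.sum_congr rfl fun c _ => ?_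
    ring
  rw [e2]
  ring

end bun

end Crest.Agent.R235.AddJ_344
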