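import Mathlib

/-!
Row 235 (S0364), package ADJ, leaf L1 (helper266): normal form of a branch.

`branch_root`: a function `f(s) = a s^m + O(|s|^{m+1})`, `df = m a s^{m-1} ds + O(|s|^m)`, is the
`m`-th power of a `C¹` local diffeomorphism `w(s) = b s + O(|s|²)`, `b^m = a`.
-/

set_option autoImplicit false

open Set Filter Topology Metric Complex
open scoped ContDiff

namespace Crest.Agent.R235.BrNF_266

/-- The multiplication by `c` as a real linear map. -/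
noncomputable def mulc (c : ℂ) : ℂ →L[ℝ] ℂ := c • (1 : ℂ →L[ℝ] ℂ)

@[simp] theorem mulc_apply (c v : ℂ) : mulc c v = c * v := by simp [mulc]

theorem norm_mulc (c : ℂ) : ‖mulc c‖ = ‖c‖ := by simp [mulc, norm_smul]

/-- the principal power is real-smooth near `1`. -/
theorem contDiffAt_cpow (c x : ℂ) (hx : x ∈ slitPlane) (n : ℕ∞) :
    ContDiffAt ℝ n (fun y : ℂ => y ^ c) x := by
  have h : AnalyticAt ℂ (fun y : ℂ => y ^ c) x :=
    analyticAt_id.cpow analyticAt_const hx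
  exact (h.contDiffAt (n := n)).restrict_scalars ℝ

/-- local Lipschitz bound at `1`. -/
theorem lip_cpow (c : ℂ) : ∃ K > (0 : ℝ), ∃ δ > (0 : ℝ), ∀ x : ℂ, ‖x - 1‖ < δ →
    ‖x ^ c - 1‖ ≤ K * ‖x - 1‖ := by
  have h := contDiffAt_cpow c 1 (by simp) 1
  obtain ⟨K, t, ht, hK⟩ := h.exists_lipschitzOnWith
  obtain ⟨δ, hδ, hb⟩ := Metric.mem_nhds_iff.1 ht
  refine ⟨K + 1, by positivity, δ, hδ, fun x hx => ?_⟩
  have h1 := hK.dist_le_mul x (hb (by simpa [mem_ball, dist_eq] using hx)) 1 (hb (mem_ball_self hδ))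
  simp only [dist_eq, one_cpow] at h1
  nlinarith [norm_nonneg (x - 1)]

/-- **Normal form of a branch.** -/
theorem branch_root {f : ℂ → ℂ} {a : ℂ} {m : ℕ} (hm : m ≠ 0) (ha : a ≠ 0) {R C : ℝ}
    (hR : 0 < R) {n : ℕ∞} (hn : 1 ≤ n) (hf : ContDiffOn ℝ n f (ball 0 R))
    (h0 : ∀ s ∈ ball (0 : ℂ) R, ‖f s - a * s ^ m‖ ≤ C * ‖s‖ ^ (m + 1))
    (h1 : ∀ s ∈ ball (0 : ℂ) R, ‖fderiv ℝ f s - mulc (m * a * s ^ (m - 1))‖ ≤ C * ‖s‖ ^ m) :
    ∃ (b : ℂ) (w : ℂ → ℂ) (r C' : ℝ), b ^ m = a ∧ 0 < r ∧ r ≤ R ∧ 0 < C' ∧ w 0 = 0 ∧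
      ContDiffOn ℝ 1 w (ball 0 r) ∧ ContDiffOn ℝ n w (ball 0 r \ {0}) ∧
      (∀ s ∈ ball (0 : ℂ) r, w s ^ m = f s) ∧
      (∀ s ∈ ball (0 : ℂ) r, ‖w s - b * s‖ ≤ C' * ‖s‖ ^ 2) ∧
      (∀ s ∈ ball (0 : ℂ) r, ‖fderiv ℝ w s - mulc b‖ ≤ C' * ‖s‖) := by
  obtain ⟨K1, hK1, d1, hd1, hL1⟩ := lip_cpow ((m : ℂ)⁻¹)
  have hmC : (m : ℂ) ≠ 0 := by exact_mod_cast hm
  have hmR : (0 : ℝ) < m := by exact_mod_cast Nat.pos_of_ne_zero hm
  have ha0 : 0 < ‖a‖ := norm_pos_iff.2 ha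
  -- a root of `a`
  obtain ⟨b, hb⟩ : ∃ b : ℂ, b ^ m = a := ⟨a ^ ((m : ℂ)⁻¹), cpow_nat_inv_pow a hm⟩
  have hb0 : b ≠ 0 := by
    rintro rfl
    rw [zero_pow hm] at hb
    exact ha hb.symm
  have hbp : 0 < ‖b‖ := norm_pos_iff.2 hb0
  set D : ℝ := |C| / ‖a‖ + 1 with hD
  have hDp : 0 < D := by positivity
  -- the radius
  set r : ℝ := min R (min (d1 / (2 * D)) (min (1 / (2 * D)) (1 / (2 * (K1 * D))))) with hr
  have hrp : 0 < r := by
    have : 0 < K1 * D := by positivity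
    simp only [hr, lt_min_iff]
    refine ⟨hR, by positivity, by positivity, by positivity⟩
  have hrR : r ≤ R := min_le_left _ _
  have hr1 : r ≤ d1 / (2 * D) := (min_le_right _ _).trans (min_le_left _ _)
  have hr2 : r ≤ 1 / (2 * D) :=
    (min_le_right _ _).trans ((min_le_right _ _).trans (min_le_left _ _))
  have hr3 : r ≤ 1 / (2 * (K1 * D)) :=
    (min_le_right _ _).trans ((min_le_right _ _).trans (min_le_right _ _))
  set g : ℂ → ℂ := fun s => f s / (a * s ^ m) with hg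
  set w : ℂ → ℂ := fun s => b * s * (g s) ^ ((m : ℂ)⁻¹) with hw
  have hsub : ball (0 : ℂ) r ⊆ ball 0 R := ball_subset_ball hrR
  -- bound of g - 1
  have hg1 : ∀ s ∈ ball (0 : ℂ) r, s ≠ 0 → ‖g s - 1‖ ≤ D * ‖s‖ := by
    intro s hs hs0
    have hsp : 0 < ‖s‖ := norm_pos_iff.2 hs0
    have e : g s - 1 = (f s - a * s ^ m) / (a * s ^ m) := by
      simp only [hg]
      field_simp
    rw [e, norm_div, norm_mul, norm_pow, div_le_iff₀ (by positivity)]
    refine (h0 s (hsub hs)).trans ?_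
    have : C * ‖s‖ ^ (m + 1) ≤ |C| * ‖s‖ ^ (m + 1) :=
      mul_le_mul_of_nonneg_right (le_abs_self C) (by positivity)
    refine this.trans ?_
    rw [hD]
    have e2 : (|C| / ‖a‖ + 1) * ‖s‖ * (‖a‖ * ‖s‖ ^ m) = |C| * ‖s‖ ^ (m + 1) + ‖a‖ * ‖s‖ ^ (m + 1) := by
      field_simp
      ring
    rw [e2]
    have : 0 ≤ ‖a‖ * ‖s‖ ^ (m + 1) := by positivity
    linarith
  have hDs : ∀ s ∈ ball (0 : ℂ) r, D * ‖s‖ < d1 ∧ D * ‖s‖ < 1 / 2 + 1 / 2 * 0 + 0 ∧
      K1 * (D * ‖s‖) < 1 / 2 := by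
    intro s hs
    have hs' : ‖s‖ < r := by simpa using hs
    refine ⟨?_, ?_, ?_⟩
    · have : D * ‖s‖ < D * r := mul_lt_mul_of_pos_left hs' hDp
      have h3 : D * r ≤ D * (d1 / (2 * D)) := mul_le_mul_of_nonneg_left hr1 hDp.le
      have h4 : D * (d1 / (2 * D)) = d1 / 2 := by field_simp
      linarith
    · have : D * ‖s‖ < D * r := mul_lt_mul_of_pos_left hs' hDp
      have h3 : D * r ≤ D * (1 / (2 * D)) := mul_le_mul_of_nonneg_left hr2 hDp.le
      have h4 : D * (1 / (2 * D)) = 1 / 2 := by field_simp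
      linarith
    · have : K1 * D * ‖s‖ < K1 * D * r := mul_lt_mul_of_pos_left hs' (by positivity)
      have h3 : K1 * D * r ≤ K1 * D * (1 / (2 * (K1 * D))) :=
        mul_le_mul_of_nonneg_left hr3 (by positivity)
      have h4 : K1 * D * (1 / (2 * (K1 * D))) = 1 / 2 := by field_simp
      nlinarith
  have hslit : ∀ s ∈ ball (0 : ℂ) r, s ≠ 0 → g s ∈ slitPlane := by
    intro s hs hs0
    have h2 := hg1 s hs hs0
    have h3 := (hDs s hs).2.1
    have h4 : ‖g s - 1‖ < 1 := by linarith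
    simpa using mem_slitPlane_of_norm_lt_one h4
  set h : ℂ → ℂ := fun s => (g s) ^ ((m : ℂ)⁻¹) with hh
  have hh1 : ∀ s ∈ ball (0 : ℂ) r, s ≠ 0 → ‖h s - 1‖ ≤ K1 * D * ‖s‖ := by
    intro s hs hs0
    have h2 := hg1 s hs hs0
    have h3 := (hDs s hs).1
    have h4 := hL1 (g s) (by linarith)
    calc ‖h s - 1‖ ≤ K1 * ‖g s - 1‖ := h4
      _ ≤ K1 * (D * ‖s‖) := by gcongr
      _ = K1 * D * ‖s‖ := by ring
  have hwb : ∀ s ∈ ball (0 : ℂ) r, ‖w s - b * s‖ ≤ (‖b‖ * (K1 * D)) * ‖s‖ ^ 2 := by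
    intro s hs
    by_cases hs0 : s = 0
    · subst hs0
      simp [hw]
    · have e : w s - b * s = b * s * (h s - 1) := by simp only [hw, hh]; ring
      rw [e, norm_mul, norm_mul]
      calc ‖b‖ * ‖s‖ * ‖h s - 1‖ ≤ ‖b‖ * ‖s‖ * (K1 * D * ‖s‖) := by
            gcongr
            exact hh1 s hs hs0
        _ = (‖b‖ * (K1 * D)) * ‖s‖ ^ 2 := by ring
  have hwp : ∀ s ∈ ball (0 : ℂ) r, w s ^ m = f s := by
    intro s hs
    by_cases hs0 : s = 0
    · subst hs0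
      have := h0 0 (mem_ball_self hR)
      simp [hm] at this
      simp [hw, this, hm]
    · have e : w s ^ m = a * s ^ m * g s := by
        simp only [hw, mul_pow, hb, cpow_nat_inv_pow _ hm]
      rw [e]
      simp only [hg]
      field_simp
  have hcd : ContDiffOn ℝ n w (ball 0 r \ {0}) := by
    intro s hs
    have hs0 : s ≠ 0 := hs.2
    have hfs : ContDiffAt ℝ n f s :=
      hf.contDiffAt (isOpen_ball.mem_nhds (hsub hs.1))
    have hgs : ContDiffAt ℝ n g s :=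
      by
        have h2 : ContDiffAt ℝ n (fun s : ℂ => (a * s ^ m)⁻¹) s :=
          ContDiffAt.inv (by fun_prop) (mul_ne_zero ha (pow_ne_zero _ hs0))
        simpa only [hg, div_eq_mul_inv] using hfs.mul h2
    have hc := contDiffAt_cpow ((m : ℂ)⁻¹) (g s) (hslit s hs.1 hs0) n
    have hcc : ContDiffAt ℝ n (fun s => (g s) ^ ((m : ℂ)⁻¹)) s := hc.comp s hgs
    exact ((contDiffAt_const.mul contDiffAt_id).mul hcc).contDiffWithinAt
  have hwd0 : HasFDerivAt w (mulc b) 0 := by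
    rw [hasFDerivAt_iff_isLittleO_nhds_zero]
    have hO : (fun s : ℂ => w (0 + s) - w 0 - (mulc b) s) =O[𝓝 0] fun s => ‖s‖ ^ 2 := by
      refine Asymptotics.IsBigO.of_bound (‖b‖ * (K1 * D)) ?_
      filter_upwards [ball_mem_nhds (0 : ℂ) hrp] with s hs
      have : w 0 = 0 := by simp [hw]
      simp only [zero_add, this, sub_zero, mulc_apply, norm_pow, norm_norm]
      exact hwb s hs
    exact hO.trans_isLittleO (by
      simpa using (Asymptotics.isLittleO_norm_pow_id (E' := ℂ) one_lt_two))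
  have hder : ∀ s ∈ ball (0 : ℂ) r, s ≠ 0 →
      (m * w s ^ (m - 1)) • fderiv ℝ w s = fderiv ℝ f s := by
    intro s hs hs0
    have hws : DifferentiableAt ℝ w s :=
      (hcd.contDiffAt ((isOpen_ball.sdiff isClosed_singleton).mem_nhds ⟨hs, hs0⟩)).differentiableAt
        (by simpa using (zero_lt_one.trans_le hn).ne')
    have h2 : HasFDerivAt (fun s => w s ^ m) ((m * w s ^ (m - 1)) • fderiv ℝ w s) s := by
      simpa using hws.hasFDerivAt.pow m
    have h3 : fderiv ℝ f s = fderiv ℝ (fun s => w s ^ m) s := by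
      apply Filter.EventuallyEq.fderiv_eq
      filter_upwards [isOpen_ball.mem_nhds hs] with t ht
      exact (hwp t ht).symm
    rw [h3, h2.fderiv]
  -- the bound for the derivative
  obtain ⟨k, rfl⟩ : ∃ k, m = k + 1 := ⟨m - 1, by omega⟩
  set Q : ℝ := (|C| + (k + 1) * ‖a‖ * (k * 2 ^ k) * (K1 * D)) / ((k + 1) * ‖b‖ ^ k * (1 / 2) ^ k)
    with hQ
  have hQ0 : 0 ≤ Q := by positivity
  have hbd : ∀ s ∈ ball (0 : ℂ) r, ‖fderiv ℝ w s - mulc b‖ ≤ Q * ‖s‖ := by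
    intro s hs
    by_cases hs0 : s = 0
    · subst hs0
      rw [hwd0.fderiv]
      simp
    have hsp : 0 < ‖s‖ := norm_pos_iff.2 hs0
    have hd := hder s hs hs0
    have hf1 := h1 s (hsub hs)
    simp only [Nat.add_sub_cancel] at hd hf1
    have hhs := hh1 s hs hs0
    have hhs2 : ‖h s - 1‖ ≤ 1 / 2 := by
      have := (hDs s hs).2.2
      linarith
    have hn1 : ‖h s‖ ≤ 2 := by
      have := norm_sub_norm_le (h s) 1
      rw [norm_one] at this
      linarith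
    have hn2 : 1 / 2 ≤ ‖h s‖ := by
      have := norm_sub_norm_le 1 (h s)
      rw [norm_one, norm_sub_rev] at this
      linarith
    have hws : w s = b * s * h s := rfl
    set c : ℂ := ((k + 1 : ℕ) : ℂ) * w s ^ k with hc
    have hcn : (k + 1) * ‖b‖ ^ k * (1 / 2) ^ k * ‖s‖ ^ k ≤ ‖c‖ := by
      rw [hc, norm_mul, norm_pow, hws, norm_mul, norm_mul, mul_pow, mul_pow, Complex.norm_natCast]
      push_cast
      have : (1 / 2 : ℝ) ^ k ≤ ‖h s‖ ^ k := pow_le_pow_left₀ (by norm_num) hn2 k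
      calc (k + 1) * ‖b‖ ^ k * (1 / 2) ^ k * ‖s‖ ^ k
          = (k + 1) * (‖b‖ ^ k * ‖s‖ ^ k * (1 / 2) ^ k) := by ring
        _ ≤ (k + 1) * (‖b‖ ^ k * ‖s‖ ^ k * ‖h s‖ ^ k) := by gcongr
    have e1 : c • (fderiv ℝ w s - mulc b) = (fderiv ℝ f s - mulc (((k + 1 : ℕ) : ℂ) * a * s ^ k)) +
        mulc (((k + 1 : ℕ) : ℂ) * a * s ^ k * (1 - h s ^ k)) := by
      rw [smul_sub, hd]
      have : ((k + 1 : ℕ) : ℂ) * a * s ^ k * (1 - h s ^ k) =
          ((k + 1 : ℕ) : ℂ) * a * s ^ k - c * b := by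
        rw [hc, hws, ← hb]
        ring
      rw [this]
      have h5 : ∀ x y : ℂ, mulc (x - y) = mulc x - mulc y := fun x y => by
        ext
        simp [sub_mul]
      have h6 : mulc (c * b) = c • mulc b := by simp [mulc, smul_smul]
      rw [h5, h6]
      abel
    have hpow : ∀ j : ℕ, ‖h s ^ j - 1‖ ≤ j * 2 ^ j * ‖h s - 1‖ := by
      intro j
      induction j with
      | zero => simp
      | succ j ih =>
        have e : h s ^ (j + 1) - 1 = h s ^ j * (h s - 1) + (h s ^ j - 1) := by ring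
        rw [e]
        refine (norm_add_le _ _).trans ?_
        rw [norm_mul, norm_pow]
        have h5 : ‖h s‖ ^ j ≤ 2 ^ j := pow_le_pow_left₀ (norm_nonneg _) hn1 j
        have h6 : ‖h s‖ ^ j * ‖h s - 1‖ ≤ 2 ^ j * ‖h s - 1‖ := by gcongr
        have h7 : (0 : ℝ) ≤ 2 ^ j * ‖h s - 1‖ := by positivity
        have h8 : (0 : ℝ) ≤ j * (2 ^ j * ‖h s - 1‖) := by positivity
        push_cast
        rw [pow_succ]
        nlinarith
    have e2 : ‖c‖ * ‖fderiv ℝ w s - mulc b‖ ≤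
        (|C| + (k + 1) * ‖a‖ * (k * 2 ^ k) * (K1 * D)) * ‖s‖ ^ (k + 1) := by
      rw [← norm_smul, e1]
      refine (norm_add_le _ _).trans ?_
      have h5 : C * ‖s‖ ^ (k + 1) ≤ |C| * ‖s‖ ^ (k + 1) :=
        mul_le_mul_of_nonneg_right (le_abs_self C) (by positivity)
      have h6 : ‖mulc (((k + 1 : ℕ) : ℂ) * a * s ^ k * (1 - h s ^ k))‖ ≤
          (k + 1) * ‖a‖ * (k * 2 ^ k) * (K1 * D) * ‖s‖ ^ (k + 1) := by
        rw [norm_mulc, norm_mul, norm_mul, norm_mul, norm_pow, Complex.norm_natCast, norm_sub_rev]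
        push_cast
        calc (k + 1) * ‖a‖ * ‖s‖ ^ k * ‖h s ^ k - 1‖
            ≤ (k + 1) * ‖a‖ * ‖s‖ ^ k * (k * 2 ^ k * (K1 * D * ‖s‖)) := by
              gcongr
              exact (hpow k).trans (by gcongr)
          _ = (k + 1) * ‖a‖ * (k * 2 ^ k) * (K1 * D) * ‖s‖ ^ (k + 1) := by ring
      calc _ ≤ |C| * ‖s‖ ^ (k + 1) + (k + 1) * ‖a‖ * (k * 2 ^ k) * (K1 * D) * ‖s‖ ^ (k + 1) :=
            add_le_add (hf1.trans h5) h6
        _ = _ := by ring
    have h9 : (k + 1) * ‖b‖ ^ k * (1 / 2) ^ k * ‖s‖ ^ k * ‖fderiv ℝ w s - mulc b‖ ≤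
        (|C| + (k + 1) * ‖a‖ * (k * 2 ^ k) * (K1 * D)) * ‖s‖ ^ (k + 1) :=
      (mul_le_mul_of_nonneg_right hcn (norm_nonneg _)).trans e2
    rw [hQ, div_mul_eq_mul_div, le_div_iff₀ (by positivity)]
    have hsk : 0 < ‖s‖ ^ k := by positivity
    refine le_of_mul_le_mul_left ?_ hsk
    calc ‖s‖ ^ k * (‖fderiv ℝ w s - mulc b‖ * ((k + 1) * ‖b‖ ^ k * (1 / 2) ^ k))
        = (k + 1) * ‖b‖ ^ k * (1 / 2) ^ k * ‖s‖ ^ k * ‖fderiv ℝ w s - mulc b‖ := by ring
      _ ≤ _ := h9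
      _ = _ := by ring
  refine ⟨b, w, r, Q + ‖b‖ * (K1 * D) + 1, hb, hrp, hrR, by positivity, by simp [hw], ?_, hcd, hwp,
    fun s hs => (hwb s hs).trans ?_, fun s hs => (hbd s hs).trans ?_⟩
  · have hdiff : DifferentiableOn ℝ w (ball 0 r) := by
      intro s hs
      by_cases hs0 : s = 0
      · subst hs0
        exact hwd0.differentiableAt.differentiableWithinAt
      · exact ((hcd.contDiffAt ((isOpen_ball.sdiff isClosed_singleton).mem_nhds
          ⟨hs, hs0⟩)).differentiableAt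
          (by simpa using (zero_lt_one.trans_le hn).ne')).differentiableWithinAt
    have h2 := (contDiffOn_succ_iff_fderiv_of_isOpen (𝕜 := ℝ) (f := w) (n := 0)
      (isOpen_ball (x := (0 : ℂ)) (ε := r))).2
    rw [zero_add] at h2
    refine h2 ⟨hdiff, by simp, ?_⟩
    rw [contDiffOn_zero]
    intro s hs
    by_cases hs0 : s = 0
    · subst hs0
      have h3 : Tendsto (fun s => fderiv ℝ w s) (𝓝 0) (𝓝 (fderiv ℝ w 0)) := by
        rw [hwd0.fderiv, tendsto_iff_norm_sub_tendsto_zero]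
        refine squeeze_zero' (Eventually.of_forall fun _ => norm_nonneg _) ?_
          (g := fun s : ℂ => Q * ‖s‖) ?_
        · filter_upwards [ball_mem_nhds (0 : ℂ) hrp] with s hs
          exact hbd s hs
        · have : Tendsto (fun s : ℂ => Q * ‖s‖) (𝓝 0) (𝓝 (Q * ‖(0 : ℂ)‖)) := by
            apply Continuous.tendsto
            fun_prop
          simpa using this
      exact ContinuousAt.continuousWithinAt h3
    · have h3 : ContDiffAt ℝ 1 w s :=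
        (hcd.contDiffAt ((isOpen_ball.sdiff isClosed_singleton).mem_nhds ⟨hs, hs0⟩)).of_le
          (by exact_mod_cast hn)
      exact (h3.continuousAt_fderiv (by simp)).continuousWithinAt
  · gcongr
    linarith
  · gcongr
    have : 0 ≤ ‖b‖ * (K1 * D) := by positivity
    linarith

/-- `e` is the `C¹` coordinate in which the branch function `f` is the `m`-th power. -/
structure NF (n : ℕ∞) (f : ℂ → ℂ) (m : ℕ) (e : OpenPartialHomeomorph ℂ ℂ) (b : ℂ)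
    (ρ K : ℝ) : Prop where
  b0 : b ≠ 0
  ρ0 : 0 < ρ
  K0 : 0 < K
  tgt : e.target = ball 0 ρ
  src : (0 : ℂ) ∈ e.source
  zero : e 0 = 0
  c1 : ContDiffOn ℝ 1 e e.source
  c1s : ContDiffOn ℝ 1 e.symm (ball 0 ρ)
  cn : ContDiffOn ℝ n e (e.source \ {0})
  cns : ContDiffOn ℝ n e.symm (ball 0 ρ \ {0})
  pow : ∀ s ∈ e.source, e s ^ m = f s
  bd : ∀ s ∈ e.source, ‖e s - b * s‖ ≤ K * ‖s‖ ^ 2
  dbd : ∀ s ∈ e.source, ‖fderiv ℝ e s - mulc b‖ ≤ K * ‖s‖
  bds : ∀ w ∈ ball (0 : ℂ) ρ, ‖e.symm w - b⁻¹ * w‖ ≤ K * ‖w‖ ^ 2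
  dbds : ∀ w ∈ ball (0 : ℂ) ρ, ‖fderiv ℝ e.symm w - mulc b⁻¹‖ ≤ K * ‖w‖

/-- multiplication by a nonzero number as an equivalence. -/
noncomputable def mulE (b : ℂ) (hb : b ≠ 0) : ℂ ≃L[ℝ] ℂ :=
  (ContinuousLinearEquiv.unitsEquivAut ℂ (Units.mk0 b hb)).restrictScalars ℝ

theorem mulE_coe (b : ℂ) (hb : b ≠ 0) : (mulE b hb : ℂ →L[ℝ] ℂ) = mulc b := by
  ext
  simp [mulE, mul_comm]

/-- **Normal form of a branch, as a local homeomorphism onto a disc.** -/
theorem branch_nf {f : ℂ → ℂ} {a : ℂ} {m : ℕ} (hm : m ≠ 0) (ha : a ≠ 0) {R C : ℝ}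
    (hR : 0 < R) {n : ℕ∞} (hn : 1 ≤ n) (hf : ContDiffOn ℝ n f (ball 0 R))
    (h0 : ∀ s ∈ ball (0 : ℂ) R, ‖f s - a * s ^ m‖ ≤ C * ‖s‖ ^ (m + 1))
    (h1 : ∀ s ∈ ball (0 : ℂ) R, ‖fderiv ℝ f s - mulc (m * a * s ^ (m - 1))‖ ≤ C * ‖s‖ ^ m) :
    ∃ (e : OpenPartialHomeomorph ℂ ℂ) (b : ℂ) (ρ K : ℝ), b ^ m = a ∧ e.source ⊆ ball 0 R ∧
      NF n f m e b ρ K := by
  obtain ⟨b, w, r, K, hb, hr, hrR, hK, hw0, hw1, hwn, hpow, hwb, hwd⟩ :=
    branch_root hm ha hR hn hf h0 h1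
  have hb0 : b ≠ 0 := by
    rintro rfl
    rw [zero_pow hm] at hb
    exact ha hb.symm
  have hbp : 0 < ‖b‖ := norm_pos_iff.2 hb0
  have hd0 : HasFDerivAt w (mulE b hb0 : ℂ →L[ℝ] ℂ) 0 := by
    rw [mulE_coe]
    have h2 := hwd 0 (mem_ball_self hr)
    rw [norm_zero, mul_zero] at h2
    have h3 : fderiv ℝ w 0 = mulc b := by
      rw [← sub_eq_zero, ← norm_le_zero_iff]
      exact h2
    rw [← h3]
    exact ((hw1.contDiffAt (ball_mem_nhds 0 hr)).differentiableAt (by simp)).hasFDerivAt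
  have hc0 : ContDiffAt ℝ 1 w 0 := hw1.contDiffAt (ball_mem_nhds 0 hr)
  set E := hc0.toOpenPartialHomeomorph w hd0 (by simp) with hE
  have hEw : (E : ℂ → ℂ) = w := rfl
  have hE0 : (0 : ℂ) ∈ E.source := hc0.mem_toOpenPartialHomeomorph_source hd0 (by simp)
  -- shrink the source to a small ball
  set r' : ℝ := min r (‖b‖ / (2 * K)) with hr'
  have hr'p : 0 < r' := by
    simp only [hr', lt_min_iff]
    exact ⟨hr, by positivity⟩
  set E1 := E.restrOpen (ball 0 r') isOpen_ball with hE1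
  have hE1w : (E1 : ℂ → ℂ) = w := rfl
  have hE1s : E1.source = E.source ∩ ball 0 r' := rfl
  have hE10 : (0 : ℂ) ∈ E1.source := ⟨hE0, mem_ball_self hr'p⟩
  have ht0 : (0 : ℂ) ∈ E1.target := by
    have := E1.map_source hE10
    rwa [hE1w, hw0] at this
  obtain ⟨ρ, hρ, hρt⟩ := Metric.isOpen_iff.1 E1.open_target 0 ht0
  set e := (E1.symm.restrOpen (ball 0 ρ) isOpen_ball).symm with he
  have hew : (e : ℂ → ℂ) = w := rfl
  have hes : (e.symm : ℂ → ℂ) = E1.symm := rfl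
  have het : e.target = ball 0 ρ := by
    show E1.symm.source ∩ ball 0 ρ = ball 0 ρ
    exact inter_eq_right.2 hρt
  have hsrc : e.source ⊆ ball 0 r' := by
    intro s hs
    have h2 : s ∈ E1.source := by
      have := e.map_source hs
      have h3 : e.symm (e s) = s := e.left_inv hs
      rw [← h3, hes]
      rw [het] at this
      exact E1.map_target (hρt this)
    exact h2.2
  have h0s : (0 : ℂ) ∈ e.source := by
    have h2 : e.symm 0 ∈ e.source := e.map_target (by rw [het]; exact mem_ball_self hρ)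
    have h3 : e.symm 0 = 0 := by
      rw [hes]
      have := E1.left_inv hE10
      rwa [hE1w, hw0] at this
    rwa [h3] at h2
  have hsr : e.source ⊆ ball 0 r := hsrc.trans (ball_subset_ball (min_le_left _ _))
  have hKs : ∀ s ∈ e.source, K * ‖s‖ ≤ ‖b‖ / 2 := by
    intro s hs
    have h2 : ‖s‖ < r' := by simpa using hsrc hs
    have h3 : ‖s‖ ≤ ‖b‖ / (2 * K) := h2.le.trans (min_le_right _ _)
    calc K * ‖s‖ ≤ K * (‖b‖ / (2 * K)) := by gcongr
      _ = ‖b‖ / 2 := by field_simp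
  -- lower bound of the derivative
  have hlow : ∀ s ∈ e.source, ∀ v : ℂ, ‖b‖ / 2 * ‖v‖ ≤ ‖fderiv ℝ w s v‖ := by
    intro s hs v
    have h2 := (fderiv ℝ w s - mulc b).le_opNorm v
    have h3 := (hwd s (hsr hs)).trans (hKs s hs)
    have h4 : ‖b * v‖ ≤ ‖fderiv ℝ w s v‖ + ‖(fderiv ℝ w s - mulc b) v‖ := by
      have : b * v = fderiv ℝ w s v - (fderiv ℝ w s - mulc b) v := by simp
      rw [this]
      exact norm_sub_le _ _
    rw [norm_mul] at h4
    have h5 : ‖fderiv ℝ w s - mulc b‖ * ‖v‖ ≤ ‖b‖ / 2 * ‖v‖ := by gcongr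
    nlinarith
  have hder : ∀ s ∈ e.source, ∃ L : ℂ ≃L[ℝ] ℂ, HasFDerivAt w (L : ℂ →L[ℝ] ℂ) s := by
    intro s hs
    have hinj : Function.Injective (fderiv ℝ w s : ℂ →ₗ[ℝ] ℂ) := by
      rw [← LinearMap.ker_eq_bot, LinearMap.ker_eq_bot']
      intro v hv
      have h2 := hlow s hs v
      have h3 : fderiv ℝ w s v = 0 := hv
      rw [h3, norm_zero] at h2
      have h4 : ‖v‖ ≤ 0 := by
        by_contra h5
        push Not at h5
        have : 0 < ‖b‖ / 2 * ‖v‖ := by positivity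
        linarith
      exact norm_le_zero_iff.1 h4
    refine ⟨(LinearEquiv.ofInjectiveEndo _ hinj).toContinuousLinearEquiv, ?_⟩
    have h2 : ((LinearEquiv.ofInjectiveEndo _ hinj).toContinuousLinearEquiv : ℂ →L[ℝ] ℂ) =
        fderiv ℝ w s := by
      ext <;> rfl
    rw [h2]
    exact ((hw1.contDiffAt (isOpen_ball.mem_nhds (hsr hs))).differentiableAt
      (by simp)).hasFDerivAt
  have hsymm0 : ∀ y ∈ ball (0 : ℂ) ρ, y ≠ 0 → e.symm y ≠ 0 := by
    intro y hy hy0 h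
    apply hy0
    have h2 := e.right_inv (x := y) (by rw [het]; exact hy)
    rw [h, hew, hw0] at h2
    exact h2.symm
  have hc1s : ∀ y ∈ ball (0 : ℂ) ρ, ContDiffAt ℝ 1 e.symm y := by
    intro y hy
    have hyt : y ∈ e.target := by rw [het]; exact hy
    obtain ⟨L, hL⟩ := hder _ (e.map_target hyt)
    exact e.contDiffAt_symm hyt hL
      (hw1.contDiffAt (isOpen_ball.mem_nhds (hsr (e.map_target hyt))))
  have hcns : ∀ y ∈ ball (0 : ℂ) ρ, y ≠ 0 → ContDiffAt ℝ n e.symm y := by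
    intro y hy hy0
    have hyt : y ∈ e.target := by rw [het]; exact hy
    obtain ⟨L, hL⟩ := hder _ (e.map_target hyt)
    exact e.contDiffAt_symm hyt hL
      (hwn.contDiffAt ((isOpen_ball.sdiff isClosed_singleton).mem_nhds
        ⟨hsr (e.map_target hyt), hsymm0 y hy hy0⟩))
  -- bound of the inverse
  have hinvn : ∀ y ∈ ball (0 : ℂ) ρ, ‖e.symm y‖ ≤ 2 / ‖b‖ * ‖y‖ := by
    intro y hy
    have hyt : y ∈ e.target := by rw [het]; exact hy
    set s := e.symm y with hs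
    have hss : s ∈ e.source := e.map_target hyt
    have h2 := hwb s (hsr hss)
    have h3 : w s = y := e.right_inv hyt
    rw [h3] at h2
    have h4 : ‖b * s‖ ≤ ‖y‖ + ‖y - b * s‖ := by
      have : b * s = y - (y - b * s) := by ring
      calc ‖b * s‖ = ‖y - (y - b * s)‖ := by rw [← this]
        _ ≤ _ := norm_sub_le _ _
    rw [norm_mul] at h4
    have h5 := hKs s hss
    have h6 : K * ‖s‖ ^ 2 ≤ ‖b‖ / 2 * ‖s‖ := by nlinarith [norm_nonneg s]
    rw [div_mul_eq_mul_div, le_div_iff₀ hbp]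
    nlinarith
  refine ⟨e, b, ρ, K + K * (2 / ‖b‖) ^ 2 / ‖b‖ + (2 / ‖b‖) * (K * (2 / ‖b‖)) / ‖b‖, hb,
    hsr.trans (ball_subset_ball hrR), ?_⟩
  have hK' : K ≤ K + K * (2 / ‖b‖) ^ 2 / ‖b‖ + (2 / ‖b‖) * (K * (2 / ‖b‖)) / ‖b‖ := by
    have h2 : 0 ≤ K * (2 / ‖b‖) ^ 2 / ‖b‖ := by positivity
    have h3 : 0 ≤ (2 / ‖b‖) * (K * (2 / ‖b‖)) / ‖b‖ := by positivity
    linarith
  refine
    { b0 := hb0
      ρ0 := hρ
      K0 := by positivity
      tgt := het
      src := h0s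
      zero := hw0
      c1 := hw1.mono hsr
      c1s := fun y hy => (hc1s y hy).contDiffWithinAt
      cn := hwn.mono (sdiff_subset_sdiff_left hsr)
      cns := fun y hy => (hcns y hy.1 hy.2).contDiffWithinAt
      pow := fun s hs => hpow s (hsr hs)
      bd := fun s hs => (hwb s (hsr hs)).trans (by gcongr)
      dbd := fun s hs => (hwd s (hsr hs)).trans (by gcongr)
      bds := ?_
      dbds := ?_ }
  · intro y hy
    have hyt : y ∈ e.target := by rw [het]; exact hy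
    have hss : e.symm y ∈ e.source := e.map_target hyt
    have h2 := hwb _ (hsr hss)
    have h3 : w (e.symm y) = y := e.right_inv hyt
    rw [h3] at h2
    have h4 : e.symm y - b⁻¹ * y = - (b⁻¹ * (y - b * e.symm y)) := by
      field_simp
      ring
    rw [h4, norm_neg, norm_mul, norm_inv]
    have h5 := hinvn y hy
    have h6 : K * ‖e.symm y‖ ^ 2 ≤ K * (2 / ‖b‖ * ‖y‖) ^ 2 := by gcongr
    calc ‖b‖⁻¹ * ‖y - b * e.symm y‖ ≤ ‖b‖⁻¹ * (K * (2 / ‖b‖ * ‖y‖) ^ 2) := by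
          gcongr
          exact h2.trans h6
      _ = K * (2 / ‖b‖) ^ 2 / ‖b‖ * ‖y‖ ^ 2 := by
          field_simp
      _ ≤ _ := by
          have h7 : 0 ≤ (2 / ‖b‖) * (K * (2 / ‖b‖)) / ‖b‖ := by positivity
          gcongr
          linarith
  · intro y hy
    have hyt : y ∈ e.target := by rw [het]; exact hy
    have hss : e.symm y ∈ e.source := e.map_target hyt
    obtain ⟨L, hL⟩ := hder _ hss
    have hLw : (L : ℂ →L[ℝ] ℂ) = fderiv ℝ w (e.symm y) := hL.fderiv.symm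
    have h2 : HasFDerivAt e.symm (L.symm : ℂ →L[ℝ] ℂ) y := e.hasFDerivAt_symm hyt hL
    rw [h2.fderiv]
    have h3 := hwd _ (hsr hss)
    rw [← hLw] at h3
    have hinv : ∀ v : ℂ, ‖L.symm v‖ ≤ 2 / ‖b‖ * ‖v‖ := by
      intro v
      have h4 := hlow _ hss (L.symm v)
      have h5 : fderiv ℝ w (e.symm y) (L.symm v) = v := by
        rw [← hLw]
        exact L.apply_symm_apply v
      rw [h5] at h4
      rw [div_mul_eq_mul_div, le_div_iff₀ hbp]
      linarith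
    have h5 := hinvn y hy
    refine ContinuousLinearMap.opNorm_le_bound _ (by positivity) fun v => ?_
    have e1 : ((L.symm : ℂ →L[ℝ] ℂ) - mulc b⁻¹) v =
        - L.symm (((L : ℂ →L[ℝ] ℂ) - mulc b) (b⁻¹ * v)) := by
      have h6 : L.symm (L (b⁻¹ * v)) = b⁻¹ * v := L.symm_apply_apply _
      have h7 : b * (b⁻¹ * v) = v := by field_simp
      simp only [sub_apply, ContinuousLinearEquiv.coe_coe, mulc_apply,
        map_sub, h6, h7]
      ring
    rw [e1, norm_neg]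
    refine (hinv _).trans ?_
    have h6 := ((L : ℂ →L[ℝ] ℂ) - mulc b).le_opNorm (b⁻¹ * v)
    rw [norm_mul, norm_inv] at h6
    have h8 : ‖(L : ℂ →L[ℝ] ℂ) - mulc b‖ ≤ K * (2 / ‖b‖ * ‖y‖) := h3.trans (by gcongr)
    calc 2 / ‖b‖ * ‖((L : ℂ →L[ℝ] ℂ) - mulc b) (b⁻¹ * v)‖
        ≤ 2 / ‖b‖ * (K * (2 / ‖b‖ * ‖y‖) * (‖b‖⁻¹ * ‖v‖)) := by
          gcongr
          exact h6.trans (by gcongr)
      _ = (2 / ‖b‖) * (K * (2 / ‖b‖)) / ‖b‖ * ‖y‖ * ‖v‖ := by field_simp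
      _ ≤ _ := by
          have h7 : 0 ≤ K * (2 / ‖b‖) ^ 2 / ‖b‖ := by positivity
          gcongr
          linarith

end Crest.Agent.R235.BrNF_266
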