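import Crest.Agent.R235.RootProd_266
import Crest.Agent.R235.BrNF_266

/-!
Row 235 (S0364), package ADJ, leaf L2 (helper266), part 2: the product over the branches,
`F(ζ,z) = ∏_b ∏_{w^{m_b} = ζ} (z - Z_b w)`: continuity, zero set, smoothness off `ζ = 0`, derivative
on and off the curve, local sheets.
-/

set_option autoImplicit false

open Set Filter Topology Metric Complex MeasureTheory
open scoped ContDiff

namespace Crest.Agent.R235.BranchProd_266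

open Crest.Agent.R235.RootProd_266

noncomputable section

/-- the derivative of a product at a simple zero. -/
theorem hasFDerivAt_prod_zero {ι V : Type*} [NormedAddCommGroup V] [NormedSpace ℝ V]
    [DecidableEq ι] {s : Finset ι} {g : ι → V → ℂ} {g' : ι → V →L[ℝ] ℂ} {p : V}
    (hg : ∀ i ∈ s, HasFDerivAt (g i) (g' i) p) {i₀ : ι} (h0 : i₀ ∈ s) (hz : g i₀ p = 0) :
    HasFDerivAt (fun x => ∏ i ∈ s, g i x) ((∏ i ∈ s.erase i₀, g i p) • g' i₀) p := by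
  refine (HasFDerivAt.finsetProd hg).congr_fderiv ?_
  rw [← Finset.add_sum_erase _ _ h0]
  have : ∑ i ∈ s.erase i₀, (∏ j ∈ s.erase i, g j p) • g' i = 0 := by
    refine Finset.sum_eq_zero fun i hi => ?_
    have h1 : i₀ ∈ s.erase i :=
      Finset.mem_erase.2 ⟨(Finset.ne_of_mem_erase hi).symm, h0⟩
    rw [Finset.prod_eq_zero h1 hz]
    exact zero_smul ℂ (g' i)
  rw [this, add_zero]

/-- the product of the other sheets of the same branch, at the sheet through `w`. -/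
def hk (m : ℕ) (Z : ℂ → ℂ) (w : ℂ) : ℂ := ∏ j ∈ Finset.Ico 1 m, (Z w - Z (xi m ^ j * w))

/-- `rp` on the curve. -/
theorem rp_self {m : ℕ} (hm : m ≠ 0) (Z : ℂ → ℂ) (w : ℂ) : rp m Z (w ^ m) (Z w) = 0 := by
  rw [rp_eq_zero hm]
  exact ⟨w, rfl, rfl⟩

/-- **the derivative of the product function on the branch.** -/
theorem hasFDerivAt_rp_zero {m : ℕ} (hm : m ≠ 0) {Z : ℂ → ℂ} {w : ℂ} (hw : w ≠ 0)
    (hZ : ∀ w', w' ^ m = w ^ m → DifferentiableAt ℝ Z w') :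
    HasFDerivAt (fun p : ℂ × ℂ => rp m Z p.1 p.2) (hk m Z w • dsh m Z (w ^ m) w)
      (w ^ m, Z w) := by
  have e : (fun p : ℂ × ℂ => rp m Z p.1 p.2) =
      fun p : ℂ × ℂ => ∏ j ∈ Finset.range m, (p.2 - Z (xi m ^ j * bt m w p.1)) := by
    funext p
    exact rp_bt hm Z hw p.1 p.2
  have hs : ∀ j ∈ Finset.range m, HasFDerivAt
      (fun p : ℂ × ℂ => p.2 - Z (xi m ^ j * bt m w p.1))
      (dsh m Z (w ^ m) (xi m ^ j * bt m w (w ^ m))) (w ^ m, Z w) := by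
    intro j _
    refine hasFDerivAt_sheet hm hw j (self_mem_cutPlane hw) (hZ _ ?_)
    rw [mul_pow, xi_pow_pow hm, one_mul, bt_self hw]
  have h0 : 0 ∈ Finset.range m := Finset.mem_range.2 (Nat.pos_of_ne_zero hm)
  have h1 := hasFDerivAt_prod_zero hs h0 (by simp [bt_self hw])
  rw [e]
  refine h1.congr_fderiv ?_
  have h2 : (Finset.range m).erase 0 = Finset.Ico 1 m := by
    ext j
    simp only [Finset.mem_erase, Finset.mem_range, Finset.mem_Ico]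
    omega
  rw [h2, hk]
  simp only [bt_self hw, pow_zero, one_mul]

section Branches

variable {n : ℕ} (m : Fin n → ℕ) (Z : Fin n → ℂ → ℂ)

/-- the local equation of the union of the branches. -/
def bp (ζ z : ℂ) : ℂ := ∏ b, rp (m b) (Z b) ζ z

variable {m Z}

theorem bp_eq_zero (hm : ∀ b, m b ≠ 0) (ζ z : ℂ) :
    bp m Z ζ z = 0 ↔ ∃ b w, w ^ m b = ζ ∧ z = Z b w := by
  rw [bp, Finset.prod_eq_zero_iff]
  constructor
  · rintro ⟨b, -, h⟩
    obtain ⟨w, h⟩ := (rp_eq_zero (hm b) _ _ _).1 h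
    exact ⟨b, w, h⟩
  · rintro ⟨b, w, h⟩
    exact ⟨b, Finset.mem_univ b, (rp_eq_zero (hm b) _ _ _).2 ⟨w, h⟩⟩

theorem bp_zero (hm : ∀ b, m b ≠ 0) (hZ0 : ∀ b, Z b 0 = 0) (z : ℂ) :
    bp m Z 0 z = z ^ (∑ b, m b) := by
  rw [bp, Finset.prod_congr rfl fun b _ => rp_zero (hm b) (Z b) z]
  simp only [hZ0, sub_zero]
  exact Finset.prod_pow_eq_pow_sum _ _ _

theorem continuousAt_bp (hm : ∀ b, m b ≠ 0) {ρ : ℝ} (hρ : 0 ≤ ρ)
    (hZ : ∀ b, ContinuousOn (Z b) (ball 0 ρ)) {ζ z : ℂ} (hζ : ∀ b, ‖ζ‖ < ρ ^ m b) :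
    ContinuousAt (fun p : ℂ × ℂ => bp m Z p.1 p.2) (ζ, z) := by
  unfold bp
  exact tendsto_finsetProd _ fun b _ => continuousAt_rp (hm b) hρ (hZ b) (hζ b)

theorem contDiffAt_bp (hm : ∀ b, m b ≠ 0) {k : ℕ∞} {ζ z : ℂ} (hζ : ζ ≠ 0)
    (hZ : ∀ b w, w ^ m b = ζ → ContDiffAt ℝ k (Z b) w) :
    ContDiffAt ℝ k (fun p : ℂ × ℂ => bp m Z p.1 p.2) (ζ, z) := by
  unfold bp
  exact contDiffAt_prod fun b _ => contDiffAt_rp (hm b) hζ (hZ b)

/-- if all branches are smooth graphs (`m b = 1`), the function is smooth also at `ζ = 0`. -/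
theorem contDiffAt_bp_one (hm : ∀ b, m b = 1) {k : ℕ∞} {ζ z : ℂ}
    (hZ : ∀ b, ContDiffAt ℝ k (Z b) ζ) :
    ContDiffAt ℝ k (fun p : ℂ × ℂ => bp m Z p.1 p.2) (ζ, z) := by
  have e : (fun p : ℂ × ℂ => bp m Z p.1 p.2) = fun p : ℂ × ℂ => ∏ b, (p.2 - Z b p.1) := by
    funext p
    unfold bp
    refine Finset.prod_congr rfl fun b _ => ?_
    rw [hm b, rp_pow one_ne_zero (Z b) (w := p.1) (pow_one _)]
    simp
  rw [e]
  refine contDiffAt_prod fun b _ => contDiffAt_snd.sub ?_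
  exact ContDiffAt.comp (f := fun p : ℂ × ℂ => p.1) (g := Z b) _ (hZ b) contDiffAt_fst

/-- the factor of the derivative along the branch `b`. -/
def hb (m : Fin n → ℕ) (Z : Fin n → ℂ → ℂ) (b : Fin n) (w : ℂ) : ℂ :=
  (∏ c ∈ Finset.univ.erase b, rp (m c) (Z c) (w ^ m b) (Z b w)) * hk (m b) (Z b) w

/-- **the derivative of `F` along the branch `b`.** -/
theorem hasFDerivAt_bp_zero (hm : ∀ b, m b ≠ 0) {b : Fin n} {w : ℂ} (hw : w ≠ 0)
    (hZ : ∀ c w', w' ^ m c = w ^ m b → DifferentiableAt ℝ (Z c) w')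
    (hne : ∀ c, c ≠ b → rp (m c) (Z c) (w ^ m b) (Z b w) ≠ 0) :
    HasFDerivAt (fun p : ℂ × ℂ => bp m Z p.1 p.2)
      (hb m Z b w • dsh (m b) (Z b) (w ^ m b) w) (w ^ m b, Z b w) := by
  have hw0 : w ^ m b ≠ 0 := pow_ne_zero _ hw
  set g' : Fin n → (ℂ × ℂ →L[ℝ] ℂ) := fun c =>
    if c = b then hk (m b) (Z b) w • dsh (m b) (Z b) (w ^ m b) w
    else rp (m c) (Z c) (w ^ m b) (Z b w) • ld (m c) (Z c) (w ^ m b, Z b w) with hg'
  have hg : ∀ c ∈ (Finset.univ : Finset (Fin n)),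
      HasFDerivAt (fun p : ℂ × ℂ => rp (m c) (Z c) p.1 p.2) (g' c) (w ^ m b, Z b w) := by
    intro c _
    by_cases hc : c = b
    · subst hc
      simp only [hg', if_true]
      exact hasFDerivAt_rp_zero (hm c) hw (hZ c)
    · simp only [hg', if_neg hc]
      exact hasFDerivAt_rp (hm c) hw0 (hZ c) (hne c hc)
  have h1 := hasFDerivAt_prod_zero hg (Finset.mem_univ b) (rp_self (hm b) (Z b) w)
  refine h1.congr_fderiv ?_
  simp only [hg', if_true, smul_smul, hb]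

/-- **the logarithmic derivative of `F` off the curve.** -/
theorem hasFDerivAt_bp (hm : ∀ b, m b ≠ 0) {ζ z : ℂ} (hζ : ζ ≠ 0)
    (hZ : ∀ c w, w ^ m c = ζ → DifferentiableAt ℝ (Z c) w) (hne : bp m Z ζ z ≠ 0) :
    HasFDerivAt (fun p : ℂ × ℂ => bp m Z p.1 p.2)
      (bp m Z ζ z • ∑ b, ld (m b) (Z b) (ζ, z)) (ζ, z) := by
  have hne' : ∀ b ∈ (Finset.univ : Finset (Fin n)), rp (m b) (Z b) ζ z ≠ 0 :=
    Finset.prod_ne_zero_iff.1 hne
  have hg : ∀ b ∈ (Finset.univ : Finset (Fin n)),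
      HasFDerivAt (fun p : ℂ × ℂ => rp (m b) (Z b) p.1 p.2)
        (rp (m b) (Z b) ζ z • ld (m b) (Z b) (ζ, z)) (ζ, z) := fun b hb =>
    hasFDerivAt_rp (hm b) hζ (hZ b) (hne' b hb)
  refine (HasFDerivAt.finsetProd hg).congr_fderiv ?_
  rw [Finset.smul_sum]
  refine Finset.sum_congr rfl fun b hb => ?_
  rw [smul_smul]
  congr 1
  rw [bp, mul_comm, Finset.mul_prod_erase _ (fun b => rp (m b) (Z b) ζ z) hb]

end Branches

end

end Crest.Agent.R235.BranchProd_266
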