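import Crest.Agent.R235.AdjMu_688
import Crest.Agent.R235.BranchProd_266

/-!
# Row 235 (S0364), package ADJ (helper43), leaf L4, third part (helper688)

The sheets of the branches of a curve in a foliation box and the winding numbers of products of
differences of sheets.  Everything is planar.
-/

set_option autoImplicit false

open Complex Set Filter Topology Metric MeasureTheory
open scoped Real ContDiff

namespace Crest.Agent.R235.AdjSheet_688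

open Crest.Agent.R235.Wind_688 Crest.Agent.R235.CauchyV_679 Crest.Agent.R235.AdjPos_688
open Crest.Agent.R235.NWDefs_334 Crest.Agent.R235.AdjMu_688 Crest.Agent.R235.BrNF_266
open Crest.Agent.R235.RootProd_266 Crest.Agent.R235.BranchProd_266

noncomputable section

/-- a branch in a foliation box, with its normal form `e` -/
structure Br (J : ℂ × ℂ → ℂ × ℂ →L[ℝ] ℂ × ℂ) (v : ℂ → ℂ × ℂ) (r1 : ℝ) (m : ℕ) (a : ℂ) (C : ℝ)
    (e : OpenPartialHomeomorph ℂ ℂ) : Prop where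
  r1_pos : 0 < r1
  smooth : ContDiffOn ℝ ∞ v (ball 0 r1)
  hol : JHol J v (ball 0 r1)
  m_pos : 1 ≤ m
  a_ne : a ≠ 0
  C_nonneg : 0 ≤ C
  ζ0 : ∀ s ∈ ball (0 : ℂ) r1, ‖(v s).1 - a * s ^ m‖ ≤ C * ‖s‖ ^ (m + 1)
  ζ1 : ∀ s ∈ ball (0 : ℂ) r1,
    ‖fderiv ℝ (fun s => (v s).1) s - mulc (m * a * s ^ (m - 1))‖ ≤ C * ‖s‖ ^ m
  z0 : ∀ s ∈ ball (0 : ℂ) r1, ‖(v s).2‖ ≤ C * ‖s‖ ^ m
  z1 : ∀ s ∈ ball (0 : ℂ) r1, ‖fderiv ℝ (fun s => (v s).2) s‖ ≤ C * ‖s‖ ^ (m - 1)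
  src : e.source ⊆ ball 0 r1
  mem0 : (0 : ℂ) ∈ e.source
  zero : e 0 = 0
  cs : ContDiffOn ℝ 1 e.symm e.target
  c1 : ContDiffOn ℝ 1 e e.source
  pow : ∀ s ∈ e.source, e s ^ m = (v s).1

/-- the second coordinate in the normal form -/
def Zf (v : ℂ → ℂ × ℂ) (e : OpenPartialHomeomorph ℂ ℂ) (w : ℂ) : ℂ := (v (e.symm w)).2

section one

variable {J : ℂ × ℂ → ℂ × ℂ →L[ℝ] ℂ × ℂ} {v : ℂ → ℂ × ℂ} {r1 : ℝ} {m : ℕ} {a : ℂ} {C : ℝ}
  {e : OpenPartialHomeomorph ℂ ℂ}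

theorem Br.v0 (B : Br J v r1 m a C e) : v 0 = 0 := by
  have h0 : (0 : ℂ) ∈ ball (0 : ℂ) r1 := mem_ball_self B.r1_pos
  have hm : m ≠ 0 := by have := B.m_pos; omega
  have h1 := B.ζ0 0 h0
  have h2 := B.z0 0 h0
  rw [zero_pow hm, norm_zero, zero_pow (by omega), mul_zero, mul_zero, sub_zero] at h1
  rw [norm_zero, zero_pow hm, mul_zero] at h2
  exact Prod.ext (norm_le_zero_iff.1 h1) (norm_le_zero_iff.1 h2)

theorem Br.contAt (B : Br J v r1 m a C e) : ContinuousAt v 0 :=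
  B.smooth.continuousOn.continuousAt (ball_mem_nhds _ B.r1_pos)

theorem Br.symm0 (B : Br J v r1 m a C e) : e.symm 0 = 0 := by
  have := e.left_inv B.mem0
  rwa [B.zero] at this

theorem Br.mem0t (B : Br J v r1 m a C e) : (0 : ℂ) ∈ e.target := by
  have := e.map_source B.mem0
  rwa [B.zero] at this

theorem Br.low (B : Br J v r1 m a C e) {s : ℂ} (hs : s ∈ ball (0 : ℂ) r1)
    (hC : C * ‖s‖ ≤ ‖a‖ / 2) : ‖a‖ / 2 * ‖s‖ ^ m ≤ ‖(v s).1‖ := by
  have h1 := B.ζ0 s hs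
  have h2 : ‖a * s ^ m‖ ≤ ‖(v s).1‖ + ‖(v s).1 - a * s ^ m‖ := by
    have : a * s ^ m = (v s).1 - ((v s).1 - a * s ^ m) := by ring
    conv_lhs => rw [this]
    exact norm_sub_le _ _
  rw [norm_mul, norm_pow] at h2
  have h3 : C * ‖s‖ ^ (m + 1) ≤ ‖a‖ / 2 * ‖s‖ ^ m := by
    calc C * ‖s‖ ^ (m + 1) = (C * ‖s‖) * ‖s‖ ^ m := by rw [pow_succ]; ring
      _ ≤ ‖a‖ / 2 * ‖s‖ ^ m := by gcongr
  linarith

theorem Br.dlz_sub (B : Br J v r1 m a C e) {s : ℂ} (hs : s ∈ ball (0 : ℂ) r1) :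
    ‖dlz (fun s => (v s).1) s - m * a * s ^ (m - 1)‖ ≤ C * ‖s‖ ^ m := by
  refine dlz_of_fderiv fun w => ?_
  have h1 := (fderiv ℝ (fun s => (v s).1) s - mulc (m * a * s ^ (m - 1))).le_of_opNorm_le
    (B.ζ1 s hs) w
  rwa [_root_.sub_apply, mulc_apply] at h1

theorem Br.dlow (B : Br J v r1 m a C e) {s : ℂ} (hs : s ∈ ball (0 : ℂ) r1)
    (hC : C * ‖s‖ ≤ ‖a‖ / 2) : ‖a‖ / 2 * ‖s‖ ^ (m - 1) ≤ ‖dlz (fun s => (v s).1) s‖ := by
  have h1 := B.dlz_sub hs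
  set d := dlz (fun s => (v s).1) s with hd
  have h2 : ‖(m : ℂ) * a * s ^ (m - 1)‖ ≤ ‖d‖ + ‖d - m * a * s ^ (m - 1)‖ := by
    have : (m : ℂ) * a * s ^ (m - 1) = d - (d - m * a * s ^ (m - 1)) := by ring
    conv_lhs => rw [this]
    exact norm_sub_le _ _
  rw [norm_mul, norm_mul, norm_pow, Complex.norm_natCast] at h2
  have h3 : C * ‖s‖ ^ m ≤ ‖a‖ / 2 * ‖s‖ ^ (m - 1) := by
    have h4 : ‖s‖ ^ m = ‖s‖ * ‖s‖ ^ (m - 1) := by
      rw [← pow_succ']; congr 1; have := B.m_pos; omega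
    rw [h4]
    calc C * (‖s‖ * ‖s‖ ^ (m - 1)) = (C * ‖s‖) * ‖s‖ ^ (m - 1) := by ring
      _ ≤ ‖a‖ / 2 * ‖s‖ ^ (m - 1) := by gcongr
  have h5 : (1 : ℝ) ≤ m := by exact_mod_cast B.m_pos
  have h6 : ‖a‖ * ‖s‖ ^ (m - 1) ≤ m * ‖a‖ * ‖s‖ ^ (m - 1) := by
    rw [mul_assoc]
    exact le_mul_of_one_le_left (by positivity) h5
  linarith

/-- **the sheets of a branch** -/
theorem sheet {δ L : ℝ} (hB : MB J δ L) (B : Br J v r1 m a C e) :
    ∃ η > (0 : ℝ), ∃ D Λ : ℝ, 0 ≤ D ∧ ∀ (ζ om : ℂ → ℂ) (s : ℂ), ContDiffAt ℝ 1 om s →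
      (∀ᶠ t in 𝓝 s, om t ^ m = ζ t) → om s ≠ 0 → ‖om s‖ < η →
      ContDiffAt ℝ 1 (fun t => Zf v e (om t)) s ∧
      GC (fun x => mu (J x)) (fun x => be (J x)) ζ (fun t => Zf v e (om t)) Λ s ∧
      ‖Zf v e (om s)‖ ≤ D * ‖ζ s‖ := by
  have hap : 0 < ‖a‖ := norm_pos_iff.2 B.a_ne
  have hC1 : 0 < 2 * C + 1 := by have := B.C_nonneg; linarith
  -- the radius
  have hev : ∀ᶠ s in 𝓝 (0 : ℂ), s ∈ ball (0 : ℂ) r1 ∧ v s ∈ ball (0 : ℂ × ℂ) δ ∧
      C * ‖s‖ ≤ ‖a‖ / 2 := by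
    refine Filter.Eventually.and (ball_mem_nhds _ B.r1_pos) (Filter.Eventually.and ?_ ?_)
    · refine B.contAt.preimage_mem_nhds ?_
      rw [B.v0]; exact ball_mem_nhds _ hB.pos
    · have h1 : Tendsto (fun s : ℂ => C * ‖s‖) (𝓝 0) (𝓝 0) := by
        have h2 : Continuous fun s : ℂ => C * ‖s‖ := by fun_prop
        simpa using h2.tendsto 0
      exact h1.eventually (Iic_mem_nhds (by positivity))
  have hes : ContinuousAt e.symm 0 := e.symm.continuousAt (by simpa using B.mem0t)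
  have hev2 : ∀ᶠ w in 𝓝 (0 : ℂ), w ∈ e.target ∧ (e.symm w ∈ ball (0 : ℂ) r1 ∧
      v (e.symm w) ∈ ball (0 : ℂ × ℂ) δ ∧ C * ‖e.symm w‖ ≤ ‖a‖ / 2) := by
    refine Filter.Eventually.and (e.open_target.mem_nhds B.mem0t) ?_
    have h1 : Tendsto e.symm (𝓝 0) (𝓝 0) := by
      have := hes.tendsto
      rwa [B.symm0] at this
    exact h1.eventually hev
  obtain ⟨η, hη, hη2⟩ := Metric.eventually_nhds_iff_ball.1 hev2
  refine ⟨η, hη, 2 * C / ‖a‖, ((2 * C / ‖a‖) + 1 * (1 / 2)) / (1 - (1 / 2) ^ 2),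
    by have := B.C_nonneg; positivity, fun ζ om s hom hpow hne hlt => ?_⟩
  obtain ⟨ht, hr, hδ, hCa⟩ := hη2 (om s) (by rwa [mem_ball, dist_zero_right])
  set σ : ℂ → ℂ := fun t => e.symm (om t) with hσ
  have hσs : σ s ∈ e.source := e.map_target ht
  have hσ0 : σ s ≠ 0 := by
    intro h0
    apply hne
    have h1 : e (σ s) = om s := e.right_inv ht
    rw [← h1, h0, B.zero]
  have hσd : ContDiffAt ℝ 1 σ s := by
    have h1 : ContDiffAt ℝ 1 e.symm (om s) := B.cs.contDiffAt (e.open_target.mem_nhds ht)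
    exact h1.comp s hom
  have hvd : ContDiffAt ℝ ∞ v (σ s) := B.smooth.contDiffAt (isOpen_ball.mem_nhds hr)
  have hv1 : ContDiffAt ℝ ∞ (fun s => (v s).1) (σ s) := hvd.fst
  have hv2 : ContDiffAt ℝ ∞ (fun s => (v s).2) (σ s) := hvd.snd
  have h1 : ∀ᶠ t in 𝓝 s, (fun s => (v s).1) (σ t) = ζ t := by
    filter_upwards [hpow, hom.continuousAt.preimage_mem_nhds (e.open_target.mem_nhds ht)]
      with t h2 h3
    have h4 := B.pow (σ t) (e.map_target h3)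
    have h5 : e (σ t) = om t := e.right_inv h3
    rw [h5, h2] at h4
    exact h4.symm
  have hlow := B.low hr hCa
  have hdlow := B.dlow hr hCa
  have hs0 : 0 < ‖σ s‖ := norm_pos_iff.2 hσ0
  refine ⟨?_, ?_, ?_⟩
  · exact (hv2.of_le (by exact_mod_cast le_top)).comp s hσd
  · refine gc_of_curve (κ := 1 / 2) (B := 1) (K := 2 * C / ‖a‖) (σ := σ)
      (ζ' := fun s => (v s).1) (z' := fun s => (v s).2) (by norm_num) ?_ ?_ ?_
      (hB.mle _ hδ) (hB.ble _ hδ) (hσd.differentiableAt one_ne_zero)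
      (hv1.differentiableAt (by simp)) (hv2.differentiableAt (by simp)) h1
      (Eventually.of_forall fun t => rfl)
    · exact jc_of (hB.vj _ hδ) rfl (B.hol _ hr).1 (B.hol _ hr).2
    · intro h2
      rw [h2, norm_zero] at hdlow
      have : 0 < ‖a‖ / 2 * ‖σ s‖ ^ (m - 1) := by positivity
      linarith
    · have h2 : ‖dlz (fun s => (v s).2) (σ s)‖ ≤ C * ‖σ s‖ ^ (m - 1) :=
        (norm_dlz_le _ _).trans (B.z1 _ hr)
      refine h2.trans ?_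
      calc C * ‖σ s‖ ^ (m - 1) = (2 * C / ‖a‖) * (‖a‖ / 2 * ‖σ s‖ ^ (m - 1)) := by
            field_simp
        _ ≤ _ := by
            have := B.C_nonneg
            gcongr
  · have h2 : ‖Zf v e (om s)‖ ≤ C * ‖σ s‖ ^ m := B.z0 _ hr
    have h3 : ζ s = (v (σ s)).1 := h1.self_of_nhds.symm
    rw [h3]
    refine h2.trans ?_
    calc C * ‖σ s‖ ^ m = (2 * C / ‖a‖) * (‖a‖ / 2 * ‖σ s‖ ^ m) := by
            field_simp
        _ ≤ _ := by
            have := B.C_nonneg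
            gcongr

end one

/-! ### finitely many branches -/

theorem exists_pos_le {n : ℕ} {f : Fin n → ℝ} (hf : ∀ i, 0 < f i) : ∃ η > 0, ∀ i, η ≤ f i := by
  have h : ∀ᶠ x in 𝓝[>] (0 : ℝ), ∀ i, x ≤ f i := by
    rw [Filter.eventually_all]
    intro i
    exact nhdsWithin_le_nhds (Iic_mem_nhds (hf i))
  obtain ⟨x, hx, hx0⟩ := (h.and self_mem_nhdsWithin).exists
  exact ⟨x, hx0, hx⟩

theorem exists_ge {n : ℕ} (f : Fin n → ℝ) : ∃ D, 0 ≤ D ∧ ∀ i, f i ≤ D := by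
  obtain ⟨D, hD⟩ := (Set.finite_range f).bddAbove
  exact ⟨max D 0, le_max_right _ _, fun i => (hD (mem_range_self i)).trans (le_max_left _ _)⟩

section many

variable {J : ℂ × ℂ → ℂ × ℂ →L[ℝ] ℂ × ℂ} {n : ℕ} {v : Fin n → ℂ → ℂ × ℂ} {r1 : ℝ}
  {m : Fin n → ℕ} {a : Fin n → ℂ} {C : ℝ} {e : Fin n → OpenPartialHomeomorph ℂ ℂ}

/-- **winding number of a product of differences of sheets** -/
theorem windS {δ L : ℝ} (hB : MB J δ L) (B : ∀ c, Br J (v c) r1 (m c) (a c) C (e c))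
    {u : ℂ → ℂ × ℂ} {r C' : ℝ} {M k' : ℕ} (hM : 1 ≤ M) (hr : 0 < r)
    (hu : ContDiffOn ℝ 1 u (ball 0 r)) (hJ : JHol J u (ball 0 r))
    (h1 : ∀ s ∈ ball (0 : ℂ) r, ‖(u s).1‖ ≤ C' * ‖s‖ ^ M)
    (h2 : ∀ s ∈ ball (0 : ℂ) r, ‖(u s).2‖ ≤ C' * ‖s‖ ^ M) {H : ℂ → ℂ}
    (hH0 : ∀ s ∈ ball (0 : ℂ) r, s ≠ 0 → H s ≠ 0)
    (hloc : ∀ s ∈ ball (0 : ℂ) r, s ≠ 0 → ∃ (c : Fin k' → Fin n) (om : Fin k' → ℂ → ℂ),
      (∀ i, ContDiffAt ℝ 1 (om i) s ∧ om i s ≠ 0 ∧ ∀ᶠ t in 𝓝 s, om i t ^ m (c i) = (u t).1) ∧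
      H =ᶠ[𝓝 s] fun t => ∏ i, ((u t).2 - Zf (v (c i)) (e (c i)) (om i t))) :
    ∃ r0 > 0, r0 ≤ r ∧ ∃ N : ℤ, ((M * k' : ℕ) : ℤ) ≤ N ∧
      ∀ r', 0 < r' → r' < r0 → IsW H 0 r' N := by
  choose η hη D Λ hD hsh using fun c => sheet hB (B c)
  obtain ⟨D0, hD0, hDle⟩ := exists_ge D
  obtain ⟨Λ0, hΛ0, hΛle⟩ := exists_ge Λ
  have h00 : (0 : ℂ) ∈ ball (0 : ℂ) r := mem_ball_self hr
  have hMne : M ≠ 0 := by omega
  have hu0 : u 0 = 0 := by
    have e1 := h1 0 h00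
    have e2 := h2 0 h00
    rw [norm_zero, zero_pow hMne, mul_zero] at e1 e2
    exact Prod.ext (norm_le_zero_iff.1 e1) (norm_le_zero_iff.1 e2)
  have hC' : 0 ≤ C' := by
    by_contra hneg
    have hs : ((r / 2 : ℝ) : ℂ) ∈ ball (0 : ℂ) r := by
      rw [mem_ball, dist_zero_right, Complex.norm_real, Real.norm_of_nonneg (by positivity)]
      linarith
    have e1 := (norm_nonneg _).trans (h1 _ hs)
    have e2 : 0 < ‖((r / 2 : ℝ) : ℂ)‖ ^ M := by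
      rw [Complex.norm_real, Real.norm_of_nonneg (by positivity)]; positivity
    nlinarith
  have huc : ContinuousAt u 0 := hu.continuousOn.continuousAt (ball_mem_nhds _ hr)
  have hdc : ContinuousAt (fderiv ℝ u) 0 :=
    (hu.continuousOn_fderiv_of_isOpen isOpen_ball le_rfl).continuousAt (ball_mem_nhds _ hr)
  set C1 : ℝ := ‖fderiv ℝ u 0‖ + 1 with hC1
  set E : ℝ := max C' (max C1 (D0 * C')) with hE
  have hE0 : 0 ≤ E := hC'.trans (le_max_left _ _)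
  have hev : ∀ᶠ s in 𝓝 (0 : ℂ), ‖fderiv ℝ u s‖ < C1 ∧ u s ∈ ball (0 : ℂ × ℂ) δ ∧
      E * ‖s‖ ^ M < δ ∧ ∀ c, ‖(u s).1‖ < η c ^ m c := by
    refine Filter.Eventually.and ?_ (Filter.Eventually.and ?_ (Filter.Eventually.and ?_ ?_))
    · exact hdc.norm.eventually (Iio_mem_nhds (by rw [hC1]; linarith))
    · refine huc.preimage_mem_nhds ?_
      rw [hu0]; exact ball_mem_nhds _ hB.pos
    · have e1 : Continuous fun s : ℂ => E * ‖s‖ ^ M := by fun_prop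
      have e2 := e1.tendsto 0
      rw [norm_zero, zero_pow hMne, mul_zero] at e2
      exact e2.eventually (Iio_mem_nhds hB.pos)
    · rw [Filter.eventually_all]
      intro c
      have e1 : ContinuousAt (fun s => ‖(u s).1‖) 0 := (continuous_fst.continuousAt.comp huc).norm
      have e2 : ‖(u 0).1‖ = 0 := by rw [hu0]; simp
      refine e1.eventually (Iio_mem_nhds ?_)
      show ‖(u 0).1‖ < _
      rw [e2]
      exact pow_pos (hη c) _
  obtain ⟨r2, hr2, hr3⟩ := Metric.eventually_nhds_iff_ball.1 hev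
  set r0 : ℝ := min r r2 with hr0
  have hr00 : 0 < r0 := lt_min hr hr2
  have hs1 : ball (0 : ℂ) r0 ⊆ ball 0 r := ball_subset_ball (min_le_left _ _)
  have hs2 : ball (0 : ℂ) r0 ⊆ ball 0 r2 := ball_subset_ball (min_le_right _ _)
  have hfd : ∀ s ∈ ball (0 : ℂ) r0, DifferentiableAt ℝ u s := fun s hs =>
    (hu.contDiffAt (isOpen_ball.mem_nhds (hs1 hs))).differentiableAt one_ne_zero
  have hf1 : ∀ s ∈ ball (0 : ℂ) r0, ‖fderiv ℝ (fun s => (u s).1) s‖ ≤ E := by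
    intro s hs
    have h : HasFDerivAt (fun s => (u s).1) ((ContinuousLinearMap.fst ℝ ℂ ℂ).comp (fderiv ℝ u s))
      s := hasFDerivAt_fst.comp s (hfd s hs).hasFDerivAt
    rw [h.fderiv]
    have h3 : ‖(ContinuousLinearMap.fst ℝ ℂ ℂ).comp (fderiv ℝ u s)‖ ≤ ‖fderiv ℝ u s‖ := by
      refine ContinuousLinearMap.opNorm_le_bound _ (norm_nonneg _) fun w => ?_
      exact (norm_fst_le (fderiv ℝ u s w)).trans ((fderiv ℝ u s).le_opNorm w)
    exact h3.trans ((hr3 s (hs2 hs)).1.le.trans ((le_max_left _ _).trans (le_max_right _ _)))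
  have hf2 : ∀ s ∈ ball (0 : ℂ) r0, ‖fderiv ℝ (fun s => (u s).2) s‖ ≤ E := by
    intro s hs
    have h : HasFDerivAt (fun s => (u s).2) ((ContinuousLinearMap.snd ℝ ℂ ℂ).comp (fderiv ℝ u s))
      s := hasFDerivAt_snd.comp s (hfd s hs).hasFDerivAt
    rw [h.fderiv]
    have h3 : ‖(ContinuousLinearMap.snd ℝ ℂ ℂ).comp (fderiv ℝ u s)‖ ≤ ‖fderiv ℝ u s‖ := by
      refine ContinuousLinearMap.opNorm_le_bound _ (norm_nonneg _) fun w => ?_
      exact (norm_snd_le (fderiv ℝ u s w)).trans ((fderiv ℝ u s).le_opNorm w)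
    exact h3.trans ((hr3 s (hs2 hs)).1.le.trans ((le_max_left _ _).trans (le_max_right _ _)))
  have hmem : ∀ s ∈ ball (0 : ℂ) r0, ∀ w : ℂ, ‖w‖ ≤ E * ‖s‖ ^ M →
      ((u s).1, w) ∈ ball (0 : ℂ × ℂ) δ := by
    intro s hs w hw
    obtain ⟨-, e2, e3, -⟩ := hr3 s (hs2 hs)
    rw [mem_ball, dist_zero_right] at e2 ⊢
    exact max_lt ((norm_fst_le (u s)).trans_lt e2) (hw.trans_lt e3)
  have hbeta : ∀ s ∈ ball (0 : ℂ) r0, ∀ w : ℂ, ‖(u s) - ((u s).1, w)‖ = ‖(u s).2 - w‖ := by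
    intro s _ w
    have : (u s) - ((u s).1, w) = (0, (u s).2 - w) := by
      refine Prod.ext ?_ rfl
      simp
    rw [this, Prod.norm_def]
    simp
  suffices h : ∃ N : ℤ, ((M * k' : ℕ) : ℤ) ≤ N ∧ ∀ r', 0 < r' → r' < r0 → IsW H 0 r' N by
    obtain ⟨N, hN, hW⟩ := h
    exact ⟨r0, hr00, min_le_left _ _, N, hN, hW⟩
  refine hwind (μ := fun x => mu (J x)) (β := fun x => be (J x))
    (ζ := fun s => (u s).1) (z := fun s => (u s).2) (H := H) (κ := 1 / 2) (L := L) (B := 1)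
    (Λ := Λ0) (C := E) (m := M) (k' := k') hr00 ((hu.mono hs1).snd) ?_ hB.posL hf1 hf2 ?_ ?_ ?_ ?_
    ?_ (fun s hs hs0 => hH0 s (hs1 hs) hs0) ?_
  · intro s hs _
    exact jc_of (hB.vj _ (hr3 s (hs2 hs)).2.1) rfl (hJ s (hs1 hs)).1 (hJ s (hs1 hs)).2
  · intro s hs
    refine (h2 s (hs1 hs)).trans ?_
    gcongr
    exact le_max_left _ _
  · intro s hs w hw
    exact hB.mle _ (hmem s hs w hw)
  · intro s hs w hw
    exact hB.ble _ (hmem s hs w hw)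
  · intro s hs w hw
    have := hB.mlip _ (hr3 s (hs2 hs)).2.1 _ (hmem s hs w hw)
    rw [hbeta s hs w] at this
    exact this
  · intro s hs w hw
    have := hB.blip _ (hr3 s (hs2 hs)).2.1 _ (hmem s hs w hw)
    rw [hbeta s hs w] at this
    exact this
  · intro s hs hs0
    obtain ⟨c, om, hom, hH⟩ := hloc s (hs1 hs) hs0
    refine ⟨fun i t => Zf (v (c i)) (e (c i)) (om i t), fun i => ?_, hH⟩
    obtain ⟨o1, o2, o3⟩ := hom i
    have hlt : ‖om i s‖ < η (c i) := by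
      have e1 := (hr3 s (hs2 hs)).2.2.2 (c i)
      rw [← o3.self_of_nhds, norm_pow] at e1
      exact lt_of_pow_lt_pow_left₀ _ (hη _).le e1
    obtain ⟨q1, ⟨l, hl, hl2⟩, q3⟩ := hsh (c i) (fun s => (u s).1) (om i) s o1 o3 o2 hlt
    refine ⟨q1, ⟨l, hl.trans (hΛle _), hl2⟩, ?_⟩
    refine q3.trans ?_
    calc D (c i) * ‖(u s).1‖ ≤ D0 * (C' * ‖s‖ ^ M) := by
          have := hDle (c i)
          have := h1 s (hs1 hs)
          gcongr
      _ = (D0 * C') * ‖s‖ ^ M := by ring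
      _ ≤ E * ‖s‖ ^ M := by
          gcongr
          exact (le_max_right _ _).trans (le_max_right _ _)

theorem windT {δ L : ℝ} (hB : MB J δ L) (B : ∀ c, Br J (v c) r1 (m c) (a c) C (e c))
    {u : ℂ → ℂ × ℂ} {r C' : ℝ} {M : ℕ} (hM : 1 ≤ M) (hr : 0 < r)
    (hu : ContDiffOn ℝ 1 u (ball 0 r)) (hJ : JHol J u (ball 0 r))
    (h1 : ∀ s ∈ ball (0 : ℂ) r, ‖(u s).1‖ ≤ C' * ‖s‖ ^ M)
    (h2 : ∀ s ∈ ball (0 : ℂ) r, ‖(u s).2‖ ≤ C' * ‖s‖ ^ M) {H : ℂ → ℂ}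
    (hH0 : ∀ s ∈ ball (0 : ℂ) r, s ≠ 0 → H s ≠ 0) (T : Finset (Σ _ : Fin n, ℕ))
    (hloc : ∀ s ∈ ball (0 : ℂ) r, s ≠ 0 → ∃ (om : (Σ _ : Fin n, ℕ) → ℂ → ℂ),
      (∀ p ∈ T, ContDiffAt ℝ 1 (om p) s ∧ om p s ≠ 0 ∧
        ∀ᶠ t in 𝓝 s, om p t ^ m p.1 = (u t).1) ∧
      H =ᶠ[𝓝 s] fun t => ∏ p ∈ T, ((u t).2 - Zf (v p.1) (e p.1) (om p t))) :
    ∃ r0 > 0, r0 ≤ r ∧ ∃ N : ℤ, ((M * T.card : ℕ) : ℤ) ≤ N ∧
      ∀ r', 0 < r' → r' < r0 → IsW H 0 r' N := by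
  refine windS hB B hM hr hu hJ h1 h2 hH0 fun s hs hs0 => ?_
  obtain ⟨om, hom, hH⟩ := hloc s hs hs0
  refine ⟨fun i => (T.equivFin.symm i).1.1, fun i => om (T.equivFin.symm i).1,
    fun i => hom _ (T.equivFin.symm i).2, ?_⟩
  filter_upwards [hH] with t ht
  rw [ht]
  have e1 := Equiv.prod_comp T.equivFin.symm
    (fun p : T => ((u t).2 - Zf (v p.1.1) (e p.1.1) (om p.1 t)))
  rw [e1]
  exact (Finset.prod_coe_sort T fun p => ((u t).2 - Zf (v p.1) (e p.1) (om p t))).symm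

/-- the roots of a nonzero number -/
theorem exists_root_ne {k : ℕ} (hk : k ≠ 0) {ζ : ℂ} (h : ζ ≠ 0) : ∃ w : ℂ, w ^ k = ζ ∧ w ≠ 0 := by
  obtain ⟨w, hw⟩ := exists_root hk ζ
  refine ⟨w, hw, ?_⟩
  rintro rfl
  rw [zero_pow hk] at hw
  exact h hw.symm

theorem contDiffAt_bt_comp {k : ℕ} {w : ℂ} (hw : w ≠ 0) (j : ℕ) {f : ℂ → ℂ} {s : ℂ}
    (hf : ContDiffAt ℝ 1 f s) (h : f s = w ^ k) :
    ContDiffAt ℝ 1 (fun t => xi k ^ j * bt k w (f t)) s := by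
  have h1 : ContDiffAt ℝ 1 (bt k w) (w ^ k) :=
    (analyticAt_bt (self_mem_cutPlane hw)).contDiffAt.restrict_scalars ℝ
  rw [← h] at h1
  exact contDiffAt_const.mul (h1.comp s hf)

/-- **winding number along another curve** -/
theorem windF {δ L : ℝ} (hB : MB J δ L) (B : ∀ c, Br J (v c) r1 (m c) (a c) C (e c))
    {u : ℂ → ℂ × ℂ} {r C' : ℝ} {M : ℕ} (hM : 1 ≤ M) (hr : 0 < r)
    (hu : ContDiffOn ℝ 1 u (ball 0 r)) (hJ : JHol J u (ball 0 r))
    (h1 : ∀ s ∈ ball (0 : ℂ) r, ‖(u s).1‖ ≤ C' * ‖s‖ ^ M)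
    (h2 : ∀ s ∈ ball (0 : ℂ) r, ‖(u s).2‖ ≤ C' * ‖s‖ ^ M)
    (hne : ∀ s ∈ ball (0 : ℂ) r, s ≠ 0 → (u s).1 ≠ 0)
    (hH0 : ∀ s ∈ ball (0 : ℂ) r, s ≠ 0 →
      bp m (fun c => Zf (v c) (e c)) (u s).1 (u s).2 ≠ 0) :
    ∃ r0 > 0, r0 ≤ r ∧ ∃ N : ℤ, ((M * ∑ c, m c : ℕ) : ℤ) ≤ N ∧
      ∀ r', 0 < r' → r' < r0 →
        IsW (fun s => bp m (fun c => Zf (v c) (e c)) (u s).1 (u s).2) 0 r' N := by
  have hm : ∀ c, m c ≠ 0 := fun c => by have := (B c).m_pos; omega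
  set T : Finset (Σ _ : Fin n, ℕ) := Finset.univ.sigma (fun c => Finset.range (m c)) with hT
  have hc : T.card = ∑ c, m c := by simp [hT]
  rw [← hc]
  refine windT hB B hM hr hu hJ h1 h2 hH0 T fun s hs hs0 => ?_
  have hus : ContDiffAt ℝ 1 u s := hu.contDiffAt (isOpen_ball.mem_nhds hs)
  choose w hw hw0 using fun c => exists_root_ne (hm c) (hne s hs hs0)
  refine ⟨fun p t => xi (m p.1) ^ p.2 * bt (m p.1) (w p.1) (u t).1, fun p _ => ⟨?_, ?_, ?_⟩, ?_⟩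
  · exact contDiffAt_bt_comp (hw0 p.1) p.2 hus.fst (hw p.1).symm
  · exact mul_ne_zero (xi_pow_ne (hm _) _) (bt_ne (hm _) (hw0 _) (hne s hs hs0))
  · refine Eventually.of_forall fun t => ?_
    rw [mul_pow, xi_pow_pow (hm _), one_mul, bt_pow (hm _) (hw0 _)]
  · refine Eventually.of_forall fun t => ?_
    show bp m (fun c => Zf (v c) (e c)) (u t).1 (u t).2 = _
    rw [bp, hT]
    refine Eq.trans ?_ (Finset.prod_sigma _ _ _).symm
    refine Finset.prod_congr rfl fun c _ => ?_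
    exact rp_bt (hm c) _ (hw0 c) _ _

theorem Br.pt {v : ℂ → ℂ × ℂ} {r1 : ℝ} {m : ℕ} {a : ℂ} {C : ℝ} {e : OpenPartialHomeomorph ℂ ℂ}
    (B : Br J v r1 m a C e) {w : ℂ} (hw : w ∈ e.target) : v (e.symm w) = (w ^ m, Zf v e w) := by
  refine Prod.ext ?_ rfl
  have h1 := B.pow _ (e.map_target hw)
  rw [e.right_inv hw] at h1
  exact h1.symm

/-- a common radius of the targets -/
theorem exists_tgt (B : ∀ c, Br J (v c) r1 (m c) (a c) C (e c)) :
    ∃ η > 0, ∀ c, ball (0 : ℂ) η ⊆ (e c).target := by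
  have h : ∀ c, ∃ η > 0, ball (0 : ℂ) η ⊆ (e c).target := fun c =>
    Metric.isOpen_iff.1 (e c).open_target 0 (B c).mem0t
  choose η hη hη2 using h
  obtain ⟨η0, h0, h1⟩ := exists_pos_le hη
  exact ⟨η0, h0, fun c => (ball_subset_ball (h1 c)).trans (hη2 c)⟩

theorem mem_tgt {η : ℝ} (hη : 0 < η) {k : ℕ} {w ζ : ℂ} (hw : w ^ k = ζ) (h : ‖ζ‖ < η ^ k) :
    w ∈ ball (0 : ℂ) η := by
  rw [mem_ball, dist_zero_right]
  rw [← hw, norm_pow] at h
  exact lt_of_pow_lt_pow_left₀ _ hη.le h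

/-- **winding number of the factor of the derivative along a branch** -/
theorem windHb {δ L : ℝ} (hB : MB J δ L) (B : ∀ c, Br J (v c) r1 (m c) (a c) C (e c))
    (sep : ∀ i j, ∀ s ∈ ball (0 : ℂ) r1, ∀ t ∈ ball (0 : ℂ) r1, v i s = v j t → s ≠ 0 →
      i = j ∧ s = t) (b : Fin n) :
    ∃ r0 > 0, ball 0 r0 ⊆ (e b).source ∧
      (∀ s ∈ ball (0 : ℂ) r0, s ≠ 0 → hb m (fun c => Zf (v c) (e c)) b (e b s) ≠ 0) ∧
      ∃ N : ℤ, ((m b * (∑ c, m c - 1) : ℕ) : ℤ) ≤ N ∧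
      ∀ r', 0 < r' → r' < r0 →
        IsW (fun s => hb m (fun c => Zf (v c) (e c)) b (e b s)) 0 r' N := by
  have hm : ∀ c, m c ≠ 0 := fun c => by have := (B c).m_pos; omega
  obtain ⟨η, hη, htgt⟩ := exists_tgt B
  -- the radius
  have hvc : ContinuousAt (v b) 0 := (B b).contAt
  have hev : ∀ᶠ s in 𝓝 (0 : ℂ), s ∈ (e b).source ∧ ∀ c, ‖(v b s).1‖ < η ^ m c := by
    refine Filter.Eventually.and ((e b).open_source.mem_nhds (B b).mem0) ?_
    rw [Filter.eventually_all]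
    intro c
    have e1 : ContinuousAt (fun s => ‖(v b s).1‖) 0 := (continuous_fst.continuousAt.comp hvc).norm
    refine e1.eventually (Iio_mem_nhds ?_)
    show ‖(v b 0).1‖ < _
    rw [(B b).v0]
    simpa using pow_pos hη _
  obtain ⟨r, hr, hrr⟩ := Metric.eventually_nhds_iff_ball.1 hev
  have hsrc : ball (0 : ℂ) r ⊆ (e b).source := fun s hs => (hrr s hs).1
  have hball : ball (0 : ℂ) r ⊆ ball 0 r1 := hsrc.trans (B b).src
  set Z : Fin n → ℂ → ℂ := fun c => Zf (v c) (e c) with hZ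
  have hes : ∀ s ∈ ball (0 : ℂ) r, s ≠ 0 → e b s ≠ 0 := by
    intro s hs hs0 h0
    apply hs0
    have h1 := (e b).left_inv (hsrc hs)
    rw [h0, (B b).symm0] at h1
    exact h1.symm
  have hZb : ∀ s ∈ ball (0 : ℂ) r, Z b (e b s) = (v b s).2 := by
    intro s hs
    show (v b ((e b).symm (e b s))).2 = _
    rw [(e b).left_inv (hsrc hs)]
  have hpw : ∀ s ∈ ball (0 : ℂ) r, e b s ^ m b = (v b s).1 := fun s hs => (B b).pow s (hsrc hs)
  have hpt : ∀ s ∈ ball (0 : ℂ) r, s ≠ 0 → ∀ c w, w ^ m c = (v b s).1 → (v b s).2 = Z c w →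
      b = c ∧ w = e c s := by
    intro s hs hs0 c w hw1 hw2
    have h1 := htgt c (mem_tgt hη hw1 ((hrr s hs).2 c))
    have h2 : v b s = v c ((e c).symm w) := by
      rw [(B c).pt h1]
      exact Prod.ext hw1.symm hw2
    obtain ⟨h3, h4⟩ := sep b c s (hball hs) _ ((B c).src ((e c).map_target h1)) h2 hs0
    refine ⟨h3, ?_⟩
    rw [h4, (e c).right_inv h1]
  have hH0 : ∀ s ∈ ball (0 : ℂ) r, s ≠ 0 → hb m Z b (e b s) ≠ 0 := by
    intro s hs hs0 h0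
    rw [hb] at h0
    rcases mul_eq_zero.1 h0 with h1 | h1
    · obtain ⟨c, hc, h2⟩ := Finset.prod_eq_zero_iff.1 h1
      rw [hpw s hs, hZb s hs] at h2
      obtain ⟨w, hw1, hw2⟩ := (rp_eq_zero (hm c) _ _ _).1 h2
      exact (Finset.ne_of_mem_erase hc) (hpt s hs hs0 c w hw1 hw2).1.symm
    · rw [hk] at h1
      obtain ⟨j, hj, h2⟩ := Finset.prod_eq_zero_iff.1 h1
      rw [Finset.mem_Ico] at hj
      rw [hZb s hs] at h2
      have h3 : (xi (m b) ^ j * e b s) ^ m b = (v b s).1 := by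
        rw [mul_pow, xi_pow_pow (hm b), one_mul, hpw s hs]
      have h4 := (hpt s hs hs0 b _ h3 (sub_eq_zero.1 h2)).2
      have h5 : xi (m b) ^ j = 1 := by
        have h6 := hes s hs hs0
        have h7 : (xi (m b) ^ j - 1) * e b s = 0 := by linear_combination h4
        rcases mul_eq_zero.1 h7 with h8 | h8
        · linear_combination h8
        · exact absurd h8 h6
      exact (xi_prim (hm b)).pow_ne_one_of_pos_of_lt (by omega) hj.2 h5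
  set T : Finset (Σ _ : Fin n, ℕ) :=
    Finset.univ.sigma (fun c => if c = b then Finset.Ico 1 (m b) else Finset.range (m c)) with hT
  have hcard : T.card = ∑ c, m c - 1 := by
    have e1 : T.card = ∑ c, (if c = b then m b - 1 else m c) := by
      rw [hT, Finset.card_sigma]
      refine Finset.sum_congr rfl fun c _ => ?_
      split_ifs <;> simp
    rw [e1, ← Finset.add_sum_erase _ _ (Finset.mem_univ b),
      ← Finset.add_sum_erase Finset.univ m (Finset.mem_univ b), if_pos rfl]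
    have e2 : ∑ c ∈ Finset.univ.erase b, (if c = b then m b - 1 else m c) =
        ∑ c ∈ Finset.univ.erase b, m c :=
      Finset.sum_congr rfl fun c hc => if_neg (Finset.ne_of_mem_erase hc)
    rw [e2]
    have := (B b).m_pos
    omega
  rw [← hcard]
  -- bounds
  have hvr : ∀ s ∈ ball (0 : ℂ) r, ‖s‖ ≤ r1 := fun s hs => by
    have := hball hs
    rw [mem_ball, dist_zero_right] at this
    exact this.le
  suffices h : ∃ r0 > 0, r0 ≤ r ∧ ∃ N : ℤ, ((m b * T.card : ℕ) : ℤ) ≤ N ∧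
      ∀ r', 0 < r' → r' < r0 → IsW (fun s => hb m Z b (e b s)) 0 r' N by
    obtain ⟨r0, hr0, hr0r, N, hN, hW⟩ := h
    exact ⟨r0, hr0, (ball_subset_ball hr0r).trans hsrc,
      fun s hs hs0 => hH0 s (ball_subset_ball hr0r hs) hs0, N, hN, hW⟩
  have hCn := (B b).C_nonneg
  have hr1 := (B b).r1_pos
  refine windT hB B (u := v b) (r := r)
    (C' := ‖a b‖ + C * r1 + C) (M := m b) (B b).m_pos hr
    (((B b).smooth.mono hball).of_le (by exact_mod_cast le_top))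
    (fun s hs => (B b).hol s (hball hs)) ?_ ?_ (H := fun s => hb m Z b (e b s)) hH0 T ?_
  · intro s hs
    have h1 := (B b).ζ0 s (hball hs)
    have h2 : ‖(v b s).1‖ ≤ ‖(v b s).1 - a b * s ^ m b‖ + ‖a b * s ^ m b‖ := by
      have : (v b s).1 = ((v b s).1 - a b * s ^ m b) + a b * s ^ m b := by ring
      conv_lhs => rw [this]
      exact norm_add_le _ _
    rw [norm_mul, norm_pow] at h2
    have h3 : C * ‖s‖ ^ (m b + 1) ≤ C * r1 * ‖s‖ ^ m b := by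
      rw [pow_succ]
      have := hvr s hs
      calc C * (‖s‖ ^ m b * ‖s‖) ≤ C * (‖s‖ ^ m b * r1) := by gcongr
        _ = C * r1 * ‖s‖ ^ m b := by ring
    have h4 : 0 ≤ C * ‖s‖ ^ m b := by positivity
    linarith
  · intro s hs
    refine ((B b).z0 s (hball hs)).trans ?_
    have h4 : 0 ≤ (‖a b‖ + C * r1) * ‖s‖ ^ m b := by positivity
    linarith
  · intro s hs hs0
    have hbs := hes s hs hs0
    have hζne : (v b s).1 ≠ 0 := by
      rw [← hpw s hs]; exact pow_ne_zero _ hbs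
    choose w hw hw0 using fun c => exists_root_ne (hm c) hζne
    have hnb : ball (0 : ℂ) r ∈ 𝓝 s := isOpen_ball.mem_nhds hs
    have hvs : ContDiffAt ℝ 1 (v b) s :=
      ((B b).smooth.contDiffAt (isOpen_ball.mem_nhds (hball hs))).of_le (by exact_mod_cast le_top)
    have hecs : ContDiffAt ℝ 1 (e b) s :=
      (B b).c1.contDiffAt ((e b).open_source.mem_nhds (hsrc hs))
    refine ⟨fun p t => if p.1 = b then xi (m b) ^ p.2 * e b t else
      xi (m p.1) ^ p.2 * bt (m p.1) (w p.1) (v b t).1, fun p _ => ?_, ?_⟩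
    · by_cases hp : p.1 = b
      · simp only [if_pos hp]
        refine ⟨contDiffAt_const.mul hecs, mul_ne_zero (xi_pow_ne (hm _) _) hbs, ?_⟩
        filter_upwards [hnb] with t ht
        rw [hp, mul_pow, xi_pow_pow (hm _), one_mul, hpw t ht]
      · simp only [if_neg hp]
        refine ⟨contDiffAt_bt_comp (hw0 p.1) p.2 hvs.fst (hw p.1).symm,
          mul_ne_zero (xi_pow_ne (hm _) _) (bt_ne (hm _) (hw0 _) hζne),
          Eventually.of_forall fun t => ?_⟩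
        rw [mul_pow, xi_pow_pow (hm _), one_mul, bt_pow (hm _) (hw0 _)]
    · filter_upwards [hnb] with t ht
      rw [hb, hT]
      refine Eq.trans ?_ (Finset.prod_sigma _ _ _).symm
      rw [← Finset.prod_erase_mul _ _ (Finset.mem_univ b), hpw t ht, hZb t ht]
      congr 1
      · refine Finset.prod_congr rfl fun c hc => ?_
        have hcb := Finset.ne_of_mem_erase hc
        rw [if_neg hcb, rp_bt (hm c) _ (hw0 c)]
        refine Finset.prod_congr rfl fun j _ => ?_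
        simp only [if_neg hcb]
        rfl
      · rw [if_pos rfl, hk]
        refine Finset.prod_congr rfl fun j _ => ?_
        rw [hZb t ht]
        simp only [if_pos]
        rfl

end many

end

end Crest.Agent.R235.AdjSheet_688
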