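import Mathlib
import Crest.Prelude.Def_TwoFormTriple
import Crest.Agent.R240.IntTop
import Crest.Agent.R240.XInst
import Crest.Agent.R240.TopDefs
import Crest.Agent.R240.Ch7

/-!
Row 235 (S0364, hypersymplectic conjecture), helper837: COMMON DEFINITIONS (frozen interface).
Forms are those of R240: `X2 M` smooth two-forms, `Z2 M` closed ones, `ExS M` exact ones,
`Int.I F a b = ∫ a∧b` with the orientation of the nondegenerate form `F`.
-/

set_option autoImplicit false
set_option maxSynthPendingDepth 3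

open Set Function Filter MeasureTheory
open scoped Manifold ContDiff Topology

universe u

namespace Crest.Agent.R235

open Crest.Agent.R240 Crest.Agent.R240.Ch Crest.Agent.R240.Int

noncomputable section

section Basic

variable (M : Type u) [TopologicalSpace M] [ChartedSpace E4 M] [IsManifold 𝓘(ℝ, E4) ∞ M]

/-- the exact forms. -/
def EX2 : Submodule ℝ (X2 M) where
  carrier := {b | IsEx (b : F2 E4 M)}
  zero_mem' := by
    show IsEx (0 : F2 E4 M)
    refine isEx_iff.2 ⟨0, smooth1_zero, ?_⟩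
    have h := dG_smul (0 : ℝ) (smooth1_zero (E := E4) (M := M))
    simpa using h.symm
  add_mem' := by
    intro a b ha hb
    obtain ⟨s, hs, hsa⟩ := isEx_iff.1 ha
    obtain ⟨t, ht, htb⟩ := isEx_iff.1 hb
    refine isEx_iff.2 ⟨s + t, hs.add ht, ?_⟩
    rw [dG_add hs ht, ← hsa, ← htb]
    rfl
  smul_mem' := by
    intro c a ha
    obtain ⟨s, hs, hsa⟩ := isEx_iff.1 ha
    refine isEx_iff.2 ⟨c • s, hs.smul c, ?_⟩
    rw [dG_smul c hs, ← hsa]
    rfl

/-- the exact forms inside the closed ones. -/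
def B2 : Submodule ℝ (Z2 M) := (EX2 M).comap (Z2 M).subtype

/-- second de Rham cohomology. -/
abbrev H2 : Type u := (Z2 M) ⧸ (B2 M)

variable {M}

/-- the class of a closed form. -/
def cls : Z2 M →ₗ[ℝ] H2 M := (B2 M).mkQ

/-- the value at `x`. -/
def val (a : Z2 M) (x : M) : Bil := at2 (a.1.1 : F2 E4 M) x

variable (M) in
/-- a triple of closed smooth two-forms. -/
abbrev Trip : Type u := Fin 3 → Z2 M

/-- positivity: every non-trivial combination is nondegenerate everywhere. -/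
def Pos3 (w : Trip M) : Prop :=
  ∀ (x : M) (c : Fin 3 → ℝ), c ≠ 0 →
    W (∑ i, c i • val (w i) x) (∑ i, c i • val (w i) x) ≠ 0

/-- hyperkaehler: the wedge matrix is a constant positive definite matrix times a function. -/
def HK (w : Trip M) : Prop :=
  ∃ G : Matrix (Fin 3) (Fin 3) ℝ, G.PosDef ∧ ∀ x : M, ∃ s : ℝ,
    ∀ i j, W (val (w i) x) (val (w j) x) = s * G i j

/-- the straight segment of triples. -/
def seg (w w' : Trip M) (t : ℝ) : Trip M := fun i => (1 - t) • w i + t • w' i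

/-- the straight segment consists of positive triples. -/
def Seg (w w' : Trip M) : Prop := ∀ t : ℝ, 0 ≤ t → t ≤ 1 → Pos3 (seg w w' t)

/-- same classes. -/
def SameCls (w w' : Trip M) : Prop := ∀ i, cls (w i) = cls (w' i)

/-- joined by a polygonal path of positive triples (the classes may vary). -/
def PL (w w' : Trip M) : Prop := Relation.ReflTransGen Seg w w'

/-- joined by a polygonal path of positive triples with constant classes. -/
def Joined (w w' : Trip M) : Prop :=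
  Relation.ReflTransGen (fun a b => Seg a b ∧ SameCls a b) w w'

/-- `J` is the almost complex structure of the pair `(w 1, w 2)` tamed by `w 0`:
`w 1`, `w 2` are `J`-anti-invariant. -/
structure IsJ (w : Trip M) (J : EndF E4 M) : Prop where
  smooth : SmoothJ J
  sq : ∀ x v, atJ J x (atJ J x v) = -v
  anti1 : ∀ x u v, val (w 1) x (atJ J x u) (atJ J x v) = - val (w 1) x u v
  anti2 : ∀ x u v, val (w 2) x (atJ J x u) (atJ J x v) = - val (w 2) x u v
  tame : ∀ x v, v ≠ 0 → 0 < val (w 0) x v (atJ J x v)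

end Basic

section Closed

variable {M : Type u} [TopologicalSpace M] [T2Space M] [CompactSpace M]
  [ChartedSpace E4 M] [IsManifold 𝓘(ℝ, E4) ∞ M]

/-- `∫ a ∧ b` for closed forms, orientation of `F`. -/
def pI (F : Z2 M) (a b : Z2 M) : ℝ :=
  letI : MeasurableSpace M := borel M
  haveI : BorelSpace M := ⟨rfl⟩
  Int.I (F.1.1 : F2 E4 M) (a.1.1 : F2 E4 M) (b.1.1 : F2 E4 M)

/-- the intersection form on cohomology, orientation of `F` (via representatives). -/
def ip (F : Z2 M) (a b : H2 M) : ℝ :=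
  pI F (surjInv (B2 M).mkQ_surjective a) (surjInv (B2 M).mkQ_surjective b)

/-- the entries of the differential of a matrix-valued map, in the preferred chart at `x`. -/
def dmat {N : ℕ} (p : M → Matrix (Fin N) (Fin N) ℂ) (x : M) (v : E4) :
    Matrix (Fin N) (Fin N) ℂ :=
  fun i j => fderiv ℝ (fun y : E4 => p ((chartAt E4 x).symm y) i j) (chartAt E4 x x) v

/-- a smooth rank one hermitian projection = a smooth complex line bundle inside `ℂ^N`. -/
structure IsLine {N : ℕ} (p : M → Matrix (Fin N) (Fin N) ℂ) : Prop where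
  smooth : ∀ i j, ContMDiff 𝓘(ℝ, E4) 𝓘(ℝ, ℂ) ∞ (fun x => p x i j)
  idem : ∀ x, p x * p x = p x
  herm : ∀ x, (p x).conjTranspose = p x
  rank : ∀ x, (p x).trace = 1

/-- `a` is the Chern form of the line bundle `p`:
`a(u,v) = (i/2π) tr(p [dp(u), dp(v)])`. -/
def IsChern {N : ℕ} (p : M → Matrix (Fin N) (Fin N) ℂ) (a : Z2 M) : Prop :=
  ∀ (x : M) (u v : E4), val a x u v =
    ((Complex.I / (2 * Real.pi)) *
      (p x * (dmat p x u * dmat p x v - dmat p x v * dmat p x u)).trace).re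

variable (M) in
/-- the integral classes: Chern classes of line bundles. -/
def HZ : Set (H2 M) :=
  {c | ∃ (N : ℕ) (p : M → Matrix (Fin N) (Fin N) ℂ) (a : Z2 M),
    IsLine p ∧ IsChern p a ∧ cls a = c}

/-- the roots. -/
def Root (F : Z2 M) : Set (H2 M) := {d | d ∈ HZ M ∧ ip F d d = -2}

/-- closed one-forms (charts). -/
def Closed1 (s : F1 E4 M) : Prop :=
  Smooth1 s ∧ ∀ p : M, ∀ y ∈ (chartAt E4 p).target, d1 (rep1 p s) y = 0

variable (M) in
/-- every closed one-form is exact: `b₁ = 0`. -/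
def B1Zero : Prop := ∀ s : F1 E4 M, Closed1 s → ∃ f : M → ℝ, SmoothF E4 f ∧ s = dF f

/-- the Gram matrix of `3U ⊕ 2E₈(-1)`. -/
def gK3 : Matrix (Fin 3 × Fin 2 ⊕ Fin 2 × Fin 8) (Fin 3 × Fin 2 ⊕ Fin 2 × Fin 8) ℤ :=
  fun a b => match a, b with
    | Sum.inl (i, s), Sum.inl (j, t) => if i = j ∧ s ≠ t then 1 else 0
    | Sum.inr (i, s), Sum.inr (j, t) => if i = j then - CartanMatrix.E₈ s t else 0
    | _, _ => 0

/-- K3 type: `b₁ = 0` and the integral classes form the K3 lattice. -/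
def K3Type (F : Z2 M) : Prop :=
  B1Zero M ∧ ∃ e : Module.Basis (Fin 3 × Fin 2 ⊕ Fin 2 × Fin 8) ℝ (H2 M),
    (∀ i j, ip F (e i) (e j) = gK3 i j) ∧
    HZ M = {c | ∃ n : (Fin 3 × Fin 2 ⊕ Fin 2 × Fin 8) → ℤ, c = ∑ i, (n i : ℝ) • e i}

/-- torus type: four closed one-forms `s 0 .. s 3` generating `H¹`, with `∫ s0∧s1∧s2∧s3 = ± 1`,
whose products span `H²` over `ℝ` and the integral classes over `ℤ`. -/
def T4Type (F : Z2 M) : Prop :=
  ∃ s : Fin 4 → F1 E4 M, (∀ i, Closed1 (s i)) ∧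
    (∀ r : F1 E4 M, Closed1 r → ∃ (c : Fin 4 → ℝ) (f : M → ℝ), SmoothF E4 f ∧
      r = (∑ i, c i • s i) + dF f) ∧
    ∃ a : Fin 4 → Fin 4 → Z2 M, (∀ i j, (a i j).1.1 = wedG (s i) (s j)) ∧
      (∀ i j k l, pI F (a i j) (a k l) =
        Matrix.det (fun m : Fin 4 => (Pi.single (![i, j, k, l] m) 1 : Fin 4 → ℝ)) *
          pI F (a 0 1) (a 2 3)) ∧
      |pI F (a 0 1) (a 2 3)| = 1 ∧
      (∀ c : H2 M, ∃ n : Fin 4 → Fin 4 → ℝ, c = ∑ i, ∑ j, n i j • cls (a i j)) ∧
      HZ M = {c | ∃ n : Fin 4 → Fin 4 → ℤ, c = ∑ i, ∑ j, (n i j : ℝ) • cls (a i j)}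

/-- positive closed (1,1)-currents (possibly `0`): `S b = S b'`, `S ≥ 0` on the cone of
semi-positive invariant forms, `S` kills the exact forms. -/
structure PCur (J : EndF E4 M) (S : X2 M →ₗ[ℝ] ℝ) : Prop where
  inv : ∀ b c : X2 M, (∀ x, invp (atJ J x) (at2 (b.1 : F2 E4 M) x) = at2 (c.1 : F2 E4 M) x) →
    S b = S c
  nonneg : ∀ b : X2 M, PosG J (b.1 : F2 E4 M) → 0 ≤ S b
  closed : ∀ b : X2 M, IsEx (b.1 : F2 E4 M) → S b = 0

/-- three-space. -/
abbrev E3 : Type := EuclideanSpace ℝ (Fin 3)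

/-- the plane. -/
abbrev Ep : Type := EuclideanSpace ℝ (Fin 2)

/-- the differential of a map `σ : V → M` at `y`, read in the preferred chart at `σ y`. -/
def dmap {V : Type} [NormedAddCommGroup V] [NormedSpace ℝ V] (σ : V → M) (y v : V) : E4 :=
  fderiv ℝ (fun z : V => chartAt E4 (σ y) (σ z)) y v

/-- a smooth embedded sphere, given by a map of `ℝ³ ∖ 0`, homogeneous of degree `0`. -/
structure EmbS (σ : E3 → M) : Prop where
  smooth : ContMDiffOn 𝓘(ℝ, E3) 𝓘(ℝ, E4) ∞ σ {0}ᶜ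
  hom : ∀ (t : ℝ) (y : E3), 0 < t → y ≠ 0 → σ (t • y) = σ y
  inj : ∀ y z : E3, ‖y‖ = 1 → ‖z‖ = 1 → σ y = σ z → y = z
  imm : ∀ y v : E3, ‖y‖ = 1 → dmap σ y v = 0 → ∃ t : ℝ, v = t • y

/-- the integral of a two-form over the sphere, oriented by the outer normal. -/
def sphI (σ : E3 → M) (b : F2 E4 M) : ℝ :=
  ∫ y : Metric.sphere (0 : E3) 1,
    ((y : E3) 2 * at2 b (σ y) (dmap σ y (EuclideanSpace.single 0 1))
        (dmap σ y (EuclideanSpace.single 1 1)) +
      (y : E3) 0 * at2 b (σ y) (dmap σ y (EuclideanSpace.single 1 1))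
        (dmap σ y (EuclideanSpace.single 2 1)) +
      (y : E3) 1 * at2 b (σ y) (dmap σ y (EuclideanSpace.single 2 1))
        (dmap σ y (EuclideanSpace.single 0 1)))
    ∂((volume : Measure E3).toSphere)

/-- a `J`-sphere for the pair `(w 1, w 2)`, positively oriented for `w 0`, in the class `d`. -/
structure JSph (w : Trip M) (σ : E3 → M) (d : H2 M) : Prop where
  emb : EmbS σ
  lag1 : ∀ y u v : E3, ‖y‖ = 1 → val (w 1) (σ y) (dmap σ y u) (dmap σ y v) = 0
  lag2 : ∀ y u v : E3, ‖y‖ = 1 → val (w 2) (σ y) (dmap σ y u) (dmap σ y v) = 0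
  rep : ∀ b : Z2 M, sphI σ (b.1.1 : F2 E4 M) = ip (w 0) d (cls b)
  pos : 0 < ip (w 0) d (cls (w 0))

/-- an embedded torus, given by a `ℤ²`-periodic map of the plane. -/
structure EmbT (σ : Ep → M) : Prop where
  smooth : ContMDiff 𝓘(ℝ, Ep) 𝓘(ℝ, E4) ∞ σ
  per : ∀ (y : Ep) (n : Fin 2 → ℤ), σ (y + (WithLp.toLp 2 fun i => (n i : ℝ))) = σ y
  inj : ∀ y z : Ep, σ y = σ z → ∃ n : Fin 2 → ℤ, z = y + (WithLp.toLp 2 fun i => (n i : ℝ))
  imm : ∀ y v : Ep, dmap σ y v = 0 → v = 0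

/-- the integral of a two-form over the torus. -/
def torI (σ : Ep → M) (b : F2 E4 M) : ℝ :=
  ∫ y : Fin 2 → ℝ in Set.pi univ (fun _ => Set.Icc (0 : ℝ) 1),
    at2 b (σ (WithLp.toLp 2 y)) (dmap σ (WithLp.toLp 2 y) (EuclideanSpace.single 0 1))
      (dmap σ (WithLp.toLp 2 y) (EuclideanSpace.single 1 1))

/-- a `J`-torus for the pair `(w 1, w 2)` in the class `e`. -/
structure JTor (w : Trip M) (σ : Ep → M) (e : H2 M) : Prop where
  emb : EmbT σ
  lag1 : ∀ y u v : Ep, val (w 1) (σ y) (dmap σ y u) (dmap σ y v) = 0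
  lag2 : ∀ y u v : Ep, val (w 2) (σ y) (dmap σ y u) (dmap σ y v) = 0
  rep : ∀ b : Z2 M, torI σ (b.1.1 : F2 E4 M) = ip (w 0) e (cls b)
  pos : 0 < ip (w 0) e (cls (w 0))

/-- `b` is a positive frame of `H²` in the same component as the classes of `w`. -/
structure Frame (w : Trip M) (b : Fin 3 → H2 M) : Prop where
  pos : (Matrix.of fun i j => ip (w 0) (b i) (b j)).PosDef
  ori : 0 < (Matrix.of fun i j => ip (w 0) (b i) (cls (w j))).det

end Closed

end

end Crest.Agent.R235
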