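import Crest.Agent.R235.Defs_837
import Crest.Agent.R235.RSDefs_538

/-!
Row 235 (S0364), PACKAGE REG, block REG-GLOB (helper370): frozen definitions.

* `IsDisc J u`     : `u : ball 0 1 → M` smooth, `J`-holomorphic, injective, immersive off `0`
* `LocForm J S p`  : the closed set `S` is near `p` a finite union of properly embedded `J`-discs
  through `p`, pairwise disjoint off `p` (producer: REG-LOC / REG-END)
* `LocForm.Cur`    : the current `C` is, near `p`, the sum of the integrals over the discs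
* `JCurve J`       : a closed connected Riemann surface `N` with a `J`-holomorphic map `f : N → M`
  injective and immersive off a finite set, with its current `T` (output of REG-GLOB)
* `GLOB`           : local form everywhere ⟹ `C = Σ T_i`, `T_i` the currents of finitely many
  `JCurve`s with pairwise finite intersection.
-/

set_option autoImplicit false
set_option maxSynthPendingDepth 3

open Set Function Filter MeasureTheory Metric
open scoped Manifold ContDiff Topology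

universe u

namespace Crest.Agent.R235.Glob_370

open Crest.Agent.R240 Crest.Agent.R240.Ch

noncomputable section

section Basic

variable {M : Type u} [TopologicalSpace M] [ChartedSpace E4 M] [IsManifold 𝓘(ℝ, E4) ∞ M]

/-- the pull-back density of a two-form: `b(∂ₛu, ∂ₜu)` at `z = s + i t`. -/
def pb (u : ℂ → M) (b : F2 E4 M) (z : ℂ) : ℝ :=
  at2 b (u z) (dmap u z 1) (dmap u z Complex.I)

/-- `u` is a smooth `J`-holomorphic map on the open set `O`. -/
structure IsJHol (J : EndF E4 M) (u : ℂ → M) (O : Set ℂ) : Prop where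
  smooth : ContMDiffOn 𝓘(ℝ, ℂ) 𝓘(ℝ, E4) ∞ u O
  jhol : ∀ z ∈ O, ∀ v : ℂ, dmap u z (Complex.I * v) = atJ J (u z) (dmap u z v)

/-- an injective `J`-disc, immersive off the centre. -/
structure IsDisc (J : EndF E4 M) (u : ℂ → M) : Prop where
  hol : IsJHol J u (ball 0 1)
  inj : InjOn u (ball 0 1)
  imm : ∀ z ∈ ball (0 : ℂ) 1, z ≠ 0 → ∀ v : ℂ, dmap u z v = 0 → v = 0

/-- local form at `p` of a `J`-curve with support `S`. -/
structure LocForm (J : EndF E4 M) (S : Set M) (p : M) : Type u where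
  /-- the neighbourhood -/
  U : Set M
  openU : IsOpen U
  mem : p ∈ U
  /-- the number of branches -/
  n : ℕ
  /-- the branches -/
  u : Fin n → ℂ → M
  disc : ∀ j, IsDisc J (u j)
  centre : ∀ j, u j 0 = p
  disj : ∀ i j, i ≠ j → ∀ z ∈ ball (0 : ℂ) 1, ∀ w ∈ ball (0 : ℂ) 1, u i z = u j w → z = 0
  supp : S ∩ U = ⋃ j, u j '' ball (0 : ℂ) 1
  proper : ∀ j, ∀ K : Set M, IsCompact K → K ⊆ U →
    ∃ r < (1 : ℝ), ∀ z ∈ ball (0 : ℂ) 1, u j z ∈ K → ‖z‖ ≤ r

/-- near `p` the current `C` is the sum of the integrals over the discs. -/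
def LocForm.Cur {J : EndF E4 M} {S : Set M} {p : M} (L : LocForm J S p)
    (C : X2 M →ₗ[ℝ] ℝ) : Prop :=
  ∀ (b : X2 M) (K : Set M), IsCompact K → K ⊆ L.U → (∀ x ∉ K, at2 (b.1 : F2 E4 M) x = 0) →
    C b = ∑ j, ∫ z in ball (0 : ℂ) 1, pb (L.u j) (b.1 : F2 E4 M) z

/-- a closed connected Riemann surface in `M`: normalisation of an irreducible `J`-curve. -/
structure JCurve (J : EndF E4 M) : Type (u + 1) where
  /-- the surface -/
  N : Type u
  [top : TopologicalSpace N]
  [t2 : T2Space N]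
  [cpt : CompactSpace N]
  [conn : ConnectedSpace N]
  /-- the holomorphic atlas -/
  A : RS.CAtl.{u, u} N
  /-- the map -/
  f : N → M
  cont : Continuous f
  hol : ∀ i, IsJHol J (fun z => f ((A.c i).symm z)) (A.c i).target
  /-- the current -/
  T : X2 M →ₗ[ℝ] ℝ
  pcur : PCur J T
  /-- the local form at every point -/
  L : ∀ p : M, LocForm J (range f) p
  /-- parametrisations of `f ⁻¹ (U_p)` -/
  φ : ∀ p : M, Fin (L p).n → ℂ → N
  φ_cont : ∀ p j, ContinuousOn (φ p j) (ball 0 1)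
  φ_inj : ∀ p j, InjOn (φ p j) (ball 0 1)
  φ_open : ∀ p j, ∀ O : Set ℂ, IsOpen O → O ⊆ ball 0 1 → IsOpen (φ p j '' O)
  φ_hol : ∀ p j i, DifferentiableOn ℂ (fun z => A.c i (φ p j z))
    {z | z ∈ ball (0 : ℂ) 1 ∧ φ p j z ∈ (A.c i).source}
  φ_imm : ∀ p j i, ∀ z ∈ ball (0 : ℂ) 1, φ p j z ∈ (A.c i).source →
    deriv (fun z => A.c i (φ p j z)) z ≠ 0
  φ_f : ∀ p j, ∀ z ∈ ball (0 : ℂ) 1, f (φ p j z) = (L p).u j z
  φ_cover : ∀ p x, f x ∈ (L p).U → ∃ j, ∃ z ∈ ball (0 : ℂ) 1, φ p j z = x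
  φ_disj : ∀ p i j, i ≠ j → ∀ z ∈ ball (0 : ℂ) 1, ∀ w ∈ ball (0 : ℂ) 1, φ p i z ≠ φ p j w
  cur : ∀ p, (L p).Cur T
  /-- injective and immersive off a finite set -/
  fin : ∃ F : Set N, F.Finite ∧ (∀ x y, x ∉ F → f x = f y → x = y) ∧
    ∀ i, ∀ z ∈ (A.c i).target, (A.c i).symm z ∉ F → ∀ v : ℂ,
      dmap (fun z => f ((A.c i).symm z)) z v = 0 → v = 0

attribute [instance] JCurve.top JCurve.t2 JCurve.cpt JCurve.conn

end Basic

/-- **REG-GLOB**: from the local form to finitely many closed Riemann surfaces. -/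
def GLOB : Prop :=
  ∀ (M : Type u) [TopologicalSpace M] [T2Space M] [CompactSpace M] [ConnectedSpace M]
    [ChartedSpace E4 M] [IsManifold 𝓘(ℝ, E4) ∞ M] (J : EndF E4 M), SmoothJ J →
    (∀ x v, atJ J x (atJ J x v) = -v) →
    ∀ (S : Set M) (C : X2 M →ₗ[ℝ] ℝ), (∀ p : M, ∃ L : LocForm J S p, L.Cur C) →
    ∃ (m : ℕ) (c : Fin m → JCurve J), C = ∑ i, (c i).T ∧ S = ⋃ i, range (c i).f ∧
      ∀ i j, i ≠ j → (range (c i).f ∩ range (c j).f).Finite

end

end Crest.Agent.R235.Glob_370
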