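import Mathlib
import Crest.Agent.R235.Defs_837
import Crest.Agent.R235.GlobDefs_370

/-!
Row 235 (S0364), helper61: calculus of `dmap` (differential of a map `σ : V → M` in the preferred
chart at `σ y`) and of the pull-back densities `at2 b (σ y) (dmap σ y u) (dmap σ y v)`, `pb u b`.
-/

set_option autoImplicit false
set_option maxSynthPendingDepth 3

open Set Function Filter MeasureTheory Metric
open scoped Manifold ContDiff Topology

universe u

namespace Crest.Agent.R235.Dm_61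

open Crest.Agent.R240 Crest.Agent.R240.Ch Crest.Agent.R235.Glob_370

noncomputable section

variable {M : Type u} [TopologicalSpace M] [ChartedSpace E4 M] [IsManifold 𝓘(ℝ, E4) ∞ M]
variable {V : Type} [NormedAddCommGroup V] [NormedSpace ℝ V]

/-! ### `dmap` -/

omit [IsManifold 𝓘(ℝ, E4) ∞ M] in
theorem dmap_add (σ : V → M) (y v w : V) : dmap σ y (v + w) = dmap σ y v + dmap σ y w :=
  map_add _ _ _

omit [IsManifold 𝓘(ℝ, E4) ∞ M] in
theorem dmap_smul (σ : V → M) (y : V) (c : ℝ) (v : V) : dmap σ y (c • v) = c • dmap σ y v :=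
  map_smul _ _ _

omit [IsManifold 𝓘(ℝ, E4) ∞ M] in
theorem dmap_zero (σ : V → M) (y : V) : dmap σ y 0 = 0 := map_zero _

omit [IsManifold 𝓘(ℝ, E4) ∞ M] in
theorem dmap_congr {σ σ' : V → M} {y : V} (h : σ =ᶠ[𝓝 y] σ') (v : V) :
    dmap σ y v = dmap σ' y v := by
  have h0 : σ y = σ' y := h.eq_of_nhds
  unfold dmap
  rw [h0]
  refine congrArg (fun A : V →L[ℝ] E4 => A v) (Filter.EventuallyEq.fderiv_eq ?_)
  filter_upwards [h] with z hz
  rw [hz]

/-- the coordinate expression of a smooth map is smooth, in every chart around the value. -/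
theorem contDiffAt_chart {σ : V → M} {y : V} (h : ContMDiffAt 𝓘(ℝ, V) 𝓘(ℝ, E4) ∞ σ y) {p : M}
    (hp : σ y ∈ (chartAt E4 p).source) :
    ContDiffAt ℝ ∞ (fun z => chartAt E4 p (σ z)) y := by
  have hc : ContMDiffAt 𝓘(ℝ, E4) 𝓘(ℝ, E4) ∞ (chartAt E4 p) (σ y) :=
    (contMDiffOn_chart (I := 𝓘(ℝ, E4)) (x := p)).contMDiffAt
      ((chartAt E4 p).open_source.mem_nhds hp)
  exact (hc.comp y h).contDiffAt

/-- smooth in a chart means smooth. -/
theorem contMDiffAt_of_chart {σ : V → M} {y : V} (hc : ContinuousAt σ y) {p : M}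
    (hp : σ y ∈ (chartAt E4 p).source)
    (h : ContDiffAt ℝ ∞ (fun z => chartAt E4 p (σ z)) y) :
    ContMDiffAt 𝓘(ℝ, V) 𝓘(ℝ, E4) ∞ σ y := by
  have hy : chartAt E4 p (σ y) ∈ (chartAt E4 p).target := (chartAt E4 p).map_source hp
  have hs : ContMDiffAt 𝓘(ℝ, E4) 𝓘(ℝ, E4) ∞ (chartAt E4 p).symm (chartAt E4 p (σ y)) :=
    (contMDiffOn_chart_symm (I := 𝓘(ℝ, E4)) (x := p)).contMDiffAt
      ((chartAt E4 p).open_target.mem_nhds hy)
  have h2 := hs.comp y h.contMDiffAt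
  refine h2.congr_of_eventuallyEq ?_
  filter_upwards [hc.preimage_mem_nhds ((chartAt E4 p).open_source.mem_nhds hp)] with z hz
  exact ((chartAt E4 p).left_inv hz).symm

/-- the differential of the coordinate expression in any chart. -/
theorem fderiv_chart {σ : V → M} {y : V} (h : ContMDiffAt 𝓘(ℝ, V) 𝓘(ℝ, E4) ∞ σ y) {p : M}
    (hp : σ y ∈ (chartAt E4 p).source) (v : V) :
    fderiv ℝ (fun z => chartAt E4 p (σ z)) y v = tcc (σ y) p (σ y) (dmap σ y v) := by
  have h0 : σ y ∈ (chartAt E4 (σ y)).source := mem_chart_source E4 (σ y)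
  have h1 : HasFDerivAt (fun z => chartAt E4 (σ y) (σ z))
      (fderiv ℝ (fun z => chartAt E4 (σ y) (σ z)) y) y :=
    ((contDiffAt_chart h h0).differentiableAt (by simp)).hasFDerivAt
  have hy : chartAt E4 (σ y) (σ y) ∈ (chartAt E4 (σ y)).target :=
    (chartAt E4 (σ y)).map_source h0
  have hq : (chartAt E4 (σ y)).symm (chartAt E4 (σ y) (σ y)) ∈ (chartAt E4 p).source := by
    rw [(chartAt E4 (σ y)).left_inv h0]; exact hp
  have h2 : HasFDerivAt (trans (E := E4) (σ y) p)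
      (fderiv ℝ (trans (E := E4) (σ y) p) (chartAt E4 (σ y) (σ y))) (chartAt E4 (σ y) (σ y)) :=
    ((trans_contDiffAt hy hq).differentiableAt (by simp)).hasFDerivAt
  have h3 := h2.comp y h1
  have h4 : (fun z => chartAt E4 p (σ z)) =ᶠ[𝓝 y]
      (trans (E := E4) (σ y) p) ∘ fun z => chartAt E4 (σ y) (σ z) := by
    filter_upwards [h.continuousAt.preimage_mem_nhds
      ((chartAt E4 (σ y)).open_source.mem_nhds h0)] with z hz
    exact (trans_apply hz).symm
  rw [h4.fderiv_eq, h3.fderiv, tcc_eq_fderiv_trans]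
  rfl

/-- `dmap σ y v = 0` can be tested in any chart. -/
theorem dmap_eq_zero_iff {σ : V → M} {y : V} (h : ContMDiffAt 𝓘(ℝ, V) 𝓘(ℝ, E4) ∞ σ y) {p : M}
    (hp : σ y ∈ (chartAt E4 p).source) (v : V) :
    dmap σ y v = 0 ↔ fderiv ℝ (fun z => chartAt E4 p (σ z)) y v = 0 := by
  rw [fderiv_chart h hp]
  constructor
  · intro h0; rw [h0, map_zero]
  · intro h0
    refine tcc_inj hp (u := dmap σ y v) (v := 0) ?_
    rw [h0, map_zero]

/-- chain rule. -/
theorem dmap_comp {V' : Type} [NormedAddCommGroup V'] [NormedSpace ℝ V'] {σ : V → M} {τ : V' → V}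
    {y : V'} (h : ContMDiffAt 𝓘(ℝ, V) 𝓘(ℝ, E4) ∞ σ (τ y)) (hτ : DifferentiableAt ℝ τ y) (v : V') :
    dmap (fun z => σ (τ z)) y v = dmap σ (τ y) (fderiv ℝ τ y v) := by
  have h0 : σ (τ y) ∈ (chartAt E4 (σ (τ y))).source := mem_chart_source E4 (σ (τ y))
  have h1 : HasFDerivAt (fun z => chartAt E4 (σ (τ y)) (σ z))
      (fderiv ℝ (fun z => chartAt E4 (σ (τ y)) (σ z)) (τ y)) (τ y) :=
    ((contDiffAt_chart h h0).differentiableAt (by simp)).hasFDerivAt
  have h2 := h1.comp y hτ.hasFDerivAt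
  have h3 : fderiv ℝ (fun z : V' => chartAt E4 (σ (τ y)) (σ (τ z))) y = _ := h2.fderiv
  unfold dmap
  rw [h3]
  rfl

theorem dmap_comp' {V' : Type} [NormedAddCommGroup V'] [NormedSpace ℝ V'] {σ : V → M} {τ : V' → V}
    {y : V'} {τ' : V' →L[ℝ] V} (h : ContMDiffAt 𝓘(ℝ, V) 𝓘(ℝ, E4) ∞ σ (τ y))
    (hτ : HasFDerivAt τ τ' y) (v : V') :
    dmap (fun z => σ (τ z)) y v = dmap σ (τ y) (τ' v) := by
  rw [dmap_comp h hτ.differentiableAt, hτ.fderiv]

/-! ### pull-back of two-forms -/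

/-- the pull-back density in a chart. -/
theorem at2_dmap {σ : V → M} {y : V} (h : ContMDiffAt 𝓘(ℝ, V) 𝓘(ℝ, E4) ∞ σ y) {p : M}
    (hp : σ y ∈ (chartAt E4 p).source) (b : F2 E4 M) (v w : V) :
    at2 b (σ y) (dmap σ y v) (dmap σ y w) =
      rep p b (chartAt E4 p (σ y)) (fderiv ℝ (fun z => chartAt E4 p (σ z)) y v)
        (fderiv ℝ (fun z => chartAt E4 p (σ z)) y w) := by
  rw [fderiv_chart h hp, fderiv_chart h hp, ← apply_eq_rep hp]

/-- the pull-back density is smooth. -/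
theorem contDiffAt_pull {σ : V → M} {y : V}
    (h : ∀ᶠ z in 𝓝 y, ContMDiffAt 𝓘(ℝ, V) 𝓘(ℝ, E4) ∞ σ z) {b : F2 E4 M} (hb : Smooth2 b)
    {v w : V → V} (hv : ContDiffAt ℝ ∞ v y) (hw : ContDiffAt ℝ ∞ w y) :
    ContDiffAt ℝ ∞ (fun z => at2 b (σ z) (dmap σ z (v z)) (dmap σ z (w z))) y := by
  have hy := h.self_of_nhds
  have hp : σ y ∈ (chartAt E4 (σ y)).source := mem_chart_source E4 (σ y)
  have hc := contDiffAt_chart hy hp
  have hev : (fun z => at2 b (σ z) (dmap σ z (v z)) (dmap σ z (w z))) =ᶠ[𝓝 y] fun z =>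
      rep (σ y) b (chartAt E4 (σ y) (σ z)) (fderiv ℝ (fun z => chartAt E4 (σ y) (σ z)) z (v z))
        (fderiv ℝ (fun z => chartAt E4 (σ y) (σ z)) z (w z)) := by
    filter_upwards [h, hy.continuousAt.preimage_mem_nhds
      ((chartAt E4 (σ y)).open_source.mem_nhds hp)] with z hz hz2
    exact at2_dmap hz hz2 b _ _
  refine ContDiffAt.congr_of_eventuallyEq ?_ hev
  have hf : ContDiffAt ℝ ∞ (fderiv ℝ (fun z => chartAt E4 (σ y) (σ z))) y :=
    hc.fderiv_right (m := ∞) (by simp)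
  have hr : ContDiffAt ℝ ∞ (fun z => rep (σ y) b (chartAt E4 (σ y) (σ z))) y := by
    have h1 : ContDiffAt ℝ ∞ (rep (σ y) b) (chartAt E4 (σ y) (σ y)) :=
      (hb.2 (σ y)).contDiffAt ((chartAt E4 (σ y)).open_target.mem_nhds
        ((chartAt E4 (σ y)).map_source hp))
    exact ContDiffAt.comp (g := rep (σ y) b) (f := fun z => chartAt E4 (σ y) (σ z)) y h1 hc
  exact (hr.clm_apply (hf.clm_apply hv)).clm_apply (hf.clm_apply hw)

theorem contDiffOn_pull {σ : V → M} {O : Set V} (hO : IsOpen O)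
    (h : ContMDiffOn 𝓘(ℝ, V) 𝓘(ℝ, E4) ∞ σ O) {b : F2 E4 M} (hb : Smooth2 b) (v w : V) :
    ContDiffOn ℝ ∞ (fun z => at2 b (σ z) (dmap σ z v) (dmap σ z w)) O := by
  intro y hy
  refine ContDiffAt.contDiffWithinAt ?_
  exact contDiffAt_pull (v := fun _ => v) (w := fun _ => w)
    (by filter_upwards [hO.mem_nhds hy] with z hz using h.contMDiffAt (hO.mem_nhds hz)) hb
    contDiffAt_const contDiffAt_const

/-! ### the plane -/

/-- the pull-back density of a smooth form under a smooth map is smooth. -/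
theorem contDiffOn_pb {σ : ℂ → M} {O : Set ℂ} (hO : IsOpen O)
    (h : ContMDiffOn 𝓘(ℝ, ℂ) 𝓘(ℝ, E4) ∞ σ O) {b : F2 E4 M} (hb : Smooth2 b) :
    ContDiffOn ℝ ∞ (pb σ b) O := contDiffOn_pull hO h hb _ _

/-- an alternating form on two combinations of two vectors. -/
theorem alt_comb {B : Bil} (hB : ∀ v, B v v = 0) (x y : E4) (a b c d : ℝ) :
    B (a • x + b • y) (c • x + d • y) = (a * d - b * c) * B x y := by
  have h1 : B y x = - B x y := by
    have h := hB (x + y)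
    simp only [map_add, _root_.add_apply, hB, zero_add, add_zero] at h
    linarith
  simp only [map_add, map_smul, _root_.add_apply, _root_.smul_apply, smul_eq_mul, hB, h1]
  ring

theorem at2_dmap_comb {σ : ℂ → M} {z : ℂ} {b : F2 E4 M} (hb : Smooth2 b) (v w : ℂ) :
    at2 b (σ z) (dmap σ z v) (dmap σ z w) = (v.re * w.im - v.im * w.re) * pb σ b z := by
  have e : ∀ v : ℂ, dmap σ z v = v.re • dmap σ z 1 + v.im • dmap σ z Complex.I := by
    intro v
    rw [← dmap_smul, ← dmap_smul, ← dmap_add]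
    congr 1
    apply Complex.ext <;> simp
  rw [e v, e w, alt_comb (hb.1 (σ z))]
  rfl

/-- `pb (σ ∘ τ) = |τ'|² pb σ` for holomorphic `τ`. -/
theorem pb_comp {σ : ℂ → M} {τ : ℂ → ℂ} {z c : ℂ}
    (h : ContMDiffAt 𝓘(ℝ, ℂ) 𝓘(ℝ, E4) ∞ σ (τ z)) (hτ : HasDerivAt τ c z) {b : F2 E4 M}
    (hb : Smooth2 b) : pb (fun z => σ (τ z)) b z = (c.re ^ 2 + c.im ^ 2) * pb σ b (τ z) := by
  have h1 : ∀ v : ℂ, dmap (fun z => σ (τ z)) z v = dmap σ (τ z) (v * c) := by
    intro v
    rw [dmap_comp' h (hτ.hasFDerivAt.restrictScalars ℝ)]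
    simp
  unfold pb
  rw [h1, h1, at2_dmap_comb hb]
  have e : ((1 * c).re * (Complex.I * c).im - (1 * c).im * (Complex.I * c).re) =
      (c.re ^ 2 + c.im ^ 2) := by
    simp
    ring
  rw [e]
  rfl

end

end Crest.Agent.R235.Dm_61
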