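import Crest.Agent.R235.GlobDefs_370

/-!
Row 235 (S0364), REG-GLOB (helper370), part 2: calculus of maps `ℂ → M`.

* `cd_chart`      : smooth maps in the preferred chart
* `factor_hol`    : `u ∘ h = v`, `u` immersive, both `J`-holomorphic ⟹ `h` is holomorphic
* `dmap_comp`     : chain rule; `pb_comp` : transformation of the pull-back density
-/

set_option autoImplicit false
set_option maxSynthPendingDepth 3
set_option linter.unusedSectionVars false

open Set Function Filter MeasureTheory Metric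
open scoped Manifold ContDiff Topology

universe u

namespace Crest.Agent.R235.Glob_370

open Crest.Agent.R240 Crest.Agent.R240.Ch

noncomputable section

variable {M : Type u} [TopologicalSpace M] [ChartedSpace E4 M] [IsManifold 𝓘(ℝ, E4) ∞ M]

/-- the map in the preferred chart at `u z`. -/
lemma cd_chart {u : ℂ → M} {z : ℂ} (hu : ContMDiffAt 𝓘(ℝ, ℂ) 𝓘(ℝ, E4) ∞ u z) :
    ContDiffAt ℝ ∞ (fun z' => chartAt E4 (u z) (u z')) z := by
  have h := (contMDiffAt_iff_target.1 hu).2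
  exact h.contDiffAt

/-- the map in any chart. -/
lemma cd_chart' {u : ℂ → M} {z : ℂ} {p : M} (hp : u z ∈ (chartAt E4 p).source)
    (hu : ContMDiffAt 𝓘(ℝ, ℂ) 𝓘(ℝ, E4) ∞ u z) :
    ContDiffAt ℝ ∞ (fun z' => chartAt E4 p (u z')) z := by
  have hc : ContMDiffAt 𝓘(ℝ, E4) 𝓘(ℝ, E4) ∞ (chartAt E4 p) (u z) :=
    (contMDiffOn_chart (I := 𝓘(ℝ, E4)) (x := p)).contMDiffAt
      ((chartAt E4 p).open_source.mem_nhds hp)
  exact (hc.comp z hu).contDiffAt

/-- `dmap` in any chart. -/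
lemma tcc_dmap {u : ℂ → M} {z : ℂ} {p : M} (hp : u z ∈ (chartAt E4 p).source)
    (hu : ContMDiffAt 𝓘(ℝ, ℂ) 𝓘(ℝ, E4) ∞ u z) (v : ℂ) :
    tcc (u z) p (u z) (dmap u z v) = fderiv ℝ (fun z' => chartAt E4 p (u z')) z v := by
  have hs := mem_chart_source E4 (u z)
  have h1 : (fun z' => chartAt E4 p (u z')) =ᶠ[𝓝 z]
      (chartAt E4 p ∘ (chartAt E4 (u z)).symm) ∘ (fun z' => chartAt E4 (u z) (u z')) := by
    have h2 : ∀ᶠ z' in 𝓝 z, u z' ∈ (chartAt E4 (u z)).source :=
      hu.continuousAt.eventually ((chartAt E4 (u z)).open_source.mem_nhds hs)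
    filter_upwards [h2] with z' hz'
    simp only [comp_apply]
    rw [(chartAt E4 (u z)).left_inv hz']
  rw [h1.fderiv_eq]
  have h3 : ContDiffAt ℝ ∞ (chartAt E4 p ∘ (chartAt E4 (u z)).symm) (chartAt E4 (u z) (u z)) :=
    trans_contDiffAt ((chartAt E4 (u z)).map_source hs) (by
      rwa [(chartAt E4 (u z)).left_inv hs])
  rw [fderiv_comp z (h3.differentiableAt (by simp)) ((cd_chart hu).differentiableAt (by simp))]
  rw [ContinuousLinearMap.comp_apply, tcc_eq_fderiv]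
  rfl

lemma IsJHol.at {J : EndF E4 M} {u : ℂ → M} {O : Set ℂ} (h : IsJHol J u O) (hO : IsOpen O)
    {z : ℂ} (hz : z ∈ O) : ContMDiffAt 𝓘(ℝ, ℂ) 𝓘(ℝ, E4) ∞ u z :=
  h.smooth.contMDiffAt (hO.mem_nhds hz)

/-- congruence of `dmap`. -/
lemma dmap_congr {V : Type} [NormedAddCommGroup V] [NormedSpace ℝ V] {u v : V → M} {z : V}
    (h : u =ᶠ[𝓝 z] v) : dmap u z = dmap v z := by
  funext t
  unfold dmap
  rw [h.eq_of_nhds]
  have : (fun z' => chartAt E4 (v z) (u z')) =ᶠ[𝓝 z] fun z' => chartAt E4 (v z) (v z') := by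
    filter_upwards [h] with z' hz'
    rw [hz']
  rw [this.fderiv_eq]

lemma dmap_add (u : ℂ → M) (z v w : ℂ) : dmap u z (v + w) = dmap u z v + dmap u z w := by
  unfold dmap
  exact map_add _ _ _

lemma dmap_smul (u : ℂ → M) (z : ℂ) (r : ℝ) (v : ℂ) : dmap u z (r • v) = r • dmap u z v := by
  unfold dmap
  exact map_smul _ _ _

/-- chain rule for `dmap`. -/
lemma dmap_comp {u : ℂ → M} {h : ℂ → ℂ} {w : ℂ}
    (hu : ContMDiffAt 𝓘(ℝ, ℂ) 𝓘(ℝ, E4) ∞ u (h w)) (hh : DifferentiableAt ℝ h w) (t : ℂ) :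
    dmap (fun w => u (h w)) w t = dmap u (h w) (fderiv ℝ h w t) := by
  unfold dmap
  have h1 : (fun z' => chartAt E4 (u (h w)) (u (h z'))) =
      (fun z' => chartAt E4 (u (h w)) (u z')) ∘ h := rfl
  rw [h1, fderiv_comp w ((cd_chart hu).differentiableAt (by simp)) hh]
  rfl

/-- the real derivative of a holomorphic function. -/
lemma fderiv_real_of_hol {h : ℂ → ℂ} {w : ℂ} (hh : DifferentiableAt ℂ h w) (t : ℂ) :
    fderiv ℝ h w t = deriv h w * t := by
  have h1 := (hh.hasDerivAt.hasFDerivAt.restrictScalars ℝ).fderiv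
  rw [h1]
  simp [mul_comm]

lemma dmap_comp_hol {u : ℂ → M} {h : ℂ → ℂ} {w : ℂ}
    (hu : ContMDiffAt 𝓘(ℝ, ℂ) 𝓘(ℝ, E4) ∞ u (h w)) (hh : DifferentiableAt ℂ h w) (t : ℂ) :
    dmap (fun w => u (h w)) w t = dmap u (h w) (deriv h w * t) := by
  rw [dmap_comp hu (hh.restrictScalars ℝ), fderiv_real_of_hol hh]

/-- transformation of the pull-back density. -/
lemma pb_comp {u : ℂ → M} {h : ℂ → ℂ} {w : ℂ} {b : F2 E4 M} (hb : Smooth2 b)
    (hu : ContMDiffAt 𝓘(ℝ, ℂ) 𝓘(ℝ, E4) ∞ u (h w)) (hh : DifferentiableAt ℂ h w) :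
    pb (fun w => u (h w)) b w = pb u b (h w) * ‖deriv h w‖ ^ 2 := by
  have hc : ∀ t : ℂ, dmap (fun w => u (h w)) w t = dmap u (h w) (deriv h w * t) :=
    fun t => dmap_comp_hol hu hh t
  unfold pb
  rw [hc, hc]
  set c := deriv h w with hcdef
  have e1 : c * 1 = c.re • (1 : ℂ) + c.im • Complex.I := by
    apply Complex.ext <;> simp
  have e2 : c * Complex.I = (-c.im) • (1 : ℂ) + c.re • Complex.I := by
    apply Complex.ext <;> simp
  rw [e1, e2, dmap_add, dmap_add, dmap_smul, dmap_smul, dmap_smul, dmap_smul]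
  set A := dmap u (h w) 1
  set B := dmap u (h w) Complex.I
  set β := at2 b (u (h w))
  have hA : β A A = 0 := hb.1 _ _
  have hB : β B B = 0 := hb.1 _ _
  have hAB : β B A = - β A B := hb.antisymm _ _ _
  have hn : ‖c‖ ^ 2 = c.re * c.re + c.im * c.im := by
    rw [← Complex.normSq_eq_norm_sq, Complex.normSq_apply]
  rw [hn]
  simp only [map_add, map_smul, add_apply, smul_apply, smul_eq_mul, hA, hB, hAB]
  ring

/-- a factor of a `J`-holomorphic map through an immersive one is holomorphic. -/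
theorem factor_hol {J : EndF E4 M} {u v : ℂ → M} {h : ℂ → ℂ} {w : ℂ}
    (hu : ContMDiffAt 𝓘(ℝ, ℂ) 𝓘(ℝ, E4) ∞ u (h w)) (hv : ContMDiffAt 𝓘(ℝ, ℂ) 𝓘(ℝ, E4) ∞ v w)
    (hh : ContinuousAt h w) (hev : ∀ᶠ w' in 𝓝 w, u (h w') = v w')
    (hJu : ∀ t : ℂ, dmap u (h w) (Complex.I * t) = atJ J (u (h w)) (dmap u (h w) t))
    (hJv : ∀ t : ℂ, dmap v w (Complex.I * t) = atJ J (v w) (dmap v w t))
    (him : ∀ t : ℂ, dmap u (h w) t = 0 → t = 0) : DifferentiableAt ℂ h w := by
  have hx : u (h w) = v w := hev.self_of_nhds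
  set x := u (h w) with hxdef
  set U : ℂ → E4 := fun z' => chartAt E4 x (u z') with hU
  set V : ℂ → E4 := fun z' => chartAt E4 x (v z') with hV
  have hUc : ContDiffAt ℝ ∞ U (h w) := cd_chart hu
  have hVc : ContDiffAt ℝ ∞ V w := by
    have := cd_chart hv
    rw [← hx] at this
    exact this
  set A : ℂ →L[ℝ] E4 := fderiv ℝ U (h w) with hA
  have hAd : ∀ t, dmap u (h w) t = A t := fun t => rfl
  have hVd : ∀ t, dmap v w t = fderiv ℝ V w t := by
    intro t
    unfold dmap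
    rw [← hx]
  have hker : LinearMap.ker (A : ℂ →ₗ[ℝ] E4) = ⊥ := by
    rw [LinearMap.ker_eq_bot']
    intro t ht
    exact him t ht
  obtain ⟨P0, hP0⟩ := (A : ℂ →ₗ[ℝ] E4).exists_leftInverse_of_injective hker
  set P : E4 →L[ℝ] ℂ := LinearMap.toContinuousLinearMap P0 with hP
  have hPA : P.comp A = ContinuousLinearMap.id ℝ ℂ :=
    ContinuousLinearMap.ext fun t => LinearMap.congr_fun hP0 t
  have hg : HasStrictFDerivAt (fun z => P (U z))
      ((ContinuousLinearEquiv.refl ℝ ℂ : ℂ ≃L[ℝ] ℂ) : ℂ →L[ℝ] ℂ) (h w) := by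
    have h1 : HasStrictFDerivAt U A (h w) := hUc.hasStrictFDerivAt (by simp)
    have h2 := P.hasStrictFDerivAt.comp (h w) h1
    rw [hPA] at h2
    exact h2
  have hl := hg.eventually_left_inverse
  have hgi := hg.to_localInverse
  set gi := hg.localInverse _ _ _ with hgidef
  have hh2 : h =ᶠ[𝓝 w] fun w' => gi (P (V w')) := by
    filter_upwards [hh.eventually hl, hev] with w' h1 h2
    rw [← h1]
    show gi (P (U (h w'))) = gi (P (V w'))
    rw [hU, hV]
    simp only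
    rw [h2]
  have hPV : HasFDerivAt (fun w' => P (V w')) (P.comp (fderiv ℝ V w)) w :=
    P.hasFDerivAt.comp w (hVc.differentiableAt (by simp)).hasFDerivAt
  have hval : P (U (h w)) = P (V w) := by
    show P (chartAt E4 x (u (h w))) = P (chartAt E4 x (v w))
    rw [← hx]
  have hD : HasFDerivAt h (P.comp (fderiv ℝ V w)) w := by
    have h1 : HasFDerivAt gi ((ContinuousLinearEquiv.refl ℝ ℂ).symm : ℂ →L[ℝ] ℂ) (P (V w)) := by
      rw [← hval]
      exact hgi.hasFDerivAt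
    have h2 := h1.comp w hPV
    have h3 : (((ContinuousLinearEquiv.refl ℝ ℂ).symm : ℂ →L[ℝ] ℂ)).comp
        (P.comp (fderiv ℝ V w)) = P.comp (fderiv ℝ V w) := by
      ext t <;> rfl
    rw [h3] at h2
    exact h2.congr_of_eventuallyEq hh2
  set D := P.comp (fderiv ℝ V w) with hDdef
  have hch : fderiv ℝ V w = A.comp D := by
    have h1 : V =ᶠ[𝓝 w] U ∘ h := by
      filter_upwards [hev] with w' h2
      show chartAt E4 x (v w') = chartAt E4 x (u (h w'))
      rw [h2]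
    rw [h1.fderiv_eq, fderiv_comp w (hUc.differentiableAt (by simp)) hD.differentiableAt,
      hD.fderiv]
  rw [differentiableAt_complex_iff_differentiableAt_real]
  refine ⟨hD.differentiableAt, ?_⟩
  rw [hD.fderiv]
  have h1 : A (D Complex.I) = A (Complex.I * D 1) := by
    have h2 : fderiv ℝ V w (Complex.I * 1) = atJ J x (fderiv ℝ V w 1) := by
      rw [← hVd, ← hVd, hJv 1, hx]
    rw [mul_one, hch] at h2
    have h3 : A (D Complex.I) = atJ J x (A (D 1)) := h2
    rw [h3, ← hAd, ← hAd, hJu]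
  have h4 : A (D Complex.I - Complex.I * D 1) = 0 := by rw [map_sub, h1, sub_self]
  have h5 := him _ h4
  rw [sub_eq_zero] at h5
  exact h5

end

end Crest.Agent.R235.Glob_370
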