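import Crest.Agent.R235.Defs_837

/-!
Row 235 (helper288): COMMON API over `Defs_837`, part 1: values of closed forms, `Vol` of the forms
of a positive triple, the intersection form `ip` (Stokes, bilinearity, symmetry).
-/

set_option autoImplicit false
set_option maxSynthPendingDepth 3

open Set Function Filter MeasureTheory
open scoped Manifold ContDiff Topology ENNReal

universe u

namespace Crest.Agent.R235

open Crest.Agent.R240 Crest.Agent.R240.Ch Crest.Agent.R240.Int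

noncomputable section

section Basic

variable {M : Type u} [TopologicalSpace M] [ChartedSpace E4 M] [IsManifold 𝓘(ℝ, E4) ∞ M]

theorem val_add (a b : Z2 M) (x : M) : val (a + b) x = val a x + val b x := rfl

theorem val_sub (a b : Z2 M) (x : M) : val (a - b) x = val a x - val b x := rfl

theorem val_neg (a : Z2 M) (x : M) : val (-a) x = - val a x := rfl

theorem val_smul (r : ℝ) (a : Z2 M) (x : M) : val (r • a) x = r • val a x := rfl

theorem val_zero (x : M) : val (0 : Z2 M) x = 0 := rfl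

/-- `val` as a linear map. -/
def valL (x : M) : Z2 M →ₗ[ℝ] Bil where
  toFun a := val a x
  map_add' _ _ := rfl
  map_smul' _ _ := rfl

@[simp] theorem valL_apply (x : M) (a : Z2 M) : valL x a = val a x := rfl

theorem val_sum {ι : Type*} (s : Finset ι) (a : ι → Z2 M) (x : M) :
    val (∑ i ∈ s, a i) x = ∑ i ∈ s, val (a i) x := map_sum (valL x) a s

theorem val_comb {n : ℕ} (c : Fin n → ℝ) (w : Fin n → Z2 M) (x : M) :
    val (∑ i, c i • w i) x = ∑ i, c i • val (w i) x := by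
  rw [val_sum]; rfl

theorem smooth2_coe (a : Z2 M) : Smooth2 (a.1.1 : F2 E4 M) := a.1.2

theorem closed2_coe (a : Z2 M) : Closed2 (a.1.1 : F2 E4 M) := a.2

theorem val_alt (a : Z2 M) (x : M) : Alt (val a x) := fun v => a.1.2.1 x v

theorem cont2_coe (a : Z2 M) : Cont2 (a.1.1 : F2 E4 M) := Smooth2.cont2 a.1.2

theorem coe_add (a b : Z2 M) : ((a + b).1.1 : F2 E4 M) = (a.1.1 : F2 E4 M) + (b.1.1 : F2 E4 M) :=
  rfl

theorem coe_smul (r : ℝ) (a : Z2 M) : ((r • a).1.1 : F2 E4 M) = r • (a.1.1 : F2 E4 M) := rfl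

theorem coe_sub (a b : Z2 M) : ((a - b).1.1 : F2 E4 M) = (a.1.1 : F2 E4 M) - (b.1.1 : F2 E4 M) :=
  rfl

theorem coe_neg (a : Z2 M) : ((-a).1.1 : F2 E4 M) = -(a.1.1 : F2 E4 M) := rfl

theorem Z2_ext {a b : Z2 M} (h : ∀ x, val a x = val b x) : a = b := by
  apply Subtype.ext; apply Subtype.ext; funext x; exact h x

theorem vol_of_ne {F : Z2 M} (h : ∀ x, W (val F x) (val F x) ≠ 0) : Vol (F.1.1 : F2 E4 M) where
  alt := val_alt F
  cont p := (smooth2_coe F).2 p |>.continuousOn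
  ne := h

/-! ### positive triples -/

theorem Pos3.W_ne {w : Trip M} (hw : Pos3 w) {c : Fin 3 → ℝ} (hc : c ≠ 0) (x : M) :
    W (val (∑ i, c i • w i) x) (val (∑ i, c i • w i) x) ≠ 0 := by
  rw [val_comb]; exact hw x c hc

theorem Pos3.W_ne' {w : Trip M} (hw : Pos3 w) (i : Fin 3) (x : M) :
    W (val (w i) x) (val (w i) x) ≠ 0 := by
  have h := hw x (Pi.single i 1) (by
    intro h0
    have := congrFun h0 i
    simp at this)
  have e : ∑ j, (Pi.single i 1 : Fin 3 → ℝ) j • val (w j) x = val (w i) x := by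
    rw [Finset.sum_eq_single i]
    · simp
    · intro j _ hj; simp [Pi.single_eq_of_ne hj]
    · intro h; exact absurd (Finset.mem_univ i) h
  rwa [e] at h

theorem Pos3.vol {w : Trip M} (hw : Pos3 w) (i : Fin 3) : Vol ((w i).1.1 : F2 E4 M) :=
  vol_of_ne (hw.W_ne' i)

theorem Pos3.vol_comb {w : Trip M} (hw : Pos3 w) {c : Fin 3 → ℝ} (hc : c ≠ 0) :
    Vol ((∑ i, c i • w i : Z2 M).1.1 : F2 E4 M) :=
  vol_of_ne (hw.W_ne hc)

/-! ### classes -/

theorem mem_B2 {b : Z2 M} : b ∈ B2 M ↔ IsEx (b.1.1 : F2 E4 M) := Iff.rfl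

theorem cls_eq_zero {b : Z2 M} : cls b = 0 ↔ IsEx (b.1.1 : F2 E4 M) := by
  unfold cls
  rw [Submodule.mkQ_apply, Submodule.Quotient.mk_eq_zero]
  exact Iff.rfl

theorem cls_eq {a b : Z2 M} : cls a = cls b ↔ IsEx ((a - b : Z2 M).1.1 : F2 E4 M) := by
  rw [← cls_eq_zero, map_sub, sub_eq_zero]

theorem cls_surj (c : H2 M) : ∃ a : Z2 M, cls a = c := (B2 M).mkQ_surjective c

theorem cls_surjInv (c : H2 M) : cls (surjInv (B2 M).mkQ_surjective c) = c :=
  surjInv_eq (B2 M).mkQ_surjective c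

end Basic

section Closed

variable {M : Type u} [TopologicalSpace M] [T2Space M] [CompactSpace M]
  [ChartedSpace E4 M] [IsManifold 𝓘(ℝ, E4) ∞ M]

theorem pI_comm (F a b : Z2 M) : pI F a b = pI F b a := by
  let _ : MeasurableSpace M := borel M
  have _ : BorelSpace M := ⟨rfl⟩
  exact I_comm _ _ _

theorem pI_add_left {F : Z2 M} (hF : Vol (F.1.1 : F2 E4 M)) (a b c : Z2 M) :
    pI F (a + b) c = pI F a c + pI F b c := by
  let _ : MeasurableSpace M := borel M
  have _ : BorelSpace M := ⟨rfl⟩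
  exact I_add_left hF (cont2_coe a) (cont2_coe b) (cont2_coe c)

theorem pI_smul_left (F : Z2 M) (r : ℝ) (a b : Z2 M) : pI F (r • a) b = r * pI F a b := by
  let _ : MeasurableSpace M := borel M
  have _ : BorelSpace M := ⟨rfl⟩
  exact I_smul_left _ _ _ _

theorem pI_add_right {F : Z2 M} (hF : Vol (F.1.1 : F2 E4 M)) (a b c : Z2 M) :
    pI F a (b + c) = pI F a b + pI F a c := by
  rw [pI_comm F a, pI_add_left hF, pI_comm F b, pI_comm F c]

theorem pI_smul_right (F : Z2 M) (r : ℝ) (a b : Z2 M) : pI F a (r • b) = r * pI F a b := by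
  rw [pI_comm, pI_smul_left, pI_comm]

/-- the pairing as a bilinear map on closed forms. -/
def pIB (F : Z2 M) (hF : Vol (F.1.1 : F2 E4 M)) : Z2 M →ₗ[ℝ] Z2 M →ₗ[ℝ] ℝ :=
  LinearMap.mk₂ ℝ (fun a b => pI F a b) (pI_add_left hF) (pI_smul_left F) (pI_add_right hF)
    (fun r a b => pI_smul_right F r a b)

@[simp] theorem pIB_apply {F : Z2 M} (hF : Vol (F.1.1 : F2 E4 M)) (a b : Z2 M) :
    pIB F hF a b = pI F a b := rfl

/-- Stokes. -/
theorem pI_exact_left {F : Z2 M} (hF : Vol (F.1.1 : F2 E4 M)) {a : Z2 M}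
    (ha : IsEx (a.1.1 : F2 E4 M)) (b : Z2 M) : pI F a b = 0 := by
  let _ : MeasurableSpace M := borel M
  have _ : BorelSpace M := ⟨rfl⟩
  obtain ⟨S, hS, h⟩ := ha
  exact stokes_smooth hF hS h (smooth2_coe b) (closed2_coe b)

theorem pI_exact_right {F : Z2 M} (hF : Vol (F.1.1 : F2 E4 M)) (a : Z2 M) {b : Z2 M}
    (hb : IsEx (b.1.1 : F2 E4 M)) : pI F a b = 0 := by
  rw [pI_comm]; exact pI_exact_left hF hb a

theorem pI_congr_left {F : Z2 M} (hF : Vol (F.1.1 : F2 E4 M)) {a a' : Z2 M}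
    (h : cls a = cls a') (b : Z2 M) : pI F a b = pI F a' b := by
  have h1 := pI_exact_left hF (cls_eq.1 h) b
  have e : a = (a - a') + a' := by abel
  rw [e, pI_add_left hF, h1, zero_add]

theorem pI_congr_right {F : Z2 M} (hF : Vol (F.1.1 : F2 E4 M)) (a : Z2 M) {b b' : Z2 M}
    (h : cls b = cls b') : pI F a b = pI F a b' := by
  rw [pI_comm F a, pI_comm F a]; exact pI_congr_left hF h a

/-- `ip` on classes of closed forms. -/
theorem ip_cls {F : Z2 M} (hF : Vol (F.1.1 : F2 E4 M)) (a b : Z2 M) :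
    ip F (cls a) (cls b) = pI F a b := by
  unfold ip
  rw [pI_congr_left hF (cls_surjInv (cls a)), pI_congr_right hF _ (cls_surjInv (cls b))]

theorem ip_comm (F : Z2 M) (a b : H2 M) : ip F a b = ip F b a := pI_comm _ _ _

theorem ip_add_left {F : Z2 M} (hF : Vol (F.1.1 : F2 E4 M)) (a b c : H2 M) :
    ip F (a + b) c = ip F a c + ip F b c := by
  obtain ⟨a, rfl⟩ := cls_surj a
  obtain ⟨b, rfl⟩ := cls_surj b
  obtain ⟨c, rfl⟩ := cls_surj c
  rw [← map_add, ip_cls hF, ip_cls hF, ip_cls hF, pI_add_left hF]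

theorem ip_smul_left {F : Z2 M} (hF : Vol (F.1.1 : F2 E4 M)) (r : ℝ) (a b : H2 M) :
    ip F (r • a) b = r * ip F a b := by
  obtain ⟨a, rfl⟩ := cls_surj a
  obtain ⟨b, rfl⟩ := cls_surj b
  rw [← map_smul, ip_cls hF, ip_cls hF, pI_smul_left]

theorem ip_add_right {F : Z2 M} (hF : Vol (F.1.1 : F2 E4 M)) (a b c : H2 M) :
    ip F a (b + c) = ip F a b + ip F a c := by
  rw [ip_comm F a, ip_add_left hF, ip_comm F b, ip_comm F c]

theorem ip_smul_right {F : Z2 M} (hF : Vol (F.1.1 : F2 E4 M)) (r : ℝ) (a b : H2 M) :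
    ip F a (r • b) = r * ip F a b := by
  rw [ip_comm, ip_smul_left hF, ip_comm]

/-- the intersection form as a bilinear map. -/
def ipB (F : Z2 M) (hF : Vol (F.1.1 : F2 E4 M)) : H2 M →ₗ[ℝ] H2 M →ₗ[ℝ] ℝ :=
  LinearMap.mk₂ ℝ (fun a b => ip F a b) (ip_add_left hF) (ip_smul_left hF) (ip_add_right hF)
    (fun r a b => ip_smul_right hF r a b)

@[simp] theorem ipB_apply {F : Z2 M} (hF : Vol (F.1.1 : F2 E4 M)) (a b : H2 M) :
    ipB F hF a b = ip F a b := rfl

theorem ip_sub_left {F : Z2 M} (hF : Vol (F.1.1 : F2 E4 M)) (a b c : H2 M) :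
    ip F (a - b) c = ip F a c - ip F b c := by
  have h : ip F ((a - b) + b) c = ip F (a - b) c + ip F b c := ip_add_left hF _ _ _
  rw [sub_add_cancel] at h
  linarith

theorem ip_sub_right {F : Z2 M} (hF : Vol (F.1.1 : F2 E4 M)) (a b c : H2 M) :
    ip F a (b - c) = ip F a b - ip F a c := by
  rw [ip_comm, ip_sub_left hF, ip_comm F b, ip_comm F c]

theorem ip_neg_left {F : Z2 M} (hF : Vol (F.1.1 : F2 E4 M)) (a b : H2 M) :
    ip F (-a) b = - ip F a b := by
  have h := ip_smul_left hF (-1) a b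
  rwa [neg_one_smul, neg_one_mul] at h

theorem ip_neg_right {F : Z2 M} (hF : Vol (F.1.1 : F2 E4 M)) (a b : H2 M) :
    ip F a (-b) = - ip F a b := by
  rw [ip_comm, ip_neg_left hF, ip_comm]

theorem ip_zero_left {F : Z2 M} (hF : Vol (F.1.1 : F2 E4 M)) (a : H2 M) : ip F 0 a = 0 := by
  have h := ip_smul_left hF 0 0 a
  rwa [zero_smul, zero_mul] at h

theorem ip_zero_right {F : Z2 M} (hF : Vol (F.1.1 : F2 E4 M)) (a : H2 M) : ip F a 0 = 0 := by
  rw [ip_comm, ip_zero_left hF]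

theorem ip_sum_left {F : Z2 M} (hF : Vol (F.1.1 : F2 E4 M)) {ι : Type*} (s : Finset ι)
    (a : ι → H2 M) (b : H2 M) : ip F (∑ i ∈ s, a i) b = ∑ i ∈ s, ip F (a i) b := by
  classical
  induction s using Finset.induction_on with
  | empty => simp only [Finset.sum_empty]; exact ip_zero_left hF b
  | insert i s hi ih => rw [Finset.sum_insert hi, Finset.sum_insert hi, ip_add_left hF, ih]

theorem ip_sum_right {F : Z2 M} (hF : Vol (F.1.1 : F2 E4 M)) {ι : Type*} (s : Finset ι)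
    (a : ι → H2 M) (b : H2 M) : ip F b (∑ i ∈ s, a i) = ∑ i ∈ s, ip F b (a i) := by
  rw [ip_comm, ip_sum_left hF]
  exact Finset.sum_congr rfl fun i _ => ip_comm F _ _

end Closed

end

end Crest.Agent.R235
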