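import Crest.Agent.R235.AdjDefs_43
import Crest.Agent.R235.Glob2_370
import Crest.Agent.R235.Ip_288

/-!
Row 235 (S0364), PACKAGE ADJ, leaf FIELD (helper910): a vector field with prescribed
`σ`-component along the regular part of a `J`-curve.

* `exists_left`  : a smooth local left inverse of an immersion
* `nd`           : an alternating form on `ℝ⁴` with `W b b ≠ 0` is nondegenerate
* `field`        : `Adj.FIELD`
-/

set_option autoImplicit false
set_option maxSynthPendingDepth 3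

open Set Function Filter MeasureTheory Metric
open scoped Manifold ContDiff Topology

universe u

namespace Crest.Agent.R235.Field_910

open Crest.Agent.R240 Crest.Agent.R240.Ch
open Crest.Agent.R235 Crest.Agent.R235.Glob_370 Crest.Agent.R235.Adj

noncomputable section

/-- a smooth local left inverse of an immersion. -/
theorem exists_left {V W : Type*} [NormedAddCommGroup V] [NormedSpace ℝ V]
    [FiniteDimensional ℝ V] [NormedAddCommGroup W] [NormedSpace ℝ W] [FiniteDimensional ℝ W]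
    {U : V → W} {z : V} (hU : ∀ᶠ y in 𝓝 z, ContDiffAt ℝ ∞ U y)
    (hi : ∀ v, fderiv ℝ U z v = 0 → v = 0) :
    ∃ q : W → V, (∀ᶠ x in 𝓝 (U z), ContDiffAt ℝ ∞ q x) ∧ ∀ᶠ y in 𝓝 z, q (U y) = y := by
  have : CompleteSpace V := FiniteDimensional.complete ℝ V
  have hU0 : ContDiffAt ℝ ∞ U z := hU.self_of_nhds
  obtain ⟨L, hL⟩ := LinearMap.exists_leftInverse_of_injective
    (fderiv ℝ U z : V →ₗ[ℝ] W) (LinearMap.ker_eq_bot'.2 hi)
  set L' : W →L[ℝ] V := LinearMap.toContinuousLinearMap L with hL'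
  have hd : DifferentiableAt ℝ U z := hU0.differentiableAt (by simp)
  have h1 : ∀ᶠ y in 𝓝 z, ContDiffAt ℝ ∞ (fun y => L' (U y)) y := by
    filter_upwards [hU] with y hy
    exact L'.contDiff.contDiffAt.comp y hy
  have h1z := h1.self_of_nhds
  have h2 : HasFDerivAt (fun y => L' (U y))
      ((ContinuousLinearEquiv.refl ℝ V : V ≃L[ℝ] V) : V →L[ℝ] V) z := by
    have h3 := L'.hasFDerivAt.comp z hd.hasFDerivAt
    refine h3.congr_fderiv ?_
    ext v
    have := LinearMap.congr_fun hL v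
    exact this
  have h5 : HasStrictFDerivAt (fun y => L' (U y))
      ((ContinuousLinearEquiv.refl ℝ V : V ≃L[ℝ] V) : V →L[ℝ] V) z :=
    h1z.hasStrictFDerivAt' h2 (by simp)
  set Φ := h5.toOpenPartialHomeomorph (fun y => L' (U y)) with hΦ
  have hsrc : z ∈ Φ.source := h5.mem_toOpenPartialHomeomorph_source
  have hcoe : (Φ : V → V) = fun y => L' (U y) := h5.toOpenPartialHomeomorph_coe
  have hinv : ∀ᶠ y in 𝓝 z, ContDiffAt ℝ ∞ (fun y => L' (U y)) y ∧
      fderiv ℝ (fun y => L' (U y)) y ∈ range ((↑) : (V ≃L[ℝ] V) → V →L[ℝ] V) := by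
    refine h1.and ?_
    have hc : ContinuousAt (fderiv ℝ (fun y => L' (U y))) z :=
      (h1z.fderiv_right (m := ∞) (by simp)).continuousAt
    have h6 := ContinuousLinearEquiv.nhds (ContinuousLinearEquiv.refl ℝ V)
    rw [← h2.fderiv] at h6
    exact hc h6
  have hcs : ContinuousAt Φ.symm (Φ z) := Φ.continuousAt_symm (Φ.map_source hsrc)
  have h7 : ∀ᶠ a in 𝓝 (Φ z), ContDiffAt ℝ ∞ Φ.symm a := by
    have h8 : ∀ᶠ a in 𝓝 (Φ z), ContDiffAt ℝ ∞ (fun y => L' (U y)) (Φ.symm a) ∧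
        fderiv ℝ (fun y => L' (U y)) (Φ.symm a) ∈ range ((↑) : (V ≃L[ℝ] V) → V →L[ℝ] V) := by
      have h9 : Filter.Tendsto Φ.symm (𝓝 (Φ z)) (𝓝 z) := by
        have h10 := hcs
        unfold ContinuousAt at h10
        rwa [Φ.left_inv hsrc] at h10
      exact h9.eventually hinv
    filter_upwards [h8, Φ.open_target.mem_nhds (Φ.map_source hsrc)] with a ha hat
    obtain ⟨e, he⟩ := ha.2
    refine Φ.contDiffAt_symm (f₀' := e) hat ?_ ?_
    · rw [hcoe, he]
      exact (ha.1.differentiableAt (by simp)).hasFDerivAt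
    · rw [hcoe]
      exact ha.1
  refine ⟨fun w => Φ.symm (L' w), ?_, ?_⟩
  · have h11 : Filter.Tendsto L' (𝓝 (U z)) (𝓝 (Φ z)) := by
      have : Φ z = L' (U z) := by rw [hcoe]
      rw [this]
      exact L'.continuous.continuousAt
    filter_upwards [h11.eventually h7] with x hx
    exact hx.comp x L'.contDiff.contDiffAt
  · filter_upwards [Φ.open_source.mem_nhds hsrc] with y hy
    have : Φ.symm (Φ y) = y := Φ.left_inv hy
    rw [hcoe] at this
    exact this

/-- an alternating form with `W b b ≠ 0` is nondegenerate. -/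
theorem nd {b : Bil} (hb : Alt b) (h0 : W b b ≠ 0) {u : E4} (hu : ∀ v, b u v = 0) : u = 0 := by
  have g0 := hu (ee 0)
  have g1 := hu (ee 1)
  have g2 := hu (ee 2)
  have g3 := hu (ee 3)
  rw [alt_expand hb] at g0 g1 g2 g3
  simp only [ee_apply] at g0 g1 g2 g3
  simp at g0 g1 g2 g3
  have hP : ent b 0 1 * ent b 2 3 - ent b 0 2 * ent b 1 3 + ent b 0 3 * ent b 1 2 ≠ 0 := by
    intro h
    apply h0
    unfold W
    linear_combination 2 * h
  have k0 : u 0 = 0 := by
    refine (mul_eq_zero.1 (?_ : (ent b 0 1 * ent b 2 3 - ent b 0 2 * ent b 1 3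
      + ent b 0 3 * ent b 1 2) * u 0 = 0)).resolve_left hP
    linear_combination ent b 2 3 * g1 - ent b 1 3 * g2 + ent b 1 2 * g3
  have k1 : u 1 = 0 := by
    refine (mul_eq_zero.1 (?_ : (ent b 0 1 * ent b 2 3 - ent b 0 2 * ent b 1 3
      + ent b 0 3 * ent b 1 2) * u 1 = 0)).resolve_left hP
    linear_combination - ent b 2 3 * g0 + ent b 0 3 * g2 - ent b 0 2 * g3
  have k2 : u 2 = 0 := by
    refine (mul_eq_zero.1 (?_ : (ent b 0 1 * ent b 2 3 - ent b 0 2 * ent b 1 3
      + ent b 0 3 * ent b 1 2) * u 2 = 0)).resolve_left hP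
    linear_combination ent b 1 3 * g0 - ent b 0 3 * g1 + ent b 0 1 * g3
  have k3 : u 3 = 0 := by
    refine (mul_eq_zero.1 (?_ : (ent b 0 1 * ent b 2 3 - ent b 0 2 * ent b 1 3
      + ent b 0 3 * ent b 1 2) * u 3 = 0)).resolve_left hP
    linear_combination - ent b 1 2 * g0 + ent b 0 2 * g1 - ent b 0 1 * g2
  ext i
  fin_cases i
  · exact k0
  · exact k1
  · exact k2
  · exact k3

section Basic

variable {M : Type u} [TopologicalSpace M] [ChartedSpace E4 M] [IsManifold 𝓘(ℝ, E4) ∞ M]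
variable {w : Trip M} {J : EndF E4 M}

/-- `σ` in the chart at `p`. -/
def SR (w : Trip M) (J : EndF E4 M) (p : M) (y a b : E4) : ℂ :=
  (rep p ((w 1).1.1 : F2 E4 M) y a b : ℂ) -
    Complex.I * (rep p ((w 1).1.1 : F2 E4 M) y (repJ p J y a) b : ℂ)

theorem sg_eq {p x : M} (hx : x ∈ (chartAt E4 p).source) (a b : E4) :
    sg w J x a b = SR w J p (chartAt E4 p x) (tcc x p x a) (tcc x p x b) := by
  unfold sg SR val
  rw [apply_eq_rep hx, apply_eq_rep hx, apply_eq_repJ hx]

theorem sg_comb (x : M) (α β : ℝ) (a b v : E4) :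
    sg w J x (α • a + β • b) v = α * sg w J x a v + β * sg w J x b v := by
  unfold sg
  simp only [map_add, map_smul, add_apply, smul_apply, smul_eq_mul, Complex.ofReal_add,
    Complex.ofReal_mul]
  ring

theorem sg_comb_right (x : M) (α β : ℝ) (v a b : E4) :
    sg w J x v (α • a + β • b) = α * sg w J x v a + β * sg w J x v b := by
  unfold sg
  simp only [map_add, map_smul, smul_eq_mul, Complex.ofReal_add,
    Complex.ofReal_mul]
  ring

theorem sg_J_left (hJ : IsJ w J) (x : M) (u v : E4) :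
    sg w J x (atJ J x u) v = Complex.I * sg w J x u v := by
  unfold sg
  rw [hJ.sq]
  simp only [map_neg, neg_apply, Complex.ofReal_neg]
  linear_combination (val (w 1) x (atJ J x u) v : ℂ) * Complex.I_mul_I

theorem sg_J_right (hJ : IsJ w J) (x : M) (u v : E4) :
    sg w J x u (atJ J x v) = Complex.I * sg w J x u v := by
  have h1 := hJ.anti1 x u v
  have h2 := hJ.anti1 x (atJ J x u) v
  rw [hJ.sq] at h2
  simp only [map_neg, neg_apply, neg_inj] at h2
  unfold sg
  rw [h1, h2]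
  simp only [Complex.ofReal_neg]
  linear_combination (val (w 1) x (atJ J x u) v : ℂ) * Complex.I_mul_I

theorem val_smooth (a : Z2 M) : Smooth2 (a.1.1 : F2 E4 M) := a.1.2

theorem SR_smooth (hJ : SmoothJ J) {p : M} {A B C : ℂ → E4} {z : ℂ} (hA : ContDiffAt ℝ ∞ A z)
    (ht : A z ∈ (chartAt E4 p).target) (hB : ContDiffAt ℝ ∞ B z) (hC : ContDiffAt ℝ ∞ C z) :
    ContDiffAt ℝ ∞ (fun z => SR w J p (A z) (B z) (C z)) z := by
  have h1 : ContDiffAt ℝ ∞ (fun z => rep p ((w 1).1.1 : F2 E4 M) (A z)) z :=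
    ContDiffAt.comp (g := rep p ((w 1).1.1 : F2 E4 M)) z
      (contDiffOn_chart_iff.1 ((val_smooth (w 1)).2 p) (A z) ht) hA
  have h2 : ContDiffAt ℝ ∞ (fun z => repJ p J (A z)) z :=
    ContDiffAt.comp (g := repJ p J) z (contDiffOn_chart_iff.1 (hJ p) (A z) ht) hA
  have h3 : ContDiffAt ℝ ∞ (fun z => rep p ((w 1).1.1 : F2 E4 M) (A z) (B z) (C z)) z :=
    (h1.clm_apply hB).clm_apply hC
  have h4 : ContDiffAt ℝ ∞
      (fun z => rep p ((w 1).1.1 : F2 E4 M) (A z) (repJ p J (A z) (B z)) (C z)) z :=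
    (h1.clm_apply (h2.clm_apply hB)).clm_apply hC
  have h5 : ∀ {f : ℂ → ℝ}, ContDiffAt ℝ ∞ f z → ContDiffAt ℝ ∞ (fun z => (f z : ℂ)) z :=
    fun hf => Complex.ofRealCLM.contDiff.contDiffAt.comp z hf
  exact (h5 h3).sub (contDiffAt_const.mul (h5 h4))

/-- the local vector field -/
def XX (J : EndF E4 M) (p : M) (e : E4) (r : E4 → ℂ) : VF E4 M := fun x =>
  (r (chartAt E4 p x)).re • tcc (E := E4) p x x e +
    (r (chartAt E4 p x)).im • atJ J x (tcc (E := E4) p x x e)

theorem repV_XX {p : M} {e : E4} {r : E4 → ℂ} {y : E4} (hy : y ∈ (chartAt E4 p).target) :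
    repV p (XX J p e r) y = (r y).re • e + (r y).im • repJ p J y e := by
  unfold repV
  have h1 : atV (XX J p e r) ((chartAt E4 p).symm y) =
      (r y).re • tcc (E := E4) p ((chartAt E4 p).symm y) ((chartAt E4 p).symm y) e +
      (r y).im • atJ J ((chartAt E4 p).symm y)
        (tcc (E := E4) p ((chartAt E4 p).symm y) ((chartAt E4 p).symm y) e) := by
    unfold atV XX
    rw [(chartAt E4 p).right_inv hy]
  rw [h1, map_add, map_smul, map_smul, tcc_cancel (symm_mem hy)]
  rfl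

/-- local solution -/
theorem local_field (hw : Pos3 w) (hJ : IsJ w J) {g : ℂ → M} {O : Set ℂ} (hO : IsOpen O)
    (hg : IsJHol J g O) {s : ℂ → ℂ} (hs : ContDiffOn ℝ ∞ s O) {z₁ : ℂ} (hz : z₁ ∈ O)
    (h1 : dmap g z₁ 1 ≠ 0) :
    ∃ X : VF E4 M, (∀ᶠ x in 𝓝 (g z₁), ContDiffAt ℝ ∞ (repV (g z₁) X) (chartAt E4 (g z₁) x)) ∧
      ∀ᶠ z in 𝓝 z₁, sg w J (g z) (atV X (g z)) (dmap g z 1) = s z := by
  set p := g z₁ with hp
  set U : ℂ → E4 := fun z => chartAt E4 p (g z) with hUdef
  have hgc : ContinuousAt g z₁ := (hg.at hO hz).continuousAt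
  have hev : ∀ᶠ z in 𝓝 z₁, z ∈ O ∧ g z ∈ (chartAt E4 p).source :=
    (show ∀ᶠ z in 𝓝 z₁, z ∈ O from hO.mem_nhds hz).and
      (hgc.eventually ((chartAt E4 p).open_source.mem_nhds (mem_chart_source E4 p)))
  have hU : ∀ᶠ z in 𝓝 z₁, ContDiffAt ℝ ∞ U z := by
    filter_upwards [hev] with z hz
    exact cd_chart' hz.2 (hg.at hO hz.1)
  have hUz : ContDiffAt ℝ ∞ U z₁ := hU.self_of_nhds
  have hUd : ∀ z, z ∈ O → g z ∈ (chartAt E4 p).source → ∀ v,
      tcc (g z) p (g z) (dmap g z v) = fderiv ℝ U z v := fun z hz1 hz2 v =>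
    tcc_dmap hz2 (hg.at hO hz1) v
  have hA : Alt (val (w 1) p) := (val_smooth (w 1)).1 p
  obtain ⟨e, he⟩ : ∃ e : E4, val (w 1) p e (dmap g z₁ 1) ≠ 0 := by
    by_contra hcon
    push Not at hcon
    apply h1
    refine nd hA (hw.W_ne' 1 p) ?_
    intro v
    rw [hA.swap, hcon, neg_zero]
  -- immersion
  have himm : ∀ v, fderiv ℝ U z₁ v = 0 → v = 0 := by
    intro v hv
    have hv' : dmap g z₁ v = 0 := hv
    have e1 : v = v.re • (1 : ℂ) + v.im • Complex.I := by
      apply Complex.ext <;> simp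
    have e2 : dmap g z₁ Complex.I = atJ J p (dmap g z₁ 1) := by
      have := hg.jhol z₁ hz 1
      rwa [mul_one] at this
    rw [e1, dmap_add, dmap_smul, dmap_smul, e2] at hv'
    set a := dmap g z₁ 1
    have h2 : (v.re * v.re + v.im * v.im) • a = 0 := by
      have h3 : atJ J p (v.re • a + v.im • atJ J p a) = 0 := by rw [hv', map_zero]
      rw [map_add, map_smul, map_smul, hJ.sq] at h3
      have h4 : (v.re * v.re + v.im * v.im) • a
          = v.re • (v.re • a + v.im • atJ J p a) - v.im • (v.re • atJ J p a + v.im • -a) := by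
        module
      rw [h4, hv', h3, smul_zero, smul_zero, sub_zero]
    have h3 := (smul_eq_zero.1 h2).resolve_right h1
    have hr : v.re = 0 := by nlinarith [mul_self_nonneg v.re, mul_self_nonneg v.im]
    have hi : v.im = 0 := by nlinarith [mul_self_nonneg v.re, mul_self_nonneg v.im]
    exact Complex.ext hr hi
  obtain ⟨q, hq1, hq2⟩ := exists_left hU himm
  set h : ℂ → ℂ := fun z => SR w J p (U z) e (fderiv ℝ U z 1) with hh
  have hsm : ∀ᶠ z in 𝓝 z₁, ContDiffAt ℝ ∞ h z := by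
    filter_upwards [hU, hev] with z hz1 hz2
    refine SR_smooth hJ.smooth hz1 ((chartAt E4 p).map_source hz2.2) contDiffAt_const ?_
    exact (hz1.fderiv_right (m := ∞) (by simp)).clm_apply contDiffAt_const
  have hne : h z₁ ≠ 0 := by
    intro h0
    apply he
    have h2 := congrArg Complex.re h0
    simp only [hh, SR] at h2
    have h3 : rep p ((w 1).1.1 : F2 E4 M) (U z₁) e (fderiv ℝ U z₁ 1) =
        val (w 1) p e (dmap g z₁ 1) := rep_self p _ _ _
    rw [h3] at h2
    simpa using h2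
  have hne' : ∀ᶠ z in 𝓝 z₁, h z ≠ 0 := hsm.self_of_nhds.continuousAt.eventually_ne hne
  set r : ℂ → ℂ := fun z => s z / h z with hr
  have hrs : ∀ᶠ z in 𝓝 z₁, ContDiffAt ℝ ∞ r z := by
    filter_upwards [hsm, hne', hev] with z h1 h2 h3
    have h5 : ContDiffAt ℝ ∞ (fun z => s z * (h z)⁻¹) z :=
      (hs.contDiffAt (hO.mem_nhds h3.1)).mul (h1.inv h2)
    refine h5.congr_of_eventuallyEq (Filter.Eventually.of_forall fun z => ?_)
    exact div_eq_mul_inv _ _
  have hqz : q (U z₁) = z₁ := hq2.self_of_nhds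
  refine ⟨XX J p e (fun y => r (q y)), ?_, ?_⟩
  · have hc : Filter.Tendsto (chartAt E4 p) (𝓝 p) (𝓝 (U z₁)) :=
      (chartAt E4 p).continuousAt (mem_chart_source E4 p)
    have hqc : Filter.Tendsto q (𝓝 (U z₁)) (𝓝 z₁) := by
      have := hq1.self_of_nhds.continuousAt
      unfold ContinuousAt at this
      rwa [hqz] at this
    have h2 : ∀ᶠ x in 𝓝 p, ContDiffAt ℝ ∞ (fun y => r (q y)) (chartAt E4 p x) := by
      filter_upwards [hc.eventually hq1, hc.eventually (hqc.eventually hrs)] with x h3 h4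
      exact ContDiffAt.comp _ h4 h3
    filter_upwards [h2, (chartAt E4 p).open_source.mem_nhds (mem_chart_source E4 p)] with x h3 h4
    have ht := (chartAt E4 p).map_source h4
    have h5 : ContDiffAt ℝ ∞ (fun y => (r (q y)).re • e + (r (q y)).im • repJ p J y e)
        (chartAt E4 p x) := by
      have hre : ContDiffAt ℝ ∞ (fun y => (r (q y)).re) (chartAt E4 p x) :=
        Complex.reCLM.contDiff.contDiffAt.comp _ h3
      have him : ContDiffAt ℝ ∞ (fun y => (r (q y)).im) (chartAt E4 p x) :=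
        Complex.imCLM.contDiff.contDiffAt.comp _ h3
      exact (hre.smul contDiffAt_const).add (him.smul
        ((contDiffOn_chart_iff.1 (hJ.smooth p) _ ht).clm_apply contDiffAt_const))
    refine h5.congr_of_eventuallyEq ?_
    filter_upwards [(chartAt E4 p).open_target.mem_nhds ht] with y hy
    exact repV_XX hy
  · filter_upwards [hq2, hev, hne'] with z h2 h3 h4
    have h5 : atV (XX J p e (fun y => r (q y))) (g z) =
        (r z).re • tcc (E := E4) p (g z) (g z) e +
        (r z).im • atJ J (g z) (tcc (E := E4) p (g z) (g z) e) := by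
      unfold atV XX
      have : q (chartAt E4 p (g z)) = z := h2
      simp only [this]
    rw [h5, sg_comb, sg_J_left hJ, sg_eq h3.2, tcc_cancel h3.2, hUd z h3.1 h3.2]
    have h6 : SR w J p (chartAt E4 p (g z)) e (fderiv ℝ U z 1) = h z := rfl
    rw [h6]
    have h7 : ((r z).re : ℂ) * h z + (r z).im * (Complex.I * h z) = r z * h z := by
      conv_rhs => rw [← Complex.re_add_im (r z)]
      ring
    rw [h7, hr]
    exact div_mul_cancel₀ _ h4

theorem of_rep {X : VF E4 M} {U₀ : Set M}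
    (h : ∀ x ∈ U₀, ∃ p : M, x ∈ (chartAt E4 p).source ∧
      ContDiffAt ℝ ∞ (repV p X) (chartAt E4 p x)) :
    ContMDiffOn 𝓘(ℝ, E4) 𝓘(ℝ, E4).tangent ((⊤ : ℕ∞) : WithTop ℕ∞)
        (fun x => (Bundle.TotalSpace.mk' E4 x (X x) : TangentBundle 𝓘(ℝ, E4) M)) U₀ := by
  intro x hx
  obtain ⟨p, hp, h1⟩ := h x hx
  exact ((contMDiffAt_V hp X).2 h1).contMDiffWithinAt

theorem repV_zero (p : M) : repV p (fun _ : M => (0 : E4)) = fun _ => 0 := by
  funext y
  exact map_zero _

theorem smooth_zero {U₀ : Set M} :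
    ContMDiffOn 𝓘(ℝ, E4) 𝓘(ℝ, E4).tangent ((⊤ : ℕ∞) : WithTop ℕ∞)
        (fun x => (Bundle.TotalSpace.mk' E4 x (0 : E4) : TangentBundle 𝓘(ℝ, E4) M)) U₀ := by
  refine of_rep (X := fun _ => 0) fun x _ => ⟨x, mem_chart_source E4 x, ?_⟩
  rw [repV_zero]
  exact contDiffAt_const

end Basic

/-- **FIELD**. -/
theorem field : Adj.FIELD.{u} := by
  intro M _ _ _ _ _ _ w J hw hJ c k V hV hinj himm
  let t : ∀ x : M, Set (TangentSpace 𝓘(ℝ, E4) x) := fun x =>
    {v | x ∉ V → ∀ i, ∀ z ∈ (c.A.c i).target, c.f ((c.A.c i).symm z) = x →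
      sg w J x (v : E4) (dmap (fun z => c.f ((c.A.c i).symm z)) z 1) = k.s i z}
  have ht : ∀ x, Convex ℝ (t x) := by
    intro x a ha b hb α β _ _ hαβ hx i z hz hfz
    have e1 := ha hx i z hz hfz
    have e2 := hb hx i z hz hfz
    have e3 := sg_comb (w := w) (J := J) x α β (a : E4) (b : E4)
      (dmap (fun z => c.f ((c.A.c i).symm z)) z 1)
    refine e3.trans ?_
    rw [e1, e2, ← add_mul]
    have : (α : ℂ) + β = 1 := by exact_mod_cast hαβ
    rw [this, one_mul]
  have Hloc : ∀ x₀ : M, ∃ U₀ ∈ 𝓝 x₀, ∃ X : (x : M) → TangentSpace 𝓘(ℝ, E4) x,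
      (ContMDiffOn 𝓘(ℝ, E4) 𝓘(ℝ, E4).tangent ((⊤ : ℕ∞) : WithTop ℕ∞)
        (fun x => (X x : TangentBundle 𝓘(ℝ, E4) M)) U₀) ∧ (∀ y ∈ U₀, X y ∈ t y) := by
    intro x₀
    by_cases hxV : x₀ ∈ V
    · exact ⟨V, hV.mem_nhds hxV, fun x => (0 : E4), smooth_zero, fun y hy h => absurd hy h⟩
    by_cases hxf : x₀ ∈ range c.f
    · obtain ⟨x₁, hx₁⟩ := hxf
      obtain ⟨i₀, hi₀⟩ := c.A.cover x₁
      set z₁ := c.A.c i₀ x₁ with hz₁
      have hz₁t : z₁ ∈ (c.A.c i₀).target := (c.A.c i₀).map_source hi₀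
      have hsz : (c.A.c i₀).symm z₁ = x₁ := (c.A.c i₀).left_inv hi₀
      set g : ℂ → M := fun z => c.f ((c.A.c i₀).symm z) with hg
      have hgz : g z₁ = x₀ := by
        show c.f ((c.A.c i₀).symm z₁) = x₀
        rw [hsz, hx₁]
      subst hgz
      have hd : dmap g z₁ 1 ≠ 0 := fun h0 => hxV (himm i₀ z₁ hz₁t h0)
      obtain ⟨X, hX1, hX2⟩ := local_field hw hJ (c.A.c i₀).open_target (c.hol i₀) (k.smooth i₀)
        hz₁t hd
      -- the good points of the surface
      have hgood : ∀ᶠ x' in 𝓝 x₁, x' ∈ (c.A.c i₀).source ∧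
          sg w J (g (c.A.c i₀ x')) (atV X (g (c.A.c i₀ x'))) (dmap g (c.A.c i₀ x') 1) =
            k.s i₀ (c.A.c i₀ x') := by
        refine (show ∀ᶠ x' in 𝓝 x₁, x' ∈ (c.A.c i₀).source from
          (c.A.c i₀).open_source.mem_nhds hi₀).and ?_
        have hc : Filter.Tendsto (c.A.c i₀) (𝓝 x₁) (𝓝 z₁) := (c.A.c i₀).continuousAt hi₀
        exact hc.eventually hX2
      obtain ⟨O', hO'1, hO'2, hO'3⟩ := mem_nhds_iff.1 hgood
      have hcl : IsClosed (c.f '' O'ᶜ) :=
        (hO'2.isClosed_compl.isCompact.image c.cont).isClosed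
      have hx₀ : g z₁ ∉ c.f '' O'ᶜ := by
        rintro ⟨x', hx', hfx⟩
        apply hx'
        by_cases hxx : x' = x₁
        · rw [hxx]; exact hO'3
        · refine absurd ?_ hxV
          have h3 := hinj x' x₁ hxx (by rw [hfx, hx₁])
          rwa [hfx] at h3
      refine ⟨{x | ContDiffAt ℝ ∞ (repV (g z₁) X) (chartAt E4 (g z₁) x)} ∩
        ((chartAt E4 (g z₁)).source ∩ (c.f '' O'ᶜ)ᶜ), ?_, X, ?_, ?_⟩
      · exact Filter.inter_mem hX1 (Filter.inter_mem
          ((chartAt E4 (g z₁)).open_source.mem_nhds (mem_chart_source E4 (g z₁)))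
          (hcl.isOpen_compl.mem_nhds hx₀))
      · exact of_rep fun x hx => ⟨g z₁, hx.2.1, hx.1⟩
      · rintro y ⟨-, -, hy⟩ hyV i z hz hfz
        subst hfz
        have hx' : (c.A.c i).symm z ∈ O' := by
          by_contra hn
          exact hy ⟨_, hn, rfl⟩
        obtain ⟨hs1, hs2⟩ := hO'1 hx'
        have hdom : z ∈ c.A.dom i i₀ := ⟨hz, hs1⟩
        have htr : c.A.c i₀ ((c.A.c i).symm z) = c.A.tr i i₀ z := rfl
        rw [htr] at hs2
        have hgt : g (c.A.tr i i₀ z) = c.f ((c.A.c i).symm z) := by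
          show c.f ((c.A.c i₀).symm (c.A.c i₀ ((c.A.c i).symm z))) = _
          rw [(c.A.c i₀).left_inv hs1]
        rw [hgt] at hs2
        have hopen : IsOpen (c.A.dom i i₀) :=
          (c.A.c i).isOpen_inter_preimage_symm (c.A.c i₀).open_source
        have hta : DifferentiableAt ℂ (c.A.tr i i₀) z :=
          (c.A.hol i i₀).differentiableAt (hopen.mem_nhds hdom)
        have htt : c.A.tr i i₀ z ∈ (c.A.c i₀).target := (c.A.c i₀).map_source hs1
        have h4 : (fun z => c.f ((c.A.c i).symm z)) =ᶠ[𝓝 z] fun z => g (c.A.tr i i₀ z) := by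
          filter_upwards [hopen.mem_nhds hdom] with z' hz'
          show _ = c.f ((c.A.c i₀).symm (c.A.c i₀ ((c.A.c i).symm z')))
          rw [(c.A.c i₀).left_inv hz'.2]
        have h5 : dmap (fun z => c.f ((c.A.c i).symm z)) z 1 =
            dmap g (c.A.tr i i₀ z) (deriv (c.A.tr i i₀) z * 1) := by
          rw [dmap_congr h4]
          exact dmap_comp_hol ((c.hol i₀).at (c.A.c i₀).open_target htt) hta 1
        set d := deriv (c.A.tr i i₀) z with hdd
        have h6 : dmap g (c.A.tr i i₀ z) (d * 1) =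
            d.re • dmap g (c.A.tr i i₀ z) 1 +
              d.im • atJ J (c.f ((c.A.c i).symm z)) (dmap g (c.A.tr i i₀ z) 1) := by
          have e1 : d * 1 = d.re • (1 : ℂ) + d.im • (Complex.I * 1) := by
            apply Complex.ext <;> simp
          rw [e1, dmap_add, dmap_smul, dmap_smul, (c.hol i₀).jhol _ htt 1]
          rw [← hgt]
        rw [h5, h6, sg_comb_right, sg_J_right hJ, k.tr i i₀ z hdom, ← hs2, ← hdd]
        have h9 : (d.re : ℂ) + d.im * Complex.I = d := Complex.re_add_im d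
        show (d.re : ℂ) * sg w J (c.f ((c.A.c i).symm z)) (atV X (c.f ((c.A.c i).symm z)))
            (dmap g (c.A.tr i i₀ z) 1) + (d.im : ℂ) * (Complex.I *
            sg w J (c.f ((c.A.c i).symm z)) (atV X (c.f ((c.A.c i).symm z)))
            (dmap g (c.A.tr i i₀ z) 1)) = _
        linear_combination sg w J (c.f ((c.A.c i).symm z)) (atV X (c.f ((c.A.c i).symm z)))
            (dmap g (c.A.tr i i₀ z) 1) * h9
    · refine ⟨(range c.f)ᶜ, ?_, fun x => (0 : E4), ?_, ?_⟩
      · exact (isCompact_range c.cont).isClosed.isOpen_compl.mem_nhds hxf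
      · exact smooth_zero
      · intro y hy _ i z hz hfz
        exact absurd ⟨_, hfz⟩ hy
  obtain ⟨X, hX⟩ := exists_contMDiffSection_forall_mem_convex_of_local (n := ⊤) 𝓘(ℝ, E4)
    (TangentSpace 𝓘(ℝ, E4)) t ht Hloc
  refine ⟨fun x => X x, (smoothV_iff (fun x => X x)).1 X.contMDiff, ?_⟩
  intro i z hz hfz
  exact hX _ hfz i z hz rfl


end

end Crest.Agent.R235.Field_910

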