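import Crest.Agent.R235.BoxC_266
import Crest.Agent.R235.AdjSheet_688
import Crest.Agent.R235.Dm_61
import Crest.Agent.R235.Field_910

/-!
# Row 235 (S0364), package ADJ (helper43), leaf L4 (helper688)

The fields `m`, `wind`, `m_nonneg`, `m_pos`, `other` of `Adj.Box` for the function `Pl.F` of
`BoxB_266` (`Pl B`, `B : FBox c p V`).
-/

set_option autoImplicit false
set_option maxSynthPendingDepth 3

open Set Function Filter MeasureTheory Metric
open scoped Manifold ContDiff Topology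

universe u

namespace Crest.Agent.R235.AdjBoxW_688

open Crest.Agent.R240 Crest.Agent.R240.Ch Crest.Agent.R240.Int
open Crest.Agent.R235 Crest.Agent.R235.Glob_370 Crest.Agent.R235.Wind_688
open Crest.Agent.R235.NWDefs_334 Crest.Agent.R235.BrNF_266 Crest.Agent.R235.Adj
open Crest.Agent.R235.RootProd_266 Crest.Agent.R235.BranchProd_266 Crest.Agent.R235.BoxL2_266
open Crest.Agent.R235.AdjPos_688 Crest.Agent.R235.AdjMu_688 Crest.Agent.R235.AdjSheet_688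
open Crest.Agent.R235.CauchyV_679

noncomputable section

local notation "cj" => starRingEnd ℂ

variable {M : Type u} [TopologicalSpace M] [ChartedSpace E4 M] [IsManifold 𝓘(ℝ, E4) ∞ M]
variable {w : Trip M} {J : EndF E4 M} {c : JCurve J} {p : M} {V : Set M} {B : FBox c p V}

theorem brs (P : Pl B) (j : Fin (c.L p).n) :
    Br B.J' (B.v j) B.r1 (B.m j) (B.a j) B.C (P.e j) where
  r1_pos := B.r1_pos
  smooth := B.v_smooth j
  hol := B.v_hol j
  m_pos := B.m_pos j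
  a_ne := B.a_ne j
  C_nonneg := B.C_nonneg
  ζ0 := B.ζ0 j
  ζ1 := B.ζ1 j
  z0 := B.z0 j
  z1 := B.z1 j
  src := P.src j
  mem0 := (P.nf j).src
  zero := (P.nf j).zero
  cs := by rw [(P.nf j).tgt]; exact (P.nf j).c1s
  c1 := (P.nf j).c1
  pow := (P.nf j).pow

theorem sep (B : FBox c p V) : ∀ i j, ∀ s ∈ ball (0 : ℂ) B.r1, ∀ t ∈ ball (0 : ℂ) B.r1,
    B.v i s = B.v j t → s ≠ 0 → i = j ∧ s = t := by
  intro i j s hs t ht h hs0
  have h1 : (c.L p).u i s = (c.L p).u j t := by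
    rw [← Θ_v B i hs, ← Θ_v B j ht, h]
  have hs1 := ball_subset_ball B.r1_le hs
  have ht1 := ball_subset_ball B.r1_le ht
  by_cases hij : i = j
  · subst hij
    exact ⟨rfl, ((c.L p).disc i).inj hs1 ht1 h1⟩
  · exact absurd ((c.L p).disj i j hij s hs1 t ht1 h1) hs0

theorem mem_source (B : FBox c p V) {y : ℂ × ℂ} (hy : y ∈ ball (0 : ℂ × ℂ) B.R) :
    y ∈ B.Θ.source := by
  rw [B.source]; exact hy

theorem Θ_at (B : FBox c p V) {y : ℂ × ℂ} (hy : y ∈ ball (0 : ℂ × ℂ) B.R) :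
    ContMDiffAt 𝓘(ℝ, ℂ × ℂ) 𝓘(ℝ, E4) ∞ B.Θ y := B.smooth.contMDiffAt (isOpen_ball.mem_nhds hy)

/-- `DS (dΘ v) = v` -/
theorem DS_dmap (B : FBox c p V) {y : ℂ × ℂ} (hy : y ∈ ball (0 : ℂ × ℂ) B.R) (v : ℂ × ℂ) :
    Pl.DS B (B.Θ y) (dmap B.Θ y v) = v := by
  have hs := mem_source B hy
  have hx : B.Θ y ∈ B.Θ.target := B.Θ.map_source hs
  have h1 := Pl.hasFDerivAt_DS (B := B) hx
  have h0 : B.Θ y ∈ (chartAt E4 (B.Θ y)).source := mem_chart_source E4 (B.Θ y)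
  have h2 : HasFDerivAt (fun q : ℂ × ℂ => chartAt E4 (B.Θ y) (B.Θ q))
      (fderiv ℝ (fun q : ℂ × ℂ => chartAt E4 (B.Θ y) (B.Θ q)) y) y :=
    ((Dm_61.contDiffAt_chart (Θ_at B hy) h0).differentiableAt (by simp)).hasFDerivAt
  have h3 := h1.comp y h2
  have h4 : ((fun q : E4 => B.Θ.symm ((chartAt E4 (B.Θ y)).symm q)) ∘
      fun q : ℂ × ℂ => chartAt E4 (B.Θ y) (B.Θ q)) =ᶠ[𝓝 y] fun q => q := by
    filter_upwards [B.Θ.open_source.mem_nhds hs,
      (Θ_at B hy).continuousAt.preimage_mem_nhds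
        ((chartAt E4 (B.Θ y)).open_source.mem_nhds h0)] with q hq1 hq2
    show B.Θ.symm ((chartAt E4 (B.Θ y)).symm (chartAt E4 (B.Θ y) (B.Θ q))) = q
    rw [(chartAt E4 (B.Θ y)).left_inv hq2, B.Θ.left_inv hq1]
  have h5 := (h3.congr_of_eventuallyEq h4.symm).unique (hasFDerivAt_id y)
  have h6 := DFunLike.congr_fun h5 v
  exact h6

theorem dmap_inj (B : FBox c p V) {y : ℂ × ℂ} (hy : y ∈ ball (0 : ℂ × ℂ) B.R) {v v' : ℂ × ℂ}
    (h : dmap B.Θ y v = dmap B.Θ y v') : v = v' := by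
  rw [← DS_dmap B hy v, h, DS_dmap B hy v']

theorem J'_sq (B : FBox c p V) (hJ : ∀ x v, atJ J x (atJ J x v) = -v) :
    ∀ x ∈ ball (0 : ℂ × ℂ) B.R, ∀ v, B.J' x (B.J' x v) = -v := by
  intro x hx v
  refine dmap_inj B hx ?_
  rw [B.conj x hx, B.conj x hx, hJ]
  exact (map_neg (fderiv ℝ (fun z => chartAt E4 (B.Θ x) (B.Θ z)) x) v).symm

theorem mbx (B : FBox c p V) (hJ : ∀ x v, atJ J x (atJ J x v) = -v) :
    ∃ δ L : ℝ, δ ≤ B.R ∧ MB B.J' δ L :=
  exists_mb B.R_pos B.smoothJ (J'_sq B hJ) B.leaf B.J0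

/-! ### the section -/

/-- the complex form `σ(∂_z, dΘ ·)` -/
def AA (w : Trip M) (J : EndF E4 M) (Θ : ℂ × ℂ → M) (x : ℂ × ℂ) : ℂ × ℂ →L[ℝ] ℂ :=
  (Complex.ofRealCLM.comp ((val (w 1) (Θ x) (dmap Θ x (0, 1))).comp
      (fderiv ℝ (fun z => chartAt E4 (Θ x) (Θ z)) x)) : ℂ × ℂ →L[ℝ] ℂ) -
    Complex.I • (Complex.ofRealCLM.comp
      ((val (w 1) (Θ x) (atJ J (Θ x) (dmap Θ x (0, 1)))).comp
      (fderiv ℝ (fun z => chartAt E4 (Θ x) (Θ z)) x)) : ℂ × ℂ →L[ℝ] ℂ)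

theorem AA_apply (w : Trip M) (J : EndF E4 M) (Θ : ℂ × ℂ → M) (x v : ℂ × ℂ) :
    AA w J Θ x v = Adj.sg w J (Θ x) (dmap Θ x (0, 1)) (dmap Θ x v) := rfl

theorem sg_self (hJ : IsJ w J) (x : M) (u : E4) : Adj.sg w J x u u = 0 := by
  have hA : Alt (val (w 1) x) := (Field_910.val_smooth (w 1)).1 x
  have h1 := hJ.anti1 x u (atJ J x u)
  rw [hJ.sq] at h1
  simp only [map_neg, neg_inj] at h1
  have h2 : val (w 1) x (atJ J x u) u = -val (w 1) x u (atJ J x u) := hA.swap _ _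
  have h3 : val (w 1) x (atJ J x u) u = 0 := by linarith
  have h4 : val (w 1) x u u = 0 := hA u
  unfold Adj.sg
  rw [h3, h4]
  simp

/-- the coefficient -/
def al (w : Trip M) (J : EndF E4 M) (Θ : ℂ × ℂ → M) (x : ℂ × ℂ) : ℂ :=
  (2 : ℂ)⁻¹ * (AA w J Θ x (1, 0) - Complex.I * AA w J Θ x (Complex.I, 0))

theorem AA_eq (hJ : IsJ w J) (B : FBox c p V) {δ L : ℝ} (hδ : δ ≤ B.R) (hB : MB B.J' δ L)
    {x : ℂ × ℂ} (hx : x ∈ ball (0 : ℂ × ℂ) δ) (v : ℂ × ℂ) :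
    AA w J B.Θ x v = al w J B.Θ x * (v.1 + mu (B.J' x) * cj v.1) := by
  have hxR : x ∈ ball (0 : ℂ × ℂ) B.R := ball_subset_ball hδ hx
  refine form_eq (hB.vj x hx) (AA w J B.Θ x) (fun v => ?_) ?_ v
  · rw [AA_apply, AA_apply, B.conj x hxR, Field_910.sg_J_right hJ]
  · rw [AA_apply]; exact sg_self hJ _ _

theorem al_ne (hw : Pos3 w) (hJ : IsJ w J) (B : FBox c p V) {δ L : ℝ} (hδ : δ ≤ B.R)
    (hB : MB B.J' δ L) {x : ℂ × ℂ} (hx : x ∈ ball (0 : ℂ × ℂ) δ) : al w J B.Θ x ≠ 0 := by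
  intro h0
  have hxR : x ∈ ball (0 : ℂ × ℂ) B.R := ball_subset_ball hδ hx
  have hs := mem_source B hxR
  have hA : Alt (val (w 1) (B.Θ x)) := (Field_910.val_smooth (w 1)).1 _
  have h1 : dmap B.Θ x (0, 1) = 0 := by
    refine Field_910.nd hA (hw.W_ne' 1 _) fun v => ?_
    have h2 : dmap B.Θ x (Pl.DS B (B.Θ x) v) = v := by
      have := Pl.dmap_DS (B := B) (B.Θ.map_source hs) v
      rwa [B.Θ.left_inv hs] at this
    have h3 := AA_eq hJ B hδ hB hx (Pl.DS B (B.Θ x) v)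
    rw [h0, zero_mul, AA_apply, h2] at h3
    have h4 := congrArg Complex.re h3
    unfold Adj.sg at h4
    simpa using h4
  have h2 : dmap B.Θ x (0, 1) = dmap B.Θ x 0 := by
    rw [h1]; exact (Dm_61.dmap_zero _ _).symm
  have h3 := dmap_inj B hxR h2
  have h4 := congrArg Prod.snd h3
  simp at h4

theorem al_cont (B : FBox c p V) : ContinuousOn (al w J B.Θ) (ball (0 : ℂ × ℂ) B.R) := by
  have hb : Smooth2 ((w 1).1.1 : F2 E4 M) := (w 1).1.2
  have key : ∀ v : ℂ × ℂ, ContinuousOn (fun x => AA w J B.Θ x v) (ball (0 : ℂ × ℂ) B.R) := by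
    intro v
    have h1 := (Dm_61.contDiffOn_pull isOpen_ball B.smooth hb (0, 1) v).continuousOn
    have h2 := (Dm_61.contDiffOn_pull isOpen_ball B.smooth hb (0, Complex.I) v).continuousOn
    have h3 : ContinuousOn (fun x => ((at2 ((w 1).1.1 : F2 E4 M) (B.Θ x) (dmap B.Θ x (0, 1))
        (dmap B.Θ x v) : ℝ) : ℂ) - Complex.I * ((at2 ((w 1).1.1 : F2 E4 M) (B.Θ x)
          (dmap B.Θ x (0, Complex.I)) (dmap B.Θ x v) : ℝ) : ℂ)) (ball (0 : ℂ × ℂ) B.R) :=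
      (Complex.continuous_ofReal.comp_continuousOn h1).sub
        (continuousOn_const.mul (Complex.continuous_ofReal.comp_continuousOn h2))
    refine h3.congr fun x hx => ?_
    rw [AA_apply, Adj.sg, ← B.conj x hx, B.leaf x hx, mul_one]
    rfl
  exact continuousOn_const.mul ((key _).sub (continuousOn_const.mul (key _)))

/-- the section along the branch `j` -/
def gs (w : Trip M) (J : EndF E4 M) {c : JCurve J} {p : M} {V : Set M} (B : FBox c p V)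
    (j : Fin (c.L p).n) (s : ℂ) : ℂ :=
  Adj.sg w J ((c.L p).u j s) (dmap B.Θ (B.v j s) (0, 1)) (dmap ((c.L p).u j) s 1)

theorem dmap_u (B : FBox c p V) (j : Fin (c.L p).n) {s : ℂ} (hs : s ∈ ball (0 : ℂ) B.r1)
    (a : ℂ) : dmap ((c.L p).u j) s a = dmap B.Θ (B.v j s) (fderiv ℝ (B.v j) s a) := by
  have h1 : (c.L p).u j =ᶠ[𝓝 s] fun t => B.Θ (B.v j t) := by
    filter_upwards [isOpen_ball.mem_nhds hs] with t ht
    exact (Θ_v B j ht).symm
  rw [Dm_61.dmap_congr h1]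
  exact Dm_61.dmap_comp (Θ_at B (v_mem B j hs)) (B.v_hol j s hs).1 a

theorem gs_eq (hJ : IsJ w J) (B : FBox c p V) {δ L : ℝ} (hδ : δ ≤ B.R) (hB : MB B.J' δ L)
    (j : Fin (c.L p).n) {s : ℂ} (hs : s ∈ ball (0 : ℂ) B.r1)
    (hx : B.v j s ∈ ball (0 : ℂ × ℂ) δ) :
    gs w J B j s = al w J B.Θ (B.v j s) * ((1 - ‖mu (B.J' (B.v j s))‖ ^ 2 : ℝ) : ℂ) *
      dlz (fun s => (B.v j s).1) s := by
  have hd := (B.v_hol j s hs).1
  have hjc := jc_of (hB.vj _ hx) rfl hd (B.v_hol j s hs).2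
  have h1 : (fderiv ℝ (B.v j) s 1).1 = dlz (fun s => (B.v j s).1) s +
      db (fun s => (B.v j s).1) s := by
    have h : HasFDerivAt (fun s => (B.v j s).1)
        ((ContinuousLinearMap.fst ℝ ℂ ℂ).comp (fderiv ℝ (B.v j) s)) s :=
      hasFDerivAt_fst.comp s hd.hasFDerivAt
    have h2 := AdjPos_688.fderiv_eq (fun s => (B.v j s).1) s 1
    rw [h.fderiv] at h2
    simpa using h2
  have h2 : gs w J B j s = AA w J B.Θ (B.v j s) (fderiv ℝ (B.v j) s 1) := by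
    rw [AA_apply, gs, dmap_u B j hs, Θ_v B j hs]
  have h3 := sec_eq hjc
  have h4 : db (fun s => (B.v j s).1) s +
      mu (B.J' (B.v j s)) * cj (dlz (fun s => (B.v j s).1) s) = 0 := by
    have := hjc.eζ
    have e : mu (B.J' ((fun s => (B.v j s).1) s, (fun s => (B.v j s).2) s)) =
      mu (B.J' (B.v j s)) := rfl
    rw [e] at this
    rw [this]; ring
  have h5 : dlz (fun s => (B.v j s).1) s +
      mu (B.J' (B.v j s)) * cj (db (fun s => (B.v j s).1) s) =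
      ((1 - ‖mu (B.J' (B.v j s))‖ ^ 2 : ℝ) : ℂ) * dlz (fun s => (B.v j s).1) s := h3
  rw [h2, AA_eq hJ B hδ hB hx, h1, mul_assoc, ← h5]
  congr 1
  rw [map_add]
  linear_combination h4

theorem gwinds (hw : Pos3 w) (hJ : IsJ w J) (P : Pl B) (j : Fin (c.L p).n) :
    ∃ r0 > 0, r0 ≤ B.r1 ∧ (∀ s ∈ ball (0 : ℂ) r0, s ≠ 0 → gs w J B j s ≠ 0) ∧
      ∀ r, 0 < r → r < r0 → IsW (gs w J B j) 0 r (B.m j - 1 : ℕ) := by
  obtain ⟨δ, L, hδ, hB⟩ := mbx B hJ.sq
  have hbr := brs P j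
  have hap : 0 < ‖B.a j‖ := norm_pos_iff.2 (B.a_ne j)
  have hev : ∀ᶠ s in 𝓝 (0 : ℂ), s ∈ ball (0 : ℂ) B.r1 ∧ B.v j s ∈ ball (0 : ℂ × ℂ) δ ∧
      B.C * ‖s‖ ≤ ‖B.a j‖ / 2 := by
    refine Filter.Eventually.and (ball_mem_nhds _ B.r1_pos) (Filter.Eventually.and ?_ ?_)
    · refine hbr.contAt.preimage_mem_nhds ?_
      rw [hbr.v0]; exact ball_mem_nhds _ hB.pos
    · have h1 : Tendsto (fun s : ℂ => B.C * ‖s‖) (𝓝 0) (𝓝 0) := by
        have h2 : Continuous fun s : ℂ => B.C * ‖s‖ := by fun_prop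
        simpa using h2.tendsto 0
      exact h1.eventually (Iic_mem_nhds (by positivity))
  obtain ⟨r0, hr0, hr⟩ := Metric.eventually_nhds_iff_ball.1 hev
  have hsub : ball (0 : ℂ) (min r0 B.r1) ⊆ ball 0 r0 := ball_subset_ball (min_le_left _ _)
  set G : ℂ → ℂ := fun s =>
    al w J B.Θ (B.v j s) * ((1 - ‖mu (B.J' (B.v j s))‖ ^ 2 : ℝ) : ℂ) with hG
  have hvc : ContinuousOn (B.v j) (ball 0 (min r0 B.r1)) :=
    (B.v_smooth j).continuousOn.mono (ball_subset_ball (min_le_right _ _))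
  have hGc : ContinuousOn G (ball 0 (min r0 B.r1)) := by
    have h1 : ContinuousOn (fun s => al w J B.Θ (B.v j s)) (ball 0 (min r0 B.r1)) :=
      (al_cont B).comp hvc fun s hs => ball_subset_ball hδ (hr s (hsub hs)).2.1
    have h2 : ContinuousOn (fun s => mu (B.J' (B.v j s))) (ball 0 (min r0 B.r1)) :=
      hB.smu.continuousOn.comp hvc fun s hs => (hr s (hsub hs)).2.1
    refine h1.mul (Complex.continuous_ofReal.comp_continuousOn ?_)
    exact continuousOn_const.sub (h2.norm.pow 2)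
  have hGne : ∀ s ∈ ball (0 : ℂ) (min r0 B.r1), G s ≠ 0 := by
    intro s hs
    have h1 := hr s (hsub hs)
    refine mul_ne_zero (al_ne hw hJ B hδ hB h1.2.1) ?_
    have h2 := hB.mle _ h1.2.1
    have h3 : (1 - ‖mu (B.J' (B.v j s))‖ ^ 2 : ℝ) ≠ 0 := by
      have h4 : ‖mu (B.J' (B.v j s))‖ ^ 2 ≤ (1 / 2) ^ 2 := by gcongr
      linarith
    exact_mod_cast h3
  have hgG : ∀ s ∈ ball (0 : ℂ) (min r0 B.r1), gs w J B j s =
      G s * dlz (fun s => (B.v j s).1) s := fun s hs =>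
    gs_eq hJ B hδ hB j (hr s (hsub hs)).1 (hr s (hsub hs)).2.1
  have hdc : ContinuousOn (dlz (fun s => (B.v j s).1)) (ball 0 (min r0 B.r1)) := by
    have h1 : ContDiffOn ℝ ∞ (fun s => (B.v j s).1) (ball 0 (min r0 B.r1)) :=
      ((B.v_smooth j).fst).mono (ball_subset_ball (min_le_right _ _))
    have h2 := h1.continuousOn_fderiv_of_isOpen isOpen_ball (by simp)
    exact continuousOn_const.mul ((h2.clm_apply continuousOn_const).sub
      (continuousOn_const.mul (h2.clm_apply continuousOn_const)))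
  have hne : ∀ s ∈ ball (0 : ℂ) (min r0 B.r1), s ≠ 0 → gs w J B j s ≠ 0 := by
    intro s hs hs0
    rw [hgG s hs]
    refine mul_ne_zero (hGne s hs) fun h0 => ?_
    have h1 := hbr.dlow (hr s (hsub hs)).1 (hr s (hsub hs)).2.2
    rw [h0, norm_zero] at h1
    have h2 : 0 < ‖s‖ := norm_pos_iff.2 hs0
    have : 0 < ‖B.a j‖ / 2 * ‖s‖ ^ (B.m j - 1) := by positivity
    linarith
  have hmin : 0 < min r0 B.r1 := lt_min hr0 B.r1_pos
  refine ⟨min r0 B.r1, hmin, min_le_right _ _, hne, ?_⟩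
  refine gwind (ζ := fun s => (B.v j s).1) (G := G) (a := B.a j) (C := B.C)
    (by have := B.m_pos j; omega) (B.a_ne j) hmin
    (hGc.continuousAt (ball_mem_nhds _ hmin)) (hGne 0 (mem_ball_self hmin)) ?_ hne
    (fun s hs _ => hgG s hs) (fun s hs => hbr.dlz_sub (hr s (hsub hs)).1)
  refine (ContinuousOn.congr (hGc.mul hdc) fun s hs => ?_).mono sdiff_subset
  exact hgG s hs

/-- **the fields `m`, `wind`, `m_nonneg`, `m_pos`** -/
theorem kappa_wind (hw : Pos3 w) (hJ : IsJ w J) (P : Pl B) :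
    ∃ r0 > 0, r0 ≤ B.r1 ∧ (∀ j, ball 0 r0 ⊆ (P.e j).source) ∧
      (∀ j, ∀ s ∈ ball (0 : ℂ) r0, s ≠ 0 → hb B.m P.Z j (P.e j s) ≠ 0 ∧ gs w J B j s ≠ 0) ∧
      ∃ mm : Fin (c.L p).n → ℤ,
      (∀ j, ∀ r, 0 < r → r < r0 →
        IsW (fun s => hb B.m P.Z j (P.e j s) / gs w J B j s) 0 r (mm j)) ∧
      (∀ j, 0 ≤ mm j) ∧
      ∀ j, (1 < (c.L p).n ∨ dmap ((c.L p).u j) 0 1 = 0) → 1 ≤ mm j := by
  obtain ⟨δ, L, hδ, hB⟩ := mbx B hJ.sq
  choose ra hra hsrc hane N hN hWa using fun j => windHb hB (fun c => brs P c) (sep B) j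
  choose rb hrb hrb1 hbne hWb using fun j => gwinds hw hJ P j
  obtain ⟨r0, hr0, hle⟩ := AdjSheet_688.exists_pos_le (f := fun j => min (ra j) (rb j))
    (fun j => lt_min (hra j) (hrb j))
  have hla : ∀ j, r0 ≤ ra j := fun j => (hle j).trans (min_le_left _ _)
  have hlb : ∀ j, r0 ≤ rb j := fun j => (hle j).trans (min_le_right _ _)
  refine ⟨min r0 B.r1, lt_min hr0 B.r1_pos, min_le_right _ _, fun j =>
    (ball_subset_ball ((min_le_left _ _).trans (hla j))).trans (hsrc j), fun j s hs hs0 => ⟨?_, ?_⟩,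
    fun j => N j - (B.m j - 1 : ℕ), fun j r h1 h2 => ?_, fun j => ?_, fun j hj => ?_⟩
  · exact hane j s (ball_subset_ball ((min_le_left _ _).trans (hla j)) hs) hs0
  · exact hbne j s (ball_subset_ball ((min_le_left _ _).trans (hlb j)) hs) hs0
  · exact (hWa j r h1 (h2.trans_le ((min_le_left _ _).trans (hla j)))).div
      (hWb j r h1 (h2.trans_le ((min_le_left _ _).trans (hlb j))))
  · have h1 := hN j
    have h2 := B.m_pos j
    have h3 : B.m j ≤ ∑ c, B.m c :=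
      Finset.single_le_sum (f := fun c => B.m c) (fun _ _ => Nat.zero_le _) (Finset.mem_univ j)
    have h4 : (B.m j - 1 : ℕ) ≤ B.m j * (∑ c, B.m c - 1) := by
      rcases Nat.eq_or_lt_of_le h2 with h5 | h5
      · rw [← h5]; simp
      · have h6 : 1 ≤ ∑ c, B.m c - 1 := by omega
        calc B.m j - 1 ≤ B.m j := Nat.sub_le _ _
          _ = B.m j * 1 := (mul_one _).symm
          _ ≤ B.m j * (∑ c, B.m c - 1) := Nat.mul_le_mul_left _ h6
    have h5 : ((B.m j - 1 : ℕ) : ℤ) ≤ ((B.m j * (∑ c, B.m c - 1) : ℕ) : ℤ) := by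
      exact_mod_cast h4
    linarith
  · have h1 := hN j
    have h2 := B.m_pos j
    have h3 : B.m j ≤ ∑ c, B.m c :=
      Finset.single_le_sum (f := fun c => B.m c) (fun _ _ => Nat.zero_le _) (Finset.mem_univ j)
    have hK : 2 ≤ ∑ c, B.m c := by
      rcases hj with h4 | h4
      · have h5 : ∑ _c : Fin (c.L p).n, 1 ≤ ∑ c, B.m c :=
          Finset.sum_le_sum fun c _ => B.m_pos c
        rw [Finset.sum_const, Finset.card_univ, Fintype.card_fin, smul_eq_mul, mul_one] at h5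
        omega
      · by_contra hlt
        have hm : B.m j = 1 := by omega
        have h00 : (0 : ℂ) ∈ ball (0 : ℂ) B.r1 := mem_ball_self B.r1_pos
        rw [dmap_u B j h00] at h4
        have h5 : fderiv ℝ (B.v j) 0 1 = 0 := by
          refine dmap_inj B (v_mem B j h00) ?_
          rw [h4]; exact (Dm_61.dmap_zero _ _).symm
        have h6 := B.ζ1 j 0 h00
        rw [hm, norm_zero, pow_one, mul_zero] at h6
        have h7 : fderiv ℝ (fun s => (B.v j s).1) 0 1 = 0 := by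
          have h : HasFDerivAt (fun s => (B.v j s).1)
              ((ContinuousLinearMap.fst ℝ ℂ ℂ).comp (fderiv ℝ (B.v j) 0)) 0 :=
            hasFDerivAt_fst.comp 0 (B.v_hol j 0 h00).1.hasFDerivAt
          rw [h.fderiv]
          show (fderiv ℝ (B.v j) 0 1).1 = 0
          rw [h5]; rfl
        have h8 := norm_le_zero_iff.1 h6
        have h9 := DFunLike.congr_fun h8 1
        rw [_root_.sub_apply, h7, mulc_apply] at h9
        simp at h9
        exact B.a_ne j h9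
    have h4 : (B.m j - 1 : ℕ) + 1 ≤ B.m j * (∑ c, B.m c - 1) := by
      have h6 : 1 ≤ ∑ c, B.m c - 1 := by omega
      calc (B.m j - 1 : ℕ) + 1 = B.m j * 1 := by omega
          _ ≤ B.m j * (∑ c, B.m c - 1) := Nat.mul_le_mul_left _ h6
    have h5 : ((B.m j - 1 : ℕ) : ℤ) + 1 ≤ ((B.m j * (∑ c, B.m c - 1) : ℕ) : ℤ) := by
      exact_mod_cast h4
    linarith

/-! ### another disc through `p` -/

/-- a disc in the coordinates -/
def cv (B : FBox c p V) (v : ℂ → M) (s : ℂ) : ℂ × ℂ := B.Θ.symm (v s)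

theorem cv_hol (B : FBox c p V) {v : ℂ → M} (hv : IsDisc J v) {s : ℂ} (hs : s ∈ ball (0 : ℂ) 1)
    (ht : v s ∈ B.Θ.target) : ContDiffAt ℝ ∞ (cv B v) s ∧ DifferentiableAt ℝ (cv B v) s ∧
      ∀ a : ℂ, fderiv ℝ (cv B v) s (Complex.I * a) = B.J' (cv B v s) (fderiv ℝ (cv B v) s a) := by
  have h1 : ContMDiffAt 𝓘(ℝ, ℂ) 𝓘(ℝ, E4) ∞ v s :=
    hv.hol.smooth.contMDiffAt (isOpen_ball.mem_nhds hs)
  have h2 : ContMDiffAt 𝓘(ℝ, E4) 𝓘(ℝ, ℂ × ℂ) ∞ B.Θ.symm (v s) :=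
    B.smooth_symm.contMDiffAt (B.Θ.open_target.mem_nhds ht)
  have h3 : ContDiffAt ℝ ∞ (cv B v) s := (h2.comp s h1).contDiffAt
  have h4 : DifferentiableAt ℝ (cv B v) s := h3.differentiableAt (by simp)
  have hR : cv B v s ∈ ball (0 : ℂ × ℂ) B.R := by
    rw [← B.source]; exact B.Θ.map_target ht
  refine ⟨h3, h4, fun a => dmap_inj B hR ?_⟩
  have h5 : v =ᶠ[𝓝 s] fun t => B.Θ (cv B v t) := by
    filter_upwards [h1.continuousAt.preimage_mem_nhds (B.Θ.open_target.mem_nhds ht)] with t ht'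
    exact (B.Θ.right_inv ht').symm
  have h6 : ∀ b, dmap v s b = dmap B.Θ (cv B v s) (fderiv ℝ (cv B v) s b) := fun b => by
    rw [Dm_61.dmap_congr h5]
    exact Dm_61.dmap_comp (Θ_at B hR) h4 b
  have h7 : B.Θ (cv B v s) = v s := B.Θ.right_inv ht
  rw [← h6, hv.hol.jhol s hs, h6, B.conj _ hR, h7]

/-- **the field `other`** -/
theorem other_wind (hJ : ∀ x v, atJ J x (atJ J x v) = -v) (P : Pl B) (hp : p ∈ range c.f)
    (v : ℂ → M) (hv : IsDisc J v) (hv0 : v 0 = p)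
    (hsep : ∀ z ∈ ball (0 : ℂ) 1, v z ∈ range c.f → z = 0) :
    ∃ n : ℤ, 1 ≤ n ∧ WAt (fun z => P.F (v z)) 0 n := by
  obtain ⟨δ, L, hδ, hB⟩ := mbx B hJ
  have h01 : (0 : ℂ) ∈ ball (0 : ℂ) 1 := mem_ball_self one_pos
  -- the number of sheets
  have hK : 1 ≤ ∑ c, B.m c := by
    have h1 : p ∈ range c.f ∩ (c.L p).U := ⟨hp, (c.L p).mem⟩
    rw [(c.L p).supp] at h1
    obtain ⟨j, -⟩ := mem_iUnion.1 h1
    exact (B.m_pos j).trans
      (Finset.single_le_sum (f := fun c => B.m c) (fun _ _ => Nat.zero_le _) (Finset.mem_univ j))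
  have hvc : ContinuousAt v 0 := (hv.hol.smooth.contMDiffAt (isOpen_ball.mem_nhds h01)).continuousAt
  have hpt : v 0 ∈ B.Θ.target := by rw [hv0]; exact p_mem B
  have hu0 : cv B v 0 = 0 := by rw [cv, hv0]; exact symm_p B
  have hucont : ContinuousAt (cv B v) 0 := (cv_hol B hv h01 hpt).1.continuousAt
  have hud : DifferentiableAt ℝ (cv B v) 0 := (cv_hol B hv h01 hpt).2.1
  obtain ⟨C', hC'⟩ := hud.isBigO_sub.bound
  have hev : ∀ᶠ s in 𝓝 (0 : ℂ), s ∈ ball (0 : ℂ) 1 ∧ v s ∈ UU B P.δ ∧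
      cv B v s ∈ ball (0 : ℂ × ℂ) δ ∧ ‖cv B v s - cv B v 0‖ ≤ C' * ‖s - 0‖ := by
    refine Filter.Eventually.and (ball_mem_nhds _ one_pos) (Filter.Eventually.and ?_
      (Filter.Eventually.and ?_ hC'))
    · refine hvc.preimage_mem_nhds ?_
      rw [hv0]
      exact (isOpen_UU B P.δ).mem_nhds (p_mem_UU B P.δ_pos)
    · refine hucont.preimage_mem_nhds ?_
      rw [hu0]; exact ball_mem_nhds _ hB.pos
  obtain ⟨r, hr, hrr⟩ := Metric.eventually_nhds_iff_ball.1 hev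
  have hcd : ContDiffOn ℝ ∞ (cv B v) (ball 0 r) := fun s hs =>
    (cv_hol B hv (hrr s hs).1 (hrr s hs).2.1.1).1.contDiffWithinAt
  have hjh : JHol B.J' (cv B v) (ball 0 r) := fun s hs =>
    (cv_hol B hv (hrr s hs).1 (hrr s hs).2.1.1).2
  have hbd : ∀ s ∈ ball (0 : ℂ) r, ‖cv B v s‖ ≤ C' * ‖s‖ ^ 1 := fun s hs => by
    have := (hrr s hs).2.2.2
    rwa [hu0, sub_zero, sub_zero, ← pow_one ‖s‖] at this
  have hF0 : ∀ s ∈ ball (0 : ℂ) r, s ≠ 0 → P.F (v s) ≠ 0 := by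
    intro s hs hs0 h0
    exact hs0 (hsep s (hrr s hs).1 ((P.F_zero (hrr s hs).2.1).1 h0))
  rcases zeta_isolated hB hr (hcd.of_le (WithTop.coe_le_coe.2 le_top))
    (fun s hs => (hrr s hs).2.2.1) hjh with hz | hz
  · -- the exceptional leaf
    obtain ⟨r2, hr2, hrr2⟩ := Metric.eventually_nhds_iff_ball.1 hz
    set z : ℂ → ℂ := fun s => (cv B v s).2 with hzdef
    have hzs : ContDiffOn ℝ 1 z (ball 0 r) := (hcd.snd).of_le (by exact_mod_cast le_top)
    have hfc : ContinuousAt (fderiv ℝ z) 0 :=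
      (hzs.continuousOn_fderiv_of_isOpen isOpen_ball le_rfl).continuousAt (ball_mem_nhds _ hr)
    have hfe : ∀ᶠ s in 𝓝 (0 : ℂ), ‖fderiv ℝ z s‖ < ‖fderiv ℝ z 0‖ + 1 :=
      hfc.norm.eventually (Iio_mem_nhds (by linarith))
    obtain ⟨r3, hr3, hrr3⟩ := Metric.eventually_nhds_iff_ball.1 hfe
    set R : ℝ := min (min r r2) r3 with hR
    have hRp : 0 < R := lt_min (lt_min hr hr2) hr3
    have hs1 : ball (0 : ℂ) R ⊆ ball 0 r :=
      ball_subset_ball ((min_le_left _ _).trans (min_le_left _ _))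
    have hs2 : ball (0 : ℂ) R ⊆ ball 0 r2 :=
      ball_subset_ball ((min_le_left _ _).trans (min_le_right _ _))
    have hs3 : ball (0 : ℂ) R ⊆ ball 0 r3 := ball_subset_ball (min_le_right _ _)
    have hzne : ∀ s ∈ ball (0 : ℂ) R, s ≠ 0 → z s ≠ 0 := by
      intro s hs hs0 h0
      have h1 : cv B v s = 0 := Prod.ext (hrr2 s (hs2 hs)) h0
      have h2 : v s = p := by
        have h3 : B.Θ (cv B v s) = v s := B.Θ.right_inv (hrr s (hs1 hs)).2.1.1
        rw [← h3, h1, B.centre]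
      exact hs0 (hv.inj (hrr s (hs1 hs)).1 h01 (by rw [h2, hv0]))
    have hdbz : ∀ s ∈ ball (0 : ℂ) R, db z s = 0 := by
      intro s hs
      have hjc := jc_of (hB.vj _ (hrr s (hs1 hs)).2.2.1) rfl (hjh s (hs1 hs)).1
        (hjh s (hs1 hs)).2
      have h1 : (fun s => (cv B v s).1) =ᶠ[𝓝 s] fun _ => 0 := by
        filter_upwards [isOpen_ball.mem_nhds (hs2 hs)] with t ht using hrr2 t ht
      have h2 : dlz (fun s => (cv B v s).1) s = 0 := by
        rw [dlz, h1.fderiv_eq]; simp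
      have h3 := hjc.ez
      rw [h2, map_zero, mul_zero] at h3
      exact h3
    set C : ℝ := max (max C' 0) (‖fderiv ℝ z 0‖ + 1) with hC
    have hC0 : 0 ≤ C := (le_max_right _ _).trans (le_max_left _ _)
    obtain ⟨N, hN, hW⟩ := isW_ge (H := z) (r := R) (C := C) (M := 1) hRp
      ((hzs.mono hs1).mono sdiff_subset) hzne
      (fun s hs _ => by rw [hdbz s hs, norm_zero]; positivity)
      (fun s hs _ => by
        refine ((norm_snd_le _).trans (hbd s (hs1 hs))).trans ?_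
        gcongr
        exact (le_max_left _ _).trans (le_max_left _ _))
      (fun s hs _ => (hrr3 s (hs3 hs)).le.trans (le_max_right _ _))
    refine ⟨(∑ c, B.m c : ℕ) * N, ?_, ?_⟩
    · have h1 : (1 : ℤ) ≤ ((∑ c, B.m c : ℕ) : ℤ) := by exact_mod_cast hK
      have h2 : (1 : ℤ) ≤ N := by simpa using hN
      nlinarith
    · filter_upwards [Ioo_mem_nhdsGT hRp] with r' hr'
      refine ((hW r' hr'.1 hr'.2).pow (∑ c, B.m c)).congr hr'.1.le fun s hs => ?_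
      have hsR : s ∈ ball (0 : ℂ) R := by
        rw [mem_sphere_iff_norm, sub_zero] at hs
        rw [mem_ball, dist_zero_right, hs]; exact hr'.2
      show z s ^ (∑ c, B.m c) = bp B.m P.Z (cv B v s).1 (cv B v s).2
      rw [hrr2 s (hs2 hsR), bp_zero (fun j => Pl.m_ne B j) (fun j => Pl.Z_zero j)]
  · have hz' : ∀ᶠ s in 𝓝 (0 : ℂ), s ≠ 0 → (cv B v s).1 ≠ 0 := eventually_nhdsWithin_iff.1 hz
    obtain ⟨r2, hr2, hrr2⟩ := Metric.eventually_nhds_iff_ball.1 hz'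
    have hs1 : ball (0 : ℂ) (min r r2) ⊆ ball 0 r := ball_subset_ball (min_le_left _ _)
    have hs2 : ball (0 : ℂ) (min r r2) ⊆ ball 0 r2 := ball_subset_ball (min_le_right _ _)
    obtain ⟨r0, hr0, -, N, hN, hW⟩ := windF hB (fun c => brs P c) (u := cv B v) (C' := C')
      le_rfl (lt_min hr hr2) ((hcd.mono hs1).of_le (by exact_mod_cast le_top))
      (fun s hs => hjh s (hs1 hs)) (fun s hs => (norm_fst_le _).trans (hbd s (hs1 hs)))
      (fun s hs => (norm_snd_le _).trans (hbd s (hs1 hs))) (fun s hs hs0 => hrr2 s (hs2 hs) hs0)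
      (fun s hs hs0 => hF0 s (hs1 hs) hs0)
    refine ⟨N, ?_, ?_⟩
    · rw [one_mul] at hN
      have : ((1 : ℕ) : ℤ) ≤ ((∑ c, B.m c : ℕ) : ℤ) := by exact_mod_cast hK
      exact (by simpa using this : (1 : ℤ) ≤ _).trans hN
    · filter_upwards [Ioo_mem_nhdsGT hr0] with r' hr'
      exact hW r' hr'.1 hr'.2

end

end Crest.Agent.R235.AdjBoxW_688
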