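import Crest.Agent.R096.BelA_205

/-!
# Row 235 (S0364), PACKAGE NW (helper334): frozen definitions and exported statements

Local theory of `J`-holomorphic discs.  `E` is a finite dimensional complex normed space (seen as a
real one), `J : E → E →L[ℝ] E` smooth near `0` with `J 0 = i`.

* `HB a M u`        : `u` is bounded by `M` and `a`-Hölder with constant `M` (everywhere)
* `Hol a X E`       : Banach space of bounded `a`-Hölder maps `X → E`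
* `C1a a G E`       : Banach space of `C¹` maps with `u, Du` bounded Hölder
* `JHol J u U`      : `u : ℂ → E` is `J`-holomorphic at the points of `U`
* `FolStmt`, `VarStmt`, `SimStmt`, ... : exported Props
-/

set_option autoImplicit false

open Set Filter Metric Topology MeasureTheory
open scoped ContDiff BoundedContinuousFunction Real

namespace Crest.Agent.R235.NWDefs_334

noncomputable section

/-! ### Hölder functions -/

section hol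

/-- bounded by `M` and `a`-Hölder with constant `M` (everywhere) -/
structure HB {X E : Type*} [PseudoMetricSpace X] [NormedAddCommGroup E] (a M : ℝ) (u : X → E) :
    Prop where
  bdd : ∀ x, ‖u x‖ ≤ M
  hol : ∀ x y, ‖u x - u y‖ ≤ M * dist x y ^ a

/-- off-diagonal pairs -/
abbrev PR (X : Type*) : Type _ := {p : X × X // p.1 ≠ p.2}

/-- Banach space of bounded `a`-Hölder functions: pairs (`u`, Hölder quotient). -/
def Hol (a : ℝ) (X E : Type*) [MetricSpace X] [NormedAddCommGroup E] [NormedSpace ℝ E] :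
    Submodule ℝ ((X →ᵇ E) × (PR X →ᵇ E)) where
  carrier := {q | ∀ p : PR X, (dist p.1.1 p.1.2 ^ a) • q.2 p = q.1 p.1.1 - q.1 p.1.2}
  add_mem' := by
    rintro p q hp hq z
    have h1 := hp z
    have h2 := hq z
    simp only [Prod.snd_add, Prod.fst_add, BoundedContinuousFunction.coe_add, Pi.add_apply,
      smul_add]
    rw [h1, h2]; abel
  zero_mem' := by
    intro z; simp
  smul_mem' := by
    intro c q hq z
    have h2 := hq z
    simp only [Prod.smul_snd, Prod.smul_fst, BoundedContinuousFunction.coe_smul]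
    rw [smul_comm, h2, smul_sub]

/-- the function underlying an element of `Hol a X E` -/
def Hol.fn {a : ℝ} {X E : Type*} [MetricSpace X] [NormedAddCommGroup E] [NormedSpace ℝ E]
    (u : Hol a X E) : X → E := fun x => u.1.1 x

end hol

section c1a

/-- Banach space of `C¹` maps `u : G → E` with `u` and `Du` bounded and `a`-Hölder: pairs
`(u, Du)`. -/
def C1a (a : ℝ) (G E : Type*) [NormedAddCommGroup G] [NormedSpace ℝ G] [NormedAddCommGroup E]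
    [NormedSpace ℝ E] : Submodule ℝ (Hol a G E × Hol a G (G →L[ℝ] E)) where
  carrier := {q | ∀ x, HasFDerivAt (Hol.fn q.1) (Hol.fn q.2 x) x}
  add_mem' := by
    rintro p q hp hq x
    exact (hp x).add (hq x)
  zero_mem' := by
    intro x
    exact hasFDerivAt_const (0 : E) x
  smul_mem' := by
    intro c q hq x
    exact (hq x).const_smul c

end c1a

/-- smooth with all derivatives bounded -/
structure BD {E F : Type*} [NormedAddCommGroup E] [NormedSpace ℝ E] [NormedAddCommGroup F]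
    [NormedSpace ℝ F] (f : E → F) : Prop where
  smooth : ContDiff ℝ ∞ f
  bdd : ∀ n : ℕ, ∃ C : ℝ, ∀ x, ‖iteratedFDeriv ℝ n f x‖ ≤ C

/-! ### `J`-holomorphic maps -/

section jhol

variable {E : Type*} [NormedAddCommGroup E] [NormedSpace ℂ E]

/-- the complex linear part `v ↦ (L 1 - i L i) / 2` -/
def dl (L : ℂ →L[ℝ] E) : E := (2 : ℂ)⁻¹ • (L 1 - Complex.I • L Complex.I)

/-- the antilinear part `v ↦ (L 1 + i L i) / 2` -/
def dbl (L : ℂ →L[ℝ] E) : E := (2 : ℂ)⁻¹ • (L 1 + Complex.I • L Complex.I)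

/-- `∂u` -/
def dz (u : ℂ → E) (z : ℂ) : E := dl (fderiv ℝ u z)

/-- `∂̄u` -/
def dzb (u : ℂ → E) (z : ℂ) : E := dbl (fderiv ℝ u z)

/-- `u` is `J`-holomorphic at the points of `U` -/
def JHol (J : E → E →L[ℝ] E) (u : ℂ → E) (U : Set ℂ) : Prop :=
  ∀ z ∈ U, DifferentiableAt ℝ u z ∧
    ∀ v : ℂ, fderiv ℝ u z (Complex.I * v) = J (u z) (fderiv ℝ u z v)

/-- `J` is a smooth almost complex structure on the ball of radius `r` with `J 0 = i` -/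
structure ACS (J : E → E →L[ℝ] E) (r : ℝ) : Prop where
  pos : 0 < r
  smooth : ContDiffOn ℝ ∞ J (ball 0 r)
  sq : ∀ x ∈ ball (0 : E) r, ∀ v, J x (J x v) = -v
  zero : ∀ v, J 0 v = Complex.I • v

end jhol

/-! ### exported statements -/

/-- **FOL**: `J`-disc foliations of a small ball, `C¹`-close to the foliation by vertical complex
lines, at every small scale `R`. -/
def FolStmt : Prop := ∀ (J : ℂ × ℂ → ℂ × ℂ →L[ℝ] ℂ × ℂ) (r : ℝ), ACS J r → ∀ δ : ℝ, 0 < δ →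
  ∃ R0 : ℝ, 0 < R0 ∧ R0 * (4 * (1 + δ)) < r ∧ ∀ R : ℝ, 0 < R → R ≤ R0 →
    ∃ F : ℂ × ℂ → ℂ × ℂ, ContDiffOn ℝ ∞ F (ball 0 4) ∧
      (∀ x ∈ ball (0 : ℂ × ℂ) 4, ‖F x - x‖ ≤ δ ∧ ‖fderiv ℝ F x - ContinuousLinearMap.id ℝ _‖ ≤ δ) ∧
      ∀ s ∈ ball (0 : ℂ) 4, JHol (fun y => J (R • y)) (fun z => F (s, z)) (ball 0 4)

/-- **VAR**: variations of a `J`-disc.  `U (a, z)`, `a` a vector of `N` coefficients in `E`. -/
def VarStmt : Prop := ∀ (J : ℂ × ℂ → ℂ × ℂ →L[ℝ] ℂ × ℂ) (r : ℝ), ACS J r →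
  ∀ (u : ℂ → ℂ × ℂ) (r1 : ℝ), 0 < r1 → ContDiffOn ℝ ∞ u (ball 0 r1) → u 0 = 0 →
    (∀ z ∈ ball (0 : ℂ) r1, u z ∈ ball (0 : ℂ × ℂ) r) → JHol J u (ball 0 r1) →
  ∀ (N : ℕ) (δ : ℝ), 0 < δ → ∃ R0 : ℝ, 0 < R0 ∧ R0 < r1 ∧ ∀ R : ℝ, 0 < R → R ≤ R0 →
    ∃ U : (Fin N → ℂ × ℂ) × ℂ → ℂ × ℂ,
      ContDiffOn ℝ ∞ U (ball (0 : Fin N → ℂ × ℂ) 1 ×ˢ ball (0 : ℂ) 1) ∧
      (∀ z ∈ ball (0 : ℂ) 1, U (0, z) = R⁻¹ • u (R • z)) ∧
      (∀ p ∈ ball (0 : Fin N → ℂ × ℂ) 1 ×ˢ ball (0 : ℂ) 1, R • U p ∈ ball (0 : ℂ × ℂ) r) ∧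
      (∀ b ∈ ball (0 : Fin N → ℂ × ℂ) 1,
        JHol (fun y => J (R • y)) (fun z => U (b, z)) (ball 0 1)) ∧
      ∀ b ∈ ball (0 : Fin N → ℂ × ℂ) 1, ∀ c : Fin N → ℂ × ℂ, ∀ z ∈ ball (0 : ℂ) 1,
        ‖fderiv ℝ U (b, z) (c, 0) - ∑ k : Fin N, z ^ (k : ℕ) • c k‖ ≤ δ * ‖c‖ ∧
        ‖fderiv ℝ (fun y => fderiv ℝ U (b, y) (c, 0) - ∑ k : Fin N, y ^ (k : ℕ) • c k) z‖
          ≤ δ * ‖c‖

/-- **REG0**: a `C¹` `J`-disc is smooth. -/
def RegStmt : Prop := ∀ (J : ℂ × ℂ → ℂ × ℂ →L[ℝ] ℂ × ℂ) (U : Set (ℂ × ℂ)), IsOpen U →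
  ContDiffOn ℝ ∞ J U → (∀ x ∈ U, ∀ v, J x (J x v) = -v) →
  ∀ (u : ℂ → ℂ × ℂ) (O : Set ℂ), IsOpen O → ContDiffOn ℝ 1 u O → (∀ z ∈ O, u z ∈ U) →
    JHol J u O → ContDiffOn ℝ ∞ u O

/-- **SIM**: similarity principle -/
def SimStmt : Prop := ∀ (n : ℕ) (f : ℂ → EuclideanSpace ℂ (Fin n)) (r C : ℝ), 0 < r →
  ContDiffOn ℝ 1 f (ball 0 r) → (∀ z ∈ ball (0 : ℂ) r, ‖dzb f z‖ ≤ C * ‖f z‖) →
  (∀ᶠ z in 𝓝 (0 : ℂ), f z = 0) ∨
    ∃ (k : ℕ) (c : EuclideanSpace ℂ (Fin n)), c ≠ 0 ∧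
      Tendsto (fun z : ℂ => (z ^ k)⁻¹ • f z) (𝓝[≠] 0) (𝓝 c)

/-- **KP**: Korn–Privalov estimate for the Cauchy transform `P u z = ∫ (π ζ)⁻¹ u (z - ζ)` -/
def KPStmt : Prop := ∀ a : ℝ, 0 < a → a < 1 → ∀ R : ℝ, 0 < R → ∃ C : ℝ, 0 ≤ C ∧
  ∀ (g : ℂ → ℂ) (M : ℝ), HB a M g → (∀ z, R < ‖z‖ → g z = 0) →
    ContDiff ℝ 1 (R096.BelA_205.P g) ∧ (∀ z, dzb (R096.BelA_205.P g) z = g z) ∧
    HB a (C * M) (R096.BelA_205.P g) ∧ HB a (C * M) (fderiv ℝ (R096.BelA_205.P g))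

end

end Crest.Agent.R235.NWDefs_334
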