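import Crest.Agent.R235.AdjDefs_43
import Crest.Agent.R235.NWDefs_334
import Crest.Agent.R235.BrNF_266

/-!
Row 235 (S0364), PACKAGE ADJ, helper43: the foliation box of a `J`-curve at one of its points.

`FBox c p V`: coordinates `Θ : ball 0 R ⊆ ℂ × ℂ → M`, `Θ 0 = p`, the discs `z ↦ Θ (ζ, z)` are
`J`-holomorphic (holomorphic parameter `z`), `J` is standard at `0`, and all the branches of `c` at
`p` are non-vertical: `ζ_j(s) = a_j s ^ m_j + O(|s| ^ (m_j + 1))`, `a_j ≠ 0`.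
-/

set_option autoImplicit false
set_option maxSynthPendingDepth 3

open Set Function Filter MeasureTheory Metric
open scoped Manifold ContDiff Topology

universe u

namespace Crest.Agent.R235.Adj

open Crest.Agent.R240 Crest.Agent.R240.Ch Crest.Agent.R240.Int
open Crest.Agent.R235 Crest.Agent.R235.Glob_370 Crest.Agent.R235.Wind_688
open Crest.Agent.R235.NWDefs_334 Crest.Agent.R235.BrNF_266

noncomputable section

section Basic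

variable {M : Type u} [TopologicalSpace M] [ChartedSpace E4 M] [IsManifold 𝓘(ℝ, E4) ∞ M]

/-- a foliation box of the curve `c` at `p`, inside `V`. -/
structure FBox {J : EndF E4 M} (c : JCurve J) (p : M) (V : Set M) where
  /-- the coordinates -/
  Θ : OpenPartialHomeomorph (ℂ × ℂ) M
  /-- the size of the bidisc (sup norm) -/
  R : ℝ
  R_pos : 0 < R
  source : Θ.source = ball 0 R
  centre : Θ 0 = p
  target : Θ.target ⊆ V ∩ (c.L p).U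
  smooth : ContMDiffOn 𝓘(ℝ, ℂ × ℂ) 𝓘(ℝ, E4) ∞ Θ (ball 0 R)
  smooth_symm : ContMDiffOn 𝓘(ℝ, E4) 𝓘(ℝ, ℂ × ℂ) ∞ Θ.symm Θ.target
  /-- the structure `J` in these coordinates -/
  J' : ℂ × ℂ → ℂ × ℂ →L[ℝ] ℂ × ℂ
  smoothJ : ContDiffOn ℝ ∞ J' (ball 0 R)
  conj : ∀ x ∈ ball (0 : ℂ × ℂ) R, ∀ v, dmap Θ x (J' x v) = atJ J (Θ x) (dmap Θ x v)
  leaf : ∀ x ∈ ball (0 : ℂ × ℂ) R, ∀ a : ℂ, J' x (0, a) = (0, Complex.I * a)
  J0 : ∀ v, J' 0 v = Complex.I • v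
  /-- radius of the branches -/
  r1 : ℝ
  r1_pos : 0 < r1
  r1_le : r1 ≤ 1
  inT : ∀ j, ∀ s ∈ ball (0 : ℂ) r1, (c.L p).u j s ∈ Θ.target
  /-- the branches in coordinates -/
  v : Fin (c.L p).n → ℂ → ℂ × ℂ
  v_eq : ∀ j s, v j s = Θ.symm ((c.L p).u j s)
  v_smooth : ∀ j, ContDiffOn ℝ ∞ (v j) (ball 0 r1)
  v_hol : ∀ j, JHol J' (v j) (ball 0 r1)
  /-- orders and leading coefficients -/
  m : Fin (c.L p).n → ℕ
  m_pos : ∀ j, 1 ≤ m j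
  a : Fin (c.L p).n → ℂ
  a_ne : ∀ j, a j ≠ 0
  C : ℝ
  C_nonneg : 0 ≤ C
  ζ0 : ∀ j, ∀ s ∈ ball (0 : ℂ) r1, ‖(v j s).1 - a j * s ^ m j‖ ≤ C * ‖s‖ ^ (m j + 1)
  ζ1 : ∀ j, ∀ s ∈ ball (0 : ℂ) r1,
    ‖fderiv ℝ (fun s => (v j s).1) s - mulc (m j * a j * s ^ (m j - 1))‖ ≤ C * ‖s‖ ^ m j
  z0 : ∀ j, ∀ s ∈ ball (0 : ℂ) r1, ‖(v j s).2‖ ≤ C * ‖s‖ ^ m j
  z1 : ∀ j, ∀ s ∈ ball (0 : ℂ) r1, ‖fderiv ℝ (fun s => (v j s).2) s‖ ≤ C * ‖s‖ ^ (m j - 1)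
  /-- near `p` the curve is the union of the branches `v j '' ball 0 r1` -/
  ρ : ℝ
  ρ_pos : 0 < ρ
  ρ_le : ρ ≤ R
  near : ∀ x ∈ ball (0 : ℂ × ℂ) ρ, Θ x ∈ range c.f → ∃ j, ∃ s ∈ ball (0 : ℂ) r1, v j s = x

end Basic

/-- **FBOX** (owner 130): foliation boxes exist at every point of a curve, inside any
neighbourhood. -/
def FBOX : Prop :=
  ∀ (M : Type u) [TopologicalSpace M] [T2Space M] [CompactSpace M] [ConnectedSpace M]
    [ChartedSpace E4 M] [IsManifold 𝓘(ℝ, E4) ∞ M] (J : EndF E4 M), SmoothJ J →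
    (∀ x v, atJ J x (atJ J x v) = -v) →
    ∀ (c : JCurve J) (p : M) (V : Set M), IsOpen V → p ∈ V → p ∈ range c.f →
      Nonempty (FBox c p V)

end

end Crest.Agent.R235.Adj
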