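import Mathlib
import Crest.Agent.R240.XDefs
import Crest.Agent.R240.Ch7
import Crest.Agent.R240.Sm2
import Crest.Agent.R281.Poi_234

/-!
Row 235 (S0364), block HZ (helper524): calculus of LOCAL forms on a manifold (R240 charts).

* `SmAt1 s x`, `SmAtF f x` : smoothness at a point; germs; cut off to global smooth objects;
* `rep_dG_at`, `rep1_dF_at`, `dG_congr` ;
* `poincare2_loc`, `poincare1_loc`, `const_loc` : primitives over open sets which are convex in a
  chart.
-/

set_option autoImplicit false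
set_option maxSynthPendingDepth 3
set_option linter.unusedSectionVars false

open Set Function Filter
open scoped Manifold ContDiff Topology

namespace Crest.Agent.R235.Loc_524

open Crest.Agent.R240 Crest.Agent.R240.Ch

noncomputable section

section General

variable {E : Type} [NormedAddCommGroup E] [NormedSpace ℝ E]
variable {M : Type*} [TopologicalSpace M] [ChartedSpace E M] [IsManifold 𝓘(ℝ, E) ∞ M]

/-- the one-form `s` is smooth at `x`. -/
def SmAt1 (s : F1 E M) (x : M) : Prop := ContDiffAt ℝ ∞ (rep1 x s) (chartAt E x x)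

variable (E) in
/-- the function `f` is smooth at `x`. -/
def SmAtF (f : M → ℝ) (x : M) : Prop := ContDiffAt ℝ ∞ (repF (E := E) x f) (chartAt E x x)

theorem SmAt1.chart {s : F1 E M} {x p : M} (h : SmAt1 s x) (hp : x ∈ (chartAt E p).source) :
    ContDiffAt ℝ ∞ (rep1 p s) (chartAt E p x) := smooth1_at_iff hp (mem_chart_source E x) s h

theorem smAt1_of_chart {s : F1 E M} {x p : M} (hp : x ∈ (chartAt E p).source)
    (h : ContDiffAt ℝ ∞ (rep1 p s) (chartAt E p x)) : SmAt1 s x :=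
  smooth1_at_iff (mem_chart_source E x) hp s h

theorem SmAtF.chart {f : M → ℝ} {x p : M} (h : SmAtF E f x) (hp : x ∈ (chartAt E p).source) :
    ContDiffAt ℝ ∞ (repF p f) (chartAt E p x) :=
  (contMDiffAt_F hp f).1 ((contMDiffAt_F (mem_chart_source E x) f).2 h)

theorem smAtF_of_chart {f : M → ℝ} {x p : M} (hp : x ∈ (chartAt E p).source)
    (h : ContDiffAt ℝ ∞ (repF p f) (chartAt E p x)) : SmAtF E f x :=
  (contMDiffAt_F (mem_chart_source E x) f).1 ((contMDiffAt_F hp f).2 h)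

theorem smAt1_of_smooth {s : F1 E M} (h : Smooth1 s) (x : M) : SmAt1 s x :=
  h.at (mem_chart_target E x)

theorem smAtF_of_smooth {f : M → ℝ} (h : SmoothF E f) (x : M) : SmAtF E f x :=
  h.at (mem_chart_target E x)

theorem smooth1_iff_smAt {s : F1 E M} : Smooth1 s ↔ ∀ x, SmAt1 s x :=
  ⟨smAt1_of_smooth, fun h => Smooth1.of_local fun x => ⟨x, mem_chart_source E x, h x⟩⟩

theorem smoothF_iff_smAt {f : M → ℝ} : SmoothF E f ↔ ∀ x, SmAtF E f x :=
  ⟨smAtF_of_smooth, fun h => SmoothF.of_local fun x => ⟨x, mem_chart_source E x, h x⟩⟩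

/-! ### germs -/

omit [IsManifold 𝓘(ℝ, E) ∞ M] in
theorem tendsto_symm {p : M} {y : E} (hy : y ∈ (chartAt E p).target) :
    Tendsto (chartAt E p).symm (𝓝 y) (𝓝 ((chartAt E p).symm y)) :=
  (chartAt E p).continuousAt_symm hy

omit [IsManifold 𝓘(ℝ, E) ∞ M] in
theorem tendsto_symm' {p x : M} (hx : x ∈ (chartAt E p).source) :
    Tendsto (chartAt E p).symm (𝓝 (chartAt E p x)) (𝓝 x) := by
  have := tendsto_symm ((chartAt E p).map_source hx)
  rwa [(chartAt E p).left_inv hx] at this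

theorem rep1_ev {s t : F1 E M} {x p : M} (hx : x ∈ (chartAt E p).source) (h : s =ᶠ[𝓝 x] t) :
    rep1 p s =ᶠ[𝓝 (chartAt E p x)] rep1 p t := by
  filter_upwards [(tendsto_symm' hx).eventually h] with y hy
  ext u
  rw [rep1_apply, rep1_apply]
  show (s _ : E →L[ℝ] ℝ) _ = (t _ : E →L[ℝ] ℝ) _
  rw [hy]

omit [IsManifold 𝓘(ℝ, E) ∞ M] in
theorem repF_ev {f g : M → ℝ} {x p : M} (hx : x ∈ (chartAt E p).source) (h : f =ᶠ[𝓝 x] g) :
    repF (E := E) p f =ᶠ[𝓝 (chartAt E p x)] repF p g := by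
  filter_upwards [(tendsto_symm' hx).eventually h] with y hy
  exact hy

theorem SmAt1.congr {s t : F1 E M} {x : M} (hs : SmAt1 s x) (h : t =ᶠ[𝓝 x] s) : SmAt1 t x :=
  ContDiffAt.congr_of_eventuallyEq hs (rep1_ev (mem_chart_source E x) h)

omit [IsManifold 𝓘(ℝ, E) ∞ M] in
theorem SmAtF.congr {f g : M → ℝ} {x : M} (hf : SmAtF E f x) (h : g =ᶠ[𝓝 x] f) : SmAtF E g x :=
  ContDiffAt.congr_of_eventuallyEq hf (repF_ev (mem_chart_source E x) h)

/-- `dG` depends on the germ. -/
theorem dG_congr {s t : F1 E M} {x : M} (h : s =ᶠ[𝓝 x] t) : at2 (dG s) x = at2 (dG t) x :=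
  d1_congr (rep1_ev (mem_chart_source E x) h)

omit [IsManifold 𝓘(ℝ, E) ∞ M] in
/-- `dF` depends on the germ. -/
theorem dF_congr {f g : M → ℝ} {x : M} (h : f =ᶠ[𝓝 x] g) :
    at1 (dF (E := E) f) x = at1 (dF (E := E) g) x :=
  (repF_ev (E := E) (mem_chart_source E x) h).fderiv_eq

theorem SmAt1.add {s t : F1 E M} {x : M} (hs : SmAt1 s x) (ht : SmAt1 t x) : SmAt1 (s + t) x :=
  ContDiffAt.add hs ht

theorem SmAt1.smul {s : F1 E M} {x : M} (c : ℝ) (hs : SmAt1 s x) : SmAt1 (c • s) x :=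
  ContDiffAt.const_smul c hs

theorem SmAt1.sub {s t : F1 E M} {x : M} (hs : SmAt1 s x) (ht : SmAt1 t x) : SmAt1 (s - t) x :=
  ContDiffAt.sub hs ht

theorem SmAt1.fmul {f : M → ℝ} {s : F1 E M} {x : M} (hf : SmAtF E f x) (hs : SmAt1 s x) :
    SmAt1 (fmul1 f s) x := ContDiffAt.smul hf hs

omit [IsManifold 𝓘(ℝ, E) ∞ M] in
theorem SmAtF.add {f g : M → ℝ} {x : M} (hf : SmAtF E f x) (hg : SmAtF E g x) :
    SmAtF E (fun x => f x + g x) x := ContDiffAt.add hf hg

omit [IsManifold 𝓘(ℝ, E) ∞ M] in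
theorem SmAtF.sub {f g : M → ℝ} {x : M} (hf : SmAtF E f x) (hg : SmAtF E g x) :
    SmAtF E (fun x => f x - g x) x := ContDiffAt.sub hf hg

omit [IsManifold 𝓘(ℝ, E) ∞ M] in
theorem SmAtF.mul {f g : M → ℝ} {x : M} (hf : SmAtF E f x) (hg : SmAtF E g x) :
    SmAtF E (fun x => f x * g x) x := ContDiffAt.mul hf hg

/-! ### local versions of `rep_dG`, `rep1_dF` -/

theorem rep1_dF_at {f : M → ℝ} {p : M} {y : E} (hy : y ∈ (chartAt E p).target)
    (hf : SmAtF E f ((chartAt E p).symm y)) : rep1 p (dF f) y = fderiv ℝ (repF p f) y := by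
  set x := (chartAt E p).symm y with hx
  have hq : (chartAt E p).symm y ∈ (chartAt E x).source := mem_chart_source E x
  have hev := repF_trans_ev hy hq f
  have ht : DifferentiableAt ℝ (trans (E := E) p x) y :=
    (trans_contDiffAt hy hq).differentiableAt infty_ne_zero
  have hg : DifferentiableAt ℝ (repF x f) (trans (E := E) p x y) :=
    ContDiffAt.differentiableAt hf infty_ne_zero
  have h1 : fderiv ℝ (repF p f) y = (fderiv ℝ (repF x f) (trans (E := E) p x y)).comp
      (fderiv ℝ (trans (E := E) p x) y) := by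
    rw [Filter.EventuallyEq.fderiv_eq hev]
    exact fderiv_comp y hg ht
  rw [h1]
  ext u
  rw [rep1_apply, ← hx]
  have h2 : tcc p x x u = fderiv ℝ (trans (E := E) p x) y u := by
    rw [tcc_eq_fderiv_trans, hx, (chartAt E p).right_inv hy]
  rw [h2]
  rfl

theorem rep_dG_at {s : F1 E M} {p : M} {y : E} (hy : y ∈ (chartAt E p).target)
    (hs : SmAt1 s ((chartAt E p).symm y)) : rep p (dG s) y = d1 (rep1 p s) y := by
  set x := (chartAt E p).symm y with hx
  have hq : (chartAt E p).symm y ∈ (chartAt E x).source := mem_chart_source E x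
  have hev := rep1_trans_ev hy hq s
  have hg : DifferentiableAt ℝ (rep1 x s) (trans (E := E) p x y) :=
    ContDiffAt.differentiableAt hs infty_ne_zero
  ext u v
  rw [d1_pullback (trans_contDiffAt hy hq) hg hev, rep_apply, ← hx]
  have h2 : ∀ u, tcc p x x u = fderiv ℝ (trans (E := E) p x) y u := by
    intro u
    rw [tcc_eq_fderiv_trans, hx, (chartAt E p).right_inv hy]
  rw [h2, h2]
  rfl

theorem rep_dG_at' {s : F1 E M} {p x : M} (hx : x ∈ (chartAt E p).source) (hs : SmAt1 s x) :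
    rep p (dG s) (chartAt E p x) = d1 (rep1 p s) (chartAt E p x) := by
  refine rep_dG_at ((chartAt E p).map_source hx) ?_
  rw [(chartAt E p).left_inv hx]
  exact hs

theorem rep1_dF_at' {f : M → ℝ} {p x : M} (hx : x ∈ (chartAt E p).source) (hf : SmAtF E f x) :
    rep1 p (dF f) (chartAt E p x) = fderiv ℝ (repF p f) (chartAt E p x) := by
  refine rep1_dF_at ((chartAt E p).map_source hx) ?_
  rw [(chartAt E p).left_inv hx]
  exact hf

lemma at1_eq_of_rep {q x : M} (hx : x ∈ (chartAt E q).source) {a b : F1 E M}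
    (h : rep1 q a (chartAt E q x) = rep1 q b (chartAt E q x)) : at1 a x = at1 b x := by
  ext u
  rw [apply_eq_rep1 hx, apply_eq_rep1 hx, h]

theorem dG_sub_at {s t : F1 E M} {x : M} (hs : SmAt1 s x) (ht : SmAt1 t x) :
    at2 (dG (s - t)) x = at2 (dG s) x - at2 (dG t) x := by
  have h0 : s - t = s + (-1 : ℝ) • t := by
    rw [neg_one_smul, sub_eq_add_neg]
  have hd := ContDiffAt.differentiableAt hs infty_ne_zero
  have hd' := ContDiffAt.differentiableAt ht infty_ne_zero
  show d1 (fun y => rep1 x s y - rep1 x t y) (chartAt E x x) =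
    d1 (rep1 x s) (chartAt E x x) - d1 (rep1 x t) (chartAt E x x)
  ext u v
  simp only [d1_apply, sub_apply]
  rw [fderiv_fun_sub hd hd']
  simp only [sub_apply]
  ring

omit [IsManifold 𝓘(ℝ, E) ∞ M] in
theorem dF_sub_at {f g : M → ℝ} {x : M} (hf : SmAtF E f x) (hg : SmAtF E g x) :
    at1 (dF (E := E) (fun x => f x - g x)) x = at1 (dF (E := E) f) x - at1 (dF (E := E) g) x := by
  show fderiv ℝ (fun y => repF x f y - repF x g y) _ = _
  rw [fderiv_fun_sub (ContDiffAt.differentiableAt hf infty_ne_zero)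
    (ContDiffAt.differentiableAt hg infty_ne_zero)]
  rfl

omit [IsManifold 𝓘(ℝ, E) ∞ M] in
theorem dF_add_at {f g : M → ℝ} {x : M} (hf : SmAtF E f x) (hg : SmAtF E g x) :
    at1 (dF (E := E) (fun x => f x + g x)) x = at1 (dF (E := E) f) x + at1 (dF (E := E) g) x := by
  show fderiv ℝ (fun y => repF x f y + repF x g y) _ = _
  rw [fderiv_fun_add (ContDiffAt.differentiableAt hf infty_ne_zero)
    (ContDiffAt.differentiableAt hg infty_ne_zero)]
  rfl

/-! ### cut off -/

section Cut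

variable [FiniteDimensional ℝ E] [T2Space M] [CompactSpace M]

/-- smooth cut off functions. -/
theorem exists_cut {K U : Set M} (hK : IsClosed K) (hU : IsOpen U) (hKU : K ⊆ U) :
    ∃ χ : M → ℝ, SmoothF E χ ∧ (∀ x ∈ K, ∀ᶠ z in 𝓝 x, χ z = 1) ∧ tsupport χ ⊆ U := by
  have : LocallyCompactSpace M := ChartedSpace.locallyCompactSpace E M
  obtain ⟨W, hW1, hW2, hW3⟩ := normal_exists_closure_subset hK hU hKU
  obtain ⟨g, hg1, hg2, -⟩ := exists_contMDiffMap_one_nhds_of_subset_interior 𝓘(ℝ, E)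
    (n := ⊤) hK (hW2.trans hW1.interior_eq.symm.subset)
  refine ⟨g, (smoothF_iff _).1 g.contMDiff, fun x hx => (eventually_nhdsSet_iff_forall.1 hg1) x hx,
    (closure_mono ?_).trans hW3⟩
  intro x hx
  by_contra hxW
  exact hx (hg2 x hxW)

theorem cut_zero {χ : M → ℝ} {x : M} (hx : x ∉ tsupport χ) : ∀ᶠ z in 𝓝 x, χ z = 0 := by
  filter_upwards [(isClosed_tsupport χ).isOpen_compl.mem_nhds hx] with z hz
  exact image_eq_zero_of_notMem_tsupport hz

/-- a local one-form agrees near a closed set with a global smooth one. -/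
theorem exists_ext1 {K U : Set M} (hK : IsClosed K) (hU : IsOpen U) (hKU : K ⊆ U) {s : F1 E M}
    (hs : ∀ x ∈ U, SmAt1 s x) : ∃ t : F1 E M, Smooth1 t ∧ ∀ x ∈ K, t =ᶠ[𝓝 x] s := by
  obtain ⟨χ, h1, h2, h3⟩ := exists_cut (E := E) hK hU hKU
  refine ⟨fmul1 χ s, smooth1_iff_smAt.2 fun x => ?_, fun x hx => ?_⟩
  · by_cases hx : x ∈ tsupport χ
    · exact SmAt1.fmul (smAtF_of_smooth h1 x) (hs x (h3 hx))
    · refine (smAt1_of_smooth (smooth1_zero (E := E) (M := M)) x).congr ?_
      filter_upwards [cut_zero hx] with z hz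
      show χ z • s z = 0
      rw [hz, zero_smul]
  · filter_upwards [h2 x hx] with z hz
    show χ z • s z = s z
    rw [hz, one_smul]

/-- a local function agrees near a closed set with a global smooth one. -/
theorem exists_extF {K U : Set M} (hK : IsClosed K) (hU : IsOpen U) (hKU : K ⊆ U) {f : M → ℝ}
    (hf : ∀ x ∈ U, SmAtF E f x) : ∃ g : M → ℝ, SmoothF E g ∧ ∀ x ∈ K, g =ᶠ[𝓝 x] f := by
  obtain ⟨χ, h1, h2, h3⟩ := exists_cut (E := E) hK hU hKU
  refine ⟨fun x => χ x * f x, smoothF_iff_smAt.2 fun x => ?_, fun x hx => ?_⟩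
  · by_cases hx : x ∈ tsupport χ
    · exact SmAtF.mul (smAtF_of_smooth h1 x) (hf x (h3 hx))
    · refine (smAtF_of_smooth (smoothF_const (E := E) (M := M) 0) x).congr ?_
      filter_upwards [cut_zero hx] with z hz
      rw [hz, zero_mul]
  · filter_upwards [h2 x hx] with z hz
    rw [hz, one_mul]

end Cut

end General

/-! ### primitives -/

section Poin

variable {E : Type} [NormedAddCommGroup E] [NormedSpace ℝ E] [FiniteDimensional ℝ E]
variable {M : Type*} [TopologicalSpace M] [ChartedSpace E M] [IsManifold 𝓘(ℝ, E) ∞ M]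

omit [NormedSpace ℝ E] [FiniteDimensional ℝ E] [IsManifold 𝓘(ℝ, E) ∞ M] in
/-- the image of an open subset of the domain of a chart. -/
theorem image_facts [NormedSpace ℝ E] {p : M} {U : Set M} (hU : IsOpen U)
    (hs : U ⊆ (chartAt E p).source) :
    IsOpen (chartAt E p '' U) ∧ chartAt E p '' U ⊆ (chartAt E p).target ∧
      (∀ y ∈ chartAt E p '' U, (chartAt E p).symm y ∈ U) := by
  refine ⟨(chartAt E p).isOpen_image_of_subset_source hU hs, ?_, ?_⟩
  · rintro _ ⟨x, hx, rfl⟩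
    exact (chartAt E p).map_source (hs hx)
  · rintro _ ⟨x, hx, rfl⟩
    rw [(chartAt E p).left_inv (hs hx)]
    exact hx

/-- **local Poincaré lemma in degree 2**. -/
theorem poincare2_loc {a : F2 E M} (ha : Smooth2 a) (hc : Closed2 a) {p : M} {U : Set M}
    (hU : IsOpen U) (hs : U ⊆ (chartAt E p).source) (hconv : Convex ℝ (chartAt E p '' U)) :
    ∃ s : F1 E M, (∀ x ∈ U, SmAt1 s x) ∧ ∀ x ∈ U, at2 (dG s) x = at2 a x := by
  obtain ⟨ho, ht, hi⟩ := image_facts hU hs
  obtain ⟨θ, h1, h2⟩ := R281.Poi_234.poincare2 (om := rep p a) ho hconv ((ha.2 p).mono ht)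
    (fun z _ v => by rw [rep_apply]; exact ha.1 _ _)
    (fun z hz u v w => by
      have h := hc p z (ht hz) u v w
      unfold dd at h
      have e1 : fderiv ℝ (rep p a) z v u w = - fderiv ℝ (rep p a) z v w u := by
        exact R281.Poi_234.Alt2.fderiv_swap (U := (chartAt E p).target)
          (fun z _ v => by rw [rep_apply]; exact ha.1 _ _) (chartAt E p).open_target (ht hz)
          (ha.diff (ht hz)) v u w
      rw [e1] at h
      linarith)
  refine ⟨ext1 p θ, fun x hx => ?_, fun x hx => ?_⟩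
  · refine smAt1_of_chart (hs hx) ?_
    have hm : chartAt E p x ∈ chartAt E p '' U := mem_image_of_mem _ hx
    refine (h1.contDiffAt (ho.mem_nhds hm)).congr_of_eventuallyEq ?_
    filter_upwards [ho.mem_nhds hm] with y hy
    exact rep1_ext1_self (ht hy) θ
  · have hm : chartAt E p x ∈ chartAt E p '' U := mem_image_of_mem _ hx
    have hsm : SmAt1 (ext1 p θ) x := by
      refine smAt1_of_chart (hs hx) ?_
      refine (h1.contDiffAt (ho.mem_nhds hm)).congr_of_eventuallyEq ?_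
      filter_upwards [ho.mem_nhds hm] with y hy
      exact rep1_ext1_self (ht hy) θ
    refine Sm.at2_eq_of_rep (hs hx) ?_
    rw [rep_dG_at' (hs hx) hsm]
    have he : rep1 p (ext1 p θ) =ᶠ[𝓝 (chartAt E p x)] θ := by
      filter_upwards [ho.mem_nhds hm] with y hy
      exact rep1_ext1_self (ht hy) θ
    rw [d1_congr he]
    ext u v
    rw [d1_apply]
    exact h2 _ hm u v

/-- **local Poincaré lemma in degree 1**. -/
theorem poincare1_loc {s : F1 E M} {p : M} {U : Set M} (hU : IsOpen U)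
    (hs : U ⊆ (chartAt E p).source) (hconv : Convex ℝ (chartAt E p '' U))
    (hsm : ∀ x ∈ U, SmAt1 s x) (hcl : ∀ x ∈ U, at2 (dG s) x = 0) :
    ∃ f : M → ℝ, (∀ x ∈ U, SmAtF E f x) ∧ ∀ x ∈ U, at1 (dF (E := E) f) x = at1 s x := by
  obtain ⟨ho, ht, hi⟩ := image_facts hU hs
  have hsm' : ContDiffOn ℝ ∞ (rep1 p s) (chartAt E p '' U) := by
    rintro _ ⟨x, hx, rfl⟩
    exact ((hsm x hx).chart (hs hx)).contDiffWithinAt
  obtain ⟨g, hg⟩ := R281.Poi_234.poincare1 ho hconv hsm' (by
    rintro _ ⟨x, hx, rfl⟩ v w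
    have h : rep p (dG s) (chartAt E p x) = 0 := by
      ext a b
      rw [rep_apply, (chartAt E p).left_inv (hs hx), hcl x hx]
      rfl
    rw [rep_dG_at' (hs hx) (hsm x hx)] at h
    have h2 : d1 (rep1 p s) (chartAt E p x) v w = 0 := by rw [h]; rfl
    rw [d1_apply] at h2
    linarith)
  have hgs := R281.Poi_234.contDiffOn_of_hasFDerivAt ho hsm' hg
  have hev : ∀ x ∈ U, repF p (extF p g) =ᶠ[𝓝 (chartAt E p x)] g := by
    intro x hx
    filter_upwards [ho.mem_nhds (mem_image_of_mem _ hx)] with y hy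
    exact repF_extF_self (ht hy) g
  have hsmF : ∀ x ∈ U, SmAtF E (extF p g) x := fun x hx =>
    smAtF_of_chart (hs hx) ((hgs.contDiffAt (ho.mem_nhds (mem_image_of_mem _ hx))).congr_of_eventuallyEq
      (hev x hx))
  refine ⟨extF p g, hsmF, fun x hx => ?_⟩
  refine at1_eq_of_rep (hs hx) ?_
  rw [rep1_dF_at' (hs hx) (hsmF x hx), (hev x hx).fderiv_eq]
  exact (hg _ (mem_image_of_mem _ hx)).fderiv

/-- a function with vanishing differential on a connected chart set is constant. -/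
theorem const_loc {f : M → ℝ} {p : M} {U : Set M} (hU : IsOpen U)
    (hs : U ⊆ (chartAt E p).source) (hconv : Convex ℝ (chartAt E p '' U))
    (hsm : ∀ x ∈ U, SmAtF E f x) (hcl : ∀ x ∈ U, at1 (dF (E := E) f) x = 0) :
    ∃ c : ℝ, ∀ x ∈ U, f x = c := by
  obtain ⟨ho, ht, hi⟩ := image_facts hU hs
  rcases U.eq_empty_or_nonempty with rfl | ⟨x0, hx0⟩
  · exact ⟨0, fun x hx => hx.elim⟩
  refine ⟨f x0, fun x hx => ?_⟩
  have hd : ∀ y ∈ chartAt E p '' U, DifferentiableAt ℝ (repF p f) y := by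
    rintro _ ⟨x, hx, rfl⟩
    exact ((hsm x hx).chart (hs hx)).differentiableAt infty_ne_zero
  have h0 : ∀ y ∈ chartAt E p '' U, fderiv ℝ (repF p f) y = 0 := by
    rintro _ ⟨x, hx, rfl⟩
    rw [← rep1_dF_at' (hs hx) (hsm x hx)]
    ext a
    rw [rep1_apply, (chartAt E p).left_inv (hs hx), hcl x hx]
    rfl
  have h1 := hconv.is_const_of_fderivWithin_eq_zero (𝕜 := ℝ) (f := repF p f)
    (fun y hy => (hd y hy).differentiableWithinAt)
    (fun y hy => by rw [fderivWithin_of_isOpen ho hy]; exact h0 y hy)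
    (mem_image_of_mem _ hx) (mem_image_of_mem _ hx0)
  rwa [repF_chart (hs hx), repF_chart (hs hx0)] at h1

end Poin

end

end Crest.Agent.R235.Loc_524
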