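import Crest.Agent.R235.AdjNodes_43
import Crest.Agent.R235.Loc_524

/-!
Row 235 (S0364), package ADJ (leader helper43), node CUTF (helper470).
-/

set_option autoImplicit false
set_option maxSynthPendingDepth 3
set_option linter.unusedSectionVars false

open Set Function Filter MeasureTheory Metric
open scoped Manifold ContDiff Topology

universe u

namespace Crest.Agent.R235.AdjCut_470

open Crest.Agent.R240 Crest.Agent.R240.Ch Crest.Agent.R240.Int
open Crest.Agent.R235 Crest.Agent.R235.Glob_370 Crest.Agent.R235.Adj Crest.Agent.R235.Loc_524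

noncomputable section

section

variable {M : Type u} [TopologicalSpace M] [ChartedSpace E4 M] [IsManifold 𝓘(ℝ, E4) ∞ M]

theorem smAt_rep {F : M → ℂ} {x : M} (h : SmAt F x) :
    ContDiffAt ℝ ∞ (fun y : E4 => F ((chartAt E4 x).symm y)) (chartAt E4 x x) := by
  have h1 : ContMDiffAt 𝓘(ℝ, E4) 𝓘(ℝ, E4) ∞ (chartAt E4 x).symm (chartAt E4 x x) :=
    (contMDiffOn_chart_symm (I := 𝓘(ℝ, E4)) (x := x)).contMDiffAt
      ((chartAt E4 x).open_target.mem_nhds (mem_chart_target E4 x))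
  have h2 : ContMDiffAt 𝓘(ℝ, E4) 𝓘(ℝ, ℂ) ∞ F ((chartAt E4 x).symm (chartAt E4 x x)) := by
    rw [(chartAt E4 x).left_inv (mem_chart_source E4 x)]; exact h
  exact (h2.comp (chartAt E4 x x) h1).contDiffAt

theorem smAtF_re {F : M → ℂ} {x : M} (h : SmAt F x) : SmAtF E4 (fun x => (F x).re) x :=
  Complex.reCLM.contDiff.contDiffAt.comp _ (smAt_rep h)

theorem smAtF_im {F : M → ℂ} {x : M} (h : SmAt F x) : SmAtF E4 (fun x => (F x).im) x :=
  Complex.imCLM.contDiff.contDiffAt.comp _ (smAt_rep h)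

theorem dF_re {F : M → ℂ} {x : M} (h : SmAt F x) (v : E4) :
    at1 (dF (E := E4) (fun x => (F x).re)) x v =
      (fderiv ℝ (fun y : E4 => F ((chartAt E4 x).symm y)) (chartAt E4 x x) v).re := by
  have h1 := (Complex.reCLM.hasFDerivAt.comp (chartAt E4 x x)
    ((smAt_rep h).differentiableAt (by simp)).hasFDerivAt).fderiv
  exact congrArg (fun L : E4 →L[ℝ] ℝ => L v) h1

theorem dF_im {F : M → ℂ} {x : M} (h : SmAt F x) (v : E4) :
    at1 (dF (E := E4) (fun x => (F x).im)) x v =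
      (fderiv ℝ (fun y : E4 => F ((chartAt E4 x).symm y)) (chartAt E4 x x) v).im := by
  have h1 := (Complex.imCLM.hasFDerivAt.comp (chartAt E4 x x)
    ((smAt_rep h).differentiableAt (by simp)).hasFDerivAt).fderiv
  exact congrArg (fun L : E4 →L[ℝ] ℝ => L v) h1

theorem smAtF_inv {f : M → ℝ} {x : M} (hf : SmAtF E4 f x) (h0 : f x ≠ 0) :
    SmAtF E4 (fun x => (f x)⁻¹) x := by
  refine ContDiffAt.inv hf ?_
  show f ((chartAt E4 x).symm (chartAt E4 x x)) ≠ 0
  rw [(chartAt E4 x).left_inv (mem_chart_source E4 x)]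
  exact h0

/-- `dArg F = (2π|F|²)⁻¹ (Re F d Im F - Im F d Re F)`. -/
theorem dArg_apply {F : M → ℂ} {x : M} (h : SmAt F x) (v : E4) :
    at1 (dArg F) x v = ((2 * Real.pi)⁻¹ * (Complex.normSq (F x))⁻¹) *
      ((F x).re * at1 (dF (E := E4) (fun x => (F x).im)) x v -
        (F x).im * at1 (dF (E := E4) (fun x => (F x).re)) x v) := by
  rw [dF_re h, dF_im h]
  have h1 : at1 (dArg F) x v = (2 * Real.pi)⁻¹ * ((F x)⁻¹ *
    fderiv ℝ (fun y : E4 => F ((chartAt E4 x).symm y)) (chartAt E4 x x) v).im := rfl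
  rw [h1, Complex.mul_im, Complex.inv_re, Complex.inv_im]
  ring

end

section

variable {M : Type u} [TopologicalSpace M] [T2Space M] [CompactSpace M]
  [ChartedSpace E4 M] [IsManifold 𝓘(ℝ, E4) ∞ M]

theorem cutf_aux (F : M → ℂ) (χ : M → ℝ) (Ω K D : Set M)
    (hO : IsOpen Ω) (hF : ∀ x ∈ Ω, SmAt F x) (h0 : ∀ x ∈ Ω, F x ≠ 0) (hχ : SmoothF E4 χ)
    (hK : IsClosed K) (hD : IsClosed D) (hd : ∀ x ∉ D, at1 (dF χ : F1 E4 M) x = 0)
    (hKD : K ∩ D ⊆ Ω) :
    ∃ (B : X2 M) (N : Set M), IsOpen N ∧ K ⊆ N ∧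
      (∀ x ∈ N, at2 (B : F2 E4 M) x = at2 (wedG (dArg F) (dF χ)) x) ∧
      ∀ x ∉ D, at2 (B : F2 E4 M) x = 0 := by
  have hcl : IsClosed (K ∩ D) := hK.inter hD
  obtain ⟨a, ha, ha'⟩ := exists_extF (E := E4) hcl hO hKD (f := fun x => (F x).re)
    fun x hx => smAtF_re (hF x hx)
  obtain ⟨b, hb, hb'⟩ := exists_extF (E := E4) hcl hO hKD (f := fun x => (F x).im)
    fun x hx => smAtF_im (hF x hx)
  obtain ⟨H, hH, hH'⟩ := exists_extF (E := E4) hcl hO hKD
    (f := fun x => (2 * Real.pi)⁻¹ * (Complex.normSq (F x))⁻¹) fun x hx => by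
      refine SmAtF.mul (smAtF_of_smooth (smoothF_const (E := E4) (M := M) _) x) ?_
      refine smAtF_inv ?_ ?_
      · have e : (fun x => Complex.normSq (F x)) =
            fun x => (F x).re * (F x).re + (F x).im * (F x).im := by
          funext x; exact Complex.normSq_apply _
        rw [e]
        exact SmAtF.add (SmAtF.mul (smAtF_re (hF x hx)) (smAtF_re (hF x hx)))
          (SmAtF.mul (smAtF_im (hF x hx)) (smAtF_im (hF x hx)))
      · exact (Complex.normSq_pos.2 (h0 x hx)).ne'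
  have hHa : SmoothF E4 (fun x => H x * a x) := fun p => (hH p).mul (ha p)
  have hHb : SmoothF E4 (fun x => (-1) * (H x * b x)) := fun p =>
    contDiffOn_const.mul ((hH p).mul (hb p))
  set s : F1 E4 M := fmul1 (fun x => H x * a x) (dF b) + fmul1 (fun x => (-1) * (H x * b x)) (dF a)
    with hs
  have hsm : Smooth1 s := (Smooth1.fmul hHa (Smooth1.dF hb)).add (Smooth1.fmul hHb (Smooth1.dF ha))
  -- the neighbourhood
  set N1 : Set M := Ω ∩ interior {x | a x = (F x).re ∧ b x = (F x).im ∧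
    H x = (2 * Real.pi)⁻¹ * (Complex.normSq (F x))⁻¹} with hN1
  have hN1o : IsOpen N1 := hO.inter isOpen_interior
  have hs1 : ∀ x ∈ N1, at1 s x = at1 (dArg F) x := by
    rintro x ⟨hx1, hx2⟩
    have hev := mem_interior_iff_mem_nhds.1 hx2
    have e1 : a =ᶠ[𝓝 x] fun x => (F x).re := by filter_upwards [hev] with z hz using hz.1
    have e2 : b =ᶠ[𝓝 x] fun x => (F x).im := by filter_upwards [hev] with z hz using hz.2.1
    obtain ⟨v1, v2, v3⟩ := mem_of_mem_nhds hev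
    refine ContinuousLinearMap.ext fun v => ?_
    have h1 : at1 s x v = (H x * a x) * at1 (dF (E := E4) b) x v +
      ((-1) * (H x * b x)) * at1 (dF (E := E4) a) x v := rfl
    rw [h1, Loc_524.dF_congr (E := E4) e1, Loc_524.dF_congr (E := E4) e2, v1, v2, v3,
      dArg_apply (hF x hx1)]
    ring
  refine ⟨⟨wedG s (dF χ), Smooth2.wed hsm (Smooth1.dF hχ)⟩, N1 ∪ Dᶜ, hN1o.union hD.isOpen_compl,
    fun x hx => ?_, fun x hx => ?_, fun x hx => ?_⟩
  · by_cases hxD : x ∈ D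
    · left
      refine ⟨hKD ⟨hx, hxD⟩, mem_interior_iff_mem_nhds.2 ?_⟩
      filter_upwards [ha' x ⟨hx, hxD⟩, hb' x ⟨hx, hxD⟩, hH' x ⟨hx, hxD⟩] with z h1 h2 h3
      exact ⟨h1, h2, h3⟩
    · right; exact hxD
  · rcases hx with hx | hx
    · show wed (at1 s x) (at1 (dF χ) x) = wed (at1 (dArg F) x) (at1 (dF χ) x)
      rw [hs1 x hx]
    · have h1 := hd x hx
      show wed (at1 s x) (at1 (dF χ) x) = wed (at1 (dArg F) x) (at1 (dF χ) x)
      rw [h1]
      ext u v
      simp [wed_apply]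
  · have h1 := hd x hx
    show wed (at1 s x) (at1 (dF χ) x) = 0
    rw [h1]
    ext u v
    simp [wed_apply]

end

/-- **node CUTF of package ADJ**. -/
theorem cutf : CUTF.{u} := fun _ _ _ _ _ _ _ F χ Ω K D hO hF h0 hχ hK hD hd hKD =>
  cutf_aux F χ Ω K D hO hF h0 hχ hK hD hd hKD

end

end Crest.Agent.R235.AdjCut_470
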