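import Mathlib

/-!
# Row 235 (S0364), package ADJ (helper43), leaf W1: winding numbers (helper688)

* `IsWL g n`       : the loop `g : ℝ → ℂ`, `2π`-periodic, continuous, without zeros, has winding
                     number `n` (there is a continuous logarithm with increment `2πin`)
* `IsW F p r n`    : the winding number of `θ ↦ F (p + r e^{iθ})` is `n`
* existence, uniqueness, homotopy, Rouché, products, powers, conjugation, radius independence,
  asymptotics, change of coordinate, integral formula.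
-/

set_option autoImplicit false

open Complex Set Filter Topology Metric MeasureTheory
open scoped Real

namespace Crest.Agent.R235.Wind_688

noncomputable section

/-! ### logarithms of functions on simply connected spaces -/

theorem exists_log {A : Type*} [TopologicalSpace A] [SimplyConnectedSpace A]
    [LocallyPathConnectedSpace A] (f : A → ℂ) (hf : Continuous f) (h0 : ∀ a, f a ≠ 0) :
    ∃ L : A → ℂ, Continuous L ∧ ∀ a, exp (L a) = f a := by
  obtain ⟨a₀⟩ : Nonempty A := inferInstance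
  have hc := Complex.isCoveringMap_exp
  let g : C(A, {z : ℂ // z ≠ 0}) := ⟨fun a => ⟨f a, h0 a⟩, by fun_prop⟩
  obtain ⟨L, ⟨-, hL⟩, -⟩ := hc.existsUnique_continuousMap_lifts g a₀ (Complex.log (f a₀))
    (Subtype.ext (Complex.exp_log (h0 a₀)))
  refine ⟨L, L.continuous, fun a => ?_⟩
  have := congrFun hL a
  exact congrArg Subtype.val this

/-- a continuous function on a connected space with `exp = 1` is constant -/
theorem const_of_exp {A : Type*} [TopologicalSpace A] [PreconnectedSpace A] {f : A → ℂ}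
    (hf : Continuous f) (h : ∀ a, exp (f a) = 1) (a b : A) : f a = f b := by
  have h1 : ∀ a, ∃ n : ℤ, f a = n * (2 * π * I) := fun a => Complex.exp_eq_one_iff.1 (h a)
  choose n hn using h1
  have hcont : Continuous fun a => ((n a : ℤ) : ℝ) := by
    have : (fun a => ((n a : ℤ) : ℝ)) = fun a => (f a / (2 * π * I)).re := by
      funext a
      rw [hn a, mul_div_assoc, div_self (by simp [Real.pi_ne_zero, I_ne_zero]), mul_one]
      simp
    rw [this]
    exact Complex.continuous_re.comp (hf.div_const _)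
  have hcn : Continuous n := by
    have := Int.isClosedEmbedding_coe_real.isEmbedding.continuous_iff (f := n)
    exact this.2 hcont
  have h2 : n a = n b := by
    have := PreconnectedSpace.constant (Y := ℤ) ‹_› hcn (x := a) (y := b)
    exact this
  rw [hn a, hn b, h2]

/-! ### loops -/

/-- the winding number of the loop `g` is `n` -/
def IsWL (g : ℝ → ℂ) (n : ℤ) : Prop :=
  ∃ L : ℝ → ℂ, Continuous L ∧ (∀ t, exp (L t) = g t) ∧
    ∀ t, L (t + 2 * π) = L t + (n : ℂ) * (2 * π * I)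

theorem IsWL.cont {g : ℝ → ℂ} {n : ℤ} (h : IsWL g n) : Continuous g := by
  obtain ⟨L, hL, he, -⟩ := h
  have : g = fun t => exp (L t) := (funext he).symm
  rw [this]
  exact Complex.continuous_exp.comp hL

theorem IsWL.ne {g : ℝ → ℂ} {n : ℤ} (h : IsWL g n) (t : ℝ) : g t ≠ 0 := by
  obtain ⟨L, -, he, -⟩ := h
  rw [← he t]; exact exp_ne_zero _

theorem IsWL.per {g : ℝ → ℂ} {n : ℤ} (h : IsWL g n) (t : ℝ) : g (t + 2 * π) = g t := by
  obtain ⟨L, -, he, hp⟩ := h
  rw [← he, ← he t, hp, exp_add, Complex.exp_int_mul_two_pi_mul_I, mul_one]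

/-- homotopies -/
theorem exists_wL_family (H : ℝ × ℝ → ℂ) (hH : Continuous H) (h0 : ∀ q, H q ≠ 0)
    (hp : ∀ s t, H (s, t + 2 * π) = H (s, t)) : ∃ n : ℤ, ∀ s, IsWL (fun t => H (s, t)) n := by
  obtain ⟨L, hL, he⟩ := exists_log H hH h0
  have hD : Continuous fun q : ℝ × ℝ => L (q.1, q.2 + 2 * π) - L q := by fun_prop
  have hD1 : ∀ q : ℝ × ℝ, exp (L (q.1, q.2 + 2 * π) - L q) = 1 := by
    intro q
    rw [exp_sub, he, he, hp q.1 q.2]
    exact div_self (h0 _)
  obtain ⟨n, hn⟩ := Complex.exp_eq_one_iff.1 (hD1 (0, 0))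
  refine ⟨n, fun s => ⟨fun t => L (s, t), by fun_prop, fun t => he _, fun t => ?_⟩⟩
  have := const_of_exp hD hD1 (s, t) (0, 0)
  simp only at this
  rw [hn] at this
  rw [← this]; ring

theorem exists_wL (g : ℝ → ℂ) (hg : Continuous g) (h0 : ∀ t, g t ≠ 0)
    (hp : ∀ t, g (t + 2 * π) = g t) : ∃ n : ℤ, IsWL g n := by
  obtain ⟨n, hn⟩ := exists_wL_family (fun q => g q.2) (by fun_prop) (fun q => h0 _)
    (fun s t => hp t)
  exact ⟨n, hn 0⟩

theorem IsWL.unique {g : ℝ → ℂ} {m n : ℤ} (hm : IsWL g m) (hn : IsWL g n) : m = n := by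
  obtain ⟨L, hL, he, hp⟩ := hm
  obtain ⟨K, hK, hf, hq⟩ := hn
  have h := const_of_exp (hL.sub hK) (fun t => by
    rw [Pi.sub_apply, exp_sub, he, hf]
    exact div_self (by rw [← he t]; exact exp_ne_zero _)) (0 + 2 * π) 0
  simp only [Pi.sub_apply, hp, hq] at h
  have h2 : ((m : ℂ) - n) * (2 * π * I) = 0 := by linear_combination h
  have h3 : (2 * (π : ℂ) * I) ≠ 0 := by simp [Real.pi_ne_zero, I_ne_zero]
  have h4 : (m : ℂ) - n = 0 := (mul_eq_zero.1 h2).resolve_right h3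
  exact_mod_cast sub_eq_zero.1 h4

/-- homotopy invariance -/
theorem IsWL.homotopy {n : ℤ} (H : ℝ × ℝ → ℂ) (hH : Continuous H) (h0 : ∀ q, H q ≠ 0)
    (hp : ∀ s t, H (s, t + 2 * π) = H (s, t)) {a b : ℝ} (ha : IsWL (fun t => H (a, t)) n) :
    IsWL (fun t => H (b, t)) n := by
  obtain ⟨m, hm⟩ := exists_wL_family H hH h0 hp
  rw [ha.unique (hm a)]
  exact hm b

/-- homotopy invariance, parameter in `[0,1]` -/
theorem IsWL.homotopy_Icc {n : ℤ} (H : ℝ → ℝ → ℂ)
    (hH : ContinuousOn (fun q : ℝ × ℝ => H q.1 q.2) (Icc 0 1 ×ˢ univ))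
    (h0 : ∀ s ∈ Icc (0 : ℝ) 1, ∀ t, H s t ≠ 0)
    (hp : ∀ s ∈ Icc (0 : ℝ) 1, ∀ t, H s (t + 2 * π) = H s t) (ha : IsWL (H 0) n) :
    IsWL (H 1) n := by
  have key : Continuous fun q : ℝ × ℝ => H (projIcc 0 1 zero_le_one q.1) q.2 := by
    have := hH.comp_continuous (f := fun q : ℝ × ℝ => (((projIcc 0 1 zero_le_one q.1 : ℝ)), q.2))
      (by fun_prop) (fun q => ⟨Subtype.mem _, mem_univ _⟩)
    exact this
  have h := IsWL.homotopy (n := n) (fun q : ℝ × ℝ => H (projIcc 0 1 zero_le_one q.1) q.2) key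
    (fun q => h0 _ (Subtype.mem _) _) (fun s t => hp _ (Subtype.mem _) _) (a := 0) (b := 1)
  simp only [projIcc_of_le_left zero_le_one le_rfl, projIcc_of_right_le zero_le_one le_rfl] at h
  exact h ha

theorem IsWL.mul {g h : ℝ → ℂ} {m n : ℤ} (hg : IsWL g m) (hh : IsWL h n) :
    IsWL (fun t => g t * h t) (m + n) := by
  obtain ⟨L, hL, he, hp⟩ := hg
  obtain ⟨K, hK, hf, hq⟩ := hh
  refine ⟨fun t => L t + K t, hL.add hK, fun t => by rw [exp_add, he, hf], fun t => ?_⟩
  simp only [hp, hq]; push_cast; ring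

theorem IsWL.inv {g : ℝ → ℂ} {m : ℤ} (hg : IsWL g m) : IsWL (fun t => (g t)⁻¹) (-m) := by
  obtain ⟨L, hL, he, hp⟩ := hg
  refine ⟨fun t => -L t, hL.neg, fun t => by rw [exp_neg, he], fun t => ?_⟩
  simp only [hp]; push_cast; ring

theorem IsWL.div {g h : ℝ → ℂ} {m n : ℤ} (hg : IsWL g m) (hh : IsWL h n) :
    IsWL (fun t => g t / h t) (m - n) := by
  simpa [div_eq_mul_inv, sub_eq_add_neg] using hg.mul hh.inv

theorem IsWL.conj {g : ℝ → ℂ} {m : ℤ} (hg : IsWL g m) :
    IsWL (fun t => (starRingEnd ℂ) (g t)) (-m) := by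
  obtain ⟨L, hL, he, hp⟩ := hg
  refine ⟨fun t => (starRingEnd ℂ) (L t), Complex.continuous_conj.comp hL,
    fun t => by simp only [← he t, exp_conj], fun t => ?_⟩
  simp only [hp, map_add, map_mul, map_intCast, conj_I, Complex.conj_ofReal, map_ofNat]
  push_cast; ring

theorem isWL_exp (S : ℝ → ℂ) (hS : Continuous S) (hp : ∀ t, S (t + 2 * π) = S t) :
    IsWL (fun t => exp (S t)) 0 :=
  ⟨S, hS, fun _ => rfl, fun t => by rw [hp]; simp⟩

theorem isWL_const {c : ℂ} (hc : c ≠ 0) : IsWL (fun _ => c) 0 := by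
  have := isWL_exp (fun _ => Complex.log c) continuous_const (fun _ => rfl)
  simpa [Complex.exp_log hc] using this

/-- values in the slit plane: winding number `0` -/
theorem isWL_slit {g : ℝ → ℂ} (hg : Continuous g) (hs : ∀ t, g t ∈ slitPlane)
    (hp : ∀ t, g (t + 2 * π) = g t) : IsWL g 0 := by
  have := isWL_exp (fun t => Complex.log (g t)) (hg.clog hs) (fun t => by rw [hp])
  simpa [Complex.exp_log (slitPlane_ne_zero (hs _))] using this

theorem IsWL.pow {g : ℝ → ℂ} {m : ℤ} (hg : IsWL g m) (k : ℕ) :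
    IsWL (fun t => g t ^ k) (k * m) := by
  obtain ⟨L, hL, he, hp⟩ := hg
  refine ⟨fun t => k * L t, continuous_const.mul hL, fun t => by rw [exp_nat_mul, he],
    fun t => ?_⟩
  simp only [hp]; push_cast; ring

theorem IsWL.prod {ι : Type*} (s : Finset ι) {g : ι → ℝ → ℂ} {m : ι → ℤ}
    (hg : ∀ i ∈ s, IsWL (g i) (m i)) : IsWL (fun t => ∏ i ∈ s, g i t) (∑ i ∈ s, m i) := by
  classical
  induction s using Finset.induction_on with
  | empty => simpa using isWL_const one_ne_zero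
  | insert a s ha ih =>
    simp only [Finset.prod_insert ha, Finset.sum_insert ha]
    exact (hg a (Finset.mem_insert_self _ _)).mul
      (ih fun i hi => hg i (Finset.mem_insert_of_mem hi))

theorem IsWL.congr {g h : ℝ → ℂ} {n : ℤ} (hg : IsWL g n) (e : ∀ t, g t = h t) : IsWL h n := by
  rwa [← (funext e : g = h)]

/-- `Re (g/h) > 0` -/
theorem IsWL.of_re_pos {g h : ℝ → ℂ} {n : ℤ} (hg : IsWL g n) (hh : Continuous h)
    (hp : ∀ t, h (t + 2 * π) = h t) (hr : ∀ t, 0 < (h t / g t).re) : IsWL h n := by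
  have h1 : IsWL (fun t => h t / g t) 0 := isWL_slit (hh.div hg.cont hg.ne)
    (fun t => Or.inl (hr t)) (fun t => by rw [hp, hg.per])
  have h2 := hg.mul h1
  rw [add_zero] at h2
  exact h2.congr fun t => by field_simp [hg.ne t]

/-- Rouché -/
theorem IsWL.rouche {g h : ℝ → ℂ} {n : ℤ} (hg : IsWL g n) (hh : Continuous h)
    (hp : ∀ t, h (t + 2 * π) = h t) (hr : ∀ t, ‖h t - g t‖ < ‖g t‖) : IsWL h n := by
  refine hg.of_re_pos hh hp fun t => ?_
  have h0 := hg.ne t
  have h1 : ‖h t / g t - 1‖ < 1 := by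
    rw [div_sub_one h0, norm_div, div_lt_one (norm_pos_iff.2 h0)]
    exact hr t
  have h2 := (abs_le.1 (abs_re_le_norm (h t / g t - 1))).1
  simp only [sub_re, one_re] at h2
  linarith

theorem IsWL.shift {g : ℝ → ℂ} {n : ℤ} (hg : IsWL g n) (a : ℝ) : IsWL (fun t => g (t + a)) n := by
  obtain ⟨L, hL, he, hp⟩ := hg
  refine ⟨fun t => L (t + a), by fun_prop, fun t => he _, fun t => ?_⟩
  have e : t + 2 * π + a = t + a + 2 * π := by ring
  simp only [e, hp]

/-- the loop `e^{it}` -/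
theorem isWL_id : IsWL (fun t => exp (t * I)) 1 :=
  ⟨fun t => t * I, by fun_prop, fun _ => rfl, fun t => by push_cast; ring⟩

/-! ### circles -/

/-- the winding number of `F` on the circle of centre `p` and radius `r` is `n` -/
def IsW (F : ℂ → ℂ) (p : ℂ) (r : ℝ) (n : ℤ) : Prop := IsWL (fun t => F (circleMap p r t)) n

theorem cm_per (p : ℂ) (r : ℝ) (t : ℝ) : circleMap p r (t + 2 * π) = circleMap p r t :=
  periodic_circleMap p r t

theorem cm_mem (p : ℂ) {r : ℝ} (hr : 0 ≤ r) (t : ℝ) : circleMap p r t ∈ sphere p r :=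
  circleMap_mem_sphere p hr t

theorem cont_of_sphere {F : ℂ → ℂ} {p : ℂ} {r : ℝ} (hr : 0 ≤ r) (h : ContinuousOn F (sphere p r)) :
    Continuous fun t => F (circleMap p r t) :=
  h.comp_continuous (continuous_circleMap p r) fun t => cm_mem p hr t

theorem exists_isW {F : ℂ → ℂ} {p : ℂ} {r : ℝ} (hr : 0 ≤ r) (h : ContinuousOn F (sphere p r))
    (h0 : ∀ z ∈ sphere p r, F z ≠ 0) : ∃ n, IsW F p r n :=
  exists_wL _ (cont_of_sphere hr h) (fun t => h0 _ (cm_mem p hr t)) fun t => by rw [cm_per]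

theorem IsW.unique {F : ℂ → ℂ} {p : ℂ} {r : ℝ} {m n : ℤ} (hm : IsW F p r m) (hn : IsW F p r n) :
    m = n := IsWL.unique hm hn

theorem IsW.congr {F G : ℂ → ℂ} {p : ℂ} {r : ℝ} {n : ℤ} (hr : 0 ≤ r) (hF : IsW F p r n)
    (e : ∀ z ∈ sphere p r, F z = G z) : IsW G p r n :=
  IsWL.congr hF fun t => e _ (cm_mem p hr t)

theorem IsW.mul {F G : ℂ → ℂ} {p : ℂ} {r : ℝ} {m n : ℤ} (hF : IsW F p r m) (hG : IsW G p r n) :
    IsW (fun z => F z * G z) p r (m + n) := IsWL.mul hF hG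

theorem IsW.inv {F : ℂ → ℂ} {p : ℂ} {r : ℝ} {m : ℤ} (hF : IsW F p r m) :
    IsW (fun z => (F z)⁻¹) p r (-m) := IsWL.inv hF

theorem IsW.div {F G : ℂ → ℂ} {p : ℂ} {r : ℝ} {m n : ℤ} (hF : IsW F p r m) (hG : IsW G p r n) :
    IsW (fun z => F z / G z) p r (m - n) := IsWL.div hF hG

theorem IsW.conj {F : ℂ → ℂ} {p : ℂ} {r : ℝ} {m : ℤ} (hF : IsW F p r m) :
    IsW (fun z => (starRingEnd ℂ) (F z)) p r (-m) := IsWL.conj hF

theorem IsW.pow {F : ℂ → ℂ} {p : ℂ} {r : ℝ} {m : ℤ} (hF : IsW F p r m) (k : ℕ) :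
    IsW (fun z => F z ^ k) p r (k * m) := IsWL.pow hF k

theorem IsW.prod {ι : Type*} (s : Finset ι) {F : ι → ℂ → ℂ} {p : ℂ} {r : ℝ} {m : ι → ℤ}
    (hF : ∀ i ∈ s, IsW (F i) p r (m i)) : IsW (fun z => ∏ i ∈ s, F i z) p r (∑ i ∈ s, m i) :=
  IsWL.prod s hF

theorem isW_const {c p : ℂ} {r : ℝ} (hc : c ≠ 0) : IsW (fun _ => c) p r 0 := isWL_const hc

theorem IsW.neg {F : ℂ → ℂ} {p : ℂ} {r : ℝ} {m : ℤ} (hF : IsW F p r m) :
    IsW (fun z => -F z) p r m := by
  have := (isW_const (p := p) (r := r) (neg_ne_zero.2 one_ne_zero : (-1 : ℂ) ≠ 0)).mul hF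
  rw [zero_add] at this
  exact IsWL.congr this fun t => by ring

theorem isW_exp {S : ℂ → ℂ} {p : ℂ} {r : ℝ} (hr : 0 ≤ r) (hS : ContinuousOn S (sphere p r)) :
    IsW (fun z => exp (S z)) p r 0 :=
  isWL_exp (fun t => S (circleMap p r t)) (cont_of_sphere hr hS) fun t => by rw [cm_per]

/-- the function `z - p` -/
theorem isW_sub {p : ℂ} {r : ℝ} (hr : 0 < r) : IsW (fun z => z - p) p r 1 := by
  have h := (isWL_const (c := (r : ℂ)) (by exact_mod_cast hr.ne')).mul isWL_id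
  rw [zero_add] at h
  exact IsWL.congr h fun t => by simp [circleMap]

theorem isW_pow {p : ℂ} {r : ℝ} (hr : 0 < r) (m : ℕ) : IsW (fun z => (z - p) ^ m) p r m := by
  simpa using (isW_sub (p := p) hr).pow m

theorem IsW.rouche {F G : ℂ → ℂ} {p : ℂ} {r : ℝ} {n : ℤ} (hr : 0 ≤ r) (hF : IsW F p r n)
    (hG : ContinuousOn G (sphere p r)) (h : ∀ z ∈ sphere p r, ‖G z - F z‖ < ‖F z‖) :
    IsW G p r n :=
  IsWL.rouche hF (cont_of_sphere hr hG) (fun t => by rw [cm_per]) fun t => h _ (cm_mem p hr t)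

/-- homotopy: `F` and `G` connected by a family without zeros on the circle -/
theorem IsW.homotopy {H : ℝ → ℂ → ℂ} {p : ℂ} {r : ℝ} {n : ℤ} (hr : 0 ≤ r)
    (hH : ContinuousOn (fun q : ℝ × ℂ => H q.1 q.2) (Icc 0 1 ×ˢ sphere p r))
    (h0 : ∀ s ∈ Icc (0 : ℝ) 1, ∀ z ∈ sphere p r, H s z ≠ 0) (h : IsW (H 0) p r n) :
    IsW (H 1) p r n := by
  refine IsWL.homotopy_Icc (fun s t => H s (circleMap p r t)) ?_
    (fun s hs t => h0 s hs _ (cm_mem p hr t)) (fun s _ t => by rw [cm_per]) h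
  refine hH.comp (f := fun q : ℝ × ℝ => (q.1, circleMap p r q.2)) ?_
    fun q hq => ⟨hq.1, cm_mem p hr _⟩
  exact (continuous_fst.prodMk ((continuous_circleMap p r).comp continuous_snd)).continuousOn

/-- change of circle: `F` continuous without zeros on a set which contains all the circles of the
affine family between `(p, r)` and `(q, s)` -/
theorem IsW.move {F : ℂ → ℂ} {U : Set ℂ} (hF : ContinuousOn F U) (h0 : ∀ z ∈ U, F z ≠ 0)
    {p q : ℂ} {r s : ℝ} (hU : ∀ a ∈ Icc (0 : ℝ) 1, ∀ t : ℝ,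
      circleMap ((1 - a) * p + a * q) ((1 - a) * r + a * s) t ∈ U)
    {n : ℤ} (h : IsW F p r n) : IsW F q s n := by
  have := IsWL.homotopy_Icc (n := n)
    (fun a t => F (circleMap ((1 - a) * p + a * q) ((1 - a) * r + a * s) t)) ?_
    (fun a ha t => h0 _ (hU a ha t)) (fun a _ t => by rw [cm_per]) ?_
  · have e := IsWL.congr (h := fun t => F (circleMap q s t)) this fun t => by
      congr 1; simp
    exact e
  · refine hF.comp (f := fun q' : ℝ × ℝ => circleMap ((1 - q'.1) * p + q'.1 * q)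
      ((1 - q'.1) * r + q'.1 * s) q'.2) ?_ fun q' hq => hU _ hq.1 _
    apply Continuous.continuousOn
    unfold circleMap
    fun_prop
  · exact IsWL.congr h fun t => by congr 1; simp

/-- radius independence -/
theorem IsW.radius {F : ℂ → ℂ} {p : ℂ} {r s : ℝ} (hr : 0 ≤ r) (hs : 0 ≤ s)
    (hF : ContinuousOn F {z | min r s ≤ ‖z - p‖ ∧ ‖z - p‖ ≤ max r s})
    (h0 : ∀ z, min r s ≤ ‖z - p‖ → ‖z - p‖ ≤ max r s → F z ≠ 0) {n : ℤ} (h : IsW F p r n) :
    IsW F p s n := by
  refine IsW.move hF (fun z hz => h0 z hz.1 hz.2) (fun a ha t => ?_) h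
  have e : ‖circleMap ((1 - a) * p + a * p) ((1 - a) * r + a * s) t - p‖ = (1 - a) * r + a * s := by
    have : ((1 - a) * p + a * p : ℂ) = p := by ring
    rw [this, circleMap_sub_center, norm_circleMap_zero, abs_of_nonneg]
    have := ha.1; have := ha.2
    have := mul_nonneg (sub_nonneg.2 ha.2) hr
    have := mul_nonneg ha.1 hs
    linarith
  rw [mem_ofPred_eq, e]
  constructor
  · rcases le_total r s with h1 | h1
    · rw [min_eq_left h1]
      nlinarith [ha.1, ha.2, mul_nonneg ha.1 (sub_nonneg.2 h1)]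
    · rw [min_eq_right h1]
      nlinarith [ha.1, ha.2, mul_nonneg (sub_nonneg.2 ha.2) (sub_nonneg.2 h1)]
  · rcases le_total r s with h1 | h1
    · rw [max_eq_right h1]
      nlinarith [ha.1, ha.2, mul_nonneg (sub_nonneg.2 ha.2) (sub_nonneg.2 h1)]
    · rw [max_eq_left h1]
      nlinarith [ha.1, ha.2, mul_nonneg ha.1 (sub_nonneg.2 h1)]

/-- no zero inside: winding number `0` -/
theorem isW_zero {F : ℂ → ℂ} {p : ℂ} {r : ℝ} (hr : 0 ≤ r) (hF : ContinuousOn F (closedBall p r))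
    (h0 : ∀ z ∈ closedBall p r, F z ≠ 0) : IsW F p r 0 := by
  have h1 : IsW F p 0 0 := by
    have := isW_const (p := p) (r := 0) (h0 p (mem_closedBall_self hr))
    exact IsWL.congr this fun t => by simp [circleMap]
  refine IsW.move hF h0 (p := p) (r := 0) (q := p) (s := r) (fun a ha t => ?_) h1
  have e : ((1 - a) * p + a * p : ℂ) = p := by ring
  rw [e, mem_closedBall, dist_eq_norm, circleMap_sub_center, norm_circleMap_zero, mul_zero,
    zero_add, abs_of_nonneg (mul_nonneg ha.1 hr)]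
  nlinarith [ha.2]

end

end Crest.Agent.R235.Wind_688
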