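import Crest.Agent.R235.GlobDefs_370
import Crest.Agent.R235.Wind_688
import Crest.Agent.R235.Props_844

/-!
Row 235 (S0364), PACKAGE ADJ (T4, adjunction), helper43: frozen definitions and nodes.

Route: for an irreducible `J`-curve `c` (`Glob_370.JCurve`), `c.c = deg K + Σ m_{p,j}` where `m_{p,j}`
is the winding number of `κ_{p,j}`, `dF = κ σ(·, ∂u)` along the branch `j` at `p`, `F` a local
function with zero set `c` and `d ((1/2π) d arg F) = [c]`, `σ = w₁ - i w₁(J·,·)` the `(2,0)`-form.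
No Thom form, no normal bundle, no degree theory: push-off and winding numbers only.
-/

set_option autoImplicit false
set_option maxSynthPendingDepth 3

open Set Function Filter MeasureTheory Metric
open scoped Manifold ContDiff Topology

universe u

namespace Crest.Agent.R235.Adj

open Crest.Agent.R240 Crest.Agent.R240.Ch Crest.Agent.R240.Int
open Crest.Agent.R235 Crest.Agent.R235.Glob_370 Crest.Agent.R235.Wind_688

noncomputable section

/-! ### sections of the canonical bundle of a Riemann surface -/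

/-- the winding number of `F` on all small circles around `p` is `n`. -/
def WAt (F : ℂ → ℂ) (p : ℂ) (n : ℤ) : Prop := ∀ᶠ r in 𝓝[>] (0 : ℝ), IsW F p r n

/-- a smooth section of `K` with finitely many zeros (of arbitrary orders). -/
structure KSec {N : Type u} [TopologicalSpace N] (A : RS.CAtl.{u, u} N) where
  /-- the coefficients -/
  s : A.ι → ℂ → ℂ
  smooth : ∀ i, ContDiffOn ℝ ∞ (s i) (A.c i).target
  tr : ∀ i j, ∀ z ∈ A.dom i j, s i z = s j (A.tr i j z) * deriv (A.tr i j) z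
  /-- the exceptional points: all the zeros -/
  Z : Finset N
  zero : ∀ i, ∀ z ∈ (A.c i).target, s i z = 0 → (A.c i).symm z ∈ Z
  /-- the orders -/
  ord : N → ℤ
  wind : ∀ x ∈ Z, ∀ i, x ∈ (A.c i).source → WAt (s i) (A.c i x) (ord x)

/-- the degree. -/
def KSec.deg {N : Type u} [TopologicalSpace N] {A : RS.CAtl.{u, u} N} (k : KSec A) : ℤ :=
  ∑ x ∈ k.Z, k.ord x

/-- **RSEC** (owner 538): sphere and degree `-2`, or torus, no zeros, or degree `≥ 1`. -/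
def RSEC : Prop :=
  ∀ (N : Type u) [TopologicalSpace N] [T2Space N] [CompactSpace N] [ConnectedSpace N]
    (A : RS.CAtl.{u, u} N), ∃ k : KSec A,
      (A.IsSph ∧ k.deg = -2) ∨ (A.IsTor ∧ k.Z = ∅) ∨ 1 ≤ k.deg

section Basic

variable {M : Type u} [TopologicalSpace M] [ChartedSpace E4 M] [IsManifold 𝓘(ℝ, E4) ∞ M]

/-- the nondegenerate `(2,0)`-form `σ(u,v) = w₁(u,v) - i w₁(Ju,v)`; `σ(Ju,v) = i σ(u,v)`. -/
def sg (w : Trip M) (J : EndF E4 M) (x : M) (u v : E4) : ℂ :=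
  (val (w 1) x u v : ℂ) - Complex.I * (val (w 1) x (atJ J x u) v : ℂ)

/-- a complex function on `M` is smooth at `x` (charts). -/
def SmAt (F : M → ℂ) (x : M) : Prop := ContMDiffAt 𝓘(ℝ, E4) 𝓘(ℝ, ℂ) ∞ F x

/-- the differential of a complex function, in the preferred chart at `x`. -/
def dC (F : M → ℂ) (x : M) (v : E4) : ℂ :=
  fderiv ℝ (fun y : E4 => F ((chartAt E4 x).symm y)) (chartAt E4 x x) v

/-- `(1/2π) d arg F` (real one-form; junk where `F` is not differentiable or zero). -/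
def dArg (F : M → ℂ) : F1 E4 M := fun x =>
  ((2 * Real.pi)⁻¹ • Complex.imCLM.comp
    ((F x)⁻¹ • fderiv ℝ (fun y : E4 => F ((chartAt E4 x).symm y)) (chartAt E4 x x)) :
    E4 →L[ℝ] ℝ)

end Basic

section Closed

variable {M : Type u} [TopologicalSpace M] [T2Space M] [CompactSpace M]
  [ChartedSpace E4 M] [IsManifold 𝓘(ℝ, E4) ∞ M]

/-- `I F b c` for arbitrary forms. -/
def II (F : Z2 M) (b c : F2 E4 M) : ℝ :=
  letI : MeasurableSpace M := borel M
  haveI : BorelSpace M := ⟨rfl⟩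
  Int.I (F.1.1 : F2 E4 M) b c

/-- LOCAL FUNCTION of the `J`-curve `c` at the point `p` (any `p : M`), inside `V`. -/
structure Box {J : EndF E4 M} (w : Trip M) (c : JCurve J) (p : M) (V : Set M) where
  /-- the neighbourhood -/
  U : Set M
  openU : IsOpen U
  mem : p ∈ U
  subV : U ⊆ V
  subL : U ⊆ (c.L p).U
  /-- the function -/
  F : M → ℂ
  cont : ContinuousOn F U
  zero : ∀ x ∈ U, F x = 0 ↔ x ∈ range c.f
  /-- the exceptional leaf -/
  E : Set M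
  closedE : IsOpen (U \ E)
  smooth : ∀ x ∈ U, x ∉ E → SmAt F x
  E_sub : ∀ x ∈ U, x ∈ E → x ∈ range c.f → x = p
  /-- no exceptional leaf at a regular point -/
  reg : (c.L p).n = 1 → (∀ j, dmap ((c.L p).u j) 0 1 ≠ 0) → E = ∅
  /-- `d ((1/2π) d arg F) = [c]` in `U`, tested with cut-off closed forms -/
  weak : ∀ χ : M → ℝ, SmoothF E4 χ → tsupport χ ⊆ U → ∀ (η : Z2 M) (b : X2 M),
    (b.1 : F2 E4 M) = fmul χ (η.1.1 : F2 E4 M) →
    c.T b = II (w 0) (wedG (dArg F) (dF χ)) (η.1.1 : F2 E4 M)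
  /-- the factor: `dF = κ σ(·, ∂u)` along the branches -/
  κ : Fin (c.L p).n → ℂ → ℂ
  /-- radius of validity -/
  r0 : ℝ
  r0_pos : 0 < r0
  r0_le : r0 ≤ 1
  inU : ∀ j, ∀ z ∈ ball (0 : ℂ) r0, (c.L p).u j z ∈ U
  κ_eq : ∀ j, ∀ z ∈ ball (0 : ℂ) r0, z ≠ 0 → ∀ v : E4,
    dC F ((c.L p).u j z) v = κ j z * sg w J ((c.L p).u j z) v (dmap ((c.L p).u j) z 1)
  /-- the local contributions -/
  m : Fin (c.L p).n → ℤ
  wind : ∀ j, ∀ r : ℝ, 0 < r → r < r0 → IsW (κ j) 0 r (m j)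
  m_nonneg : ∀ j, 0 ≤ m j
  /-- positive at singular points -/
  m_pos : ∀ j, (1 < (c.L p).n ∨ dmap ((c.L p).u j) 0 1 = 0) → 1 ≤ m j
  /-- positivity of the intersection with another disc through `p` -/
  other : p ∈ range c.f → ∀ v : ℂ → M, IsDisc J v → v 0 = p → (∀ z ∈ ball (0 : ℂ) 1, v z ∈ range c.f → z = 0) →
    ∃ n : ℤ, 1 ≤ n ∧ WAt (fun z => F (v z)) 0 n

/-- **BOX** (local theory of a `J`-curve). -/
def BOX : Prop :=
  ∀ (M : Type u) [TopologicalSpace M] [T2Space M] [CompactSpace M] [ConnectedSpace M]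
    [ChartedSpace E4 M] [IsManifold 𝓘(ℝ, E4) ∞ M] (w : Trip M) (J : EndF E4 M), Pos3 w → IsJ w J →
    ∀ (c : JCurve J) (p : M) (V : Set M), IsOpen V → p ∈ V → Nonempty (Box w c p V)

/-- a push-off family with initial velocity `X`. -/
structure Push (X : VF E4 M) where
  /-- the maps -/
  Φ : ℝ → M → M
  /-- the pull-backs -/
  P : ℝ → X2 M →ₗ[ℝ] X2 M
  t0 : ℝ
  t0_pos : 0 < t0
  smooth : ContMDiffOn (𝓘(ℝ, ℝ).prod 𝓘(ℝ, E4)) 𝓘(ℝ, E4) ∞ (fun q : ℝ × M => Φ q.1 q.2)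
    (Ioo (-t0) t0 ×ˢ univ)
  zero : ∀ x, Φ 0 x = x
  vel : ∀ x, HasDerivAt (fun t => chartAt E4 x (Φ t x)) (atV X x) 0
  closed : ∀ t ∈ Ioo (-t0) t0, ∀ a : Z2 M, ∃ a' : Z2 M, P t a.1 = a'.1 ∧ cls a' = cls a
  exact : ∀ t ∈ Ioo (-t0) t0, ∀ b : X2 M, IsEx (b : F2 E4 M) → IsEx (P t b : F2 E4 M)
  /-- the pull-back formula along maps of the plane -/
  pull : ∀ t ∈ Ioo (-t0) t0, ∀ (u : ℂ → M) (z : ℂ), ContMDiffAt 𝓘(ℝ, ℂ) 𝓘(ℝ, E4) ∞ u z →
    ∀ b : X2 M, pb u (P t b : F2 E4 M) z = pb (fun y => Φ t (u y)) (b : F2 E4 M) z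
  /-- order zero -/
  bd : ∀ t ∈ Ioo (-t0) t0, ∀ 𝒰 : Cover M, ∃ C : ℝ, ∀ b : X2 M,
    𝒰.cm 0 (P t b : F2 E4 M) ≤ C * 𝒰.cm 0 (b : F2 E4 M)
  /-- locality -/
  supp : ∀ t ∈ Ioo (-t0) t0, ∀ (b : X2 M) (x : M), at2 (b : F2 E4 M) (Φ t x) = 0 →
    at2 (P t b : F2 E4 M) x = 0

/-- **PUSH** -/
def PUSH : Prop :=
  ∀ (M : Type u) [TopologicalSpace M] [T2Space M] [CompactSpace M] [ConnectedSpace M]
    [ChartedSpace E4 M] [IsManifold 𝓘(ℝ, E4) ∞ M] (X : VF E4 M), SmoothV X → Nonempty (Push X)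

/-- **FIELD**: a vector field with prescribed normal component along the regular part of `c`. -/
def FIELD : Prop :=
  ∀ (M : Type u) [TopologicalSpace M] [T2Space M] [CompactSpace M] [ConnectedSpace M]
    [ChartedSpace E4 M] [IsManifold 𝓘(ℝ, E4) ∞ M] (w : Trip M) (J : EndF E4 M), Pos3 w → IsJ w J →
    ∀ (c : JCurve J) (k : KSec c.A) (V : Set M), IsOpen V →
      (∀ x y : c.N, x ≠ y → c.f x = c.f y → c.f x ∈ V) →
      (∀ i, ∀ z ∈ (c.A.c i).target, dmap (fun z => c.f ((c.A.c i).symm z)) z 1 = 0 →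
        c.f ((c.A.c i).symm z) ∈ V) →
      ∃ X : VF E4 M, SmoothV X ∧ ∀ i, ∀ z ∈ (c.A.c i).target, c.f ((c.A.c i).symm z) ∉ V →
        sg w J (c.f ((c.A.c i).symm z)) (atV X (c.f ((c.A.c i).symm z)))
          (dmap (fun z => c.f ((c.A.c i).symm z)) z 1) = k.s i z

/-! ### outputs -/

/-- embedded curves. -/
def Emb {J : EndF E4 M} (c : JCurve J) : Prop :=
  Injective c.f ∧ ∀ i, ∀ z ∈ (c.A.c i).target, dmap (fun z => c.f ((c.A.c i).symm z)) z 1 ≠ 0

/-- **ADJ** (adjunction inequality): `c.c ≥ deg K`, and `c.c = deg K` only for embedded curves. -/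
def ADJ : Prop :=
  ∀ (M : Type u) [TopologicalSpace M] [T2Space M] [CompactSpace M] [ConnectedSpace M]
    [ChartedSpace E4 M] [IsManifold 𝓘(ℝ, E4) ∞ M] (w : Trip M) (J : EndF E4 M), Pos3 w → IsJ w J →
    ∀ (c : JCurve J) (s : H2 M), (∀ b : Z2 M, c.T b.1 = ip (w 0) s (cls b)) → ∀ k : KSec c.A,
      (k.deg : ℝ) ≤ ip (w 0) s s ∧ (ip (w 0) s s = k.deg → Emb c)

/-- **ISEC**: intersection numbers of different curves. -/
def ISEC : Prop :=
  ∀ (M : Type u) [TopologicalSpace M] [T2Space M] [CompactSpace M] [ConnectedSpace M]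
    [ChartedSpace E4 M] [IsManifold 𝓘(ℝ, E4) ∞ M] (w : Trip M) (J : EndF E4 M), Pos3 w → IsJ w J →
    ∀ (c c' : JCurve J) (s s' : H2 M), (∀ b : Z2 M, c.T b.1 = ip (w 0) s (cls b)) →
      (∀ b : Z2 M, c'.T b.1 = ip (w 0) s' (cls b)) → (range c.f ∩ range c'.f).Finite →
      0 ≤ ip (w 0) s s' ∧ (ip (w 0) s s' = 0 → Disjoint (range c.f) (range c'.f))

end Closed

end

end Crest.Agent.R235.Adj
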