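import Mathlib

/-!
Row 235 (S0364), ADJ-E1 (helper83): the integral over the unit sphere of `ℝ³` in the stereographic
coordinate `z = (y₀ + i y₁)/(1 + y₂)`.
-/

set_option autoImplicit false

open Set Function Filter MeasureTheory Metric
open scoped Topology

namespace Crest.Agent.R235.Stereo_83

noncomputable section

/-- three-space -/
local notation "E3" => EuclideanSpace ℝ (Fin 3)

/-- polar coordinates -/
theorem sphere_integral (H : E3 → ℝ) :
    ∫ y : sphere (0 : E3) 1, H y ∂((volume : Measure E3).toSphere) =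
      3 * ∫ x in ball (0 : E3) 1 \ {0}, H (‖x‖⁻¹ • x) := by
  have hmp := (volume : Measure E3).measurePreserving_homeomorphUnitSphereProd
  have hdim : Module.finrank ℝ E3 - 1 = 2 := by simp
  rw [hdim] at hmp
  set η : Ioi (0 : ℝ) → ℝ := indicator (Iio ⟨1, mem_Ioi.2 one_pos⟩) (fun _ => 1) with hη
  have h1 : ∫ t, η t ∂(Measure.volumeIoiPow 2) = 1 / 3 := by
    rw [hη, integral_indicator_const _ measurableSet_Iio, smul_eq_mul, mul_one, Measure.real,
      Measure.volumeIoiPow_apply_Iio, ENNReal.toReal_ofReal (by positivity)]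
    norm_num
  have h2 := hmp.integral_comp (Homeomorph.measurableEmbedding _)
    (fun p : sphere (0 : E3) 1 × Ioi (0 : ℝ) => H p.1 * η p.2)
  rw [integral_prod_mul (fun y : sphere (0 : E3) 1 => H y) η, h1] at h2
  have h3 : ∫ x : ({0}ᶜ : Set E3), H ((homeomorphUnitSphereProd E3 x).1 : E3) *
        η (homeomorphUnitSphereProd E3 x).2 ∂(Measure.comap Subtype.val (volume : Measure E3)) =
      ∫ x in ball (0 : E3) 1 \ {0}, H (‖x‖⁻¹ • x) := by
    have h4 : ∀ x : ({0}ᶜ : Set E3), H ((homeomorphUnitSphereProd E3 x).1 : E3) *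
        η (homeomorphUnitSphereProd E3 x).2 =
        (fun x : E3 => indicator (ball (0 : E3) 1) (fun x => H (‖x‖⁻¹ • x)) x) x := by
      intro x
      rw [homeomorphUnitSphereProd_apply_fst_coe]
      by_cases hx : (x : E3) ∈ ball (0 : E3) 1
      · have h5 : (homeomorphUnitSphereProd E3 x).2 ∈ Iio (⟨1, mem_Ioi.2 one_pos⟩ : Ioi (0 : ℝ)) := by
          rw [mem_Iio, ← Subtype.coe_lt_coe, homeomorphUnitSphereProd_apply_snd_coe]
          exact mem_ball_zero_iff.1 hx
        simp only [hη]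
        rw [indicator_of_mem h5, indicator_of_mem hx, mul_one]
      · have h5 : (homeomorphUnitSphereProd E3 x).2 ∉ Iio (⟨1, mem_Ioi.2 one_pos⟩ : Ioi (0 : ℝ)) := by
          rw [mem_Iio, ← Subtype.coe_lt_coe, homeomorphUnitSphereProd_apply_snd_coe]
          exact fun h => hx (mem_ball_zero_iff.2 h)
        simp only [hη]
        rw [indicator_of_notMem h5, indicator_of_notMem hx, mul_zero]
    simp only [h4]
    rw [integral_subtype_comap (measurableSet_singleton _).compl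
      (fun x : E3 => indicator (ball (0 : E3) 1) (fun x => H (‖x‖⁻¹ • x)) x),
      setIntegral_indicator measurableSet_ball]
    congr 2
    ext x
    simp [and_comm]
  rw [h3] at h2
  linarith

/-- `E3 = ℝ × ℂ` -/
def eq3 : E3 ≃ᵐ ℝ × ℂ :=
  (MeasurableEquiv.toLp 2 (Fin 3 → ℝ)).symm.trans
    ((MeasurableEquiv.piFinSuccAbove (fun _ : Fin 3 => ℝ) 2).trans
      (MeasurableEquiv.prodCongr (MeasurableEquiv.refl ℝ) Complex.measurableEquivPi.symm))

theorem eq3_apply (a : E3) : eq3 a = (a 2, ⟨a 0, a 1⟩) := by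
  have h0 : (Fin.succAbove (2 : Fin 3) (0 : Fin 2)) = 0 := rfl
  have h1 : (Fin.succAbove (2 : Fin 3) (1 : Fin 2)) = 1 := rfl
  have h2 : eq3 a = (a 2, ((a (Fin.succAbove (2 : Fin 3) (0 : Fin 2)) : ℝ) : ℂ) +
      ((a (Fin.succAbove (2 : Fin 3) (1 : Fin 2)) : ℝ) : ℂ) * Complex.I) := rfl
  rw [h2, h0, h1]
  refine Prod.ext rfl ?_
  apply Complex.ext <;> simp

theorem mp_eq3 : MeasurePreserving eq3 (volume : Measure E3) (volume : Measure (ℝ × ℂ)) := by
  have h1 := PiLp.volume_preserving_ofLp (Fin 3)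
  have h2 := volume_preserving_piFinSuccAbove (fun _ : Fin 3 => ℝ) 2
  have h3 : MeasurePreserving (Prod.map (id : ℝ → ℝ) Complex.measurableEquivPi.symm)
      ((volume : Measure ℝ).prod volume) ((volume : Measure ℝ).prod volume) :=
    (MeasurePreserving.id _).prod Complex.volume_preserving_equiv_pi.symm
  exact (h3.comp h2).comp h1

/-- the cylinder -/
def Dc : Set E3 := {a | 0 < a 2 ∧ a 2 < 1}

theorem cyl_integral (g : ℂ → ℝ) :
    ∫ a in Dc, a 2 ^ 2 * g ⟨a 0, a 1⟩ = 1 / 3 * ∫ z, g z := by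
  have h1 : Dc = eq3 ⁻¹' (Ioo (0 : ℝ) 1 ×ˢ univ) := by
    ext a
    rw [mem_preimage, eq3_apply]
    exact ⟨fun h => ⟨h, mem_univ _⟩, fun h => h.1⟩
  have h2 : ∀ a : E3, a 2 ^ 2 * g ⟨a 0, a 1⟩ =
      (fun q : ℝ × ℂ => q.1 ^ 2 * g q.2) (eq3 a) := by
    intro a; rw [eq3_apply]
  rw [h1]
  simp only [h2]
  rw [mp_eq3.setIntegral_preimage_emb eq3.measurableEmbedding
    (fun q : ℝ × ℂ => q.1 ^ 2 * g q.2), Measure.volume_eq_prod,
    setIntegral_prod_mul (fun t : ℝ => t ^ 2) g,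
    Measure.restrict_univ, ← integral_Ioc_eq_integral_Ioo,
    ← intervalIntegral.integral_of_le zero_le_one, integral_pow]
  norm_num

/-- the denominator -/
def N (a : E3) : ℝ := 1 + a 0 ^ 2 + a 1 ^ 2

theorem N_pos (a : E3) : 0 < N a := by unfold N; positivity

/-- inverse stereographic projection (independent of `a 2`). -/
def st (a : E3) : E3 := !₂[2 * a 0 / N a, 2 * a 1 / N a, 2 / N a - 1]

/-- the parametrisation of the ball -/
def Ph (a : E3) : E3 := !₂[a 2 * (2 * a 0 / N a), a 2 * (2 * a 1 / N a), a 2 * (2 / N a - 1)]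

theorem Ph_eq (a : E3) : Ph a = a 2 • st a := by
  ext i; fin_cases i <;> simp [Ph, st]

theorem norm_st (a : E3) : ‖st a‖ = 1 := by
  rw [EuclideanSpace.norm_eq, Real.sqrt_eq_one, Fin.sum_univ_three]
  have hN := N_pos a
  simp only [st, Real.norm_eq_abs, sq_abs]
  simp
  field_simp
  unfold N
  ring

/-- the Jacobi matrix -/
def Jm (a : E3) : Matrix (Fin 3) (Fin 3) ℝ :=
  !![2 * a 2 / N a - 4 * a 2 * a 0 ^ 2 / N a ^ 2, - (4 * a 2 * a 0 * a 1 / N a ^ 2), 2 * a 0 / N a;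
    - (4 * a 2 * a 0 * a 1 / N a ^ 2), 2 * a 2 / N a - 4 * a 2 * a 1 ^ 2 / N a ^ 2, 2 * a 1 / N a;
    - (4 * a 2 * a 0 / N a ^ 2), - (4 * a 2 * a 1 / N a ^ 2), 2 / N a - 1]

/-- the derivative -/
def Phd (a : E3) : E3 →L[ℝ] E3 :=
  LinearMap.toContinuousLinearMap (Matrix.toLpLin 2 2 (Jm a))

theorem det_Phd (a : E3) : (Phd a).det = 4 * a 2 ^ 2 / N a ^ 2 := by
  have h1 : (Phd a).det = (Jm a).det := by
    rw [Phd, LinearMap.det_toContinuousLinearMap, Matrix.toLpLin_eq_toLin, LinearMap.det_toLin]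
  rw [h1, Matrix.det_fin_three]
  have hN := N_pos a
  simp only [Jm, Matrix.of_apply, Matrix.cons_val', Matrix.cons_val_zero, Matrix.cons_val_one,
    Matrix.cons_val, Matrix.cons_val_fin_one]
  field_simp
  unfold N
  ring

theorem Phd_apply (a v : E3) (i : Fin 3) :
    Phd a v i = Jm a i 0 * v 0 + Jm a i 1 * v 1 + Jm a i 2 * v 2 := by
  have h1 : Phd a v i = (Matrix.toLpLin 2 2 (Jm a) v) i := rfl
  rw [h1, Matrix.toLpLin_apply]
  simp [Matrix.mulVec, dotProduct, Fin.sum_univ_three]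

theorem hasFDerivAt_Ph (a : E3) : HasFDerivAt Ph (Phd a) a := by
  have hc : ∀ i : Fin 3, HasFDerivAt (fun x : E3 => x i)
      (EuclideanSpace.proj i : E3 →L[ℝ] ℝ) a := fun i =>
    (EuclideanSpace.proj i : E3 →L[ℝ] ℝ).hasFDerivAt
  have hN := N_pos a
  have hNd : HasFDerivAt N ((2 * a 0) • (EuclideanSpace.proj 0 : E3 →L[ℝ] ℝ) +
      (2 * a 1) • (EuclideanSpace.proj 1 : E3 →L[ℝ] ℝ)) a := by
    have := (((hc 0).pow 2).const_add 1).add ((hc 1).pow 2)
    refine this.congr_fderiv ?_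
    ext v
    simp
  have hr : HasFDerivAt (fun x => (N x)⁻¹) (-(N a ^ 2)⁻¹ • ((2 * a 0) • (EuclideanSpace.proj 0 : E3 →L[ℝ] ℝ) +
      (2 * a 1) • (EuclideanSpace.proj 1 : E3 →L[ℝ] ℝ))) a :=
    (hasDerivAt_inv hN.ne').comp_hasFDerivAt a hNd
  rw [← hasFDerivWithinAt_univ, hasFDerivWithinAt_euclidean]
  intro i
  rw [hasFDerivWithinAt_univ]
  fin_cases i
  · have h := (hc 2).mul (((hc 0).const_mul 2).mul hr)
    refine (h.congr_fderiv ?_).congr_of_eventuallyEq (Eventually.of_forall fun x => ?_)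
    · ext v
      have hP := Phd_apply a v 0
      simp only [Jm] at hP
      simp at hP ⊢
      rw [hP]
      field_simp
      ring
    · simp [Ph, div_eq_mul_inv]
  · have h := (hc 2).mul (((hc 1).const_mul 2).mul hr)
    refine (h.congr_fderiv ?_).congr_of_eventuallyEq (Eventually.of_forall fun x => ?_)
    · ext v
      have hP := Phd_apply a v 1
      simp only [Jm] at hP
      simp at hP ⊢
      rw [hP]
      field_simp
      ring
    · simp [Ph, div_eq_mul_inv]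
  · have h := (hc 2).mul ((hr.const_mul 2).sub_const 1)
    refine (h.congr_fderiv ?_).congr_of_eventuallyEq (Eventually.of_forall fun x => ?_)
    · ext v
      have hP := Phd_apply a v 2
      simp only [Jm] at hP
      simp at hP ⊢
      rw [hP]
      field_simp
      ring
    · simp [Ph, div_eq_mul_inv]

/-- the stereographic coordinate (homogeneous of degree zero) -/
def zN (y : E3) : ℂ := ⟨y 0 / (‖y‖ + y 2), y 1 / (‖y‖ + y 2)⟩

theorem norm_Ph {a : E3} (ha : a ∈ Dc) : ‖Ph a‖ = a 2 := by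
  rw [Ph_eq, norm_smul, norm_st, mul_one, Real.norm_eq_abs, abs_of_pos ha.1]

theorem st_two (a : E3) : 1 + st a 2 = 2 / N a := by simp [st]

theorem zN_st (a : E3) : zN (st a) = ⟨a 0, a 1⟩ := by
  have hN := N_pos a
  unfold zN
  rw [norm_st, st_two]
  have h0 : st a 0 = 2 * a 0 / N a := rfl
  have h1 : st a 1 = 2 * a 1 / N a := rfl
  rw [h0, h1]
  apply Complex.ext
  · show 2 * a 0 / N a / (2 / N a) = a 0
    field_simp
  · show 2 * a 1 / N a / (2 / N a) = a 1
    field_simp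

theorem zN_smul {t : ℝ} (ht : 0 < t) (y : E3) : zN (t • y) = zN y := by
  unfold zN
  have h1 : ‖t • y‖ = t * ‖y‖ := by rw [norm_smul, Real.norm_eq_abs, abs_of_pos ht]
  have h2 : ∀ i, (t • y) i = t * y i := fun i => rfl
  rw [h1, h2, h2, h2, ← mul_add, mul_div_mul_left _ _ ht.ne', mul_div_mul_left _ _ ht.ne']

theorem inj_Ph : InjOn Ph Dc := by
  intro a ha b hb h
  have h2 : a 2 = b 2 := by rw [← norm_Ph ha, ← norm_Ph hb, h]
  have h3 : zN (Ph a) = zN (Ph b) := by rw [h]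
  rw [Ph_eq, Ph_eq, zN_smul ha.1, zN_smul hb.1, zN_st, zN_st] at h3
  have h4 := congrArg Complex.re h3
  have h5 := congrArg Complex.im h3
  simp only at h4 h5
  ext i
  fin_cases i
  · exact h4
  · exact h5
  · exact h2

theorem norm_sq_E3 (x : E3) : ‖x‖ ^ 2 = x 0 ^ 2 + x 1 ^ 2 + x 2 ^ 2 := by
  rw [EuclideanSpace.norm_sq_eq, Fin.sum_univ_three]
  simp [sq_abs]

/-- a vector off the negative axis from its norm and its stereographic coordinate. -/
theorem Ph_zN {x : E3} (hx : 0 < ‖x‖ + x 2) :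
    Ph (!₂[(zN x).re, (zN x).im, ‖x‖]) = x := by
  have hn := norm_sq_E3 x
  have hpos : 0 < ‖x‖ := by
    have h1 : x 2 ≤ ‖x‖ := by
      have := abs_le_of_sq_le_sq' (a := x 2) (b := ‖x‖) (by nlinarith) (norm_nonneg x)
      exact this.2
    linarith
  set s := ‖x‖ + x 2 with hs
  have hN : N (!₂[(zN x).re, (zN x).im, ‖x‖]) = 2 * ‖x‖ / s := by
    have h1 : N (!₂[(zN x).re, (zN x).im, ‖x‖]) = 1 + (x 0 / s) ^ 2 + (x 1 / s) ^ 2 := by
      simp [N, zN, hs]
    rw [h1]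
    field_simp
    have h3 : x 2 = s - ‖x‖ := by rw [hs]; ring
    nlinarith
  have h0 : (zN x).re = x 0 / s := rfl
  have h1 : (zN x).im = x 1 / s := rfl
  ext i
  fin_cases i
  · have h2 : Ph (!₂[(zN x).re, (zN x).im, ‖x‖]) 0 =
        ‖x‖ * (2 * (zN x).re / N (!₂[(zN x).re, (zN x).im, ‖x‖])) := rfl
    refine h2.trans ?_
    rw [hN, h0]
    show ‖x‖ * (2 * (x 0 / s) / (2 * ‖x‖ / s)) = x 0
    field_simp
  · have h2 : Ph (!₂[(zN x).re, (zN x).im, ‖x‖]) 1 =
        ‖x‖ * (2 * (zN x).im / N (!₂[(zN x).re, (zN x).im, ‖x‖])) := rfl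
    refine h2.trans ?_
    rw [hN, h1]
    show ‖x‖ * (2 * (x 1 / s) / (2 * ‖x‖ / s)) = x 1
    field_simp
  · have h2 : Ph (!₂[(zN x).re, (zN x).im, ‖x‖]) 2 =
        ‖x‖ * (2 / N (!₂[(zN x).re, (zN x).im, ‖x‖]) - 1) := rfl
    refine h2.trans ?_
    rw [hN]
    show ‖x‖ * (2 / (2 * ‖x‖ / s) - 1) = x 2
    field_simp
    rw [hs]; ring

theorem image_Ph : Ph '' Dc = {x ∈ ball (0 : E3) 1 | 0 < ‖x‖ + x 2} := by
  ext x
  constructor
  · rintro ⟨a, ha, rfl⟩
    have hN := N_pos a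
    refine ⟨by rw [mem_ball_zero_iff, norm_Ph ha]; exact ha.2, ?_⟩
    rw [norm_Ph ha, Ph_eq]
    have h2 : (a 2 • st a) 2 = a 2 * st a 2 := rfl
    rw [h2, ← mul_one_add, st_two]
    have := ha.1
    positivity
  · rintro ⟨hx1, hx2⟩
    refine ⟨_, ?_, Ph_zN hx2⟩
    have hpos : 0 < ‖x‖ := by
      have hn := norm_sq_E3 x
      have h1 : x 2 ≤ ‖x‖ :=
        (abs_le_of_sq_le_sq' (a := x 2) (b := ‖x‖) (by nlinarith) (norm_nonneg x)).2
      linarith
    exact ⟨hpos, mem_ball_zero_iff.1 hx1⟩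

theorem null_axis : (volume : Measure E3) {x | x 0 = 0} = 0 := by
  have h1 : {x : E3 | x 0 = 0} =
      (LinearMap.ker (EuclideanSpace.proj 0 : E3 →L[ℝ] ℝ).toLinearMap : Set E3) := by
    ext x; simp
  rw [h1]
  apply Measure.addHaar_submodule
  intro h
  have h2 : (EuclideanSpace.single 0 1 : E3) ∈
      LinearMap.ker (EuclideanSpace.proj 0 : E3 →L[ℝ] ℝ).toLinearMap := by
    rw [h]; exact Submodule.mem_top
  simp at h2

theorem image_ae : (Ph '' Dc : Set E3) =ᵐ[volume] (ball (0 : E3) 1 \ {0} : Set E3) := by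
  have hsub : Ph '' Dc ⊆ ball (0 : E3) 1 \ {0} := by
    rw [image_Ph]
    rintro x ⟨hx1, hx2⟩
    refine ⟨hx1, ?_⟩
    rintro rfl
    simp at hx2
  refine (LE.le.eventuallyLE hsub).antisymm ?_
  have h2 : ∀ᵐ x ∂(volume : Measure E3), x 0 ≠ 0 := by
    rw [ae_iff]
    simpa using null_axis
  filter_upwards [h2] with x hx hx1
  show x ∈ Ph '' Dc
  have hx1' : x ∈ ball (0 : E3) 1 \ {0} := hx1
  rw [image_Ph]
  refine ⟨hx1'.1, ?_⟩
  by_contra hcon
  have hn := norm_sq_E3 x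
  have h3 : 0 < x 0 ^ 2 := by positivity
  nlinarith [norm_nonneg x, sq_nonneg (x 1)]

theorem measurableSet_Dc : MeasurableSet Dc := by
  have h : Continuous fun a : E3 => a 2 := (EuclideanSpace.proj 2 : E3 →L[ℝ] ℝ).continuous
  exact (measurableSet_lt measurable_const h.measurable).inter
    (measurableSet_lt h.measurable measurable_const)

/-- **the stereographic change of variables.** -/
theorem stereo (H : E3 → ℝ) (g : ℂ → ℝ)
    (h : ∀ y, ‖y‖ = 1 → 0 < 1 + y 2 → H y = g (zN y) / (1 + y 2) ^ 2) :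
    ∫ y : sphere (0 : E3) 1, H y ∂((volume : Measure E3).toSphere) = ∫ z, g z := by
  rw [sphere_integral, ← setIntegral_congr_set image_ae,
    integral_image_eq_integral_abs_det_fderiv_smul volume measurableSet_Dc
      (fun a _ => (hasFDerivAt_Ph a).hasFDerivWithinAt) inj_Ph]
  have h1 : ∀ a ∈ Dc, |(Phd a).det| • H (‖Ph a‖⁻¹ • Ph a) = a 2 ^ 2 * g ⟨a 0, a 1⟩ := by
    intro a ha
    have hN := N_pos a
    have hpos : 0 < 1 + st a 2 := by rw [st_two]; positivity
    have h2 : ‖Ph a‖⁻¹ • Ph a = st a := by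
      rw [norm_Ph ha, Ph_eq, smul_smul, inv_mul_cancel₀ ha.1.ne', one_smul]
    rw [h2, h (st a) (norm_st a) hpos, zN_st, st_two, det_Phd, abs_of_nonneg (by positivity),
      smul_eq_mul]
    field_simp
    ring
  rw [setIntegral_congr_fun measurableSet_Dc h1, cyl_integral]
  ring

end

end Crest.Agent.R235.Stereo_83
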