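import Crest.Agent.R235.AdjLoc_43
import Crest.Agent.R235.Field_910

/-!
Row 235 (S0364), PACKAGE ADJ, helper43: neighbourhoods of the points of a `J`-curve, cut-offs,
good points.
-/

set_option autoImplicit false
set_option maxSynthPendingDepth 3
set_option linter.unusedSectionVars false

open Set Function Filter MeasureTheory Metric
open scoped Manifold ContDiff Topology Real

universe u

namespace Crest.Agent.R235.AdjGeo_43

open Crest.Agent.R240 Crest.Agent.R240.Ch Crest.Agent.R240.Int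
open Crest.Agent.R235 Crest.Agent.R235.Glob_370 Crest.Agent.R235.Wind_688 Crest.Agent.R235.Adj
open Crest.Agent.R235.AdjGen_83 Crest.Agent.R235.AdjLoc_43

noncomputable section

variable {M : Type u} [TopologicalSpace M] [ChartedSpace E4 M] [IsManifold 𝓘(ℝ, E4) ∞ M]
  {J : EndF E4 M} (c : JCurve J)

/-- the part of the surface near the centres of the branches at `p`. -/
def core (p : M) (r : ℝ) : Set c.N := ⋃ j, c.φ p j '' ball (0 : ℂ) r

/-- the neighbourhood of `p` which sees only `core p r`. -/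
def Nb (p : M) (r : ℝ) : Set M := (c.f '' (core c p r)ᶜ)ᶜ

theorem isOpen_core (p : M) {r : ℝ} (hr : r ≤ 1) : IsOpen (core c p r) :=
  isOpen_iUnion fun j => c.φ_open p j _ isOpen_ball (ball_subset_ball hr)

theorem isOpen_Nb [T2Space M] (p : M) {r : ℝ} (hr : r ≤ 1) : IsOpen (Nb c p r) :=
  (((isOpen_core c p hr).isClosed_compl.isCompact).image c.cont).isClosed.isOpen_compl

theorem zero_mem : (0 : ℂ) ∈ ball (0 : ℂ) 1 := mem_ball_self one_pos

theorem u_inj0 {p : M} {j : Fin (c.L p).n} {z : ℂ} (hz : z ∈ ball (0 : ℂ) 1)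
    (h : (c.L p).u j z = p) : z = 0 :=
  ((c.L p).disc j).inj hz zero_mem (h.trans ((c.L p).centre j).symm)

theorem f_eq_p {p : M} {n : c.N} (h : c.f n = p) : ∃ j, c.φ p j 0 = n := by
  obtain ⟨j, z, hz, hn⟩ := c.φ_cover p n (by rw [h]; exact (c.L p).mem)
  have h1 : (c.L p).u j z = p := by rw [← c.φ_f p j z hz, hn, h]
  exact ⟨j, by rw [← u_inj0 c hz h1]; exact hn⟩

theorem f_φ0 (p : M) (j : Fin (c.L p).n) : c.f (c.φ p j 0) = p := by
  rw [c.φ_f p j 0 zero_mem, (c.L p).centre]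

theorem mem_Nb (p : M) {r : ℝ} (hr : 0 < r) : p ∈ Nb c p r := by
  rintro ⟨n, hn, hp⟩
  obtain ⟨j, hj⟩ := f_eq_p c hp
  exact hn (mem_iUnion.2 ⟨j, 0, mem_ball_self hr, hj⟩)

theorem core_of_Nb {p : M} {r : ℝ} {n : c.N} (h : c.f n ∈ Nb c p r) : n ∈ core c p r := by
  by_contra hn
  exact h ⟨n, hn, rfl⟩

theorem lt_of_core {p : M} {r : ℝ} (hr : r ≤ 1) {j : Fin (c.L p).n} {z : ℂ}
    (hz : z ∈ ball (0 : ℂ) 1) (h : c.φ p j z ∈ core c p r) : ‖z‖ < r := by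
  obtain ⟨i, w, hw, e⟩ := mem_iUnion.1 h
  have hw1 : w ∈ ball (0 : ℂ) 1 := ball_subset_ball hr hw
  by_cases hij : i = j
  · subst hij
    have := c.φ_inj p i hw1 hz e
    rw [← this]
    simpa using hw
  · exact absurd e (c.φ_disj p i j hij w hw1 z hz)

theorem lt_of_Nb {p : M} {r : ℝ} (hr : r ≤ 1) {j : Fin (c.L p).n} {z : ℂ}
    (hz : z ∈ ball (0 : ℂ) 1) (h : (c.L p).u j z ∈ Nb c p r) : ‖z‖ < r := by
  rw [← c.φ_f p j z hz] at h
  exact lt_of_core c hr hz (core_of_Nb c h)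

/-- in `Nb p r` the curve is the union of the branches of radius `r`. -/
theorem exists_of_Nb {p : M} {r : ℝ} (hr : r ≤ 1) {x : M} (hx : x ∈ range c.f)
    (h : x ∈ Nb c p r) : ∃ j, ∃ z ∈ ball (0 : ℂ) r, c.φ p j z ∈ core c p r ∧
      c.f (c.φ p j z) = x ∧ (c.L p).u j z = x := by
  obtain ⟨n, rfl⟩ := hx
  have hn := core_of_Nb c h
  obtain ⟨j, z, hz, e⟩ := mem_iUnion.1 hn
  refine ⟨j, z, hz, by rw [e]; exact hn, by rw [e], ?_⟩
  rw [← c.φ_f p j z (ball_subset_ball hr hz), e]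

theorem u_smooth (p : M) (j : Fin (c.L p).n) {z : ℂ} (hz : z ∈ ball (0 : ℂ) 1) :
    ContMDiffAt 𝓘(ℝ, ℂ) 𝓘(ℝ, E4) ∞ ((c.L p).u j) z :=
  ((c.L p).disc j).hol.smooth.contMDiffAt (isOpen_ball.mem_nhds hz)

theorem u_mem (p : M) (j : Fin (c.L p).n) {z : ℂ} (hz : z ∈ ball (0 : ℂ) 1) :
    (c.L p).u j z ∈ range c.f := ⟨c.φ p j z, c.φ_f p j z hz⟩

theorem isClosed_range [T2Space M] : IsClosed (range c.f) :=
  (isCompact_range c.cont).isClosed

/-! ### windings give non-vanishing -/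

theorem wind_ne {κ : ℂ → ℂ} {r0 : ℝ} {m : ℤ} (h : ∀ r : ℝ, 0 < r → r < r0 → IsW κ 0 r m) {z : ℂ}
    (hz : z ∈ ball (0 : ℂ) r0) (h0 : z ≠ 0) : κ z ≠ 0 := by
  have h1 : 0 < ‖z‖ := norm_pos_iff.2 h0
  have h2 : ‖z‖ < r0 := by simpa using hz
  have h3 := (h ‖z‖ h1 h2).ne (Complex.arg z)
  have h4 : circleMap 0 ‖z‖ (Complex.arg z) = z := by
    rw [circleMap, zero_add]; exact Complex.norm_mul_exp_arg_mul_I z
  simpa only [h4] using h3

/-! ### cut-offs -/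

theorem exists_cut [T2Space M] [CompactSpace M] {p : M} {W : Set M} (hW : IsOpen W) (hp : p ∈ W) :
    ∃ (χ : M → ℝ) (K : Set M), SmoothF E4 χ ∧ IsCompact K ∧ K ⊆ W ∧ tsupport χ ⊆ interior K ∧
      χ =ᶠ[𝓝 p] fun _ => 1 := by
  have hlc : LocallyCompactSpace M := ChartedSpace.locallyCompactSpace E4 M
  obtain ⟨K, hK, hpK, hKW⟩ := exists_compact_subset hW hp
  obtain ⟨K1, hK1, hpK1, hKW1⟩ := exists_compact_subset isOpen_interior hpK
  obtain ⟨f, h1, h0, -⟩ := exists_contMDiffMap_one_nhds_of_subset_interior (n := ⊤) 𝓘(ℝ, E4)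
    (s := ({p} : Set M)) (t := K1) isClosed_singleton (by simpa using hpK1)
  refine ⟨fun x => f x, K, (smoothF_iff _).1 f.contMDiff, hK, hKW, ?_, ?_⟩
  · refine (closure_minimal ?_ hK1.isClosed).trans hKW1
    intro x hx
    by_contra hxK
    exact hx (h0 x hxK)
  · rw [nhdsSet_singleton] at h1
    exact h1

/-! ### good points -/

/-- near `x` the curve is the zero set of a function whose differential at `x` is
`a σ(·, ∂f)`, `a ≠ 0`. -/
def Good (w : Trip M) (x : M) : Prop :=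
  ∃ (U : Set M) (F : M → ℂ) (i : c.A.ι) (n : c.N) (a : ℂ), IsOpen U ∧ x ∈ U ∧ SmAt F x ∧
    (∀ y ∈ U, F y = 0 ↔ y ∈ range c.f) ∧ n ∈ (c.A.c i).source ∧ c.f n = x ∧ a ≠ 0 ∧
    ∀ v : E4, dC F x v =
      a * sg w J x v (dmap (fun z => c.f ((c.A.c i).symm z)) (c.A.c i n) 1)

/-- the coordinate change between `φ p j` and a chart. -/
theorem deriv_ne {p : M} {j : Fin (c.L p).n} {i : c.A.ι} {z : ℂ} (hz : z ∈ ball (0 : ℂ) 1)
    (hi : c.φ p j z ∈ (c.A.c i).source) : deriv (fun z => c.A.c i (c.φ p j z)) z ≠ 0 :=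
  c.φ_imm p j i z hz hi

end

section Glob

variable {M : Type u} [TopologicalSpace M] [T2Space M] [CompactSpace M] [ConnectedSpace M]
  [ChartedSpace E4 M] [IsManifold 𝓘(ℝ, E4) ∞ M] {J : EndF E4 M} (c : JCurve J)

theorem good_of_box (hbch : BCH.{u}) {w : Trip M} (hJ : IsJ w J) {p : M} {V : Set M}
    (B : Box w c p V) {j : Fin (c.L p).n} {z : ℂ} (hz : z ∈ ball (0 : ℂ) B.r0) (h0 : z ≠ 0) :
    Good c w ((c.L p).u j z) := by
  have hz1 : z ∈ ball (0 : ℂ) 1 := ball_subset_ball B.r0_le hz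
  obtain ⟨i, hi⟩ := c.A.cover (c.φ p j z)
  have hU := B.inU j z hz
  have hE : (c.L p).u j z ∉ B.E := fun hE =>
    h0 (u_inj0 c hz1 (B.E_sub _ hU hE (u_mem c p j hz1)))
  refine ⟨B.U, B.F, i, c.φ p j z, B.κ j z * deriv (fun z => c.A.c i (c.φ p j z)) z, B.openU, hU,
    B.smooth _ hU hE, B.zero, hi, c.φ_f p j z hz1,
    mul_ne_zero (wind_ne (B.wind j) hz h0) (deriv_ne c hz1 hi), fun v => ?_⟩
  rw [B.κ_eq j z hz h0 v, hbch M w J hJ c p j i z hz1 hi v]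
  ring

/-- finitely many centres. -/
theorem exists_good (hbox : BOXP.{u}) (hbch : BCH.{u}) {w : Trip M} (hw : Pos3 w)
    (hJ : IsJ w J) : ∃ Y : Finset M, (∀ y ∈ Y, y ∈ range c.f) ∧
      ∀ x ∈ range c.f, x ∉ Y → Good c w x := by
  classical
  have h1 : ∀ y : M, ∃ W : Set M, IsOpen W ∧ y ∈ W ∧ ∀ x ∈ W, x ∈ range c.f → x ≠ y →
      Good c w x := by
    intro y
    by_cases hy : y ∈ range c.f
    · obtain ⟨B, _⟩ := hbox M w J hw hJ c c y univ isOpen_univ (mem_univ _) hy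
      refine ⟨Nb c y B.r0, isOpen_Nb c y B.r0_le, mem_Nb c y B.r0_pos, fun x hx hxC hne => ?_⟩
      obtain ⟨j, z, hz, -, -, rfl⟩ := exists_of_Nb c B.r0_le hxC hx
      refine good_of_box c hbch hJ B hz fun h0 => hne ?_
      rw [h0, (c.L y).centre]
    · exact ⟨(range c.f)ᶜ, (isClosed_range c).isOpen_compl, hy, fun x hx hxC => absurd hxC hx⟩
  choose W hWo hyW hW using h1
  obtain ⟨t, -, ht⟩ := isCompact_univ.elim_nhds_subcover W
    (fun y _ => (hWo y).mem_nhds (hyW y))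
  refine ⟨t.filter (· ∈ range c.f), fun y hy => (Finset.mem_filter.1 hy).2, fun x hx hxt => ?_⟩
  obtain ⟨y, hy, hxy⟩ := mem_iUnion₂.1 (ht (mem_univ x))
  refine hW y x hxy hx fun e => hxt ?_
  subst e
  exact Finset.mem_filter.2 ⟨hy, hx⟩

/-- the property of the push-off field (output of `FIELD`). -/
def FP (w : Trip M) (k : KSec c.A) (X : VF E4 M) (V : Set M) : Prop :=
  ∀ i, ∀ z ∈ (c.A.c i).target, c.f ((c.A.c i).symm z) ∉ V →
    sg w J (c.f ((c.A.c i).symm z)) (atV X (c.f ((c.A.c i).symm z)))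
      (dmap (fun z => c.f ((c.A.c i).symm z)) z 1) = k.s i z

variable {c}

theorem FP.at {w : Trip M} {k : KSec c.A} {X : VF E4 M} {V : Set M} (h : FP c w k X V)
    {i : c.A.ι} {n : c.N} (hn : n ∈ (c.A.c i).source) (hV : c.f n ∉ V) :
    sg w J (c.f n) (atV X (c.f n))
      (dmap (fun z => c.f ((c.A.c i).symm z)) (c.A.c i n) 1) = k.s i (c.A.c i n) := by
  have h1 := h i (c.A.c i n) ((c.A.c i).map_source hn)
  rw [(c.A.c i).left_inv hn] at h1
  exact h1 hV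

/-- **(E1)** the pushed curve does not meet the curve off `V`. -/
theorem push_ne {w : Trip M} {k : KSec c.A} {X : VF E4 M} {V : Set M} (P : Push X)
    (hV : IsOpen V) (h : FP c w k X V) (hg : ∀ x ∈ range c.f, x ∉ V → Good c w x)
    (hk : ∀ n ∈ k.Z, c.f n ∈ V) :
    ∀ᶠ t in 𝓝 (0 : ℝ), ∀ x ∈ range c.f \ V, t ≠ 0 → P.Φ t x ∉ range c.f := by
  have hcomp : IsCompact (range c.f \ V) := (isCompact_range c.cont).diff hV
  have key : ∀ x ∈ range c.f \ V, ∀ᶠ q in 𝓝 ((0 : ℝ), x),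
      q.1 ≠ 0 → q.2 ∈ range c.f → P.Φ q.1 q.2 ∉ range c.f := by
    rintro x ⟨hx, hxV⟩
    obtain ⟨U, F, i, n, a, hU, hxU, hF, hz, hn, rfl, ha, hd⟩ := hg x hx hxV
    refine loc_ne P hU hxU hF hz ?_
    rw [hd, h.at hn hxV]
    refine mul_ne_zero ha fun h0 => hxV (hk n ?_)
    have := k.zero i (c.A.c i n) ((c.A.c i).map_source hn) h0
    rwa [(c.A.c i).left_inv hn] at this
  filter_upwards [hcomp.eventually_forall_of_forall_eventually (P := fun (t : ℝ) (x : M) =>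
    t ≠ 0 → x ∈ range c.f → P.Φ t x ∉ range c.f) (x₀ := (0 : ℝ)) key] with t ht x hx h0
  exact ht x hx h0 hx.1

/-! ### local data at a point of `P` -/

variable (c) in
/-- cut-off and radii at `p`. -/
structure Loc {w : Trip M} {p : M} {V : Set M} (B : Box w c p V) (k : KSec c.A) where
  /-- the cut-off -/
  χ : M → ℝ
  smooth : SmoothF E4 χ
  /-- a compact neighbourhood of the support -/
  K : Set M
  compact : IsCompact K
  KU : K ⊆ B.U
  KN : K ⊆ Nb c p (B.r0 / 2)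
  supp : tsupport χ ⊆ interior K
  /-- radius of the circle -/
  ρ : ℝ
  ρ_pos : 0 < ρ
  ρ_lt : ρ < B.r0 / 2
  one : ∀ j, ∀ z ∈ closedBall (0 : ℂ) ρ, χ =ᶠ[𝓝 ((c.L p).u j z)] fun _ => 1
  /-- charts -/
  i : Fin (c.L p).n → c.A.ι
  src : ∀ j, ∀ z ∈ closedBall (0 : ℂ) ρ, c.φ p j z ∈ (c.A.c (i j)).source
  wind : ∀ j, IsW (secφ k p j (i j)) 0 ρ (ordφ k p j)

theorem exists_loc (hdegs : DEGS.{u}) {w : Trip M} {p : M} {V : Set M} (B : Box w c p V)
    (k : KSec c.A) : Nonempty (Loc c B k) := by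
  classical
  have hr : B.r0 / 2 ≤ 1 := by linarith [B.r0_le, B.r0_pos]
  obtain ⟨χ, K, h1, h2, h3, h4, h5⟩ := exists_cut (W := B.U ∩ Nb c p (B.r0 / 2))
    (B.openU.inter (isOpen_Nb c p hr)) ⟨B.mem, mem_Nb c p (half_pos B.r0_pos)⟩
  choose i hi using fun j : Fin (c.L p).n => c.A.cover (c.φ p j 0)
  -- the conditions on the radius
  have e1 : ∀ j, ∀ᶠ z in 𝓝 (0 : ℂ), χ =ᶠ[𝓝 ((c.L p).u j z)] fun _ => 1 := by
    intro j
    have hc : ContinuousAt ((c.L p).u j) 0 := (u_smooth c p j zero_mem).continuousAt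
    have h6 : ∀ᶠ x in 𝓝 ((c.L p).u j 0), χ =ᶠ[𝓝 x] fun _ => 1 := by
      rw [(c.L p).centre]; exact eventually_eventually_nhds.2 h5
    exact hc.eventually h6
  have e2 : ∀ j, ∀ᶠ z in 𝓝 (0 : ℂ), c.φ p j z ∈ (c.A.c (i j)).source := by
    intro j
    have hc : ContinuousAt (c.φ p j) 0 :=
      (c.φ_cont p j).continuousAt (isOpen_ball.mem_nhds zero_mem)
    exact hc.preimage_mem_nhds ((c.A.c (i j)).open_source.mem_nhds (hi j))
  have e3 : ∀ᶠ z in 𝓝 (0 : ℂ), ∀ j, (χ =ᶠ[𝓝 ((c.L p).u j z)] fun _ => 1) ∧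
      c.φ p j z ∈ (c.A.c (i j)).source := by
    rw [eventually_all]
    exact fun j => (e1 j).and (e2 j)
  obtain ⟨δ, hδ, hball⟩ := Metric.eventually_nhds_iff_ball.1 e3
  have e4 : ∀ᶠ r in 𝓝[>] (0 : ℝ), ∀ j, IsW (secφ k p j (i j)) 0 r (ordφ k p j) := by
    rw [eventually_all]
    exact fun j => (hdegs M J c k).1 p j (i j) (hi j)
  have e5 : ∀ᶠ r in 𝓝[>] (0 : ℝ), r < δ ∧ r < B.r0 / 2 ∧ 0 < r := by
    filter_upwards [Ioo_mem_nhdsGT hδ, Ioo_mem_nhdsGT (half_pos B.r0_pos)] with r hr1 hr2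
    exact ⟨hr1.2, hr2.2, hr1.1⟩
  obtain ⟨r, hr4, hr1, hr2, hr3⟩ := (e4.and e5).exists
  exact ⟨⟨χ, h1, K, h2, fun x hx => (h3 hx).1, fun x hx => (h3 hx).2, h4, r, hr3, hr2,
    fun j z hz => (hball z (closedBall_subset_ball hr1 hz) j).1, i,
    fun j z hz => (hball z (closedBall_subset_ball hr1 hz) j).2, hr4⟩⟩

end Glob

end Crest.Agent.R235.AdjGeo_43
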