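import Crest.Agent.R235.AdjDefs_43

/-!
Row 235 (S0364), PACKAGE ADJ, helper43: the intersection formula in the language of `Defs_837`
(wrapper of `IntF_250.int_formula`) and the elementary properties of the current of a `J`-curve.

* `INTW` : for closed currents `S` (represented on closed forms by `a`) and `R` (of order zero)
  with weak local primitives `ψ j` of `S` near the intersection of the supports,
  `R a = Σ R (ψ j ∧ dχ j)`.
* `CORD` : the current of a `JCurve` is of order zero and supported in the curve.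
-/

set_option autoImplicit false
set_option maxSynthPendingDepth 3

open Set Function Filter MeasureTheory Metric
open scoped Manifold ContDiff Topology

universe u

namespace Crest.Agent.R235.Adj

open Crest.Agent.R240 Crest.Agent.R240.Ch Crest.Agent.R240.Int
open Crest.Agent.R235 Crest.Agent.R235.Glob_370 Crest.Agent.R235.Wind_688

noncomputable section

section Basic

variable {M : Type u} [TopologicalSpace M] [ChartedSpace E4 M] [IsManifold 𝓘(ℝ, E4) ∞ M]

/-- `b` vanishes near `K`. -/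
def VNear (K : Set M) (b : X2 M) : Prop :=
  ∃ U : Set M, IsOpen U ∧ K ⊆ U ∧ ∀ x ∈ U, at2 (b : F2 E4 M) x = 0

/-- `S` is of order zero. -/
def Ord0 (S : X2 M →ₗ[ℝ] ℝ) : Prop :=
  ∃ (𝒰 : Cover M) (C : ℝ), ∀ b : X2 M, |S b| ≤ C * 𝒰.cm 0 (b : F2 E4 M)

end Basic

/-- **INTW** (intersection formula, wrapper of `IntF_250.int_formula`). -/
def INTW : Prop :=
  ∀ (M : Type u) [TopologicalSpace M] [T2Space M] [CompactSpace M] [ConnectedSpace M]
    [ChartedSpace E4 M] [IsManifold 𝓘(ℝ, E4) ∞ M] (w : Trip M) (J : EndF E4 M), Pos3 w → IsJ w J →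
    ∀ (S R : X2 M →ₗ[ℝ] ℝ) (a : Z2 M), (∀ b : Z2 M, S b.1 = pI (w 0) a b) →
      (∀ b : X2 M, IsEx (b : F2 E4 M) → R b = 0) → Ord0 R →
    ∀ (KS KR : Set M), IsClosed KS → IsClosed KR →
      (∀ b : X2 M, VNear KS b → S b = 0) → (∀ b : X2 M, VNear KR b → R b = 0) →
    ∀ (n : ℕ) (χ : Fin n → M → ℝ), (∀ j, SmoothF E4 (χ j)) → ∀ ψ : Fin n → F1 E4 M,
      (∀ j, ∀ (η : Z2 M) (b : X2 M), (b.1 : F2 E4 M) = fmul (χ j) (η.1.1 : F2 E4 M) →
        S b = II (w 0) (wedG (ψ j) (dF (χ j))) (η.1.1 : F2 E4 M)) →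
      (∀ x ∈ KS ∩ KR, ∀ᶠ y in 𝓝 x, ∑ j, χ j y = 1) →
    ∀ (B : Fin n → X2 M) (N : Set M), IsOpen N → KR ⊆ N →
      (∀ j, ∀ x ∈ N, at2 (B j : F2 E4 M) x = at2 (wedG (ψ j) (dF (χ j))) x) →
      R a.1 = ∑ j, R (B j)

/-- **CORD**: the current of a `J`-curve has order zero and its support is in the curve. -/
def CORD : Prop :=
  ∀ (M : Type u) [TopologicalSpace M] [T2Space M] [CompactSpace M] [ConnectedSpace M]
    [ChartedSpace E4 M] [IsManifold 𝓘(ℝ, E4) ∞ M] (w : Trip M) (J : EndF E4 M), Pos3 w → IsJ w J →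
    ∀ c : JCurve J, Ord0 c.T ∧ ∀ b : X2 M, VNear (range c.f) b → c.T b = 0

end

end Crest.Agent.R235.Adj
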