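import Crest.Agent.R235.AdjMain_43

/-!
Row 235 (S0364), PACKAGE ADJ, helper43: **intersection numbers of two different `J`-curves**
`isec : BOXP → INTW → CORD → CUTF → BRINT → ISEC`.
-/

set_option autoImplicit false
set_option maxSynthPendingDepth 3
set_option linter.unusedSectionVars false

open Set Function Filter MeasureTheory Metric
open scoped Manifold ContDiff Topology Real

universe u

namespace Crest.Agent.R235.AdjIsec_43

open Crest.Agent.R240 Crest.Agent.R240.Ch Crest.Agent.R240.Int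
open Crest.Agent.R235 Crest.Agent.R235.Glob_370 Crest.Agent.R235.Wind_688 Crest.Agent.R235.Adj
open Crest.Agent.R235.AdjGen_83 Crest.Agent.R235.AdjLoc_43 Crest.Agent.R235.AdjGeo_43
open Crest.Agent.R235.AdjSmall_43 Crest.Agent.R235.AdjVal_43

noncomputable section

/-! ### rescaling of discs -/

section Scale

variable {M : Type u} [TopologicalSpace M] [ChartedSpace E4 M] [IsManifold 𝓘(ℝ, E4) ∞ M]
  {J : EndF E4 M}

theorem hasFDerivAt_scale (δ : ℝ) (z : ℂ) :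
    HasFDerivAt (fun z : ℂ => (δ : ℂ) * z) (δ • ContinuousLinearMap.id ℝ ℂ) z := by
  have h : HasFDerivAt (fun z : ℂ => δ • z) (δ • ContinuousLinearMap.id ℝ ℂ) z :=
    (hasFDerivAt_id z).const_smul δ
  exact h.congr_of_eventuallyEq (Eventually.of_forall fun y => (Complex.real_smul).symm)

theorem scale_mem {δ : ℝ} (hδ : 0 < δ) {z : ℂ} (hz : z ∈ ball (0 : ℂ) 1) :
    (δ : ℂ) * z ∈ ball (0 : ℂ) δ := by
  rw [mem_ball_zero_iff] at hz ⊢
  rw [norm_mul, Complex.norm_real, Real.norm_eq_abs, abs_of_pos hδ]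
  nlinarith

theorem isDisc_scale {u : ℂ → M} (hu : IsDisc J u) {δ : ℝ} (hδ : 0 < δ) (h1 : δ ≤ 1) :
    IsDisc J (fun z => u ((δ : ℂ) * z)) := by
  have hm : ∀ z ∈ ball (0 : ℂ) 1, (δ : ℂ) * z ∈ ball (0 : ℂ) 1 := fun z hz =>
    ball_subset_ball h1 (scale_mem hδ hz)
  have hsm : ∀ z ∈ ball (0 : ℂ) 1, ContMDiffAt 𝓘(ℝ, ℂ) 𝓘(ℝ, E4) ∞ u ((δ : ℂ) * z) :=
    fun z hz => hu.hol.smooth.contMDiffAt (isOpen_ball.mem_nhds (hm z hz))
  have hd : ∀ z ∈ ball (0 : ℂ) 1, ∀ v : ℂ,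
      dmap (fun z => u ((δ : ℂ) * z)) z v = δ • dmap u ((δ : ℂ) * z) v := by
    intro z hz v
    rw [AdjGen_83.dmap_comp (hasFDerivAt_scale δ z) (hsm z hz)]
    show dmap u ((δ : ℂ) * z) (δ • v) = _
    rw [AdjGen_83.dmap_smul]
  have hδc : (δ : ℂ) ≠ 0 := by exact_mod_cast hδ.ne'
  refine ⟨⟨fun z hz => ?_, fun z hz v => ?_⟩, fun z hz w hw h => ?_, fun z hz h0 v hv => ?_⟩
  · have h2 : ContMDiffAt 𝓘(ℝ, ℂ) 𝓘(ℝ, ℂ) ∞ (fun z : ℂ => (δ : ℂ) * z) z := by
      have : ContDiff ℝ ∞ (fun z : ℂ => (δ : ℂ) * z) := contDiff_const.mul contDiff_id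
      exact this.contDiffAt.contMDiffAt
    exact (ContMDiffAt.comp (g := u) (f := fun z : ℂ => (δ : ℂ) * z) z (hsm z hz)
      h2).contMDiffWithinAt
  · rw [hd z hz, hd z hz, hu.hol.jhol _ (hm z hz), map_smul]
  · have := hu.inj (hm z hz) (hm w hw) h
    exact mul_left_cancel₀ hδc this
  · rw [hd z hz] at hv
    exact hu.imm _ (hm z hz) (mul_ne_zero hδc h0) v ((smul_eq_zero.1 hv).resolve_left hδ.ne')

/-- windings of rescaled functions. -/
theorem wAt_scale {F : ℂ → ℂ} {δ : ℝ} (hδ : 0 < δ) {n : ℤ}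
    (h : Adj.WAt (fun z => F ((δ : ℂ) * z)) 0 n) : Adj.WAt F 0 n := by
  have h1 : Tendsto (fun r : ℝ => r / δ) (𝓝[>] 0) (𝓝[>] 0) := by
    refine tendsto_nhdsWithin_iff.2 ⟨?_, ?_⟩
    · have : Tendsto (fun r : ℝ => r / δ) (𝓝 0) (𝓝 (0 / δ)) := by
        exact (continuous_id.div_const δ).tendsto 0
      rw [zero_div] at this
      exact this.mono_left nhdsWithin_le_nhds
    · filter_upwards [self_mem_nhdsWithin] with r hr
      exact div_pos hr hδ
  filter_upwards [h1.eventually h] with r hr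
  refine IsWL.congr hr fun t => ?_
  simp only
  congr 1
  have hδc : (δ : ℂ) ≠ 0 := by exact_mod_cast hδ.ne'
  simp only [circleMap, zero_add]
  push_cast
  field_simp

end Scale

variable {M : Type u} [TopologicalSpace M] [T2Space M] [CompactSpace M] [ConnectedSpace M]
  [ChartedSpace E4 M] [IsManifold 𝓘(ℝ, E4) ∞ M] {J : EndF E4 M}

/-- cut-off and radii at a point of intersection. -/
structure Lc (w : Trip M) (c c' : JCurve J) (p : M) (V : Set M) where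
  /-- the box -/
  B : Box w c p V
  hE : ∀ x ∈ B.U, x ∈ B.E → x ∈ range c'.f → x = p
  /-- the cut-off -/
  χ : M → ℝ
  smooth : SmoothF E4 χ
  /-- a compact neighbourhood of the support -/
  K : Set M
  compact : IsCompact K
  ρ3 : ℝ
  ρ3_pos : 0 < ρ3
  ρ3_le : ρ3 ≤ 1
  inU : ∀ j, ∀ z ∈ ball (0 : ℂ) ρ3, (c'.L p).u j z ∈ B.U
  KU : K ⊆ B.U
  KL : K ⊆ (c'.L p).U
  KN : K ⊆ Nb c' p (ρ3 / 2)
  supp : tsupport χ ⊆ interior K
  one0 : χ =ᶠ[𝓝 p] fun _ => 1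
  /-- radius of the circle -/
  ρ : ℝ
  ρ_pos : 0 < ρ
  ρ_lt : ρ < ρ3 / 2
  one : ∀ j, ∀ z ∈ closedBall (0 : ℂ) ρ, χ =ᶠ[𝓝 ((c'.L p).u j z)] fun _ => 1
  /-- the local intersection numbers -/
  n : Fin (c'.L p).n → ℤ
  n_pos : ∀ j, 1 ≤ n j
  wind : ∀ j, IsW (fun z => B.F ((c'.L p).u j z)) 0 ρ (n j)

theorem exists_lc (hbox : BOXP.{u}) {w : Trip M} (hw : Pos3 w) (hJ : IsJ w J) (c c' : JCurve J)
    {p : M} {V : Set M} (hV : IsOpen V) (hpV : p ∈ V) (hp : p ∈ range c.f)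
    (hVp : ∀ x ∈ V, x ∈ range c.f → x ∈ range c'.f → x = p) : Nonempty (Lc w c c' p V) := by
  classical
  obtain ⟨B, hE⟩ := hbox M w J hw hJ c c' p V hV hpV hp
  -- the radius `ρ3`
  have e0 : ∀ᶠ z in 𝓝 (0 : ℂ), ∀ j, (c'.L p).u j z ∈ B.U := by
    rw [eventually_all]
    intro j
    have hc : ContinuousAt ((c'.L p).u j) 0 := (u_smooth c' p j zero_mem).continuousAt
    refine hc.preimage_mem_nhds (B.openU.mem_nhds ?_)
    rw [(c'.L p).centre]; exact B.mem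
  obtain ⟨δ0, hδ0, hball0⟩ := Metric.eventually_nhds_iff_ball.1 e0
  set ρ3 : ℝ := min δ0 1 with hρ3
  have hρ3p : 0 < ρ3 := lt_min hδ0 one_pos
  have hρ31 : ρ3 ≤ 1 := min_le_right _ _
  have hin : ∀ j, ∀ z ∈ ball (0 : ℂ) ρ3, (c'.L p).u j z ∈ B.U := fun j z hz =>
    hball0 z (ball_subset_ball (min_le_left _ _) hz) j
  have hr : ρ3 / 2 ≤ 1 := by linarith
  obtain ⟨χ, K, h1, h2, h3, h4, h5⟩ := exists_cut
    (W := B.U ∩ ((c'.L p).U ∩ Nb c' p (ρ3 / 2)))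
    (B.openU.inter ((c'.L p).openU.inter (isOpen_Nb c' p hr)))
    ⟨B.mem, (c'.L p).mem, mem_Nb c' p (half_pos hρ3p)⟩
  have e1 : ∀ᶠ z in 𝓝 (0 : ℂ), ∀ j, χ =ᶠ[𝓝 ((c'.L p).u j z)] fun _ => 1 := by
    rw [eventually_all]
    intro j
    have hc : ContinuousAt ((c'.L p).u j) 0 := (u_smooth c' p j zero_mem).continuousAt
    have h6 : ∀ᶠ x in 𝓝 ((c'.L p).u j 0), χ =ᶠ[𝓝 x] fun _ => 1 := by
      rw [(c'.L p).centre]; exact eventually_eventually_nhds.2 h5
    exact hc.eventually h6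
  obtain ⟨δ, hδ, hball⟩ := Metric.eventually_nhds_iff_ball.1 e1
  -- the windings
  have hw1 : ∀ j, ∃ n : ℤ, 1 ≤ n ∧ Adj.WAt (fun z => B.F ((c'.L p).u j z)) 0 n := by
    intro j
    have hsep : ∀ z ∈ ball (0 : ℂ) 1, (c'.L p).u j ((ρ3 : ℂ) * z) ∈ range c.f → z = 0 := by
      intro z hz hzc
      have hm := scale_mem hρ3p hz
      have hm1 : (ρ3 : ℂ) * z ∈ ball (0 : ℂ) 1 := ball_subset_ball hρ31 hm
      have h6 := hVp _ (B.subV (hin j _ hm)) hzc (u_mem c' p j hm1)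
      have h7 := u_inj0 c' hm1 h6
      exact (mul_eq_zero.1 h7).resolve_left (by exact_mod_cast hρ3p.ne')
    obtain ⟨n, hn, hwn⟩ := B.other hp (fun z => (c'.L p).u j ((ρ3 : ℂ) * z))
      (isDisc_scale ((c'.L p).disc j) hρ3p hρ31) (by simp only [mul_zero]; exact (c'.L p).centre j)
      hsep
    exact ⟨n, hn, wAt_scale (F := fun z => B.F ((c'.L p).u j z)) hρ3p hwn⟩
  choose n hn hwn using hw1
  have e4 : ∀ᶠ r in 𝓝[>] (0 : ℝ), ∀ j, IsW (fun z => B.F ((c'.L p).u j z)) 0 r (n j) := by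
    rw [eventually_all]
    exact hwn
  have e5 : ∀ᶠ r in 𝓝[>] (0 : ℝ), r < δ ∧ r < ρ3 / 2 ∧ 0 < r := by
    filter_upwards [Ioo_mem_nhdsGT hδ, Ioo_mem_nhdsGT (half_pos hρ3p)] with r hr1 hr2
    exact ⟨hr1.2, hr2.2, hr1.1⟩
  obtain ⟨r, hr4, hr1, hr2, hr3⟩ := (e4.and e5).exists
  exact ⟨⟨B, hE, χ, h1, K, h2, ρ3, hρ3p, hρ31, hin, fun x hx => (h3 hx).1,
    fun x hx => (h3 hx).2.1, fun x hx => (h3 hx).2.2, h4, h5, r, hr3, hr2,
    fun j z hz => hball z (closedBall_subset_ball hr1 hz) j, n, hn, hr4⟩⟩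

/-- **the smooth form `B`.** -/
theorem Lc.exists_B (hcut : CUTF.{u}) {w : Trip M} {c c' : JCurve J} {p : M} {V : Set M}
    (L : Lc w c c' p V) (hVp : ∀ x ∈ V, x ∈ range c.f → x ∈ range c'.f → x = p) :
    ∃ (Bf : X2 M) (N : Set M), IsOpen N ∧ range c'.f ⊆ N ∧
      (∀ x ∈ N, at2 (Bf : F2 E4 M) x = at2 (wedG (dArg L.B.F) (dF L.χ)) x) ∧
      ∀ x ∉ tsupport L.χ, at2 (Bf : F2 E4 M) x = 0 := by
  have hρ3 := L.ρ3_pos
  have hρ31 := L.ρ3_le
  have hρ0 := L.ρ_pos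
  have hρ1 := L.ρ_lt
  set O : Set M := {x | L.χ =ᶠ[𝓝 x] fun _ => 1} with hO
  have hOo : IsOpen O := isOpen_setOfPred_eventually_nhds
  have hD : ∀ x ∉ tsupport L.χ ∩ Oᶜ, at1 (dF L.χ : F1 E4 M) x = 0 := by
    intro x hx
    by_cases hxs : x ∈ tsupport L.χ
    · have : x ∈ O := by
        by_contra h
        exact hx ⟨hxs, h⟩
      exact dF_const this
    · refine dF_const (a := 0) ?_
      have := (isClosed_tsupport L.χ).isOpen_compl.mem_nhds hxs
      filter_upwards [this] with y hy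
      exact image_eq_zero_of_notMem_tsupport hy
  have hKD : range c'.f ∩ (tsupport L.χ ∩ Oᶜ) ⊆ (L.B.U \ L.B.E) ∩ (range c.f)ᶜ := by
    rintro y ⟨hy, hys, hyO⟩
    have hK := interior_subset (L.supp hys)
    obtain ⟨j, z, hz, -, -, hu⟩ := exists_of_Nb c' (by linarith) hy (L.KN hK)
    have hz' : ‖z‖ < L.ρ3 / 2 := by simpa using hz
    have hzρ : L.ρ < ‖z‖ := by
      by_contra hle
      refine hyO ?_
      rw [← hu]
      exact L.one j z (by simpa using not_lt.1 hle)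
    have hz1 : z ∈ ball (0 : ℂ) 1 := by
      rw [mem_ball_zero_iff]; linarith
    have hyp : y ≠ p := by
      intro h
      rw [h] at hu
      have := u_inj0 c' hz1 hu
      rw [this, norm_zero] at hzρ
      linarith
    have hyU : y ∈ L.B.U := L.KU hK
    exact ⟨⟨hyU, fun hyE => hyp (L.hE y hyU hyE hy)⟩,
      fun hyc => hyp (hVp y (L.B.subV hyU) hyc hy)⟩
  obtain ⟨Bf, N, h1, h2, h3, h4⟩ := hcut M L.B.F L.χ ((L.B.U \ L.B.E) ∩ (range c.f)ᶜ)
    (range c'.f) (tsupport L.χ ∩ Oᶜ)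
    (L.B.closedE.inter (isClosed_range c).isOpen_compl)
    (fun x hx => L.B.smooth x hx.1.1 hx.1.2)
    (fun x hx h => hx.2 ((L.B.zero x hx.1.1).1 h)) L.smooth (isClosed_range c')
    ((isClosed_tsupport _).inter hOo.isClosed_compl) hD hKD
  exact ⟨Bf, N, h1, h2, h3, fun x hx => h4 x fun h => hx h.1⟩

/-- **the value of the second current.** -/
theorem Lc.R_val (hbr : BRINT.{u}) {w : Trip M} {c c' : JCurve J} {p : M} {V : Set M}
    (L : Lc w c c' p V) (hVp : ∀ x ∈ V, x ∈ range c.f → x ∈ range c'.f → x = p)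
    {Bf : X2 M} {N : Set M} (hN : range c'.f ⊆ N)
    (h1 : ∀ x ∈ N, at2 (Bf : F2 E4 M) x = at2 (wedG (dArg L.B.F) (dF L.χ)) x)
    (h2 : ∀ x ∉ tsupport L.χ, at2 (Bf : F2 E4 M) x = 0) :
    c'.T Bf = ∑ j, ((L.n j : ℤ) : ℝ) := by
  have hρ3 := L.ρ3_pos
  have hρ31 := L.ρ3_le
  have hρ0 := L.ρ_pos
  have hρ1 := L.ρ_lt
  rw [c'.cur p Bf L.K L.compact L.KL fun x hx =>
    h2 _ fun h => hx (interior_subset (L.supp h))]
  refine Finset.sum_congr rfl fun j _ => ?_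
  refine hbr M L.B.F L.χ ((c'.L p).u j) Bf (L.ρ / 2) L.ρ (L.ρ3 / 2) L.ρ3 (L.n j) (by linarith)
    (by linarith) hρ1 (by linarith) hρ31 (((c'.L p).disc j).hol.smooth) L.smooth
    (fun z hz1 hz2 => ?_) (L.one j) (fun z hz1 hz2 => ?_) (fun z hz => ?_) (L.wind j)
  · have hz3 : z ∈ ball (0 : ℂ) L.ρ3 := by rw [mem_ball_zero_iff]; exact hz2
    have hz4 : z ∈ ball (0 : ℂ) 1 := ball_subset_ball hρ31 hz3
    have hU := L.inU j z hz3
    have hne : (c'.L p).u j z ≠ p := by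
      intro h
      have := u_inj0 c' hz4 h
      rw [this, norm_zero] at hz1
      linarith
    have hr := u_mem c' p j hz4
    exact ⟨L.B.smooth _ hU fun hE => hne (L.hE _ hU hE hr), fun h0 =>
      hne (hVp _ (L.B.subV hU) ((L.B.zero _ hU).1 h0) hr)⟩
  · have h3 : (c'.L p).u j z ∉ tsupport L.χ := by
      intro h
      have := lt_of_Nb c' (by linarith) hz1 (L.KN (interior_subset (L.supp h)))
      linarith
    filter_upwards [(isClosed_tsupport L.χ).isOpen_compl.mem_nhds h3] with y hy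
    exact image_eq_zero_of_notMem_tsupport hy
  · exact h1 _ (hN (u_mem c' p j hz))

/-- **ISEC**. -/
theorem isec (hbox : BOXP.{u}) (hint : INTW.{u}) (hcord : CORD.{u}) (hcut : CUTF.{u})
    (hbr : BRINT.{u}) : ISEC.{u} := by
  classical
  intro M _ _ _ _ _ _ w J hw hJ c c' s s' hs hs' hfin
  have hVol : Int.Vol ((w 0).1.1 : F2 E4 M) := hw.vol 0
  set P : Finset M := hfin.toFinset with hP
  have hmemP : ∀ x, x ∈ P ↔ x ∈ range c.f ∧ x ∈ range c'.f := fun x => by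
    rw [hP, Set.Finite.mem_toFinset]; rfl
  obtain ⟨U, hU, hd⟩ := hfin.t2_separation
  have hVp : ∀ p : P, ∀ x ∈ U p.1, x ∈ range c.f → x ∈ range c'.f → x = p.1 := by
    intro p x hx h1 h2
    by_contra hne
    have hp := (hmemP p.1).1 p.2
    exact disjoint_left.1 (hd ⟨h1, h2⟩ hp hne) (hU x).1 hx
  have hL : ∀ p : P, Nonempty (Lc w c c' p.1 (U p.1)) := fun p =>
    exists_lc hbox hw hJ c c' (hU p.1).2 (hU p.1).1 ((hmemP p.1).1 p.2).1 (hVp p)
  let L : ∀ p : P, Lc w c c' p.1 (U p.1) := fun p => (hL p).some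
  choose Bf N hNo hKN hBN hB0 using fun p : P => (L p).exists_B hcut (hVp p)
  obtain ⟨a, rfl⟩ := cls_surj s
  have ha : ∀ b : Z2 M, c.T b.1 = pI (w 0) a b := fun b => by rw [hs b, ip_cls hVol]
  obtain ⟨-, hsupp⟩ := hcord M w J hw hJ c
  obtain ⟨hord', hsupp'⟩ := hcord M w J hw hJ c'
  let e := P.equivFin
  have hone : ∀ x ∈ range c.f ∩ range c'.f, ∀ᶠ y in 𝓝 x, ∑ q : P, (L q).χ y = 1 := by
    intro x hx
    have hxP : x ∈ P := (hmemP x).2 hx
    have h0' : ∀ᶠ y in 𝓝 x, ∀ q : P, q ≠ ⟨x, hxP⟩ → (L q).χ y = 0 := by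
      rw [eventually_all]
      intro q
      by_cases hq : q = ⟨x, hxP⟩
      · exact Eventually.of_forall fun y h => absurd hq h
      · have hys : x ∉ tsupport (L q).χ := by
          intro h
          have hyq : x ∈ U q.1 := (L q).B.subV ((L q).KU (interior_subset ((L q).supp h)))
          exact hq (Subtype.ext (hVp q x hyq hx.1 hx.2).symm)
        filter_upwards [(isClosed_tsupport (L q).χ).isOpen_compl.mem_nhds hys] with y hy _
        exact image_eq_zero_of_notMem_tsupport hy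
    filter_upwards [(L ⟨x, hxP⟩).one0, h0'] with y hy1 hy0
    rw [Finset.sum_eq_single (⟨x, hxP⟩ : P) (fun q _ hq => hy0 q hq)
      (fun h => absurd (Finset.mem_univ _) h)]
    exact hy1
  have key := hint M w J hw hJ c.T c'.T a ha (fun b hb => c'.pcur.closed b hb) hord'
    (range c.f) (range c'.f) (isClosed_range c) (isClosed_range c') hsupp hsupp'
    P.card (fun j => (L (e.symm j)).χ) (fun j => (L (e.symm j)).smooth)
    (fun j => dArg (L (e.symm j)).B.F)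
    (fun j η b hb => (L (e.symm j)).B.weak _ (L (e.symm j)).smooth
      (((L (e.symm j)).supp.trans interior_subset).trans (L (e.symm j)).KU) η b hb)
    (fun x hx => by
      filter_upwards [hone x hx] with y hy
      rw [Equiv.sum_comp e.symm (fun q : P => (L q).χ y)]
      exact hy)
    (fun j => Bf (e.symm j)) (⋂ p : P, N p) (isOpen_iInter_of_finite hNo)
    (subset_iInter hKN) (fun j x hx => hBN _ x (mem_iInter.1 hx _))
  have h2 : ∀ p : P, c'.T (Bf p) = ∑ j, (((L p).n j : ℤ) : ℝ) := fun p =>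
    (L p).R_val hbr (hVp p) (hKN p) (hBN p) (hB0 p)
  have h3 : ∑ j : Fin P.card, c'.T (Bf (e.symm j)) = ∑ p : P, c'.T (Bf p) :=
    Equiv.sum_comp e.symm (fun p : P => c'.T (Bf p))
  rw [hs' a, h3, Finset.sum_congr rfl fun p _ => h2 p] at key
  rw [ip_comm, key]
  have hpos : ∀ p : P, (1 : ℝ) ≤ ∑ j, (((L p).n j : ℤ) : ℝ) := by
    intro p
    obtain ⟨n, hn⟩ := ((hmemP p.1).1 p.2).2
    obtain ⟨j, -⟩ := f_eq_p c' hn
    have h4 : ∀ i, (0 : ℝ) ≤ (((L p).n i : ℤ) : ℝ) := fun i => by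
      have := (L p).n_pos i
      exact_mod_cast (by omega : (0 : ℤ) ≤ (L p).n i)
    have h5 : (1 : ℝ) ≤ (((L p).n j : ℤ) : ℝ) := by exact_mod_cast (L p).n_pos j
    exact h5.trans (Finset.single_le_sum (f := fun j => (((L p).n j : ℤ) : ℝ))
      (fun i _ => h4 i) (Finset.mem_univ j))
  refine ⟨Finset.sum_nonneg fun p _ => by linarith [hpos p], fun h0 => ?_⟩
  have h6 := (Finset.sum_eq_zero_iff_of_nonneg fun p _ => by linarith [hpos p]).1 h0
  rw [disjoint_left]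
  intro x hx hx'
  have := h6 ⟨x, (hmemP x).2 ⟨hx, hx'⟩⟩ (Finset.mem_univ _)
  have h7 := hpos ⟨x, (hmemP x).2 ⟨hx, hx'⟩⟩
  linarith

end

end Crest.Agent.R235.AdjIsec_43
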