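import Crest.Agent.R235.AdjNodes_43
import Crest.Agent.R235.AdjGen_83

/-!
Row 235 (S0364), PACKAGE ADJ, helper43: local analysis of the push-off `Φ_t` for small `t`.
-/

set_option autoImplicit false
set_option maxSynthPendingDepth 3

open Set Function Filter MeasureTheory Metric
open scoped Manifold ContDiff Topology Real

universe u

namespace Crest.Agent.R235.AdjLoc_43

open Crest.Agent.R240 Crest.Agent.R240.Ch Crest.Agent.R240.Int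
open Crest.Agent.R235 Crest.Agent.R235.Glob_370 Crest.Agent.R235.Wind_688 Crest.Agent.R235.Adj
open Crest.Agent.R235.AdjGen_83

noncomputable section

/-- strict differentiability in one direction. -/
theorem strict_est {V : Type*} [NormedAddCommGroup V] [NormedSpace ℝ V] {G : ℝ × V → ℂ} {y0 : V}
    {G' : ℝ × V →L[ℝ] ℂ} (hG : HasStrictFDerivAt G G' (0, y0)) {ε : ℝ} (hε : 0 < ε) :
    ∀ᶠ q in 𝓝 ((0 : ℝ), y0), ‖G q - G (0, q.2) - q.1 • G' (1, 0)‖ ≤ ε * |q.1| := by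
  have h1 := (hG.isLittleO.def hε)
  have h2 : Tendsto (fun q : ℝ × V => (q, ((0 : ℝ), q.2))) (𝓝 ((0 : ℝ), y0))
      (𝓝 (((0 : ℝ), y0), ((0 : ℝ), y0))) := by
    have : Continuous fun q : ℝ × V => (q, ((0 : ℝ), q.2)) := by fun_prop
    exact this.tendsto' _ _ rfl
  filter_upwards [h2.eventually h1] with q hq
  have e : q - (0, q.2) = q.1 • ((1 : ℝ), (0 : V)) := by
    ext <;> simp
  rw [e, map_smul, norm_smul] at hq
  have e2 : ‖((1 : ℝ), (0 : V))‖ = 1 := by simp [Prod.norm_def]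
  rw [e2, mul_one, Real.norm_eq_abs] at hq
  exact hq

variable {M : Type u} [TopologicalSpace M] [ChartedSpace E4 M] [IsManifold 𝓘(ℝ, E4) ∞ M]

/-- the differential of `F ∘ γ`. -/
theorem hasDerivAt_comp {F : M → ℂ} {γ : ℝ → M} {x0 : M} {v : E4} (hF : SmAt F x0)
    (h0 : γ 0 = x0) (hc : ContinuousAt γ 0)
    (hv : HasDerivAt (fun t => chartAt E4 x0 (γ t)) v 0) :
    HasDerivAt (fun t => F (γ t)) (dC F x0 v) 0 := by
  have hx : x0 ∈ (chartAt E4 x0).source := mem_chart_source E4 x0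
  have hy : chartAt E4 x0 x0 ∈ (chartAt E4 x0).target := mem_chart_target E4 x0
  have h1 : ContMDiffAt 𝓘(ℝ, E4) 𝓘(ℝ, E4) ∞ (chartAt E4 x0).symm (chartAt E4 x0 x0) :=
    (contMDiffOn_chart_symm (I := 𝓘(ℝ, E4)) (x := x0)).contMDiffAt
      ((chartAt E4 x0).open_target.mem_nhds hy)
  have h2 : ContMDiffAt 𝓘(ℝ, E4) 𝓘(ℝ, ℂ) ∞ F ((chartAt E4 x0).symm (chartAt E4 x0 x0)) := by
    rw [(chartAt E4 x0).left_inv hx]; exact hF
  have h3 : ContDiffAt ℝ ∞ (fun y : E4 => F ((chartAt E4 x0).symm y)) (chartAt E4 x0 x0) :=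
    (h2.comp _ h1).contDiffAt
  have h4 : HasFDerivAt (fun y : E4 => F ((chartAt E4 x0).symm y))
      (fderiv ℝ (fun y : E4 => F ((chartAt E4 x0).symm y)) (chartAt E4 x0 x0))
      (chartAt E4 x0 (γ 0)) := by
    rw [h0]; exact (h3.differentiableAt (by simp)).hasFDerivAt
  have h5 := h4.comp_hasDerivAt (0 : ℝ) hv
  refine h5.congr_of_eventuallyEq ?_
  have h6 : ∀ᶠ t in 𝓝 (0 : ℝ), γ t ∈ (chartAt E4 x0).source :=
    hc.preimage_mem_nhds ((chartAt E4 x0).open_source.mem_nhds (by rw [h0]; exact hx))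
  filter_upwards [h6] with t ht
  simp only [Function.comp]
  rw [(chartAt E4 x0).left_inv ht]

variable {X : VF E4 M} (P : Push X)

theorem push_at (x : M) : ContMDiffAt (𝓘(ℝ, ℝ).prod 𝓘(ℝ, E4)) 𝓘(ℝ, E4) ∞
    (fun q : ℝ × M => P.Φ q.1 q.2) (0, x) :=
  P.smooth.contMDiffAt ((isOpen_Ioo.prod isOpen_univ).mem_nhds
    ⟨⟨neg_lt_zero.2 P.t0_pos, P.t0_pos⟩, mem_univ _⟩)

theorem push_cont (x : M) : ContinuousAt (fun q : ℝ × M => P.Φ q.1 q.2) (0, x) :=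
  (push_at P x).continuousAt

/-- `∂_t F (Φ_t x)` at `t = 0` is `dF_x (X x)`. -/
theorem push_deriv {F : M → ℂ} {x : M} (hF : SmAt F x) :
    HasDerivAt (fun t => F (P.Φ t x)) (dC F x (atV X x)) 0 := by
  refine hasDerivAt_comp hF (P.zero x) ?_ (P.vel x)
  have h := push_cont P x
  have h2 : ContinuousAt (fun t : ℝ => (t, x)) 0 := by fun_prop
  exact ContinuousAt.comp (g := fun q : ℝ × M => P.Φ q.1 q.2) (f := fun t : ℝ => (t, x)) h h2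

/-- smoothness of `(t, y) ↦ F (Φ_t (u y))` at `(0, y0)`. -/
theorem push_smooth {V : Type} [NormedAddCommGroup V] [NormedSpace ℝ V] {F : M → ℂ} {u : V → M}
    {y0 : V} (hu : ContMDiffAt 𝓘(ℝ, V) 𝓘(ℝ, E4) ∞ u y0) (hF : SmAt F (u y0)) :
    ContDiffAt ℝ ∞ (fun q : ℝ × V => F (P.Φ q.1 (u q.2))) (0, y0) := by
  have h1 : ContMDiffAt 𝓘(ℝ, ℝ × V) 𝓘(ℝ, ℝ) ∞ (fun q : ℝ × V => q.1) (0, y0) :=
    contDiffAt_fst.contMDiffAt
  have h2 : ContMDiffAt 𝓘(ℝ, ℝ × V) 𝓘(ℝ, V) ∞ (fun q : ℝ × V => q.2) (0, y0) :=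
    contDiffAt_snd.contMDiffAt
  have h3 : ContMDiffAt 𝓘(ℝ, ℝ × V) 𝓘(ℝ, E4) ∞ (fun q : ℝ × V => u q.2) (0, y0) :=
    ContMDiffAt.comp (g := u) (f := fun q : ℝ × V => q.2) _ hu h2
  have h4 : ContMDiffAt 𝓘(ℝ, ℝ × V) (𝓘(ℝ, ℝ).prod 𝓘(ℝ, E4)) ∞
      (fun q : ℝ × V => (q.1, u q.2)) (0, y0) := h1.prodMk h3
  have h5 : ContMDiffAt 𝓘(ℝ, ℝ × V) 𝓘(ℝ, E4) ∞ (fun q : ℝ × V => P.Φ q.1 (u q.2)) (0, y0) :=
    ContMDiffAt.comp (g := fun q : ℝ × M => P.Φ q.1 q.2) (f := fun q : ℝ × V => (q.1, u q.2)) _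
      (push_at P (u y0)) h4
  have hF' : ContMDiffAt 𝓘(ℝ, E4) 𝓘(ℝ, ℂ) ∞ F (P.Φ 0 (u y0)) := by
    rw [P.zero]; exact hF
  have h6 : ContMDiffAt 𝓘(ℝ, ℝ × V) 𝓘(ℝ, ℂ) ∞ (fun q : ℝ × V => F (P.Φ q.1 (u q.2))) (0, y0) :=
    ContMDiffAt.comp (g := F) (f := fun q : ℝ × V => P.Φ q.1 (u q.2)) _ hF' h5
  exact h6.contDiffAt

/-- the basic estimate. -/
theorem push_est {V : Type} [NormedAddCommGroup V] [NormedSpace ℝ V] {F : M → ℂ} {u : V → M}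
    {y0 : V} (hu : ContMDiffAt 𝓘(ℝ, V) 𝓘(ℝ, E4) ∞ u y0) (hF : SmAt F (u y0)) {ε : ℝ}
    (hε : 0 < ε) :
    ∀ᶠ q in 𝓝 ((0 : ℝ), y0),
      ‖F (P.Φ q.1 (u q.2)) - F (u q.2) - q.1 • dC F (u y0) (atV X (u y0))‖ ≤ ε * |q.1| := by
  have h1 := (push_smooth P hu hF).hasStrictFDerivAt (n := ∞) (by simp)
  have h2 : fderiv ℝ (fun q : ℝ × V => F (P.Φ q.1 (u q.2))) (0, y0) (1, 0) =
      dC F (u y0) (atV X (u y0)) := by
    have h3 : HasDerivAt (fun t : ℝ => ((t, y0) : ℝ × V)) (1, 0) 0 :=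
      (hasDerivAt_id (0 : ℝ)).prodMk (hasDerivAt_const (0 : ℝ) y0)
    have h4 := HasFDerivAt.comp_hasDerivAt (f := fun t : ℝ => ((t, y0) : ℝ × V)) (0 : ℝ)
      h1.hasFDerivAt h3
    exact h4.unique (push_deriv P hF)
  filter_upwards [strict_est h1 hε] with q hq
  rw [h2] at hq
  simpa only [P.zero] using hq

/-- **non-intersection**: near a point where `dF (X) ≠ 0`. -/
theorem loc_ne {F : M → ℂ} {C U : Set M} {x0 : M} (hU : IsOpen U) (hx0 : x0 ∈ U)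
    (hF : SmAt F x0) (hz : ∀ x ∈ U, F x = 0 ↔ x ∈ C) (hd : dC F x0 (atV X x0) ≠ 0) :
    ∀ᶠ q in 𝓝 ((0 : ℝ), x0), q.1 ≠ 0 → q.2 ∈ C → P.Φ q.1 q.2 ∉ C := by
  set ch := chartAt E4 x0 with hch
  have hx : x0 ∈ ch.source := mem_chart_source E4 x0
  have hy : ch x0 ∈ ch.target := mem_chart_target E4 x0
  have h1 : ContMDiffAt 𝓘(ℝ, E4) 𝓘(ℝ, E4) ∞ ch.symm (ch x0) :=
    (contMDiffOn_chart_symm (I := 𝓘(ℝ, E4)) (x := x0)).contMDiffAt (ch.open_target.mem_nhds hy)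
  have hF' : SmAt F (ch.symm (ch x0)) := by rw [ch.left_inv hx]; exact hF
  have hd' : dC F (ch.symm (ch x0)) (atV X (ch.symm (ch x0))) ≠ 0 := by
    rw [ch.left_inv hx]; exact hd
  set d := dC F (ch.symm (ch x0)) (atV X (ch.symm (ch x0))) with hdd
  have h2 := push_est P h1 hF' (half_pos (norm_pos_iff.2 hd'))
  have h3 : Tendsto (fun q : ℝ × M => (q.1, ch q.2)) (𝓝 ((0 : ℝ), x0)) (𝓝 ((0 : ℝ), ch x0)) := by
    have hc : ContinuousAt ch x0 := ch.continuousAt hx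
    exact (continuousAt_fst.prodMk (ContinuousAt.comp (g := ch) (f := fun q : ℝ × M => q.2)
      (x := ((0 : ℝ), x0)) hc continuousAt_snd))
  have h4 : ∀ᶠ q in 𝓝 ((0 : ℝ), x0), q.2 ∈ ch.source ∩ U :=
    continuousAt_snd.preimage_mem_nhds ((ch.open_source.inter hU).mem_nhds ⟨hx, hx0⟩)
  have h5 : ∀ᶠ q in 𝓝 ((0 : ℝ), x0), P.Φ q.1 q.2 ∈ U :=
    (push_cont P x0).preimage_mem_nhds (hU.mem_nhds (by simp only [P.zero]; exact hx0))
  filter_upwards [h3.eventually h2, h4, h5] with q hq1 hq2 hq3 ht hC hC2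
  rw [ch.left_inv hq2.1, (hz _ hq2.2).2 hC, (hz _ hq3).2 hC2, sub_zero, zero_sub, norm_neg,
    norm_smul, Real.norm_eq_abs] at hq1
  have hpos : 0 < |q.1| := abs_pos.2 ht
  have hd2 : 0 < ‖d‖ := norm_pos_iff.2 hd'
  nlinarith [mul_pos hpos hd2]

/-- **the winding number of `F ∘ Φ_t ∘ u` for small `t`**. -/
theorem loc_wind {F : M → ℂ} {u : ℂ → M} {ρ : ℝ} (hρ : 0 < ρ)
    (hu : ∀ z ∈ sphere (0 : ℂ) ρ, ContMDiffAt 𝓘(ℝ, ℂ) 𝓘(ℝ, E4) ∞ u z)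
    (hF : ∀ z ∈ sphere (0 : ℂ) ρ, SmAt F (u z)) (h0 : ∀ z ∈ sphere (0 : ℂ) ρ, F (u z) = 0)
    {g : ℂ → ℂ} {n : ℤ} (hg : IsW g 0 ρ n)
    (hd : ∀ z ∈ sphere (0 : ℂ) ρ, dC F (u z) (atV X (u z)) = g z) :
    ∀ᶠ t in 𝓝[>] (0 : ℝ), IsW (fun z => F (P.Φ t (u z))) 0 ρ n := by
  have hc : Continuous fun θ => g (circleMap 0 ρ θ) := hg.cont
  have hmem : ∀ θ : ℝ, circleMap 0 ρ θ ∈ sphere (0 : ℂ) ρ := fun θ => cm_mem 0 hρ.le θ
  -- the map of the circle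
  have hcirc : ∀ θ : ℝ, ContMDiffAt 𝓘(ℝ, ℝ) 𝓘(ℝ, E4) ∞ (fun θ : ℝ => u (circleMap 0 ρ θ)) θ := by
    intro θ
    have h1 : ContMDiffAt 𝓘(ℝ, ℝ) 𝓘(ℝ, ℂ) ∞ (circleMap 0 ρ) θ := by
      have : ContDiff ℝ ∞ (circleMap (0 : ℂ) ρ) := contDiff_circleMap 0 ρ
      exact this.contDiffAt.contMDiffAt
    exact ContMDiffAt.comp (g := u) (f := circleMap 0 ρ) θ (hu _ (hmem θ)) h1
  have key : ∀ θ0 ∈ Icc (0 : ℝ) (2 * π), ∀ᶠ q in 𝓝 ((0 : ℝ), θ0),
      ‖F (P.Φ q.1 (u (circleMap 0 ρ q.2))) - q.1 • g (circleMap 0 ρ q.2)‖ ≤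
        |q.1| * (‖g (circleMap 0 ρ q.2)‖ / 2) := by
    intro θ0 _
    have hne : g (circleMap 0 ρ θ0) ≠ 0 := hg.ne θ0
    set ε : ℝ := ‖g (circleMap 0 ρ θ0)‖ / 8 with hε
    have hε0 : 0 < ε := by rw [hε]; have := norm_pos_iff.2 hne; positivity
    have h1 := push_est P (hcirc θ0) (hF _ (hmem θ0)) hε0
    have h2 : ∀ᶠ q in 𝓝 ((0 : ℝ), θ0),
        ‖g (circleMap 0 ρ q.2) - g (circleMap 0 ρ θ0)‖ < ε := by
      have h3 : ContinuousAt (fun q : ℝ × ℝ => g (circleMap 0 ρ q.2)) ((0 : ℝ), θ0) :=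
        (hc.comp continuous_snd).continuousAt
      have h4 := h3.eventually (Metric.ball_mem_nhds _ hε0)
      filter_upwards [h4] with q hq
      rwa [dist_eq_norm] at hq
    filter_upwards [h1, h2] with q hq1 hq2
    have e1 : F (u (circleMap 0 ρ q.2)) = 0 := h0 _ (hmem _)
    rw [e1, sub_zero, hd _ (hmem θ0)] at hq1
    have e2 : ‖g (circleMap 0 ρ θ0)‖ = 8 * ε := by rw [hε]; ring
    have e3 : 7 * ε ≤ ‖g (circleMap 0 ρ q.2)‖ := by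
      have := norm_sub_norm_le (g (circleMap 0 ρ θ0)) (g (circleMap 0 ρ q.2))
      rw [norm_sub_rev] at this
      linarith
    have e4 : F (P.Φ q.1 (u (circleMap 0 ρ q.2))) - q.1 • g (circleMap 0 ρ q.2) =
        (F (P.Φ q.1 (u (circleMap 0 ρ q.2))) - q.1 • g (circleMap 0 ρ θ0)) -
          q.1 • (g (circleMap 0 ρ q.2) - g (circleMap 0 ρ θ0)) := by
      rw [smul_sub]; ring
    rw [e4]
    refine (norm_sub_le _ _).trans ?_
    rw [norm_smul, Real.norm_eq_abs]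
    have hq0 := abs_nonneg q.1
    nlinarith [mul_le_mul_of_nonneg_left hq2.le hq0, mul_le_mul_of_nonneg_left e3 hq0]
  have hunif := isCompact_Icc.eventually_forall_of_forall_eventually
    (P := fun (t : ℝ) (θ : ℝ) => ‖F (P.Φ t (u (circleMap 0 ρ θ))) - t • g (circleMap 0 ρ θ)‖ ≤
        |t| * (‖g (circleMap 0 ρ θ)‖ / 2)) key
  -- continuity along the circle
  have hcont : ∀ θ0 ∈ Icc (0 : ℝ) (2 * π), ∀ᶠ q in 𝓝 ((0 : ℝ), θ0),
      ContinuousAt (fun θ : ℝ => F (P.Φ q.1 (u (circleMap 0 ρ θ)))) q.2 := by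
    intro θ0 _
    have h1 := (push_smooth P (hcirc θ0) (hF _ (hmem θ0)))
    have h2 : ∀ᶠ q in 𝓝 ((0 : ℝ), θ0), ContDiffAt ℝ 1
        (fun q : ℝ × ℝ => F (P.Φ q.1 (u (circleMap 0 ρ q.2)))) q :=
      (h1.of_le (m := 1) (by exact_mod_cast le_top)).eventually (by simp)
    filter_upwards [h2] with q hq
    have h3 : ContinuousAt (fun θ : ℝ => (q.1, θ)) q.2 := by fun_prop
    exact ContinuousAt.comp (g := fun q : ℝ × ℝ => F (P.Φ q.1 (u (circleMap 0 ρ q.2))))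
      (f := fun θ : ℝ => (q.1, θ)) (x := q.2) hq.continuousAt h3
  have hunif2 := isCompact_Icc.eventually_forall_of_forall_eventually
    (P := fun (t : ℝ) (θ : ℝ) =>
      ContinuousAt (fun θ : ℝ => F (P.Φ t (u (circleMap 0 ρ θ)))) θ) hcont
  have hpos : ∀ᶠ t in 𝓝[>] (0 : ℝ), 0 < t := self_mem_nhdsWithin
  filter_upwards [hpos, nhdsWithin_le_nhds hunif, nhdsWithin_le_nhds hunif2] with t ht h1 h2
  have hper : ∀ θ : ℝ, ∃ θ' ∈ Icc (0 : ℝ) (2 * π), ∃ k : ℤ, θ = θ' + k * (2 * π) := by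
    intro θ
    refine ⟨toIcoMod Real.two_pi_pos 0 θ, ?_, toIcoDiv Real.two_pi_pos 0 θ, ?_⟩
    · have := toIcoMod_mem_Ico Real.two_pi_pos 0 θ
      rw [zero_add] at this
      exact ⟨this.1, this.2.le⟩
    · have := toIcoMod_add_toIcoDiv_zsmul Real.two_pi_pos 0 θ
      rw [zsmul_eq_mul] at this
      exact this.symm
  have hcm : ∀ (θ : ℝ) (k : ℤ), circleMap (0 : ℂ) ρ (θ + k * (2 * π)) = circleMap 0 ρ θ :=
    fun θ k => (periodic_circleMap (0 : ℂ) ρ).int_mul k θ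
  have hmul : IsWL (fun θ => (t : ℂ) * g (circleMap 0 ρ θ)) n := by
    have := (isWL_const (c := (t : ℂ)) (by exact_mod_cast ht.ne')).mul hg
    rwa [zero_add] at this
  have hcontin : Continuous fun θ => F (P.Φ t (u (circleMap 0 ρ θ))) := by
    rw [continuous_iff_continuousAt]
    intro θ
    obtain ⟨θ', hθ', k, rfl⟩ := hper θ
    have h3 : ContinuousAt (fun s : ℝ => s - k * (2 * π)) (θ' + k * (2 * π)) := by fun_prop
    have h4 : ContinuousAt (fun θ : ℝ => F (P.Φ t (u (circleMap 0 ρ θ))))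
        ((fun s : ℝ => s - k * (2 * π)) (θ' + k * (2 * π))) := by
      have : (fun s : ℝ => s - k * (2 * π)) (θ' + k * (2 * π)) = θ' := by
        simp
      rw [this]; exact h2 θ' hθ'
    have h5 := ContinuousAt.comp (g := fun θ : ℝ => F (P.Φ t (u (circleMap 0 ρ θ))))
      (f := fun s : ℝ => s - k * (2 * π)) h4 h3
    refine h5.congr (Eventually.of_forall fun s => ?_)
    simp only [Function.comp]
    have := hcm (s - k * (2 * π)) k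
    rw [sub_add_cancel] at this
    rw [← this]
  refine IsWL.rouche hmul hcontin (fun θ => by simp only [cm_per]) fun θ => ?_
  obtain ⟨θ', hθ', k, rfl⟩ := hper θ
  simp only [hcm]
  have h3 := h1 θ' hθ'
  rw [Complex.real_smul] at h3
  refine h3.trans_lt ?_
  rw [norm_mul, Complex.norm_real, Real.norm_eq_abs]
  have h4 : 0 < ‖g (circleMap 0 ρ θ')‖ := norm_pos_iff.2 (hg.ne θ')
  have h5 : 0 < |t| := abs_pos.2 ht.ne'
  nlinarith [mul_pos h5 h4]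

end

end Crest.Agent.R235.AdjLoc_43
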