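import Crest.Agent.R235.AdjVal_43
import Crest.Agent.R240.Cmp

/-!
Row 235 (S0364), PACKAGE ADJ, helper43: **the adjunction inequality**
`adj : BOXP → PUSH → FIELD → INTW → CORD → CUTF → BRINT → DEGS → BCH → ADJ`.
-/

set_option autoImplicit false
set_option maxSynthPendingDepth 3
set_option linter.unusedSectionVars false

open Set Function Filter MeasureTheory Metric
open scoped Manifold ContDiff Topology Real

universe u

namespace Crest.Agent.R235.AdjMain_43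

open Crest.Agent.R240 Crest.Agent.R240.Ch Crest.Agent.R240.Int
open Crest.Agent.R235 Crest.Agent.R235.Glob_370 Crest.Agent.R235.Wind_688 Crest.Agent.R235.Adj
open Crest.Agent.R235.AdjGen_83 Crest.Agent.R235.AdjLoc_43 Crest.Agent.R235.AdjGeo_43
open Crest.Agent.R235.AdjSmall_43 Crest.Agent.R235.AdjVal_43

noncomputable section

variable {M : Type u} [TopologicalSpace M] [T2Space M] [CompactSpace M] [ConnectedSpace M]
  [ChartedSpace E4 M] [IsManifold 𝓘(ℝ, E4) ∞ M] {J : EndF E4 M} {c : JCurve J}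

/-- boxes and cut-offs at the points of the finite set `P`. -/
structure Pk (w : Trip M) (c : JCurve J) (k : KSec c.A) (P : Finset M) where
  /-- disjoint neighbourhoods -/
  W : P → Set M
  disj : ∀ p q, p ≠ q → Disjoint (W p) (W q)
  /-- the boxes -/
  B : ∀ p : P, Box w c p.1 (W p)
  /-- the cut-offs -/
  L : ∀ p : P, Loc c (B p) k

theorem exists_pk (hbox : BOXP.{u}) (hdegs : DEGS.{u}) {w : Trip M} (hw : Pos3 w) (hJ : IsJ w J)
    (k : KSec c.A) (P : Finset M) (hP : ∀ p ∈ P, p ∈ range c.f) : Nonempty (Pk w c k P) := by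
  classical
  obtain ⟨U, hU, hd⟩ := (P.finite_toSet).t2_separation
  have h1 : ∀ p : P, Nonempty (Box w c p.1 (U p.1)) := fun p =>
    let ⟨B, _⟩ := hbox M w J hw hJ c c p.1 (U p.1) (hU p.1).2 (hU p.1).1 (hP p.1 p.2)
    ⟨B⟩
  exact ⟨⟨fun p => U p.1, fun p q hpq => hd p.2 q.2 fun h => hpq (Subtype.ext h),
    fun p => (h1 p).some, fun p => (exists_loc hdegs (h1 p).some k).some⟩⟩

namespace Pk

variable {w : Trip M} {k : KSec c.A} {P : Finset M} (D : Pk w c k P)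

/-- the small discs in `N`. -/
def cores : Set c.N := ⋃ p : P, core c p.1 ((D.L p).ρ / 2)

/-- the neighbourhood `V` of `P`. -/
def V : Set M := (c.f '' D.cores ᶜ)ᶜ

theorem ρ_le (p : P) : (D.L p).ρ / 2 ≤ 1 := by
  linarith [(D.L p).ρ_lt, (D.B p).r0_le, (D.B p).r0_pos, (D.L p).ρ_pos]

theorem isOpen_V : IsOpen D.V := by
  have h : IsOpen D.cores := isOpen_iUnion fun p => isOpen_core c p.1 (D.ρ_le p)
  exact ((h.isClosed_compl.isCompact).image c.cont).isClosed.isOpen_compl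

theorem P_sub {p : M} (hp : p ∈ P) : p ∈ D.V := by
  rintro ⟨n, hn, hnp⟩
  obtain ⟨j, hj⟩ := f_eq_p c hnp
  exact hn (mem_iUnion.2 ⟨⟨p, hp⟩, mem_iUnion.2 ⟨j, 0,
    mem_ball_self (half_pos (D.L ⟨p, hp⟩).ρ_pos), hj⟩⟩)

theorem not_V {n : c.N} (h : n ∉ D.cores) : c.f n ∉ D.V := fun h1 => h1 ⟨n, h, rfl⟩

theorem mem_cores {n : c.N} (h : c.f n ∈ D.V) : n ∈ D.cores := by
  by_contra hn
  exact D.not_V hn h

theorem ann_not_V (p : P) (j : Fin (c.L p.1).n) {z : ℂ} (h1 : (D.L p).ρ / 2 ≤ ‖z‖)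
    (h2 : ‖z‖ < (D.B p).r0) : (c.L p.1).u j z ∉ D.V := by
  have hz0 : z ∈ ball (0 : ℂ) (D.B p).r0 := by simpa using h2
  have hz : z ∈ ball (0 : ℂ) 1 := ball_subset_ball (D.B p).r0_le hz0
  rw [← c.φ_f p.1 j z hz]
  refine D.not_V fun hn => ?_
  obtain ⟨q, hq⟩ := mem_iUnion.1 hn
  by_cases hpq : q = p
  · subst hpq
    exact absurd (lt_of_core c (D.ρ_le q) hz hq) (not_lt.2 h1)
  · obtain ⟨i, x, hx, e⟩ := mem_iUnion.1 hq
    have hx0 : x ∈ ball (0 : ℂ) (D.B q).r0 := by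
      refine ball_subset_ball ?_ hx
      linarith [(D.L q).ρ_lt, (D.B q).r0_pos, (D.L q).ρ_pos]
    have hx1 : x ∈ ball (0 : ℂ) 1 := ball_subset_ball (D.B q).r0_le hx0
    have h3 := (D.B q).subV ((D.B q).inU i x hx0)
    have h4 := (D.B p).subV ((D.B p).inU j z hz0)
    rw [← c.φ_f q.1 i x hx1, e, c.φ_f p.1 j z hz] at h3
    exact disjoint_left.1 (D.disj q p hpq) h3 h4

/-- the sum of the cut-offs is `1` where one of them is. -/
theorem one_sum {p : P} {y : M} (h1 : (D.L p).χ =ᶠ[𝓝 y] fun _ => 1) :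
    ∀ᶠ x in 𝓝 y, ∑ q : P, (D.L q).χ x = 1 := by
  classical
  have hyp : y ∈ D.W p := by
    have h2 : y ∈ tsupport (D.L p).χ := by
      refine subset_tsupport _ ?_
      rw [mem_support, h1.self_of_nhds]
      exact one_ne_zero
    exact (D.B p).subV ((D.L p).KU (interior_subset ((D.L p).supp h2)))
  have h0 : ∀ q : P, q ≠ p → (D.L q).χ =ᶠ[𝓝 y] fun _ => 0 := by
    intro q hq
    have hys : y ∉ tsupport (D.L q).χ := by
      intro h
      have hyq : y ∈ D.W q := (D.B q).subV ((D.L q).KU (interior_subset ((D.L q).supp h)))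
      exact disjoint_left.1 (D.disj q p hq) hyq hyp
    filter_upwards [(isClosed_tsupport (D.L q).χ).isOpen_compl.mem_nhds hys] with x hx
    exact image_eq_zero_of_notMem_tsupport hx
  have h0' : ∀ᶠ x in 𝓝 y, ∀ q : P, q ≠ p → (D.L q).χ x = 0 := by
    rw [eventually_all]
    intro q
    by_cases hq : q = p
    · exact Eventually.of_forall fun x h => absurd hq h
    · filter_upwards [h0 q hq] with x hx _
      exact hx
  filter_upwards [h1, h0'] with x hx1 hx0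
  rw [Finset.sum_eq_single p (fun q _ hq => hx0 q hq) (fun h => absurd (Finset.mem_univ _) h)]
  exact hx1

/-- the sum of the cut-offs is `1` near the intersection of the curve and the pushed curve. -/
theorem one_push {X : VF E4 M} {Q : Push X} {t : ℝ} (hS : ∀ p : P, Small (D.L p) Q t)
    (hne : ∀ x ∈ range c.f \ D.V, Q.Φ t x ∉ range c.f) {x : M}
    (hx : x ∈ range c.f ∩ Q.Φ t '' range c.f) : ∀ᶠ y in 𝓝 x, ∑ q : P, (D.L q).χ y = 1 := by
  obtain ⟨hx1, x', hx', rfl⟩ := hx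
  have hV : x' ∈ D.V := by
    by_contra h
    exact hne x' ⟨hx', h⟩ hx1
  obtain ⟨n, rfl⟩ := hx'
  obtain ⟨p, hp⟩ := mem_iUnion.1 (D.mem_cores hV)
  obtain ⟨j, z, hz, rfl⟩ := mem_iUnion.1 hp
  have hρ := (D.L p).ρ_pos
  have hz1 : z ∈ closedBall (0 : ℂ) (D.L p).ρ := by
    refine ball_subset_closedBall (ball_subset_ball ?_ hz)
    linarith
  have hz2 : z ∈ ball (0 : ℂ) 1 := ball_subset_ball (D.ρ_le p) hz
  have h1 := (hS p).one j z hz1
  rw [← c.φ_f p.1 j z hz2] at h1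
  exact D.one_sum h1

end Pk

/-- the identity `c.c = deg K + Σ m`. -/
theorem adj_eq (hpush : PUSH.{u}) (hfield : FIELD.{u}) (hint : INTW.{u}) (hcord : CORD.{u})
    (hcut : CUTF.{u}) (hbr : BRINT.{u}) (hdegs : DEGS.{u}) (hbch : BCH.{u})
    {w : Trip M} (hw : Pos3 w) (hJ : IsJ w J) {s : H2 M}
    (hs : ∀ b : Z2 M, c.T b.1 = ip (w 0) s (cls b)) (k : KSec c.A) {P : Finset M}
    (D : Pk w c k P) (hk : ∀ n ∈ k.Z, c.f n ∈ P)
    (hgood : ∀ x ∈ range c.f, x ∉ P → Good c w x)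
    (hinj : ∀ x y : c.N, x ≠ y → c.f x = c.f y → c.f x ∈ P)
    (himm : ∀ i, ∀ z ∈ (c.A.c i).target, dmap (fun z => c.f ((c.A.c i).symm z)) z 1 = 0 →
        c.f ((c.A.c i).symm z) ∈ P) :
    ip (w 0) s s = k.deg + ∑ p : P, ∑ j, (((D.B p).m j : ℤ) : ℝ) := by
  classical
  have hVol : Int.Vol ((w 0).1.1 : F2 E4 M) := hw.vol 0
  obtain ⟨X, hX, hFP⟩ := hfield M w J hw hJ c k D.V D.isOpen_V
    (fun x y hxy h => D.P_sub (hinj x y hxy h)) (fun i z hz h => D.P_sub (himm i z hz h))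
  have hFP' : FP c w k X D.V := hFP
  obtain ⟨Q⟩ := hpush M X hX
  -- the time `t`
  have e1 : ∀ᶠ t in 𝓝[>] (0 : ℝ), ∀ p : P, Small (D.L p) Q t :=
    eventually_all.2 fun p => exists_small hbch hJ (D.L p) Q hFP' fun j z h1 h2 =>
      D.ann_not_V p j h1 h2
  have e2 : ∀ᶠ t in 𝓝[>] (0 : ℝ), ∀ x ∈ range c.f \ D.V, t ≠ 0 → Q.Φ t x ∉ range c.f :=
    nhdsWithin_le_nhds (push_ne Q D.isOpen_V hFP'
      (fun x hx hxV => hgood x hx fun h => hxV (D.P_sub h)) fun n hn => D.P_sub (hk n hn))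
  have e3 : ∀ᶠ t in 𝓝[>] (0 : ℝ), t ∈ Ioo (0 : ℝ) Q.t0 := Ioo_mem_nhdsGT Q.t0_pos
  obtain ⟨t, hS, hne0, ht0⟩ := (e1.and (e2.and e3)).exists
  have ht : t ∈ Ioo (-Q.t0) Q.t0 := ⟨by linarith [ht0.1, Q.t0_pos], ht0.2⟩
  have hne : ∀ x ∈ range c.f \ D.V, Q.Φ t x ∉ range c.f := fun x hx => hne0 x hx ht0.1.ne'
  -- the smooth forms
  choose Bf N hNo hKN hBN hB0 using fun p : P => exists_B hcut (D.L p) Q ht (hS p) hne
    fun j z h1 h2 => D.ann_not_V p j h1 h2
  -- representatives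
  obtain ⟨a, rfl⟩ := cls_surj s
  have ha : ∀ b : Z2 M, c.T b.1 = pI (w 0) a b := fun b => by rw [hs b, ip_cls hVol]
  have hRc : IsClosed (Q.Φ t '' range c.f) := isClosed_push Q ht
  obtain ⟨⟨𝒰, C, hC⟩, hsupp⟩ := hcord M w J hw hJ c
  obtain ⟨C', hC'⟩ := Q.bd t ht 𝒰
  -- the enumeration
  let e := P.equivFin
  have key := hint M w J hw hJ c.T (c.T ∘ₗ Q.P t) a ha
    (fun b hb => c.pcur.closed _ (Q.exact t ht b hb))
    ⟨𝒰, |C| * |C'|, fun b => ?_⟩ (range c.f) (Q.Φ t '' range c.f) (isClosed_range c) hRc hsupp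
    (fun b hb => ?_) P.card (fun j => (D.L (e.symm j)).χ) (fun j => (D.L (e.symm j)).smooth)
    (fun j => dArg (D.B (e.symm j)).F) (fun j η b hb => ?_) (fun x hx => ?_)
    (fun j => Bf (e.symm j)) (⋂ p : P, N p) (isOpen_iInter_of_finite hNo)
    (subset_iInter hKN) (fun j x hx => hBN _ x (mem_iInter.1 hx _))
  · -- conclusion
    obtain ⟨a', ha', hcls⟩ := Q.closed t ht a
    have h1 : (c.T ∘ₗ Q.P t) a.1 = ip (w 0) (cls a) (cls a) := by
      rw [LinearMap.comp_apply, ha', hs a', hcls]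
    rw [← h1, key]
    have h2 : ∀ p : P, c.T (Q.P t (Bf p)) = ∑ j, (((D.B p).m j + ordφ k p.1 j : ℤ) : ℝ) :=
      fun p => R_val hbr (D.L p) Q ht (hS p) hne (fun j z h1 h2 => D.ann_not_V p j h1 h2)
        (hKN p) (hBN p) (hB0 p)
    have h3 : ∑ j : Fin P.card, (c.T ∘ₗ Q.P t) (Bf (e.symm j)) =
        ∑ p : P, c.T (Q.P t (Bf p)) :=
      Equiv.sum_comp e.symm (fun p : P => c.T (Q.P t (Bf p)))
    rw [h3, Finset.sum_congr rfl fun p _ => h2 p]
    have h4 := (hdegs M J c k).2 P hk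
    rw [← Finset.sum_coe_sort P (fun p => ∑ j, ordφ k p j)] at h4
    rw [← h4]
    push_cast
    rw [add_comm, ← Finset.sum_add_distrib]
    refine Finset.sum_congr rfl fun p _ => ?_
    rw [← Finset.sum_add_distrib]
  · have hcm : 0 ≤ 𝒰.cm 0 (b : F2 E4 M) := cm_nonneg 𝒰 0 _
    have hcm' : 0 ≤ 𝒰.cm 0 (Q.P t b : F2 E4 M) := cm_nonneg 𝒰 0 _
    calc |(c.T ∘ₗ Q.P t) b| ≤ C * 𝒰.cm 0 (Q.P t b : F2 E4 M) := hC _
      _ ≤ |C| * 𝒰.cm 0 (Q.P t b : F2 E4 M) := mul_le_mul_of_nonneg_right (le_abs_self C) hcm'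
      _ ≤ |C| * (C' * 𝒰.cm 0 (b : F2 E4 M)) := mul_le_mul_of_nonneg_left (hC' b) (abs_nonneg C)
      _ ≤ |C| * (|C'| * 𝒰.cm 0 (b : F2 E4 M)) :=
        mul_le_mul_of_nonneg_left (mul_le_mul_of_nonneg_right (le_abs_self C') hcm) (abs_nonneg C)
      _ = _ := by ring
  · obtain ⟨U, hU, hKU, hb0⟩ := hb
    refine hsupp _ ⟨Q.Φ t ⁻¹' U, hU.preimage (Φ_cont Q ht), fun x hx => hKU ⟨x, hx, rfl⟩,
      fun x hx => Q.supp t ht b x (hb0 _ hx)⟩
  · exact (D.B (e.symm j)).weak _ (D.L (e.symm j)).smooth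
      (((D.L (e.symm j)).supp.trans interior_subset).trans (D.L (e.symm j)).KU) η b hb
  · have h1 := D.one_push hS hne hx
    filter_upwards [h1] with y hy
    rw [Equiv.sum_comp e.symm (fun q : P => (D.L q).χ y)]
    exact hy

/-- **ADJ** (the adjunction inequality). -/
theorem adj (hbox : BOXP.{u}) (hpush : PUSH.{u}) (hfield : FIELD.{u}) (hint : INTW.{u})
    (hcord : CORD.{u}) (hcut : CUTF.{u}) (hbr : BRINT.{u}) (hdegs : DEGS.{u})
    (hbch : BCH.{u}) : ADJ.{u} := by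
  classical
  intro M _ _ _ _ _ _ w J hw hJ c s hs k
  obtain ⟨F0, hF0, hinj, himm⟩ := c.fin
  obtain ⟨Y, hY, hgood⟩ := exists_good c hbox hbch hw hJ
  set P : Finset M := (hF0.toFinset.image c.f ∪ k.Z.image c.f) ∪ Y with hP
  have hPr : ∀ p ∈ P, p ∈ range c.f := by
    intro p hp
    rcases Finset.mem_union.1 hp with hp | hp
    · rcases Finset.mem_union.1 hp with hp | hp
      · obtain ⟨n, -, rfl⟩ := Finset.mem_image.1 hp
        exact ⟨n, rfl⟩
      · obtain ⟨n, -, rfl⟩ := Finset.mem_image.1 hp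
        exact ⟨n, rfl⟩
    · exact hY p hp
  have hFP : ∀ n ∈ F0, c.f n ∈ P := fun n hn =>
    Finset.mem_union_left _ (Finset.mem_union_left _
      (Finset.mem_image_of_mem _ (hF0.mem_toFinset.2 hn)))
  have hkP : ∀ n ∈ k.Z, c.f n ∈ P := fun n hn =>
    Finset.mem_union_left _ (Finset.mem_union_right _ (Finset.mem_image_of_mem _ hn))
  have hinj' : ∀ x y : c.N, x ≠ y → c.f x = c.f y → x ∈ F0 := fun x y hxy h => by
    by_contra hx
    exact hxy (hinj x y hx h)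
  have himm' : ∀ i, ∀ z ∈ (c.A.c i).target, dmap (fun z => c.f ((c.A.c i).symm z)) z 1 = 0 →
      (c.A.c i).symm z ∈ F0 := fun i z hz h => by
    by_contra hx
    exact one_ne_zero (himm i z hz hx 1 h)
  obtain ⟨D⟩ := exists_pk hbox hdegs hw hJ k P hPr
  have key := adj_eq hpush hfield hint hcord hcut hbr hdegs hbch hw hJ hs k D hkP
    (fun x hx hxP => hgood x hx fun h => hxP (Finset.mem_union_right _ h))
    (fun x y hxy h => hFP x (hinj' x y hxy h)) (fun i z hz h => hFP _ (himm' i z hz h))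
  have hm0 : ∀ p : P, 0 ≤ ∑ j, (((D.B p).m j : ℤ) : ℝ) := fun p =>
    Finset.sum_nonneg fun j _ => by exact_mod_cast (D.B p).m_nonneg j
  have hsum : 0 ≤ ∑ p : P, ∑ j, (((D.B p).m j : ℤ) : ℝ) := Finset.sum_nonneg fun p _ => hm0 p
  refine ⟨by rw [key]; linarith, fun heq => ?_⟩
  have hz : ∑ p : P, ∑ j, (((D.B p).m j : ℤ) : ℝ) = 0 := by
    rw [key] at heq
    linarith
  have hz1 : ∀ p : P, ∀ j, (D.B p).m j = 0 := by
    intro p j
    have h1 := (Finset.sum_eq_zero_iff_of_nonneg fun p _ => hm0 p).1 hz p (Finset.mem_univ _)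
    have h2 := (Finset.sum_eq_zero_iff_of_nonneg fun j _ => by
      exact_mod_cast (D.B p).m_nonneg j).1 h1 j (Finset.mem_univ _)
    exact_mod_cast h2
  constructor
  · intro x y hxy
    by_contra hne
    have hx := hFP x (hinj' x y hne hxy)
    obtain ⟨j, hj⟩ := f_eq_p c (p := c.f x) (n := x) rfl
    obtain ⟨j', hj'⟩ := f_eq_p c (p := c.f x) (n := y) hxy.symm
    have hjj : j ≠ j' := by
      rintro rfl
      exact hne (hj.symm.trans hj')
    have hn : 1 < (c.L (c.f x)).n := by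
      have h1 := j.2
      have h2 := j'.2
      have h3 : (j : ℕ) ≠ j' := fun h => hjj (Fin.ext h)
      omega
    have h4 := (D.B ⟨c.f x, hx⟩).m_pos j (Or.inl hn)
    have h5 := hz1 ⟨c.f x, hx⟩ j
    omega
  · intro i z hz2 h0
    set n := (c.A.c i).symm z with hn
    have hnF := himm' i z hz2 h0
    obtain ⟨j, hj⟩ := f_eq_p c (p := c.f n) (n := n) rfl
    have hx := hFP n hnF
    have hsrc : c.φ (c.f n) j 0 ∈ (c.A.c i).source := by
      rw [hj]; exact (c.A.c i).map_target hz2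
    -- the branch is not immersed at the centre
    have h1 : dmap ((c.L (c.f n)).u j) 0 1 = 0 := by
      have hcz : c.A.c i (c.φ (c.f n) j 0) = z := by
        rw [hj]; exact (c.A.c i).right_inv hz2
      have hopen : IsOpen {y | y ∈ ball (0 : ℂ) 1 ∧ c.φ (c.f n) j y ∈ (c.A.c i).source} :=
        isOpen_dom c (c.f n) j i
      have hmem : (0 : ℂ) ∈ {y | y ∈ ball (0 : ℂ) 1 ∧ c.φ (c.f n) j y ∈ (c.A.c i).source} :=
        ⟨zero_mem, hsrc⟩
      have hd : HasDerivAt (fun y => c.A.c i (c.φ (c.f n) j y))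
          (deriv (fun y => c.A.c i (c.φ (c.f n) j y)) 0) 0 :=
        ((c.φ_hol (c.f n) j i).differentiableAt (hopen.mem_nhds hmem)).hasDerivAt
      have hfd := hd.hasFDerivAt.restrictScalars ℝ
      have hg : ContMDiffAt 𝓘(ℝ, ℂ) 𝓘(ℝ, E4) ∞ (fun z => c.f ((c.A.c i).symm z))
          (c.A.c i (c.φ (c.f n) j 0)) := by
        rw [hcz]
        exact (c.hol i).smooth.contMDiffAt ((c.A.c i).open_target.mem_nhds hz2)
      have he : (c.L (c.f n)).u j =ᶠ[𝓝 0]
          fun y => (fun z => c.f ((c.A.c i).symm z)) (c.A.c i (c.φ (c.f n) j y)) := by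
        filter_upwards [hopen.mem_nhds hmem] with y hy
        rw [(c.A.c i).left_inv hy.2, c.φ_f _ _ _ hy.1]
      rw [AdjGen_83.dmap_congr he, AdjGen_83.dmap_comp hfd hg, hcz]
      set d := deriv (fun y => c.A.c i (c.φ (c.f n) j y)) 0 with hd'
      have e1 : ((ContinuousLinearMap.toSpanSingleton ℂ d).restrictScalars ℝ : ℂ →L[ℝ] ℂ) 1
          = d := by simp
      have hJh : ∀ v : ℂ, dmap (fun z => c.f ((c.A.c i).symm z)) z (Complex.I * v) =
          atJ J (c.f ((c.A.c i).symm z)) (dmap (fun z => c.f ((c.A.c i).symm z)) z v) :=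
        (c.hol i).jhol z hz2
      have hI : dmap (fun z => c.f ((c.A.c i).symm z)) z Complex.I = 0 := by
        have := hJh 1
        rw [mul_one, h0, map_zero] at this
        exact this
      have h2 : ∀ v : ℂ, dmap (fun z => c.f ((c.A.c i).symm z)) z v = 0 := by
        intro v
        have e2 : v = v.re • (1 : ℂ) + v.im • Complex.I := by apply Complex.ext <;> simp
        rw [e2, AdjGen_83.dmap_add, AdjGen_83.dmap_smul, AdjGen_83.dmap_smul, h0, hI]
        simp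
      exact h2 _
    have h4 := (D.B ⟨c.f n, hx⟩).m_pos j (Or.inr h1)
    have h5 := hz1 ⟨c.f n, hx⟩ j
    omega

end

end Crest.Agent.R235.AdjMain_43
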