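import Crest.Agent.R235.AdjPos_688
import Crest.Agent.R235.NWDefs_334

/-!
# Row 235 (S0364), package ADJ (helper43), leaf L4, second part (helper688)

An almost complex structure on a ball of `ℂ × ℂ` with holomorphically parametrised vertical discs:
the forms `dζ + μ dζ̄`, `dz + β dζ̄`.
-/

set_option autoImplicit false

open Complex Set Filter Topology Metric MeasureTheory
open scoped Real ContDiff

namespace Crest.Agent.R235.AdjMu_688

open Crest.Agent.R235.Wind_688 Crest.Agent.R235.CauchyV_679 Crest.Agent.R235.AdjPos_688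
open Crest.Agent.R235.NWDefs_334

noncomputable section

local notation "cj" => starRingEnd ℂ

/-- `a ↦ (T (a, 0)).1`, coefficients -/
def p1 (T : ℂ × ℂ →L[ℝ] ℂ × ℂ) : ℂ := (2 : ℂ)⁻¹ * ((T (1, 0)).1 - I * (T (I, 0)).1)
def p2 (T : ℂ × ℂ →L[ℝ] ℂ × ℂ) : ℂ := (2 : ℂ)⁻¹ * ((T (1, 0)).1 + I * (T (I, 0)).1)
def q1 (T : ℂ × ℂ →L[ℝ] ℂ × ℂ) : ℂ := (2 : ℂ)⁻¹ * ((T (1, 0)).2 - I * (T (I, 0)).2)
def q2 (T : ℂ × ℂ →L[ℝ] ℂ × ℂ) : ℂ := (2 : ℂ)⁻¹ * ((T (1, 0)).2 + I * (T (I, 0)).2)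

/-- the Beltrami coefficients -/
def mu (T : ℂ × ℂ →L[ℝ] ℂ × ℂ) : ℂ := p2 T / (I - cj (p1 T))
def be (T : ℂ × ℂ →L[ℝ] ℂ × ℂ) : ℂ := q2 T / (I - cj (p1 T))

theorem clm_expand (A : ℂ →L[ℝ] ℂ) (a : ℂ) :
    A a = (2 : ℂ)⁻¹ * (A 1 - I * A I) * a + (2 : ℂ)⁻¹ * (A 1 + I * A I) * cj a := by
  have h1 : a = a.re • (1 : ℂ) + a.im • I := by apply Complex.ext <;> simp
  have h2 : A a = a.re * A 1 + a.im * A I := by
    conv_lhs => rw [h1]
    rw [map_add, map_smul, map_smul, Complex.real_smul, Complex.real_smul]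
  have h3 : a = (a.re : ℂ) + a.im * I := (Complex.re_add_im a).symm
  have h4 : cj a = (a.re : ℂ) - a.im * I := by
    apply Complex.ext <;> simp
  rw [h2, h4]
  conv_rhs => rw [h3]
  have h5 : ((a.re : ℂ) + a.im * I).re = a.re := by simp
  have h6 : ((a.re : ℂ) + a.im * I).im = a.im := by simp
  rw [h5, h6]
  linear_combination ((a.im : ℂ) * A I) * Complex.I_sq

/-- vertical lines are `i`-invariant and `T² = -1` -/
structure VJ (T : ℂ × ℂ →L[ℝ] ℂ × ℂ) : Prop where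
  leaf : ∀ a : ℂ, T (0, a) = (0, I * a)
  sq : ∀ v, T (T v) = -v
  ne : I - cj (p1 T) ≠ 0

section lin

variable {T : ℂ × ℂ →L[ℝ] ℂ × ℂ}

theorem T_fst (h : ∀ a : ℂ, T (0, a) = (0, I * a)) (a b : ℂ) :
    (T (a, b)).1 = p1 T * a + p2 T * cj a := by
  have e1 : (T (a, b)).1 = (T (a, 0)).1 + (T (0, b)).1 := by
    have : ((a, b) : ℂ × ℂ) = (a, 0) + (0, b) := by simp
    rw [this, map_add]; rfl
  rw [e1, h b, add_zero]
  exact clm_expand ((ContinuousLinearMap.fst ℝ ℂ ℂ).comp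
    (T.comp (ContinuousLinearMap.inl ℝ ℂ ℂ))) a

theorem T_snd (h : ∀ a : ℂ, T (0, a) = (0, I * a)) (a b : ℂ) :
    (T (a, b)).2 = I * b + (q1 T * a + q2 T * cj a) := by
  have e1 : (T (a, b)).2 = (T (a, 0)).2 + (T (0, b)).2 := by
    have : ((a, b) : ℂ × ℂ) = (a, 0) + (0, b) := by simp
    rw [this, map_add]; rfl
  rw [e1, h b, add_comm]
  congr 1
  exact clm_expand ((ContinuousLinearMap.snd ℝ ℂ ℂ).comp
    (T.comp (ContinuousLinearMap.inl ℝ ℂ ℂ))) a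

/-- coefficients of `v ↦ a v + b v̄ = 0` -/
theorem coef_zero {a b : ℂ} (h : ∀ v : ℂ, a * v + b * cj v = 0) : a = 0 ∧ b = 0 := by
  have h1 := h 1
  have h2 := h I
  simp only [map_one, conj_I, mul_one] at h1 h2
  have h3 : I * (a * I + b * -I) = 0 := by rw [h2, mul_zero]
  have h4 : -a + b = 0 := by linear_combination h3 - (a - b) * Complex.I_sq
  constructor
  · linear_combination (2 : ℂ)⁻¹ * h1 - (2 : ℂ)⁻¹ * h4
  · linear_combination (2 : ℂ)⁻¹ * h1 + (2 : ℂ)⁻¹ * h4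

theorem rel_p (hT : VJ T) : p1 T ^ 2 + p2 T * cj (p2 T) = -1 ∧ p2 T * (p1 T + cj (p1 T)) = 0 := by
  have h : ∀ v : ℂ, (p1 T ^ 2 + p2 T * cj (p2 T) + 1) * v +
      (p2 T * (p1 T + cj (p1 T))) * cj v = 0 := by
    intro v
    have e1 := congrArg Prod.fst (hT.sq (v, 0))
    have e2 : T (v, 0) = ((T (v, 0)).1, (T (v, 0)).2) := rfl
    rw [e2, T_fst hT.leaf, T_fst hT.leaf] at e1
    simp only [Prod.fst_neg, map_add, map_mul, Complex.conj_conj] at e1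
    linear_combination e1
  obtain ⟨h1, h2⟩ := coef_zero h
  exact ⟨by linear_combination h1, h2⟩

theorem rel_q (hT : VJ T) : q1 T * (p1 T + I) + q2 T * cj (p2 T) = 0 ∧
    q1 T * p2 T + q2 T * (cj (p1 T) + I) = 0 := by
  have h : ∀ v : ℂ, (q1 T * (p1 T + I) + q2 T * cj (p2 T)) * v +
      (q1 T * p2 T + q2 T * (cj (p1 T) + I)) * cj v = 0 := by
    intro v
    have e1 := congrArg Prod.snd (hT.sq (v, 0))
    have e2 : T (v, 0) = ((T (v, 0)).1, (T (v, 0)).2) := rfl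
    rw [e2, T_snd hT.leaf, T_fst hT.leaf, T_snd hT.leaf] at e1
    simp only [Prod.snd_neg, map_add, map_mul, Complex.conj_conj] at e1
    linear_combination e1
  exact coef_zero h

/-- `p1` is imaginary -/
theorem p1_conj (hT : VJ T) : cj (p1 T) = -p1 T := by
  obtain ⟨h1, h2⟩ := rel_p hT
  rcases mul_eq_zero.1 h2 with h3 | h3
  · rw [h3, zero_mul, add_zero] at h1
    have h4 : (p1 T - I) * (p1 T + I) = 0 := by linear_combination h1 - Complex.I_sq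
    rcases mul_eq_zero.1 h4 with h5 | h5
    · have : p1 T = I := by linear_combination h5
      rw [this, conj_I]
    · have : p1 T = -I := by linear_combination h5
      rw [this, map_neg, conj_I]
  · linear_combination h3

/-- the form `dζ + μ dζ̄` is of type `(1,0)` -/
theorem th1 (hT : VJ T) (v : ℂ × ℂ) :
    (T v).1 + mu T * cj (T v).1 = I * (v.1 + mu T * cj v.1) := by
  obtain ⟨h1, h2⟩ := rel_p hT
  have h3 := p1_conj hT
  have h4 := hT.ne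
  obtain ⟨a, b⟩ := v
  rw [T_fst hT.leaf]
  simp only [map_add, map_mul, Complex.conj_conj]
  rw [mu]
  rw [h3] at h4 ⊢
  have h5 : I - -p1 T ≠ 0 := h4
  field_simp
  have h6 : p2 T * cj (p2 T) = -1 - p1 T ^ 2 := by linear_combination h1
  linear_combination (a : ℂ) * h6 - a * Complex.I_sq

theorem th2 (hT : VJ T) (v : ℂ × ℂ) :
    (T v).2 + be T * cj (T v).1 = I * (v.2 + be T * cj v.1) := by
  obtain ⟨h1, h2⟩ := rel_q hT
  have h3 := p1_conj hT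
  have h4 := hT.ne
  obtain ⟨a, b⟩ := v
  rw [T_snd hT.leaf, T_fst hT.leaf]
  simp only [map_add, map_mul, Complex.conj_conj]
  rw [be]
  rw [h3] at h4 ⊢
  have h5 : I - -p1 T ≠ 0 := h4
  field_simp
  linear_combination (a : ℂ) * h1

/-- complex linear forms killing the vertical direction -/
theorem form_eq (hT : VJ T) (A : ℂ × ℂ →L[ℝ] ℂ) (hA : ∀ v, A (T v) = I * A v)
    (h0 : A (0, 1) = 0) (v : ℂ × ℂ) :
    A v = (2 : ℂ)⁻¹ * (A (1, 0) - I * A (I, 0)) * (v.1 + mu T * cj v.1) := by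
  have hI : A (0, I) = 0 := by
    have h1 := hA (0, 1)
    rw [hT.leaf, mul_one, h0, mul_zero] at h1
    exact h1
  have hv : ∀ a b : ℂ, A (a, b) = A (a, 0) := by
    intro a b
    have e1 : ((a, b) : ℂ × ℂ) = (a, 0) + b.re • ((0 : ℂ), (1 : ℂ)) + b.im • ((0 : ℂ), I) := by
      refine Prod.ext ?_ ?_
      · simp
      · simp
    rw [e1, map_add, map_add, map_smul, map_smul, h0, hI]
    simp
  set α : ℂ := (2 : ℂ)⁻¹ * (A (1, 0) - I * A (I, 0)) with hα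
  set β : ℂ := (2 : ℂ)⁻¹ * (A (1, 0) + I * A (I, 0)) with hβ
  have hab : ∀ a : ℂ, A (a, 0) = α * a + β * cj a := fun a =>
    clm_expand (A.comp (ContinuousLinearMap.inl ℝ ℂ ℂ)) a
  have hc : ∀ a : ℂ, (α * p1 T + β * cj (p2 T) - I * α) * a +
      (α * p2 T + β * cj (p1 T) - I * β) * cj a = 0 := by
    intro a
    have e1 := hA (a, 0)
    have e2 : T (a, 0) = ((T (a, 0)).1, (T (a, 0)).2) := rfl
    rw [e2, hv, hab, hab, T_fst hT.leaf] at e1
    simp only [map_add, map_mul, Complex.conj_conj] at e1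
    linear_combination e1
  obtain ⟨-, h2⟩ := coef_zero hc
  obtain ⟨a, b⟩ := v
  rw [hv, hab, mu]
  have h4 := hT.ne
  field_simp
  linear_combination (-(cj a)) * h2

end lin

/-! ### the box -/

theorem contDiffOn_coef {J : ℂ × ℂ → ℂ × ℂ →L[ℝ] ℂ × ℂ} {s : Set (ℂ × ℂ)}
    (hJ : ContDiffOn ℝ ∞ J s) :
    ContDiffOn ℝ ∞ (fun x => p1 (J x)) s ∧ ContDiffOn ℝ ∞ (fun x => p2 (J x)) s ∧
      ContDiffOn ℝ ∞ (fun x => q2 (J x)) s := by
  have h : ∀ v : ℂ × ℂ, ContDiffOn ℝ ∞ (fun x => J x v) s := fun v =>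
    hJ.clm_apply contDiffOn_const
  have h1 : ∀ v : ℂ × ℂ, ContDiffOn ℝ ∞ (fun x => (J x v).1) s := fun v => (h v).fst
  have h2 : ∀ v : ℂ × ℂ, ContDiffOn ℝ ∞ (fun x => (J x v).2) s := fun v => (h v).snd
  refine ⟨?_, ?_, ?_⟩
  · exact contDiffOn_const.mul ((h1 _).sub (contDiffOn_const.mul (h1 _)))
  · exact contDiffOn_const.mul ((h1 _).add (contDiffOn_const.mul (h1 _)))
  · exact contDiffOn_const.mul ((h2 _).add (contDiffOn_const.mul (h2 _)))

/-- the data of a box of radius `δ` -/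
structure MB (J : ℂ × ℂ → ℂ × ℂ →L[ℝ] ℂ × ℂ) (δ L : ℝ) : Prop where
  pos : 0 < δ
  posL : 0 ≤ L
  vj : ∀ x ∈ ball (0 : ℂ × ℂ) δ, VJ (J x)
  smu : ContDiffOn ℝ ∞ (fun x => mu (J x)) (ball 0 δ)
  sbe : ContDiffOn ℝ ∞ (fun x => be (J x)) (ball 0 δ)
  mle : ∀ x ∈ ball (0 : ℂ × ℂ) δ, ‖mu (J x)‖ ≤ 1 / 2
  ble : ∀ x ∈ ball (0 : ℂ × ℂ) δ, ‖be (J x)‖ ≤ 1
  mlip : ∀ x ∈ ball (0 : ℂ × ℂ) δ, ∀ y ∈ ball (0 : ℂ × ℂ) δ,
    ‖mu (J x) - mu (J y)‖ ≤ L * ‖x - y‖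
  blip : ∀ x ∈ ball (0 : ℂ × ℂ) δ, ∀ y ∈ ball (0 : ℂ × ℂ) δ,
    ‖be (J x) - be (J y)‖ ≤ L * ‖x - y‖

theorem lip_of {f : ℂ × ℂ → ℂ} {R : ℝ} (hR : 0 < R) (hf : ContDiffOn ℝ ∞ f (ball 0 R)) :
    ∃ L : ℝ, 0 ≤ L ∧ ∀ x ∈ ball (0 : ℂ × ℂ) (R / 2), ∀ y ∈ ball (0 : ℂ × ℂ) (R / 2),
      ‖f x - f y‖ ≤ L * ‖x - y‖ := by
  have h1 : ContinuousOn (fderiv ℝ f) (closedBall 0 (R / 2)) :=
    (hf.continuousOn_fderiv_of_isOpen isOpen_ball (by norm_num)).mono
      (closedBall_subset_ball (by linarith))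
  obtain ⟨L, hL⟩ := (isCompact_closedBall (0 : ℂ × ℂ) (R / 2)).exists_bound_of_continuousOn h1
  refine ⟨max L 0, le_max_right _ _, fun x hx y hy => ?_⟩
  refine (convex_ball (0 : ℂ × ℂ) (R / 2)).norm_image_sub_le_of_norm_fderiv_le (𝕜 := ℝ)
    (fun z hz => ?_) (fun z hz => (hL z (ball_subset_closedBall hz)).trans (le_max_left _ _)) hy hx
  exact (hf.contDiffAt (isOpen_ball.mem_nhds (ball_subset_ball (by linarith) hz))).differentiableAt
    (by norm_num)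

theorem exists_mb {J : ℂ × ℂ → ℂ × ℂ →L[ℝ] ℂ × ℂ} {R : ℝ} (hR : 0 < R)
    (hJ : ContDiffOn ℝ ∞ J (ball 0 R)) (hsq : ∀ x ∈ ball (0 : ℂ × ℂ) R, ∀ v, J x (J x v) = -v)
    (hleaf : ∀ x ∈ ball (0 : ℂ × ℂ) R, ∀ a : ℂ, J x (0, a) = (0, I * a))
    (h0 : ∀ v, J 0 v = I • v) : ∃ δ L : ℝ, δ ≤ R ∧ MB J δ L := by
  obtain ⟨c1, c2, c3⟩ := contDiffOn_coef hJ
  have e1 : p1 (J 0) = I := by
    rw [p1, h0, h0]
    simp only [Prod.smul_fst, smul_eq_mul]
    linear_combination (-(2 : ℂ)⁻¹ * I) * Complex.I_sq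
  have e2 : p2 (J 0) = 0 := by
    rw [p2, h0, h0]
    simp only [Prod.smul_fst, smul_eq_mul]
    linear_combination ((2 : ℂ)⁻¹ * I) * Complex.I_sq
  have e3 : q2 (J 0) = 0 := by
    rw [q2, h0, h0]
    simp
  have hn0 : I - cj (p1 (J 0)) ≠ 0 := by
    rw [e1, conj_I]; simp
  -- shrink
  have hball : ball (0 : ℂ × ℂ) R ∈ 𝓝 (0 : ℂ × ℂ) := ball_mem_nhds _ hR
  have hc : ContinuousAt (fun x => I - cj (p1 (J x))) 0 :=
    continuousAt_const.sub (Complex.continuous_conj.continuousAt.comp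
      (c1.continuousOn.continuousAt hball))
  have hcm : ContinuousAt (fun x => mu (J x)) 0 :=
    (c2.continuousOn.continuousAt hball).div hc hn0
  have hcb : ContinuousAt (fun x => be (J x)) 0 :=
    (c3.continuousOn.continuousAt hball).div hc hn0
  have hm0 : mu (J 0) = 0 := by rw [mu, e2, zero_div]
  have hb0 : be (J 0) = 0 := by rw [be, e3, zero_div]
  have f1 : ∀ᶠ x in 𝓝 (0 : ℂ × ℂ), I - cj (p1 (J x)) ≠ 0 := hc.eventually_ne hn0
  have f2 : ∀ᶠ x in 𝓝 (0 : ℂ × ℂ), ‖mu (J x)‖ < 1 / 2 :=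
    ContinuousAt.eventually_lt hcm.norm continuousAt_const (by rw [hm0]; norm_num)
  have f3 : ∀ᶠ x in 𝓝 (0 : ℂ × ℂ), ‖be (J x)‖ < 1 :=
    ContinuousAt.eventually_lt hcb.norm continuousAt_const (by rw [hb0]; norm_num)
  obtain ⟨δ, hδ, hd⟩ := Metric.eventually_nhds_iff_ball.1 (f1.and (f2.and (f3.and hball)))
  have hdR : ball (0 : ℂ × ℂ) δ ⊆ ball 0 R := fun x hx => (hd x hx).2.2.2
  have smu : ContDiffOn ℝ ∞ (fun x => mu (J x)) (ball 0 δ) := by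
    have h1 : ContDiffOn ℝ ∞ (fun x => I - cj (p1 (J x))) (ball 0 δ) :=
      contDiffOn_const.sub ((Complex.conjCLE.contDiff).comp_contDiffOn (c1.mono hdR))
    have h2 := (c2.mono hdR).mul (h1.inv fun x hx => (hd x hx).1)
    exact h2.congr fun x _ => by rw [mu, div_eq_mul_inv]; rfl
  have sbe : ContDiffOn ℝ ∞ (fun x => be (J x)) (ball 0 δ) := by
    have h1 : ContDiffOn ℝ ∞ (fun x => I - cj (p1 (J x))) (ball 0 δ) :=
      contDiffOn_const.sub ((Complex.conjCLE.contDiff).comp_contDiffOn (c1.mono hdR))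
    have h2 := (c3.mono hdR).mul (h1.inv fun x hx => (hd x hx).1)
    exact h2.congr fun x _ => by rw [be, div_eq_mul_inv]; rfl
  obtain ⟨L1, hL1, hl1⟩ := lip_of hδ smu
  obtain ⟨L2, hL2, hl2⟩ := lip_of hδ sbe
  set δ' : ℝ := min (δ / 2) R with hδ'
  have hs : ball (0 : ℂ × ℂ) δ' ⊆ ball 0 (δ / 2) := ball_subset_ball (min_le_left _ _)
  have hs' : ball (0 : ℂ × ℂ) δ' ⊆ ball 0 δ := hs.trans (ball_subset_ball (by linarith))
  refine ⟨δ', max L1 L2, min_le_right _ _, ⟨lt_min (by positivity) hR, hL1.trans (le_max_left _ _),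
    fun x hx => ⟨hleaf x (hdR (hs' hx)), hsq x (hdR (hs' hx)), (hd x (hs' hx)).1⟩,
    smu.mono hs', sbe.mono hs', fun x hx => (hd x (hs' hx)).2.1.le,
    fun x hx => (hd x (hs' hx)).2.2.1.le, fun x hx y hy => ?_, fun x hx y hy => ?_⟩⟩
  · refine (hl1 x (hs hx) y (hs hy)).trans ?_
    gcongr; exact le_max_left _ _
  · refine (hl2 x (hs hx) y (hs hy)).trans ?_
    gcongr; exact le_max_right _ _

/-- `J`-holomorphic maps satisfy the Beltrami system -/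
theorem jc_of {T : ℂ × ℂ →L[ℝ] ℂ × ℂ} (hT : VJ T) {J : ℂ × ℂ → ℂ × ℂ →L[ℝ] ℂ × ℂ}
    {u : ℂ → ℂ × ℂ} {s : ℂ} (hTs : J (u s) = T) (hd : DifferentiableAt ℝ u s)
    (hu : ∀ v : ℂ, fderiv ℝ u s (I * v) = J (u s) (fderiv ℝ u s v)) :
    JC (fun x => mu (J x)) (fun x => be (J x)) (fun s => (u s).1) (fun s => (u s).2) s := by
  have hf1 : ∀ v, fderiv ℝ (fun s => (u s).1) s v = (fderiv ℝ u s v).1 := fun v => by
    have h : HasFDerivAt (fun s => (u s).1) ((ContinuousLinearMap.fst ℝ ℂ ℂ).comp (fderiv ℝ u s)) s :=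
      hasFDerivAt_fst.comp s hd.hasFDerivAt
    rw [h.fderiv]; rfl
  have hf2 : ∀ v, fderiv ℝ (fun s => (u s).2) s v = (fderiv ℝ u s v).2 := fun v => by
    have h : HasFDerivAt (fun s => (u s).2) ((ContinuousLinearMap.snd ℝ ℂ ℂ).comp (fderiv ℝ u s)) s :=
      hasFDerivAt_snd.comp s hd.hasFDerivAt
    rw [h.fderiv]; rfl
  set p := dlz (fun s => (u s).1) s with hp
  set d := db (fun s => (u s).1) s with hdd
  set q := dlz (fun s => (u s).2) s with hq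
  set e := db (fun s => (u s).2) s with he
  have g1 : ∀ v, (fderiv ℝ u s v).1 = p * v + d * cj v := fun v => by
    rw [← hf1, AdjPos_688.fderiv_eq]
  have g2 : ∀ v, (fderiv ℝ u s v).2 = q * v + e * cj v := fun v => by
    rw [← hf2, AdjPos_688.fderiv_eq]
  have h1 : ∀ v : ℂ, (0 : ℂ) * v + (d + mu T * cj p) * cj v = 0 := by
    intro v
    have h2 := th1 hT (fderiv ℝ u s v)
    rw [← hTs, ← hu v, hTs, g1, g1] at h2
    simp only [map_add, map_mul, map_neg, Complex.conj_conj, conj_I] at h2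
    have h3 : I * ((d + mu T * cj p) * cj v) = 0 := by
      linear_combination (-(2 : ℂ)⁻¹) * h2
    have h4 := (mul_eq_zero.1 h3).resolve_left I_ne_zero
    rw [h4]; ring
  have h1' : ∀ v : ℂ, (0 : ℂ) * v + (e + be T * cj p) * cj v = 0 := by
    intro v
    have h2 := th2 hT (fderiv ℝ u s v)
    rw [← hTs, ← hu v, hTs, g1, g1, g2, g2] at h2
    simp only [map_add, map_mul, map_neg, Complex.conj_conj, conj_I] at h2
    have h3 : I * ((e + be T * cj p) * cj v) = 0 := by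
      linear_combination (-(2 : ℂ)⁻¹) * h2
    have h4 := (mul_eq_zero.1 h3).resolve_left I_ne_zero
    rw [h4]; ring
  have k1 := (coef_zero h1).2
  have k2 := (coef_zero h1').2
  refine ⟨?_, ?_⟩
  · show d = -mu (J ((u s).1, (u s).2)) * cj p
    have : J ((u s).1, (u s).2) = T := hTs
    rw [this]; linear_combination k1
  · show e = -be (J ((u s).1, (u s).2)) * cj p
    have : J ((u s).1, (u s).2) = T := hTs
    rw [this]; linear_combination k2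

/-! ### the first component of a disc: isolated zeros -/

theorem db_conj {f : ℂ → ℂ} {s : ℂ} (hf : DifferentiableAt ℝ f s) :
    db (fun t => cj (f t)) s = cj (dlz f s) := by
  refine (coef_unique (a := cj (db f s)) (b := cj (dlz f s)) fun v => ?_).2
  have h1 : HasFDerivAt (fun t => cj (f t)) ((Complex.conjCLE : ℂ →L[ℝ] ℂ).comp (fderiv ℝ f s)) s :=
    (Complex.conjCLE : ℂ →L[ℝ] ℂ).hasFDerivAt.comp s hf.hasFDerivAt
  rw [h1.fderiv]
  show cj (fderiv ℝ f s v) = _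
  rw [AdjPos_688.fderiv_eq]
  simp only [map_add, map_mul, Complex.conj_conj]
  ring

theorem zeta_isolated {J : ℂ × ℂ → ℂ × ℂ →L[ℝ] ℂ × ℂ} {δ L : ℝ} (hB : MB J δ L) {u : ℂ → ℂ × ℂ}
    {r : ℝ} (hr : 0 < r) (hu : ContDiffOn ℝ 2 u (ball 0 r)) (hub : ∀ s ∈ ball (0 : ℂ) r, u s ∈ ball 0 δ)
    (hJ : JHol J u (ball 0 r)) :
    (∀ᶠ s in 𝓝 (0 : ℂ), (u s).1 = 0) ∨ ∀ᶠ s in 𝓝[≠] (0 : ℂ), (u s).1 ≠ 0 := by
  set ζ : ℂ → ℂ := fun s => (u s).1 with hζ
  set m : ℂ → ℂ := fun s => mu (J (u s)) with hm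
  set ξ : ℂ → ℂ := fun s => ζ s + m s * cj (ζ s) with hξ
  have h0 := ball_mem_nhds (0 : ℂ) hr
  have hζc : ContDiffOn ℝ 2 ζ (ball 0 r) := hu.fst
  have hmc : ContDiffOn ℝ 2 m (ball 0 r) :=
    ((hB.smu.of_le (WithTop.coe_le_coe.2 le_top)).comp hu hub)
  have hξc : ContDiffOn ℝ 2 ξ (ball 0 r) :=
    hζc.add (hmc.mul (Complex.conjCLE.contDiff.comp_contDiffOn hζc))
  have hlow : ∀ s ∈ ball (0 : ℂ) r, ‖ζ s‖ ≤ 2 * ‖ξ s‖ := by
    intro s hs
    have h1 : ζ s = ξ s - m s * cj (ζ s) := by rw [hξ]; ring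
    have h2 : ‖ζ s‖ ≤ ‖ξ s‖ + ‖m s * cj (ζ s)‖ := by
      conv_lhs => rw [h1]
      exact norm_sub_le _ _
    rw [norm_mul, RCLike.norm_conj] at h2
    have h3 : ‖m s‖ ≤ 1 / 2 := hB.mle _ (hub s hs)
    nlinarith [norm_nonneg (ζ s)]
  have hdbm : ∃ C, ∀ᶠ s in 𝓝 (0 : ℂ), ‖db m s‖ ≤ C := by
    have h1 : ContinuousAt (fderiv ℝ m) 0 :=
      (hmc.continuousOn_fderiv_of_isOpen isOpen_ball (by norm_num)).continuousAt h0
    have h2 : ∀ᶠ s in 𝓝 (0 : ℂ), ‖fderiv ℝ m s‖ < ‖fderiv ℝ m 0‖ + 1 :=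
      h1.norm.eventually (Iio_mem_nhds (by linarith))
    refine ⟨‖fderiv ℝ m 0‖ + 1, ?_⟩
    filter_upwards [h2] with s hs
    rw [db_def, norm_mul, norm_inv]
    have h3 : ‖fderiv ℝ m s 1‖ ≤ ‖fderiv ℝ m s‖ := by
      simpa using (fderiv ℝ m s).le_opNorm 1
    have h4 : ‖I * fderiv ℝ m s I‖ ≤ ‖fderiv ℝ m s‖ := by
      rw [norm_mul, norm_I, one_mul]
      simpa using (fderiv ℝ m s).le_opNorm I
    have h5 := norm_add_le (fderiv ℝ m s 1) (I * fderiv ℝ m s I)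
    have h6 : ‖(2 : ℂ)‖ = 2 := by simp
    rw [h6]; linarith
  obtain ⟨C, hC⟩ := hdbm
  have hsub : Sim3_679.Sub ξ 0 := by
    refine ⟨2 * max C 0, ?_⟩
    filter_upwards [hC, h0] with s hs hsr
    have hn := isOpen_ball.mem_nhds hsr
    have d1 : DifferentiableAt ℝ ζ s := (hζc.contDiffAt hn).differentiableAt (by norm_num)
    have d2 : DifferentiableAt ℝ m s := (hmc.contDiffAt hn).differentiableAt (by norm_num)
    have d3 : DifferentiableAt ℝ (fun t => cj (ζ t)) s :=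
      (Complex.conjCLE : ℂ →L[ℝ] ℂ).differentiableAt.comp s d1
    have hjc := jc_of (hB.vj _ (hub s hsr)) rfl (hJ s hsr).1 (hJ s hsr).2
    have e1 : db ζ s = -m s * cj (dlz ζ s) := hjc.eζ
    have e2 : db ξ s = db m s * cj (ζ s) := by
      have h1 : db ξ s = db ζ s + db (fun t => m t * cj (ζ t)) s := by
        have d4 : DifferentiableAt ℝ (fun t => m t * cj (ζ t)) s := d2.mul d3
        rw [db_def, db_def, db_def, hξ, fderiv_fun_add d1 d4]
        simp only [_root_.add_apply]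
        ring
      rw [h1, db_mul d2 d3, db_conj d1, e1]; ring
    rw [e2, norm_mul, RCLike.norm_conj]
    have := hlow s hsr
    calc ‖db m s‖ * ‖ζ s‖ ≤ max C 0 * (2 * ‖ξ s‖) := by
          gcongr
          exact hs.trans (le_max_left _ _)
      _ = 2 * max C 0 * ‖ξ s‖ := by ring
  rcases Sim3_679.isolated ((hξc.contDiffAt h0).of_le (by norm_num)) hsub with h | h
  · left
    filter_upwards [h, h0] with s hs hsr
    have := hlow s hsr
    rw [hs, norm_zero, mul_zero] at this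
    exact norm_le_zero_iff.1 this
  · right
    filter_upwards [h] with s hs h1
    apply hs
    have h2 : ζ s = 0 := h1
    rw [hξ]; simp [h2]

end

end Crest.Agent.R235.AdjMu_688
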