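import Crest.Agent.R235.AdjPair_43

/-!
Row 235 (S0364), PACKAGE ADJ, helper43: leaves of the assembly `AdjMain_43`.

* `CUTF`  : smooth representative of `dArg F ∧ dχ` near a closed set
* `BRINT` : the integral of `dArg F ∧ dχ` over a disc is a winding number
* `DEGS`  : a section of `K` in the parametrisations `φ p j`; the degree as a sum over branches
* `BCH`   : chain rule for `σ(v, ∂u)`
-/

set_option autoImplicit false
set_option maxSynthPendingDepth 3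

open Set Function Filter MeasureTheory Metric
open scoped Manifold ContDiff Topology

universe u

namespace Crest.Agent.R235.Adj

open Crest.Agent.R240 Crest.Agent.R240.Ch Crest.Agent.R240.Int
open Crest.Agent.R235 Crest.Agent.R235.Glob_370 Crest.Agent.R235.Wind_688

noncomputable section

/-- **CUTF**: smooth representative of `dArg F ∧ dχ` near `K`. -/
def CUTF : Prop :=
  ∀ (M : Type u) [TopologicalSpace M] [T2Space M] [CompactSpace M] [ConnectedSpace M]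
    [ChartedSpace E4 M] [IsManifold 𝓘(ℝ, E4) ∞ M] (F : M → ℂ) (χ : M → ℝ) (Ω K D : Set M),
    IsOpen Ω → (∀ x ∈ Ω, SmAt F x) → (∀ x ∈ Ω, F x ≠ 0) → SmoothF E4 χ →
    IsClosed K → IsClosed D → (∀ x ∉ D, at1 (dF χ : F1 E4 M) x = 0) → K ∩ D ⊆ Ω →
    ∃ (B : X2 M) (N : Set M), IsOpen N ∧ K ⊆ N ∧
      (∀ x ∈ N, at2 (B : F2 E4 M) x = at2 (wedG (dArg F) (dF χ)) x) ∧
      ∀ x ∉ D, at2 (B : F2 E4 M) x = 0

/-- **BRINT**: the integral of `dArg F ∧ dχ` over a disc is the winding number of `F ∘ h`. -/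
def BRINT : Prop :=
  ∀ (M : Type u) [TopologicalSpace M] [T2Space M] [CompactSpace M] [ConnectedSpace M]
    [ChartedSpace E4 M] [IsManifold 𝓘(ℝ, E4) ∞ M] (F : M → ℂ) (χ : M → ℝ) (h : ℂ → M) (B : X2 M)
    (ρ1 ρ ρ2 ρ3 : ℝ) (n : ℤ), 0 < ρ1 → ρ1 < ρ → ρ < ρ2 → ρ2 < ρ3 → ρ3 ≤ 1 →
    ContMDiffOn 𝓘(ℝ, ℂ) 𝓘(ℝ, E4) ∞ h (ball 0 1) → SmoothF E4 χ →
    (∀ z : ℂ, ρ1 < ‖z‖ → ‖z‖ < ρ3 → SmAt F (h z) ∧ F (h z) ≠ 0) →
    (∀ z ∈ closedBall (0 : ℂ) ρ, χ =ᶠ[𝓝 (h z)] fun _ => 1) →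
    (∀ z ∈ ball (0 : ℂ) 1, ρ2 ≤ ‖z‖ → χ =ᶠ[𝓝 (h z)] fun _ => 0) →
    (∀ z ∈ ball (0 : ℂ) 1, at2 (B : F2 E4 M) (h z) = at2 (wedG (dArg F) (dF χ)) (h z)) →
    IsW (fun z => F (h z)) 0 ρ n →
    ∫ z in ball (0 : ℂ) 1, pb h (B : F2 E4 M) z = n

section Sec

variable {M : Type u} [TopologicalSpace M] [T2Space M] [CompactSpace M]
  [ChartedSpace E4 M] [IsManifold 𝓘(ℝ, E4) ∞ M] {J : EndF E4 M} {c : JCurve J}

/-- the section `k` in the parametrisation `φ p j` (chart `i`). -/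
def secφ (k : KSec c.A) (p : M) (j : Fin (c.L p).n) (i : c.A.ι) (z : ℂ) : ℂ :=
  k.s i (c.A.c i (c.φ p j z)) * deriv (fun z => c.A.c i (c.φ p j z)) z

open Classical in
/-- the order of the section at the centre of the branch `j` at `p`. -/
def ordφ (k : KSec c.A) (p : M) (j : Fin (c.L p).n) : ℤ :=
  if c.φ p j 0 ∈ k.Z then k.ord (c.φ p j 0) else 0

end Sec

/-- **DEGS**: the section on the branches, and its degree. -/
def DEGS : Prop :=
  ∀ (M : Type u) [TopologicalSpace M] [T2Space M] [CompactSpace M] [ConnectedSpace M]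
    [ChartedSpace E4 M] [IsManifold 𝓘(ℝ, E4) ∞ M] (J : EndF E4 M) (c : JCurve J) (k : KSec c.A),
    (∀ (p : M) (j : Fin (c.L p).n) (i : c.A.ι), c.φ p j 0 ∈ (c.A.c i).source →
      ∀ᶠ r in 𝓝[>] (0 : ℝ), IsW (secφ k p j i) 0 r (ordφ k p j)) ∧
    ∀ P : Finset M, (∀ x ∈ k.Z, c.f x ∈ P) → ∑ p ∈ P, ∑ j, ordφ k p j = k.deg

/-- **BCH**: chain rule for `σ(v, ∂u)` along the branches. -/
def BCH : Prop :=
  ∀ (M : Type u) [TopologicalSpace M] [T2Space M] [CompactSpace M] [ConnectedSpace M]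
    [ChartedSpace E4 M] [IsManifold 𝓘(ℝ, E4) ∞ M] (w : Trip M) (J : EndF E4 M), IsJ w J →
    ∀ (c : JCurve J) (p : M) (j : Fin (c.L p).n) (i : c.A.ι), ∀ z ∈ ball (0 : ℂ) 1,
      c.φ p j z ∈ (c.A.c i).source → ∀ v : E4,
      sg w J ((c.L p).u j z) v (dmap ((c.L p).u j) z 1) =
        sg w J ((c.L p).u j z) v
          (dmap (fun z => c.f ((c.A.c i).symm z)) (c.A.c i (c.φ p j z)) 1) *
        deriv (fun z => c.A.c i (c.φ p j z)) z

end

end Crest.Agent.R235.Adj
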