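import Crest.Agent.R235.AdjBox_43
import Crest.Agent.R235.AdjInt_43

/-!
Row 235 (S0364), PACKAGE ADJ, helper43: boxes adapted to a second curve `c'` (the vertical leaf
through `p` meets `c'` only at `p`).  `FBOXP` replaces `FBOX`, `BOXP` replaces `BOX`.
-/

set_option autoImplicit false
set_option maxSynthPendingDepth 3

open Set Function Filter MeasureTheory Metric
open scoped Manifold ContDiff Topology

universe u

namespace Crest.Agent.R235.Adj

open Crest.Agent.R240 Crest.Agent.R240.Ch Crest.Agent.R240.Int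
open Crest.Agent.R235 Crest.Agent.R235.Glob_370 Crest.Agent.R235.Wind_688

noncomputable section

/-- **FBOXP** (owner 130): foliation boxes of `c` at `p` whose vertical leaf through `p` meets the
second curve `c'` at most at `p` (choose the direction of the leaf at `p` transverse to the
branches of `c` and of `c'`). -/
def FBOXP : Prop :=
  ∀ (M : Type u) [TopologicalSpace M] [T2Space M] [CompactSpace M] [ConnectedSpace M]
    [ChartedSpace E4 M] [IsManifold 𝓘(ℝ, E4) ∞ M] (J : EndF E4 M), SmoothJ J →
    (∀ x v, atJ J x (atJ J x v) = -v) →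
    ∀ (c c' : JCurve J) (p : M) (V : Set M), IsOpen V → p ∈ V → p ∈ range c.f →
      ∃ B : FBox c p V, ∀ x ∈ ball (0 : ℂ × ℂ) B.R, x.1 = 0 → B.Θ x ∈ range c'.f → x = 0

/-- **BOXP** (local theory of a `J`-curve, exceptional leaf transverse to `c'`). -/
def BOXP : Prop :=
  ∀ (M : Type u) [TopologicalSpace M] [T2Space M] [CompactSpace M] [ConnectedSpace M]
    [ChartedSpace E4 M] [IsManifold 𝓘(ℝ, E4) ∞ M] (w : Trip M) (J : EndF E4 M), Pos3 w → IsJ w J →
    ∀ (c c' : JCurve J) (p : M) (V : Set M), IsOpen V → p ∈ V → p ∈ range c.f →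
      ∃ B : Box w c p V, ∀ x ∈ B.U, x ∈ B.E → x ∈ range c'.f → x = p

end

end Crest.Agent.R235.Adj
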