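import Crest.Agent.R235.Sim3_679

/-!
Row 235, NW4 (S2): similarity principle for `∂_s w + J(z) ∂_t w = O(|w|)`; differences of
`J`-holomorphic discs.
-/

set_option autoImplicit false

noncomputable section

namespace Crest.Agent.R235.SimJ_679

open Set Metric MeasureTheory Filter Topology Asymptotics
open scoped ContDiff NNReal Real
open Crest.Agent.R235.CauchyV_679 Crest.Agent.R235.Sim_679 Crest.Agent.R235.Sim2_679
open Crest.Agent.R235.Sim3_679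

/-! ### complex structures on real spaces -/

theorem cplx_aux {E : Type*} [AddCommGroup E] [Module ℝ E] [FiniteDimensional ℝ E] [Module ℂ E]
    [IsScalarTower ℝ ℂ E] :
    ∃ n : ℕ, ∃ L : E ≃ₗ[ℝ] (EuclideanSpace ℂ (Fin n)), ∀ x, L (Complex.I • x) = Complex.I • L x := by
  have h1 : FiniteDimensional ℂ E := Module.Finite.of_restrictScalars_finite ℝ ℂ E
  let b := Module.finBasis ℂ E
  let L : E ≃ₗ[ℂ] (Fin (Module.finrank ℂ E) → ℂ) := b.equivFun
  let L' : E ≃ₗ[ℂ] EuclideanSpace ℂ (Fin (Module.finrank ℂ E)) :=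
    L.trans (EuclideanSpace.equiv (Fin (Module.finrank ℂ E)) ℂ).symm.toLinearEquiv
  refine ⟨Module.finrank ℂ E, L'.restrictScalars ℝ, fun x => ?_⟩
  exact map_smul L' _ _

variable {E : Type*} [NormedAddCommGroup E] [NormedSpace ℝ E]

/-- the action of `c ∈ ℂ` through `J` -/
def act (J : E →L[ℝ] E) (c : ℂ) : E →L[ℝ] E := c.re • ContinuousLinearMap.id ℝ E + c.im • J

theorem act_apply (J : E →L[ℝ] E) (c : ℂ) (x : E) : act J c x = c.re • x + c.im • J x := rfl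

theorem exists_cplx [FiniteDimensional ℝ E] (J : E →L[ℝ] E) (hJ : ∀ x, J (J x) = -x) :
    ∃ n : ℕ, ∃ L : E ≃L[ℝ] EuclideanSpace ℂ (Fin n), ∀ x, L (J x) = Complex.I • L x := by
  have hJ' : (J : E →ₗ[ℝ] E) * (J : E →ₗ[ℝ] E) = -1 := by
    ext x
    exact hJ x
  let A : ℂ →ₐ[ℝ] Module.End ℝ E := Complex.lift ⟨(J : E →ₗ[ℝ] E), hJ'⟩
  let m : Module ℂ E := Module.compHom E (A : ℂ →+* Module.End ℝ E)
  have hs : ∀ (c : ℂ) (x : E), m.smul c x = A c x := fun c x => rfl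
  have ht : @IsScalarTower ℝ ℂ E _ m.toSMul _ := by
    refine @IsScalarTower.mk ℝ ℂ E _ m.toSMul _ ?_
    intro r c x
    show A (r • c) x = r • (A c x)
    rw [map_smul]
    rfl
  obtain ⟨n, L, hL⟩ := @cplx_aux E _ _ _ m ht
  refine ⟨n, L.toContinuousLinearEquiv, fun x => ?_⟩
  have h1 := hL x
  have h2 : m.smul Complex.I x = J x := by
    rw [hs]
    show (Complex.liftAux (J : E →ₗ[ℝ] E) hJ' : ℂ →ₐ[ℝ] Module.End ℝ E) Complex.I x = J x
    rw [Complex.liftAux_apply_I]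
    rfl
  have h3 : L (m.smul Complex.I x) = Complex.I • L x := h1
  rw [h2] at h3
  exact h3

theorem L_act {n : ℕ} {J : E →L[ℝ] E} (L : E ≃L[ℝ] EuclideanSpace ℂ (Fin n))
    (hL : ∀ x, L (J x) = Complex.I • L x) (c : ℂ) (x : E) : L (act J c x) = c • L x := by
  rw [act_apply, map_add, map_smul, map_smul, hL]
  conv_rhs => rw [← Complex.re_add_im c, add_smul, mul_smul]
  rw [Complex.coe_smul, Complex.coe_smul]

theorem bdd_near {X Y : Type*} [TopologicalSpace X] [SeminormedAddCommGroup Y] {f : X → Y} {x : X}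
    (h : ContinuousAt f x) : ∃ M : ℝ, 0 ≤ M ∧ ∀ᶠ y in 𝓝 x, ‖f y‖ ≤ M := by
  refine ⟨‖f x‖ + 1, by positivity, ?_⟩
  filter_upwards [h.norm.eventually (gt_mem_nhds (lt_add_one ‖f x‖))] with y hy using hy.le

/-! ### the main theorem -/

/-- the hypothesis `‖∂_s w + J(z) ∂_t w‖ ≤ C ‖w‖` near `z₀` -/
def SubJ (J : ℂ → E →L[ℝ] E) (w : ℂ → E) (z₀ : ℂ) : Prop :=
  ∃ C : ℝ, ∀ᶠ z in 𝓝 z₀, ‖fderiv ℝ w z 1 + J z (fderiv ℝ w z Complex.I)‖ ≤ C * ‖w z‖

theorem leadJ [FiniteDimensional ℝ E] {J : ℂ → E →L[ℝ] E} {w : ℂ → E} {z₀ : ℂ}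
    (hJ : ContDiffAt ℝ 1 J z₀) (hJ2 : ∀ᶠ z in 𝓝 z₀, ∀ x, J z (J z x) = -x)
    (hw : ContDiffAt ℝ 1 w z₀) (h : SubJ J w z₀) :
    (∀ᶠ z in 𝓝 z₀, w z = 0) ∨ ∃ (k : ℕ) (G : ℂ → E), ContinuousAt G z₀ ∧ G z₀ ≠ 0 ∧
      ∀ᶠ z in 𝓝 z₀, w z = act (J z) ((z - z₀) ^ k) (G z) := by
  have hcs : CompleteSpace E := FiniteDimensional.complete ℝ E
  obtain ⟨C, hC⟩ := h
  have hJ0 : ∀ x, J z₀ (J z₀ x) = -x := hJ2.self_of_nhds
  set Ps : ℂ → E →L[ℝ] E := fun z => (2:ℝ)⁻¹ • (1 - (J z).comp (J z₀)) with hPs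
  have hPsC : ContDiffAt ℝ 1 Ps z₀ := by
    have h1 : ContDiffAt ℝ 1 (fun z => (J z).comp (J z₀)) z₀ := hJ.clm_comp contDiffAt_const
    exact (contDiffAt_const.sub h1).const_smul _
  have hPs0 : Ps z₀ = 1 := by
    ext x
    simp only [hPs, smul_apply, sub_apply, one_apply_eq_self, ContinuousLinearMap.comp_apply, hJ0]
    rw [sub_neg_eq_add, ← two_smul ℝ x, smul_smul]
    norm_num
  have hint : ∀ᶠ z in 𝓝 z₀, ∀ x, J z (Ps z x) = Ps z (J z₀ x) := by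
    filter_upwards [hJ2] with z hz x
    simp only [hPs, smul_apply, sub_apply, one_apply_eq_self, ContinuousLinearMap.comp_apply, hJ0,
      map_smul, map_sub, map_neg, hz]
    congr 1
    abel
  have hone : IsUnit (Ps z₀) := by rw [hPs0]; exact isUnit_one
  have hunit : ∀ᶠ z in 𝓝 z₀, IsUnit (Ps z) := by
    obtain ⟨U, hU⟩ := hone
    have h1 : {T : E →L[ℝ] E | IsUnit T} ∈ 𝓝 (Ps z₀) := by
      rw [← hU]; exact Units.isOpen.mem_nhds U.isUnit
    exact hPsC.continuousAt.eventually h1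
  have hinv : ContDiffAt ℝ 1 (fun z => Ring.inverse (Ps z)) z₀ := by
    obtain ⟨U, hU⟩ := hone
    have h1 : ContDiffAt ℝ 1 Ring.inverse (Ps z₀) := by
      rw [← hU]; exact contDiffAt_ringInverse ℝ U
    exact h1.comp z₀ hPsC
  set y : ℂ → E := fun z => Ring.inverse (Ps z) (w z) with hy
  have hyC : ContDiffAt ℝ 1 y z₀ := hinv.clm_apply hw
  have hwy : ∀ᶠ z in 𝓝 z₀, w z = Ps z (y z) := by
    filter_upwards [hunit] with z hz
    have h1 : Ps z * Ring.inverse (Ps z) = 1 := Ring.mul_inverse_cancel _ hz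
    have h2 := congrArg (fun T : E →L[ℝ] E => T (w z)) h1
    simpa using h2.symm
  -- bounds
  obtain ⟨M1, hM1, hM1'⟩ := bdd_near hinv.continuousAt
  obtain ⟨M2, hM2, hM2'⟩ := bdd_near hPsC.continuousAt
  obtain ⟨M3, hM3, hM3'⟩ := bdd_near hJ.continuousAt
  obtain ⟨M4, hM4, hM4'⟩ := bdd_near (f := fun z => fderiv ℝ Ps z)
    ((hPsC.fderiv_right (m := 0) (by norm_num)).continuousAt)
  have hyd : ∀ᶠ z in 𝓝 z₀, DifferentiableAt ℝ y z := by
    filter_upwards [hyC.eventually (by norm_num)] with z hz using hz.differentiableAt (by norm_num)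
  have hPd : ∀ᶠ z in 𝓝 z₀, DifferentiableAt ℝ Ps z := by
    filter_upwards [hPsC.eventually (by norm_num)] with z hz using hz.differentiableAt (by norm_num)
  have hder : ∀ᶠ z in 𝓝 z₀, ∀ v : ℂ,
      fderiv ℝ w z v = (fderiv ℝ Ps z v) (y z) + Ps z (fderiv ℝ y z v) := by
    filter_upwards [hwy.eventually_nhds, hyd, hPd] with z h1 h2 h3 v
    have h4 : fderiv ℝ w z = fderiv ℝ (fun z => Ps z (y z)) z := Filter.EventuallyEq.fderiv_eq h1
    rw [h4, fderiv_clm_apply h3 h2]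
    simp only [add_apply, ContinuousLinearMap.comp_apply, ContinuousLinearMap.flip_apply]
    abel
  have hyb : ∃ C' : ℝ, 0 ≤ C' ∧ ∀ᶠ z in 𝓝 z₀,
      ‖fderiv ℝ y z 1 + J z₀ (fderiv ℝ y z Complex.I)‖ ≤ C' * ‖y z‖ := by
    refine ⟨M1 * (max C 0 * M2 + (M4 + M3 * M4)), by positivity, ?_⟩
    filter_upwards [hC, hM1', hM2', hM3', hM4', hder, hint, hunit, hwy] with z h1 h2 h3 h4 h5 h6 h7
      h8 h9
    have h10 : fderiv ℝ y z 1 + J z₀ (fderiv ℝ y z Complex.I) = Ring.inverse (Ps z)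
        ((fderiv ℝ w z 1 + J z (fderiv ℝ w z Complex.I)) -
          ((fderiv ℝ Ps z 1) (y z) + J z ((fderiv ℝ Ps z Complex.I) (y z)))) := by
      have h11 : (fderiv ℝ w z 1 + J z (fderiv ℝ w z Complex.I)) -
          ((fderiv ℝ Ps z 1) (y z) + J z ((fderiv ℝ Ps z Complex.I) (y z))) =
          Ps z (fderiv ℝ y z 1 + J z₀ (fderiv ℝ y z Complex.I)) := by
        rw [h6, h6, map_add, h7, map_add]
        abel
      rw [h11]
      have h12 : Ring.inverse (Ps z) * Ps z = 1 := Ring.inverse_mul_cancel _ h8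
      have h13 := congrArg
        (fun T : E →L[ℝ] E => T (fderiv ℝ y z 1 + J z₀ (fderiv ℝ y z Complex.I))) h12
      simpa using h13.symm
    rw [h10]
    have hw1 : ‖w z‖ ≤ M2 * ‖y z‖ := by
      rw [h9]; exact (ContinuousLinearMap.le_opNorm _ _).trans (by gcongr)
    have hP1 : ∀ v : ℂ, ‖v‖ ≤ 1 → ‖(fderiv ℝ Ps z v) (y z)‖ ≤ M4 * ‖y z‖ := by
      intro v hv
      refine (ContinuousLinearMap.le_opNorm _ _).trans ?_
      gcongr
      calc ‖fderiv ℝ Ps z v‖ ≤ ‖fderiv ℝ Ps z‖ * ‖v‖ := ContinuousLinearMap.le_opNorm _ _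
        _ ≤ M4 * 1 := by gcongr
        _ = M4 := mul_one _
    calc _ ≤ ‖Ring.inverse (Ps z)‖ * ‖(fderiv ℝ w z 1 + J z (fderiv ℝ w z Complex.I)) -
          ((fderiv ℝ Ps z 1) (y z) + J z ((fderiv ℝ Ps z Complex.I) (y z)))‖ :=
          ContinuousLinearMap.le_opNorm _ _
      _ ≤ M1 * (max C 0 * (M2 * ‖y z‖) + (M4 * ‖y z‖ + M3 * (M4 * ‖y z‖))) := by
          gcongr
          refine (norm_sub_le _ _).trans ?_
          gcongr
          · refine h1.trans ?_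
            gcongr
            exact le_max_left _ _
          · refine (norm_add_le _ _).trans ?_
            gcongr
            · exact hP1 1 (by simp)
            · refine (ContinuousLinearMap.le_opNorm _ _).trans ?_
              gcongr
              exact hP1 Complex.I (by simp)
      _ = _ := by ring
  obtain ⟨C', hC', hyb⟩ := hyb
  obtain ⟨n, L, hL⟩ := exists_cplx (J z₀) hJ0
  have hvC : ContDiffAt ℝ 1 (fun z => L (y z)) z₀ :=
    (L : E →L[ℝ] EuclideanSpace ℂ (Fin n)).contDiff.contDiffAt.comp z₀ hyC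
  have hsub : Sub (fun z => L (y z)) z₀ := by
    refine ⟨‖(L : E →L[ℝ] EuclideanSpace ℂ (Fin n))‖ *
      (C' * ‖(L.symm : EuclideanSpace ℂ (Fin n) →L[ℝ] E)‖), ?_⟩
    filter_upwards [hyb, hyd] with z h1 h2
    have h3 : fderiv ℝ (fun z => L (y z)) z =
        (L : E →L[ℝ] EuclideanSpace ℂ (Fin n)).comp (fderiv ℝ y z) :=
      ((L : E →L[ℝ] EuclideanSpace ℂ (Fin n)).hasFDerivAt.comp z h2.hasFDerivAt).fderiv
    have h4 : db (fun z => L (y z)) z =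
        (2:ℂ)⁻¹ • L (fderiv ℝ y z 1 + J z₀ (fderiv ℝ y z Complex.I)) := by
      unfold db
      rw [h3, map_add, hL]
      rfl
    rw [h4, norm_smul]
    have h5 : ‖y z‖ ≤ ‖(L.symm : EuclideanSpace ℂ (Fin n) →L[ℝ] E)‖ * ‖L (y z)‖ := by
      have := (L.symm : EuclideanSpace ℂ (Fin n) →L[ℝ] E).le_opNorm (L (y z))
      simpa using this
    calc ‖(2:ℂ)⁻¹‖ * ‖L (fderiv ℝ y z 1 + J z₀ (fderiv ℝ y z Complex.I))‖
        ≤ 1 * (‖(L : E →L[ℝ] EuclideanSpace ℂ (Fin n))‖ *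
          ‖fderiv ℝ y z 1 + J z₀ (fderiv ℝ y z Complex.I)‖) := by
          gcongr
          · norm_num
          · exact (L : E →L[ℝ] EuclideanSpace ℂ (Fin n)).le_opNorm _
      _ ≤ 1 * (‖(L : E →L[ℝ] EuclideanSpace ℂ (Fin n))‖ *
          (C' * (‖(L.symm : EuclideanSpace ℂ (Fin n) →L[ℝ] E)‖ * ‖L (y z)‖))) := by
          gcongr
          exact h1.trans (by gcongr)
      _ = _ := by ring
  rcases lead hvC hsub with h1 | ⟨k, G, hG1, hG2, hG3⟩
  · left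
    filter_upwards [h1, hwy] with z h2 h3
    have h4 : y z = 0 := by simpa using h2
    rw [h3, h4, map_zero]
  · right
    refine ⟨k, fun z => Ps z (L.symm (G z)), ?_, ?_, ?_⟩
    · exact hPsC.continuousAt.clm_apply (L.symm.continuous.continuousAt.comp hG1)
    · show Ps z₀ (L.symm (G z₀)) ≠ 0
      rw [hPs0]
      simpa using hG2
    · filter_upwards [hG3, hwy, hint] with z h2 h3 h4
      have h5 : y z = act (J z₀) ((z - z₀) ^ k) (L.symm (G z)) := by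
        apply L.injective
        rw [L_act L hL]
        simpa using h2
      rw [h3, h5, act_apply, act_apply, map_add, map_smul, map_smul, h4]

theorem act_ne {J : E →L[ℝ] E} (hJ : ∀ x, J (J x) = -x) {c : ℂ} (hc : c ≠ 0) {x : E} (hx : x ≠ 0) :
    act J c x ≠ 0 := by
  intro h
  have h1 : act J (starRingEnd ℂ c) (act J c x) = (c.re ^ 2 + c.im ^ 2) • x := by
    simp only [act_apply, map_add, map_smul, hJ, Complex.conj_re, Complex.conj_im]
    module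
  rw [h, map_zero] at h1
  have h2 : c.re ^ 2 + c.im ^ 2 ≠ 0 := by
    intro h3
    apply hc
    have h4 : Complex.normSq c = 0 := by
      rw [Complex.normSq_apply]; nlinarith
    exact Complex.normSq_eq_zero.1 h4
  exact (smul_ne_zero h2 hx) h1.symm

theorem isolatedJ [FiniteDimensional ℝ E] {J : ℂ → E →L[ℝ] E} {w : ℂ → E} {z₀ : ℂ}
    (hJ : ContDiffAt ℝ 1 J z₀) (hJ2 : ∀ᶠ z in 𝓝 z₀, ∀ x, J z (J z x) = -x)
    (hw : ContDiffAt ℝ 1 w z₀) (h : SubJ J w z₀) :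
    (∀ᶠ z in 𝓝 z₀, w z = 0) ∨ ∀ᶠ z in 𝓝[≠] z₀, w z ≠ 0 := by
  rcases leadJ hJ hJ2 hw h with h1 | ⟨k, G, hG1, hG2, hG3⟩
  · exact Or.inl h1
  · right
    have h2 : ∀ᶠ z in 𝓝 z₀, G z ≠ 0 := hG1.eventually_ne hG2
    filter_upwards [nhdsWithin_le_nhds h2, nhdsWithin_le_nhds hG3, nhdsWithin_le_nhds hJ2,
      self_mem_nhdsWithin] with z h3 h4 h5 h6
    rw [h4]
    exact act_ne h5 (pow_ne_zero _ (sub_ne_zero.2 h6)) h3

/-- leading term with the constant structure `J z₀` -/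
theorem leadJ_o [FiniteDimensional ℝ E] {J : ℂ → E →L[ℝ] E} {w : ℂ → E} {z₀ : ℂ}
    (hJ : ContDiffAt ℝ 1 J z₀) (hJ2 : ∀ᶠ z in 𝓝 z₀, ∀ x, J z (J z x) = -x)
    (hw : ContDiffAt ℝ 1 w z₀) (h : SubJ J w z₀) :
    (∀ᶠ z in 𝓝 z₀, w z = 0) ∨ ∃ (k : ℕ) (a : E), a ≠ 0 ∧
      (fun z => w z - act (J z₀) ((z - z₀) ^ k) a) =o[𝓝 z₀] (fun z => (z - z₀) ^ k) := by
  rcases leadJ hJ hJ2 hw h with h1 | ⟨k, G, hG1, hG2, hG3⟩
  · exact Or.inl h1
  · right
    refine ⟨k, G z₀, hG2, ?_⟩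
    have h1 : (fun z => w z - act (J z₀) ((z - z₀) ^ k) (G z₀)) =ᶠ[𝓝 z₀]
        fun z => ((z - z₀) ^ k).re • (G z - G z₀) +
          ((z - z₀) ^ k).im • (J z (G z) - J z₀ (G z₀)) := by
      filter_upwards [hG3] with z hz
      rw [hz, act_apply, act_apply]
      module
    refine h1.trans_isLittleO ?_
    have h2 : (fun z => G z - G z₀) =o[𝓝 z₀] (fun _ => (1:ℝ)) := by
      rw [isLittleO_one_iff]
      have := hG1.sub (continuousAt_const (y := G z₀))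
      have h3 : Tendsto (fun z => G z - G z₀) (𝓝 z₀) (𝓝 (G z₀ - G z₀)) := this
      rwa [sub_self] at h3
    have h4 : (fun z => J z (G z) - J z₀ (G z₀)) =o[𝓝 z₀] (fun _ => (1:ℝ)) := by
      rw [isLittleO_one_iff]
      have h5 : ContinuousAt (fun z => J z (G z)) z₀ := hJ.continuousAt.clm_apply hG1
      have h3 : Tendsto (fun z => J z (G z) - J z₀ (G z₀)) (𝓝 z₀) (𝓝 (J z₀ (G z₀) - J z₀ (G z₀))) :=
        h5.sub (continuousAt_const (y := J z₀ (G z₀)))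
      rwa [sub_self] at h3
    have h5 : (fun z : ℂ => ((z - z₀) ^ k).re) =O[𝓝 z₀] (fun z => (z - z₀) ^ k) :=
      IsBigO.of_bound 1 (Eventually.of_forall fun z => by
        rw [one_mul, Real.norm_eq_abs]; exact Complex.abs_re_le_norm _)
    have h6 : (fun z : ℂ => ((z - z₀) ^ k).im) =O[𝓝 z₀] (fun z => (z - z₀) ^ k) :=
      IsBigO.of_bound 1 (Eventually.of_forall fun z => by
        rw [one_mul, Real.norm_eq_abs]; exact Complex.abs_im_le_norm _)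
    have h7 : (fun z : ℂ => ((z - z₀) ^ k).re • (G z - G z₀)) =o[𝓝 z₀] (fun z => (z - z₀) ^ k) := by
      have := h5.norm_right.smul_isLittleO h2
      simp only [smul_eq_mul, mul_one] at this
      exact this.of_norm_right
    have h8 : (fun z : ℂ => ((z - z₀) ^ k).im • (J z (G z) - J z₀ (G z₀))) =o[𝓝 z₀]
        (fun z => (z - z₀) ^ k) := by
      have := h6.norm_right.smul_isLittleO h4
      simp only [smul_eq_mul, mul_one] at this
      exact this.of_norm_right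
    exact h7.add h8

/-- unique continuation for `∂_s w + J(z) ∂_t w = O(|w|)` -/
theorem uniqJ [FiniteDimensional ℝ E] {J : ℂ → E →L[ℝ] E} {w : ℂ → E} {U : Set ℂ}
    (hU : IsOpen U) (hUc : IsPreconnected U) (hJ : ContDiffOn ℝ 1 J U)
    (hJ2 : ∀ z ∈ U, ∀ x, J z (J z x) = -x) (hw : ContDiffOn ℝ 1 w U)
    (h : ∀ z ∈ U, SubJ J w z) {z₀ : ℂ} (hz₀ : z₀ ∈ U) (h0 : ∀ᶠ w' in 𝓝 z₀, w w' = 0) :
    ∀ z ∈ U, w z = 0 := by
  refine uniq_of hUc (fun z hz => ?_) hz₀ h0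
  exact isolatedJ (hJ.contDiffAt (hU.mem_nhds hz))
    (by filter_upwards [hU.mem_nhds hz] with v hv using hJ2 v hv)
    (hw.contDiffAt (hU.mem_nhds hz)) (h z hz)

/-! ### differences of `J`-discs -/

/-- the difference of two `J`-discs -/
theorem diff_subJ {J : E → E →L[ℝ] E} {u v : ℂ → E} {z₀ : ℂ}
    (hJ : ContDiffAt ℝ 1 J (u z₀)) (hJ2 : ∀ᶠ x in 𝓝 (u z₀), ∀ y, J x (J x y) = -y)
    (hJ2' : ∀ᶠ x in 𝓝 (v z₀), ∀ y, J x (J x y) = -y) (hJv : ContinuousAt J (v z₀))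
    (hu : ContDiffAt ℝ 1 u z₀) (hv : ContDiffAt ℝ 1 v z₀)
    (hu' : ∀ᶠ z in 𝓝 z₀, fderiv ℝ u z Complex.I = J (u z) (fderiv ℝ u z 1))
    (hv' : ∀ᶠ z in 𝓝 z₀, fderiv ℝ v z Complex.I = J (v z) (fderiv ℝ v z 1)) :
    SubJ (fun z => J (u z)) (fun z => u z - v z) z₀ := by
  have hfd : ∀ {f : ℂ → E}, ContDiffAt ℝ 1 f z₀ → ∀ᶠ z in 𝓝 z₀, DifferentiableAt ℝ f z := by
    intro f hf
    filter_upwards [hf.eventually (by norm_num)] with z hz using hz.differentiableAt (by norm_num)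
  obtain ⟨M, hM, hM'⟩ := bdd_near (f := fun z => fderiv ℝ v z)
    ((hv.fderiv_right (m := 0) (by norm_num)).continuousAt)
  -- the identity
  have hid : ∀ᶠ z in 𝓝 z₀, fderiv ℝ (fun z => u z - v z) z 1 +
      J (u z) (fderiv ℝ (fun z => u z - v z) z Complex.I) =
      -((J (u z) - J (v z)) (fderiv ℝ v z Complex.I)) := by
    filter_upwards [hfd hu, hfd hv, hu', hv', hu.continuousAt.eventually hJ2,
      hv.continuousAt.eventually hJ2'] with z h1 h2 h3 h4 h5 h6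
    have h7 : fderiv ℝ (fun z => u z - v z) z = fderiv ℝ u z - fderiv ℝ v z := fderiv_sub h1 h2
    rw [h7]
    simp only [sub_apply]
    have h8 : J (u z) (fderiv ℝ u z Complex.I) = -fderiv ℝ u z 1 := by rw [h3, h5]
    have h9 : J (v z) (fderiv ℝ v z Complex.I) = -fderiv ℝ v z 1 := by rw [h4, h6]
    rw [map_sub, h8, h9]
    abel
  by_cases h0 : u z₀ = v z₀
  · -- Lipschitz estimate of `J`
    obtain ⟨K, s, hs, hK⟩ := hJ.exists_lipschitzOnWith
    have h1 : ∀ᶠ z in 𝓝 z₀, u z ∈ s := hu.continuousAt hs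
    have h2 : ∀ᶠ z in 𝓝 z₀, v z ∈ s := by
      rw [h0] at hs
      exact hv.continuousAt hs
    refine ⟨K * M, ?_⟩
    filter_upwards [hid, h1, h2, hM'] with z h3 h4 h5 h6
    rw [h3, norm_neg]
    have h7 : ‖J (u z) - J (v z)‖ ≤ K * ‖u z - v z‖ := by
      have := hK.dist_le_mul _ h4 _ h5
      simpa [dist_eq_norm] using this
    calc ‖(J (u z) - J (v z)) (fderiv ℝ v z Complex.I)‖
        ≤ ‖J (u z) - J (v z)‖ * ‖fderiv ℝ v z Complex.I‖ := ContinuousLinearMap.le_opNorm _ _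
      _ ≤ (K * ‖u z - v z‖) * (M * 1) := by
          gcongr
          refine (ContinuousLinearMap.le_opNorm _ _).trans ?_
          gcongr
          simp
      _ = _ := by ring
  · -- `u - v` does not vanish
    obtain ⟨M1, hM1, hM1'⟩ := bdd_near (f := fun z => J (u z) - J (v z))
      ((hJ.continuousAt.comp hu.continuousAt).sub (hJv.comp hv.continuousAt))
    have h1 : 0 < ‖u z₀ - v z₀‖ := norm_pos_iff.2 (sub_ne_zero.2 h0)
    have h2 : ∀ᶠ z in 𝓝 z₀, ‖u z₀ - v z₀‖ / 2 < ‖u z - v z‖ :=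
      ((hu.continuousAt.sub hv.continuousAt).norm).eventually (lt_mem_nhds (by
        show ‖u z₀ - v z₀‖ / 2 < ‖u z₀ - v z₀‖
        linarith))
    refine ⟨M1 * M * (2 / ‖u z₀ - v z₀‖), ?_⟩
    filter_upwards [hid, h2, hM', hM1'] with z h3 h4 h5 h6
    rw [h3, norm_neg]
    calc ‖(J (u z) - J (v z)) (fderiv ℝ v z Complex.I)‖
        ≤ ‖J (u z) - J (v z)‖ * ‖fderiv ℝ v z Complex.I‖ := ContinuousLinearMap.le_opNorm _ _
      _ ≤ M1 * (M * 1) := by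
          gcongr
          refine (ContinuousLinearMap.le_opNorm _ _).trans ?_
          gcongr
          simp
      _ = M1 * M * (2 / ‖u z₀ - v z₀‖) * (‖u z₀ - v z₀‖ / 2) := by field_simp
      _ ≤ M1 * M * (2 / ‖u z₀ - v z₀‖) * ‖u z - v z‖ := by gcongr

/-- two `J`-discs: either equal near `z₀` or `u - v = (z - z₀)^k G(z)` -/
theorem lead_diff [FiniteDimensional ℝ E] {J : E → E →L[ℝ] E} {u v : ℂ → E} {z₀ : ℂ}
    (hJ : ContDiffAt ℝ 1 J (u z₀)) (hJ2 : ∀ᶠ x in 𝓝 (u z₀), ∀ y, J x (J x y) = -y)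
    (hJ2' : ∀ᶠ x in 𝓝 (v z₀), ∀ y, J x (J x y) = -y) (hJv : ContinuousAt J (v z₀))
    (hu : ContDiffAt ℝ 1 u z₀) (hv : ContDiffAt ℝ 1 v z₀)
    (hu' : ∀ᶠ z in 𝓝 z₀, fderiv ℝ u z Complex.I = J (u z) (fderiv ℝ u z 1))
    (hv' : ∀ᶠ z in 𝓝 z₀, fderiv ℝ v z Complex.I = J (v z) (fderiv ℝ v z 1)) :
    (∀ᶠ z in 𝓝 z₀, u z = v z) ∨ ∃ (k : ℕ) (G : ℂ → E), ContinuousAt G z₀ ∧ G z₀ ≠ 0 ∧
      ∀ᶠ z in 𝓝 z₀, u z - v z = act (J (u z)) ((z - z₀) ^ k) (G z) := by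
  have h1 := leadJ (J := fun z => J (u z)) (w := fun z => u z - v z) (z₀ := z₀)
    (hJ.comp z₀ hu) (hu.continuousAt.eventually hJ2) (hu.sub hv)
    (diff_subJ hJ hJ2 hJ2' hJv hu hv hu' hv')
  simpa only [sub_eq_zero] using h1

/-- unique continuation for `J`-discs on a connected open set -/
theorem uniq_disc [FiniteDimensional ℝ E] {J : E → E →L[ℝ] E} {V : Set E} (hV : IsOpen V)
    (hJ : ContDiffOn ℝ 1 J V) (hJ2 : ∀ x ∈ V, ∀ y, J x (J x y) = -y) {u v : ℂ → E} {O : Set ℂ}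
    (hO : IsOpen O) (hOc : IsPreconnected O) (hu : ContDiffOn ℝ 1 u O) (hv : ContDiffOn ℝ 1 v O)
    (huV : ∀ z ∈ O, u z ∈ V) (hvV : ∀ z ∈ O, v z ∈ V)
    (hu' : ∀ z ∈ O, fderiv ℝ u z Complex.I = J (u z) (fderiv ℝ u z 1))
    (hv' : ∀ z ∈ O, fderiv ℝ v z Complex.I = J (v z) (fderiv ℝ v z 1))
    {z₀ : ℂ} (hz₀ : z₀ ∈ O) (h0 : ∀ᶠ z in 𝓝 z₀, u z = v z) : ∀ z ∈ O, u z = v z := by
  have h1 := uniqJ (J := fun z => J (u z)) (w := fun z => u z - v z) hO hOc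
    (hJ.comp hu huV) (fun z hz => hJ2 _ (huV z hz)) (hu.sub hv) (fun z hz =>
      diff_subJ (hJ.contDiffAt (hV.mem_nhds (huV z hz)))
        (by filter_upwards [hV.mem_nhds (huV z hz)] with x hx using hJ2 x hx)
        (by filter_upwards [hV.mem_nhds (hvV z hz)] with x hx using hJ2 x hx)
        (hJ.continuousOn.continuousAt (hV.mem_nhds (hvV z hz)))
        (hu.contDiffAt (hO.mem_nhds hz)) (hv.contDiffAt (hO.mem_nhds hz))
        (by filter_upwards [hO.mem_nhds hz] with x hx using hu' x hx)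
        (by filter_upwards [hO.mem_nhds hz] with x hx using hv' x hx))
    hz₀ (by filter_upwards [h0] with z hz using sub_eq_zero.2 hz)
  intro z hz
  exact sub_eq_zero.1 (h1 z hz)

/-! ### (S4) the index of a zero -/

/-- scalar zeros: `f = (z - z₀)^k g` with `k ≥ 1`, `g` continuous, nonvanishing near `z₀` -/
theorem index_pos {f : ℂ → ℂ} {z₀ : ℂ} (hf : ContDiffAt ℝ 1 f z₀) (h : Sub f z₀) (h0 : f z₀ = 0)
    (hne : ¬ ∀ᶠ z in 𝓝 z₀, f z = 0) :
    ∃ (k : ℕ) (g : ℂ → ℂ) (ρ : ℝ), 1 ≤ k ∧ 0 < ρ ∧ ContinuousOn g (ball z₀ ρ) ∧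
      (∀ z ∈ ball z₀ ρ, g z ≠ 0) ∧ ∀ z ∈ ball z₀ ρ, f z = (z - z₀) ^ k * g z := by
  rcases lead hf h with h1 | ⟨k, G, hG1, hG2, hG3⟩
  · exact absurd h1 hne
  · -- away from `z₀`, `G z = f z / (z - z₀)^k` is continuous
    have hfd : ∀ᶠ z in 𝓝 z₀, ContinuousAt f z := by
      filter_upwards [hf.eventually (by norm_num)] with z hz using hz.continuousAt
    have hk : 1 ≤ k := by
      by_contra hk
      have hk0 : k = 0 := by omega
      have h2 := hG3.self_of_nhds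
      rw [hk0, pow_zero, one_smul, h0] at h2
      exact hG2 h2.symm
    obtain ⟨ρ, hρ, hρ'⟩ := Metric.eventually_nhds_iff_ball.1
      ((hG1.eventually_ne hG2).and (hG3.and hfd))
    refine ⟨k, G, ρ, hk, hρ, ?_, fun z hz => (hρ' z hz).1, fun z hz => (hρ' z hz).2.1⟩
    intro z hz
    by_cases hzz : z = z₀
    · rw [hzz]; exact hG1.continuousWithinAt
    · have h2 : G =ᶠ[𝓝 z] fun w => f w / (w - z₀) ^ k := by
        have h3 : ∀ᶠ w in 𝓝 z, w ∈ ball z₀ ρ := isOpen_ball.mem_nhds hz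
        have h4 : ∀ᶠ w in 𝓝 z, w ≠ z₀ := isOpen_ne.mem_nhds hzz
        filter_upwards [h3, h4] with w h5 h6
        have h7 : (w - z₀) ^ k ≠ 0 := pow_ne_zero _ (sub_ne_zero.2 h6)
        rw [(hρ' w h5).2.1, smul_eq_mul, mul_div_cancel_left₀ _ h7]
      have h3 : ContinuousAt (fun w => f w / (w - z₀) ^ k) z :=
        (hρ' z hz).2.2.div (by fun_prop) (pow_ne_zero _ (sub_ne_zero.2 hzz))
      exact (h3.congr h2.symm).continuousWithinAt

end Crest.Agent.R235.SimJ_679
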