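import Crest.Agent.R235.Wind2_688
import Crest.Agent.R235.SimJ_679

/-!
# Row 235 (S0364), package ADJ (helper43), leaf L4 = (A5): positivity of the local contributions
(helper688).  Everything is planar.
-/

set_option autoImplicit false

open Complex Set Filter Topology Metric MeasureTheory
open scoped Real

namespace Crest.Agent.R235.AdjPos_688

open Crest.Agent.R235.Wind_688 Crest.Agent.R235.CauchyV_679 Crest.Agent.R235.Sim_679

noncomputable section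

/-- `∂f` -/
def dlz (f : ℂ → ℂ) (z : ℂ) : ℂ := (2 : ℂ)⁻¹ * (fderiv ℝ f z 1 - I * fderiv ℝ f z I)

theorem db_def (f : ℂ → ℂ) (z : ℂ) : db f z = (2 : ℂ)⁻¹ * (fderiv ℝ f z 1 + I * fderiv ℝ f z I) :=
  rfl

theorem fderiv_eq (f : ℂ → ℂ) (z v : ℂ) :
    fderiv ℝ f z v = dlz f z * v + db f z * (starRingEnd ℂ) v := by
  have h1 : v = v.re • (1 : ℂ) + v.im • I := by apply Complex.ext <;> simp
  have h2 : fderiv ℝ f z v = v.re * fderiv ℝ f z 1 + v.im * fderiv ℝ f z I := by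
    conv_lhs => rw [h1]
    rw [map_add, map_smul, map_smul, Complex.real_smul, Complex.real_smul]
  have h3 : v = (v.re : ℂ) + v.im * I := (Complex.re_add_im v).symm
  have h4 : (starRingEnd ℂ) v = (v.re : ℂ) - v.im * I := by
    apply Complex.ext <;> simp
  rw [h2, dlz, db_def, h4]
  conv_rhs => rw [h3]
  have h5 : ((v.re : ℂ) + v.im * I).re = v.re := by simp
  have h6 : ((v.re : ℂ) + v.im * I).im = v.im := by simp
  rw [h5, h6]
  linear_combination ((v.im : ℂ) * fderiv ℝ f z I) * Complex.I_sq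

/-! ### (P1) -/

theorem isW_ge {H : ℂ → ℂ} {r C : ℝ} {M : ℕ} (hr : 0 < r)
    (hC1 : ContDiffOn ℝ 1 H (ball 0 r \ {0})) (h0 : ∀ s ∈ ball (0 : ℂ) r, s ≠ 0 → H s ≠ 0)
    (hdb : ∀ s ∈ ball (0 : ℂ) r, s ≠ 0 → ‖db H s‖ ≤ C * ‖H s‖)
    (hO : ∀ s ∈ ball (0 : ℂ) r, s ≠ 0 → ‖H s‖ ≤ C * ‖s‖ ^ M)
    (hD : ∀ s ∈ ball (0 : ℂ) r, s ≠ 0 → ‖fderiv ℝ H s‖ ≤ C) :
    ∃ n : ℤ, (M : ℤ) ≤ n ∧ ∀ r', 0 < r' → r' < r → IsW H 0 r' n := by
  have hU : IsOpen (ball (0 : ℂ) r \ {0}) := isOpen_ball.sdiff isClosed_singleton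
  have hC : 0 ≤ C := by
    have hs : ((r / 2 : ℝ) : ℂ) ∈ ball (0 : ℂ) r := by
      rw [mem_ball, dist_zero_right, Complex.norm_real, Real.norm_of_nonneg (by positivity)]
      linarith
    exact (norm_nonneg _).trans (hD _ hs (by exact_mod_cast (by positivity : (r / 2 : ℝ) ≠ 0)))
  set G : ℂ → ℂ := fun s => s ^ 2 * H s with hG
  -- derivative of `G` off `0`
  have hGd : ∀ s ∈ ball (0 : ℂ) r, s ≠ 0 → HasFDerivAt G
      (s ^ 2 • fderiv ℝ H s + H s • ((2 * s) • (ContinuousLinearMap.id ℝ ℂ))) s := by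
    intro s hs hs0
    have h1 : HasFDerivAt H (fderiv ℝ H s) s :=
      ((hC1.contDiffAt (hU.mem_nhds ⟨hs, hs0⟩)).differentiableAt one_ne_zero).hasFDerivAt
    have h2 : HasFDerivAt (fun s : ℂ => s ^ 2) ((2 * s) • (ContinuousLinearMap.id ℝ ℂ)) s := by
      have := (hasFDerivAt_id (𝕜 := ℝ) s).pow 2
      refine this.congr_fderiv ?_
      ext v; simp
    exact h2.mul h1
  set G' : ℂ → ℂ →L[ℝ] ℂ := fun s =>
    s ^ 2 • fderiv ℝ H s + H s • ((2 * s) • (ContinuousLinearMap.id ℝ ℂ)) with hG'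
  have hbd : ∀ s ∈ ball (0 : ℂ) r, ‖G s‖ ≤ C * ‖s‖ ^ (M + 2) := by
    intro s hs
    by_cases hs0 : s = 0
    · simp [hG, hs0]
    · rw [hG]
      simp only [norm_mul, norm_pow]
      rw [pow_add]
      nlinarith [hO s hs hs0, pow_nonneg (norm_nonneg s) 2]
  have hG0 : HasFDerivAt G (G' 0) 0 := by
    have e : G' 0 = 0 := by ext v; simp [hG']
    rw [e, hasFDerivAt_iff_isLittleO_nhds_zero]
    simp only [zero_add, _root_.zero_apply, sub_zero]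
    have h1 : G 0 = 0 := by simp [hG]
    simp only [h1, sub_zero]
    have h2 : G =O[𝓝 0] fun s : ℂ => ‖s‖ ^ 2 := by
      refine Asymptotics.IsBigO.of_bound (C * r ^ M) ?_
      filter_upwards [ball_mem_nhds (0 : ℂ) hr] with s hs
      refine (hbd s hs).trans ?_
      rw [norm_pow, norm_norm, pow_add, ← mul_assoc]
      rw [mem_ball, dist_zero_right] at hs
      gcongr
    refine h2.trans_isLittleO ?_
    simpa using (Asymptotics.isLittleO_norm_pow_id (E' := ℂ) one_lt_two)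
  have hG'c : ContinuousOn G' (ball 0 r) := by
    intro s hs
    refine ContinuousAt.continuousWithinAt ?_
    by_cases hs0 : s = 0
    · rw [hs0]
      have e : G' 0 = 0 := by ext v; simp [hG']
      rw [ContinuousAt, e]
      rw [tendsto_zero_iff_norm_tendsto_zero]
      have h1 : Tendsto (fun s : ℂ => ‖s‖ ^ 2 * C + C * r ^ M * (2 * ‖s‖)) (𝓝 0) (𝓝 0) := by
        have : Continuous fun s : ℂ => ‖s‖ ^ 2 * C + C * r ^ M * (2 * ‖s‖) := by fun_prop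
        have h2 := this.tendsto 0
        simpa using h2
      refine squeeze_zero_norm' ?_ h1
      filter_upwards [ball_mem_nhds (0 : ℂ) hr] with s hs
      rw [norm_norm]
      by_cases hs0 : s = 0
      · rw [hs0, e]; simp
      · rw [hG']
        refine (norm_add_le _ _).trans ?_
        rw [norm_smul, norm_smul, norm_smul, norm_pow]
        have e1 : ‖(ContinuousLinearMap.id ℝ ℂ)‖ ≤ 1 := ContinuousLinearMap.norm_id_le
        have e2 : ‖(2 * s : ℂ)‖ = 2 * ‖s‖ := by simp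
        rw [e2]
        have hsr : ‖s‖ ≤ r := by
          rw [mem_ball, dist_zero_right] at hs; exact hs.le
        have e3 : ‖H s‖ ≤ C * r ^ M := (hO s hs hs0).trans (by gcongr)
        have e4 := hD s hs hs0
        have e5 : ‖H s‖ * (2 * ‖s‖ * ‖(ContinuousLinearMap.id ℝ ℂ)‖) ≤
            C * r ^ M * (2 * ‖s‖ * 1) := by gcongr
        have e6 : ‖s‖ ^ 2 * ‖fderiv ℝ H s‖ ≤ ‖s‖ ^ 2 * C := by gcongr
        linarith
    · have hm := hU.mem_nhds (show s ∈ ball (0 : ℂ) r \ {0} from ⟨hs, hs0⟩)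
      have h1 : ContinuousAt (fderiv ℝ H) s :=
        (hC1.continuousOn_fderiv_of_isOpen hU le_rfl).continuousAt hm
      have h2 : ContinuousAt H s := hC1.continuousOn.continuousAt hm
      have h3 : ContinuousAt (fun s : ℂ => s ^ 2) s := by fun_prop
      have h4 : ContinuousAt (fun s : ℂ => (2 * s) • (ContinuousLinearMap.id ℝ ℂ)) s := by
        fun_prop
      exact (h3.smul h1).add (h2.smul h4)
  have hGd' : ∀ s ∈ ball (0 : ℂ) r, HasFDerivAt G (G' s) s := by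
    intro s hs
    by_cases hs0 : s = 0
    · rw [hs0]; exact hG0
    · exact hGd s hs hs0
  have hGC : ContDiffAt ℝ 1 G 0 :=
    contDiffAt_one_iff.2 ⟨G', ball 0 r, ball_mem_nhds _ hr, hG'c, hGd'⟩
  have hsub : Sim3_679.Sub G 0 := by
    refine ⟨C, ?_⟩
    filter_upwards [ball_mem_nhds (0 : ℂ) hr] with s hs
    by_cases hs0 : s = 0
    · rw [hs0, db_def, hG0.fderiv]
      simp [hG', hG]
    · have e1 : db G s = s ^ 2 * db H s := by
        rw [db_def, db_def, (hGd s hs hs0).fderiv]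
        simp only [_root_.add_apply, _root_.smul_apply, smul_eq_mul,
          ContinuousLinearMap.id_apply]
        linear_combination (H s * s) * Complex.I_sq
      rw [e1, norm_mul]
      have e2 : ‖G s‖ = ‖s ^ 2‖ * ‖H s‖ := by rw [hG]; exact norm_mul _ _
      rw [e2]
      have := hdb s hs hs0
      nlinarith [norm_nonneg (s ^ 2)]
  rcases Sim3_679.lead hGC hsub with h1 | ⟨k, g, hg1, hg2, hg3⟩
  · exfalso
    obtain ⟨ε, hε, h1⟩ := Metric.eventually_nhds_iff_ball.1 h1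
    set t : ℝ := min ε r / 2 with ht
    have ht0 : 0 < t := by have := lt_min hε hr; positivity
    have ht1 : t < ε := by have := min_le_left ε r; have := lt_min hε hr; linarith
    have ht2 : t < r := by have := min_le_right ε r; have := lt_min hε hr; linarith
    have htn : ‖(t : ℂ)‖ = t := by rw [Complex.norm_real, Real.norm_of_nonneg ht0.le]
    have h2 := h1 (t : ℂ) (by rw [mem_ball, dist_zero_right, htn]; exact ht1)
    have h3 := h0 (t : ℂ) (by rw [mem_ball, dist_zero_right, htn]; exact ht2)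
      (by exact_mod_cast ht0.ne')
    rw [hG] at h2
    exact (mul_ne_zero (pow_ne_zero 2 (by exact_mod_cast ht0.ne')) h3) h2
  · have hten : Tendsto (fun z => H z / (z - 0) ^ ((k : ℤ) - 2)) (𝓝[≠] 0) (𝓝 (g 0)) := by
      have h2 : Tendsto g (𝓝[≠] 0) (𝓝 (g 0)) := hg1.tendsto.mono_left nhdsWithin_le_nhds
      refine h2.congr' ?_
      filter_upwards [nhdsWithin_le_nhds hg3, self_mem_nhdsWithin] with z hz1 hz2
      have hz0 : z ≠ 0 := hz2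
      rw [sub_zero] at hz1 ⊢
      rw [hG] at hz1
      simp only [smul_eq_mul] at hz1
      rw [zpow_sub₀ hz0, zpow_natCast]
      have : (z : ℂ) ^ (2 : ℤ) = z ^ 2 := by norm_cast
      rw [this]
      have hk : z ^ k ≠ 0 := pow_ne_zero _ hz0
      field_simp
      linear_combination -hz1
    refine ⟨(k : ℤ) - 2, ?_, fun r' h1 h2 => isW_of_tendsto hC1.continuousOn
      (fun z hz hz0 => h0 z hz hz0) hg2 hten h1 h2⟩
    by_contra hlt
    rw [not_le] at hlt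
    have hk : k + 1 ≤ M + 2 := by omega
    apply hg2
    have h2 : Tendsto (fun z : ℂ => ‖g z‖) (𝓝[≠] 0) (𝓝 ‖g 0‖) :=
      (hg1.tendsto.mono_left nhdsWithin_le_nhds).norm
    have h3 : Tendsto (fun z : ℂ => C * ‖z‖ ^ (M + 2 - k)) (𝓝[≠] 0) (𝓝 0) := by
      have : Continuous fun z : ℂ => C * ‖z‖ ^ (M + 2 - k) := by fun_prop
      have h4 := this.tendsto 0
      rw [norm_zero, zero_pow (by omega), mul_zero] at h4
      exact h4.mono_left nhdsWithin_le_nhds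
    have h4 : ∀ᶠ z : ℂ in 𝓝[≠] 0, ‖g z‖ ≤ C * ‖z‖ ^ (M + 2 - k) := by
      filter_upwards [nhdsWithin_le_nhds hg3, self_mem_nhdsWithin,
        nhdsWithin_le_nhds (ball_mem_nhds (0 : ℂ) hr)] with z hz1 hz2 hz3
      have hz0 : z ≠ 0 := hz2
      have h5 := hbd z hz3
      rw [hz1, sub_zero, norm_smul, norm_pow] at h5
      have h6 : ‖z‖ ^ (M + 2) = ‖z‖ ^ k * ‖z‖ ^ (M + 2 - k) := by
        rw [← pow_add]; congr 1; omega
      rw [h6] at h5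
      have h7 : 0 < ‖z‖ ^ k := pow_pos (norm_pos_iff.2 hz0) _
      have h8 : ‖z‖ ^ k * ‖g z‖ ≤ ‖z‖ ^ k * (C * ‖z‖ ^ (M + 2 - k)) := by linarith
      exact le_of_mul_le_mul_left h8 h7
    have h5 := le_of_tendsto_of_tendsto h2 h3 h4
    exact norm_le_zero_iff.1 h5

/-! ### real linear maps `v ↦ a v + b v̄` -/

theorem coef_unique {f : ℂ → ℂ} {s a b : ℂ}
    (h : ∀ v, fderiv ℝ f s v = a * v + b * (starRingEnd ℂ) v) : dlz f s = a ∧ db f s = b := by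
  constructor
  · rw [dlz, h, h]
    simp only [map_one, conj_I]
    linear_combination (-(2 : ℂ)⁻¹ * a + (2 : ℂ)⁻¹ * b) * Complex.I_sq
  · rw [db_def, h, h]
    simp only [map_one, conj_I]
    linear_combination ((2 : ℂ)⁻¹ * a - (2 : ℂ)⁻¹ * b) * Complex.I_sq

theorem norm_dlz_le (f : ℂ → ℂ) (s : ℂ) : ‖dlz f s‖ ≤ ‖fderiv ℝ f s‖ := by
  rw [dlz, norm_mul, norm_inv]
  have h1 : ‖fderiv ℝ f s 1‖ ≤ ‖fderiv ℝ f s‖ := by
    simpa using (fderiv ℝ f s).le_opNorm 1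
  have h2 : ‖I * fderiv ℝ f s I‖ ≤ ‖fderiv ℝ f s‖ := by
    rw [norm_mul, norm_I, one_mul]
    simpa using (fderiv ℝ f s).le_opNorm I
  have h3 := norm_sub_le (fderiv ℝ f s 1) (I * fderiv ℝ f s I)
  have h4 : ‖(2 : ℂ)‖ = 2 := by simp
  rw [h4]
  linarith

/-- the pair `(ζ, z)` is `J`-holomorphic at `s`: the forms `dζ + μ dζ̄`, `dz + β dζ̄` are of type
`(1,0)` -/
structure JC (μ β : ℂ × ℂ → ℂ) (ζ z : ℂ → ℂ) (s : ℂ) : Prop where
  eζ : db ζ s = -μ (ζ s, z s) * (starRingEnd ℂ) (dlz ζ s)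
  ez : db z s = -β (ζ s, z s) * (starRingEnd ℂ) (dlz ζ s)

/-- `y` is a sheet over the (non holomorphic) parameter `ζ` -/
def GC (μ β : ℂ × ℂ → ℂ) (ζ y : ℂ → ℂ) (Λ : ℝ) (s : ℂ) : Prop :=
  ∃ l : ℂ, ‖l‖ ≤ Λ ∧ ∀ v, fderiv ℝ y s v =
    l * (fderiv ℝ ζ s v + μ (ζ s, y s) * (starRingEnd ℂ) (fderiv ℝ ζ s v)) -
      β (ζ s, y s) * (starRingEnd ℂ) (fderiv ℝ ζ s v)

/-- **(P2)** another branch `(ζ', z')` read over `ζ` -/
theorem gc_of_curve {μ β : ℂ × ℂ → ℂ} {ζ ζ' z' σ y : ℂ → ℂ} {s : ℂ} {κ B K : ℝ}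
    (hκ : κ < 1) (hJ : JC μ β ζ' z' (σ s)) (hp : dlz ζ' (σ s) ≠ 0)
    (hq : ‖dlz z' (σ s)‖ ≤ K * ‖dlz ζ' (σ s)‖)
    (hμ : ‖μ (ζ' (σ s), z' (σ s))‖ ≤ κ) (hβ : ‖β (ζ' (σ s), z' (σ s))‖ ≤ B)
    (hσ : DifferentiableAt ℝ σ s) (hζ' : DifferentiableAt ℝ ζ' (σ s))
    (hz' : DifferentiableAt ℝ z' (σ s)) (h1 : ∀ᶠ t in 𝓝 s, ζ' (σ t) = ζ t)
    (h2 : ∀ᶠ t in 𝓝 s, y t = z' (σ t)) : GC μ β ζ y ((K + B * κ) / (1 - κ ^ 2)) s := by
  set p := dlz ζ' (σ s) with hpdef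
  set q := dlz z' (σ s) with hqdef
  have e1 : ζ' (σ s) = ζ s := h1.self_of_nhds
  have e2 : y s = z' (σ s) := h2.self_of_nhds
  have hκ0 : 0 ≤ κ := (norm_nonneg _).trans hμ
  have hB0 : 0 ≤ B := (norm_nonneg _).trans hβ
  set m : ℂ := μ (ζ s, y s) with hm
  set b : ℂ := β (ζ s, y s) with hb
  have em : μ (ζ' (σ s), z' (σ s)) = m := by rw [hm, ← e1, e2]
  have eb : β (ζ' (σ s), z' (σ s)) = b := by rw [hb, ← e1, e2]
  rw [em] at hμ
  rw [eb] at hβ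
  have eζ := hJ.eζ
  have ez := hJ.ez
  rw [em] at eζ
  rw [eb] at ez
  have hd1 : ∀ v, fderiv ℝ ζ s v = fderiv ℝ ζ' (σ s) (fderiv ℝ σ s v) := by
    intro v
    have h3 : HasFDerivAt ζ ((fderiv ℝ ζ' (σ s)).comp (fderiv ℝ σ s)) s :=
      (hζ'.hasFDerivAt.comp s hσ.hasFDerivAt).congr_of_eventuallyEq
        (by filter_upwards [h1] with t ht using ht.symm)
    rw [h3.fderiv]; rfl
  have hd2 : ∀ v, fderiv ℝ y s v = fderiv ℝ z' (σ s) (fderiv ℝ σ s v) := by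
    intro v
    have h3 : HasFDerivAt y ((fderiv ℝ z' (σ s)).comp (fderiv ℝ σ s)) s :=
      (hz'.hasFDerivAt.comp s hσ.hasFDerivAt).congr_of_eventuallyEq
        (by filter_upwards [h2] with t ht using ht)
    rw [h3.fderiv]; rfl
  -- `1 - |μ|²`
  have hmm : m * (starRingEnd ℂ) m = ((‖m‖ ^ 2 : ℝ) : ℂ) := by
    rw [Complex.mul_conj, Complex.normSq_eq_norm_sq]
  have hk2 : 0 < 1 - κ ^ 2 := by nlinarith
  have hm2 : 1 - κ ^ 2 ≤ 1 - ‖m‖ ^ 2 := by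
    have : ‖m‖ ^ 2 ≤ κ ^ 2 := by gcongr
    linarith
  have hne : ((1 - ‖m‖ ^ 2 : ℝ) : ℂ) ≠ 0 := by
    exact_mod_cast (hk2.trans_le hm2).ne'
  refine ⟨(q - b * (starRingEnd ℂ) m * p) / (((1 - ‖m‖ ^ 2 : ℝ) : ℂ) * p), ?_, fun v => ?_⟩
  · rw [norm_div, norm_mul, Complex.norm_real, Real.norm_of_nonneg (hk2.trans_le hm2).le]
    have hp0 : 0 < ‖p‖ := norm_pos_iff.2 hp
    rw [div_le_div_iff₀ (mul_pos (hk2.trans_le hm2) hp0) hk2]
    have h3 : ‖q - b * (starRingEnd ℂ) m * p‖ ≤ (K + B * κ) * ‖p‖ := by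
      refine (norm_sub_le _ _).trans ?_
      rw [norm_mul, norm_mul, RCLike.norm_conj]
      have : ‖b‖ * ‖m‖ ≤ B * κ := by gcongr
      nlinarith
    have h4 : 0 ≤ (K + B * κ) * ‖p‖ := (norm_nonneg _).trans h3
    calc ‖q - b * (starRingEnd ℂ) m * p‖ * (1 - κ ^ 2)
        ≤ ((K + B * κ) * ‖p‖) * (1 - κ ^ 2) := by gcongr
      _ ≤ ((K + B * κ) * ‖p‖) * (1 - ‖m‖ ^ 2) := by gcongr
      _ = (K + B * κ) * ((1 - ‖m‖ ^ 2) * ‖p‖) := by ring
  · rw [hd1, hd2]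
    set w := fderiv ℝ σ s v with hw
    have f1 := fderiv_eq ζ' (σ s) w
    have f2 := fderiv_eq z' (σ s) w
    rw [eζ, ← hpdef] at f1
    rw [ez, ← hqdef, ← hpdef] at f2
    have f3 : fderiv ℝ ζ' (σ s) w + m * (starRingEnd ℂ) (fderiv ℝ ζ' (σ s) w) =
        ((1 - ‖m‖ ^ 2 : ℝ) : ℂ) * p * w := by
      rw [f1]
      simp only [map_add, map_mul, map_neg, Complex.conj_conj]
      push_cast
      have hmm' : m * (starRingEnd ℂ) m = (‖m‖ : ℂ) ^ 2 := by rw [hmm]; push_cast; ring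
      linear_combination (-p * w) * hmm'
    rw [f3, f2]
    have f4 : (starRingEnd ℂ) (fderiv ℝ ζ' (σ s) w) = (starRingEnd ℂ) p * (starRingEnd ℂ) w -
        (starRingEnd ℂ) m * p * w := by
      rw [f1]
      simp only [map_add, map_mul, map_neg, Complex.conj_conj]
      ring
    rw [f4]
    field_simp
    ring

/-- **(P3)** the difference of two sheets -/
theorem diff_bound {μ β : ℂ × ℂ → ℂ} {ζ z y : ℂ → ℂ} {s : ℂ} {Λ L κ B C : ℝ}
    (hJ : JC μ β ζ z s) (hg : GC μ β ζ y Λ s) (hz : DifferentiableAt ℝ z s)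
    (hy : DifferentiableAt ℝ y s) (hκ : ‖μ (ζ s, y s)‖ ≤ κ)
    (hB : ‖β (ζ s, y s)‖ ≤ B)
    (hμ : ‖μ (ζ s, z s) - μ (ζ s, y s)‖ ≤ L * ‖z s - y s‖)
    (hβ : ‖β (ζ s, z s) - β (ζ s, y s)‖ ≤ L * ‖z s - y s‖) (hC : ‖fderiv ℝ ζ s‖ ≤ C)
    (hC' : ‖fderiv ℝ z s‖ ≤ C) :
    ‖db (fun t => z t - y t) s‖ ≤ C * (L + Λ * L) * ‖z s - y s‖ ∧
    ‖fderiv ℝ (fun t => z t - y t) s‖ ≤ C + (Λ * (C + κ * C) + B * C) := by
  obtain ⟨l, hl, hg⟩ := hg
  have hΛ : 0 ≤ Λ := (norm_nonneg _).trans hl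
  have hC0 : 0 ≤ C := (norm_nonneg _).trans hC
  have hκ0 : 0 ≤ κ := (norm_nonneg _).trans hκ
  have hB0 : 0 ≤ B := (norm_nonneg _).trans hB
  set p := dlz ζ s with hp
  have hpC : ‖p‖ ≤ C := (norm_dlz_le _ _).trans hC
  have e1 := hJ.eζ
  have e2 := hJ.ez
  have f1 := fderiv_eq ζ s
  rw [e1] at f1
  have hdb : db (fun t => z t - y t) s = (starRingEnd ℂ) p *
      (-(β (ζ s, z s) - β (ζ s, y s)) + l * (μ (ζ s, z s) - μ (ζ s, y s))) := by
    refine (coef_unique (a := dlz z s - (l * (p - μ (ζ s, y s) *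
      (starRingEnd ℂ) (μ (ζ s, z s)) * p) + β (ζ s, y s) *
      (starRingEnd ℂ) (μ (ζ s, z s)) * p)) fun v => ?_).2
    rw [fderiv_fun_sub hz hy, _root_.sub_apply, hg, f1, fderiv_eq z s v, e2, ← hp]
    simp only [map_add, map_mul, map_neg, Complex.conj_conj]
    ring
  constructor
  · rw [hdb, norm_mul, RCLike.norm_conj]
    have h1 : ‖-(β (ζ s, z s) - β (ζ s, y s)) + l * (μ (ζ s, z s) - μ (ζ s, y s))‖ ≤
        (L + Λ * L) * ‖z s - y s‖ := by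
      refine (norm_add_le _ _).trans ?_
      rw [norm_neg, norm_mul]
      have : ‖l‖ * ‖μ (ζ s, z s) - μ (ζ s, y s)‖ ≤ Λ * (L * ‖z s - y s‖) := by gcongr
      linarith
    calc ‖p‖ * ‖-(β (ζ s, z s) - β (ζ s, y s)) + l * (μ (ζ s, z s) - μ (ζ s, y s))‖
        ≤ C * ((L + Λ * L) * ‖z s - y s‖) := by gcongr
      _ = _ := by ring
  · have h3 : ‖fderiv ℝ y s‖ ≤ Λ * (C + κ * C) + B * C := by
      refine ContinuousLinearMap.opNorm_le_bound _ (by positivity) fun v => ?_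
      rw [hg]
      have h4 : ‖fderiv ℝ ζ s v‖ ≤ C * ‖v‖ := (fderiv ℝ ζ s).le_of_opNorm_le hC v
      refine (norm_sub_le _ _).trans ?_
      rw [norm_mul, norm_mul, RCLike.norm_conj]
      have h5 : ‖fderiv ℝ ζ s v + μ (ζ s, y s) * (starRingEnd ℂ) (fderiv ℝ ζ s v)‖ ≤
          C * ‖v‖ + κ * (C * ‖v‖) := by
        refine (norm_add_le _ _).trans ?_
        rw [norm_mul, RCLike.norm_conj]
        gcongr
      have h6 : ‖l‖ * ‖fderiv ℝ ζ s v + μ (ζ s, y s) * (starRingEnd ℂ) (fderiv ℝ ζ s v)‖ ≤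
          Λ * (C * ‖v‖ + κ * (C * ‖v‖)) := by gcongr
      have h7 : ‖β (ζ s, y s)‖ * ‖fderiv ℝ ζ s v‖ ≤ B * (C * ‖v‖) := by gcongr
      linarith
    rw [fderiv_fun_sub hz hy]
    exact (norm_sub_le _ _).trans (add_le_add hC' h3)

/-! ### products -/

theorem db_mul {f g : ℂ → ℂ} {s : ℂ} (hf : DifferentiableAt ℝ f s)
    (hg : DifferentiableAt ℝ g s) : db (fun t => f t * g t) s = f s * db g s + g s * db f s := by
  rw [db_def, db_def, db_def, fderiv_fun_mul hf hg]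
  simp only [_root_.add_apply, _root_.smul_apply, smul_eq_mul]
  ring

theorem prod_bounds {ι : Type*} (F : ι → ℂ → ℂ) (s : ℂ) {c A : ℝ} (hA : 1 ≤ A)
    (hd : ∀ i, ContDiffAt ℝ 1 (F i) s) (h1 : ∀ i, ‖db (F i) s‖ ≤ c * ‖F i s‖)
    (h2 : ∀ i, ‖F i s‖ ≤ A) (h3 : ∀ i, ‖fderiv ℝ (F i) s‖ ≤ A) (S : Finset ι) :
    ContDiffAt ℝ 1 (fun t => ∏ i ∈ S, F i t) s ∧
    ‖db (fun t => ∏ i ∈ S, F i t) s‖ ≤ S.card * c * ‖∏ i ∈ S, F i s‖ ∧
    ‖∏ i ∈ S, F i s‖ ≤ A ^ S.card ∧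
    ‖fderiv ℝ (fun t => ∏ i ∈ S, F i t) s‖ ≤ S.card * A ^ S.card := by
  classical
  have hA0 : 0 ≤ A := zero_le_one.trans hA
  induction S using Finset.induction_on with
  | empty =>
    refine ⟨by simpa using contDiffAt_const, ?_, by simp, by simp⟩
    have : db (fun _ : ℂ => (1 : ℂ)) s = 0 := by rw [db_def]; simp
    simp [this]
  | insert a S ha ih =>
    obtain ⟨i1, i2, i3, i4⟩ := ih
    simp only [Finset.prod_insert ha, Finset.card_insert_of_notMem ha]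
    have hda := (hd a).differentiableAt one_ne_zero
    have hdS := i1.differentiableAt one_ne_zero
    refine ⟨(hd a).mul i1, ?_, ?_, ?_⟩
    · rw [db_mul hda hdS]
      refine (norm_add_le _ _).trans ?_
      rw [norm_mul, norm_mul, norm_mul]
      have e1 : ‖F a s‖ * ‖db (fun t => ∏ i ∈ S, F i t) s‖ ≤
          ‖F a s‖ * (S.card * c * ‖∏ i ∈ S, F i s‖) := by gcongr
      have e2 : ‖∏ i ∈ S, F i s‖ * ‖db (F a) s‖ ≤ ‖∏ i ∈ S, F i s‖ * (c * ‖F a s‖) := by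
        gcongr; exact h1 a
      push_cast
      linarith
    · rw [norm_mul, pow_succ']
      gcongr
      exact h2 a
    · rw [fderiv_fun_mul hda hdS]
      refine (norm_add_le _ _).trans ?_
      rw [norm_smul, norm_smul]
      have e1 : ‖F a s‖ * ‖fderiv ℝ (fun t => ∏ i ∈ S, F i t) s‖ ≤ A * (S.card * A ^ S.card) := by
        gcongr; exact h2 a
      have e2 : ‖∏ i ∈ S, F i s‖ * ‖fderiv ℝ (F a) s‖ ≤ A ^ S.card * A := by
        gcongr; exact h3 a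
      have e3 : A ^ (S.card + 1) = A ^ S.card * A := pow_succ _ _
      push_cast
      rw [e3]
      linarith

theorem db_congr {f g : ℂ → ℂ} {s : ℂ} (h : f =ᶠ[𝓝 s] g) : db f s = db g s := by
  rw [db_def, db_def, h.fderiv_eq]

/-- **(P4)** the winding number of the product of the differences is at least `m k'` -/
theorem hwind {μ β : ℂ × ℂ → ℂ} {ζ z H : ℂ → ℂ} {r κ L B Λ C : ℝ} {m k' : ℕ} (hr : 0 < r)
    (hz1 : ContDiffOn ℝ 1 z (ball 0 r))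
    (hJ : ∀ s ∈ ball (0 : ℂ) r, s ≠ 0 → JC μ β ζ z s) (hL : 0 ≤ L)
    (hζC : ∀ s ∈ ball (0 : ℂ) r, ‖fderiv ℝ ζ s‖ ≤ C) (hzC : ∀ s ∈ ball (0 : ℂ) r, ‖fderiv ℝ z s‖ ≤ C)
    (hzm : ∀ s ∈ ball (0 : ℂ) r, ‖z s‖ ≤ C * ‖s‖ ^ m)
    (hκ : ∀ s ∈ ball (0 : ℂ) r, ∀ w, ‖w‖ ≤ C * ‖s‖ ^ m → ‖μ (ζ s, w)‖ ≤ κ)
    (hB : ∀ s ∈ ball (0 : ℂ) r, ∀ w, ‖w‖ ≤ C * ‖s‖ ^ m → ‖β (ζ s, w)‖ ≤ B)
    (hμ : ∀ s ∈ ball (0 : ℂ) r, ∀ w, ‖w‖ ≤ C * ‖s‖ ^ m →
      ‖μ (ζ s, z s) - μ (ζ s, w)‖ ≤ L * ‖z s - w‖)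
    (hβ : ∀ s ∈ ball (0 : ℂ) r, ∀ w, ‖w‖ ≤ C * ‖s‖ ^ m →
      ‖β (ζ s, z s) - β (ζ s, w)‖ ≤ L * ‖z s - w‖)
    (hH0 : ∀ s ∈ ball (0 : ℂ) r, s ≠ 0 → H s ≠ 0)
    (hloc : ∀ s ∈ ball (0 : ℂ) r, s ≠ 0 → ∃ y : Fin k' → ℂ → ℂ,
      (∀ i, ContDiffAt ℝ 1 (y i) s ∧ GC μ β ζ (y i) Λ s ∧ ‖y i s‖ ≤ C * ‖s‖ ^ m) ∧
      H =ᶠ[𝓝 s] fun t => ∏ i, (z t - y i t)) :
    ∃ n : ℤ, ((m * k' : ℕ) : ℤ) ≤ n ∧ ∀ r', 0 < r' → r' < r → IsW H 0 r' n := by
  have hU : IsOpen (ball (0 : ℂ) r \ {0}) := isOpen_ball.sdiff isClosed_singleton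
  -- constants
  have hC0 : 0 ≤ C := (norm_nonneg _).trans (hζC 0 (mem_ball_self hr))
  set c : ℝ := C * (L + max Λ 0 * L) with hc
  have hc0 : 0 ≤ c := by positivity
  set A : ℝ := max 1 (max (2 * C * r ^ m)
    (C + (max Λ 0 * (C + max κ 0 * C) + max B 0 * C))) with hA
  have hA1 : 1 ≤ A := le_max_left _ _
  set D : ℝ := max (k' * c) (max (k' * A ^ k') ((2 * C) ^ k')) with hD
  have key : ∀ s ∈ ball (0 : ℂ) r, s ≠ 0 → ContDiffAt ℝ 1 H s ∧ ‖db H s‖ ≤ D * ‖H s‖ ∧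
      ‖H s‖ ≤ D * ‖s‖ ^ (m * k') ∧ ‖fderiv ℝ H s‖ ≤ D := by
    intro s hs hs0
    obtain ⟨y, hy, hHy⟩ := hloc s hs hs0
    have hsn := isOpen_ball.mem_nhds hs
    have hzs : ContDiffAt ℝ 1 z s := hz1.contDiffAt hsn
    have hfac : ∀ i, ContDiffAt ℝ 1 (fun t => z t - y i t) s := fun i => hzs.sub (hy i).1
    have hsr : ‖s‖ ≤ r := by rw [mem_ball, dist_zero_right] at hs; exact hs.le
    have hdiff : ∀ i, ‖z s - y i s‖ ≤ 2 * C * ‖s‖ ^ m := fun i => by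
      refine (norm_sub_le _ _).trans ?_
      have := hzm s hs
      have := (hy i).2.2
      linarith
    have hb : ∀ i, ‖db (fun t => z t - y i t) s‖ ≤ c * ‖z s - y i s‖ ∧
        ‖fderiv ℝ (fun t => z t - y i t) s‖ ≤ A := by
      intro i
      obtain ⟨h1, ⟨l, hl, hl2⟩, h3⟩ := hy i
      have h4 := diff_bound (Λ := max Λ 0) (κ := max κ 0) (B := max B 0) (hJ s hs hs0)
        ⟨l, hl.trans (le_max_left _ _), hl2⟩ (hzs.differentiableAt one_ne_zero)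
        (h1.differentiableAt one_ne_zero) ((hκ s hs _ h3).trans (le_max_left _ _))
        ((hB s hs _ h3).trans (le_max_left _ _)) (hμ s hs _ h3) (hβ s hs _ h3)
        (hζC s hs) (hzC s hs)
      exact ⟨h4.1, h4.2.trans ((le_max_right _ _).trans (le_max_right _ _))⟩
    have hAi : ∀ i, ‖z s - y i s‖ ≤ A := fun i => by
      refine (hdiff i).trans ?_
      refine le_trans ?_ ((le_max_left _ _).trans (le_max_right _ _))
      gcongr
    obtain ⟨p1, p2, p3, p4⟩ := prod_bounds (fun i t => z t - y i t) s hA1 hfac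
      (fun i => (hb i).1) hAi (fun i => (hb i).2) Finset.univ
    rw [Finset.card_univ, Fintype.card_fin] at p2 p4
    have hHs : H s = ∏ i, (z s - y i s) := hHy.self_of_nhds
    refine ⟨p1.congr_of_eventuallyEq hHy, ?_, ?_, ?_⟩
    · rw [db_congr hHy, hHs]
      refine p2.trans ?_
      gcongr
      exact le_max_left _ _
    · rw [hHs, norm_prod]
      calc ∏ i, ‖z s - y i s‖ ≤ ∏ _i : Fin k', (2 * C * ‖s‖ ^ m) :=
            Finset.prod_le_prod (fun i _ => norm_nonneg _) fun i _ => hdiff i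
        _ = (2 * C) ^ k' * ‖s‖ ^ (m * k') := by
            rw [Finset.prod_const, Finset.card_univ, Fintype.card_fin, mul_pow, ← pow_mul]
        _ ≤ D * ‖s‖ ^ (m * k') := by
            gcongr
            exact (le_max_right _ _).trans (le_max_right _ _)
    · rw [hHy.fderiv_eq]
      exact p4.trans ((le_max_left _ _).trans (le_max_right _ _))
  exact isW_ge (C := D) hr (fun s hs => (key s hs.1 hs.2).1.contDiffWithinAt) hH0
    (fun s hs hs0 => (key s hs hs0).2.1) (fun s hs hs0 => (key s hs hs0).2.2.1)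
    (fun s hs hs0 => (key s hs hs0).2.2.2)

/-- **(P5)** the winding number of the section -/
theorem gwind {ζ g G : ℂ → ℂ} {a : ℂ} {r C : ℝ} {m : ℕ} (hm : m ≠ 0) (ha : a ≠ 0) (hr : 0 < r)
    (hG : ContinuousAt G 0) (hG0 : G 0 ≠ 0) (hg : ContinuousOn g (ball 0 r \ {0}))
    (hg0 : ∀ s ∈ ball (0 : ℂ) r, s ≠ 0 → g s ≠ 0)
    (hgG : ∀ s ∈ ball (0 : ℂ) r, s ≠ 0 → g s = G s * dlz ζ s)
    (hζ : ∀ s ∈ ball (0 : ℂ) r, ‖dlz ζ s - m * a * s ^ (m - 1)‖ ≤ C * ‖s‖ ^ m) :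
    ∀ r', 0 < r' → r' < r → IsW g 0 r' (m - 1 : ℕ) := by
  intro r' h1 h2
  have hc : G 0 * (m * a) ≠ 0 :=
    mul_ne_zero hG0 (mul_ne_zero (by exact_mod_cast hm) ha)
  refine isW_of_tendsto hg hg0 hc ?_ h1 h2
  have e1 : Tendsto (fun s : ℂ => dlz ζ s / s ^ (m - 1)) (𝓝[≠] 0) (𝓝 (m * a)) := by
    rw [tendsto_iff_norm_sub_tendsto_zero]
    have h3 : Tendsto (fun s : ℂ => C * ‖s‖) (𝓝[≠] 0) (𝓝 0) := by
      have : Continuous fun s : ℂ => C * ‖s‖ := by fun_prop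
      have h4 := this.tendsto 0
      rw [norm_zero, mul_zero] at h4
      exact h4.mono_left nhdsWithin_le_nhds
    refine squeeze_zero' (Eventually.of_forall fun _ => norm_nonneg _) ?_ h3
    filter_upwards [nhdsWithin_le_nhds (ball_mem_nhds (0 : ℂ) hr), self_mem_nhdsWithin]
      with s hs hs0
    have hs0' : s ≠ 0 := hs0
    have hpow : s ^ (m - 1) ≠ 0 := pow_ne_zero _ hs0'
    have h5 : dlz ζ s / s ^ (m - 1) - m * a = (dlz ζ s - m * a * s ^ (m - 1)) / s ^ (m - 1) := by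
      field_simp
    rw [h5, norm_div, norm_pow, div_le_iff₀ (pow_pos (norm_pos_iff.2 hs0') _)]
    refine (hζ s hs).trans (le_of_eq ?_)
    obtain ⟨j, rfl⟩ := Nat.exists_eq_succ_of_ne_zero hm
    simp only [Nat.succ_eq_add_one, Nat.add_sub_cancel, pow_succ]
    ring
  have e2 : Tendsto (fun s : ℂ => G s * (dlz ζ s / s ^ (m - 1))) (𝓝[≠] 0) (𝓝 (G 0 * (m * a))) :=
    (hG.tendsto.mono_left nhdsWithin_le_nhds).mul e1
  refine e2.congr' ?_
  filter_upwards [nhdsWithin_le_nhds (ball_mem_nhds (0 : ℂ) hr), self_mem_nhdsWithin] with s hs hs0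
  rw [hgG s hs hs0, sub_zero, zpow_natCast, mul_div_assoc]

/-- from the derivative form of L1 -/
theorem dlz_of_fderiv {ζ : ℂ → ℂ} {s c : ℂ} {ε : ℝ}
    (h : ∀ v, ‖fderiv ℝ ζ s v - c * v‖ ≤ ε * ‖v‖) : ‖dlz ζ s - c‖ ≤ ε := by
  have e1 := h 1
  have e2 := h I
  rw [mul_one, norm_one, mul_one] at e1
  rw [norm_I, mul_one] at e2
  have e3 : dlz ζ s - c = (2 : ℂ)⁻¹ * ((fderiv ℝ ζ s 1 - c) - I * (fderiv ℝ ζ s I - c * I)) := by
    rw [dlz]
    linear_combination (-(2 : ℂ)⁻¹ * c) * Complex.I_sq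
  rw [e3, norm_mul, norm_inv]
  have e4 : ‖(2 : ℂ)‖ = 2 := by simp
  have e5 : ‖I * (fderiv ℝ ζ s I - c * I)‖ ≤ ε := by rw [norm_mul, norm_I, one_mul]; exact e2
  have e6 := norm_sub_le (fderiv ℝ ζ s 1 - c) (I * (fderiv ℝ ζ s I - c * I))
  rw [e4]
  linarith

/-- the section `-G (ζ_s + μ conj(ζ_s̄))` in terms of `∂ζ` -/
theorem sec_eq {μ β : ℂ × ℂ → ℂ} {ζ z : ℂ → ℂ} {s : ℂ} (hJ : JC μ β ζ z s) :
    dlz ζ s + μ (ζ s, z s) * (starRingEnd ℂ) (db ζ s) =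
      ((1 - ‖μ (ζ s, z s)‖ ^ 2 : ℝ) : ℂ) * dlz ζ s := by
  rw [hJ.eζ]
  simp only [map_mul, map_neg, Complex.conj_conj]
  have hmm : μ (ζ s, z s) * (starRingEnd ℂ) (μ (ζ s, z s)) = (‖μ (ζ s, z s)‖ : ℂ) ^ 2 := by
    rw [Complex.mul_conj, Complex.normSq_eq_norm_sq]; push_cast; ring
  push_cast
  linear_combination (-dlz ζ s) * hmm

end

end Crest.Agent.R235.AdjPos_688
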