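import Mathlib
import Crest.Agent.R240.IntPair
import Crest.Agent.R240.Ch7
import Crest.Agent.R240.Lin4

/-!
Row 235 (S0364), package HZ, block LINK (helper692, blueprint helper470 #1591).

`ψ` a smooth partition of unity subordinate to the open cover `B`, `c` a real Čech two-cocycle of
`B`.  `tau ψ c = ∑ c i j k ψ i dψ j ∧ dψ k` is a smooth closed two-form, equal to
`∑ c l j k dψ j ∧ dψ k = d (∑ c l j k ψ j dψ k)` on `B l`; the class is linear in `c`, `tau` of a
coboundary is exact, and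
`∫ tau c ∧ tau c' = ∑ c i j k c' k l m ∫ ψ i dψ j ∧ dψ k ∧ dψ l ∧ dψ m`.
-/

set_option autoImplicit false
set_option maxSynthPendingDepth 3
set_option linter.unusedSectionVars false

open Set Function Filter MeasureTheory
open scoped Manifold ContDiff Topology

namespace Crest.Agent.R235.Tau_692

open Crest.Agent.R240 Crest.Agent.R240.Ch

noncomputable section

/-! ### finite sums -/

section Alg

variable {ι : Type*} [Fintype ι]

/-- the algebraic identity behind the local formula. -/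
theorem alg_local {T : ι → Prop} {ψ p q : ι → ℝ} {c : ι → ι → ι → ℝ} (l : ι)
    (h0 : ∀ i, ¬ T i → ψ i = 0) (hp0 : ∀ i, ¬ T i → p i = 0) (hq0 : ∀ i, ¬ T i → q i = 0)
    (hψ : ∑ i, ψ i = 1) (hp : ∑ i, p i = 0) (hq : ∑ i, q i = 0)
    (hc : ∀ i j k, T i → T j → T k → c i j k = c l j k - c l i k + c l i j) :
    ∑ i, ∑ j, ∑ k, c i j k * (ψ i * (p j * q k - p k * q j)) =
      ∑ j, ∑ k, c l j k * (p j * q k - p k * q j) := by
  have h1 : ∀ i j k, c i j k * (ψ i * (p j * q k - p k * q j)) =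
      ψ i * (c l j k * (p j * q k - p k * q j)) - c l i k * ψ i * (p j * q k - p k * q j)
        + c l i j * ψ i * (p j * q k - p k * q j) := by
    intro i j k
    by_cases hi : T i
    · by_cases hj : T j
      · by_cases hk : T k
        · rw [hc i j k hi hj hk]; ring
        · rw [hp0 k hk, hq0 k hk]; ring
      · rw [hp0 j hj, hq0 j hj]; ring
    · rw [h0 i hi]; ring
  simp only [h1, Finset.sum_add_distrib, Finset.sum_sub_distrib]
  have e1 : ∑ i, ∑ j, ∑ k, ψ i * (c l j k * (p j * q k - p k * q j)) =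
      ∑ j, ∑ k, c l j k * (p j * q k - p k * q j) := by
    simp only [← Finset.mul_sum]
    rw [← Finset.sum_mul, hψ, one_mul]
  have e2 : ∑ i, ∑ j, ∑ k, c l i k * ψ i * (p j * q k - p k * q j) = 0 := by
    refine Finset.sum_eq_zero fun i _ => ?_
    rw [Finset.sum_comm]
    refine Finset.sum_eq_zero fun k _ => ?_
    rw [← Finset.mul_sum, Finset.sum_sub_distrib, ← Finset.sum_mul, ← Finset.mul_sum, hp, hq]
    simp
  have e3 : ∑ i, ∑ j, ∑ k, c l i j * ψ i * (p j * q k - p k * q j) = 0 := by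
    refine Finset.sum_eq_zero fun i _ => Finset.sum_eq_zero fun j _ => ?_
    rw [← Finset.mul_sum, Finset.sum_sub_distrib, ← Finset.mul_sum, ← Finset.sum_mul, hp, hq]
    simp
  rw [e1, e2, e3]; ring

end Alg

/-! ### the forms -/

section General

variable {E : Type*} [NormedAddCommGroup E] [NormedSpace ℝ E]
variable {M : Type*} [TopologicalSpace M] [ChartedSpace E M] [IsManifold 𝓘(ℝ, E) ∞ M]
variable {ι : Type*} [Fintype ι]

/-- the two-form `dψ j ∧ dψ k`. -/
def dd2 (ψ : ι → M → ℝ) (j k : ι) : F2 E M := wedG (dF (ψ j)) (dF (ψ k))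

/-- `∑ c i j k ψ i dψ j ∧ dψ k`. -/
def tau (ψ : ι → M → ℝ) (c : ι → ι → ι → ℝ) : F2 E M :=
  ∑ i, ∑ j, ∑ k, c i j k • fmul (ψ i) (dd2 ψ j k)

/-- `∑ b j k dψ j ∧ dψ k`. -/
def tau2 (ψ : ι → M → ℝ) (b : ι → ι → ℝ) : F2 E M := ∑ j, ∑ k, b j k • dd2 ψ j k

/-- `∑ b j k ψ j dψ k`. -/
def sig (ψ : ι → M → ℝ) (b : ι → ι → ℝ) : F1 E M :=
  ∑ j, ∑ k, b j k • fmul1 (ψ j) (dF (ψ k))

/-- a smooth partition of unity subordinate to the open cover `B`. -/
structure PUn (E : Type*) [NormedAddCommGroup E] [NormedSpace ℝ E] {M : Type*}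
    [TopologicalSpace M] [ChartedSpace E M] {ι : Type*} [Fintype ι] (B : ι → Set M)
    (ψ : ι → M → ℝ) : Prop where
  op : ∀ i, IsOpen (B i)
  sm : ∀ i, SmoothF E (ψ i)
  supp : ∀ i, tsupport (ψ i) ⊆ B i
  sum : ∀ x, ∑ i, ψ i x = 1

/-- a real two-cocycle of the cover `B` (Čech). -/
def Coc {M ι : Type*} (B : ι → Set M) (c : ι → ι → ι → ℝ) : Prop :=
  ∀ i j k l, (∃ x, x ∈ B i ∧ x ∈ B j ∧ x ∈ B k ∧ x ∈ B l) →
    c j k l - c i k l + c i j l - c i j k = 0

/-- `c` is the coboundary of `b`. -/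
def IsCob {M ι : Type*} (B : ι → Set M) (c : ι → ι → ι → ℝ) (b : ι → ι → ℝ) : Prop :=
  ∀ i j k, (∃ x, x ∈ B i ∧ x ∈ B j ∧ x ∈ B k) → c i j k = b j k - b i k + b i j

/-! #### values at a point -/

/-- the value at `x` of the differential of `f`, on `u`. -/
def dv (f : M → ℝ) (x : M) (u : E) : ℝ := at1 (dF (E := E) f) x u

theorem dd2_apply (ψ : ι → M → ℝ) (j k : ι) (x : M) (u v : E) :
    at2 (dd2 (E := E) ψ j k) x u v =
      dv (ψ j) x u * dv (ψ k) x v - dv (ψ k) x u * dv (ψ j) x v := rfl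

omit [IsManifold 𝓘(ℝ, E) ∞ M] in
theorem at2_sum {κ : Type*} (s : Finset κ) (a : κ → F2 E M) (x : M) (u v : E) :
    at2 (∑ i ∈ s, a i) x u v = ∑ i ∈ s, at2 (a i) x u v := by
  classical
  induction s using Finset.induction_on with
  | empty => simp only [Finset.sum_empty]; rfl
  | insert i s hi ih => rw [Finset.sum_insert hi, Finset.sum_insert hi, ← ih]; rfl

omit [IsManifold 𝓘(ℝ, E) ∞ M] in
theorem at1_sum {κ : Type*} (s : Finset κ) (a : κ → F1 E M) (x : M) (u : E) :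
    at1 (∑ i ∈ s, a i) x u = ∑ i ∈ s, at1 (a i) x u := by
  classical
  induction s using Finset.induction_on with
  | empty => simp only [Finset.sum_empty]; rfl
  | insert i s hi ih => rw [Finset.sum_insert hi, Finset.sum_insert hi, ← ih]; rfl

theorem tau_apply (ψ : ι → M → ℝ) (c : ι → ι → ι → ℝ) (x : M) (u v : E) :
    at2 (tau (E := E) ψ c) x u v = ∑ i, ∑ j, ∑ k, c i j k *
      (ψ i x * (dv (ψ j) x u * dv (ψ k) x v - dv (ψ k) x u * dv (ψ j) x v)) := by
  unfold tau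
  rw [at2_sum]
  refine Finset.sum_congr rfl fun i _ => ?_
  rw [at2_sum]
  refine Finset.sum_congr rfl fun j _ => ?_
  rw [at2_sum]
  rfl

theorem tau2_apply (ψ : ι → M → ℝ) (b : ι → ι → ℝ) (x : M) (u v : E) :
    at2 (tau2 (E := E) ψ b) x u v = ∑ j, ∑ k, b j k *
      (dv (ψ j) x u * dv (ψ k) x v - dv (ψ k) x u * dv (ψ j) x v) := by
  unfold tau2
  rw [at2_sum]
  refine Finset.sum_congr rfl fun j _ => ?_
  rw [at2_sum]
  rfl

theorem ext2' {a b : F2 E M} (h : ∀ x u v, at2 a x u v = at2 b x u v) : a = b := by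
  funext x
  exact ContinuousLinearMap.ext fun u => ContinuousLinearMap.ext fun v => h x u v

theorem ext_at2 {a b : F2 E M} {x : M} (h : ∀ u v, at2 a x u v = at2 b x u v) :
    at2 a x = at2 b x :=
  ContinuousLinearMap.ext fun u => ContinuousLinearMap.ext fun v => h u v

/-! #### smoothness -/

theorem smooth2_sum {κ : Type*} (s : Finset κ) {a : κ → F2 E M} (h : ∀ i ∈ s, Smooth2 (a i)) :
    Smooth2 (∑ i ∈ s, a i) := by
  classical
  induction s using Finset.induction_on with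
  | empty => simpa using smooth2_zero
  | insert i s hi ih =>
    rw [Finset.sum_insert hi]
    exact (h i (Finset.mem_insert_self _ _)).add
      (ih fun j hj => h j (Finset.mem_insert_of_mem hj))

theorem smooth1_sum {κ : Type*} (s : Finset κ) {a : κ → F1 E M} (h : ∀ i ∈ s, Smooth1 (a i)) :
    Smooth1 (∑ i ∈ s, a i) := by
  classical
  induction s using Finset.induction_on with
  | empty => simpa using smooth1_zero
  | insert i s hi ih =>
    rw [Finset.sum_insert hi]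
    exact (h i (Finset.mem_insert_self _ _)).add
      (ih fun j hj => h j (Finset.mem_insert_of_mem hj))

theorem dG_sum {κ : Type*} (s : Finset κ) {a : κ → F1 E M} (h : ∀ i ∈ s, Smooth1 (a i)) :
    dG (∑ i ∈ s, a i) = ∑ i ∈ s, dG (a i) := by
  classical
  induction s using Finset.induction_on with
  | empty =>
    have h := dG_smul (0 : ℝ) (smooth1_zero (E := E) (M := M))
    simpa using h
  | insert i s hi ih =>
    rw [Finset.sum_insert hi, Finset.sum_insert hi, dG_add (h i (Finset.mem_insert_self _ _))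
      (smooth1_sum s fun j hj => h j (Finset.mem_insert_of_mem hj)),
      ih fun j hj => h j (Finset.mem_insert_of_mem hj)]

variable {B : ι → Set M} {ψ : ι → M → ℝ}

theorem smooth_dd2 (hψ : ∀ i, SmoothF E (ψ i)) (j k : ι) : Smooth2 (dd2 (E := E) ψ j k) :=
  Smooth2.wed (Smooth1.dF (hψ j)) (Smooth1.dF (hψ k))

theorem smooth_tau (hψ : ∀ i, SmoothF E (ψ i)) (c : ι → ι → ι → ℝ) :
    Smooth2 (tau (E := E) ψ c) :=
  smooth2_sum _ fun i _ => smooth2_sum _ fun j _ => smooth2_sum _ fun k _ =>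
    (Smooth2.fmul (hψ i) (smooth_dd2 hψ j k)).smul _

theorem smooth_tau2 (hψ : ∀ i, SmoothF E (ψ i)) (b : ι → ι → ℝ) :
    Smooth2 (tau2 (E := E) ψ b) :=
  smooth2_sum _ fun j _ => smooth2_sum _ fun k _ => (smooth_dd2 hψ j k).smul _

theorem smooth_sig (hψ : ∀ i, SmoothF E (ψ i)) (b : ι → ι → ℝ) : Smooth1 (sig (E := E) ψ b) :=
  smooth1_sum _ fun j _ => smooth1_sum _ fun k _ =>
    (Smooth1.fmul (hψ j) (Smooth1.dF (hψ k))).smul _

theorem dG_fmul1_dF (hψ : ∀ i, SmoothF E (ψ i)) (j k : ι) :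
    dG (fmul1 (ψ j) (dF (E := E) (ψ k))) = dd2 ψ j k := by
  rw [dG_fmul1 (hψ j) (Smooth1.dF (hψ k)), dG_dF (hψ k)]
  refine ext2' fun x u v => ?_
  show at2 (dd2 (E := E) ψ j k) x u v + ψ j x * 0 = _
  ring

/-- `d (∑ b j k ψ j dψ k) = ∑ b j k dψ j ∧ dψ k`. -/
theorem dG_sig (hψ : ∀ i, SmoothF E (ψ i)) (b : ι → ι → ℝ) :
    dG (sig (E := E) ψ b) = tau2 ψ b := by
  unfold sig tau2
  rw [dG_sum _ fun j _ => smooth1_sum _ fun k _ =>
    (Smooth1.fmul (hψ j) (Smooth1.dF (hψ k))).smul _]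
  refine Finset.sum_congr rfl fun j _ => ?_
  rw [dG_sum _ fun k _ => (Smooth1.fmul (hψ j) (Smooth1.dF (hψ k))).smul _]
  refine Finset.sum_congr rfl fun k _ => ?_
  rw [dG_smul _ (Smooth1.fmul (hψ j) (Smooth1.dF (hψ k))), dG_fmul1_dF hψ]

/-! #### supports -/

omit [IsManifold 𝓘(ℝ, E) ∞ M] in
theorem dv_zero {f : M → ℝ} {x : M} (hx : x ∉ tsupport f) (u : E) : dv f x u = 0 := by
  have h1 : f =ᶠ[𝓝 x] 0 := notMem_tsupport_iff_eventuallyEq.1 hx
  have hc : ContinuousAt (chartAt E x).symm (chartAt E x x) :=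
    (chartAt E x).continuousAt_symm (mem_chart_target E x)
  have h2 : Tendsto (chartAt E x).symm (𝓝 (chartAt E x x)) (𝓝 x) := by
    have := hc.tendsto
    rwa [(chartAt E x).left_inv (mem_chart_source E x)] at this
  have h3 : repF x f =ᶠ[𝓝 (chartAt E x x)] fun _ => (0 : ℝ) := h2.eventually h1
  show fderiv ℝ (repF x f) (chartAt E x x) u = 0
  rw [h3.fderiv_eq]
  simp

omit [IsManifold 𝓘(ℝ, E) ∞ M] in
theorem sum_dv (hψ : ∀ i, SmoothF E (ψ i)) (hs : ∀ x, ∑ i, ψ i x = 1) (x : M) (u : E) :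
    ∑ i, dv (ψ i) x u = 0 := by
  have hd : ∀ i, DifferentiableAt ℝ (repF (E := E) x (ψ i)) (chartAt E x x) := fun i =>
    ((hψ i).at (mem_chart_target E x)).differentiableAt infty_ne_zero
  have h1 : fderiv ℝ (fun y => ∑ i, repF (E := E) x (ψ i) y) (chartAt E x x) =
      ∑ i, fderiv ℝ (repF (E := E) x (ψ i)) (chartAt E x x) :=
    fderiv_fun_sum fun i _ => hd i
  have h2 : (fun y => ∑ i, repF (E := E) x (ψ i) y) = fun _ => (1 : ℝ) := by
    funext y; exact hs _
  rw [h2] at h1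
  have h3 := congrArg (fun L : E →L[ℝ] ℝ => L u) h1
  simp only [fderiv_fun_const, Pi.zero_apply, zero_apply,
    sum_apply] at h3
  exact h3.symm

omit [IsManifold 𝓘(ℝ, E) ∞ M] in
theorem PUn.exists_mem (h : PUn E B ψ) (x : M) : ∃ l, x ∈ B l := by
  by_contra hn
  push Not at hn
  have h1 : ∀ i, ψ i x = 0 := fun i =>
    image_eq_zero_of_notMem_tsupport fun hx => hn i (h.supp i hx)
  have h2 := h.sum x
  simp [h1] at h2

theorem coc_rel {c : ι → ι → ι → ℝ} (hc : Coc B c) {x : M} {l : ι} (hl : x ∈ B l) (i j k : ι)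
    (hi : x ∈ B i) (hj : x ∈ B j) (hk : x ∈ B k) : c i j k = c l j k - c l i k + c l i j := by
  have := hc l i j k ⟨x, hl, hi, hj, hk⟩
  linarith

/-- **local formula**: on `B l`, `tau c = ∑ c l j k dψ j ∧ dψ k`. -/
theorem tau_local (h : PUn E B ψ) {c : ι → ι → ι → ℝ} (hc : Coc B c) {x : M} {l : ι}
    (hl : x ∈ B l) : at2 (tau (E := E) ψ c) x = at2 (tau2 ψ (c l)) x := by
  refine ext_at2 fun u v => ?_
  rw [tau_apply, tau2_apply]
  have hz : ∀ i, ¬ x ∈ B i → x ∉ tsupport (ψ i) := fun i hi hx => hi (h.supp i hx)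
  exact alg_local (T := fun i => x ∈ B i) (ψ := fun i => ψ i x) (p := fun i => dv (ψ i) x u)
    (q := fun i => dv (ψ i) x v) l (fun i hi => image_eq_zero_of_notMem_tsupport (hz i hi))
    (fun i hi => dv_zero (hz i hi) u) (fun i hi => dv_zero (hz i hi) v) (h.sum x)
    (sum_dv h.sm h.sum x u) (sum_dv h.sm h.sum x v) (fun i j k => coc_rel hc hl i j k)

/-- on `B l`, `tau c = d (∑ c l j k ψ j dψ k)`. -/
theorem tau_eq_dG (h : PUn E B ψ) {c : ι → ι → ι → ℝ} (hc : Coc B c) {x : M} {l : ι}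
    (hl : x ∈ B l) : at2 (tau (E := E) ψ c) x = at2 (dG (sig ψ (c l))) x := by
  rw [tau_local h hc hl, dG_sig h.sm]

theorem rep_eq_of_at2 {a b : F2 E M} {p : M} {y : E}
    (h : at2 a ((chartAt E p).symm y) = at2 b ((chartAt E p).symm y)) : rep p a y = rep p b y := by
  unfold rep
  rw [h]

theorem rep_ev {a b : F2 E M} {p : M} {y : E} {U : Set M} (hU : IsOpen U)
    (hy : y ∈ (chartAt E p).target) (hyU : (chartAt E p).symm y ∈ U)
    (h : ∀ x ∈ U, at2 a x = at2 b x) : rep p a =ᶠ[𝓝 y] rep p b := by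
  have hc : ContinuousAt (chartAt E p).symm y := (chartAt E p).continuousAt_symm hy
  filter_upwards [hc.preimage_mem_nhds (hU.mem_nhds hyU)] with z hz
  exact rep_eq_of_at2 (h _ hz)

/-- `tau c` is closed. -/
theorem closed_tau (h : PUn E B ψ) {c : ι → ι → ι → ℝ} (hc : Coc B c) :
    Closed2 (tau (E := E) ψ c) := by
  intro p y hy u v w
  obtain ⟨l, hl⟩ := h.exists_mem ((chartAt E p).symm y)
  rw [dd_congr (rep_ev (h.op l) hy hl fun x hx => tau_eq_dG h hc hx)]
  exact Closed2.dG (smooth_sig h.sm _) p y hy u v w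

/-! #### linearity and coboundaries -/

theorem tau_add (c c' : ι → ι → ι → ℝ) :
    tau (E := E) ψ (fun i j k => c i j k + c' i j k) = tau ψ c + tau ψ c' := by
  refine ext2' fun x u v => ?_
  show _ = at2 (tau ψ c) x u v + at2 (tau ψ c') x u v
  rw [tau_apply, tau_apply, tau_apply]
  simp only [add_mul, Finset.sum_add_distrib]

theorem tau_smul (r : ℝ) (c : ι → ι → ι → ℝ) :
    tau (E := E) ψ (fun i j k => r * c i j k) = r • tau ψ c := by
  refine ext2' fun x u v => ?_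
  show _ = r * at2 (tau ψ c) x u v
  rw [tau_apply, tau_apply]
  simp only [Finset.mul_sum, mul_assoc]

theorem tau_sub (c c' : ι → ι → ι → ℝ) :
    tau (E := E) ψ (fun i j k => c i j k - c' i j k) = tau ψ c - tau ψ c' := by
  refine ext2' fun x u v => ?_
  show _ = at2 (tau ψ c) x u v - at2 (tau ψ c') x u v
  rw [tau_apply, tau_apply, tau_apply]
  simp only [sub_mul, Finset.sum_sub_distrib]

/-- `tau` as a linear map. -/
def tauL (ψ : ι → M → ℝ) : (ι → ι → ι → ℝ) →ₗ[ℝ] F2 E M where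
  toFun := tau ψ
  map_add' c c' := tau_add c c'
  map_smul' r c := tau_smul r c

omit [IsManifold 𝓘(ℝ, E) ∞ M] in
theorem isCob_coc {c : ι → ι → ι → ℝ} {b : ι → ι → ℝ} (hb : IsCob B c b) : Coc B c := by
  rintro i j k l ⟨x, hi, hj, hk, hl⟩
  rw [hb j k l ⟨x, hj, hk, hl⟩, hb i k l ⟨x, hi, hk, hl⟩, hb i j l ⟨x, hi, hj, hl⟩,
    hb i j k ⟨x, hi, hj, hk⟩]
  ring

/-- `tau (δ b) = ∑ b j k dψ j ∧ dψ k = d (∑ b j k ψ j dψ k)`. -/
theorem tau_cob (h : PUn E B ψ) {c : ι → ι → ι → ℝ} {b : ι → ι → ℝ} (hb : IsCob B c b) :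
    tau (E := E) ψ c = dG (sig ψ b) := by
  rw [dG_sig h.sm]
  refine ext2' fun x u v => ?_
  rw [tau_apply, tau2_apply]
  have hz : ∀ i, ¬ x ∈ B i → x ∉ tsupport (ψ i) := fun i hi hx => hi (h.supp i hx)
  set p : ι → ℝ := fun i => dv (ψ i) x u with hpd
  set q : ι → ℝ := fun i => dv (ψ i) x v with hqd
  have hp0 : ∀ i, ¬ x ∈ B i → p i = 0 := fun i hi => dv_zero (hz i hi) u
  have hq0 : ∀ i, ¬ x ∈ B i → q i = 0 := fun i hi => dv_zero (hz i hi) v
  have h0 : ∀ i, ¬ x ∈ B i → ψ i x = 0 := fun i hi => image_eq_zero_of_notMem_tsupport (hz i hi)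
  have hp : ∑ i, p i = 0 := sum_dv h.sm h.sum x u
  have hq : ∑ i, q i = 0 := sum_dv h.sm h.sum x v
  have h1 : ∀ i j k, c i j k * (ψ i x * (p j * q k - p k * q j)) =
      ψ i x * (b j k * (p j * q k - p k * q j)) - b i k * ψ i x * (p j * q k - p k * q j)
        + b i j * ψ i x * (p j * q k - p k * q j) := by
    intro i j k
    by_cases hi : x ∈ B i
    · by_cases hj : x ∈ B j
      · by_cases hk : x ∈ B k
        · rw [hb i j k ⟨x, hi, hj, hk⟩]; ring
        · rw [hp0 k hk, hq0 k hk]; ring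
      · rw [hp0 j hj, hq0 j hj]; ring
    · rw [h0 i hi]; ring
  show ∑ i, ∑ j, ∑ k, c i j k * (ψ i x * (p j * q k - p k * q j)) =
    ∑ j, ∑ k, b j k * (p j * q k - p k * q j)
  simp only [h1, Finset.sum_add_distrib, Finset.sum_sub_distrib]
  have e1 : ∑ i, ∑ j, ∑ k, ψ i x * (b j k * (p j * q k - p k * q j)) =
      ∑ j, ∑ k, b j k * (p j * q k - p k * q j) := by
    simp only [← Finset.mul_sum]
    rw [← Finset.sum_mul, h.sum x, one_mul]
  have e2 : ∑ i, ∑ j, ∑ k, b i k * ψ i x * (p j * q k - p k * q j) = 0 := by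
    refine Finset.sum_eq_zero fun i _ => ?_
    rw [Finset.sum_comm]
    refine Finset.sum_eq_zero fun k _ => ?_
    rw [← Finset.mul_sum, Finset.sum_sub_distrib, ← Finset.sum_mul, ← Finset.mul_sum, hp, hq]
    simp
  have e3 : ∑ i, ∑ j, ∑ k, b i j * ψ i x * (p j * q k - p k * q j) = 0 := by
    refine Finset.sum_eq_zero fun i _ => Finset.sum_eq_zero fun j _ => ?_
    rw [← Finset.mul_sum, Finset.sum_sub_distrib, ← Finset.mul_sum, ← Finset.sum_mul, hp, hq]
    simp
  rw [e1, e2, e3]; ring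

end General

/-! ### the pairing -/

section Four

variable {M : Type*} [TopologicalSpace M] [ChartedSpace E4 M] [IsManifold 𝓘(ℝ, E4) ∞ M]
variable {ι : Type*} [Fintype ι] {B : ι → Set M} {ψ : ι → M → ℝ}

/-- `tau` of a coboundary is exact. -/
theorem isEx_tau (h : PUn E4 B ψ) {c : ι → ι → ι → ℝ} {b : ι → ι → ℝ} (hb : IsCob B c b) :
    IsEx (tau (E := E4) ψ c) := by
  rw [tau_cob h hb]
  exact isEx_dG (smooth_sig h.sm b)

theorem q_sum_left {κ : Type*} (s : Finset κ) (F : Bil) (a : κ → Bil) (b : Bil) :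
    q F (∑ i ∈ s, a i) b = ∑ i ∈ s, q F (a i) b := by
  classical
  induction s using Finset.induction_on with
  | empty =>
    have h := q_smul_left F 0 0 b
    simpa using h
  | insert i s hi ih => rw [Finset.sum_insert hi, Finset.sum_insert hi, q_add_left, ih]

theorem q_sum_right {κ : Type*} (s : Finset κ) (F : Bil) (a : κ → Bil) (b : Bil) :
    q F b (∑ i ∈ s, a i) = ∑ i ∈ s, q F b (a i) := by
  rw [q_comm, q_sum_left]
  exact Finset.sum_congr rfl fun i _ => q_comm _ _ _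

theorem at2_tau (ψ : ι → M → ℝ) (c : ι → ι → ι → ℝ) (x : M) :
    at2 (tau (E := E4) ψ c) x = ∑ i, ∑ j, ∑ k, (c i j k * ψ i x) • at2 (dd2 (E := E4) ψ j k) x := by
  ext u v
  rw [tau_apply]
  simp only [sum_apply, smul_apply, smul_eq_mul,
    dd2_apply, mul_assoc]

theorem at2_tau2 (ψ : ι → M → ℝ) (b : ι → ι → ℝ) (x : M) :
    at2 (tau2 (E := E4) ψ b) x = ∑ j, ∑ k, b j k • at2 (dd2 (E := E4) ψ j k) x := by
  ext u v
  rw [tau2_apply]
  simp only [sum_apply, smul_apply, smul_eq_mul,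
    dd2_apply]

theorem dd2_zero {ψ : ι → M → ℝ} {j k : ι} {x : M} (hx : x ∉ tsupport (ψ k)) :
    at2 (dd2 (E := E4) ψ j k) x = 0 := by
  ext u v
  rw [dd2_apply, dv_zero hx, dv_zero hx]
  simp

/-- the pointwise form of the pairing formula. -/
theorem q_tau (h : PUn E4 B ψ) (F : Bil) (c : ι → ι → ι → ℝ) {c' : ι → ι → ι → ℝ}
    (hc' : Coc B c') (x : M) :
    q F (at2 (tau (E := E4) ψ c) x) (at2 (tau (E := E4) ψ c') x) =
      ∑ i, ∑ j, ∑ k, ∑ l, ∑ m, c i j k * c' k l m *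
        (ψ i x * q F (at2 (dd2 (E := E4) ψ j k) x) (at2 (dd2 (E := E4) ψ l m) x)) := by
  rw [at2_tau, q_sum_left]
  refine Finset.sum_congr rfl fun i _ => ?_
  rw [q_sum_left]
  refine Finset.sum_congr rfl fun j _ => ?_
  rw [q_sum_left]
  refine Finset.sum_congr rfl fun k _ => ?_
  rw [q_smul_left]
  by_cases hk : x ∈ B k
  · rw [tau_local h hc' hk, at2_tau2, q_sum_right, Finset.mul_sum]
    refine Finset.sum_congr rfl fun l _ => ?_
    rw [q_sum_right, Finset.mul_sum]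
    refine Finset.sum_congr rfl fun m _ => ?_
    rw [q_smul_right]
    ring
  · have hz : at2 (dd2 (E := E4) ψ j k) x = 0 := dd2_zero fun hx => hk (h.supp k hx)
    rw [hz]
    have h0 : ∀ b : Bil, q F 0 b = 0 := fun b => by
      have h := q_smul_left F 0 0 b
      simpa using h
    simp [h0]

variable [MeasurableSpace M] [BorelSpace M] [T2Space M] [CompactSpace M]

/-- **LINK**: the wedge pairing of `tau c` and `tau c'`. -/
theorem I_tau (h : PUn E4 B ψ) {F : F2 E4 M} (hF : Int.Vol F) (c : ι → ι → ι → ℝ)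
    {c' : ι → ι → ι → ℝ} (hc' : Coc B c') :
    Int.I F (tau (E := E4) ψ c) (tau (E := E4) ψ c') =
      ∑ i, ∑ j, ∑ k, ∑ l, ∑ m, c i j k * c' k l m *
        Int.I F (fmul (ψ i) (dd2 (E := E4) ψ j k)) (dd2 (E := E4) ψ l m) := by
  have hint : ∀ i j k l m, Integrable (fun x => c i j k * c' k l m *
      qG F (fmul (ψ i) (dd2 (E := E4) ψ j k)) (dd2 (E := E4) ψ l m) x) (Int.mu F) := by
    intro i j k l m
    exact (Int.integrable_qG hF (Int.Smooth2.cont2 (Smooth2.fmul (h.sm i) (smooth_dd2 h.sm j k)))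
      (Int.Smooth2.cont2 (smooth_dd2 h.sm l m))).const_mul _
  have hpt : ∀ x, qG F (tau (E := E4) ψ c) (tau (E := E4) ψ c') x =
      ∑ i, ∑ j, ∑ k, ∑ l, ∑ m, c i j k * c' k l m *
        qG F (fmul (ψ i) (dd2 (E := E4) ψ j k)) (dd2 (E := E4) ψ l m) x := by
    intro x
    unfold qG
    rw [q_tau h (at2 F x) c hc' x]
    refine Finset.sum_congr rfl fun i _ => Finset.sum_congr rfl fun j _ =>
      Finset.sum_congr rfl fun k _ => Finset.sum_congr rfl fun l _ =>
      Finset.sum_congr rfl fun m _ => ?_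
    have he : at2 (fmul (ψ i) (dd2 (E := E4) ψ j k)) x = ψ i x • at2 (dd2 (E := E4) ψ j k) x := rfl
    rw [he, q_smul_left]
  unfold Int.I
  simp only [hpt]
  rw [integral_finsetSum _ fun i _ => integrable_finsetSum _ fun j _ =>
    integrable_finsetSum _ fun k _ => integrable_finsetSum _ fun l _ =>
    integrable_finsetSum _ fun m _ => hint i j k l m]
  refine Finset.sum_congr rfl fun i _ => ?_
  rw [integral_finsetSum _ fun j _ =>
    integrable_finsetSum _ fun k _ => integrable_finsetSum _ fun l _ =>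
    integrable_finsetSum _ fun m _ => hint i j k l m]
  refine Finset.sum_congr rfl fun j _ => ?_
  rw [integral_finsetSum _ fun k _ => integrable_finsetSum _ fun l _ =>
    integrable_finsetSum _ fun m _ => hint i j k l m]
  refine Finset.sum_congr rfl fun k _ => ?_
  rw [integral_finsetSum _ fun l _ => integrable_finsetSum _ fun m _ => hint i j k l m]
  refine Finset.sum_congr rfl fun l _ => ?_
  rw [integral_finsetSum _ fun m _ => hint i j k l m]
  refine Finset.sum_congr rfl fun m _ => ?_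
  rw [integral_const_mul]

end Four

end

end Crest.Agent.R235.Tau_692
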