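import Mathlib
import Crest.Agent.R235.Defs_837
import Crest.Agent.R235.Weil_524
import Crest.Agent.R235.Loc_524
import Crest.Agent.R235.Tau_692

/-!
Row 235 (S0364), block HZ (helper524): Čech-de Rham in degree 2.

* `CData B a A f c` : local Čech data (primitives `A i` on `B i`, `A i - A j = d f i j`,
  `f j k - f i k + f i j = c i j k`);
* `isEx_sub_tau` : then `a - tau c` is exact (`B` with a smooth partition of unity);
* `exists_cdata` : a closed smooth form has Čech data on a good cover.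
-/

set_option autoImplicit false
set_option maxSynthPendingDepth 3
set_option linter.unusedSectionVars false

open Set Function Filter
open scoped Manifold ContDiff Topology

namespace Crest.Agent.R235.Cdr_524

open Crest.Agent.R240 Crest.Agent.R240.Ch Loc_524 Tau_692

noncomputable section

section General

variable {E : Type} [NormedAddCommGroup E] [NormedSpace ℝ E]
variable {M : Type*} [TopologicalSpace M] [ChartedSpace E M] [IsManifold 𝓘(ℝ, E) ∞ M]
variable {ι : Type*}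

/-- local Čech data of the two-form `a` for the cover `B`. -/
structure CData (B : ι → Set M) (a : F2 E M) (A : ι → F1 E M) (f : ι → ι → M → ℝ)
    (c : ι → ι → ι → ℝ) : Prop where
  smA : ∀ i, ∀ x ∈ B i, SmAt1 (A i) x
  dA : ∀ i, ∀ x ∈ B i, at2 (dG (A i)) x = at2 a x
  smf : ∀ i j, ∀ x, x ∈ B i → x ∈ B j → SmAtF E (f i j) x
  df : ∀ i j, ∀ x, x ∈ B i → x ∈ B j → at1 (A i) x - at1 (A j) x = at1 (dF (E := E) (f i j)) x
  coc : ∀ i j k, ∀ x, x ∈ B i → x ∈ B j → x ∈ B k → f j k x - f i k x + f i j x = c i j k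

/-- the constants of Čech data are a cocycle. -/
theorem CData.isCoc {B : ι → Set M} {a : F2 E M} {A : ι → F1 E M} {f : ι → ι → M → ℝ}
    {c : ι → ι → ι → ℝ} (h : CData B a A f c) : Coc B c := by
  rintro i j k l ⟨x, hi, hj, hk, hl⟩
  have e1 := h.coc j k l x hj hk hl
  have e2 := h.coc i k l x hi hk hl
  have e3 := h.coc i j l x hi hj hl
  have e4 := h.coc i j k x hi hj hk
  linarith

/-- restriction of Čech data to a refinement. -/
theorem CData.refine {κ : Type*} {B : ι → Set M} {a : F2 E M} {A : ι → F1 E M}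
    {f : ι → ι → M → ℝ} {c : ι → ι → ι → ℝ} (h : CData B a A f c) {B' : κ → Set M} (r : κ → ι)
    (hr : ∀ k, B' k ⊆ B (r k)) :
    CData B' a (fun k => A (r k)) (fun k l => f (r k) (r l)) (fun k l m => c (r k) (r l) (r m)) where
  smA k x hx := h.smA _ x (hr k hx)
  dA k x hx := h.dA _ x (hr k hx)
  smf k l x hk hl := h.smf _ _ x (hr k hk) (hr l hl)
  df k l x hk hl := h.df _ _ x (hr k hk) (hr l hl)
  coc k l m x hk hl hm := h.coc _ _ _ x (hr k hk) (hr l hl) (hr m hm)

variable [FiniteDimensional ℝ E] [T2Space M] [CompactSpace M] [Fintype ι]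

/-- globalisation of local data. -/
theorem CData.global {B : ι → Set M} {ψ : ι → M → ℝ} (hP : PUn E B ψ) {a : F2 E M}
    {A : ι → F1 E M} {f : ι → ι → M → ℝ} {c : ι → ι → ι → ℝ} (h : CData B a A f c) :
    ∃ (A' : ι → F1 E M) (f' : ι → ι → M → ℝ), (∀ i, Smooth1 (A' i)) ∧
      (∀ i j, SmoothF E (f' i j)) ∧
      (∀ i x, x ∈ tsupport (ψ i) → at2 (dG (A' i)) x = at2 a x) ∧
      (∀ i j x, x ∈ tsupport (ψ i) → x ∈ tsupport (ψ j) →
        at1 (A' i) x - at1 (A' j) x = at1 (dF (E := E) (f' i j)) x) ∧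
      (∀ i j k x, x ∈ tsupport (ψ i) → x ∈ tsupport (ψ j) → x ∈ tsupport (ψ k) →
        f' j k x - f' i k x + f' i j x = c i j k) := by
  choose A' hA1 hA2 using fun i => exists_ext1 (isClosed_tsupport (ψ i)) (hP.op i) (hP.supp i)
    (h.smA i)
  choose f' hf1 hf2 using fun i j => exists_extF (E := E)
    ((isClosed_tsupport (ψ i)).inter (isClosed_tsupport (ψ j))) ((hP.op i).inter (hP.op j))
    (inter_subset_inter (hP.supp i) (hP.supp j)) (fun x hx => h.smf i j x hx.1 hx.2)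
  refine ⟨A', f', hA1, hf1, fun i x hx => ?_, fun i j x hi hj => ?_, fun i j k x hi hj hk => ?_⟩
  · rw [dG_congr (hA2 i x hx), h.dA i x (hP.supp i hx)]
  · have e1 : A' i x = A i x := (hA2 i x hi).self_of_nhds
    have e2 : A' j x = A j x := (hA2 j x hj).self_of_nhds
    have e3 : at1 (A' i) x - at1 (A' j) x = at1 (A i) x - at1 (A j) x := by
      show A' i x - A' j x = A i x - A j x
      rw [e1, e2]
    rw [e3, h.df i j x (hP.supp i hi) (hP.supp j hj), Loc_524.dF_congr (hf2 i j x ⟨hi, hj⟩)]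
  · rw [(hf2 j k x ⟨hj, hk⟩).self_of_nhds, (hf2 i k x ⟨hi, hk⟩).self_of_nhds,
      (hf2 i j x ⟨hi, hj⟩).self_of_nhds]
    exact h.coc i j k x (hP.supp i hi) (hP.supp j hj) (hP.supp k hk)

theorem tauF_eq_tau (ψ : ι → M → ℝ) (c : ι → ι → ι → ℝ) :
    Weil_524.tauF (E := E) ψ c = tau ψ c := rfl

end General

/-! ### existence of Čech data -/

section Exist

variable {E : Type} [NormedAddCommGroup E] [NormedSpace ℝ E] [FiniteDimensional ℝ E]
variable {M : Type*} [TopologicalSpace M] [ChartedSpace E M] [IsManifold 𝓘(ℝ, E) ∞ M]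
variable {ι : Type*}

omit [FiniteDimensional ℝ E] [IsManifold 𝓘(ℝ, E) ∞ M] in
/-- intersections of convex sets in a chart. -/
theorem convex_image_inter {p : M} {U V : Set M} (hU : U ⊆ (chartAt E p).source)
    (hV : V ⊆ (chartAt E p).source) (h1 : Convex ℝ (chartAt E p '' U))
    (h2 : Convex ℝ (chartAt E p '' V)) : Convex ℝ (chartAt E p '' (U ∩ V)) := by
  have h : chartAt E p '' (U ∩ V) = chartAt E p '' U ∩ chartAt E p '' V := by
    apply Subset.antisymm (image_inter_subset _ _ _)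
    rintro y ⟨⟨x, hx, rfl⟩, ⟨z, hz, hxz⟩⟩
    have : z = x := (chartAt E p).injOn (hV hz) (hU hx) hxz
    subst this
    exact ⟨z, ⟨hx, hz⟩, rfl⟩
  rw [h]
  exact h1.inter h2

/-- **a closed form has Čech data** on a cover with convex intersections. -/
theorem exists_cdata {p : ι → M} {B : ι → Set M} (hB : ∀ i, IsOpen (B i))
    (hs : ∀ i, B i ⊆ (chartAt E (p i)).source)
    (hconv : ∀ i j, Convex ℝ (chartAt E (p i) '' (B i ∩ B j))) {a : F2 E M} (ha : Smooth2 a)
    (hc : Closed2 a) : ∃ (A : ι → F1 E M) (f : ι → ι → M → ℝ) (c : ι → ι → ι → ℝ),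
      CData B a A f c := by
  have hconv1 : ∀ i, Convex ℝ (chartAt E (p i) '' (B i)) := fun i => by
    have := hconv i i
    rwa [inter_self] at this
  choose A hA1 hA2 using fun i => poincare2_loc ha hc (hB i) (hs i) (hconv1 i)
  have hsub : ∀ i j x, x ∈ B i ∩ B j → SmAt1 (A i - A j) x := fun i j x hx =>
    (hA1 i x hx.1).sub (hA1 j x hx.2)
  choose f hf1 hf2 using fun i j => poincare1_loc (s := A i - A j) ((hB i).inter (hB j))
    (inter_subset_left.trans (hs i)) (hconv i j) (hsub i j) (fun x hx => by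
      rw [dG_sub_at (hA1 i x hx.1) (hA1 j x hx.2), hA2 i x hx.1, hA2 j x hx.2, sub_self])
  have hc3 : ∀ i j k, ∃ r : ℝ, ∀ x ∈ B i ∩ B j ∩ B k, f j k x - f i k x + f i j x = r := by
    intro i j k
    have hs3 : B i ∩ B j ∩ B k ⊆ (chartAt E (p i)).source :=
      (inter_subset_left.trans inter_subset_left).trans (hs i)
    have e : B i ∩ B j ∩ B k = (B i ∩ B j) ∩ (B i ∩ B k) := by
      ext x; simp only [mem_inter_iff]; tauto
    refine const_loc (((hB i).inter (hB j)).inter (hB k)) hs3 ?_ (fun x hx => ?_) fun x hx => ?_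
    · rw [e]
      exact convex_image_inter (inter_subset_left.trans (hs i)) (inter_subset_left.trans (hs i))
        (hconv i j) (hconv i k)
    · exact SmAtF.add ((hf1 j k x ⟨hx.1.2, hx.2⟩).sub (hf1 i k x ⟨hx.1.1, hx.2⟩)) (hf1 i j x hx.1)
    · have s1 := hf1 j k x ⟨hx.1.2, hx.2⟩
      have s2 := hf1 i k x ⟨hx.1.1, hx.2⟩
      have s3 := hf1 i j x hx.1
      rw [dF_add_at (s1.sub s2) s3, dF_sub_at s1 s2, hf2 j k x ⟨hx.1.2, hx.2⟩,
        hf2 i k x ⟨hx.1.1, hx.2⟩, hf2 i j x hx.1]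
      have e1 : ∀ (s t : F1 E M), at1 (s - t) x = at1 s x - at1 t x := fun _ _ => rfl
      rw [e1, e1, e1]
      abel
  choose c hc4 using hc3
  exact ⟨A, f, c, hA1, hA2, fun i j x hi hj => hf1 i j x ⟨hi, hj⟩,
    fun i j x hi hj => (hf2 i j x ⟨hi, hj⟩).symm, fun i j k x hi hj hk => hc4 i j k x ⟨⟨hi, hj⟩, hk⟩⟩

end Exist

section Four

variable {M : Type*} [TopologicalSpace M] [ChartedSpace E4 M] [IsManifold 𝓘(ℝ, E4) ∞ M]
variable [T2Space M] [CompactSpace M] {ι : Type*} [Fintype ι]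

/-- **CDR0**: from local Čech data, `a - tau c` is exact. -/
theorem isEx_sub_tau {B : ι → Set M} {ψ : ι → M → ℝ} (hP : PUn E4 B ψ) {a : F2 E4 M}
    {A : ι → F1 E4 M} {f : ι → ι → M → ℝ} {c : ι → ι → ι → ℝ} (h : CData B a A f c) :
    IsEx (a - tau ψ c) := by
  obtain ⟨A', f', h1, h2, h3, h4, h5⟩ := h.global hP
  exact Weil_524.isEx_sub_tauF hP.sm hP.sum h1 h2 h3 h4 h5

/-- the closed form `tau c`. -/
def tauZ {B : ι → Set M} {ψ : ι → M → ℝ} (hP : PUn E4 B ψ) (c : ι → ι → ι → ℝ) (hc : Coc B c) :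
    Z2 M := ⟨⟨tau ψ c, smooth_tau hP.sm c⟩, closed_tau hP hc⟩

theorem cls_eq_iff {a b : Z2 M} : cls a = cls b ↔ IsEx ((a.1.1 : F2 E4 M) - b.1.1) := by
  unfold cls
  rw [Submodule.mkQ_apply, Submodule.mkQ_apply, Submodule.Quotient.eq]
  rfl

/-- the class of a closed form with Čech data. -/
theorem cls_eq_tauZ {B : ι → Set M} {ψ : ι → M → ℝ} (hP : PUn E4 B ψ) {a : Z2 M}
    {A : ι → F1 E4 M} {f : ι → ι → M → ℝ} {c : ι → ι → ι → ℝ} (h : CData B (a.1.1 : F2 E4 M) A f c) :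
    cls a = cls (tauZ hP c h.isCoc) := cls_eq_iff.2 (isEx_sub_tau hP h)

/-- **CDR**: every class is the class of some `tau c`. -/
theorem exists_coc {p : ι → M} {B : ι → Set M} {ψ : ι → M → ℝ} (hP : PUn E4 B ψ)
    (hs : ∀ i, B i ⊆ (chartAt E4 (p i)).source)
    (hconv : ∀ i j, Convex ℝ (chartAt E4 (p i) '' (B i ∩ B j))) (a : Z2 M) :
    ∃ (c : ι → ι → ι → ℝ) (hc : Coc B c), cls a = cls (tauZ hP c hc) := by
  obtain ⟨A, f, c, h⟩ := exists_cdata hP.op hs hconv a.1.2 a.2
  exact ⟨c, h.isCoc, cls_eq_tauZ hP h⟩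

end Four

end

end Crest.Agent.R235.Cdr_524
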