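import Mathlib

/-!
Row 235, block HZ (task 189): abstract lattice lemma.  A finitely generated subgroup `K` of a real
vector space which spans and is unimodular for a bilinear form has an `ℝ`-basis of `V` which is a
`ℤ`-basis of `K`, with integral Gram matrix of determinant `±1`.  (helper785)
-/

set_option autoImplicit false

namespace Crest.Agent.R235.LatA_785

open Module

theorem exists_basis_of_unimodular {V : Type*} [AddCommGroup V] [Module ℝ V]
    (B : V →ₗ[ℝ] V →ₗ[ℝ] ℝ)
    (K : AddSubgroup V) (hfg : K.FG) (hspan : Submodule.span ℝ (K : Set V) = ⊤)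
    (hint : ∀ x ∈ K, ∀ y ∈ K, ∃ m : ℤ, B x y = m)
    (huni : ∀ φ : K →+ ℤ, ∃ y ∈ K, ∀ x : K, B x y = φ x) :
    ∃ (m : ℕ) (e : Module.Basis (Fin m) ℝ V) (G : Matrix (Fin m) (Fin m) ℤ),
      (∀ i j, B (e i) (e j) = G i j) ∧ IsUnit G.det ∧
      (K : Set V) = {c | ∃ n : Fin m → ℤ, c = ∑ i, (n i : ℝ) • e i} := by
  classical
  have hfin : Module.Finite ℤ K := by
    rw [Module.Finite.iff_addGroup_fg]
    exact (AddGroup.fg_iff_addSubgroup_fg K).2 hfg
  have : NoZeroSMulDivisors ℤ K := by
    constructor
    intro n x hx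
    by_cases hn : n = 0
    · exact Or.inl hn
    · right
      have h1 : (n : ℝ) • (x : V) = 0 := by
        have := congrArg (Subtype.val) hx
        simpa [← Int.cast_smul_eq_zsmul ℝ] using this
      rcases smul_eq_zero.1 h1 with h | h
      · exact absurd (by exact_mod_cast h) hn
      · exact Subtype.ext h
  have : Module.Free ℤ K := inferInstance
  let b : Module.Basis (Fin (finrank ℤ K)) ℤ K := Module.finBasis ℤ K
  set m := finrank ℤ K with hm
  -- dual vectors
  have hdual : ∀ j : Fin m, ∃ y ∈ K, ∀ x : K, B x y = ((b.coord j x : ℤ) : ℝ) := fun j =>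
    huni (b.coord j).toAddMonoidHom
  choose k hkK hk using hdual
  have hkb : ∀ i j : Fin m, B (b i : V) (k j) = if i = j then 1 else 0 := by
    intro i j
    rw [hk j (b i), Module.Basis.coord_apply, Module.Basis.repr_self, Finsupp.single_apply]
    split_ifs <;> simp
  have hli : LinearIndependent ℝ (fun i : Fin m => (b i : V)) := by
    rw [Fintype.linearIndependent_iff]
    intro g hg j
    have h1 := congrArg (fun v => B v (k j)) hg
    simp only [map_sum, map_smul, LinearMap.sum_apply, LinearMap.smul_apply, hkb, map_zero,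
      LinearMap.zero_apply, smul_eq_mul, mul_ite, mul_one, mul_zero, Finset.sum_ite_eq',
      Finset.mem_univ, if_true] at h1
    exact h1
  have hrepr : ∀ x : K, (x : V) = ∑ i, ((b.repr x i : ℤ) : ℝ) • (b i : V) := by
    intro x
    have h0 : (K.subtype (∑ i, b.repr x i • b i) : V) = K.subtype x := by rw [b.sum_repr x]
    rw [map_sum] at h0
    rw [AddSubgroup.subtype_apply] at h0
    rw [← h0]
    refine Finset.sum_congr rfl fun i _ => ?_
    rw [map_zsmul, AddSubgroup.subtype_apply, Int.cast_smul_eq_zsmul]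
  have hsp : ⊤ ≤ Submodule.span ℝ (Set.range fun i : Fin m => (b i : V)) := by
    rw [← hspan, Submodule.span_le]
    intro x hx
    have := hrepr ⟨x, hx⟩
    simp only at this
    rw [SetLike.mem_coe, this]
    exact Submodule.sum_mem _ fun i _ => Submodule.smul_mem _ _ (Submodule.subset_span ⟨i, rfl⟩)
  let e : Module.Basis (Fin m) ℝ V := Module.Basis.mk hli hsp
  have he : ∀ i, e i = (b i : V) := fun i => by simp [e]
  have hG : ∀ i j : Fin m, ∃ z : ℤ, B (b i : V) (b j : V) = z := fun i j =>
    hint _ (b i).2 _ (b j).2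
  choose G hG using hG
  let C : Matrix (Fin m) (Fin m) ℤ := fun i j => b.repr ⟨k j, hkK j⟩ i
  refine ⟨m, e, Matrix.of G, fun i j => by rw [he, he]; exact hG i j, ?_, ?_⟩
  · have hGC : Matrix.of G * C = 1 := by
      ext i j
      have h1 : B (b i : V) (k j) = ∑ l, ((b.repr ⟨k j, hkK j⟩ l : ℤ) : ℝ) * (G i l : ℝ) := by
        have h2 := hrepr ⟨k j, hkK j⟩
        simp only at h2
        conv_lhs => rw [h2]
        rw [map_sum]
        refine Finset.sum_congr rfl fun l _ => ?_
        rw [map_smul, smul_eq_mul, hG]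
      rw [hkb] at h1
      rw [Matrix.mul_apply, Matrix.one_apply]
      have h3 : (((∑ l, G i l * C l j : ℤ)) : ℝ) = if i = j then 1 else 0 := by
        rw [h1]; push_cast
        exact Finset.sum_congr rfl fun l _ => mul_comm _ _
      simp only [Matrix.of_apply]
      split_ifs at h3 ⊢ with hij
      · exact_mod_cast h3
      · exact_mod_cast h3
    have := congrArg Matrix.det hGC
    rw [Matrix.det_mul, Matrix.det_one] at this
    exact IsUnit.of_mul_eq_one _ this
  · ext c
    constructor
    · intro hc
      refine ⟨fun i => b.repr ⟨c, hc⟩ i, ?_⟩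
      have h2 := hrepr ⟨c, hc⟩
      simp only [he]
      exact h2
    · rintro ⟨n, rfl⟩
      refine AddSubgroup.sum_mem _ fun i _ => ?_
      rw [he, Int.cast_smul_eq_zsmul]
      exact AddSubgroup.zsmul_mem _ (b i).2 _

end Crest.Agent.R235.LatA_785
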