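import Mathlib.LinearAlgebra.Basis.VectorSpace
import Mathlib.LinearAlgebra.Matrix.ToLin
import Mathlib.Data.Real.Basic
import Mathlib.Algebra.BigOperators.Field
import Mathlib.Algebra.Algebra.Rat
import Mathlib.Tactic
import Crest.Agent.R275.TopK_106

/-!
# R235 (S0364), block HZ: real solutions of an integral linear system are spanned by integral ones

`span_int_system` : arbitrary (also infinite) integral systems in finitely many unknowns;
`span_int_kernel` : matrix form; `span_int_cocycle` : real Cech 2-cocycles of a finite cover are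
real combinations of integral ones; `span_int_cocycle1` : the same for 1-cocycles.
-/

set_option autoImplicit false

open Finset

namespace Crest.Agent.R235.SpanZ_311

/-- common denominator of finitely many rationals -/
theorem exists_den {ι : Type*} [Fintype ι] (q : ι → ℚ) :
    ∃ d : ℕ, d ≠ 0 ∧ ∃ u : ι → ℤ, ∀ i, (u i : ℚ) = d * q i := by
  classical
  refine ⟨∏ j, (q j).den, Finset.prod_ne_zero_iff.2 fun j _ => (q j).den_nz,
    fun i => (q i).num * ∏ j ∈ Finset.univ.erase i, ((q j).den : ℤ), fun i => ?_⟩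
  have h1 : ((∏ j, (q j).den : ℕ) : ℚ) = ((q i).den : ℚ) * ∏ j ∈ Finset.univ.erase i, ((q j).den : ℚ) := by
    rw [Nat.cast_prod, Finset.mul_prod_erase Finset.univ (fun j => ((q j).den : ℚ)) (Finset.mem_univ i)]
  rw [h1]
  push_cast
  have h2 : ((q i).den : ℚ) * q i = (q i).num := by
    rw [mul_comm]; exact Rat.mul_den_eq_num (q i)
  rw [mul_right_comm, h2]

/-- real solutions of an integral linear system (any number of equations) are real combinations of
integral solutions -/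
theorem span_int_system {ι κ : Type*} [Fintype ι] (A : κ → ι → ℤ) (v : ι → ℝ)
    (hv : ∀ k, ∑ i, (A k i : ℝ) * v i = 0) :
    v ∈ Submodule.span ℝ {w : ι → ℝ | ∃ u : ι → ℤ, (∀ k, ∑ i, A k i * u i = 0) ∧
      w = fun i => (u i : ℝ)} := by
  classical
  let B := Module.Basis.ofVectorSpace ℚ ℝ
  -- coordinates
  have hq : ∀ k b, ∑ i, (A k i : ℚ) * B.repr (v i) b = 0 := by
    intro k b
    have h1 : B.repr (∑ i, (A k i : ℝ) * v i) b = ∑ i, (A k i : ℚ) * B.repr (v i) b := by
      have h2 : (∑ i, (A k i : ℝ) * v i) = ∑ i, (A k i : ℚ) • v i := by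
        refine Finset.sum_congr rfl fun i _ => ?_
        rw [Rat.smul_def]; push_cast; rfl
      rw [h2, map_sum, Finsupp.finsetSum_apply]
      refine Finset.sum_congr rfl fun i _ => ?_
      rw [map_smul, Finsupp.smul_apply, smul_eq_mul]
    rw [← h1, hv k, map_zero, Finsupp.zero_apply]
  choose d hd u hu using fun b => exists_den (fun i => B.repr (v i) b)
  let S := Finset.univ.biUnion (fun i => (B.repr (v i)).support)
  have hS : v = ∑ b ∈ S, ((B b : ℝ) / (d b : ℝ)) • (fun i => ((u b i : ℤ) : ℝ)) := by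
    funext i
    rw [Finset.sum_apply]
    have h3 : v i = ∑ b ∈ S, B.repr (v i) b • B b := by
      conv_lhs => rw [← B.linearCombination_repr (v i), Finsupp.linearCombination_apply]
      exact Finsupp.sum_of_support_subset _
        (Finset.subset_biUnion_of_mem (fun i => (B.repr (v i)).support) (Finset.mem_univ i)) _
        (fun b _ => by rw [zero_smul])
    rw [h3]
    refine Finset.sum_congr rfl fun b _ => ?_
    have hdb : (d b : ℝ) ≠ 0 := by exact_mod_cast hd b
    have h4 : ((u b i : ℤ) : ℝ) = (d b : ℝ) * ((B.repr (v i) b : ℚ) : ℝ) := by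
      have := hu b i
      exact_mod_cast congrArg (fun x : ℚ => (x : ℝ)) this
    rw [Pi.smul_apply, smul_eq_mul, h4, Rat.smul_def]
    field_simp
  rw [hS]
  refine Submodule.sum_mem _ fun b _ => Submodule.smul_mem _ _ (Submodule.subset_span ?_)
  refine ⟨u b, fun k => ?_, rfl⟩
  have h5 : ((∑ i, A k i * u b i : ℤ) : ℚ) = 0 := by
    push_cast
    have h6 : ∀ i, (A k i : ℚ) * (u b i : ℚ) = (d b : ℚ) * ((A k i : ℚ) * B.repr (v i) b) := by
      intro i; rw [hu b i]; ring
    rw [Finset.sum_congr rfl fun i _ => h6 i, ← Finset.mul_sum, hq k b, mul_zero]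
  exact_mod_cast h5

/-- matrix form -/
theorem span_int_kernel {ι κ : Type*} [Fintype ι] [Fintype κ] (A : Matrix κ ι ℤ) (v : ι → ℝ)
    (hv : (A.map (fun z : ℤ => (z : ℝ))).mulVec v = 0) :
    v ∈ Submodule.span ℝ {w : ι → ℝ | ∃ u : ι → ℤ, A.mulVec u = 0 ∧ w = fun i => (u i : ℝ)} := by
  have h := span_int_system (fun k i => A k i) v (fun k => by
    have := congrFun hv k
    simpa [Matrix.mulVec, dotProduct] using this)
  refine Submodule.span_mono ?_ h
  rintro w ⟨u, hu, rfl⟩
  refine ⟨u, ?_, rfl⟩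
  funext k
  simpa [Matrix.mulVec, dotProduct] using hu k

/-- real Cech 2-cocycles of a finite cover are real combinations of integral ones -/
theorem span_int_cocycle {n : ℕ} {M : Type*} (U : Fin n → Set M) (c : Fin n → Fin n → Fin n → ℝ)
    (hc : ∀ i j k l, (U i ∩ U j ∩ U k ∩ U l).Nonempty →
      c j k l - c i k l + c i j l - c i j k = 0) :
    c ∈ Submodule.span ℝ {w : Fin n → Fin n → Fin n → ℝ | ∃ u : Fin n → Fin n → Fin n → ℤ,
      Crest.Agent.R275.TopK106.IsZ2 U u ∧ w = fun i j k => (u i j k : ℝ)} := by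
  classical
  let κ := {x : Fin n × Fin n × Fin n × Fin n //
    (U x.1 ∩ U x.2.1 ∩ U x.2.2.1 ∩ U x.2.2.2).Nonempty}
  let A : κ → (Fin n × Fin n × Fin n) → ℤ := fun x =>
    Pi.single (x.1.2.1, x.1.2.2.1, x.1.2.2.2) 1 - Pi.single (x.1.1, x.1.2.2.1, x.1.2.2.2) 1
      + Pi.single (x.1.1, x.1.2.1, x.1.2.2.2) 1 - Pi.single (x.1.1, x.1.2.1, x.1.2.2.1) 1
  have hR : ∀ (x : κ) (v : Fin n × Fin n × Fin n → ℝ), ∑ i, (A x i : ℝ) * v i =
      v (x.1.2.1, x.1.2.2.1, x.1.2.2.2) - v (x.1.1, x.1.2.2.1, x.1.2.2.2)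
      + v (x.1.1, x.1.2.1, x.1.2.2.2) - v (x.1.1, x.1.2.1, x.1.2.2.1) := by
    intro x v
    simp only [A, Pi.add_apply, Pi.sub_apply, Pi.single_apply, Int.cast_sub, Int.cast_add,
      Int.cast_ite, Int.cast_one, Int.cast_zero, sub_mul, add_mul, ite_mul, one_mul, zero_mul,
      Finset.sum_sub_distrib, Finset.sum_add_distrib, Finset.sum_ite_eq', Finset.mem_univ, if_true]
  have hZ : ∀ (x : κ) (v : Fin n × Fin n × Fin n → ℤ), ∑ i, A x i * v i =
      v (x.1.2.1, x.1.2.2.1, x.1.2.2.2) - v (x.1.1, x.1.2.2.1, x.1.2.2.2)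
      + v (x.1.1, x.1.2.1, x.1.2.2.2) - v (x.1.1, x.1.2.1, x.1.2.2.1) := by
    intro x v
    simp only [A, Pi.add_apply, Pi.sub_apply, Pi.single_apply, sub_mul, add_mul, ite_mul, one_mul,
      zero_mul, Finset.sum_sub_distrib, Finset.sum_add_distrib, Finset.sum_ite_eq',
      Finset.mem_univ, if_true]
  have h := span_int_system A (fun p => c p.1 p.2.1 p.2.2) (fun x => by
    rw [hR]; exact hc _ _ _ _ x.2)
  let F : (Fin n × Fin n × Fin n → ℝ) →ₗ[ℝ] (Fin n → Fin n → Fin n → ℝ) :=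
    { toFun := fun v i j k => v (i, j, k)
      map_add' := fun _ _ => rfl
      map_smul' := fun _ _ => rfl }
  have h2 : c = F (fun p => c p.1 p.2.1 p.2.2) := rfl
  rw [h2]
  have h3 := Submodule.mem_map_of_mem (f := F) h
  rw [Submodule.map_span] at h3
  refine Submodule.span_mono ?_ h3
  rintro w ⟨w', ⟨u, hu, rfl⟩, rfl⟩
  refine ⟨fun i j k => u (i, j, k), fun i j k l hn => ?_, rfl⟩
  have h4 := hu ⟨(i, j, k, l), hn⟩
  rw [hZ] at h4
  exact h4

/-- real Cech 1-cocycles of a finite cover are real combinations of integral ones -/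
theorem span_int_cocycle1 {n : ℕ} {M : Type*} (U : Fin n → Set M) (c : Fin n → Fin n → ℝ)
    (hc : ∀ i j k, (U i ∩ U j ∩ U k).Nonempty → c j k - c i k + c i j = 0) :
    c ∈ Submodule.span ℝ {w : Fin n → Fin n → ℝ | ∃ u : Fin n → Fin n → ℤ,
      (∀ i j k, (U i ∩ U j ∩ U k).Nonempty → u j k - u i k + u i j = 0) ∧
      w = fun i j => (u i j : ℝ)} := by
  classical
  let κ := {x : Fin n × Fin n × Fin n // (U x.1 ∩ U x.2.1 ∩ U x.2.2).Nonempty}
  let A : κ → (Fin n × Fin n) → ℤ := fun x =>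
    Pi.single (x.1.2.1, x.1.2.2) 1 - Pi.single (x.1.1, x.1.2.2) 1
      + Pi.single (x.1.1, x.1.2.1) 1
  have hR : ∀ (x : κ) (v : Fin n × Fin n → ℝ), ∑ i, (A x i : ℝ) * v i =
      v (x.1.2.1, x.1.2.2) - v (x.1.1, x.1.2.2) + v (x.1.1, x.1.2.1) := by
    intro x v
    simp only [A, Pi.add_apply, Pi.sub_apply, Pi.single_apply, Int.cast_sub, Int.cast_add,
      Int.cast_ite, Int.cast_one, Int.cast_zero, sub_mul, add_mul, ite_mul, one_mul, zero_mul,
      Finset.sum_sub_distrib, Finset.sum_add_distrib, Finset.sum_ite_eq', Finset.mem_univ, if_true]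
  have hZ : ∀ (x : κ) (v : Fin n × Fin n → ℤ), ∑ i, A x i * v i =
      v (x.1.2.1, x.1.2.2) - v (x.1.1, x.1.2.2) + v (x.1.1, x.1.2.1) := by
    intro x v
    simp only [A, Pi.add_apply, Pi.sub_apply, Pi.single_apply, sub_mul, add_mul, ite_mul, one_mul,
      zero_mul, Finset.sum_sub_distrib, Finset.sum_add_distrib, Finset.sum_ite_eq',
      Finset.mem_univ, if_true]
  have h := span_int_system A (fun p => c p.1 p.2) (fun x => by
    rw [hR]; exact hc _ _ _ x.2)
  let F : (Fin n × Fin n → ℝ) →ₗ[ℝ] (Fin n → Fin n → ℝ) :=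
    { toFun := fun v i j => v (i, j)
      map_add' := fun _ _ => rfl
      map_smul' := fun _ _ => rfl }
  have h2 : c = F (fun p => c p.1 p.2) := rfl
  rw [h2]
  have h3 := Submodule.mem_map_of_mem (f := F) h
  rw [Submodule.map_span] at h3
  refine Submodule.span_mono ?_ h3
  rintro w ⟨w', ⟨u, hu, rfl⟩, rfl⟩
  refine ⟨fun i j => u (i, j), fun i j k hn => ?_, rfl⟩
  have h4 := hu ⟨(i, j, k), hn⟩
  rw [hZ] at h4
  exact h4

end Crest.Agent.R235.SpanZ_311
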