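import Mathlib
import Crest.Agent.R235.Defs_837
import Crest.Agent.R235.Ip_288
import Crest.Agent.R235.GCov_470
import Crest.Agent.R235.Cdr_524
import Crest.Agent.R235.Tau_692
import Crest.Agent.R235.LatA_785
import Crest.Agent.R235.SpanZ_311
import Crest.Agent.R275.TopK_106

/-!
Row 235 (S0364), block HZ (helper524): the integral lattice of a good cover and the assembly.

`clsZ G : Z²(B, ℤ) →+ H2 M` class of `tau c`; `Lt G` its image; `UNI F G` integrality and
unimodularity on the nerve; `exists_basis_lt` : real basis of `H2 M` which is a `ℤ`-basis of `Lt G`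
with unimodular Gram matrix; `HZLAT` the output of the block.
-/

set_option autoImplicit false
set_option maxSynthPendingDepth 3
set_option linter.unusedSectionVars false

open Set Function Filter
open scoped Manifold ContDiff Topology

universe u

namespace Crest.Agent.R235.HZLat_524

open Crest.Agent.R240 Crest.Agent.R240.Ch Tau_692 Cdr_524 R275.TopK106

noncomputable section

/-- non-degeneracy from a unimodular Gram matrix. -/
theorem eq_zero_of_gram {V : Type*} [AddCommGroup V] [Module ℝ V] (B : V →ₗ[ℝ] V →ₗ[ℝ] ℝ) {m : ℕ}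
    (e : Module.Basis (Fin m) ℝ V) {Q : Matrix (Fin m) (Fin m) ℤ}
    (h1 : ∀ i j, B (e i) (e j) = Q i j) (h2 : IsUnit Q.det) {d : V} (h0 : ∀ z, B z d = 0) :
    d = 0 := by
  have h4 : ∀ i, ∑ j, (Q i j : ℝ) * e.repr d j = 0 := by
    intro i
    have h5 := h0 (e i)
    rw [← e.sum_repr d, map_sum] at h5
    rw [← h5]
    refine Finset.sum_congr rfl fun j _ => ?_
    rw [map_smul, h1, smul_eq_mul]
    ring
  have h6 : (Q.map (Int.cast : ℤ → ℝ)).mulVec (fun j => e.repr d j) = 0 := by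
    funext i
    exact h4 i
  have h7 : (Q.map (Int.cast : ℤ → ℝ)).det ≠ 0 := by
    have : (Q.map (Int.cast : ℤ → ℝ)).det = ((Q.det : ℤ) : ℝ) := by
      have := (Int.castRingHom ℝ).map_det Q
      rw [RingHom.mapMatrix_apply] at this
      exact this.symm
    rw [this]
    exact_mod_cast h2.ne_zero
  have h8 := Matrix.eq_zero_of_mulVec_eq_zero h7 h6
  have h9 : e.repr d = 0 := by
    ext j
    exact congrFun h8 j
  exact e.repr.map_eq_zero_iff.1 h9

section Gen

variable {M : Type u} [TopologicalSpace M] [ChartedSpace E4 M] [IsManifold 𝓘(ℝ, E4) ∞ M]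

/-- the partition of unity of a good cover. -/
theorem pun (G : RGC M) : PUn E4 G.B G.ψ := ⟨G.isOpen, G.smooth, G.supp, G.sum⟩

theorem coc_of_isZ2 {M ι : Type*} {B : ι → Set M} {c : ι → ι → ι → ℤ} (h : IsZ2 B c) :
    Coc B (fun i j k => (c i j k : ℝ)) := by
  rintro i j k l ⟨x, hi, hj, hk, hl⟩
  have := h i j k l ⟨x, ⟨⟨hi, hj⟩, hk⟩, hl⟩
  beta_reduce
  exact_mod_cast this

variable [T2Space M] [CompactSpace M]

/-- the closed form of an integral cocycle. -/
def tz (G : RGC M) (c : R275.TopK106.Z2 G.B) : Ch.Z2 M :=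
  tauZ (pun G) (fun i j k => (c.1 i j k : ℝ)) (coc_of_isZ2 c.2)

/-- the class of an integral cocycle, additive. -/
def clsZ (G : RGC M) : R275.TopK106.Z2 G.B →+ H2 M :=
  AddMonoidHom.mk' (fun c => cls (tz G c)) fun a b => by
    rw [← map_add]
    refine cls_eq_iff.2 ?_
    have e : ((tz G (a + b)).1.1 : F2 E4 M) = ((tz G a + tz G b).1.1 : F2 E4 M) := by
      have h := tau_add (E := E4) (M := M) (ψ := G.ψ) (fun i j k => (a.1 i j k : ℝ))
        (fun i j k => (b.1 i j k : ℝ))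
      show tau (E := E4) G.ψ (fun i j k => (((a + b).1 i j k : ℤ) : ℝ)) = tau G.ψ _ + tau G.ψ _
      rw [← h]
      congr 1
      funext i j k
      show (((a.1 i j k + b.1 i j k : ℤ)) : ℝ) = _
      push_cast
      rfl
    rw [e, sub_self]
    exact (EX2 M).zero_mem

theorem clsZ_apply (G : RGC M) (c : R275.TopK106.Z2 G.B) : clsZ G c = cls (tz G c) := rfl

/-- coboundaries have class zero. -/
theorem clsZ_cob (G : RGC M) {c : R275.TopK106.Z2 G.B} (hc : IsB2 G.B c.1) : clsZ G c = 0 := by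
  rw [clsZ_apply, R235.cls_eq_zero]
  obtain ⟨b, hb⟩ := hc
  refine isEx_tau (b := fun i j => (b i j : ℝ)) (pun G) ?_
  rintro i j k ⟨x, hi, hj, hk⟩
  have := hb i j k ⟨x, ⟨hi, hj⟩, hk⟩
  beta_reduce
  exact_mod_cast this

/-- **the integral lattice of the good cover**. -/
def Lt (G : RGC M) : AddSubgroup (H2 M) := (clsZ G).range

/-- the class as an element of the lattice. -/
def toLt (G : RGC M) : R275.TopK106.Z2 G.B →+ Lt G :=
  AddMonoidHom.mk' (fun x => ⟨clsZ G x, ⟨x, rfl⟩⟩) fun a b => Subtype.ext (map_add (clsZ G) a b)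

theorem coe_toLt (G : RGC M) (x : R275.TopK106.Z2 G.B) : (toLt G x : H2 M) = clsZ G x := rfl

theorem toLt_cob (G : RGC M) {c : R275.TopK106.Z2 G.B} (hc : IsB2 G.B c.1) : toLt G c = 0 :=
  Subtype.ext (clsZ_cob G hc)

theorem mem_Lt {G : RGC M} {x : H2 M} : x ∈ Lt G ↔ ∃ c : R275.TopK106.Z2 G.B, clsZ G c = x := Iff.rfl

/-- the lattice is finitely generated. -/
theorem fg_Lt (G : RGC M) : (Lt G).FG := by
  have h1 : Module.Finite ℤ (Fin G.n → Fin G.n → Fin G.n → ℤ) := inferInstance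
  have h2 : Module.Finite ℤ (R275.TopK106.Z2 G.B) :=
    inferInstanceAs (Module.Finite ℤ (AddSubgroup.toIntSubmodule (R275.TopK106.Z2 G.B)))
  have h3 : AddGroup.FG (R275.TopK106.Z2 G.B) := Module.Finite.iff_addGroup_fg.1 h2
  have h4 : AddGroup.FG (clsZ G).range := AddGroup.fg_range (clsZ G)
  exact (AddGroup.fg_iff_addSubgroup_fg _).1 h4

/-- every class is the class of a real cocycle. -/
theorem exists_coc_G (G : RGC M) (a : Ch.Z2 M) :
    ∃ (c : Fin G.n → Fin G.n → Fin G.n → ℝ) (hc : Coc G.B c), cls a = cls (tauZ (pun G) c hc) :=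
  exists_coc (pun G) G.sub G.conv a

/-- the real span of the lattice. -/
theorem span_Lt (G : RGC M) : Submodule.span ℝ (Lt G : Set (H2 M)) = ⊤ := by
  classical
  rw [eq_top_iff]
  intro x _
  obtain ⟨a, rfl⟩ := R235.cls_surj x
  obtain ⟨c, hc, hac⟩ := exists_coc_G G a
  rw [hac]
  -- the real cocycles
  let S : Submodule ℝ (Fin G.n → Fin G.n → Fin G.n → ℝ) :=
    { carrier := {c | Coc G.B c}
      zero_mem' := by
        rintro i j k l _
        simp
      add_mem' := by
        intro c c' h h' i j k l hx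
        have e1 := h i j k l hx
        have e2 := h' i j k l hx
        simp only [Pi.add_apply]
        linarith
      smul_mem' := by
        intro r c h i j k l hx
        have e1 := h i j k l hx
        simp only [Pi.smul_apply, smul_eq_mul]
        have : r * (c j k l - c i k l + c i j l - c i j k) = 0 := by rw [e1, mul_zero]
        linarith }
  have key : ∀ c ∈ Submodule.span ℝ {w : Fin G.n → Fin G.n → Fin G.n → ℝ |
      ∃ u : Fin G.n → Fin G.n → Fin G.n → ℤ, IsZ2 G.B u ∧ w = fun i j k => (u i j k : ℝ)},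
      ∃ hc : Coc G.B c, cls (tauZ (pun G) c hc) ∈ Submodule.span ℝ (Lt G : Set (H2 M)) := by
    intro c hc
    induction hc using Submodule.span_induction with
    | mem w hw =>
      obtain ⟨u, hu, rfl⟩ := hw
      exact ⟨coc_of_isZ2 hu, Submodule.subset_span ⟨⟨u, hu⟩, rfl⟩⟩
    | zero =>
      refine ⟨S.zero_mem, ?_⟩
      have e : cls (tauZ (pun G) (0 : Fin G.n → Fin G.n → Fin G.n → ℝ) S.zero_mem) = 0 := by
        rw [R235.cls_eq_zero]
        refine isEx_tau (b := fun _ _ => (0 : ℝ)) (pun G) ?_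
        intro i j k _
        simp
      rw [e]
      exact Submodule.zero_mem _
    | add x y _ _ hx hy =>
      obtain ⟨h1, h1'⟩ := hx
      obtain ⟨h2, h2'⟩ := hy
      refine ⟨S.add_mem h1 h2, ?_⟩
      have e : tauZ (pun G) (x + y) (S.add_mem h1 h2) = tauZ (pun G) x h1 + tauZ (pun G) y h2 := by
        apply Subtype.ext
        apply Subtype.ext
        exact tau_add (E := E4) x y
      rw [e, map_add]
      exact Submodule.add_mem _ h1' h2'
    | smul r x _ hx =>
      obtain ⟨h1, h1'⟩ := hx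
      refine ⟨S.smul_mem r h1, ?_⟩
      have e : tauZ (pun G) (r • x) (S.smul_mem r h1) = r • tauZ (pun G) x h1 := by
        apply Subtype.ext
        apply Subtype.ext
        exact tau_smul (E := E4) r x
      rw [e, map_smul]
      exact Submodule.smul_mem _ _ h1'
  obtain ⟨h1, h2⟩ := key c (SpanZ_311.span_int_cocycle G.B c fun i j k l hx => by
    obtain ⟨x, hx⟩ := hx
    exact hc i j k l ⟨x, hx.1.1.1, hx.1.1.2, hx.1.2, hx.2⟩)
  exact h2

/-- `H²` is finite dimensional. -/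
theorem finite_H2 (G : RGC M) : Module.Finite ℝ (H2 M) := by
  obtain ⟨s, hs⟩ := fg_Lt G
  refine ⟨⟨s, ?_⟩⟩
  rw [← span_Lt G, ← hs]
  apply le_antisymm
  · exact Submodule.span_mono AddSubgroup.subset_closure
  · refine Submodule.span_le.2 ?_
    intro x hx
    have : AddSubgroup.closure (s : Set (H2 M)) ≤ (Submodule.span ℝ (s : Set (H2 M))).toAddSubgroup :=
      (AddSubgroup.closure_le _).2 Submodule.subset_span
    exact this hx

/-- integrality and unimodularity of the wedge pairing on the nerve of the good cover. -/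
structure UNI (F : Ch.Z2 M) (G : RGC M) : Prop where
  int : ∀ x y : R275.TopK106.Z2 G.B, ∃ m : ℤ, pI F (tz G x) (tz G y) = m
  dual : ∀ φ : R275.TopK106.Z2 G.B →+ ℤ, (∀ x : R275.TopK106.Z2 G.B, IsB2 G.B x.1 → φ x = 0) →
    ∃ y : R275.TopK106.Z2 G.B, ∀ x : R275.TopK106.Z2 G.B, pI F (tz G x) (tz G y) = φ x

/-- **the lattice theorem** for one good cover. -/
theorem exists_basis_lt {F : Ch.Z2 M} (hF : ∀ x, W (val F x) (val F x) ≠ 0) {G : RGC M}
    (hU : UNI F G) :
    ∃ (m : ℕ) (e : Module.Basis (Fin m) ℝ (H2 M)) (Q : Matrix (Fin m) (Fin m) ℤ),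
      (∀ i j, ip F (e i) (e j) = Q i j) ∧ IsUnit Q.det ∧
      (Lt G : Set (H2 M)) = {c | ∃ n : Fin m → ℤ, c = ∑ i, (n i : ℝ) • e i} := by
  have hV := R235.vol_of_ne hF
  refine LatA_785.exists_basis_of_unimodular (R235.ipB F hV) (Lt G) (fg_Lt G) (span_Lt G) ?_ ?_
  · rintro _ ⟨x, rfl⟩ _ ⟨y, rfl⟩
    obtain ⟨m, hm⟩ := hU.int x y
    exact ⟨m, by rw [R235.ipB_apply, clsZ_apply, clsZ_apply, R235.ip_cls hV, hm]⟩
  · intro φ
    obtain ⟨y, hy⟩ := hU.dual (φ.comp (toLt G)) fun x hx => by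
      rw [AddMonoidHom.comp_apply, toLt_cob G hx, map_zero]
    refine ⟨clsZ G y, ⟨y, rfl⟩, ?_⟩
    rintro ⟨_, x, rfl⟩
    have h1 := hy x
    rw [← R235.ip_cls hV] at h1
    exact h1

/-- the lattices of two good covers with inclusion coincide. -/
theorem lt_eq_of_le {F : Ch.Z2 M} (hF : ∀ x, W (val F x) (val F x) ≠ 0) {G G' : RGC M}
    (hU : UNI F G) (hU' : UNI F G') (h : Lt G ≤ Lt G') : Lt G = Lt G' := by
  have hV := R235.vol_of_ne hF
  refine le_antisymm h ?_
  rintro _ ⟨x, rfl⟩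
  -- `x` gives an integral functional on `Lt G`
  have hint : ∀ c : R275.TopK106.Z2 G.B, ∃ m : ℤ, ip F (clsZ G c) (clsZ G' x) = m := by
    intro c
    obtain ⟨c', hc'⟩ := h ⟨c, rfl⟩
    obtain ⟨m, hm⟩ := hU'.int c' x
    exact ⟨m, by rw [← hc', clsZ_apply, clsZ_apply, R235.ip_cls hV, hm]⟩
  choose φ hφ using hint
  let Φ : R275.TopK106.Z2 G.B →+ ℤ := AddMonoidHom.mk' φ fun a b => by
    have e := hφ (a + b)
    rw [map_add, R235.ip_add_left hV, hφ a, hφ b] at e
    exact_mod_cast e.symm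
  obtain ⟨y, hy⟩ := hU.dual Φ fun c hc => by
    have e := hφ c
    rw [clsZ_cob G hc, R235.ip_zero_left hV] at e
    exact_mod_cast e.symm
  -- `y` and `x` have the same pairing with everything
  obtain ⟨m, e, Q, h1, h2, h3⟩ := exists_basis_lt hF hU'
  have hxy : ∀ z : H2 M, ip F z (clsZ G' x) = ip F z (clsZ G y) := by
    intro z
    have hz : z ∈ Submodule.span ℝ (Lt G : Set (H2 M)) := by rw [span_Lt]; trivial
    induction hz using Submodule.span_induction with
    | mem w hw =>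
      obtain ⟨c, rfl⟩ := hw
      rw [hφ c, clsZ_apply G c, clsZ_apply G y, R235.ip_cls hV, hy c]
      rfl
    | zero => rw [R235.ip_zero_left hV, R235.ip_zero_left hV]
    | add a b _ _ ha hb => rw [R235.ip_add_left hV, R235.ip_add_left hV, ha, hb]
    | smul r a _ ha => rw [R235.ip_smul_left hV, R235.ip_smul_left hV, ha]
  have hzero : clsZ G' x - clsZ G y = 0 := by
    refine eq_zero_of_gram (R235.ipB F hV) e h1 h2 fun z => ?_
    rw [R235.ipB_apply, R235.ip_sub_right hV, hxy z, sub_self]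
  rw [sub_eq_zero] at hzero
  rw [hzero]
  exact ⟨y, rfl⟩

end Gen

/-- **OUTPUT OF THE BLOCK HZ** -/
def HZLAT : Prop :=
  ∀ (M : Type u) [TopologicalSpace M] [T2Space M] [CompactSpace M] [ChartedSpace E4 M]
    [IsManifold 𝓘(ℝ, E4) ∞ M] (F : Ch.Z2 M), (∀ x, W (val F x) (val F x) ≠ 0) →
    ∃ (m : ℕ) (e : Module.Basis (Fin m) ℝ (H2 M)) (Q : Matrix (Fin m) (Fin m) ℤ),
      (∀ i j, ip F (e i) (e j) = Q i j) ∧ IsUnit Q.det ∧
      HZ M = {c | ∃ n : Fin m → ℤ, c = ∑ i, (n i : ℝ) • e i}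

/-- nerve unimodularity for all good covers (470 + 692). -/
def UNIALL : Prop :=
  ∀ (M : Type u) [TopologicalSpace M] [T2Space M] [CompactSpace M] [ChartedSpace E4 M]
    [IsManifold 𝓘(ℝ, E4) ∞ M] (F : Ch.Z2 M), (∀ x, W (val F x) (val F x) ≠ 0) →
    ∀ G : RGC M, UNI F G

/-- Chern classes = integral classes of the cover (453). -/
def HZEQ : Prop :=
  ∀ (M : Type u) [TopologicalSpace M] [T2Space M] [CompactSpace M] [ChartedSpace E4 M]
    [IsManifold 𝓘(ℝ, E4) ∞ M] (F : Ch.Z2 M), (∀ x, W (val F x) (val F x) ≠ 0) →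
    ∀ G : RGC M, HZ M = (Lt G : Set (H2 M))

theorem hzlat_of (h1 : UNIALL.{u}) (h2 : HZEQ.{u}) : HZLAT.{u} := by
  intro M _ _ _ _ _ F hF
  obtain ⟨G⟩ := nonempty_rgc (M := M)
  obtain ⟨m, e, Q, h3, h4, h5⟩ := exists_basis_lt hF (h1 M F hF G)
  exact ⟨m, e, Q, h3, h4, by rw [h2 M F hF G, h5]⟩

end

end Crest.Agent.R235.HZLat_524
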