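import Crest.Agent.R235.TorMinA_510
import Crest.Agent.R235.HZLat_524

/-!
Row 235 (S0364), package ADJ, node PUSH (helper470), part A: pull-back by self-maps close to the
identity acts trivially on `H²` (no homotopy formula: real Čech cocycles and two partitions of unity).
-/

set_option autoImplicit false
set_option maxSynthPendingDepth 3
set_option linter.unusedSectionVars false
set_option linter.unusedVariables false

open Set Function Filter MeasureTheory
open scoped Manifold ContDiff Topology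

universe u

namespace Crest.Agent.R235.AdjPush_470

open Crest.Agent.R240 Crest.Agent.R240.Ch
open Crest.Agent.R235 Crest.Agent.R235.Tau_692 Crest.Agent.R235.Cdr_524
open Crest.Agent.R235.TorMin_510 Crest.Agent.R235.HZLat_524

noncomputable section

section Indep

variable {E : Type*} [NormedAddCommGroup E] [NormedSpace ℝ E]
variable {M : Type*} [TopologicalSpace M] [ChartedSpace E M] [IsManifold 𝓘(ℝ, E) ∞ M]
variable {ι : Type*} [Fintype ι] {B : ι → Set M} {ψ ψ' : ι → M → ℝ}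

theorem sig_apply (ψ : ι → M → ℝ) (b : ι → ι → ℝ) (x : M) (u : E) :
    at1 (sig (E := E) ψ b) x u = ∑ j, ∑ k, b j k * (ψ j x * dv (ψ k) x u) := by
  unfold sig
  rw [Tau_692.at1_sum]
  refine Finset.sum_congr rfl fun j _ => ?_
  rw [Tau_692.at1_sum]
  rfl

/-- the function `∑ c i j k ψ k`. -/
def fs (ψ : ι → M → ℝ) (c : ι → ι → ι → ℝ) (i j : ι) (x : M) : ℝ := ∑ k, c i j k * ψ k x

omit [IsManifold 𝓘(ℝ, E) ∞ M] in
theorem smoothF_fs (hψ : ∀ i, SmoothF E (ψ i)) (c : ι → ι → ι → ℝ) (i j : ι) :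
    SmoothF E (fs ψ c i j) := by
  intro p
  exact ContDiffOn.sum fun k _ => contDiffOn_const.mul (hψ k p)

omit [IsManifold 𝓘(ℝ, E) ∞ M] in
theorem dv_fs (hψ : ∀ i, SmoothF E (ψ i)) (c : ι → ι → ι → ℝ) (i j : ι) (x : M) (u : E) :
    at1 (dF (E := E) (fs ψ c i j)) x u = ∑ k, c i j k * dv (ψ k) x u := by
  have hd : ∀ k, DifferentiableAt ℝ (repF (E := E) x (ψ k)) (chartAt E x x) := fun k =>
    ((hψ k).at (mem_chart_target E x)).differentiableAt infty_ne_zero
  have h1 : fderiv ℝ (fun y => ∑ k, c i j k * repF (E := E) x (ψ k) y) (chartAt E x x) =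
      ∑ k, fderiv ℝ (fun y => c i j k * repF (E := E) x (ψ k) y) (chartAt E x x) :=
    fderiv_fun_sum fun k _ => (hd k).const_mul _
  have h2 : at1 (dF (E := E) (fs ψ c i j)) x u =
      fderiv ℝ (fun y => ∑ k, c i j k * repF (E := E) x (ψ k) y) (chartAt E x x) u := rfl
  rw [h2, h1, sum_apply]
  refine Finset.sum_congr rfl fun k _ => ?_
  rw [fderiv_const_mul (hd k)]
  rfl

/-- **independence of the partition of unity**. -/
theorem weil_indep (h : PUn E B ψ) (h' : PUn E B ψ') {c : ι → ι → ι → ℝ} (hc : Coc B c) :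
    tau (E := E) ψ' c = Weil_524.tauF ψ c + dG (Weil_524.prim ψ (fun l => sig ψ' (c l)) (fs ψ' c)) := by
  refine Weil_524.weil h.sm h.sum (fun l => smooth_sig h'.sm _) (smoothF_fs h'.sm c)
    (fun i x hi => (tau_eq_dG h' hc (h.supp i hi)).symm) (fun i j x hi hj => ?_)
    (fun i j k x hi hj hk => ?_)
  · have hi' := h.supp i hi
    have hj' := h.supp j hj
    refine ContinuousLinearMap.ext fun u => ?_
    rw [dv_fs h'.sm]
    have e1 : (at1 (sig (E := E) ψ' (c i)) x - at1 (sig (E := E) ψ' (c j)) x) u =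
        at1 (sig (E := E) ψ' (c i)) x u - at1 (sig (E := E) ψ' (c j)) x u := rfl
    rw [e1, sig_apply, sig_apply, ← Finset.sum_sub_distrib]
    have e2 : ∀ k l, c i k l * (ψ' k x * dv (ψ' l) x u) - c j k l * (ψ' k x * dv (ψ' l) x u) =
        c i j l * dv (ψ' l) x u * ψ' k x - c i j k * ψ' k x * dv (ψ' l) x u := by
      intro k l
      by_cases hk : x ∈ B k
      · by_cases hl : x ∈ B l
        · have h3 := hc i j k l ⟨x, hi', hj', hk, hl⟩
          have h4 : c i k l = c j k l + c i j l - c i j k := by linarith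
          rw [h4]; ring
        · rw [dv_zero fun hx => hl (h'.supp l hx)]; ring
      · have h5 : ψ' k x = 0 := image_eq_zero_of_notMem_tsupport fun hx => hk (h'.supp k hx)
        rw [h5]; ring
    have e3 : ∀ k, ∑ l, c i k l * (ψ' k x * dv (ψ' l) x u) -
        ∑ l, c j k l * (ψ' k x * dv (ψ' l) x u) =
        (∑ l, c i j l * dv (ψ' l) x u) * ψ' k x := by
      intro k
      rw [← Finset.sum_sub_distrib]
      simp only [e2]
      rw [Finset.sum_sub_distrib, ← Finset.mul_sum, sum_dv h'.sm h'.sum, mul_zero, sub_zero,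
        Finset.sum_mul]
    simp only [e3]
    rw [← Finset.mul_sum, h'.sum, mul_one]
  · have hi' := h.supp i hi
    have hj' := h.supp j hj
    have hk' := h.supp k hk
    unfold fs
    rw [← Finset.sum_sub_distrib, ← Finset.sum_add_distrib]
    have e2 : ∀ l, c j k l * ψ' l x - c i k l * ψ' l x + c i j l * ψ' l x = c i j k * ψ' l x := by
      intro l
      by_cases hl : x ∈ B l
      · have h3 := hc i j k l ⟨x, hi', hj', hk', hl⟩
        have h4 : c i j k = c j k l - c i k l + c i j l := by linarith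
        rw [h4]; ring
      · have h5 : ψ' l x = 0 := image_eq_zero_of_notMem_tsupport fun hx => hl (h'.supp l hx)
        rw [h5]; ring
    simp only [e2]
    rw [← Finset.mul_sum, h'.sum, mul_one]

end Indep

section Self

variable {M : Type u} [TopologicalSpace M] [ChartedSpace E4 M] [IsManifold 𝓘(ℝ, E4) ∞ M]
variable {ι : Type*} [Fintype ι] {B : ι → Set M} {ψ ψ' : ι → M → ℝ}

theorem isEx_tau_sub (h : PUn E4 B ψ) (h' : PUn E4 B ψ') {c : ι → ι → ι → ℝ} (hc : Coc B c) :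
    IsEx (tau (E := E4) ψ' c - tau ψ c) := by
  have e := weil_indep h h' hc
  have e' : tau (E := E4) ψ' c - tau ψ c =
      dG (Weil_524.prim ψ (fun l => sig ψ' (c l)) (fs ψ' c)) := by
    rw [sub_eq_iff_eq_add']
    exact e
  rw [e']
  exact isEx_dG (Weil_524.smooth1_prim h.sm (fun l => smooth_sig h'.sm _) (smoothF_fs h'.sm c))

theorem pb2_tau {τ : M → M} (hτ : ContMDiff 𝓘(ℝ, E4) 𝓘(ℝ, E4) ∞ τ) (hψ : ∀ i, SmoothF E4 (ψ i))
    (c : ι → ι → ι → ℝ) : pb2 τ (tau ψ c) = tau (fun i x => ψ i (τ x)) c := by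
  refine Tau_692.ext2' fun x u v => ?_
  rw [at2_pb2, tau_apply, tau_apply]
  have h1 : ∀ i (w : E4), dv (ψ i) (τ x) (dself τ x w) = dv (fun x => ψ i (τ x)) x w := by
    intro i w
    have h2 := pb1_dF hτ (hψ i)
    have h3 := congrArg (fun s : F1 E4 M => at1 s x w) h2
    exact h3
  simp only [h1]

theorem pun_comp {τ : M → M} (hτ : ContMDiff 𝓘(ℝ, E4) 𝓘(ℝ, E4) ∞ τ) (h : PUn E4 B ψ)
    (hn : ∀ i, τ ⁻¹' tsupport (ψ i) ⊆ B i) : PUn E4 B (fun i x => ψ i (τ x)) where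
  op := h.op
  sm i := SmoothF.pb hτ (h.sm i)
  supp i := by
    refine Subset.trans ?_ (hn i)
    refine closure_minimal (fun x hx => ?_) ((isClosed_tsupport _).preimage hτ.continuous)
    exact subset_tsupport _ hx
  sum x := h.sum (τ x)

theorem isEx_pb2 {τ : M → M} (hτ : ContMDiff 𝓘(ℝ, E4) 𝓘(ℝ, E4) ∞ τ) {b : F2 E4 M}
    (hb : IsEx b) : IsEx (pb2 τ b) := by
  obtain ⟨s, hs, rfl⟩ := isEx_iff.1 hb
  rw [pb2_dG hτ hs]
  exact isEx_dG (Smooth1.pb hτ hs)

theorem isEx_add {a b : F2 E4 M} (ha : IsEx a) (hb : IsEx b) : IsEx (a + b) := by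
  obtain ⟨s, hs, rfl⟩ := isEx_iff.1 ha
  obtain ⟨t, ht, rfl⟩ := isEx_iff.1 hb
  rw [← dG_add hs ht]
  exact isEx_dG (hs.add ht)

/-- the pull-back as a linear map. -/
def PL {τ : M → M} (hτ : ContMDiff 𝓘(ℝ, E4) 𝓘(ℝ, E4) ∞ τ) : X2 M →ₗ[ℝ] X2 M where
  toFun b := ⟨pb2 τ b.1, Smooth2.pb hτ b.2⟩
  map_add' a b := Subtype.ext rfl
  map_smul' r a := Subtype.ext rfl

theorem PL_apply {τ : M → M} (hτ : ContMDiff 𝓘(ℝ, E4) 𝓘(ℝ, E4) ∞ τ) (b : X2 M) :
    (PL hτ b : F2 E4 M) = pb2 τ b.1 := rfl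

variable [T2Space M] [CompactSpace M]

theorem coe_tauZ {ι : Type*} [Fintype ι] {B : ι → Set M} {ψ : ι → M → ℝ} (hP : PUn E4 B ψ)
    (c : ι → ι → ι → ℝ) (hc : Coc B c) : ((tauZ hP c hc).1.1 : F2 E4 M) = tau ψ c := rfl

set_option maxHeartbeats 400000 in
theorem cls_pb0 {G : RGC M} {τ : M → M} (hτ : ContMDiff 𝓘(ℝ, E4) 𝓘(ℝ, E4) ∞ τ)
    (hn : ∀ i, τ ⁻¹' tsupport (G.ψ i) ⊆ G.B i) (a : Ch.Z2 M) :
    IsEx (pb2 τ (a.1.1 : F2 E4 M) - a.1.1) := by
  obtain ⟨c, hc, hac⟩ := exists_coc_G G a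
  have h1 := cls_eq_iff.1 hac
  have h1' := cls_eq_iff.1 hac.symm
  rw [coe_tauZ] at h1 h1'
  clear hac
  generalize (a.1.1 : F2 E4 M) = b at *
  have h3 : IsEx (tau (E := E4) (fun i x => G.ψ i (τ x)) c - tau G.ψ c) :=
    isEx_tau_sub (pun G) (pun_comp hτ (pun G) hn) hc
  have h4 : pb2 τ (b - tau G.ψ c) = pb2 τ b - tau (fun i x => G.ψ i (τ x)) c := by
    rw [← pb2_tau hτ (pun G).sm c]
    refine Tau_692.ext2' fun x u v => rfl
  have h2 := isEx_pb2 hτ h1
  rw [h4] at h2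
  have h5 := isEx_add (isEx_add h2 h3) h1'
  rw [sub_add_sub_cancel, sub_add_sub_cancel] at h5
  exact h5

set_option maxHeartbeats 400000 in
/-- **maps close to the identity act trivially on `H²`**. -/
theorem cls_pb {G : RGC M} {τ : M → M} (hτ : ContMDiff 𝓘(ℝ, E4) 𝓘(ℝ, E4) ∞ τ)
    (hn : ∀ i, τ ⁻¹' tsupport (G.ψ i) ⊆ G.B i) (a : Ch.Z2 M) :
    ∃ a' : Ch.Z2 M, PL hτ a.1 = a'.1 ∧ cls a' = cls a := by
  refine ⟨⟨PL hτ a.1, Closed2.pb hτ a.1.2 a.2⟩, rfl, ?_⟩
  rw [cls_eq_iff]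
  exact cls_pb0 hτ hn a

end Self

end

end Crest.Agent.R235.AdjPush_470
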