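import Mathlib
import Crest.Agent.R240.Ch3

/-!
Row 235 (S0364), helper417: a smooth exponential-like map on a closed manifold.

`exists_exp`: `e : M → E → M` (second argument: a tangent vector at the first one, read in the
preferred chart), smooth on the tangent bundle, `e x 0 = x`, `∂ e x · (0) = id`.
-/

set_option autoImplicit false
set_option maxSynthPendingDepth 3

open Set Function Filter
open scoped Manifold ContDiff Topology

namespace Crest.Agent.R235.Spray_417

open Crest.Agent.R240 Crest.Agent.R240.Ch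

noncomputable section

section Theta

variable {E : Type*} [NormedAddCommGroup E] [InnerProductSpace ℝ E]

/-- a bounded reparametrisation of a vector space. -/
def th (δ : ℝ) (v : E) : E := (δ * (√(1 + ‖v‖ ^ 2))⁻¹) • v

theorem th_zero (δ : ℝ) : th δ (0 : E) = 0 := by simp [th]

theorem contDiff_th (δ : ℝ) : ContDiff ℝ ∞ (th δ : E → E) := by
  have h1 : ContDiff ℝ ∞ (fun v : E => 1 + ‖v‖ ^ 2) := contDiff_const.add (contDiff_norm_sq ℝ)
  have h2 : ∀ v : E, 1 + ‖v‖ ^ 2 ≠ 0 := fun v => by positivity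
  have h3 : ∀ v : E, √(1 + ‖v‖ ^ 2) ≠ 0 := fun v => by positivity
  exact (contDiff_const.mul ((h1.sqrt h2).inv h3)).smul contDiff_id

theorem norm_th_lt {δ : ℝ} (hδ : 0 < δ) (v : E) : ‖th δ v‖ < δ := by
  have h0 : 0 < √(1 + ‖v‖ ^ 2) := by positivity
  rw [th, norm_smul, norm_mul, Real.norm_of_nonneg hδ.le, norm_inv, Real.norm_of_nonneg h0.le,
    mul_assoc]
  have h1 : ‖v‖ < √(1 + ‖v‖ ^ 2) := by
    rw [Real.lt_sqrt (norm_nonneg v)]; linarith
  have h2 : (√(1 + ‖v‖ ^ 2))⁻¹ * ‖v‖ < 1 := by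
    rw [inv_mul_lt_iff₀ h0]; simpa using h1
  nlinarith

theorem hasFDerivAt_th (δ : ℝ) :
    HasFDerivAt (th δ : E → E) (δ • ContinuousLinearMap.id ℝ E) 0 := by
  have h1 : ContDiff ℝ ∞ (fun v : E => 1 + ‖v‖ ^ 2) := contDiff_const.add (contDiff_norm_sq ℝ)
  have h2 : ∀ v : E, 1 + ‖v‖ ^ 2 ≠ 0 := fun v => by positivity
  have h3 : ∀ v : E, √(1 + ‖v‖ ^ 2) ≠ 0 := fun v => by positivity
  have hc : ContDiff ℝ ∞ (fun v : E => δ * (√(1 + ‖v‖ ^ 2))⁻¹) :=
    contDiff_const.mul ((h1.sqrt h2).inv h3)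
  have h4 := (hc.differentiable (by simp) 0).hasFDerivAt.smul (hasFDerivAt_id (0 : E))
  refine h4.congr_fderiv ?_
  ext v
  simp

end Theta

variable {E : Type*} [NormedAddCommGroup E] [InnerProductSpace ℝ E] [FiniteDimensional ℝ E]
variable {M : Type*} [TopologicalSpace M] [T2Space M] [ChartedSpace E M]
  [IsManifold 𝓘(ℝ, E) ∞ M]

open Classical in
/-- the push in the chart at `c`. -/
def G {c : M} (f : SmoothBumpFunction 𝓘(ℝ, E) c) (δ : ℝ) (x : M) (v : E) : M :=
  if x ∈ (chartAt E c).source then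
    (chartAt E c).symm (chartAt E c x + f x • th δ v) else x

/-- `δ` is admissible for the bump function. -/
def Adm {c : M} (f : SmoothBumpFunction 𝓘(ℝ, E) c) (δ : ℝ) : Prop :=
  0 < δ ∧ Metric.thickening δ (Metric.closedBall (chartAt E c c) f.rOut) ⊆ (chartAt E c).target

omit [T2Space M] [IsManifold 𝓘(ℝ, E) ∞ M] in
theorem exists_adm {c : M} (f : SmoothBumpFunction 𝓘(ℝ, E) c) : ∃ δ, Adm f δ := by
  have h : Metric.closedBall (chartAt E c c) f.rOut ⊆ (chartAt E c).target := by
    have := f.closedBall_subset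
    simpa using this
  obtain ⟨δ, hδ, h1⟩ := (isCompact_closedBall (chartAt E c c) f.rOut).exists_thickening_subset_open
    (chartAt E c).open_target h
  exact ⟨δ, hδ, h1⟩

omit [T2Space M] [IsManifold 𝓘(ℝ, E) ∞ M] in
theorem f_zero {c : M} (f : SmoothBumpFunction 𝓘(ℝ, E) c) {x : M}
    (hx : x ∉ (chartAt E c).source) : f x = 0 := by
  by_contra h
  exact hx (f.support_subset_source h)

omit [T2Space M] [IsManifold 𝓘(ℝ, E) ∞ M] in
theorem mem_target {c : M} {f : SmoothBumpFunction 𝓘(ℝ, E) c} {δ : ℝ} (hδ : Adm f δ) {x : M}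
    (hx : x ∈ (chartAt E c).source) (v : E) :
    chartAt E c x + f x • th δ v ∈ (chartAt E c).target := by
  by_cases hf : f x = 0
  · rw [hf, zero_smul, add_zero]
    exact (chartAt E c).map_source hx
  · apply hδ.2
    have h1 : x ∈ support f := hf
    rw [f.support_eq_inter_preimage] at h1
    have h2 : dist (chartAt E c x) (chartAt E c c) < f.rOut := by
      have := h1.2
      simpa using this
    rw [Metric.mem_thickening_iff]
    refine ⟨chartAt E c x, Metric.mem_closedBall.2 h2.le, ?_⟩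
    rw [dist_eq_norm, add_sub_cancel_left, norm_smul, Real.norm_of_nonneg f.nonneg]
    calc f x * ‖th δ v‖ ≤ 1 * ‖th δ v‖ := by
          exact mul_le_mul_of_nonneg_right f.le_one (norm_nonneg _)
      _ < δ := by rw [one_mul]; exact norm_th_lt hδ.1 v

omit [T2Space M] [IsManifold 𝓘(ℝ, E) ∞ M] in
theorem G_zero {c : M} (f : SmoothBumpFunction 𝓘(ℝ, E) c) (δ : ℝ) (x : M) : G f δ x 0 = x := by
  unfold G
  split_ifs with h
  · rw [th_zero, smul_zero, add_zero, (chartAt E c).left_inv h]
  · rfl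

omit [T2Space M] [IsManifold 𝓘(ℝ, E) ∞ M] in
theorem G_eq_of_f_zero {c : M} {f : SmoothBumpFunction 𝓘(ℝ, E) c} {δ : ℝ} {x : M}
    (hx : f x = 0) (v : E) : G f δ x v = x := by
  unfold G
  split_ifs with h
  · rw [hx, zero_smul, add_zero, (chartAt E c).left_inv h]
  · rfl

theorem contMDiff_G {c : M} {f : SmoothBumpFunction 𝓘(ℝ, E) c} {δ : ℝ} (hδ : Adm f δ) :
    ContMDiff (𝓘(ℝ, E).prod 𝓘(ℝ, E)) 𝓘(ℝ, E) ∞ (fun z : M × E => G f δ z.1 z.2) := by
  intro z
  by_cases hz : z.1 ∈ (chartAt E c).source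
  · have h1 : (fun z : M × E => G f δ z.1 z.2) =ᶠ[𝓝 z]
        fun z => (chartAt E c).symm (chartAt E c z.1 + f z.1 • th δ z.2) := by
      filter_upwards [((chartAt E c).open_source.preimage continuous_fst).mem_nhds hz] with y hy
      exact if_pos hy
    refine ContMDiffAt.congr_of_eventuallyEq ?_ h1
    have h2 : ContMDiffAt 𝓘(ℝ, E) 𝓘(ℝ, E) ∞ (chartAt E c).symm
        (chartAt E c z.1 + f z.1 • th δ z.2) :=
      (contMDiffOn_chart_symm (I := 𝓘(ℝ, E)) (x := c)).contMDiffAt
        ((chartAt E c).open_target.mem_nhds (mem_target hδ hz z.2))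
    have h3 : ContMDiffAt (𝓘(ℝ, E).prod 𝓘(ℝ, E)) 𝓘(ℝ, E) ∞
        (fun z : M × E => chartAt E c z.1 + f z.1 • th δ z.2) z := by
      have h4 : ContMDiffAt (𝓘(ℝ, E).prod 𝓘(ℝ, E)) 𝓘(ℝ, E) ∞
          (fun z : M × E => chartAt E c z.1) z :=
        ContMDiffAt.comp z ((contMDiffOn_chart (I := 𝓘(ℝ, E)) (x := c)).contMDiffAt
          ((chartAt E c).open_source.mem_nhds hz)) contMDiffAt_fst
      have h5 : ContMDiffAt (𝓘(ℝ, E).prod 𝓘(ℝ, E)) 𝓘(ℝ, ℝ) ∞
          (fun z : M × E => f z.1) z := ContMDiffAt.comp z f.contMDiffAt contMDiffAt_fst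
      have h6 : ContMDiffAt (𝓘(ℝ, E).prod 𝓘(ℝ, E)) 𝓘(ℝ, E) ∞
          (fun z : M × E => th δ z.2) z :=
        ContMDiffAt.comp z (contDiff_th δ).contMDiff.contMDiffAt contMDiffAt_snd
      exact h4.add (h5.smul h6)
    exact ContMDiffAt.comp z h2 h3
  · have hz' : z.1 ∉ tsupport f := fun h => hz (f.tsupport_subset_chartAt_source h)
    have h1 : (fun z : M × E => G f δ z.1 z.2) =ᶠ[𝓝 z] fun z => z.1 := by
      filter_upwards [((isClosed_tsupport f).isOpen_compl.preimage continuous_fst).mem_nhds hz']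
        with y hy
      exact G_eq_of_f_zero (by
        by_contra h
        exact hy (subset_tsupport _ h)) _
    exact contMDiffAt_fst.congr_of_eventuallyEq h1

omit [T2Space M] in
/-- the derivative of `G` in the vector variable at `0`. -/
theorem hasFDerivAt_G {c : M} (f : SmoothBumpFunction 𝓘(ℝ, E) c) (δ : ℝ) (x : M) :
    HasFDerivAt (fun v : E => chartAt E x (G f δ x v)) ((f x * δ) • tcc c x x) 0 := by
  by_cases hx : x ∈ (chartAt E c).source
  · have h1 : (fun v : E => chartAt E x (G f δ x v)) =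
        fun v => (chartAt E x ∘ (chartAt E c).symm) (chartAt E c x + f x • th δ v) := by
      funext v
      simp only [G, if_pos hx]
      rfl
    rw [h1]
    have h2 : HasFDerivAt (fun v : E => chartAt E c x + f x • th δ v)
        (f x • (δ • ContinuousLinearMap.id ℝ E)) 0 :=
      ((hasFDerivAt_th δ).const_smul (f x)).const_add _
    have h3 : HasFDerivAt (chartAt E x ∘ (chartAt E c).symm) (tcc (E := E) c x x)
        (chartAt E c x + f x • th δ (0 : E)) := by
      rw [th_zero, smul_zero, add_zero, tcc_eq_fderiv]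
      have h4 : ContDiffAt ℝ ∞ (chartAt E x ∘ (chartAt E c).symm) (chartAt E c x) := by
        have h5 : ContMDiffAt 𝓘(ℝ, E) 𝓘(ℝ, E) ∞ (chartAt E x ∘ (chartAt E c).symm)
            (chartAt E c x) := by
          refine ContMDiffAt.comp _ (I' := 𝓘(ℝ, E)) ?_ ?_
          · rw [(chartAt E c).left_inv hx]
            exact (contMDiffOn_chart (I := 𝓘(ℝ, E)) (x := x)).contMDiffAt
              (chart_source_mem_nhds E x)
          · exact (contMDiffOn_chart_symm (I := 𝓘(ℝ, E)) (x := c)).contMDiffAt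
              ((chartAt E c).open_target.mem_nhds ((chartAt E c).map_source hx))
        exact h5.contDiffAt
      exact (h4.differentiableAt (by simp)).hasFDerivAt
    refine (h3.comp (0 : E) h2).congr_fderiv ?_
    ext v
    simp [mul_smul]
  · have h0 := f_zero f hx
    rw [h0, zero_mul, zero_smul]
    have : (fun v : E => chartAt E x (G f δ x v)) = fun _ => chartAt E x x := by
      funext v; rw [G_eq_of_f_zero h0]
    rw [this]
    exact hasFDerivAt_const _ _

/-- a linear map `E → W` at every point (`E` = tangent space in the preferred chart), smooth. -/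
def SmoothHom {W : Type*} [NormedAddCommGroup W] [NormedSpace ℝ W] (R : M → E →L[ℝ] W) : Prop :=
  ∀ p : M, ContDiffOn ℝ ∞ (fun y => (R ((chartAt E p).symm y)).comp
    (tcc p ((chartAt E p).symm y) ((chartAt E p).symm y))) (chartAt E p).target

/-- the local derivative in the vector variable. -/
def DV {W : Type*} [NormedAddCommGroup W] [NormedSpace ℝ W] (F : M → W → M) (x : M) : W →L[ℝ] E :=
  fderiv ℝ (fun w : W => chartAt E x (F x w)) 0

/-- a partial spray. -/
structure Sp (W : Type*) [NormedAddCommGroup W] [NormedSpace ℝ W] (F : M → W → M) (h : M → ℝ)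
    (R : M → E →L[ℝ] W) : Prop where
  sm : ContMDiff (𝓘(ℝ, E).prod 𝓘(ℝ, W)) 𝓘(ℝ, E) ∞ (fun z : M × W => F z.1 z.2)
  F0 : ∀ x, F x 0 = x
  smh : ContMDiff 𝓘(ℝ, E) 𝓘(ℝ, ℝ) ∞ h
  h0 : ∀ x, 0 ≤ h x
  smR : SmoothHom R
  dR : ∀ x v, DV F x (R x v) = h x • v

omit [FiniteDimensional ℝ E] [T2Space M] in
theorem Sp.diff {W : Type*} [NormedAddCommGroup W] [NormedSpace ℝ W] {F : M → W → M} {h : M → ℝ}
    {R : M → E →L[ℝ] W} (H : Sp W F h R) (x : M) :
    ContDiffAt ℝ ∞ (fun w : W => chartAt E x (F x w)) 0 := by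
  have h1 : ContMDiffAt 𝓘(ℝ, W) 𝓘(ℝ, E) ∞ (fun w : W => chartAt E x (F x w)) 0 := by
    have h2 : ContMDiffAt 𝓘(ℝ, W) 𝓘(ℝ, E) ∞ (fun w : W => F x w) 0 :=
      H.sm.contMDiffAt.comp (0 : W) (contMDiffAt_const.prodMk contMDiffAt_id)
    refine ContMDiffAt.comp (0 : W) (I' := 𝓘(ℝ, E)) ?_ h2
    rw [H.F0]
    exact (contMDiffOn_chart (I := 𝓘(ℝ, E)) (x := x)).contMDiffAt (chart_source_mem_nhds E x)
  exact h1.contDiffAt

omit [FiniteDimensional ℝ E] [T2Space M] in
theorem sp_nil : Sp (M := M) (E := E) PUnit (fun x _ => x) (fun _ => 0) (fun _ => 0) where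
  sm := contMDiff_fst
  F0 _ := rfl
  smh := contMDiff_const
  h0 _ := le_rfl
  smR p := by
    simp only [ContinuousLinearMap.zero_comp]
    exact contDiffOn_const
  dR x v := by
    rw [zero_smul, _root_.map_zero]

theorem sp_cons {W : Type*} [NormedAddCommGroup W] [NormedSpace ℝ W] {F : M → W → M} {h : M → ℝ}
    {R : M → E →L[ℝ] W} (H : Sp W F h R) {c : M} {f : SmoothBumpFunction 𝓘(ℝ, E) c} {δ : ℝ}
    (hδ : Adm f δ) :
    Sp (W × E) (fun x w => G f δ (F x w.1) w.2) (fun x => h x + f x ^ 2 * δ)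
      (fun x => (R x).prod (f x • tcc x c x)) where
  sm := by
    have h1 : ContMDiff (𝓘(ℝ, E).prod 𝓘(ℝ, W × E)) 𝓘(ℝ, E) ∞
        (fun z : M × (W × E) => F z.1 z.2.1) :=
      H.sm.comp (contMDiff_fst.prodMk (contDiff_fst.contMDiff.comp contMDiff_snd))
    exact (contMDiff_G hδ).comp (h1.prodMk (contDiff_snd.contMDiff.comp contMDiff_snd))
  F0 x := by
    show G f δ (F x 0) 0 = x
    rw [G_zero, H.F0]
  smh := H.smh.add ((f.contMDiff.pow 2).mul contMDiff_const)
  h0 x := add_nonneg (H.h0 x) (mul_nonneg (sq_nonneg _) hδ.1.le)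
  smR p := by
    have h1 := H.smR p
    have h2 : ContDiffOn ℝ ∞ (fun y => f ((chartAt E p).symm y) •
        (tcc (E := E) ((chartAt E p).symm y) c ((chartAt E p).symm y)).comp
          (tcc p ((chartAt E p).symm y) ((chartAt E p).symm y))) (chartAt E p).target := by
      intro y hy
      apply ContDiffAt.contDiffWithinAt
      have hf : ContDiffAt ℝ ∞ (fun y => f ((chartAt E p).symm y)) y := by
        have : ContMDiffAt 𝓘(ℝ, E) 𝓘(ℝ, ℝ) ∞ (fun y => f ((chartAt E p).symm y)) y :=
          f.contMDiffAt.comp y ((contMDiffOn_chart_symm (I := 𝓘(ℝ, E)) (x := p)).contMDiffAt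
            ((chartAt E p).open_target.mem_nhds hy))
        exact this.contDiffAt
      by_cases hc : (chartAt E p).symm y ∈ (chartAt E c).source
      · have h3 : ContDiffAt ℝ ∞ (fun z => fderiv ℝ (chartAt E c ∘ (chartAt E p).symm) z) y := by
          have h4 : ContDiffAt ℝ ∞ (chartAt E c ∘ (chartAt E p).symm) y := by
            have h5 : ContMDiffAt 𝓘(ℝ, E) 𝓘(ℝ, E) ∞ (chartAt E c ∘ (chartAt E p).symm) y := by
              refine ContMDiffAt.comp _ (I' := 𝓘(ℝ, E)) ?_ ?_
              · exact (contMDiffOn_chart (I := 𝓘(ℝ, E)) (x := c)).contMDiffAt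
                  ((chartAt E c).open_source.mem_nhds hc)
              · exact (contMDiffOn_chart_symm (I := 𝓘(ℝ, E)) (x := p)).contMDiffAt
                  ((chartAt E p).open_target.mem_nhds hy)
            exact h5.contDiffAt
          exact h4.fderiv_right (m := ∞) (by simp)
        refine (hf.smul h3).congr_of_eventuallyEq ?_
        have h6 : ∀ᶠ z in 𝓝 y, z ∈ (chartAt E p).target ∧
            (chartAt E p).symm z ∈ (chartAt E c).source := by
          have h7 : (chartAt E p).target ∈ 𝓝 y := (chartAt E p).open_target.mem_nhds hy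
          have h8 : ContinuousAt (chartAt E p).symm y := (chartAt E p).continuousAt_symm hy
          filter_upwards [h7, h8.preimage_mem_nhds ((chartAt E c).open_source.mem_nhds hc)]
            with z h9 h10 using ⟨h9, h10⟩
        filter_upwards [h6] with z hz
        congr 1
        show _ = fderiv ℝ (chartAt E c ∘ (chartAt E p).symm) z
        have h9 : tcc (E := E) p c ((chartAt E p).symm z) =
            fderiv ℝ (chartAt E c ∘ (chartAt E p).symm) z := by
          rw [tcc_eq_fderiv, (chartAt E p).right_inv hz.1]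
        rw [← h9]
        ext v
        exact tcc_comp (symm_mem hz.1) (mem_chart_source E _) hz.2 v
      · have hz' : (chartAt E p).symm y ∉ tsupport f :=
          fun h => hc (f.tsupport_subset_chartAt_source h)
        have h8 : ContinuousAt (chartAt E p).symm y := (chartAt E p).continuousAt_symm hy
        refine (contDiffAt_const (c := (0 : E →L[ℝ] E))).congr_of_eventuallyEq ?_
        filter_upwards [h8.preimage_mem_nhds ((isClosed_tsupport f).isOpen_compl.mem_nhds hz')]
          with z hz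
        have h9 : f ((chartAt E p).symm z) = 0 := by
          by_contra h
          exact hz (subset_tsupport _ h)
        rw [h9, zero_smul]
    have h3 : ∀ y, ((R ((chartAt E p).symm y)).prod (f ((chartAt E p).symm y) •
        tcc (E := E) ((chartAt E p).symm y) c ((chartAt E p).symm y))).comp
          (tcc p ((chartAt E p).symm y) ((chartAt E p).symm y)) =
        ContinuousLinearMap.prodₗᵢ ℝ ((R ((chartAt E p).symm y)).comp
          (tcc p ((chartAt E p).symm y) ((chartAt E p).symm y)),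
          f ((chartAt E p).symm y) •
        (tcc (E := E) ((chartAt E p).symm y) c ((chartAt E p).symm y)).comp
          (tcc p ((chartAt E p).symm y) ((chartAt E p).symm y))) := by
      intro y
      rfl
    simp only [h3]
    exact (LinearIsometryEquiv.contDiff _).comp_contDiffOn (h1.prodMk h2)
  dR x v := by
    set K : W × E → E := fun w => chartAt E x (G f δ (F x w.1) w.2) with hK
    have hsm : ContMDiff (𝓘(ℝ, W × E)) 𝓘(ℝ, E) ∞ (fun w : W × E => G f δ (F x w.1) w.2) := by
      have h1 : ContMDiff (𝓘(ℝ, W × E)) 𝓘(ℝ, E) ∞ (fun z : W × E => F x z.1) :=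
        H.sm.comp (contMDiff_const.prodMk contDiff_fst.contMDiff)
      exact (contMDiff_G hδ).comp (h1.prodMk contDiff_snd.contMDiff)
    have hx0 : G f δ (F x (0 : W × E).1) (0 : W × E).2 = x := by
      show G f δ (F x 0) 0 = x
      rw [G_zero, H.F0]
    have hKd : DifferentiableAt ℝ K 0 := by
      have h1 : ContMDiffAt 𝓘(ℝ, W × E) 𝓘(ℝ, E) ∞ K 0 := by
        refine ContMDiffAt.comp (0 : W × E) (I' := 𝓘(ℝ, E)) ?_ hsm.contMDiffAt
        rw [hx0]
        exact (contMDiffOn_chart (I := 𝓘(ℝ, E)) (x := x)).contMDiffAt (chart_source_mem_nhds E x)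
      exact h1.contDiffAt.differentiableAt (by simp)
    have hA : ∀ a : W, fderiv ℝ K 0 (a, 0) = DV F x a := by
      intro a
      have h1 : HasFDerivAt (fun w : W => K (w, 0)) ((fderiv ℝ K 0).comp
          (ContinuousLinearMap.inl ℝ W E)) 0 :=
        HasFDerivAt.comp (0 : W) (f := fun w : W => ((w, 0) : W × E)) hKd.hasFDerivAt
          (ContinuousLinearMap.inl ℝ W E).hasFDerivAt
      have h2 : (fun w : W => K (w, 0)) = fun w => chartAt E x (F x w) := by
        funext w
        simp only [hK, G_zero]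
      rw [h2] at h1
      rw [DV, h1.fderiv]
      rfl
    have hB : ∀ b : E, fderiv ℝ K 0 (0, b) = (f x * δ) • tcc c x x b := by
      intro b
      have h1 : HasFDerivAt (fun w : E => K (0, w)) ((fderiv ℝ K 0).comp
          (ContinuousLinearMap.inr ℝ W E)) 0 :=
        HasFDerivAt.comp (0 : E) (f := fun w : E => ((0, w) : W × E)) hKd.hasFDerivAt
          (ContinuousLinearMap.inr ℝ W E).hasFDerivAt
      have h2 : (fun w : E => K (0, w)) = fun w => chartAt E x (G f δ x w) := by
        funext w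
        simp only [hK, H.F0]
      rw [h2] at h1
      have h3 := h1.unique (hasFDerivAt_G f δ x)
      have := DFunLike.congr_fun h3 b
      simpa using this
    show fderiv ℝ K 0 (R x v, f x • tcc x c x v) = _
    have h1 : ((R x v, f x • tcc x c x v) : W × E) = (R x v, 0) + (0, f x • tcc x c x v) := by
      simp
    rw [h1, map_add, hA, hB, H.dR, _root_.map_smul, add_smul]
    by_cases hx : x ∈ (chartAt E c).source
    · rw [tcc_cancel' hx]
      congr 1
      rw [smul_smul]
      congr 1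
      ring
    · rw [f_zero f hx]; simp

section Exp

variable {E : Type} [NormedAddCommGroup E] [InnerProductSpace ℝ E] [FiniteDimensional ℝ E]
variable {M : Type*} [TopologicalSpace M] [T2Space M] [ChartedSpace E M]
  [IsManifold 𝓘(ℝ, E) ∞ M]

/-- partial sprays for finite sets of points. -/
theorem exists_sp_finset (s : Finset M) :
    ∃ (W : Type) (_ : NormedAddCommGroup W) (_ : NormedSpace ℝ W) (F : M → W → M) (h : M → ℝ)
      (R : M → E →L[ℝ] W), Sp W F h R ∧ ∀ c ∈ s, ∀ x,
        (Classical.arbitrary (SmoothBumpFunction 𝓘(ℝ, E) c)) x ≠ 0 → 0 < h x := by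
  classical
  induction s using Finset.induction_on with
  | empty => exact ⟨PUnit, inferInstance, inferInstance, _, _, _, sp_nil, by simp⟩
  | insert c s hc ih =>
    obtain ⟨W, _, _, F, h, R, H, h1⟩ := ih
    obtain ⟨δ, hδ⟩ := exists_adm (Classical.arbitrary (SmoothBumpFunction 𝓘(ℝ, E) c))
    refine ⟨W × E, inferInstance, inferInstance, _, _, _, sp_cons H hδ, ?_⟩
    intro c' hc' x hx
    rcases Finset.mem_insert.1 hc' with rfl | h2
    · exact add_pos_of_nonneg_of_pos (H.h0 x) (mul_pos (by positivity) hδ.1)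
    · exact add_pos_of_pos_of_nonneg (h1 c' h2 x hx) (mul_nonneg (sq_nonneg _) hδ.1.le)

theorem exists_sp [CompactSpace M] :
    ∃ (W : Type) (_ : NormedAddCommGroup W) (_ : NormedSpace ℝ W) (F : M → W → M) (h : M → ℝ)
      (R : M → E →L[ℝ] W), Sp W F h R ∧ ∀ x, 0 < h x := by
  obtain ⟨t, ht⟩ := (isCompact_univ (X := M)).elim_nhds_subcover
    (fun c => support (Classical.arbitrary (SmoothBumpFunction 𝓘(ℝ, E) c)))
    (fun c _ => SmoothBumpFunction.support_mem_nhds _)
  obtain ⟨W, i1, i2, F, h, R, H, h1⟩ := exists_sp_finset (E := E) t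
  refine ⟨W, i1, i2, F, h, R, H, fun x => ?_⟩
  have h2 := ht.2 (mem_univ x)
  simp only [mem_iUnion] at h2
  obtain ⟨c, hc, hx⟩ := h2
  exact h1 c hc x hx

/-- smoothness on the tangent bundle of `e : M → E → M` (tangent vectors in preferred charts). -/
def SmoothExp (e : M → E → M) : Prop :=
  ∀ p : M, ContMDiffOn 𝓘(ℝ, E × E) 𝓘(ℝ, E) ∞ (fun z : E × E => e ((chartAt E p).symm z.1)
    (tcc p ((chartAt E p).symm z.1) ((chartAt E p).symm z.1) z.2)) ((chartAt E p).target ×ˢ univ)

/-- **an exponential-like map** -/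
theorem exists_exp [CompactSpace M] : ∃ e : M → E → M, SmoothExp e ∧ (∀ x, e x 0 = x) ∧
    ∀ x, DV e x = ContinuousLinearMap.id ℝ E := by
  obtain ⟨W, _, _, F, h, R, H, h1⟩ := exists_sp (E := E) (M := M)
  refine ⟨fun x ξ => F x ((h x)⁻¹ • R x ξ), fun p => ?_, fun x => ?_, fun x => ?_⟩
  · have hs : ContMDiffOn 𝓘(ℝ, E × E) 𝓘(ℝ, E) ∞ (fun z : E × E => (chartAt E p).symm z.1)
        ((chartAt E p).target ×ˢ univ) :=
      (contMDiffOn_chart_symm (I := 𝓘(ℝ, E)) (x := p)).comp contDiff_fst.contMDiff.contMDiffOn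
        (fun z hz => hz.1)
    have h2 : ContMDiffOn 𝓘(ℝ, E × E) 𝓘(ℝ, ℝ) ∞ (fun z : E × E => h ((chartAt E p).symm z.1))
        ((chartAt E p).target ×ˢ univ) := H.smh.comp_contMDiffOn hs
    have h3 : ContDiffOn ℝ ∞ (fun z : E × E => (R ((chartAt E p).symm z.1)).comp
        (tcc p ((chartAt E p).symm z.1) ((chartAt E p).symm z.1)) z.2)
        ((chartAt E p).target ×ˢ univ) := by
      have h4 : ContDiffOn ℝ ∞ (fun z : E × E => (R ((chartAt E p).symm z.1)).comp
        (tcc p ((chartAt E p).symm z.1) ((chartAt E p).symm z.1)))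
        ((chartAt E p).target ×ˢ univ) :=
        (H.smR p).comp contDiff_fst.contDiffOn (fun z hz => hz.1)
      exact h4.clm_apply contDiff_snd.contDiffOn
    have h5 : ContMDiffOn 𝓘(ℝ, E × E) 𝓘(ℝ, W) ∞ (fun z : E × E =>
        (h ((chartAt E p).symm z.1))⁻¹ • R ((chartAt E p).symm z.1)
          (tcc p ((chartAt E p).symm z.1) ((chartAt E p).symm z.1) z.2))
        ((chartAt E p).target ×ˢ univ) :=
      ContMDiffOn.smul (fun z hz => (h2 z hz).inv₀ (h1 _).ne') h3.contMDiffOn
    exact H.sm.comp_contMDiffOn (hs.prodMk h5)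
  · show F x ((h x)⁻¹ • R x 0) = x
    rw [_root_.map_zero, smul_zero, H.F0]
  · have h2 : HasFDerivAt (fun w : W => chartAt E x (F x w)) (DV F x)
        ((fun ξ : E => (h x)⁻¹ • R x ξ) 0) := by
      simp only [_root_.map_zero, smul_zero]
      exact ((H.diff x).differentiableAt (by simp)).hasFDerivAt
    have h3 : HasFDerivAt (fun ξ : E => (h x)⁻¹ • R x ξ) ((h x)⁻¹ • R x) 0 :=
      ((h x)⁻¹ • R x).hasFDerivAt
    have h4 := h2.comp (0 : E) h3
    ext v
    have h5 : DV (fun x ξ => F x ((h x)⁻¹ • R x ξ)) x = (DV F x).comp ((h x)⁻¹ • R x) := h4.fderiv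
    rw [h5]
    simp only [ContinuousLinearMap.comp_apply, _root_.smul_apply, _root_.map_smul,
      ContinuousLinearMap.id_apply]
    rw [H.dR, smul_smul, inv_mul_cancel₀ (h1 x).ne', one_smul]

end Exp

end

end Crest.Agent.R235.Spray_417
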