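import Crest.Agent.R235.AdjPushA_470
import Crest.Agent.R235.AdjDefs_43
import Crest.Agent.R235.Spray_417
import Crest.Agent.R240.Cmp

/-!
Row 235 (S0364), package ADJ (leader helper43), node PUSH (helper470): push-off families.
`Φ t x = e x (t X x)` with the exponential-like map of `Spray_417`; `P t` = pull-back.
-/

set_option autoImplicit false
set_option maxSynthPendingDepth 3
set_option linter.unusedSectionVars false
set_option linter.unusedVariables false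

open Set Function Filter MeasureTheory Metric
open scoped Manifold ContDiff Topology

universe u

namespace Crest.Agent.R235.AdjPush_470

open Crest.Agent.R240 Crest.Agent.R240.Ch Crest.Agent.R240.Int
open Crest.Agent.R235 Crest.Agent.R235.Glob_370 Crest.Agent.R235.Adj
open Crest.Agent.R235.TorMin_510 Crest.Agent.R235.Spray_417

noncomputable section

section Basic

variable {M : Type u} [TopologicalSpace M] [ChartedSpace E4 M] [IsManifold 𝓘(ℝ, E4) ∞ M]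

/-- push along a vector field. -/
def Ph (e : M → E4 → M) (X : VF E4 M) (t : ℝ) (x : M) : M := e x (t • atV X x)

theorem Ph_zero {e : M → E4 → M} (h0 : ∀ x, e x 0 = x) (X : VF E4 M) (x : M) : Ph e X 0 x = x := by
  unfold Ph; rw [zero_smul, h0]

set_option maxHeartbeats 400000 in
theorem contMDiff_Ph {e : M → E4 → M} (he : SmoothExp e) {X : VF E4 M} (hX : SmoothV X) :
    ContMDiff (𝓘(ℝ, ℝ).prod 𝓘(ℝ, E4)) 𝓘(ℝ, E4) ∞ (fun q : ℝ × M => Ph e X q.1 q.2) := by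
  intro q
  set p : M := q.2 with hp
  have hps : p ∈ (chartAt E4 p).source := mem_chart_source E4 p
  have hev : (fun q : ℝ × M => Ph e X q.1 q.2) =ᶠ[𝓝 q] fun q' : ℝ × M =>
      (fun z : E4 × E4 => e ((chartAt E4 p).symm z.1)
        (tcc p ((chartAt E4 p).symm z.1) ((chartAt E4 p).symm z.1) z.2))
        (chartAt E4 p q'.2, q'.1 • repV p X (chartAt E4 p q'.2)) := by
    filter_upwards [((chartAt E4 p).open_source.preimage continuous_snd).mem_nhds hps] with r hr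
    have hr' : r.2 ∈ (chartAt E4 p).source := hr
    beta_reduce
    rw [(chartAt E4 p).left_inv hr', _root_.map_smul, repV_chart hr', tcc_cancel' hr']
    rfl
  refine ContMDiffAt.congr_of_eventuallyEq ?_ hev
  have h1 : ContMDiffAt (𝓘(ℝ, ℝ).prod 𝓘(ℝ, E4)) 𝓘(ℝ, E4) ∞
      (fun q' : ℝ × M => chartAt E4 p q'.2) q :=
    ContMDiffAt.comp q ((contMDiffOn_chart (I := 𝓘(ℝ, E4)) (x := p)).contMDiffAt
      ((chartAt E4 p).open_source.mem_nhds hps)) contMDiffAt_snd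
  have h2 : ContMDiffAt 𝓘(ℝ, E4) 𝓘(ℝ, E4) ∞ (repV p X) (chartAt E4 p q.2) :=
    ((hX p).contDiffAt ((chartAt E4 p).open_target.mem_nhds
      ((chartAt E4 p).map_source hps))).contMDiffAt
  have h3 : ContMDiffAt (𝓘(ℝ, ℝ).prod 𝓘(ℝ, E4)) 𝓘(ℝ, E4) ∞
      (fun q' : ℝ × M => repV p X (chartAt E4 p q'.2)) q :=
    ContMDiffAt.comp (I' := 𝓘(ℝ, E4)) q h2 h1
  have h4 : ContMDiffAt (𝓘(ℝ, ℝ).prod 𝓘(ℝ, E4)) 𝓘(ℝ, E4) ∞
      (fun q' : ℝ × M => q'.1 • repV p X (chartAt E4 p q'.2)) q :=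
    ContMDiffAt.smul contMDiffAt_fst h3
  have h5 : ContMDiffAt (𝓘(ℝ, ℝ).prod 𝓘(ℝ, E4)) 𝓘(ℝ, E4 × E4) ∞
      (fun q' : ℝ × M => (chartAt E4 p q'.2, q'.1 • repV p X (chartAt E4 p q'.2))) q :=
    h1.prodMk_space h4
  have h6 := (he p).contMDiffAt (x := (chartAt E4 p q.2, q.1 • repV p X (chartAt E4 p q.2)))
    (((chartAt E4 p).open_target.prod isOpen_univ).mem_nhds
      ⟨(chartAt E4 p).map_source hps, mem_univ _⟩)
  exact ContMDiffAt.comp q h6 h5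

theorem contMDiff_Ph_t {e : M → E4 → M} (he : SmoothExp e) {X : VF E4 M} (hX : SmoothV X)
    (t : ℝ) : ContMDiff 𝓘(ℝ, E4) 𝓘(ℝ, E4) ∞ (Ph e X t) :=
  (contMDiff_Ph he hX).comp (contMDiff_const.prodMk contMDiff_id)

theorem vel_Ph {e : M → E4 → M} (h1 : ∀ x, DV e x = ContinuousLinearMap.id ℝ E4) (X : VF E4 M)
    (x : M) : HasDerivAt (fun t => chartAt E4 x (Ph e X t x)) (atV X x) 0 := by
  have hd : DifferentiableAt ℝ (fun w : E4 => chartAt E4 x (e x w)) 0 := by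
    by_contra hn
    have h2 : DV e x = 0 := fderiv_zero_of_not_differentiableAt hn
    rw [h1] at h2
    have h3 := congrArg (fun L : E4 →L[ℝ] E4 => ‖L (EuclideanSpace.single 0 1)‖) h2
    simp at h3
  have h2 : HasFDerivAt (fun w : E4 => chartAt E4 x (e x w)) (ContinuousLinearMap.id ℝ E4) 0 := by
    rw [← h1 x]; exact hd.hasFDerivAt
  have h3 : HasDerivAt (fun t : ℝ => t • atV X x) (atV X x) 0 := by
    have := (hasDerivAt_id (0 : ℝ)).smul_const (atV X x)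
    simpa using this
  have h4 : HasFDerivAt (fun w : E4 => chartAt E4 x (e x w)) (ContinuousLinearMap.id ℝ E4)
      ((fun t : ℝ => t • atV X x) 0) := by
    simpa using h2
  exact h4.comp_hasDerivAt (0 : ℝ) h3

/-- chain rule in the preferred charts. -/
theorem dmap_comp {τ : M → M} (hτ : ContMDiff 𝓘(ℝ, E4) 𝓘(ℝ, E4) ∞ τ) {u : ℂ → M} {z : ℂ}
    (hu : ContMDiffAt 𝓘(ℝ, ℂ) 𝓘(ℝ, E4) ∞ u z) (v : ℂ) :
    dmap (fun y => τ (u y)) z v = dself τ (u z) (dmap u z v) := by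
  have hcx : (chartAt E4 (u z)).symm (chartAt E4 (u z) (u z)) = u z :=
    (chartAt E4 (u z)).left_inv (mem_chart_source E4 (u z))
  have hev : (fun y => chartAt E4 (τ (u z)) (τ (u y))) =ᶠ[𝓝 z]
      fun y => wr τ (u z) (τ (u z)) (chartAt E4 (u z) (u y)) := by
    filter_upwards [hu.continuousAt.preimage_mem_nhds
      ((chartAt E4 (u z)).open_source.mem_nhds (mem_chart_source E4 (u z)))] with y hy
    simp only [wr]
    rw [(chartAt E4 (u z)).left_inv hy]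
  have hd1 : DifferentiableAt ℝ (fun y => chartAt E4 (u z) (u y)) z := by
    have h1 : ContMDiffAt 𝓘(ℝ, ℂ) 𝓘(ℝ, E4) ∞ (fun y => chartAt E4 (u z) (u y)) z :=
      ContMDiffAt.comp z ((contMDiffOn_chart (I := 𝓘(ℝ, E4)) (x := u z)).contMDiffAt
        ((chartAt E4 (u z)).open_source.mem_nhds (mem_chart_source E4 (u z)))) hu
    exact h1.contDiffAt.differentiableAt (by simp)
  have hd2 : DifferentiableAt ℝ (wr τ (u z) (τ (u z))) (chartAt E4 (u z) (u z)) :=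
    (wr_contDiffAt hτ (mem_chart_target E4 (u z)) (by
      rw [hcx]; exact mem_chart_source E4 _)).differentiableAt (by simp)
  unfold dmap
  rw [hev.fderiv_eq, dself_eq hτ]
  have h3 := HasFDerivAt.comp (g := wr τ (u z) (τ (u z))) (f := fun y => chartAt E4 (u z) (u y)) z
    hd2.hasFDerivAt hd1.hasFDerivAt
  have h4 := h3.fderiv
  simp only [Function.comp_def] at h4
  rw [h4]
  rfl

theorem pull_pb {τ : M → M} (hτ : ContMDiff 𝓘(ℝ, E4) 𝓘(ℝ, E4) ∞ τ) {u : ℂ → M} {z : ℂ}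
    (hu : ContMDiffAt 𝓘(ℝ, ℂ) 𝓘(ℝ, E4) ∞ u z) (b : F2 E4 M) :
    pb u (pb2 τ b) z = pb (fun y => τ (u y)) b z := by
  unfold pb
  rw [at2_pb2, dmap_comp hτ hu, dmap_comp hτ hu]

theorem norm_rep_le (𝒰 : Cover M) {b : F2 E4 M} (hb : Smooth2 b) {i : Fin 𝒰.N} {y : E4}
    (hy : y ∈ 𝒰.K i) : ‖rep (𝒰.p i) b y‖ ≤ 𝒰.cm 0 b := by
  have h := Ch.le_cm 𝒰 (le_refl 0) hb hy
  rwa [norm_iteratedFDeriv_zero] at h

/-- local bound. -/
theorem bd_loc {τ : M → M} (hτ : ContMDiff 𝓘(ℝ, E4) 𝓘(ℝ, E4) ∞ τ) (𝒰 : Cover M) (p : M) {y : E4}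
    (hy : y ∈ (chartAt E4 p).target) : ∃ N ∈ 𝓝 y, ∃ C : ℝ, 0 ≤ C ∧ ∀ b : F2 E4 M, Smooth2 b →
      ∀ z ∈ N, ‖rep p (pb2 τ b) z‖ ≤ C * 𝒰.cm 0 b := by
  obtain ⟨j, hj1, hj2⟩ := 𝒰.cov (τ ((chartAt E4 p).symm y))
  have hw := wr_contDiffAt hτ hy hj1
  have hD : ContinuousAt (fderiv ℝ (wr τ p (𝒰.p j))) y :=
    (hw.fderiv_right (m := ∞) (by simp)).continuousAt
  have hn : ∀ᶠ z in 𝓝 y, ‖fderiv ℝ (wr τ p (𝒰.p j)) z‖ < ‖fderiv ℝ (wr τ p (𝒰.p j)) y‖ + 1 :=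
    hD.norm.eventually_lt continuousAt_const (by linarith)
  have hi : ∀ᶠ z in 𝓝 y, wr τ p (𝒰.p j) z ∈ interior (𝒰.K j) :=
    hw.continuousAt.eventually (isOpen_interior.mem_nhds hj2)
  set R := ‖fderiv ℝ (wr τ p (𝒰.p j)) y‖ + 1 with hR
  have hR0 : 0 ≤ R := by positivity
  refine ⟨_, (hn.and hi).and (ev_mem hτ hy hj1), R ^ 2, by positivity, fun b hb z hz => ?_⟩
  obtain ⟨⟨hz1, hz2⟩, hz3, hz4⟩ := hz
  have hc0 := Ch.cm_nonneg 𝒰 0 b
  refine ContinuousLinearMap.opNorm_le_bound₂ _ (by positivity) fun v w => ?_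
  rw [rep_pb2 hτ hz3 hz4]
  have h1 := norm_rep_le 𝒰 hb (interior_subset hz2)
  have h2 : ‖fderiv ℝ (wr τ p (𝒰.p j)) z v‖ ≤ R * ‖v‖ :=
    ((fderiv ℝ (wr τ p (𝒰.p j)) z).le_opNorm v).trans
      (mul_le_mul_of_nonneg_right hz1.le (norm_nonneg _))
  have h3 : ‖fderiv ℝ (wr τ p (𝒰.p j)) z w‖ ≤ R * ‖w‖ :=
    ((fderiv ℝ (wr τ p (𝒰.p j)) z).le_opNorm w).trans
      (mul_le_mul_of_nonneg_right hz1.le (norm_nonneg _))
  calc _ ≤ ‖rep (𝒰.p j) b (wr τ p (𝒰.p j) z)‖ * ‖fderiv ℝ (wr τ p (𝒰.p j)) z v‖ *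
        ‖fderiv ℝ (wr τ p (𝒰.p j)) z w‖ := ContinuousLinearMap.le_opNorm₂ _ _ _
    _ ≤ 𝒰.cm 0 b * (R * ‖v‖) * (R * ‖w‖) := by gcongr
    _ = _ := by ring

/-- **bound of order zero**. -/
theorem bd_pb2 {τ : M → M} (hτ : ContMDiff 𝓘(ℝ, E4) 𝓘(ℝ, E4) ∞ τ) (𝒰 : Cover M) :
    ∃ C : ℝ, ∀ b : F2 E4 M, Smooth2 b → 𝒰.cm 0 (pb2 τ b) ≤ C * 𝒰.cm 0 b := by
  have h : ∀ i, ∃ C : ℝ, 0 ≤ C ∧ ∀ b : F2 E4 M, Smooth2 b →
      ∀ z ∈ 𝒰.K i, ‖rep (𝒰.p i) (pb2 τ b) z‖ ≤ C * 𝒰.cm 0 b := by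
    intro i
    refine (𝒰.cpt i).induction_on (p := fun s => ∃ C : ℝ, 0 ≤ C ∧ ∀ b : F2 E4 M, Smooth2 b →
      ∀ z ∈ s, ‖rep (𝒰.p i) (pb2 τ b) z‖ ≤ C * 𝒰.cm 0 b) ?_ ?_ ?_ ?_
    · exact ⟨0, le_rfl, fun b hb z hz => absurd hz (notMem_empty z)⟩
    · rintro s t hst ⟨C, hC, h⟩
      exact ⟨C, hC, fun b hb z hz => h b hb z (hst hz)⟩
    · rintro s t ⟨C, hC, h⟩ ⟨C', hC', h'⟩
      refine ⟨max C C', hC.trans (le_max_left _ _), fun b hb z hz => ?_⟩
      have hc0 := Ch.cm_nonneg 𝒰 0 b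
      rcases hz with hz | hz
      · exact (h b hb z hz).trans (mul_le_mul_of_nonneg_right (le_max_left _ _) hc0)
      · exact (h' b hb z hz).trans (mul_le_mul_of_nonneg_right (le_max_right _ _) hc0)
    · intro y hy
      obtain ⟨N, hN, C, hC, h⟩ := bd_loc hτ 𝒰 (𝒰.p i) (𝒰.sub i hy)
      exact ⟨N, mem_nhdsWithin_of_mem_nhds hN, C, hC, h⟩
  choose C hC h using h
  refine ⟨∑ i, C i, fun b hb => ?_⟩
  have h0 := Ch.cm_nonneg 𝒰 0 b
  refine Ch.cm_le 𝒰 (mul_nonneg (Finset.sum_nonneg fun i _ => hC i) h0) fun i j hj y hy => ?_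
  obtain rfl : j = 0 := Nat.le_zero.1 hj
  rw [norm_iteratedFDeriv_zero]
  refine (h i b hb y hy).trans (mul_le_mul_of_nonneg_right ?_ h0)
  exact Finset.single_le_sum (f := C) (fun k _ => hC k) (Finset.mem_univ i)

end Basic

section Closed

variable {M : Type u} [TopologicalSpace M] [T2Space M] [CompactSpace M]
  [ChartedSpace E4 M] [IsManifold 𝓘(ℝ, E4) ∞ M]

/-- for small times the push is close to the identity. -/
theorem near_Ph {e : M → E4 → M} (he : SmoothExp e) (h0 : ∀ x, e x 0 = x) {X : VF E4 M}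
    (hX : SmoothV X) (G : RGC M) : ∀ᶠ t in 𝓝 (0 : ℝ), ∀ i,
      Ph e X t ⁻¹' tsupport (G.ψ i) ⊆ G.B i := by
  have hc : Continuous (fun q : ℝ × M => Ph e X q.1 q.2) := (contMDiff_Ph he hX).continuous
  rw [eventually_all]
  intro i
  have hK : IsCompact (G.B i)ᶜ := (G.isOpen i).isClosed_compl.isCompact
  have h := hK.eventually_forall_of_forall_eventually (x₀ := (0 : ℝ))
    (P := fun t x => Ph e X t x ∉ tsupport (G.ψ i)) (fun x hx => by
      refine hc.continuousAt.eventually ((isClosed_tsupport (G.ψ i)).isOpen_compl.mem_nhds ?_)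
      show Ph e X 0 x ∉ tsupport (G.ψ i)
      rw [Ph_zero h0]
      exact fun h => hx (G.supp i h))
  filter_upwards [h] with t ht x hx
  by_contra hn
  exact ht x hn hx

set_option maxHeartbeats 400000 in
/-- **PUSH** -/
theorem exists_push (X : VF E4 M) (hX : SmoothV X) : Nonempty (Push X) := by
  obtain ⟨e, he, h0, h1⟩ := exists_exp (E := E4) (M := M)
  obtain ⟨G⟩ := nonempty_rgc M
  obtain ⟨t0, ht0, h2⟩ := Metric.eventually_nhds_iff_ball.1 (near_Ph he h0 hX G)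
  have h3 : ∀ t ∈ Ioo (-t0) t0, ∀ i, Ph e X t ⁻¹' tsupport (G.ψ i) ⊆ G.B i := by
    intro t ht
    refine h2 t ?_
    rw [Real.ball_eq_Ioo]
    simpa using ht
  exact ⟨{
    Φ := Ph e X
    P := fun t => PL (contMDiff_Ph_t he hX t)
    t0 := t0
    t0_pos := ht0
    smooth := (contMDiff_Ph he hX).contMDiffOn
    zero := Ph_zero h0 X
    vel := vel_Ph h1 X
    closed := fun t ht a => cls_pb (contMDiff_Ph_t he hX t) (h3 t ht) a
    exact := fun t ht b hb => isEx_pb2 (contMDiff_Ph_t he hX t) hb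
    pull := fun t ht u z hu b => pull_pb (contMDiff_Ph_t he hX t) hu b.1
    bd := fun t ht 𝒰 => by
      obtain ⟨C, hC⟩ := bd_pb2 (contMDiff_Ph_t he hX t) 𝒰
      exact ⟨C, fun b => hC b.1 b.2⟩
    supp := fun t ht b x hx => by
      refine ContinuousLinearMap.ext fun v => ContinuousLinearMap.ext fun w => ?_
      show at2 (pb2 (Ph e X t) b.1) x v w = 0
      rw [at2_pb2, hx]
      rfl }⟩

end Closed

/-- **node PUSH of package ADJ**. -/
theorem push : PUSH.{u} := fun _ _ _ _ _ _ _ X hX => exists_push X hX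

end

end Crest.Agent.R235.AdjPush_470
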