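import Crest.Agent.R235.AdjGeo_43

/-!
Row 235 (S0364), PACKAGE ADJ, helper43: the push-off near a point of `P` for small `t`, and the
value of the pushed current on `dArg F ∧ dχ`.
-/

set_option autoImplicit false
set_option maxSynthPendingDepth 3
set_option linter.unusedSectionVars false

open Set Function Filter MeasureTheory Metric
open scoped Manifold ContDiff Topology Real

universe u

namespace Crest.Agent.R235.AdjSmall_43

open Crest.Agent.R240 Crest.Agent.R240.Ch Crest.Agent.R240.Int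
open Crest.Agent.R235 Crest.Agent.R235.Glob_370 Crest.Agent.R235.Wind_688 Crest.Agent.R235.Adj
open Crest.Agent.R235.AdjGen_83 Crest.Agent.R235.AdjLoc_43 Crest.Agent.R235.AdjGeo_43

noncomputable section

variable {M : Type u} [TopologicalSpace M] [T2Space M] [CompactSpace M] [ConnectedSpace M]
  [ChartedSpace E4 M] [IsManifold 𝓘(ℝ, E4) ∞ M] {J : EndF E4 M} {c : JCurve J}

/-- smallness of `t`. -/
structure Small {w : Trip M} {p : M} {V : Set M} {B : Box w c p V} {k : KSec c.A}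
    (L : Loc c B k) {X : VF E4 M} (P : Push X) (t : ℝ) : Prop where
  one : ∀ j, ∀ z ∈ closedBall (0 : ℂ) L.ρ, L.χ =ᶠ[𝓝 (P.Φ t ((c.L p).u j z))] fun _ => 1
  supp : ∀ x, P.Φ t x ∈ tsupport L.χ → x ∈ L.K
  ann : ∀ j, ∀ z : ℂ, L.ρ / 2 ≤ ‖z‖ → ‖z‖ ≤ 3 / 4 * B.r0 → P.Φ t ((c.L p).u j z) ∈ B.U \ B.E
  wind : ∀ j, IsW (fun z => B.F (P.Φ t ((c.L p).u j z))) 0 L.ρ (B.m j + ordφ k p j)

theorem cont_joint {X : VF E4 M} (P : Push X) {u : ℂ → M} {z : ℂ} (hu : ContinuousAt u z) :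
    ContinuousAt (fun q : ℝ × ℂ => P.Φ q.1 (u q.2)) (0, z) := by
  have h1 : ContinuousAt (fun q : ℝ × ℂ => (q.1, u q.2)) (0, z) := by
    refine continuousAt_fst.prodMk ?_
    exact ContinuousAt.comp (g := u) (f := fun q : ℝ × ℂ => q.2) (x := ((0 : ℝ), z)) hu
      continuousAt_snd
  exact ContinuousAt.comp (g := fun q : ℝ × M => P.Φ q.1 q.2) (f := fun q : ℝ × ℂ => (q.1, u q.2))
    (x := ((0 : ℝ), z)) (push_cont P (u z)) h1

theorem exists_small (hbch : BCH.{u}) {w : Trip M} (hJ : IsJ w J) {p : M} {V V' : Set M}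
    {B : Box w c p V} {k : KSec c.A} (L : Loc c B k) {X : VF E4 M} (P : Push X)
    (hX : FP c w k X V')
    (hV : ∀ j, ∀ z : ℂ, L.ρ / 2 ≤ ‖z‖ → ‖z‖ < B.r0 → (c.L p).u j z ∉ V') :
    ∀ᶠ t in 𝓝[>] (0 : ℝ), Small L P t := by
  have hρ1 : L.ρ < B.r0 := by linarith [L.ρ_lt, B.r0_pos]
  have hr1 := B.r0_le
  have hr0 := B.r0_pos
  have hρ0 := L.ρ_pos
  have ha : ∀ j, ∀ᶠ t in 𝓝 (0 : ℝ), ∀ z ∈ closedBall (0 : ℂ) L.ρ,
      L.χ =ᶠ[𝓝 (P.Φ t ((c.L p).u j z))] fun _ => 1 := by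
    intro j
    refine (isCompact_closedBall (0 : ℂ) L.ρ).eventually_forall_of_forall_eventually
      (P := fun (t : ℝ) (z : ℂ) => L.χ =ᶠ[𝓝 (P.Φ t ((c.L p).u j z))] fun _ => 1) fun z hz => ?_
    have hz1 : z ∈ ball (0 : ℂ) 1 := closedBall_subset_ball (by linarith) hz
    have h1 := cont_joint P (u_smooth c p j hz1).continuousAt
    have h2 : ∀ᶠ x in 𝓝 (P.Φ 0 ((c.L p).u j z)), L.χ =ᶠ[𝓝 x] fun _ => 1 := by
      rw [P.zero]; exact eventually_eventually_nhds.2 (L.one j z hz)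
    exact h1.eventually h2
  have hb : ∀ᶠ t in 𝓝 (0 : ℝ), ∀ x ∈ (interior L.K)ᶜ, P.Φ t x ∉ tsupport L.χ := by
    refine (isOpen_interior.isClosed_compl.isCompact).eventually_forall_of_forall_eventually
      (P := fun (t : ℝ) (x : M) => P.Φ t x ∉ tsupport L.χ) fun x hx => ?_
    have h2 : (tsupport L.χ)ᶜ ∈ 𝓝 (P.Φ 0 x) := by
      rw [P.zero]
      exact (isClosed_tsupport _).isOpen_compl.mem_nhds fun h => hx (L.supp h)
    exact (push_cont P x).eventually h2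
  have hc : ∀ j, ∀ᶠ t in 𝓝 (0 : ℝ), ∀ z ∈ closedBall (0 : ℂ) (3 / 4 * B.r0) \ ball 0 (L.ρ / 2),
      P.Φ t ((c.L p).u j z) ∈ B.U \ B.E := by
    intro j
    refine ((isCompact_closedBall (0 : ℂ) _).diff isOpen_ball).eventually_forall_of_forall_eventually
      (P := fun (t : ℝ) (z : ℂ) => P.Φ t ((c.L p).u j z) ∈ B.U \ B.E) fun z hz => ?_
    have hz2 : z ∈ ball (0 : ℂ) B.r0 := closedBall_subset_ball (by linarith) hz.1
    have hz1 : z ∈ ball (0 : ℂ) 1 := ball_subset_ball B.r0_le hz2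
    have hz0 : z ≠ 0 := fun h => hz.2 (by rw [h]; exact mem_ball_self (half_pos hρ0))
    have h1 := cont_joint P (u_smooth c p j hz1).continuousAt
    refine h1.eventually (B.closedE.mem_nhds ?_)
    simp only [P.zero]
    refine ⟨B.inU j z hz2, fun hE => hz0 (u_inj0 c hz1 (B.E_sub _ (B.inU j z hz2) hE
      (u_mem c p j hz1)))⟩
  have hd : ∀ j, ∀ᶠ t in 𝓝[>] (0 : ℝ),
      IsW (fun z => B.F (P.Φ t ((c.L p).u j z))) 0 L.ρ (B.m j + ordφ k p j) := by
    intro j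
    have hs : ∀ z ∈ sphere (0 : ℂ) L.ρ, ‖z‖ = L.ρ := fun z hz => by simpa using hz
    have hs1 : ∀ z ∈ sphere (0 : ℂ) L.ρ, z ∈ ball (0 : ℂ) B.r0 := fun z hz => by
      rw [mem_ball_zero_iff, hs z hz]; exact hρ1
    have hs2 : ∀ z ∈ sphere (0 : ℂ) L.ρ, z ≠ 0 := fun z hz h => by
      have := hs z hz
      rw [h, norm_zero] at this
      linarith
    have hs3 : ∀ z ∈ sphere (0 : ℂ) L.ρ, z ∈ ball (0 : ℂ) 1 := fun z hz =>
      ball_subset_ball B.r0_le (hs1 z hz)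
    refine loc_wind P hρ0 (fun z hz => u_smooth c p j (hs3 z hz)) (fun z hz => ?_) (fun z hz => ?_)
      ((B.wind j L.ρ hρ0 hρ1).mul (L.wind j)) fun z hz => ?_
    · refine B.smooth _ (B.inU j z (hs1 z hz)) fun hE => hs2 z hz ?_
      exact u_inj0 c (hs3 z hz) (B.E_sub _ (B.inU j z (hs1 z hz)) hE (u_mem c p j (hs3 z hz)))
    · exact (B.zero _ (B.inU j z (hs1 z hz))).2 (u_mem c p j (hs3 z hz))
    · have hsrc := L.src j z (sphere_subset_closedBall hz)
      have hnV : c.f (c.φ p j z) ∉ V' := by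
        rw [c.φ_f p j z (hs3 z hz)]
        refine hV j z ?_ ?_
        · rw [hs z hz]; linarith
        · rw [hs z hz]; exact hρ1
      have h1 := hX.at hsrc hnV
      rw [c.φ_f p j z (hs3 z hz)] at h1
      rw [B.κ_eq j z (hs1 z hz) (hs2 z hz), hbch M w J hJ c p j (L.i j) z (hs3 z hz) hsrc, h1]
      rfl
  have ha' := eventually_all.2 ha
  have hc' := eventually_all.2 hc
  have hd' := eventually_all.2 hd
  filter_upwards [nhdsWithin_le_nhds ha', nhdsWithin_le_nhds hb, nhdsWithin_le_nhds hc', hd']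
    with t h1 h2 h3 h4
  refine ⟨h1, fun x hx => ?_, fun j z hz1 hz2 => ?_, h4⟩
  · by_contra hxK
    exact h2 x (fun h => hxK (interior_subset h)) hx
  · exact h3 j z ⟨by simpa using hz2, by simpa using hz1⟩

end

end Crest.Agent.R235.AdjSmall_43
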