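import Crest.Agent.R235.AdjNodes_43
import Crest.Agent.R235.Glob2_370

/-!
Row 235 (S0364), PACKAGE ADJ, helper370: node `BCH` (chain rule for `σ(v, ∂u)`).
-/

set_option autoImplicit false
set_option maxSynthPendingDepth 3

open Set Function Filter MeasureTheory Metric
open scoped Manifold ContDiff Topology

universe u

namespace Crest.Agent.R235.Bch_370

open Crest.Agent.R240 Crest.Agent.R240.Ch Crest.Agent.R240.Int
open Crest.Agent.R235 Crest.Agent.R235.Glob_370 Crest.Agent.R235.Adj

noncomputable section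

section

variable {M : Type u} [TopologicalSpace M] [ChartedSpace E4 M] [IsManifold 𝓘(ℝ, E4) ∞ M]

theorem sg_add (w : Trip M) (J : EndF E4 M) (x : M) (v a b : E4) :
    sg w J x v (a + b) = sg w J x v a + sg w J x v b := by
  unfold Adj.sg
  simp only [map_add]
  push_cast
  ring

theorem sg_smul (w : Trip M) (J : EndF E4 M) (x : M) (v a : E4) (r : ℝ) :
    sg w J x v (r • a) = r * sg w J x v a := by
  unfold Adj.sg
  simp only [map_smul, smul_eq_mul]
  push_cast
  ring

/-- `σ(v, J a) = i σ(v, a)`. -/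
theorem sg_J {w : Trip M} {J : EndF E4 M} (h : IsJ w J) (x : M) (v a : E4) :
    sg w J x v (atJ J x a) = Complex.I * sg w J x v a := by
  unfold Adj.sg
  have h1 : val (w 1) x (atJ J x v) (atJ J x a) = - val (w 1) x v a := h.anti1 x v a
  have h2 : val (w 1) x v (atJ J x a) = val (w 1) x (atJ J x v) a := by
    have h3 := h.anti1 x v (atJ J x a)
    rw [h.sq, map_neg] at h3
    linarith
  rw [h1, h2]
  have e : Complex.I * Complex.I = -1 := Complex.I_mul_I
  push_cast
  linear_combination (val (w 1) x (atJ J x v) a : ℂ) * e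

/-- the chain rule at one point. -/
theorem sg_comp {w : Trip M} {J : EndF E4 M} (hJ : IsJ w J) {F : ℂ → M} {O : Set ℂ}
    (hO : IsOpen O) (hF : IsJHol J F O) {h : ℂ → ℂ} {z : ℂ} (hz : h z ∈ O)
    (hh : DifferentiableAt ℂ h z) (v : E4) :
    sg w J (F (h z)) v (dmap (fun z => F (h z)) z 1) =
      sg w J (F (h z)) v (dmap F (h z) 1) * deriv h z := by
  rw [dmap_comp_hol (hF.at hO hz) hh]
  set c := deriv h z with hc
  have e1 : c * 1 = c.re • (1 : ℂ) + c.im • Complex.I := by
    apply Complex.ext <;> simp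
  have e2 : dmap F (h z) Complex.I = atJ J (F (h z)) (dmap F (h z) 1) := by
    have := hF.jhol (h z) hz 1
    rwa [mul_one] at this
  rw [e1, dmap_add, dmap_smul, dmap_smul, e2, sg_add, sg_smul, sg_smul, sg_J hJ]
  have e3 : c = (c.re : ℂ) + (c.im : ℂ) * Complex.I := (Complex.re_add_im c).symm
  conv_rhs => rw [e3]
  ring

end

/-- **BCH**. -/
theorem bch : BCH.{u} := by
  intro M _ _ _ _ _ _ w J hJ c p j i z hz hi v
  have hop : IsOpen {z | z ∈ ball (0 : ℂ) 1 ∧ c.φ p j z ∈ (c.A.c i).source} :=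
    (c.φ_cont p j).isOpen_inter_preimage isOpen_ball (c.A.c i).open_source
  have hh : DifferentiableAt ℂ (fun z => c.A.c i (c.φ p j z)) z :=
    (c.φ_hol p j i).differentiableAt (hop.mem_nhds ⟨hz, hi⟩)
  have ht : c.A.c i (c.φ p j z) ∈ (c.A.c i).target := (c.A.c i).map_source hi
  have hg : (c.L p).u j =ᶠ[𝓝 z] fun z => c.f ((c.A.c i).symm (c.A.c i (c.φ p j z))) := by
    filter_upwards [hop.mem_nhds ⟨hz, hi⟩] with y hy
    rw [(c.A.c i).left_inv hy.2, c.φ_f p j y hy.1]
  have hu : (c.L p).u j z = c.f ((c.A.c i).symm (c.A.c i (c.φ p j z))) := hg.eq_of_nhds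
  rw [dmap_congr hg]
  have h1 := sg_comp hJ (c.A.c i).open_target (c.hol i) (h := fun z => c.A.c i (c.φ p j z)) ht hh v
  rw [hu]
  exact h1

end

end Crest.Agent.R235.Bch_370
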