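import Crest.Agent.R235.NWHol_952

/-!
# Row 235, package NW, leaf H1 (helper952): the Hölder library, part 2 (`C1a a G E`)

* calculus through isometric embeddings with closed range: `hasFDerivAt_of_isometry`,
  `contDiffOn_of_isometry`, `contDiff_of_isometry`, `contDiffAt_of_isometry`;
* `CS a G E` (opaque type) = Banach space of `C¹` maps with `u`, `Du` bounded `a`-Hölder;
  `CS.val`, `CS.der` (CLMs), `w.fn`, `w.hasFDerivAt`, `CS.ext`, `CS.norm_eq`, `CompleteSpace`,
  `CS.mk`, `CS.mkH`, `CS.lift` (CLM into `CS`), `CS.cl`, `CS.bl` (product rule), `CS.pair`,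
  `CS.cst`, `CS.contDiff_iff`, `CS.contDiffAt_iff`, `CS.contDiffOn_iff`, `CS.hasFDerivAt_iff`,
  `CS.exists_hasFDerivAt`.
-/

set_option autoImplicit false
set_option linter.unusedSectionVars false

open Filter Topology Set
open scoped BoundedContinuousFunction ContDiff
open Crest.Agent.R235.NWDefs_334 Crest.Agent.R235.NWHol_952

namespace Crest.Agent.R235.NWC1_952

noncomputable section

universe u v w z

/-! ### calculus through an isometric embedding with closed range -/

section iso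

variable {Z V W : Type*} [NormedAddCommGroup Z] [NormedSpace ℝ Z] [NormedAddCommGroup V]
  [NormedSpace ℝ V] [NormedAddCommGroup W] [NormedSpace ℝ W]

theorem hasFDerivAt_of_isometry' (i : V →ₗᵢ[ℝ] W) {g : Z → V} {z : Z} {T' : Z →L[ℝ] V}
    (h : HasFDerivAt (fun x => i (g x)) (i.toContinuousLinearMap.comp T') z) :
    HasFDerivAt g T' z := by
  rw [hasFDerivAt_iff_isLittleO] at h ⊢
  refine (Asymptotics.isLittleO_norm_left.1 ?_)
  have h2 := Asymptotics.isLittleO_norm_left.2 h
  refine h2.congr_left fun x => ?_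
  show ‖i (g x) - i (g z) - i (T' (x - z))‖ = _
  rw [← map_sub, ← map_sub, i.norm_map]

theorem hasFDerivAt_of_isometry (i : V →ₗᵢ[ℝ] W) (hi : IsClosed (range i)) {g : Z → V} {z : Z}
    {T : Z →L[ℝ] W} (h : HasFDerivAt (fun x => i (g x)) T z) :
    ∃ T' : Z →L[ℝ] V, HasFDerivAt g T' z ∧ i.toContinuousLinearMap.comp T' = T := by
  have hT : ∀ v, T v ∈ LinearMap.range i.toLinearMap := by
    intro v
    have h1 : HasFDerivAt (fun t : ℝ => z + t • v)
        ((ContinuousLinearMap.id ℝ ℝ).smulRight v) 0 := by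
      have := ((hasFDerivAt_id (𝕜 := ℝ) (0 : ℝ)).smul_const v).const_add z
      exact this
    have h2 : HasFDerivAt (fun x => i (g x)) T (z + (0 : ℝ) • v) := by simpa using h
    have h3 : HasDerivAt (fun t : ℝ => i (g (z + t • v))) (T v) 0 := by
      have h4 := (h2.comp (0 : ℝ) h1).hasDerivAt
      simpa [Function.comp_def] using h4
    have h5 := h3.tendsto_slope_zero
    have h6 : ∀ t : ℝ, t⁻¹ • (i (g (z + (0 + t) • v)) - i (g (z + (0 : ℝ) • v))) ∈ range i := by
      intro t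
      exact ⟨t⁻¹ • (g (z + (0 + t) • v) - g (z + (0 : ℝ) • v)), by
        rw [map_smul, map_sub]⟩
    have h7 : T v ∈ range i := hi.mem_of_tendsto h5 (Eventually.of_forall h6)
    exact h7
  let e := i.equivRange
  let T0 : Z →L[ℝ] LinearMap.range i.toLinearMap := T.codRestrict _ hT
  let T' : Z →L[ℝ] V := (e.symm : _ →L[ℝ] V).comp T0
  have hT' : i.toContinuousLinearMap.comp T' = T := by
    ext v
    have h8 : e (T' v) = T0 v := e.apply_symm_apply _
    have h9 : ((e (T' v) : _) : W) = T v := by rw [h8]; rfl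
    exact h9
  refine ⟨T', hasFDerivAt_of_isometry' i ?_, hT'⟩
  rw [hT']; exact h

/-- post-composition of multilinear maps with a linear isometry -/
def mulIso (Z : Type*) [NormedAddCommGroup Z] [NormedSpace ℝ Z] (i : V →ₗᵢ[ℝ] W) (m : ℕ) :
    (Z [×m]→L[ℝ] V) →ₗᵢ[ℝ] (Z [×m]→L[ℝ] W) where
  toFun := fun A => i.toContinuousLinearMap.compContinuousMultilinearMap A
  map_add' := fun A B => by ext; simp
  map_smul' := fun c A => by ext; simp
  norm_map' := fun A => by
    apply le_antisymm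
    · refine ContinuousMultilinearMap.opNorm_le_bound (norm_nonneg _) fun x => ?_
      show ‖i (A x)‖ ≤ _
      rw [i.norm_map]
      exact A.le_opNorm x
    · refine ContinuousMultilinearMap.opNorm_le_bound (norm_nonneg _) fun x => ?_
      rw [← i.norm_map]
      exact (i.toContinuousLinearMap.compContinuousMultilinearMap A).le_opNorm x

theorem mulIso_closed (i : V →ₗᵢ[ℝ] W) (hi : IsClosed (range i)) (m : ℕ) :
    IsClosed (range (mulIso Z i m)) := by
  have h : range (mulIso Z i m) =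
      ⋂ x : Fin m → Z, {B : Z [×m]→L[ℝ] W | B x ∈ range i} := by
    ext B
    simp only [mem_iInter, mem_ofPred_eq]
    constructor
    · rintro ⟨A, rfl⟩ x
      exact ⟨A x, rfl⟩
    · intro hB
      let e := i.equivRange
      have hB' : ∀ x, B x ∈ LinearMap.range i.toLinearMap := hB
      let A : Z [×m]→L[ℝ] V :=
        (e.symm : _ →L[ℝ] V).compContinuousMultilinearMap (B.codRestrict _ hB')
      refine ⟨A, ?_⟩
      ext x
      have h8 : e (A x) = (B.codRestrict _ hB') x := e.apply_symm_apply _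
      have h9 : ((e (A x) : _) : W) = B x := by rw [h8]; rfl
      exact h9
  rw [h]
  refine isClosed_iInter fun x => ?_
  exact hi.preimage (ContinuousMultilinearMap.apply ℝ (fun _ : Fin m => Z) W x).continuous

theorem iteratedFDeriv_of_isometry (i : V →ₗᵢ[ℝ] W) (hi : IsClosed (range i)) {g : Z → V}
    {s : Set Z} (hs : IsOpen s) (n : ℕ) (h : ContDiffOn ℝ n (fun x => i (g x)) s) :
    ContDiffOn ℝ n g s ∧ ∀ x ∈ s, iteratedFDeriv ℝ n (fun x => i (g x)) x =
      mulIso Z i n (iteratedFDeriv ℝ n g x) := by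
  induction n with
  | zero =>
    refine ⟨?_, ?_⟩
    · simp only [Nat.cast_zero, contDiffOn_zero] at h ⊢
      exact i.isometry.isEmbedding.continuousOn_iff.2 h
    · intro x _
      ext y
      rfl
  | succ n ih =>
    obtain ⟨ih1, ih2⟩ := ih (h.of_le (by exact_mod_cast Nat.le_succ n))
    have hd : ∀ x ∈ s, DifferentiableAt ℝ (iteratedFDeriv ℝ n fun x => i (g x)) x := by
      intro x hx
      have h1 : ContDiffAt ℝ (n + 1 : ℕ) (fun x => i (g x)) x :=
        h.contDiffAt (hs.mem_nhds hx)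
      exact h1.differentiableAt_iteratedFDeriv (by exact_mod_cast Nat.lt_succ_self n)
    have hd2 : ∀ x ∈ s, DifferentiableAt ℝ (iteratedFDeriv ℝ n g) x ∧
        (mulIso Z i n).toContinuousLinearMap.comp (fderiv ℝ (iteratedFDeriv ℝ n g) x) =
          fderiv ℝ (iteratedFDeriv ℝ n fun x => i (g x)) x := by
      intro x hx
      have h1 := (hd x hx).hasFDerivAt
      have h2 : HasFDerivAt (fun y => mulIso Z i n (iteratedFDeriv ℝ n g y))
          (fderiv ℝ (iteratedFDeriv ℝ n fun x => i (g x)) x) x := by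
        refine h1.congr_of_eventuallyEq ?_
        filter_upwards [hs.mem_nhds hx] with y hy
        exact (ih2 y hy).symm
      obtain ⟨T', h3, h4⟩ := hasFDerivAt_of_isometry (mulIso Z i n) (mulIso_closed i hi n) h2
      exact ⟨h3.differentiableAt, by rw [h3.fderiv, h4]⟩
    have hkey : ∀ x ∈ s, iteratedFDeriv ℝ (n + 1) (fun x => i (g x)) x =
      mulIso Z i (n + 1) (iteratedFDeriv ℝ (n + 1) g x) := by
      intro x hx
      ext m
      rw [iteratedFDeriv_succ_apply_left, ← (hd2 x hx).2]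
      show i _ = i (iteratedFDeriv ℝ (n + 1) g x m)
      rw [iteratedFDeriv_succ_apply_left]
      rfl
    refine ⟨?_, hkey⟩
    have hu : UniqueDiffOn ℝ s := hs.uniqueDiffOn
    have h' := (contDiffOn_iff_continuousOn_differentiableOn hu).1 h
    have g' := (contDiffOn_iff_continuousOn_differentiableOn hu).1 ih1
    refine (contDiffOn_iff_continuousOn_differentiableOn hu).2 ⟨fun m hm => ?_, fun m hm => ?_⟩
    · rcases Nat.lt_or_ge m (n + 1) with hm1 | hm1
      · exact g'.1 m (by exact_mod_cast Nat.lt_succ_iff.1 hm1)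
      · have hm2 : m = n + 1 := le_antisymm (by exact_mod_cast hm) hm1
        subst hm2
        have h5 := h'.1 (n + 1) le_rfl
        rw [(mulIso Z i (n + 1)).isometry.isEmbedding.continuousOn_iff]
        refine h5.congr fun x hx => ?_
        show mulIso Z i (n + 1) (iteratedFDerivWithin ℝ (n + 1) g s x) =
          iteratedFDerivWithin ℝ (n + 1) (fun x => i (g x)) s x
        rw [iteratedFDerivWithin_of_isOpen (n + 1) hs hx,
          iteratedFDerivWithin_of_isOpen (n + 1) hs hx]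
        exact (hkey x hx).symm
    · rcases Nat.lt_or_ge m n with hm1 | hm1
      · exact g'.2 m (by exact_mod_cast hm1)
      · have hm2 : m = n := le_antisymm (by
          have : m < n + 1 := by exact_mod_cast hm
          omega) hm1
        subst hm2
        intro x hx
        have h5 := (hd2 x hx).1.differentiableWithinAt (s := s)
        refine h5.congr (fun y hy => ?_) ?_
        · exact iteratedFDerivWithin_of_isOpen m hs hy
        · exact iteratedFDerivWithin_of_isOpen m hs hx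

theorem contDiffOn_of_isometry (i : V →ₗᵢ[ℝ] W) (hi : IsClosed (range i)) {g : Z → V}
    {s : Set Z} (hs : IsOpen s) {n : ℕ∞} (h : ContDiffOn ℝ n (fun x => i (g x)) s) :
    ContDiffOn ℝ n g s := by
  rw [contDiffOn_iff_forall_nat_le]
  intro m hm
  exact (iteratedFDeriv_of_isometry i hi hs m (h.of_le (by exact_mod_cast hm))).1

theorem contDiff_of_isometry (i : V →ₗᵢ[ℝ] W) (hi : IsClosed (range i)) {g : Z → V}
    {n : ℕ∞} (h : ContDiff ℝ n (fun x => i (g x))) : ContDiff ℝ n g := by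
  rw [← contDiffOn_univ] at h ⊢
  exact contDiffOn_of_isometry i hi isOpen_univ h

theorem contDiffAt_of_isometry (i : V →ₗᵢ[ℝ] W) (hi : IsClosed (range i)) {g : Z → V}
    {n : ℕ∞} {x : Z} (h : ContDiffAt ℝ n (fun x => i (g x)) x) : ContDiffAt ℝ n g x := by
  rw [← contDiffWithinAt_univ, contDiffWithinAt_iff_forall_nat_le] at h ⊢
  intro m hm
  obtain ⟨t, hto, hxt, h1⟩ := (h m hm).contDiffOn' le_rfl (by simp)
  simp only [insert_eq_of_mem (mem_univ x), univ_inter] at h1
  exact ((contDiffOn_of_isometry (n := m) i hi hto h1).contDiffAt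
    (hto.mem_nhds hxt)).contDiffWithinAt

end iso

/-! ### the space `CS a G E` -/

variable {a : ℝ} {G : Type u} [NormedAddCommGroup G] [NormedSpace ℝ G] {E : Type v}
  [NormedAddCommGroup E] [NormedSpace ℝ E] {F : Type w} [NormedAddCommGroup F] [NormedSpace ℝ F]
  {H : Type z} [NormedAddCommGroup H] [NormedSpace ℝ H]

/-- the pairs `(u, Du)` -/
def CSub (a : ℝ) (G : Type u) (E : Type v) [NormedAddCommGroup G] [NormedSpace ℝ G]
    [NormedAddCommGroup E] [NormedSpace ℝ E] :
    Submodule ℝ (HS a G E × HS a G (G →L[ℝ] E)) where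
  carrier := {q | ∀ x, HasFDerivAt q.1.fn (q.2.fn x) x}
  add_mem' := by
    rintro p q hp hq x
    exact (hp x).add (hq x)
  zero_mem' := by
    intro x
    exact hasFDerivAt_const (0 : E) x
  smul_mem' := by
    intro c q hq x
    exact (hq x).const_smul c

theorem isClosed_CSub : IsClosed (CSub a G E : Set (HS a G E × HS a G (G →L[ℝ] E))) := by
  refine isSeqClosed_iff_isClosed.1 ?_
  intro q q0 hq hlim
  have l1 : Tendsto (fun n => (q n).1) atTop (𝓝 q0.1) :=
    (continuous_fst.tendsto q0).comp hlim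
  have l2 : Tendsto (fun n => (q n).2) atTop (𝓝 q0.2) :=
    (continuous_snd.tendsto q0).comp hlim
  have k2 : TendstoUniformly (fun n => (q n).2.fn) q0.2.fn atTop := by
    have h1 : Tendsto (fun n => HS.toB (q n).2) atTop (𝓝 (HS.toB q0.2)) :=
      (HS.toB.continuous.tendsto q0.2).comp l2
    exact BoundedContinuousFunction.tendsto_iff_tendstoUniformly.1 h1
  exact hasFDerivAt_of_tendstoUniformly k2 (fun n x => hq n x)
    fun x => ((HS.ev x).continuous.tendsto q0.1).comp l1

/-- THE BANACH SPACE of `C¹` maps with bounded `a`-Hölder `u`, `Du` (opaque type) -/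
def CS (a : ℝ) (G : Type u) (E : Type v) [NormedAddCommGroup G] [NormedSpace ℝ G]
    [NormedAddCommGroup E] [NormedSpace ℝ E] : Type (max u v) := ↥(CSub a G E)

instance CS.instNACG : NormedAddCommGroup (CS a G E) :=
  inferInstanceAs (NormedAddCommGroup ↥(CSub a G E))

instance CS.instNS : NormedSpace ℝ (CS a G E) := inferInstanceAs (NormedSpace ℝ ↥(CSub a G E))

instance CS.instCompleteSpace [CompleteSpace E] : CompleteSpace (CS a G E) :=
  (isClosed_CSub (a := a) (G := G) (E := E)).completeSpace_coe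

namespace CS

/-- the inclusion -/
def incl : CS a G E →ₗᵢ[ℝ] (HS a G E × HS a G (G →L[ℝ] E)) := (CSub a G E).subtypeₗᵢ

/-- the underlying Hölder function -/
def val : CS a G E →L[ℝ] HS a G E :=
  (ContinuousLinearMap.fst ℝ (HS a G E) (HS a G (G →L[ℝ] E))).comp
    (incl (a := a) (G := G) (E := E)).toContinuousLinearMap

/-- the derivative -/
def der : CS a G E →L[ℝ] HS a G (G →L[ℝ] E) :=
  (ContinuousLinearMap.snd ℝ (HS a G E) (HS a G (G →L[ℝ] E))).comp
    (incl (a := a) (G := G) (E := E)).toContinuousLinearMap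

/-- the underlying function -/
def fn (w : CS a G E) : G → E := (val w).fn

@[simp] theorem fn_val (w : CS a G E) : (val w).fn = fn w := rfl

protected theorem hasFDerivAt (w : CS a G E) (x : G) : HasFDerivAt w.fn ((der w).fn x) x := w.2 x

protected theorem fderiv (w : CS a G E) (x : G) : fderiv ℝ w.fn x = (der w).fn x :=
  (w.hasFDerivAt x).fderiv

theorem fn_der (w : CS a G E) : (der w).fn = fderiv ℝ w.fn := funext fun x => (w.fderiv x).symm

protected theorem differentiable (w : CS a G E) : Differentiable ℝ w.fn := fun x =>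
  (w.hasFDerivAt x).differentiableAt

protected theorem continuous (w : CS a G E) : Continuous w.fn := (val w).continuous

protected theorem contDiff (w : CS a G E) : ContDiff ℝ 1 w.fn := by
  rw [contDiff_one_iff_fderiv]
  refine ⟨w.differentiable, ?_⟩
  rw [← fn_der]
  exact (der w).continuous

@[simp] theorem fn_add (u v : CS a G E) (x : G) : (u + v).fn x = u.fn x + v.fn x := rfl
@[simp] theorem fn_sub (u v : CS a G E) (x : G) : (u - v).fn x = u.fn x - v.fn x := rfl
@[simp] theorem fn_neg (u : CS a G E) (x : G) : (-u).fn x = -u.fn x := rfl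
@[simp] theorem fn_zero (x : G) : (0 : CS a G E).fn x = 0 := rfl
@[simp] theorem fn_smul (c : ℝ) (u : CS a G E) (x : G) : (c • u).fn x = c • u.fn x := rfl

theorem ext' {u v : CS a G E} (h1 : val u = val v) (h2 : der u = der v) : u = v :=
  Subtype.ext (Prod.ext h1 h2)

protected theorem ext {u v : CS a G E} (h : ∀ x, u.fn x = v.fn x) : u = v := by
  have h0 : u.fn = v.fn := funext h
  refine ext' (HS.ext h) (HS.ext fun x => ?_)
  rw [← CS.fderiv, ← CS.fderiv, h0]

theorem norm_eq (w : CS a G E) : ‖w‖ = max ‖val w‖ ‖der w‖ := rfl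

theorem norm_val_le (w : CS a G E) : ‖val w‖ ≤ ‖w‖ := le_max_left _ _

theorem norm_der_le (w : CS a G E) : ‖der w‖ ≤ ‖w‖ := le_max_right _ _

theorem norm_fn_le (w : CS a G E) (x : G) : ‖w.fn x‖ ≤ ‖w‖ :=
  (HS.norm_fn_le (val w) x).trans (norm_val_le w)

theorem norm_fderiv_le (w : CS a G E) (x : G) : ‖fderiv ℝ w.fn x‖ ≤ ‖w‖ := by
  rw [CS.fderiv]; exact (HS.norm_fn_le (der w) x).trans (norm_der_le w)

theorem norm_fn_der_le (w : CS a G E) (x : G) : ‖(der w).fn x‖ ≤ ‖w‖ :=
  (HS.norm_fn_le (der w) x).trans (norm_der_le w)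

theorem hb (w : CS a G E) : HB a ‖w‖ w.fn := HB.mono (HS.hb (val w)) (norm_val_le w)

theorem hb_der (w : CS a G E) : HB a ‖w‖ (der w).fn := HB.mono (HS.hb (der w)) (norm_der_le w)

theorem hb_fderiv (w : CS a G E) : HB a ‖w‖ (fderiv ℝ w.fn) := by
  rw [← fn_der]; exact hb_der w

protected theorem norm_le {w : CS a G E} {M : ℝ} (hM : 0 ≤ M) (h1 : HB a M w.fn)
    (h2 : HB a M (der w).fn) : ‖w‖ ≤ M :=
  max_le (HS.norm_le hM h1) (HS.norm_le hM h2)

/-- constructor from two elements of `HS` -/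
def mkH (u : HS a G E) (u' : HS a G (G →L[ℝ] E))
    (h : ∀ x, HasFDerivAt u.fn (u'.fn x) x) : CS a G E := ⟨(u, u'), h⟩

@[simp] theorem val_mkH (u : HS a G E) (u' : HS a G (G →L[ℝ] E))
    (h : ∀ x, HasFDerivAt u.fn (u'.fn x) x) : val (mkH u u' h) = u := rfl

@[simp] theorem der_mkH (u : HS a G E) (u' : HS a G (G →L[ℝ] E))
    (h : ∀ x, HasFDerivAt u.fn (u'.fn x) x) : der (mkH u u' h) = u' := rfl

@[simp] theorem fn_mkH (u : HS a G E) (u' : HS a G (G →L[ℝ] E))
    (h : ∀ x, HasFDerivAt u.fn (u'.fn x) x) : (mkH u u' h).fn = u.fn := rfl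

theorem norm_mkH_le {u : HS a G E} {u' : HS a G (G →L[ℝ] E)}
    {h : ∀ x, HasFDerivAt u.fn (u'.fn x) x} {M : ℝ} (h1 : ‖u‖ ≤ M) (h2 : ‖u'‖ ≤ M) :
    ‖mkH u u' h‖ ≤ M := max_le h1 h2

/-- constructor (`0 < a`) -/
def mk (ha : 0 < a) (f : G → E) (f' : G → G →L[ℝ] E) (M : ℝ) (h1 : HB a M f)
    (h2 : HB a M f') (h : ∀ x, HasFDerivAt f (f' x) x) : CS a G E :=
  mkH (HS.mk ha f M h1) (HS.mk ha f' M h2) h

@[simp] theorem fn_mk (ha : 0 < a) (f : G → E) (f' : G → G →L[ℝ] E) (M : ℝ) (h1 : HB a M f)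
    (h2 : HB a M f') (h : ∀ x, HasFDerivAt f (f' x) x) : (mk ha f f' M h1 h2 h).fn = f := rfl

@[simp] theorem fn_der_mk (ha : 0 < a) (f : G → E) (f' : G → G →L[ℝ] E) (M : ℝ)
    (h1 : HB a M f) (h2 : HB a M f') (h : ∀ x, HasFDerivAt f (f' x) x) :
    (der (mk ha f f' M h1 h2 h)).fn = f' := rfl

theorem norm_mk_le (ha : 0 < a) {f : G → E} {f' : G → G →L[ℝ] E} {M : ℝ} (h1 : HB a M f)
    (h2 : HB a M f') (h : ∀ x, HasFDerivAt f (f' x) x) (hM : 0 ≤ M) :
    ‖mk ha f f' M h1 h2 h‖ ≤ M := CS.norm_le hM h1 h2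

/-- a continuous linear map into `CS` -/
def lift {Z : Type*} [NormedAddCommGroup Z] [NormedSpace ℝ Z] (T : Z →L[ℝ] HS a G E)
    (T' : Z →L[ℝ] HS a G (G →L[ℝ] E))
    (h : ∀ z x, HasFDerivAt (T z).fn ((T' z).fn x) x) : Z →L[ℝ] CS a G E :=
  (T.prod T').codRestrict (CSub a G E) h

@[simp] theorem val_lift {Z : Type*} [NormedAddCommGroup Z] [NormedSpace ℝ Z]
    (T : Z →L[ℝ] HS a G E) (T' : Z →L[ℝ] HS a G (G →L[ℝ] E))
    (h : ∀ z x, HasFDerivAt (T z).fn ((T' z).fn x) x) (z : Z) :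
    val (lift T T' h z) = T z := rfl

@[simp] theorem der_lift {Z : Type*} [NormedAddCommGroup Z] [NormedSpace ℝ Z]
    (T : Z →L[ℝ] HS a G E) (T' : Z →L[ℝ] HS a G (G →L[ℝ] E))
    (h : ∀ z x, HasFDerivAt (T z).fn ((T' z).fn x) x) (z : Z) :
    der (lift T T' h z) = T' z := rfl

@[simp] theorem fn_lift {Z : Type*} [NormedAddCommGroup Z] [NormedSpace ℝ Z]
    (T : Z →L[ℝ] HS a G E) (T' : Z →L[ℝ] HS a G (G →L[ℝ] E))
    (h : ∀ z x, HasFDerivAt (T z).fn ((T' z).fn x) x) (z : Z) :
    (lift T T' h z).fn = (T z).fn := rfl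

/-- post-composition with a continuous linear map -/
def cl (T : E →L[ℝ] F) : CS a G E →L[ℝ] CS a G F :=
  lift ((HS.cl T).comp val) ((HS.cl (ContinuousLinearMap.compL ℝ G E F T)).comp der)
    fun w x => T.hasFDerivAt.comp x (w.hasFDerivAt x)

@[simp] theorem fn_cl (T : E →L[ℝ] F) (w : CS a G E) (x : G) : (cl T w).fn x = T (w.fn x) := rfl

@[simp] theorem val_cl (T : E →L[ℝ] F) (w : CS a G E) : val (cl T w) = HS.cl T (val w) := rfl

@[simp] theorem fn_der_cl (T : E →L[ℝ] F) (w : CS a G E) (x : G) :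
    (der (cl T w)).fn x = T.comp ((der w).fn x) := rfl

theorem norm_cl_apply_le (T : E →L[ℝ] F) (w : CS a G E) : ‖cl T w‖ ≤ ‖T‖ * ‖w‖ := by
  refine CS.norm_le (by positivity) ?_ ?_
  · exact HB.mono (HB.clm T (HS.hb (val w)))
      (mul_le_mul_of_nonneg_left (norm_val_le w) (norm_nonneg _))
  · have h := HS.hb (der w)
    constructor
    · intro x
      rw [fn_der_cl]
      exact (ContinuousLinearMap.opNorm_comp_le T _).trans (mul_le_mul_of_nonneg_left
        ((h.bdd x).trans (norm_der_le w)) (norm_nonneg _))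
    · intro x y
      rw [fn_der_cl, fn_der_cl, ← ContinuousLinearMap.comp_sub, mul_assoc]
      refine (ContinuousLinearMap.opNorm_comp_le T _).trans (mul_le_mul_of_nonneg_left
        ((h.hol x y).trans ?_) (norm_nonneg _))
      exact mul_le_mul_of_nonneg_right (norm_der_le w) (rpow_dist_nonneg x y)

theorem norm_cl_le (T : E →L[ℝ] F) : ‖(cl T : CS a G E →L[ℝ] CS a G F)‖ ≤ ‖T‖ :=
  ContinuousLinearMap.opNorm_le_bound _ (norm_nonneg _) (norm_cl_apply_le T)

/-- product, as an element -/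
def blE (B : E →L[ℝ] F →L[ℝ] H) (u : CS a G E) (v : CS a G F) : CS a G H :=
  mkH (HS.bl B (val u) (val v))
    (HS.bl (B.precompR G) (val u) (der v) + HS.bl (B.precompL G) (der u) (val v))
    fun x => B.hasFDerivAt_of_bilinear (u.hasFDerivAt x) (v.hasFDerivAt x)

theorem norm_blE_le (B : E →L[ℝ] F →L[ℝ] H) (u : CS a G E) (v : CS a G F) :
    ‖blE B u v‖ ≤ 4 * ‖B‖ * ‖u‖ * ‖v‖ := by
  have n1 := norm_val_le u
  have n2 := norm_val_le v
  have n3 := norm_der_le u
  have n4 := norm_der_le v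
  have b1 := B.norm_precompR_le G
  have b2 := B.norm_precompL_le G
  refine norm_mkH_le ?_ ?_
  · calc ‖HS.bl B (val u) (val v)‖ ≤ 2 * ‖B‖ * ‖val u‖ * ‖val v‖ := HS.norm_bl_le _ _ _
      _ ≤ 2 * ‖B‖ * ‖u‖ * ‖v‖ := by gcongr
      _ ≤ 4 * ‖B‖ * ‖u‖ * ‖v‖ := by gcongr; norm_num
  · have e1 : ‖HS.bl (B.precompR G) (val u) (der v)‖ ≤ 2 * ‖B‖ * ‖u‖ * ‖v‖ :=
      (HS.norm_bl_le _ _ _).trans (by gcongr)
    have e2 : ‖HS.bl (B.precompL G) (der u) (val v)‖ ≤ 2 * ‖B‖ * ‖u‖ * ‖v‖ :=
      (HS.norm_bl_le _ _ _).trans (by gcongr)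
    calc _ ≤ 2 * ‖B‖ * ‖u‖ * ‖v‖ + 2 * ‖B‖ * ‖u‖ * ‖v‖ :=
          (norm_add_le _ _).trans (add_le_add e1 e2)
      _ = 4 * ‖B‖ * ‖u‖ * ‖v‖ := by ring

theorem fn_blE (B : E →L[ℝ] F →L[ℝ] H) (u : CS a G E) (v : CS a G F) (x : G) :
    (blE B u v).fn x = B (u.fn x) (v.fn x) := rfl

/-- bilinear products (product rule) -/
def bl (B : E →L[ℝ] F →L[ℝ] H) : CS a G E →L[ℝ] CS a G F →L[ℝ] CS a G H :=
  LinearMap.mkContinuous₂
    (LinearMap.mk₂ ℝ (fun (u : CS a G E) (v : CS a G F) => blE B u v)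
      (fun u u' v => by
        refine CS.ext fun x => ?_
        simp only [fn_blE, fn_add, map_add, _root_.add_apply])
      (fun c u v => by
        refine CS.ext fun x => ?_
        simp only [fn_blE, fn_smul, map_smul, _root_.smul_apply])
      (fun u v v' => by
        refine CS.ext fun x => ?_
        simp only [fn_blE, fn_add, map_add])
      (fun c u v => by
        refine CS.ext fun x => ?_
        simp only [fn_blE, fn_smul, map_smul]))
    (4 * ‖B‖) (fun u v => norm_blE_le B u v)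

@[simp] theorem fn_bl (B : E →L[ℝ] F →L[ℝ] H) (u : CS a G E) (v : CS a G F) (x : G) :
    (bl B u v).fn x = B (u.fn x) (v.fn x) := rfl

@[simp] theorem val_bl (B : E →L[ℝ] F →L[ℝ] H) (u : CS a G E) (v : CS a G F) :
    val (bl B u v) = HS.bl B (val u) (val v) := rfl

theorem der_bl (B : E →L[ℝ] F →L[ℝ] H) (u : CS a G E) (v : CS a G F) :
    der (bl B u v) = HS.bl (B.precompR G) (val u) (der v) +
      HS.bl (B.precompL G) (der u) (val v) := rfl

theorem norm_bl_le (B : E →L[ℝ] F →L[ℝ] H) (u : CS a G E) (v : CS a G F) :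
    ‖bl B u v‖ ≤ 4 * ‖B‖ * ‖u‖ * ‖v‖ := norm_blE_le B u v

/-- the continuous linear map `(S, T) ↦ (v ↦ (S v, T v))` -/
def prodL (G : Type u) (E : Type v) (F : Type w) [NormedAddCommGroup G] [NormedSpace ℝ G]
    [NormedAddCommGroup E] [NormedSpace ℝ E] [NormedAddCommGroup F] [NormedSpace ℝ F] :
    ((G →L[ℝ] E) × (G →L[ℝ] F)) →L[ℝ] (G →L[ℝ] E × F) :=
  LinearMap.mkContinuous
    { toFun := fun p => p.1.prod p.2
      map_add' := fun _ _ => rfl
      map_smul' := fun _ _ => rfl }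
    1 (fun p => by rw [one_mul]; exact (ContinuousLinearMap.opNorm_prod p.1 p.2).le)

/-- pairs -/
def pair : (CS a G E × CS a G F) →L[ℝ] CS a G (E × F) :=
  lift ((HS.pair (a := a) (X := G)).comp ((val (a := a) (G := G) (E := E)).prodMap
      (val (a := a) (G := G) (E := F))))
    ((HS.cl (a := a) (X := G) (prodL G E F)).comp ((HS.pair (a := a) (X := G)).comp
      ((der (a := a) (G := G) (E := E)).prodMap (der (a := a) (G := G) (E := F)))))
    fun p x => (p.1.hasFDerivAt x).prodMk (p.2.hasFDerivAt x)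

@[simp] theorem fn_pair (p : CS a G E × CS a G F) (x : G) :
    (pair p).fn x = (p.1.fn x, p.2.fn x) := rfl

@[simp] theorem val_pair (p : CS a G E × CS a G F) :
    val (pair p) = HS.pair (val p.1, val p.2) := rfl

/-- constants -/
def cst (G : Type u) [NormedAddCommGroup G] [NormedSpace ℝ G] : E →L[ℝ] CS a G E :=
  lift (HS.cst G) 0 fun e x => hasFDerivAt_const e x

@[simp] theorem fn_cst (e : E) (x : G) : (cst G e : CS a G E).fn x = e := rfl

/-! ### differentiability of maps into `CS` -/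

variable {Z : Type*} [NormedAddCommGroup Z] [NormedSpace ℝ Z]

theorem closed_incl : IsClosed (range (incl (a := a) (G := G) (E := E))) := by
  have : range (incl (a := a) (G := G) (E := E)) =
      (CSub a G E : Set (HS a G E × HS a G (G →L[ℝ] E))) := Subtype.range_coe
  rw [this]
  exact isClosed_CSub

theorem contDiff_iff {n : ℕ∞} {f : Z → CS a G E} :
    ContDiff ℝ n f ↔ ContDiff ℝ n (fun z => val (f z)) ∧ ContDiff ℝ n (fun z => der (f z)) :=
  ⟨fun h => ⟨val.contDiff.comp h, der.contDiff.comp h⟩, fun h =>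
    contDiff_of_isometry incl closed_incl (h.1.prodMk h.2)⟩

theorem contDiffAt_iff {n : ℕ∞} {f : Z → CS a G E} {z : Z} :
    ContDiffAt ℝ n f z ↔
      ContDiffAt ℝ n (fun z => val (f z)) z ∧ ContDiffAt ℝ n (fun z => der (f z)) z :=
  ⟨fun h => ⟨val.contDiff.contDiffAt.comp z h, der.contDiff.contDiffAt.comp z h⟩, fun h =>
    contDiffAt_of_isometry incl closed_incl (h.1.prodMk h.2)⟩

theorem contDiffOn_iff {n : ℕ∞} {f : Z → CS a G E} {s : Set Z} (hs : IsOpen s) :
    ContDiffOn ℝ n f s ↔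
      ContDiffOn ℝ n (fun z => val (f z)) s ∧ ContDiffOn ℝ n (fun z => der (f z)) s :=
  ⟨fun h => ⟨val.contDiff.comp_contDiffOn h, der.contDiff.comp_contDiffOn h⟩, fun h =>
    contDiffOn_of_isometry incl closed_incl hs (h.1.prodMk h.2)⟩

theorem hasFDerivAt_iff {f : Z → CS a G E} {T : Z →L[ℝ] CS a G E} {z : Z} :
    HasFDerivAt f T z ↔ HasFDerivAt (fun z => val (f z)) (val.comp T) z ∧
      HasFDerivAt (fun z => der (f z)) (der.comp T) z :=
  ⟨fun h => ⟨val.hasFDerivAt.comp z h, der.hasFDerivAt.comp z h⟩, fun h =>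
    hasFDerivAt_of_isometry' incl (h.1.prodMk h.2)⟩

/-- if `val ∘ f`, `der ∘ f` are differentiable, so is `f` -/
theorem exists_hasFDerivAt {f : Z → CS a G E} {T : Z →L[ℝ] HS a G E}
    {T' : Z →L[ℝ] HS a G (G →L[ℝ] E)} {z : Z} (h : HasFDerivAt (fun z => val (f z)) T z)
    (h' : HasFDerivAt (fun z => der (f z)) T' z) :
    ∃ S : Z →L[ℝ] CS a G E, HasFDerivAt f S z ∧ val.comp S = T ∧ der.comp S = T' := by
  obtain ⟨S, h1, h2⟩ := hasFDerivAt_of_isometry incl closed_incl (h.prodMk h')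
  refine ⟨S, h1, ?_, ?_⟩
  · ext1 v
    exact congrArg Prod.fst (DFunLike.congr_fun h2 v)
  · ext1 v
    exact congrArg Prod.snd (DFunLike.congr_fun h2 v)

end CS

end

end Crest.Agent.R235.NWC1_952
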