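import Crest.Agent.R235.NWKP_133
import Crest.Agent.R235.NWC1_952

/-!
Row 235, package NW, leaf K, part 3 (helper133): the Cauchy operator `g ↦ P (χ g)` as continuous
linear map `HS a ℂ E → CS a ℂ E` (`TS`), and `cauchy_stmt : CauchyStmt` (submodule version).
-/

set_option autoImplicit false
set_option linter.unusedSectionVars false

open MeasureTheory Set Metric Topology
open Filter hiding ker
open scoped ContDiff Real

namespace Crest.Agent.R235.NWKPT_133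

open Crest.Agent.R235.KP_133 Crest.Agent.R235.NWKP_133 Crest.Agent.R235.NWDefs_334
open Crest.Agent.R235.NWIface_334 Crest.Agent.R235.NWHol_952 Crest.Agent.R235.NWC1_952

noncomputable section

section Op

variable {E : Type*} [NormedAddCommGroup E] [NormedSpace ℂ E] [CompleteSpace E]

variable {a : ℝ} (ha : 0 < a) (ha1 : a < 1) {R : ℝ} (hR : 0 ≤ R) {χ : ℂ → ℝ} {X : ℝ}
  (hX : HB a X χ) (hs : ∀ z, R < ‖z‖ → χ z = 0)

/-- the element `P (χ g)` of `CS` -/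
def Te (g : HS a ℂ E) : CS a ℂ E :=
  CS.mk ha (Pc fun z => χ z • g.fn z) (DP fun z => χ z • g.fn z) (KK a R * (2 * X * ‖g‖))
    (pc_hb (hc_mul hX hs (HS.hb g)) ha ha1 hR) (dp_hb (hc_mul hX hs (HS.hb g)) ha ha1 hR)
    (fun x => pc_hasFDerivAt (hc_mul hX hs (HS.hb g)) ha ha1 hR x)

theorem Te_fn (g : HS a ℂ E) : (Te ha ha1 hR hX hs g).fn = Pc fun z => χ z • g.fn z := rfl

theorem Te_d (g : HS a ℂ E) :
    (CS.der (Te ha ha1 hR hX hs g)).fn = DP fun z => χ z • g.fn z := rfl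

theorem Te_norm (g : HS a ℂ E) : ‖Te ha ha1 hR hX hs g‖ ≤ KK a R * (2 * X) * ‖g‖ := by
  have hX0 : 0 ≤ X := HB.nonneg hX
  have h0 : 0 ≤ KK a R * (2 * X * ‖g‖) := by
    have := KK_nonneg (a := a) hR
    positivity
  refine (CS.norm_mk_le ha _ _ _ h0).trans (le_of_eq ?_)
  ring

theorem Te_add (u v : HS a ℂ E) :
    Te ha ha1 hR hX hs (u + v) = Te ha ha1 hR hX hs u + Te ha ha1 hR hX hs v := by
  apply CS.ext
  intro z
  have hu := hc_mul hX hs (HS.hb u)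
  have hv := hc_mul hX hs (HS.hb v)
  rw [CS.fn_add, Te_fn, Te_fn, Te_fn,
    ← pc_add (hu.cont ha) (hv.cont ha) (compact_of hu.supp) (compact_of hv.supp) z]
  congr 1; funext z
  rw [HS.fn_add, smul_add]

theorem Te_smul (c : ℝ) (u : HS a ℂ E) :
    Te ha ha1 hR hX hs (c • u) = c • Te ha ha1 hR hX hs u := by
  apply CS.ext
  intro z
  rw [CS.fn_smul, Te_fn, Te_fn, ← pc_smul]
  congr 1; funext z
  rw [HS.fn_smul, smul_comm]

/-- THE OPERATOR `g ↦ P (χ g)` -/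
def TS : HS a ℂ E →L[ℝ] CS a ℂ E :=
  LinearMap.mkContinuous
    { toFun := fun g => Te ha ha1 hR hX hs g
      map_add' := Te_add ha ha1 hR hX hs
      map_smul' := Te_smul ha ha1 hR hX hs }
    (KK a R * (2 * X)) (Te_norm ha ha1 hR hX hs)

theorem TS_fn (g : HS a ℂ E) : (TS ha ha1 hR hX hs g).fn = Pc fun z => χ z • g.fn z := rfl

theorem TS_d (g : HS a ℂ E) :
    (CS.der (TS ha ha1 hR hX hs g)).fn = DP fun z => χ z • g.fn z := rfl

theorem TS_norm (g : HS a ℂ E) : ‖TS ha ha1 hR hX hs g‖ ≤ KK a R * (2 * X) * ‖g‖ :=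
  Te_norm ha ha1 hR hX hs g

theorem TS_dbar (g : HS a ℂ E) (z : ℂ) :
    dbl ((CS.der (TS ha ha1 hR hX hs g)).fn z) = χ z • g.fn z := by
  rw [TS_d, dbl_dp]

theorem TS_tendsto (g : HS a ℂ E) :
    Tendsto (TS ha ha1 hR hX hs g).fn (cocompact ℂ) (𝓝 0) := by
  rw [TS_fn]
  have h := hc_mul hX hs (HS.hb g)
  exact pc_tendsto (h.cont ha) h.supp

end Op

/-- existence form over `HS`, `CS` -/
theorem cauchyS {E : Type*} [NormedAddCommGroup E] [NormedSpace ℂ E] [CompleteSpace E] {a : ℝ}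
    (ha : 0 < a) (ha1 : a < 1) {χ : ℂ → ℝ} (hχ : ContDiff ℝ 1 χ) (hc : HasCompactSupport χ) :
    ∃ T : HS a ℂ E →L[ℝ] CS a ℂ E, ∀ g : HS a ℂ E,
      (∀ z, dbl ((CS.der (T g)).fn z) = χ z • g.fn z) ∧
      Tendsto (T g).fn (cocompact ℂ) (𝓝 0) := by
  obtain ⟨R, hR, hs⟩ := supp_ball hc
  obtain ⟨X, hX⟩ := hb_of_smooth ha ha1.le hχ hc
  exact ⟨TS ha ha1 hR.le hX hs, fun g => ⟨TS_dbar ha ha1 hR.le hX hs g,
    TS_tendsto ha ha1 hR.le hX hs g⟩⟩

/-- the identity `CS → C1a` -/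
def toC1a {a : ℝ} {G E : Type*} [NormedAddCommGroup G] [NormedSpace ℝ G] [NormedAddCommGroup E]
    [NormedSpace ℝ E] : CS a G E →L[ℝ] C1a a G E :=
  ((((HS.toHol (a := a) (X := G) (E := E)).toContinuousLinearEquiv :
    HS a G E →L[ℝ] Hol a G E).comp CS.val).prod
    (((HS.toHol (a := a) (X := G) (E := G →L[ℝ] E)).toContinuousLinearEquiv :
    HS a G (G →L[ℝ] E) →L[ℝ] Hol a G (G →L[ℝ] E)).comp CS.der)).codRestrict (C1a a G E)
    (fun w => w.2)

theorem cauchy_stmt : CauchyStmt := by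
  intro E _ _ _ a ha ha1 χ hχ hc
  have : CompleteSpace E := FiniteDimensional.complete ℂ E
  obtain ⟨T, hT⟩ := cauchyS (E := E) ha ha1 (hχ.of_le (by simp)) hc
  refine ⟨(toC1a.comp T).comp ((HS.toHol (a := a) (X := ℂ) (E := E)).symm.toContinuousLinearEquiv :
    Hol a ℂ E →L[ℝ] HS a ℂ E), fun g => ?_⟩
  exact hT g

end

end Crest.Agent.R235.NWKPT_133
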