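import Crest.Agent.R235.NWHol_952
import Crest.Agent.R235.NWTool_334
import Crest.Agent.R235.NWKPT_133

/-!
# Row 235, package NW, leaf BEL (helper601): the Beltrami coordinate of a small Hölder coefficient

`bel : BelStmt`: Neumann series in the Banach space `Hol a ℂ ℂ` for
`g = μ (1 + ∂ T g)`, `T g = P (κ g)`; the coordinate is `χ = id + T g`.
-/

set_option autoImplicit false

open Set Filter Metric Topology MeasureTheory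
open scoped ContDiff Real

namespace Crest.Agent.R235.NWBel_601

open Crest.Agent.R235.NWDefs_334 Crest.Agent.R235.NWIface_334 Crest.Agent.R235

noncomputable section

/-- `dl` as a continuous linear map -/
def DL : (ℂ →L[ℝ] ℂ) →L[ℝ] ℂ :=
  (2 : ℂ)⁻¹ • (ContinuousLinearMap.apply ℝ ℂ (1 : ℂ) -
    Complex.I • ContinuousLinearMap.apply ℝ ℂ Complex.I)

theorem DL_apply (L : ℂ →L[ℝ] ℂ) : DL L = dl L := rfl

theorem dl_id : dl (ContinuousLinearMap.id ℝ ℂ) = 1 := by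
  simp only [dl, ContinuousLinearMap.id_apply, smul_eq_mul, Complex.I_mul_I]
  norm_num

theorem dbl_id : dbl (ContinuousLinearMap.id ℝ ℂ) = 0 := by
  simp only [dbl, ContinuousLinearMap.id_apply, smul_eq_mul, Complex.I_mul_I]
  norm_num

/-- the fixed point of `g = m + A g` -/
theorem neumann {V : Type*} [NormedAddCommGroup V] [NormedSpace ℝ V] [CompleteSpace V]
    (A : V →L[ℝ] V) (hA : ‖A‖ ≤ 1 / 2) (m : V) : ∃ g : V, g = m + A g ∧ ‖g‖ ≤ 2 * ‖m‖ := by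
  have hA1 : ‖A‖ < 1 := by linarith
  let u : (V →L[ℝ] V)ˣ := Units.oneSub A hA1
  have hu : (u : V →L[ℝ] V) = 1 - A := rfl
  let g : V := (↑(u⁻¹) : V →L[ℝ] V) m
  have hg : (1 - A) g = m := by
    have h1 : ((u : V →L[ℝ] V) * (↑(u⁻¹) : V →L[ℝ] V)) m = m := by
      rw [Units.mul_inv]; rfl
    rw [hu] at h1
    exact h1
  have hg2 : g = m + A g := by
    have h2 : g - A g = m := hg
    rw [← h2]; abel
  refine ⟨g, hg2, ?_⟩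
  have h3 : ‖g‖ ≤ ‖m‖ + 1 / 2 * ‖g‖ := by
    calc ‖g‖ = ‖m + A g‖ := by rw [← hg2]
      _ ≤ ‖m‖ + ‖A g‖ := norm_add_le _ _
      _ ≤ ‖m‖ + ‖A‖ * ‖g‖ := by gcongr; exact A.le_opNorm g
      _ ≤ ‖m‖ + 1 / 2 * ‖g‖ := by gcongr
  linarith

theorem finish {a r ε : ℝ} (ha : 0 < a) (f : ℂ → ℂ) (f' : ℂ → ℂ →L[ℝ] ℂ)
    (hd : ∀ z, HasFDerivAt f (f' z) z) (h1 : ∀ z, ‖f z‖ ≤ ε) (h2 : HB a ε f') (μ : ℂ → ℂ)
    (h3 : ∀ z ∈ ball (0 : ℂ) r, dbl (f' z) = μ z + μ z * dl (f' z)) :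
    ∃ χ : ℂ → ℂ, ContDiff ℝ 1 χ ∧
    (∀ z ∈ ball (0 : ℂ) r, dzb χ z = μ z * dz χ z) ∧ (∀ z, ‖χ z - z‖ ≤ ε) ∧
    HB a ε (fun z => fderiv ℝ χ z - ContinuousLinearMap.id ℝ ℂ) := by
  have hfd : ∀ z, HasFDerivAt (fun z => z + f z) (ContinuousLinearMap.id ℝ ℂ + f' z) z := fun z =>
    (hasFDerivAt_id z).add (hd z)
  have hfd' : ∀ z, fderiv ℝ (fun z => z + f z) z = ContinuousLinearMap.id ℝ ℂ + f' z :=
    fun z => (hfd z).fderiv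
  refine ⟨fun z => z + f z, ?_, fun z hz => ?_, fun z => ?_, ?_⟩
  · rw [contDiff_one_iff_fderiv]
    refine ⟨fun z => (hfd z).differentiableAt, ?_⟩
    have : fderiv ℝ (fun z => z + f z) =
        fun z => ContinuousLinearMap.id ℝ ℂ + f' z := funext hfd'
    rw [this]
    exact continuous_const.add (NWTool_334.hb_cont ha h2)
  · rw [dzb, dz, hfd' z, NWTool_334.dbl_add, NWTool_334.dl_add, dbl_id, dl_id, zero_add, h3 z hz]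
    ring
  · have h4 : z + f z - z = f z := by ring
    rw [h4]
    exact h1 z
  · have h4 : (fun z => fderiv ℝ (fun z => z + f z) z - ContinuousLinearMap.id ℝ ℂ) = f' := by
      funext z
      rw [hfd' z]; abel
    rw [h4]
    exact h2

/-- the operators `T`, `D T` into Hölder spaces -/
theorem ops (a : ℝ) (ha : 0 < a) (ha1 : a < 1) (κ : ℂ → ℝ) (hκs : ContDiff ℝ ∞ κ)
    (hκc : HasCompactSupport κ) : ∃ (T1 : Hol a ℂ ℂ →L[ℝ] Hol a ℂ ℂ)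
      (T2 : Hol a ℂ ℂ →L[ℝ] Hol a ℂ (ℂ →L[ℝ] ℂ)), ∀ g : Hol a ℂ ℂ,
      (∀ z, HasFDerivAt (Hol.fn (T1 g)) (Hol.fn (T2 g) z) z) ∧
      (∀ z, dbl (Hol.fn (T2 g) z) = κ z • Hol.fn g z) := by
  obtain ⟨T, hT⟩ := NWKPT_133.cauchy_stmt ℂ a ha ha1 κ hκs hκc
  exact ⟨NWTool_334.valC.comp T, NWTool_334.derC.comp T, fun g =>
    ⟨fun z => NWTool_334.c1_fd (T g) z, (hT g).1⟩⟩

/-- **leaf BEL** -/
theorem bel : BelStmt := by
  intro a ha ha1 r ε hr hε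
  obtain ⟨κ, hκ1, hκs, hκc⟩ : ∃ κ : ℂ → ℝ, (∀ z ∈ ball (0 : ℂ) r, κ z = 1) ∧ ContDiff ℝ ∞ κ ∧
      HasCompactSupport κ := by
    let b : ContDiffBump (0 : ℂ) := ⟨r, 2 * r, hr, by linarith⟩
    exact ⟨b, fun z hz => b.one_of_mem_closedBall (ball_subset_closedBall hz), b.contDiff,
      b.hasCompactSupport⟩
  obtain ⟨T1, T2, hT⟩ := ops a ha ha1 κ hκs hκc
  let S : Hol a ℂ ℂ →L[ℝ] Hol a ℂ ℂ := (NWHol_952.cl DL).comp T2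
  have hS : ∀ (g : Hol a ℂ ℂ) (z : ℂ), Hol.fn (S g) z = dl (Hol.fn (T2 g) z) := fun g z => rfl
  obtain ⟨CS, hS0, hSb⟩ : ∃ C : ℝ, 0 < C ∧ ∀ g, ‖S g‖ ≤ C * ‖g‖ := S.bound
  obtain ⟨C1, hC1, hTb1⟩ : ∃ C : ℝ, 0 < C ∧ ∀ g, ‖T1 g‖ ≤ C * ‖g‖ := T1.bound
  obtain ⟨C2, hC2, hTb2⟩ : ∃ C : ℝ, 0 < C ∧ ∀ g, ‖T2 g‖ ≤ C * ‖g‖ := T2.bound
  obtain ⟨CT, hT0, hCT1, hCT2⟩ : ∃ CT : ℝ, 0 < CT ∧ C1 ≤ CT ∧ C2 ≤ CT :=
    ⟨max C1 C2, lt_max_of_lt_left hC1, le_max_left _ _, le_max_right _ _⟩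
  obtain ⟨η, hη, hη1, hη2⟩ : ∃ η : ℝ, 0 < η ∧ 2 * η * CS ≤ 1 / 2 ∧ CT * (2 * η) ≤ ε := by
    refine ⟨min (1 / (4 * CS)) (ε / (2 * CT)), lt_min (by positivity) (by positivity), ?_, ?_⟩
    · have h1 : min (1 / (4 * CS)) (ε / (2 * CT)) ≤ 1 / (4 * CS) := min_le_left _ _
      rw [le_div_iff₀ (by positivity)] at h1
      nlinarith
    · have h1 : min (1 / (4 * CS)) (ε / (2 * CT)) ≤ ε / (2 * CT) := min_le_right _ _
      rw [le_div_iff₀ (by positivity)] at h1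
      nlinarith
  refine ⟨η, hη, fun μ hμ => ?_⟩
  obtain ⟨m, hmz, hm⟩ : ∃ m : Hol a ℂ ℂ, (∀ z, Hol.fn m z = μ z) ∧ ‖m‖ ≤ η :=
    ⟨NWHol_952.mk ha μ η hμ, fun _ => rfl, NWHol_952.norm_mk_le ha hμ hη.le⟩
  let B : ℂ →L[ℝ] ℂ →L[ℝ] ℂ := ContinuousLinearMap.mul ℝ ℂ
  have hB : ‖B‖ ≤ 1 := ContinuousLinearMap.opNorm_mul_le ℝ ℂ
  let A : Hol a ℂ ℂ →L[ℝ] Hol a ℂ ℂ := (NWHol_952.bl B m).comp S
  have hAz : ∀ (g : Hol a ℂ ℂ) (z : ℂ), Hol.fn (A g) z = Hol.fn m z * Hol.fn (S g) z :=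
    fun g z => rfl
  have hA : ‖A‖ ≤ 1 / 2 := by
    refine le_trans ?_ hη1
    refine ContinuousLinearMap.opNorm_le_bound _ (by positivity) fun g => ?_
    have h1 : ‖A g‖ ≤ 2 * ‖B‖ * ‖m‖ * ‖S g‖ := by
      refine NWHol_952.norm_le (by positivity) ?_
      exact NWHol_952.hb_bl B m (S g)
    have h2 : 2 * ‖B‖ * ‖m‖ * ‖S g‖ ≤ 2 * 1 * η * (CS * ‖g‖) := by
      gcongr
      exact hSb g
    calc ‖A g‖ ≤ 2 * 1 * η * (CS * ‖g‖) := h1.trans h2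
      _ = 2 * η * CS * ‖g‖ := by ring
  obtain ⟨g, hg, hgn⟩ := neumann A hA m
  have hgz : ∀ z, Hol.fn g z = μ z + μ z * dl (Hol.fn (T2 g) z) := by
    intro z
    have h1 : Hol.fn g z = Hol.fn m z + Hol.fn (A g) z := by
      conv_lhs => rw [hg]
      rfl
    rw [h1, hAz, hS, hmz]
  have hgn' : ‖g‖ ≤ 2 * η := by linarith
  have hn1 : ‖T1 g‖ ≤ ε := by
    calc ‖T1 g‖ ≤ C1 * ‖g‖ := hTb1 g
      _ ≤ CT * (2 * η) := by gcongr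
      _ ≤ ε := hη2
  have hn2 : ‖T2 g‖ ≤ ε := by
    calc ‖T2 g‖ ≤ C2 * ‖g‖ := hTb2 g
      _ ≤ CT * (2 * η) := by gcongr
      _ ≤ ε := hη2
  refine finish ha (Hol.fn (T1 g)) (Hol.fn (T2 g)) (hT g).1
    (fun z => (NWHol_952.norm_fn_le (T1 g) z).trans hn1)
    (NWHol_952.HB.mono (NWHol_952.hb (T2 g)) hn2) μ fun z hz => ?_
  have h1 := (hT g).2 z
  rw [hκ1 z hz, one_smul] at h1
  rw [h1, hgz z]

end

end Crest.Agent.R235.NWBel_601
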