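import Crest.Agent.R235.NWReg1_847
import Crest.Agent.R235.NWKPT_133

/-!
Row 235, PACKAGE NW (helper847): leaf R1, unconditional.
-/

set_option autoImplicit false

namespace Crest.Agent.R235.NWReg1F_847

open Crest.Agent.R235.NWIface_334

/-- **R1**, unconditional -/
theorem reg1 : Reg1Stmt := NWReg1_847.reg1_of NWKPT_133.cauchy_stmt

end Crest.Agent.R235.NWReg1F_847
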