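import Crest.Agent.R235.NWSet_334

/-!
# Row 235, PACKAGE NW (helper334), leaf REG2 (helper52): `C^{1,a}` solutions are smooth

`reg2 : CauchyStmt → NStmt → FamStmt → Reg2Stmt`: rescale at the centre, so that the coefficients are
`C²`-small; the rescaled solution is the unique solution of the cut-off equation, and `regp`
(translation trick, helper334) gives smoothness.
Reusable: `small_family` (a smooth family with compact support vanishing at `R = 0` is `C²`-small),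
`exists_w` (uniform `C^{1,a}` bound of the rescalings).
-/

set_option autoImplicit false
set_option maxSynthPendingDepth 3
set_option linter.unusedSectionVars false

open Set Filter Metric Topology MeasureTheory
open scoped ContDiff Real

namespace Crest.Agent.R235.NWReg2_52

open Crest.Agent.R235.NWDefs_334 Crest.Agent.R235.NWIface_334 Crest.Agent.R235.NWTool_334
open Crest.Agent.R235.NWSet_334 Crest.Agent.R235.NWLoc_334

noncomputable section

open Crest.Agent.R235.NWHol_952 (HB.comp_lip HB.bilin HB.add HB.sub HB.mono HB.const HB.clm)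

/-! ### small families -/

section small

variable {V Y : Type} [NormedAddCommGroup V] [NormedSpace ℝ V] [FiniteDimensional ℝ V]
  [NormedAddCommGroup Y] [NormedSpace ℝ Y]

theorem small_family {G : ℝ × V → Y} (hG : ContDiff ℝ ∞ G) (h0 : ∀ x, G (0, x) = 0) {ρ : ℝ}
    (hs : ∀ R x, ρ ≤ ‖x‖ → G (R, x) = 0) {η : ℝ} (hη : 0 < η) :
    ∃ R0 : ℝ, 0 < R0 ∧ ∀ R : ℝ, 0 < R → R ≤ R0 →
      BD (fun x => G (R, x)) ∧ Small η (fun x => G (R, x)) := by
  have : ProperSpace V := FiniteDimensional.proper ℝ V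
  have hG1 : ContDiff ℝ ∞ (fun p : ℝ × V => fderiv ℝ (fun x => G (p.1, x)) p.2) := by
    have h : ContDiff ℝ ∞ (Function.uncurry fun (p : ℝ × V) (x : V) => G (p.1, x)) := by
      change ContDiff ℝ ∞ (fun q : (ℝ × V) × V => G (q.1.1, q.2))
      exact hG.comp ((contDiff_fst.comp contDiff_fst).prodMk contDiff_snd)
    exact h.fderiv contDiff_snd (by simp)
  have hG2 : ContDiff ℝ ∞
      (fun p : ℝ × V => fderiv ℝ (fderiv ℝ (fun x => G (p.1, x))) p.2) := by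
    have h : ContDiff ℝ ∞ (Function.uncurry
        fun (p : ℝ × V) (x : V) => fderiv ℝ (fun x => G (p.1, x)) x) := by
      change ContDiff ℝ ∞ (fun q : (ℝ × V) × V =>
        (fun p : ℝ × V => fderiv ℝ (fun x => G (p.1, x)) p.2) (q.1.1, q.2))
      exact hG1.comp ((contDiff_fst.comp contDiff_fst).prodMk contDiff_snd)
    exact h.fderiv contDiff_snd (by simp)
  have hz : (fun x => G (0, x)) = fun _ => 0 := funext h0
  have hsupp : ∀ R x, x ∉ closedBall (0 : V) ρ → (fun x => G (R, x)) =ᶠ[𝓝 x] fun _ => 0 := by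
    intro R x hx
    filter_upwards [isClosed_closedBall.isOpen_compl.mem_nhds hx] with z hz
    rw [mem_compl_iff, mem_closedBall, not_le, dist_zero_right] at hz
    exact hs R z hz.le
  have hK : IsCompact (closedBall (0 : V) ρ) := isCompact_closedBall _ _
  have key : ∀ {F : Type _} [NormedAddCommGroup F] (g : ℝ × V → F), Continuous g →
      (∀ x, g (0, x) = 0) → ∀ᶠ R in 𝓝 (0 : ℝ), ∀ x ∈ closedBall (0 : V) ρ,
        ‖g (R, x)‖ < η := by
    intro F _ g hg hg0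
    refine hK.eventually_forall_of_forall_eventually (P := fun R x => ‖g (R, x)‖ < η) ?_
    intro y _
    have : Tendsto (fun p : ℝ × V => ‖g p‖) (𝓝 (0, y)) (𝓝 0) := by
      have h := (hg.norm).tendsto (0, y)
      simpa [hg0] using h
    exact this.eventually (gt_mem_nhds hη)
  have e0 := key G hG.continuous h0
  have e1 := key (fun p : ℝ × V => fderiv ℝ (fun x => G (p.1, x)) p.2) hG1.continuous (fun x => by
    change fderiv ℝ (fun x => G (0, x)) x = 0; rw [hz]; exact fderiv_const_apply _)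
  have e2 := key (fun p : ℝ × V => fderiv ℝ (fderiv ℝ (fun x => G (p.1, x))) p.2)
    hG2.continuous (fun x => by
      change fderiv ℝ (fderiv ℝ (fun x => G (0, x))) x = 0
      have : fderiv ℝ (fun x => G (0, x)) = fun _ => 0 := by
        rw [hz]; funext z; exact fderiv_const_apply _
      rw [this]; exact fderiv_const_apply _)
  obtain ⟨d, hd, hd'⟩ := Metric.mem_nhds_iff.1 (e0.and (e1.and e2))
  refine ⟨d / 2, by positivity, fun R hR hR0 => ?_⟩
  have hRd : R ∈ ball (0 : ℝ) d := by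
    rw [mem_ball, Real.dist_eq, sub_zero, abs_of_pos hR]
    exact lt_of_le_of_lt hR0 (by linarith)
  obtain ⟨f0, f1, f2⟩ := hd' hRd
  have hcs : HasCompactSupport (fun x => G (R, x)) :=
    HasCompactSupport.intro hK fun x hx => (hsupp R x hx).self_of_nhds
  have hsm : ContDiff ℝ ∞ (fun x => G (R, x)) := hG.comp (contDiff_const.prodMk contDiff_id)
  refine ⟨NWJ_130.bd_of_compact hsm hcs, fun x => ⟨?_, ?_, ?_⟩⟩
  · by_cases hx : x ∈ closedBall (0 : V) ρ
    · exact (f0 x hx).le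
    · have : G (R, x) = 0 := (hsupp R x hx).self_of_nhds
      show ‖G (R, x)‖ ≤ η
      rw [this, norm_zero]; exact hη.le
  · by_cases hx : x ∈ closedBall (0 : V) ρ
    · exact (f1 x hx).le
    · rw [(hsupp R x hx).fderiv_eq, fderiv_const_apply, norm_zero]; exact hη.le
  · by_cases hx : x ∈ closedBall (0 : V) ρ
    · exact (f2 x hx).le
    · have : fderiv ℝ (fun x => G (R, x)) =ᶠ[𝓝 x] fun _ => 0 := by
        filter_upwards [(hsupp R x hx).fderiv (𝕜 := ℝ)] with z hz'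
        rw [hz', fderiv_const_apply]
      rw [this.fderiv_eq, fderiv_const_apply, norm_zero]; exact hη.le

end small

/-! ### the antilinear map `v ↦ conj v • b₀` -/

section cj

variable {E : Type*} [NormedAddCommGroup E] [NormedSpace ℂ E]

/-- `v ↦ conj v • b₀` -/
def cj (b0 : E) : ℂ →L[ℝ] E :=
  ((ContinuousLinearMap.toSpanSingleton ℂ b0).restrictScalars ℝ).comp
    (Complex.conjCLE : ℂ →L[ℝ] ℂ)

theorem cj_apply (b0 : E) (v : ℂ) : cj b0 v = (starRingEnd ℂ v) • b0 := rfl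

theorem dl_cj (b0 : E) : dl (cj b0) = 0 := by
  rw [dl, cj_apply, cj_apply, map_one, Complex.conj_I, smul_smul]
  simp

theorem dbl_cj (b0 : E) : dbl (cj b0) = b0 := by
  rw [dbl, cj_apply, cj_apply, map_one, Complex.conj_I, smul_smul]
  have : Complex.I * -Complex.I = 1 := by simp
  rw [this, one_smul, ← two_smul ℂ b0, smul_smul]
  simp

end cj

/-! ### rescaling -/

section resc

variable {a : ℝ} {E : Type} [NormedAddCommGroup E] [NormedSpace ℂ E]

set_option maxHeartbeats 1600000 in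
theorem exists_w (ha : 0 < a) (ha1 : a < 1) (F : C1a a ℂ E) (b0 : E) (g : C1a a ℂ ℂ) :
    ∃ CW : ℝ, 0 ≤ CW ∧ ∀ R : ℝ, 0 < R → R ≤ 1 → ∃ w : C1a a ℂ E,
      (∀ z, C1f w z = R⁻¹ • (C1f F (R • C1f g z) - C1f F 0) - cj b0 (C1f g z)) ∧
      (∀ z, C1d w z = (C1d F (R • C1f g z) - cj b0).comp (C1d g z)) ∧ ‖w‖ ≤ CW := by
  have hg0 := norm_nonneg g
  have hF0 := norm_nonneg F
  set c0 : ℝ := ‖cj b0‖ with hc0
  have hc0' : 0 ≤ c0 := norm_nonneg _
  set N1 : ℝ := max 1 (‖g‖ ^ a) * ‖F‖ + c0 with hN1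
  have hm : (0 : ℝ) ≤ max 1 (‖g‖ ^ a) := zero_le_one.trans (le_max_left _ _)
  have hN1' : 0 ≤ N1 := by positivity
  set M1 : ℝ := 2 * N1 * ‖g‖ with hM1
  have hM1' : 0 ≤ M1 := by positivity
  set M0 : ℝ := 2 * ((‖F‖ + c0) * ‖g‖) + max M1 0 with hM0
  have hM0' : 0 ≤ M0 := by
    have : 0 ≤ max M1 0 := le_max_right _ _
    positivity
  refine ⟨M0 + M1, by positivity, fun R hR hR1 => ?_⟩
  have hlipg : ∀ x y, ‖C1f g x - C1f g y‖ ≤ ‖g‖ * ‖x - y‖ := fun x y =>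
    Convex.norm_image_sub_le_of_norm_hasFDerivWithin_le (s := univ) (f' := C1d g)
      (fun z _ => (c1_fd g z).hasFDerivWithinAt) (fun z _ => norm_d_le ha g z) convex_univ
      (mem_univ _) (mem_univ _)
  have hlipF : ∀ x y, ‖C1f F x - C1f F y‖ ≤ ‖F‖ * ‖x - y‖ := fun x y =>
    Convex.norm_image_sub_le_of_norm_hasFDerivWithin_le (s := univ) (f' := C1d F)
      (fun z _ => (c1_fd F z).hasFDerivWithinAt) (fun z _ => norm_d_le ha F z) convex_univ
      (mem_univ _) (mem_univ _)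
  have hlip : ∀ x y, dist (R • C1f g x) (R • C1f g y) ≤ ‖g‖ * dist x y := by
    intro x y
    rw [dist_eq_norm, dist_eq_norm, ← smul_sub, norm_smul, Real.norm_of_nonneg hR.le]
    calc R * ‖C1f g x - C1f g y‖ ≤ 1 * ‖C1f g x - C1f g y‖ := by gcongr
      _ ≤ _ := by rw [one_mul]; exact hlipg x y
  have h1 : HB a (max 1 (‖g‖ ^ a) * ‖F‖) (fun z => C1d F (R • C1f g z)) :=
    HB.comp_lip ha.le hg0 hF0 hlip (c1_hbd ha F)
  have h2 : HB a N1 (fun z => C1d F (R • C1f g z) - cj b0) :=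
    HB.sub h1 (HB.const (a := a) (X := ℂ) (cj b0))
  have h3 := HB.bilin (ContinuousLinearMap.compL ℝ ℂ ℂ E) hN1' hg0 h2 (c1_hbd ha g)
  have h4 : ‖ContinuousLinearMap.compL ℝ ℂ ℂ E‖ ≤ 1 := ContinuousLinearMap.norm_compL_le _ _ _ _
  have h5 : HB a M1 (fun z => (C1d F (R • C1f g z) - cj b0).comp (C1d g z)) := by
    refine HB.mono h3 ?_
    calc 2 * ‖ContinuousLinearMap.compL ℝ ℂ ℂ E‖ * N1 * ‖g‖ ≤ 2 * 1 * N1 * ‖g‖ := by gcongr
      _ = M1 := by rw [hM1]; ring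
  set f : ℂ → E := fun z => R⁻¹ • (C1f F (R • C1f g z) - C1f F 0) - cj b0 (C1f g z) with hf
  have hd : ∀ z, HasFDerivAt f ((C1d F (R • C1f g z) - cj b0).comp (C1d g z)) z := by
    intro z
    have e1 : HasFDerivAt (fun z => R • C1f g z) (R • C1d g z) z := (c1_fd g z).const_smul R
    have e2 : HasFDerivAt (fun z => C1f F (R • C1f g z))
        ((C1d F (R • C1f g z)).comp (R • C1d g z)) z := (c1_fd F _).comp z e1
    have e3 : HasFDerivAt (fun z => R⁻¹ • (C1f F (R • C1f g z) - C1f F 0))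
        (R⁻¹ • ((C1d F (R • C1f g z)).comp (R • C1d g z))) z :=
      (e2.sub_const (C1f F 0)).const_smul R⁻¹
    have e4 : HasFDerivAt (fun z => cj b0 (C1f g z)) ((cj b0).comp (C1d g z)) z :=
      (cj b0).hasFDerivAt.comp z (c1_fd g z)
    have e5 : R⁻¹ • ((C1d F (R • C1f g z)).comp (R • C1d g z)) =
        (C1d F (R • C1f g z)).comp (C1d g z) := by
      rw [ContinuousLinearMap.comp_smul, smul_smul, inv_mul_cancel₀ hR.ne', one_smul]
    rw [e5] at e3
    rw [ContinuousLinearMap.sub_comp]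
    exact e3.sub e4
  have hb : ∀ z, ‖f z‖ ≤ (‖F‖ + c0) * ‖g‖ := by
    intro z
    have e1 : ‖R⁻¹ • (C1f F (R • C1f g z) - C1f F 0)‖ ≤ ‖F‖ * ‖g‖ := by
      rw [norm_smul, norm_inv, Real.norm_of_nonneg hR.le]
      have e2 := hlipF (R • C1f g z) 0
      rw [sub_zero, norm_smul, Real.norm_of_nonneg hR.le] at e2
      rw [inv_mul_le_iff₀ hR]
      calc _ ≤ ‖F‖ * (R * ‖C1f g z‖) := e2
        _ ≤ ‖F‖ * (R * ‖g‖) := by gcongr; exact norm_f_le ha g z
        _ = _ := by ring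
    have e3 : ‖cj b0 (C1f g z)‖ ≤ c0 * ‖g‖ :=
      ((cj b0).le_opNorm _).trans (by gcongr; exact norm_f_le ha g z)
    calc ‖f z‖ ≤ _ := norm_sub_le _ _
      _ ≤ ‖F‖ * ‖g‖ + c0 * ‖g‖ := add_le_add e1 e3
      _ = _ := by ring
  have hl : ∀ x y, ‖f x - f y‖ ≤ M1 * dist x y := by
    intro x y
    rw [dist_eq_norm]
    exact Convex.norm_image_sub_le_of_norm_hasFDerivWithin_le (s := univ)
      (fun z _ => (hd z).hasFDerivWithinAt) (fun z _ => h5.bdd z) convex_univ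
      (mem_univ _) (mem_univ _)
  have h6 : HB a M0 f := NWHol_952.hb_lip ha ha1.le hb hl
  exact exists_c1 ha (by positivity) (HB.mono h6 (by linarith)) (HB.mono h5 (by linarith)) hd

end resc

/-! ### the main theorem -/

section main

variable {E : Type} [NormedAddCommGroup E] [NormedSpace ℂ E]

/-- the rescaled argument -/
def sc (F0 b0 : E) (p : ℝ × (ℂ × E)) : ℂ × E :=
  (p.1 • p.2.1, F0 + p.1 • (p.2.2 + cj b0 p.2.1))

theorem sc_smooth (F0 b0 : E) : ContDiff ℝ ∞ (sc F0 b0) := by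
  have h1 : ContDiff ℝ ∞ (fun p : ℝ × (ℂ × E) => p.2.1) := contDiff_fst.comp contDiff_snd
  have h2 : ContDiff ℝ ∞ (fun p : ℝ × (ℂ × E) => p.2.2) := contDiff_snd.comp contDiff_snd
  have h3 : ContDiff ℝ ∞ (fun p : ℝ × (ℂ × E) => cj b0 p.2.1) := (cj b0).contDiff.comp h1
  exact (contDiff_fst.smul h1).prodMk (contDiff_const.add (contDiff_fst.smul (h2.add h3)))

theorem sc_zero (F0 b0 : E) (x : ℂ × E) : sc F0 b0 (0, x) = (0, F0) := by
  simp [sc]

set_option maxHeartbeats 4000000 in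
/-- the core: at a small scale the rescaled solution is smooth -/
theorem core {a : ℝ} (ha : 0 < a) (ha1 : a < 1) (hFam : FamStmt) {χ : ℂ → ℝ}
    {T : Hol a ℂ E →L[ℝ] C1a a ℂ E}
    (hT : ∀ g : Hol a ℂ E, (∀ z, dbl (C1d (T g) z) = χ z • Hol.fn g z) ∧
      Tendsto (C1f (T g)) (cocompact ℂ) (𝓝 0))
    {K RN η CW : ℝ} (hη : 0 < η) {A : ℂ × E → (ℂ →L[ℝ] E) →L[ℝ] E} {b : ℂ × E → E}
    (hA : BD A) (hb : BD b) (hA1 : Small 1 A) (hb1 : Small 1 b)
    {Φ : Par a ℂ × C1a a ℂ E → C1a a ℂ E} (hΦ : ContDiffOn ℝ ∞ Φ (Dom a E ℂ K RN η))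
    (hun : ∀ k h, (k, h) ∈ Dom a E ℂ K RN η → ∀ w, ‖w‖ < 2 * RN + 1 → Sol T A b k h w →
      w = Φ (k, h)) {κ : Hol a ℂ ℝ} {q : Hol a ℂ ℂ} {Q : ℂ → ℂ} (hQ : ContDiff ℝ ∞ Q)
    (hQs : HasCompactSupport Q) (hq : ∀ z, Hol.fn q z = Q z) (hκK : ‖κ‖ < K) (hqK : ‖q‖ < K)
    (hκ : ∀ z ∈ ball (0 : ℂ) 2, Hol.fn κ z = 1 ∧ χ z = 1) {w : C1a a ℂ E} (hw : ‖w‖ ≤ CW)
    (hRN : CW + ‖T‖ * (2 * ‖κ‖ * (2 * (1 + ‖q‖ + CW) * CW + (1 + ‖q‖ + CW))) + 3 * CW < RN)
    (heq : ∀ z ∈ ball (0 : ℂ) 2, dbl (C1d w z) = A (Q z, C1f w z) (C1d w z) + b (Q z, C1f w z))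
    {z0 : ℂ} (hz0 : z0 ∈ ball (0 : ℂ) 1) : ContDiffAt ℝ ∞ (C1f w) z0 := by
  have hCW : 0 ≤ CW := (norm_nonneg w).trans hw
  have hT0 := norm_nonneg T
  have hκ0 := norm_nonneg κ
  have hq0 := norm_nonneg q
  obtain ⟨g, hg, hgn⟩ := exists_rhs ha hA.smooth hb.smooth hA1 hb1 κ q w
  have hsol : Sol T A b (κ, q, 0) (w - T g) w := by
    refine ⟨g, fun z => ?_, ?_⟩
    · rw [hg]
      exact (rhs_zero A b (Hol.fn κ z) (Hol.fn q z) (C1f w z) (C1d w z)).symm
    · rw [sub_add_cancel]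
  have hgn' : ‖g‖ ≤ 2 * ‖κ‖ * (2 * (1 + ‖q‖ + CW) * CW + (1 + ‖q‖ + CW)) :=
    hgn.trans (by gcongr)
  have hTg : ‖T g‖ ≤ ‖T‖ * (2 * ‖κ‖ * (2 * (1 + ‖q‖ + CW) * CW + (1 + ‖q‖ + CW))) :=
    (T.le_opNorm g).trans (by gcongr)
  have hh : ‖w - T g‖ < RN := by
    have := norm_sub_le w (T g)
    linarith
  have h6 : 6 * ‖w‖ < 2 * RN + 1 := by
    have : 0 ≤ ‖T‖ * (2 * ‖κ‖ * (2 * (1 + ‖q‖ + CW) * CW + (1 + ‖q‖ + CW))) := by positivity
    linarith
  have hdb : ∀ z ∈ ball (0 : ℂ) 2, dbl (C1d (w - T g) z) = 0 := by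
    intro z hz
    have h1 := sol_dbl hT hsol z
    rw [(hκ z hz).1, (hκ z hz).2, one_mul, one_smul, hq, ← heq z hz] at h1
    exact right_eq_add.1 h1
  have hsub : ball z0 1 ⊆ ball (0 : ℂ) 2 := by
    refine ball_subset_ball' ?_
    have : dist z0 0 < 1 := hz0
    linarith
  have key := regp hFam ha ha1 hT hη hΦ hun (S := ℝ) (h := fun _ => w - T g) (w := fun _ => w)
    (s0 := 0) contDiffAt_const hQ hQs hq hκK hqK hh
    (Eventually.of_forall fun _ => ⟨hsol, h6⟩) (z0 := z0) one_pos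
    (fun z hz => hκ z (hsub hz)) (Eventually.of_forall fun _ z hz => hdb z (hsub hz))
  have e1 : ContDiffAt ℝ ∞ (fun z : ℂ => ((0 : ℝ), z)) z0 := contDiffAt_const.prodMk contDiffAt_id
  exact ContDiffAt.comp (f := fun z : ℂ => ((0 : ℝ), z)) z0 key e1

end main

set_option maxHeartbeats 4000000 in
theorem reg2 (hT : CauchyStmt) (hN : NStmt) (hF : FamStmt) : Reg2Stmt := by
  intro E _ _ _ a ha ha1 B b hB hb F r hr heq hB0
  -- cut-offs
  let χ2 : ContDiffBump (0 : ℂ) := ⟨3, 4, by norm_num, by norm_num⟩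
  let χ : ContDiffBump (0 : ℂ) := ⟨2, 3, by norm_num, by norm_num⟩
  let Q : ℂ → ℂ := fun z => χ2 z • z
  have hQ : ContDiff ℝ ∞ Q := χ2.contDiff.smul contDiff_id
  have hQs : HasCompactSupport Q := χ2.hasCompactSupport.smul_right
  have hQ3 : ∀ z ∈ ball (0 : ℂ) 3, Q z = z := fun z hz => by
    show χ2 z • z = z
    rw [χ2.one_of_mem_closedBall (ball_subset_closedBall hz), one_smul]
  obtain ⟨g, hg⟩ := exists_cst hF ha ha1 (f := Q) (R := 4) hQ (fun z hz => by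
    show χ2 z • z = 0
    rw [χ2.zero_of_le_dist (by rw [dist_zero_right]; exact hz), zero_smul])
  obtain ⟨κ1, hκ1⟩ := exists_cst hF ha ha1 (f := (χ : ℂ → ℝ)) (R := 3) χ.contDiff (fun z hz => by
    rw [χ.zero_of_le_dist (by rw [dist_zero_right]; exact hz)])
  obtain ⟨T, hTT⟩ := hT E a ha ha1 χ χ.contDiff χ.hasCompactSupport
  let κ : Hol a ℂ ℝ := valC κ1
  let q : Hol a ℂ ℂ := valC g
  have hq : ∀ z, Hol.fn q z = Q z := fun z => hg z
  have hκ : ∀ z ∈ ball (0 : ℂ) 2, Hol.fn κ z = 1 ∧ χ z = 1 := by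
    intro z hz
    have h1 : χ z = 1 := χ.one_of_mem_closedBall (ball_subset_closedBall hz)
    refine ⟨?_, h1⟩
    show C1f κ1 z = 1
    rw [hκ1, h1]
  set F0 : E := C1f F 0 with hF0
  set b0 : E := b (0, F0) with hb0
  obtain ⟨CW, hCW, hw⟩ := exists_w ha ha1 F b0 g
  let K : ℝ := ‖κ‖ + ‖q‖ + 1
  have hκn := norm_nonneg κ
  have hqn := norm_nonneg q
  have hK : 0 < K := by positivity
  have hT0 := norm_nonneg T
  let RN : ℝ := CW + ‖T‖ * (2 * ‖κ‖ * (2 * (1 + ‖q‖ + CW) * CW + (1 + ‖q‖ + CW))) + 3 * CW + 1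
  have hRN : 0 < RN := by positivity
  obtain ⟨η, hη, hsolve⟩ := hN E ℂ a ha ha1 T K RN 1 hK hRN one_pos
  -- the rescaled coefficients
  let m : ℝ := max CW 3
  have hm0 : 0 < m + 1 := by
    have : (3 : ℝ) ≤ m := le_max_right _ _
    linarith
  let ρ : ContDiffBump (0 : ℂ × E) := ⟨m + 1, m + 2, hm0, by linarith⟩
  have hρ2 : ContDiff ℝ ∞ (fun p : ℝ × (ℂ × E) => ρ p.2) := ρ.contDiff.comp contDiff_snd
  let GA : ℝ × (ℂ × E) → (ℂ →L[ℝ] E) →L[ℝ] E := fun p =>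
    (ρ p.2 • B (sc F0 b0 p)).comp (dlL E)
  let Gb : ℝ × (ℂ × E) → E := fun p => ρ p.2 • (b (sc F0 b0 p) - b0)
  have hGA : ContDiff ℝ ∞ GA :=
    (hρ2.smul (hB.comp (sc_smooth F0 b0))).clm_comp contDiff_const
  have hGb : ContDiff ℝ ∞ Gb := hρ2.smul ((hb.comp (sc_smooth F0 b0)).sub contDiff_const)
  have hρ0 : ∀ x : ℂ × E, m + 2 ≤ ‖x‖ → ρ x = 0 := fun x hx =>
    ρ.zero_of_le_dist (by rw [dist_zero_right]; exact hx)
  obtain ⟨RA, hRA, hA⟩ := small_family hGA (η := min η 1) (ρ := m + 2) (fun x => by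
    show (ρ x • B (sc F0 b0 (0, x))).comp (dlL E) = 0
    rw [sc_zero, hB0, smul_zero, ContinuousLinearMap.zero_comp]) (fun R x hx => by
    show (ρ x • B (sc F0 b0 (R, x))).comp (dlL E) = 0
    rw [hρ0 x hx, zero_smul, ContinuousLinearMap.zero_comp]) (lt_min hη one_pos)
  obtain ⟨Rb, hRb, hB'⟩ := small_family hGb (η := min η 1) (ρ := m + 2) (fun x => by
    show ρ x • (b (sc F0 b0 (0, x)) - b0) = 0
    rw [sc_zero, hb0, sub_self, smul_zero]) (fun R x hx => by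
    show ρ x • (b (sc F0 b0 (R, x)) - b0) = 0
    rw [hρ0 x hx, zero_smul]) (lt_min hη one_pos)
  let R : ℝ := min (min RA Rb) (min 1 (r / 4))
  have hR : 0 < R := lt_min (lt_min hRA hRb) (lt_min one_pos (by positivity))
  have hR1 : R ≤ 1 := (min_le_right _ _).trans (min_le_left _ _)
  have hRr : R ≤ r / 4 := (min_le_right _ _).trans (min_le_right _ _)
  obtain ⟨hA1, hA2⟩ := hA R hR ((min_le_left _ _).trans (min_le_left _ _))
  obtain ⟨hb1, hb2⟩ := hB' R hR ((min_le_left _ _).trans (min_le_right _ _))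
  obtain ⟨w, hwf, hwd, hwn⟩ := hw R hR hR1
  obtain ⟨Φ, hΦ, hΦ2⟩ := hsolve (fun x => GA (R, x)) (fun x => Gb (R, x)) hA1 hb1
    (Small.mono (min_le_left _ _) hA2) (Small.mono (min_le_left _ _) hb2)
  -- the function near the centre
  have hgz : ∀ z ∈ ball (0 : ℂ) 3, C1f g z = z := fun z hz => by rw [hg, hQ3 z hz]
  have hgd : ∀ z ∈ ball (0 : ℂ) 3, C1d g z = ContinuousLinearMap.id ℝ ℂ := by
    intro z hz
    have h1 := c1_fd g z
    have h2 : HasFDerivAt (C1f g) (ContinuousLinearMap.id ℝ ℂ) z := by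
      refine (hasFDerivAt_id z).congr_of_eventuallyEq ?_
      filter_upwards [isOpen_ball.mem_nhds hz] with y hy
      exact hgz y hy
    exact h1.unique h2
  have hval : ∀ z ∈ ball (0 : ℂ) 3, F0 + R • (C1f w z + cj b0 z) = C1f F (R • z) := by
    intro z hz
    rw [hwf, hgz z hz, sub_add_cancel, smul_smul, mul_inv_cancel₀ hR.ne', one_smul,
      add_sub_cancel]
  have heq' : ∀ z ∈ ball (0 : ℂ) 2, dbl (C1d w z) =
      GA (R, (Q z, C1f w z)) (C1d w z) + Gb (R, (Q z, C1f w z)) := by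
    intro z hz
    have hz3 : z ∈ ball (0 : ℂ) 3 := ball_subset_ball (by norm_num) hz
    have hd1 : C1d w z = C1d F (R • z) - cj b0 := by
      rw [hwd, hgz z hz3, hgd z hz3, ContinuousLinearMap.comp_id]
    have hRz : R • z ∈ ball (0 : ℂ) r := by
      rw [mem_ball_zero_iff] at hz ⊢
      rw [norm_smul, Real.norm_of_nonneg hR.le]
      calc R * ‖z‖ ≤ r / 4 * ‖z‖ := by gcongr
        _ < r := by nlinarith
    have hdb : dbl (C1d w z) = dbl (C1d F (R • z)) - b0 := by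
      rw [hd1, dbl_sub, dbl_cj]
    have hdl : dl (C1d w z) = dl (C1d F (R • z)) := by
      rw [hd1, ← dlL_apply, map_sub, dlL_apply, dlL_apply, dl_cj, sub_zero]
    have hsc : sc F0 b0 (R, (Q z, C1f w z)) = (R • z, C1f F (R • z)) := by
      show (R • Q z, F0 + R • (C1f w z + cj b0 (Q z))) = _
      rw [hQ3 z hz3, hval z hz3]
    have hρ1 : ρ (Q z, C1f w z) = 1 := by
      refine ρ.one_of_mem_closedBall ?_
      rw [mem_closedBall_zero_iff]
      show ‖(Q z, C1f w z)‖ ≤ m + 1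
      rw [Prod.norm_def]
      refine max_le ?_ ?_
      · show ‖Q z‖ ≤ m + 1
        rw [hQ3 z hz3]
        rw [mem_ball_zero_iff] at hz3
        have : (3 : ℝ) ≤ m := le_max_right _ _
        linarith
      · show ‖C1f w z‖ ≤ m + 1
        have h1 := (norm_f_le ha w z).trans hwn
        have : CW ≤ m := le_max_left _ _
        linarith
    show dbl (C1d w z) = (ρ (Q z, C1f w z) • B (sc F0 b0 (R, (Q z, C1f w z)))) (dl (C1d w z)) +
      ρ (Q z, C1f w z) • (b (sc F0 b0 (R, (Q z, C1f w z))) - b0)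
    rw [hρ1, hsc, one_smul, one_smul, hdb, hdl, heq _ hRz]
    abel
  have hsm : ∀ z ∈ ball (0 : ℂ) 1, ContDiffAt ℝ ∞ (C1f w) z := fun z hz =>
    core ha ha1 hF hTT hη hA1 hb1 (Small.mono (min_le_right _ _) hA2)
      (Small.mono (min_le_right _ _) hb2) hΦ (fun k h hk => (hΦ2 k h hk).2.2.2) hQ hQs hq
      (K := K) (RN := RN) (by show ‖κ‖ < ‖κ‖ + ‖q‖ + 1; linarith)
      (by show ‖q‖ < ‖κ‖ + ‖q‖ + 1; linarith) hκ hwn
      (by
        show _ < CW + ‖T‖ * (2 * ‖κ‖ * (2 * (1 + ‖q‖ + CW) * CW + (1 + ‖q‖ + CW))) + 3 * CW + 1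
        linarith) heq' hz
  refine ⟨R, hR, fun y hy => ContDiffAt.contDiffWithinAt ?_⟩
  have hy' : R⁻¹ • y ∈ ball (0 : ℂ) 1 := by
    rw [mem_ball_zero_iff] at hy ⊢
    rw [norm_smul, norm_inv, Real.norm_of_nonneg hR.le, inv_mul_lt_iff₀ hR, mul_one]
    exact hy
  have h1 : ContDiffAt ℝ ∞ (fun y : ℂ => F0 + R • (C1f w (R⁻¹ • y) + cj b0 (R⁻¹ • y))) y := by
    have e1 : ContDiffAt ℝ ∞ (fun y : ℂ => R⁻¹ • y) y := contDiffAt_id.const_smul R⁻¹
    have e2 : ContDiffAt ℝ ∞ (fun y : ℂ => C1f w (R⁻¹ • y)) y :=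
      ContDiffAt.comp (f := fun y : ℂ => R⁻¹ • y) y (hsm _ hy') e1
    have e3 : ContDiffAt ℝ ∞ (fun y : ℂ => cj b0 (R⁻¹ • y)) y :=
      (cj b0).contDiff.contDiffAt.comp y e1
    exact contDiffAt_const.add ((e2.add e3).const_smul R)
  refine h1.congr_of_eventuallyEq ?_
  filter_upwards [isOpen_ball.mem_nhds hy] with x hx
  have hx' : R⁻¹ • x ∈ ball (0 : ℂ) 3 := by
    rw [mem_ball_zero_iff] at hx ⊢
    rw [norm_smul, norm_inv, Real.norm_of_nonneg hR.le, inv_mul_lt_iff₀ hR]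
    linarith
  rw [hval _ hx', smul_smul, mul_inv_cancel₀ hR.ne', one_smul]

end

end Crest.Agent.R235.NWReg2_52
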