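import Crest.Agent.R235.NWFin_334
import Crest.Agent.R235.NWReg2_52

/-!
# Row 235, PACKAGE NW: `Reg2Stmt`, unconditional (helper52)
-/

set_option autoImplicit false

namespace Crest.Agent.R235.NWReg2F_52

open Crest.Agent.R235.NWDefs_334 Crest.Agent.R235.NWIface_334

theorem reg2_stmt : Reg2Stmt :=
  NWReg2_52.reg2 NWFin_334.cauchy NWFin_334.nst NWFin_334.fam

end Crest.Agent.R235.NWReg2F_52
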