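import Crest.Agent.R235.NWReg_930
import Crest.Agent.R235.NWReg1F_847
import Crest.Agent.R235.NWReg2F_52

/-!
# Row 235 (S0364), PACKAGE NW: `RegStmt`, unconditional (helper930)
-/

set_option autoImplicit false

namespace Crest.Agent.R235.NWRegF_930

open Crest.Agent.R235.NWDefs_334

/-- **REG0**: a `C¹` `J`-disc is smooth. -/
theorem reg_stmt : RegStmt :=
  NWReg_930.reg NWReg1F_847.reg1 NWReg2F_52.reg2_stmt

end Crest.Agent.R235.NWRegF_930
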