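import Crest.Agent.R235.NWSet_334

/-!
# Row 235, PACKAGE NW, leaf VAR (helper428): `CauchyStmt → NStmt → FamStmt → VarStmt`
-/

set_option autoImplicit false
set_option maxSynthPendingDepth 3

open Set Filter Metric Topology MeasureTheory
open scoped ContDiff Real

namespace Crest.Agent.R235.NWVar_428

open Crest.Agent.R235.NWDefs_334 Crest.Agent.R235.NWIface_334 Crest.Agent.R235.NWTool_334
open Crest.Agent.R235.NWLoc_334 Crest.Agent.R235.NWSet_334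

noncomputable section

section aux

variable {E : Type*} [NormedAddCommGroup E] [NormedSpace ℝ E]

/-- cut-off of a function smooth on a ball -/
theorem exists_cut {u : ℂ → E} {r1 : ℝ} (hr1 : 0 < r1) (hu : ContDiffOn ℝ ∞ u (ball 0 r1)) :
    ∃ v : ℂ → E, ContDiff ℝ ∞ v ∧ HasCompactSupport v ∧ ∀ z ∈ ball (0 : ℂ) (r1 / 2), v z = u z := by
  let θ : ContDiffBump (0 : ℂ) := ⟨r1 / 2, 3 * r1 / 4, by positivity, by linarith⟩
  have hθ : ContDiff ℝ ∞ (θ : ℂ → ℝ) := θ.contDiff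
  refine ⟨fun z => θ z • u z, ?_, ?_, fun z hz => ?_⟩
  · rw [contDiff_iff_contDiffAt]
    intro z
    by_cases hz : z ∈ ball (0 : ℂ) r1
    · exact hθ.contDiffAt.smul (hu.contDiffAt (isOpen_ball.mem_nhds hz))
    · have hz' : z ∈ (closedBall (0 : ℂ) (3 * r1 / 4))ᶜ := by
        rw [mem_compl_iff, mem_closedBall]
        rw [mem_ball] at hz
        intro h; exact hz (lt_of_le_of_lt h (by linarith))
      refine (contDiffAt_const (c := (0 : E))).congr_of_eventuallyEq ?_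
      filter_upwards [isClosed_closedBall.isOpen_compl.mem_nhds hz'] with y hy
      rw [mem_compl_iff, mem_closedBall, not_le] at hy
      rw [θ.zero_of_le_dist hy.le, zero_smul]
  · exact θ.hasCompactSupport.smul_right
  · show θ z • u z = u z
    rw [θ.one_of_mem_closedBall (ball_subset_closedBall hz), one_smul]

/-- bounds for the derivatives of a compactly supported smooth function -/
theorem exists_bd {v : ℂ → E} (hv : ContDiff ℝ ∞ v) (hs : HasCompactSupport v) :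
    ∃ C : ℝ, 0 ≤ C ∧ ∀ n : ℕ, n ≤ 2 → ∀ z, ‖iteratedFDeriv ℝ n v z‖ ≤ C := by
  have h : ∀ n : ℕ, ∃ C : ℝ, ∀ z, ‖iteratedFDeriv ℝ n v z‖ ≤ C := fun n =>
    (hv.continuous_iteratedFDeriv (m := n) (by exact_mod_cast le_top)).bounded_above_of_compact_support
      (hs.iteratedFDeriv n)
  obtain ⟨C0, h0⟩ := h 0
  obtain ⟨C1, h1⟩ := h 1
  obtain ⟨C2, h2⟩ := h 2
  refine ⟨max C0 (max C1 C2), ?_, fun n hn z => ?_⟩
  · exact (norm_nonneg _).trans ((h0 0).trans (le_max_left _ _))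
  · interval_cases n
    · exact (h0 z).trans (le_max_left _ _)
    · exact (h1 z).trans ((le_max_left _ _).trans (le_max_right _ _))
    · exact (h2 z).trans ((le_max_right _ _).trans (le_max_right _ _))

/-- derivatives of `z ↦ R⁻¹ v (R z)` -/
theorem scale_bd {v : ℂ → E} (hv : ContDiff ℝ ∞ v) (hv0 : v 0 = 0) {C : ℝ} (hC0 : 0 ≤ C)
    (hC : ∀ n : ℕ, n ≤ 2 → ∀ z, ‖iteratedFDeriv ℝ n v z‖ ≤ C) {R : ℝ} (hR : 0 < R) (hR1 : R ≤ 1)
    (n : ℕ) (hn : n ≤ 2) (z : ℂ) (hz : ‖z‖ ≤ 3) :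
    ‖iteratedFDeriv ℝ n (fun z => R⁻¹ • v (R • z)) z‖ ≤ 3 * C := by
  rcases Nat.eq_zero_or_pos n with h0 | h0
  · subst h0
    rw [norm_iteratedFDeriv_zero, norm_smul, norm_inv, Real.norm_of_nonneg hR.le]
    have h1 : ‖v (R • z) - v 0‖ ≤ C * ‖R • z - 0‖ :=
      Convex.norm_image_sub_le_of_norm_fderiv_le (s := univ)
        (fun y _ => hv.differentiable (by simp) y)
        (fun y _ => by rw [← norm_iteratedFDeriv_one]; exact hC 1 (by norm_num) y) convex_univ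
        (mem_univ _) (mem_univ _)
    rw [hv0, sub_zero, sub_zero, norm_smul, Real.norm_of_nonneg hR.le] at h1
    rw [inv_mul_le_iff₀ hR]
    calc ‖v (R • z)‖ ≤ C * (R * ‖z‖) := h1
      _ ≤ C * (R * 3) := by gcongr
      _ = R * (3 * C) := by ring
  · let L : ℂ →L[ℝ] ℂ := R • ContinuousLinearMap.id ℝ ℂ
    have hL : ‖L‖ ≤ R := by
      show ‖R • ContinuousLinearMap.id ℝ ℂ‖ ≤ R
      rw [norm_smul, Real.norm_of_nonneg hR.le]
      exact mul_le_of_le_one_right hR.le ContinuousLinearMap.norm_id_le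
    have e1 : (fun z => R⁻¹ • v (R • z)) = fun z => R⁻¹ • (v ∘ L) z := rfl
    have hvn : ContDiff ℝ n v := hv.of_le (by exact_mod_cast le_top)
    rw [e1, iteratedFDeriv_const_smul_apply' (hvn.comp L.contDiff).contDiffAt, norm_smul,
      L.iteratedFDeriv_comp_right hvn z le_rfl, norm_inv, Real.norm_of_nonneg hR.le,
      inv_mul_le_iff₀ hR]
    refine ((iteratedFDeriv ℝ n v (L z)).norm_compContinuousLinearMap_le (fun _ => L)).trans ?_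
    rw [Finset.prod_const, Finset.card_univ, Fintype.card_fin]
    have h3 : ‖L‖ ^ n ≤ R := by
      calc ‖L‖ ^ n ≤ R ^ n := pow_le_pow_left₀ (norm_nonneg _) hL n
        _ ≤ R ^ 1 := pow_le_pow_of_le_one hR.le hR1 h0
        _ = R := pow_one R
    calc _ ≤ C * R := mul_le_mul (hC n hn _) h3 (by positivity) hC0
      _ ≤ R * (3 * C) := by nlinarith

/-- the scaled and cut off function in `C1a` -/
theorem exists_scaled {a : ℝ} (ha : 0 < a) (ha1 : a ≤ 1) {ψ : ℂ → ℝ} (hψ : ContDiff ℝ ∞ ψ)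
    (hψ0 : ∀ z, 3 ≤ ‖z‖ → ψ z = 0) {v : ℂ → E} (hv : ContDiff ℝ ∞ v) (hs : HasCompactSupport v)
    (hv0 : v 0 = 0) : ∃ C : ℝ, 0 ≤ C ∧ ∀ R : ℝ, 0 < R → R ≤ 1 →
      ∃ w : C1a a ℂ E, (∀ z, C1f w z = ψ z • R⁻¹ • v (R • z)) ∧ ‖w‖ ≤ C := by
  obtain ⟨C, hC0, hC⟩ := exists_bd hv hs
  have hψs : HasCompactSupport ψ := by
    refine HasCompactSupport.intro (isCompact_closedBall (0 : ℂ) 3) fun z hz => hψ0 z ?_
    rw [mem_closedBall, dist_zero_right, not_le] at hz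
    exact hz.le
  have hb : ∀ n : ℕ, ∃ X : ℝ, ∀ z, ‖iteratedFDeriv ℝ n ψ z‖ ≤ X := fun n =>
    (hψ.continuous_iteratedFDeriv (m := n) (by exact_mod_cast le_top)).bounded_above_of_compact_support
      (hψs.iteratedFDeriv n)
  choose X hX using hb
  have hX0 : ∀ n, 0 ≤ X n := fun n => (norm_nonneg _).trans (hX n 0)
  set Y : ℝ := X 0 + X 1 + X 2 with hY
  have hXY : ∀ n ≤ 2, X n ≤ Y := by
    intro n hn
    have h0 := hX0 0
    have h1 := hX0 1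
    have h2 := hX0 2
    interval_cases n <;> simp only [hY] <;> linarith
  have hY0 : 0 ≤ Y := (hX0 0).trans (hXY 0 (by norm_num))
  -- derivatives of `ψ` vanish outside the open ball of radius `3`
  have hout : ∀ n : ℕ, ∀ z, 3 < ‖z‖ → iteratedFDeriv ℝ n ψ z = 0 := by
    intro n z hz
    have h1 : ψ =ᶠ[𝓝 z] fun _ => 0 := by
      have h2 : {y : ℂ | 3 < ‖y‖} ∈ 𝓝 z := (isOpen_lt continuous_const continuous_norm).mem_nhds hz
      filter_upwards [h2] with y hy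
      exact hψ0 y (le_of_lt hy)
    have h3 := h1.iteratedFDeriv ℝ n
    rw [h3.self_of_nhds]
    exact congrFun (iteratedFDeriv_fun_zero (𝕜 := ℝ) (E := ℂ) (F := ℝ) (n := n)) z
  refine ⟨3 * (4 * (Y * (3 * C))), by positivity, fun R hR hR1 => ?_⟩
  have hws : ContDiff ℝ ∞ (fun z : ℂ => R⁻¹ • v (R • z)) :=
    contDiff_const.smul (hv.comp (contDiff_id.const_smul R))
  have hfs : ContDiff ℝ ∞ (fun z : ℂ => ψ z • R⁻¹ • v (R • z)) := hψ.smul hws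
  have key : Small (4 * (Y * (3 * C))) (fun z : ℂ => ψ z • R⁻¹ • v (R • z)) := by
    rw [NWSet_334.small_iff]
    intro z n hn
    have h1 := norm_iteratedFDeriv_smul_le (𝕜 := ℝ) (n := n) (N := ∞) hψ hws z
      (by exact_mod_cast le_top)
    refine h1.trans ?_
    have h2 : ∀ i ∈ Finset.range (n + 1), (n.choose i : ℝ) * ‖iteratedFDeriv ℝ i ψ z‖ *
        ‖iteratedFDeriv ℝ (n - i) (fun z : ℂ => R⁻¹ • v (R • z)) z‖ ≤
        (n.choose i : ℝ) * (Y * (3 * C)) := by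
      intro i hi
      rw [Finset.mem_range] at hi
      rw [mul_assoc]
      refine mul_le_mul_of_nonneg_left ?_ (Nat.cast_nonneg _)
      by_cases hz : ‖z‖ ≤ 3
      · exact mul_le_mul ((hX i z).trans (hXY i (by omega)))
          (scale_bd hv hv0 hC0 hC hR hR1 (n - i) (by omega) z hz) (norm_nonneg _) hY0
      · rw [hout i z (not_le.1 hz), norm_zero, zero_mul]
        positivity
    refine (Finset.sum_le_sum h2).trans ?_
    rw [← Finset.sum_mul]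
    refine mul_le_mul_of_nonneg_right ?_ (by positivity)
    have h3 : ∑ i ∈ Finset.range (n + 1), (n.choose i : ℝ) = 2 ^ n := by
      exact_mod_cast Nat.sum_range_choose n
    rw [h3]
    calc (2 : ℝ) ^ n ≤ 2 ^ 2 := pow_le_pow_right₀ one_le_two hn
      _ = 4 := by norm_num
  have hfs2 : ContDiff ℝ 2 (fun z : ℂ => ψ z • R⁻¹ • v (R • z)) := contDiff_infty.1 hfs 2
  obtain ⟨w, hw, hwn⟩ := exists_c1_of_c2 ha ha1 hfs2
    (fun z => (key z).1) (fun z => (key z).2.1) (fun z => (key z).2.2)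
  exact ⟨w, hw, hwn⟩

end aux

section main

variable {E : Type} [NormedAddCommGroup E] [NormedSpace ℂ E]

theorem dbl_of_diffC {f : ℂ → E} {z : ℂ} (h : DifferentiableAt ℂ f z) :
    dbl (fderiv ℝ f z) = 0 := by
  rw [dbl_eq_zero_iff]
  have h1 : fderiv ℝ f z = (fderiv ℂ f z).restrictScalars ℝ :=
    (h.hasFDerivAt.restrictScalars ℝ).fderiv
  rw [h1]
  show fderiv ℂ f z Complex.I = Complex.I • fderiv ℂ f z 1
  rw [← map_smul, smul_eq_mul, mul_one]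

/-- the polynomial perturbations -/
theorem exists_poly [FiniteDimensional ℂ E] (hF : FamStmt) {a : ℝ} (ha : 0 < a) (ha1 : a < 1)
    {ψ : ℂ → ℝ} (hψ : ContDiff ℝ ∞ ψ) (hψ0 : ∀ z, 3 ≤ ‖z‖ → ψ z = 0) (N : ℕ) :
    ∃ p : (Fin N → E) →L[ℝ] C1a a ℂ E, ∀ c z, C1f (p c) z =
      ψ z • ∑ k : Fin N, z ^ (k : ℕ) • c k := by
  obtain ⟨p, hp, hpf⟩ := hF (Fin N → E) E a ha ha1
    (fun q => ψ q.2 • ∑ k : Fin N, q.2 ^ (k : ℕ) • q.1 k) 3 (by
      refine (hψ.comp contDiff_snd).smul ?_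
      refine ContDiff.sum fun k _ => ?_
      have h1 : ContDiff ℝ ∞ (fun q : (Fin N → E) × ℂ => q.2 ^ (k : ℕ)) := contDiff_snd.pow _
      have h2 : ContDiff ℝ ∞ (fun q : (Fin N → E) × ℂ => q.1 k) :=
        (contDiff_apply ℝ E k).comp contDiff_fst
      exact h1.smul h2) (fun s z hz => by
      show ψ z • _ = (0 : E)
      rw [hψ0 z hz, zero_smul])
  have hcont : Continuous p := hp.continuous
  let L : (Fin N → E) →ₗ[ℝ] C1a a ℂ E :=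
    { toFun := p
      map_add' := by
        intro c c'
        refine c1_ext fun z => ?_
        rw [f_add, hpf, hpf, hpf]
        simp only [Pi.add_apply, smul_add, Finset.sum_add_distrib]
      map_smul' := by
        intro t c
        refine c1_ext fun z => ?_
        have h1 : ∑ k : Fin N, z ^ (k : ℕ) • (t • c) k = t • ∑ k : Fin N, z ^ (k : ℕ) • c k := by
          rw [Finset.smul_sum]
          exact Finset.sum_congr rfl fun k _ => smul_comm _ _ _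
        rw [RingHom.id_apply, f_smul, hpf, hpf, h1]
        exact smul_comm _ _ _ }
  exact ⟨⟨L, hcont⟩, hpf⟩

theorem dbl_poly {a : ℝ} {ψ : ℂ → ℝ} (hψ1 : ∀ z, ‖z‖ ≤ 2 → ψ z = 1) {N : ℕ}
    {p : C1a a ℂ E} {c : Fin N → E} (hp : ∀ z, C1f p z = ψ z • ∑ k : Fin N, z ^ (k : ℕ) • c k)
    (z : ℂ) (hz : ‖z‖ < 2) : dbl (C1d p z) = 0 := by
  rw [← c1_fderiv]
  have h1 : C1f p =ᶠ[𝓝 z] fun z => ∑ k : Fin N, z ^ (k : ℕ) • c k := by
    have h2 : {y : ℂ | ‖y‖ < 2} ∈ 𝓝 z := (isOpen_lt continuous_norm continuous_const).mem_nhds hz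
    filter_upwards [h2] with y hy
    rw [hp, hψ1 y (le_of_lt hy), one_smul]
  rw [h1.fderiv_eq]
  refine dbl_of_diffC ?_
  fun_prop

set_option maxHeartbeats 2000000 in
/-- **start**: the base solution -/
theorem exists_start {a : ℝ} (ha : 0 < a) {ψ : ℂ → ℝ} {T : Hol a ℂ E →L[ℝ] C1a a ℂ E}
    (hT : ∀ g : Hol a ℂ E, (∀ z, dbl (C1d (T g) z) = ψ z • Hol.fn g z) ∧
      Tendsto (C1f (T g)) (cocompact ℂ) (𝓝 0)) {κ : Hol a ℂ ℝ}
    (hκ : ∀ z, ‖z‖ < 2 → ψ z = 1 ∧ Hol.fn κ z = 1) {C1 : ℝ} {A : E → E →L[ℝ] E} (hA : BD A)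
    (hAS : Small 1 A) (ut : C1a a ℂ E) (hut : ‖ut‖ ≤ C1)
    (hJ : ∀ z, ‖z‖ < 2 → dbl (C1d ut z) = A (C1f ut z) (dl (C1d ut z))) :
    ∃ h0 : C1a a ℂ E, Sol T (hat (P := ℝ) A) (fun _ => 0) (κ, 0, 0) h0 ut ∧
      (∀ z, ‖z‖ < 2 → dbl (C1d h0 z) = 0) ∧
      ‖h0‖ ≤ C1 + ‖T‖ * (2 * ‖κ‖ * (2 * (1 + C1) * C1 + (1 + C1))) := by
  have hC1 : 0 ≤ C1 := (norm_nonneg _).trans hut
  have hu0 := norm_nonneg ut
  have hκ0 := norm_nonneg κ
  have hAb : BD (hat (P := ℝ) A) := bd_hat hA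
  have hA1 : Small 1 (hat (P := ℝ) A) := small_hat hA.smooth hAS
  have hb0 : BD (fun _ : ℝ × E => (0 : E)) := bd_zero
  have hb1 : Small 1 (fun _ : ℝ × E => (0 : E)) := small_zero zero_le_one
  obtain ⟨g0, hg0, hg0n⟩ := exists_rhs ha hAb.smooth hb0.smooth hA1 hb1 κ (0 : Hol a ℂ ℝ) ut
  have hn0 : ‖(0 : Hol a ℂ ℝ)‖ = 0 := norm_zero
  rw [hn0, add_zero] at hg0n
  have hs : Sol T (hat (P := ℝ) A) (fun _ => 0) (κ, 0, 0) (ut - T g0) ut := by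
    refine ⟨g0, fun z => ?_, (sub_add_cancel _ _).symm⟩
    have h5 : Hol.fn (0 : Hol a ℂ (ℂ →L[ℝ] ℂ)) z = 0 := rfl
    have h6 := rhs_zero (P := ℝ) (hat A) (fun _ => (0 : E)) (Hol.fn κ z)
      (Hol.fn (0 : Hol a ℂ ℝ) z) (C1f ut z) (C1d ut z)
    rw [hg0, ← h6, ← h5]
  obtain ⟨h0, hh0⟩ : ∃ h0 : C1a a ℂ E, h0 = ut - T g0 := ⟨_, rfl⟩
  rw [← hh0] at hs
  refine ⟨h0, hs, fun z hz => ?_, ?_⟩
  · have h1 := sol_dbl (P := ℝ) (A := hat A) (b := fun _ => 0) (κ := κ) (q := 0) (w := ut)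
      (h := h0) hT hs z
    rw [(hκ z hz).1, (hκ z hz).2, one_mul, one_smul, add_zero, hat_apply, hJ z hz] at h1
    exact add_eq_right.1 h1.symm
  · have h2 : ‖T g0‖ ≤ ‖T‖ * (2 * ‖κ‖ * (2 * (1 + C1) * C1 + (1 + C1))) := by
      refine (T.le_opNorm g0).trans (mul_le_mul_of_nonneg_left (hg0n.trans ?_) (norm_nonneg T))
      gcongr
    have h3 : ‖h0‖ ≤ ‖ut‖ + ‖T g0‖ := by rw [hh0]; exact norm_sub_le _ _
    linarith

set_option maxHeartbeats 4000000 in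
/-- the family of solutions -/
theorem exists_W (hF : FamStmt) {a : ℝ} (ha : 0 < a) (ha1 : a < 1) {ψ : ℂ → ℝ}
    {T : Hol a ℂ E →L[ℝ] C1a a ℂ E}
    (hT : ∀ g : Hol a ℂ E, (∀ z, dbl (C1d (T g) z) = ψ z • Hol.fn g z) ∧
      Tendsto (C1f (T g)) (cocompact ℂ) (𝓝 0)) {κ : Hol a ℂ ℝ}
    (hκ : ∀ z, ‖z‖ < 2 → ψ z = 1 ∧ Hol.fn κ z = 1) {K RN ε η : ℝ} (hη : 0 < η) (hK : ‖κ‖ < K)
    (hε : ε ≤ 1) {A : E → E →L[ℝ] E} {Φ : Par a ℝ × C1a a ℂ E → C1a a ℂ E}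
    (hΦ : ContDiffOn ℝ ∞ Φ (Dom a E ℝ K RN η))
    (hΦp : ∀ k h, (k, h) ∈ Dom a E ℝ K RN η →
        Sol T (hat A) (fun _ => 0) k h (Φ (k, h)) ∧ ‖Φ (k, h) - h‖ ≤ ε ∧
        (∀ c, ‖fderiv ℝ Φ (k, h) (0, c) - c‖ ≤ ε * ‖c‖) ∧
        ∀ w, ‖w‖ < 2 * RN + 1 → Sol T (hat A) (fun _ => 0) k h w → w = Φ (k, h))
    {S : Type} [NormedAddCommGroup S] [NormedSpace ℝ S] (p : S →L[ℝ] C1a a ℂ E)
    (h0 : C1a a ℂ E) (hd0 : ∀ z, ‖z‖ < 2 → dbl (C1d h0 z) = 0)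
    (hdp : ∀ c z, ‖z‖ < 2 → dbl (C1d (p c) z) = 0) (hRN : 3 * (‖h0‖ + ‖p‖) + 3 ≤ RN) :
    ∃ W : S → C1a a ℂ E, (∀ b ∈ ball (0 : S) 1,
      Sol T (hat (P := ℝ) A) (fun _ => 0) (κ, 0, 0) (h0 + p b) (W b) ∧ ‖W b‖ ≤ RN ∧
      ∃ W' : S →L[ℝ] C1a a ℂ E, HasFDerivAt W W' b ∧ ∀ c, ‖W' c - p c‖ ≤ ε * ‖p c‖) ∧
      (∀ b ∈ ball (0 : S) 1, ∀ z ∈ ball (0 : ℂ) 1,
        ContDiffAt ℝ ∞ (fun q : S × ℂ => C1f (W q.1) q.2) (b, z)) ∧
      ∀ w, ‖w‖ ≤ RN → Sol T (hat (P := ℝ) A) (fun _ => 0) (κ, 0, 0) h0 w → w = W 0 := by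
  have hκ0 := norm_nonneg κ
  have hp0 := norm_nonneg p
  have hh0 := norm_nonneg h0
  have hK0 : 0 < K := hκ0.trans_lt hK
  have hRN0 : 0 < RN := by linarith
  have hhb : ∀ b ∈ ball (0 : S) 1, ‖h0 + p b‖ ≤ ‖h0‖ + ‖p‖ := by
    intro b hb
    rw [mem_ball, dist_zero_right] at hb
    have h1 : ‖p b‖ ≤ ‖p‖ * ‖b‖ := p.le_opNorm b
    have h2 : ‖p‖ * ‖b‖ ≤ ‖p‖ * 1 := mul_le_mul_of_nonneg_left hb.le hp0
    have h3 := norm_add_le h0 (p b)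
    linarith
  have hD : ∀ b ∈ ball (0 : S) 1,
      (((κ, 0, 0) : Par a ℝ), h0 + p b) ∈ Dom a E ℝ K RN η := by
    intro b hb
    have h1 := hhb b hb
    refine ⟨hK, ?_, ?_, ?_⟩
    · show ‖(0 : Hol a ℂ ℝ)‖ < K
      rw [norm_zero]; exact hK0
    · show ‖(0 : Hol a ℂ (ℂ →L[ℝ] ℂ))‖ < η
      rw [norm_zero]; exact hη
    · show ‖h0 + p b‖ < RN
      linarith
  let Λ : S → Par a ℝ × C1a a ℂ E := fun b => ((κ, 0, 0), h0 + p b)
  let W : S → C1a a ℂ E := fun b => Φ (Λ b)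
  have hWn : ∀ b ∈ ball (0 : S) 1, ‖W b‖ ≤ ‖h0‖ + ‖p‖ + 1 := by
    intro b hb
    have h1 := (hΦp _ _ (hD b hb)).2.1
    have h2 := hhb b hb
    have h3 : ‖W b‖ ≤ ‖W b - (h0 + p b)‖ + ‖h0 + p b‖ := by
      conv_lhs => rw [← sub_add_cancel (W b) (h0 + p b)]
      exact norm_add_le _ _
    have h4 : ‖W b - (h0 + p b)‖ ≤ ε := h1
    linarith
  refine ⟨W, fun b hb => ⟨(hΦp _ _ (hD b hb)).1, ?_, ?_⟩, fun b hb z hz => ?_, fun w hw hs => ?_⟩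
  · have := hWn b hb
    linarith
  · have h1 : DifferentiableAt ℝ Φ (Λ b) :=
      (hΦ.contDiffAt ((isOpen_Dom a K RN η).mem_nhds (hD b hb))).differentiableAt (by simp)
    have h2 : HasFDerivAt Λ (ContinuousLinearMap.prod 0 p) b :=
      (hasFDerivAt_const _ b).prodMk ((p.hasFDerivAt).const_add h0)
    refine ⟨_, h1.hasFDerivAt.comp b h2, fun c => ?_⟩
    exact (hΦp _ _ (hD b hb)).2.2.1 (p c)
  · have hw : ∀ᶠ s in 𝓝 b, Sol T (hat (P := ℝ) A) (fun _ => 0) (κ, 0, 0) (h0 + p s) (W s) ∧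
        6 * ‖W s‖ < 2 * RN + 1 := by
      filter_upwards [isOpen_ball.mem_nhds hb] with s hs
      refine ⟨(hΦp _ _ (hD s hs)).1, ?_⟩
      have := hWn s hs
      linarith
    have hin : ∀ y ∈ ball z 1, ‖y‖ < 2 := by
      intro y hy
      rw [mem_ball, dist_zero_right] at hz
      rw [mem_ball, dist_eq_norm] at hy
      calc ‖y‖ = ‖(y - z) + z‖ := by rw [sub_add_cancel]
        _ ≤ ‖y - z‖ + ‖z‖ := norm_add_le _ _
        _ < 2 := by linarith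
    refine regp (P := ℝ) hF ha ha1 hT hη hΦ (fun k h hk => (hΦp k h hk).2.2.2)
      (h := fun s => h0 + p s) (w := W) (κ := κ) (q0 := 0) (Q := fun _ => 0) ?_ contDiff_const
      (HasCompactSupport.zero) (fun z => rfl) hK ?_ ?_ hw one_pos
      (fun y hy => ⟨(hκ y (hin y hy)).2, (hκ y (hin y hy)).1⟩) ?_
    · exact (contDiff_const.add p.contDiff).contDiffAt
    · show ‖(0 : Hol a ℂ ℝ)‖ < K
      rw [norm_zero]; exact hK0
    · show ‖h0 + p b‖ < RN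
      have := hhb b hb
      linarith
    · refine Eventually.of_forall fun s y hy => ?_
      show dbl (C1d (h0 + p s) y) = 0
      rw [d_add, dbl_add, hd0 y (hin y hy), hdp s y (hin y hy), add_zero]
  · have h1 : h0 + p 0 = h0 := by rw [map_zero, add_zero]
    have h2 := (hΦp _ _ (hD 0 (mem_ball_self one_pos))).2.2.2 w (by linarith)
    rw [h1] at h2
    have h3 := h2 hs
    show w = Φ ((κ, 0, 0), h0 + p 0)
    rw [h1]; exact h3

/-- the equation of a scaled `J`-disc -/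
theorem eq_of_disc {a : ℝ} {J : E → E →L[ℝ] E} {u v : ℂ → E} {r1 R RN : ℝ} (hr1 : 0 < r1)
    (hR : 0 < R) (hR8 : R ≤ r1 / 8) (huJ : JHol J u (ball 0 r1))
    (hvu : ∀ z ∈ ball (0 : ℂ) (r1 / 2), v z = u z) {ψ : ℂ → ℝ} (hψ1 : ∀ z, ‖z‖ ≤ 2 → ψ z = 1)
    {A : E → E →L[ℝ] E}
    (hAJ : ∀ x : E, ‖x‖ ≤ RN → ∀ L : ℂ →L[ℝ] E,
      (dbl L = A x (dl L) ↔ ∀ v : ℂ, L (Complex.I * v) = J (R • x) (L v)))
    (w : C1a a ℂ E) (hw : ∀ z, C1f w z = ψ z • R⁻¹ • v (R • z)) (z : ℂ) (hz : ‖z‖ < 2)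
    (hwn : ‖C1f w z‖ ≤ RN) : dbl (C1d w z) = A (C1f w z) (dl (C1d w z)) := by
  have hin : ∀ y : ℂ, ‖y‖ < 2 → R • y ∈ ball (0 : ℂ) (r1 / 2) := by
    intro y hy
    rw [mem_ball, dist_zero_right, norm_smul, Real.norm_of_nonneg hR.le]
    calc R * ‖y‖ ≤ (r1 / 8) * 2 := by gcongr
      _ < r1 / 2 := by linarith
  have h1 : C1f w =ᶠ[𝓝 z] fun y => R⁻¹ • u (R • y) := by
    have h2 : {y : ℂ | ‖y‖ < 2} ∈ 𝓝 z := (isOpen_lt continuous_norm continuous_const).mem_nhds hz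
    filter_upwards [h2] with y hy
    rw [hw, hψ1 y (le_of_lt hy), one_smul, hvu _ (hin y hy)]
  have hmem : R • z ∈ ball (0 : ℂ) r1 := ball_subset_ball (by linarith) (hin z hz)
  obtain ⟨hd, hh⟩ := huJ (R • z) hmem
  have h3 : C1d w z = fderiv ℝ u (R • z) := by
    rw [← c1_fderiv, h1.fderiv_eq]
    have h4 : HasFDerivAt (fun y : ℂ => R • y) (R • ContinuousLinearMap.id ℝ ℂ) z :=
      (hasFDerivAt_id z).const_smul R
    have h5 : HasFDerivAt (fun y : ℂ => R⁻¹ • u (R • y))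
        (R⁻¹ • (fderiv ℝ u (R • z)).comp (R • ContinuousLinearMap.id ℝ ℂ)) z :=
      (hd.hasFDerivAt.comp z h4).const_smul R⁻¹
    rw [h5.fderiv, ContinuousLinearMap.comp_smul, smul_smul, inv_mul_cancel₀ hR.ne', one_smul,
      ContinuousLinearMap.comp_id]
  have h6 : R • C1f w z = u (R • z) := by
    rw [h1.self_of_nhds, smul_smul, mul_inv_cancel₀ hR.ne', one_smul]
  rw [hAJ _ hwn, h3, h6]
  exact hh

set_option maxHeartbeats 4000000 in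
/-- general form of `VarStmt` -/
theorem var_gen (hT : CauchyStmt) (hN : NStmt) (hF : FamStmt) [FiniteDimensional ℂ E]
    (J : E → E →L[ℝ] E) (r : ℝ) (hJ : ACS J r) (u : ℂ → E) (r1 : ℝ) (hr1 : 0 < r1)
    (hu : ContDiffOn ℝ ∞ u (ball 0 r1)) (hu0 : u 0 = 0) (huJ : JHol J u (ball 0 r1))
    (N : ℕ) (δ : ℝ) (hδ : 0 < δ) : ∃ R0 : ℝ, 0 < R0 ∧ R0 < r1 ∧ ∀ R : ℝ, 0 < R → R ≤ R0 →
    ∃ U : (Fin N → E) × ℂ → E,
      ContDiffOn ℝ ∞ U (ball (0 : Fin N → E) 1 ×ˢ ball (0 : ℂ) 1) ∧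
      (∀ z ∈ ball (0 : ℂ) 1, U (0, z) = R⁻¹ • u (R • z)) ∧
      (∀ p ∈ ball (0 : Fin N → E) 1 ×ˢ ball (0 : ℂ) 1, R • U p ∈ ball (0 : E) r) ∧
      (∀ b ∈ ball (0 : Fin N → E) 1,
        JHol (fun y => J (R • y)) (fun z => U (b, z)) (ball 0 1)) ∧
      ∀ b ∈ ball (0 : Fin N → E) 1, ∀ c : Fin N → E, ∀ z ∈ ball (0 : ℂ) 1,
        ‖fderiv ℝ U (b, z) (c, 0) - ∑ k : Fin N, z ^ (k : ℕ) • c k‖ ≤ δ * ‖c‖ ∧
        ‖fderiv ℝ (fun y => fderiv ℝ U (b, y) (c, 0) - ∑ k : Fin N, y ^ (k : ℕ) • c k) z‖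
          ≤ δ * ‖c‖ := by
  have ha : (0 : ℝ) < 1 / 2 := by norm_num
  have ha1 : (1 / 2 : ℝ) < 1 := by norm_num
  obtain ⟨a, haa⟩ : ∃ a : ℝ, a = 1 / 2 := ⟨_, rfl⟩
  rw [← haa] at ha ha1
  let β : ContDiffBump (0 : ℂ) := ⟨2, 3, by norm_num, by norm_num⟩
  obtain ⟨ψ, hβψ⟩ : ∃ ψ : ℂ → ℝ, ψ = β := ⟨_, rfl⟩
  have hψ : ContDiff ℝ ∞ ψ := hβψ ▸ β.contDiff
  have hψs : HasCompactSupport ψ := hβψ ▸ β.hasCompactSupport
  have hψ0 : ∀ z, 3 ≤ ‖z‖ → ψ z = 0 := fun z hz => by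
    rw [hβψ]; exact β.zero_of_le_dist (by rw [dist_zero_right]; exact hz)
  have hψ1 : ∀ z, ‖z‖ ≤ 2 → ψ z = 1 := fun z hz => by
    rw [hβψ]; exact β.one_of_mem_closedBall (by rw [mem_closedBall, dist_zero_right]; exact hz)
  obtain ⟨T, hT⟩ := hT E a ha ha1 ψ hψ hψs
  obtain ⟨κ1, hκ1⟩ := exists_cst hF ha ha1 hψ hψ0
  obtain ⟨κ, hκ'⟩ : ∃ κ : Hol a ℂ ℝ, ∀ z, Hol.fn κ z = ψ z := ⟨valC κ1, hκ1⟩
  have hκ : ∀ z : ℂ, ‖z‖ < 2 → ψ z = 1 ∧ Hol.fn κ z = 1 := fun z hz =>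
    ⟨hψ1 z hz.le, by rw [hκ', hψ1 z hz.le]⟩
  obtain ⟨p, hp⟩ := exists_poly (E := E) hF ha ha1 hψ hψ0 N
  obtain ⟨v, hv, hvs, hvu⟩ := exists_cut hr1 hu
  have hv0 : v 0 = 0 := by rw [hvu 0 (mem_ball_self (by positivity)), hu0]
  obtain ⟨C1, hC1, hsc⟩ := exists_scaled ha ha1.le hψ hψ0 hv hvs hv0
  -- constants
  have hκ0 := norm_nonneg κ
  have hT0 := norm_nonneg T
  have hp0 := norm_nonneg p
  obtain ⟨C2, hC2⟩ : ∃ C2 : ℝ, C2 = 2 * ‖κ‖ * (2 * (1 + C1) * C1 + (1 + C1)) := ⟨_, rfl⟩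
  have hC20 : 0 ≤ C2 := by rw [hC2]; positivity
  obtain ⟨H0, hH0⟩ : ∃ H0 : ℝ, H0 = C1 + ‖T‖ * C2 := ⟨_, rfl⟩
  have hH00 : C1 ≤ H0 := by rw [hH0]; linarith [mul_nonneg hT0 hC20]
  obtain ⟨RN, hRN⟩ : ∃ RN : ℝ, RN = 3 * (H0 + ‖p‖) + 3 := ⟨_, rfl⟩
  have hRN0 : 0 < RN := by rw [hRN]; linarith
  obtain ⟨ε, hε⟩ : ∃ ε : ℝ, ε = min 1 (δ / (‖p‖ + 1)) := ⟨_, rfl⟩
  have hε0 : 0 < ε := by rw [hε]; positivity
  have hε1 : ε ≤ 1 := by rw [hε]; exact min_le_left _ _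
  have hε2 : ε * ‖p‖ ≤ δ := by
    have h1 : ε ≤ δ / (‖p‖ + 1) := by rw [hε]; exact min_le_right _ _
    calc ε * ‖p‖ ≤ δ / (‖p‖ + 1) * (‖p‖ + 1) := by gcongr; linarith
      _ = δ := by field_simp
  obtain ⟨η, hη, hN⟩ := hN E ℝ a ha ha1 T (‖κ‖ + 1) RN ε (by positivity) hRN0 hε0
  obtain ⟨R0', hR0', hR0B, hJS⟩ := jstmt E J r hJ RN (min η 1) hRN0 (lt_min hη one_pos)
  refine ⟨min R0' (min 1 (r1 / 8)), by positivity, ?_, fun R hR hRR => ?_⟩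
  · calc min R0' (min 1 (r1 / 8)) ≤ r1 / 8 := (min_le_right _ _).trans (min_le_right _ _)
      _ < r1 := by linarith
  have hRa : R ≤ R0' := hRR.trans (min_le_left _ _)
  have hRb : R ≤ 1 := hRR.trans ((min_le_right _ _).trans (min_le_left _ _))
  have hRc : R ≤ r1 / 8 := hRR.trans ((min_le_right _ _).trans (min_le_right _ _))
  obtain ⟨A, hAB, hAS, hAJ⟩ := hJS R hR hRa
  obtain ⟨ut, hut, hutn⟩ := hsc R hR hRb
  have hAη : Small η (hat (P := ℝ) A) :=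
    Small.mono (min_le_left _ _) (small_hat hAB.smooth hAS)
  have hAb : BD (hat (P := ℝ) A) := bd_hat hAB
  have hb0 : BD (fun _ : ℝ × E => (0 : E)) := bd_zero
  have hb1 : Small η (fun _ : ℝ × E => (0 : E)) := small_zero hη.le
  obtain ⟨Φ, hΦ, hΦp⟩ := hN (hat A) (fun _ => 0) hAb hb0 hAη hb1
  have hutRN : ‖ut‖ ≤ RN := by rw [hRN]; linarith
  obtain ⟨h0, hs0, hd0, hn0⟩ := exists_start ha hT hκ hAB (Small.mono (min_le_right _ _) hAS) ut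
    hutn fun z hz => eq_of_disc hr1 hR hRc huJ hvu hψ1 hAJ ut hut z hz
      ((norm_f_le ha ut z).trans hutRN)
  rw [← hC2, ← hH0] at hn0
  obtain ⟨W, hW, hWs, hW0⟩ := exists_W hF ha ha1 hT hκ hη (lt_add_one ‖κ‖) hε1 hΦ hΦp p h0 hd0
    (fun c z hz => dbl_poly hψ1 (hp c) z hz) (by rw [hRN]; linarith)
  have hnorm : ∀ b ∈ ball (0 : Fin N → E) 1, ∀ z, ‖C1f (W b) z‖ ≤ RN := fun b hb z =>
    (norm_f_le ha (W b) z).trans (hW b hb).2.1
  refine ⟨fun q => C1f (W q.1) q.2, fun q hq => (hWs q.1 hq.1 q.2 hq.2).contDiffWithinAt,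
    fun z hz => ?_, fun q hq => ?_, fun b hb z hz => ⟨c1_diff (W b) z, ?_⟩,
    fun b hb c z hz => ?_⟩
  · rw [mem_ball, dist_zero_right] at hz
    show C1f (W 0) z = _
    rw [← hW0 ut hutRN hs0, hut, hψ1 z (by linarith), one_smul, hvu]
    rw [mem_ball, dist_zero_right, norm_smul, Real.norm_of_nonneg hR.le]
    calc R * ‖z‖ ≤ r1 / 8 * 1 := by gcongr
      _ < r1 / 2 := by linarith
  · rw [mem_ball, dist_zero_right, norm_smul, Real.norm_of_nonneg hR.le]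
    calc R * ‖C1f (W q.1) q.2‖ ≤ R0' * RN := by
          gcongr
          exact hnorm q.1 hq.1 q.2
      _ < r := hR0B
  · rw [mem_ball, dist_zero_right] at hz
    have hz2 : ‖z‖ < 2 := by linarith
    have h1 := sol_dbl (P := ℝ) (A := hat A) (b := fun _ => 0) (κ := κ) (q := 0) (w := W b)
      (h := h0 + p b) hT (hW b hb).1 z
    rw [(hκ z hz2).1, (hκ z hz2).2, one_mul, one_smul, add_zero, hat_apply, d_add, dbl_add,
      hd0 z hz2, dbl_poly hψ1 (hp b) z hz2, add_zero, zero_add] at h1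
    show ∀ v : ℂ, fderiv ℝ (C1f (W b)) z (Complex.I * v) =
      J (R • C1f (W b) z) (fderiv ℝ (C1f (W b)) z v)
    rw [c1_fderiv]
    exact (hAJ _ (hnorm b hb z) _).1 h1
  · obtain ⟨-, -, W', hW', hWe⟩ := hW b hb
    have key : ∀ y ∈ ball (0 : ℂ) 1,
        fderiv ℝ (fun q : (Fin N → E) × ℂ => C1f (W q.1) q.2) (b, y) (c, 0) -
          ∑ k : Fin N, y ^ (k : ℕ) • c k = C1f (W' c - p c) y := by
      intro y hy
      have h1 : DifferentiableAt ℝ (fun q : (Fin N → E) × ℂ => C1f (W q.1) q.2) (b, y) :=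
        (hWs b hb y hy).differentiableAt (by simp)
      have h2 : HasFDerivAt (fun s : Fin N → E => C1f (W s) y)
          ((fderiv ℝ (fun q : (Fin N → E) × ℂ => C1f (W q.1) q.2) (b, y)).comp
            (ContinuousLinearMap.prod (ContinuousLinearMap.id ℝ _) 0)) b :=
        HasFDerivAt.comp (f := fun s : Fin N → E => (s, y)) b h1.hasFDerivAt
          ((hasFDerivAt_id b).prodMk (hasFDerivAt_const y b))
      have h3 : HasFDerivAt (fun s : Fin N → E => C1f (W s) y)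
          ((ev0 (a := a) (E := E) y).comp W') b :=
        (ev0 (a := a) (E := E) y).hasFDerivAt.comp b hW'
      have h4 := DFunLike.congr_fun (h2.unique h3) c
      have h5 : fderiv ℝ (fun q : (Fin N → E) × ℂ => C1f (W q.1) q.2) (b, y) (c, 0) =
          C1f (W' c) y := h4
      rw [mem_ball, dist_zero_right] at hy
      rw [h5, f_sub, hp, hψ1 y (by linarith), one_smul]
    have hce : ‖W' c - p c‖ ≤ δ * ‖c‖ := by
      calc ‖W' c - p c‖ ≤ ε * ‖p c‖ := hWe c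
        _ ≤ ε * (‖p‖ * ‖c‖) := by gcongr; exact p.le_opNorm c
        _ = (ε * ‖p‖) * ‖c‖ := by ring
        _ ≤ δ * ‖c‖ := by gcongr
    refine ⟨?_, ?_⟩
    · rw [key z hz]
      exact (norm_f_le ha _ z).trans hce
    · have h6 : (fun y => fderiv ℝ (fun q : (Fin N → E) × ℂ => C1f (W q.1) q.2) (b, y) (c, 0) -
          ∑ k : Fin N, y ^ (k : ℕ) • c k) =ᶠ[𝓝 z] C1f (W' c - p c) := by
        filter_upwards [isOpen_ball.mem_nhds hz] with y hy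
        exact key y hy
      rw [h6.fderiv_eq, c1_fderiv]
      exact (norm_d_le ha _ z).trans hce

/-- **VAR** -/
theorem var (hT : CauchyStmt) (hN : NStmt) (hF : FamStmt) : VarStmt := by
  intro J r hJ u r1 hr1 hu hu0 _ huJ N δ hδ
  exact var_gen hT hN hF J r hJ u r1 hr1 hu hu0 huJ N δ hδ

end main

end

end Crest.Agent.R235.NWVar_428
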