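import Crest.Agent.R235.Sim3_679
import Crest.Agent.R235.NWDefs_334

/-!
Row 235, NW4: the exported statement `SimStmt` of `NWDefs_334`.
-/

set_option autoImplicit false

noncomputable section

namespace Crest.Agent.R235.SimStmt_679

open Set Metric MeasureTheory Filter Topology
open Crest.Agent.R235.CauchyV_679 Crest.Agent.R235.Sim3_679 Crest.Agent.R235.NWDefs_334

theorem dzb_eq {E : Type*} [NormedAddCommGroup E] [NormedSpace ℂ E] (f : ℂ → E) (z : ℂ) :
    dzb f z = db f z := rfl

theorem sim_stmt : SimStmt := by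
  intro n f r C hr hf h
  rcases lead0 hr hf h with h1 | ⟨k, G, hG1, hG2, hG3⟩
  · exact Or.inl h1
  · right
    refine ⟨k, G 0, hG2, ?_⟩
    have h2 : Tendsto G (𝓝[≠] 0) (𝓝 (G 0)) := hG1.tendsto.mono_left nhdsWithin_le_nhds
    refine h2.congr' ?_
    filter_upwards [nhdsWithin_le_nhds hG3, self_mem_nhdsWithin] with z h3 h4
    have h5 : z ^ k ≠ 0 := pow_ne_zero _ h4
    rw [h3, smul_smul, inv_mul_cancel₀ h5, one_smul]

end Crest.Agent.R235.SimStmt_679
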