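import Crest.Agent.R235.NWFin_334
import Crest.Agent.R235.NWVar_428
import Crest.Agent.R235.NWReg1F_847
import Crest.Agent.R235.NWReg2F_52
import Crest.Agent.R235.NWBel_601
import Crest.Agent.R235.SimStmt_679
import Crest.Agent.R235.NWRegF_930

/-!
# Row 235, PACKAGE NW (helper334): all exported theorems
-/

set_option autoImplicit false

namespace Crest.Agent.R235.NWAll_334

open Crest.Agent.R235.NWDefs_334 Crest.Agent.R235.NWIface_334

/-- variations of a `J`-disc -/
theorem var_stmt : VarStmt := NWVar_428.var NWFin_334.cauchy NWFin_334.nst NWFin_334.fam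

/-- local foliations -/
theorem fol_stmt : FolStmt := NWFin_334.fol_stmt

/-- Beltrami coordinate -/
theorem bel_stmt : BelStmt := NWBel_601.bel

/-- similarity principle -/
theorem sim_stmt : SimStmt := SimStmt_679.sim_stmt

theorem reg1_stmt : Reg1Stmt := NWReg1_847.reg1_of NWFin_334.cauchy

theorem reg2_stmt : Reg2Stmt := NWReg2F_52.reg2_stmt

/-- regularity -/
theorem reg_stmt : RegStmt := NWRegF_930.reg_stmt

end Crest.Agent.R235.NWAll_334
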