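import Crest.Agent.R235.BoxD_266
import Crest.Agent.R235.AdjPair_43

/-!
Row 235 (S0364), package ADJ (helper266): assembly of `Adj.Box` / `Adj.BOXP` from the foliation box,
the weak formula (`WEAKP`, helper250) and the winding numbers (`WINDP`, helper688).
-/

set_option autoImplicit false
set_option maxSynthPendingDepth 3

open Set Function Filter MeasureTheory Metric
open scoped Manifold ContDiff Topology

universe u

namespace Crest.Agent.R235.BoxL2_266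

open Crest.Agent.R240 Crest.Agent.R240.Ch Crest.Agent.R240.Int
open Crest.Agent.R235 Crest.Agent.R235.Glob_370 Crest.Agent.R235.Wind_688
open Crest.Agent.R235.NWDefs_334 Crest.Agent.R235.BrNF_266 Crest.Agent.R235.Adj
open Crest.Agent.R235.RootProd_266 Crest.Agent.R235.BranchProd_266

noncomputable section

/-- the two descriptions of the neighbourhoods. -/
theorem UU_eq_image {M : Type u} [TopologicalSpace M] [ChartedSpace E4 M]
    [IsManifold 𝓘(ℝ, E4) ∞ M] {J : EndF E4 M} {c : JCurve J} {p : M} {V : Set M}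
    (B : FBox c p V) {δ : ℝ} (hδ : δ ≤ B.R) : UU B δ = B.Θ '' ball (0 : ℂ × ℂ) δ := by
  ext x
  constructor
  · rintro ⟨h1, h2⟩
    exact ⟨B.Θ.symm x, h2, B.Θ.right_inv h1⟩
  · rintro ⟨y, hy, rfl⟩
    exact Θ_mem_UU B hδ hy

section Closed

variable {M : Type u} [TopologicalSpace M] [T2Space M] [CompactSpace M]
  [ChartedSpace E4 M] [IsManifold 𝓘(ℝ, E4) ∞ M]
variable {J : EndF E4 M} {c : JCurve J} {p : M} {V : Set M} {B : FBox c p V}

/-- **the Box from its pieces.** -/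
def mkBox {w : Trip M} (hw : Pos3 w) (hJ : IsJ w J) (P : Pl B) {δ : ℝ} (hδ : 0 < δ)
    (hδP : δ ≤ P.δ) {r0 : ℝ} (hr : 0 < r0) (hr1 : r0 ≤ B.r1)
    (h : ∀ j, ∀ s ∈ ball (0 : ℂ) r0, s ∈ (P.e j).source ∧ B.v j s ∈ ball (0 : ℂ × ℂ) δ ∧
      (c.L p).u j s ∈ UU B δ)
    (weak : ∀ χ : M → ℝ, SmoothF E4 χ → tsupport χ ⊆ UU B δ → ∀ (η : Z2 M) (b : X2 M),
      (b.1 : F2 E4 M) = fmul χ (η.1.1 : F2 E4 M) →
      c.T b = II (w 0) (wedG (dArg P.F) (dF χ)) (η.1.1 : F2 E4 M))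
    (m : Fin (c.L p).n → ℤ)
    (wind : ∀ j, ∀ r : ℝ, 0 < r → r < r0 → IsW (P.kap w j) 0 r (m j))
    (m_nonneg : ∀ j, 0 ≤ m j)
    (m_pos : ∀ j, (1 < (c.L p).n ∨ dmap ((c.L p).u j) 0 1 = 0) → 1 ≤ m j)
    (other : p ∈ range c.f → ∀ v : ℂ → M, IsDisc J v → v 0 = p →
      (∀ z ∈ ball (0 : ℂ) 1, v z ∈ range c.f → z = 0) →
      ∃ n : ℤ, 1 ≤ n ∧ WAt (fun z => P.F (v z)) 0 n) : Box w c p V where
  U := UU B δ
  openU := isOpen_UU B δ
  mem := p_mem_UU B hδ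
  subV := UU_subV B δ
  subL := UU_subL B δ
  F := P.F
  cont := P.F_continuousOn.mono (UU_mono B hδP)
  zero := fun _ hx => P.F_zero (UU_mono B hδP hx)
  E := Pl.EE B
  closedE := Pl.isOpen_sdiff_EE B δ
  smooth := fun _ hx hE => P.F_smooth (UU_mono B hδP hx) hE
  E_sub := fun _ hx hE hc => P.EE_sub (UU_mono B hδP hx) hE hc
  reg := fun _ h => Pl.EE_reg B h
  weak := weak
  κ := P.kap w
  r0 := r0
  r0_pos := hr
  r0_le := hr1.trans B.r1_le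
  inU := fun j z hz => (h j z hz).2.2
  κ_eq := fun j z hz hz0 v =>
    P.kap_eq hw hJ (h j z hz).1 hz0 (Pl.norm_fst_lt' P hδP (h j z hz).2.1) v
  m := m
  wind := wind
  m_nonneg := m_nonneg
  m_pos := m_pos
  other := other

end Closed

/-- **WEAKP** (owner helper250): the weak equation of `(1/2π) d arg F` in small neighbourhoods. -/
def WEAKP : Prop :=
  ∀ (M : Type u) [TopologicalSpace M] [T2Space M] [CompactSpace M] [ConnectedSpace M]
    [ChartedSpace E4 M] [IsManifold 𝓘(ℝ, E4) ∞ M] (w : Trip M) (J : EndF E4 M), Pos3 w → IsJ w J →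
    ∀ (c : JCurve J) (p : M) (V : Set M) (B : FBox c p V) (P : Pl B), ∃ δ0 : ℝ, 0 < δ0 ∧
      ∀ δ : ℝ, 0 < δ → δ ≤ δ0 → ∀ χ : M → ℝ, SmoothF E4 χ → tsupport χ ⊆ UU B δ →
        ∀ (η : Z2 M) (b : X2 M), (b.1 : F2 E4 M) = fmul χ (η.1.1 : F2 E4 M) →
          c.T b = II (w 0) (wedG (dArg P.F) (dF χ)) (η.1.1 : F2 E4 M)

/-- **WINDP** (owner helper688): the winding numbers of `κ` and of `F` along another disc. -/
def WINDP : Prop :=
  ∀ (M : Type u) [TopologicalSpace M] [T2Space M] [CompactSpace M] [ConnectedSpace M]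
    [ChartedSpace E4 M] [IsManifold 𝓘(ℝ, E4) ∞ M] (w : Trip M) (J : EndF E4 M), Pos3 w → IsJ w J →
    ∀ (c : JCurve J) (p : M) (V : Set M) (B : FBox c p V) (P : Pl B), ∃ r1 : ℝ, 0 < r1 ∧
      ∃ m : Fin (c.L p).n → ℤ, (∀ j, ∀ r : ℝ, 0 < r → r < r1 → IsW (P.kap w j) 0 r (m j)) ∧
        (∀ j, 0 ≤ m j) ∧
        (∀ j, (1 < (c.L p).n ∨ dmap ((c.L p).u j) 0 1 = 0) → 1 ≤ m j) ∧
        (p ∈ range c.f → ∀ v : ℂ → M, IsDisc J v → v 0 = p →
          (∀ z ∈ ball (0 : ℂ) 1, v z ∈ range c.f → z = 0) →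
          ∃ n : ℤ, 1 ≤ n ∧ WAt (fun z => P.F (v z)) 0 n)

/-- the box of a foliation box. -/
theorem exists_box (hW : WEAKP.{u}) (hN : WINDP.{u}) {M : Type u} [TopologicalSpace M] [T2Space M]
    [CompactSpace M] [ConnectedSpace M] [ChartedSpace E4 M] [IsManifold 𝓘(ℝ, E4) ∞ M]
    {w : Trip M} {J : EndF E4 M} (hw : Pos3 w) (hJ : IsJ w J) {c : JCurve J} {p : M} {V : Set M}
    (B : FBox c p V) : ∃ X : Box w c p V, X.E ⊆ Pl.EE B ∧ X.U ⊆ B.Θ.target := by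
  obtain ⟨P⟩ := exists_pl B
  obtain ⟨δ0, hδ0, hweak⟩ := hW M w J hw hJ c p V B P
  obtain ⟨r1, hr1, m, hm1, hm2, hm3, hm4⟩ := hN M w J hw hJ c p V B P
  set δ : ℝ := min P.δ δ0 with hδ
  have hδp : 0 < δ := lt_min P.δ_pos hδ0
  obtain ⟨r2, hr2, hr2B, hr2h⟩ := Pl.exists_r0 P hδp
  refine ⟨mkBox hw hJ P hδp (min_le_left _ _) (lt_min hr1 hr2) ((min_le_right _ _).trans hr2B)
    (fun j s hs => hr2h j s (ball_subset_ball (min_le_right _ _) hs))
    (hweak δ hδp (min_le_right _ _)) m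
    (fun j r h1 h2 => hm1 j r h1 (h2.trans_le (min_le_left _ _))) hm2 hm3 hm4,
    Subset.rfl, fun x hx => hx.1⟩

/-- **BOXP** from FBOXP, WEAKP, WINDP. -/
theorem boxp_of (hF : FBOXP.{u}) (hW : WEAKP.{u}) (hN : WINDP.{u}) : BOXP.{u} := by
  intro M _ _ _ _ _ _ w J hw hJ c c' p V hV hpV hp
  obtain ⟨B, hB⟩ := hF M J hJ.smooth hJ.sq c c' p V hV hpV hp
  obtain ⟨X, hX, hXU⟩ := exists_box hW hN hw hJ B
  refine ⟨X, fun x hxU hxE hxc => ?_⟩
  have hE := hX hxE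
  have h1 : B.Θ.symm x ∈ ball (0 : ℂ × ℂ) B.R := symm_mem_ball' B hE.1
  have h2 : B.Θ (B.Θ.symm x) ∈ range c'.f := by
    rw [B.Θ.right_inv hE.1]
    exact hxc
  have h3 := hB _ h1 hE.2.1 h2
  rw [← B.Θ.right_inv hE.1, h3, B.centre]
where
  symm_mem_ball' {M : Type u} [TopologicalSpace M] [ChartedSpace E4 M] [IsManifold 𝓘(ℝ, E4) ∞ M]
      {J : EndF E4 M} {c : JCurve J} {p : M} {V : Set M} (B : FBox c p V) {x : M}
      (hx : x ∈ B.Θ.target) : B.Θ.symm x ∈ ball (0 : ℂ × ℂ) B.R := by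
    rw [← B.source]
    exact B.Θ.map_target hx

end

end Crest.Agent.R235.BoxL2_266
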