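import Mathlib
import Crest.Agent.R240.Ch4
import Crest.Agent.R240.Ch7

/-!
Row 235 (S0364), helper129: pull-back of forms by smooth maps `Φ : G → M` from a normed space
`G` (any) to the manifold.
-/

set_option autoImplicit false
set_option maxSynthPendingDepth 3
set_option linter.unusedSectionVars false

open Set Function Filter
open scoped Manifold ContDiff Topology

namespace Crest.Agent.R235.Pull_129

open Crest.Agent.R240.Ch

noncomputable section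

/-! ### local calculus between different spaces -/

section Local

variable {G E : Type*} [NormedAddCommGroup G] [NormedSpace ℝ G] [NormedAddCommGroup E]
  [NormedSpace ℝ E]

/-- naturality of the exterior derivative of one-forms. -/
lemma d1_pull {s : E → E →L[ℝ] ℝ} {t : G → G →L[ℝ] ℝ} {φ : G → E} {y : G}
    (hφ : ContDiffAt ℝ ∞ φ y) (hs : DifferentiableAt ℝ s (φ y))
    (ht : ∀ᶠ z in 𝓝 y, t z = (s (φ z)).comp (fderiv ℝ φ z)) (u v : G) :
    d1 t y u v = d1 s (φ y) (fderiv ℝ φ y u) (fderiv ℝ φ y v) := by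
  have hd : DifferentiableAt ℝ φ y := hφ.differentiableAt infty_ne_zero
  have hdd : DifferentiableAt ℝ (fderiv ℝ φ) y :=
    (hφ.fderiv_right (m := ∞) (by simp)).differentiableAt infty_ne_zero
  have key : ∀ u v, fderiv ℝ t y u v = fderiv ℝ s (φ y) (fderiv ℝ φ y u) (fderiv ℝ φ y v)
      + s (φ y) (fderiv ℝ (fderiv ℝ φ) y u v) := by
    intro u v
    rw [Filter.EventuallyEq.fderiv_eq ht]
    have h1 : DifferentiableAt ℝ (fun z => s (φ z)) y := hs.comp y hd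
    have h2 : fderiv ℝ (fun z => s (φ z)) y = (fderiv ℝ s (φ y)).comp (fderiv ℝ φ y) :=
      fderiv_comp y hs hd
    rw [fderiv_clm_comp h1 hdd, h2]
    simp only [add_apply, ContinuousLinearMap.comp_apply, ContinuousLinearMap.compL_apply,
      ContinuousLinearMap.flip_apply]
    ring
  rw [d1_apply, d1_apply, key, key, snd_symm hφ u v]
  ring

/-- naturality of the exterior derivative of two-forms. -/
lemma dd_pull {b : E → E →L[ℝ] E →L[ℝ] ℝ} {t : G → G →L[ℝ] G →L[ℝ] ℝ} {φ : G → E} {y : G}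
    (hφ : ContDiffAt ℝ ∞ φ y)
    (hb : DifferentiableAt ℝ b (φ y)) (halt : ∀ u v, b (φ y) u v = - b (φ y) v u)
    (htd : DifferentiableAt ℝ t y)
    (ht : ∀ᶠ z in 𝓝 y, ∀ u v, t z u v = b (φ z) (fderiv ℝ φ z u) (fderiv ℝ φ z v)) (u v w : G) :
    dd t y u v w = dd b (φ y) (fderiv ℝ φ y u) (fderiv ℝ φ y v) (fderiv ℝ φ y w) := by
  have hd : DifferentiableAt ℝ φ y := hφ.differentiableAt infty_ne_zero
  have hdd : DifferentiableAt ℝ (fderiv ℝ φ) y :=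
    (hφ.fderiv_right (m := ∞) (by simp)).differentiableAt infty_ne_zero
  have hc : ∀ v : G, DifferentiableAt ℝ (fun z => fderiv ℝ φ z v) y := fun v =>
    hdd.clm_apply (differentiableAt_const v)
  have hcv : ∀ u v : G, fderiv ℝ (fun z => fderiv ℝ φ z v) y u = fderiv ℝ (fderiv ℝ φ) y u v := by
    intro u v
    rw [fderiv_clm_apply hdd (differentiableAt_const v)]
    simp
  have hbφ : DifferentiableAt ℝ (fun z => b (φ z)) y := hb.comp y hd
  have hbφ' : fderiv ℝ (fun z => b (φ z)) y = (fderiv ℝ b (φ y)).comp (fderiv ℝ φ y) :=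
    fderiv_comp y hb hd
  have key : ∀ u v w, fderiv ℝ t y u v w =
      fderiv ℝ b (φ y) (fderiv ℝ φ y u) (fderiv ℝ φ y v) (fderiv ℝ φ y w)
      + b (φ y) (fderiv ℝ (fderiv ℝ φ) y u v) (fderiv ℝ φ y w)
      + b (φ y) (fderiv ℝ φ y v) (fderiv ℝ (fderiv ℝ φ) y u w) := by
    intro u v w
    have h1 : fderiv ℝ (fun z => t z v w) y u = fderiv ℝ t y u v w := by
      have h2 : DifferentiableAt ℝ (fun z => t z v) y := htd.clm_apply (differentiableAt_const v)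
      rw [fderiv_clm_apply h2 (differentiableAt_const w),
        fderiv_clm_apply htd (differentiableAt_const v)]
      simp
    have h3 : (fun z => t z v w) =ᶠ[𝓝 y] fun z => b (φ z) (fderiv ℝ φ z v) (fderiv ℝ φ z w) :=
      ht.mono fun z hz => hz v w
    have h4 : fderiv ℝ (fun z => b (φ z) (fderiv ℝ φ z v) (fderiv ℝ φ z w)) y u =
        fderiv ℝ (fun z => b (φ z)) y u (fderiv ℝ φ y v) (fderiv ℝ φ y w)
        + b (φ y) (fderiv ℝ (fun z => fderiv ℝ φ z v) y u) (fderiv ℝ φ y w)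
        + b (φ y) (fderiv ℝ φ y v) (fderiv ℝ (fun z => fderiv ℝ φ z w) y u) := by
      have h5 : DifferentiableAt ℝ (fun z => b (φ z) (fderiv ℝ φ z v)) y :=
        hbφ.clm_apply (hc v)
      rw [fderiv_clm_apply h5 (hc w), fderiv_clm_apply hbφ (hc v)]
      simp only [add_apply, ContinuousLinearMap.comp_apply, ContinuousLinearMap.flip_apply]
      ring
    rw [← h1, h3.fderiv_eq, h4, hcv, hcv, hbφ']
    rfl
  unfold dd
  rw [key, key, key, snd_symm hφ v u, snd_symm hφ w u, snd_symm hφ w v,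
    halt (fderiv ℝ (fderiv ℝ φ) y u w) (fderiv ℝ φ y v)]
  ring

end Local

/-! ### the pull-backs -/

section Man

variable {G E : Type*} [NormedAddCommGroup G] [NormedSpace ℝ G] [NormedAddCommGroup E]
  [NormedSpace ℝ E]
variable {M : Type*} [TopologicalSpace M] [ChartedSpace E M] [IsManifold 𝓘(ℝ, E) ∞ M]

/-- the differential of `Φ` at `q`, in the preferred chart at `Φ q`. -/
def dL (Φ : G → M) (q : G) : G →L[ℝ] E := fderiv ℝ (fun z => chartAt E (Φ q) (Φ z)) q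

/-- the pull-back of a one-form. -/
def pb1 (Φ : G → M) (s : F1 E M) (q : G) : G →L[ℝ] ℝ := (at1 s (Φ q)).comp (dL Φ q)

/-- the pull-back of a two-form. -/
def pb2 (Φ : G → M) (a : F2 E M) (q : G) : G →L[ℝ] G →L[ℝ] ℝ :=
  (at2 a (Φ q)).bilinearComp (dL Φ q) (dL Φ q)

lemma pb1_apply (Φ : G → M) (s : F1 E M) (q u : G) : pb1 Φ s q u = at1 s (Φ q) (dL Φ q u) := rfl

lemma pb2_apply (Φ : G → M) (a : F2 E M) (q u v : G) :
    pb2 Φ a q u v = at2 a (Φ q) (dL Φ q u) (dL Φ q v) := rfl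

/-- `Φ` in the chart at `p`. -/
def inC (p : M) (Φ : G → M) (z : G) : E := chartAt E p (Φ z)

variable {Φ : G → M} {U : Set G} {q : G} {p : M}

lemma inC_contDiffAt (h : ContMDiffAt 𝓘(ℝ, G) 𝓘(ℝ, E) ∞ Φ q)
    (hp : Φ q ∈ (chartAt E p).source) : ContDiffAt ℝ ∞ (inC (E := E) p Φ) q := by
  have hc : ContMDiffAt 𝓘(ℝ, E) 𝓘(ℝ, E) ∞ (chartAt E p) (Φ q) :=
    (contMDiffOn_chart (I := 𝓘(ℝ, E)) (x := p)).contMDiffAt
      ((chartAt E p).open_source.mem_nhds hp)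
  exact (hc.comp q h).contDiffAt

lemma inC_ev (h : ContinuousAt Φ q) (hp : Φ q ∈ (chartAt E p).source) (p' : M) :
    ∀ᶠ z in 𝓝 q, inC p' Φ z = trans (E := E) p p' (inC p Φ z) := by
  filter_upwards [h.eventually ((chartAt E p).open_source.mem_nhds hp)] with z hz
  exact (trans_apply hz).symm

lemma fderiv_inC (h : ContMDiffAt 𝓘(ℝ, G) 𝓘(ℝ, E) ∞ Φ q) (hp : Φ q ∈ (chartAt E p).source)
    (v : G) : fderiv ℝ (inC (E := E) p Φ) q v = tcc (Φ q) p (Φ q) (dL Φ q v) := by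
  have h1 := inC_ev (E := E) h.continuousAt (mem_chart_source E (Φ q)) p
  have hy : chartAt E (Φ q) (Φ q) ∈ (chartAt E (Φ q)).target := mem_chart_target E (Φ q)
  have hq : (chartAt E (Φ q)).symm (chartAt E (Φ q) (Φ q)) ∈ (chartAt E p).source := by
    rw [(chartAt E (Φ q)).left_inv (mem_chart_source E (Φ q))]; exact hp
  have ht : DifferentiableAt ℝ (trans (E := E) (Φ q) p) (inC (Φ q) Φ q) :=
    (trans_contDiffAt hy hq).differentiableAt infty_ne_zero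
  have hi : DifferentiableAt ℝ (inC (E := E) (Φ q) Φ) q :=
    (inC_contDiffAt h (mem_chart_source E (Φ q))).differentiableAt infty_ne_zero
  rw [Filter.EventuallyEq.fderiv_eq h1]
  have h2 := fderiv_comp q ht hi
  have h3 : fderiv ℝ (fun z => trans (E := E) (Φ q) p (inC (Φ q) Φ z)) q =
    (fderiv ℝ (trans (E := E) (Φ q) p) (inC (Φ q) Φ q)).comp (fderiv ℝ (inC (E := E) (Φ q) Φ) q) :=
    h2
  rw [h3, tcc_eq_fderiv_trans]
  rfl

lemma pb1_chart (h : ContMDiffAt 𝓘(ℝ, G) 𝓘(ℝ, E) ∞ Φ q) (hp : Φ q ∈ (chartAt E p).source)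
    (s : F1 E M) : pb1 Φ s q = (rep1 p s (inC p Φ q)).comp (fderiv ℝ (inC (E := E) p Φ) q) := by
  ext v
  rw [pb1_apply, ContinuousLinearMap.comp_apply, fderiv_inC h hp]
  exact apply_eq_rep1 hp s _

lemma pb2_chart (h : ContMDiffAt 𝓘(ℝ, G) 𝓘(ℝ, E) ∞ Φ q) (hp : Φ q ∈ (chartAt E p).source)
    (a : F2 E M) (u v : G) : pb2 Φ a q u v = rep p a (inC p Φ q) (fderiv ℝ (inC (E := E) p Φ) q u)
      (fderiv ℝ (inC (E := E) p Φ) q v) := by
  rw [pb2_apply, fderiv_inC h hp, fderiv_inC h hp]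
  exact apply_eq_rep hp a _ _

lemma ev_source (hU : IsOpen U) (h : ContMDiffOn 𝓘(ℝ, G) 𝓘(ℝ, E) ∞ Φ U) (hq : q ∈ U)
    (hp : Φ q ∈ (chartAt E p).source) :
    ∀ᶠ z in 𝓝 q, z ∈ U ∧ ContMDiffAt 𝓘(ℝ, G) 𝓘(ℝ, E) ∞ Φ z ∧ Φ z ∈ (chartAt E p).source := by
  have hc : ContinuousAt Φ q := (h.contMDiffAt (hU.mem_nhds hq)).continuousAt
  filter_upwards [hU.mem_nhds hq, hc.eventually ((chartAt E p).open_source.mem_nhds hp)]
    with z hz hz'
  exact ⟨hz, h.contMDiffAt (hU.mem_nhds hz), hz'⟩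

lemma pb1_chart_ev (hU : IsOpen U) (h : ContMDiffOn 𝓘(ℝ, G) 𝓘(ℝ, E) ∞ Φ U) (hq : q ∈ U)
    (hp : Φ q ∈ (chartAt E p).source) (s : F1 E M) :
    ∀ᶠ z in 𝓝 q, pb1 Φ s z = (rep1 p s (inC p Φ z)).comp (fderiv ℝ (inC (E := E) p Φ) z) := by
  filter_upwards [ev_source hU h hq hp] with z hz
  exact pb1_chart hz.2.1 hz.2.2 s

lemma pb2_chart_ev (hU : IsOpen U) (h : ContMDiffOn 𝓘(ℝ, G) 𝓘(ℝ, E) ∞ Φ U) (hq : q ∈ U)
    (hp : Φ q ∈ (chartAt E p).source) (a : F2 E M) :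
    ∀ᶠ z in 𝓝 q, ∀ u v, pb2 Φ a z u v = rep p a (inC p Φ z) (fderiv ℝ (inC (E := E) p Φ) z u)
      (fderiv ℝ (inC (E := E) p Φ) z v) := by
  filter_upwards [ev_source hU h hq hp] with z hz
  exact pb2_chart hz.2.1 hz.2.2 a

lemma pb1_contDiffAt (hU : IsOpen U) (h : ContMDiffOn 𝓘(ℝ, G) 𝓘(ℝ, E) ∞ Φ U) (hq : q ∈ U)
    (hp : Φ q ∈ (chartAt E p).source) {s : F1 E M}
    (hs : ContDiffAt ℝ ∞ (rep1 p s) (chartAt E p (Φ q))) : ContDiffAt ℝ ∞ (pb1 Φ s) q := by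
  refine ContDiffAt.congr_of_eventuallyEq ?_ (pb1_chart_ev hU h hq hp s)
  have h1 := inC_contDiffAt (h.contMDiffAt (hU.mem_nhds hq)) hp
  have h2 : ContDiffAt ℝ ∞ (fun z => rep1 p s (inC p Φ z)) q :=
    ContDiffAt.comp q (g := rep1 p s) hs h1
  exact h2.clm_comp (h1.fderiv_right (m := ∞) (by simp))

theorem pb1_contDiffOn (hU : IsOpen U) (h : ContMDiffOn 𝓘(ℝ, G) 𝓘(ℝ, E) ∞ Φ U) {s : F1 E M}
    (hs : Smooth1 s) : ContDiffOn ℝ ∞ (pb1 Φ s) U := fun q hq =>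
  (pb1_contDiffAt hU h hq (mem_chart_source E (Φ q))
    (hs.at (mem_chart_target E (Φ q)))).contDiffWithinAt

lemma pb2_contDiffAt (hU : IsOpen U) (h : ContMDiffOn 𝓘(ℝ, G) 𝓘(ℝ, E) ∞ Φ U) (hq : q ∈ U)
    (hp : Φ q ∈ (chartAt E p).source) {a : F2 E M}
    (ha : ContDiffAt ℝ ∞ (rep p a) (chartAt E p (Φ q))) : ContDiffAt ℝ ∞ (pb2 Φ a) q := by
  have h1 := inC_contDiffAt (h.contMDiffAt (hU.mem_nhds hq)) hp
  have h2 : ContDiffAt ℝ ∞ (fun z => rep p a (inC p Φ z)) q :=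
    ContDiffAt.comp q (g := rep p a) ha h1
  have h3 : ContDiffAt ℝ ∞ (fderiv ℝ (inC (E := E) p Φ)) q := h1.fderiv_right (m := ∞) (by simp)
  have h4 : ContDiffAt ℝ ∞ (fun z =>
      ((ContinuousLinearMap.compL ℝ G E ℝ).flip (fderiv ℝ (inC (E := E) p Φ) z)).comp
        ((rep p a (inC p Φ z)).comp (fderiv ℝ (inC (E := E) p Φ) z))) q := by
    have h5 : ContDiffAt ℝ ∞ (fun z =>
        (ContinuousLinearMap.compL ℝ G E ℝ).flip (fderiv ℝ (inC (E := E) p Φ) z)) q :=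
      ((ContinuousLinearMap.compL ℝ G E ℝ).flip.contDiff.contDiffAt).comp q h3
    exact h5.clm_comp (h2.clm_comp h3)
  refine h4.congr_of_eventuallyEq ?_
  filter_upwards [pb2_chart_ev hU h hq hp a] with z hz
  ext u v
  rw [hz]
  rfl

theorem pb2_contDiffOn (hU : IsOpen U) (h : ContMDiffOn 𝓘(ℝ, G) 𝓘(ℝ, E) ∞ Φ U) {a : F2 E M}
    (ha : Smooth2 a) : ContDiffOn ℝ ∞ (pb2 Φ a) U := fun q hq =>
  (pb2_contDiffAt hU h hq (mem_chart_source E (Φ q))
    (ha.at (mem_chart_target E (Φ q)))).contDiffWithinAt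

/-- the pull-back commutes with the exterior derivative. -/
theorem d1_pb1 (hU : IsOpen U) (h : ContMDiffOn 𝓘(ℝ, G) 𝓘(ℝ, E) ∞ Φ U) (hq : q ∈ U)
    {s : F1 E M} (hs : Smooth1 s) (u v : G) : d1 (pb1 Φ s) q u v = pb2 Φ (dG s) q u v := by
  have hp := mem_chart_source E (Φ q)
  have h0 := h.contMDiffAt (hU.mem_nhds hq)
  rw [d1_pull (inC_contDiffAt h0 hp)
    ((hs.at (mem_chart_target E (Φ q))).differentiableAt infty_ne_zero)
    (pb1_chart_ev hU h hq hp s), pb2_chart h0 hp]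
  have hrd : rep (Φ q) (dG s) (inC (Φ q) Φ q) = d1 (rep1 (Φ q) s) (inC (Φ q) Φ q) :=
    rep_dG hs (mem_chart_target E (Φ q))
  rw [hrd]

theorem dd_pb2 (hU : IsOpen U) (h : ContMDiffOn 𝓘(ℝ, G) 𝓘(ℝ, E) ∞ Φ U) (hq : q ∈ U)
    {a : F2 E M} (ha : Smooth2 a) (hc : Closed2 a) (u v w : G) : dd (pb2 Φ a) q u v w = 0 := by
  have hp := mem_chart_source E (Φ q)
  have h0 := h.contMDiffAt (hU.mem_nhds hq)
  rw [dd_pull (inC_contDiffAt h0 hp) (ha.diff (mem_chart_target E (Φ q)))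
    (fun u v => ha.antisymm_rep _ _ u v)
    (((pb2_contDiffOn hU h ha).contDiffAt (hU.mem_nhds hq)).differentiableAt infty_ne_zero)
    (pb2_chart_ev hU h hq hp a)]
  exact hc (Φ q) _ (mem_chart_target E (Φ q)) _ _ _

/-! ### functions -/

lemma comp_contDiffAt (h : ContMDiffAt 𝓘(ℝ, G) 𝓘(ℝ, E) ∞ Φ q)
    (hp : Φ q ∈ (chartAt E p).source) {f : M → ℝ}
    (hf : ContDiffAt ℝ ∞ (repF p f) (chartAt E p (Φ q))) :
    ContDiffAt ℝ ∞ (fun z => f (Φ z)) q :=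
  (((contMDiffAt_F hp f).2 hf).comp q h).contDiffAt

theorem comp_contDiffOn (hU : IsOpen U) (h : ContMDiffOn 𝓘(ℝ, G) 𝓘(ℝ, E) ∞ Φ U) {f : M → ℝ}
    (hf : SmoothF E f) : ContDiffOn ℝ ∞ (fun z => f (Φ z)) U := fun q hq =>
  (comp_contDiffAt (h.contMDiffAt (hU.mem_nhds hq)) (mem_chart_source E (Φ q))
    (hf.at (mem_chart_target E (Φ q)))).contDiffWithinAt

/-- the pull-back of `df`, local version. -/
lemma pb1_dF_at (h : ContMDiffAt 𝓘(ℝ, G) 𝓘(ℝ, E) ∞ Φ q) {f : M → ℝ}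
    (hf : ContDiffAt ℝ ∞ (repF (Φ q) f) (chartAt E (Φ q) (Φ q))) :
    pb1 Φ (dF (E := E) f) q = fderiv ℝ (fun z => f (Φ z)) q := by
  have hp := mem_chart_source E (Φ q)
  have h1 : (fun z => f (Φ z)) =ᶠ[𝓝 q] fun z => repF (E := E) (Φ q) f (inC (Φ q) Φ z) := by
    filter_upwards [h.continuousAt.eventually ((chartAt E (Φ q)).open_source.mem_nhds hp)]
      with z hz
    exact (repF_chart hz f).symm
  rw [h1.fderiv_eq]
  have h2 := fderiv_comp (f := inC (E := E) (Φ q) Φ) (g := repF (E := E) (Φ q) f) q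
    (hf.differentiableAt infty_ne_zero) ((inC_contDiffAt h hp).differentiableAt infty_ne_zero)
  exact h2.symm

theorem pb1_dF (h : ContMDiffAt 𝓘(ℝ, G) 𝓘(ℝ, E) ∞ Φ q) {f : M → ℝ} (hf : SmoothF E f) :
    pb1 Φ (dF (E := E) f) q = fderiv ℝ (fun z => f (Φ z)) q :=
  pb1_dF_at h (hf.at (mem_chart_target E (Φ q)))

/-! ### algebra -/

lemma pb1_add (s t : F1 E M) : pb1 Φ (s + t) q = pb1 Φ s q + pb1 Φ t q := rfl
lemma pb1_smul (c : ℝ) (s : F1 E M) : pb1 Φ (c • s) q = c • pb1 Φ s q := rfl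
lemma pb1_fmul1 (f : M → ℝ) (s : F1 E M) : pb1 Φ (fmul1 f s) q = f (Φ q) • pb1 Φ s q := rfl
lemma pb2_add (a b : F2 E M) : pb2 Φ (a + b) q = pb2 Φ a q + pb2 Φ b q := rfl
lemma pb2_smul (c : ℝ) (a : F2 E M) : pb2 Φ (c • a) q = c • pb2 Φ a q := rfl
lemma pb2_fmul (f : M → ℝ) (a : F2 E M) : pb2 Φ (fmul f a) q = f (Φ q) • pb2 Φ a q := rfl
lemma pb2_wedG (s t : F1 E M) (u v : G) : pb2 Φ (wedG s t) q u v =
    pb1 Φ s q u * pb1 Φ t q v - pb1 Φ t q u * pb1 Φ s q v := rfl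

/-! ### the chain rule -/

variable {H : Type*} [NormedAddCommGroup H] [NormedSpace ℝ H]

lemma dL_comp {g : H → G} {z : H} (h : ContMDiffAt 𝓘(ℝ, G) 𝓘(ℝ, E) ∞ Φ (g z))
    (hg : DifferentiableAt ℝ g z) :
    dL (E := E) (fun y => Φ (g y)) z = (dL (E := E) Φ (g z)).comp (fderiv ℝ g z) := by
  have h1 := fderiv_comp (f := g) (g := inC (E := E) (Φ (g z)) Φ) z
    ((inC_contDiffAt h (mem_chart_source E _)).differentiableAt infty_ne_zero) hg
  exact h1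

lemma pb1_comp {g : H → G} {z : H} (h : ContMDiffAt 𝓘(ℝ, G) 𝓘(ℝ, E) ∞ Φ (g z))
    (hg : DifferentiableAt ℝ g z) (s : F1 E M) :
    pb1 (fun y => Φ (g y)) s z = (pb1 Φ s (g z)).comp (fderiv ℝ g z) := by
  ext u
  rw [pb1_apply, dL_comp h hg]
  rfl

lemma pb2_comp {g : H → G} {z : H} (h : ContMDiffAt 𝓘(ℝ, G) 𝓘(ℝ, E) ∞ Φ (g z))
    (hg : DifferentiableAt ℝ g z) (a : F2 E M) (u v : H) :
    pb2 (fun y => Φ (g y)) a z u v = pb2 Φ a (g z) (fderiv ℝ g z u) (fderiv ℝ g z v) := by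
  rw [pb2_apply, dL_comp h hg]
  rfl

lemma dL_congr {Ψ : G → M} (h : Φ =ᶠ[𝓝 q] Ψ) : dL (E := E) Φ q = dL (E := E) Ψ q := by
  unfold dL
  rw [h.eq_of_nhds]
  apply Filter.EventuallyEq.fderiv_eq
  filter_upwards [h] with z hz
  rw [hz]

lemma pb1_congr {Ψ : G → M} (h : Φ =ᶠ[𝓝 q] Ψ) (s : F1 E M) : pb1 Φ s q = pb1 Ψ s q := by
  ext u
  rw [pb1_apply, pb1_apply, dL_congr h, h.eq_of_nhds]

lemma pb2_congr {Ψ : G → M} (h : Φ =ᶠ[𝓝 q] Ψ) (a : F2 E M) : pb2 Φ a q = pb2 Ψ a q := by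
  ext u v
  rw [pb2_apply, pb2_apply, dL_congr h, h.eq_of_nhds]

lemma comp_contMDiffAt {g : H → G} {z : H} (h : ContMDiffAt 𝓘(ℝ, G) 𝓘(ℝ, E) ∞ Φ (g z))
    (hg : ContDiffAt ℝ ∞ g z) : ContMDiffAt 𝓘(ℝ, H) 𝓘(ℝ, E) ∞ (fun y => Φ (g y)) z :=
  h.comp z hg.contMDiffAt

end Man

/-! ### local inverse -/

section Inv

variable {G E : Type*} [NormedAddCommGroup G] [NormedSpace ℝ G] [NormedAddCommGroup E]
  [NormedSpace ℝ E] [FiniteDimensional ℝ G] [FiniteDimensional ℝ E]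
variable {M : Type*} [TopologicalSpace M] [ChartedSpace E M] [IsManifold 𝓘(ℝ, E) ∞ M]

/-- the inverse function theorem in `M`: a smooth local inverse in every chart. -/
theorem exists_inv {Φ : G → M} {q : G} {p : M} (h : ContMDiffAt 𝓘(ℝ, G) 𝓘(ℝ, E) ∞ Φ q)
    (hb : Bijective (dL (E := E) Φ q)) (hp : Φ q ∈ (chartAt E p).source) :
    ∃ ψ : E → G, ContDiffAt ℝ ∞ ψ (chartAt E p (Φ q)) ∧ ψ (chartAt E p (Φ q)) = q ∧
      (∀ᶠ y in 𝓝 (chartAt E p (Φ q)), Φ (ψ y) = (chartAt E p).symm y) ∧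
      (∀ᶠ z in 𝓝 q, ψ (chartAt E p (Φ z)) = z) ∧
      (∀ v, fderiv ℝ ψ (chartAt E p (Φ q)) (fderiv ℝ (inC (E := E) p Φ) q v) = v) := by
  have : CompleteSpace G := FiniteDimensional.complete ℝ G
  have : CompleteSpace E := FiniteDimensional.complete ℝ E
  have h1 : ContDiffAt ℝ ∞ (inC (E := E) p Φ) q := inC_contDiffAt h hp
  have hd : DifferentiableAt ℝ (inC (E := E) p Φ) q := h1.differentiableAt infty_ne_zero
  have hbij : Bijective (fderiv ℝ (inC (E := E) p Φ) q) := by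
    constructor
    · intro u v huv
      rw [fderiv_inC h hp, fderiv_inC h hp] at huv
      have h2 := congrArg (fun w => tcc (E := E) p (Φ q) (Φ q) w) huv
      simp only [tcc_cancel' hp] at h2
      exact hb.1 h2
    · intro w
      obtain ⟨v, hv⟩ := hb.2 (tcc (E := E) p (Φ q) (Φ q) w)
      refine ⟨v, ?_⟩
      rw [fderiv_inC h hp, hv, tcc_cancel hp]
  let e : G ≃L[ℝ] E := ContinuousLinearEquiv.ofBijective (fderiv ℝ (inC (E := E) p Φ) q)
    (LinearMap.ker_eq_bot.2 hbij.1) (LinearMap.range_eq_top.2 hbij.2)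
  have he : (e : G →L[ℝ] E) = fderiv ℝ (inC (E := E) p Φ) q := rfl
  have hfd : HasFDerivAt (inC (E := E) p Φ) (e : G →L[ℝ] E) q := by
    rw [he]; exact hd.hasFDerivAt
  have hne : (∞ : WithTop ℕ∞) ≠ 0 := infty_ne_zero
  let T := h1.toOpenPartialHomeomorph (inC (E := E) p Φ) hfd hne
  have hTq : q ∈ T.source := h1.mem_toOpenPartialHomeomorph_source hfd hne
  have hTc : ∀ z, T z = chartAt E p (Φ z) := fun z => rfl
  have hTt : chartAt E p (Φ q) ∈ T.target := by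
    have := T.map_source hTq
    rwa [hTc] at this
  have hsymm : T.symm (chartAt E p (Φ q)) = q := by
    have := T.left_inv hTq
    rwa [hTc] at this
  have hψ : ContDiffAt ℝ ∞ T.symm (chartAt E p (Φ q)) := h1.to_localInverse hfd hne
  have hcont : ContinuousAt Φ q := h.continuousAt
  have hev2 : ∀ᶠ z in 𝓝 q, T.symm (chartAt E p (Φ z)) = z := by
    filter_upwards [T.open_source.mem_nhds hTq] with z hz
    have := T.left_inv hz
    rwa [hTc] at this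
  refine ⟨T.symm, hψ, hsymm, ?_, hev2, ?_⟩
  · have h3 : ∀ᶠ y in 𝓝 (chartAt E p (Φ q)), Φ (T.symm y) ∈ (chartAt E p).source := by
      have h4 : ContinuousAt (fun y => Φ (T.symm y)) (chartAt E p (Φ q)) := by
        refine ContinuousAt.comp (g := Φ) ?_ hψ.continuousAt
        rw [hsymm]; exact hcont
      refine h4.eventually ((chartAt E p).open_source.mem_nhds ?_)
      show Φ (T.symm (chartAt E p (Φ q))) ∈ _
      rw [hsymm]; exact hp
    filter_upwards [T.open_target.mem_nhds hTt, h3] with y hy hy2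
    have h5 := T.right_inv hy
    rw [hTc] at h5
    rw [← h5, (chartAt E p).left_inv hy2, h5]
  · intro v
    have h6 : HasFDerivAt (fun z => T.symm (chartAt E p (Φ z)))
        ((fderiv ℝ T.symm (chartAt E p (Φ q))).comp (fderiv ℝ (inC (E := E) p Φ) q)) q :=
      HasFDerivAt.comp q (g := T.symm) (f := inC (E := E) p Φ)
        (hψ.differentiableAt infty_ne_zero).hasFDerivAt hd.hasFDerivAt
    have h7 : HasFDerivAt (fun z => T.symm (chartAt E p (Φ z))) (ContinuousLinearMap.id ℝ G) q :=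
      (hasFDerivAt_id q).congr_of_eventuallyEq hev2
    have h8 := h6.unique h7
    have h9 := congrArg (fun L : G →L[ℝ] G => L v) h8
    exact h9

/-- a function on `M` is smooth near `Φ q` if its pull-back is. -/
theorem repF_contDiffAt {Φ : G → M} {q : G} {p : M} (h : ContMDiffAt 𝓘(ℝ, G) 𝓘(ℝ, E) ∞ Φ q)
    (hb : Bijective (dL (E := E) Φ q)) (hp : Φ q ∈ (chartAt E p).source) {f : M → ℝ}
    (hf : ContDiffAt ℝ ∞ (fun z => f (Φ z)) q) :
    ContDiffAt ℝ ∞ (repF p f) (chartAt E p (Φ q)) := by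
  obtain ⟨ψ, h1, h2, h3, h4, h5⟩ := exists_inv h hb hp
  have h6 : ContDiffAt ℝ ∞ (fun y => f (Φ (ψ y))) (chartAt E p (Φ q)) := by
    refine ContDiffAt.comp (chartAt E p (Φ q)) (g := fun z => f (Φ z)) ?_ h1
    rw [h2]; exact hf
  refine h6.congr_of_eventuallyEq ?_
  filter_upwards [h3] with y hy
  rw [hy]; rfl

/-- the representation of a one-form from its pull-back. -/
theorem rep1_ev {Φ : G → M} {U : Set G} {q : G} {p : M} (hU : IsOpen U)
    (h : ContMDiffOn 𝓘(ℝ, G) 𝓘(ℝ, E) ∞ Φ U) (hb : ∀ z ∈ U, Bijective (dL (E := E) Φ z))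
    (hq : q ∈ U) (hp : Φ q ∈ (chartAt E p).source) (s : F1 E M) :
    ∃ ψ : E → G, ContDiffAt ℝ ∞ ψ (chartAt E p (Φ q)) ∧ ψ (chartAt E p (Φ q)) = q ∧
      (∀ᶠ y in 𝓝 (chartAt E p (Φ q)), rep1 p s y = (pb1 Φ s (ψ y)).comp (fderiv ℝ ψ y)) := by
  have h0 := h.contMDiffAt (hU.mem_nhds hq)
  obtain ⟨ψ, h1, h2, h3, h4, h5⟩ := exists_inv h0 (hb q hq) hp
  refine ⟨ψ, h1, h2, ?_⟩
  have e1 : ∀ᶠ y in 𝓝 (chartAt E p (Φ q)), ψ y ∈ U := by
    have : ContinuousAt ψ (chartAt E p (Φ q)) := h1.continuousAt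
    refine this.eventually (hU.mem_nhds ?_)
    rw [h2]; exact hq
  have e2 : ∀ᶠ y in 𝓝 (chartAt E p (Φ q)), y ∈ (chartAt E p).target :=
    (chartAt E p).open_target.mem_nhds ((chartAt E p).map_source hp)
  have e3 : ∀ᶠ y in 𝓝 (chartAt E p (Φ q)), DifferentiableAt ℝ ψ y := by
    filter_upwards [(h1.of_le one_le_infty).eventually (by simp)] with y hy
    exact hy.differentiableAt (by simp)
  have e4 := h3.eventually_nhds
  filter_upwards [e1, e2, e3, e4] with y hy1 hy2 hy3 hy4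
  have hz : Φ (ψ y) = (chartAt E p).symm y := hy4.self_of_nhds
  have hs : Φ (ψ y) ∈ (chartAt E p).source := by rw [hz]; exact symm_mem hy2
  have hM := h.contMDiffAt (hU.mem_nhds hy1)
  have h7 : HasFDerivAt (fun y => inC (E := E) p Φ (ψ y))
      ((fderiv ℝ (inC (E := E) p Φ) (ψ y)).comp (fderiv ℝ ψ y)) y :=
    HasFDerivAt.comp y ((inC_contDiffAt hM hs).differentiableAt infty_ne_zero).hasFDerivAt
      hy3.hasFDerivAt
  have h8 : HasFDerivAt (fun y => inC (E := E) p Φ (ψ y)) (ContinuousLinearMap.id ℝ E) y := by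
    refine (hasFDerivAt_id y).congr_of_eventuallyEq ?_
    filter_upwards [hy4, (chartAt E p).open_target.mem_nhds hy2] with w hw hw2
    show chartAt E p (Φ (ψ w)) = w
    rw [hw, (chartAt E p).right_inv hw2]
  have h9 := h7.unique h8
  ext u
  have h10 : fderiv ℝ (inC (E := E) p Φ) (ψ y) (fderiv ℝ ψ y u) = u :=
    congrArg (fun L : E →L[ℝ] E => L u) h9
  rw [ContinuousLinearMap.comp_apply, pb1_chart hM hs, ContinuousLinearMap.comp_apply, h10]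
  have h11 : inC (E := E) p Φ (ψ y) = y := by
    show chartAt E p (Φ (ψ y)) = y
    rw [hz, (chartAt E p).right_inv hy2]
  rw [h11]

/-- a one-form on `M` is smooth near `Φ q` if its pull-back is. -/
theorem rep1_contDiffAt {Φ : G → M} {U : Set G} {q : G} {p : M} (hU : IsOpen U)
    (h : ContMDiffOn 𝓘(ℝ, G) 𝓘(ℝ, E) ∞ Φ U) (hb : ∀ z ∈ U, Bijective (dL (E := E) Φ z))
    (hq : q ∈ U) (hp : Φ q ∈ (chartAt E p).source) {s : F1 E M}
    (hs : ContDiffAt ℝ ∞ (pb1 Φ s) q) : ContDiffAt ℝ ∞ (rep1 p s) (chartAt E p (Φ q)) := by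
  obtain ⟨ψ, h1, h2, h3⟩ := rep1_ev hU h hb hq hp s
  refine ContDiffAt.congr_of_eventuallyEq ?_ h3
  have h4 : ContDiffAt ℝ ∞ (fun y => pb1 Φ s (ψ y)) (chartAt E p (Φ q)) := by
    refine ContDiffAt.comp (chartAt E p (Φ q)) (g := pb1 Φ s) ?_ h1
    rw [h2]; exact hs
  exact h4.clm_comp (h1.fderiv_right (m := ∞) (by simp))

/-- a one-form on `M` is closed at `Φ q` if its pull-back is closed at `q`. -/
theorem rep1_closed {Φ : G → M} {U : Set G} {q : G} {p : M} (hU : IsOpen U)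
    (h : ContMDiffOn 𝓘(ℝ, G) 𝓘(ℝ, E) ∞ Φ U) (hb : ∀ z ∈ U, Bijective (dL (E := E) Φ z))
    (hq : q ∈ U) (hp : Φ q ∈ (chartAt E p).source) {s : F1 E M}
    (hs : ContDiffAt ℝ ∞ (pb1 Φ s) q) (hc : d1 (pb1 Φ s) q = 0) :
    d1 (rep1 p s) (chartAt E p (Φ q)) = 0 := by
  obtain ⟨ψ, h1, h2, h3⟩ := rep1_ev hU h hb hq hp s
  ext u v
  have h4 : DifferentiableAt ℝ (pb1 Φ s) (ψ (chartAt E p (Φ q))) := by
    rw [h2]; exact hs.differentiableAt infty_ne_zero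
  rw [d1_pull h1 h4 h3, h2, hc]
  rfl

/-- transition between two maps: `g = Ψ⁻¹ ∘ Φ`. -/
theorem exists_transition {H : Type*} [NormedAddCommGroup H] [NormedSpace ℝ H]
    {Φ : H → M} {Ψ : G → M} {z : H} {q : G}
    (hΦ : ContMDiffAt 𝓘(ℝ, H) 𝓘(ℝ, E) ∞ Φ z)
    (hΨ : ContMDiffAt 𝓘(ℝ, G) 𝓘(ℝ, E) ∞ Ψ q) (hb : Bijective (dL (E := E) Ψ q))
    (heq : Φ z = Ψ q) :
    ∃ g : H → G, ContDiffAt ℝ ∞ g z ∧ g z = q ∧ ∀ᶠ y in 𝓝 z, Ψ (g y) = Φ y := by
  obtain ⟨ψ, h1, h2, h3, -, -⟩ := exists_inv (p := Ψ q) hΨ hb (mem_chart_source E (Ψ q))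
  have hs : Φ z ∈ (chartAt E (Ψ q)).source := by rw [heq]; exact mem_chart_source E (Ψ q)
  have hi := inC_contDiffAt (p := Ψ q) hΦ hs
  have hz : inC (E := E) (Ψ q) Φ z = chartAt E (Ψ q) (Ψ q) := by
    show chartAt E (Ψ q) (Φ z) = _
    rw [heq]
  refine ⟨fun y => ψ (inC (E := E) (Ψ q) Φ y), ?_, ?_, ?_⟩
  · refine ContDiffAt.comp z (g := ψ) ?_ hi
    rw [hz]; exact h1
  · show ψ (inC (E := E) (Ψ q) Φ z) = q
    rw [hz, h2]
  · have h4 : ∀ᶠ y in 𝓝 z, Ψ (ψ (inC (E := E) (Ψ q) Φ y)) =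
        (chartAt E (Ψ q)).symm (inC (E := E) (Ψ q) Φ y) := by
      have hc : ContinuousAt (inC (E := E) (Ψ q) Φ) z := hi.continuousAt
      have : Tendsto (inC (E := E) (Ψ q) Φ) (𝓝 z) (𝓝 (chartAt E (Ψ q) (Ψ q))) := by
        rw [← hz]; exact hc
      exact this.eventually h3
    filter_upwards [h4, hΦ.continuousAt.eventually
      ((chartAt E (Ψ q)).open_source.mem_nhds hs)] with y hy hy2
    rw [hy]
    exact (chartAt E (Ψ q)).left_inv hy2

end Inv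

end

end Crest.Agent.R235.Pull_129
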