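import Mathlib
import Crest.Agent.R240.Lin1

/-!
Row 235 (S0364), package ADJ, helper250: coordinates `(s, v)` on `E4`, the shear along a graph,
the planar approximate identity `kap`.
-/

set_option autoImplicit false
set_option maxSynthPendingDepth 3

open Set Function Filter MeasureTheory Metric Module
open scoped ContDiff Topology ENNReal

namespace Crest.Agent.R235.Wk_250

open Crest.Agent.R240

noncomputable section

/-! ### coordinates -/

/-- the first complex coordinate. -/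
def sL : E4 →L[ℝ] ℂ :=
  (EuclideanSpace.proj (0 : Fin 4) : E4 →L[ℝ] ℝ).smulRight (1 : ℂ) +
    (EuclideanSpace.proj (1 : Fin 4) : E4 →L[ℝ] ℝ).smulRight Complex.I

/-- the second complex coordinate. -/
def vL : E4 →L[ℝ] ℂ :=
  (EuclideanSpace.proj (2 : Fin 4) : E4 →L[ℝ] ℝ).smulRight (1 : ℂ) +
    (EuclideanSpace.proj (3 : Fin 4) : E4 →L[ℝ] ℝ).smulRight Complex.I

lemma sL_apply (y : E4) : sL y = ⟨y 0, y 1⟩ := by
  apply Complex.ext <;> simp [sL]

lemma vL_apply (y : E4) : vL y = ⟨y 2, y 3⟩ := by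
  apply Complex.ext <;> simp [vL]

/-- the point with coordinates `(s, v)`. -/
def mk (s v : ℂ) : E4 := s.re • ee 0 + s.im • ee 1 + v.re • ee 2 + v.im • ee 3

lemma mk_0 (s v : ℂ) : mk s v 0 = s.re := by simp [mk]
lemma mk_1 (s v : ℂ) : mk s v 1 = s.im := by simp [mk]
lemma mk_2 (s v : ℂ) : mk s v 2 = v.re := by simp [mk]
lemma mk_3 (s v : ℂ) : mk s v 3 = v.im := by simp [mk]

@[simp] lemma sL_mk (s v : ℂ) : sL (mk s v) = s := by
  rw [sL_apply, mk_0, mk_1]

@[simp] lemma vL_mk (s v : ℂ) : vL (mk s v) = v := by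
  rw [vL_apply, mk_2, mk_3]

@[simp] lemma mk_sL_vL (y : E4) : mk (sL y) (vL y) = y := by
  ext j
  fin_cases j
  · simp [mk_0, sL_apply]
  · simp [mk_1, sL_apply]
  · simp [mk_2, vL_apply]
  · simp [mk_3, vL_apply]

/-- the linear map `(s, v) ↦ mk s v`. -/
def mkL : ℂ × ℂ →L[ℝ] E4 :=
  ((Complex.reCLM.comp (ContinuousLinearMap.fst ℝ ℂ ℂ)).smulRight (ee 0) +
    (Complex.imCLM.comp (ContinuousLinearMap.fst ℝ ℂ ℂ)).smulRight (ee 1)) +
  (Complex.reCLM.comp (ContinuousLinearMap.snd ℝ ℂ ℂ)).smulRight (ee 2) +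
    (Complex.imCLM.comp (ContinuousLinearMap.snd ℝ ℂ ℂ)).smulRight (ee 3)

lemma mkL_apply (p : ℂ × ℂ) : mkL p = mk p.1 p.2 := by
  simp [mkL, mk]

lemma mk_add (s v s' v' : ℂ) : mk (s + s') (v + v') = mk s v + mk s' v' := by
  have := mkL.map_add (s, v) (s', v')
  simpa [mkL_apply] using this

lemma mk_smul (r : ℝ) (s v : ℂ) : mk (r • s) (r • v) = r • mk s v := by
  have := mkL.map_smul r (s, v)
  simpa [mkL_apply] using this

/-- the coordinates as a continuous linear equivalence. -/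
def mkE : (ℂ × ℂ) ≃L[ℝ] E4 :=
  ContinuousLinearEquiv.equivOfInverse mkL (sL.prod vL)
    (fun p => by simp [mkL_apply]) (fun y => by simp [mkL_apply])

lemma mkE_apply (p : ℂ × ℂ) : mkE p = mk p.1 p.2 := mkL_apply p

lemma mkE_symm_apply (y : E4) : mkE.symm y = (sL y, vL y) := rfl

lemma norm_mk (s v : ℂ) : ‖mk s v‖ ^ 2 = ‖s‖ ^ 2 + ‖v‖ ^ 2 := by
  rw [EuclideanSpace.norm_sq_eq, Fin.sum_univ_four, mk_0, mk_1, mk_2, mk_3,
    ← Complex.normSq_eq_norm_sq, ← Complex.normSq_eq_norm_sq, Complex.normSq_apply,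
    Complex.normSq_apply]
  simp only [Real.norm_eq_abs, sq_abs]
  ring

/-- the isometry. -/
def mkI : WithLp 2 (ℂ × ℂ) ≃ₗᵢ[ℝ] E4 where
  toLinearEquiv := (WithLp.linearEquiv 2 ℝ (ℂ × ℂ)).trans mkE.toLinearEquiv
  norm_map' := fun p => by
    have h1 : ‖mk p.fst p.snd‖ ^ 2 = ‖p‖ ^ 2 := by
      rw [norm_mk, WithLp.prod_norm_sq_eq_of_L2]
    have h2 := (pow_left_inj₀ (norm_nonneg _) (norm_nonneg _) two_ne_zero).1 h1
    exact h2

theorem mp_mk : MeasurePreserving (fun p : ℂ × ℂ => mk p.1 p.2) volume volume := by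
  have h1 : MeasurePreserving (WithLp.toLp 2 : ℂ × ℂ → WithLp 2 (ℂ × ℂ)) volume volume :=
    WithLp.volume_preserving_toLp ℂ ℂ
  have h2 : MeasurePreserving (mkI : WithLp 2 (ℂ × ℂ) → E4) volume volume :=
    mkI.measurePreserving
  exact h2.comp h1

/-- the shear along the graph of `g`. -/
def T (g : ℂ → ℂ) (p : ℂ × ℂ) : E4 := mk p.1 (g p.1 + p.2)

lemma sL_T (g : ℂ → ℂ) (p : ℂ × ℂ) : sL (T g p) = p.1 := by simp [T]
lemma vL_T (g : ℂ → ℂ) (p : ℂ × ℂ) : vL (T g p) = g p.1 + p.2 := by simp [T]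

/-- the shear as a homeomorphism. -/
def Th {g : ℂ → ℂ} (hg : Continuous g) : (ℂ × ℂ) ≃ₜ E4 where
  toFun := T g
  invFun y := (sL y, vL y - g (sL y))
  left_inv p := by simp [T]
  right_inv y := by simp [T]
  continuous_toFun := by
    have : (T g) = fun p => mkL (p.1, g p.1 + p.2) := by
      funext p; rw [mkL_apply]; rfl
    rw [this]
    fun_prop
  continuous_invFun := by fun_prop

theorem mp_T {g : ℂ → ℂ} (hg : Continuous g) : MeasurePreserving (T g) volume volume := by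
  have h1 : MeasurePreserving (fun p : ℂ × ℂ => (p.1, g p.1 + p.2)) volume volume := by
    have := (MeasurePreserving.id (volume : Measure ℂ)).skew_product
      (g := fun s v => g s + v) (μc := (volume : Measure ℂ)) (μd := (volume : Measure ℂ))
      (by
        show Measurable fun p : ℂ × ℂ => g p.1 + p.2
        exact ((hg.comp continuous_fst).add continuous_snd).measurable)
      (ae_of_all _ fun s => (measurePreserving_add_left volume (g s)).map_eq)
    exact this
  exact mp_mk.comp h1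

lemma emb_T {g : ℂ → ℂ} (hg : Continuous g) : MeasurableEmbedding (T g) :=
  (Th hg).measurableEmbedding

theorem integral_T {g : ℂ → ℂ} (hg : Continuous g) (f : E4 → ℝ) :
    ∫ p, f (T g p) = ∫ y, f y := (mp_T hg).integral_comp (emb_T hg) f

theorem integrable_T {g : ℂ → ℂ} (hg : Continuous g) {f : E4 → ℝ} :
    Integrable f ↔ Integrable fun p => f (T g p) :=
  ((mp_T hg).integrable_comp_emb (emb_T hg)).symm

/-! ### the approximate identity -/

/-- the kernel. -/
def kap (w : ℂ) : ℝ := Real.pi⁻¹ * ((1 + ‖w‖ ^ 2) ^ 2)⁻¹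

lemma kap_nonneg (w : ℂ) : 0 ≤ kap w := by unfold kap; positivity

lemma kap_continuous : Continuous kap := by
  unfold kap
  refine continuous_const.mul (Continuous.inv₀ (by fun_prop) fun w => by positivity)

theorem kap_integral : ∫ w, kap w = 1 := by
  have h := integral_fun_norm_addHaar (volume : Measure ℂ)
    (fun r : ℝ => Real.pi⁻¹ * ((1 + r ^ 2) ^ 2)⁻¹)
  have h1 : (volume : Measure ℂ).real (ball 0 1) = Real.pi := by
    rw [measureReal_def, Complex.volume_ball]
    simp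
  have h2 : ∫ r in Ioi (0 : ℝ), r * ((1 + r ^ 2) ^ 2)⁻¹ = 1 / 2 := by
    have hd : ∀ x ∈ Ici (0 : ℝ), HasDerivAt (fun r : ℝ => -(1 / 2) * (1 + r ^ 2)⁻¹)
        (x * ((1 + x ^ 2) ^ 2)⁻¹) x := by
      intro x _
      have h0 : (1 + x ^ 2) ≠ 0 := by positivity
      have h3 : HasDerivAt (fun r : ℝ => 1 + r ^ 2) (2 * x) x := by
        simpa using ((hasDerivAt_id x).pow 2).const_add 1
      have h4 := (h3.inv h0).const_mul (-(1 / 2) : ℝ)
      refine h4.congr_deriv ?_
      field_simp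
    have hl : Tendsto (fun r : ℝ => -(1 / 2) * (1 + r ^ 2)⁻¹) atTop (𝓝 0) := by
      have : Tendsto (fun r : ℝ => (1 + r ^ 2)⁻¹) atTop (𝓝 0) :=
        tendsto_inv_atTop_zero.comp (tendsto_atTop_add_const_left _ _ (tendsto_pow_atTop two_ne_zero))
      have h5 := this.const_mul (-(1 / 2) : ℝ)
      rwa [mul_zero] at h5
    have := integral_Ioi_of_hasDerivAt_of_nonneg' hd (fun x hx => by
      have : (0 : ℝ) < x := hx
      positivity) hl
    rw [this]; norm_num
  have h3 : ∫ y in Ioi (0 : ℝ), y ^ (finrank ℝ ℂ - 1) • (Real.pi⁻¹ * ((1 + y ^ 2) ^ 2)⁻¹) =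
      Real.pi⁻¹ * (1 / 2) := by
    rw [← h2, ← integral_const_mul]
    refine setIntegral_congr_fun measurableSet_Ioi fun y _ => ?_
    simp only [Complex.finrank_real_complex, smul_eq_mul]
    norm_num
    ring
  unfold kap
  rw [h, h1, h3, Complex.finrank_real_complex]
  simp only [nsmul_eq_mul, smul_eq_mul]
  have := Real.pi_pos.ne'
  field_simp
  norm_num

theorem kap_decay : Tendsto (fun w : ℂ => ‖w‖ ^ finrank ℝ ℂ * kap w) (Bornology.cobounded ℂ)
    (𝓝 0) := by
  rw [Complex.finrank_real_complex]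
  have h1 : Tendsto (fun r : ℝ => r ^ 2 * (Real.pi⁻¹ * ((1 + r ^ 2) ^ 2)⁻¹)) atTop (𝓝 0) := by
    have h2 : Tendsto (fun r : ℝ => (1 + r ^ 2)⁻¹) atTop (𝓝 0) :=
      tendsto_inv_atTop_zero.comp (tendsto_atTop_add_const_left _ _ (tendsto_pow_atTop two_ne_zero))
    have h3 : Tendsto (fun r : ℝ => Real.pi⁻¹ * (1 + r ^ 2)⁻¹) atTop (𝓝 0) := by
      simpa using h2.const_mul Real.pi⁻¹
    refine squeeze_zero (fun r => by positivity) (fun r => ?_) h3
    have hp := Real.pi_pos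
    have h4 : r ^ 2 * ((1 + r ^ 2) ^ 2)⁻¹ ≤ (1 + r ^ 2)⁻¹ := by
      rw [← div_eq_mul_inv, div_le_iff₀ (by positivity), inv_mul_eq_div, le_div_iff₀ (by positivity)]
      nlinarith [sq_nonneg r]
    calc r ^ 2 * (Real.pi⁻¹ * ((1 + r ^ 2) ^ 2)⁻¹) = Real.pi⁻¹ * (r ^ 2 * ((1 + r ^ 2) ^ 2)⁻¹) := by
          ring
      _ ≤ _ := mul_le_mul_of_nonneg_left h4 (by positivity)
  exact h1.comp tendsto_norm_cobounded_atTop

theorem kap_tendsto {h : ℂ → ℝ} (hi : Integrable h) (hc : ContinuousAt h 0) :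
    Tendsto (fun c : ℝ => ∫ w, (c ^ 2 * kap (c • w)) * h w) atTop (𝓝 (h 0)) := by
  have := tendsto_integral_comp_smul_smul_of_integrable kap_nonneg kap_integral kap_decay hi hc
  simpa [Complex.finrank_real_complex] using this

theorem kap_mass {c : ℝ} (hc : 0 < c) : ∫ w : ℂ, c ^ 2 * kap (c • w) = 1 := by
  rw [integral_const_mul, Measure.integral_comp_smul, Complex.finrank_real_complex, kap_integral,
    abs_of_nonneg (by positivity)]
  have := hc.ne'
  simp only [smul_eq_mul, mul_one]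
  field_simp

lemma kap_integrable : Integrable kap := by
  by_contra h
  have h1 := integral_undef h
  rw [kap_integral] at h1
  exact one_ne_zero h1

end

end Crest.Agent.R235.Wk_250
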