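import Mathlib
import Crest.Agent.R235.WkA_250
import Crest.Agent.R235.Pull_129
import Crest.Agent.R240.Mono1

/-!
Row 235 (S0364), package ADJ, helper250: the angular form of a smooth graph in `E4`.

`graph_stokes`: `∫ (ψ ∧ dχ) ∧ b = ∫_graph χ b` for `b` closed, `χ` with compact support,
`ψ = (1/2π) d arg (v - g s)`.
-/

set_option autoImplicit false
set_option maxSynthPendingDepth 3

open Set Function Filter MeasureTheory Metric Module
open scoped ContDiff Topology ENNReal ComplexConjugate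

namespace Crest.Agent.R235.Wk_250

open Crest.Agent.R240 Crest.Agent.R240.En

noncomputable section

/-! ### planar angular forms -/

/-- `h ↦ Im (conj w * h)`. -/
def th (w : ℂ) : ℂ →L[ℝ] ℝ := w.re • Complex.imCLM - w.im • Complex.reCLM

lemma th_apply (w h : ℂ) : th w h = w.re * h.im - w.im * h.re := by
  simp [th]

/-- the angular form `(1/2π) d arg` of the plane. -/
def sg (w : ℂ) : ℂ →L[ℝ] ℝ := ((2 * Real.pi)⁻¹ * (‖w‖ ^ 2)⁻¹) • th w

/-- the smoothed angular form. -/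
def sgc (c : ℝ) (w : ℂ) : ℂ →L[ℝ] ℝ := ((2 * Real.pi)⁻¹ * (c ^ 2 * (1 + c ^ 2 * ‖w‖ ^ 2)⁻¹)) • th w

/-- the cut-off factor. -/
def rc (c : ℝ) (w : ℂ) : ℝ := c ^ 2 * ‖w‖ ^ 2 * (1 + c ^ 2 * ‖w‖ ^ 2)⁻¹

lemma sgc_eq (c : ℝ) (w : ℂ) : sgc c w = rc c w • sg w := by
  by_cases h : w = 0
  · subst h
    have : th 0 = 0 := by
      ext h; simp [th_apply]
    simp [sgc, sg, this]
  · have h0 : ‖w‖ ^ 2 ≠ 0 := by positivity
    rw [sgc, sg, rc, smul_smul]
    congr 1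
    field_simp

lemma rc_nonneg (c : ℝ) (w : ℂ) : 0 ≤ rc c w := by unfold rc; positivity

lemma rc_le_one (c : ℝ) (w : ℂ) : rc c w ≤ 1 := by
  unfold rc
  rw [← div_eq_mul_inv, div_le_one (by positivity)]
  linarith

lemma rc_tendsto {w : ℂ} (hw : w ≠ 0) : Tendsto (fun c : ℝ => rc c w) atTop (𝓝 1) := by
  have h0 : 0 < ‖w‖ ^ 2 := by positivity
  have h1 : Tendsto (fun c : ℝ => 1 + c ^ 2 * ‖w‖ ^ 2) atTop atTop :=
    tendsto_atTop_add_const_left _ _ ((tendsto_pow_atTop two_ne_zero).atTop_mul_const h0)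
  have h2 : Tendsto (fun c : ℝ => 1 - (1 + c ^ 2 * ‖w‖ ^ 2)⁻¹) atTop (𝓝 (1 - 0)) :=
    tendsto_const_nhds.sub (tendsto_inv_atTop_zero.comp h1)
  rw [sub_zero] at h2
  refine h2.congr fun c => ?_
  unfold rc
  have : (1 + c ^ 2 * ‖w‖ ^ 2) ≠ 0 := by positivity
  field_simp
  ring

lemma norm_sq_c (w : ℂ) : ‖w‖ ^ 2 = w.re ^ 2 + w.im ^ 2 := by
  rw [← Complex.normSq_eq_norm_sq, Complex.normSq_apply]; ring

/-- `th` is linear. -/
def thL : ℂ →L[ℝ] (ℂ →L[ℝ] ℝ) :=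
  Complex.reCLM.smulRight Complex.imCLM - Complex.imCLM.smulRight Complex.reCLM

lemma th_eq : th = fun w => thL w := by
  funext w; ext h; simp [th, thL]

lemma contDiff_th : ContDiff ℝ ∞ th := by
  rw [th_eq]; exact thL.contDiff

lemma contDiff_sgc (c : ℝ) : ContDiff ℝ ∞ (sgc c) := by
  have h1 : ContDiff ℝ ∞ fun w : ℂ => 1 + c ^ 2 * ‖w‖ ^ 2 :=
    contDiff_const.add (contDiff_const.mul (contDiff_norm_sq ℝ))
  have h2 : ContDiff ℝ ∞ fun w : ℂ => (1 + c ^ 2 * ‖w‖ ^ 2)⁻¹ := h1.inv fun w => by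
    have : (0 : ℝ) < 1 + c ^ 2 * ‖w‖ ^ 2 := by positivity
    exact this.ne'
  have h3 : ContDiff ℝ ∞ fun w : ℂ => (2 * Real.pi)⁻¹ * (c ^ 2 * (1 + c ^ 2 * ‖w‖ ^ 2)⁻¹) :=
    contDiff_const.mul (contDiff_const.mul h2)
  exact h3.smul contDiff_th

lemma fderiv_th (w h : ℂ) : fderiv ℝ th w h = th h := by
  rw [th_eq, thL.fderiv]

/-- the exterior derivative of the smoothed angular form. -/
theorem d1_sgc (c : ℝ) (w h k : ℂ) : Ch.d1 (sgc c) w h k =
    (c ^ 2 * kap (c • w)) * (h.re * k.im - h.im * k.re) := by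
  set a : ℂ → ℝ := fun w => (2 * Real.pi)⁻¹ * (c ^ 2 * (1 + c ^ 2 * ‖w‖ ^ 2)⁻¹) with ha
  have hq : ∀ w : ℂ, (1 + c ^ 2 * ‖w‖ ^ 2) ≠ 0 := fun w => by positivity
  have hn : ∀ h, fderiv ℝ (fun w : ℂ => ‖w‖ ^ 2) w h = 2 * (w.re * h.re + w.im * h.im) := by
    intro h
    have h2 : HasFDerivAt (fun w : ℂ => w.re ^ 2) ((2 * w.re) • Complex.reCLM) w := by
      have := (Complex.reCLM.hasFDerivAt (x := w)).pow 2
      refine this.congr_fderiv ?_
      ext k; simp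
    have h3 : HasFDerivAt (fun w : ℂ => w.im ^ 2) ((2 * w.im) • Complex.imCLM) w := by
      have := (Complex.imCLM.hasFDerivAt (x := w)).pow 2
      refine this.congr_fderiv ?_
      ext k; simp
    have h1 : HasFDerivAt (fun w : ℂ => w.re ^ 2 + w.im ^ 2)
        ((2 * w.re) • Complex.reCLM + (2 * w.im) • Complex.imCLM) w := h2.add h3
    have h4 : (fun w : ℂ => ‖w‖ ^ 2) = fun w : ℂ => w.re ^ 2 + w.im ^ 2 := funext norm_sq_c
    rw [h4, h1.fderiv]
    simp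
    ring
  have hda : ∀ h, fderiv ℝ a w h =
      -((2 * Real.pi)⁻¹ * (c ^ 2 * (c ^ 2 * (2 * (w.re * h.re + w.im * h.im)) *
        ((1 + c ^ 2 * ‖w‖ ^ 2) ^ 2)⁻¹))) := by
    intro h
    have hd : DifferentiableAt ℝ (fun w : ℂ => ‖w‖ ^ 2) w :=
      (contDiff_norm_sq ℝ (n := 1)).differentiable one_ne_zero w
    have h1 : HasFDerivAt (fun w : ℂ => 1 + c ^ 2 * ‖w‖ ^ 2)
        (c ^ 2 • fderiv ℝ (fun w : ℂ => ‖w‖ ^ 2) w) w :=
      (hd.hasFDerivAt.const_mul (c ^ 2)).const_add 1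
    have h2 := ((((hasDerivAt_inv (hq w)).comp_hasFDerivAt w h1).const_mul (c ^ 2)).const_mul
      ((2 * Real.pi)⁻¹))
    have h3 : fderiv ℝ a w = _ := h2.fderiv
    rw [h3]
    simp only [smul_apply, smul_eq_mul, hn]
    ring
  have hs : ∀ h k, fderiv ℝ (sgc c) w h k = fderiv ℝ a w h * th w k + a w * th h k := by
    intro h k
    have hd : DifferentiableAt ℝ a w := by
      have : ContDiff ℝ 1 a :=
        contDiff_const.mul (contDiff_const.mul (ContDiff.inv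
          (contDiff_const.add (contDiff_const.mul (contDiff_norm_sq ℝ))) fun w => hq w))
      exact this.differentiable one_ne_zero w
    have hth : DifferentiableAt ℝ th w := contDiff_th.differentiable (by simp) w
    have h1 : fderiv ℝ (fun w => a w • th w) w = a w • fderiv ℝ th w +
        (fderiv ℝ a w).smulRight (th w) := fderiv_fun_smul hd hth
    have h2 : sgc c = fun w => a w • th w := rfl
    rw [h2, h1]
    simp only [add_apply, smul_apply, smul_eq_mul, ContinuousLinearMap.smulRight_apply, fderiv_th]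
    ring
  rw [Ch.d1_apply, hs, hs, hda, hda]
  simp only [ha, th_apply, kap]
  rw [norm_smul, mul_pow, Real.norm_eq_abs, sq_abs]
  have h1 := hq w
  have hp := Real.pi_pos.ne'
  rw [norm_sq_c] at h1 ⊢
  field_simp
  ring

end

end Crest.Agent.R235.Wk_250
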