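import Mathlib
import Crest.Agent.R235.WkB_250

/-!
Row 235 (S0364), package ADJ, helper250: the angular form of a smooth graph in `E4`.

`graph_core`: `∫ (ψ ∧ dχ) ∧ b = ∫_graph χ b` for `b` closed on the support of the compactly
supported function `χ`, `ψ = (1/2π) d arg (v - g s)`.
-/

set_option autoImplicit false
set_option maxSynthPendingDepth 3

open Set Function Filter MeasureTheory Metric Module
open scoped ContDiff Topology ENNReal ComplexConjugate

namespace Crest.Agent.R235.Wk_250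

open Crest.Agent.R240 Crest.Agent.R240.En

noncomputable section

/-- the defining function of the graph. -/
def wf (g : ℂ → ℂ) (y : E4) : ℂ := vL y - g (sL y)

/-- its differential. -/
def Dw (g : ℂ → ℂ) (y : E4) : E4 →L[ℝ] ℂ := vL - (fderiv ℝ g (sL y)).comp sL

lemma Dw_apply (g : ℂ → ℂ) (y u : E4) : Dw g y u = vL u - fderiv ℝ g (sL y) (sL u) := rfl

lemma hasFDerivAt_wf {g : ℂ → ℂ} {y : E4} (hg : DifferentiableAt ℝ g (sL y)) :
    HasFDerivAt (wf g) (Dw g y) y :=
  vL.hasFDerivAt.sub (hg.hasFDerivAt.comp y sL.hasFDerivAt)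

lemma contDiff_wf {g : ℂ → ℂ} {n : WithTop ℕ∞} (hg : ContDiff ℝ n g) : ContDiff ℝ n (wf g) :=
  vL.contDiff.sub (hg.comp sL.contDiff)

/-- the angular form of the graph. -/
def psi (g : ℂ → ℂ) (y : E4) : Cov := (sg (wf g y)).comp (Dw g y)

/-- the smoothed angular form of the graph. -/
def psic (g : ℂ → ℂ) (c : ℝ) (y : E4) : Cov := (sgc c (wf g y)).comp (Dw g y)

lemma psic_eq (g : ℂ → ℂ) (c : ℝ) (y : E4) : psic g c y = rc c (wf g y) • psi g y := by
  rw [psic, psi, sgc_eq]; rfl

/-- the tangent vectors of the graph. -/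
def t1 (g : ℂ → ℂ) (s : ℂ) : E4 := mk 1 (fderiv ℝ g s 1)
/-- the tangent vectors of the graph. -/
def t2 (g : ℂ → ℂ) (s : ℂ) : E4 := mk Complex.I (fderiv ℝ g s Complex.I)

lemma sL_ee : sL (ee 0) = 1 ∧ sL (ee 1) = Complex.I ∧ sL (ee 2) = 0 ∧ sL (ee 3) = 0 := by
  refine ⟨?_, ?_, ?_, ?_⟩ <;> rw [sL_apply] <;> apply Complex.ext <;> simp

lemma vL_ee : vL (ee 0) = 0 ∧ vL (ee 1) = 0 ∧ vL (ee 2) = 1 ∧ vL (ee 3) = Complex.I := by
  refine ⟨?_, ?_, ?_, ?_⟩ <;> rw [vL_apply] <;> apply Complex.ext <;> simp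

lemma W_graph {b : Bil} (hb : Alt b) (A : ℂ →L[ℝ] ℂ) :
    W b (wed (Complex.reCLM.comp (vL - A.comp sL)) (Complex.imCLM.comp (vL - A.comp sL))) =
      b (mk 1 (A 1)) (mk Complex.I (A Complex.I)) := by
  rw [alt_expand hb]
  simp only [mk_0, mk_1, mk_2, mk_3, W, ent, wed_apply, ContinuousLinearMap.comp_apply,
    sub_apply, sL_ee.1, sL_ee.2.1, sL_ee.2.2.1, sL_ee.2.2.2, vL_ee.1, vL_ee.2.1, vL_ee.2.2.1,
    vL_ee.2.2.2, map_zero, sub_zero, zero_sub, Complex.reCLM_apply, Complex.imCLM_apply,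
    Complex.neg_re, Complex.neg_im, Complex.one_re, Complex.one_im, Complex.I_re, Complex.I_im]
  ring

lemma d1_psic {g : ℂ → ℂ} (hg : ContDiff ℝ ∞ g) (c : ℝ) (y : E4) :
    En.d1 (psic g c) y = (c ^ 2 * kap (c • wf g y)) •
      wed (Complex.reCLM.comp (Dw g y)) (Complex.imCLM.comp (Dw g y)) := by
  have hgd : Differentiable ℝ g := hg.differentiable (by simp)
  have hf : ∀ y, fderiv ℝ (wf g) y = Dw g y := fun y => (hasFDerivAt_wf (hgd _)).fderiv
  ext u v
  have h1 := Pull_129.d1_pull (s := sgc c) (t := psic g c) (φ := wf g) (y := y)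
    (contDiff_wf hg).contDiffAt ((contDiff_sgc c).differentiable (by simp) _)
    (Eventually.of_forall fun z => by rw [hf]; rfl) u v
  have h2 : En.d1 (psic g c) y u v = Ch.d1 (psic g c) y u v := by
    rw [En.d1_apply, Ch.d1_apply]
  rw [h2, h1, d1_sgc, hf]
  simp only [smul_apply, smul_eq_mul, wed_apply, ContinuousLinearMap.comp_apply,
    Complex.reCLM_apply, Complex.imCLM_apply]

lemma psic_contDiff {g : ℂ → ℂ} (hg : ContDiff ℝ ∞ g) (c : ℝ) : ContDiff ℝ ∞ (psic g c) := by
  unfold psic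
  have h1 : ContDiff ℝ ∞ (fun y => Dw g y) := by
    unfold Dw
    refine contDiff_const.sub ?_
    have h2 : ContDiff ℝ ∞ (fderiv ℝ g) := hg.fderiv_right (by simp)
    exact (h2.comp sL.contDiff).clm_comp contDiff_const
  exact ((contDiff_sgc c).comp (contDiff_wf hg)).clm_comp h1

/-! ### integrability of `1/|w|` -/

lemma inv_norm_integrable (R : ℝ) : Integrable (indicator (ball (0 : ℂ) R) fun t => ‖t‖⁻¹) := by
  have h := (integrable_fun_norm_addHaar (volume : Measure ℂ)
    (f := fun r : ℝ => indicator (Iio R) (fun r => r⁻¹) r)).2 ?_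
  · refine h.congr (ae_of_all _ fun t => ?_)
    show indicator (Iio R) (fun r => r⁻¹) ‖t‖ = indicator (ball (0 : ℂ) R) (fun t => ‖t‖⁻¹) t
    by_cases ht : ‖t‖ < R
    · rw [indicator_of_mem (show t ∈ ball (0 : ℂ) R by simpa using ht)]
      exact indicator_of_mem (show ‖t‖ ∈ Iio R from ht) _
    · rw [indicator_of_notMem (show t ∉ ball (0 : ℂ) R by simpa using ht)]
      exact indicator_of_notMem (show ‖t‖ ∉ Iio R from ht) _
  · rw [Complex.finrank_real_complex]
    have h1 : IntegrableOn (fun _ : ℝ => (1 : ℝ)) (Ioo 0 R) := by simp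
    have h2 : IntegrableOn (indicator (Iio R) (fun _ : ℝ => (1 : ℝ))) (Ioi 0) := by
      rw [integrableOn_indicator_iff measurableSet_Iio, inter_comm, Ioi_inter_Iio]
      exact h1
    refine h2.congr_fun (fun r hr => ?_) measurableSet_Ioi
    have hr' : (0 : ℝ) < r := hr
    show indicator (Iio R) (fun _ => (1 : ℝ)) r = r ^ (2 - 1) • indicator (Iio R) (fun r => r⁻¹) r
    by_cases hr2 : r < R
    · rw [indicator_of_mem (show r ∈ Iio R from hr2), indicator_of_mem (show r ∈ Iio R from hr2)]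
      simp only [smul_eq_mul]
      field_simp
      norm_num
    · rw [indicator_of_notMem (show r ∉ Iio R from hr2),
        indicator_of_notMem (show r ∉ Iio R from hr2)]
      simp

lemma norm_th_le (w : ℂ) : ‖th w‖ ≤ ‖w‖ := by
  refine ContinuousLinearMap.opNorm_le_bound _ (norm_nonneg _) fun h => ?_
  have h1 : th w h = ((conj w) * h).im := by
    rw [th_apply]; simp
    ring
  rw [h1, Real.norm_eq_abs]
  calc |(conj w * h).im| ≤ ‖conj w * h‖ := Complex.abs_im_le_norm _
    _ = ‖w‖ * ‖h‖ := by rw [norm_mul, RCLike.norm_conj]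

/-! ### the core theorem -/

section Core

variable {g : ℂ → ℂ} {b : E4 → Bil} {χ : E4 → ℝ}

/-- the continuous factor. -/
def kk (g : ℂ → ℂ) (b : E4 → Bil) (χ : E4 → ℝ) (y : E4) : ℝ :=
  W (wed ((th (wf g y)).comp (Dw g y)) (fderiv ℝ χ y)) (b y)

/-- the integrand. -/
def FF (g : ℂ → ℂ) (b : E4 → Bil) (χ : E4 → ℝ) (y : E4) : ℝ :=
  W (wed (psi g y) (fderiv ℝ χ y)) (b y)

lemma FF_eq (y : E4) : FF g b χ y = ((2 * Real.pi)⁻¹ * (‖wf g y‖ ^ 2)⁻¹) * kk g b χ y := by
  have h : psi g y = ((2 * Real.pi)⁻¹ * (‖wf g y‖ ^ 2)⁻¹) • (th (wf g y)).comp (Dw g y) := by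
    rw [psi, sg]; rfl
  rw [FF, h, wed_smul_left, W_smul_left, kk]

lemma continuous_Dw (hg : ContDiff ℝ 1 g) : Continuous (Dw g) := by
  unfold Dw
  exact continuous_const.sub (((hg.continuous_fderiv one_ne_zero).comp sL.continuous).clm_comp
    continuous_const)

lemma continuous_wf (hg : ContDiff ℝ 1 g) : Continuous (wf g) := (contDiff_wf hg).continuous

lemma continuous_kk (hg : ContDiff ℝ 1 g) (hb : Continuous b) (hχ : ContDiff ℝ 1 χ) :
    Continuous (kk g b χ) := by
  have h1 : Continuous fun y => (th (wf g y)).comp (Dw g y) :=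
    (contDiff_th.continuous.comp (continuous_wf hg)).clm_comp (continuous_Dw hg)
  have h2 : Continuous fun y => fderiv ℝ χ y := hχ.continuous_fderiv one_ne_zero
  have h3 : Continuous fun y => wed ((th (wf g y)).comp (Dw g y)) (fderiv ℝ χ y) := by
    unfold wed
    fun_prop
  have := Mono.ContOn_W (s := univ) h3.continuousOn hb.continuousOn
  exact continuousOn_univ.1 this

lemma kk_bound (hg : ContDiff ℝ 1 g) (hb : Continuous b) (hχ : ContDiff ℝ 1 χ)
    (hc : HasCompactSupport χ) : ∃ C, 0 ≤ C ∧ ∀ y, |kk g b χ y| ≤ C * ‖wf g y‖ := by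
  have h0 : Continuous fun y => ‖Dw g y‖ * ‖fderiv ℝ χ y‖ * ‖b y‖ :=
    ((continuous_Dw hg).norm.mul (hχ.continuous_fderiv one_ne_zero).norm).mul hb.norm
  have h1 : HasCompactSupport fun y => ‖Dw g y‖ * ‖fderiv ℝ χ y‖ * ‖b y‖ := by
    have h2 := hc.fderiv (𝕜 := ℝ)
    exact (HasCompactSupport.mul_left (h2.norm)).mul_right
  obtain ⟨C, hC⟩ := h1.exists_bound_of_continuous h0
  refine ⟨12 * |C|, by positivity, fun y => ?_⟩
  have h3 := hC y
  have h4 : ‖(th (wf g y)).comp (Dw g y)‖ ≤ ‖wf g y‖ * ‖Dw g y‖ :=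
    (ContinuousLinearMap.opNorm_comp_le _ _).trans
      (mul_le_mul_of_nonneg_right (norm_th_le _) (norm_nonneg _))
  have h5 := Mono.abs_W_le (wed ((th (wf g y)).comp (Dw g y)) (fderiv ℝ χ y)) (b y)
  have h6 := Mono.norm_wed_le1 ((th (wf g y)).comp (Dw g y)) (fderiv ℝ χ y)
  have h7 : ‖Dw g y‖ * ‖fderiv ℝ χ y‖ * ‖b y‖ ≤ |C| := by
    refine le_trans (le_trans (le_abs_self _) ?_) (le_abs_self C)
    simpa using h3
  unfold kk
  calc |W (wed ((th (wf g y)).comp (Dw g y)) (fderiv ℝ χ y)) (b y)|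
      ≤ 6 * (‖wed ((th (wf g y)).comp (Dw g y)) (fderiv ℝ χ y)‖ * ‖b y‖) := h5
    _ ≤ 6 * ((2 * ((‖wf g y‖ * ‖Dw g y‖) * ‖fderiv ℝ χ y‖)) * ‖b y‖) := by gcongr; exact h6.trans (by gcongr)
    _ = 12 * (‖Dw g y‖ * ‖fderiv ℝ χ y‖ * ‖b y‖) * ‖wf g y‖ := by ring
    _ ≤ 12 * |C| * ‖wf g y‖ := by gcongr

lemma measurable_FF (hg : ContDiff ℝ 1 g) (hb : Continuous b) (hχ : ContDiff ℝ 1 χ) :
    Measurable (FF g b χ) := by
  have h : FF g b χ = fun y => ((2 * Real.pi)⁻¹ * (‖wf g y‖ ^ 2)⁻¹) * kk g b χ y :=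
    funext fun y => FF_eq y
  rw [h]
  exact (measurable_const.mul (((continuous_wf hg).norm.pow 2).measurable.inv)).mul
    (continuous_kk hg hb hχ).measurable

lemma wf_T (g : ℂ → ℂ) (p : ℂ × ℂ) : wf g (T g p) = p.2 := by
  rw [wf, sL_T, vL_T]; ring

theorem integrable_FF (hg : ContDiff ℝ 1 g) (hb : Continuous b) (hχ : ContDiff ℝ 1 χ)
    (hc : HasCompactSupport χ) : Integrable (FF g b χ) := by
  obtain ⟨C, hC0, hC⟩ := kk_bound (b := b) hg hb hχ hc
  rw [integrable_T hg.continuous]
  have hK : IsCompact (T g ⁻¹' tsupport χ) :=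
    (Th hg.continuous).isCompact_preimage.2 hc
  obtain ⟨R, hR⟩ := hK.isBounded.subset_ball 0
  have hI : Integrable fun p : ℂ × ℂ => indicator (ball (0 : ℂ) R) (fun _ => (1 : ℝ)) p.1 *
      (((2 * Real.pi)⁻¹ * C) * indicator (ball (0 : ℂ) R) (fun t => ‖t‖⁻¹) p.2) := by
    refine Integrable.mul_prod (f := indicator (ball (0 : ℂ) R) (fun _ => (1 : ℝ)))
      (g := fun t => ((2 * Real.pi)⁻¹ * C) * indicator (ball (0 : ℂ) R) (fun t => ‖t‖⁻¹) t) ?_ ?_
    · rw [integrable_indicator_iff measurableSet_ball]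
      exact integrableOn_const measure_ball_lt_top.ne
    · exact (inv_norm_integrable R).const_mul _
  refine hI.mono' ((measurable_FF hg hb hχ).comp (Th hg.continuous).measurable).aestronglyMeasurable
    (ae_of_all _ fun p => ?_)
  rw [FF_eq, wf_T]
  by_cases hp : T g p ∈ tsupport χ
  · have h1 : p ∈ ball (0 : ℂ × ℂ) R := hR hp
    rw [mem_ball_zero_iff, Prod.norm_def, max_lt_iff] at h1
    rw [indicator_of_mem (show p.1 ∈ ball (0 : ℂ) R by simpa using h1.1),
      indicator_of_mem (show p.2 ∈ ball (0 : ℂ) R by simpa using h1.2), one_mul, Real.norm_eq_abs,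
      abs_mul, abs_of_nonneg (show (0 : ℝ) ≤ (2 * Real.pi)⁻¹ * (‖p.2‖ ^ 2)⁻¹ by positivity)]
    have h2 := hC (T g p)
    rw [wf_T] at h2
    by_cases h0 : p.2 = 0
    · simp [h0]
    have h3 : 0 < ‖p.2‖ := norm_pos_iff.2 h0
    calc (2 * Real.pi)⁻¹ * (‖p.2‖ ^ 2)⁻¹ * |kk g b χ (T g p)|
        ≤ (2 * Real.pi)⁻¹ * (‖p.2‖ ^ 2)⁻¹ * (C * ‖p.2‖) := by gcongr
      _ = (2 * Real.pi)⁻¹ * C * ‖p.2‖⁻¹ := by field_simp
  · have h1 : fderiv ℝ χ (T g p) = 0 := by
      by_contra h
      exact hp (support_fderiv_subset ℝ h)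
    have h2 : kk g b χ (T g p) = 0 := by
      rw [kk, h1]
      simp [W, ent]
    rw [h2, mul_zero, norm_zero]
    exact mul_nonneg (indicator_nonneg (fun _ _ => zero_le_one) _)
      (mul_nonneg (by positivity) (indicator_nonneg (fun _ _ => by positivity) _))

/-- the boundary integrand. -/
def hh (g : ℂ → ℂ) (b : E4 → Bil) (χ : E4 → ℝ) (y : E4) : ℝ :=
  χ y * b y (t1 g (sL y)) (t2 g (sL y))

lemma continuous_hh (hg : ContDiff ℝ 1 g) (hb : Continuous b) (hχ : Continuous χ) :
    Continuous (hh g b χ) := by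
  unfold hh t1 t2
  have h1 : Continuous (fderiv ℝ g) := hg.continuous_fderiv one_ne_zero
  have e : ∀ s v, mk s v = mkL (s, v) := fun s v => (mkL_apply (s, v)).symm
  simp only [e]
  refine hχ.mul ((hb.clm_apply ?_).clm_apply ?_)
  · exact mkL.continuous.comp (continuous_const.prodMk
      ((h1.comp sL.continuous).clm_apply continuous_const))
  · exact mkL.continuous.comp (continuous_const.prodMk
      ((h1.comp sL.continuous).clm_apply continuous_const))

lemma W_smul_wed (r : ℝ) (ξ η : Cov) (c : Bil) : W (wed (r • ξ) η) c = r * W (wed ξ η) c := by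
  rw [wed_smul_left, W_smul_left]

/-- Stokes for the smoothed angular form. -/
lemma stokes_c (hg : ContDiff ℝ ∞ g) (hb : ContDiff ℝ 1 b) (halt : ∀ x, Alt (b x))
    (hχ : ContDiff ℝ 1 χ) (hc : HasCompactSupport χ) (hcl : ∀ x ∈ tsupport χ, Cl b x) (c : ℝ) :
    ∫ y, rc c (wf g y) * FF g b χ y = ∫ y, (c ^ 2 * kap (c • wf g y)) * hh g b χ y := by
  have hgd : Differentiable ℝ g := hg.differentiable (by simp)
  have hg1 : ContDiff ℝ 1 g := hg.of_le (by exact_mod_cast le_top)
  have hp := psic_contDiff hg c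
  have hp1 : ContDiff ℝ 1 (psic g c) := hp.of_le (by exact_mod_cast le_top)
  have h0 : HasCompactSupport fun y => χ y • psic g c y := hc.mono fun y hy h => hy (by
    show χ y • psic g c y = 0
    rw [h, zero_smul])
  have h1 := stokes hb halt (S := fun y => χ y • psic g c y) (hχ.smul hp1)
    h0 (fun x hx => hcl x (tsupport_smul_subset_left χ _ hx))
  have h2 : ∀ y, W (b y) (En.d1 (fun y => χ y • psic g c y) y) =
      (c ^ 2 * kap (c • wf g y)) * hh g b χ y - rc c (wf g y) * FF g b χ y := by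
    intro y
    rw [En.d1_smul (hχ.differentiable one_ne_zero y) (hp1.differentiable one_ne_zero y),
      W_add_right, d1_psic hg, W_smul_right, W_smul_right]
    have h3 : W (b y) (wed (Complex.reCLM.comp (Dw g y)) (Complex.imCLM.comp (Dw g y))) =
        b y (t1 g (sL y)) (t2 g (sL y)) := W_graph (halt y) (fderiv ℝ g (sL y))
    have h4 : wed (fderiv ℝ χ y) (psic g c y) = - (rc c (wf g y) • wed (psi g y) (fderiv ℝ χ y)) := by
      rw [psic_eq, wed_smul_right]
      ext u v
      simp only [smul_apply, neg_apply, smul_eq_mul, wed_apply]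
      ring
    have h5 : W (b y) (wed (fderiv ℝ χ y) (psic g c y)) = - (rc c (wf g y) * FF g b χ y) := by
      rw [h4, W_comm, ← neg_smul, W_smul_left, FF]
      ring
    rw [h3, h5, hh]
    ring
  simp only [h2] at h1
  have hi1 : Integrable fun y => (c ^ 2 * kap (c • wf g y)) * hh g b χ y := by
    have hcont : Continuous fun y => (c ^ 2 * kap (c • wf g y)) * hh g b χ y :=
      (continuous_const.mul (kap_continuous.comp ((continuous_wf hg1).const_smul c))).mul
        (continuous_hh hg1 hb.continuous hχ.continuous)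
    refine hcont.integrable_of_hasCompactSupport ?_
    refine HasCompactSupport.mul_left (HasCompactSupport.mul_right hc)
  have hi2 : Integrable fun y => rc c (wf g y) * FF g b χ y := by
    have h6 := integrable_FF hg1 hb.continuous hχ hc
    refine h6.bdd_mul (c := 1) ?_ ?_
    · have : Continuous fun y => rc c (wf g y) := by
        unfold rc
        have hw := (continuous_wf hg1).norm
        refine (continuous_const.mul (hw.pow 2)).mul (Continuous.inv₀ ?_ fun y => ?_)
        · exact continuous_const.add (continuous_const.mul (hw.pow 2))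
        · have : (0 : ℝ) < 1 + c ^ 2 * ‖wf g y‖ ^ 2 := by positivity
          exact this.ne'
      exact this.aestronglyMeasurable
    · refine ae_of_all _ fun y => ?_
      rw [Real.norm_eq_abs, abs_of_nonneg (rc_nonneg _ _)]
      exact rc_le_one _ _
  rw [integral_sub hi1 hi2] at h1
  linarith

/-- **the weak equation of a smooth graph** (global version). -/
theorem graph_core (hg : ContDiff ℝ ∞ g) (hb : ContDiff ℝ 1 b) (halt : ∀ x, Alt (b x))
    (hχ : ContDiff ℝ 1 χ) (hc : HasCompactSupport χ) (hcl : ∀ x ∈ tsupport χ, Cl b x) :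
    ∫ y, FF g b χ y = ∫ s, χ (mk s (g s)) * b (mk s (g s)) (t1 g s) (t2 g s) := by
  have hg1 : ContDiff ℝ 1 g := hg.of_le (by exact_mod_cast le_top)
  have hgc := hg1.continuous
  have hF := integrable_FF hg1 hb.continuous hχ hc
  -- left-hand side
  have hL : Tendsto (fun c : ℝ => ∫ y, rc c (wf g y) * FF g b χ y) atTop
      (𝓝 (∫ y, FF g b χ y)) := by
    refine tendsto_integral_filter_of_dominated_convergence (fun y => ‖FF g b χ y‖) ?_ ?_ hF.norm ?_
    · refine Eventually.of_forall fun c => ?_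
      have : Measurable fun y => rc c (wf g y) := by
        unfold rc
        have hw := (continuous_wf hg1).norm.measurable
        exact (measurable_const.mul (hw.pow_const 2)).mul
          (measurable_const.add (measurable_const.mul (hw.pow_const 2))).inv
      exact (this.mul (measurable_FF hg1 hb.continuous hχ)).aestronglyMeasurable
    · refine Eventually.of_forall fun c => ae_of_all _ fun y => ?_
      rw [norm_mul, Real.norm_eq_abs, abs_of_nonneg (rc_nonneg _ _)]
      exact mul_le_of_le_one_left (norm_nonneg _) (rc_le_one _ _)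
    · have h1 : ∀ᵐ y : E4, wf g y ≠ 0 := by
        have h2 : ∀ᵐ p : ℂ × ℂ, p.2 ≠ 0 :=
          (Measure.quasiMeasurePreserving_snd (μ := (volume : Measure ℂ))
            (ν := (volume : Measure ℂ))).ae (by simp [ae_iff] : ∀ᵐ t : ℂ, t ≠ 0)
        have h3 : ∀ᵐ p : ℂ × ℂ, wf g (T g p) ≠ 0 := by
          filter_upwards [h2] with p hp
          rwa [wf_T]
        rw [← (mp_T hgc).map_eq, ae_map_iff (emb_T hgc).measurable.aemeasurable]
        · exact h3
        · exact (measurableSet_singleton (0 : ℂ)).compl.preimage (continuous_wf hg1).measurable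
      filter_upwards [h1] with y hy
      have := (rc_tendsto hy).mul_const (FF g b χ y)
      rwa [one_mul] at this
  -- right-hand side
  have hR : Tendsto (fun c : ℝ => ∫ y, (c ^ 2 * kap (c • wf g y)) * hh g b χ y) atTop
      (𝓝 (∫ s, hh g b χ (T g (s, 0)))) := by
    have hcont : Continuous fun p : ℂ × ℂ => hh g b χ (T g p) :=
      (continuous_hh hg1 hb.continuous hχ.continuous).comp (Th hgc).continuous
    have hcs : HasCompactSupport fun p : ℂ × ℂ => hh g b χ (T g p) := by
      have h1 : HasCompactSupport fun p : ℂ × ℂ => χ (T g p) :=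
        hc.comp_isClosedEmbedding (Th hgc).isClosedEmbedding
      exact HasCompactSupport.mul_right h1
    have hint : Integrable fun p : ℂ × ℂ => hh g b χ (T g p) :=
      hcont.integrable_of_hasCompactSupport hcs
    set H : ℂ → ℝ := fun t => ∫ s, hh g b χ (T g (s, t)) with hH
    have hHi : Integrable H := hint.integral_prod_right
    have hHc : Continuous H := by
      obtain ⟨R, hR⟩ := hcs.isCompact.isBounded.subset_closedBall 0
      have h2 := continuous_parametric_integral_of_continuous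
        (f := fun t s : ℂ => hh g b χ (T g (s, t))) (μ := volume)
        (hcont.comp continuous_swap) (isCompact_closedBall (0 : ℂ) R)
      have h3 : H = fun t => ∫ s in closedBall (0 : ℂ) R, hh g b χ (T g (s, t)) := by
        funext t
        rw [hH]
        refine (setIntegral_eq_integral_of_forall_compl_eq_zero fun s hs => ?_).symm
        by_contra hne
        apply hs
        have h4 : (s, t) ∈ closedBall (0 : ℂ × ℂ) R :=
          hR (subset_tsupport _ (mem_support.2 hne))
        rw [mem_closedBall_zero_iff, Prod.norm_def, max_le_iff] at h4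
        simpa using h4.1
      rw [h3]
      exact h2
    have h5 := kap_tendsto hHi hHc.continuousAt
    refine h5.congr fun c => ?_
    rw [← integral_T hgc]
    have h6 : ∀ p, (c ^ 2 * kap (c • wf g (T g p))) * hh g b χ (T g p) =
        (c ^ 2 * kap (c • p.2)) * hh g b χ (T g p) := fun p => by rw [wf_T]
    simp only [h6]
    have h7 : Integrable fun p : ℂ × ℂ => (c ^ 2 * kap (c • p.2)) * hh g b χ (T g p) := by
      have hcont2 : Continuous fun p : ℂ × ℂ => (c ^ 2 * kap (c • p.2)) * hh g b χ (T g p) :=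
        (continuous_const.mul (kap_continuous.comp (continuous_snd.const_smul c))).mul hcont
      exact hcont2.integrable_of_hasCompactSupport (HasCompactSupport.mul_left hcs)
    rw [show (∫ p : ℂ × ℂ, (c ^ 2 * kap (c • p.2)) * hh g b χ (T g p)) =
      ∫ t : ℂ, ∫ s : ℂ, (c ^ 2 * kap (c • t)) * hh g b χ (T g (s, t)) from
        integral_prod_symm _ h7]
    refine integral_congr_ae (ae_of_all _ fun t => ?_)
    show (c ^ 2 * kap (c • t)) * H t = _
    rw [hH, ← integral_const_mul]
  have hE := tendsto_nhds_unique hL (hR.congr fun c => (stokes_c hg hb halt hχ hc hcl c).symm)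
  rw [hE]
  refine integral_congr_ae (ae_of_all _ fun s => ?_)
  show χ (T g (s, 0)) * b (T g (s, 0)) (t1 g (sL (T g (s, 0)))) (t2 g (sL (T g (s, 0)))) = _
  rw [sL_T]
  simp [T]

end Core

end

end Crest.Agent.R235.Wk_250
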