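import Mathlib
import Crest.Agent.R235.WkC_250
import Crest.Agent.R235.RootProd_266

/-!
Row 235 (S0364), package ADJ, helper250: the area formula for the `m`-fold covering
`(s, v) ↦ (f s, v)`, `f = e ^ m`.
-/

set_option autoImplicit false
set_option maxSynthPendingDepth 3

open Set Function Filter MeasureTheory Metric Module
open scoped ContDiff Topology ENNReal ComplexConjugate

namespace Crest.Agent.R235.Wk_250

open Crest.Agent.R240 Crest.Agent.R240.En Crest.Agent.R235.RootProd_266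

noncomputable section

section Area

variable {m : ℕ} {f : ℂ → ℂ} {e : OpenPartialHomeomorph ℂ ℂ} {ρ : ℝ}

/-- the sectors upstairs. -/
def secU (e : OpenPartialHomeomorph ℂ ℂ) (m j : ℕ) : Set ℂ := e.source ∩ e ⁻¹' (e.target ∩ sec m j)

lemma measurableSet_secU (e : OpenPartialHomeomorph ℂ ℂ) (m j : ℕ) :
    MeasurableSet (secU e m j) := by
  rw [secU, ← e.symm_image_target_inter_eq]
  exact (e.open_target.measurableSet.inter (measurableSet_sec m j)).image_of_continuousOn_injOn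
    (e.continuousOn_symm.mono inter_subset_left) (e.symm.injOn.mono inter_subset_left)

lemma secU_sub (e : OpenPartialHomeomorph ℂ ℂ) (m j : ℕ) : secU e m j ⊆ e.source :=
  inter_subset_left

lemma injOn_secU (hpow : ∀ s ∈ e.source, e s ^ m = f s) (j : ℕ) : InjOn f (secU e m j) := by
  intro s hs s' hs' h
  have h1 : e s ^ m = e s' ^ m := by rw [hpow s hs.1, hpow s' hs'.1, h]
  exact e.injOn hs.1 hs'.1 (injOn_sec hs.2.2 hs'.2.2 h1)

lemma image_secU (hm : m ≠ 0) (hρ : 0 < ρ) (htgt : e.target = ball 0 ρ)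
    (hpow : ∀ s ∈ e.source, e s ^ m = f s) (j : ℕ) :
    f '' (secU e m j) = ball 0 (ρ ^ m) \ {0} := by
  ext ζ
  constructor
  · rintro ⟨s, ⟨hs, ht, h0, -⟩, rfl⟩
    rw [← hpow s hs]
    refine ⟨?_, pow_ne_zero _ h0⟩
    rw [htgt, mem_ball_zero_iff] at ht
    rw [mem_ball_zero_iff, norm_pow]
    exact pow_lt_pow_left₀ ht (norm_nonneg _) hm
  · rintro ⟨hζ, h0⟩
    have h0' : ζ ≠ 0 := h0
    have e1 : (xi m ^ j * b1 m ζ) ^ m = ζ := by
      rw [mul_pow, xi_pow_pow hm, one_mul, b1_pow hm]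
    have h2 : xi m ^ j * b1 m ζ ∈ e.target := by
      rw [htgt, mem_ball_zero_iff]
      rw [mem_ball_zero_iff, ← e1, norm_pow] at hζ
      exact lt_of_pow_lt_pow_left₀ m hρ.le hζ
    have h3 := e.right_inv h2
    refine ⟨e.symm (xi m ^ j * b1 m ζ), ⟨e.map_target h2, ?_, ?_, ?_⟩, ?_⟩
    · rw [h3]; exact h2
    · rw [h3]; exact mul_ne_zero (xi_pow_ne hm j) (b1_ne hm h0')
    · rw [h3, e1]
    · rw [← hpow _ (e.map_target h2), h3, e1]

lemma secU_disj (hm : m ≠ 0) {i j : ℕ} (hi : i < m) (hj : j < m) (hij : i ≠ j) :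
    Disjoint (secU e m i) (secU e m j) := by
  rw [Set.disjoint_left]
  intro s hs hs'
  exact Set.disjoint_left.1 (sec_disj hm hi hj hij) hs.2.2 hs'.2.2

lemma secU_cover (hm : m ≠ 0) (h0 : (0 : ℂ) ∈ e.source) (he0 : e 0 = 0) :
    e.source \ {0} = ⋃ j ∈ Finset.range m, secU e m j := by
  ext s
  simp only [mem_iUnion, Finset.mem_range, exists_prop]
  constructor
  · rintro ⟨hs, hs0⟩
    have h1 : e s ≠ 0 := by
      intro h
      exact hs0 (e.injOn hs h0 (h.trans he0.symm))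
    obtain ⟨j, hj, h2⟩ := sec_cover hm h1
    exact ⟨j, hj, hs, e.map_source hs, h2⟩
  · rintro ⟨j, hj, hs, h2⟩
    refine ⟨hs, ?_⟩
    rintro rfl
    exact h2.2.1 he0

lemma det_prod_id (A : ℂ →L[ℝ] ℂ) :
    (A.prodMap (ContinuousLinearMap.id ℝ ℂ)).det = A.det := by
  have h : ((A.prodMap (ContinuousLinearMap.id ℝ ℂ) : ℂ × ℂ →L[ℝ] ℂ × ℂ) : ℂ × ℂ →ₗ[ℝ] ℂ × ℂ) =
      LinearMap.prodMap (A : ℂ →ₗ[ℝ] ℂ) (LinearMap.id) := rfl
  unfold ContinuousLinearMap.det
  rw [h, LinearMap.det_prodMap, LinearMap.det_id, mul_one]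

lemma prod_ae_ne_zero (S : Set ℂ) :
    ((S \ {0}) ×ˢ univ : Set (ℂ × ℂ)) =ᵐ[volume] S ×ˢ univ :=
  Measure.set_prod_ae_eq (ae_ne_zero S) (ae_eq_refl _)

/-- **area formula** for `(s, v) ↦ (f s, v)`, `f = e ^ m`. -/
theorem area (hm : m ≠ 0) (hρ : 0 < ρ) (htgt : e.target = ball 0 ρ) (h0 : (0 : ℂ) ∈ e.source)
    (he0 : e 0 = 0) (hpow : ∀ s ∈ e.source, e s ^ m = f s)
    (hd : ∀ s ∈ e.source, DifferentiableAt ℝ f s) {G : ℂ → ℂ × ℂ → ℝ}
    (hI : IntegrableOn (fun p : ℂ × ℂ => |(fderiv ℝ f p.1).det| • G (e p.1) (f p.1, p.2))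
      (e.source ×ˢ univ)) :
    IntegrableOn (fun p : ℂ × ℂ => rs m (fun w => G w p) p.1) (ball 0 (ρ ^ m) ×ˢ univ) ∧
      ∫ p in ball (0 : ℂ) (ρ ^ m) ×ˢ univ, rs m (fun w => G w p) p.1 =
        ∫ p in e.source ×ˢ univ, |(fderiv ℝ f p.1).det| • G (e p.1) (f p.1, p.2) := by
  have : (volume : Measure (ℂ × ℂ)).IsAddHaarMeasure :=
    Measure.prod.instIsAddHaarMeasure (volume : Measure ℂ) (volume : Measure ℂ)
  have key : ∀ j < m,
      IntegrableOn (fun p : ℂ × ℂ => G (xi m ^ j * b1 m p.1) p) (ball 0 (ρ ^ m) ×ˢ univ) ∧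
      ∫ p in ball (0 : ℂ) (ρ ^ m) ×ˢ univ, G (xi m ^ j * b1 m p.1) p =
        ∫ p in secU e m j ×ˢ univ, |(fderiv ℝ f p.1).det| • G (e p.1) (f p.1, p.2) := by
    intro j hj
    have hms : MeasurableSet (secU e m j ×ˢ (univ : Set ℂ)) :=
      (measurableSet_secU e m j).prod MeasurableSet.univ
    have hd' : ∀ x ∈ secU e m j ×ˢ (univ : Set ℂ), HasFDerivWithinAt
        (fun p : ℂ × ℂ => (f p.1, p.2))
        ((fderiv ℝ f x.1).prodMap (ContinuousLinearMap.id ℝ ℂ)) (secU e m j ×ˢ univ) x := by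
      intro x hx
      have h1 : HasFDerivAt f (fderiv ℝ f x.1) x.1 := (hd x.1 hx.1.1).hasFDerivAt
      have h2 : HasFDerivAt (Prod.map f id)
          ((fderiv ℝ f x.1).prodMap (ContinuousLinearMap.id ℝ ℂ)) x :=
        HasFDerivAt.prodMap x h1 (hasFDerivAt_id x.2)
      exact h2.hasFDerivWithinAt
    have hi : InjOn (fun p : ℂ × ℂ => (f p.1, p.2)) (secU e m j ×ˢ univ) := by
      rintro ⟨s, v⟩ ⟨hs, -⟩ ⟨s', v'⟩ ⟨hs', -⟩ h
      simp only [Prod.mk.injEq] at h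
      have h3 : s = s' := injOn_secU hpow j hs hs' h.1
      rw [h3, h.2]
    have himg : (fun p : ℂ × ℂ => (f p.1, p.2)) '' (secU e m j ×ˢ univ) =
        (ball 0 (ρ ^ m) \ {0}) ×ˢ univ := by
      rw [← image_secU hm hρ htgt hpow j]
      ext ⟨ζ, v⟩
      constructor
      · rintro ⟨⟨s, v'⟩, ⟨hs, -⟩, h⟩
        simp only [Prod.mk.injEq] at h
        exact ⟨⟨s, hs, h.1⟩, trivial⟩
      · rintro ⟨⟨s, hs, h⟩, -⟩
        exact ⟨(s, v), ⟨hs, trivial⟩, by simpa using h⟩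
    have hc : ∀ p ∈ secU e m j ×ˢ (univ : Set ℂ),
        |((fderiv ℝ f p.1).prodMap (ContinuousLinearMap.id ℝ ℂ)).det| •
          G (xi m ^ j * b1 m (f p.1)) (f p.1, p.2) =
        |(fderiv ℝ f p.1).det| • G (e p.1) (f p.1, p.2) := by
      rintro ⟨s, v⟩ ⟨hs, -⟩
      have h1 : e s = xi m ^ j * b1 m (f s) := by
        rw [← hpow s hs.1]; exact hs.2.2.2
      show |((fderiv ℝ f s).prodMap (ContinuousLinearMap.id ℝ ℂ)).det| •
          G (xi m ^ j * b1 m (f s)) (f s, v) = |(fderiv ℝ f s).det| • G (e s) (f s, v)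
      rw [det_prod_id, ← h1]
    have h1 := integrableOn_image_iff_integrableOn_abs_det_fderiv_smul volume hms hd' hi
      (fun p => G (xi m ^ j * b1 m p.1) p)
    have h2 := integral_image_eq_integral_abs_det_fderiv_smul volume hms hd' hi
      (fun p => G (xi m ^ j * b1 m p.1) p)
    rw [himg] at h1 h2
    rw [setIntegral_congr_set (prod_ae_ne_zero _)] at h2
    rw [integrableOn_congr_set_ae (prod_ae_ne_zero _)] at h1
    constructor
    · rw [h1]
      refine (integrableOn_congr_fun (fun w hw => ?_) hms).2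
        (hI.mono_set (prod_mono (secU_sub e m j) le_rfl))
      exact hc w hw
    · rw [h2]
      exact setIntegral_congr_fun hms fun w hw => hc w hw
  have hfun : (fun p : ℂ × ℂ => rs m (fun w => G w p) p.1) =
      fun p => ∑ j ∈ Finset.range m, G (xi m ^ j * b1 m p.1) p :=
    funext fun p => rs_b1 hm (fun w => G w p) p.1
  rw [hfun]
  refine ⟨integrable_finsetSum _ fun j hj => (key j (Finset.mem_range.1 hj)).1, ?_⟩
  rw [integral_finsetSum _ fun j hj => (key j (Finset.mem_range.1 hj)).1]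
  rw [Finset.sum_congr rfl fun j hj => (key j (Finset.mem_range.1 hj)).2]
  have hun : ((e.source \ {0}) ×ˢ univ : Set (ℂ × ℂ)) =
      ⋃ j ∈ Finset.range m, (secU e m j ×ˢ univ) := by
    rw [secU_cover hm h0 he0]
    ext p
    simp
  rw [← setIntegral_congr_set (prod_ae_ne_zero e.source), hun, integral_biUnion_finset]
  · intro j _
    exact (measurableSet_secU e m j).prod MeasurableSet.univ
  · intro i hi j hj hij
    exact Set.disjoint_prod.2 (Or.inl (secU_disj hm (by simpa using hi) (by simpa using hj) hij))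
  · intro j _
    exact hI.mono_set (prod_mono (secU_sub e m j) le_rfl)

end Area

/-! ### cut-offs -/

section Cut

variable {E : Type*} [NormedAddCommGroup E] [NormedSpace ℝ E] [FiniteDimensional ℝ E]

lemma exists_cut {K U : Set E} (hK : IsCompact K) (hU : IsOpen U) (h : K ⊆ U) :
    ∃ (κ : E → ℝ) (K' : Set E), ContDiff ℝ ∞ κ ∧ IsCompact K' ∧ K' ⊆ U ∧
      (∀ x ∈ K, ∀ᶠ y in 𝓝 x, κ y = 1) ∧ ∀ x ∉ K', κ x = 0 := by
  obtain ⟨K', hK', hKK', hKU⟩ := exists_compact_between hK hU h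
  obtain ⟨f, hf1, hf0, -⟩ := exists_contMDiffMap_one_nhds_of_subset_interior (n := (⊤ : ℕ∞))
    (modelWithCornersSelf ℝ E) hK.isClosed hKK'
  exact ⟨f, K', f.contMDiff.contDiff, hK', hKU, fun x hx =>
    hf1.filter_mono (nhds_le_nhdsSet hx), hf0⟩

variable {F : Type*} [NormedAddCommGroup F] [NormedSpace ℝ F]

omit [FiniteDimensional ℝ E] in
lemma cut_smooth {κ : E → ℝ} {K' U : Set E} {g : E → F} {n : ℕ∞} (hκ : ContDiff ℝ ∞ κ)
    (hK' : IsCompact K') (hU : IsOpen U) (hKU : K' ⊆ U) (h0 : ∀ x ∉ K', κ x = 0)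
    (hg : ContDiffOn ℝ n g U) : ContDiff ℝ n fun x => κ x • g x := by
  rw [contDiff_iff_contDiffAt]
  intro x
  by_cases hx : x ∈ U
  · exact (hκ.of_le (by exact_mod_cast le_top)).contDiffAt.smul (hg.contDiffAt (hU.mem_nhds hx))
  · have hxK : K'ᶜ ∈ 𝓝 x := hK'.isClosed.isOpen_compl.mem_nhds (fun h => hx (hKU h))
    refine (contDiffAt_const (c := (0 : F))).congr_of_eventuallyEq ?_
    filter_upwards [hxK] with y hy
    simp [h0 y hy]

end Cut

lemma FF_congr {g g' : ℂ → ℂ} {b b' : E4 → Bil} {χ : E4 → ℝ} {y : E4}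
    (h : y ∈ tsupport χ → g =ᶠ[𝓝 (sL y)] g') (hb : y ∈ tsupport χ → b y = b' y) :
    FF g b χ y = FF g' b' χ y := by
  by_cases hy : y ∈ tsupport χ
  · have h1 : g (sL y) = g' (sL y) := (h hy).self_of_nhds
    have h2 : fderiv ℝ g (sL y) = fderiv ℝ g' (sL y) := (h hy).fderiv_eq
    rw [FF, FF, psi, psi, wf, wf, Dw, Dw, h1, h2, hb hy]
  · have h1 : fderiv ℝ χ y = 0 := by
      by_contra h
      exact hy (support_fderiv_subset ℝ h)
    rw [FF, FF, h1]
    simp [W, ent]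

lemma hh_congr {g g' : ℂ → ℂ} {b b' : E4 → Bil} {χ : E4 → ℝ} {y : E4}
    (h : y ∈ tsupport χ → g =ᶠ[𝓝 (sL y)] g') (hb : y ∈ tsupport χ → b y = b' y) :
    hh g b χ y = hh g' b' χ y := by
  by_cases hy : y ∈ tsupport χ
  · have h2 : fderiv ℝ g (sL y) = fderiv ℝ g' (sL y) := (h hy).fderiv_eq
    rw [hh, hh, t1, t1, t2, t2, h2, hb hy]
  · rw [hh, hh, image_eq_zero_of_notMem_tsupport hy, zero_mul, zero_mul]

/-- **the weak equation of a smooth graph** (local version). -/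
theorem graph_loc {O : Set E4} (hO : IsOpen O) {Og : Set ℂ} (hOg : IsOpen Og) {g : ℂ → ℂ}
    (hg : ContDiffOn ℝ ∞ g Og) (hOO : ∀ y ∈ O, sL y ∈ Og) {b : E4 → Bil}
    (hb : ContDiffOn ℝ 1 b O) (halt : ∀ y ∈ O, Alt (b y)) (hcl : ∀ y ∈ O, Cl b y) {χ : E4 → ℝ}
    (hχ : ContDiff ℝ 1 χ) (hc : HasCompactSupport χ) (hsub : tsupport χ ⊆ O) :
    Integrable (FF g b χ) ∧ ∫ y, FF g b χ y = ∫ s, hh g b χ (mk s (g s)) := by
  have hKg : IsCompact (sL '' tsupport χ) := hc.isCompact.image sL.continuous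
  have hKgO : sL '' tsupport χ ⊆ Og := by
    rintro _ ⟨y, hy, rfl⟩
    exact hOO y (hsub hy)
  obtain ⟨κ, K1, hκ, hK1, hK1O, hκ1, hκ0⟩ := exists_cut hKg hOg hKgO
  obtain ⟨μ, K2, hμ, hK2, hK2O, hμ1, hμ0⟩ := exists_cut hc.isCompact hO hsub
  set g' : ℂ → ℂ := fun s => κ s • g s with hg'
  set b' : E4 → Bil := fun y => μ y • b y with hb'
  have hgs : ContDiff ℝ ∞ g' := cut_smooth (n := (⊤ : ℕ∞)) hκ hK1 hOg hK1O hκ0 hg
  have hbs : ContDiff ℝ 1 b' := cut_smooth (n := 1) hμ hK2 hO hK2O hμ0 hb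
  have hbalt : ∀ y, Alt (b' y) := by
    intro y v
    by_cases hy : y ∈ O
    · simp [hb', halt y hy v]
    · simp [hb', hμ0 y (fun h => hy (hK2O h))]
  have ebn : ∀ y ∈ tsupport χ, b' =ᶠ[𝓝 y] b := by
    intro y hy
    filter_upwards [hμ1 y hy] with x hx
    simp [hb', hx]
  have egn : ∀ y ∈ tsupport χ, g =ᶠ[𝓝 (sL y)] g' := by
    intro y hy
    filter_upwards [hκ1 (sL y) ⟨y, hy, rfl⟩] with x hx
    simp [hg', hx]
  have hbcl : ∀ y ∈ tsupport χ, Cl b' y := by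
    intro y hy
    have := hcl y (hsub hy)
    unfold Cl at this ⊢
    rw [(ebn y hy).fderiv_eq]
    exact this
  have e1 : FF g b χ = FF g' b' χ := funext fun y =>
    FF_congr (egn y) fun hy => ((ebn y hy).self_of_nhds).symm
  have hg1 : ContDiff ℝ 1 g' := hgs.of_le (by exact_mod_cast le_top)
  rw [e1]
  refine ⟨integrable_FF hg1 hbs.continuous hχ hc, ?_⟩
  rw [graph_core hgs hbs hbalt hχ hc hbcl]
  refine integral_congr_ae (ae_of_all _ fun s => ?_)
  show χ (mk s (g' s)) * b' (mk s (g' s)) (t1 g' s) (t2 g' s) = hh g b χ (mk s (g s))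
  have e2 : χ (mk s (g' s)) * b' (mk s (g' s)) (t1 g' s) (t2 g' s) = hh g' b' χ (mk s (g' s)) := by
    rw [hh, sL_mk]
  rw [e2]
  by_cases h1 : s ∈ sL '' tsupport χ
  · obtain ⟨y, hy, rfl⟩ := h1
    have h2 : g (sL y) = g' (sL y) := (egn y hy).self_of_nhds
    rw [← h2]
    refine (hh_congr (fun _ => ?_) fun h3 => ((ebn _ h3).self_of_nhds).symm).symm
    rw [sL_mk]
    exact egn y hy
  · have h2 : ∀ v, χ (mk s v) = 0 := by
      intro v
      by_contra h
      exact h1 ⟨mk s v, subset_tsupport _ h, by simp⟩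
    rw [hh, hh, h2, h2, zero_mul, zero_mul]

end

end Crest.Agent.R235.Wk_250
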