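import Mathlib
import Crest.Agent.R235.WkD_250

/-!
Row 235 (S0364), package ADJ, helper250: the weak equation of one branch in `E4`.
-/

set_option autoImplicit false
set_option maxSynthPendingDepth 3

open Set Function Filter MeasureTheory Metric Module
open scoped ContDiff Topology ENNReal ComplexConjugate

namespace Crest.Agent.R235.Wk_250

open Crest.Agent.R240 Crest.Agent.R240.En Crest.Agent.R235.RootProd_266

noncomputable section

/-! ### closedness -/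

lemma alt_fderiv {b : E4 → Bil} {y : E4} (hb : DifferentiableAt ℝ b y)
    (halt : ∀ᶠ z in 𝓝 y, Alt (b z)) (u : E4) : Alt (fderiv ℝ b y u) := by
  intro v
  have h1 : fderiv ℝ (fun z => b z v v) y u = fderiv ℝ b y u v v := by
    have h2 : DifferentiableAt ℝ (fun z => b z v) y := hb.clm_apply (differentiableAt_const v)
    rw [fderiv_clm_apply h2 (differentiableAt_const v),
      fderiv_clm_apply hb (differentiableAt_const v)]
    simp
  have h3 : (fun z => b z v v) =ᶠ[𝓝 y] fun _ => 0 := halt.mono fun z hz => hz v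
  rw [← h1, h3.fderiv_eq]
  simp

lemma cl_iff_dd {b : E4 → Bil} {y : E4} (hb : DifferentiableAt ℝ b y)
    (halt : ∀ᶠ z in 𝓝 y, Alt (b z)) : Cl b y ↔ ∀ u v w, Ch.dd b y u v w = 0 := by
  have h : ∀ u v w, Ch.dd b y u v w =
      fderiv ℝ b y u v w + fderiv ℝ b y v w u + fderiv ℝ b y w u v := by
    intro u v w
    rw [Ch.dd, (alt_fderiv hb halt v).swap u w]
    ring
  constructor
  · intro h1 u v w
    rw [h, h1 u v w]
  · intro h1 u v w
    rw [← h, h1 u v w]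

/-! ### the map `P` -/

/-- linear model of `P`. -/
def PL (A : ℂ →L[ℝ] ℂ) : E4 →L[ℝ] E4 := mkL.comp ((A.comp sL).prod vL)

lemma PL_eq (A : ℂ →L[ℝ] ℂ) : PL A =
    (mkL.comp (ContinuousLinearMap.inl ℝ ℂ ℂ)).comp (A.comp sL) +
      (mkL.comp (ContinuousLinearMap.inr ℝ ℂ ℂ)).comp vL := by
  ext1 u
  simp only [PL, ContinuousLinearMap.comp_apply, add_apply, ContinuousLinearMap.inl_apply,
    ContinuousLinearMap.inr_apply, ContinuousLinearMap.prod_apply, ← map_add, Prod.mk_add_mk,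
    add_zero, zero_add]

lemma PL_apply (A : ℂ →L[ℝ] ℂ) (u : E4) : PL A u = mk (A (sL u)) (vL u) := by
  rw [PL, ContinuousLinearMap.comp_apply, mkL_apply]; rfl

lemma det_PL (A : ℂ →L[ℝ] ℂ) : LinearMap.det (PL A : E4 →ₗ[ℝ] E4) = A.det := by
  have h : (PL A : E4 →ₗ[ℝ] E4) = (mkE.toLinearEquiv : (ℂ × ℂ) →ₗ[ℝ] E4) ∘ₗ
      (LinearMap.prodMap (A : ℂ →ₗ[ℝ] ℂ) LinearMap.id) ∘ₗ
      (mkE.toLinearEquiv.symm : E4 →ₗ[ℝ] (ℂ × ℂ)) := by
    ext1 u
    simp only [LinearMap.comp_apply]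
    show PL A u = mkE ((LinearMap.prodMap (A : ℂ →ₗ[ℝ] ℂ) LinearMap.id) (mkE.symm u))
    rw [PL_apply, mkE_symm_apply, mkE_apply]
    rfl
  rw [h, LinearMap.det_conj, LinearMap.det_prodMap, LinearMap.det_id, mul_one]

/-- the map `(s, v) ↦ (f s, v)`. -/
def PP (f : ℂ → ℂ) (y : E4) : E4 := mk (f (sL y)) (vL y)

lemma PP_eq (f : ℂ → ℂ) : PP f = fun y => mkL (f (sL y), vL y) := by
  funext y; rw [mkL_apply]; rfl

lemma hasFDerivAt_PP {f : ℂ → ℂ} {y : E4} (hf : DifferentiableAt ℝ f (sL y)) :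
    HasFDerivAt (PP f) (PL (fderiv ℝ f (sL y))) y := by
  rw [PP_eq]
  exact mkL.hasFDerivAt.comp y ((hf.hasFDerivAt.comp y sL.hasFDerivAt).prodMk vL.hasFDerivAt)

lemma contDiffAt_PP {f : ℂ → ℂ} {y : E4} {n : WithTop ℕ∞} (hf : ContDiffAt ℝ n f (sL y)) :
    ContDiffAt ℝ n (PP f) y := by
  rw [PP_eq]
  exact mkL.contDiff.contDiffAt.comp y
    ((hf.comp y sL.contDiff.contDiffAt).prodMk vL.contDiff.contDiffAt)

lemma pull_wed' (A : E4 →L[ℝ] E4) (ξ η : Cov) : pull A (wed ξ η) = wed (ξ.comp A) (η.comp A) := by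
  ext u v
  simp

/-! ### the sheets -/

lemma sg_apply (w h : ℂ) : sg w h = (2 * Real.pi)⁻¹ * (w⁻¹ * h).im := by
  rw [sg, smul_apply, th_apply, smul_eq_mul, Complex.inv_def, mul_assoc]
  congr 1
  rw [← Complex.normSq_eq_norm_sq]
  simp
  ring

/-- the angular form of one sheet. -/
def om (Z : ℂ → ℂ) (m : ℕ) (w : ℂ) (y : E4) : Cov :=
  (2 * Real.pi)⁻¹ • Complex.imCLM.comp
    (((vL y - Z w)⁻¹ • dsh m Z (sL y) w).comp (sL.prod vL))

lemma om_apply (Z : ℂ → ℂ) (m : ℕ) (w : ℂ) (y u : E4) : om Z m w y u =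
    (2 * Real.pi)⁻¹ * ((vL y - Z w)⁻¹ * (vL u - fderiv ℝ Z w (w / (m * sL y) * sL u))).im := by
  simp [om, dsh_apply]

/-- the angular form of a branch. -/
def OM (Z : ℂ → ℂ) (m : ℕ) (y : E4) : Cov := rs m (fun w => om Z m w y) (sL y)

/-- the data of a branch `s ↦ (f s, z s)`, `f = e ^ m`. -/
structure Br (f z : ℂ → ℂ) (m : ℕ) (e : OpenPartialHomeomorph ℂ ℂ) (ρ : ℝ) : Prop where
  mkBr ::
  hm : m ≠ 0
  ρ0 : 0 < ρ
  tgt : e.target = ball 0 ρ
  src : (0 : ℂ) ∈ e.source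
  zero : e 0 = 0
  pow : ∀ s ∈ e.source, e s ^ m = f s
  smf : ContDiffOn ℝ ∞ f e.source
  smz : ContDiffOn ℝ ∞ z e.source
  de : ∀ s ∈ e.source, DifferentiableAt ℝ e s
  des : ∀ w ∈ ball (0 : ℂ) ρ, DifferentiableAt ℝ e.symm w
  det : ∀ s ∈ e.source, 0 ≤ (fderiv ℝ f s).det

section Branch

variable {f z : ℂ → ℂ} {m : ℕ} {e : OpenPartialHomeomorph ℂ ℂ} {ρ : ℝ}

lemma Br.diff_f (B : Br f z m e ρ) {s : ℂ} (hs : s ∈ e.source) : DifferentiableAt ℝ f s :=
  (B.smf.contDiffAt (e.open_source.mem_nhds hs)).differentiableAt (by simp)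

lemma Br.diff_z (B : Br f z m e ρ) {s : ℂ} (hs : s ∈ e.source) : DifferentiableAt ℝ z s :=
  (B.smz.contDiffAt (e.open_source.mem_nhds hs)).differentiableAt (by simp)

lemma Br.ne (B : Br f z m e ρ) {s : ℂ} (hs : s ∈ e.source) (h0 : s ≠ 0) : e s ≠ 0 := by
  intro h
  exact h0 (e.injOn hs B.src (h.trans B.zero.symm))

lemma Br.de_eq (B : Br f z m e ρ) {s : ℂ} (hs : s ∈ e.source) (h0 : s ≠ 0) (h : ℂ) :
    e s / (m * f s) * fderiv ℝ f s h = fderiv ℝ e s h := by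
  have hne := B.ne hs h0
  have h1 : (fun x => e x ^ m) =ᶠ[𝓝 s] f := by
    filter_upwards [e.open_source.mem_nhds hs] with x hx using B.pow x hx
  have h2 : HasFDerivAt (fun x => e x ^ m) ((m * e s ^ (m - 1) : ℂ) • fderiv ℝ e s) s := by
    have := (hasFDerivAt_pow_real m (e s)).comp s (B.de s hs).hasFDerivAt
    refine this.congr_fderiv ?_
    ext k
    simp
  have h3 : fderiv ℝ f s = (m * e s ^ (m - 1) : ℂ) • fderiv ℝ e s := by
    rw [← h1.fderiv_eq, h2.fderiv]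
  rw [h3, ← B.pow s hs]
  have hm : (m : ℂ) ≠ 0 := by exact_mod_cast B.hm
  have h4 : e s ^ m = e s ^ (m - 1) * e s := by
    rw [← pow_succ, Nat.sub_add_cancel (Nat.one_le_iff_ne_zero.2 B.hm)]
  rw [h4]
  have h5 : e s ^ (m - 1) ≠ 0 := pow_ne_zero _ hne
  show e s / (m * (e s ^ (m - 1) * e s)) * ((m * e s ^ (m - 1) : ℂ) * fderiv ℝ e s h) = _
  field_simp

/-- the pull-back of the angular form of a sheet is the angular form of the graph of `z`. -/
lemma Br.om_pull (B : Br f z m e ρ) {y : E4} (hs : sL y ∈ e.source) (h0 : sL y ≠ 0) :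
    (om (fun w => z (e.symm w)) m (e (sL y)) (PP f y)).comp (PL (fderiv ℝ f (sL y))) =
      psi z y := by
  ext u
  have hw : e (sL y) ∈ ball (0 : ℂ) ρ := by rw [← B.tgt]; exact e.map_source hs
  have h1 : fderiv ℝ (fun w => z (e.symm w)) (e (sL y)) =
      (fderiv ℝ z (sL y)).comp (fderiv ℝ e.symm (e (sL y))) := by
    have h2 : HasFDerivAt z (fderiv ℝ z (sL y)) (e.symm (e (sL y))) := by
      rw [e.left_inv hs]; exact (B.diff_z hs).hasFDerivAt
    exact (h2.comp (e (sL y)) (B.des _ hw).hasFDerivAt).fderiv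
  have h3 : (fderiv ℝ e.symm (e (sL y))).comp (fderiv ℝ e (sL y)) = ContinuousLinearMap.id ℝ ℂ := by
    have h4 : (fun x => e.symm (e x)) =ᶠ[𝓝 (sL y)] id := by
      filter_upwards [e.open_source.mem_nhds hs] with x hx using e.left_inv hx
    have h5 := ((B.des _ hw).hasFDerivAt.comp (sL y) (B.de _ hs).hasFDerivAt).fderiv
    rw [← h5]
    have h6 : fderiv ℝ (fun x => e.symm (e x)) (sL y) = fderiv ℝ id (sL y) := h4.fderiv_eq
    rw [fderiv_id] at h6
    exact h6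
  rw [ContinuousLinearMap.comp_apply, om_apply, PL_apply, vL_mk, sL_mk, psi,
    ContinuousLinearMap.comp_apply, sg_apply, Dw_apply, wf]
  have h7 : sL (PP f y) = f (sL y) := sL_mk _ _
  have h8 : vL (PP f y) = vL y := vL_mk _ _
  rw [h7, h8, B.de_eq hs h0, h1, ContinuousLinearMap.comp_apply]
  have h9 : fderiv ℝ e.symm (e (sL y)) (fderiv ℝ e (sL y) (sL u)) = sL u := by
    have := congrArg (fun A : ℂ →L[ℝ] ℂ => A (sL u)) h3
    simpa using this
  rw [h9, e.left_inv hs]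

/-! ### the objects upstairs -/

/-- the compact set upstairs. -/
def upS (f : ℂ → ℂ) (e : OpenPartialHomeomorph ℂ ℂ) (K : Set E4) : Set E4 :=
  {y | sL y ∈ e.source ∧ PP f y ∈ K}

lemma Br.compact_up (B : Br f z m e ρ) {K : Set E4} (hK : IsCompact K)
    (hKρ : ∀ y ∈ K, sL y ∈ ball (0 : ℂ) (ρ ^ m)) : IsCompact (upS f e K) := by
  set A : Set (ℂ × ℂ) := {p | mk (p.1 ^ m) p.2 ∈ K} ∩ (closedBall 0 ρ ×ˢ (vL '' K)) with hA
  have hcont : Continuous fun p : ℂ × ℂ => mk (p.1 ^ m) p.2 := by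
    have h : (fun p : ℂ × ℂ => mk (p.1 ^ m) p.2) = fun p => mkL (p.1 ^ m, p.2) := by
      funext p; rw [mkL_apply]
    rw [h]
    exact mkL.continuous.comp ((continuous_fst.pow m).prodMk continuous_snd)
  have hAc : IsCompact A :=
    ((isCompact_closedBall (0 : ℂ) ρ).prod (hK.image vL.continuous)).inter_left
      (hK.isClosed.preimage hcont)
  have hAt : ∀ p ∈ A, p.1 ∈ e.target := by
    rintro p ⟨h1, -⟩
    have h2 := hKρ _ h1
    rw [sL_mk, mem_ball_zero_iff, norm_pow] at h2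
    rw [B.tgt, mem_ball_zero_iff]
    exact lt_of_pow_lt_pow_left₀ m B.ρ0.le h2
  have himg : upS f e K = (fun p : ℂ × ℂ => mk (e.symm p.1) p.2) '' A := by
    ext y
    constructor
    · rintro ⟨hs, hy⟩
      have h1 : e (sL y) ∈ ball (0 : ℂ) ρ := by rw [← B.tgt]; exact e.map_source hs
      refine ⟨(e (sL y), vL y), ⟨?_, ?_, ?_⟩, ?_⟩
      · show mk (e (sL y) ^ m) (vL y) ∈ K
        rw [B.pow _ hs]; exact hy
      · exact ball_subset_closedBall h1
      · exact ⟨PP f y, hy, vL_mk _ _⟩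
      · show mk (e.symm (e (sL y))) (vL y) = y
        rw [e.left_inv hs, mk_sL_vL]
    · rintro ⟨p, hp, rfl⟩
      have h1 := hAt p hp
      have h2 : sL (mk (e.symm p.1) p.2) = e.symm p.1 := sL_mk _ _
      refine ⟨?_, ?_⟩
      · show sL (mk (e.symm p.1) p.2) ∈ e.source
        rw [h2]; exact e.map_target h1
      · show mk (f (sL (mk (e.symm p.1) p.2))) (vL (mk (e.symm p.1) p.2)) ∈ K
        rw [h2, vL_mk, ← B.pow _ (e.map_target h1), e.right_inv h1]
        exact hp.1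
  rw [himg]
  refine hAc.image_of_continuousOn ?_
  have h3 : (fun p : ℂ × ℂ => mk (e.symm p.1) p.2) = fun p => mkL (e.symm p.1, p.2) := by
    funext p; rw [mkL_apply]
  rw [h3]
  exact mkL.continuous.comp_continuousOn
    ((e.continuousOn_symm.comp continuous_fst.continuousOn hAt).prodMk continuous_snd.continuousOn)

/-- the cut-off upstairs. -/
def chU (f : ℂ → ℂ) (e : OpenPartialHomeomorph ℂ ℂ) (χ : E4 → ℝ) : E4 → ℝ :=
  indicator (sL ⁻¹' e.source) fun y => χ (PP f y)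

/-- the form upstairs. -/
def bU (f : ℂ → ℂ) (b : E4 → Bil) (y : E4) : Bil := pull (PL (fderiv ℝ f (sL y))) (b (PP f y))

lemma isOpen_src (e : OpenPartialHomeomorph ℂ ℂ) : IsOpen (sL ⁻¹' e.source) :=
  e.open_source.preimage sL.continuous

lemma chU_of_mem {χ : E4 → ℝ} {y : E4} (hy : sL y ∈ e.source) : chU f e χ y = χ (PP f y) :=
  indicator_of_mem (show y ∈ sL ⁻¹' e.source from hy) _

lemma chU_ev {χ : E4 → ℝ} {y : E4} (hy : sL y ∈ e.source) :
    chU f e χ =ᶠ[𝓝 y] fun y => χ (PP f y) := by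
  filter_upwards [(isOpen_src e).mem_nhds hy] with x hx using chU_of_mem hx

lemma chU_zero {χ : E4 → ℝ} {y : E4} (hy : y ∉ upS f e (tsupport χ)) : chU f e χ y = 0 := by
  by_cases hs : sL y ∈ e.source
  · rw [chU_of_mem hs]
    exact image_eq_zero_of_notMem_tsupport fun h => hy ⟨hs, h⟩
  · exact indicator_of_notMem (show y ∉ sL ⁻¹' e.source from hs) _

variable {O : Set E4} {b : E4 → Bil} {χ : E4 → ℝ}

lemma Br.chU_smooth (B : Br f z m e ρ) (hχ : ContDiff ℝ 1 χ) (hc : HasCompactSupport χ)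
    (hρ : ∀ y ∈ tsupport χ, sL y ∈ ball (0 : ℂ) (ρ ^ m)) : ContDiff ℝ 1 (chU f e χ) := by
  have hK := B.compact_up hc.isCompact hρ
  rw [contDiff_iff_contDiffAt]
  intro y
  by_cases hy : sL y ∈ e.source
  · refine ContDiffAt.congr_of_eventuallyEq ?_ (chU_ev hy)
    exact hχ.contDiffAt.comp y (contDiffAt_PP
      ((B.smf.contDiffAt (e.open_source.mem_nhds hy)).of_le (by exact_mod_cast le_top)))
  · have hyK : (upS f e (tsupport χ))ᶜ ∈ 𝓝 y :=
      hK.isClosed.isOpen_compl.mem_nhds fun h => hy h.1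
    refine (contDiffAt_const (c := (0 : ℝ))).congr_of_eventuallyEq ?_
    filter_upwards [hyK] with x hx using chU_zero hx

lemma Br.chU_tsupport (B : Br f z m e ρ) (hc : HasCompactSupport χ)
    (hρ : ∀ y ∈ tsupport χ, sL y ∈ ball (0 : ℂ) (ρ ^ m)) :
    tsupport (chU f e χ) ⊆ upS f e (tsupport χ) := by
  have hK := B.compact_up hc.isCompact hρ
  refine closure_minimal (fun y hy => ?_) hK.isClosed
  by_contra h
  exact hy (chU_zero h)

lemma Br.chU_compact (B : Br f z m e ρ) (hc : HasCompactSupport χ)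
    (hρ : ∀ y ∈ tsupport χ, sL y ∈ ball (0 : ℂ) (ρ ^ m)) : HasCompactSupport (chU f e χ) :=
  (B.compact_up hc.isCompact hρ).of_isClosed_subset (isClosed_tsupport _) (B.chU_tsupport hc hρ)

lemma Br.isOpen_up (B : Br f z m e ρ) (hO : IsOpen O) : IsOpen (upS f e O) := by
  rw [isOpen_iff_mem_nhds]
  rintro y ⟨hs, hy⟩
  have h1 : ContinuousAt (PP f) y := (hasFDerivAt_PP (B.diff_f hs)).continuousAt
  filter_upwards [(isOpen_src e).mem_nhds hs, h1.preimage_mem_nhds (hO.mem_nhds hy)] with x hx hx'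
  exact ⟨hx, hx'⟩

lemma contDiffAt_pull {A : E4 → E4 →L[ℝ] E4} {c : E4 → Bil} {y : E4} {n : WithTop ℕ∞}
    (hA : ContDiffAt ℝ n A y) (hc : ContDiffAt ℝ n c y) :
    ContDiffAt ℝ n (fun y => pull (A y) (c y)) y := by
  unfold pull
  have h1 : ContDiffAt ℝ n (fun y => (ContinuousLinearMap.compL ℝ E4 E4 ℝ |>.flip (A y))) y :=
    (ContinuousLinearMap.contDiff _).contDiffAt.comp y hA
  exact h1.clm_comp (hc.clm_comp hA)

lemma Br.bU_smooth (B : Br f z m e ρ) (hO : IsOpen O) (hb : ContDiffOn ℝ 1 b O) :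
    ContDiffOn ℝ 1 (bU f b) (upS f e O) := by
  rintro y ⟨hs, hy⟩
  have h1 : ContDiffAt ℝ ∞ f (sL y) := B.smf.contDiffAt (e.open_source.mem_nhds hs)
  have h2 : ContDiffAt ℝ 1 (fun y => PL (fderiv ℝ f (sL y))) y := by
    have h3 : ContDiffAt ℝ 1 (fderiv ℝ f) (sL y) :=
      (h1.fderiv_right (m := ∞) (by simp)).of_le (by exact_mod_cast le_top)
    have h4 : ContDiffAt ℝ 1 (fun y => fderiv ℝ f (sL y)) y :=
      h3.comp y sL.contDiff.contDiffAt
    simp only [PL_eq]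
    exact (contDiffAt_const.clm_comp (h4.clm_comp contDiffAt_const)).add contDiffAt_const
  have h5 : ContDiffAt ℝ 1 (fun y => b (PP f y)) y :=
    (hb.contDiffAt (hO.mem_nhds hy)).comp y (contDiffAt_PP (h1.of_le (by exact_mod_cast le_top)))
  exact (contDiffAt_pull h2 h5).contDiffWithinAt

lemma bU_alt {y : E4} (h : Alt (b (PP f y))) : Alt (bU f b y) := h.pull _

lemma Br.bU_closed (B : Br f z m e ρ) (hO : IsOpen O) (hb : ContDiffOn ℝ 1 b O)
    (halt : ∀ y ∈ O, Alt (b y)) (hcl : ∀ y ∈ O, Cl b y) : ∀ y ∈ upS f e O, Cl (bU f b) y := by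
  rintro y ⟨hs, hy⟩
  have hU := (B.isOpen_up hO).mem_nhds (show y ∈ upS f e O from ⟨hs, hy⟩)
  have hbd : DifferentiableAt ℝ b (PP f y) :=
    (hb.contDiffAt (hO.mem_nhds hy)).differentiableAt one_ne_zero
  have hUd : DifferentiableAt ℝ (bU f b) y :=
    ((B.bU_smooth hO hb).contDiffAt hU).differentiableAt one_ne_zero
  have h1 : ContDiffAt ℝ ∞ f (sL y) := B.smf.contDiffAt (e.open_source.mem_nhds hs)
  rw [cl_iff_dd hUd (by filter_upwards [hU] with x hx using bU_alt (halt _ hx.2))]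
  intro u v w
  rw [Pull_129.dd_pull (b := b) (t := bU f b) (φ := PP f) (contDiffAt_PP h1) hbd
    (fun u v => (halt _ hy).swap u v) hUd]
  · exact (cl_iff_dd hbd (by filter_upwards [hO.mem_nhds hy] with x hx using halt x hx)).1
      (hcl _ hy) _ _ _
  · filter_upwards [(isOpen_src e).mem_nhds hs] with x hx u v
    rw [(hasFDerivAt_PP (B.diff_f hx)).fderiv, bU, pull_apply]

end Branch

end

end Crest.Agent.R235.Wk_250
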