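import Mathlib
import Crest.Agent.R235.WkE_250

/-!
Row 235 (S0364), package ADJ, helper250: the weak equation of one branch in `E4`:
`∫ (dArg (∏_{w^m = ζ} (v - Z w)) ∧ dχ) ∧ b = ∫ u^* (χ b)`, `u s = (f s, z s)`.
-/

set_option autoImplicit false
set_option maxSynthPendingDepth 3

open Set Function Filter MeasureTheory Metric Module
open scoped ContDiff Topology ENNReal ComplexConjugate

namespace Crest.Agent.R235.Wk_250

open Crest.Agent.R240 Crest.Agent.R240.En Crest.Agent.R235.RootProd_266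

noncomputable section

lemma emb_mk : MeasurableEmbedding (fun p : ℂ × ℂ => mk p.1 p.2) := by
  have h : (fun p : ℂ × ℂ => mk p.1 p.2) = mkE.toHomeomorph := by
    funext p
    exact (mkE_apply p).symm
  rw [h]
  exact mkE.toHomeomorph.measurableEmbedding

theorem integral_mk (f : E4 → ℝ) : ∫ p : ℂ × ℂ, f (mk p.1 p.2) = ∫ y, f y :=
  mp_mk.integral_comp emb_mk f

theorem integrable_mk {f : E4 → ℝ} :
    Integrable f ↔ Integrable fun p : ℂ × ℂ => f (mk p.1 p.2) :=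
  (mp_mk.integrable_comp_emb emb_mk).symm

lemma W_wed_rs {m : ℕ} (hm : m ≠ 0) (F : ℂ → Cov) (ζ : ℂ) (η : Cov) (c : Bil) :
    W (wed (rs m F ζ) η) c = rs m (fun w => W (wed (F w) η) c) ζ := by
  rw [rs_b1 hm, rs_b1 hm]
  induction (Finset.range m) using Finset.cons_induction with
  | empty => simp [W, ent, wed]
  | cons a s ha ih =>
    rw [Finset.sum_cons, Finset.sum_cons, wed_add_left, W_add_left, ih]

section Branch

variable {f z : ℂ → ℂ} {m : ℕ} {e : OpenPartialHomeomorph ℂ ℂ} {ρ : ℝ}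
variable {O : Set E4} {b : E4 → Bil} {χ : E4 → ℝ}

/-- the integrand of a sheet. -/
def GG (Z : ℂ → ℂ) (m : ℕ) (b : E4 → Bil) (χ : E4 → ℝ) (w : ℂ) (p : ℂ × ℂ) : ℝ :=
  W (wed (om Z m w (mk p.1 p.2)) (fderiv ℝ χ (mk p.1 p.2))) (b (mk p.1 p.2))

lemma fderiv_zero_of {χ : E4 → ℝ} {y : E4} (hy : y ∉ tsupport χ) : fderiv ℝ χ y = 0 := by
  by_contra h
  exact hy (support_fderiv_subset ℝ h)

lemma W_wed_zero (ξ : Cov) (c : Bil) : W (wed ξ 0) c = 0 := by simp [W, ent]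

lemma Br.point (B : Br f z m e ρ) (halt : ∀ y ∈ O, Alt (b y)) (hχ : ContDiff ℝ 1 χ)
    (hsub : tsupport χ ⊆ O) {p : ℂ × ℂ} (hp : p.1 ∈ e.source) (h0 : p.1 ≠ 0) :
    |(fderiv ℝ f p.1).det| • GG (fun w => z (e.symm w)) m b χ (e p.1) (f p.1, p.2) =
      FF z (bU f b) (chU f e χ) (mk p.1 p.2) := by
  have hs : sL (mk p.1 p.2) = p.1 := sL_mk _ _
  have hs' : sL (mk p.1 p.2) ∈ e.source := by rw [hs]; exact hp
  have h0' : sL (mk p.1 p.2) ≠ 0 := by rw [hs]; exact h0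
  have hP : PP f (mk p.1 p.2) = mk (f p.1) p.2 := by rw [PP, hs, vL_mk]
  have h1 : fderiv ℝ (chU f e χ) (mk p.1 p.2) =
      (fderiv ℝ χ (mk (f p.1) p.2)).comp (PL (fderiv ℝ f p.1)) := by
    rw [(chU_ev hs').fderiv_eq]
    have h2 := hasFDerivAt_PP (f := f) (y := mk p.1 p.2) (by rw [hs]; exact B.diff_f hp)
    have h3 : HasFDerivAt χ (fderiv ℝ χ (mk (f p.1) p.2)) (PP f (mk p.1 p.2)) := by
      rw [hP]; exact (hχ.differentiable one_ne_zero _).hasFDerivAt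
    rw [hs] at h2
    exact (h3.comp _ h2).fderiv
  have h4 := B.om_pull hs' h0'
  rw [hs, hP] at h4
  rw [FF, h1, ← h4, ← pull_wed', bU, hs, hP, GG]
  by_cases hy : mk (f p.1) p.2 ∈ tsupport χ
  · rw [W_pull (wed_alt _ _) (halt _ (hsub hy)), det_PL, abs_of_nonneg (B.det _ hp), smul_eq_mul]
  · rw [fderiv_zero_of hy, W_wed_zero, smul_zero, pull_wed', ContinuousLinearMap.zero_comp,
      W_wed_zero]

/-- **the weak equation of one branch.** -/
theorem Br.branch (B : Br f z m e ρ) (hO : IsOpen O)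
    (hOρ : ∀ y ∈ O, sL y ∈ ball (0 : ℂ) (ρ ^ m)) (hb : ContDiffOn ℝ 1 b O)
    (halt : ∀ y ∈ O, Alt (b y)) (hcl : ∀ y ∈ O, Cl b y) (hχ : ContDiff ℝ 1 χ)
    (hc : HasCompactSupport χ) (hsub : tsupport χ ⊆ O) :
    Integrable (fun y => W (wed (OM (fun w => z (e.symm w)) m y) (fderiv ℝ χ y)) (b y)) ∧
    ∫ y, W (wed (OM (fun w => z (e.symm w)) m y) (fderiv ℝ χ y)) (b y) =
      ∫ s in e.source, χ (mk (f s) (z s)) * b (mk (f s) (z s))
        (mk (fderiv ℝ f s 1) (fderiv ℝ z s 1))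
        (mk (fderiv ℝ f s Complex.I) (fderiv ℝ z s Complex.I)) := by
  have hρ : ∀ y ∈ tsupport χ, sL y ∈ ball (0 : ℂ) (ρ ^ m) := fun y hy => hOρ y (hsub hy)
  set Z : ℂ → ℂ := fun w => z (e.symm w) with hZ
  obtain ⟨hU1, hU2⟩ := graph_loc (B.isOpen_up hO) e.open_source B.smz (fun y hy => hy.1)
    (B.bU_smooth hO hb) (fun y hy => bU_alt (halt _ hy.2)) (B.bU_closed hO hb halt hcl)
    (B.chU_smooth hχ hc hρ) (B.chU_compact hc hρ)
    ((B.chU_tsupport hc hρ).trans fun y hy => ⟨hy.1, hsub hy.2⟩)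
  have hms : MeasurableSet (e.source ×ˢ (univ : Set ℂ)) :=
    e.open_source.measurableSet.prod MeasurableSet.univ
  have hae : ∀ᵐ p : ℂ × ℂ, p.1 ≠ 0 :=
    (Measure.quasiMeasurePreserving_fst (μ := (volume : Measure ℂ))
      (ν := (volume : Measure ℂ))).ae (by simp [ae_iff] : ∀ᵐ t : ℂ, t ≠ 0)
  have hcong : ∀ᵐ p : ℂ × ℂ ∂(volume.restrict (e.source ×ˢ (univ : Set ℂ))),
      |(fderiv ℝ f p.1).det| • GG Z m b χ (e p.1) (f p.1, p.2) =
        FF z (bU f b) (chU f e χ) (mk p.1 p.2) := by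
    filter_upwards [ae_restrict_mem hms, ae_restrict_of_ae hae] with p hp h0
    exact B.point halt hχ hsub hp.1 h0
  have hFi : Integrable fun p : ℂ × ℂ => FF z (bU f b) (chU f e χ) (mk p.1 p.2) :=
    integrable_mk.1 hU1
  have hI : IntegrableOn (fun p : ℂ × ℂ => |(fderiv ℝ f p.1).det| •
      GG Z m b χ (e p.1) (f p.1, p.2)) (e.source ×ˢ univ) :=
    (hFi.integrableOn).congr (hcong.mono fun p hp => hp.symm)
  obtain ⟨hA1, hA2⟩ := area B.hm B.ρ0 B.tgt B.src B.zero B.pow (fun s hs => B.diff_f hs) hI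
  have hbase : ∀ p : ℂ × ℂ, rs m (fun w => GG Z m b χ w p) p.1 =
      W (wed (OM Z m (mk p.1 p.2)) (fderiv ℝ χ (mk p.1 p.2))) (b (mk p.1 p.2)) := by
    intro p
    rw [OM, W_wed_rs B.hm, sL_mk]
    rfl
  have hout : ∀ p : ℂ × ℂ, p ∉ ball (0 : ℂ) (ρ ^ m) ×ˢ (univ : Set ℂ) →
      rs m (fun w => GG Z m b χ w p) p.1 = 0 := by
    intro p hp
    rw [hbase, fderiv_zero_of, W_wed_zero]
    intro h
    have h1 := hρ _ h
    rw [sL_mk] at h1
    exact hp ⟨h1, trivial⟩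
  have hA3 : Integrable fun p : ℂ × ℂ => rs m (fun w => GG Z m b χ w p) p.1 := by
    rw [← integrableOn_iff_integrable_of_support_subset
      (s := ball (0 : ℂ) (ρ ^ m) ×ˢ (univ : Set ℂ))]
    · exact hA1
    · intro p hp
      by_contra h
      exact hp (hout p h)
  rw [setIntegral_eq_integral_of_forall_compl_eq_zero hout] at hA2
  have hfun : (fun p : ℂ × ℂ => rs m (fun w => GG Z m b χ w p) p.1) =
      fun p : ℂ × ℂ => (fun y => W (wed (OM Z m y) (fderiv ℝ χ y)) (b y)) (mk p.1 p.2) :=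
    funext hbase
  rw [hfun] at hA2 hA3
  refine ⟨integrable_mk.2 hA3, ?_⟩
  rw [← integral_mk (fun y => W (wed (OM Z m y) (fderiv ℝ χ y)) (b y)), hA2,
    integral_congr_ae hcong]
  have hz : ∀ p : ℂ × ℂ, p ∉ e.source ×ˢ (univ : Set ℂ) →
      FF z (bU f b) (chU f e χ) (mk p.1 p.2) = 0 := by
    intro p hp
    rw [FF, fderiv_zero_of, W_wed_zero]
    intro h
    have h1 := (B.chU_tsupport hc hρ h).1
    rw [sL_mk] at h1
    exact hp ⟨h1, trivial⟩
  rw [setIntegral_eq_integral_of_forall_compl_eq_zero hz,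
    integral_mk (FF z (bU f b) (chU f e χ)), hU2]
  have hz2 : ∀ s, s ∉ e.source → hh z (bU f b) (chU f e χ) (mk s (z s)) = 0 := by
    intro s hs
    rw [hh, chU, indicator_of_notMem, zero_mul]
    show sL (mk s (z s)) ∉ e.source
    rw [sL_mk]; exact hs
  rw [← setIntegral_eq_integral_of_forall_compl_eq_zero hz2]
  refine setIntegral_congr_fun e.open_source.measurableSet fun s hs => ?_
  have hs1 : sL (mk s (z s)) = s := sL_mk _ _
  have hs2 : sL (mk s (z s)) ∈ e.source := by rw [hs1]; exact hs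
  show hh z (bU f b) (chU f e χ) (mk s (z s)) = _
  rw [hh, chU_of_mem hs2, bU, pull_apply, PP, hs1, vL_mk, PL_apply, PL_apply, t1, t2, sL_mk, sL_mk,
    vL_mk, vL_mk]

end Branch

end

end Crest.Agent.R235.Wk_250
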