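import Mathlib
import Crest.Agent.R235.Pull_129
import Crest.Agent.R240.IntTop

/-!
Row 235 (S0364), package ADJ, helper250: the pairing `Int.I F b c` in a smooth parametrisation.

`I_param`: `Ψ : OpenPartialHomeomorph E4 M` smooth, target in one chart, oriented by `F`
(`0 < W (Ψ^*F) (Ψ^*F)`): if `qG F b c` vanishes off the target then
`I F b c = ∫ y in Ψ.source, W (Ψ^* b) (Ψ^* c)`.  No measurability is needed.
-/

set_option autoImplicit false
set_option maxSynthPendingDepth 3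

open Set Function Filter MeasureTheory Metric
open scoped Manifold ContDiff Topology ENNReal NNReal

namespace Crest.Agent.R235.WkG_250

open Crest.Agent.R240 Crest.Agent.R240.Ch Crest.Agent.R240.Int Crest.Agent.R235.Pull_129

noncomputable section

section Basic

variable {M : Type*} [TopologicalSpace M] [ChartedSpace E4 M] [IsManifold 𝓘(ℝ, E4) ∞ M]

lemma pb2_eq_pull (Ψ : E4 → M) (a : F2 E4 M) (y : E4) :
    pb2 Ψ a y = pull (dL (E := E4) Ψ y) (at2 a (Ψ y)) := by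
  ext u v
  rw [pull_apply, pb2_apply]

lemma pb2_eq_pull_rep {Ψ : E4 → M} {y : E4} {p : M}
    (h : ContMDiffAt 𝓘(ℝ, E4) 𝓘(ℝ, E4) ∞ Ψ y) (hp : Ψ y ∈ (chartAt E4 p).source)
    (a : F2 E4 M) : pb2 Ψ a y =
      pull (fderiv ℝ (inC (E := E4) p Ψ) y) (rep p a (inC p Ψ y)) := by
  ext u v
  rw [pull_apply, pb2_chart h hp]

/-- the pairing at a point in the parametrisation. -/
lemma qG_pb {F b c : F2 E4 M} (hF : ∀ x, Alt (at2 F x)) (hb : ∀ x, Alt (at2 b x))
    (hc : ∀ x, Alt (at2 c x)) {Ψ : E4 → M} {y : E4}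
    (hpos : 0 < W (pb2 Ψ F y) (pb2 Ψ F y)) :
    W (pb2 Ψ F y) (pb2 Ψ F y) * qG F b c (Ψ y) = W (pb2 Ψ b y) (pb2 Ψ c y) := by
  rw [pb2_eq_pull, W_pull (hF _) (hF _)] at hpos
  rw [pb2_eq_pull, pb2_eq_pull, pb2_eq_pull, W_pull (hF _) (hF _), W_pull (hb _) (hc _)]
  have h1 : W (at2 F (Ψ y)) (at2 F (Ψ y)) ≠ 0 := by
    intro h
    rw [h, mul_zero] at hpos
    exact lt_irrefl _ hpos
  unfold qG q
  field_simp

end Basic

section Meas

variable {M : Type*} [TopologicalSpace M] [T2Space M] [CompactSpace M] [ChartedSpace E4 M]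
  [IsManifold 𝓘(ℝ, E4) ∞ M] [MeasurableSpace M] [BorelSpace M]

variable {F : F2 E4 M} {Ψ : OpenPartialHomeomorph E4 M} {p : M}

/-- the density. -/
def dn (F : F2 E4 M) (Ψ : E4 → M) (y : E4) : ℝ≥0 := Real.toNNReal (W (pb2 Ψ F y) (pb2 Ψ F y))

omit [T2Space M] [CompactSpace M] [IsManifold 𝓘(ℝ, E4) ∞ M] [MeasurableSpace M] [BorelSpace M] in
lemma smAt (hΨ : ContMDiffOn 𝓘(ℝ, E4) 𝓘(ℝ, E4) ∞ Ψ Ψ.source) {y : E4} (hy : y ∈ Ψ.source) :
    ContMDiffAt 𝓘(ℝ, E4) 𝓘(ℝ, E4) ∞ Ψ y := hΨ.contMDiffAt (Ψ.open_source.mem_nhds hy)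

theorem lint_param (hF : Vol F) (hΨ : ContMDiffOn 𝓘(ℝ, E4) 𝓘(ℝ, E4) ∞ Ψ Ψ.source)
    (hsub : Ψ.target ⊆ (chartAt E4 p).source)
    (hpos : ∀ y ∈ Ψ.source, 0 < W (pb2 Ψ F y) (pb2 Ψ F y)) {f : M → ℝ≥0∞} (hf : Measurable f)
    (h0 : ∀ x ∉ Ψ.target, f x = 0) :
    ∫⁻ x, f x ∂(mu F) = ∫⁻ y in Ψ.source, (dn F Ψ y : ℝ≥0∞) * f (Ψ y) := by
  have h1 : ∫⁻ x, f x ∂(mu F) = ∫⁻ x in (chartAt E4 p).source, f x ∂(mu F) := by
    refine (setLIntegral_eq_of_support_subset ?_).symm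
    intro x hx
    by_contra h
    exact hx (h0 x fun h' => h (hsub h'))
  rw [h1, lintegral_mu hF p hf]
  set τ : E4 → E4 := inC (E := E4) p Ψ with hτ
  have hτd : ∀ y ∈ Ψ.source, HasFDerivWithinAt τ (fderiv ℝ τ y) Ψ.source y := by
    intro y hy
    exact ((inC_contDiffAt (smAt hΨ hy) (hsub (Ψ.map_source hy))).differentiableAt
      (by simp)).hasFDerivAt.hasFDerivWithinAt
  have hτi : InjOn τ Ψ.source := by
    intro y hy y' hy' h
    exact Ψ.injOn hy hy' ((chartAt E4 p).injOn (hsub (Ψ.map_source hy))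
      (hsub (Ψ.map_source hy')) h)
  have hτs : τ '' Ψ.source ⊆ (chartAt E4 p).target := by
    rintro _ ⟨y, hy, rfl⟩
    exact (chartAt E4 p).map_source (hsub (Ψ.map_source hy))
  have h2 : ∫⁻ y in (chartAt E4 p).target, ENNReal.ofReal (dens F p y) *
      f ((chartAt E4 p).symm y) = ∫⁻ y in τ '' Ψ.source, ENNReal.ofReal (dens F p y) *
      f ((chartAt E4 p).symm y) := by
    have hm1 : MeasurableSet (chartAt E4 p).target := (chartAt E4 p).open_target.measurableSet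
    have hm2 : MeasurableSet (τ '' Ψ.source) :=
      measurable_image_of_fderivWithin Ψ.open_source.measurableSet hτd hτi
    rw [← lintegral_indicator hm1, ← lintegral_indicator hm2]
    congr 1
    funext y
    by_cases hy : y ∈ τ '' Ψ.source
    · rw [indicator_of_mem hy, indicator_of_mem (hτs hy)]
    · rw [indicator_of_notMem hy]
      by_cases hy' : y ∈ (chartAt E4 p).target
      · rw [indicator_of_mem hy', h0, mul_zero]
        intro h
        apply hy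
        refine ⟨Ψ.symm ((chartAt E4 p).symm y), Ψ.map_target h, ?_⟩
        show chartAt E4 p (Ψ (Ψ.symm ((chartAt E4 p).symm y))) = y
        rw [Ψ.right_inv h, (chartAt E4 p).right_inv hy']
      · rw [indicator_of_notMem hy']
  rw [h2, lintegral_image_eq_lintegral_abs_det_fderiv_mul volume
    Ψ.open_source.measurableSet hτd hτi]
  refine setLIntegral_congr_fun Ψ.open_source.measurableSet fun y hy => ?_
  have hy1 := hsub (Ψ.map_source hy)
  have h3 : (chartAt E4 p).symm (τ y) = Ψ y := (chartAt E4 p).left_inv hy1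
  have h4 : W (pb2 Ψ F y) (pb2 Ψ F y) = |(fderiv ℝ τ y).det| * dens F p (τ y) := by
    rw [← abs_of_pos (hpos y hy), pb2_eq_pull_rep (smAt hΨ hy) hy1,
      W_pull (rep_alt hF.alt _ _) (rep_alt hF.alt _ _), abs_mul]
    rfl
  show ENNReal.ofReal |(fderiv ℝ τ y).det| * (ENNReal.ofReal (dens F p (τ y)) *
    f ((chartAt E4 p).symm (τ y))) = _
  rw [h3, ← mul_assoc, ← ENNReal.ofReal_mul (abs_nonneg _), ← h4]
  rfl

omit [MeasurableSpace M] [BorelSpace M] [T2Space M] [CompactSpace M] in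
lemma continuousOn_WF (hF : Vol F) (hΨ : ContMDiffOn 𝓘(ℝ, E4) 𝓘(ℝ, E4) ∞ Ψ Ψ.source)
    (hsub : Ψ.target ⊆ (chartAt E4 p).source) :
    ContinuousOn (fun y => W (pb2 Ψ F y) (pb2 Ψ F y)) Ψ.source := by
  have h1 : ∀ y ∈ Ψ.source, W (pb2 Ψ F y) (pb2 Ψ F y) =
      LinearMap.det (fderiv ℝ (inC (E := E4) p Ψ) y : E4 →ₗ[ℝ] E4) *
        W (rep p F (inC p Ψ y)) (rep p F (inC p Ψ y)) := by
    intro y hy
    rw [pb2_eq_pull_rep (smAt hΨ hy) (hsub (Ψ.map_source hy)),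
      W_pull (rep_alt hF.alt _ _) (rep_alt hF.alt _ _)]
  refine ContinuousOn.congr ?_ h1
  have h2 : ContDiffOn ℝ ∞ (inC (E := E4) p Ψ) Ψ.source := fun y hy =>
    (inC_contDiffAt (smAt hΨ hy) (hsub (Ψ.map_source hy))).contDiffWithinAt
  have h3 : ContinuousOn (fderiv ℝ (inC (E := E4) p Ψ)) Ψ.source :=
    h2.continuousOn_fderiv_of_isOpen Ψ.open_source (by simp)
  have h4 : ContinuousOn (fun y => rep p F (inC p Ψ y)) Ψ.source :=
    (hF.cont p).comp h2.continuousOn fun y hy =>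
      (chartAt E4 p).map_source (hsub (Ψ.map_source hy))
  have h5 : Continuous fun A : E4 →L[ℝ] E4 => A.det := ContinuousLinearMap.continuous_det
  exact (h5.comp_continuousOn h3).mul (continuousOn_W h4 h4)

theorem meas_param (hF : Vol F) (hΨ : ContMDiffOn 𝓘(ℝ, E4) 𝓘(ℝ, E4) ∞ Ψ Ψ.source)
    (hsub : Ψ.target ⊆ (chartAt E4 p).source)
    (hpos : ∀ y ∈ Ψ.source, 0 < W (pb2 Ψ F y) (pb2 Ψ F y)) :
    (mu F).restrict Ψ.target = Measure.map (Ψ.source.domRestrict Ψ)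
      (Measure.comap (Subtype.val : Ψ.source → E4)
        (volume.withDensity fun y => (dn F Ψ y : ℝ≥0∞))) := by
  have hemb : MeasurableEmbedding (Ψ.source.domRestrict Ψ) :=
    Ψ.isOpenEmbedding_restrict.measurableEmbedding
  ext s hs
  rw [Measure.restrict_apply hs, hemb.map_apply]
  have h1 : (mu F) (s ∩ Ψ.target) = ∫⁻ x, indicator (s ∩ Ψ.target) (fun _ => 1) x ∂(mu F) := by
    rw [lintegral_indicator (hs.inter Ψ.open_target.measurableSet)]
    simp
  rw [h1, lint_param hF hΨ hsub hpos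
    (measurable_const.indicator (hs.inter Ψ.open_target.measurableSet))
    (fun x hx => indicator_of_notMem (fun h => hx h.2) _)]
  rw [(MeasurableEmbedding.subtype_coe Ψ.open_source.measurableSet).comap_apply]
  have h2 : Subtype.val '' (Ψ.source.domRestrict Ψ ⁻¹' s) = Ψ.source ∩ Ψ ⁻¹' s := by
    ext y
    constructor
    · rintro ⟨⟨y', hy'⟩, h, rfl⟩
      exact ⟨hy', h⟩
    · rintro ⟨hy, h⟩
      exact ⟨⟨y, hy⟩, h, rfl⟩
  have h3 : MeasurableSet (Ψ.source ∩ Ψ ⁻¹' s) := by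
    rw [← h2]
    exact (MeasurableEmbedding.subtype_coe Ψ.open_source.measurableSet).measurableSet_image.2
      (hemb.measurable hs)
  rw [h2, withDensity_apply _ h3, ← lintegral_indicator Ψ.open_source.measurableSet,
    ← lintegral_indicator h3]
  congr 1
  funext y
  by_cases hy : y ∈ Ψ.source
  · rw [indicator_of_mem hy]
    by_cases hy' : Ψ y ∈ s
    · rw [indicator_of_mem (show y ∈ Ψ.source ∩ Ψ ⁻¹' s from ⟨hy, hy'⟩),
        indicator_of_mem (show Ψ y ∈ s ∩ Ψ.target from ⟨hy', Ψ.map_source hy⟩), mul_one]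
    · rw [indicator_of_notMem (show y ∉ Ψ.source ∩ Ψ ⁻¹' s from fun h => hy' h.2),
        indicator_of_notMem (show Ψ y ∉ s ∩ Ψ.target from fun h => hy' h.1), mul_zero]
  · rw [indicator_of_notMem hy, indicator_of_notMem (show y ∉ Ψ.source ∩ Ψ ⁻¹' s from
      fun h => hy h.1)]

/-- **integration in a parametrisation.** -/
theorem integral_param (hF : Vol F) (hΨ : ContMDiffOn 𝓘(ℝ, E4) 𝓘(ℝ, E4) ∞ Ψ Ψ.source)
    (hsub : Ψ.target ⊆ (chartAt E4 p).source)
    (hpos : ∀ y ∈ Ψ.source, 0 < W (pb2 Ψ F y) (pb2 Ψ F y)) {f : M → ℝ}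
    (h0 : ∀ x ∉ Ψ.target, f x = 0) :
    ∫ x, f x ∂(mu F) = ∫ y in Ψ.source, W (pb2 Ψ F y) (pb2 Ψ F y) * f (Ψ y) := by
  have hemb : MeasurableEmbedding (Ψ.source.domRestrict Ψ) :=
    Ψ.isOpenEmbedding_restrict.measurableEmbedding
  rw [← setIntegral_eq_integral_of_forall_compl_eq_zero h0, meas_param hF hΨ hsub hpos,
    hemb.integral_map]
  have h1 := integral_subtype_comap
    (μ := (volume : Measure E4).withDensity fun y => (dn F Ψ y : ℝ≥0∞))
    Ψ.open_source.measurableSet (fun y => f (Ψ y))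
  refine h1.trans ?_
  rw [setIntegral_withDensity_eq_setIntegral_smul₀ _ _ Ψ.open_source.measurableSet]
  · refine setIntegral_congr_fun Ψ.open_source.measurableSet fun y hy => ?_
    show (dn F Ψ y : ℝ) * f (Ψ y) = _
    rw [dn, Real.coe_toNNReal _ (hpos y hy).le]
  · exact ((continuousOn_WF hF hΨ hsub).aemeasurable Ψ.open_source.measurableSet).real_toNNReal

/-- **the pairing in a parametrisation.** -/
theorem I_param (hF : Vol F) (hΨ : ContMDiffOn 𝓘(ℝ, E4) 𝓘(ℝ, E4) ∞ Ψ Ψ.source)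
    (hsub : Ψ.target ⊆ (chartAt E4 p).source)
    (hpos : ∀ y ∈ Ψ.source, 0 < W (pb2 Ψ F y) (pb2 Ψ F y)) {b c : F2 E4 M}
    (hb : ∀ x, Alt (at2 b x)) (hc : ∀ x, Alt (at2 c x))
    (h0 : ∀ x ∉ Ψ.target, qG F b c x = 0) :
    I F b c = ∫ y in Ψ.source, W (pb2 Ψ b y) (pb2 Ψ c y) := by
  rw [I, integral_param hF hΨ hsub hpos h0]
  exact setIntegral_congr_fun Ψ.open_source.measurableSet fun y hy =>
    qG_pb hF.alt hb hc (hpos y hy)

end Meas

end

end Crest.Agent.R235.WkG_250
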