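import Mathlib
import Crest.Agent.R235.WkF_250
import Crest.Agent.R235.WkG_250
import Crest.Agent.R235.BranchProd_266

/-!
Row 235 (S0364), package ADJ, helper250: the weak equation of several branches, in a smooth
parametrisation `Ψ` of an open set of the manifold.
-/

set_option autoImplicit false
set_option maxSynthPendingDepth 3

open Set Function Filter MeasureTheory Metric Module
open scoped Manifold ContDiff Topology ENNReal

namespace Crest.Agent.R235.Wk_250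

open Crest.Agent.R240 Crest.Agent.R240.En Crest.Agent.R235.RootProd_266

noncomputable section

/-! ### several branches in `E4` -/

lemma W_wed_sum {ι : Type*} (s : Finset ι) (ξ : ι → Cov) (η : Cov) (c : Bil) :
    W (wed (∑ j ∈ s, ξ j) η) c = ∑ j ∈ s, W (wed (ξ j) η) c := by
  classical
  induction s using Finset.cons_induction with
  | empty => simp [W, ent, wed]
  | cons a s ha ih =>
    rw [Finset.sum_cons, Finset.sum_cons, wed_add_left, W_add_left, ih]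

theorem planar {n : ℕ} {f z : Fin n → ℂ → ℂ} {m : Fin n → ℕ}
    {e : Fin n → OpenPartialHomeomorph ℂ ℂ} {ρ : Fin n → ℝ}
    (B : ∀ j, Br (f j) (z j) (m j) (e j) (ρ j)) {O : Set E4} {b : E4 → Bil} {χ : E4 → ℝ}
    (hO : IsOpen O) (hOρ : ∀ j, ∀ y ∈ O, sL y ∈ ball (0 : ℂ) (ρ j ^ m j))
    (hb : ContDiffOn ℝ 1 b O) (halt : ∀ y ∈ O, Alt (b y)) (hcl : ∀ y ∈ O, Cl b y)
    (hχ : ContDiff ℝ 1 χ) (hc : HasCompactSupport χ) (hsub : tsupport χ ⊆ O) :
    ∫ y in O, W (wed (∑ j, OM (fun w => z j ((e j).symm w)) (m j) y) (fderiv ℝ χ y)) (b y) =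
      ∑ j, ∫ s in (e j).source, χ (mk (f j s) (z j s)) * b (mk (f j s) (z j s))
        (mk (fderiv ℝ (f j) s 1) (fderiv ℝ (z j) s 1))
        (mk (fderiv ℝ (f j) s Complex.I) (fderiv ℝ (z j) s Complex.I)) := by
  rw [setIntegral_eq_integral_of_forall_compl_eq_zero]
  · simp only [W_wed_sum]
    rw [integral_finsetSum]
    · exact Finset.sum_congr rfl fun j _ =>
        ((B j).branch hO (hOρ j) hb halt hcl hχ hc hsub).2
    · exact fun j _ => ((B j).branch hO (hOρ j) hb halt hcl hχ hc hsub).1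
  · intro y hy
    rw [fderiv_zero_of fun h => hy (hsub h), W_wed_zero]

/-! ### the zero set is null -/

lemma graph_null {h : ℂ → ℂ} (hh : Measurable h) : ∀ᵐ p : ℂ × ℂ, p.2 ≠ h p.1 := by
  have hm : MeasurableSet {p : ℂ × ℂ | p.2 = h p.1} :=
    measurableSet_eq_fun measurable_snd (hh.comp measurable_fst)
  rw [ae_iff]
  simp only [ne_eq, not_not]
  rw [Measure.volume_eq_prod, Measure.measure_prod_null hm]
  refine ae_of_all _ fun x => ?_
  have h1 : Prod.mk x ⁻¹' {p : ℂ × ℂ | p.2 = h p.1} = {h x} := by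
    ext v; simp
  show volume (Prod.mk x ⁻¹' {p : ℂ × ℂ | p.2 = h p.1}) = 0
  rw [h1]
  simp

lemma rp_ae {m : ℕ} (hm : m ≠ 0) {Z : ℂ → ℂ} {ρ : ℝ} (hρ : 0 ≤ ρ)
    (hZ : ContinuousOn Z (ball 0 ρ)) :
    ∀ᵐ p : ℂ × ℂ, p.1 ∈ ball (0 : ℂ) (ρ ^ m) → rp m Z p.1 p.2 ≠ 0 := by
  classical
  have hZ' : Measurable (piecewise (ball (0 : ℂ) ρ) Z (fun _ => 0)) :=
    hZ.measurable_piecewise continuousOn_const measurableSet_ball
  have h1 : ∀ j : ℕ, ∀ᵐ p : ℂ × ℂ, p.2 ≠ piecewise (ball (0 : ℂ) ρ) Z (fun _ => 0)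
      (xi m ^ j * b1 m p.1) := fun j =>
    graph_null (h := fun ζ => piecewise (ball (0 : ℂ) ρ) Z (fun _ => 0) (xi m ^ j * b1 m ζ))
      (hZ'.comp ((measurable_b1 m).const_mul _))
  filter_upwards [ae_all_iff.2 h1] with p hp hball
  rw [rp_b1 hm, Finset.prod_ne_zero_iff]
  intro j _ h
  apply hp j
  have h2 : xi m ^ j * b1 m p.1 ∈ ball (0 : ℂ) ρ := by
    rw [mem_ball_zero_iff, norm_mul, norm_xi_pow hm, one_mul]
    rw [mem_ball_zero_iff] at hball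
    refine lt_of_pow_lt_pow_left₀ m hρ ?_
    rw [← norm_pow, b1_pow hm]
    exact hball
  rw [piecewise_eq_of_mem _ _ _ h2]
  exact sub_eq_zero.1 h

/-! ### functions extended by zero -/

section Ext

variable {M : Type*} [TopologicalSpace M] [T2Space M] [CompactSpace M] [ChartedSpace E4 M]
  [IsManifold 𝓘(ℝ, E4) ∞ M]

/-- `χ ∘ Ψ` extended by zero. -/
def exF (Ψ : OpenPartialHomeomorph E4 M) (χ : M → ℝ) : E4 → ℝ :=
  indicator Ψ.source fun y => χ (Ψ y)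

variable {Ψ : OpenPartialHomeomorph E4 M} {χ : M → ℝ}

omit [T2Space M] [CompactSpace M] [ChartedSpace E4 M] [IsManifold 𝓘(ℝ, E4) ∞ M] in
lemma exF_of_mem {y : E4} (hy : y ∈ Ψ.source) : exF Ψ χ y = χ (Ψ y) := indicator_of_mem hy _

omit [T2Space M] [CompactSpace M] [ChartedSpace E4 M] [IsManifold 𝓘(ℝ, E4) ∞ M] in
lemma exF_ev {y : E4} (hy : y ∈ Ψ.source) : exF Ψ χ =ᶠ[𝓝 y] fun y => χ (Ψ y) := by
  filter_upwards [Ψ.open_source.mem_nhds hy] with x hx using exF_of_mem hx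

omit [T2Space M] [ChartedSpace E4 M] [IsManifold 𝓘(ℝ, E4) ∞ M] in
lemma exF_K (hsub : tsupport χ ⊆ Ψ.target) : IsCompact (Ψ.symm '' tsupport χ) ∧
    Ψ.symm '' tsupport χ ⊆ Ψ.source ∧ ∀ y, y ∉ Ψ.symm '' tsupport χ → exF Ψ χ y = 0 := by
  refine ⟨(isClosed_tsupport χ).isCompact.image_of_continuousOn (Ψ.continuousOn_symm.mono hsub),
    ?_, ?_⟩
  · rintro _ ⟨x, hx, rfl⟩
    exact Ψ.map_target (hsub hx)
  · intro y hy
    by_cases hs : y ∈ Ψ.source
    · rw [exF_of_mem hs]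
      refine image_eq_zero_of_notMem_tsupport fun h => hy ⟨Ψ y, h, Ψ.left_inv hs⟩
    · exact indicator_of_notMem hs _

omit [T2Space M] [IsManifold 𝓘(ℝ, E4) ∞ M] in
lemma exF_smooth (hΨ : ContMDiffOn 𝓘(ℝ, E4) 𝓘(ℝ, E4) ∞ Ψ Ψ.source)
    (hχ : ContMDiff 𝓘(ℝ, E4) 𝓘(ℝ, ℝ) ∞ χ) (hsub : tsupport χ ⊆ Ψ.target) :
    ContDiff ℝ 1 (exF Ψ χ) := by
  obtain ⟨hK, hKs, hK0⟩ := exF_K (χ := χ) hsub
  rw [contDiff_iff_contDiffAt]
  intro y
  by_cases hy : y ∈ Ψ.source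
  · refine ContDiffAt.congr_of_eventuallyEq ?_ (exF_ev hy)
    have h1 : ContMDiffAt 𝓘(ℝ, E4) 𝓘(ℝ, ℝ) ∞ (fun y => χ (Ψ y)) y :=
      hχ.contMDiffAt.comp y (hΨ.contMDiffAt (Ψ.open_source.mem_nhds hy))
    exact h1.contDiffAt.of_le (by exact_mod_cast le_top)
  · have hyK : (Ψ.symm '' tsupport χ)ᶜ ∈ 𝓝 y :=
      hK.isClosed.isOpen_compl.mem_nhds fun h => hy (hKs h)
    refine (contDiffAt_const (c := (0 : ℝ))).congr_of_eventuallyEq ?_
    filter_upwards [hyK] with x hx using hK0 x hx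

omit [T2Space M] [ChartedSpace E4 M] [IsManifold 𝓘(ℝ, E4) ∞ M] in
lemma exF_tsupport (hsub : tsupport χ ⊆ Ψ.target) :
    tsupport (exF Ψ χ) ⊆ Ψ.source ∧ HasCompactSupport (exF Ψ χ) := by
  obtain ⟨hK, hKs, hK0⟩ := exF_K (χ := χ) hsub
  have h1 : tsupport (exF Ψ χ) ⊆ Ψ.symm '' tsupport χ := by
    refine closure_minimal (fun y hy => ?_) hK.isClosed
    by_contra h
    exact hy (hK0 y h)
  exact ⟨h1.trans hKs, hK.of_isClosed_subset (isClosed_tsupport _) h1⟩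

end Ext

end

end Crest.Agent.R235.Wk_250
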