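import Mathlib
import Crest.Agent.R235.WkH_250
import Crest.Agent.R235.AdjBox_43

/-!
Row 235 (S0364), package ADJ, helper250: the weak equation in a smooth parametrisation `Ψ` of an
open set of the manifold.
-/

set_option autoImplicit false
set_option maxSynthPendingDepth 3

open Set Function Filter MeasureTheory Metric Module
open scoped Manifold ContDiff Topology ENNReal

namespace Crest.Agent.R235.Wk_250

open Crest.Agent.R240 Crest.Agent.R240.En Crest.Agent.R240.Ch Crest.Agent.R235.RootProd_266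
open Crest.Agent.R235.Pull_129 Crest.Agent.R235.BranchProd_266 Crest.Agent.R235.WkG_250
open Crest.Agent.R240.Int (Vol)
open Crest.Agent.R235.Adj (dArg)

noncomputable section

lemma OM_apply {m : ℕ} (hm : m ≠ 0) (Z : ℂ → ℂ) (y u : E4) :
    OM Z m y u = (2 * Real.pi)⁻¹ * (ld m Z (sL y, vL y) (sL u, vL u)).im := by
  rw [OM, ld, rs_b1 hm, rs_b1 hm]
  simp only [sum_apply, om, smul_apply, ContinuousLinearMap.comp_apply,
    ContinuousLinearMap.prod_apply, Complex.imCLM_apply, Complex.im_sum, smul_eq_mul,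
    Finset.mul_sum]

section Man

variable {M : Type*} [TopologicalSpace M] [ChartedSpace E4 M] [IsManifold 𝓘(ℝ, E4) ∞ M]

/-- the pull-back of `(1/2π) d arg G`. -/
lemma pb_dArg {Ψ : OpenPartialHomeomorph E4 M}
    (hΨ : ContMDiffOn 𝓘(ℝ, E4) 𝓘(ℝ, E4) ∞ Ψ Ψ.source)
    (hΨs : ContMDiffOn 𝓘(ℝ, E4) 𝓘(ℝ, E4) ∞ Ψ.symm Ψ.target) {y : E4} (hy : y ∈ Ψ.source)
    {G : M → ℂ} (hG : DifferentiableAt ℝ (fun y => G (Ψ y)) y) :
    pb1 Ψ (dArg G) y = (2 * Real.pi)⁻¹ • Complex.imCLM.comp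
      ((G (Ψ y))⁻¹ • fderiv ℝ (fun y => G (Ψ y)) y) := by
  set x : M := Ψ y with hx
  set g : E4 → ℂ := fun y' => G ((chartAt E4 x).symm y') with hg
  set h : E4 → E4 := fun z => chartAt E4 x (Ψ z) with hh
  have hyT : Ψ y ∈ Ψ.target := Ψ.map_source hy
  have hxs : x ∈ (chartAt E4 x).source := mem_chart_source E4 x
  have hh1 : DifferentiableAt ℝ h y :=
    (inC_contDiffAt (hΨ.contMDiffAt (Ψ.open_source.mem_nhds hy)) hxs).differentiableAt (by simp)
  have hhy : h y = chartAt E4 x x := rfl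
  -- the inverse coordinates
  have hk : ContDiffAt ℝ ∞ (fun y' => Ψ.symm ((chartAt E4 x).symm y')) (h y) := by
    have h1 : ContMDiffAt 𝓘(ℝ, E4) 𝓘(ℝ, E4) ∞ (chartAt E4 x).symm (chartAt E4 x x) :=
      (contMDiffOn_chart_symm (I := 𝓘(ℝ, E4)) (x := x)).contMDiffAt
        ((chartAt E4 x).open_target.mem_nhds (mem_chart_target E4 x))
    have h2 : (chartAt E4 x).symm (chartAt E4 x x) = x := (chartAt E4 x).left_inv hxs
    have h3 : ContMDiffAt 𝓘(ℝ, E4) 𝓘(ℝ, E4) ∞ Ψ.symm ((chartAt E4 x).symm (chartAt E4 x x)) := by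
      rw [h2]; exact hΨs.contMDiffAt (Ψ.open_target.mem_nhds hyT)
    exact (h3.comp (chartAt E4 x x) h1).contDiffAt
  have hg1 : DifferentiableAt ℝ g (h y) := by
    have h4 : Ψ.symm ((chartAt E4 x).symm (h y)) = y := by
      rw [hhy, (chartAt E4 x).left_inv hxs, hx, Ψ.left_inv hy]
    have h5 : DifferentiableAt ℝ (fun y => G (Ψ y)) (Ψ.symm ((chartAt E4 x).symm (h y))) := by
      rw [h4]; exact hG
    have h6 := h5.comp (h y) (hk.differentiableAt (by simp))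
    refine h6.congr_of_eventuallyEq ?_
    have h7 : ContinuousAt (chartAt E4 x).symm (h y) :=
      ((chartAt E4 x).continuousAt_symm (by rw [hhy]; exact mem_chart_target E4 x))
    have h8 : Ψ.target ∈ 𝓝 ((chartAt E4 x).symm (h y)) := by
      rw [hhy, (chartAt E4 x).left_inv hxs]
      exact Ψ.open_target.mem_nhds hyT
    filter_upwards [h7.preimage_mem_nhds h8] with y' hy'
    show G ((chartAt E4 x).symm y') = G (Ψ (Ψ.symm ((chartAt E4 x).symm y')))
    rw [Ψ.right_inv hy']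
  have hcomp : fderiv ℝ (fun y => G (Ψ y)) y = (fderiv ℝ g (h y)).comp (fderiv ℝ h y) := by
    rw [← fderiv_comp y hg1 hh1]
    refine Filter.EventuallyEq.fderiv_eq ?_
    have h7 : ContinuousAt Ψ y := Ψ.continuousAt hy
    filter_upwards [h7.preimage_mem_nhds ((chartAt E4 x).open_source.mem_nhds hxs)] with y' hy'
    show G (Ψ y') = G ((chartAt E4 x).symm (chartAt E4 x (Ψ y')))
    rw [(chartAt E4 x).left_inv hy']
  rw [hcomp]
  rfl

end Man

section Weak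

variable {M : Type*} [TopologicalSpace M] [T2Space M] [CompactSpace M] [ChartedSpace E4 M]
  [IsManifold 𝓘(ℝ, E4) ∞ M] [MeasurableSpace M] [BorelSpace M]

theorem weak_param {F : F2 E4 M} (hF : Vol F) {Ψ : OpenPartialHomeomorph E4 M}
    (hΨ : ContMDiffOn 𝓘(ℝ, E4) 𝓘(ℝ, E4) ∞ Ψ Ψ.source)
    (hΨs : ContMDiffOn 𝓘(ℝ, E4) 𝓘(ℝ, E4) ∞ Ψ.symm Ψ.target) {p : M}
    (hsub : Ψ.target ⊆ (chartAt E4 p).source)
    (hpos : ∀ y ∈ Ψ.source, 0 < W (pb2 Ψ F y) (pb2 Ψ F y))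
    {n : ℕ} {f z : Fin n → ℂ → ℂ} {m : Fin n → ℕ}
    {e : Fin n → OpenPartialHomeomorph ℂ ℂ} {ρ : Fin n → ℝ}
    (B : ∀ j, Br (f j) (z j) (m j) (e j) (ρ j))
    (hOρ : ∀ j, ∀ y ∈ Ψ.source, sL y ∈ ball (0 : ℂ) (ρ j ^ m j))
    {G : M → ℂ} (hG : ∀ y ∈ Ψ.source,
      G (Ψ y) = bp m (fun j w => z j ((e j).symm w)) (sL y) (vL y))
    {χ : M → ℝ} (hχ : SmoothF E4 χ) (hχs : tsupport χ ⊆ Ψ.target) {η : F2 E4 M}
    (hη : Smooth2 η) (hηc : Closed2 η) :
    Int.I F (wedG (dArg G) (dF χ)) η =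
      ∑ j, ∫ s in (e j).source, exF Ψ χ (mk (f j s) (z j s)) * pb2 Ψ η (mk (f j s) (z j s))
        (mk (fderiv ℝ (f j) s 1) (fderiv ℝ (z j) s 1))
        (mk (fderiv ℝ (f j) s Complex.I) (fderiv ℝ (z j) s Complex.I)) := by
  have hχm : ContMDiff 𝓘(ℝ, E4) 𝓘(ℝ, ℝ) ∞ χ := fun x =>
    (contMDiffAt_F (mem_chart_source E4 x) χ).2 (hχ.at (mem_chart_target E4 x))
  have hbs : ContDiffOn ℝ ∞ (pb2 Ψ η) Ψ.source := pb2_contDiffOn Ψ.open_source hΨ hη
  have halt : ∀ y ∈ Ψ.source, Alt (pb2 Ψ η y) := by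
    intro y _ v
    rw [pb2_apply]
    exact hη.1 _ _
  have hcl : ∀ y ∈ Ψ.source, Cl (pb2 Ψ η) y := by
    intro y hy
    have hd : DifferentiableAt ℝ (pb2 Ψ η) y :=
      (hbs.contDiffAt (Ψ.open_source.mem_nhds hy)).differentiableAt (by simp)
    rw [cl_iff_dd hd (by
      filter_upwards [Ψ.open_source.mem_nhds hy] with x hx using halt x hx)]
    exact fun u v w => dd_pb2 Ψ.open_source hΨ hy hη hηc u v w
  have h0 : ∀ x ∉ Ψ.target, qG F (wedG (dArg G) (dF χ)) η x = 0 := by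
    intro x hx
    have h1 : at1 (dF (E := E4) χ) x = 0 := Int.at1_dF_zero fun h => hx (hχs h)
    have h2 : at2 (wedG (dArg G) (dF χ)) x = 0 := by
      ext u v
      have : at2 (wedG (dArg G) (dF χ)) x u v =
        at1 (dArg G) x u * at1 (dF (E := E4) χ) x v - at1 (dF (E := E4) χ) x u * at1 (dArg G) x v := rfl
      rw [this, h1]
      simp
    rw [qG, h2]
    simp [q, W, ent]
  have hwa : ∀ x, Alt (at2 (wedG (dArg G) (dF χ)) x) := fun x =>
    wed_alt (at1 (dArg G) x) (at1 (dF (E := E4) χ) x)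
  rw [I_param hF hΨ hsub hpos hwa hη.1 h0,
    ← planar B Ψ.open_source hOρ (hbs.of_le (by exact_mod_cast le_top)) halt hcl
      (exF_smooth hΨ hχm hχs) (exF_tsupport hχs).2 (exF_tsupport hχs).1]
  set Z : Fin n → ℂ → ℂ := fun j w => z j ((e j).symm w) with hZ
  have hZd : ∀ j, ∀ w ∈ ball (0 : ℂ) (ρ j), DifferentiableAt ℝ (Z j) w := by
    intro j w hw
    have h1 : w ∈ (e j).target := by rw [(B j).tgt]; exact hw
    exact ((B j).diff_z ((e j).map_target h1)).comp w ((B j).des w hw)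
  -- almost every point
  have hae : ∀ᵐ y : E4, sL y ≠ 0 ∧ ∀ j, sL y ∈ ball (0 : ℂ) (ρ j ^ m j) →
      rp (m j) (Z j) (sL y) (vL y) ≠ 0 := by
    rw [← mp_mk.map_eq, emb_mk.ae_map_iff]
    have h1 : ∀ᵐ p : ℂ × ℂ, p.1 ≠ 0 :=
      (Measure.quasiMeasurePreserving_fst (μ := (volume : Measure ℂ))
        (ν := (volume : Measure ℂ))).ae (by simp [ae_iff] : ∀ᵐ t : ℂ, t ≠ 0)
    have h2 : ∀ j, ∀ᵐ p : ℂ × ℂ, p.1 ∈ ball (0 : ℂ) (ρ j ^ m j) →
        rp (m j) (Z j) p.1 p.2 ≠ 0 := fun j =>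
      rp_ae (B j).hm (B j).ρ0.le fun w hw => (hZd j w hw).continuousAt.continuousWithinAt
    filter_upwards [h1, ae_all_iff.2 h2] with p hp hp2
    simp only [sL_mk, vL_mk]
    exact ⟨hp, hp2⟩
  refine setIntegral_congr_ae Ψ.open_source.measurableSet ?_
  filter_upwards [hae] with y hy hys
  have hdF : pb1 Ψ (dF (E := E4) χ) y = fderiv ℝ (exF Ψ χ) y := by
    rw [pb1_dF (hΨ.contMDiffAt (Ψ.open_source.mem_nhds hys)) hχ, (exF_ev hys).fderiv_eq]
  have hne : bp m Z (sL y) (vL y) ≠ 0 :=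
    Finset.prod_ne_zero_iff.2 fun j _ => hy.2 j (hOρ j y hys)
  have hder : HasFDerivAt (fun y => G (Ψ y)) ((bp m Z (sL y) (vL y) •
      ∑ j, ld (m j) (Z j) (sL y, vL y)).comp (sL.prod vL)) y := by
    have h1 := hasFDerivAt_bp (m := m) (Z := Z) (fun j => (B j).hm) hy.1 (z := vL y)
      (fun c w hw => hZd c w (by
        have h2 := hOρ c y hys
        rw [mem_ball_zero_iff, ← hw, norm_pow] at h2
        rw [mem_ball_zero_iff]
        exact lt_of_pow_lt_pow_left₀ (m c) (B c).ρ0.le h2)) hne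
    have h3 : HasFDerivAt (fun y : E4 => (sL y, vL y)) (sL.prod vL) y := (sL.prod vL).hasFDerivAt
    refine (h1.comp y h3).congr_of_eventuallyEq ?_
    filter_upwards [Ψ.open_source.mem_nhds hys] with x hx
    exact hG x hx
  have hdA : pb1 Ψ (dArg G) y = ∑ j, OM (Z j) (m j) y := by
    rw [pb_dArg hΨ hΨs hys hder.differentiableAt, hder.fderiv, hG y hys]
    ext u
    simp only [sum_apply, smul_apply, ContinuousLinearMap.comp_apply,
      ContinuousLinearMap.prod_apply, Complex.imCLM_apply, smul_eq_mul]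
    rw [← mul_assoc, inv_mul_cancel₀ hne, one_mul, Complex.im_sum, Finset.mul_sum]
    exact Finset.sum_congr rfl fun j _ => (OM_apply (B j).hm (Z j) y u).symm
  have hpb : pb2 Ψ (wedG (dArg G) (dF χ)) y =
      wed (∑ j, OM (Z j) (m j) y) (fderiv ℝ (exF Ψ χ) y) := by
    rw [← hdA, ← hdF]
    ext u v
    rw [pb2_wedG, wed_apply]
  rw [hpb]

end Weak

end

end Crest.Agent.R235.Wk_250
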