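import Mathlib
import Crest.Agent.R235.WkI_250
import Crest.Agent.R235.Ip_288

/-!
Row 235 (S0364), package ADJ, helper250: **WEAK**, the field `weak` of `Adj.Box`, from a foliation
box `Adj.FBox`.
-/

set_option autoImplicit false
set_option maxSynthPendingDepth 3

open Set Function Filter MeasureTheory Metric Module
open scoped Manifold ContDiff Topology ENNReal

universe u

namespace Crest.Agent.R235.Wk_250

open Crest.Agent.R240 Crest.Agent.R240.En Crest.Agent.R240.Ch Crest.Agent.R235.RootProd_266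
open Crest.Agent.R235.Pull_129 Crest.Agent.R235.BranchProd_266 Crest.Agent.R235.WkG_250
open Crest.Agent.R240.Int (Vol)
open Crest.Agent.R235.Glob_370 Crest.Agent.R235.BrNF_266
open Crest.Agent.R235.Adj (dArg FBox II)

noncomputable section

/-! ### orientation of a branch -/

section NF

variable {f : ℂ → ℂ} {m : ℕ} {e : OpenPartialHomeomorph ℂ ℂ} {b : ℂ} {ρ K : ℝ} {n : ℕ∞}

lemma nf_diff (h : NF n f m e b ρ K) {s : ℂ} (hs : s ∈ e.source) : DifferentiableAt ℝ e s :=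
  (h.c1.contDiffAt (e.open_source.mem_nhds hs)).differentiableAt one_ne_zero

lemma nf_diffs (h : NF n f m e b ρ K) {w : ℂ} (hw : w ∈ ball (0 : ℂ) ρ) :
    DifferentiableAt ℝ e.symm w :=
  (h.c1s.contDiffAt (isOpen_ball.mem_nhds hw)).differentiableAt one_ne_zero

lemma nf_det_ne (h : NF n f m e b ρ K) {s : ℂ} (hs : s ∈ e.source) :
    (fderiv ℝ e s).det ≠ 0 := by
  have hw : e s ∈ ball (0 : ℂ) ρ := by rw [← h.tgt]; exact e.map_source hs
  have h3 : (fderiv ℝ e.symm (e s)).comp (fderiv ℝ e s) = ContinuousLinearMap.id ℝ ℂ := by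
    have h4 : (fun x => e.symm (e x)) =ᶠ[𝓝 s] id := by
      filter_upwards [e.open_source.mem_nhds hs] with x hx using e.left_inv hx
    have h5 := ((nf_diffs h hw).hasFDerivAt.comp s (nf_diff h hs).hasFDerivAt).fderiv
    rw [← h5]
    have h6 : fderiv ℝ (fun x => e.symm (e x)) s = fderiv ℝ id s := h4.fderiv_eq
    rw [fderiv_id] at h6
    exact h6
  intro h0
  have h1 : ((fderiv ℝ e.symm (e s)).comp (fderiv ℝ e s)).det = 1 := by
    rw [h3]; exact LinearMap.det_id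
  have h2 : ((fderiv ℝ e.symm (e s)).comp (fderiv ℝ e s)).det =
      (fderiv ℝ e.symm (e s)).det * (fderiv ℝ e s).det :=
    LinearMap.det_comp _ _
  rw [h2, h0, mul_zero] at h1
  exact zero_ne_one h1

lemma nf_det_pos (h : NF n f m e b ρ K) {s : ℂ} (hs : s ∈ e.source) :
    0 < (fderiv ℝ e s).det := by
  set D : ℂ → ℝ := fun w => (fderiv ℝ e (e.symm w)).det with hD
  have hsrc : ∀ w ∈ ball (0 : ℂ) ρ, e.symm w ∈ e.source := fun w hw =>
    e.map_target (by rw [h.tgt]; exact hw)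
  have hc : ContinuousOn D (ball 0 ρ) := by
    have h1 : ContinuousOn (fderiv ℝ e) e.source :=
      h.c1.continuousOn_fderiv_of_isOpen e.open_source le_rfl
    have h2 : ContinuousOn e.symm (ball 0 ρ) := by rw [← h.tgt]; exact e.continuousOn_symm
    exact ContinuousLinearMap.continuous_det.comp_continuousOn (h1.comp h2 hsrc)
  have h0 : 0 < D 0 := by
    have h1 : e.symm 0 = 0 := by
      have := e.left_inv h.src
      rwa [h.zero] at this
    have h2 : fderiv ℝ e 0 = mulc b := by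
      have := h.dbd 0 h.src
      rw [norm_zero, mul_zero] at this
      exact sub_eq_zero.1 (norm_le_zero_iff.1 this)
    show 0 < (fderiv ℝ e (e.symm 0)).det
    rw [h1, h2, mulc, det_smul_one]
    exact Complex.normSq_pos.2 h.b0
  have hw : e s ∈ ball (0 : ℂ) ρ := by rw [← h.tgt]; exact e.map_source hs
  have hDs : D (e s) = (fderiv ℝ e s).det := by
    show (fderiv ℝ e (e.symm (e s))).det = _
    rw [e.left_inv hs]
  rw [← hDs]
  by_contra hneg
  have h5 : (0 : ℝ) ∈ Icc (D (e s)) (D 0) := ⟨not_lt.1 hneg, h0.le⟩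
  obtain ⟨w, hw', hw0⟩ := (convex_ball (0 : ℂ) ρ).isPreconnected.intermediate_value hw
    (mem_ball_self h.ρ0) hc h5
  exact nf_det_ne h (hsrc w hw') hw0

lemma nf_det (h : NF n f m e b ρ K) {s : ℂ} (hs : s ∈ e.source) :
    0 ≤ (fderiv ℝ f s).det := by
  have h1 : (fun x => e x ^ m) =ᶠ[𝓝 s] f := by
    filter_upwards [e.open_source.mem_nhds hs] with x hx using h.pow x hx
  have h2 : HasFDerivAt (fun x => e x ^ m)
      (((m * e s ^ (m - 1) : ℂ) • (1 : ℂ →L[ℝ] ℂ)).comp (fderiv ℝ e s)) s :=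
    (hasFDerivAt_pow_real m (e s)).comp s (nf_diff h hs).hasFDerivAt
  rw [← h1.fderiv_eq, h2.fderiv]
  have h3 : (((m * e s ^ (m - 1) : ℂ) • (1 : ℂ →L[ℝ] ℂ)).comp (fderiv ℝ e s)).det =
      ((m * e s ^ (m - 1) : ℂ) • (1 : ℂ →L[ℝ] ℂ)).det * (fderiv ℝ e s).det :=
    LinearMap.det_comp _ _
  rw [h3, det_smul_one]
  exact mul_nonneg (Complex.normSq_nonneg _) (nf_det_pos h hs).le

end NF

/-! ### tamed forms are positively oriented -/

lemma W_pos_of_tame {b : Bil} (hb : Alt b)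
    (h : ∀ v : ℂ × ℂ, v ≠ 0 → 0 < b (mk v.1 v.2) (mk (Complex.I * v.1) (Complex.I * v.2))) :
    0 < W b b := by
  have h1 : ∀ x t : ℝ, 0 < ent b 0 1 + (x ^ 2 + t ^ 2) * ent b 2 3 +
      x * (ent b 0 3 - ent b 1 2) - t * (ent b 0 2 + ent b 1 3) := by
    intro x t
    have h2 := h (1, ⟨x, t⟩) (fun h => by simp [Prod.ext_iff] at h)
    rw [alt_expand hb] at h2
    simp only [mk_0, mk_1, mk_2, mk_3] at h2
    simp at h2
    linarith
  have h23 : 0 < ent b 2 3 := by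
    have h2 := h (0, 1) (fun h => by simp [Prod.ext_iff] at h)
    rw [alt_expand hb] at h2
    simp only [mk_0, mk_1, mk_2, mk_3] at h2
    simp at h2
    linarith
  set α := ent b 0 3 - ent b 1 2 with hα
  set β := ent b 0 2 + ent b 1 3 with hβ
  have h3 := h1 (-α / (2 * ent b 2 3)) (β / (2 * ent b 2 3))
  have h4 : 0 < ent b 0 1 * ent b 2 3 - (α ^ 2 + β ^ 2) / 4 := by
    have h5 : ent b 0 1 + ((-α / (2 * ent b 2 3)) ^ 2 + (β / (2 * ent b 2 3)) ^ 2) * ent b 2 3 +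
      (-α / (2 * ent b 2 3)) * α - (β / (2 * ent b 2 3)) * β =
      (ent b 0 1 * ent b 2 3 - (α ^ 2 + β ^ 2) / 4) / ent b 2 3 := by
      field_simp
      ring
    rw [h5] at h3
    exact (div_pos_iff_of_pos_right h23).1 h3
  unfold W
  nlinarith [sq_nonneg (ent b 0 3 + ent b 1 2), sq_nonneg (ent b 0 2 - ent b 1 3)]

/-! ### the parametrisation of a foliation box -/

section Box

variable {M : Type u} [TopologicalSpace M] [ChartedSpace E4 M] [IsManifold 𝓘(ℝ, E4) ∞ M]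
variable {J : EndF E4 M} {c : JCurve J} {p : M} {V : Set M}

/-- the coordinates on `E4`. -/
def PsiB (B : FBox c p V) (δ : ℝ) : OpenPartialHomeomorph E4 M :=
  (mkE.symm.toHomeomorph.toOpenPartialHomeomorph).trans (B.Θ.restrOpen (ball 0 δ) isOpen_ball)

lemma PsiB_apply (B : FBox c p V) (δ : ℝ) (y : E4) : PsiB B δ y = B.Θ (sL y, vL y) := rfl

lemma PsiB_symm_apply (B : FBox c p V) (δ : ℝ) (x : M) :
    (PsiB B δ).symm x = mk (B.Θ.symm x).1 (B.Θ.symm x).2 := mkE_apply _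

lemma PsiB_source (B : FBox c p V) {δ : ℝ} (hδ : δ ≤ B.R) (y : E4) :
    y ∈ (PsiB B δ).source ↔ (sL y, vL y) ∈ ball (0 : ℂ × ℂ) δ := by
  have h : (PsiB B δ).source = {y | (sL y, vL y) ∈ B.Θ.source ∩ ball (0 : ℂ × ℂ) δ} := by
    ext y
    simp [PsiB, mkE_symm_apply]
  rw [h, B.source, inter_eq_self_of_subset_right (ball_subset_ball hδ)]
  rfl

lemma PsiB_target (B : FBox c p V) {δ : ℝ} (hδ : δ ≤ B.R) :
    (PsiB B δ).target = B.Θ '' ball (0 : ℂ × ℂ) δ := by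
  rw [← (PsiB B δ).image_source_eq_target]
  ext x
  constructor
  · rintro ⟨y, hy, rfl⟩
    exact ⟨(sL y, vL y), (PsiB_source B hδ y).1 hy, rfl⟩
  · rintro ⟨q, hq, rfl⟩
    refine ⟨mk q.1 q.2, (PsiB_source B hδ _).2 (by simpa using hq), ?_⟩
    rw [PsiB_apply, sL_mk, vL_mk]

lemma PsiB_smooth (B : FBox c p V) {δ : ℝ} (hδ : δ ≤ B.R) :
    ContMDiffOn 𝓘(ℝ, E4) 𝓘(ℝ, E4) ∞ (PsiB B δ) (PsiB B δ).source := by
  have h1 : ContMDiff 𝓘(ℝ, E4) 𝓘(ℝ, ℂ × ℂ) ∞ (fun y : E4 => (sL y, vL y)) :=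
    (sL.contDiff.prodMk vL.contDiff).contMDiff
  exact B.smooth.comp h1.contMDiffOn fun y hy =>
    ball_subset_ball hδ ((PsiB_source B hδ y).1 hy)

lemma PsiB_smooth_symm (B : FBox c p V) {δ : ℝ} (hδ : δ ≤ B.R) :
    ContMDiffOn 𝓘(ℝ, E4) 𝓘(ℝ, E4) ∞ (PsiB B δ).symm (PsiB B δ).target := by
  have h1 : ContMDiff 𝓘(ℝ, ℂ × ℂ) 𝓘(ℝ, E4) ∞ (fun q : ℂ × ℂ => mkE q) :=
    mkE.contDiff.contMDiff
  refine (h1.comp_contMDiffOn (B.smooth_symm)).mono ?_
  rw [PsiB_target B hδ, ← B.Θ.image_source_eq_target, B.source]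
  exact image_mono (ball_subset_ball hδ)

lemma B_smAt (B : FBox c p V) {q : ℂ × ℂ} (hq : q ∈ ball (0 : ℂ × ℂ) B.R) :
    ContMDiffAt 𝓘(ℝ, ℂ × ℂ) 𝓘(ℝ, E4) ∞ B.Θ q := B.smooth.contMDiffAt (isOpen_ball.mem_nhds hq)

/-- the differential of the coordinates in `ℂ × ℂ`. -/
lemma dL_PsiB (B : FBox c p V) {y : E4} (hy : (sL y, vL y) ∈ ball (0 : ℂ × ℂ) B.R) (δ : ℝ)
    (u : E4) : dL (E := E4) (PsiB B δ) y u = dmap B.Θ (sL y, vL y) (sL u, vL u) := by
  have h1 : DifferentiableAt ℝ (fun y : E4 => (sL y, vL y)) y :=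
    ((sL.prod vL).hasFDerivAt (x := y)).differentiableAt
  have h2 := dL_comp (Φ := B.Θ) (g := fun y : E4 => (sL y, vL y)) (z := y) (B_smAt B hy) h1
  have h3 : fderiv ℝ (fun y : E4 => (sL y, vL y)) y = sL.prod vL :=
    ((sL.prod vL).hasFDerivAt (x := y)).fderiv
  rw [h3] at h2
  have h4 := congrArg (fun A : E4 →L[ℝ] E4 => A u) h2
  exact h4

lemma dmap_inj (B : FBox c p V) {q : ℂ × ℂ} (hq : q ∈ ball (0 : ℂ × ℂ) B.R) {v : ℂ × ℂ}
    (h : dmap B.Θ q v = 0) : v = 0 := by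
  have hqs : q ∈ B.Θ.source := by rw [B.source]; exact hq
  set x : M := B.Θ q with hx
  have hxs : x ∈ (chartAt E4 x).source := mem_chart_source E4 x
  have hh1 : DifferentiableAt ℝ (fun z => chartAt E4 x (B.Θ z)) q :=
    (inC_contDiffAt (B_smAt B hq) hxs).differentiableAt (by simp)
  have hk : DifferentiableAt ℝ (fun y' => B.Θ.symm ((chartAt E4 x).symm y')) (chartAt E4 x x) := by
    have h1 : ContMDiffAt 𝓘(ℝ, E4) 𝓘(ℝ, E4) ∞ (chartAt E4 x).symm (chartAt E4 x x) :=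
      (contMDiffOn_chart_symm (I := 𝓘(ℝ, E4)) (x := x)).contMDiffAt
        ((chartAt E4 x).open_target.mem_nhds (mem_chart_target E4 x))
    have h2 : (chartAt E4 x).symm (chartAt E4 x x) = x := (chartAt E4 x).left_inv hxs
    have h3 : ContMDiffAt 𝓘(ℝ, E4) 𝓘(ℝ, ℂ × ℂ) ∞ B.Θ.symm
        ((chartAt E4 x).symm (chartAt E4 x x)) := by
      rw [h2]
      exact B.smooth_symm.contMDiffAt (B.Θ.open_target.mem_nhds (B.Θ.map_source hqs))
    exact (h3.comp (chartAt E4 x x) h1).contDiffAt.differentiableAt (by simp)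
  have hid : (fun z => B.Θ.symm ((chartAt E4 x).symm (chartAt E4 x (B.Θ z)))) =ᶠ[𝓝 q] id := by
    have h7 : ContinuousAt B.Θ q := B.Θ.continuousAt hqs
    filter_upwards [h7.preimage_mem_nhds ((chartAt E4 x).open_source.mem_nhds hxs),
      B.Θ.open_source.mem_nhds hqs] with z hz hz'
    rw [(chartAt E4 x).left_inv hz, B.Θ.left_inv hz']
    rfl
  have hcomp := fderiv_comp (f := fun z => chartAt E4 x (B.Θ z))
    (g := fun y' => B.Θ.symm ((chartAt E4 x).symm y')) q hk hh1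
  have h5 : fderiv ℝ (fun z => B.Θ.symm ((chartAt E4 x).symm (chartAt E4 x (B.Θ z)))) q v = v := by
    rw [hid.fderiv_eq, fderiv_id]; rfl
  have h6 : fderiv ℝ (fun z => chartAt E4 x (B.Θ z)) q v = 0 := h
  have h7 : fderiv ℝ (fun z => B.Θ.symm ((chartAt E4 x).symm (chartAt E4 x (B.Θ z)))) q v =
      fderiv ℝ (fun y' => B.Θ.symm ((chartAt E4 x).symm y')) (chartAt E4 x (B.Θ q))
        (fderiv ℝ (fun z => chartAt E4 x (B.Θ z)) q v) :=
    congrArg (fun A : ℂ × ℂ →L[ℝ] ℂ × ℂ => A v) hcomp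
  rw [h5, h6, map_zero] at h7
  exact h7

end Box

section Pos

variable {M : Type u} [TopologicalSpace M] [T2Space M] [CompactSpace M]
  [ChartedSpace E4 M] [IsManifold 𝓘(ℝ, E4) ∞ M]
variable {J : EndF E4 M} {c : JCurve J} {p : M} {V : Set M} {w : Trip M}

omit [T2Space M] [CompactSpace M] in
/-- the coordinates are positively oriented near the centre. -/
lemma PsiB_pos (hJ : IsJ w J) (B : FBox c p V) (δ : ℝ) :
    ∀ᶠ y in 𝓝 (0 : E4), 0 < W (pb2 (PsiB B δ) ((w 0).1.1 : F2 E4 M) y)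
      (pb2 (PsiB B δ) ((w 0).1.1 : F2 E4 M) y) := by
  have h00 : (sL (0 : E4), vL (0 : E4)) = (0 : ℂ × ℂ) := by simp
  have hRm : (sL (0 : E4), vL (0 : E4)) ∈ ball (0 : ℂ × ℂ) B.R := by
    rw [h00]; exact mem_ball_self B.R_pos
  have hsm : Smooth2 ((w 0).1.1 : F2 E4 M) := (w 0).1.2
  have h0 : 0 < W (pb2 (PsiB B δ) ((w 0).1.1 : F2 E4 M) 0)
      (pb2 (PsiB B δ) ((w 0).1.1 : F2 E4 M) 0) := by
    refine W_pos_of_tame ?_ ?_
    · rw [pb2_eq_pull]
      exact Alt.pull (hsm.1 _) _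
    · intro v hv
      rw [pb2_apply, dL_PsiB B hRm, dL_PsiB B hRm]
      simp only [sL_mk, vL_mk]
      have h1 : ((Complex.I * v.1, Complex.I * v.2) : ℂ × ℂ) = B.J' (sL (0 : E4), vL (0 : E4)) v := by
        rw [h00, B.J0]; rfl
      rw [h1, B.conj _ hRm]
      exact hJ.tame _ _ fun h => hv (dmap_inj B hRm h)
  have hU : IsOpen {y : E4 | (sL y, vL y) ∈ ball (0 : ℂ × ℂ) B.R} :=
    isOpen_ball.preimage (sL.continuous.prodMk vL.continuous)
  have hsmo : ContMDiffOn 𝓘(ℝ, E4) 𝓘(ℝ, E4) ∞ (PsiB B δ)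
      {y : E4 | (sL y, vL y) ∈ ball (0 : ℂ × ℂ) B.R} := by
    have h1 : ContMDiff 𝓘(ℝ, E4) 𝓘(ℝ, ℂ × ℂ) ∞ (fun y : E4 => (sL y, vL y)) :=
      (sL.contDiff.prodMk vL.contDiff).contMDiff
    exact B.smooth.comp h1.contMDiffOn fun y hy => hy
  have hc : ContinuousAt (pb2 (PsiB B δ) ((w 0).1.1 : F2 E4 M)) 0 :=
    ((pb2_contDiffOn hU hsmo hsm).contDiffAt (hU.mem_nhds hRm)).continuousAt
  have hcW : ContinuousAt (fun y => W (pb2 (PsiB B δ) ((w 0).1.1 : F2 E4 M) y)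
      (pb2 (PsiB B δ) ((w 0).1.1 : F2 E4 M) y)) 0 := by
    have h2 : ContinuousOn (fun b : Bil => W b b) univ :=
      Int.continuousOn_W continuousOn_id continuousOn_id
    exact (continuousOn_univ.1 h2).continuousAt.comp hc
  exact hcW.eventually (lt_mem_nhds h0)

end Pos

end

end Crest.Agent.R235.Wk_250
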