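import Mathlib
import Crest.Agent.R235.WkJ_250
import Crest.Agent.R235.BoxE_266

/-!
Row 235 (S0364), package ADJ, helper250: **WEAKP** (`BoxE_266`), the weak equation
`d ((1/2π) d arg F) = [c]` near a point of a `J`-curve.
-/

set_option autoImplicit false
set_option maxSynthPendingDepth 3

open Set Function Filter MeasureTheory Metric Module
open scoped Manifold ContDiff Topology ENNReal

universe u

namespace Crest.Agent.R235.Wk_250

open Crest.Agent.R240 Crest.Agent.R240.En Crest.Agent.R240.Ch Crest.Agent.R235.RootProd_266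
open Crest.Agent.R235.Pull_129 Crest.Agent.R235.BranchProd_266 Crest.Agent.R235.WkG_250
open Crest.Agent.R240.Int (Vol)
open Crest.Agent.R235.Glob_370 Crest.Agent.R235.BrNF_266
open Crest.Agent.R235.Adj (dArg FBox II)
open Crest.Agent.R235.BoxL2_266

noncomputable section

section Closed

variable {M : Type u} [TopologicalSpace M] [T2Space M] [CompactSpace M]
  [ChartedSpace E4 M] [IsManifold 𝓘(ℝ, E4) ∞ M]
variable {J : EndF E4 M} {c : JCurve J} {p : M} {V : Set M}

omit [CompactSpace M] in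
/-- near `p` only the small discs meet `Θ (ball 0 δ)`. -/
lemma proper_near (B : FBox c p V) (j : Fin (c.L p).n) {O : Set ℂ} (hO : IsOpen O)
    (h0 : (0 : ℂ) ∈ O) : ∀ᶠ q in 𝓝 (0 : ℂ × ℂ), ∀ s ∈ ball (0 : ℂ) 1,
      (c.L p).u j s = B.Θ q → s ∈ O := by
  -- a compact neighbourhood of `p` in `U_p`
  have hΘc : ContinuousAt B.Θ 0 := B.Θ.continuousAt (by rw [B.source]; exact mem_ball_self B.R_pos)
  set K : Set M := B.Θ '' closedBall (0 : ℂ × ℂ) (B.R / 2) with hK
  have hsub : closedBall (0 : ℂ × ℂ) (B.R / 2) ⊆ B.Θ.source := by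
    rw [B.source]
    exact closedBall_subset_ball (by linarith [B.R_pos])
  have hKc : IsCompact K := (isCompact_closedBall _ _).image_of_continuousOn
    (B.Θ.continuousOn.mono hsub)
  have hKU : K ⊆ (c.L p).U := by
    rintro _ ⟨q, hq, rfl⟩
    exact (B.target (B.Θ.map_source (hsub hq))).2
  obtain ⟨r, hr, hprop⟩ := (c.L p).proper j K hKc hKU
  -- the compact set of bad parameters
  set A : Set ℂ := closedBall (0 : ℂ) r \ O with hA
  have hAc : IsCompact A := (isCompact_closedBall _ _).diff hO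
  have hAb : A ⊆ ball 0 1 := fun s hs => closedBall_subset_ball hr hs.1
  have huc : ContinuousOn ((c.L p).u j) (ball 0 1) := ((c.L p).disc j).hol.smooth.continuousOn
  have huA : IsCompact ((c.L p).u j '' A) := hAc.image_of_continuousOn (huc.mono hAb)
  have hp : p ∉ (c.L p).u j '' A := by
    rintro ⟨s, hs, hsp⟩
    have h1 : s = 0 := ((c.L p).disc j).inj (hAb hs) (mem_ball_self one_pos)
      (hsp.trans ((c.L p).centre j).symm)
    rw [h1] at hs
    exact hs.2 h0
  have hn : ((c.L p).u j '' A)ᶜ ∈ 𝓝 (B.Θ 0) := by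
    rw [B.centre]
    exact huA.isClosed.isOpen_compl.mem_nhds hp
  filter_upwards [hΘc.preimage_mem_nhds hn, closedBall_mem_nhds (0 : ℂ × ℂ)
    (half_pos B.R_pos)] with q hq hq' s hs hsq
  by_contra hsO
  apply hq
  refine ⟨s, ⟨?_, hsO⟩, hsq⟩
  rw [mem_closedBall_zero_iff]
  exact hprop s hs (by rw [hsq]; exact ⟨q, hq', rfl⟩)

end Closed

/-- **WEAKP.** -/
theorem weakp : WEAKP.{u} := by
  intro M _ _ _ _ _ _ w J hw hJ c p V B P
  -- the branches
  have hBr : ∀ j, Br (fun s => (B.v j s).1) (fun s => (B.v j s).2) (B.m j) (P.e j) P.ρ := by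
    intro j
    have hvs : ContDiffOn ℝ ∞ (B.v j) (P.e j).source := (B.v_smooth j).mono (P.src j)
    exact
      { hm := Nat.one_le_iff_ne_zero.1 (B.m_pos j)
        ρ0 := P.ρ_pos
        tgt := (P.nf j).tgt
        src := (P.nf j).src
        zero := (P.nf j).zero
        pow := (P.nf j).pow
        smf := contDiff_fst.comp_contDiffOn hvs
        smz := contDiff_snd.comp_contDiffOn hvs
        de := fun s hs => nf_diff (P.nf j) hs
        des := fun s hs => nf_diffs (P.nf j) hs
        det := fun s hs => nf_det (P.nf j) hs }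
  -- the radius
  have hΘc : ContinuousAt B.Θ 0 := B.Θ.continuousAt (by rw [B.source]; exact mem_ball_self B.R_pos)
  have hev1 : ∀ᶠ q in 𝓝 (0 : ℂ × ℂ), B.Θ q ∈ (chartAt E4 p).source :=
    hΘc.preimage_mem_nhds (by
      rw [B.centre]; exact (chartAt E4 p).open_source.mem_nhds (mem_chart_source E4 p))
  have hev2 : ∀ᶠ q in 𝓝 (0 : ℂ × ℂ), ∀ j, ∀ s ∈ ball (0 : ℂ) 1,
      (c.L p).u j s = B.Θ q → s ∈ (P.e j).source := by
    rw [eventually_all]
    exact fun j => proper_near B j (P.e j).open_source (P.nf j).src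
  have hev3 : ∀ᶠ q in 𝓝 (0 : ℂ × ℂ), ∀ δ, 0 < W (pb2 (PsiB B δ) ((w 0).1.1 : F2 E4 M) (mkE q))
      (pb2 (PsiB B δ) ((w 0).1.1 : F2 E4 M) (mkE q)) := by
    have h1 := PsiB_pos hJ B 0
    have h2 : Tendsto (fun q : ℂ × ℂ => mkE q) (𝓝 0) (𝓝 (0 : E4)) := by
      have := mkE.continuous.tendsto (0 : ℂ × ℂ)
      rwa [map_zero] at this
    filter_upwards [h2.eventually h1] with q hq δ using hq
  obtain ⟨δ1, hδ1, hball⟩ := Metric.eventually_nhds_iff_ball.1 (hev1.and (hev2.and hev3))
  refine ⟨min δ1 P.δ, lt_min hδ1 P.δ_pos, fun δ hδ hδle χ hχ hχs η b hb => ?_⟩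
  have hδ' : δ ≤ δ1 := hδle.trans (min_le_left _ _)
  have hδP : δ ≤ P.δ := hδle.trans (min_le_right _ _)
  have hδR : δ ≤ B.R := hδP.trans (Pl.δ_le_R P)
  rw [UU_eq_image B hδR] at hχs
  have hχT : tsupport χ ⊆ (PsiB B δ).target := by rw [PsiB_target B hδR]; exact hχs
  -- the right-hand side
  let _ : MeasurableSpace M := borel M
  have _ : BorelSpace M := ⟨rfl⟩
  have hR := weak_param (F := ((w 0).1.1 : F2 E4 M)) (hw.vol 0) (Ψ := PsiB B δ)
    (PsiB_smooth B hδR) (PsiB_smooth_symm B hδR) (p := p)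
    (by
      rw [PsiB_target B hδR]
      rintro _ ⟨q, hq, rfl⟩
      exact (hball q (ball_subset_ball hδ' hq)).1)
    (by
      intro y hy
      have h1 := (PsiB_source B hδR y).1 hy
      have h2 := (hball _ (ball_subset_ball hδ' h1)).2.2 δ
      rwa [mkE_apply, mk_sL_vL] at h2)
    hBr
    (by
      intro j y hy
      have h1 := (PsiB_source B hδR y).1 hy
      rw [mem_ball_zero_iff] at h1 ⊢
      exact ((norm_fst_le (sL y, vL y)).trans_lt h1).trans_le (hδP.trans (P.δ_lt j)))
    (G := P.F)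
    (by
      intro y hy
      have h1 := (PsiB_source B hδR y).1 hy
      have h2 : B.Θ.symm (B.Θ (sL y, vL y)) = (sL y, vL y) :=
        B.Θ.left_inv (by rw [B.source]; exact ball_subset_ball hδR h1)
      show P.G (B.Θ.symm (B.Θ (sL y, vL y))) = _
      rw [h2]
      rfl)
    hχ hχT (η := (η.1.1 : F2 E4 M)) η.1.2 η.2
  have hII : II (w 0) (wedG (dArg P.F) (dF χ)) (η.1.1 : F2 E4 M) =
      Int.I ((w 0).1.1 : F2 E4 M) (wedG (dArg P.F) (dF χ)) (η.1.1 : F2 E4 M) := rfl
  rw [hII, hR]
  -- the left-hand side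
  have hcur := c.cur p b (tsupport χ) (isClosed_tsupport χ).isCompact
    (fun x hx => (UU_subL B δ) (by rw [UU_eq_image B hδR]; exact hχs hx))
    (by
      intro x hx
      rw [hb]
      show χ x • at2 (η.1.1 : F2 E4 M) x = 0
      rw [image_eq_zero_of_notMem_tsupport hx, zero_smul])
  rw [hcur]
  refine Finset.sum_congr rfl fun j _ => ?_
  have hpbχ : ∀ s, pb ((c.L p).u j) (b.1 : F2 E4 M) s =
      χ ((c.L p).u j s) * pb ((c.L p).u j) (η.1.1 : F2 E4 M) s := by
    intro s
    rw [hb]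
    rfl
  have hsub1 : (P.e j).source ⊆ ball (0 : ℂ) 1 :=
    (P.src j).trans (ball_subset_ball B.r1_le)
  rw [setIntegral_eq_of_subset_of_forall_sdiff_eq_zero measurableSet_ball hsub1]
  · refine setIntegral_congr_fun (P.e j).open_source.measurableSet fun s hs => ?_
    show pb ((c.L p).u j) (b.1 : F2 E4 M) s = _
    have hs1 := P.src j hs
    have hvR := v_mem B j hs1
    have hΘv := Θ_v B j hs1
    rw [hpbχ]
    by_cases hq : B.v j s ∈ ball (0 : ℂ × ℂ) δ
    · have hmem : mk (B.v j s).1 (B.v j s).2 ∈ (PsiB B δ).source :=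
        (PsiB_source B hδR _).2 (by rw [sL_mk, vL_mk]; exact hq)
      have hval : PsiB B δ (mk (B.v j s).1 (B.v j s).2) = (c.L p).u j s := by
        rw [PsiB_apply, sL_mk, vL_mk]; exact hΘv
      rw [exF_of_mem hmem, hval]
      congr 1
      set g : ℂ → E4 := fun s => mk (B.v j s).1 (B.v j s).2 with hg
      have hvd : DifferentiableAt ℝ (B.v j) s :=
        ((B.v_smooth j).contDiffAt (isOpen_ball.mem_nhds hs1)).differentiableAt (by simp)
      have hgd : HasFDerivAt g (mkL.comp (fderiv ℝ (B.v j) s)) s := by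
        have h1 : g = fun s => mkL (B.v j s) := by
          funext t; rw [mkL_apply]
        rw [h1]
        exact mkL.hasFDerivAt.comp s hvd.hasFDerivAt
      have hf1 : ∀ h, fderiv ℝ g s h = mk (fderiv ℝ (fun s => (B.v j s).1) s h)
          (fderiv ℝ (fun s => (B.v j s).2) s h) := by
        intro h
        have h1 : HasFDerivAt (fun s => (B.v j s).1)
            ((ContinuousLinearMap.fst ℝ ℂ ℂ).comp (fderiv ℝ (B.v j) s)) s := hvd.hasFDerivAt.fst
        have h2 : HasFDerivAt (fun s => (B.v j s).2)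
            ((ContinuousLinearMap.snd ℝ ℂ ℂ).comp (fderiv ℝ (B.v j) s)) s := hvd.hasFDerivAt.snd
        rw [hgd.fderiv, h1.fderiv, h2.fderiv, ContinuousLinearMap.comp_apply, mkL_apply]
        rfl
      have hev : (c.L p).u j =ᶠ[𝓝 s] fun s => PsiB B δ (g s) := by
        filter_upwards [isOpen_ball.mem_nhds hs1] with t ht
        rw [PsiB_apply, sL_mk, vL_mk]
        exact (Θ_v B j ht).symm
      have h3 : pb ((c.L p).u j) (η.1.1 : F2 E4 M) s =
          pb2 ((c.L p).u j) (η.1.1 : F2 E4 M) s 1 Complex.I := rfl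
      have hsm : ContMDiffAt 𝓘(ℝ, E4) 𝓘(ℝ, E4) ∞ (PsiB B δ) (g s) :=
        (PsiB_smooth B hδR).contMDiffAt ((PsiB B δ).open_source.mem_nhds hmem)
      rw [h3, pb2_congr hev, pb2_comp (Φ := PsiB B δ) (g := g) (z := s) hsm
        hgd.differentiableAt, hf1, hf1]
    · have h1 : mk (B.v j s).1 (B.v j s).2 ∉ (PsiB B δ).source := by
        intro h
        have h2 := (PsiB_source B hδR _).1 h
        rw [sL_mk, vL_mk] at h2
        exact hq h2
      have h2 : (c.L p).u j s ∉ tsupport χ := by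
        intro h
        obtain ⟨q, hq', hqs⟩ := hχs h
        have h3 : q = B.v j s := B.Θ.injOn (by rw [B.source]; exact ball_subset_ball hδR hq')
          (by rw [B.source]; exact hvR) (hqs.trans hΘv.symm)
        rw [← h3] at hq
        exact hq hq'
      rw [exF, indicator_of_notMem h1, image_eq_zero_of_notMem_tsupport h2, zero_mul, zero_mul]
  · intro s hs
    have h2 : (c.L p).u j s ∉ tsupport χ := by
      intro h
      obtain ⟨q, hq, hqs⟩ := hχs h
      exact hs.2 ((hball q (ball_subset_ball hδ' hq)).2.1 j s hs.1 hqs.symm)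
    rw [hpbχ, image_eq_zero_of_notMem_tsupport h2, zero_mul]

end

end Crest.Agent.R235.Wk_250
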