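import Crest.Agent.R235.BoxF_266
import Crest.Agent.R235.WkK_250
import Crest.Agent.R235.NWAll_334

/-!
Row 235 (S0364), package ADJ (helper266): `BOXP` without hypothesis.
-/

set_option autoImplicit false

universe u

namespace Crest.Agent.R235.BoxL2_266

open Crest.Agent.R235 Crest.Agent.R235.Adj

/-- **BOXP** (local theory of a `J`-curve, exceptional leaf transverse to `c'`). -/
theorem boxp : BOXP.{u} := boxp_of_fol NWAll_334.fol_stmt Wk_250.weakp

end Crest.Agent.R235.BoxL2_266
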