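import Crest.Agent.R235.Wind3_688

/-!
# Row 235 (S0364), package ADJ, leaf W1, fourth part (helper688): the cut-off formula

`cut` : `∫ dχ ∧ dF/F = -2πi ∑_p χ(p) n(p)`.
-/

set_option autoImplicit false

open Complex Set Filter Topology Metric MeasureTheory
open scoped Real

namespace Crest.Agent.R235.Wind_688

noncomputable section

/-- smooth radial cut-off -/
def rb (a b t : ℝ) : ℝ := Real.smoothTransition ((b - t) / (b - a))

theorem rb_one {a b t : ℝ} (hab : a < b) (ht : t ≤ a) : rb a b t = 1 := by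
  apply Real.smoothTransition.one_of_one_le
  rw [le_div_iff₀ (sub_pos.2 hab)]; linarith

theorem rb_zero {a b t : ℝ} (hab : a < b) (ht : b ≤ t) : rb a b t = 0 := by
  apply Real.smoothTransition.zero_of_nonpos
  exact div_nonpos_of_nonpos_of_nonneg (by linarith) (sub_pos.2 hab).le

theorem rb_contDiff (a b : ℝ) : ContDiff ℝ 1 (rb a b) := by
  unfold rb
  exact Real.smoothTransition.contDiff.comp ((contDiff_const.sub contDiff_id).div_const _)

/-- the polar integrand -/
theorem jac_polar {F : ℂ → ℂ} {p : ℂ} {ψ : ℝ → ℝ} (hψ : ContDiff ℝ 1 ψ) (r θ : ℝ) :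
    (r : ℂ) * (jac (fun z => ψ (‖z - p‖ ^ 2)) F (circleMap p r θ)) =
      ((deriv ψ (r ^ 2) * (2 * r) : ℝ) : ℂ) *
        fderiv ℝ F (circleMap p r θ) (circleMap 0 r θ * I) := by
  set e : ℂ := exp (θ * I) with he
  have he1 : ‖e‖ = 1 := by rw [he, Complex.norm_exp_ofReal_mul_I]
  have hw : circleMap p r θ - p = r * e := by simp [circleMap, he]
  have hw0 : circleMap 0 r θ = r * e := by simp [circleMap, he]
  have hn : ‖(r : ℂ) * e‖ ^ 2 = r ^ 2 := by
    rw [norm_mul, he1, mul_one, Complex.norm_real, Real.norm_eq_abs, sq_abs]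
  have hd : HasFDerivAt (fun z : ℂ => ψ (‖z - p‖ ^ 2))
      ((deriv ψ (‖circleMap p r θ - p‖ ^ 2)) •
        (2 • (innerSL ℝ (circleMap p r θ - p)).comp (ContinuousLinearMap.id ℝ ℂ)))
      (circleMap p r θ) := by
    have h1 : HasFDerivAt (fun z : ℂ => ‖z - p‖ ^ 2)
        (2 • (innerSL ℝ (circleMap p r θ - p)).comp (ContinuousLinearMap.id ℝ ℂ))
        (circleMap p r θ) := ((hasFDerivAt_id (circleMap p r θ)).sub_const p).norm_sq
    have h2 : HasDerivAt ψ (deriv ψ (‖circleMap p r θ - p‖ ^ 2)) (‖circleMap p r θ - p‖ ^ 2) :=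
      ((hψ.differentiable one_ne_zero) _).hasDerivAt
    exact HasDerivAt.comp_hasFDerivAt (f := fun z : ℂ => ‖z - p‖ ^ 2) (circleMap p r θ) h2 h1
  rw [jac, jac_rot _ _ e he1, hd.fderiv, hw, hw0, hn]
  have i1 : inner ℝ ((r : ℂ) * e) e = r := by
    rw [Complex.inner, map_mul, Complex.conj_ofReal]
    have h3 : (starRingEnd ℂ) e * e = 1 := by
      rw [Complex.conj_mul', he1]; simp
    have h4 : e * ((r : ℂ) * (starRingEnd ℂ) e) = r := by linear_combination (r : ℂ) * h3
    rw [h4]; simp
  have i2 : inner ℝ ((r : ℂ) * e) (e * I) = 0 := by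
    rw [Complex.inner, map_mul, Complex.conj_ofReal]
    have h3 : (starRingEnd ℂ) e * e = 1 := by
      rw [Complex.conj_mul', he1]; simp
    have h4 : e * I * ((r : ℂ) * (starRingEnd ℂ) e) = r * I := by
      linear_combination (r : ℂ) * I * h3
    rw [h4]; simp
  simp only [_root_.smul_apply, ContinuousLinearMap.comp_apply, ContinuousLinearMap.id_apply,
    innerSL_apply_apply, i1, i2, smul_eq_mul]
  have hB : fderiv ℝ F (circleMap p r θ) ((r : ℂ) * e * I) =
      (r : ℂ) * fderiv ℝ F (circleMap p r θ) (e * I) := by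
    rw [mul_assoc, ← Complex.real_smul, map_smul, Complex.real_smul]
  rw [hB]
  push_cast
  simp
  ring

theorem deriv_rb {a b t : ℝ} (hab : a < b) (h : t < a ∨ b < t) : deriv (rb a b) t = 0 := by
  rcases h with h | h
  · have : rb a b =ᶠ[𝓝 t] fun _ => 1 := by
      filter_upwards [Iio_mem_nhds h] with s hs using rb_one hab (le_of_lt hs)
    rw [this.deriv_eq]; simp
  · have : rb a b =ᶠ[𝓝 t] fun _ => 0 := by
      filter_upwards [Ioi_mem_nhds h] with s hs using rb_zero hab (le_of_lt hs)
    rw [this.deriv_eq]; simp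

/-- the radial cut-off function -/
def rbc (p : ℂ) (a b : ℝ) (z : ℂ) : ℝ := rb a b (‖z - p‖ ^ 2)

theorem rbc_contDiff (p : ℂ) (a b : ℝ) : ContDiff ℝ 1 (rbc p a b) :=
  (rb_contDiff a b).comp ((contDiff_id.sub contDiff_const).norm_sq ℝ)

theorem rbc_one {p z : ℂ} {a b : ℝ} (hab : a < b) (h : ‖z - p‖ ^ 2 ≤ a) : rbc p a b z = 1 :=
  rb_one hab h

theorem rbc_zero {p z : ℂ} {a b : ℝ} (hab : a < b) (h : b ≤ ‖z - p‖ ^ 2) : rbc p a b z = 0 :=
  rb_zero hab h

theorem rbc_supp {p : ℂ} {a b ρ : ℝ} (hab : a < b) (hρ : 0 ≤ ρ) (h : b ≤ ρ ^ 2) :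
    tsupport (rbc p a b) ⊆ closedBall p ρ := by
  refine closure_minimal ?_ isClosed_closedBall
  intro z hz
  by_contra h1
  rw [mem_closedBall, not_le, dist_eq_norm] at h1
  exact hz (rbc_zero hab (h.trans (by gcongr)))

theorem rbc_compact {p : ℂ} {a b : ℝ} (hab : a < b) : HasCompactSupport (rbc p a b) := by
  refine HasCompactSupport.of_support_subset_isCompact
    (isCompact_closedBall p (Real.sqrt (|b|))) ((subset_tsupport _).trans
      (rbc_supp hab (Real.sqrt_nonneg _) ?_))
  rw [Real.sq_sqrt (abs_nonneg b)]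
  exact le_abs_self b

theorem rbc_fderiv {p z : ℂ} {a b : ℝ} (hab : a < b) (h : ‖z - p‖ ^ 2 < a ∨ b < ‖z - p‖ ^ 2) :
    ∀ᶠ y in 𝓝 z, fderiv ℝ (rbc p a b) y = 0 := by
  have hc : Continuous fun y : ℂ => ‖y - p‖ ^ 2 := by fun_prop
  rcases h with h | h
  · have h1 : ∀ᶠ y in 𝓝 z, ∀ᶠ w in 𝓝 y, rbc p a b w = 1 := by
      rw [eventually_eventually_nhds]
      filter_upwards [hc.continuousAt.eventually (Iio_mem_nhds h)] with w hw
      exact rbc_one hab (le_of_lt hw)
    filter_upwards [h1] with y hy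
    have : rbc p a b =ᶠ[𝓝 y] fun _ => 1 := hy
    rw [this.fderiv_eq]; simp
  · have h1 : ∀ᶠ y in 𝓝 z, ∀ᶠ w in 𝓝 y, rbc p a b w = 0 := by
      rw [eventually_eventually_nhds]
      filter_upwards [hc.continuousAt.eventually (Ioi_mem_nhds h)] with w hw
      exact rbc_zero hab (le_of_lt hw)
    filter_upwards [h1] with y hy
    have : rbc p a b =ᶠ[𝓝 y] fun _ => 0 := hy
    rw [this.fderiv_eq]; simp

theorem cut_radial_int {F : ℂ → ℂ} {p : ℂ} {R : ℝ}
    (hF : ContDiffOn ℝ 1 F (ball p R \ {p})) (h0 : ∀ z ∈ ball p R \ {p}, F z ≠ 0)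
    {a b : ℝ} (ha : 0 < a) (hab : a < b) (hb : b < R ^ 2) (hR : 0 < R) :
    Integrable (fun z => jac (rbc p a b) F z / F z) := by
  have hU : IsOpen (ball p R \ {p}) := isOpen_ball.sdiff isClosed_singleton
  have hcont : Continuous fun z => jac (rbc p a b) F z / F z := by
    rw [continuous_iff_continuousAt]
    intro z
    by_cases hz : z ∈ ball p R \ {p}
    · have hFd : ContinuousAt (fderiv ℝ F) z :=
        (hF.continuousOn_fderiv_of_isOpen hU le_rfl).continuousAt (hU.mem_nhds hz)
      have hFc : ContinuousAt F z := hF.continuousOn.continuousAt (hU.mem_nhds hz)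
      have hχ : Continuous (fderiv ℝ (rbc p a b)) :=
        (rbc_contDiff p a b).continuous_fderiv one_ne_zero
      refine ContinuousAt.div ?_ hFc (h0 z hz)
      unfold jac
      have e1 : ∀ v : ℂ, ContinuousAt (fun z => ((fderiv ℝ (rbc p a b) z v : ℝ) : ℂ)) z := fun v =>
        (Complex.continuous_ofReal.comp (hχ.clm_apply continuous_const)).continuousAt
      have e2 : ∀ v : ℂ, ContinuousAt (fun z => fderiv ℝ F z v) z := fun v =>
        hFd.clm_apply continuousAt_const
      exact ((e1 1).mul (e2 I)).sub ((e1 I).mul (e2 1))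
    · have h1 : ‖z - p‖ ^ 2 < a ∨ b < ‖z - p‖ ^ 2 := by
        rw [Set.mem_sdiff, not_and_or, mem_ball, not_lt, not_not, mem_singleton_iff,
          dist_eq_norm] at hz
        rcases hz with hz | hz
        · right; exact hb.trans_le (by gcongr)
        · left; rw [hz, sub_self, norm_zero]; simpa using ha
      have h2 : (fun z => jac (rbc p a b) F z / F z) =ᶠ[𝓝 z] fun _ => 0 := by
        filter_upwards [rbc_fderiv hab h1] with y hy
        simp [jac, hy]
      exact continuousAt_const.congr h2.symm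
  refine hcont.integrable_of_hasCompactSupport ?_
  refine HasCompactSupport.intro (isCompact_closedBall p R) fun z hz => ?_
  rw [mem_closedBall, not_le, dist_eq_norm] at hz
  have h1 := (rbc_fderiv hab (z := z) (p := p) (Or.inr (hb.trans (by gcongr)))).self_of_nhds
  simp [jac, h1]

theorem cut_radial {F : ℂ → ℂ} {p : ℂ} {R : ℝ} {n : ℤ}
    (hF : ContDiffOn ℝ 1 F (ball p R \ {p})) (h0 : ∀ z ∈ ball p R \ {p}, F z ≠ 0)
    (hn : ∀ r, 0 < r → r < R → IsW F p r n) {a b : ℝ} (ha : 0 < a) (hab : a < b)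
    (hb : b < R ^ 2) (hR : 0 < R) :
    ∫ z, jac (rbc p a b) F z / F z = -(n * (2 * π * I)) := by
  have hU : IsOpen (ball p R \ {p}) := isOpen_ball.sdiff isClosed_singleton
  set c : ℝ → ℝ := fun r => deriv (rb a b) (r ^ 2) * (2 * r) with hcdef
  set B : ℝ × ℝ → ℂ := fun q => fderiv ℝ F (circleMap p q.1 q.2) (circleMap 0 q.1 q.2 * I) /
    F (circleMap p q.1 q.2) with hBdef
  have hc : Continuous c := by
    have h1 : Continuous (deriv (rb a b)) := (rb_contDiff a b).continuous_deriv le_rfl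
    exact (h1.comp (continuous_pow 2)).mul (continuous_const.mul continuous_id)
  have hc0 : ∀ r : ℝ, (r ^ 2 < a ∨ b < r ^ 2) → c r = 0 := fun r hr => by
    simp only [hcdef, deriv_rb hab hr, zero_mul]
  have hnm : ∀ q : ℝ × ℝ, ‖circleMap p q.1 q.2 - p‖ ^ 2 = q.1 ^ 2 := fun q => by
    rw [circleMap_sub_center, norm_circleMap_zero, sq_abs]
  have hcm : Continuous fun q : ℝ × ℝ => circleMap p q.1 q.2 := by
    unfold circleMap; fun_prop
  have hcm0 : Continuous fun q : ℝ × ℝ => circleMap 0 q.1 q.2 * I := by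
    unfold circleMap; fun_prop
  have hin : ∀ q : ℝ × ℝ, 0 < q.1 ^ 2 → q.1 ^ 2 < R ^ 2 → circleMap p q.1 q.2 ∈ ball p R \ {p} := by
    intro q h1 h2
    have h3 := hnm q
    refine ⟨?_, ?_⟩
    · rw [mem_ball, dist_eq_norm]
      rw [← h3] at h2
      exact lt_of_pow_lt_pow_left₀ 2 hR.le h2
    · intro h4
      rw [mem_singleton_iff] at h4
      rw [h4, sub_self, norm_zero] at h3
      rw [← h3] at h1
      simp at h1
  have hh : Continuous fun q : ℝ × ℝ => (c q.1 : ℂ) * B q := by
    rw [continuous_iff_continuousAt]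
    intro q
    by_cases hq : 0 < q.1 ^ 2 ∧ q.1 ^ 2 < R ^ 2
    · have hz := hin q hq.1 hq.2
      have hFd : ContinuousAt (fderiv ℝ F) (circleMap p q.1 q.2) :=
        (hF.continuousOn_fderiv_of_isOpen hU le_rfl).continuousAt (hU.mem_nhds hz)
      have hFc : ContinuousAt F (circleMap p q.1 q.2) :=
        hF.continuousOn.continuousAt (hU.mem_nhds hz)
      have e1 : ContinuousAt (fun q : ℝ × ℝ => fderiv ℝ F (circleMap p q.1 q.2)) q :=
        ContinuousAt.comp (f := fun q : ℝ × ℝ => circleMap p q.1 q.2) hFd hcm.continuousAt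
      have e2 : ContinuousAt (fun q : ℝ × ℝ => F (circleMap p q.1 q.2)) q :=
        ContinuousAt.comp (f := fun q : ℝ × ℝ => circleMap p q.1 q.2) hFc hcm.continuousAt
      have e3 : ContinuousAt B q := (e1.clm_apply hcm0.continuousAt).div e2 (h0 _ hz)
      have e4 : Continuous fun q : ℝ × ℝ => (c q.1 : ℂ) :=
        Complex.continuous_ofReal.comp (hc.comp continuous_fst)
      exact e4.continuousAt.mul e3
    · have h1 : q.1 ^ 2 < a ∨ b < q.1 ^ 2 := by
        rw [not_and_or, not_lt, not_lt] at hq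
        rcases hq with hq | hq
        · left; linarith
        · right; linarith
      have h2 : ∀ᶠ q' in 𝓝 q, q'.1 ^ 2 < a ∨ b < q'.1 ^ 2 := by
        have : Continuous fun q' : ℝ × ℝ => q'.1 ^ 2 := by fun_prop
        rcases h1 with h1 | h1
        · filter_upwards [this.continuousAt.eventually (Iio_mem_nhds h1)] with q' hq' using Or.inl hq'
        · filter_upwards [this.continuousAt.eventually (Ioi_mem_nhds h1)] with q' hq' using Or.inr hq'
      have h3 : (fun q : ℝ × ℝ => (c q.1 : ℂ) * B q) =ᶠ[𝓝 q] fun _ => 0 := by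
        filter_upwards [h2] with q' hq'
        rw [hc0 _ hq']; simp
      exact continuousAt_const.congr h3.symm
  -- polar coordinates
  have hpol : ∫ z, jac (rbc p a b) F z / F z =
      ∫ q in Ioi (0 : ℝ) ×ˢ Ioo (-π) π, (c q.1 : ℂ) * B q := by
    rw [← integral_add_left_eq_self (μ := (volume : Measure ℂ)) _ p,
      ← Complex.integral_comp_polarCoord_symm]
    refine setIntegral_congr_fun (measurableSet_Ioi.prod measurableSet_Ioo) fun q _ => ?_
    have e1 : p + Complex.polarCoord.symm q = circleMap p q.1 q.2 := by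
      rw [Complex.polarCoord_symm_apply, circleMap, Complex.exp_mul_I]
      push_cast; ring
    have e2 := jac_polar (F := F) (p := p) (rb_contDiff a b) q.1 q.2
    simp only [hcdef, hBdef]
    rw [e1, Complex.real_smul, ← mul_div_assoc]
    unfold rbc
    rw [e2, mul_div_assoc]
  rw [hpol]
  -- integrability
  have hint : IntegrableOn (fun q : ℝ × ℝ => (c q.1 : ℂ) * B q)
      (Ioi (0 : ℝ) ×ˢ Ioo (-π) π) (volume.prod volume) := by
    have h1 : IntegrableOn (fun q : ℝ × ℝ => (c q.1 : ℂ) * B q)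
        (Icc (0 : ℝ) R ×ˢ Icc (-π) π) (volume.prod volume) :=
      hh.continuousOn.integrableOn_compact (isCompact_Icc.prod isCompact_Icc)
    have h2 : Ioi (0 : ℝ) ×ˢ Ioo (-π) π =
        (Ioc (0 : ℝ) R ×ˢ Ioo (-π) π) ∪ (Ioi R ×ˢ Ioo (-π) π) := by
      rw [← union_prod, Ioc_union_Ioi_eq_Ioi hR.le]
    rw [h2]
    refine IntegrableOn.union (h1.mono_set (prod_mono Ioc_subset_Icc_self Ioo_subset_Icc_self)) ?_
    refine IntegrableOn.congr_fun (f := fun _ => 0) integrableOn_zero ?_
      (measurableSet_Ioi.prod measurableSet_Ioo)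
    intro q hq
    have h3 : R < q.1 := hq.1
    have h4 : c q.1 = 0 := hc0 _ (Or.inr (hb.trans (by gcongr)))
    simp only [h4, ofReal_zero, zero_mul]
  rw [Measure.volume_eq_prod, setIntegral_prod _ hint]
  have hinner : ∀ r ∈ Ioi (0 : ℝ), ∫ θ in Ioo (-π) π, (c r : ℂ) * B (r, θ) =
      (n * (2 * π * I)) * (c r : ℂ) := by
    intro r hr
    rw [integral_const_mul]
    by_cases hrR : r < R
    · have h1 := (hn r hr hrR).integral (le_of_lt hr) (fun z hz => ?_) ?_
      · have h2 : ∫ θ in Ioo (-π) π, B (r, θ) = ∫ θ in (-π)..π, B (r, θ) := by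
          rw [intervalIntegral.integral_of_le (by linarith [Real.pi_pos]),
            integral_Ioc_eq_integral_Ioo]
        have h3 : Function.Periodic (fun θ => B (r, θ)) (2 * π) := by
          intro θ
          simp only [hBdef, cm_per]
        have h4 := h3.intervalIntegral_add_eq (-π) 0
        rw [show -π + 2 * π = π by ring, zero_add] at h4
        rw [h2, h4, h1]; ring
      · have hz' : z ∈ ball p R \ {p} := by
          rw [mem_sphere] at hz
          refine ⟨by rw [mem_ball, hz]; exact hrR, fun h3 => ?_⟩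
          rw [mem_singleton_iff] at h3
          rw [h3, dist_self] at hz
          exact (ne_of_lt hr) hz
        exact (hF.contDiffAt (hU.mem_nhds hz')).differentiableAt one_ne_zero
      · refine (hF.continuousOn_fderiv_of_isOpen hU le_rfl).mono ?_
        intro z hz
        rw [mem_sphere] at hz
        refine ⟨by rw [mem_ball, hz]; exact hrR, fun h3 => ?_⟩
        rw [mem_singleton_iff] at h3
        rw [h3, dist_self] at hz
        exact (ne_of_lt hr) hz
    · have : c r = 0 := hc0 _ (Or.inr (hb.trans_le (by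
        have := not_lt.1 hrR
        gcongr)))
      rw [this]; simp
  rw [setIntegral_congr_fun measurableSet_Ioi hinner, integral_const_mul]
  have hlast : ∫ r in Ioi (0 : ℝ), c r = -1 := by
    have h1 : ∀ r ∈ Ioi (0 : ℝ), HasDerivAt (fun r : ℝ => rb a b (r ^ 2)) (c r) r := by
      intro r _
      have e1 : HasDerivAt (rb a b) (deriv (rb a b) (r ^ 2)) (r ^ 2) :=
        (((rb_contDiff a b).differentiable one_ne_zero) _).hasDerivAt
      have e2 : HasDerivAt (fun r : ℝ => r ^ 2) (2 * r) r := by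
        simpa using hasDerivAt_pow 2 r
      exact HasDerivAt.comp (h := fun r : ℝ => r ^ 2) r e1 e2
    have h2 : IntegrableOn c (Ioi 0) := by
      have e1 : IntegrableOn c (Icc 0 R) := hc.continuousOn.integrableOn_compact isCompact_Icc
      rw [← Ioc_union_Ioi_eq_Ioi hR.le]
      refine (e1.mono_set Ioc_subset_Icc_self).union ?_
      refine IntegrableOn.congr_fun (f := fun _ => 0) integrableOn_zero ?_ measurableSet_Ioi
      intro r hr
      have : R < r := hr
      rw [hc0 _ (Or.inr (hb.trans (by gcongr)))]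
    have h3 : Tendsto (fun r : ℝ => rb a b (r ^ 2)) atTop (𝓝 0) := by
      refine tendsto_const_nhds.congr' ?_
      filter_upwards [eventually_gt_atTop R] with r hr
      exact (rb_zero hab (hb.le.trans (by gcongr))).symm
    have h4 := integral_Ioi_of_hasDerivAt_of_tendsto
      ((rb_contDiff a b).continuous.comp (continuous_pow 2)).continuousWithinAt h1 h2 h3
    rw [h4]
    simp [rb_one hab ha.le]
  have hlast' : ∫ r in Ioi (0 : ℝ), (c r : ℂ) = -1 := by
    have h1 : ∫ r in Ioi (0 : ℝ), (c r : ℂ) = ((∫ r in Ioi (0 : ℝ), c r : ℝ) : ℂ) :=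
      integral_ofReal
    rw [h1, hlast]; simp
  rw [hlast']; ring

/-! ### the general cut-off formula -/

theorem jac_add {χ η : ℂ → ℝ} {F : ℂ → ℂ} (h1 : Differentiable ℝ χ) (h2 : Differentiable ℝ η)
    (z : ℂ) : jac (fun z => χ z + η z) F z = jac χ F z + jac η F z := by
  unfold jac
  rw [fderiv_fun_add (h1 z) (h2 z)]
  simp only [_root_.add_apply, ofReal_add]
  ring

theorem jac_const_mul {χ : ℂ → ℝ} {F : ℂ → ℂ} (h1 : Differentiable ℝ χ) (c : ℝ) (z : ℂ) :
    jac (fun z => c * χ z) F z = c * jac χ F z := by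
  unfold jac
  rw [fderiv_const_mul (h1 z)]
  simp only [_root_.smul_apply, smul_eq_mul, ofReal_mul]
  ring

/-- **the cut-off formula**: `U` open, `F` of class `C²` without zeros on `U`, `P` a finite set of
punctures with winding numbers `n p`, `χ` compactly supported in `U ∪ P` and locally constant
around the punctures. -/
theorem cut {U : Set ℂ} (hU : IsOpen U) {F : ℂ → ℂ} (hF : ContDiffOn ℝ 2 F U)
    (h0 : ∀ z ∈ U, F z ≠ 0) (P : Finset ℂ) (n : ℂ → ℤ)
    (hP : ∀ p ∈ P, ∀ᶠ z in 𝓝[≠] p, z ∈ U) (hn : ∀ p ∈ P, ∀ᶠ r in 𝓝[>] (0 : ℝ), IsW F p r (n p)) :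
    ∀ χ : ℂ → ℝ, ContDiff ℝ 1 χ → HasCompactSupport χ → tsupport χ ⊆ U ∪ P →
    (∀ p ∈ P, ∀ᶠ z in 𝓝 p, χ z = χ p) →
    Integrable (fun z => jac χ F z / F z) ∧
      ∫ z, jac χ F z / F z = -(2 * π * I) * ((∑ p ∈ P, χ p * n p : ℝ) : ℂ) := by
  classical
  induction P using Finset.induction_on with
  | empty =>
    intro χ hχ hs hsub _
    have := weak_closed hU hF h0 hχ hs (by simpa using hsub)
    simpa using this
  | insert p P hp ih =>
    intro χ hχ hs hsub hloc
    have hP' : ∀ q ∈ P, ∀ᶠ z in 𝓝[≠] q, z ∈ U := fun q hq => hP q (Finset.mem_insert_of_mem hq)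
    have hn' : ∀ q ∈ P, ∀ᶠ r in 𝓝[>] (0 : ℝ), IsW F q r (n q) :=
      fun q hq => hn q (Finset.mem_insert_of_mem hq)
    -- a small radius
    obtain ⟨R, hR, hRU, hRn, hRP⟩ : ∃ R : ℝ, 0 < R ∧ (ball p R \ {p} ⊆ U) ∧
        (∀ r, 0 < r → r < R → IsW F p r (n p)) ∧ ∀ q ∈ P, R < dist q p := by
      have e1 := hP p (Finset.mem_insert_self _ _)
      rw [eventually_nhdsWithin_iff, Metric.eventually_nhds_iff] at e1
      obtain ⟨R1, hR1, e1⟩ := e1
      have e2 := hn p (Finset.mem_insert_self _ _)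
      rw [eventually_nhdsWithin_iff, Metric.eventually_nhds_iff] at e2
      obtain ⟨R2, hR2, e2⟩ := e2
      have e3 : ∀ᶠ R in 𝓝[>] (0 : ℝ), ∀ q ∈ P, R < dist q p := by
        rw [Filter.eventually_all_finset]
        intro q hq
        have : 0 < dist q p := dist_pos.2 fun h => hp (h ▸ hq)
        exact nhdsWithin_le_nhds (Iio_mem_nhds this)
      have e4 : ∀ᶠ R in 𝓝[>] (0 : ℝ), 0 < R := eventually_mem_nhdsWithin
      have e5 : ∀ᶠ R in 𝓝[>] (0 : ℝ), R < R1 := nhdsWithin_le_nhds (Iio_mem_nhds hR1)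
      have e6 : ∀ᶠ R in 𝓝[>] (0 : ℝ), R < R2 := nhdsWithin_le_nhds (Iio_mem_nhds hR2)
      obtain ⟨R, hr3, hr4, hr5, hr6⟩ := (e3.and (e4.and (e5.and e6))).exists
      refine ⟨R, hr4, fun z hz => e1 (lt_trans hz.1 hr5) hz.2, fun r h1 h2 => ?_, hr3⟩
      refine e2 (y := r) ?_ h1
      rw [dist_zero_right, Real.norm_of_nonneg h1.le]
      exact h2.trans hr6
    have hU1 : ContDiffOn ℝ 1 F (ball p R \ {p}) := (hF.of_le one_le_two).mono hRU
    have ha : (0 : ℝ) < (R / 4) ^ 2 := by positivity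
    have hab : (R / 4) ^ 2 < (R / 2) ^ 2 := by gcongr; norm_num
    have hb : (R / 2) ^ 2 < R ^ 2 := by gcongr; linarith
    have hrad := cut_radial hU1 (fun z hz => h0 z (hRU hz)) hRn ha hab hb hR
    have hradi := cut_radial_int hU1 (fun z hz => h0 z (hRU hz)) ha hab hb hR
    -- the reduced cut-off
    set η : ℂ → ℝ := rbc p ((R / 4) ^ 2) ((R / 2) ^ 2) with hη
    have hηc : ContDiff ℝ 1 η := rbc_contDiff _ _ _
    have hηs : tsupport η ⊆ closedBall p (R / 2) := rbc_supp hab (by positivity) le_rfl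
    set χ' : ℂ → ℝ := fun z => χ z + (-χ p) * η z with hχ'
    have hχ'c : ContDiff ℝ 1 χ' := hχ.add (contDiff_const.mul hηc)
    have hη1 : ∀ᶠ z in 𝓝 p, η z = 1 := by
      filter_upwards [ball_mem_nhds p (by positivity : 0 < R / 4)] with z hz
      apply rbc_one hab
      rw [mem_ball, dist_eq_norm] at hz
      gcongr
    have hη0 : ∀ z, R / 2 < dist z p → η z = 0 := fun z hz => by
      rw [dist_eq_norm] at hz
      apply rbc_zero hab; gcongr
    have hsub' : tsupport χ' ⊆ U ∪ P := by
      intro z hz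
      have h1 : z ∈ tsupport χ ∪ tsupport η := by
        by_contra h2
        rw [mem_union, not_or] at h2
        have h3 : χ' =ᶠ[𝓝 z] 0 := by
          filter_upwards [(isClosed_tsupport χ).isOpen_compl.mem_nhds h2.1,
            (isClosed_tsupport η).isOpen_compl.mem_nhds h2.2] with y h4 h5
          simp [hχ', image_eq_zero_of_notMem_tsupport h4, image_eq_zero_of_notMem_tsupport h5]
        exact (notMem_tsupport_iff_eventuallyEq.2 h3) hz
      have h2 : z ≠ p := by
        rintro rfl
        have h3 : χ' =ᶠ[𝓝 z] 0 := by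
          filter_upwards [hloc z (Finset.mem_insert_self _ _), hη1] with y h4 h5
          simp [hχ', h4, h5]
        exact (notMem_tsupport_iff_eventuallyEq.2 h3) hz
      rcases h1 with h1 | h1
      · rcases hsub h1 with h3 | h3
        · exact Or.inl h3
        · right
          rw [Finset.mem_coe, Finset.mem_insert] at h3
          exact h3.resolve_left h2
      · left
        refine hRU ⟨?_, h2⟩
        exact lt_of_le_of_lt (mem_closedBall.1 (hηs h1)) (by linarith)
    have hs' : HasCompactSupport χ' := by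
      have : HasCompactSupport η := rbc_compact hab
      exact hs.add this.mul_left
    have hloc' : ∀ q ∈ P, ∀ᶠ z in 𝓝 q, χ' z = χ' q := by
      intro q hq
      have h1 := hRP q hq
      have h2 : ∀ᶠ z in 𝓝 q, R / 2 < dist z p := by
        have : Continuous fun z : ℂ => dist z p := by fun_prop
        exact this.continuousAt.eventually (Ioi_mem_nhds (by linarith))
      filter_upwards [h2, hloc q (Finset.mem_insert_of_mem hq)] with z h3 h4
      simp only [hχ', h4, hη0 z h3, hη0 q (by linarith)]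
    obtain ⟨i1, i2⟩ := ih hP' hn' χ' hχ'c hs' hsub' hloc'
    have key : ∀ z, jac χ F z / F z = jac χ' F z / F z + χ p * (jac η F z / F z) := by
      intro z
      have h1 : jac χ' F z = jac χ F z + ((-χ p : ℝ) : ℂ) * jac η F z := by
        have e1 : Differentiable ℝ fun z => -χ p * η z :=
          (hηc.differentiable one_ne_zero).const_mul _
        rw [hχ', jac_add (hχ.differentiable one_ne_zero) e1,
          jac_const_mul (hηc.differentiable one_ne_zero)]
      rw [h1]; push_cast; ring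
    have hfun : (fun z => jac χ F z / F z) =
        fun z => jac χ' F z / F z + χ p * (jac η F z / F z) := funext key
    rw [hfun]
    refine ⟨i1.add (hradi.const_mul _), ?_⟩
    rw [integral_add i1 (hradi.const_mul _), integral_const_mul, hrad, i2,
      Finset.sum_insert hp]
    have h5 : ∑ q ∈ P, χ' q * n q = ∑ q ∈ P, χ q * n q := by
      refine Finset.sum_congr rfl fun q hq => ?_
      have := hRP q hq
      simp only [hχ', hη0 q (by linarith), mul_zero, add_zero]
    rw [h5]; push_cast; ring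

end

end Crest.Agent.R235.Wind_688
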