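import Crest.Agent.R235.AdjNodes_43
import Crest.Agent.R235.Wind4_688
import Crest.Agent.R235.Pull_129

/-!
Row 235, package ADJ (helper464): node BRINT of `AdjNodes_43`.
-/

set_option autoImplicit false
set_option maxSynthPendingDepth 3

open Set Function Filter MeasureTheory Metric
open scoped Manifold ContDiff Topology Real

universe u

namespace Crest.Agent.R235.Brint_464

open Crest.Agent.R240 Crest.Agent.R240.Ch Crest.Agent.R240.Int
open Crest.Agent.R235 Crest.Agent.R235.Glob_370 Crest.Agent.R235.Wind_688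
open Crest.Agent.R235.Adj Crest.Agent.R235.Pull_129

noncomputable section

/-! ### the plane: filling the hole -/

/-- radial cut-off -/
def et (a b t : ℝ) : ℝ := Real.smoothTransition ((b - t) / (b - a))

theorem et_contDiff (a b : ℝ) : ContDiff ℝ ∞ (et a b) :=
  Real.smoothTransition.contDiff.comp ((contDiff_const.sub contDiff_id).div_const _)

theorem et_zero {a b t : ℝ} (hab : a < b) (h : b ≤ t) : et a b t = 0 :=
  Real.smoothTransition.zero_of_nonpos (div_nonpos_of_nonpos_of_nonneg (by linarith) (by linarith))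

theorem et_one {a b t : ℝ} (hab : a < b) (h : t ≤ a) : et a b t = 1 :=
  Real.smoothTransition.one_of_one_le ((one_le_div (by linarith)).2 (by linarith))

theorem et_mem (a b t : ℝ) : 0 ≤ et a b t ∧ et a b t ≤ 1 :=
  ⟨Real.smoothTransition.nonneg _, Real.smoothTransition.le_one _⟩

/-- the radial map -/
def rad (a b c : ℝ) (z : ℂ) : ℂ :=
  ((1 - et a b (Complex.normSq z) + et a b (Complex.normSq z) * (c / √(Complex.normSq z)) : ℝ) : ℂ)
    * z

theorem normSq_contDiff : ContDiff ℝ ∞ (fun z : ℂ => Complex.normSq z) := by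
  have h : (fun z : ℂ => Complex.normSq z) = fun z : ℂ => z.re * z.re + z.im * z.im := by
    ext z; exact Complex.normSq_apply z
  rw [h]
  exact (Complex.reCLM.contDiff.mul Complex.reCLM.contDiff).add
    (Complex.imCLM.contDiff.mul Complex.imCLM.contDiff)

theorem rad_contDiffAt (a b c : ℝ) {z : ℂ} (hz : z ≠ 0) : ContDiffAt ℝ ∞ (rad a b c) z := by
  have h1 : ContDiffAt ℝ ∞ (fun z : ℂ => et a b (Complex.normSq z)) z :=
    ((et_contDiff a b).comp normSq_contDiff).contDiffAt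
  have h2 : ContDiffAt ℝ ∞ (fun z : ℂ => √(Complex.normSq z)) z :=
    (Real.contDiffAt_sqrt (Complex.normSq_pos.2 hz).ne').comp z normSq_contDiff.contDiffAt
  have h3 : √(Complex.normSq z) ≠ 0 := (Real.sqrt_pos.2 (Complex.normSq_pos.2 hz)).ne'
  have h4 : ContDiffAt ℝ ∞ (fun z : ℂ => 1 - et a b (Complex.normSq z) +
      et a b (Complex.normSq z) * (c / √(Complex.normSq z))) z :=
    (contDiffAt_const.sub h1).add (h1.mul (contDiffAt_const.div h2 h3))
  exact (Complex.ofRealCLM.contDiff.contDiffAt.comp z h4).mul contDiffAt_id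

theorem rad_eq {a b c : ℝ} (hab : a < b) {z : ℂ} (hz : b ≤ Complex.normSq z) : rad a b c z = z := by
  simp [rad, et_zero hab hz]

theorem rad_norm {a b c : ℝ} (hc : 0 < c) {z : ℂ} (hz : z ≠ 0) :
    ‖rad a b c z‖ = (1 - et a b (Complex.normSq z)) * ‖z‖ + et a b (Complex.normSq z) * c := by
  have h1 := et_mem a b (Complex.normSq z)
  have h2 : √(Complex.normSq z) = ‖z‖ := rfl
  have h3 : 0 < ‖z‖ := norm_pos_iff.2 hz
  rw [rad, norm_mul, Complex.norm_real, h2, Real.norm_of_nonneg]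
  · field_simp
  · have : 0 ≤ c / ‖z‖ := by positivity
    nlinarith [mul_nonneg h1.1 this, h1.2]

/-- a function on an annulus is, near the outer part, the restriction of a function on the
punctured disc. -/
theorem fill {G : ℂ → ℂ} {ρ1 ρ ρ3 : ℝ} (h1 : 0 < ρ1) (h2 : ρ1 < ρ) (h3 : ρ < ρ3)
    (hG : ∀ z : ℂ, ρ1 < ‖z‖ → ‖z‖ < ρ3 → ContDiffAt ℝ 2 G z ∧ G z ≠ 0) :
    ∃ (G' : ℂ → ℂ), (∀ z : ℂ, z ≠ 0 → ‖z‖ < ρ3 → ContDiffAt ℝ 2 G' z ∧ G' z ≠ 0) ∧
      (∀ z : ℂ, ρ ≤ ‖z‖ → G' z = G z) := by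
  obtain ⟨c, hc1, hc2⟩ := exists_between h2
  have hc0 : 0 < c := h1.trans hc1
  set a := c ^ 2 with ha
  set b := ρ ^ 2 with hb
  have hab : a < b := by rw [ha, hb]; nlinarith
  have hns : ∀ z : ℂ, Complex.normSq z = ‖z‖ ^ 2 := fun z => Complex.normSq_eq_norm_sq z
  refine ⟨fun z => G (rad a b c z), fun z hz hz3 => ?_, fun z hz => ?_⟩
  · have hn := rad_norm (a := a) (b := b) hc0 hz
    have he := et_mem a b (Complex.normSq z)
    have hz0 : 0 < ‖z‖ := norm_pos_iff.2 hz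
    have hlo : ρ1 < ‖rad a b c z‖ := by
      rw [hn]
      by_cases hza : ‖z‖ ≤ c
      · rw [et_one hab (by rw [hns, ha]; gcongr)]
        linarith
      · push Not at hza
        nlinarith [he.1, he.2]
    have hhi : ‖rad a b c z‖ < ρ3 := by
      rw [hn]
      have hc3 : c < ρ3 := hc2.trans h3
      set t := et a b (Complex.normSq z)
      rcases eq_or_lt_of_le he.1 with ht | ht
      · rw [← ht]; linarith
      · have h5 : t * c < t * ρ3 := by gcongr
        have h6 : (1 - t) * ‖z‖ ≤ (1 - t) * ρ3 := by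
          have : 0 ≤ 1 - t := by linarith [he.2]
          gcongr
        linarith
    obtain ⟨hd, h0⟩ := hG _ hlo hhi
    exact ⟨hd.comp z ((rad_contDiffAt a b c hz).of_le (by norm_cast)), h0⟩
  · show G (rad a b c z) = G z
    rw [rad_eq hab]
    rw [hns, hb]
    gcongr
    exact (h1.trans h2).le

/-- the planar statement -/
theorem planar {G : ℂ → ℂ} {X : ℂ → ℝ} {ρ1 ρ ρ2 ρ3 : ℝ} {n : ℤ} (h1 : 0 < ρ1) (h2 : ρ1 < ρ)
    (h3 : ρ < ρ2) (h4 : ρ2 < ρ3)
    (hG : ∀ z : ℂ, ρ1 < ‖z‖ → ‖z‖ < ρ3 → ContDiffAt ℝ 2 G z ∧ G z ≠ 0) (hX : ContDiff ℝ 1 X)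
    (hX1 : ∀ z : ℂ, ‖z‖ ≤ ρ → X =ᶠ[𝓝 z] fun _ => 1)
    (hX0 : ∀ z : ℂ, ρ2 ≤ ‖z‖ → X =ᶠ[𝓝 z] fun _ => 0) (hn : IsW G 0 ρ n) :
    Integrable (fun z => jac X G z / G z) ∧ ∫ z, jac X G z / G z = -(2 * π * Complex.I) * n := by
  have hρ : 0 < ρ := h1.trans h2
  have hρ3 : ρ < ρ3 := h3.trans h4
  obtain ⟨G', hG', hGG⟩ := fill h1 h2 hρ3 hG
  have e : ∀ z, jac X G z / G z = jac X G' z / G' z := by
    intro z
    rcases le_or_gt ‖z‖ ρ with hz | hz
    · have hf : fderiv ℝ X z = 0 := by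
        rw [(hX1 z hz).fderiv_eq, fderiv_fun_const]; rfl
      simp [jac, hf]
    · have h5 : G' =ᶠ[𝓝 z] G := by
        filter_upwards [continuous_norm.isOpen_preimage _ isOpen_Ioi |>.mem_nhds
          (show z ∈ norm ⁻¹' Ioi ρ from hz)] with w hw
        exact hGG w (le_of_lt hw)
      rw [jac, jac, h5.fderiv_eq, h5.self_of_nhds]
  have hXs : ∀ z, z ∈ tsupport X → ‖z‖ < ρ2 := by
    intro z hz
    by_contra hcon
    push Not at hcon
    exact (notMem_tsupport_iff_eventuallyEq.2 (hX0 z hcon)) hz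
  have hcs : HasCompactSupport X := by
    refine HasCompactSupport.intro (isCompact_closedBall (0 : ℂ) ρ2) fun z hz => ?_
    rw [mem_closedBall_zero_iff, not_le] at hz
    exact (hX0 z hz.le).self_of_nhds
  set U : Set ℂ := ball 0 ρ3 \ {0} with hU
  have hUo : IsOpen U := isOpen_ball.sdiff isClosed_singleton
  have hGU : ∀ z ∈ U, ContDiffAt ℝ 2 G' z ∧ G' z ≠ 0 := fun z hz =>
    hG' z hz.2 (mem_ball_zero_iff.1 hz.1)
  have hnG : IsW G' 0 ρ n := hn.congr hρ.le fun z hz =>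
    (hGG z (by rw [mem_sphere_zero_iff_norm.1 hz])).symm
  have hcut := cut hUo (F := G') (fun z hz => (hGU z hz).1.contDiffWithinAt)
    (fun z hz => (hGU z hz).2) {0} (fun _ => n) (fun p hp => by
      rw [Finset.mem_singleton.1 hp]
      filter_upwards [self_mem_nhdsWithin, mem_nhdsWithin_of_mem_nhds
        (ball_mem_nhds (0 : ℂ) (hρ.trans hρ3))] with z hz hz2
      exact ⟨hz2, hz⟩) (fun p hp => by
      rw [Finset.mem_singleton.1 hp]
      have h6 : ∀ᶠ r in 𝓝[>] (0 : ℝ), r ∈ Ioo 0 ρ3 := Ioo_mem_nhdsGT (hρ.trans hρ3)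
      filter_upwards [h6] with r hr
      exact IsW.radius' (fun z hz => (hGU z hz).1.continuousAt.continuousWithinAt)
        (fun z hz hne => (hGU z ⟨hz, hne⟩).2) hρ hρ3 hr.1 hr.2 hnG) X hX hcs
    (fun z hz => by
      by_cases h0 : z = 0
      · right; simp [h0]
      · left
        exact ⟨mem_ball_zero_iff.2 ((hXs z hz).trans h4), h0⟩)
    (fun p hp => by
      rw [Finset.mem_singleton.1 hp]
      have h7 := hX1 0 (by rw [norm_zero]; exact hρ.le)
      filter_upwards [h7] with z hz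
      rw [hz, h7.self_of_nhds])
  have h8 : X 0 = 1 := (hX1 0 (by rw [norm_zero]; exact hρ.le)).self_of_nhds
  simp_rw [e]
  refine ⟨hcut.1, ?_⟩
  rw [hcut.2, Finset.sum_singleton, h8]
  push_cast
  ring

/-! ### on the manifold -/

section Man

variable {M : Type u} [TopologicalSpace M] [ChartedSpace E4 M] [IsManifold 𝓘(ℝ, E4) ∞ M]

theorem sm_chart {F : M → ℂ} {x : M} (hF : SmAt F x) :
    ContDiffAt ℝ ∞ (fun y : E4 => F ((chartAt E4 x).symm y)) (chartAt E4 x x) := by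
  have hs : ContMDiffAt 𝓘(ℝ, E4) 𝓘(ℝ, E4) ∞ (chartAt E4 x).symm (chartAt E4 x x) :=
    (contMDiffOn_chart_symm (I := 𝓘(ℝ, E4)) (x := x)).contMDiffAt
      ((chartAt E4 x).open_target.mem_nhds (mem_chart_target E4 x))
  have hF' : ContMDiffAt 𝓘(ℝ, E4) 𝓘(ℝ, ℂ) ∞ F ((chartAt E4 x).symm (chartAt E4 x x)) := by
    rw [(chartAt E4 x).left_inv (mem_chart_source E4 x)]
    exact hF
  exact (hF'.comp _ hs).contDiffAt

omit [IsManifold 𝓘(ℝ, E4) ∞ M] in
theorem sm_comp {F : M → ℂ} {h : ℂ → M} {z : ℂ} (hh : ContMDiffAt 𝓘(ℝ, ℂ) 𝓘(ℝ, E4) ∞ h z)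
    (hF : SmAt F (h z)) : ContDiffAt ℝ ∞ (fun z => F (h z)) z := by
  have hF' : ContMDiffAt 𝓘(ℝ, E4) 𝓘(ℝ, ℂ) ∞ F (h z) := hF
  exact (hF'.comp z hh).contDiffAt

theorem dArg_dmap {F : M → ℂ} {h : ℂ → M} {z : ℂ}
    (hh : ContMDiffAt 𝓘(ℝ, ℂ) 𝓘(ℝ, E4) ∞ h z) (hF : SmAt F (h z)) (w : ℂ) :
    at1 (dArg F) (h z) (dmap h z w) =
      (2 * π)⁻¹ * ((F (h z))⁻¹ * fderiv ℝ (fun z => F (h z)) z w).im := by
  have h1 : HasFDerivAt (fun y => chartAt E4 (h z) (h y))
      (fderiv ℝ (fun y => chartAt E4 (h z) (h y)) z) z :=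
    ((inC_contDiffAt (p := h z) hh (mem_chart_source E4 _)).differentiableAt
      (by simp)).hasFDerivAt
  have h2 := (sm_chart hF).differentiableAt (by simp) |>.hasFDerivAt
  have h3 := HasFDerivAt.comp z h2 h1
  have h4 : (fun z => F (h z)) =ᶠ[𝓝 z]
      (fun y : E4 => F ((chartAt E4 (h z)).symm y)) ∘ fun y => chartAt E4 (h z) (h y) := by
    filter_upwards [hh.continuousAt.eventually ((chartAt E4 (h z)).open_source.mem_nhds
      (mem_chart_source E4 (h z)))] with y hy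
    show F (h y) = F ((chartAt E4 (h z)).symm (chartAt E4 (h z) (h y)))
    rw [(chartAt E4 (h z)).left_inv hy]
  rw [h4.fderiv_eq, h3.fderiv]
  rfl

end Man

/-- **BRINT** -/
theorem brint : BRINT.{u} := by
  intro M _ _ _ _ _ _ F χ h B ρ1 ρ ρ2 ρ3 n h01 h12 h23 h34 h31 hh hχ hF hχ1 hχ0 hB hn
  classical
  have hρ : 0 < ρ := h01.trans h12
  have hat : ∀ z : ℂ, ‖z‖ < 1 → ContMDiffAt 𝓘(ℝ, ℂ) 𝓘(ℝ, E4) ∞ h z := fun z hz =>
    hh.contMDiffAt (isOpen_ball.mem_nhds (mem_ball_zero_iff.2 hz))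
  set G : ℂ → ℂ := fun z => F (h z) with hG
  set X : ℂ → ℝ := fun z => if ‖z‖ < 1 then χ (h z) else 0 with hX
  have hball : ∀ z : ℂ, ‖z‖ < 1 → ∀ᶠ w in 𝓝 z, ‖w‖ < 1 := fun z hz =>
    continuous_norm.continuousAt.eventually (gt_mem_nhds hz)
  have hXe : ∀ z : ℂ, ‖z‖ < 1 → X =ᶠ[𝓝 z] fun z => χ (h z) := fun z hz => by
    filter_upwards [hball z hz] with w hw
    simp only [hX, if_pos hw]
  have hX1 : ∀ z : ℂ, ‖z‖ ≤ ρ → X =ᶠ[𝓝 z] fun _ => 1 := fun z hz => by
    have hz1 : ‖z‖ < 1 := by linarith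
    filter_upwards [hXe z hz1, (hat z hz1).continuousAt.eventually
      (hχ1 z (mem_closedBall_zero_iff.2 hz))] with w hw hw2
    rw [hw, hw2]
  have hX0' : ∀ z : ℂ, ρ2 ≤ ‖z‖ → X z = 0 := fun z hz => by
    by_cases hz1 : ‖z‖ < 1
    · simp only [hX, if_pos hz1]
      exact (hχ0 z (mem_ball_zero_iff.2 hz1) hz).self_of_nhds
    · simp only [hX, if_neg hz1]
  have hX0 : ∀ z : ℂ, ρ2 ≤ ‖z‖ → X =ᶠ[𝓝 z] fun _ => 0 := fun z hz => by
    by_cases hz1 : ‖z‖ < 1
    · filter_upwards [hXe z hz1, (hat z hz1).continuousAt.eventually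
        (hχ0 z (mem_ball_zero_iff.2 hz1) hz)] with w hw hw2
      rw [hw, hw2]
    · have hz2 : ρ2 < ‖z‖ := by linarith
      filter_upwards [continuous_norm.continuousAt.eventually (lt_mem_nhds hz2)] with w hw
      exact hX0' w hw.le
  have hXd : ∀ z : ℂ, ‖z‖ < 1 → ContDiffAt ℝ ∞ X z := fun z hz =>
    ((comp_contDiffOn isOpen_ball hh hχ).contDiffAt
      (isOpen_ball.mem_nhds (mem_ball_zero_iff.2 hz))).congr_of_eventuallyEq (hXe z hz)
  have hXc : ContDiff ℝ 1 X := by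
    rw [contDiff_iff_contDiffAt]
    intro z
    by_cases hz : ‖z‖ < 1
    · exact (hXd z hz).of_le (by simp)
    · exact contDiffAt_const.congr_of_eventuallyEq (hX0 z (by linarith))
  have hGd : ∀ z : ℂ, ρ1 < ‖z‖ → ‖z‖ < ρ3 → ContDiffAt ℝ 2 G z ∧ G z ≠ 0 := fun z hz hz' =>
    ⟨(sm_comp (hat z (by linarith)) (hF z hz hz').1).of_le (by norm_cast), (hF z hz hz').2⟩
  obtain ⟨hi, hI⟩ := planar h01 h12 h23 h34 hGd hXc hX1 hX0 hn
  -- the pull-back
  have key : ∀ z ∈ ball (0 : ℂ) 1, pb h (B : F2 E4 M) z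
      = -(2 * π)⁻¹ * (jac X G z / G z).im := by
    intro z hz
    have hz1 : ‖z‖ < 1 := mem_ball_zero_iff.1 hz
    have e1 : pb h (B : F2 E4 M) z =
        at1 (dArg F) (h z) (dmap h z 1) * at1 (dF χ) (h z) (dmap h z Complex.I)
        - at1 (dF χ) (h z) (dmap h z 1) * at1 (dArg F) (h z) (dmap h z Complex.I) := by
      unfold pb
      rw [hB z hz]
      rfl
    have e2 : ∀ w : ℂ, at1 (dF (E := E4) χ) (h z) (dmap h z w) = fderiv ℝ X z w := by
      intro w
      have h5 := pb1_dF (Φ := h) (q := z) (hat z hz1) hχ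
      have h6 : pb1 h (dF (E := E4) χ) z w = fderiv ℝ (fun z => χ (h z)) z w := by rw [h5]
      rw [(hXe z hz1).fderiv_eq, ← h6]
      rfl
    rw [e1, e2, e2]
    rcases le_or_gt ‖z‖ ρ with hz2 | hz2
    · have hf : fderiv ℝ X z = 0 := by
        rw [(hX1 z hz2).fderiv_eq, fderiv_fun_const]; rfl
      simp [jac, hf]
    rcases le_or_gt ρ2 ‖z‖ with hz3 | hz3
    · have hf : fderiv ℝ X z = 0 := by
        rw [(hX0 z hz3).fderiv_eq, fderiv_fun_const]; rfl
      simp [jac, hf]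
    have hs := (hF z (by linarith) (by linarith)).1
    rw [dArg_dmap (hat z hz1) hs, dArg_dmap (hat z hz1) hs]
    have e3 : (jac X G z / G z).im = fderiv ℝ X z 1 * ((G z)⁻¹ * fderiv ℝ G z Complex.I).im
        - fderiv ℝ X z Complex.I * ((G z)⁻¹ * fderiv ℝ G z 1).im := by
      have h7 : jac X G z / G z
          = (fderiv ℝ X z 1 : ℂ) * ((G z)⁻¹ * fderiv ℝ G z Complex.I)
          - (fderiv ℝ X z Complex.I : ℂ) * ((G z)⁻¹ * fderiv ℝ G z 1) := by
        rw [jac, div_eq_mul_inv]; ring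
      rw [h7, Complex.sub_im, Complex.im_ofReal_mul, Complex.im_ofReal_mul]
    rw [e3]
    show (2 * π)⁻¹ * ((G z)⁻¹ * fderiv ℝ G z 1).im * _ - _ * ((2 * π)⁻¹ *
      ((G z)⁻¹ * fderiv ℝ G z Complex.I).im) = _
    ring
  rw [setIntegral_congr_fun measurableSet_ball key]
  have h9 : ∀ z ∉ ball (0 : ℂ) 1, -(2 * π)⁻¹ * (jac X G z / G z).im = 0 := by
    intro z hz
    rw [mem_ball_zero_iff, not_lt] at hz
    have hf : fderiv ℝ X z = 0 := by
      rw [(hX0 z (by linarith)).fderiv_eq, fderiv_fun_const]; rfl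
    simp [jac, hf]
  rw [setIntegral_eq_integral_of_forall_compl_eq_zero h9, integral_const_mul]
  have e4 : ∫ z, (jac X G z / G z).im = (∫ z, jac X G z / G z).im := by
    have := Complex.imCLM.integral_comp_comm hi
    simpa using this
  rw [e4, hI]
  have e5 : (-(2 * π * Complex.I) * n : ℂ).im = -(2 * π * n) := by
    simp
  rw [e5]
  field_simp

end

end Crest.Agent.R235.Brint_464
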