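import Crest.Agent.R235.AdjInt_43
import Crest.Agent.R235.AdjGen_83
import Crest.Agent.R235.T1A_195

/-!
Row 235 (S0364), PACKAGE ADJ, helper659: node CORD of `AdjInt_43`: the current of a `J`-curve is of
order zero and supported in the curve.
-/

set_option autoImplicit false
set_option maxSynthPendingDepth 3

open Set Function Filter MeasureTheory Metric
open scoped Manifold ContDiff Topology

universe u

namespace Crest.Agent.R235.Cord_659

open Crest.Agent.R240 Crest.Agent.R240.Ch Crest.Agent.R240.Int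
open Crest.Agent.R235 Crest.Agent.R235.Glob_370 Crest.Agent.R235.Wind_688
open Crest.Agent.R235.Adj Crest.Agent.R235.T1A_195

noncomputable section

theorem ord0_aux {M : Type u} [MetricSpace M] [CompactSpace M]
    [ChartedSpace E4 M] [IsManifold 𝓘(ℝ, E4) ∞ M] [MeasurableSpace M] [BorelSpace M]
    (hb : Met.BiLip E4 M) {w : Trip M} {J : EndF E4 M} (hJ : IsJ w J)
    {Φ : X2 M →ₗ[ℝ] ℝ} (hΦ : PCur J Φ) : Ord0 Φ := by
  obtain ⟨D, hD⟩ := exists_bridge hb hJ
  obtain ⟨s, hs⟩ := hD.exists_cur hΦ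
  obtain ⟨𝒰⟩ := exists_Cover (M := M)
  obtain ⟨C, hC⟩ := N5P.nrcm D 𝒰
  refine ⟨𝒰, 2 * s.real univ * C, fun b => ?_⟩
  have := hs.rm.fin
  have h1 := hs.rm.bound b
  rw [← hs.inv b] at h1
  calc |Φ b| ≤ 2 * ∫ x, D.nr (b : F2 E4 M) x ∂s := h1
    _ ≤ 2 * ∫ _, C * 𝒰.cm 0 (b : F2 E4 M) ∂s := by
        gcongr
        · exact En4.integrable_s hs.rm.fin (En4.cont_nr D b.2)
        · exact integrable_const _
        · intro x; exact hC b x
    _ = 2 * s.real univ * C * 𝒰.cm 0 (b : F2 E4 M) := by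
        rw [integral_const, smul_eq_mul]; ring

/-- a positive closed current is of order zero. -/
theorem ord0_pcur {M : Type u} [TopologicalSpace M] [T2Space M] [CompactSpace M]
    [ChartedSpace E4 M] [IsManifold 𝓘(ℝ, E4) ∞ M] {w : Trip M} {J : EndF E4 M} (hJ : IsJ w J)
    {Φ : X2 M →ₗ[ℝ] ℝ} (hΦ : PCur J Φ) : Ord0 Φ := by
  obtain ⟨m, hm, hb⟩ := Met.exists_metric (E := E4) (M := M)
  subst hm
  let _ : MeasurableSpace M := borel M
  have _ : BorelSpace M := ⟨rfl⟩
  exact ord0_aux hb hJ hΦ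

/-- the current of a `JCurve` kills the forms vanishing on the curve. -/
theorem T_zero {M : Type u} [TopologicalSpace M] [T2Space M] [CompactSpace M]
    [ChartedSpace E4 M] [IsManifold 𝓘(ℝ, E4) ∞ M] {J : EndF E4 M} (c : JCurve J) (b : X2 M)
    (hb : ∀ x ∈ range c.f, at2 (b : F2 E4 M) x = 0) : c.T b = 0 := by
  obtain ⟨t, χ, hχs, hχ1, hχU⟩ := AdjGen_83.exists_pu (fun p => (c.L p).U)
    (fun p => (c.L p).openU) (fun p => (c.L p).mem)
  set bb : M → X2 M := fun p => ⟨fmul (χ p) b.1, Smooth2.fmul (hχs p) b.2⟩ with hbb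
  have h1 : ∀ p, c.T (bb p) = 0 := by
    intro p
    have hK : ∀ x ∉ tsupport (χ p), at2 ((bb p).1 : F2 E4 M) x = 0 := by
      intro x hx
      show χ p x • at2 (b.1 : F2 E4 M) x = 0
      rw [image_eq_zero_of_notMem_tsupport hx, zero_smul]
    rw [c.cur p (bb p) (tsupport (χ p)) (isClosed_tsupport (χ p)).isCompact (hχU p) hK]
    refine Finset.sum_eq_zero fun j _ => ?_
    refine setIntegral_eq_zero_of_forall_eq_zero fun z hz => ?_
    have h2 : (c.L p).u j z ∈ range c.f ∩ (c.L p).U := by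
      rw [(c.L p).supp]
      exact mem_iUnion.2 ⟨j, mem_image_of_mem _ hz⟩
    have h3 : at2 ((bb p).1 : F2 E4 M) ((c.L p).u j z) = 0 := by
      show χ p ((c.L p).u j z) • at2 (b.1 : F2 E4 M) ((c.L p).u j z) = 0
      rw [hb _ h2.1, smul_zero]
    unfold pb
    rw [h3]
    rfl
  have h2 : ∑ p ∈ t, bb p = b := by
    apply Subtype.ext
    rw [AddSubmonoidClass.coe_finsetSum]
    funext x
    rw [Finset.sum_apply]
    show ∑ p ∈ t, χ p x • (b.1 : F2 E4 M) x = b.1 x
    rw [← Finset.sum_smul, hχ1, one_smul]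
  rw [← h2, map_sum]
  exact Finset.sum_eq_zero fun p _ => h1 p

/-- **CORD** -/
theorem cord : CORD.{u} := by
  intro M _ _ _ _ _ _ w J _ hJ c
  refine ⟨ord0_pcur hJ c.pcur, fun b ⟨U, _, hKU, hU⟩ => T_zero c b fun x hx => hU x (hKU hx)⟩

end

end Crest.Agent.R235.Cord_659
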