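import Crest.Agent.R235.Glob1_370
import Crest.Agent.R235.Glob2_370
import Crest.Agent.Lib.InjHolo

/-!
Row 235 (S0364), REG-GLOB (helper370), part 3: factoring `J`-discs through the branches of a
local form.
-/

set_option autoImplicit false
set_option maxSynthPendingDepth 3
set_option linter.unusedSectionVars false

open Set Function Filter MeasureTheory Metric
open scoped Manifold ContDiff Topology

universe u

namespace Crest.Agent.R235.Glob_370

open Crest.Agent.R240 Crest.Agent.R240.Ch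

noncomputable section

variable {M : Type u} [TopologicalSpace M] [ChartedSpace E4 M] [IsManifold 𝓘(ℝ, E4) ∞ M]

lemma IsJHol.contOn {J : EndF E4 M} {u : ℂ → M} {O : Set ℂ} (h : IsJHol J u O) :
    ContinuousOn u O := h.smooth.continuousOn

lemma IsJHol.mono {J : EndF E4 M} {u : ℂ → M} {O O' : Set ℂ} (h : IsJHol J u O)
    (hO : O' ⊆ O) : IsJHol J u O' := ⟨h.smooth.mono hO, fun z hz => h.jhol z (hO hz)⟩

/-- the punctured disc is connected. -/
lemma isPreconnected_punctured (z : ℂ) (r : ℝ) : IsPreconnected (ball z r \ {z}) := by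
  by_cases hr : 0 < r
  swap
  · rw [ball_eq_empty.2 (not_lt.1 hr)]
    simpa using isPreconnected_empty
  have h1 : ball z r \ {z} =
      (fun p : ℝ × ℝ => z + p.1 * Complex.exp (p.2 * Complex.I)) '' (Ioo 0 r ×ˢ univ) := by
    ext w
    constructor
    · rintro ⟨hw, hwz⟩
      refine ⟨(‖w - z‖, Complex.arg (w - z)), ⟨⟨?_, ?_⟩, mem_univ _⟩, ?_⟩
      · exact norm_pos_iff.2 (sub_ne_zero.2 hwz)
      · rwa [mem_ball, dist_eq_norm] at hw
      · simp only
        rw [Complex.norm_mul_exp_arg_mul_I]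
        ring
    · rintro ⟨⟨s, t⟩, ⟨hs, -⟩, rfl⟩
      have hn : ‖(s : ℂ) * Complex.exp (t * Complex.I)‖ = s := by
        rw [norm_mul, Complex.norm_exp_ofReal_mul_I, mul_one, Complex.norm_real,
          Real.norm_of_nonneg hs.1.le]
      constructor
      · simp only
        rw [mem_ball, dist_eq_norm, add_sub_cancel_left, hn]
        exact hs.2
      · simp only [mem_singleton_iff]
        intro h
        have h2 : (s : ℂ) * Complex.exp (t * Complex.I) = 0 := by
          have : z + (s : ℂ) * Complex.exp (t * Complex.I) = z + 0 := by rw [h, add_zero]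
          exact add_left_cancel this
        rw [h2, norm_zero] at hn
        exact hs.1.ne hn
  rw [h1]
  refine IsPreconnected.image ?_ _ (by fun_prop)
  exact (isPreconnected_Ioo.prod isPreconnected_univ)

variable {J : EndF E4 M} {S : Set M} {p : M}

namespace LocForm

lemma cont (L : LocForm J S p) (j : Fin L.n) : ContinuousOn (L.u j) (ball 0 1) :=
  (L.disc j).hol.contOn

lemma maps (L : LocForm J S p) (j : Fin L.n) {z : ℂ} (hz : z ∈ ball (0 : ℂ) 1) :
    L.u j z ∈ S ∩ L.U := by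
  rw [L.supp]
  exact mem_iUnion.2 ⟨j, z, hz, rfl⟩

lemma at_centre (L : LocForm J S p) (j : Fin L.n) {z : ℂ} (hz : z ∈ ball (0 : ℂ) 1)
    (h : L.u j z = p) : z = 0 :=
  (L.disc j).inj hz (mem_ball_self one_pos) (h.trans (L.centre j).symm)

/-- different branches meet only at the centre. -/
lemma disj' (L : LocForm J S p) {i j : Fin L.n} (hij : i ≠ j) {z w : ℂ}
    (hz : z ∈ ball (0 : ℂ) 1) (hw : w ∈ ball (0 : ℂ) 1) (h : L.u i z = L.u j w) :
    L.u i z = p := by
  rw [L.disj i j hij z hz w hw h, L.centre]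

variable [T2Space M] [LocallyCompactSpace M]

/-- the discs are closed in `U`. -/
lemma closed_disc (L : LocForm J S p) (j : Fin L.n) {y : M} (hy : y ∈ L.U)
    (hc : y ∈ closure (L.u j '' ball (0 : ℂ) 1)) : y ∈ L.u j '' ball (0 : ℂ) 1 := by
  obtain ⟨K, hK, hKU, hKc⟩ := local_compact_nhds (L.openU.mem_nhds hy)
  obtain ⟨r, hr, hr2⟩ := L.proper j K hKc hKU
  have h1 : IsCompact (closedBall (0 : ℂ) r) := isCompact_closedBall 0 r
  have h2 : IsClosed (L.u j '' closedBall (0 : ℂ) r) := by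
    refine (h1.image_of_continuousOn ((L.cont j).mono ?_)).isClosed
    exact closedBall_subset_ball hr
  have h3 : y ∈ closure (L.u j '' closedBall (0 : ℂ) r) := by
    rw [mem_closure_iff_frequently] at hc ⊢
    refine (hc.and_eventually hK).mono ?_
    rintro x ⟨⟨z, hz, rfl⟩, hx⟩
    exact ⟨z, by simpa using hr2 z hz hx, rfl⟩
  rw [h2.closure_eq] at h3
  obtain ⟨z, hz, rfl⟩ := h3
  exact ⟨z, closedBall_subset_ball hr hz, rfl⟩

/-- a disc inside `S ∩ U` which avoids the centre off one point lies on one branch. -/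
lemma one_disc (L : LocForm J S p) {f : ℂ → M} {z : ℂ} {r : ℝ} (hr : 0 < r)
    (hf : ContinuousOn f (ball z r)) (hfS : ∀ w ∈ ball z r, f w ∈ S ∩ L.U)
    (hfp : ∀ w ∈ ball z r, w ≠ z → f w ≠ p) :
    ∃ j, ∀ w ∈ ball z r, f w ∈ L.u j '' ball (0 : ℂ) 1 := by
  have hw0 : z + (r / 2 : ℝ) ∈ ball z r \ {z} := by
    constructor
    · rw [mem_ball, dist_eq_norm, add_sub_cancel_left, Complex.norm_real,
        Real.norm_of_nonneg (by linarith)]
      linarith
    · intro h
      have h2 : ((r / 2 : ℝ) : ℂ) = 0 := by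
        have : z + ((r / 2 : ℝ) : ℂ) = z + 0 := by
          rw [add_zero]; exact h
        exact add_left_cancel this
      rw [Complex.ofReal_eq_zero] at h2
      linarith
  have hP : IsPreconnected (f '' (ball z r \ {z})) :=
    (isPreconnected_punctured z r).image f (hf.mono sdiff_subset)
  have hin : ∀ y ∈ f '' (ball z r \ {z}), y ∈ L.U ∧ y ≠ p ∧ ∃ j, y ∈ L.u j '' ball (0 : ℂ) 1 := by
    rintro _ ⟨w, hw, rfl⟩
    have h1 := hfS w hw.1
    refine ⟨h1.2, hfp w hw.1 hw.2, ?_⟩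
    rw [L.supp] at h1
    exact mem_iUnion.1 h1
  obtain ⟨-, -, j, hj⟩ := hin _ ⟨_, hw0, rfl⟩
  have hall : ∀ w ∈ ball z r \ {z}, f w ∈ L.u j '' ball (0 : ℂ) 1 := by
    by_contra hcon
    push Not at hcon
    obtain ⟨w1, hw1, hw1n⟩ := hcon
    have hcl := isPreconnected_closed_iff.1 hP (closure (L.u j '' ball (0 : ℂ) 1))
      (closure (⋃ i ∈ {i | i ≠ j}, L.u i '' ball (0 : ℂ) 1)) isClosed_closure isClosed_closure
      (by
        intro y hy
        obtain ⟨-, -, i, hi⟩ := hin y hy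
        by_cases hij : i = j
        · left; exact subset_closure (hij ▸ hi)
        · right; exact subset_closure (mem_biUnion hij hi))
      ⟨_, ⟨_, hw0, rfl⟩, subset_closure hj⟩
      (by
        obtain ⟨-, -, i, hi⟩ := hin _ ⟨w1, hw1, rfl⟩
        have hij : i ≠ j := by
          rintro rfl
          exact hw1n hi
        exact ⟨_, ⟨w1, hw1, rfl⟩, subset_closure (mem_biUnion hij hi)⟩)
    obtain ⟨y, hy, hy1, hy2⟩ := hcl
    obtain ⟨hyU, hyp, -⟩ := hin y hy
    obtain ⟨a, ha, haz⟩ := L.closed_disc j hyU hy1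
    have hfin : ({i | i ≠ j} : Set (Fin L.n)).Finite := Set.toFinite _
    rw [hfin.closure_biUnion] at hy2
    obtain ⟨i, hi, hyi⟩ := mem_iUnion₂.1 hy2
    obtain ⟨b, hb, hbz⟩ := L.closed_disc i hyU hyi
    have := L.disj' hi hb ha (hbz.trans haz.symm)
    exact hyp (hbz.symm.trans this)
  refine ⟨j, fun w hw => ?_⟩
  by_cases hwz : w = z
  · subst hwz
    refine L.closed_disc j (hfS w hw).2 ?_
    have hne : (𝓝[≠] w).NeBot := inferInstance
    have h1 : Tendsto f (𝓝[≠] w) (𝓝 (f w)) :=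
      (hf.continuousAt (isOpen_ball.mem_nhds hw)).tendsto.mono_left nhdsWithin_le_nhds
    refine mem_closure_of_tendsto h1 ?_
    have h2 : ball w r \ {w} ∈ 𝓝[≠] w := by
      rw [sdiff_eq]
      exact inter_mem (mem_nhdsWithin_of_mem_nhds (isOpen_ball.mem_nhds hw)) self_mem_nhdsWithin
    filter_upwards [h2] with w' hw' using hall w' hw'
  · exact hall w ⟨hw, hwz⟩

/-- the factor through the branch `j`. -/
def fac (L : LocForm J S p) (j : Fin L.n) (f : ℂ → M) (w : ℂ) : ℂ :=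
  Function.invFunOn (L.u j) (ball 0 1) (f w)

section fac

variable (L : LocForm J S p) (j : Fin L.n) {f : ℂ → M} {O : Set ℂ}

omit [T2Space M] [LocallyCompactSpace M] in
lemma fac_mem (hfO : ∀ w ∈ O, f w ∈ L.u j '' ball (0 : ℂ) 1) {w : ℂ} (hw : w ∈ O) :
    L.fac j f w ∈ ball (0 : ℂ) 1 := Function.invFunOn_mem (hfO w hw)

omit [T2Space M] [LocallyCompactSpace M] in
lemma fac_eq (hfO : ∀ w ∈ O, f w ∈ L.u j '' ball (0 : ℂ) 1) {w : ℂ} (hw : w ∈ O) :
    L.u j (L.fac j f w) = f w := Function.invFunOn_eq (hfO w hw)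

lemma fac_cont (hO : IsOpen O) (hf : ContinuousOn f O)
    (hfO : ∀ w ∈ O, f w ∈ L.u j '' ball (0 : ℂ) 1) : ContinuousOn (L.fac j f) O := by
  intro w hw
  refine ContinuousAt.continuousWithinAt ?_
  have hfw : ContinuousAt f w := hf.continuousAt (hO.mem_nhds hw)
  have hU : f w ∈ L.U := by
    obtain ⟨z, hz, h⟩ := hfO w hw
    rw [← h]; exact (L.maps j hz).2
  obtain ⟨K, hK, hKU, hKc⟩ := local_compact_nhds (L.openU.mem_nhds hU)
  obtain ⟨r, hr, hr2⟩ := L.proper j K hKc hKU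
  intro N hN
  obtain ⟨N', hN'N, hN'o, hwN'⟩ := _root_.mem_nhds_iff.1 hN
  have hcb : closedBall (0 : ℂ) r ⊆ ball 0 1 := closedBall_subset_ball hr
  have hcl : IsClosed (L.u j '' (closedBall (0 : ℂ) r \ N')) := by
    refine (((isCompact_closedBall (0 : ℂ) r).diff hN'o).image_of_continuousOn
      ((L.cont j).mono (sdiff_subset.trans hcb))).isClosed
  have hn : f w ∉ L.u j '' (closedBall (0 : ℂ) r \ N') := by
    rintro ⟨k, ⟨hk, hkN⟩, hk2⟩
    have : k = L.fac j f w := (L.disc j).inj (hcb hk) (L.fac_mem j hfO hw)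
      (hk2.trans (L.fac_eq j hfO hw).symm)
    exact hkN (this ▸ hwN')
  rw [mem_map]
  filter_upwards [hfw.eventually (hcl.isOpen_compl.mem_nhds hn), hfw.eventually hK,
    hO.mem_nhds hw] with w' h1 h2 h3
  have h4 := L.fac_mem j hfO h3
  have h5 := L.fac_eq j hfO h3
  have h6 : L.fac j f w' ∈ closedBall (0 : ℂ) r := by
    rw [mem_closedBall_zero_iff]
    exact hr2 _ h4 (by rw [h5]; exact h2)
  by_contra hc
  exact h1 ⟨L.fac j f w', ⟨h6, fun h7 => hc (hN'N h7)⟩, h5⟩

theorem fac_hol (hO : IsOpen O) (hf : IsJHol J f O) (hfi : InjOn f O)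
    (hfO : ∀ w ∈ O, f w ∈ L.u j '' ball (0 : ℂ) 1) : DifferentiableOn ℂ (L.fac j f) O := by
  have hcont := L.fac_cont j hO hf.contOn hfO
  have hne : ∀ w ∈ O, L.fac j f w ≠ 0 → DifferentiableAt ℂ (L.fac j f) w := by
    intro w hw h0
    have h1 := L.fac_mem j hfO hw
    refine factor_hol (J := J) (u := L.u j) (v := f) ?_ (hf.at hO hw)
      (hcont.continuousAt (hO.mem_nhds hw)) ?_ ?_ (hf.jhol w hw) ((L.disc j).imm _ h1 h0)
    · exact (L.disc j).hol.at isOpen_ball h1
    · filter_upwards [hO.mem_nhds hw] with w' hw' using L.fac_eq j hfO hw'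
    · exact (L.disc j).hol.jhol _ h1
  intro w hw
  by_cases h0 : L.fac j f w = 0
  · have hfw : f w = p := by rw [← L.fac_eq j hfO hw, h0, L.centre]
    have hev : ∀ᶠ w' in 𝓝[≠] w, DifferentiableAt ℂ (L.fac j f) w' := by
      have h2 : O \ {w} ∈ 𝓝[≠] w := by
        rw [sdiff_eq]
        exact inter_mem (mem_nhdsWithin_of_mem_nhds (hO.mem_nhds hw)) self_mem_nhdsWithin
      filter_upwards [h2] with w' hw'
      refine hne w' hw'.1 fun h3 => hw'.2 ?_
      have : f w' = p := by rw [← L.fac_eq j hfO hw'.1, h3, L.centre]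
      exact hfi hw'.1 hw (this.trans hfw.symm)
    exact (Complex.analyticAt_of_differentiable_on_punctured_nhds_of_continuousAt hev
      (hcont.continuousAt (hO.mem_nhds hw))).differentiableAt.differentiableWithinAt
  · exact (hne w hw h0).differentiableWithinAt

omit [T2Space M] [LocallyCompactSpace M] in
lemma fac_inj (hfi : InjOn f O) (hfO : ∀ w ∈ O, f w ∈ L.u j '' ball (0 : ℂ) 1) :
    InjOn (L.fac j f) O := by
  intro a ha b hb hab
  refine hfi ha hb ?_
  rw [← L.fac_eq j hfO ha, ← L.fac_eq j hfO hb, hab]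

lemma fac_deriv (hO : IsOpen O) (hf : IsJHol J f O) (hfi : InjOn f O)
    (hfO : ∀ w ∈ O, f w ∈ L.u j '' ball (0 : ℂ) 1) {w : ℂ} (hw : w ∈ O) :
    deriv (L.fac j f) w ≠ 0 :=
  Lib.deriv_ne_zero_of_injOn hO (L.fac_hol j hO hf hfi hfO) (L.fac_inj j hfi hfO) hw

lemma fac_germ (hO : IsOpen O) (hf : IsJHol J f O) (hfi : InjOn f O)
    (hfO : ∀ w ∈ O, f w ∈ L.u j '' ball (0 : ℂ) 1) {w : ℂ} (hw : w ∈ O) :
    map f (𝓝 w) = map (L.u j) (𝓝 (L.fac j f w)) := by
  have h1 := Lib.nhds_le_map_nhds_of_injOn hO (L.fac_hol j hO hf hfi hfO) (L.fac_inj j hfi hfO) hw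
  have h2 : map (L.fac j f) (𝓝 w) = 𝓝 (L.fac j f w) :=
    le_antisymm ((L.fac_cont j hO hf.contOn hfO).continuousAt (hO.mem_nhds hw)) h1
  rw [← h2, map_map]
  refine map_congr ?_
  filter_upwards [hO.mem_nhds hw] with w' hw' using (L.fac_eq j hfO hw').symm

end fac

/-- **branches near `p`**: every injective `J`-disc germ inside `S` with limit point in `U` is the
germ of one of the branches. -/
theorem exists_fac (L : LocForm J S p) {f : ℂ → M} {O : Set ℂ} (hO : IsOpen O)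
    (hf : IsJHol J f O) (hfi : InjOn f O) (hfS : ∀ w ∈ O, f w ∈ S) {z : ℂ} (hz : z ∈ O)
    (hzU : f z ∈ L.U) :
    ∃ (j : Fin L.n) (r : ℝ), 0 < r ∧ ball z r ⊆ O ∧
      ∀ w ∈ ball z r, f w ∈ L.u j '' ball (0 : ℂ) 1 := by
  have hfz : ContinuousAt f z := hf.contOn.continuousAt (hO.mem_nhds hz)
  have h1 : ∀ᶠ w in 𝓝 z, w ∈ O ∧ f w ∈ L.U ∧ (w ≠ z → f w ≠ p) := by
    refine (show ∀ᶠ w in 𝓝 z, w ∈ O from hO.mem_nhds hz).and ((hfz.eventually (L.openU.mem_nhds hzU)).and ?_)
    by_cases h : f z = p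
    · filter_upwards [hO.mem_nhds hz] with w hw hwz hwp
      exact hwz (hfi hw hz (hwp.trans h.symm))
    · filter_upwards [hfz.eventually (isOpen_ne.mem_nhds h)] with w hw _ using hw
  obtain ⟨r, hr, hb⟩ := Metric.eventually_nhds_iff_ball.1 h1
  obtain ⟨j, hj⟩ := L.one_disc hr (hf.contOn.mono fun w hw => (hb w hw).1)
    (fun w hw => ⟨hfS w (hb w hw).1, (hb w hw).2.1⟩) (fun w hw hwz => (hb w hw).2.2 hwz)
  exact ⟨j, r, hr, fun w hw => (hb w hw).1, hj⟩

end LocForm

end

end Crest.Agent.R235.Glob_370
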