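import Crest.Agent.R235.W2B_464
import Crest.Agent.R235.Wind4_688

/-!
Row 235, package ADJ (helper464), leaf W2: **the total winding number on a closed Riemann surface
is zero**.

`N` a compact Hausdorff space with a holomorphic atlas `A : RS.CAtl N`, `F : Finset N`.

* `chart_fun`, `chart_sec`: the winding number at a point does not depend on the chart
* `total_fun`: `Φ : N → ℂ` of class `C²` and non-vanishing off `F` : `Σ_{x ∈ F} wind_x Φ = 0`
* `total_sec`: two sections of `K`, `C²` and non-vanishing off `F` : the same total winding number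
* `exists_wind_fun`, `exists_wind_sec`: the winding numbers exist
-/

set_option autoImplicit false

open Set Filter Topology Function MeasureTheory Metric
open scoped ContDiff Real

universe u v

namespace Crest.Agent.R235.W2_464

open RS Wind_688

noncomputable section

/-- the winding number of `F` on all small circles around `p` is `n` (same as `Adj.WAt`). -/
def WAt (F : ℂ → ℂ) (p : ℂ) (n : ℤ) : Prop := ∀ᶠ r in 𝓝[>] (0 : ℝ), IsW F p r n

theorem WAt.unique {F : ℂ → ℂ} {p : ℂ} {m n : ℤ} (hm : WAt F p m) (hn : WAt F p n) : m = n := by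
  obtain ⟨r, h1, h2⟩ := (hm.and hn).exists
  exact h1.unique h2

theorem WAt.congr {F G : ℂ → ℂ} {p : ℂ} {n : ℤ} (h : WAt F p n) (e : ∀ᶠ z in 𝓝[≠] p, F z = G z) :
    WAt G p n := by
  rw [eventually_nhdsWithin_iff, Metric.eventually_nhds_iff] at e
  obtain ⟨ε, hε, he⟩ := e
  have h1 : ∀ᶠ r in 𝓝[>] (0 : ℝ), r ∈ Ioo 0 ε := Ioo_mem_nhdsGT hε
  filter_upwards [h, h1] with r hr hr1
  refine hr.congr hr1.1.le fun z hz => ?_
  rw [mem_sphere] at hz
  refine he (by rw [hz]; exact hr1.2) fun e => ?_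
  rw [e, dist_self] at hz
  exact hr1.1.ne hz

theorem WAt.div {F G : ℂ → ℂ} {p : ℂ} {m n : ℤ} (hF : WAt F p m) (hG : WAt G p n) :
    WAt (fun z => F z / G z) p (m - n) := by
  filter_upwards [hF, hG] with r h1 h2
  exact h1.div h2

theorem WAt.mul {F G : ℂ → ℂ} {p : ℂ} {m n : ℤ} (hF : WAt F p m) (hG : WAt G p n) :
    WAt (fun z => F z * G z) p (m + n) := by
  filter_upwards [hF, hG] with r h1 h2
  exact h1.mul h2

/-- a function continuous and non-vanishing at `p` has winding number `0`. -/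
theorem WAt.zero {F : ℂ → ℂ} {p : ℂ} (hF : ∀ᶠ z in 𝓝 p, ContinuousAt F z) (h0 : F p ≠ 0) :
    WAt F p 0 := by
  have h1 : ∀ᶠ z in 𝓝 p, F z ≠ 0 := hF.self_of_nhds.eventually_ne h0
  obtain ⟨ε, hε, he⟩ := Metric.eventually_nhds_iff.1 (hF.and h1)
  have h2 : ∀ᶠ r in 𝓝[>] (0 : ℝ), r ∈ Ioo 0 ε := Ioo_mem_nhdsGT hε
  filter_upwards [h2] with r hr
  refine isW_zero hr.1.le (fun z hz => ?_) fun z hz => ?_
  · exact (he (lt_of_le_of_lt hz hr.2)).1.continuousWithinAt
  · exact (he (lt_of_le_of_lt hz hr.2)).2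

/-- `F` continuous and non-vanishing on a punctured neighbourhood of `p`. -/
def Pn (F : ℂ → ℂ) (p : ℂ) : Prop := ∀ᶠ z in 𝓝[≠] p, ContinuousAt F z ∧ F z ≠ 0

theorem Pn.exists_ball {F : ℂ → ℂ} {p : ℂ} (h : Pn F p) : ∃ R : ℝ, 0 < R ∧
    ContinuousOn F (ball p R \ {p}) ∧ ∀ z ∈ ball p R, z ≠ p → F z ≠ 0 := by
  unfold Pn at h
  rw [eventually_nhdsWithin_iff, Metric.eventually_nhds_iff] at h
  obtain ⟨R, hR, h⟩ := h
  exact ⟨R, hR, fun z hz => (h hz.1 hz.2).1.continuousWithinAt, fun z hz hne => (h hz hne).2⟩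

theorem Pn.exists_wAt {F : ℂ → ℂ} {p : ℂ} (h : Pn F p) : ∃ n, WAt F p n := by
  obtain ⟨R, hR, hc, h0⟩ := h.exists_ball
  have hsub : ∀ r : ℝ, 0 < r → r < R → sphere p r ⊆ ball p R \ {p} := by
    intro r hr hrR z hz
    rw [mem_sphere] at hz
    refine ⟨by rw [mem_ball, hz]; exact hrR, fun e => ?_⟩
    rw [mem_singleton_iff] at e
    rw [e, dist_self] at hz
    exact hr.ne hz
  have hR2 : 0 < R / 2 := by positivity
  obtain ⟨n, hn⟩ := exists_isW (p := p) hR2.le (hc.mono (hsub _ hR2 (by linarith)))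
    fun z hz => h0 z (hsub _ hR2 (by linarith) hz).1 (hsub _ hR2 (by linarith) hz).2
  refine ⟨n, ?_⟩
  have h1 : ∀ᶠ r in 𝓝[>] (0 : ℝ), r ∈ Ioo 0 R := Ioo_mem_nhdsGT hR
  filter_upwards [h1] with r hr
  exact IsW.radius' hc h0 hR2 (by linarith) hr.1 hr.2 hn

/-- holomorphic change of variable -/
theorem WAt.comp {F φ : ℂ → ℂ} {p : ℂ} {n : ℤ} (hφ : AnalyticAt ℂ φ p) (hφ' : deriv φ p ≠ 0)
    (hF : Pn F (φ p)) (h : WAt F (φ p) n) : WAt (fun z => F (φ z)) p n := by
  obtain ⟨R, hR, hc, h0⟩ := hF.exists_ball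
  have h1 : ∀ᶠ r in 𝓝[>] (0 : ℝ), r ∈ Ioo 0 R := Ioo_mem_nhdsGT hR
  obtain ⟨s, hs, hsR⟩ := (h.and h1).exists
  obtain ⟨O, hO, hOa⟩ := hφ.eventually_analyticAt.exists_mem
  refine IsW.comp (a := deriv φ p) (b := 0) hc h0 (by simpa using hφ') hO
    (fun z hz => (hOa z hz).continuousAt.continuousWithinAt) (fun ε hε => ?_) hsR.1 hsR.2 hs
  have h2 := hφ.differentiableAt.hasDerivAt.isLittleO.bound hε
  filter_upwards [h2] with z hz
  simpa [alin, mul_comm] using hz

/-! ### independence of the chart -/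

section Chart

variable {N : Type u} [TopologicalSpace N] {A : CAtl.{u, v} N}

theorem chart_fun {Φ : N → ℂ} {x : N} {i j : A.ι} (hi : x ∈ (A.c i).source)
    (hj : x ∈ (A.c j).source) (hΦ : Pn (rp A Φ j) (A.c j x)) {n : ℤ}
    (h : WAt (rp A Φ j) (A.c j x) n) : WAt (rp A Φ i) (A.c i x) n := by
  have hd := A.c_mem_dom hi hj
  have e : A.tr i j (A.c i x) = A.c j x := A.tr_c hi
  have h1 : WAt (fun z => rp A Φ j (A.tr i j z)) (A.c i x) n :=
    WAt.comp (A.tr_analyticAt hd) (A.deriv_tr_ne hd) (by rwa [e]) (by rwa [e])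
  exact h1.congr (((rp_ev A Φ hd).filter_mono nhdsWithin_le_nhds).mono fun z hz => hz.symm)

theorem chart_sec {s : A.ι → ℂ → ℂ} {x : N} {i j : A.ι} (hi : x ∈ (A.c i).source)
    (hj : x ∈ (A.c j).source) (hs : Pn (s j) (A.c j x))
    (htr : ∀ᶠ z in 𝓝[≠] (A.c i x), s i z = s j (A.tr i j z) * deriv (A.tr i j) z) {n : ℤ}
    (h : WAt (s j) (A.c j x) n) : WAt (s i) (A.c i x) n := by
  have hd := A.c_mem_dom hi hj
  have e : A.tr i j (A.c i x) = A.c j x := A.tr_c hi
  have h1 : WAt (fun z => s j (A.tr i j z)) (A.c i x) n :=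
    WAt.comp (A.tr_analyticAt hd) (A.deriv_tr_ne hd) (by rwa [e]) (by rwa [e])
  have h2 : WAt (deriv (A.tr i j)) (A.c i x) 0 :=
    WAt.zero ((A.tr_analyticAt hd).eventually_analyticAt.mono fun z hz =>
      hz.deriv.continuousAt) (A.deriv_tr_ne hd)
  have h3 := h1.mul h2
  rw [add_zero] at h3
  exact h3.congr (htr.mono fun z hz => hz.symm)

end Chart

/-! ### the argument form -/

/-- the one-form `d arg G` -/
def dar (G : ℂ → ℂ) (z : ℂ) : ℂ →L[ℝ] ℝ := Complex.imCLM.comp ((G z)⁻¹ • fderiv ℝ G z)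

theorem wg_dar (χ : ℂ → ℝ) (G : ℂ → ℂ) (z : ℂ) :
    wg (fderiv ℝ χ z) (dar G z) = (jac χ G z / G z).im := by
  simp only [wg, dar, jac, ContinuousLinearMap.comp_apply, Complex.imCLM_apply,
    smul_apply, smul_eq_mul]
  have h : ((fderiv ℝ χ z 1 : ℂ) * fderiv ℝ G z Complex.I
      - (fderiv ℝ χ z Complex.I : ℂ) * fderiv ℝ G z 1) / G z
      = (fderiv ℝ χ z 1 : ℂ) * ((G z)⁻¹ * fderiv ℝ G z Complex.I)
      - (fderiv ℝ χ z Complex.I : ℂ) * ((G z)⁻¹ * fderiv ℝ G z 1) := by
    rw [div_eq_mul_inv]; ring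
  rw [h, Complex.sub_im, Complex.im_ofReal_mul, Complex.im_ofReal_mul]

section Total

set_option linter.unusedSectionVars false

variable {N : Type u} [TopologicalSpace N] [T2Space N] [CompactSpace N] {A : CAtl.{u, v} N}
  {F : Finset N}

/-- the domain of the chart `i` without the points of `F` -/
def off (A : CAtl.{u, v} N) (F : Finset N) (i : A.ι) : Set ℂ :=
  {z | z ∈ (A.c i).target ∧ (A.c i).symm z ∉ (F : Set N)}

/-- `d arg Φ` as a one-form on `N - F` -/
def darF (Φ : N → ℂ) (hΦ : ∀ i, ContDiffOn ℝ 2 (rp A Φ i) (off A F i))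
    (h0 : ∀ x ∉ F, Φ x ≠ 0) : Form1 A (F : Set N) where
  a i z := dar (rp A Φ i) z
  cont i := by
    have hO : IsOpen (off A F i) := isOpen_off F i
    have h1 : ContinuousOn (fun z => (rp A Φ i z)⁻¹ • fderiv ℝ (rp A Φ i) z) (off A F i) :=
      ((hΦ i).continuousOn.inv₀ fun z hz => h0 _ hz.2).smul
        ((hΦ i).continuousOn_fderiv_of_isOpen hO (by norm_num))
    exact continuousOn_const.clm_comp h1
  tr i j z hz hF := by
    have hw := A.tr_mem hz
    have hO : IsOpen (off A F j) := isOpen_off F j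
    have hwo : A.tr i j z ∈ off A F j := ⟨hw.1, by rw [A.symm_tr hz]; exact hF⟩
    have hd : DifferentiableAt ℝ (rp A Φ j) (A.tr i j z) :=
      ((hΦ j).contDiffAt (hO.mem_nhds hwo)).differentiableAt (by norm_num)
    unfold dar
    rw [fderiv_rp A Φ hz hd, rp_tr A Φ hz]
    ext v
    simp

/-- the function `ρ_k` in its own chart, extended by zero -/
def ch (P : Pou A F) (k : N) : ℂ → ℝ := (A.c (P.i k)).target.indicator (rp A (P.ρ k) (P.i k))

theorem ch_of_mem (P : Pou A F) (k : N) {z : ℂ} (hz : z ∈ (A.c (P.i k)).target) :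
    ch P k z = rp A (P.ρ k) (P.i k) z := indicator_of_mem hz _

theorem ch_ev (P : Pou A F) (k : N) {z : ℂ} (hz : z ∈ (A.c (P.i k)).target) :
    ch P k =ᶠ[𝓝 z] rp A (P.ρ k) (P.i k) := by
  filter_upwards [(A.c (P.i k)).open_target.mem_nhds hz] with w hw
  exact ch_of_mem P k hw

theorem ch_zero (P : Pou A F) (k : N) {z : ℂ}
    (hz : z ∉ closedBall (A.c (P.i k) k) (P.R k / 2)) : ch P k z = 0 := by
  by_cases h : z ∈ (A.c (P.i k)).target
  · rw [ch_of_mem P k h]
    exact P.zero_off fun h2 => hz (P.mem_half h h2)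
  · exact indicator_of_notMem h _

theorem ch_tsupport (P : Pou A F) (k : N) :
    tsupport (ch P k) ⊆ closedBall (A.c (P.i k) k) (P.R k / 2) := by
  refine closure_minimal (fun z hz => ?_) isClosed_closedBall
  by_contra h
  exact hz (ch_zero P k h)

theorem ch_compact (P : Pou A F) (k : N) : HasCompactSupport (ch P k) :=
  (isCompact_closedBall _ _).of_isClosed_subset (isClosed_tsupport _) (ch_tsupport P k)

theorem ch_contDiff (P : Pou A F) (k : N) : ContDiff ℝ (⊤ : ℕ∞) (ch P k) := by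
  rw [contDiff_iff_contDiffAt]
  intro z
  by_cases h : z ∈ (A.c (P.i k)).target
  · exact (P.rp_contDiffAt k h).congr_of_eventuallyEq (ch_ev P k h)
  · have hz : z ∉ closedBall (A.c (P.i k) k) (P.R k / 2) := fun h2 => h (P.half_sub k h2)
    have h1 : ch P k =ᶠ[𝓝 z] fun _ => 0 := by
      filter_upwards [isClosed_closedBall.isOpen_compl.mem_nhds hz] with w hw
      exact ch_zero P k hw
    exact contDiffAt_const.congr_of_eventuallyEq h1

/-- **the total winding number of a function is zero.** -/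
theorem total_fun (Φ : N → ℂ) (hΦ : ∀ i, ContDiffOn ℝ 2 (rp A Φ i) (off A F i))
    (h0 : ∀ x ∉ F, Φ x ≠ 0) (n : N → ℤ)
    (hn : ∀ x ∈ F, ∃ i, x ∈ (A.c i).source ∧ WAt (rp A Φ i) (A.c i x) (n x)) :
    ∑ x ∈ F, n x = 0 := by
  classical
  obtain ⟨P⟩ := exists_pou A F
  have hS := sum_zero P (darF Φ hΦ h0)
  have hOpen : ∀ i, IsOpen (off A F i) := fun i => isOpen_off F i
  have hpn : ∀ x (i : A.ι), x ∈ (A.c i).source → ∀ᶠ z in 𝓝[≠] (A.c i x), z ∈ off A F i := by
    intro x i hi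
    have h1 : ∀ᶠ z in 𝓝 (A.c i x), z ∈ (A.c i).target :=
      (A.c i).open_target.mem_nhds ((A.c i).map_source hi)
    have h2 : ∀ᶠ y in 𝓝 x, y ∉ (F.erase x : Set N) :=
      (F.erase x).finite_toSet.isClosed.isOpen_compl.mem_nhds (by simp)
    have h3 : ∀ᶠ z in 𝓝 (A.c i x), (A.c i).symm z ∉ (F.erase x : Set N) := by
      have h6 : Tendsto (A.c i).symm (𝓝 (A.c i x)) (𝓝 x) := by
        rw [Tendsto, A.nhds_symm hi]
      exact h6.eventually h2
    filter_upwards [h1.filter_mono nhdsWithin_le_nhds, h3.filter_mono nhdsWithin_le_nhds,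
      self_mem_nhdsWithin] with z hz1 hz2 hz3
    refine ⟨hz1, fun hF => hz2 ?_⟩
    rw [Finset.mem_coe, Finset.mem_erase]
    refine ⟨fun e => hz3 ?_, hF⟩
    rw [mem_singleton_iff, ← e, (A.c i).right_inv hz1]
  have hPn : ∀ x (i : A.ι), x ∈ (A.c i).source → Pn (rp A Φ i) (A.c i x) := by
    intro x i hi
    filter_upwards [hpn x i hi] with z hz
    exact ⟨(hΦ i).continuousOn.continuousAt ((hOpen i).mem_nhds hz), h0 _ hz.2⟩
  have hn' : ∀ x ∈ F, ∀ i, x ∈ (A.c i).source → WAt (rp A Φ i) (A.c i x) (n x) := by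
    intro x hx i hi
    obtain ⟨j, hj, h⟩ := hn x hx
    exact chart_fun hi hj (hPn x j hj) h
  -- each term
  have key : ∀ k ∈ P.T, ∫ z in (A.c (P.i k)).target, dens P (darF Φ hΦ h0) k (P.i k) z
      = if k ∈ F then -(2 * π * n k) else 0 := by
    intro k _
    set U := off A F (P.i k) with hU
    set G := rp A Φ (P.i k) with hG
    set c := A.c (P.i k) k with hc
    have e1 : ∀ z, (A.c (P.i k)).target.indicator (dens P (darF Φ hΦ h0) k (P.i k)) z
        = (jac (ch P k) G z / G z).im := by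
      intro z
      by_cases hz : z ∈ (A.c (P.i k)).target
      · rw [indicator_of_mem hz, ← wg_dar, (ch_ev P k hz).fderiv_eq]
        rfl
      · rw [indicator_of_notMem hz, jac_supp fun h => hz (P.half_sub k (ch_tsupport P k h)),
          zero_div, Complex.zero_im]
    have hct : c ∈ (A.c (P.i k)).target := (A.c (P.i k)).map_source (P.mem k)
    have hcs : (A.c (P.i k)).symm c = k := (A.c (P.i k)).left_inv (P.mem k)
    have hcut := cut (hOpen (P.i k)) (hΦ (P.i k)) (fun z hz => h0 _ hz.2)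
      (if k ∈ F then {c} else ∅) (fun _ => n k) (fun p hp => by
        split_ifs at hp with hk
        · rw [Finset.mem_singleton.1 hp]; exact hpn k _ (P.mem k)
        · simp at hp) (fun p hp => by
        split_ifs at hp with hk
        · rw [Finset.mem_singleton.1 hp]; exact hn' k hk _ (P.mem k)
        · simp at hp) (ch P k) ((ch_contDiff P k).of_le (by norm_num)) (ch_compact P k)
      (fun z hz => by
        have hz1 := ch_tsupport P k hz
        have hz2 := P.half_sub k hz1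
        by_cases hF : (A.c (P.i k)).symm z ∈ F
        · right
          have e2 := P.ballF k z (closedBall_subset_closedBall
            (by have := P.Rpos k; linarith) hz1) hF
          have e3 : z = c := ((A.c (P.i k)).right_inv hz2).symm.trans (by rw [e2])
          rw [e2] at hF
          rw [if_pos hF]
          simp [e3]
        · left
          exact ⟨hz2, hF⟩)
      (fun p hp => by
        split_ifs at hp with hk
        · rw [Finset.mem_singleton.1 hp]
          have h1 : ∀ᶠ z in 𝓝 c, P.ρ k ((A.c (P.i k)).symm z) = 1 := by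
            have := (tendsto_symm A hct)
            rw [hcs] at this
            exact this.eventually (P.one k hk)
          have h2 : ∀ᶠ z in 𝓝 c, ch P k z = 1 := by
            filter_upwards [h1, ch_ev P k hct] with z hz hz2
            rw [hz2]; exact hz
          filter_upwards [h2] with z hz
          rw [hz, h2.self_of_nhds]
        · simp at hp)
    rw [← integral_indicator (A.c (P.i k)).open_target.measurableSet]
    rw [integral_congr_ae (Eventually.of_forall e1)]
    have e4 : ∫ z, (jac (ch P k) G z / G z).im = (∫ z, jac (ch P k) G z / G z).im := by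
      have := (Complex.imCLM.integral_comp_comm hcut.1)
      simpa using this
    rw [e4, hcut.2]
    split_ifs with hk
    · have h1 : ch P k c = 1 := by
        rw [ch_of_mem P k hct]
        show P.ρ k ((A.c (P.i k)).symm c) = 1
        rw [hcs]
        exact (P.one k hk).self_of_nhds
      rw [Finset.sum_singleton, h1]
      simp
    · simp
  rw [Finset.sum_congr rfl key, ← Finset.sum_filter, Finset.filter_mem_eq_inter,
    Finset.inter_eq_right.2 P.sub, Finset.sum_neg_distrib, ← Finset.mul_sum] at hS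
  have h5 : (∑ x ∈ F, (n x : ℝ)) = 0 := by
    have hpi : (2 * π : ℝ) ≠ 0 := by positivity
    have := neg_eq_zero.1 hS
    exact (mul_eq_zero.1 this).resolve_left hpi
  exact_mod_cast h5

/-- **two sections of `K` have the same total winding number.** -/
theorem total_sec (s s' : A.ι → ℂ → ℂ) (hs : ∀ i, ContDiffOn ℝ 2 (s i) (off A F i))
    (hs' : ∀ i, ContDiffOn ℝ 2 (s' i) (off A F i))
    (h0 : ∀ i, ∀ z ∈ off A F i, s i z ≠ 0) (h0' : ∀ i, ∀ z ∈ off A F i, s' i z ≠ 0)
    (tr : ∀ i j, ∀ z ∈ A.dom i j, (A.c i).symm z ∉ F →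
      s i z = s j (A.tr i j z) * deriv (A.tr i j) z)
    (tr' : ∀ i j, ∀ z ∈ A.dom i j, (A.c i).symm z ∉ F →
      s' i z = s' j (A.tr i j z) * deriv (A.tr i j) z) (n n' : N → ℤ)
    (hn : ∀ x ∈ F, ∃ i, x ∈ (A.c i).source ∧ WAt (s i) (A.c i x) (n x))
    (hn' : ∀ x ∈ F, ∃ i, x ∈ (A.c i).source ∧ WAt (s' i) (A.c i x) (n' x)) :
    ∑ x ∈ F, n x = ∑ x ∈ F, n' x := by
  classical
  have hOpen : ∀ i, IsOpen (off A F i) := fun i => isOpen_off F i
  choose ix hix using A.cover
  set Φ : N → ℂ := fun x => if x ∈ F then 0 else s (ix x) (A.c (ix x) x) / s' (ix x) (A.c (ix x) x)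
    with hΦd
  have hΦ : ∀ i, ∀ z ∈ off A F i, rp A Φ i z = s i z / s' i z := by
    intro i z hz
    have hzF : (A.c i).symm z ∉ F := hz.2
    set j := ix ((A.c i).symm z) with hj
    have hd : z ∈ A.dom i j := ⟨hz.1, hix _⟩
    show Φ ((A.c i).symm z) = _
    rw [hΦd]
    simp only [if_neg hzF]
    rw [tr i j z hd hzF, tr' i j z hd hzF]
    have hne := A.deriv_tr_ne hd
    show s j (A.tr i j z) / s' j (A.tr i j z) = _
    rw [mul_div_mul_right _ _ hne]
  have hpn : ∀ x (i : A.ι), x ∈ (A.c i).source → ∀ᶠ z in 𝓝[≠] (A.c i x), z ∈ off A F i := by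
    intro x i hi
    have h1 : ∀ᶠ z in 𝓝 (A.c i x), z ∈ (A.c i).target :=
      (A.c i).open_target.mem_nhds ((A.c i).map_source hi)
    have h2 : ∀ᶠ y in 𝓝 x, y ∉ (F.erase x : Set N) :=
      (F.erase x).finite_toSet.isClosed.isOpen_compl.mem_nhds (by simp)
    have h3 : ∀ᶠ z in 𝓝 (A.c i x), (A.c i).symm z ∉ (F.erase x : Set N) := by
      have h6 : Tendsto (A.c i).symm (𝓝 (A.c i x)) (𝓝 x) := by
        rw [Tendsto, A.nhds_symm hi]
      exact h6.eventually h2
    filter_upwards [h1.filter_mono nhdsWithin_le_nhds, h3.filter_mono nhdsWithin_le_nhds,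
      self_mem_nhdsWithin] with z hz1 hz2 hz3
    refine ⟨hz1, fun hF => hz2 ?_⟩
    rw [Finset.mem_coe, Finset.mem_erase]
    refine ⟨fun e => hz3 ?_, hF⟩
    rw [mem_singleton_iff, ← e, (A.c i).right_inv hz1]
  have hchg : ∀ (t : A.ι → ℂ → ℂ), (∀ i, ContDiffOn ℝ 2 (t i) (off A F i)) →
      (∀ i, ∀ z ∈ off A F i, t i z ≠ 0) →
      (∀ i j, ∀ z ∈ A.dom i j, (A.c i).symm z ∉ F →
        t i z = t j (A.tr i j z) * deriv (A.tr i j) z) → ∀ (m : N → ℤ),
      (∀ x ∈ F, ∃ i, x ∈ (A.c i).source ∧ WAt (t i) (A.c i x) (m x)) →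
      ∀ x ∈ F, ∀ i, x ∈ (A.c i).source → WAt (t i) (A.c i x) (m x) := by
    intro t ht ht0 htr m hm x hx i hi
    obtain ⟨j, hj, h⟩ := hm x hx
    refine chart_sec hi hj ?_ ?_ h
    · filter_upwards [hpn x j hj] with z hz
      exact ⟨(ht j).continuousOn.continuousAt ((hOpen j).mem_nhds hz), ht0 _ _ hz⟩
    · filter_upwards [hpn x i hi,
        mem_nhdsWithin_of_mem_nhds ((A.isOpen_dom i j).mem_nhds (A.c_mem_dom hi hj))] with z hz hz2
      exact htr i j z hz2 hz.2
  have h := total_fun (A := A) (F := F) Φ (fun i => ?_) (fun x hx => ?_) (fun x => n x - n' x)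
    fun x hx => ?_
  · rw [Finset.sum_sub_distrib] at h
    linarith
  · refine ContDiffOn.congr ?_ (hΦ i)
    have h2 := (hs i).mul ((hs' i).inv (h0' i))
    exact h2.congr fun z _ => div_eq_mul_inv _ _
  · have hz : A.c (ix x) x ∈ off A F (ix x) :=
      ⟨(A.c _).map_source (hix x), by rw [(A.c _).left_inv (hix x)]; exact hx⟩
    rw [hΦd]
    simp only [if_neg hx]
    exact div_ne_zero (h0 _ _ hz) (h0' _ _ hz)
  · refine ⟨ix x, hix x, ?_⟩
    have h1 := hchg s hs h0 tr n hn x hx (ix x) (hix x)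
    have h2 := hchg s' hs' h0' tr' n' hn' x hx (ix x) (hix x)
    refine (h1.div h2).congr ?_
    filter_upwards [hpn x (ix x) (hix x)] with z hz
    exact (hΦ _ z hz).symm

end Total

end

end Crest.Agent.R235.W2_464
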