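import Crest.Agent.R235.AdjNodes_43
import Crest.Agent.R235.W2_464
import Crest.Agent.R235.Glob3_370

/-!
Row 235 (S0364), PACKAGE ADJ, helper370: node `DEGS` (sections in the parametrisations of the
branches; the degree as a sum over branches).
-/

set_option autoImplicit false
set_option maxSynthPendingDepth 3
set_option linter.unusedSectionVars false

open Set Function Filter MeasureTheory Metric
open scoped Manifold ContDiff Topology

universe u

namespace Crest.Agent.R235.Degs_370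

open Crest.Agent.R240 Crest.Agent.R240.Ch Crest.Agent.R240.Int
open Crest.Agent.R235 Crest.Agent.R235.Glob_370 Crest.Agent.R235.Adj Crest.Agent.R235.Wind_688

noncomputable section

section Sec

variable {N : Type u} [TopologicalSpace N] {A : RS.CAtl.{u, u} N} (k : KSec A)

theorem ksec_cont {i : A.ι} {z : ℂ} (hz : z ∈ (A.c i).target) :
    ∀ᶠ y in 𝓝 z, ContinuousAt (k.s i) y := by
  filter_upwards [(A.c i).open_target.mem_nhds hz] with y hy
  exact (k.smooth i).continuousOn.continuousAt ((A.c i).open_target.mem_nhds hy)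

/-- the coefficients of a section do not vanish on a punctured neighbourhood. -/
theorem ksec_pn {i : A.ι} {z : ℂ} (hz : z ∈ (A.c i).target) : W2_464.Pn (k.s i) z := by
  have h1 : ∀ᶠ y in 𝓝[≠] z, ContinuousAt (k.s i) y := (ksec_cont k hz).filter_mono
    nhdsWithin_le_nhds
  have hfin : ((fun y => (A.c i).symm y) ⁻¹' (k.Z : Set N) ∩ (A.c i).target).Finite := by
    refine Set.Finite.of_finite_image (f := fun y => (A.c i).symm y)
      (k.Z.finite_toSet.subset ?_) ?_
    · rintro _ ⟨y, hy, rfl⟩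
      exact hy.1
    · exact (A.c i).symm.injOn.mono inter_subset_right
  have h2 : ∀ᶠ y in 𝓝[≠] z, y ∉ ((fun y => (A.c i).symm y) ⁻¹' (k.Z : Set N) ∩
      (A.c i).target) \ {z} := by
    have : IsClosed (((fun y => (A.c i).symm y) ⁻¹' (k.Z : Set N) ∩ (A.c i).target) \ {z}) :=
      (hfin.subset sdiff_subset).isClosed
    exact mem_nhdsWithin_of_mem_nhds (this.isOpen_compl.mem_nhds (fun h => h.2 rfl))
  have h3 : ∀ᶠ y in 𝓝[≠] z, y ∈ (A.c i).target :=
    mem_nhdsWithin_of_mem_nhds ((A.c i).open_target.mem_nhds hz)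
  filter_upwards [h1, h2, h3, self_mem_nhdsWithin] with y c1 c2 c3 c4
  exact ⟨c1, fun h0 => c2 ⟨⟨k.zero i y c3 h0, c3⟩, c4⟩⟩

end Sec

section Cur

variable {M : Type u} [TopologicalSpace M] [T2Space M] [CompactSpace M]
  [ChartedSpace E4 M] [IsManifold 𝓘(ℝ, E4) ∞ M] {J : EndF E4 M} {c : JCurve J}

theorem wat_secφ (k : KSec c.A) (p : M) (j : Fin (c.L p).n) (i : c.A.ι)
    (hi : c.φ p j 0 ∈ (c.A.c i).source) :
    W2_464.WAt (secφ k p j i) 0 (ordφ k p j) := by
  have h0 : (0 : ℂ) ∈ ball (0 : ℂ) 1 := mem_ball_self one_pos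
  have hop : IsOpen {z | z ∈ ball (0 : ℂ) 1 ∧ c.φ p j z ∈ (c.A.c i).source} :=
    (c.φ_cont p j).isOpen_inter_preimage isOpen_ball (c.A.c i).open_source
  have han : AnalyticAt ℂ (fun z => c.A.c i (c.φ p j z)) 0 :=
    (c.φ_hol p j i).analyticAt (hop.mem_nhds ⟨h0, hi⟩)
  have hd : deriv (fun z => c.A.c i (c.φ p j z)) 0 ≠ 0 := c.φ_imm p j i 0 h0 hi
  have ht : c.A.c i (c.φ p j 0) ∈ (c.A.c i).target := (c.A.c i).map_source hi
  have hl : (c.A.c i).symm (c.A.c i (c.φ p j 0)) = c.φ p j 0 := (c.A.c i).left_inv hi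
  have hW : W2_464.WAt (k.s i) (c.A.c i (c.φ p j 0)) (ordφ k p j) := by
    unfold ordφ
    split_ifs with h
    · exact k.wind _ h i hi
    · refine W2_464.WAt.zero (ksec_cont k ht) fun h1 => h ?_
      have h2 := k.zero i _ ht h1
      rwa [hl] at h2
  have h1 : W2_464.WAt (fun z => k.s i (c.A.c i (c.φ p j z))) 0 (ordφ k p j) :=
    W2_464.WAt.comp (F := k.s i) (φ := fun z => c.A.c i (c.φ p j z)) han hd (ksec_pn k ht) hW
  have h2 : W2_464.WAt (deriv fun z => c.A.c i (c.φ p j z)) 0 0 :=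
    W2_464.WAt.zero (han.eventually_analyticAt.mono fun z hz => hz.deriv.continuousAt) hd
  have h3 := h1.mul h2
  rw [add_zero] at h3
  exact h3

theorem φ_centre (p : M) (j : Fin (c.L p).n) : c.f (c.φ p j 0) = p := by
  rw [c.φ_f p j 0 (mem_ball_self one_pos), (c.L p).centre]

/-- the fibre over `p`: the centres of the branches. -/
theorem fibre {p : M} {x : c.N} (h : c.f x = p) : ∃ j, c.φ p j 0 = x := by
  have hU : c.f x ∈ (c.L p).U := by rw [h]; exact (c.L p).mem
  obtain ⟨j, z, hz, hx⟩ := c.φ_cover p x hU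
  have h1 : (c.L p).u j z = (c.L p).u j 0 := by
    rw [(c.L p).centre, ← c.φ_f p j z hz, hx, h]
  have h2 : z = 0 := ((c.L p).disc j).inj hz (mem_ball_self one_pos) h1
  exact ⟨j, by rw [← h2, hx]⟩

theorem φ_centre_inj (p : M) : Injective fun j : Fin (c.L p).n => c.φ p j 0 := by
  intro i j h
  by_contra hij
  exact c.φ_disj p i j hij 0 (mem_ball_self one_pos) 0 (mem_ball_self one_pos) h

open Classical in
theorem sum_fibre (k : KSec c.A) (p : M) :
    ∑ j, ordφ k p j = ∑ x ∈ k.Z with c.f x = p, k.ord x := by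
  unfold ordφ
  rw [← Finset.sum_filter]
  refine Finset.sum_bij (fun j _ => c.φ p j 0) ?_ ?_ ?_ ?_
  · intro j hj
    rw [Finset.mem_filter] at hj ⊢
    exact ⟨hj.2, φ_centre p j⟩
  · intro i _ j _ h
    exact φ_centre_inj p h
  · intro x hx
    rw [Finset.mem_filter] at hx
    obtain ⟨j, hj⟩ := fibre hx.2
    exact ⟨j, by rw [Finset.mem_filter, hj]; exact ⟨Finset.mem_univ _, hx.1⟩, hj⟩
  · intro j _
    rfl

end Cur

/-- **DEGS**. -/
theorem degs : DEGS.{u} := by
  intro M _ _ _ _ _ _ J c k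
  refine ⟨fun p j i hi => wat_secφ k p j i hi, fun P hP => ?_⟩
  classical
  rw [Finset.sum_congr rfl fun p _ => sum_fibre k p]
  exact Finset.sum_fiberwise_of_maps_to hP _

end

end Crest.Agent.R235.Degs_370
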