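import Mathlib
import Crest.Agent.R240.N8
import Crest.Agent.R240.SmFL
import Crest.Agent.R240.En4D
import Crest.Agent.R240.N24
import Crest.Agent.R240.Fund
import Crest.Agent.R240.IntNodes

/-!
Row 235 (S0364), package ADJ, helper250: INTERSECTION FORMULA.

`S`, `R` closed currents (functionals on smooth two-forms, `R` of finite order) on a closed
four-manifold; `S` is represented on closed forms by `a`.  If near the intersection of the supports
`S` has local primitives `ψ j` (weakly, tested only on `χ j • closed`), then `R a` is the sum of the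
numbers `R (ψ j ∧ dχ j)`.  No primitive on `M`, no Green operator: the proof smooths `R` by the
operators `A e` of R240.
-/

set_option autoImplicit false
set_option maxSynthPendingDepth 3
set_option linter.unusedSectionVars false

open Set Function Filter MeasureTheory Metric
open scoped Manifold ContDiff Topology ENNReal

namespace Crest.Agent.R235.IntF_250

open Crest.Agent.R240 Crest.Agent.R240.Ch Crest.Agent.R240.Sm

noncomputable section

variable {M : Type*} [MetricSpace M] [CompactSpace M] [ChartedSpace E4 M]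
    [IsManifold 𝓘(ℝ, E4) ∞ M] [MeasurableSpace M] [BorelSpace M]

/-! ### locality of the smoothing operators -/

theorem at2_eq_zero_of_nr (D : Dat M) (b : X2 M) {x : M}
    (h : D.nr (b : F2 E4 M) x ≤ 0) : at2 (b : F2 E4 M) x = 0 := by
  have h0 : D.nr (b : F2 E4 M) x = 0 := le_antisymm h (En4.nr_nonneg D _ x)
  have h1 : nsqG D.J D.F (b : F2 E4 M) x = 0 := by
    rw [← En4.nr_sq D b.2.1, h0]; norm_num
  obtain ⟨m, m', hB⟩ := N24.exists_bd (D.sq x) (En4.spos D x)
  exact hB.nsq_eq_zero (En4.alt2 b x) h1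

/-- propagation of the smoothing operators on functions. -/
theorem exists_loc_a (D : Dat M) (S : Sys M) : ∃ e1 c : ℝ, 0 < e1 ∧ 0 < c ∧
    ∀ e, 0 < e → e ≤ e1 → Loc (c * e) {f : M → ℝ | SmoothF E4 f} (S.a e) := by
  choose Cd hCd hdisp using fun i => exists_disp_psi D.bl (S.G i) (p := S.p i) (S.hG i)
    (r' := (S.c i).z0 / 2) (by
      change (S.c i).z0 / 2 < (S.c i).z0
      linarith [(S.c i).z0_pos])
  set Ct : ℝ := 1 + ∑ i, Cd i with hCt
  have hs0 : 0 ≤ ∑ i, Cd i := Finset.sum_nonneg fun i _ => hCd i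
  have hCt0 : 0 < Ct := by positivity
  have hCle : ∀ i, Cd i ≤ Ct := fun i => by
    have := Finset.single_le_sum (f := Cd) (fun i _ => hCd i) (Finset.mem_univ i)
    rw [hCt]
    linarith
  have hdisp' : ∀ i, ∀ z ∈ closedBall (0 : E4) ((S.c i).z0 / 2), ∀ x : M,
      dist (psi (S.G i) (S.p i) z x) x ≤ Ct * ‖z‖ := fun i z hz x =>
    (hdisp i z hz x).trans (mul_le_mul_of_nonneg_right (hCle i) (norm_nonneg _))
  obtain ⟨e3, he3, he3'⟩ := SmF.exists_pos_le (fun i : Fin S.n => (S.c i).z0 / 2)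
    fun i => half_pos (S.c i).z0_pos
  refine ⟨e3, S.n * Ct + 1, he3, by positivity, fun e he hee => ?_⟩
  have hez : ∀ i, e ≤ (S.c i).z0 / 2 := fun i => hee.trans (he3' i)
  have hloc0 := SmF.loc_fL S hCt0.le hdisp' he hez (List.finRange S.n)
  rw [List.length_finRange] at hloc0
  have hloc : Loc (S.n * (Ct * e)) {f : M → ℝ | SmoothF E4 f} (S.a e) := hloc0
  refine hloc.mono ?_
  nlinarith

/-- **propagation of the smoothing operators on two-forms.** -/
theorem exists_loc_A (D : Dat M) (S : Sys M) : ∃ e1 c : ℝ, 0 < e1 ∧ 0 < c ∧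
    ∀ e, 0 < e → e ≤ e1 → ∀ (b : X2 M) (x : M),
      (∀ y, dist y x ≤ c * e → at2 (b : F2 E4 M) y = 0) →
      at2 (S.A e (oneK S.n) b : F2 E4 M) x = 0 := by
  obtain ⟨e1, he1, C, hbd⟩ := Q4.fBd D S
  obtain ⟨e2, c, he2, hc, hloc⟩ := exists_loc_a D S
  refine ⟨min e1 e2, 2 * c, lt_min he1 he2, by positivity, fun e he hee b x hb => ?_⟩
  have hce : 0 < c * e := by positivity
  obtain ⟨f, hf, hf1, hf0, hf01⟩ := exists_bump_ball (E := E4) x
    (r := c * e) (R := 2 * c * e) (by nlinarith)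
  -- a bound of `|b|`
  have hcont : Continuous (D.nr (b : F2 E4 M)) := En4.cont_nr D b.2
  obtain ⟨K, hK⟩ := (isCompact_range hcont).bddAbove
  have hK0 : 0 ≤ K := (En4.nr_nonneg D (b : F2 E4 M) x).trans (hK ⟨x, rfl⟩)
  have hh : SmoothF E4 (fun y => K * (1 - f y)) :=
    En4.sF_const_mul K (En4.sF_sub (smoothF_const (E := E4) (M := M) 1) hf)
  have hle : ∀ y, D.nr (b : F2 E4 M) y ≤ K * (1 - f y) := by
    intro y
    rcases le_total (dist y x) (2 * c * e) with h | h
    · rw [ChDens.nr_zero D (hb y h)]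
      exact mul_nonneg hK0 (by linarith [(hf01 y).2])
    · rw [hf0 y h]
      have := hK (mem_range_self y)
      linarith
  have h1 := hbd e (oneK S.n) he (hee.trans (min_le_left _ _)) (oneK_mem S.n 0) b _ hh hle x
  have h2 : S.a e (fun y => K * (1 - f y)) x ≤ 0 :=
    (hloc e he (hee.trans (min_le_right _ _))).up _ hh x 0 fun y hy => by
      rw [hf1 y hy]; simp
  have h3 : 0 ≤ S.a e (fun y => K * (1 - f y)) x :=
    Sys.fL_nonneg e _ (fun y => mul_nonneg hK0 (by linarith [(hf01 y).2])) x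
  have h4 : S.a e (fun y => K * (1 - f y)) x = 0 := le_antisymm h2 h3
  rw [h4, mul_zero] at h1
  exact at2_eq_zero_of_nr D _ h1

/-! ### a form orthogonal to all forms supported near `x` vanishes at `x` -/

theorem at2_eq_zero_of_I (D : Dat M) (η : X2 M) {U : Set M} (hU : IsOpen U) {x : M} (hx : x ∈ U)
    (h : ∀ b : X2 M, (∀ y ∉ U, at2 (b : F2 E4 M) y = 0) → D.I (η : F2 E4 M) (b : F2 E4 M) = 0) :
    at2 (η : F2 E4 M) x = 0 := by
  obtain ⟨r, hr, hball⟩ := Metric.isOpen_iff.1 hU x hx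
  obtain ⟨f, hf, hf1, hf0, hf01⟩ := exists_bump_ball (E := E4) x
    (r := r / 2) (R := r) (by linarith)
  -- test with `f² * η`
  have hb : ∀ y ∉ U, at2 ((En4.fX f hf (En4.stX D η) : X2 M) : F2 E4 M) y = 0 := by
    intro y hy
    have hd : r ≤ dist y x := by
      by_contra hlt
      exact hy (hball (mem_ball.2 (not_le.1 hlt)))
    show f y • at2 (En4.stX D η : X2 M).1 y = 0
    rw [hf0 y hd, zero_smul]
  have h1 := h _ hb
  rw [En4.I_fX] at h1
  have hnn : ∀ y, 0 ≤ f y * qG D.F (η : F2 E4 M) (En4.stX D η : X2 M).1 y := fun y => by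
    refine mul_nonneg (hf01 y).1 ?_
    rw [En4.qG_eq_ip D η η y]
    exact En4.nsqG_nonneg D η.2.1 y
  have hcont : Continuous fun y => f y * qG D.F (η : F2 E4 M) (En4.stX D η : X2 M).1 y :=
    (En4.sF_continuous hf).mul (En4.sF_continuous (En4.sF_qG D η.2 (En4.stX D η).2))
  have hpos := En4.openPos D
  have hfin := D.fin
  have h2 : (fun y => f y * qG D.F (η : F2 E4 M) (En4.stX D η : X2 M).1 y) = 0 := by
    have h3 := (integral_eq_zero_iff_of_nonneg hnn (En4.integrable_cont D hcont)).1 h1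
    exact (Continuous.ae_eq_iff_eq D.μ hcont continuous_zero).1 h3
  have h4 : f x * qG D.F (η : F2 E4 M) (En4.stX D η : X2 M).1 x = 0 := congrFun h2 x
  rw [hf1 x (by rw [dist_self]; linarith), one_mul, En4.qG_eq_ip D η η x] at h4
  refine at2_eq_zero_of_nr D η (le_of_eq ?_)
  have h5 : nsqG D.J D.F (η : F2 E4 M) x = 0 := h4
  have h6 : D.nr (η : F2 E4 M) x = √(nsqG D.J D.F (η : F2 E4 M) x) := rfl
  rw [h6, h5, Real.sqrt_zero]

/-! ### the intersection formula -/

theorem sF_sum {ι : Type*} [Fintype ι] {χ : ι → M → ℝ} (hχ : ∀ j, SmoothF E4 (χ j)) :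
    SmoothF E4 (fun y => ∑ j, χ j y) := by
  classical
  have : ∀ s : Finset ι, SmoothF E4 (fun y => ∑ j ∈ s, χ j y) := by
    intro s
    induction s using Finset.induction_on with
    | empty => simpa using smoothF_const (E := E4) (M := M) 0
    | insert j s hj ih =>
      simp only [Finset.sum_insert hj]
      exact (hχ j).add ih
  exact this Finset.univ

theorem at2_sum {ι : Type*} [Fintype ι] (b : ι → X2 M) (x : M) :
    at2 ((∑ j, b j : X2 M) : F2 E4 M) x = ∑ j, at2 (b j : F2 E4 M) x := by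
  classical
  have : ∀ s : Finset ι, at2 ((∑ j ∈ s, b j : X2 M) : F2 E4 M) x =
      ∑ j ∈ s, at2 (b j : F2 E4 M) x := by
    intro s
    induction s using Finset.induction_on with
    | empty => rfl
    | insert j s hj ih =>
      rw [Finset.sum_insert hj, Finset.sum_insert hj, ← ih]
      rfl
  exact this Finset.univ

/-- `b` vanishes near `K`. -/
def ZNear (K : Set M) (b : X2 M) : Prop :=
  ∃ U : Set M, IsOpen U ∧ K ⊆ U ∧ ∀ x ∈ U, at2 (b : F2 E4 M) x = 0

/-- **INTERSECTION FORMULA.** -/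
theorem int_formula (D : Dat M) {S R : X2 M →ₗ[ℝ] ℝ} {a : X2 M}
    (hS : ∀ b ∈ Z2 M, S b = D.I (a : F2 E4 M) (b : F2 E4 M))
    {𝒰 : Cover M} (hR0 : Dat.KillsExact R) (hRo : FOrd 𝒰 R)
    {KS KR : Set M} (hKS : IsClosed KS) (hKR : IsClosed KR)
    (hSs : ∀ b : X2 M, ZNear KS b → S b = 0) (hRs : ∀ b : X2 M, ZNear KR b → R b = 0)
    {ι : Type*} [Fintype ι] (χ : ι → M → ℝ) (hχ : ∀ j, SmoothF E4 (χ j)) (ψ : ι → F1 E4 M)
    (weak : ∀ j, ∀ η ∈ Z2 M, S (En4.fX (χ j) (hχ j) η) =
      D.I (wedG (ψ j) (dF (χ j))) ((η : X2 M) : F2 E4 M))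
    (hone : ∀ x ∈ KS ∩ KR, ∀ᶠ y in 𝓝 x, ∑ j, χ j y = 1)
    (B : ι → X2 M) {N : Set M} (hN : IsOpen N) (hKN : KR ⊆ N)
    (hB : ∀ j, ∀ x ∈ N, at2 (B j : F2 E4 M) x = at2 (wedG (ψ j) (dF (χ j))) x) :
    R a = ∑ j, R (B j) := by
  classical
  obtain ⟨Sy⟩ := exists_sys (M := M)
  obtain ⟨e1, he1, hex⟩ := fExact Sy
  obtain ⟨e2, he2, hap⟩ := fApprox 𝒰 Sy
  obtain ⟨e3, he3, hrep⟩ := fRep D 𝒰 Sy
  obtain ⟨e4, c, he4, hc, hloc⟩ := exists_loc_A D Sy
  -- the open set on which `∑ χ = 1`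
  set O : Set M := {x | ∀ᶠ y in 𝓝 x, ∑ j, χ j y = 1} with hO
  have hOo : IsOpen O := isOpen_setOfPred_eventually_nhds
  have hOs : KS ∩ KR ⊆ O := hone
  -- a scale
  have hKRc : IsCompact KR := hKR.isCompact
  have hKSc : IsCompact KS := hKS.isCompact
  obtain ⟨δ1, hδ1, hthick1⟩ := hKRc.exists_cthickening_subset_open hN hKN
  have hsub2 : KR ⊆ O ∪ KSᶜ := by
    intro x hx
    by_cases hxS : x ∈ KS
    · exact Or.inl (hOs ⟨hxS, hx⟩)
    · exact Or.inr hxS
  obtain ⟨δ2, hδ2, hthick2⟩ := hKRc.exists_cthickening_subset_open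
    (hOo.union hKS.isOpen_compl) hsub2
  -- the main identity at small scale
  have main : ∀ᶠ e in 𝓝[>] (0 : ℝ), R (Sy.A e (oneK Sy.n) a) =
      ∑ j, R (Sy.A e (oneK Sy.n) (B j)) := by
    have hev : ∀ᶠ e in 𝓝[>] (0 : ℝ), 0 < e ∧ e ≤ e1 ∧ e ≤ e3 ∧ e ≤ e4 ∧ 2 * c * e ≤ δ1 ∧
        2 * c * e ≤ δ2 := by
      have hb : ∀ {d : ℝ}, 0 < d → ∀ᶠ e in 𝓝[>] (0 : ℝ), e ≤ d := fun {d} hd =>
        mem_nhdsWithin_of_mem_nhds (Iic_mem_nhds hd)
      filter_upwards [self_mem_nhdsWithin, hb he1, hb he3, hb he4,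
        hb (show 0 < δ1 / (2 * c) by positivity), hb (show 0 < δ2 / (2 * c) by positivity)]
        with e h0 h1 h3 h4 h5 h6
      refine ⟨h0, h1, h3, h4, ?_, ?_⟩
      · rw [le_div_iff₀ (by positivity)] at h5; linarith
      · rw [le_div_iff₀ (by positivity)] at h6; linarith
    filter_upwards [hev] with e he
    obtain ⟨h0, h1, h3, h4, h5, h6⟩ := he
    obtain ⟨η, hη⟩ := hrep R hRo e (oneK Sy.n) h0 h3
    -- `η` is closed
    have hηZ : η ∈ Z2 M := by
      refine Fund.fund D η fun b hb => ?_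
      rw [← hη b]
      exact hR0 _ (hex e (oneK Sy.n) h0 h1 b hb)
    -- the support of `η`
    have hce : 0 < c * e := by positivity
    have hηs : ∀ x ∉ cthickening (2 * c * e) KR, at2 (η : F2 E4 M) x = 0 := by
      intro x hx
      refine at2_eq_zero_of_I D η (U := (cthickening (2 * c * e) KR)ᶜ)
        isClosed_cthickening.isOpen_compl hx fun b hb => ?_
      rw [← hη b]
      refine hRs _ ⟨thickening (c * e) KR, isOpen_thickening, self_subset_thickening hce KR,
        fun y hy => hloc e h0 h4 b y fun z hz => hb z ?_⟩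
      simp only [mem_compl_iff, not_not]
      rw [mem_thickening_iff] at hy
      obtain ⟨w, hw, hyw⟩ := hy
      refine mem_cthickening_of_dist_le z w _ _ hw ?_
      calc dist z w ≤ dist z y + dist y w := dist_triangle _ _ _
        _ ≤ c * e + c * e := add_le_add hz hyw.le
        _ = 2 * c * e := by ring
    -- splitting of `η`
    have hsmooth : SmoothF E4 (fun y => 1 - ∑ j, χ j y) := by
      refine En4.sF_sub (smoothF_const (E := E4) (M := M) 1) ?_
      exact sF_sum hχ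
    have hdec : η = (∑ j, En4.fX (χ j) (hχ j) η) + En4.fX _ hsmooth η := by
      refine En4.ext_at2 fun x => ?_
      show at2 (η : F2 E4 M) x = at2 ((∑ j, En4.fX (χ j) (hχ j) η : X2 M) : F2 E4 M) x +
        (1 - ∑ j, χ j x) • at2 (η : F2 E4 M) x
      rw [at2_sum]
      have : ∀ j, at2 ((En4.fX (χ j) (hχ j) η : X2 M) : F2 E4 M) x =
        χ j x • at2 (η : F2 E4 M) x := fun j => rfl
      simp only [this]
      rw [← Finset.sum_smul, ← add_smul, add_sub_cancel, one_smul]
    have hzero : S (En4.fX _ hsmooth η) = 0 := by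
      refine hSs _ ⟨O ∪ (cthickening (2 * c * e) KR)ᶜ,
        hOo.union isClosed_cthickening.isOpen_compl, ?_, ?_⟩
      · intro x hx
        by_cases hxO : x ∈ O
        · exact Or.inl hxO
        · refine Or.inr fun hxt => ?_
          rcases hthick2 (cthickening_mono h6 KR hxt) with h | h
          · exact hxO h
          · exact h hx
      · intro x hx
        show (1 - ∑ j, χ j x) • at2 (η : F2 E4 M) x = 0
        rcases hx with hx | hx
        · have : ∑ j, χ j x = 1 := hx.self_of_nhds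
          rw [this, sub_self, zero_smul]
        · rw [hηs x hx, smul_zero]
    have hIj : ∀ j, D.I (wedG (ψ j) (dF (χ j))) (η : F2 E4 M) = R (Sy.A e (oneK Sy.n) (B j)) := by
      intro j
      rw [hη (B j), En4.I_comm]
      unfold Dat.I IG
      congr 1
      funext x
      by_cases hx : x ∈ cthickening (2 * c * e) KR
      · have hxN : x ∈ N := hthick1 (cthickening_mono h5 KR hx)
        unfold qG
        rw [hB j x hxN]
      · unfold qG
        rw [hηs x hx, En4.q_zero_left, En4.q_zero_left]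
    calc R (Sy.A e (oneK Sy.n) a) = D.I (η : F2 E4 M) (a : F2 E4 M) := hη a
      _ = S η := by rw [En4.I_comm, hS η hηZ]
      _ = ∑ j, S (En4.fX (χ j) (hχ j) η) := by
          conv_lhs => rw [hdec]
          rw [map_add, hzero, add_zero, map_sum]
      _ = ∑ j, R (Sy.A e (oneK Sy.n) (B j)) :=
          Finset.sum_congr rfl fun j _ => (weak j η hηZ).trans (hIj j)
  -- passage to the limit
  have hlim : ∀ b : X2 M, Tendsto (fun e : ℝ => R (Sy.A e (oneK Sy.n) b)) (𝓝[>] 0) (𝓝 (R b)) := by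
    intro b
    obtain ⟨m, K, hK⟩ := hRo
    obtain ⟨C, hC⟩ := hap m
    have hlin : Tendsto (fun e : ℝ => |K| * (C * e * 𝒰.cm (m + 1) (b : F2 E4 M))) (𝓝[>] 0)
        (𝓝 0) := by
      have : Tendsto (fun e : ℝ => |K| * (C * e * 𝒰.cm (m + 1) (b : F2 E4 M))) (𝓝 0)
          (𝓝 (|K| * (C * 0 * 𝒰.cm (m + 1) (b : F2 E4 M)))) :=
        (Continuous.tendsto (by fun_prop) 0)
      simp only [mul_zero, zero_mul] at this
      exact this.mono_left nhdsWithin_le_nhds
    rw [tendsto_iff_norm_sub_tendsto_zero]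
    refine squeeze_zero' (Eventually.of_forall fun _ => norm_nonneg _) ?_ hlin
    have hb : ∀ᶠ e in 𝓝[>] (0 : ℝ), e ≤ e2 := mem_nhdsWithin_of_mem_nhds (Iic_mem_nhds he2)
    filter_upwards [self_mem_nhdsWithin, hb] with e h0 h2
    rw [← map_sub, Real.norm_eq_abs]
    refine (hK _).trans ?_
    have h3 := (hC e h0 h2 b).2
    calc K * 𝒰.cm m ((Sy.A e (oneK Sy.n) b - b : X2 M) : F2 E4 M)
        ≤ |K| * 𝒰.cm m ((Sy.A e (oneK Sy.n) b - b : X2 M) : F2 E4 M) :=
          mul_le_mul_of_nonneg_right (le_abs_self K) (cm_nonneg _ _ _)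
      _ ≤ _ := mul_le_mul_of_nonneg_left h3 (abs_nonneg K)
  have hl1 := hlim a
  have hl2 : Tendsto (fun e : ℝ => ∑ j, R (Sy.A e (oneK Sy.n) (B j))) (𝓝[>] 0)
      (𝓝 (∑ j, R (B j))) := tendsto_finsetSum _ fun j _ => hlim (B j)
  exact tendsto_nhds_unique (hl1.congr' main) hl2

end

end Crest.Agent.R235.IntF_250
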