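import Crest.Agent.R235.AdjInt_43
import Crest.Agent.R235.IntF_250
import Crest.Agent.R235.T1A_195

/-!
Row 235 (S0364), PACKAGE ADJ, helper659: node INTW of `AdjInt_43` (wrapper of
`IntF_250.int_formula`).
-/

set_option autoImplicit false
set_option maxSynthPendingDepth 3

open Set Function Filter MeasureTheory Metric
open scoped Manifold ContDiff Topology

universe u

namespace Crest.Agent.R235.IntW_659

open Crest.Agent.R240 Crest.Agent.R240.Ch Crest.Agent.R240.Int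
open Crest.Agent.R235 Crest.Agent.R235.Glob_370 Crest.Agent.R235.Wind_688
open Crest.Agent.R235.Adj Crest.Agent.R235.T1A_195

noncomputable section

theorem _root_.Crest.Agent.R235.T1A_195.Bridge.II_eq {M : Type u} [MetricSpace M] [CompactSpace M]
    [ChartedSpace E4 M] [IsManifold 𝓘(ℝ, E4) ∞ M] [MeasurableSpace M] [BorelSpace M] {w : Trip M}
    {J : EndF E4 M} {D : Dat M} (h : Bridge w J D) (b c : F2 E4 M) :
    II (w 0) b c = D.I b c := by
  obtain rfl : ‹MeasurableSpace M› = borel M := BorelSpace.measurable_eq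
  let _ : MeasurableSpace M := borel M
  exact h.I_eq _ _

theorem intw_aux {M : Type u} [MetricSpace M] [CompactSpace M]
    [ChartedSpace E4 M] [IsManifold 𝓘(ℝ, E4) ∞ M] [MeasurableSpace M] [BorelSpace M]
    (hb : Met.BiLip E4 M) (w : Trip M) (J : EndF E4 M) (hJ : IsJ w J)
    (S R : X2 M →ₗ[ℝ] ℝ) (a : Z2 M) (hS : ∀ b : Z2 M, S b.1 = pI (w 0) a b)
    (hR : ∀ b : X2 M, IsEx (b : F2 E4 M) → R b = 0) (hR0 : Ord0 R)
    (KS KR : Set M) (hKS : IsClosed KS) (hKR : IsClosed KR)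
    (hSs : ∀ b : X2 M, VNear KS b → S b = 0) (hRs : ∀ b : X2 M, VNear KR b → R b = 0)
    (n : ℕ) (χ : Fin n → M → ℝ) (hχ : ∀ j, SmoothF E4 (χ j)) (ψ : Fin n → F1 E4 M)
    (weak : ∀ j, ∀ (η : Z2 M) (b : X2 M), (b.1 : F2 E4 M) = fmul (χ j) (η.1.1 : F2 E4 M) →
        S b = II (w 0) (wedG (ψ j) (dF (χ j))) (η.1.1 : F2 E4 M))
    (hone : ∀ x ∈ KS ∩ KR, ∀ᶠ y in 𝓝 x, ∑ j, χ j y = 1)
    (B : Fin n → X2 M) (N : Set M) (hN : IsOpen N) (hKN : KR ⊆ N)
    (hB : ∀ j, ∀ x ∈ N, at2 (B j : F2 E4 M) x = at2 (wedG (ψ j) (dF (χ j))) x) :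
    R a.1 = ∑ j, R (B j) := by
  obtain ⟨D, hD⟩ := exists_bridge hb hJ
  obtain ⟨𝒰, C, hC⟩ := hR0
  refine IntF_250.int_formula D (S := S) (R := R) (a := a.1) (𝒰 := 𝒰)
    (fun b hb => ?_) hR ⟨0, C, hC⟩ hKS hKR hSs hRs χ hχ ψ (fun j η hη => ?_) hone B hN hKN hB
  · rw [hS ⟨b, hb⟩, hD.pI_eq]
  · rw [weak j ⟨η, hη⟩ (En4.fX (χ j) (hχ j) η) rfl, hD.II_eq]

/-- **INTW** (intersection formula). -/
theorem intw : INTW.{u} := by
  intro M _ _ _ _ _ _ w J _ hJ S R a hS hR hR0 KS KR hKS hKR hSs hRs n χ hχ ψ weak hone B N hN hKN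
    hB
  obtain ⟨m, hm, hb⟩ := Met.exists_metric (E := E4) (M := M)
  subst hm
  let _ : MeasurableSpace M := borel M
  have _ : BorelSpace M := ⟨rfl⟩
  exact intw_aux hb w J hJ S R a hS hR hR0 KS KR hKS hKR hSs hRs n χ hχ ψ weak hone B N hN hKN hB

end

end Crest.Agent.R235.IntW_659
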