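import Crest.Agent.R235.AdjIsec_43
import Crest.Agent.R235.AdjPush_470
import Crest.Agent.R235.AdjCut_470
import Crest.Agent.R235.Brint_464
import Crest.Agent.R235.IntW_659
import Crest.Agent.R235.Cord_659
import Crest.Agent.R235.Degs_370
import Crest.Agent.R235.Bch_370
import Crest.Agent.R235.BoxG_266

/-!
Row 235 (S0364), PACKAGE ADJ, helper43: `ADJ` and `ISEC`, closed theorems.
-/

set_option autoImplicit false
set_option maxSynthPendingDepth 3

universe u

namespace Crest.Agent.R235.AdjTop_43

open Crest.Agent.R235 Crest.Agent.R235.Adj Crest.Agent.R235.BoxL2_266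

/-- **the adjunction inequality.** -/
theorem adj : ADJ.{u} :=
  AdjMain_43.adj boxp AdjPush_470.push Field_910.field IntW_659.intw
    Cord_659.cord AdjCut_470.cutf Brint_464.brint Degs_370.degs Bch_370.bch

/-- **intersection numbers.** -/
theorem isec : ISEC.{u} :=
  AdjIsec_43.isec boxp IntW_659.intw Cord_659.cord AdjCut_470.cutf Brint_464.brint

end Crest.Agent.R235.AdjTop_43
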