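import Crest.Agent.R235.AdjSmall_43
import Crest.Agent.R235.Ip_288

/-!
Row 235 (S0364), PACKAGE ADJ, helper43: the value of the pushed current on `dArg F ∧ dχ`.
-/

set_option autoImplicit false
set_option maxSynthPendingDepth 3
set_option linter.unusedSectionVars false

open Set Function Filter MeasureTheory Metric
open scoped Manifold ContDiff Topology Real

universe u

namespace Crest.Agent.R235.AdjVal_43

open Crest.Agent.R240 Crest.Agent.R240.Ch Crest.Agent.R240.Int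
open Crest.Agent.R235 Crest.Agent.R235.Glob_370 Crest.Agent.R235.Wind_688 Crest.Agent.R235.Adj
open Crest.Agent.R235.AdjGen_83 Crest.Agent.R235.AdjLoc_43 Crest.Agent.R235.AdjGeo_43
open Crest.Agent.R235.AdjSmall_43

noncomputable section

variable {M : Type u} [TopologicalSpace M] [T2Space M] [CompactSpace M] [ConnectedSpace M]
  [ChartedSpace E4 M] [IsManifold 𝓘(ℝ, E4) ∞ M] {J : EndF E4 M} {c : JCurve J}

/-- the differential of a locally constant function. -/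
theorem dF_const {χ : M → ℝ} {x : M} {a : ℝ} (h : χ =ᶠ[𝓝 x] fun _ => a) :
    at1 (dF χ : F1 E4 M) x = 0 := by
  have hx : x ∈ (chartAt E4 x).source := mem_chart_source E4 x
  have hy : chartAt E4 x x ∈ (chartAt E4 x).target := mem_chart_target E4 x
  have h1 : Tendsto (chartAt E4 x).symm (𝓝 (chartAt E4 x x)) (𝓝 x) := by
    have := (chartAt E4 x).symm.continuousAt (x := chartAt E4 x x) (by simp)
    rw [ContinuousAt, (chartAt E4 x).left_inv hx] at this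
    exact this
  have h2 : repF x χ =ᶠ[𝓝 (chartAt E4 x x)] fun _ => a := h1.eventually h
  show fderiv ℝ (repF x χ) (chartAt E4 x x) = 0
  rw [h2.fderiv_eq]
  simp

theorem wedG_zero {s t : F1 E4 M} {x : M} (h : at1 t x = 0) : at2 (wedG s t) x = 0 := by
  show ((at1 s x).smulRight (at1 t x) - (at1 t x).smulRight (at1 s x) : E4 →L[ℝ] E4 →L[ℝ] ℝ) = 0
  rw [h]
  ext u v
  simp

/-- the flow at time `t` is continuous. -/
theorem Φ_cont {X : VF E4 M} (P : Push X) {t : ℝ} (ht : t ∈ Ioo (-P.t0) P.t0) :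
    Continuous (P.Φ t) := by
  have h := P.smooth.continuousOn
  rw [← continuousOn_univ]
  exact h.comp (f := fun x : M => (t, x)) (by fun_prop) fun x _ => ⟨ht, mem_univ _⟩

theorem Φ_smooth {X : VF E4 M} (P : Push X) {t : ℝ} (ht : t ∈ Ioo (-P.t0) P.t0) (x : M) :
    ContMDiffAt 𝓘(ℝ, E4) 𝓘(ℝ, E4) ∞ (P.Φ t) x := by
  have h1 : ContMDiffAt (𝓘(ℝ, ℝ).prod 𝓘(ℝ, E4)) 𝓘(ℝ, E4) ∞
      (fun q : ℝ × M => P.Φ q.1 q.2) (t, x) :=
    P.smooth.contMDiffAt ((isOpen_Ioo.prod isOpen_univ).mem_nhds ⟨ht, mem_univ _⟩)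
  have h2 : ContMDiffAt 𝓘(ℝ, E4) (𝓘(ℝ, ℝ).prod 𝓘(ℝ, E4)) ∞ (fun x : M => (t, x)) x :=
    contMDiffAt_const.prodMk contMDiffAt_id
  exact ContMDiffAt.comp (g := fun q : ℝ × M => P.Φ q.1 q.2) (f := fun x : M => (t, x)) x h1 h2

theorem isClosed_push {X : VF E4 M} (P : Push X) {t : ℝ} (ht : t ∈ Ioo (-P.t0) P.t0) :
    IsClosed (P.Φ t '' range c.f) :=
  ((isCompact_range c.cont).image (Φ_cont P ht)).isClosed

/-- **the smooth form `B`.** -/
theorem exists_B (hcut : CUTF.{u}) {w : Trip M} {p : M} {V V' : Set M} {B : Box w c p V}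
    {k : KSec c.A} (L : Loc c B k) {X : VF E4 M} (P : Push X) {t : ℝ}
    (ht : t ∈ Ioo (-P.t0) P.t0) (hS : Small L P t)
    (hne : ∀ x ∈ range c.f \ V', P.Φ t x ∉ range c.f)
    (hV : ∀ j, ∀ z : ℂ, L.ρ / 2 ≤ ‖z‖ → ‖z‖ < B.r0 → (c.L p).u j z ∉ V') :
    ∃ (Bf : X2 M) (N : Set M), IsOpen N ∧ P.Φ t '' range c.f ⊆ N ∧
      (∀ x ∈ N, at2 (Bf : F2 E4 M) x = at2 (wedG (dArg B.F) (dF L.χ)) x) ∧
      ∀ x ∉ tsupport L.χ, at2 (Bf : F2 E4 M) x = 0 := by
  have hr0 := B.r0_pos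
  have hρ0 := L.ρ_pos
  have hρ1 := L.ρ_lt
  set O : Set M := {x | L.χ =ᶠ[𝓝 x] fun _ => 1} with hO
  have hOo : IsOpen O := isOpen_setOfPred_eventually_nhds
  have hD : ∀ x ∉ tsupport L.χ ∩ Oᶜ, at1 (dF L.χ : F1 E4 M) x = 0 := by
    intro x hx
    by_cases hxs : x ∈ tsupport L.χ
    · have : x ∈ O := by
        by_contra h
        exact hx ⟨hxs, h⟩
      exact dF_const this
    · refine dF_const (a := 0) ?_
      have := (isClosed_tsupport L.χ).isOpen_compl.mem_nhds hxs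
      filter_upwards [this] with y hy
      exact image_eq_zero_of_notMem_tsupport hy
  have hKD : P.Φ t '' range c.f ∩ (tsupport L.χ ∩ Oᶜ) ⊆ (B.U \ B.E) ∩ (range c.f)ᶜ := by
    rintro y ⟨⟨x, hx, rfl⟩, hys, hyO⟩
    have hK := hS.supp x hys
    obtain ⟨j, z, hz, -, -, hu⟩ := exists_of_Nb c (by linarith [B.r0_le]) hx (L.KN hK)
    have hz' : ‖z‖ < B.r0 / 2 := by simpa using hz
    have hzρ : L.ρ < ‖z‖ := by
      by_contra hle
      refine hyO ?_
      rw [← hu]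
      exact hS.one j z (by simpa using not_lt.1 hle)
    refine ⟨?_, ?_⟩
    · rw [← hu]
      exact hS.ann j z (by linarith) (by linarith)
    · refine hne x ⟨hx, ?_⟩
      rw [← hu]
      exact hV j z (by linarith) (by linarith)
  obtain ⟨Bf, N, h1, h2, h3, h4⟩ := hcut M B.F L.χ ((B.U \ B.E) ∩ (range c.f)ᶜ)
    (P.Φ t '' range c.f) (tsupport L.χ ∩ Oᶜ)
    (B.closedE.inter (isClosed_range c).isOpen_compl)
    (fun x hx => B.smooth x hx.1.1 hx.1.2)
    (fun x hx h => hx.2 ((B.zero x hx.1.1).1 h)) L.smooth (isClosed_push P ht)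
    ((isClosed_tsupport _).inter hOo.isClosed_compl) hD hKD
  exact ⟨Bf, N, h1, h2, h3, fun x hx => h4 x fun h => hx h.1⟩

/-- **the value of the pushed current.** -/
theorem R_val (hbr : BRINT.{u}) {w : Trip M} {p : M} {V V' : Set M} {B : Box w c p V}
    {k : KSec c.A} (L : Loc c B k) {X : VF E4 M} (P : Push X) {t : ℝ}
    (ht : t ∈ Ioo (-P.t0) P.t0) (hS : Small L P t)
    (hne : ∀ x ∈ range c.f \ V', P.Φ t x ∉ range c.f)
    (hV : ∀ j, ∀ z : ℂ, L.ρ / 2 ≤ ‖z‖ → ‖z‖ < B.r0 → (c.L p).u j z ∉ V')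
    {Bf : X2 M} {N : Set M} (hN : P.Φ t '' range c.f ⊆ N)
    (h1 : ∀ x ∈ N, at2 (Bf : F2 E4 M) x = at2 (wedG (dArg B.F) (dF L.χ)) x)
    (h2 : ∀ x ∉ tsupport L.χ, at2 (Bf : F2 E4 M) x = 0) :
    c.T (P.P t Bf) = ∑ j, ((B.m j + ordφ k p j : ℤ) : ℝ) := by
  have hr0 := B.r0_pos
  have hr1 := B.r0_le
  have hρ0 := L.ρ_pos
  have hρ1 := L.ρ_lt
  have hKL : L.K ⊆ (c.L p).U := fun x hx => B.subL (L.KU hx)
  rw [c.cur p (P.P t Bf) L.K L.compact hKL fun x hx =>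
    P.supp t ht Bf x (h2 _ fun h => hx (hS.supp x h))]
  refine Finset.sum_congr rfl fun j _ => ?_
  have hsm : ∀ z ∈ ball (0 : ℂ) 1, ContMDiffAt 𝓘(ℝ, ℂ) 𝓘(ℝ, E4) ∞ ((c.L p).u j) z :=
    fun z hz => u_smooth c p j hz
  rw [setIntegral_congr_fun measurableSet_ball
    (g := fun z => pb (fun y => P.Φ t ((c.L p).u j y)) (Bf : F2 E4 M) z)
    fun z hz => P.pull t ht _ z (hsm z hz) Bf]
  refine hbr M B.F L.χ (fun y => P.Φ t ((c.L p).u j y)) Bf (L.ρ / 2) L.ρ (B.r0 / 2)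
    (3 / 4 * B.r0) (B.m j + ordφ k p j) (by linarith) (by linarith) hρ1 (by linarith)
    (by linarith) (fun z hz => ?_) L.smooth (fun z hz1 hz2 => ?_) (hS.one j)
    (fun z hz1 hz2 => ?_) (fun z hz => ?_) (hS.wind j)
  · exact (ContMDiffAt.comp (g := P.Φ t) (f := (c.L p).u j) z (Φ_smooth P ht _)
      (hsm z hz)).contMDiffWithinAt
  · have h3 := hS.ann j z hz1.le hz2.le
    have hz3 : z ∈ ball (0 : ℂ) 1 := by
      rw [mem_ball_zero_iff]; linarith
    refine ⟨B.smooth _ h3.1 h3.2, fun h0 => ?_⟩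
    exact hne _ ⟨u_mem c p j hz3, hV j z hz1.le (by linarith)⟩ ((B.zero _ h3.1).1 h0)
  · have h3 : P.Φ t ((c.L p).u j z) ∉ tsupport L.χ := by
      intro h
      have := lt_of_Nb c (by linarith) hz1 (L.KN (hS.supp _ h))
      linarith
    have := (isClosed_tsupport L.χ).isOpen_compl.mem_nhds h3
    filter_upwards [this] with y hy
    exact image_eq_zero_of_notMem_tsupport hy
  · exact h1 _ (hN ⟨_, u_mem c p j hz, rfl⟩)

end

end Crest.Agent.R235.AdjVal_43
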