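import Mathlib

/-!
Row 235 (S0364), helper755. SW-FS6 = SW-CPT, part A: sequential criterion for compactness and
continuity of nonlinear maps which factor through a compact embedding.

`SeqK j B K` : if `t_n → t0` in `B`, `w_n` bounded and `j w_n` converges, then `K (t_n) (w_n)`
converges.
* `SeqK.continuousOn`  : `K` is continuous on `B × W`;
* `SeqK.exists_compact` : `j` compact, `B` compact: bounded sets go into compact sets;
* closure properties.
-/

set_option autoImplicit false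

open Set Filter Topology

namespace Crest.Agent.R235.CptA_755

/-- sequential criterion. -/
def SeqK {T W H Y : Type*} [TopologicalSpace T] [NormedAddCommGroup W] [TopologicalSpace H]
    [TopologicalSpace Y] (j : W → H) (B : Set T) (K : T → W → Y) : Prop :=
  ∀ (t : ℕ → T) (t0 : T) (w : ℕ → W) (ξ : H) (R : ℝ), t0 ∈ B → (∀ n, t n ∈ B) →
    Tendsto t atTop (𝓝 t0) → (∀ n, ‖w n‖ ≤ R) → Tendsto (fun n => j (w n)) atTop (𝓝 ξ) →
    ∃ y, Tendsto (fun n => K (t n) (w n)) atTop (𝓝 y)

section basic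

variable {T W H Y Z : Type*} [TopologicalSpace T] [NormedAddCommGroup W] [TopologicalSpace H]
  [TopologicalSpace Y] [TopologicalSpace Z] {j : W → H} {B : Set T}

/-- the limit is the value if the sequences converge. -/
theorem SeqK.tendsto [T2Space Y] {K : T → W → Y} (hK : SeqK j B K) {t : ℕ → T} {t0 : T}
    {w : ℕ → W} {w0 : W} {R : ℝ} (ht0 : t0 ∈ B) (htB : ∀ n, t n ∈ B)
    (ht : Tendsto t atTop (𝓝 t0)) (hw : ∀ n, ‖w n‖ ≤ R)
    (hj : Tendsto (fun n => j (w n)) atTop (𝓝 (j w0))) :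
    Tendsto (fun n => K (t n) (w n)) atTop (𝓝 (K t0 w0)) := by
  classical
  -- interleave
  let t' : ℕ → T := fun n => if Even n then t (n / 2) else t0
  let w' : ℕ → W := fun n => if Even n then w (n / 2) else w0
  have h2 : Tendsto (fun n : ℕ => n / 2) atTop atTop := by
    refine tendsto_atTop.2 fun b => ?_
    filter_upwards [eventually_ge_atTop (2 * b)] with n hn
    omega
  have ht' : Tendsto t' atTop (𝓝 t0) := by
    have h3 : Tendsto (fun n : ℕ => t (n / 2)) atTop (𝓝 t0) := ht.comp h2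
    refine tendsto_nhds.2 fun s hs hts => ?_
    have h4 := h3 (hs.mem_nhds hts)
    filter_upwards [h4] with n hn
    show (if Even n then t (n / 2) else t0) ∈ s
    split_ifs
    · exact hn
    · exact hts
  have hj' : Tendsto (fun n => j (w' n)) atTop (𝓝 (j w0)) := by
    have h3 : Tendsto (fun n : ℕ => j (w (n / 2))) atTop (𝓝 (j w0)) := hj.comp h2
    refine tendsto_nhds.2 fun s hs hts => ?_
    have h4 := h3 (hs.mem_nhds hts)
    filter_upwards [h4] with n hn
    show j (if Even n then w (n / 2) else w0) ∈ s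
    split_ifs
    · exact hn
    · exact hts
  obtain ⟨y, hy⟩ := hK t' t0 w' (j w0) (max R ‖w0‖) ht0
    (fun n => by show (if Even n then t (n / 2) else t0) ∈ B; split_ifs; exacts [htB _, ht0]) ht'
    (fun n => by
      show ‖if Even n then w (n / 2) else w0‖ ≤ _
      split_ifs
      · exact (hw _).trans (le_max_left _ _)
      · exact le_max_right _ _) hj'
  have hodd : Tendsto (fun n : ℕ => 2 * n + 1) atTop atTop :=
    tendsto_atTop.2 fun b => by filter_upwards [eventually_ge_atTop b] with n hn; omega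
  have heven : Tendsto (fun n : ℕ => 2 * n) atTop atTop :=
    tendsto_atTop.2 fun b => by filter_upwards [eventually_ge_atTop b] with n hn; omega
  have h5 : Tendsto (fun _ : ℕ => K t0 w0) atTop (𝓝 y) := by
    refine (hy.comp hodd).congr fun n => ?_
    have hn : ¬ Even (2 * n + 1) := by simp
    show K (if Even (2 * n + 1) then t ((2 * n + 1) / 2) else t0)
      (if Even (2 * n + 1) then w ((2 * n + 1) / 2) else w0) = K t0 w0
    rw [if_neg hn, if_neg hn]
  have hyeq : y = K t0 w0 := tendsto_nhds_unique h5 tendsto_const_nhds |>.symm ▸ rfl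
  rw [← hyeq]
  refine (hy.comp heven).congr fun n => ?_
  have hn : Even (2 * n) := even_two_mul n
  have hn2 : 2 * n / 2 = n := by omega
  show K (if Even (2 * n) then t ((2 * n) / 2) else t0)
      (if Even (2 * n) then w ((2 * n) / 2) else w0) = K (t n) (w n)
  rw [if_pos hn, if_pos hn, hn2]

end basic

section metric

variable {T W H Y : Type*} [MetricSpace T] [NormedAddCommGroup W] [MetricSpace H]
  [MetricSpace Y] {j : W → H} {B : Set T} {K : T → W → Y}

/-- continuity. -/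
theorem SeqK.continuousOn (hK : SeqK j B K) (hj : Continuous j) :
    ContinuousOn (fun q : T × W => K q.1 q.2) {q | q.1 ∈ B} := by
  intro q hq
  refine tendsto_of_seq_tendsto fun x hx => ?_
  obtain ⟨hx1, hx2⟩ := tendsto_nhdsWithin_iff.1 hx
  obtain ⟨N, hN⟩ := eventually_atTop.1 hx2
  have ht : Tendsto (fun n => (x (n + N)).1) atTop (𝓝 q.1) :=
    (continuous_fst.tendsto q).comp (hx1.comp (tendsto_add_atTop_nat N))
  have hw : Tendsto (fun n => (x (n + N)).2) atTop (𝓝 q.2) :=
    (continuous_snd.tendsto q).comp (hx1.comp (tendsto_add_atTop_nat N))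
  obtain ⟨R, hR⟩ : ∃ R, ∀ n, ‖(x (n + N)).2‖ ≤ R := by
    obtain ⟨R, hR⟩ := hw.norm.bddAbove_range
    exact ⟨R, fun n => hR ⟨n, rfl⟩⟩
  have := hK.tendsto (w0 := q.2) hq (fun n => hN _ (Nat.le_add_left N n)) ht hR
    ((hj.tendsto q.2).comp hw)
  exact (tendsto_add_atTop_iff_nat N).1 this

/-- compactness. -/
theorem SeqK.exists_compact (hK : SeqK j B K) (hB : IsCompact B)
    (hj : ∀ R : ℝ, ∃ C : Set H, IsCompact C ∧ ∀ w, ‖w‖ ≤ R → j w ∈ C) (R : ℝ) :
    ∃ C : Set Y, IsCompact C ∧ ∀ t w, t ∈ B → ‖w‖ ≤ R → K t w ∈ C := by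
  obtain ⟨C0, hC0, hjC⟩ := hj R
  let S : Set Y := {y | ∃ t w, t ∈ B ∧ ‖w‖ ≤ R ∧ K t w = y}
  refine ⟨closure S, ?_, fun t w ht hw => subset_closure ⟨t, w, ht, hw, rfl⟩⟩
  rw [isCompact_iff_isSeqCompact]
  intro y hy
  have h1 : ∀ n : ℕ, ∃ s ∈ S, dist (y n) s < 1 / ((n : ℝ) + 1) := fun n =>
    Metric.mem_closure_iff.1 (hy n) _ (by positivity)
  choose s hs hys using h1
  choose t w htB hwR hsK using hs
  obtain ⟨t0, ht0, φ, hφ, htφ⟩ := hB.tendsto_subseq htB
  obtain ⟨ξ, _, ψ, hψ, hξ⟩ := hC0.tendsto_subseq (fun n => hjC (w (φ n)) (hwR (φ n)))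
  obtain ⟨y0, hy0⟩ := hK (fun n => t (φ (ψ n))) t0 (fun n => w (φ (ψ n))) ξ R ht0
    (fun n => htB _) (htφ.comp hψ.tendsto_atTop) (fun n => hwR _) hξ
  have hs0 : Tendsto (fun n => s (φ (ψ n))) atTop (𝓝 y0) := by
    refine hy0.congr fun n => ?_
    exact hsK _
  have hy1 : Tendsto (fun n => y (φ (ψ n))) atTop (𝓝 y0) := by
    have hd : Tendsto (fun n => dist (y (φ (ψ n))) (s (φ (ψ n)))) atTop (𝓝 0) := by
      have h3 : Tendsto (fun n : ℕ => dist (y n) (s n)) atTop (𝓝 0) :=
        squeeze_zero (fun n => dist_nonneg) (fun n => (hys n).le)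
          tendsto_one_div_add_atTop_nhds_zero_nat
      exact h3.comp (hφ.comp hψ).tendsto_atTop
    exact hs0.congr_dist (by simpa [dist_comm] using hd)
  refine ⟨y0, ?_, φ ∘ ψ, hφ.comp hψ, hy1⟩
  exact isClosed_closure.mem_of_tendsto hy1 (Eventually.of_forall fun n => hy _)

/-- images of relatively compact sets from a compact operator. -/
theorem compact_ball {W H : Type*} [NormedAddCommGroup W] [NormedSpace ℝ W] [NormedAddCommGroup H]
    [NormedSpace ℝ H] {j : W →L[ℝ] H} (hj : IsCompactOperator j) (R : ℝ) :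
    ∃ C : Set H, IsCompact C ∧ ∀ w, ‖w‖ ≤ R → j w ∈ C := by
  obtain ⟨C, hC, hs⟩ := hj.image_closedBall_subset_compact R
  exact ⟨C, hC, fun w hw => hs ⟨w, by simpa using hw, rfl⟩⟩

end metric

section closure

variable {T W H Y Z : Type*} [TopologicalSpace T] [NormedAddCommGroup W] [TopologicalSpace H]
  {j : W → H} {B : Set T}

theorem SeqK.prod [TopologicalSpace Y] [TopologicalSpace Z] {K : T → W → Y} {K' : T → W → Z}
    (h : SeqK j B K) (h' : SeqK j B K') : SeqK j B (fun t w => (K t w, K' t w)) := by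
  intro t t0 w ξ R ht0 htB ht hw hj
  obtain ⟨y, hy⟩ := h t t0 w ξ R ht0 htB ht hw hj
  obtain ⟨z, hz⟩ := h' t t0 w ξ R ht0 htB ht hw hj
  exact ⟨(y, z), hy.prodMk_nhds hz⟩

/-- composition with a continuous map. -/
theorem SeqK.comp [TopologicalSpace Y] [TopologicalSpace Z] {K : T → W → Y}
    (h : SeqK j B K) {g : T → Y → Z} (hg : ContinuousOn (fun q : T × Y => g q.1 q.2)
      {q | q.1 ∈ B}) :
    SeqK j B (fun t w => g t (K t w)) := by
  intro t t0 w ξ R ht0 htB ht hw hj
  obtain ⟨y, hy⟩ := h t t0 w ξ R ht0 htB ht hw hj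
  refine ⟨g t0 y, ?_⟩
  have h1 : Tendsto (fun n => ((t n, K (t n) (w n)) : T × Y)) atTop (𝓝[{q | q.1 ∈ B}] (t0, y)) :=
    tendsto_nhdsWithin_iff.2 ⟨ht.prodMk_nhds hy, Eventually.of_forall fun n => htB n⟩
  exact (hg (t0, y) ht0).tendsto.comp h1

theorem SeqK.clm {W H Y Z : Type*} [NormedAddCommGroup W] [TopologicalSpace H]
    [NormedAddCommGroup Y] [NormedSpace ℝ Y] [NormedAddCommGroup Z] [NormedSpace ℝ Z]
    {j : W → H} {B : Set T} {K : T → W → Y} (h : SeqK j B K) (g : Y →L[ℝ] Z) :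
    SeqK j B (fun t w => g (K t w)) :=
  h.comp (g := fun _ y => g y) (g.continuous.comp continuous_snd).continuousOn

theorem SeqK.add [TopologicalSpace Y] [AddCommGroup Y] [ContinuousAdd Y] {K K' : T → W → Y}
    (h : SeqK j B K) (h' : SeqK j B K') : SeqK j B (fun t w => K t w + K' t w) := by
  intro t t0 w ξ R ht0 htB ht hw hj
  obtain ⟨y, hy⟩ := h t t0 w ξ R ht0 htB ht hw hj
  obtain ⟨z, hz⟩ := h' t t0 w ξ R ht0 htB ht hw hj
  exact ⟨y + z, hy.add hz⟩

/-- a map which only depends continuously on `(t, j w)`. -/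
theorem SeqK.of_continuous [TopologicalSpace Y] {g : T → H → Y}
    (hg : ContinuousOn (fun q : T × H => g q.1 q.2) {q | q.1 ∈ B}) :
    SeqK j B (fun t w => g t (j w)) := by
  intro t t0 w ξ R ht0 htB ht hw hj
  refine ⟨g t0 ξ, ?_⟩
  have h1 : Tendsto (fun n => ((t n, j (w n)) : T × H)) atTop (𝓝[{q | q.1 ∈ B}] (t0, ξ)) :=
    tendsto_nhdsWithin_iff.2 ⟨ht.prodMk_nhds hj, Eventually.of_forall fun n => htB n⟩
  exact (hg (t0, ξ) ht0).tendsto.comp h1

end closure

end Crest.Agent.R235.CptA_755
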