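import Mathlib
import Crest.Agent.R249.Tv3_57
import Crest.Agent.R235.CptA_755

/-!
Row 235 (S0364), helper755. SW-FS6 = SW-CPT, part B: Nemytskii operators on `L²(M; ℝ^κ)`.

`NemOK μ B Q` : `Q t x v` measurable in `x`, bounded, Lipschitz in `v`, continuous in `t ∈ B`
uniformly in `(x,v)`.
* `nem Q t u` : the superposition operator `HH μ κ → HH μ λ`;
* `coe_nem`, `nem_lip`, `nem_continuousOn`, `nem_bound`.
-/

set_option autoImplicit false
set_option linter.unusedSectionVars false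

open MeasureTheory Set Filter Topology
open scoped ENNReal NNReal

noncomputable section

namespace Crest.Agent.R235.CptB_755

open Crest.Agent.R249.Tv57

variable {T X : Type*} [TopologicalSpace T] [MeasurableSpace X] {μ : Measure X}
  {κ ν : Type} [Fintype κ] [Fintype ν]

/-- hypotheses on a superposition. -/
structure NemOK (μ : Measure X) (B : Set T) (Q : T → X → (κ → ℝ) → (ν → ℝ)) : Prop where
  meas : ∀ t ∈ B, ∀ u : κ → X → ℝ, (∀ a, AEStronglyMeasurable (u a) μ) →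
    ∀ l, AEStronglyMeasurable (fun x => Q t x (fun a => u a x) l) μ
  lip : ∃ L : ℝ, 0 ≤ L ∧ ∀ t ∈ B, ∀ x v v' l, |Q t x v l - Q t x v' l| ≤ L * ∑ a, |v a - v' a|
  bd : ∃ C : ℝ, 0 ≤ C ∧ ∀ t ∈ B, ∀ x v l, |Q t x v l| ≤ C
  cont : ∀ t0 ∈ B, ∀ ε > 0, ∀ᶠ t in 𝓝[B] t0, ∀ x v l, |Q t x v l - Q t0 x v l| ≤ ε

open Classical in
/-- the superposition operator (zero if not square integrable). -/
def nem (Q : T → X → (κ → ℝ) → (ν → ℝ)) (t : T) (u : HH μ κ) : HH μ ν :=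
  WithLp.toLp 2 fun l =>
    if h : MemLp (fun x => Q t x (fun a => (u a : X → ℝ) x) l) 2 μ then h.toLp _ else 0

theorem nem_memLp [IsFiniteMeasure μ] {B : Set T} {Q : T → X → (κ → ℝ) → (ν → ℝ)}
    (hQ : NemOK μ B Q) {t : T} (ht : t ∈ B) (u : HH μ κ) (l : ν) :
    MemLp (fun x => Q t x (fun a => (u a : X → ℝ) x) l) 2 μ := by
  obtain ⟨C, _, hC⟩ := hQ.bd
  exact MemLp.of_bound (hQ.meas t ht _ (fun a => Lp.aestronglyMeasurable (u a)) l) C
    (Eventually.of_forall fun x => by rw [Real.norm_eq_abs]; exact hC t ht _ _ _)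

theorem coe_nem [IsFiniteMeasure μ] {B : Set T} {Q : T → X → (κ → ℝ) → (ν → ℝ)}
    (hQ : NemOK μ B Q) {t : T} (ht : t ∈ B) (u : HH μ κ) :
    ∀ᵐ x ∂μ, ∀ l, ((nem Q t u) l : X → ℝ) x = Q t x (fun a => (u a : X → ℝ) x) l := by
  rw [ae_all_iff]
  intro l
  have h := nem_memLp hQ ht u l
  have h1 : (nem Q t u) l = h.toLp _ := dif_pos h
  rw [h1]
  exact h.coeFn_toLp

theorem nem_lip [IsFiniteMeasure μ] {B : Set T} {Q : T → X → (κ → ℝ) → (ν → ℝ)}
    (hQ : NemOK μ B Q) {L : ℝ} (hL0 : 0 ≤ L)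
    (hL : ∀ t ∈ B, ∀ x v v' l, |Q t x v l - Q t x v' l| ≤ L * ∑ a, |v a - v' a|)
    {t : T} (ht : t ∈ B) (u v : HH μ κ) (l : ν) :
    ‖(nem Q t u) l - (nem Q t v) l‖ ≤ L * ∑ a, ‖u a - v a‖ := by
  have h1 : ‖(nem Q t u) l - (nem Q t v) l‖ ≤ ‖L • ∑ a, |u a - v a|‖ := by
    refine Lp.norm_le_norm_of_ae_le ?_
    have e5 : ∀ᵐ x ∂μ, ∀ a, (|u a - v a| : Lp ℝ 2 μ) x = |(u a : X → ℝ) x - (v a : X → ℝ) x| := by
      rw [ae_all_iff]
      intro a
      filter_upwards [Lp.coeFn_abs (u a - v a), Lp.coeFn_sub (u a) (v a)] with x e1 e2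
      rw [e1, e2, Pi.sub_apply]
    filter_upwards [coe_nem hQ ht u, coe_nem hQ ht v, Lp.coeFn_sub ((nem Q t u) l) ((nem Q t v) l),
      Lp.coeFn_smul L (∑ a, |u a - v a|), e5,
      Lp.coeFn_fun_finsetSum Finset.univ (fun a => |u a - v a|)] with x e1 e2 e3 e4 e5 e6
    rw [e3, Pi.sub_apply, e1, e2, e4, Pi.smul_apply, smul_eq_mul, e6]
    rw [Real.norm_eq_abs, Real.norm_eq_abs]
    refine (hL t ht x _ _ l).trans ?_
    refine le_trans ?_ (le_abs_self _)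
    refine mul_le_mul_of_nonneg_left (le_of_eq ?_) hL0
    exact Finset.sum_congr rfl fun a _ => (e5 a).symm
  refine h1.trans ?_
  rw [norm_smul, Real.norm_eq_abs, abs_of_nonneg hL0]
  refine mul_le_mul_of_nonneg_left ?_ hL0
  refine (norm_sum_le _ _).trans (le_of_eq ?_)
  exact Finset.sum_congr rfl fun a _ => norm_abs_eq_norm _

theorem nem_time [IsFiniteMeasure μ] {B : Set T} {Q : T → X → (κ → ℝ) → (ν → ℝ)}
    (hQ : NemOK μ B Q) {t t0 : T} (ht : t ∈ B) (ht0 : t0 ∈ B) {ε : ℝ} (hε : 0 ≤ ε)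
    (h : ∀ x v l, |Q t x v l - Q t0 x v l| ≤ ε) (u : HH μ κ) (l : ν) :
    ‖(nem Q t u) l - (nem Q t0 u) l‖ ≤ (measureUnivNNReal μ : ℝ) ^ ((2 : ℝ≥0∞).toReal)⁻¹ * ε := by
  refine Lp.norm_le_of_ae_bound hε ?_
  filter_upwards [coe_nem hQ ht u, coe_nem hQ ht0 u,
    Lp.coeFn_sub ((nem Q t u) l) ((nem Q t0 u) l)] with x e1 e2 e3
  rw [e3, Pi.sub_apply, e1, e2, Real.norm_eq_abs]
  exact h x _ l

theorem nem_continuousOn [IsFiniteMeasure μ] {B : Set T} {Q : T → X → (κ → ℝ) → (ν → ℝ)}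
    (hQ : NemOK μ B Q) :
    ContinuousOn (fun q : T × HH μ κ => nem Q q.1 q.2) {q | q.1 ∈ B} := by
  rintro ⟨t0, u0⟩ ht0
  simp only [mem_ofPred_eq] at ht0
  obtain ⟨L, hL0, hL⟩ := hQ.lip
  -- componentwise
  have hcomp : ∀ l : ν, Tendsto (fun q : T × HH μ κ => (nem Q q.1 q.2) l)
      (𝓝[{q | q.1 ∈ B}] (t0, u0)) (𝓝 ((nem Q t0 u0) l)) := by
    intro l
    rw [tendsto_iff_norm_sub_tendsto_zero]
    rw [Metric.tendsto_nhds]
    intro ε hε
    set c : ℝ := (measureUnivNNReal μ : ℝ) ^ ((2 : ℝ≥0∞).toReal)⁻¹ with hc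
    have hc0 : 0 ≤ c := by positivity
    have hδ : 0 < ε / (2 * (c + 1)) := by positivity
    have h1 : ∀ᶠ q : T × HH μ κ in 𝓝[{q | q.1 ∈ B}] (t0, u0),
        ∀ x v l, |Q q.1 x v l - Q t0 x v l| ≤ ε / (2 * (c + 1)) := by
      have h2 := hQ.cont t0 ht0 _ hδ
      have h3 : Tendsto (fun q : T × HH μ κ => q.1) (𝓝[{q | q.1 ∈ B}] (t0, u0)) (𝓝[B] t0) := by
        refine tendsto_nhdsWithin_iff.2 ⟨?_, ?_⟩
        · exact (continuous_fst.tendsto (t0, u0)).mono_left nhdsWithin_le_nhds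
        · exact eventually_mem_nhdsWithin.mono fun q hq => hq
      exact h3.eventually h2
    have h4 : ∀ᶠ q : T × HH μ κ in 𝓝[{q | q.1 ∈ B}] (t0, u0),
        L * ∑ a, ‖q.2 a - u0 a‖ < ε / 2 := by
      have h5 : Continuous fun q : T × HH μ κ => L * ∑ a, ‖q.2 a - u0 a‖ := by
        refine continuous_const.mul (continuous_finsetSum _ fun a _ => ?_)
        have : Continuous fun q : T × HH μ κ => q.2 a :=
          (PiLp.continuous_apply 2 (fun _ : κ => Lp ℝ 2 μ) a).comp continuous_snd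
        exact (this.sub continuous_const).norm
      have h6 := (h5.tendsto (t0, u0)).mono_left
        (nhdsWithin_le_nhds (s := {q : T × HH μ κ | q.1 ∈ B}))
      simp only [sub_self, norm_zero, Finset.sum_const_zero, mul_zero] at h6
      exact h6.eventually (gt_mem_nhds (by positivity))
    filter_upwards [h1, h4, eventually_mem_nhdsWithin] with q e1 e2 e3
    have e3' : q.1 ∈ B := e3
    rw [dist_zero_right, norm_norm]
    have hA := nem_lip hQ hL0 hL e3' q.2 u0 l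
    have hB' := nem_time hQ e3' ht0 hδ.le e1 u0 l
    have hle : c * (ε / (2 * (c + 1))) < ε / 2 := by
      have : c * (ε / (2 * (c + 1))) = (c / (c + 1)) * (ε / 2) := by field_simp
      rw [this]
      have h7 : c / (c + 1) < 1 := by
        rw [div_lt_one (by linarith)]; linarith
      nlinarith
    calc ‖(nem Q q.1 q.2) l - (nem Q t0 u0) l‖
        ≤ ‖(nem Q q.1 q.2) l - (nem Q q.1 u0) l‖ + ‖(nem Q q.1 u0) l - (nem Q t0 u0) l‖ := by
          have := norm_add_le ((nem Q q.1 q.2) l - (nem Q q.1 u0) l)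
            ((nem Q q.1 u0) l - (nem Q t0 u0) l)
          simpa using this
      _ ≤ L * ∑ a, ‖q.2 a - u0 a‖ + c * (ε / (2 * (c + 1))) := add_le_add hA hB'
      _ < ε := by linarith
  have hpi : Tendsto (fun q : T × HH μ κ => fun l => (nem Q q.1 q.2) l)
      (𝓝[{q | q.1 ∈ B}] (t0, u0)) (𝓝 fun l => (nem Q t0 u0) l) := tendsto_pi_nhds.2 hcomp
  have hcont := (PiLp.continuous_toLp 2 (fun _ : ν => Lp ℝ 2 μ)).tendsto
    (fun l => (nem Q t0 u0) l)
  exact hcont.comp hpi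

end Crest.Agent.R235.CptB_755
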