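import Mathlib
import Crest.Agent.R249.Tv3_57

/-!
Row 235 (S0364), helper755. SW-FS6 = SW-CPT, part C: products of `L⁴` functions in `L²`.

* `pr u v` : the product of two elements of `L²` as an element of `L²` (zero if not in `L²`);
* `norm_pr_le` : `‖u v‖₂ ≤ ‖u‖₄ ‖v‖₄`;
* `pr_cauchy` : `a_n → a` in `L⁴`, `ψ_n` bounded in `L⁴` and Cauchy in `L²` ⟹ `a_n ψ_n` converges.
-/

set_option autoImplicit false
set_option linter.unusedSectionVars false

open MeasureTheory Set Filter Topology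
open scoped ENNReal NNReal

noncomputable section

namespace Crest.Agent.R235.CptC_755

variable {X : Type*} [MeasurableSpace X] {μ : Measure X}

instance holder442 : ENNReal.HolderTriple 4 4 2 where
  inv_add_inv_eq_inv := by
    have h4 : (4 : ℝ≥0∞) = 2 * 2 := by norm_num
    rw [h4, ENNReal.mul_inv (Or.inl (by norm_num)) (Or.inl (by norm_num)), ← mul_add,
      ENNReal.inv_two_add_inv_two, mul_one]

/-- the `L⁴` size. -/
def N4 (μ : Measure X) (f : X → ℝ) : ℝ := (eLpNorm f 4 μ).toReal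

open Classical in
/-- product. -/
def pr (u v : Lp ℝ 2 μ) : Lp ℝ 2 μ :=
  if h : MemLp (fun x => (u : X → ℝ) x * (v : X → ℝ) x) 2 μ then h.toLp _ else 0

theorem memLp_pr {u v : X → ℝ} (hu : MemLp u 4 μ) (hv : MemLp v 4 μ) :
    MemLp (fun x => u x * v x) 2 μ := hv.mul' hu

theorem coe_pr {u v : Lp ℝ 2 μ} (hu : MemLp (u : X → ℝ) 4 μ) (hv : MemLp (v : X → ℝ) 4 μ) :
    (pr u v : X → ℝ) =ᵐ[μ] fun x => (u : X → ℝ) x * (v : X → ℝ) x := by
  have h := memLp_pr hu hv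
  have h1 : pr u v = h.toLp _ := dif_pos h
  rw [h1]
  exact h.coeFn_toLp

theorem norm_pr_le {u v : Lp ℝ 2 μ} (hu : MemLp (u : X → ℝ) 4 μ) (hv : MemLp (v : X → ℝ) 4 μ) :
    ‖pr u v‖ ≤ N4 μ u * N4 μ v := by
  rw [Lp.norm_def, eLpNorm_congr_ae (coe_pr hu hv)]
  have h1 : eLpNorm (fun x => (u : X → ℝ) x * (v : X → ℝ) x) 2 μ ≤
      eLpNorm (u : X → ℝ) 4 μ * eLpNorm (v : X → ℝ) 4 μ := by
    have := eLpNorm_smul_le_mul_eLpNorm (p := 4) (q := 4) (r := 2) (μ := μ)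
      hv.aestronglyMeasurable hu.aestronglyMeasurable
    exact this
  unfold N4
  rw [← ENNReal.toReal_mul]
  exact ENNReal.toReal_mono (ENNReal.mul_ne_top hu.eLpNorm_ne_top hv.eLpNorm_ne_top) h1

theorem pr_sub_left {u u' v : Lp ℝ 2 μ} (hu : MemLp (u : X → ℝ) 4 μ)
    (hu' : MemLp (u' : X → ℝ) 4 μ) (hv : MemLp (v : X → ℝ) 4 μ) :
    pr (u - u') v = pr u v - pr u' v := by
  have hs : MemLp ((u - u' : Lp ℝ 2 μ) : X → ℝ) 4 μ :=
    (memLp_congr_ae (Lp.coeFn_sub u u')).2 (hu.sub hu')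
  ext1
  filter_upwards [coe_pr hs hv, coe_pr hu hv, coe_pr hu' hv, Lp.coeFn_sub (pr u v) (pr u' v),
    Lp.coeFn_sub u u'] with x e1 e2 e3 e4 e5
  rw [e1, e4, Pi.sub_apply, e2, e3, e5, Pi.sub_apply, sub_mul]

theorem pr_comm (u v : Lp ℝ 2 μ) : pr u v = pr v u := by
  by_cases h : MemLp (fun x => (u : X → ℝ) x * (v : X → ℝ) x) 2 μ
  · have h' : MemLp (fun x => (v : X → ℝ) x * (u : X → ℝ) x) 2 μ := by
      simpa only [mul_comm] using h
    have e1 : pr u v = h.toLp _ := dif_pos h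
    have e2 : pr v u = h'.toLp _ := dif_pos h'
    rw [e1, e2]
    exact MemLp.toLp_congr _ _ (Eventually.of_forall fun x => mul_comm _ _)
  · have h' : ¬ MemLp (fun x => (v : X → ℝ) x * (u : X → ℝ) x) 2 μ := by
      simpa only [mul_comm] using h
    have e1 : pr u v = 0 := dif_neg h
    have e2 : pr v u = 0 := dif_neg h'
    rw [e1, e2]

theorem pr_sub_right {u v v' : Lp ℝ 2 μ} (hu : MemLp (u : X → ℝ) 4 μ)
    (hv : MemLp (v : X → ℝ) 4 μ) (hv' : MemLp (v' : X → ℝ) 4 μ) :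
    pr u (v - v') = pr u v - pr u v' := by
  rw [pr_comm, pr_sub_left hv hv' hu, pr_comm v, pr_comm v']

theorem N4_nonneg (f : X → ℝ) : 0 ≤ N4 μ f := ENNReal.toReal_nonneg

theorem N4_sub_le {u v : Lp ℝ 2 μ} (hu : MemLp (u : X → ℝ) 4 μ) (hv : MemLp (v : X → ℝ) 4 μ) :
    N4 μ ((u - v : Lp ℝ 2 μ) : X → ℝ) ≤ N4 μ u + N4 μ v := by
  unfold N4
  rw [eLpNorm_congr_ae (Lp.coeFn_sub u v), ← ENNReal.toReal_add hu.eLpNorm_ne_top hv.eLpNorm_ne_top]
  refine ENNReal.toReal_mono (ENNReal.add_ne_top.2 ⟨hu.eLpNorm_ne_top, hv.eLpNorm_ne_top⟩) ?_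
  exact eLpNorm_sub_le hu.aestronglyMeasurable hv.aestronglyMeasurable (by norm_num)

theorem memLp_sub {u v : Lp ℝ 2 μ} (hu : MemLp (u : X → ℝ) 4 μ) (hv : MemLp (v : X → ℝ) 4 μ) :
    MemLp ((u - v : Lp ℝ 2 μ) : X → ℝ) 4 μ :=
  (memLp_congr_ae (Lp.coeFn_sub u v)).2 (hu.sub hv)

/-- multiplication with a fixed `L⁴` function: `ψ ↦ a ψ` is small if `ψ` is small in `L²` and
bounded in `L⁴`. -/
theorem pr_small {a : Lp ℝ 2 μ} (ha : MemLp (a : X → ℝ) 4 μ) {C ε : ℝ} (hC : 0 ≤ C)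
    (hε : 0 < ε) : ∃ δ > 0, ∀ v : Lp ℝ 2 μ, MemLp (v : X → ℝ) 4 μ → N4 μ v ≤ C → ‖v‖ ≤ δ →
      ‖pr a v‖ ≤ ε := by
  have hpos : 0 < ε / (2 * (C + 1)) := by positivity
  obtain ⟨M, hM⟩ := ha.eLpNorm_indicator_norm_ge_le (Lp.stronglyMeasurable a) hpos
  set S : Set X := {x | M ≤ ‖(a : X → ℝ) x‖₊} with hS
  have hSm : MeasurableSet S := by
    have h1 : Measurable fun x => ((‖(a : X → ℝ) x‖₊ : ℝ≥0) : ℝ) :=
      (Lp.stronglyMeasurable a).measurable.nnnorm.coe_nnreal_real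
    exact measurableSet_le measurable_const h1
  refine ⟨ε / (2 * (|M| + 1)), by positivity, fun v hv hvC hvδ => ?_⟩
  -- pointwise bound by a sum
  have ha1 : MemLp (S.indicator (a : X → ℝ)) 4 μ := ha.indicator hSm
  have hprod : MemLp (fun x => S.indicator (a : X → ℝ) x * (v : X → ℝ) x) 2 μ := memLp_pr ha1 hv
  have hb : ‖pr a v‖ ≤ ‖hprod.toLp _‖ + ‖(|M|) • v‖ := by
    have h0 : ‖pr a v‖ ≤ ‖|hprod.toLp _| + |(|M|) • v|‖ := by
      refine Lp.norm_le_norm_of_ae_le ?_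
      filter_upwards [coe_pr ha hv, hprod.coeFn_toLp, Lp.coeFn_abs (hprod.toLp _),
        Lp.coeFn_abs ((|M|) • v), Lp.coeFn_smul (|M|) v,
        Lp.coeFn_add (|hprod.toLp _|) (|(|M|) • v|)] with x e1 e2 e3 e4 e5 e6
      rw [e1, e6, Pi.add_apply, e3, e4, e2, e5, Pi.smul_apply, smul_eq_mul, Real.norm_eq_abs,
        Real.norm_eq_abs]
      refine le_trans ?_ (le_abs_self _)
      by_cases hx : x ∈ S
      · rw [indicator_of_mem hx]
        have := abs_nonneg (|M| * (v : X → ℝ) x)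
        linarith
      · rw [indicator_of_notMem hx, zero_mul, abs_zero, zero_add, abs_mul, abs_mul, abs_abs]
        refine mul_le_mul_of_nonneg_right ?_ (abs_nonneg _)
        have hx' : ¬ M ≤ ‖(a : X → ℝ) x‖ := hx
        have := not_le.1 hx'
        rw [Real.norm_eq_abs] at this
        exact this.le.trans (le_abs_self M)
    refine h0.trans ((norm_add_le _ _).trans (le_of_eq ?_))
    rw [norm_abs_eq_norm, norm_abs_eq_norm]
  have h1 : ‖hprod.toLp _‖ ≤ ε / 2 := by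
    rw [Lp.norm_toLp]
    have h2 : eLpNorm (fun x => S.indicator (a : X → ℝ) x * (v : X → ℝ) x) 2 μ ≤
        eLpNorm (S.indicator (a : X → ℝ)) 4 μ * eLpNorm (v : X → ℝ) 4 μ := by
      have := eLpNorm_smul_le_mul_eLpNorm (p := 4) (q := 4) (r := 2) (μ := μ)
        hv.aestronglyMeasurable ha1.aestronglyMeasurable
      exact this
    have h3 : (eLpNorm (fun x => S.indicator (a : X → ℝ) x * (v : X → ℝ) x) 2 μ).toReal ≤
        (eLpNorm (S.indicator (a : X → ℝ)) 4 μ).toReal * (eLpNorm (v : X → ℝ) 4 μ).toReal := by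
      rw [← ENNReal.toReal_mul]
      exact ENNReal.toReal_mono (ENNReal.mul_ne_top ha1.eLpNorm_ne_top hv.eLpNorm_ne_top) h2
    have h4 : (eLpNorm (S.indicator (a : X → ℝ)) 4 μ).toReal ≤ ε / (2 * (C + 1)) :=
      ENNReal.toReal_le_of_le_ofReal hpos.le hM
    have h5 : (eLpNorm (v : X → ℝ) 4 μ).toReal ≤ C := hvC
    have h6 : (0 : ℝ) ≤ (eLpNorm (v : X → ℝ) 4 μ).toReal := ENNReal.toReal_nonneg
    calc _ ≤ _ := h3
      _ ≤ ε / (2 * (C + 1)) * C := mul_le_mul h4 h5 h6 hpos.le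
      _ ≤ ε / 2 := by
        rw [div_mul_eq_mul_div, div_le_div_iff₀ (by positivity) (by norm_num)]
        nlinarith
  have h7 : ‖(|M|) • v‖ ≤ ε / 2 := by
    rw [norm_smul, Real.norm_eq_abs, abs_abs]
    calc |M| * ‖v‖ ≤ |M| * (ε / (2 * (|M| + 1))) :=
          mul_le_mul_of_nonneg_left hvδ (abs_nonneg _)
      _ ≤ ε / 2 := by
        have hM0 := abs_nonneg M
        rw [← mul_div_assoc, div_le_div_iff₀ (by positivity) (by norm_num)]
        nlinarith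
  linarith

/-- **product lemma**. -/
theorem pr_cauchy {a : ℕ → Lp ℝ 2 μ} {a0 : Lp ℝ 2 μ} {v : ℕ → Lp ℝ 2 μ} {C : ℝ}
    (ha : ∀ n, MemLp (a n : X → ℝ) 4 μ) (ha0 : MemLp (a0 : X → ℝ) 4 μ)
    (hv : ∀ n, MemLp (v n : X → ℝ) 4 μ) (hvC : ∀ n, N4 μ (v n) ≤ C)
    (hconv : Tendsto (fun n => N4 μ ((a n - a0 : Lp ℝ 2 μ) : X → ℝ)) atTop (𝓝 0))
    (hcau : CauchySeq v) : ∃ y, Tendsto (fun n => pr (a n) (v n)) atTop (𝓝 y) := by
  refine cauchySeq_tendsto_of_complete ?_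
  have hC : 0 ≤ C := (N4_nonneg _).trans (hvC 0)
  rw [Metric.cauchySeq_iff]
  intro ε hε
  obtain ⟨δ, hδ, hsm⟩ := pr_small (C := 2 * C) ha0 (by positivity) (show 0 < ε / 4 by positivity)
  have h1 : ∀ᶠ n in atTop, N4 μ ((a n - a0 : Lp ℝ 2 μ) : X → ℝ) < ε / (4 * (C + 1)) :=
    hconv.eventually (gt_mem_nhds (by positivity))
  obtain ⟨N1, hN1⟩ := eventually_atTop.1 h1
  obtain ⟨N2, hN2⟩ := Metric.cauchySeq_iff.1 hcau δ hδ
  refine ⟨max N1 N2, fun m hm n hn => ?_⟩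
  have hm1 := hN1 m ((le_max_left _ _).trans hm)
  have hn1 := hN1 n ((le_max_left _ _).trans hn)
  have hmn := hN2 m ((le_max_right _ _).trans hm) n ((le_max_right _ _).trans hn)
  rw [dist_eq_norm] at hmn ⊢
  have hdec : pr (a m) (v m) - pr (a n) (v n) =
      pr (a m - a0) (v m) - pr (a n - a0) (v n) + pr a0 (v m - v n) := by
    rw [pr_sub_left (ha m) ha0 (hv m), pr_sub_left (ha n) ha0 (hv n),
      pr_sub_right ha0 (hv m) (hv n)]
    abel
  rw [hdec]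
  have hb1 : ∀ k, N4 μ ((a k - a0 : Lp ℝ 2 μ) : X → ℝ) < ε / (4 * (C + 1)) →
      ‖pr (a k - a0) (v k)‖ ≤ ε / 4 := by
    intro k hk
    refine (norm_pr_le (memLp_sub (ha k) ha0) (hv k)).trans ?_
    calc _ ≤ ε / (4 * (C + 1)) * C :=
          mul_le_mul hk.le (hvC k) (N4_nonneg _) (by positivity)
      _ ≤ ε / 4 := by
        rw [div_mul_eq_mul_div, div_le_div_iff₀ (by positivity) (by norm_num)]
        nlinarith
  have hb3 : ‖pr a0 (v m - v n)‖ ≤ ε / 4 := by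
    refine hsm _ (memLp_sub (hv m) (hv n)) ?_ hmn.le
    have := N4_sub_le (hv m) (hv n)
    linarith [hvC m, hvC n]
  calc ‖pr (a m - a0) (v m) - pr (a n - a0) (v n) + pr a0 (v m - v n)‖
      ≤ ‖pr (a m - a0) (v m)‖ + ‖pr (a n - a0) (v n)‖ + ‖pr a0 (v m - v n)‖ :=
        (norm_add_le _ _).trans (add_le_add_left (norm_sub_le _ _) _)
    _ < ε := by linarith [hb1 m hm1, hb1 n hn1]

end Crest.Agent.R235.CptC_755
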