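import Mathlib
import Crest.Agent.R249.Tv3_57
import Crest.Agent.R235.CptA_755
import Crest.Agent.R235.CptB_755
import Crest.Agent.R235.CptC_755

/-!
Row 235 (S0364), helper755. SW-FS6 = SW-CPT: the compact part of the truncated Seiberg-Witten map.

`Emb4 μ W κ j` : `j : W →L L²(M;ℝ^κ)` is compact and `‖j w‖₄ ≤ C ‖w‖` (bounded embedding in `L⁴`).
`KK` : `K t w = Λ_t (j w) + ∑ c · (G₁ (Q_t (j w))) · (j w)`, where `Λ_t` is a norm continuous family of
bounded operators of `L²`, `Q` a bounded Lipschitz superposition, `G₁ : L² →L WA`, `WA` embedded in `L⁴`.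
* `KK_seq` : `SeqK`; `KK_continuousOn`, `KK_compact`, `KK_odd`;
* `HQ_...` : the same for `(t,w) ↦ H (Q_t (j w))`, `H` a bounded operator on `L²`.
* `matF_family` : matrix multipliers depending continuously on `t` are a norm continuous family.
-/

set_option autoImplicit false
set_option linter.unusedSectionVars false

open MeasureTheory Set Filter Topology
open scoped ENNReal NNReal

noncomputable section

namespace Crest.Agent.R235.Cpt_755

open Crest.Agent.R249.Tv57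
open Crest.Agent.R235.CptA_755 Crest.Agent.R235.CptB_755 Crest.Agent.R235.CptC_755

variable {X : Type*} [MeasurableSpace X] {μ : Measure X}

/-- bounded embedding into `L⁴`. -/
def Emb4 {W : Type*} [NormedAddCommGroup W] [NormedSpace ℝ W] {κ : Type} [Fintype κ]
    (j : W →L[ℝ] HH μ κ) : Prop :=
  ∃ C : ℝ, 0 ≤ C ∧ ∀ w a, MemLp ((j w) a : X → ℝ) 4 μ ∧ N4 μ ((j w) a) ≤ C * ‖w‖

section main

variable {T : Type*} [MetricSpace T] {B : Set T}
  {κ κ' ν α : Type} [Fintype κ] [Fintype κ'] [Fintype ν] [Fintype α]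
  {W WA : Type*} [NormedAddCommGroup W] [NormedSpace ℝ W] [NormedAddCommGroup WA]
  [NormedSpace ℝ WA]

/-- the product term. -/
def prT (c : κ' → α → κ → X → ℝ) (hc : ∀ l b y, BM μ (c l b y)) (a : HH μ α) (u : HH μ κ) :
    HH μ κ' :=
  WithLp.toLp 2 fun l => ∑ b, ∑ y, mulF (hc l b y) (pr (a b) (u y))

theorem prT_seq [IsFiniteMeasure μ] {j : W →L[ℝ] HH μ κ} (hj4 : Emb4 j)
    {jA : WA →L[ℝ] HH μ α} (hA4 : Emb4 jA) {Q : T → X → (κ → ℝ) → (ν → ℝ)} (hQ : NemOK μ B Q)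
    (G1 : HH μ ν →L[ℝ] WA) (c : κ' → α → κ → X → ℝ) (hc : ∀ l b y, BM μ (c l b y)) :
    SeqK (fun w => j w) B (fun t w => prT c hc (jA (G1 (nem Q t (j w)))) (j w)) := by
  intro t t0 w ξ R ht0 htB ht hw hjw
  obtain ⟨C, hC0, hC⟩ := hj4
  obtain ⟨CA, hCA0, hCA⟩ := hA4
  -- the one-forms converge in `WA`
  have h1 : Tendsto (fun n => nem Q (t n) (j (w n))) atTop (𝓝 (nem Q t0 ξ)) := by
    have h2 := (nem_continuousOn hQ) (t0, ξ) ht0
    have h3 : Tendsto (fun n => ((t n, j (w n)) : T × HH μ κ)) atTop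
        (𝓝[{q | q.1 ∈ B}] (t0, ξ)) :=
      tendsto_nhdsWithin_iff.2 ⟨ht.prodMk_nhds hjw, Eventually.of_forall fun n => htB n⟩
    exact h2.tendsto.comp h3
  have h2 : Tendsto (fun n => G1 (nem Q (t n) (j (w n)))) atTop (𝓝 (G1 (nem Q t0 ξ))) :=
    (G1.continuous.tendsto _).comp h1
  -- componentwise limits
  have h3 : ∀ b y, ∃ z, Tendsto (fun n => pr ((jA (G1 (nem Q (t n) (j (w n))))) b) ((j (w n)) y))
      atTop (𝓝 z) := by
    intro b y
    refine pr_cauchy (C := C * R) (a0 := (jA (G1 (nem Q t0 ξ))) b) (fun n => (hCA _ b).1)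
      (hCA _ b).1 (fun n => (hC _ y).1) (fun n => ?_) ?_ ?_
    · exact (hC _ y).2.trans (mul_le_mul_of_nonneg_left (hw n) hC0)
    · have h4 : Tendsto (fun n => CA * ‖G1 (nem Q (t n) (j (w n))) - G1 (nem Q t0 ξ)‖) atTop
          (𝓝 0) := by
        have := (tendsto_iff_norm_sub_tendsto_zero.1 h2).const_mul CA
        simpa using this
      refine squeeze_zero (fun n => N4_nonneg _) (fun n => ?_) h4
      have h5 := (hCA (G1 (nem Q (t n) (j (w n))) - G1 (nem Q t0 ξ)) b).2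
      have h6 : (jA (G1 (nem Q (t n) (j (w n))) - G1 (nem Q t0 ξ))) b =
          (jA (G1 (nem Q (t n) (j (w n))))) b - (jA (G1 (nem Q t0 ξ))) b := by
        rw [map_sub]; rfl
      rwa [h6] at h5
    · have h7 : Tendsto (fun n => (j (w n)) y) atTop (𝓝 (ξ y)) :=
        ((PiLp.continuous_apply 2 (fun _ : κ => Lp ℝ 2 μ) y).tendsto ξ).comp hjw
      exact h7.cauchySeq
  choose z hz using h3
  refine ⟨WithLp.toLp 2 fun l => ∑ b, ∑ y, mulF (hc l b y) (z b y), ?_⟩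
  have h8 : Tendsto (fun n => fun l => ∑ b, ∑ y, mulF (hc l b y)
      (pr ((jA (G1 (nem Q (t n) (j (w n))))) b) ((j (w n)) y))) atTop
      (𝓝 fun l => ∑ b, ∑ y, mulF (hc l b y) (z b y)) := by
    refine tendsto_pi_nhds.2 fun l => ?_
    refine tendsto_finsetSum _ fun b _ => tendsto_finsetSum _ fun y _ => ?_
    exact ((mulF (hc l b y)).continuous.tendsto _).comp (hz b y)
  exact ((PiLp.continuous_toLp 2 (fun _ : κ' => Lp ℝ 2 μ)).tendsto _).comp h8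

/-- **the compact part**. -/
def KK (j : W →L[ℝ] HH μ κ) (jA : WA →L[ℝ] HH μ α) (Q : T → X → (κ → ℝ) → (ν → ℝ))
    (G1 : HH μ ν →L[ℝ] WA) (c : κ' → α → κ → X → ℝ) (hc : ∀ l b y, BM μ (c l b y))
    (Lam : T → HH μ κ →L[ℝ] HH μ κ') (t : T) (w : W) : HH μ κ' :=
  Lam t (j w) + prT c hc (jA (G1 (nem Q t (j w)))) (j w)

theorem lam_seq {j : W →L[ℝ] HH μ κ} {Lam : T → HH μ κ →L[ℝ] HH μ κ'} (hL : ContinuousOn Lam B) :
    SeqK (fun w => j w) B (fun t w => Lam t (j w)) := by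
  refine SeqK.of_continuous (g := fun t u => Lam t u) ?_
  have h1 : ContinuousOn (fun q : T × HH μ κ => Lam q.1) {q | q.1 ∈ B} :=
    hL.comp continuous_fst.continuousOn (fun q hq => hq)
  exact h1.clm_apply continuous_snd.continuousOn

theorem KK_seq [IsFiniteMeasure μ] {j : W →L[ℝ] HH μ κ} (hj4 : Emb4 j)
    {jA : WA →L[ℝ] HH μ α} (hA4 : Emb4 jA) {Q : T → X → (κ → ℝ) → (ν → ℝ)} (hQ : NemOK μ B Q)
    (G1 : HH μ ν →L[ℝ] WA) (c : κ' → α → κ → X → ℝ) (hc : ∀ l b y, BM μ (c l b y))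
    {Lam : T → HH μ κ →L[ℝ] HH μ κ'} (hL : ContinuousOn Lam B) :
    SeqK (fun w => j w) B (KK j jA Q G1 c hc Lam) :=
  (lam_seq hL).add (prT_seq hj4 hA4 hQ G1 c hc)

theorem KK_continuousOn [IsFiniteMeasure μ] {j : W →L[ℝ] HH μ κ} (hj4 : Emb4 j)
    {jA : WA →L[ℝ] HH μ α} (hA4 : Emb4 jA) {Q : T → X → (κ → ℝ) → (ν → ℝ)} (hQ : NemOK μ B Q)
    (G1 : HH μ ν →L[ℝ] WA) (c : κ' → α → κ → X → ℝ) (hc : ∀ l b y, BM μ (c l b y))
    {Lam : T → HH μ κ →L[ℝ] HH μ κ'} (hL : ContinuousOn Lam B) :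
    ContinuousOn (fun q : T × W => KK j jA Q G1 c hc Lam q.1 q.2) {q | q.1 ∈ B} :=
  (KK_seq hj4 hA4 hQ G1 c hc hL).continuousOn j.continuous

theorem KK_compact [IsFiniteMeasure μ] {j : W →L[ℝ] HH μ κ} (hj4 : Emb4 j)
    (hjc : IsCompactOperator j)
    {jA : WA →L[ℝ] HH μ α} (hA4 : Emb4 jA) {Q : T → X → (κ → ℝ) → (ν → ℝ)} (hQ : NemOK μ B Q)
    (G1 : HH μ ν →L[ℝ] WA) (c : κ' → α → κ → X → ℝ) (hc : ∀ l b y, BM μ (c l b y))
    {Lam : T → HH μ κ →L[ℝ] HH μ κ'} (hL : ContinuousOn Lam B) (hB : IsCompact B) (R : ℝ) :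
    ∃ C : Set (HH μ κ'), IsCompact C ∧ ∀ t w, t ∈ B → ‖w‖ ≤ R → KK j jA Q G1 c hc Lam t w ∈ C :=
  (KK_seq hj4 hA4 hQ G1 c hc hL).exists_compact hB (compact_ball hjc) R

/-- the curvature part `H (Q_t (j w))`. -/
theorem HQ_seq [IsFiniteMeasure μ] {j : W →L[ℝ] HH μ κ} {Q : T → X → (κ → ℝ) → (ν → ℝ)}
    (hQ : NemOK μ B Q) {Y : Type*} [NormedAddCommGroup Y] [NormedSpace ℝ Y]
    (H : HH μ ν →L[ℝ] Y) : SeqK (fun w => j w) B (fun t w => H (nem Q t (j w))) :=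
  (SeqK.of_continuous (g := fun t u => nem Q t u) (nem_continuousOn hQ)).clm H

theorem HQ_continuousOn [IsFiniteMeasure μ] {j : W →L[ℝ] HH μ κ} {Q : T → X → (κ → ℝ) → (ν → ℝ)}
    (hQ : NemOK μ B Q) {Y : Type*} [NormedAddCommGroup Y] [NormedSpace ℝ Y]
    (H : HH μ ν →L[ℝ] Y) :
    ContinuousOn (fun q : T × W => H (nem Q q.1 (j q.2))) {q | q.1 ∈ B} := by
  have h1 : ContinuousOn (fun q : T × W => nem Q q.1 (j q.2)) {q | q.1 ∈ B} :=
    (nem_continuousOn hQ).comp (f := fun q : T × W => ((q.1, j q.2) : T × HH μ κ))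
      (continuous_fst.prodMk (j.continuous.comp continuous_snd)).continuousOn (fun q hq => hq)
  exact H.continuous.comp_continuousOn h1

theorem HQ_compact [IsFiniteMeasure μ] {j : W →L[ℝ] HH μ κ} (hjc : IsCompactOperator j)
    {Q : T → X → (κ → ℝ) → (ν → ℝ)}
    (hQ : NemOK μ B Q) {Y : Type*} [NormedAddCommGroup Y] [NormedSpace ℝ Y]
    (H : HH μ ν →L[ℝ] Y) (hB : IsCompact B) (R : ℝ) :
    ∃ C : Set Y, IsCompact C ∧ ∀ t w, t ∈ B → ‖w‖ ≤ R → H (nem Q t (j w)) ∈ C :=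
  (HQ_seq hQ H).exists_compact hB (compact_ball hjc) R

/-! ### parity -/

theorem nem_even {Q : T → X → (κ → ℝ) → (ν → ℝ)} {t : T}
    (he : ∀ x v, Q t x (-v) = Q t x v) (u : HH μ κ) [IsFiniteMeasure μ] (hQ : NemOK μ B Q)
    (ht : t ∈ B) : nem Q t (-u) = nem Q t u := by
  ext l
  have h1 : ∀ᵐ x ∂μ, ∀ a, ((-u) a : X → ℝ) x = -((u a : X → ℝ) x) := by
    rw [ae_all_iff]
    intro a
    exact Lp.coeFn_neg (u a)
  filter_upwards [coe_nem hQ ht (-u), coe_nem hQ ht u, h1] with x e1 e2 e3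
  rw [e1 l, e2 l]
  have : (fun a => ((-u) a : X → ℝ) x) = -(fun a => (u a : X → ℝ) x) := by
    funext a; exact e3 a
  rw [this, he]

theorem pr_neg_right (u v : Lp ℝ 2 μ) : pr u (-v) = -pr u v := by
  by_cases h : MemLp (fun x => (u : X → ℝ) x * (v : X → ℝ) x) 2 μ
  · have h0 : (fun x => (u : X → ℝ) x * ((-v : Lp ℝ 2 μ) : X → ℝ) x) =ᵐ[μ]
        fun x => -((u : X → ℝ) x * (v : X → ℝ) x) := by
      filter_upwards [Lp.coeFn_neg v] with x e1
      rw [e1, Pi.neg_apply, mul_neg]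
    have h' : MemLp (fun x => (u : X → ℝ) x * ((-v : Lp ℝ 2 μ) : X → ℝ) x) 2 μ :=
      (memLp_congr_ae h0).2 h.neg
    have e1 : pr u (-v) = h'.toLp _ := dif_pos h'
    have e2 : pr u v = h.toLp _ := dif_pos h
    rw [e1, e2, ← MemLp.toLp_neg]
    exact MemLp.toLp_congr _ _ h0
  · have h' : ¬ MemLp (fun x => (u : X → ℝ) x * ((-v : Lp ℝ 2 μ) : X → ℝ) x) 2 μ := by
      intro hh
      apply h
      have h0 : (fun x => (u : X → ℝ) x * (v : X → ℝ) x) =ᵐ[μ]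
          -(fun x => (u : X → ℝ) x * ((-v : Lp ℝ 2 μ) : X → ℝ) x) := by
        filter_upwards [Lp.coeFn_neg v] with x e1
        rw [Pi.neg_apply, e1, Pi.neg_apply, mul_neg, neg_neg]
      exact (memLp_congr_ae h0).2 hh.neg
    have e1 : pr u (-v) = 0 := dif_neg h'
    have e2 : pr u v = 0 := dif_neg h
    rw [e1, e2, neg_zero]

theorem prT_neg (c : κ' → α → κ → X → ℝ) (hc : ∀ l b y, BM μ (c l b y)) (a : HH μ α)
    (u : HH μ κ) : prT c hc a (-u) = -prT c hc a u := by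
  ext1 l
  show ∑ b, ∑ y, mulF (hc l b y) (pr (a b) ((-u) y)) =
    -(∑ b, ∑ y, mulF (hc l b y) (pr (a b) (u y)))
  rw [← Finset.sum_neg_distrib]
  refine Finset.sum_congr rfl fun b _ => ?_
  rw [← Finset.sum_neg_distrib]
  refine Finset.sum_congr rfl fun y _ => ?_
  have : (-u) y = -(u y) := rfl
  rw [this, pr_neg_right, map_neg]

theorem KK_odd [IsFiniteMeasure μ] {j : W →L[ℝ] HH μ κ}
    {jA : WA →L[ℝ] HH μ α} {Q : T → X → (κ → ℝ) → (ν → ℝ)} (hQ : NemOK μ B Q)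
    (G1 : HH μ ν →L[ℝ] WA) (c : κ' → α → κ → X → ℝ) (hc : ∀ l b y, BM μ (c l b y))
    {Lam : T → HH μ κ →L[ℝ] HH μ κ'} {t : T} (ht : t ∈ B)
    (he : ∀ x v, Q t x (-v) = Q t x v) (w : W) :
    KK j jA Q G1 c hc Lam t (-w) = -KK j jA Q G1 c hc Lam t w := by
  unfold KK
  rw [map_neg, map_neg, nem_even he _ hQ ht, prT_neg, neg_add]

end main

/-! ### matrix multipliers depending on a parameter -/

section fam

variable {T : Type*} [TopologicalSpace T] {B : Set T} {κ κ' : Type} [Fintype κ] [Fintype κ']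

/-- rectangular matrix multiplier. -/
def matR {m : κ' → κ → X → ℝ} (hm : ∀ a b, BM μ (m a b)) : HH μ κ →L[ℝ] HH μ κ' :=
  ((PiLp.continuousLinearEquiv 2 ℝ (fun _ : κ' => Lp ℝ 2 μ)).symm :
      (∀ _ : κ', Lp ℝ 2 μ) →L[ℝ] HH μ κ').comp
    (ContinuousLinearMap.pi fun a => ∑ b, (mulF (hm a b)).comp (PiLp.proj 2 _ b))

theorem matR_apply {m : κ' → κ → X → ℝ} (hm : ∀ a b, BM μ (m a b)) (u : HH μ κ) (a : κ') :
    matR hm u a = ∑ b, mulF (hm a b) (u b) := by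
  simp [matR]

theorem coe_matR {m : κ' → κ → X → ℝ} (hm : ∀ a b, BM μ (m a b)) (u : HH μ κ) :
    ∀ᵐ x ∂μ, ∀ a, (matR hm u a : X → ℝ) x = ∑ b, (u b : X → ℝ) x * m a b x := by
  rw [ae_all_iff]
  intro a
  have h1 : ∀ᵐ x ∂μ, ∀ b, (mulF (hm a b) (u b) : X → ℝ) x = (u b : X → ℝ) x • m a b x :=
    ae_all_iff.2 fun b => coe_mulF (hm a b) (u b)
  filter_upwards [h1, Lp.coeFn_fun_finsetSum Finset.univ (fun b => mulF (hm a b) (u b))]
    with x e1 e2
  rw [matR_apply, e2]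
  exact Finset.sum_congr rfl fun b _ => e1 b

theorem norm_matR_sub_le {m m' : κ' → κ → X → ℝ} (hm : ∀ a b, BM μ (m a b))
    (hm' : ∀ a b, BM μ (m' a b)) {ε : ℝ} (hε : 0 ≤ ε)
    (h : ∀ a b x, |m a b x - m' a b x| ≤ ε) :
    ‖(matR hm : HH μ κ →L[ℝ] HH μ κ') - matR hm'‖ ≤
      Fintype.card κ' * Fintype.card κ * ε := by
  refine ContinuousLinearMap.opNorm_le_bound _ (by positivity) fun u => ?_
  have hcomp : ∀ a b, ‖mulF (hm a b) (u b) - mulF (hm' a b) (u b)‖ ≤ ε * ‖u‖ := by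
    intro a b
    have h1 : ‖mulF (hm a b) (u b) - mulF (hm' a b) (u b)‖ ≤ ‖ε • u b‖ := by
      refine Lp.norm_le_norm_of_ae_le ?_
      filter_upwards [coe_mulF (hm a b) (u b), coe_mulF (hm' a b) (u b),
        Lp.coeFn_sub (mulF (hm a b) (u b)) (mulF (hm' a b) (u b)), Lp.coeFn_smul ε (u b)]
        with x e1 e2 e3 e4
      rw [e3, Pi.sub_apply, e1, e2, e4, Pi.smul_apply, smul_eq_mul, smul_eq_mul, smul_eq_mul,
        ← mul_sub, norm_mul, norm_mul, mul_comm]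
      refine mul_le_mul_of_nonneg_right ?_ (norm_nonneg _)
      rw [Real.norm_eq_abs, Real.norm_eq_abs, abs_of_nonneg hε]
      exact h a b x
    refine h1.trans ?_
    rw [norm_smul, Real.norm_eq_abs, abs_of_nonneg hε]
    exact mul_le_mul_of_nonneg_left (PiLp.norm_apply_le u b) hε
  have hrow : ∀ a, ‖(matR hm u - matR hm' u) a‖ ≤ Fintype.card κ * (ε * ‖u‖) := by
    intro a
    have e : (matR hm u - matR hm' u) a = ∑ b, (mulF (hm a b) (u b) - mulF (hm' a b) (u b)) := by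
      show matR hm u a - matR hm' u a = _
      rw [matR_apply, matR_apply, Finset.sum_sub_distrib]
    rw [e]
    refine (norm_sum_le _ _).trans ((Finset.sum_le_sum fun b _ => hcomp a b).trans ?_)
    rw [Finset.sum_const, Finset.card_univ, nsmul_eq_mul]
  show ‖matR hm u - matR hm' u‖ ≤ _
  have hn : ‖matR hm u - matR hm' u‖ ≤ ∑ a, ‖(matR hm u - matR hm' u) a‖ := by
    rw [PiLp.norm_eq_of_L2]
    have h2 : ∑ a, ‖(matR hm u - matR hm' u) a‖ ^ 2 ≤ (∑ a, ‖(matR hm u - matR hm' u) a‖) ^ 2 := by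
      rw [sq (∑ a, ‖(matR hm u - matR hm' u) a‖), Finset.sum_mul]
      refine Finset.sum_le_sum fun a _ => ?_
      rw [sq]
      exact mul_le_mul_of_nonneg_left (Finset.single_le_sum
        (f := fun a => ‖(matR hm u - matR hm' u) a‖) (fun b _ => norm_nonneg _)
        (Finset.mem_univ a)) (norm_nonneg _)
    calc √(∑ a, ‖(matR hm u - matR hm' u) a‖ ^ 2)
        ≤ √((∑ a, ‖(matR hm u - matR hm' u) a‖) ^ 2) := Real.sqrt_le_sqrt h2
      _ = _ := Real.sqrt_sq (Finset.sum_nonneg fun a _ => norm_nonneg _)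
  refine hn.trans ((Finset.sum_le_sum fun a _ => hrow a).trans (le_of_eq ?_))
  rw [Finset.sum_const, Finset.card_univ, nsmul_eq_mul]
  ring

/-- a uniformly continuous family of matrices is a norm continuous family of multipliers. -/
theorem matR_family {m : T → κ' → κ → X → ℝ} (hm : ∀ t a b, BM μ (m t a b))
    (hcont : ∀ t0 ∈ B, ∀ ε > 0, ∀ᶠ t in 𝓝[B] t0, ∀ a b x, |m t a b x - m t0 a b x| ≤ ε) :
    ContinuousOn (fun t => (matR (hm t) : HH μ κ →L[ℝ] HH μ κ')) B := by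
  intro t0 ht0
  refine Metric.tendsto_nhds.2 fun ε hε => ?_
  set N : ℝ := Fintype.card κ' * Fintype.card κ with hN
  have hN0 : 0 ≤ N := by positivity
  have hδ : 0 < ε / (N + 1) := by positivity
  filter_upwards [hcont t0 ht0 _ hδ] with t ht
  rw [dist_eq_norm]
  refine (norm_matR_sub_le (hm t) (hm t0) hδ.le ht).trans_lt ?_
  rw [← hN, ← mul_div_assoc, div_lt_iff₀ (by linarith)]
  nlinarith

end fam

end Crest.Agent.R235.Cpt_755
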