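import Crest.Agent.R235.Sob4B_984
import Crest.Agent.R247.Dir3_593
import Crest.Agent.R240.Ch5
import Crest.Agent.R249.Tv7_57
import Crest.Agent.R235.Cpt_755

/-!
Row 235 (S0364), SW-FS2 (helper984): **the Sobolev embedding `W^{1,2}(M) → L⁴(M)`**, `M` closed of
dimension `4` (the format of R247/R249).

* `sob_test` : `‖f‖₄ ≤ C (‖Gr f‖₂ + ‖f‖₂)` for locally Lipschitz `f`
* `sob4`     : for `u ∈ (gradS 4 M).V` : `u ∈ L⁴` and `‖u‖₄ ≤ C (‖D u‖ + ‖u‖)`
* `emb4`     : the same for the components of the sections `w ∈ A.WE`, `A : AD (gradS 4 M) κ`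
* `emb4_AD`, `emb4_Dat` : in the form `Cpt_755.Emb4 A.i1`, `Cpt_755.Emb4 D.toAD.i1`
-/

set_option autoImplicit false
set_option maxSynthPendingDepth 3
set_option linter.unusedSectionVars false

open Bundle Bornology Set MeasureTheory Manifold Filter Metric
open scoped ENNReal ContDiff Topology NNReal
open Crest.Agent.R247 Crest.Agent.R247.Ms322 Crest.Agent.R247.Dir593

namespace Crest.Agent.R235.Sob4_984

noncomputable section

local notation "𝔼" => EuclideanSpace ℝ (Fin 4)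

variable {M : Type*} [MetricSpace M] [CompactSpace M] [ChartedSpace (EuclideanSpace ℝ (Fin 4)) M]
  [IsManifold (𝓡 4) ∞ M]
  [RiemannianBundle (fun p : M => TangentSpace (𝓡 4) p)]
  [IsContMDiffRiemannianBundle (𝓡 4) ∞ (EuclideanSpace ℝ (Fin 4)) (fun p : M => TangentSpace (𝓡 4) p)]
  [SecondCountableTopology M] [Nonempty M] [IsRiemannianManifold (𝓡 4) M]
  [MeasurableSpace M] [BorelSpace M]

/-- **Sobolev for locally Lipschitz functions.** -/
theorem sob_test : ∃ C : ℝ≥0, ∀ f : M → ℝ, LocallyLipschitz f →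
    eLpNorm f 4 (μHE[4] : Measure M) ≤
      C * (eLpNorm (Gr (n := 4) f) 2 (μHE[4] : Measure M) + eLpNorm f 2 (μHE[4] : Measure M)) := by
  obtain ⟨A⟩ := Crest.Agent.R240.Ch.exists_FA (E := 𝔼) (M := M)
  have hL : ∀ i, LocallyLipschitz (A.χ i) := fun i =>
    LLo.loc (LLo.of_contMDiffAt (n := 4) fun z _ => ((A.χ_smooth i).contMDiffAt).of_le (by simp))
  have hK : ∀ i, IsCompact (tsupport (A.χ i)) := fun i => (isClosed_tsupport _).isCompact
  choose C hC using fun i => sob_chart (A.c i) (hK i) (fun x hx => (A.χ_supp i hx).1)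
  choose L hL0 hLb using fun i => exists_bound_Gr (n := 4) (hL i)
    (hK i : HasCompactSupport (A.χ i))
  set B : ℝ≥0 := ∑ i, C i * (1 + (L i).toNNReal) with hB
  refine ⟨B, fun f hf => ?_⟩
  have hm : ∀ i, AEStronglyMeasurable (fun x => A.χ i x * f x) (μHE[4] : Measure M) := fun i =>
    ((hL i).continuous.mul hf.continuous).aestronglyMeasurable
  have hGm : AEStronglyMeasurable (Gr (n := 4) f) (μHE[4] : Measure M) :=
    (measurable_Gr f).aestronglyMeasurable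
  have h0 : f = ∑ i, fun x => A.χ i x * f x := by
    funext x
    rw [Finset.sum_apply, ← Finset.sum_mul, A.χ_sum, one_mul]
  have h1 : eLpNorm f 4 (μHE[4] : Measure M) ≤
      ∑ i, eLpNorm (fun x => A.χ i x * f x) 4 (μHE[4] : Measure M) := by
    conv_lhs => rw [h0]
    exact eLpNorm_sum_le (fun i _ => hm i) (by norm_num)
  have h2 : ∀ i, eLpNorm (Gr (n := 4) (fun x => A.χ i x * f x)) 2 (μHE[4] : Measure M) ≤
      (1 + (L i).toNNReal : ℝ≥0) * (eLpNorm (Gr (n := 4) f) 2 (μHE[4] : Measure M) +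
        eLpNorm f 2 (μHE[4] : Measure M)) := by
    intro i
    have e1 : eLpNorm (Gr (n := 4) (fun x => A.χ i x * f x)) 2 (μHE[4] : Measure M) ≤
        eLpNorm ((fun x => ‖Gr (n := 4) f x‖) + fun x => (L i) * ‖f x‖) 2 (μHE[4] : Measure M) := by
      refine eLpNorm_mono_ae_real ?_
      filter_upwards [ae_mdifferentiableAt (n := 4) (hL i), ae_mdifferentiableAt (n := 4) hf]
        with z d1 d2
      rw [Gr_mul d1 d2, Pi.add_apply]
      refine (norm_add_le _ _).trans (add_le_add ?_ ?_)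
      · rw [norm_smul]
        have : ‖A.χ i z‖ ≤ 1 := by
          rw [Real.norm_of_nonneg (A.χ_nonneg i z)]; exact A.χ_le i z
        exact mul_le_of_le_one_left (norm_nonneg _) this
      · rw [norm_smul, mul_comm]
        exact mul_le_mul_of_nonneg_right (hLb i z) (norm_nonneg _)
    have hLm : AEStronglyMeasurable (fun x => (L i) * ‖f x‖) (μHE[4] : Measure M) :=
      (continuous_const.mul hf.continuous.norm).aestronglyMeasurable
    refine e1.trans ((eLpNorm_add_le hGm.norm hLm (by norm_num)).trans ?_)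
    have e2 : eLpNorm (fun x => (L i) * ‖f x‖) 2 (μHE[4] : Measure M) =
        (L i).toNNReal * eLpNorm f 2 (μHE[4] : Measure M) := by
      have e3 : (fun x => (L i) * ‖f x‖) = (L i) • fun x => ‖f x‖ := rfl
      rw [e3, eLpNorm_const_smul, eLpNorm_norm]
      congr 1
      rw [Real.enorm_eq_ofReal (hL0 i)]
      rfl
    rw [e2, eLpNorm_norm]
    push_cast
    rw [add_mul, one_mul, mul_add]
    calc eLpNorm (Gr (n := 4) f) 2 (μHE[4] : Measure M) +
          ((L i).toNNReal : ℝ≥0∞) * eLpNorm f 2 (μHE[4] : Measure M)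
        ≤ (eLpNorm (Gr (n := 4) f) 2 (μHE[4] : Measure M) + eLpNorm f 2 (μHE[4] : Measure M)) +
          (((L i).toNNReal : ℝ≥0∞) * eLpNorm (Gr (n := 4) f) 2 (μHE[4] : Measure M) +
          ((L i).toNNReal : ℝ≥0∞) * eLpNorm f 2 (μHE[4] : Measure M)) :=
        add_le_add le_self_add le_add_self
      _ = _ := rfl
  have h3 : ∀ i, eLpNorm (fun x => A.χ i x * f x) 4 (μHE[4] : Measure M) ≤
      ((C i * (1 + (L i).toNNReal) : ℝ≥0) : ℝ≥0∞) *
        (eLpNorm (Gr (n := 4) f) 2 (μHE[4] : Measure M) + eLpNorm f 2 (μHE[4] : Measure M)) := by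
    intro i
    refine (hC i _ (GradS.locLip_mul (hL i) hf) tsupport_mul_subset_left).trans ?_
    rw [ENNReal.coe_mul, mul_assoc]
    exact mul_le_mul_right (h2 i) _
  refine (h1.trans (Finset.sum_le_sum fun i _ => h3 i)).trans ?_
  rw [← Finset.sum_mul, hB]
  push_cast
  exact le_rfl

variable [IsFiniteMeasureOnCompacts (μHE[4] : Measure M)]

/-- **Sobolev embedding.** -/
theorem sob4 : ∃ C : ℝ, 0 ≤ C ∧ ∀ u : Lp ℝ 2 (μHE[4] : Measure M), u ∈ (gradS 4 M).V →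
    MemLp (u : M → ℝ) 4 (μHE[4] : Measure M) ∧
      (eLpNorm (u : M → ℝ) 4 (μHE[4] : Measure M)).toReal ≤ C * (‖(gradS 4 M).D u‖ + ‖u‖) := by
  obtain ⟨C, hC⟩ := sob_test (M := M)
  refine ⟨C, C.2, fun u hu => ?_⟩
  obtain ⟨f, hf, h1, h2, h3, -⟩ := (gradS 4 M).exists_seq_ae hu
  have e1 : ∀ k, eLpNorm (f k) 2 (μHE[4] : Measure M) =
      ENNReal.ofReal ‖(GradS.tL (hf k) : Lp ℝ 2 (μHE[4] : Measure M))‖ := by
    intro k
    rw [Lp.norm_def, ENNReal.ofReal_toReal (Lp.eLpNorm_lt_top _).ne]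
    exact eLpNorm_congr_ae (GradS.coe_tL (hf k)).symm
  have e2 : ∀ k, eLpNorm (Gr (n := 4) (f k)) 2 (μHE[4] : Measure M) =
      ENNReal.ofReal ‖(gradS 4 M).D (GradS.tL (hf k))‖ := by
    intro k
    rw [Lp.norm_def, ENNReal.ofReal_toReal (Lp.eLpNorm_lt_top _).ne]
    exact eLpNorm_congr_ae ((gradS 4 M).D_tL (hf k)).symm
  have h4 : eLpNorm (u : M → ℝ) 4 (μHE[4] : Measure M) ≤
      C * ENNReal.ofReal (‖(gradS 4 M).D u‖ + ‖u‖) := by
    have h5 : eLpNorm (u : M → ℝ) 4 (μHE[4] : Measure M) ≤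
        atTop.liminf fun k => eLpNorm (f k) 4 (μHE[4] : Measure M) :=
      Lp.eLpNorm_lim_le_liminf_eLpNorm
        (fun k => (hf k).1.continuous.aestronglyMeasurable) _ h3
    refine h5.trans ?_
    have h6 : Tendsto (fun k => (C : ℝ≥0∞) * ENNReal.ofReal
        (‖(gradS 4 M).D (GradS.tL (hf k))‖ + ‖(GradS.tL (hf k) : Lp ℝ 2 (μHE[4] : Measure M))‖))
        atTop (𝓝 (C * ENNReal.ofReal (‖(gradS 4 M).D u‖ + ‖u‖))) :=
      ENNReal.Tendsto.const_mul (ENNReal.tendsto_ofReal (h2.norm.add h1.norm))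
        (Or.inr ENNReal.coe_ne_top)
    rw [← h6.liminf_eq]
    refine liminf_le_liminf (Eventually.of_forall fun k => ?_)
    refine (hC (f k) (hf k).1).trans (le_of_eq ?_)
    rw [e1, e2, ENNReal.ofReal_add (norm_nonneg _) (norm_nonneg _)]
  have h7 : (C : ℝ≥0∞) * ENNReal.ofReal (‖(gradS 4 M).D u‖ + ‖u‖) ≠ ⊤ :=
    ENNReal.mul_ne_top ENNReal.coe_ne_top ENNReal.ofReal_ne_top
  refine ⟨⟨(Lp.aestronglyMeasurable u), h4.trans_lt h7.lt_top⟩, ?_⟩
  refine (ENNReal.toReal_mono h7 h4).trans (le_of_eq ?_)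
  rw [ENNReal.toReal_mul, ENNReal.coe_toReal, ENNReal.toReal_ofReal (by positivity)]

open Crest.Agent.R249.Tv57 Crest.Agent.R235.CptC_755 in
/-- **Sobolev embedding for sections**: the hypothesis `Cpt_755.Emb4 A.i1`. -/
theorem emb4 {κ : Type} [Fintype κ] (A : AD (gradS 4 M) κ) :
    ∃ C : ℝ, 0 ≤ C ∧ ∀ (w : A.WE) (a : κ), MemLp ((A.i1 w) a : M → ℝ) 4 (μHE[4] : Measure M) ∧
      N4 (μHE[4] : Measure M) ((A.i1 w) a) ≤ C * ‖w‖ := by
  obtain ⟨C, hC0, hC⟩ := sob4 (M := M)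
  refine ⟨2 * C, by positivity, fun w a => ?_⟩
  have h1 := w.2.1 a
  obtain ⟨hV, hD⟩ := (gradS 4 M).mem_graphC.1 h1
  have e : (A.i1 w) a = (w : A.Amb).fst a := rfl
  rw [e]
  obtain ⟨h2, h3⟩ := hC _ hV
  refine ⟨h2, h3.trans ?_⟩
  rw [hD]
  have hw : ‖w‖ ^ 2 = ‖(w : A.Amb).fst‖ ^ 2 + ‖(w : A.Amb).snd‖ ^ 2 := A.norm_sq_eq (w : A.Amb)
  have n1 : ‖(w : A.Amb).fst a‖ ≤ ‖w‖ := by
    refine (PiLp.norm_apply_le (w : A.Amb).fst a).trans
      (abs_le_of_sq_le_sq' ?_ (norm_nonneg _)).2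
    nlinarith [sq_nonneg ‖(w : A.Amb).snd‖]
  have n2 : ‖(w : A.Amb).snd a‖ ≤ ‖w‖ := by
    refine (PiLp.norm_apply_le (w : A.Amb).snd a).trans
      (abs_le_of_sq_le_sq' ?_ (norm_nonneg _)).2
    nlinarith [sq_nonneg ‖(w : A.Amb).fst‖]
  calc C * (‖(w : A.Amb).snd a‖ + ‖(w : A.Amb).fst a‖) ≤ C * (‖w‖ + ‖w‖) := by gcongr
    _ = 2 * C * ‖w‖ := by ring

open Crest.Agent.R249.Tv57 in
theorem emb4_AD {κ : Type} [Fintype κ] (A : AD (gradS 4 M) κ) :
    Crest.Agent.R235.Cpt_755.Emb4 A.i1 := emb4 A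

open Crest.Agent.R249.Tv57 in
theorem emb4_Dat {κ : Type} [Fintype κ] (D : Dat 4 M κ) :
    Crest.Agent.R235.Cpt_755.Emb4 D.toAD.i1 := emb4 D.toAD

end

end Crest.Agent.R235.Sob4_984
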