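import Crest.Agent.R235.Defs_837

/-!
Row 235 (S0364), helper837: TOP SKELETON.  Every package output is a `Prop` (all manifolds `M`),
and `main_of` derives the theorem from them.
-/

set_option autoImplicit false
set_option maxSynthPendingDepth 3

open Set Function Filter MeasureTheory
open scoped Manifold ContDiff Topology

universe u

namespace Crest.Agent.R235

open Crest.Agent.R240 Crest.Agent.R240.Ch

noncomputable section

/-- the theorem in terms of polygonal paths. -/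
def MAIN : Prop :=
  ∀ (M : Type u) [TopologicalSpace M] [T2Space M] [CompactSpace M] [ConnectedSpace M]
    [ChartedSpace E4 M] [IsManifold 𝓘(ℝ, E4) ∞ M] (w : Trip M), Pos3 w →
    ∃ w' : Trip M, Joined w w' ∧ HK w'

/-! ### topology (TOP, IND, LAT, SWC for the cup ring) -/

/-- dichotomy: K3 type or torus type. -/
def DICH : Prop :=
  ∀ (M : Type u) [TopologicalSpace M] [T2Space M] [CompactSpace M] [ConnectedSpace M]
    [ChartedSpace E4 M] [IsManifold 𝓘(ℝ, E4) ∞ M] (w : Trip M), Pos3 w →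
    K3Type (w 0) ∨ T4Type (w 0)

/-- the signature of `H²` is `(3, *)`: a class orthogonal to `w` has square `≤ 0`, `= 0` only
for the class `0` (`b⁺ = 3`); consequence of `DICH`. -/
def BPLUS : Prop :=
  ∀ (M : Type u) [TopologicalSpace M] [T2Space M] [CompactSpace M] [ConnectedSpace M]
    [ChartedSpace E4 M] [IsManifold 𝓘(ℝ, E4) ∞ M] (w : Trip M), Pos3 w →
    ∀ c : H2 M, (∀ i, ip (w 0) c (cls (w i)) = 0) → c ≠ 0 → ip (w 0) c c < 0

/-! ### Seiberg-Witten (SWAN, IND, FD) -/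

/-- ROOT: no positive triple is orthogonal to a root. -/
def ROOT : Prop :=
  ∀ (M : Type u) [TopologicalSpace M] [T2Space M] [CompactSpace M] [ConnectedSpace M]
    [ChartedSpace E4 M] [IsManifold 𝓘(ℝ, E4) ∞ M] (w : Trip M), Pos3 w → K3Type (w 0) →
    ∀ d ∈ Root (w 0), ∃ i, ip (w 0) d (cls (w i)) ≠ 0

/-! ### currents and curves (CUR, REG, ADJ) -/

/-- Hahn-Banach: a class positive on all non-zero positive closed currents is a taming class. -/
def HBN : Prop :=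
  ∀ (M : Type u) [TopologicalSpace M] [T2Space M] [CompactSpace M] [ConnectedSpace M]
    [ChartedSpace E4 M] [IsManifold 𝓘(ℝ, E4) ∞ M] (w : Trip M) (J : EndF E4 M), IsJ w J →
    ∀ c : Z2 M, (∀ S : X2 M →ₗ[ℝ] ℝ, PCur J S → S ≠ 0 → 0 < S c.1) →
    ∃ a : Z2 M, cls a = cls c ∧ ∀ x v, v ≠ 0 → 0 < val a x v (atJ J x v)

/-- the pair determines `J`. -/
def EXJ : Prop :=
  ∀ (M : Type u) [TopologicalSpace M] [T2Space M] [CompactSpace M] [ConnectedSpace M]
    [ChartedSpace E4 M] [IsManifold 𝓘(ℝ, E4) ∞ M] (w : Trip M), Pos3 w → ∃ J, IsJ w J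

/-- every current has a class. -/
def CLS : Prop :=
  ∀ (M : Type u) [TopologicalSpace M] [T2Space M] [CompactSpace M] [ConnectedSpace M]
    [ChartedSpace E4 M] [IsManifold 𝓘(ℝ, E4) ∞ M] (w : Trip M) (J : EndF E4 M), Pos3 w → IsJ w J →
    ∀ S : X2 M →ₗ[ℝ] ℝ, PCur J S → ∃ s : H2 M, ∀ b : Z2 M, S b.1 = ip (w 0) s (cls b)

/-- NEGK (K3 type): a positive closed current of negative square contains a multiple of an
embedded `J`-sphere whose class is a root. -/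
def NEGK : Prop :=
  ∀ (M : Type u) [TopologicalSpace M] [T2Space M] [CompactSpace M] [ConnectedSpace M]
    [ChartedSpace E4 M] [IsManifold 𝓘(ℝ, E4) ∞ M] (w : Trip M) (J : EndF E4 M), Pos3 w → IsJ w J →
    K3Type (w 0) → ∀ (S : X2 M →ₗ[ℝ] ℝ) (s : H2 M), PCur J S →
    (∀ b : Z2 M, S b.1 = ip (w 0) s (cls b)) → ip (w 0) s s < 0 →
    ∃ (σ : E3 → M) (d : H2 M) (t : ℝ) (S' : X2 M →ₗ[ℝ] ℝ), JSph w σ d ∧ d ∈ Root (w 0) ∧
      0 < t ∧ ip (w 0) s d < 0 ∧ PCur J S' ∧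
      ∀ b : X2 M, S b = t * sphI σ (b.1 : F2 E4 M) + S' b

/-- NEGT (torus type): positive closed currents have square `≥ 0`. -/
def NEGT : Prop :=
  ∀ (M : Type u) [TopologicalSpace M] [T2Space M] [CompactSpace M] [ConnectedSpace M]
    [ChartedSpace E4 M] [IsManifold 𝓘(ℝ, E4) ∞ M] (w : Trip M) (J : EndF E4 M), Pos3 w → IsJ w J →
    T4Type (w 0) → ∀ (S : X2 M →ₗ[ℝ] ℝ) (s : H2 M), PCur J S →
    (∀ b : Z2 M, S b.1 = ip (w 0) s (cls b)) → 0 ≤ ip (w 0) s s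

/-- `J`-spheres: distinct embedded `J`-spheres have intersection number `≥ 0`, and are disjoint if
it is `0`. -/
def DISJ : Prop :=
  ∀ (M : Type u) [TopologicalSpace M] [T2Space M] [CompactSpace M] [ConnectedSpace M]
    [ChartedSpace E4 M] [IsManifold 𝓘(ℝ, E4) ∞ M] (w : Trip M), Pos3 w →
    ∀ (σ τ : E3 → M) (d e : H2 M), JSph w σ d → JSph w τ e → d ≠ e → 0 ≤ ip (w 0) d e ∧
      (ip (w 0) d e = 0 → ∀ y z : E3, y ≠ 0 → z ≠ 0 → σ y ≠ τ z)

/-- TORUS (torus type): if the integral classes orthogonal to the pair are the multiples of an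
isotropic class `e`, some positive multiple of `e` is an embedded `J`-torus. -/
def TORUS : Prop :=
  ∀ (M : Type u) [TopologicalSpace M] [T2Space M] [CompactSpace M] [ConnectedSpace M]
    [ChartedSpace E4 M] [IsManifold 𝓘(ℝ, E4) ∞ M] (w : Trip M), Pos3 w → T4Type (w 0) →
    ∀ e ∈ HZ M, ip (w 0) e e = 0 → 0 < ip (w 0) e (cls (w 0)) →
    ip (w 0) e (cls (w 1)) = 0 → ip (w 0) e (cls (w 2)) = 0 →
    (∀ c ∈ HZ M, ip (w 0) c (cls (w 1)) = 0 → ip (w 0) c (cls (w 2)) = 0 →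
      ∃ n : ℤ, c = (n : ℝ) • e) →
    ∃ (σ : Ep → M) (k : ℕ), 0 < k ∧ JTor w σ ((k : ℝ) • e)

/-! ### class moving (MOVE) -/

/-- NEFK. -/
def NEFK : Prop :=
  ∀ (M : Type u) [TopologicalSpace M] [T2Space M] [CompactSpace M] [ConnectedSpace M]
    [ChartedSpace E4 M] [IsManifold 𝓘(ℝ, E4) ∞ M] (w : Trip M), Pos3 w → K3Type (w 0) →
    ∀ c : H2 M, 0 < ip (w 0) c c → 0 < ip (w 0) c (cls (w 0)) → ip (w 0) c (cls (w 1)) = 0 →
    ip (w 0) c (cls (w 2)) = 0 → ip (w 0) (cls (w 0)) (cls (w 1)) = 0 →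
    ip (w 0) (cls (w 0)) (cls (w 2)) = 0 →
    (∀ d ∈ Root (w 0), ip (w 0) d (cls (w 1)) = 0 → ip (w 0) d (cls (w 2)) = 0 →
      0 < ip (w 0) d (cls (w 0)) → 0 < ip (w 0) d c) →
    ∃ a : Z2 M, cls a = c ∧ Seg w (update w 0 a)

/-- NEFT. -/
def NEFT : Prop :=
  ∀ (M : Type u) [TopologicalSpace M] [T2Space M] [CompactSpace M] [ConnectedSpace M]
    [ChartedSpace E4 M] [IsManifold 𝓘(ℝ, E4) ∞ M] (w : Trip M), Pos3 w → T4Type (w 0) →
    ∀ c : H2 M, 0 < ip (w 0) c c → 0 < ip (w 0) c (cls (w 0)) → ip (w 0) c (cls (w 1)) = 0 →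
    ip (w 0) c (cls (w 2)) = 0 → ip (w 0) (cls (w 0)) (cls (w 1)) = 0 →
    ip (w 0) (cls (w 0)) (cls (w 2)) = 0 →
    ∃ a : Z2 M, cls a = c ∧ Seg w (update w 0 a)

/-- PATH: every positive frame of the right component, not orthogonal to a root in the K3 case,
is reached. -/
def PATHK : Prop :=
  ∀ (M : Type u) [TopologicalSpace M] [T2Space M] [CompactSpace M] [ConnectedSpace M]
    [ChartedSpace E4 M] [IsManifold 𝓘(ℝ, E4) ∞ M] (w : Trip M), Pos3 w → K3Type (w 0) →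
    ∀ b : Fin 3 → H2 M, Frame w b → (∀ d ∈ Root (w 0), ∃ i, ip (w 0) d (b i) ≠ 0) →
    ∃ w' : Trip M, PL w w' ∧ Pos3 w' ∧ ∀ i, cls (w' i) = b i

/-- PATHT. -/
def PATHT : Prop :=
  ∀ (M : Type u) [TopologicalSpace M] [T2Space M] [CompactSpace M] [ConnectedSpace M]
    [ChartedSpace E4 M] [IsManifold 𝓘(ℝ, E4) ∞ M] (w : Trip M), Pos3 w → T4Type (w 0) →
    ∀ b : Fin 3 → H2 M, Frame w b → ∃ w' : Trip M, PL w w' ∧ Pos3 w' ∧ ∀ i, cls (w' i) = b i

/-- LIFT (homotopy lifting): a polygonal path with varying classes between triples of the same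
classes can be replaced by one with constant classes. -/
def LIFT : Prop :=
  ∀ (M : Type u) [TopologicalSpace M] [T2Space M] [CompactSpace M] [ConnectedSpace M]
    [ChartedSpace E4 M] [IsManifold 𝓘(ℝ, E4) ∞ M] (w w' : Trip M), Pos3 w →
    PL w w' → SameCls w w' → Joined w w'

/-! ### existence of `J`-spheres for simple roots -/

/-- SPH: a simple root perpendicular to the pair is an embedded `J`-sphere. -/
def SPH : Prop :=
  ∀ (M : Type u) [TopologicalSpace M] [T2Space M] [CompactSpace M] [ConnectedSpace M]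
    [ChartedSpace E4 M] [IsManifold 𝓘(ℝ, E4) ∞ M] (w : Trip M), Pos3 w → K3Type (w 0) →
    ∀ d ∈ Root (w 0), ip (w 0) d (cls (w 1)) = 0 → ip (w 0) d (cls (w 2)) = 0 →
    0 < ip (w 0) d (cls (w 0)) →
    (∀ d' ∈ Root (w 0), ip (w 0) d' (cls (w 1)) = 0 → ip (w 0) d' (cls (w 2)) = 0 →
      0 < ip (w 0) d' (cls (w 0)) → d' ≠ d → 0 ≤ ip (w 0) d' d) →
    ∃ σ : E3 → M, JSph w σ d

/-! ### geometry (FIB, KUM, HKP) -/

/-- GEOT (torus type). -/
def GEOT : Prop :=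
  ∀ (M : Type u) [TopologicalSpace M] [T2Space M] [CompactSpace M] [ConnectedSpace M]
    [ChartedSpace E4 M] [IsManifold 𝓘(ℝ, E4) ∞ M] (w : Trip M), Pos3 w → T4Type (w 0) →
    ∃ w' : Trip M, PL w w' ∧ SameCls w w' ∧ HK w'

/-- GEOK (K3 type). -/
def GEOK : Prop :=
  ∀ (M : Type u) [TopologicalSpace M] [T2Space M] [CompactSpace M] [ConnectedSpace M]
    [ChartedSpace E4 M] [IsManifold 𝓘(ℝ, E4) ∞ M] (w : Trip M), Pos3 w → K3Type (w 0) →
    ∃ w' : Trip M, PL w w' ∧ Pos3 w' ∧ HK w'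

/-- HKP: path lifting for hyperkaehler triples. -/
def HKP : Prop :=
  ∀ (M : Type u) [TopologicalSpace M] [T2Space M] [CompactSpace M] [ConnectedSpace M]
    [ChartedSpace E4 M] [IsManifold 𝓘(ℝ, E4) ∞ M] (w w' : Trip M), Pos3 w → K3Type (w 0) →
    PL w w' → Pos3 w' → HK w' → ∃ w'' : Trip M, PL w' w'' ∧ SameCls w w'' ∧ HK w''

/-! ### assembly -/

theorem main_of (hD : DICH.{u}) (hL : LIFT.{u}) (hT : GEOT.{u}) (hK : GEOK.{u})
    (hP : HKP.{u}) : MAIN.{u} := by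
  intro M _ _ _ _ _ _ w hw
  rcases hD M w hw with h | h
  · obtain ⟨w', h1, h2, h3⟩ := hK M w hw h
    obtain ⟨w'', h4, h5, h6⟩ := hP M w w' hw h h1 h2 h3
    exact ⟨w'', hL M w w'' hw (Relation.ReflTransGen.trans h1 h4) h5, h6⟩
  · obtain ⟨w', h1, h2, h3⟩ := hT M w hw h
    exact ⟨w', hL M w w' hw h1 h2, h3⟩

end

end Crest.Agent.R235
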