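import Mathlib

/-!
Row 235 (S0364), package LAT, helper723: Sylvester's law in the form needed for `b⁺ = 3`, the
form `E₈` is positive definite, signature of the K3 lattice.  Pure linear algebra.
-/

set_option autoImplicit false

open Finset

namespace Crest.Agent.R235.LatS_723

/-- **Sylvester**: if `V` has a negative definite subspace of codimension `≤ k` (given as the image
of a linear map `φ`), then the orthogonal complement of a positive definite `k`-frame is negative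
definite. -/
theorem neg_of_sylvester {V N : Type*} [AddCommGroup V] [Module ℝ V] [AddCommGroup N]
    [Module ℝ N] [FiniteDimensional ℝ N] [FiniteDimensional ℝ V]
    (B : LinearMap.BilinForm ℝ V) (hs : ∀ x y, B x y = B y x)
    (φ : N →ₗ[ℝ] V) (hφ : ∀ n, n ≠ 0 → B (φ n) (φ n) < 0)
    {k : ℕ} (hdim : Module.finrank ℝ V ≤ Module.finrank ℝ N + k)
    (c : Fin k → V) (hc : ∀ a : Fin k → ℝ, a ≠ 0 → 0 < B (∑ i, a i • c i) (∑ i, a i • c i))
    (x : V) (hx : ∀ i, B x (c i) = 0) (h0 : x ≠ 0) : B x x < 0 := by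
  by_contra hcon
  push Not at hcon
  let L : ((Fin k → ℝ) × ℝ × N) →ₗ[ℝ] V :=
    LinearMap.coprod (Fintype.linearCombination ℝ c)
      (LinearMap.coprod (LinearMap.toSpanSingleton ℝ V x) φ)
  have hL : ∀ a t n, L (a, t, n) = (∑ i, a i • c i) + (t • x + φ n) := by
    intro a t n
    simp [L, Fintype.linearCombination_apply]
  have hlt : Module.finrank ℝ V < Module.finrank ℝ ((Fin k → ℝ) × ℝ × N) := by
    rw [Module.finrank_prod, Module.finrank_prod, Module.finrank_fin_fun, Module.finrank_self]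
    omega
  have hker := LinearMap.ker_ne_bot_of_finrank_lt (f := L) hlt
  obtain ⟨⟨a, t, n⟩, hmem, hne⟩ := (Submodule.ne_bot_iff _).1 hker
  rw [LinearMap.mem_ker, hL] at hmem
  have hz : φ (-n) = (∑ i, a i • c i) + t • x := by
    rw [map_neg, eq_comm, ← sub_eq_zero, sub_neg_eq_add]
    rw [← hmem]
    abel
  have hcx : B (∑ i, a i • c i) x = 0 := by
    rw [hs, map_sum]
    exact Finset.sum_eq_zero fun i _ => by rw [map_smul, hx i, smul_zero]
  have hxc : B x (∑ i, a i • c i) = 0 := by rw [hs, hcx]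
  have hval : B (φ (-n)) (φ (-n)) = B (∑ i, a i • c i) (∑ i, a i • c i) + t ^ 2 * B x x := by
    rw [hz]
    simp only [map_add, LinearMap.add_apply, map_smul, LinearMap.smul_apply, smul_eq_mul]
    rw [hcx, hxc]
    ring
  have hnn : 0 ≤ B (φ (-n)) (φ (-n)) := by
    rw [hval]
    have h1 : 0 ≤ B (∑ i, a i • c i) (∑ i, a i • c i) := by
      by_cases ha : a = 0
      · simp [ha]
      · exact (hc a ha).le
    positivity
  have hn : n = 0 := by
    by_contra hn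
    exact absurd (hφ (-n) (neg_ne_zero.2 hn)) (not_lt.2 hnn)
  subst hn
  rw [neg_zero, map_zero, map_zero] at hval
  have ha : a = 0 := by
    by_contra ha
    have h1 := hc a ha
    have h2 : 0 ≤ t ^ 2 * B x x := mul_nonneg (sq_nonneg _) hcon
    linarith
  subst ha
  rw [neg_zero, map_zero] at hz
  simp only [Pi.zero_apply, zero_smul, Finset.sum_const_zero, zero_add] at hz
  have ht : t = 0 := by
    rcases smul_eq_zero.1 hz.symm with h | h
    · exact h
    · exact absurd h h0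
  exact hne (by rw [ht]; rfl)

/-- two positive frames of maximal rank pair nondegenerately. -/
theorem det_ne_zero {V : Type*} [AddCommGroup V] [Module ℝ V]
    (B : LinearMap.BilinForm ℝ V)
    {k : ℕ} (b c : Fin k → V)
    (hb : ∀ a : Fin k → ℝ, a ≠ 0 → 0 < B (∑ i, a i • b i) (∑ i, a i • b i))
    (hneg : ∀ x, x ≠ 0 → (∀ i, B x (c i) = 0) → B x x < 0) :
    (Matrix.of fun i j => B (b i) (c j)).det ≠ 0 := by
  intro hdet
  obtain ⟨a, ha, ha2⟩ := Matrix.exists_vecMul_eq_zero_iff.2 hdet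
  have h1 := hb a ha
  have h2 : ∀ j, B (∑ i, a i • b i) (c j) = 0 := by
    intro j
    have h3 := congrFun ha2 j
    rw [map_sum, LinearMap.sum_apply]
    simpa [Matrix.vecMul, dotProduct] using h3
  have h4 : (∑ i, a i • b i) ≠ 0 := by
    intro h
    rw [h] at h1
    simp at h1
  exact absurd (hneg _ h4 h2) (not_lt.2 h1.le)

/-- the form `E₈` as a sum of squares. -/
theorem e8_sq (x : Fin 8 → ℝ) :
    ∑ i, ∑ j, x i * x j * (CartanMatrix.E₈ i j : ℝ) =
      2 * (x 0 - x 2 / 2) ^ 2 + 2 * (x 1 - x 3 / 2) ^ 2 + 3 / 2 * (x 2 - 2 / 3 * x 3) ^ 2 +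
      5 / 6 * (x 3 - 6 / 5 * x 4) ^ 2 + 4 / 5 * (x 4 - 5 / 4 * x 5) ^ 2 +
      3 / 4 * (x 5 - 4 / 3 * x 6) ^ 2 + 2 / 3 * (x 6 - 3 / 2 * x 7) ^ 2 + 1 / 2 * x 7 ^ 2 := by
  simp only [CartanMatrix.E₈, Fin.sum_univ_eight, Matrix.of_apply, Matrix.cons_val']
  simp
  ring

theorem sq8 (q0 q1 q2 q3 q4 q5 q6 q7 : ℝ)
    (h : 2 * q0 ^ 2 + 2 * q1 ^ 2 + 3 / 2 * q2 ^ 2 + 5 / 6 * q3 ^ 2 + 4 / 5 * q4 ^ 2 +
      3 / 4 * q5 ^ 2 + 2 / 3 * q6 ^ 2 + 1 / 2 * q7 ^ 2 ≤ 0) :
    q0 = 0 ∧ q1 = 0 ∧ q2 = 0 ∧ q3 = 0 ∧ q4 = 0 ∧ q5 = 0 ∧ q6 = 0 ∧ q7 = 0 := by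
  have k0 := sq_nonneg q0
  have k1 := sq_nonneg q1
  have k2 := sq_nonneg q2
  have k3 := sq_nonneg q3
  have k4 := sq_nonneg q4
  have k5 := sq_nonneg q5
  have k6 := sq_nonneg q6
  have k7 := sq_nonneg q7
  refine ⟨?_, ?_, ?_, ?_, ?_, ?_, ?_, ?_⟩ <;>
  · rw [← sq_eq_zero_iff]
    linarith

theorem e8_pos (x : Fin 8 → ℝ) (hx : x ≠ 0) :
    0 < ∑ i, ∑ j, x i * x j * (CartanMatrix.E₈ i j : ℝ) := by
  rw [e8_sq]
  by_contra hcon
  push Not at hcon
  obtain ⟨h0, h1, h2, h3, h4, h5, h6, h7⟩ := sq8 _ _ _ _ _ _ _ _ hcon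
  apply hx
  have e6 : x 6 = 0 := by linarith
  have e5 : x 5 = 0 := by linarith
  have e4 : x 4 = 0 := by linarith
  have e3 : x 3 = 0 := by linarith
  have e2 : x 2 = 0 := by linarith
  have e1 : x 1 = 0 := by linarith
  have e0 : x 0 = 0 := by linarith
  funext i
  fin_cases i <;> assumption

theorem e8_nonneg (x : Fin 8 → ℝ) :
    0 ≤ ∑ i, ∑ j, x i * x j * (CartanMatrix.E₈ i j : ℝ) := by
  by_cases hx : x = 0
  · simp [hx]
  · exact (e8_pos x hx).le

end Crest.Agent.R235.LatS_723
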