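import Crest.Agent.R235.Move_844

/-!
Row 235 (S0364), helper844, package MOVE, class level: every positive frame (in the right
component, with one generic class) is reached by elementary moves satisfying the class condition.
-/

set_option autoImplicit false

open Set Function

namespace Crest.Agent.R235.Mv

/-! ### recombinations with positive determinant, on the level of triples -/

section Good

variable {X : Type*} [AddCommGroup X] [Module ℝ X]

/-- the matrix replacing row `k` of the identity by `a`. -/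
def rowM (k : Fin 3) (a : Fin 3 → ℝ) : Matrix (Fin 3) (Fin 3) ℝ :=
  Matrix.of fun i j => if i = k then a j else if i = j then 1 else 0

theorem rowM_apply (k : Fin 3) (a : Fin 3 → ℝ) (i j : Fin 3) :
    rowM k a i j = if i = k then a j else if i = j then 1 else 0 := rfl

theorem det_rowM (k : Fin 3) (a : Fin 3 → ℝ) : (rowM k a).det = a k := by
  rw [Matrix.det_fin_three]
  fin_cases k <;> simp [rowM_apply]

/-- `P` is invariant under recombinations. -/
def Inv (P : Set (Fin 3 → X)) : Prop :=
  ∀ (g : Matrix (Fin 3) (Fin 3) ℝ) (w : Fin 3 → X), g.det ≠ 0 → w ∈ P → act g w ∈ P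

/-- matrices realised by polygonal paths. -/
def Good (P : Set (Fin 3 → X)) (g : Matrix (Fin 3) (Fin 3) ℝ) : Prop :=
  ∀ c : Fin 3 → X, c ∈ P → Relation.ReflTransGen (Seg P) c (act g c)

theorem Good.mul {P : Set (Fin 3 → X)} (hP : Inv P) {g h : Matrix (Fin 3) (Fin 3) ℝ}
    (hg : Good P g) (hh : Good P h) (hd : h.det ≠ 0) : Good P (g * h) := by
  intro c hc
  rw [act_mul]
  exact (hh c hc).trans (hg _ (hP h c hd hc))

theorem good_one (P : Set (Fin 3 → X)) : Good P 1 := by
  intro c _
  rw [act_one]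

/-- replacing `c k` by `(positive multiple of c k) + combination of the others`. -/
theorem seg_span {P : Set (Fin 3 → X)} (hP : Inv P) {c : Fin 3 → X} (hc : c ∈ P) (k : Fin 3)
    (a : Fin 3 → ℝ) (ha : 0 < a k) : Seg P c (update c k (∑ j, a j • c j)) := by
  intro t ht
  have e : lin c (update c k (∑ j, a j • c j)) t =
      act (rowM k fun j => (if j = k then (1 - t) else 0) + t * a j) c := by
    rw [lin_update']
    funext i
    by_cases h : i = k
    · subst h
      simp only [update_self, act, rowM_apply, if_true, add_smul, Finset.sum_add_distrib,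
        ite_smul, zero_smul, Finset.sum_ite_eq', Finset.mem_univ, Finset.smul_sum, smul_smul]
    · simp [act, rowM_apply, h]
  rw [e]
  refine hP _ _ ?_ hc
  rw [det_rowM, if_pos rfl]
  rcases eq_or_lt_of_le ht.1 with h | h
  · rw [← h]; simp
  · have := mul_pos h ha
    exact (by linarith [ht.2] : 0 < (1 - t) + t * a k).ne'

theorem good_row {P : Set (Fin 3 → X)} (hP : Inv P) (k : Fin 3)
    (a : Fin 3 → ℝ) (ha : 0 < a k) :
    Good P (rowM k a) := by
  intro c hc
  have e : act (rowM k a) c = update c k (∑ j, a j • c j) := by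
    funext i
    by_cases h : i = k
    · subst h; simp [act, rowM_apply]
    · simp [act, rowM_apply, h]
  rw [e]
  exact Relation.ReflTransGen.single (seg_span hP hc k a ha)

theorem good_transvection {P : Set (Fin 3 → X)} (hP : Inv P) (i j : Fin 3) (hij : i ≠ j)
    (b : ℝ) : Good P (Matrix.transvection i j b) := by
  have := good_row hP i (fun m => (if m = i then 1 else 0) + (if m = j then b else 0))
    (by simp [hij])
  have e : Matrix.transvection i j b =
      rowM i (fun m => (if m = i then 1 else 0) + (if m = j then b else 0)) := by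
    ext m n
    rw [rowM_apply]
    by_cases h : m = i
    · subst h
      simp only [Matrix.transvection, Matrix.add_apply, Matrix.one_apply, Matrix.single_apply,
        if_true, true_and, eq_comm]
    · simp [Matrix.transvection, Matrix.one_apply, Matrix.single_apply, h, Ne.symm h]
  rw [e]
  exact this

theorem good_list {P : Set (Fin 3 → X)} (hP : Inv P)
    (L : List (Matrix.TransvectionStruct (Fin 3) ℝ)) :
    Good P (L.map Matrix.TransvectionStruct.toMatrix).prod := by
  induction L with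
  | nil => simpa using good_one P
  | cons t L ih =>
    rw [List.map_cons, List.prod_cons]
    refine Good.mul hP (good_transvection hP t.i t.j t.hij t.c) ih ?_
    rw [Matrix.TransvectionStruct.det_toMatrix_prod]
    exact one_ne_zero

theorem good_scal {P : Set (Fin 3 → X)} (hP : Inv P) (k : Fin 3) (l : ℝ) (hl : 0 < l) :
    Good P (Matrix.diagonal (update (fun _ => 1) k l)) := by
  have := good_row hP k (fun m => if m = k then l else 0) (by simp [hl])
  have e : Matrix.diagonal (update (fun _ => 1) k l) =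
      rowM k (fun m => if m = k then l else 0) := by
    ext m n
    rw [rowM_apply]
    by_cases h : m = k
    · subst h
      by_cases hn : n = m
      · subst hn; simp
      · simp [Matrix.diagonal_apply, Ne.symm hn, hn]
    · simp [Matrix.diagonal_apply, h]
  rw [e]
  exact this

theorem good_diag_pos {P : Set (Fin 3 → X)} (hP : Inv P) (D : Fin 3 → ℝ)
    (hD : ∀ i, 0 < D i) : Good P (Matrix.diagonal D) := by
  have e : Matrix.diagonal D = Matrix.diagonal (update (fun _ => 1) 0 (D 0)) *
      (Matrix.diagonal (update (fun _ => 1) 1 (D 1)) *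
        Matrix.diagonal (update (fun _ => 1) 2 (D 2))) := by
    rw [Matrix.diagonal_mul_diagonal, Matrix.diagonal_mul_diagonal]
    congr 1
    funext i
    fin_cases i <;> simp [update]
  rw [e]
  refine Good.mul hP (good_scal hP 0 _ (hD 0)) (Good.mul hP (good_scal hP 1 _ (hD 1))
    (good_scal hP 2 _ (hD 2)) ?_) ?_
  · rw [Matrix.det_diagonal]; simp [Fin.prod_univ_three, update, (hD 2).ne']
  · rw [Matrix.det_mul, Matrix.det_diagonal, Matrix.det_diagonal]
    simp [Fin.prod_univ_three, update, (hD 1).ne', (hD 2).ne']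

/-- two signs. -/
theorem good_neg {P : Set (Fin 3 → X)} (hP : Inv P) (i j : Fin 3) (hij : i ≠ j) :
    Good P (Matrix.diagonal (fun m => if m = i ∨ m = j then -1 else 1)) := by
  have hw : Good P (Matrix.transvection i j 1 * (Matrix.transvection j i (-1) *
      Matrix.transvection i j 1)) := by
    refine Good.mul hP (good_transvection hP i j hij 1)
      (Good.mul hP (good_transvection hP j i hij.symm (-1)) (good_transvection hP i j hij 1) ?_) ?_
    · rw [Matrix.det_transvection_of_ne _ _ hij]; exact one_ne_zero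
    · rw [Matrix.det_mul, Matrix.det_transvection_of_ne _ _ hij,
        Matrix.det_transvection_of_ne _ _ hij.symm]; simp
  have h2 := Good.mul hP hw hw (by
    rw [Matrix.det_mul, Matrix.det_mul, Matrix.det_transvection_of_ne _ _ hij,
        Matrix.det_transvection_of_ne _ _ hij.symm]; simp)
  convert h2 using 1
  ext m n
  fin_cases i <;> fin_cases j <;> first | (exact absurd rfl hij) | skip
  all_goals
    fin_cases m <;> fin_cases n <;>
    simp [Matrix.transvection, Matrix.mul_apply, Fin.sum_univ_three, Matrix.one_apply,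
      Matrix.single_apply, Matrix.diagonal_apply]

theorem good_diag_two {P : Set (Fin 3 → X)} (hP : Inv P) (D : Fin 3 → ℝ) (i j : Fin 3)
    (hij : i ≠ j) (hi : D i < 0) (hj : D j < 0) (hm : ∀ m, m ≠ i → m ≠ j → 0 < D m) :
    Good P (Matrix.diagonal D) := by
  have e : Matrix.diagonal D = Matrix.diagonal (fun m => if m = i ∨ m = j then -1 else 1) *
      Matrix.diagonal (fun m => |D m|) := by
    rw [Matrix.diagonal_mul_diagonal]
    congr 1
    funext m
    by_cases h1 : m = i
    · subst h1; simp [abs_of_neg hi]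
    · by_cases h2 : m = j
      · subst h2; simp [abs_of_neg hj]
      · simp [h1, h2, abs_of_pos (hm m h1 h2)]
  have hne : ∀ m, D m ≠ 0 := by
    intro m
    by_cases h1 : m = i
    · subst h1; exact hi.ne
    · by_cases h2 : m = j
      · subst h2; exact hj.ne
      · exact (hm m h1 h2).ne'
  rw [e]
  refine Good.mul hP (good_neg hP i j hij) (good_diag_pos hP _ fun m => abs_pos.2 (hne m)) ?_
  rw [Matrix.det_diagonal]
  exact Finset.prod_ne_zero_iff.2 fun m _ => abs_ne_zero.2 (hne m)

theorem good_of_det_pos {P : Set (Fin 3 → X)} (hP : Inv P) (g : Matrix (Fin 3) (Fin 3) ℝ)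
    (hg : 0 < g.det) : Good P g := by
  obtain ⟨L, L', D, h⟩ := Matrix.Pivot.exists_list_transvec_mul_diagonal_mul_list_transvec g
  have hdet : g.det = D 0 * D 1 * D 2 := by
    rw [h, Matrix.det_mul, Matrix.det_mul, Matrix.TransvectionStruct.det_toMatrix_prod,
      Matrix.TransvectionStruct.det_toMatrix_prod, Matrix.det_diagonal, Fin.prod_univ_three]
    ring
  rw [hdet] at hg
  have hne : ∀ i, D i ≠ 0 := by
    intro i hi
    fin_cases i <;> simp_all
  have hDg : Good P (Matrix.diagonal D) := by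
    rcases lt_or_gt_of_ne (hne 0) with h0 | h0 <;> rcases lt_or_gt_of_ne (hne 1) with h1 | h1 <;>
      rcases lt_or_gt_of_ne (hne 2) with h2 | h2
    · exact absurd hg (not_lt.2 (mul_neg_of_pos_of_neg (mul_pos_of_neg_of_neg h0 h1) h2).le)
    · exact good_diag_two hP D 0 1 (by decide) h0 h1 (by
        intro m hm hm'; fin_cases m <;> simp_all)
    · exact good_diag_two hP D 0 2 (by decide) h0 h2 (by
        intro m hm hm'; fin_cases m <;> simp_all)
    · exact absurd hg (not_lt.2 (mul_neg_of_neg_of_pos (mul_neg_of_neg_of_pos h0 h1) h2).le)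
    · exact good_diag_two hP D 1 2 (by decide) h1 h2 (by
        intro m hm hm'; fin_cases m <;> simp_all)
    · exact absurd hg (not_lt.2 (mul_neg_of_neg_of_pos (mul_neg_of_pos_of_neg h0 h1) h2).le)
    · exact absurd hg (not_lt.2 (mul_neg_of_pos_of_neg (mul_pos h0 h1) h2).le)
    · exact good_diag_pos hP D (by intro m; fin_cases m <;> assumption)
  rw [h]
  have hd1 : (Matrix.diagonal D).det ≠ 0 := by
    rw [Matrix.det_diagonal]; exact Finset.prod_ne_zero_iff.2 fun m _ => hne m
  refine Good.mul hP (Good.mul hP (good_list hP L) hDg hd1) (good_list hP L') ?_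
  rw [Matrix.TransvectionStruct.det_toMatrix_prod]
  exact one_ne_zero

end Good

variable {H : Type*} [NormedAddCommGroup H] [NormedSpace ℝ H] [FiniteDimensional ℝ H]

/-- elementary move of frames. -/
def MvC (B : H →ₗ[ℝ] H →ₗ[ℝ] ℝ) (R : Set H) (c c' : Fin 3 → H) : Prop :=
  ∃ (k : Fin 3) (x : H), CC B R c k x ∧ c' = update c k x

/-! ### positivity is open -/

theorem isOpen_posF (B : H →ₗ[ℝ] H →ₗ[ℝ] ℝ) : IsOpen {c : Fin 3 → H | PosF B c} := by
  have hBc : Continuous fun p : H × H => B p.1 p.2 := by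
    have h1 : Continuous fun x : H => (LinearMap.toContinuousLinearMap (B x) : H →L[ℝ] ℝ) := by
      have : (fun x : H => (LinearMap.toContinuousLinearMap (B x) : H →L[ℝ] ℝ)) =
          ((LinearMap.toContinuousLinearMap (𝕜 := ℝ) (E := H) (F' := ℝ)).toLinearMap ∘ₗ B) := rfl
      rw [this]
      exact LinearMap.continuous_of_finiteDimensional _
    have h2 : (fun p : H × H => B p.1 p.2) =
        fun p : H × H => (LinearMap.toContinuousLinearMap (B p.1) : H →L[ℝ] ℝ) p.2 := rfl
    rw [h2]
    exact (h1.comp continuous_fst).clm_apply continuous_snd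
  have hcont : Continuous fun p : (Fin 3 → H) × (Fin 3 → ℝ) =>
      B (∑ i, p.2 i • p.1 i) (∑ i, p.2 i • p.1 i) := by
    have h3 : Continuous fun p : (Fin 3 → H) × (Fin 3 → ℝ) => ∑ i, p.2 i • p.1 i := by fun_prop
    exact hBc.comp (h3.prodMk h3)
  have hset : {c : Fin 3 → H | PosF B c} =
      {c : Fin 3 → H | ∀ a ∈ Metric.sphere (0 : Fin 3 → ℝ) 1,
        0 < B (∑ i, a i • c i) (∑ i, a i • c i)} := by
    ext c
    constructor
    · intro h a ha
      refine h a fun h0 => ?_
      rw [h0] at ha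
      simp at ha
    · intro h a ha
      have hn : 0 < ‖a‖ := norm_pos_iff.2 ha
      have h1 := h (‖a‖⁻¹ • a) (by
        rw [mem_sphere_zero_iff_norm, norm_smul, norm_inv, norm_norm]
        exact inv_mul_cancel₀ hn.ne')
      have e : ∑ i, (‖a‖⁻¹ • a) i • c i = ‖a‖⁻¹ • ∑ i, a i • c i := by
        simp [Finset.smul_sum, smul_smul]
      rw [e] at h1
      simp only [map_smul, LinearMap.smul_apply, smul_eq_mul] at h1
      have h2 : 0 < ‖a‖⁻¹ := inv_pos.2 hn
      have h3 := (mul_pos_iff_of_pos_left h2).1 h1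
      exact (mul_pos_iff_of_pos_left h2).1 h3
  rw [hset, isOpen_iff_mem_nhds]
  intro c hc
  have hK : IsCompact (Metric.sphere (0 : Fin 3 → ℝ) 1) := isCompact_sphere 0 1
  refine hK.eventually_forall_of_forall_eventually (x₀ := c)
    (P := fun c a => 0 < B (∑ i, a i • c i) (∑ i, a i • c i)) ?_
  intro a ha
  exact (hcont.continuousAt (x := (c, a))).eventually (lt_mem_nhds (hc a ha))

/-! ### reaching -/

/-- generic class -/
def Gen (B : H →ₗ[ℝ] H →ₗ[ℝ] ℝ) (R : Set H) (x : H) : Prop := ∀ d ∈ R, B d x ≠ 0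

theorem mix_reach {B : H →ₗ[ℝ] H →ₗ[ℝ] ℝ} {R : Set H} {x : Fin 3 → H} {r : ℝ}
    (hball : Metric.ball x r ⊆ {c | PosF B c}) {f f' : Fin 3 → H} (hf : f ∈ Metric.ball x r)
    (hf' : f' ∈ Metric.ball x r) (hg : ∀ i, Gen B R (f i)) (hg' : Gen B R (f' 0)) :
    Relation.ReflTransGen (MvC B R) f f' := by
  have hr : 0 < r := lt_of_le_of_lt dist_nonneg hf
  have hupd : ∀ (u : Fin 3 → H) (k : Fin 3), u ∈ Metric.ball x r →
      update u k (f' k) ∈ Metric.ball x r := by
    intro u k hu
    rw [Metric.mem_ball, dist_pi_lt_iff hr] at hu hf' ⊢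
    intro i
    by_cases h : i = k
    · subst h; rw [update_self]; exact hf' i
    · rw [update_of_ne h]; exact hu i
  have hmv : ∀ (u : Fin 3 → H) (k m : Fin 3), m ≠ k → u ∈ Metric.ball x r → Gen B R (u m) →
      MvC B R u (update u k (f' k)) := by
    intro u k m hmk hu hgm
    refine ⟨k, f' k, ⟨fun t ht => ?_, fun d hd => ⟨m, hmk, hgm d hd⟩⟩, rfl⟩
    apply hball
    exact (convex_ball x r) hu (hupd u k hu) (by linarith [ht.2] : (0 : ℝ) ≤ 1 - t) ht.1
      (by ring)
  have m0 := hmv f 0 1 (by decide) hf (hg 1)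
  have b1 := hupd f 0 hf
  have m1 := hmv (update f 0 (f' 0)) 1 0 (by decide) b1 (by rw [update_self]; exact hg')
  have b2 := hupd _ 1 b1
  have m2 := hmv _ 2 0 (by decide) b2 (by
    rw [update_of_ne (by decide), update_self]; exact hg')
  have e : update (update (update f 0 (f' 0)) 1 (f' 1)) 2 (f' 2) = f' := by
    funext i
    fin_cases i <;> simp [update]
  rw [e] at m2
  exact ((Relation.ReflTransGen.single m0).tail m1).tail m2

theorem reach {B : H →ₗ[ℝ] H →ₗ[ℝ] ℝ} (hBs : ∀ a b, B a b = B b a) {R : Set H}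
    (hR : R.Countable) {c cs : Fin 3 → H} (hc : PosF B c) (hcs : PosF B cs)
    (hroot : ∀ d ∈ R, ∃ i, B d (c i) ≠ 0) (hgen : Gen B R (cs 0))
    (hdet : 0 < (Matrix.of fun i j => B (c i) (cs j)).det) :
    ∃ g : Matrix (Fin 3) (Fin 3) ℝ, 0 < g.det ∧ Relation.ReflTransGen (MvC B R) (act g c) cs := by
  set Mt : Matrix (Fin 3) (Fin 3) ℝ := Matrix.of fun i j => B (c i) (cs j) with hMt
  have hpair : ∀ g : Matrix (Fin 3) (Fin 3) ℝ, ∀ i j, B (act g c i) (cs j) = (g * Mt) i j := by
    intro g i j
    simp [act, Matrix.mul_apply, hMt]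
  let ct : Fin 3 → H := act Mt⁻¹ c
  have hctp : PosF B ct := by
    refine hc.act ?_
    rw [Matrix.det_nonsing_inv, Ring.inverse_eq_inv']
    exact inv_ne_zero hdet.ne'
  have hunit : IsUnit Mt.det := hdet.ne'.isUnit
  have hct : ∀ i j, B (ct i) (cs j) = if i = j then 1 else 0 := by
    intro i j
    rw [hpair, Matrix.nonsing_inv_mul _ hunit, Matrix.one_apply]
  let p : ℝ → Fin 3 → H := fun s => lin ct cs s
  have hpc : Continuous p := by
    refine continuous_pi fun i => ?_
    show Continuous fun s : ℝ => (1 - s) • ct i + s • cs i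
    fun_prop
  -- positivity along the line
  have hpp : ∀ s ∈ Icc (0 : ℝ) 1, PosF B (p s) := by
    intro s hs a ha
    have e : ∑ i, a i • p s i = (1 - s) • (∑ i, a i • ct i) + s • (∑ i, a i • cs i) := by
      simp only [p, lin, smul_add, Finset.sum_add_distrib, Finset.smul_sum, smul_comm (a _)]
    have h1 := hctp a ha
    have h2 := hcs a ha
    have h3 : B (∑ i, a i • ct i) (∑ i, a i • cs i) = ∑ i, a i * a i := by
      simp only [map_sum, LinearMap.sum_apply, map_smul, LinearMap.smul_apply, smul_eq_mul, hct]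
      simp
    have h4 : B (∑ i, a i • cs i) (∑ i, a i • ct i) = ∑ i, a i * a i := by
      rw [hBs, h3]
    have h5 : 0 < ∑ i, a i * a i := by
      obtain ⟨i, hi⟩ := Function.ne_iff.1 ha
      exact Finset.sum_pos' (fun j _ => mul_self_nonneg _)
        ⟨i, Finset.mem_univ _, mul_self_pos.2 hi⟩
    rw [e]
    set C := ∑ i, a i • ct i
    set D := ∑ i, a i • cs i
    simp only [map_add, map_smul, LinearMap.add_apply, LinearMap.smul_apply, smul_eq_mul, h3, h4]
    have k1 : 0 ≤ 1 - s := by linarith [hs.2]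
    have k2 : 0 ≤ s := hs.1
    have e2 : (1 - s) * ((1 - s) * B C C + s * ∑ i, a i * a i) +
        s * ((1 - s) * ∑ i, a i * a i + s * B D D) =
        (1 - s) ^ 2 * B C C + 2 * (s * (1 - s)) * (∑ i, a i * a i) + s ^ 2 * B D D := by ring
    rw [e2]
    rcases eq_or_lt_of_le k1 with h | h
    · have : s = 1 := by linarith
      subst this
      simpa using h2
    · have g1 : 0 < (1 - s) ^ 2 * B C C := by positivity
      have g2 : 0 ≤ 2 * (s * (1 - s)) * (∑ i, a i * a i) := by positivity
      have g3 : 0 ≤ s ^ 2 * B D D := by positivity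
      linarith
  -- density of generic frames
  have hdH : Dense {f : Fin 3 → H | ∀ i, Gen B R (f i)} := by
    have h1 : Dense {x : H | Gen B R x} := by
      refine dense_gen R hR (fun d => B d) fun d hd => ?_
      obtain ⟨i, hi⟩ := hroot d hd
      exact ⟨_, hi⟩
    have h2 := dense_pi (univ : Set (Fin 3)) (s := fun _ => {x : H | Gen B R x})
      (fun _ _ => h1)
    convert h2 using 1
    ext f
    simp
  -- the relation
  let Q : ℝ → ℝ → Prop := fun s s' => ∃ U ∈ nhds (p s), ∃ V ∈ nhds (p s'), ∀ f ∈ U,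
    (∀ i, Gen B R (f i)) → ∀ f' ∈ V, (∀ i, Gen B R (f' i)) → Relation.ReflTransGen (MvC B R) f f'
  have hQ : Q 0 1 := by
    refine Sys.interval_induct Q ?_ ?_
    · rintro a _ b _ e _ ⟨U, hU, V, hV, h1⟩ ⟨U', hU', V', hV', h2⟩
      refine ⟨U, hU, V', hV', fun f hf hfg f' hf' hfg' => ?_⟩
      obtain ⟨g, hg1, hg2⟩ := hdH.inter_nhds_nonempty (Filter.inter_mem hV hU')
      exact (h1 f hf hfg g hg2.1 hg1).trans (h2 g hg2.2 hg1 f' hf' hfg')
    · intro s hs
      obtain ⟨r, hr, hball⟩ := Metric.isOpen_iff.1 (isOpen_posF B) (p s) (hpp s hs)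
      refine ⟨p ⁻¹' Metric.ball (p s) r, hpc.continuousAt (Metric.ball_mem_nhds _ hr), ?_⟩
      rintro a ⟨ha, -⟩ b ⟨hb, -⟩
      refine ⟨Metric.ball (p s) r, Metric.isOpen_ball.mem_nhds ha, Metric.ball (p s) r,
        Metric.isOpen_ball.mem_nhds hb, fun f hf hfg f' hf' hfg' => ?_⟩
      exact mix_reach hball hf hf' hfg (hfg' 0)
  obtain ⟨U, hU, V, hV, hUV⟩ := hQ
  have hp0 : p 0 = ct := lin_zero _ _
  have hp1 : p 1 = cs := lin_one _ _
  rw [hp0] at hU
  rw [hp1] at hV
  -- the end
  obtain ⟨r, hr, hball⟩ := Metric.isOpen_iff.1 (isOpen_posF B) cs hcs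
  obtain ⟨f', hfg', hf'⟩ := hdH.inter_nhds_nonempty
    (Filter.inter_mem hV (Metric.ball_mem_nhds cs hr))
  have hend : Relation.ReflTransGen (MvC B R) f' cs :=
    mix_reach hball hf'.2 (Metric.mem_ball_self hr) hfg' hgen
  -- the beginning
  have hact : Continuous fun g : Fin 3 → Fin 3 → ℝ => act (Matrix.of g) c := by
    refine continuous_pi fun i => ?_
    show Continuous fun g : Fin 3 → Fin 3 → ℝ => ∑ j, g i j • c j
    fun_prop
  have hdG := dense_mat (fun d : H => B d) R hR (fun _ => c) hroot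
  have hdetc : Continuous fun g : Fin 3 → Fin 3 → ℝ => (Matrix.of g).det := by
    have : Continuous fun g : Matrix (Fin 3) (Fin 3) ℝ => g.det := continuous_id.matrix_det
    exact this
  obtain ⟨g0, hg0⟩ : ∃ g0 : Fin 3 → Fin 3 → ℝ, Matrix.of g0 = Mt⁻¹ :=
    ⟨Matrix.of.symm Mt⁻¹, rfl⟩
  have hdet0 : 0 < (Matrix.of g0).det := by
    rw [hg0, Matrix.det_nonsing_inv, Ring.inverse_eq_inv']
    exact inv_pos.2 hdet
  have hct0 : act (Matrix.of g0) c = ct := by
    show _ = act Mt⁻¹ c
    rw [hg0]
  have hN : {g : Fin 3 → Fin 3 → ℝ | act (Matrix.of g) c ∈ U ∧ 0 < (Matrix.of g).det} ∈ nhds g0 := by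
    have k1 : {g : Fin 3 → Fin 3 → ℝ | act (Matrix.of g) c ∈ U} ∈ nhds g0 := by
      refine (hact.tendsto g0) ?_
      rw [hct0]
      exact hU
    have k2 : {g : Fin 3 → Fin 3 → ℝ | 0 < (Matrix.of g).det} ∈ nhds g0 := by
      refine (hdetc.tendsto g0) ?_
      exact lt_mem_nhds hdet0
    exact Filter.inter_mem k1 k2
  obtain ⟨g, hg1, hg2⟩ := hdG.inter_nhds_nonempty hN
  exact ⟨Matrix.of g, hg2.2, (hUV _ hg2.1 hg1 f' hf'.1 hfg').trans hend⟩

/-! ### the main theorem of the abstract argument -/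

namespace Sys

variable {X : Type*} [AddCommGroup X] [Module ℝ X] (S : Sys X H)

theorem lift_move {w : Fin 3 → X} (hw : w ∈ S.P) {cs : Fin 3 → H}
    (h : Relation.ReflTransGen (MvC S.B S.R) (fun i => S.cl (w i)) cs) :
    ∃ w' ∈ S.P, Relation.ReflTransGen (Seg S.P) w w' ∧ (fun i => S.cl (w' i)) = cs := by
  induction h with
  | refl => exact ⟨w, hw, Relation.ReflTransGen.refl, rfl⟩
  | tail _ h2 ih =>
    obtain ⟨w', hw', h1, h3⟩ := ih
    obtain ⟨k, x, hcc, rfl⟩ := h2
    rw [← h3] at hcc ⊢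
    obtain ⟨y, hy, rfl⟩ := S.cone w' hw' k x hcc
    exact ⟨update w' k y, Seg.right hy, h1.tail hy, S.cl_update w' k y⟩

/-- Lemma 3 (REACH). -/
theorem reach {w : Fin 3 → X} (hw : w ∈ S.P) {cs : Fin 3 → H} (hcs : PosF S.B cs)
    (hgen : ∀ d ∈ S.R, S.B d (cs 0) ≠ 0)
    (hdet : 0 < (Matrix.of fun i j => S.B (S.cl (w i)) (cs j)).det) :
    ∃ w' ∈ S.P, Relation.ReflTransGen (Seg S.P) w w' ∧ (fun i => S.cl (w' i)) = cs := by
  obtain ⟨g, hg, h⟩ := Mv.reach S.B_symm S.R_cnt (S.pos w hw) hcs (S.swb w hw) hgen hdet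
  have h1 := good_of_det_pos (P := S.P) S.P_act g hg w hw
  have h2 : act g w ∈ S.P := S.P_act g w hg.ne' hw
  rw [← S.cl_act] at h
  obtain ⟨w', hw', h3, h4⟩ := S.lift_move h2 h
  exact ⟨w', hw', h1.trans h3, h4⟩

/-- MAIN: if the triples in the classes `cs` are joined (with varying classes) to hyperkaehler
triples, then `w` is joined inside its classes to a hyperkaehler triple. -/
theorem main {w : Fin 3 → X} (hw : w ∈ S.P) {cs : Fin 3 → H} (hcs : PosF S.B cs)
    (hgen : ∀ d ∈ S.R, S.B d (cs 0) ≠ 0)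
    (hdet : 0 < (Matrix.of fun i j => S.B (S.cl (w i)) (cs j)).det)
    (htar : ∀ w' ∈ S.P, (fun i => S.cl (w' i)) = cs →
      ∃ z ∈ S.Hy, Relation.ReflTransGen (Seg S.P) w' z) : S.Hn w := by
  obtain ⟨w', hw', h1, h2⟩ := S.reach hw hcs hgen hdet
  obtain ⟨z, hz, h3⟩ := htar w' hw' h2
  exact S.Hn_path (h1.trans h3) ⟨z, Relation.ReflTransGen.refl, hz⟩

end Sys

end Crest.Agent.R235.Mv
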