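import Crest.Agent.R235.Ip3_288
import Crest.Agent.R235.BPlus_723
import Crest.Agent.R235.Frames_844

/-!
Row 235 (S0364), helper844: orientation along paths, taming along segments, dependence of the
types on the orientation only, countability and finiteness: everything needed to instantiate the
abstract class-moving argument `Mv.Sys`.
-/

set_option autoImplicit false
set_option maxSynthPendingDepth 3

open Set Function Filter MeasureTheory
open scoped Manifold ContDiff Topology

universe u

namespace Crest.Agent.R235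

open Crest.Agent.R240 Crest.Agent.R240.Ch Crest.Agent.R240.Int

noncomputable section

/-! ### orientation -/

section Basic

variable {M : Type u} [TopologicalSpace M] [ChartedSpace E4 M] [IsManifold 𝓘(ℝ, E4) ∞ M]

/-- same orientation. -/
def SO (F G : Z2 M) : Prop := ∀ x, 0 < W (val F x) (val F x) * W (val G x) (val G x)

theorem SO.symm {F G : Z2 M} (h : SO F G) : SO G F := fun x => by rw [mul_comm]; exact h x

theorem SO.trans {F G K : Z2 M} (h : SO F G) (h' : SO G K) : SO F K := fun x => by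
  have h1 := h x
  have h2 := h' x
  rcases pos_and_pos_or_neg_and_neg_of_mul_pos h1 with ⟨a, b⟩ | ⟨a, b⟩
  · exact mul_pos a ((mul_pos_iff_of_pos_left b).1 h2)
  · exact mul_pos_of_neg_of_neg a ((pos_iff_neg_of_mul_pos' h2).1 b)
where
  pos_iff_neg_of_mul_pos' {a b : ℝ} (h : 0 < a * b) : a < 0 ↔ b < 0 := by
    constructor
    · intro ha
      by_contra hb
      nlinarith
    · intro hb
      by_contra ha
      nlinarith

theorem Pos3.so {w : Trip M} (hw : Pos3 w) (i j : Fin 3) : SO (w i) (w j) := hw.mul_pos' i j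

theorem Seg.so {w w' : Trip M} (h : Seg w w') : SO (w 0) (w' 0) := by
  intro x
  set a := val (w 0) x with ha
  set b := val (w' 0) x with hb
  have hne : ∀ t : ℝ, 0 ≤ t → t ≤ 1 → W ((1 - t) • a + t • b) ((1 - t) • a + t • b) ≠ 0 := by
    intro t h0 h1
    have := (h t h0 h1).W_ne' 0 x
    rwa [val_seg] at this
  have e : ∀ t : ℝ, W ((1 - t) • a + t • b) ((1 - t) • a + t • b) =
      (1 - t) ^ 2 * W a a + 2 * (t * (1 - t)) * W a b + t ^ 2 * W b b := by
    intro t
    simp only [W_add_left, W_add_right, W_smul_left, W_smul_right, W_comm b a]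
    ring
  let f : ℝ → ℝ := fun t => (1 - t) ^ 2 * W a a + 2 * (t * (1 - t)) * W a b + t ^ 2 * W b b
  have hf : Continuous f := by fun_prop
  have hf0 : f 0 = W a a := by simp [f]
  have hf1 : f 1 = W b b := by simp [f]
  have hfne : ∀ t ∈ Icc (0 : ℝ) 1, f t ≠ 0 := fun t ht => by
    have := hne t ht.1 ht.2
    rwa [e] at this
  rw [← hf0, ← hf1]
  have h0 := hfne 0 (by simp)
  have h1 := hfne 1 (by simp)
  rcases lt_or_gt_of_ne h0 with h2 | h2 <;> rcases lt_or_gt_of_ne h1 with h3 | h3
  · exact mul_pos_of_neg_of_neg h2 h3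
  · obtain ⟨t, ht, h4⟩ := intermediate_value_Icc (zero_le_one (α := ℝ)) hf.continuousOn
      (show (0 : ℝ) ∈ Icc (f 0) (f 1) from ⟨h2.le, h3.le⟩)
    exact absurd h4 (hfne t ht)
  · obtain ⟨t, ht, h4⟩ := intermediate_value_Icc' (zero_le_one (α := ℝ)) hf.continuousOn
      (show (0 : ℝ) ∈ Icc (f 1) (f 0) from ⟨h3.le, h2.le⟩)
    exact absurd h4 (hfne t ht)
  · exact mul_pos h2 h3

/-! ### taming along segments -/

/-- a form `b` with `b v = 0`, `v ≠ 0`, is degenerate. -/
theorem W_eq_zero_of_ker {b : Bil} (hb : Alt b) {v : E4} (hv : v ≠ 0) (h : b v = 0) :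
    W b b = 0 := by
  -- choose `A` with `A (ee 0) = v`
  obtain ⟨i, hi⟩ : ∃ i, v i ≠ 0 := by
    by_contra hcon
    push Not at hcon
    exact hv (by ext i; simpa using hcon i)
  -- the row `i` relation: `∑ j, v j * ent b j k = 0`
  have hr : ∀ k, v 0 * ent b 0 k + v 1 * ent b 1 k + v 2 * ent b 2 k + v 3 * ent b 3 k = 0 := by
    intro k
    have h1 : b v (ee k) = 0 := by rw [h]; rfl
    rw [sum_ee v] at h1
    simpa [ent] using h1
  have r0 := hr 0
  have r1 := hr 1
  have r2 := hr 2
  have r3 := hr 3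
  have s := hb.ent_swap
  have z := hb.ent_self
  rw [z 0, s 1 0, s 2 0, s 3 0] at r0
  rw [z 1, s 2 1, s 3 1] at r1
  rw [z 2, s 3 2] at r2
  rw [z 3] at r3
  have hW : W b b = 2 * (ent b 0 1 * ent b 2 3 - ent b 0 2 * ent b 1 3 + ent b 0 3 * ent b 1 2) := by
    unfold W
    ring
  have key : v i * (ent b 0 1 * ent b 2 3 - ent b 0 2 * ent b 1 3 + ent b 0 3 * ent b 1 2) = 0 := by
    fin_cases i
    · show v 0 * _ = 0
      linear_combination (ent b 2 3) * r1 - (ent b 1 3) * r2 + (ent b 1 2) * r3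
    · show v 1 * _ = 0
      linear_combination -(ent b 2 3) * r0 + (ent b 0 3) * r2 - (ent b 0 2) * r3
    · show v 2 * _ = 0
      linear_combination (ent b 1 3) * r0 - (ent b 0 3) * r1 + (ent b 0 1) * r3
    · show v 3 * _ = 0
      linear_combination -(ent b 1 2) * r0 + (ent b 0 2) * r1 - (ent b 0 1) * r2
  rw [hW]
  rcases mul_eq_zero.1 key with h1 | h1
  · exact absurd h1 hi
  · rw [h1, mul_zero]

theorem exists_ker {b : Fin 3 → Bil} (hb : ∀ i, Alt (b i)) {J : E4 →L[ℝ] E4}
    (hJ : ∀ v, J (J v) = -v) {v : E4} (hv : v ≠ 0) (h : ∀ i, b i v (J v) = 0) :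
    ∃ c : Fin 3 → ℝ, c ≠ 0 ∧ (∑ i, c i • b i) v = 0 := by
  -- the complex line
  have hli : LinearIndependent ℝ ![v, J v] := by
    rw [LinearIndependent.pair_iff]
    intro s t hst
    have h1 : s • J v - t • v = 0 := by
      have := congrArg J hst
      rw [map_add, map_smul, map_smul, hJ, map_zero, smul_neg, ← sub_eq_add_neg] at this
      exact this
    have h2 : (s ^ 2 + t ^ 2) • v = 0 := by
      have : (s ^ 2 + t ^ 2) • v = s • (s • v + t • J v) - t • (s • J v - t • v) := by module
      rw [this, hst, h1, smul_zero, smul_zero, sub_zero]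
    have h3 : s ^ 2 + t ^ 2 = 0 := (smul_eq_zero.1 h2).resolve_right hv
    constructor <;> nlinarith [sq_nonneg s, sq_nonneg t]
  let N : Submodule ℝ E4 := Submodule.span ℝ (Set.range ![v, J v])
  have hN : Module.finrank ℝ N = 2 := by
    have := finrank_span_eq_card hli
    simpa using this
  obtain ⟨N', hNN'⟩ := N.exists_isCompl
  have hN' : Module.finrank ℝ N' = 2 := by
    have h1 := Submodule.finrank_add_eq_of_isCompl hNN'
    have h2 : Module.finrank ℝ E4 = 4 := by simp [E4]
    omega
  let T : (Fin 3 → ℝ) →ₗ[ℝ] (N' →ₗ[ℝ] ℝ) :=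
    { toFun := fun c => ((∑ i, c i • b i : Bil) v : E4 →L[ℝ] ℝ).toLinearMap ∘ₗ N'.subtype
      map_add' := by
        intro c d
        ext x
        simp [add_mul, Finset.sum_add_distrib]
      map_smul' := by
        intro r c
        ext x
        simp [Finset.mul_sum, mul_assoc] }
  have hlt : Module.finrank ℝ (N' →ₗ[ℝ] ℝ) < Module.finrank ℝ (Fin 3 → ℝ) := by
    rw [Module.finrank_linearMap, hN']
    simp
  obtain ⟨c, hcT, hc⟩ := (Submodule.ne_bot_iff _).1 (LinearMap.ker_ne_bot_of_finrank_lt (f := T) hlt)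
  refine ⟨c, hc, ?_⟩
  have hz : ∀ x ∈ N', (∑ i, c i • b i : Bil) v x = 0 := by
    intro x hx
    have := LinearMap.congr_fun (LinearMap.mem_ker.1 hcT) ⟨x, hx⟩
    exact this
  have hy : ∀ x ∈ N, (∑ i, c i • b i : Bil) v x = 0 := by
    intro x hx
    refine Submodule.span_induction ?_ ?_ ?_ ?_ hx
    · rintro _ ⟨j, rfl⟩
      fin_cases j
      · simp only [_root_.sum_apply, _root_.smul_apply, smul_eq_mul]
        refine Finset.sum_eq_zero fun i _ => ?_
        rw [show (![v, J v] : Fin 2 → E4) ((fun i => i) ⟨0, by norm_num⟩) = v from rfl, hb i v,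
          mul_zero]
      · simp only [_root_.sum_apply, _root_.smul_apply, smul_eq_mul]
        refine Finset.sum_eq_zero fun i _ => ?_
        rw [show (![v, J v] : Fin 2 → E4) ((fun i => i) ⟨1, by norm_num⟩) = J v from rfl, h i,
          mul_zero]
    · simp
    · intro x y _ _ h1 h2
      rw [map_add, h1, h2, add_zero]
    · intro r x _ h1
      rw [map_smul, h1, smul_zero]
  ext x
  have hx : x ∈ N ⊔ N' := by rw [hNN'.sup_eq_top]; trivial
  obtain ⟨y, hyN, z, hzN, rfl⟩ := Submodule.mem_sup.1 hx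
  rw [map_add, hy y hyN, hz z hzN, add_zero]
  rfl

theorem IsJ.zero_of_anti {w : Trip M} {J : EndF E4 M} (hJ : IsJ w J) {a : Z2 M}
    (ha : ∀ x u v, val a x (atJ J x u) (atJ J x v) = - val a x u v) (x : M) (v : E4) :
    val a x v (atJ J x v) = 0 := by
  have h1 := ha x v (atJ J x v)
  rw [hJ.sq, map_neg, (val_alt a x).swap (atJ J x v) v, neg_neg] at h1
  linarith

/-- a positive segment consists of taming forms. -/
theorem tame_of_seg {w : Trip M} {J : EndF E4 M} (hJ : IsJ w J) {a : Z2 M}
    (h : Seg w (update w 0 a)) : ∀ x v, v ≠ 0 → 0 < val a x v (atJ J x v) := by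
  intro x v hv
  by_contra hcon
  rw [not_lt] at hcon
  set p := val (w 0) x v (atJ J x v) with hp
  set r := val a x v (atJ J x v) with hr
  have hp0 : 0 < p := hJ.tame x v hv
  have hpr : 0 < p - r := by linarith
  let t : ℝ := p / (p - r)
  have h0 : 0 ≤ t := (div_pos hp0 hpr).le
  have h1 : t ≤ 1 := (div_le_one hpr).2 (by linarith)
  have hpos := h t h0 h1
  rw [seg_update_zero] at hpos
  set u : Trip M := update w 0 ((1 - t) • w 0 + t • a) with hu
  have hz : ∀ i, val (u i) x v (atJ J x v) = 0 := by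
    intro i
    fin_cases i
    · show val (u 0) x v (atJ J x v) = 0
      rw [hu, update_self]
      have e : val ((1 - t) • w 0 + t • a) x v (atJ J x v) = (1 - t) * p + t * r := rfl
      rw [e]
      show (1 - p / (p - r)) * p + p / (p - r) * r = 0
      field_simp
      ring
    · show val (u 1) x v (atJ J x v) = 0
      rw [hu, update_of_ne (by decide)]
      exact hJ.zero_of_anti hJ.anti1 x v
    · show val (u 2) x v (atJ J x v) = 0
      rw [hu, update_of_ne (by decide)]
      exact hJ.zero_of_anti hJ.anti2 x v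
  obtain ⟨c, hc, hcv⟩ := exists_ker (b := fun i => val (u i) x) (fun i => val_alt _ _)
    (J := atJ J x) (hJ.sq x) hv hz
  refine hpos x c hc (W_eq_zero_of_ker ?_ hv hcv)
  rw [← val_comb]
  exact val_alt _ _

theorem update_perm (w : Trip M) (k : Fin 3) (a : Z2 M) :
    (fun i => update w k a (Equiv.swap 0 k i)) = update (fun i => w (Equiv.swap 0 k i)) 0 a := by
  funext i
  by_cases h : i = 0
  · subst h
    simp
  · rw [update_of_ne h, update_of_ne]
    intro h1
    apply h
    have := (Equiv.swap 0 k).injective (a₁ := i) (a₂ := 0) (by rw [h1, Equiv.swap_apply_left])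
    exact this

/-- convexity of the set of taming forms. -/
theorem convex_tame {w : Trip M} (hw : Pos3 w) (k : Fin 3)
    (hex : ∀ w : Trip M, Pos3 w → ∃ J, IsJ w J) : Convex ℝ {a : Z2 M | Seg w (update w k a)} := by
  set σ : Equiv.Perm (Fin 3) := Equiv.swap 0 k with hσ
  obtain ⟨J, hJ⟩ := hex _ (hw.perm σ)
  have key : ∀ a : Z2 M, Seg w (update w k a) ↔
      ∀ x v, v ≠ 0 → 0 < val a x v (atJ J x v) := by
    intro a
    constructor
    · intro h
      have := h.perm σ
      rw [update_perm] at this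
      exact tame_of_seg hJ this
    · intro h
      have := seg_of_tame (hw.perm σ) hJ h
      rw [← update_perm] at this
      exact Seg.of_perm σ this
  intro a ha b hb s t hs ht hst
  rw [mem_setOf_eq, key] at ha hb ⊢
  intro x v hv
  have e : val (s • a + t • b) x v (atJ J x v) =
      s * val a x v (atJ J x v) + t * val b x v (atJ J x v) := rfl
  rw [e]
  have h1 := ha x v hv
  have h2 := hb x v hv
  rcases hs.lt_or_eq with h | h
  · have := mul_pos h h1
    have := mul_nonneg ht h2.le
    linarith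
  · have ht1 : t = 1 := by linarith
    rw [← h, ht1]
    linarith

/-! ### hyperkaehler triples -/

/-- `W` as a bilinear map. -/
def WL : Bil →ₗ[ℝ] Bil →ₗ[ℝ] ℝ :=
  LinearMap.mk₂ ℝ W W_add_left (fun r a b => W_smul_left r a b) W_add_right
    (fun r a b => W_smul_right r a b)

theorem WL_apply (a b : Bil) : WL a b = W a b := rfl

theorem HK.linear {w : Trip M} (h : HK w) {A : Matrix (Fin 3) (Fin 3) ℝ} (hA : A.det ≠ 0) :
    HK (fun i => ∑ j, A i j • w j : Trip M) := by
  obtain ⟨G, hG, hs⟩ := h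
  refine ⟨A * G * A.conjTranspose, hG.mul_mul_conjTranspose_same ?_, fun x => ?_⟩
  · exact Matrix.vecMul_injective_of_isUnit ((Matrix.isUnit_iff_isUnit_det _).2 hA.isUnit)
  · obtain ⟨s, hs⟩ := hs x
    refine ⟨s, fun i k => ?_⟩
    rw [val_comb, val_comb, ← WL_apply]
    simp only [map_sum, map_smul, LinearMap.sum_apply, LinearMap.smul_apply, smul_eq_mul,
      WL_apply, hs, Matrix.mul_apply, Matrix.conjTranspose_apply, star_trivial, Finset.sum_mul,
      Finset.mul_sum]
    refine Finset.sum_congr rfl fun l _ => Finset.sum_congr rfl fun j _ => ?_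
    ring

end Basic

/-! ### dependence on the orientation only -/

section Closed

variable {M : Type u} [TopologicalSpace M] [T2Space M] [CompactSpace M]
  [ChartedSpace E4 M] [IsManifold 𝓘(ℝ, E4) ∞ M]

theorem SO.pI_eq {F G : Z2 M} (hF : Vol (F.1.1 : F2 E4 M)) (hG : Vol (G.1.1 : F2 E4 M))
    (h : SO F G) : pI G = pI F := by
  funext a b
  exact pI_congr_orient hF hG h a b

theorem SO.ip_eq {F G : Z2 M} (hF : Vol (F.1.1 : F2 E4 M)) (hG : Vol (G.1.1 : F2 E4 M))
    (h : SO F G) : ip G = ip F := by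
  funext a b
  exact ip_congr_orient hF hG h a b

theorem K3Type_congr {F G : Z2 M} (h : ip G = ip F) : K3Type G = K3Type F := by
  unfold K3Type
  rw [h]

theorem T4Type_congr {F G : Z2 M} (h : pI G = pI F) : T4Type G = T4Type F := by
  unfold T4Type
  rw [h]

theorem Root_congr {F G : Z2 M} (h : ip G = ip F) : Root G = Root F := by
  unfold Root
  rw [h]

theorem Rt_congr {F G : Z2 M} (h : ip G = ip F) : Rt G = Rt F := by
  unfold Rt
  rw [K3Type_congr h, Root_congr h]

theorem Dg_congr {F G : Z2 M} (h : ip G = ip F) : Dg G = Dg F := by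
  unfold Dg
  rw [Rt_congr h, h]

theorem NC_congr {F G : Z2 M} (h : ip G = ip F) (c : Fin 3 → H2 M) (k : Fin 3) :
    NC G c k = NC F c k := by
  unfold NC
  rw [Dg_congr h, h]

theorem PosCls_congr {F G : Z2 M} (h : ip G = ip F) (c : Fin 3 → H2 M) :
    PosCls G c = PosCls F c := by
  unfold PosCls
  rw [h]

theorem CCond_congr {F G : Z2 M} (h : ip G = ip F) (c : Fin 3 → H2 M) (k : Fin 3) (x : H2 M) :
    CCond G c k x = CCond F c k x := by
  unfold CCond
  simp only [NC_congr h, PosCls_congr h]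

theorem KumConf_congr {F G : Z2 M} (h : ip G = ip F) {d : Fin 16 → H2 M} (hd : KumConf F d) :
    KumConf G d where
  root i := by rw [Root_congr h]; exact hd.root i
  orth i j hij := by rw [h]; exact hd.orth i j hij
  half := hd.half

theorem KumPos_congr {F G : Z2 M} (h : ip G = ip F) {d : Fin 16 → H2 M} {b : Fin 3 → H2 M}
    (hd : KumPos F d b) : KumPos G d b where
  conf := KumConf_congr h hd.conf
  perp1 i := by rw [h]; exact hd.perp1 i
  perp2 i := by rw [h]; exact hd.perp2 i
  only e he h1 h2 := by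
    rw [Root_congr h] at he
    rw [h] at h1 h2
    exact hd.only e he h1 h2
  pos i := by rw [h]; exact hd.pos i
  gen e he h0 := by rw [h]; exact hd.gen e he h0

theorem TorPos_congr {F G : Z2 M} (h : ip G = ip F) {e : H2 M} {b : Fin 3 → H2 M}
    (hd : TorPos F e b) : TorPos G e b where
  int := hd.int
  iso := by rw [h]; exact hd.iso
  perp1 := by rw [h]; exact hd.perp1
  perp2 := by rw [h]; exact hd.perp2
  only c hc h1 h2 := by
    rw [h] at h1 h2
    exact hd.only c hc h1 h2
  pos := by rw [h]; exact hd.pos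
  gen c hc h0 := by rw [h]; exact hd.gen c hc h0

/-! ### finiteness -/

theorem HZ_countable {F : Z2 M} (h : K3Type F ∨ T4Type F) : (HZ M).Countable := by
  rcases h with ⟨-, e, -, hZ⟩ | ⟨s, -, -, a, -, -, -, -, hZ⟩
  · rw [hZ]
    refine (Set.countable_range
      (fun n : (Fin 3 × Fin 2 ⊕ Fin 2 × Fin 8) → ℤ => ∑ i, (n i : ℝ) • e i)).mono ?_
    rintro c ⟨n, rfl⟩
    exact ⟨n, rfl⟩
  · rw [hZ]
    refine (Set.countable_range
      (fun n : Fin 4 → Fin 4 → ℤ => ∑ i, ∑ j, (n i j : ℝ) • cls (a i j))).mono ?_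
    rintro c ⟨n, rfl⟩
    exact ⟨n, rfl⟩

theorem finite_H2 {F : Z2 M} (h : K3Type F ∨ T4Type F) : Module.Finite ℝ (H2 M) := by
  rcases h with ⟨-, e, -, -⟩ | ⟨s, -, -, a, -, -, -, hs, -⟩
  · exact Module.Finite.of_basis e
  · let T : (Fin 4 → Fin 4 → ℝ) →ₗ[ℝ] H2 M :=
      { toFun := fun n => ∑ i, ∑ j, n i j • cls (a i j)
        map_add' := by
          intro m n
          simp only [Pi.add_apply, add_smul, Finset.sum_add_distrib]
        map_smul' := by
          intro r n
          simp only [Pi.smul_apply, smul_eq_mul, mul_smul, Finset.smul_sum, RingHom.id_apply] }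
    refine Module.Finite.of_surjective T fun c => ?_
    obtain ⟨n, hn⟩ := hs c
    exact ⟨n, hn.symm⟩

end Closed

end

end Crest.Agent.R235
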