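import Crest.Agent.R235.Ip3_288
import Crest.Agent.R235.Props_844
import Crest.Agent.R235.TopA_844
import Crest.Agent.R235.Exj_900
import Crest.Agent.R240.TopAll
import Crest.Agent.R240.N8
import Crest.Agent.R240.Final

/-!
Row 235 (S0364), package SWC (helper291, captain's DECISION 4): reduction to triples with
`W (w 0) (w 1) = W (w 0) (w 2) = 0`, and the exclusion of the parameters `t ≠ u`.

* `Compat w J b`  : `b` is closed, `J`-invariant, positive (`J` = the structure of the pair);
* `exists_compat` : it exists (S0371, i.e. R240);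
* `Compat.orth`, `Compat.seg`, `Compat.pos3`, `Compat.isJ`, `Compat.ip_eq`, `Compat.sgn`;
* `JT w t J'`     : `J'` is the structure of the conformal class of `w`, compatible with `w_t`;
* `JT.tame_pair`  : `t 1 • w 1 + t 2 • w 2` tames `J'`, with the explicit factor;
* `uu`            : a positive closed `J'`-current of a class orthogonal to the pair, positive on
                    `w 0`, has `t 1 = t 2 = 0`, `0 < t 0`, and `J'` is the structure of the pair.
-/

set_option autoImplicit false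
set_option maxSynthPendingDepth 3

open Set Function Filter MeasureTheory
open scoped Manifold ContDiff Topology ENNReal

universe u

namespace Crest.Agent.R235.Uu_291

open Crest.Agent.R240 Crest.Agent.R240.Ch Crest.Agent.R240.Int Crest.Agent.R235

noncomputable section

section Basic

variable {M : Type u} [TopologicalSpace M] [ChartedSpace E4 M] [IsManifold 𝓘(ℝ, E4) ∞ M]

/-- `b` is compatible with `J`. -/
structure Compat (J : EndF E4 M) (b : Z2 M) : Prop where
  inv : ∀ x u v, val b x (atJ J x u) (atJ J x v) = val b x u v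
  tame : ∀ x v, v ≠ 0 → 0 < val b x v (atJ J x v)

/-- the first form is pointwise orthogonal to the pair. -/
def Orth (w : Trip M) : Prop :=
  ∀ x, W (val (w 0) x) (val (w 1) x) = 0 ∧ W (val (w 0) x) (val (w 2) x) = 0

theorem Compat.spos {J : EndF E4 M} {b : Z2 M} (hb : Compat J b) (x : M) :
    SPos (atJ J x) (val b x) := ⟨val_alt b x, hb.inv x, hb.tame x⟩

theorem Compat.W_anti {w : Trip M} {J : EndF E4 M} {b : Z2 M} (hb : Compat J b) (hJ : IsJ w J)
    {c : Z2 M} (hc : ∀ x u v, val c x (atJ J x u) (atJ J x v) = - val c x u v) (x : M) :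
    W (val b x) (val c x) = 0 := by
  have h1 := q_inv_anti (hJ.sq x) (hb.spos x) (val_alt b x) (val_alt c x) (hb.inv x) (hc x)
  obtain ⟨A, hA⟩ := exists_frame (hJ.sq x) (hb.spos x)
  have h2 := hA.W_ne (val_alt b x)
  rw [q, div_eq_zero_iff] at h1
  exact h1.resolve_right h2

theorem Compat.orth {w : Trip M} {J : EndF E4 M} {b : Z2 M} (hb : Compat J b) (hJ : IsJ w J) :
    Orth (update w 0 b) := by
  intro x
  simp only [update_self, ne_eq, Fin.isValue, one_ne_zero, not_false_eq_true, update_of_ne,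
      Fin.reduceEq]
  exact ⟨hb.W_anti hJ hJ.anti1 x, hb.W_anti hJ hJ.anti2 x⟩

theorem Compat.seg {w : Trip M} {J : EndF E4 M} {b : Z2 M} (hb : Compat J b) (hw : Pos3 w)
    (hJ : IsJ w J) : Seg w (update w 0 b) := seg_of_tame hw hJ hb.tame

theorem Compat.pos3 {w : Trip M} {J : EndF E4 M} {b : Z2 M} (hb : Compat J b) (hw : Pos3 w)
    (hJ : IsJ w J) : Pos3 (update w 0 b) := (hb.seg hw hJ).right

theorem Compat.isJ {w : Trip M} {J : EndF E4 M} {b : Z2 M} (hb : Compat J b)
    (hJ : IsJ w J) : IsJ (update w 0 b) J := hJ.update_zero hb.tame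

/-- `w_t`. -/
def wt (w : Trip M) (t : Fin 3 → ℝ) : Z2 M := ∑ i, t i • w i

theorem val_wt (w : Trip M) (t : Fin 3 → ℝ) (x : M) : val (wt w t) x = ∑ i, t i • val (w i) x :=
  val_comb t w x

/-- `J'` is the almost complex structure of the conformal class of the triple, compatible with
`w_t`: `w_t` is `J'`-invariant and positive, the forms of the triple orthogonal to `w_t` are
`J'`-anti-invariant. -/
structure JT (w : Trip M) (t : Fin 3 → ℝ) (J' : EndF E4 M) : Prop where
  smooth : SmoothJ J'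
  sq : ∀ x v, atJ J' x (atJ J' x v) = -v
  inv : ∀ x u v, val (wt w t) x (atJ J' x u) (atJ J' x v) = val (wt w t) x u v
  tame : ∀ x v, v ≠ 0 → 0 < val (wt w t) x v (atJ J' x v)
  anti : ∀ (x : M) (c : Fin 3 → ℝ), W (∑ i, c i • val (w i) x) (val (wt w t) x) = 0 →
    ∀ u v, (∑ i, c i • val (w i) x) (atJ J' x u) (atJ J' x v) = - (∑ i, c i • val (w i) x) u v

/-- the factor. -/
def fac (w : Trip M) (t c : Fin 3 → ℝ) (x : M) : ℝ :=
  W (∑ i, c i • val (w i) x) (val (wt w t) x) / W (val (wt w t) x) (val (wt w t) x)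

theorem anti_diag {J : E4 →L[ℝ] E4} (hJ : ∀ v, J (J v) = -v) {β : Bil} (ha : Alt β)
    (h : ∀ u v, β (J u) (J v) = - β u v) (v : E4) : β v (J v) = 0 := by
  have h1 := h v (J v)
  rw [hJ, map_neg, ha.swap (J v) v] at h1
  linarith

theorem JT.W_ne {w : Trip M} {t : Fin 3 → ℝ} {J' : EndF E4 M} (h : JT w t J') (x : M) :
    W (val (wt w t) x) (val (wt w t) x) ≠ 0 := by
  obtain ⟨A, hA⟩ := exists_frame (h.sq x) (⟨val_alt _ x, h.inv x, h.tame x⟩ : SPos _ _)
  exact hA.W_ne (val_alt _ x)

/-- the decomposition of a form of the triple: `c = fac • w_t + anti-invariant`. -/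
theorem JT.split {w : Trip M} {t : Fin 3 → ℝ} {J' : EndF E4 M} (h : JT w t J') (c : Fin 3 → ℝ)
    (x : M) : ∀ u v, (∑ i, c i • val (w i) x - fac w t c x • val (wt w t) x) (atJ J' x u)
      (atJ J' x v) = - (∑ i, c i • val (w i) x - fac w t c x • val (wt w t) x) u v := by
  have e : ∑ i, c i • val (w i) x - fac w t c x • val (wt w t) x =
      ∑ i, (c i - fac w t c x * t i) • val (w i) x := by
    rw [val_wt, Finset.smul_sum, ← Finset.sum_sub_distrib]
    refine Finset.sum_congr rfl fun i _ => ?_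
    rw [sub_smul, smul_smul]
  rw [e]
  refine h.anti x _ ?_
  rw [← e, W_sub_left, W_smul_left, fac, div_mul_cancel₀ _ (h.W_ne x), sub_self]

theorem JT.diag {w : Trip M} {t : Fin 3 → ℝ} {J' : EndF E4 M} (h : JT w t J') (c : Fin 3 → ℝ)
    (x : M) (v : E4) : (∑ i, c i • val (w i) x) v (atJ J' x v) =
      fac w t c x * val (wt w t) x v (atJ J' x v) := by
  have h1 := anti_diag (h.sq x) (β := ∑ i, c i • val (w i) x - fac w t c x • val (wt w t) x) (by
    intro v
    rw [← val_wt]
    show val (wt w c) x v v - fac w t c x * val (wt w t) x v v = 0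
    rw [val_alt, val_alt]; ring) (h.split c x) v
  rw [sub_apply, sub_apply, smul_apply, smul_apply, smul_eq_mul] at h1
  linarith

/-- the invariant part. -/
theorem JT.invp_eq {w : Trip M} {t : Fin 3 → ℝ} {J' : EndF E4 M} (h : JT w t J') (c : Fin 3 → ℝ)
    (x : M) : invp (atJ J' x) (∑ i, c i • val (w i) x) = fac w t c x • val (wt w t) x := by
  ext u v
  have h1 := h.split c x u v
  have h2 := h.inv x u v
  rw [invp_apply, smul_apply, smul_apply, smul_eq_mul]
  simp only [sub_apply, smul_apply, smul_eq_mul] at h1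
  rw [h2] at h1
  linarith

/-- the pair part of `t`. -/
def pr (t : Fin 3 → ℝ) : Fin 3 → ℝ := ![0, t 1, t 2]

theorem fac_pr {w : Trip M} (hw : Pos3 w) (ho : Orth w) {t : Fin 3 → ℝ} (ht : t 1 ≠ 0 ∨ t 2 ≠ 0)
    (x : M) : 0 < fac w t (pr t) x := by
  have hpr : pr t ≠ 0 := by
    intro h0
    have h1 := congrFun h0 1
    have h2 := congrFun h0 2
    simp [pr] at h1 h2
    rcases ht with h | h
    · exact h h1
    · exact h h2
  have ht0 : t ≠ 0 := by
    intro h0
    rw [h0] at ht
    simp at ht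
  have e1 : W (∑ i, pr t i • val (w i) x) (val (wt w t) x) =
      W (∑ i, pr t i • val (w i) x) (∑ i, pr t i • val (w i) x) := by
    rw [val_wt]
    simp only [Fin.sum_univ_three, pr, Matrix.cons_val_zero, Matrix.cons_val_one,
      Matrix.cons_val, zero_smul, zero_add]
    rw [W_add_left, W_add_right, W_add_right, W_add_right, W_add_right, W_add_left]
    simp only [W_add_right, W_smul_left, W_smul_right]
    rw [W_comm (val (w 1) x) (val (w 0) x), W_comm (val (w 2) x) (val (w 0) x), (ho x).1, (ho x).2]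
    ring
  have h1 := hw.mul_pos ht0 hpr x
  unfold fac
  rw [e1, val_wt]
  rcases pos_and_pos_or_neg_and_neg_of_mul_pos h1 with ⟨a, b⟩ | ⟨a, b⟩
  · exact div_pos b a
  · exact div_pos_of_neg_of_neg b a

/-- at `t = (t 0, 0, 0)` with `0 < t 0` the structure is the one of the pair. -/
theorem JT.isJ {w : Trip M} (ho : Orth w) {t : Fin 3 → ℝ} {J' : EndF E4 M}
    (h : JT w t J') (h0 : 0 < t 0) (h1 : t 1 = 0) (h2 : t 2 = 0) : IsJ w J' := by
  have e : ∀ x, val (wt w t) x = t 0 • val (w 0) x := by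
    intro x
    rw [val_wt, Fin.sum_univ_three, h1, h2, zero_smul, zero_smul, add_zero, add_zero]
  refine ⟨h.smooth, h.sq, fun x u v => ?_, fun x u v => ?_, fun x v hv => ?_⟩
  · have e1 : ∑ i, (Pi.single 1 1 : Fin 3 → ℝ) i • val (w i) x = val (w 1) x := by
      rw [Fin.sum_univ_three]
      simp
    have := h.anti x (Pi.single 1 1) (by
      rw [e1, e, W_smul_right, W_comm, (ho x).1, mul_zero]) u v
    rwa [e1] at this
  · have e1 : ∑ i, (Pi.single 2 1 : Fin 3 → ℝ) i • val (w i) x = val (w 2) x := by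
      rw [Fin.sum_univ_three]
      simp
    have := h.anti x (Pi.single 2 1) (by
      rw [e1, e, W_smul_right, W_comm, (ho x).2, mul_zero]) u v
    rwa [e1] at this
  · have h3 := h.tame x v hv
    rw [e] at h3
    exact (pos_iff_pos_of_mul_pos h3).1 h0

end Basic

section Closed

variable {M : Type u} [TopologicalSpace M] [T2Space M] [CompactSpace M]
  [ChartedSpace E4 M] [IsManifold 𝓘(ℝ, E4) ∞ M]

/-- **COMP** (S0371): a compatible closed form exists. -/
theorem exists_compat {w : Trip M} {J : EndF E4 M} (hJ : IsJ w J) : ∃ b : Z2 M, Compat J b := by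
  obtain ⟨m, hm, hbl⟩ := Met.exists_metric (E := E4) (M := M)
  subst hm
  let _ : MeasurableSpace M := borel M
  have _ : BorelSpace M := ⟨rfl⟩
  have hV : Vol (bp J ((w 0).1.1 : F2 E4 M)) := vol_bp hJ.sq hJ.smooth (w 0).1.2 hJ.tame
  obtain ⟨D, hDJ⟩ : ∃ D : Dat M, D.J = J :=
    ⟨{ bl := hbl
       J := J
       smJ := hJ.smooth
       sq := hJ.sq
       al := ((w 0).1.1 : F2 E4 M)
       sm_al := (w 0).1.2
       cl_al := (w 0).2
       tames := hJ.tame
       μ := Int.mu (bp J ((w 0).1.1 : F2 E4 M))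
       fin := Int.isFinite_mu hV
       vol := Crest.Agent.R240.isVol_mu hV }, rfl⟩
  obtain ⟨b, hbZ, hb2, hbpos⟩ := D.goal_of_N8 (Dat.n8 D)
  rw [hDJ] at hbpos
  refine ⟨⟨b, hbZ⟩, fun x u v => ?_, hbpos⟩
  rw [← hDJ]
  exact compat_of_bpp (J := D.J) (congrArg Subtype.val hb2) x u v

theorem Compat.ip_eq {w : Trip M} {J : EndF E4 M} {b : Z2 M} (hb : Compat J b) (hw : Pos3 w)
    (hJ : IsJ w J) (c d : H2 M) : ip (update w 0 b 0) c d = ip (w 0) c d :=
  ip_congr_orient (hw.vol 0) ((hb.pos3 hw hJ).vol 0) ((hb.seg hw hJ).so) c d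

theorem sgn_num {A B : ℝ} (h : A - B ≠ 0) : (1 - A / (A - B)) * A + A / (A - B) * B = 0 := by
  field_simp
  ring

/-- the sign: from `BPLUS`, a class `e` with `e² ≥ 0`, orthogonal to the pair and positive on
`w 0`, is positive on every form taming `J`. -/
theorem sgn_of_tame [ConnectedSpace M] (bplus : BPLUS.{u}) {w : Trip M} {J : EndF E4 M}
    (hw : Pos3 w) (hJ : IsJ w J) {b : Z2 M} (hb : ∀ x v, v ≠ 0 → 0 < val b x v (atJ J x v))
    {e : H2 M} (h0 : 0 ≤ ip (w 0) e e) (h1 : ip (w 0) e (cls (w 1)) = 0)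
    (h2 : ip (w 0) e (cls (w 2)) = 0) (hp : 0 < ip (w 0) e (cls (w 0))) :
    0 < ip (w 0) e (cls b) := by
  by_contra hc
  rw [not_lt] at hc
  set A := ip (w 0) e (cls (w 0)) with hA
  set B := ip (w 0) e (cls b) with hB
  have hAB : 0 < A - B := by linarith
  set s : ℝ := A / (A - B) with hs
  have hs0 : 0 ≤ s := by positivity
  have hs1 : s ≤ 1 := by rw [hs, div_le_one hAB]; linarith
  have hS := seg_of_tame hw hJ hb
  have hP := hS s hs0 hs1
  have hV := hw.vol 0
  have hso : ∀ x, 0 < W (val (w 0) x) (val (w 0) x) *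
      W (val (seg w (update w 0 b) s 0) x) (val (seg w (update w 0 b) s 0) x) := by
    have h3 : Seg w (seg w (update w 0 b) s) := by
      rw [seg_update_zero]
      exact seg_of_tame hw hJ fun x v hv => hJ.tame_combo hb (by linarith) hs0 (by linarith) x v hv
    exact h3.so
  have hip : ∀ c d : H2 M, ip (seg w (update w 0 b) s 0) c d = ip (w 0) c d := fun c d =>
    ip_congr_orient hV (hP.vol 0) hso c d
  have he : e ≠ 0 := by
    rintro rfl
    rw [hA, ip_zero_left hV] at hp
    exact lt_irrefl _ hp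
  have hz : ∀ i, ip (w 0) e (cls (seg w (update w 0 b) s i)) = 0 := by
    intro i
    rw [cls_seg, ip_add_right hV, ip_smul_right hV, ip_smul_right hV]
    by_cases hi : i = 0
    · subst hi
      rw [update_self, ← hA, ← hB]
      exact sgn_num hAB.ne'
    · rw [update_of_ne hi]
      have h3 : ip (w 0) e (cls (w i)) = 0 := by
        have hi' : i = 1 ∨ i = 2 := by
          revert hi
          fin_cases i <;> simp
        rcases hi' with rfl | rfl
        · exact h1
        · exact h2
      rw [h3, mul_zero, mul_zero, add_zero]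
  have h4 := bplus M _ hP e (fun i => by rw [hip]; exact hz i) he
  rw [hip] at h4
  linarith

omit [T2Space M] [CompactSpace M] in
theorem cont_fac (w : Trip M) (t c : Fin 3 → ℝ)
    (h : ∀ x, W (val (wt w t) x) (val (wt w t) x) ≠ 0) : Continuous (fac w t c) := by
  have hV : Vol ((wt w t).1.1 : F2 E4 M) := vol_of_ne h
  have h1 : fac w t c = qG ((wt w t).1.1 : F2 E4 M) ((wt w c).1.1 : F2 E4 M)
      ((wt w t).1.1 : F2 E4 M) := by
    funext x
    unfold fac
    rw [← val_wt]
    rfl
  rw [h1]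
  exact continuous_qG hV (cont2_coe _) (cont2_coe _)

/-- **TAME / UU**. -/
theorem uu [Nonempty M] {w : Trip M} (hw : Pos3 w) (ho : Orth w) {J J' : EndF E4 M}
    (hJ : IsJ w J) {t : Fin 3 → ℝ} (h' : JT w t J') {S : X2 M →ₗ[ℝ] ℝ} (hS : PCur J' S)
    (hpos : 0 < S (wt w t).1) (h0 : 0 < S (w 0).1) (h1 : S (w 1).1 = 0) (h2 : S (w 2).1 = 0) :
    t 1 = 0 ∧ t 2 = 0 ∧ 0 < t 0 ∧ J' = J := by
  have key : t 1 = 0 ∧ t 2 = 0 := by
    by_contra hne
    have hne' : t 1 ≠ 0 ∨ t 2 ≠ 0 := by
      by_contra h3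
      push Not at h3
      exact hne h3
    -- lower bound of the factor
    have hc := cont_fac w t (pr t) h'.W_ne
    obtain ⟨x0, -, hx0⟩ := isCompact_univ.exists_isMinOn (univ_nonempty (α := M)) hc.continuousOn
    set h0' := fac w t (pr t) x0 with hh0
    have hh0p : 0 < h0' := fac_pr hw ho hne' x0
    have hmin : ∀ x, h0' ≤ fac w t (pr t) x := fun x => hx0 (mem_univ x)
    -- `S (η - h0 w_t) ≥ 0`
    set η : Z2 M := wt w (pr t) - h0' • wt w t with hη
    have e1 : S η.1 = - (h0' * S (wt w t).1) := by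
      have e2 : (η.1 : X2 M) = (wt w (pr t)).1 - h0' • (wt w t).1 := rfl
      have e3 : ((wt w (pr t)).1 : X2 M) = t 1 • (w 1).1 + t 2 • (w 2).1 := by
        have : wt w (pr t) = t 1 • w 1 + t 2 • w 2 := by
          unfold wt pr
          rw [Fin.sum_univ_three]
          simp
        rw [this]; rfl
      rw [e2, map_sub, map_smul, e3, map_add, map_smul, map_smul, h1, h2]
      simp
    -- the invariant part
    have hval : ∀ x, val η x = ∑ i, pr t i • val (w i) x - h0' • val (wt w t) x := by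
      intro x
      show val (wt w (pr t)) x - h0' • val (wt w t) x = _
      rw [val_wt]
    have hinvp : ∀ x, invp (atJ J' x) (val η x) =
        (fac w t (pr t) x - h0') • val (wt w t) x := by
      intro x
      rw [hval, En4.invp_sub, En4.invp_smul, h'.invp_eq, invp_of_inv (h'.inv x), sub_smul]
    have hpg : PosG J' (bp J' (η.1.1 : F2 E4 M)) := by
      intro x
      have e2 : at2 (bp J' (η.1.1 : F2 E4 M)) x = (fac w t (pr t) x - h0') • val (wt w t) x :=
        hinvp x
      have hf : 0 ≤ fac w t (pr t) x - h0' := sub_nonneg.2 (hmin x)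
      rw [e2]
      refine ⟨(val_alt _ x).smul _, fun u v => ?_, fun v => ?_⟩
      · rw [smul_apply, smul_apply, smul_apply, smul_apply, h'.inv]
      · rw [smul_apply, smul_apply, smul_eq_mul]
        refine mul_nonneg hf ?_
        rcases eq_or_ne v 0 with rfl | hv
        · simp
        · exact (h'.tame x v hv).le
    set ηi : X2 M := ⟨bp J' (η.1.1 : F2 E4 M), Smooth2.bp h'.smooth η.1.2⟩ with hηi
    have e3 : S η.1 = S ηi := hS.inv _ _ fun x => rfl
    have e4 := hS.nonneg ηi hpg
    rw [← e3, e1] at e4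
    have := mul_pos hh0p hpos
    linarith
  obtain ⟨k1, k2⟩ := key
  have k0 : 0 < t 0 := by
    have e1 : S (wt w t).1 = t 0 * S (w 0).1 := by
      have : wt w t = t 0 • w 0 := by
        unfold wt
        rw [Fin.sum_univ_three, k1, k2]
        simp
      rw [this]
      show S (t 0 • (w 0).1) = _
      rw [map_smul, smul_eq_mul]
    rw [e1] at hpos
    exact (pos_iff_pos_of_mul_pos hpos).2 h0
  exact ⟨k1, k2, k0, Exj_900.isJ_unique hw (h'.isJ ho k0 k1 k2) hJ⟩

end Closed

end

end Crest.Agent.R235.Uu_291
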