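import Crest.Agent.R235.SwcDefs_215
import Crest.Agent.R235.Uu_291

/-!
Row 235 (S0364), PACKAGE SWC (leader helper215): the node `SWLIM` between SW + FAM + SWC-AN and
`SWCUR` (`SWLIM, BPLUS ⇒ SWCUR`: helper291, by `Uu_291`: replace `w 0` by the compatible form,
then `t = (t 0, 0, 0)`).
-/

set_option autoImplicit false
set_option maxSynthPendingDepth 3

open Set Function Filter MeasureTheory Metric
open scoped Manifold ContDiff Topology

universe u

namespace Crest.Agent.R235.Swc

open Crest.Agent.R240 Crest.Agent.R240.Ch Crest.Agent.R235 Crest.Agent.R235.Uu_291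

noncomputable section

/-- **SWLIM**: for SOME parameter `t`, a closed positive current of type (1,1) for the structure
`J'` of the conformal class compatible with `w_t`, in the class `e`, with lower density bound. -/
def SWLIM : Prop :=
  ∀ (M : Type u) [MetricSpace M] [CompactSpace M] [ConnectedSpace M] [ChartedSpace E4 M]
    [IsManifold 𝓘(ℝ, E4) ∞ M] [MeasurableSpace M] [BorelSpace M], Met.BiLip E4 M →
    ∀ w : Trip M, Pos3 w → T4R (w 0) → ∀ e ∈ HZ M, ip (w 0) e e = 0 → e ≠ 0 →
    ∃ (t : Fin 3 → ℝ) (J' : EndF E4 M) (S : X2 M →ₗ[ℝ] ℝ), JT w t J' ∧ PCur J' S ∧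
      (∀ b : Z2 M, S b.1 = ip (w 0) e (cls b)) ∧ 0 < S (wt w t).1 ∧
      ∀ (D : Dat M) (s : Measure M), D.J = J' → D.IsRM S s → LowDens s

end

end Crest.Agent.R235.Swc
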