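import Crest.Agent.R235.TorDefs_225
import Crest.Agent.R235.AdjDefs_43
import Crest.Agent.R235.T1A_195

/-!
Row 235 (S0364), PACKAGE SWC (leader helper215): definitions and nodes.

* `LowDens s`  : the two-dimensional density of `s` is bounded below at every point of the support
* `SWCUR`      : (SW + FAM + SWC-AN) a closed positive current in the class `e`, `LowDens`
* `LIMT`       : limits of `J`-tori of a fixed class are closed positive currents with `LowDens`
* `T2S`        : (CUR3 + REGC + GLOB) a closed positive current with `LowDens` is a finite sum of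
                 `J`-curves with positive coefficients
* `JINT`       : (INTEG + HZ) the class of a `J`-curve is integral
* `CPOS`       : `J`-curves have positive area
* `SWCUR, T2S, JINT, RSEC, ADJ, CLS, EXJ ⇒ TORUSR`;  `LIMT, T2S, JINT, CPOS, ... ⇒ TORLIM`
  (file `Swc1_215`).
-/

set_option autoImplicit false
set_option maxSynthPendingDepth 3

open Set Function Filter MeasureTheory Metric
open scoped Manifold ContDiff Topology

universe u

namespace Crest.Agent.R235.Swc

open Crest.Agent.R240 Crest.Agent.R240.Ch Crest.Agent.R235 Crest.Agent.R235.Glob_370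

noncomputable section

/-- `x` is in the support of `s`. -/
def Sup {M : Type u} [MetricSpace M] [MeasurableSpace M] (s : Measure M) (x : M) : Prop :=
  ∀ r : ℝ, 0 < r → 0 < s.real (ball x r)

/-- lower bound of the two-dimensional density at every point of the support. -/
def LowDens {M : Type u} [MetricSpace M] [MeasurableSpace M] (s : Measure M) : Prop :=
  ∃ κ r0 : ℝ, 0 < κ ∧ 0 < r0 ∧ ∀ x : M, Sup s x →
    ∀ r : ℝ, 0 < r → r ≤ r0 → κ * r ^ 2 ≤ s.real (ball x r)

/-- **SWCUR** (output of SW + FAM + SWC-AN). -/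
def SWCUR : Prop :=
  ∀ (M : Type u) [MetricSpace M] [CompactSpace M] [ConnectedSpace M] [ChartedSpace E4 M]
    [IsManifold 𝓘(ℝ, E4) ∞ M] [MeasurableSpace M] [BorelSpace M] (D : Dat M) (w : Trip M),
    Pos3 w → IsJ w D.J → D.al = ((w 0).1.1 : F2 E4 M) → T4R (w 0) →
    ∀ e ∈ HZ M, ip (w 0) e e = 0 → ip (w 0) e (cls (w 1)) = 0 → ip (w 0) e (cls (w 2)) = 0 →
    0 < ip (w 0) e (cls (w 0)) →
    ∃ (S : X2 M →ₗ[ℝ] ℝ) (s : Measure M), T1_195.Cur D S s ∧
      (∀ b : Z2 M, S b.1 = ip (w 0) e (cls b)) ∧ LowDens s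

/-- **LIMT**: limits of `J`-tori of a fixed class. -/
def LIMT : Prop :=
  ∀ (M : Type u) [MetricSpace M] [CompactSpace M] [ConnectedSpace M] [ChartedSpace E4 M]
    [IsManifold 𝓘(ℝ, E4) ∞ M] [MeasurableSpace M] [BorelSpace M] (D : Dat M) (w : Trip M),
    Pos3 w → IsJ w D.J → D.al = ((w 0).1.1 : F2 E4 M) →
    ∀ (f : H2 M) (x : M), x ∈ closure (TorPts w f) →
    ∃ (S : X2 M →ₗ[ℝ] ℝ) (s : Measure M), T1_195.Cur D S s ∧
      (∀ b : Z2 M, S b.1 = ip (w 0) f (cls b)) ∧ LowDens s ∧ Sup s x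

/-- **T2S**: density bounded below on the support ⇒ finite sum of `J`-curves. -/
def T2S : Prop :=
  ∀ (M : Type u) [MetricSpace M] [CompactSpace M] [ConnectedSpace M] [ChartedSpace E4 M]
    [IsManifold 𝓘(ℝ, E4) ∞ M] [MeasurableSpace M] [BorelSpace M] (D : Dat M) (w : Trip M),
    Pos3 w → IsJ w D.J → D.al = ((w 0).1.1 : F2 E4 M) →
    ∀ (S : X2 M →ₗ[ℝ] ℝ) (s : Measure M), T1_195.Cur D S s → LowDens s →
    ∃ (m : ℕ) (c : Fin m → JCurve D.J) (a : Fin m → ℝ), (∀ i, 0 < a i) ∧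
      S = ∑ i, a i • (c i).T ∧ ∀ x : M, Sup s x → ∃ i, x ∈ range (c i).f

/-- **JINT**: the class of a `J`-curve is integral. -/
def JINT : Prop :=
  ∀ (M : Type u) [TopologicalSpace M] [T2Space M] [CompactSpace M] [ConnectedSpace M]
    [ChartedSpace E4 M] [IsManifold 𝓘(ℝ, E4) ∞ M] (w : Trip M) (J : EndF E4 M), Pos3 w → IsJ w J →
    ∀ (c : JCurve J) (s : H2 M), (∀ b : Z2 M, c.T b.1 = ip (w 0) s (cls b)) → s ∈ HZ M

/-- **CPOS**: the area of a `J`-curve is positive. -/
def CPOS : Prop :=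
  ∀ (M : Type u) [TopologicalSpace M] [T2Space M] [CompactSpace M] [ConnectedSpace M]
    [ChartedSpace E4 M] [IsManifold 𝓘(ℝ, E4) ∞ M] (w : Trip M) (J : EndF E4 M), Pos3 w → IsJ w J →
    ∀ c : JCurve J, 0 < c.T (w 0).1

/-- **JTOR** (torus type): a `J`-curve of square `0` is an embedded torus. -/
def JTOR : Prop :=
  ∀ (M : Type u) [TopologicalSpace M] [T2Space M] [CompactSpace M] [ConnectedSpace M]
    [ChartedSpace E4 M] [IsManifold 𝓘(ℝ, E4) ∞ M] (w : Trip M) (J : EndF E4 M), Pos3 w → IsJ w J →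
    T4R (w 0) → ∀ (c : JCurve J) (s : H2 M), (∀ b : Z2 M, c.T b.1 = ip (w 0) s (cls b)) →
    ip (w 0) s s = 0 → 0 < ip (w 0) s (cls (w 0)) → ∃ σ : Ep → M, JTor w σ s ∧ range σ = range c.f

end

end Crest.Agent.R235.Swc
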