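import Crest.Agent.R235.SwcDefs_34
import Crest.Agent.R235.SwcDefs_215

/-!
Row 235 (S0364), PACKAGE SWC-AN (leader helper34), part 2: the GLOBAL interface.

`TSeq` : a Taubes sequence, smooth data on `M` (smooth approximants of the Seiberg-Witten solutions):
line bundles `p n ⊂ ℂ^N` with Chern forms `a0 n`, sections `α n`, real one-forms `θ n`,
`eta = p dα - i θ α`, `Phi = 2π a0 + dθ` (curvature `-i Phi`), `jj = Im ⟨α, eta⟩`,
`Psi = Phi + d jj = (1 - |α|²) Phi + 2 ∑ Re eta_i ∧ Im eta_i`.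

`TSeq.OK`: the estimates.  `D : Dat M` is the LIMIT structure (`D.J` = the complex structure
compatible with the closed form `w_{t_∞}`, `D.al = D.F = w_{t_∞}`).

Nodes: PTW, POSDOM (helper358: div-curl positivity and domination), LOCREP, QIM => AN.
-/

set_option autoImplicit false
set_option maxSynthPendingDepth 3

open Set Function Filter MeasureTheory Metric
open scoped Manifold ContDiff Topology

universe u

namespace Crest.Agent.R235.SwcGlob_34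

open Crest.Agent.R240 Crest.Agent.R240.Ch Crest.Agent.R235 Crest.Agent.R235.SwcDefs_34
open Crest.Agent.R235.Swc

noncomputable section

section defs

variable {M : Type u} [MetricSpace M] [CompactSpace M] [ChartedSpace E4 M]
  [IsManifold 𝓘(ℝ, E4) ∞ M] [MeasurableSpace M] [BorelSpace M]

/-- the squared norm of a covector at `x` in the metric of `D`. -/
def n1 (D : Dat M) (x : M) (c : E4 →L[ℝ] ℝ) : ℝ :=
  2 * q (at2 D.F x) (at2 D.F x) (wed c (Jc (atJ D.J x) c))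

/-- the squared norm of a complex covector. -/
def nC (D : Dat M) (x : M) (c : E4 →L[ℝ] ℂ) : ℝ :=
  n1 D x (Complex.reCLM.comp c) + n1 D x (Complex.imCLM.comp c)

/-- the differential of a component of `α`, in the preferred chart at `x`. -/
def dal {N : ℕ} (α : M → Fin N → ℂ) (x : M) (i : Fin N) : E4 →L[ℝ] ℂ :=
  fderiv ℝ (fun y : E4 => α ((chartAt E4 x).symm y) i) (chartAt E4 x x)

/-- the covariant derivative `p dα - i θ α`. -/
def cov {N : ℕ} (p : M → Matrix (Fin N) (Fin N) ℂ) (θ : F1 E4 M) (α : M → Fin N → ℂ) (x : M)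
    (i : Fin N) : E4 →L[ℝ] ℂ :=
  (∑ j, p x i j • dal α x j) - (at1 θ x).smulRight (Complex.I * α x i)

end defs

/-- a Taubes sequence: data. -/
structure TSeq (M : Type u) [MetricSpace M] [CompactSpace M] [ChartedSpace E4 M]
    [IsManifold 𝓘(ℝ, E4) ∞ M] (N : ℕ) where
  p : ℕ → M → Matrix (Fin N) (Fin N) ℂ
  a0 : ℕ → Z2 M
  r : ℕ → ℝ
  α : ℕ → M → Fin N → ℂ
  θ : ℕ → F1 E4 M

namespace TSeq

variable {M : Type u} [MetricSpace M] [CompactSpace M] [ChartedSpace E4 M]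
  [IsManifold 𝓘(ℝ, E4) ∞ M] [MeasurableSpace M] [BorelSpace M] {N : ℕ} (Q : TSeq M N)

/-- `eta = p dα - i θ α`. -/
def eta (n : ℕ) (x : M) (i : Fin N) : E4 →L[ℝ] ℂ := cov (Q.p n) (Q.θ n) (Q.α n) x i

/-- `|α|²`. -/
def nal (n : ℕ) (x : M) : ℝ := ∑ i, ‖Q.α n x i‖ ^ 2

/-- `|eta|²`. -/
def neta (D : Dat M) (n : ℕ) (x : M) : ℝ := ∑ i, nC D x (Q.eta n x i)

/-- `|eta ∘ J - i eta|²` (the `(0,1)`-part). -/
def ndb (D : Dat M) (n : ℕ) (x : M) : ℝ :=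
  ∑ i, nC D x ((Q.eta n x i).comp (atJ D.J x) - Complex.I • Q.eta n x i)

/-- `j = Im ⟨α, eta⟩`. -/
def jj (n : ℕ) : F1 E4 M := fun x =>
  (∑ i, ((Q.α n x i).re • (Complex.imCLM.comp (Q.eta n x i)) -
    (Q.α n x i).im • (Complex.reCLM.comp (Q.eta n x i))) : E4 →L[ℝ] ℝ)

/-- `Phi = 2π a0 + dθ`. -/
def Phi (n : ℕ) : F2 E4 M := fun x =>
  ((2 * Real.pi) • at2 ((Q.a0 n).1.1 : F2 E4 M) x + at2 (dG (Q.θ n)) x : Bil)

/-- `Psi = Phi + d jj`. -/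
def Psi (n : ℕ) : F2 E4 M := fun x => (at2 (Q.Phi n) x + at2 (dG (Q.jj n)) x : Bil)

/-- the estimates, along a filter `U`, with constants `lam, C > 0`. -/
structure OK (D : Dat M) (U : Filter ℕ) (lam C : ℝ) : Prop where
  clF : Closed2 D.F
  line : ∀ n, IsLine (Q.p n)
  chern : ∀ n, IsChern (Q.p n) (Q.a0 n)
  /-- the class does not depend on `n` -/
  cls0 : ∀ n, cls (Q.a0 n) = cls (Q.a0 0)
  /-- `p n` converges uniformly, the Chern forms are bounded in `L²` -/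
  plim : ∃ p' : M → Matrix (Fin N) (Fin N) ℂ, (∀ i j, Continuous fun x => p' x i j) ∧
    ∀ ε : ℝ, 0 < ε → ∀ᶠ n in U, ∀ x i j, ‖Q.p n x i j - p' x i j‖ < ε
  a0bd : ∀ᶠ n in U, ∫ x, nsqG D.J D.F ((Q.a0 n).1.1 : F2 E4 M) x ∂D.μ ≤ C
  smα : ∀ n i, ContMDiff 𝓘(ℝ, E4) 𝓘(ℝ, ℂ) ∞ (fun x => Q.α n x i)
  secα : ∀ n x, (Q.p n x).mulVec (Q.α n x) = Q.α n x
  smθ : ∀ n, Smooth1 (Q.θ n)
  rinf : Tendsto Q.r U atTop
  lam_pos : 0 < lam
  e1 : ∀ᶠ n in U, ∫ x, Q.neta D n x ∂D.μ ≤ C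
  e2 : ∀ᶠ n in U, Q.r n * ∫ x, (1 - Q.nal n x) ^ 2 ∂D.μ ≤ C
  e3 : ∀ᶠ n in U, ∫ x, nsqG D.J D.F (Q.Phi n) x ∂D.μ ≤ C * Q.r n
  /-- `Phi ∧ F / F ∧ F = lam r (1 - |α|²) + o(√r)` in `L²` -/
  o1 : Tendsto (fun n => (Q.r n)⁻¹ *
    ∫ x, (qG D.F (Q.Phi n) D.F x - lam * Q.r n * (1 - Q.nal n x)) ^ 2 ∂D.μ) U (𝓝 0)
  /-- the anti-invariant part of `Phi` is `o(√r)` in `L²` -/
  o2 : Tendsto (fun n => (Q.r n)⁻¹ * ∫ x, nsqG D.J D.F (bpp D.J (Q.Phi n)) x ∂D.μ) U (𝓝 0)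
  /-- the `(0,1)`-part of `eta` tends to `0` in `L²` -/
  o3 : Tendsto (fun n => ∫ x, Q.ndb D n x ∂D.μ) U (𝓝 0)
  /-- `θ = o(√r)` in `L²` (coexact gauge, Rellich) -/
  o4 : Tendsto (fun n => (Q.r n)⁻¹ * ∫ x, n1 D x (at1 (Q.θ n) x) ∂D.μ) U (𝓝 0)

end TSeq

/-- **PTW**: smoothness, closedness and the pointwise formula of `Psi`. -/
def PTW : Prop :=
  ∀ (M : Type u) [MetricSpace M] [CompactSpace M] [ChartedSpace E4 M]
    [IsManifold 𝓘(ℝ, E4) ∞ M] [MeasurableSpace M] [BorelSpace M] (D : Dat M) (N : ℕ)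
    (Q : TSeq M N) (U : Filter ℕ) (lam C : ℝ), Q.OK D U lam C → ∀ n : ℕ,
    Smooth1 (Q.jj n) ∧ Smooth2 (Q.Phi n) ∧ Closed2 (Q.Phi n) ∧ Smooth2 (Q.Psi n) ∧
      Closed2 (Q.Psi n) ∧ ∀ x : M, at2 (Q.Psi n) x =
        (1 - Q.nal n x) • at2 (Q.Phi n) x + (2 : ℝ) • ∑ i,
          wed (Complex.reCLM.comp (Q.eta n x i)) (Complex.imCLM.comp (Q.eta n x i))

section lims

variable {M : Type u} [MetricSpace M] [CompactSpace M] [ChartedSpace E4 M]
  [IsManifold 𝓘(ℝ, E4) ∞ M] [MeasurableSpace M] [BorelSpace M]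

/-- `2π S` is the limit of the forms `T n` along `U`, `s` is the trace measure of the closed
positive current `S`, and the masses of `T n` are dominated by `s`. -/
structure Lim (D : Dat M) (U : Filter ℕ) (T : ℕ → X2 M) (S : X2 M →ₗ[ℝ] ℝ) (s : Measure M) :
    Prop where
  cur : T1_195.Cur D S s
  lim : ∀ b : X2 M, Tendsto (fun n => D.I (T n : F2 E4 M) (b : F2 E4 M)) U
    (𝓝 (2 * Real.pi * S b))
  dom : ∃ C : ℝ, ∀ v : M → ℝ, Continuous v → (∀ x, 0 ≤ v x) → ∀ ε : ℝ, 0 < ε →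
    ∀ᶠ n in U, ∫ x, v x * D.nr (T n : F2 E4 M) x ∂D.μ ≤ C * ∫ x, v x ∂s + ε

/-- local representation of the forms `T n` by pairs `(α, A)` with bounded energy. -/
structure LocRep (U : Filter ℕ) (r : ℕ → ℝ) (T : ℕ → X2 M) : Prop where
  rinf : Tendsto r U atTop
  loc : ∀ x : M, ∃ R C : ℝ, 0 < R ∧ closedBall (chartAt E4 x x) R ⊆ (chartAt E4 x).target ∧
    ∀ᶠ n in U, ∃ (α : E4 → ℂ) (A : E4 → E4 →L[ℝ] ℝ), ContDiff ℝ ∞ α ∧ ContDiff ℝ ∞ A ∧
      (∀ y ∈ ball (chartAt E4 x x) R, psi α A y = rep x (T n : F2 E4 M) y) ∧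
      ∫ y in ball (chartAt E4 x x) R, en (r n) α A y ≤ C

end lims

/-- **POSDOM** (helper358): the limit along an ultrafilter is a closed positive current which
dominates the masses; its class is the class of `a0 0`. -/
def POSDOM : Prop :=
  ∀ (M : Type u) [MetricSpace M] [CompactSpace M] [ChartedSpace E4 M]
    [IsManifold 𝓘(ℝ, E4) ∞ M] [MeasurableSpace M] [BorelSpace M] (D : Dat M) (N : ℕ)
    (Q : TSeq M N) (U : Ultrafilter ℕ) (lam C : ℝ), Q.OK D U lam C →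
    ∀ T : ℕ → X2 M, (∀ n, (T n : F2 E4 M) = Q.Psi n) →
    ∃ (S : X2 M →ₗ[ℝ] ℝ) (s : Measure M), Lim D U T S s ∧
      ∀ b : Z2 M, S b.1 = D.I ((Q.a0 0).1.1 : F2 E4 M) (b.1.1 : F2 E4 M)

/-- **LOCREP**: unit sections of the line bundle on small balls. -/
def LOCREP : Prop :=
  ∀ (M : Type u) [MetricSpace M] [CompactSpace M] [ChartedSpace E4 M]
    [IsManifold 𝓘(ℝ, E4) ∞ M] [MeasurableSpace M] [BorelSpace M] (D : Dat M) (N : ℕ)
    (Q : TSeq M N) (U : Filter ℕ) (lam C : ℝ), Q.OK D U lam C →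
    ∀ T : ℕ → X2 M, (∀ n, (T n : F2 E4 M) = Q.Psi n) → LocRep U Q.r T

/-- **QIM**: quadratic inequality and lower density bound of the limit. -/
def QIM : Prop :=
  ∀ (M : Type u) [MetricSpace M] [CompactSpace M] [ChartedSpace E4 M]
    [IsManifold 𝓘(ℝ, E4) ∞ M] [MeasurableSpace M] [BorelSpace M] (D : Dat M) (U : Filter ℕ)
    [U.NeBot] (r : ℕ → ℝ) (T : ℕ → X2 M) (S : X2 M →ₗ[ℝ] ℝ) (s : Measure M),
    LocRep U r T → Lim D U T S s → LowDens s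

/-- **AN** (output of SWC-AN). -/
def AN : Prop :=
  ∀ (M : Type u) [MetricSpace M] [CompactSpace M] [ChartedSpace E4 M]
    [IsManifold 𝓘(ℝ, E4) ∞ M] [MeasurableSpace M] [BorelSpace M] (D : Dat M) (N : ℕ)
    (Q : TSeq M N) (U : Filter ℕ) [U.NeBot] (lam C : ℝ), Q.OK D U lam C →
    ∃ (S : X2 M →ₗ[ℝ] ℝ) (s : Measure M), T1_195.Cur D S s ∧
      (∀ b : Z2 M, S b.1 = D.I ((Q.a0 0).1.1 : F2 E4 M) (b.1.1 : F2 E4 M)) ∧ LowDens s

theorem TSeq.OK.mono {M : Type u} [MetricSpace M] [CompactSpace M] [ChartedSpace E4 M]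
    [IsManifold 𝓘(ℝ, E4) ∞ M] [MeasurableSpace M] [BorelSpace M] {D : Dat M} {N : ℕ}
    {Q : TSeq M N} {U V : Filter ℕ} {lam C : ℝ} (h : Q.OK D U lam C) (hV : V ≤ U) :
    Q.OK D V lam C where
  clF := h.clF
  line := h.line
  chern := h.chern
  cls0 := h.cls0
  plim := by
    obtain ⟨p', h1, h2⟩ := h.plim
    exact ⟨p', h1, fun ε hε => (h2 ε hε).filter_mono hV⟩
  a0bd := h.a0bd.filter_mono hV
  smα := h.smα
  secα := h.secα
  smθ := h.smθ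
  rinf := h.rinf.mono_left hV
  lam_pos := h.lam_pos
  e1 := h.e1.filter_mono hV
  e2 := h.e2.filter_mono hV
  e3 := h.e3.filter_mono hV
  o1 := h.o1.mono_left hV
  o2 := h.o2.mono_left hV
  o3 := h.o3.mono_left hV
  o4 := h.o4.mono_left hV

theorem an_of (h1 : PTW.{u}) (h2 : POSDOM.{u}) (h3 : LOCREP.{u}) (h4 : QIM.{u}) : AN.{u} := by
  intro M _ _ _ _ _ _ D N Q U _ lam C hQ
  have hQ' : Q.OK D (Ultrafilter.of U : Filter ℕ) lam C := hQ.mono (Ultrafilter.of_le U)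
  have hT := h1 M D N Q U lam C hQ
  let T : ℕ → X2 M := fun n => ⟨Q.Psi n, (hT n).2.2.2.1⟩
  obtain ⟨S, s, hS, hcl⟩ := h2 M D N Q (Ultrafilter.of U) lam C hQ' T fun n => rfl
  exact ⟨S, s, hS.cur, hcl, h4 M D _ Q.r T S s
    (h3 M D N Q _ lam C hQ' T fun n => rfl) hS⟩

/-! ### the pieces of QIM -/

/-- third coordinate vector of `V4` -/
def b2 : V4 := ((0, 0), (1, 0))
/-- fourth coordinate vector of `V4` -/
def b3 : V4 := ((0, 0), (0, 1))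

/-- **BOXE**: the box inequality in `E4`, in the linear coordinates `y = z + L p`, for the planes
`(b0,b1)` and `(b2,b3)` (from BOX, by pulling back `α`, `A`). -/
def BOXE : Prop := ∀ L : V4 ≃L[ℝ] E4, ∃ C : ℝ, 0 < C ∧
  ∀ (α : E4 → ℂ) (A : E4 → E4 →L[ℝ] ℝ) (z : E4) (r t K : ℝ),
  ContDiff ℝ ∞ α → ContDiff ℝ ∞ A → 0 < r → 0 < t → 1 ≤ K → 1 ≤ r * t ^ 2 →
  |∫ p : V4, tf t p * psi α A (z + L p) (L b0) (L b1)| +
    |∫ p : V4, tf t p * psi α A (z + L p) (L b2) (L b3)| ≤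
    C * (K ^ 2 / t ^ 2 * (∫ p in closedBall (0 : V4) (2 * t), ‖psi α A (z + L p)‖) ^ 2 +
      (∫ p in closedBall (0 : V4) (2 * t), ‖psi α A (z + L p)‖) / K) +
    C / (t * √r) * ∫ p in closedBall (0 : V4) (2 * t), en r α A (z + L p)

/-- the measure of the parallelepiped `z + L [-t,t]^4` in the chart at `x`. -/
def bxm {M : Type u} [MetricSpace M] [ChartedSpace E4 M] [MeasurableSpace M] (s : Measure M)
    (x : M) (L : V4 ≃L[ℝ] E4) (z : E4) (t : ℝ) : ℝ :=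
  s.real {y | y ∈ (chartAt E4 x).source ∧ L.symm (chartAt E4 x y - z) ∈ closedBall (0 : V4) t}

/-- the quadratic inequality in charts. -/
def ChQ {M : Type u} [MetricSpace M] [ChartedSpace E4 M] [MeasurableSpace M] (s : Measure M) :
    Prop :=
  ∀ x : M, ∃ (L : V4 ≃L[ℝ] E4) (R C : ℝ), 0 < R ∧ 0 < C ∧
    closedBall (chartAt E4 x x) R ⊆ (chartAt E4 x).target ∧ ∀ K : ℝ, 1 ≤ K → ∃ t0 : ℝ, 0 < t0 ∧
    ∀ z ∈ ball (chartAt E4 x x) R, ∀ t : ℝ, 0 < t → t ≤ t0 →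
      (fun p => z + L p) '' closedBall (0 : V4) (3 * t) ⊆ ball (chartAt E4 x x) R →
      bxm s x L z t ≤ C * (K ^ 2 / t ^ 2 * bxm s x L z (3 * t) ^ 2 + bxm s x L z (3 * t) / K)

/-- **QCH** (from BOXE): the limit satisfies the quadratic inequality in charts. -/
def QCH : Prop :=
  ∀ (M : Type u) [MetricSpace M] [CompactSpace M] [ChartedSpace E4 M]
    [IsManifold 𝓘(ℝ, E4) ∞ M] [MeasurableSpace M] [BorelSpace M] (D : Dat M) (U : Filter ℕ)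
    [U.NeBot] (r : ℕ → ℝ) (T : ℕ → X2 M) (S : X2 M →ₗ[ℝ] ℝ) (s : Measure M),
    LocRep U r T → Lim D U T S s → ChQ s

/-- **QLOW** (from DENS): the quadratic inequality gives the lower density bound. -/
def QLOW : Prop :=
  ∀ (M : Type u) [MetricSpace M] [CompactSpace M] [ChartedSpace E4 M]
    [IsManifold 𝓘(ℝ, E4) ∞ M] [MeasurableSpace M] [BorelSpace M] (_ : Dat M) (s : Measure M)
    [IsFiniteMeasure s], ChQ s → LowDens s

theorem qim_of (h1 : QCH.{u}) (h2 : QLOW.{u}) : QIM.{u} := by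
  intro M _ _ _ _ _ _ D U _ r T S s hr hS
  haveI := hS.cur.fin
  exact h2 M D s (h1 M D U r T S s hr hS)

end

end Crest.Agent.R235.SwcGlob_34
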