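import Mathlib
import Crest.Agent.R240.XDefs
import Crest.Agent.R240.En4F

/-!
Row 235 (S0364), helper451, task 196 (IND-1 TRI).
Part 1: pointwise algebra.  `quo b c = b⁻¹ c`, i.e. `b (quo b c u) v = c u v`.
-/

set_option autoImplicit false
set_option maxSynthPendingDepth 3

open Set Function Filter
open scoped Manifold ContDiff Topology

namespace Crest.Agent.R235.IndTri_451

open Crest.Agent.R240 Crest.Agent.R240.Ch
open Crest.Agent.R240.En4 (contDiffOn_ent contDiffOn_W smoothF_qG smooth2_fmul rep_fmul' sF_mul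
  sF_neg sF_sub sF_add sF_const sF_sqrt sF_continuous)

noncomputable section

/-! ### the quotient of two two-forms -/

/-- entries of the Hodge dual. -/
def stm (b : Bil) : Fin 4 → Fin 4 → ℝ :=
  ![![0, ent b 2 3, - ent b 1 3, ent b 1 2],
    ![- ent b 2 3, 0, ent b 0 3, - ent b 0 2],
    ![ent b 1 3, - ent b 0 3, 0, ent b 0 1],
    ![- ent b 1 2, ent b 0 2, - ent b 0 1, 0]]

/-- `b⁻¹ c`. -/
def quo (b c : Bil) : E4 →L[ℝ] E4 :=
  (-2 / W b b) • ∑ i, ∑ j, stm b i j • (c.flip (ee i)).smulRight (ee j)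

theorem quo_apply (b c : Bil) (u : E4) (k : Fin 4) :
    (quo b c u) k = (-2 / W b b) * ∑ i, c u (ee i) * stm b i k := by
  unfold quo
  rw [smul_apply, PiLp.smul_apply, smul_eq_mul]
  congr 1
  fin_cases k <;>
  · simp [Fin.sum_univ_four]
    ring

theorem W_self (b : Bil) : W b b =
    2 * (ent b 0 1 * ent b 2 3 - ent b 0 2 * ent b 1 3 + ent b 0 3 * ent b 1 2) := by
  unfold W; ring

theorem quo_comp0 (b c : Bil) (u : E4) : (quo b c u) 0 = (-2 / W b b) *
    (- c u (ee 1) * ent b 2 3 + c u (ee 2) * ent b 1 3 - c u (ee 3) * ent b 1 2) := by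
  rw [quo_apply, Fin.sum_univ_four]
  simp [stm]; left; ring

theorem quo_comp1 (b c : Bil) (u : E4) : (quo b c u) 1 = (-2 / W b b) *
    (c u (ee 0) * ent b 2 3 - c u (ee 2) * ent b 0 3 + c u (ee 3) * ent b 0 2) := by
  rw [quo_apply, Fin.sum_univ_four]
  simp [stm]; left; ring

theorem quo_comp2 (b c : Bil) (u : E4) : (quo b c u) 2 = (-2 / W b b) *
    (- c u (ee 0) * ent b 1 3 + c u (ee 1) * ent b 0 3 - c u (ee 3) * ent b 0 1) := by
  rw [quo_apply, Fin.sum_univ_four]
  simp [stm]; left; ring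

theorem quo_comp3 (b c : Bil) (u : E4) : (quo b c u) 3 = (-2 / W b b) *
    (c u (ee 0) * ent b 1 2 - c u (ee 1) * ent b 0 2 + c u (ee 2) * ent b 0 1) := by
  rw [quo_apply, Fin.sum_univ_four]
  simp [stm]; left; ring

theorem lin_expand (f : E4 →L[ℝ] ℝ) (v : E4) : f v =
    v 0 * f (ee 0) + v 1 * f (ee 1) + v 2 * f (ee 2) + v 3 * f (ee 3) := by
  conv_lhs => rw [sum_ee v]
  simp only [map_add, map_smul, smul_eq_mul]

theorem b_quo {b : Bil} (hb : Alt b) (h : W b b ≠ 0) (c : Bil) (u v : E4) :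
    b (quo b c u) v = c u v := by
  rw [alt_expand hb, quo_comp0, quo_comp1, quo_comp2, quo_comp3, lin_expand (c u) v]
  rw [W_self] at h ⊢
  generalize ent b 0 1 = b01 at *
  generalize ent b 0 2 = b02 at *
  generalize ent b 0 3 = b03 at *
  generalize ent b 1 2 = b12 at *
  generalize ent b 1 3 = b13 at *
  generalize ent b 2 3 = b23 at *
  generalize c u (ee 0) = c0
  generalize c u (ee 1) = c1
  generalize c u (ee 2) = c2
  generalize c u (ee 3) = c3
  generalize v 0 = v0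
  generalize v 1 = v1
  generalize v 2 = v2
  generalize v 3 = v3
  have h' : b01 * b23 - b02 * b13 + b03 * b12 ≠ 0 := fun h0 => h (by rw [h0, mul_zero])
  field_simp
  ring

theorem alt_ee0 {b : Bil} (hb : Alt b) (u : E4) :
    b u (ee 0) = - u 1 * ent b 0 1 - u 2 * ent b 0 2 - u 3 * ent b 0 3 := by
  rw [alt_expand hb]; simp; ring

theorem alt_ee1 {b : Bil} (hb : Alt b) (u : E4) :
    b u (ee 1) = u 0 * ent b 0 1 - u 2 * ent b 1 2 - u 3 * ent b 1 3 := by
  rw [alt_expand hb]; simp; ring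

theorem alt_ee2 {b : Bil} (hb : Alt b) (u : E4) :
    b u (ee 2) = u 0 * ent b 0 2 + u 1 * ent b 1 2 - u 3 * ent b 2 3 := by
  rw [alt_expand hb]; simp; ring

theorem alt_ee3 {b : Bil} (hb : Alt b) (u : E4) :
    b u (ee 3) = u 0 * ent b 0 3 + u 1 * ent b 1 3 + u 2 * ent b 2 3 := by
  rw [alt_expand hb]; simp

theorem quo_self {b : Bil} (hb : Alt b) (h : W b b ≠ 0) (u : E4) : quo b b u = u := by
  rw [W_self] at h
  have h' : ent b 0 1 * ent b 2 3 - ent b 0 2 * ent b 1 3 + ent b 0 3 * ent b 1 2 ≠ 0 :=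
    fun h0 => h (by rw [h0, mul_zero])
  have e0 := alt_ee0 hb u
  have e1 := alt_ee1 hb u
  have e2 := alt_ee2 hb u
  have e3 := alt_ee3 hb u
  ext k
  fin_cases k
  · show (quo b b u) 0 = u 0
    rw [quo_comp0, e1, e2, e3, W_self]
    field_simp
    ring
  · show (quo b b u) 1 = u 1
    rw [quo_comp1, e0, e2, e3, W_self]
    field_simp
    ring
  · show (quo b b u) 2 = u 2
    rw [quo_comp2, e0, e1, e3, W_self]
    field_simp
    ring
  · show (quo b b u) 3 = u 3
    rw [quo_comp3, e0, e1, e2, W_self]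
    field_simp
    ring

theorem eq_quo {b : Bil} (hb : Alt b) (h : W b b ≠ 0) {c : Bil} {x u : E4}
    (hx : ∀ v, b x v = c u v) : x = quo b c u := by
  rw [← quo_self hb h x]
  ext k
  rw [quo_apply, quo_apply]
  simp only [hx]

theorem nondeg {b : Bil} (hb : Alt b) (h : W b b ≠ 0) {x y : E4}
    (hx : ∀ v, b x v = b y v) : x = y := by
  rw [eq_quo hb h hx, quo_self hb h]

/-- the quadratic equation of `b⁻¹ c`. -/
theorem c_quo {b c : Bil} (hc : Alt c) (h : W b b ≠ 0) (hb : Alt b) (u v : E4) :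
    c (quo b c u) v = (2 * W b c / W b b) * c u v - (W c c / W b b) * b u v := by
  have h' : ent b 0 1 * ent b 2 3 - ent b 0 2 * ent b 1 3 + ent b 0 3 * ent b 1 2 ≠ 0 := by
    rw [W_self] at h
    exact fun h0 => h (by rw [h0, mul_zero])
  rw [alt_expand hc (quo b c u) v, quo_comp0, quo_comp1, quo_comp2, quo_comp3, alt_ee0 hc,
    alt_ee1 hc, alt_ee2 hc, alt_ee3 hc, alt_expand hc u v, alt_expand hb u v, W_self, W_self]
  unfold W
  clear h
  generalize ent b 0 1 = b01 at *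
  generalize ent b 0 2 = b02 at *
  generalize ent b 0 3 = b03 at *
  generalize ent b 1 2 = b12 at *
  generalize ent b 1 3 = b13 at *
  generalize ent b 2 3 = b23 at *
  generalize ent c 0 1 = c01 at *
  generalize ent c 0 2 = c02 at *
  generalize ent c 0 3 = c03 at *
  generalize ent c 1 2 = c12 at *
  generalize ent c 1 3 = c13 at *
  generalize ent c 2 3 = c23 at *
  generalize v 0 = v0
  generalize v 1 = v1
  generalize v 2 = v2
  generalize v 3 = v3
  generalize u 0 = u0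
  generalize u 1 = u1
  generalize u 2 = u2
  generalize u 3 = u3
  field_simp
  ring

theorem quo_comp {a b : Bil} (ha : Alt a) (haa : W a a ≠ 0) (hb : Alt b) (hbb : W b b ≠ 0)
    (c : Bil) (u : E4) : quo a b (quo b c u) = quo a c u := by
  apply eq_quo ha haa
  intro v
  rw [b_quo ha haa, b_quo hb hbb]

/-- an orthogonal triple. -/
structure ON3 (k : ℝ) (a b c : Bil) : Prop where
  k_ne : k ≠ 0
  alt_a : Alt a
  alt_b : Alt b
  alt_c : Alt c
  aa : W a a = k
  bb : W b b = k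
  cc : W c c = k
  ab : W a b = 0
  bc : W b c = 0
  ca : W c a = 0

/-- the almost complex structure `I_a` is `jj b c`. -/
def jj (b c : Bil) : E4 →L[ℝ] E4 := - quo b c

theorem jj_apply (b c : Bil) (u : E4) : jj b c u = - quo b c u := rfl

namespace ON3

variable {k : ℝ} {a b c : Bil}

theorem rot (h : ON3 k a b c) : ON3 k b c a :=
  ⟨h.k_ne, h.alt_b, h.alt_c, h.alt_a, h.bb, h.cc, h.aa, h.bc, h.ca, h.ab⟩

theorem ne_a (h : ON3 k a b c) : W a a ≠ 0 := by rw [h.aa]; exact h.k_ne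

theorem ne_b (h : ON3 k a b c) : W b b ≠ 0 := h.rot.ne_a

theorem ne_c (h : ON3 k a b c) : W c c ≠ 0 := h.rot.rot.ne_a

/-- `b (I_a u, v) = - c (u, v)`. -/
theorem b_jj (h : ON3 k a b c) (u v : E4) : b (jj b c u) v = - c u v := by
  rw [jj_apply, map_neg, neg_apply, b_quo h.alt_b h.ne_b]

/-- `c (I_a u, v) = b (u, v)`. -/
theorem c_jj (h : ON3 k a b c) (u v : E4) : c (jj b c u) v = b u v := by
  rw [jj_apply, map_neg, neg_apply, c_quo h.alt_c h.ne_b h.alt_b, h.bc, h.cc, h.bb,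
    div_self h.k_ne]
  ring

/-- `I_a² = -1`. -/
theorem sq (h : ON3 k a b c) (u : E4) : jj b c (jj b c u) = -u := by
  apply nondeg h.alt_b h.ne_b
  intro v
  rw [h.b_jj, h.c_jj, map_neg, neg_apply]

theorem quo_sq (h : ON3 k a b c) (u : E4) : quo b c (quo b c u) = - u := by
  have := h.sq u
  rwa [jj_apply, jj_apply, map_neg, neg_neg] at this

/-- `c⁻¹ b = - b⁻¹ c`. -/
theorem quo_anti (h : ON3 k a b c) (u : E4) : quo c b u = - quo b c u := by
  have h1 := quo_comp h.alt_b h.ne_b h.alt_c h.ne_c b u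
  rw [quo_self h.alt_b h.ne_b] at h1
  have h2 := h.quo_sq (quo c b u)
  rw [h1] at h2
  rw [h2, neg_neg]

/-- `I_a I_b = I_c`. -/
theorem mul (h : ON3 k a b c) (u : E4) : jj b c (jj c a u) = jj a b u := by
  rw [jj_apply, jj_apply, jj_apply, map_neg, neg_neg, quo_comp h.alt_b h.ne_b h.alt_c h.ne_c,
    ← h.rot.rot.quo_anti]

/-- `I_b I_a = - I_c`. -/
theorem mul' (h : ON3 k a b c) (u : E4) : jj c a (jj b c u) = - jj a b u := by
  rw [jj_apply, jj_apply, jj_apply, map_neg, neg_neg, neg_neg, ← neg_neg (quo b c u), ← h.quo_anti,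
    map_neg, ← h.rot.quo_anti, quo_comp h.alt_a h.ne_a h.alt_c h.ne_c]

/-- `I_b` is `a`-symmetric. -/
theorem a_symm_b (h : ON3 k a b c) (u v : E4) : a (jj c a u) v = a u (jj c a v) := by
  rw [h.rot.c_jj, h.alt_a.swap, h.rot.c_jj, h.alt_c.swap]

/-- `I_c` is `a`-symmetric. -/
theorem a_symm_c (h : ON3 k a b c) (u v : E4) : a (jj a b u) v = a u (jj a b v) := by
  rw [h.rot.rot.b_jj, h.alt_a.swap u, h.rot.rot.b_jj, h.alt_b.swap]

/-- `I_a` is `a`-skew. -/
theorem a_skew (h : ON3 k a b c) (u v : E4) : a (jj b c u) v = - a u (jj b c v) := by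
  rw [← h.rot.mul, h.a_symm_b, h.a_symm_c, h.rot.mul', map_neg]

/-- `a (I_a u, v) = c (I_c u, v)`. -/
theorem a_eq_c (h : ON3 k a b c) (u v : E4) : a (jj b c u) v = c (jj a b u) v := by
  rw [← h.rot.mul, h.rot.c_jj]

end ON3

/-- the metric `g (u, v) = a (u, I_a v)`. -/
def gf (a b c : Bil) : Bil := a.bilinearComp (ContinuousLinearMap.id ℝ E4) (jj b c)

theorem gf_apply (a b c : Bil) (u v : E4) : gf a b c u v = a u (jj b c v) := rfl

namespace ON3

variable {k : ℝ} {a b c : Bil}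

theorem gf_eq (h : ON3 k a b c) (u v : E4) : gf a b c u v = - a (jj b c u) v := by
  rw [gf_apply, h.a_skew, neg_neg]

theorem gf_rot (h : ON3 k a b c) (u v : E4) : gf b c a u v = gf a b c u v := by
  rw [h.rot.gf_eq, h.gf_eq, h.rot.a_eq_c]

theorem gf_rot2 (h : ON3 k a b c) (u v : E4) : gf c a b u v = gf a b c u v := by
  rw [h.rot.gf_rot, h.gf_rot]

theorem gf_symm (h : ON3 k a b c) (u v : E4) : gf a b c u v = gf a b c v u := by
  rw [h.gf_eq, gf_apply, h.alt_a.swap v]

/-- `a (u, v) = g (I_a u, v)`. -/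
theorem a_eq (h : ON3 k a b c) (u v : E4) : a u v = gf a b c (jj b c u) v := by
  rw [h.gf_eq, h.sq, map_neg, neg_apply, neg_neg]

theorem gf_orth (h : ON3 k a b c) (u v : E4) :
    gf a b c (jj b c u) (jj b c v) = gf a b c u v := by
  rw [← h.a_eq, gf_apply]

theorem gf_orth_b (h : ON3 k a b c) (u v : E4) :
    gf a b c (jj c a u) (jj c a v) = gf a b c u v := by
  rw [← h.gf_rot, h.rot.gf_orth, h.gf_rot]

theorem gf_orth_c (h : ON3 k a b c) (u v : E4) :
    gf a b c (jj a b u) (jj a b v) = gf a b c u v := by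
  rw [← h.gf_rot2, h.rot.rot.gf_orth, h.gf_rot2]

theorem gf_self_a (h : ON3 k a b c) (u : E4) : gf a b c (jj b c u) u = 0 := by
  rw [← h.a_eq, h.alt_a u]

theorem gf_self_b (h : ON3 k a b c) (u : E4) : gf a b c (jj c a u) u = 0 := by
  rw [← h.gf_rot, h.rot.gf_self_a]

theorem gf_self_c (h : ON3 k a b c) (u : E4) : gf a b c (jj a b u) u = 0 := by
  rw [← h.gf_rot2, h.rot.rot.gf_self_a]

/-- `g (I_a u, I_b u) = 0`. -/
theorem gf_ab (h : ON3 k a b c) (u : E4) : gf a b c (jj b c u) (jj c a u) = 0 := by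
  have h1 := h.gf_orth u (- jj b c (jj c a u))
  rw [map_neg, h.sq, neg_neg, h.mul, map_neg, h.gf_symm u, h.gf_self_c, neg_zero] at h1
  exact h1

theorem gf_bc (h : ON3 k a b c) (u : E4) : gf a b c (jj c a u) (jj a b u) = 0 := by
  rw [← h.gf_rot, h.rot.gf_ab]

theorem gf_ca (h : ON3 k a b c) (u : E4) : gf a b c (jj a b u) (jj b c u) = 0 := by
  rw [← h.gf_rot2, h.rot.rot.gf_ab]

theorem gf_nondeg (h : ON3 k a b c) {x : E4} (hx : ∀ v, gf a b c x v = 0) : x = 0 := by
  apply nondeg h.alt_a h.ne_a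
  intro v
  have h1 := hx (- jj b c v)
  rw [gf_apply, map_neg, h.sq, neg_neg] at h1
  rw [h1, map_zero, zero_apply]

/-- the action of the quaternions. -/
def act (b c a : Bil) (r : Fin 4 → ℝ) (u : E4) : E4 :=
  r 0 • u + r 1 • jj b c u + r 2 • jj c a u + r 3 • jj a b u

theorem act_conj (h : ON3 k a b c) (r : Fin 4 → ℝ) (u : E4) :
    act b c a ![r 0, - r 1, - r 2, - r 3] (act b c a r u) =
      (r 0 ^ 2 + r 1 ^ 2 + r 2 ^ 2 + r 3 ^ 2) • u := by
  unfold act
  simp only [map_add, map_smul, h.sq, h.rot.sq, h.rot.rot.sq, h.mul, h.rot.mul, h.rot.rot.mul,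
    h.mul', h.rot.mul', h.rot.rot.mul', Matrix.cons_val_zero, Matrix.cons_val_one, Matrix.cons_val]
  module

theorem gf_act (h : ON3 k a b c) (r : Fin 4 → ℝ) (u : E4) :
    gf a b c (act b c a r u) (act b c a r u) =
      (r 0 ^ 2 + r 1 ^ 2 + r 2 ^ 2 + r 3 ^ 2) * gf a b c u u := by
  unfold act
  simp only [map_add, map_smul, add_apply, smul_apply, smul_eq_mul, h.gf_orth, h.gf_orth_b,
    h.gf_orth_c, h.gf_self_a, h.gf_self_b, h.gf_self_c, h.gf_ab, h.gf_bc, h.gf_ca,
    h.gf_symm u (jj b c u), h.gf_symm u (jj c a u), h.gf_symm u (jj a b u),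
    h.gf_symm (jj c a u) (jj b c u), h.gf_symm (jj a b u) (jj c a u),
    h.gf_symm (jj b c u) (jj a b u)]
  ring

/-- the action as a linear map of the coefficients. -/
def actL (b c a : Bil) (u : E4) : E4 →ₗ[ℝ] E4 where
  toFun r := act b c a (fun i => r i) u
  map_add' r s := by unfold act; simp only [PiLp.add_apply]; module
  map_smul' t r := by
    unfold act; simp only [PiLp.smul_apply, smul_eq_mul, RingHom.id_apply]; module

theorem act_surj (h : ON3 k a b c) {u : E4} (hu : u ≠ 0) (v : E4) :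
    ∃ r : Fin 4 → ℝ, act b c a r u = v := by
  have hinj : Injective (actL b c a u) := by
    rw [← LinearMap.ker_eq_bot, LinearMap.ker_eq_bot']
    intro r hr
    have hr' : act b c a (fun i => r i) u = 0 := hr
    have h1 := h.act_conj (fun i => r i) u
    rw [hr'] at h1
    have h2 : act b c a ![r 0, - r 1, - r 2, - r 3] (0 : E4) = 0 := by
      unfold act; simp only [map_zero, smul_zero, add_zero]
    rw [h2] at h1
    have h3 := (smul_eq_zero.1 h1.symm).resolve_right hu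
    ext i
    fin_cases i
    · show r 0 = 0
      nlinarith [sq_nonneg (r 0), sq_nonneg (r 1), sq_nonneg (r 2), sq_nonneg (r 3)]
    · show r 1 = 0
      nlinarith [sq_nonneg (r 0), sq_nonneg (r 1), sq_nonneg (r 2), sq_nonneg (r 3)]
    · show r 2 = 0
      nlinarith [sq_nonneg (r 0), sq_nonneg (r 1), sq_nonneg (r 2), sq_nonneg (r 3)]
    · show r 3 = 0
      nlinarith [sq_nonneg (r 0), sq_nonneg (r 1), sq_nonneg (r 2), sq_nonneg (r 3)]
  have hsurj := LinearMap.injective_iff_surjective.1 hinj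
  obtain ⟨r, hr⟩ := hsurj v
  exact ⟨fun i => r i, hr⟩

theorem gf_ne (h : ON3 k a b c) {u : E4} (hu : u ≠ 0) : gf a b c u u ≠ 0 := by
  intro h0
  have h1 : ∀ v, gf a b c v v = 0 := by
    intro v
    obtain ⟨r, rfl⟩ := h.act_surj hu v
    rw [h.gf_act, h0, mul_zero]
  apply hu
  apply h.gf_nondeg
  intro v
  have h2 := h1 (u + v)
  rw [map_add, map_add, add_apply, add_apply, h1, h1, h.gf_symm v u] at h2
  linarith

theorem gf_sign (h : ON3 k a b c) {u v : E4} (hv : v ≠ 0) (hu : 0 < gf a b c u u) :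
    0 < gf a b c v v := by
  have hu0 : u ≠ 0 := by
    rintro rfl
    simp at hu
  have h1 := h.gf_ne hv
  obtain ⟨r, rfl⟩ := h.act_surj hu0 v
  rw [h.gf_act] at h1 ⊢
  exact lt_of_le_of_ne (by positivity) h1.symm

end ON3

theorem quo_smul (s : ℝ) (b c : Bil) (u : E4) : quo b (s • c) u = s • quo b c u := by
  ext k
  rw [PiLp.smul_apply, smul_eq_mul, quo_apply, quo_apply, Finset.mul_sum, Finset.mul_sum,
    Finset.mul_sum]
  refine Finset.sum_congr rfl fun i _ => ?_
  rw [smul_apply, smul_apply, smul_eq_mul]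
  ring

theorem gf_smul (s : ℝ) (a b c : Bil) (u v : E4) :
    gf a b (s • c) u v = s * gf a b c u v := by
  rw [gf_apply, gf_apply, jj_apply, jj_apply, quo_smul, ← smul_neg, map_smul, smul_eq_mul]

/-! ### Gram-Schmidt, pointwise -/

theorem q_zero_left (F b : Bil) : q F 0 b = 0 := by
  unfold q W; simp [ent_zero]

/-- a definite space of forms: the pairing is positive relative to the first form. -/
theorem q_pos {v : Fin 3 → Bil}
    (hv : ∀ c : Fin 3 → ℝ, c ≠ 0 → W (∑ i, c i • v i) (∑ i, c i • v i) ≠ 0)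
    {c : Fin 3 → ℝ} (hc : c ≠ 0) : 0 < q (v 0) (∑ i, c i • v i) (∑ i, c i • v i) := by
  have h0 : W (v 0) (v 0) ≠ 0 := by
    have h1 := hv (Pi.single 0 1) (by
      intro h
      have := congrFun h 0
      simp at this)
    simpa [Fin.sum_univ_three] using h1
  have h00 : q (v 0) (v 0) (v 0) = 1 := div_self h0
  set X := ∑ i, c i • v i with hX
  have hX1 : q (v 0) X X ≠ 0 := div_ne_zero (hv c hc) h0
  by_contra hneg
  have hlt : q (v 0) X X < 0 := lt_of_le_of_ne (not_lt.1 hneg) hX1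
  set B := q (v 0) (v 0) X with hB
  set Q := q (v 0) X X with hQ
  have hD : 0 ≤ B ^ 2 - Q := by nlinarith [sq_nonneg B]
  set t := (-B + √(B ^ 2 - Q)) / Q with ht
  have hroot : 1 + 2 * t * B + t ^ 2 * Q = 0 := by
    have h2 : t * Q = -B + √(B ^ 2 - Q) := by rw [ht]; field_simp
    have h3 : Q * (1 + 2 * t * B + t ^ 2 * Q) = 0 := by
      have : Q * (1 + 2 * t * B + t ^ 2 * Q) = Q + 2 * (t * Q) * B + (t * Q) ^ 2 := by ring
      rw [this, h2]
      have h4 := Real.sq_sqrt hD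
      nlinarith
    exact (mul_eq_zero.1 h3).resolve_left hX1
  have hval : q (v 0) (v 0 + t • X) (v 0 + t • X) = 0 := by
    rw [q_add_left, q_add_right, q_add_right, q_smul_left, q_smul_left, q_smul_right, q_smul_right,
      h00, q_comm (v 0) X (v 0), ← hB, ← hQ]
    linarith
  set c' : Fin 3 → ℝ := Pi.single 0 1 + t • c with hc'
  have hsum : ∑ i, c' i • v i = v 0 + t • X := by
    rw [hX, hc']
    simp only [Pi.add_apply, Pi.smul_apply, smul_eq_mul, Fin.sum_univ_three]
    simp only [Pi.single_apply]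
    simp only [if_true, if_neg (show ¬ (1 : Fin 3) = 0 by decide),
      if_neg (show ¬ (2 : Fin 3) = 0 by decide)]
    module
  by_cases h5 : c' = 0
  · have h6 : v 0 + t • X = 0 := by
      rw [← hsum, h5]; simp
    have h7 : q (v 0) (v 0 + t • X) (v 0) = 0 := by rw [h6, q_zero_left]
    have h8 : q (v 0) (v 0 + t • X) X = 0 := by rw [h6, q_zero_left]
    rw [q_add_left, q_smul_left, h00, q_comm (v 0) X (v 0), ← hB] at h7
    rw [q_add_left, q_smul_left, ← hB, ← hQ] at h8
    have h9 : t ^ 2 * Q = 1 := by linear_combination t * h8 - h7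
    nlinarith [mul_nonneg (sq_nonneg t) (neg_nonneg.2 hlt.le)]
  · have h6 := hv c' h5
    rw [hsum] at h6
    exact div_ne_zero h6 h0 hval

/-! ### smoothness -/

theorem contDiffOn_stm {n : WithTop ℕ∞} {b : E4 → Bil} {s : Set E4} (hb : ContDiffOn ℝ n b s)
    (i j : Fin 4) : ContDiffOn ℝ n (fun y => stm (b y) i j) s := by
  have h := contDiffOn_ent hb
  have h0 : ContDiffOn ℝ n (fun _ : E4 => (0 : ℝ)) s := contDiffOn_const
  fin_cases i <;> fin_cases j <;>
    first
    | exact h0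
    | exact h _ _
    | exact (h _ _).neg

theorem contDiffOn_quo {n : WithTop ℕ∞} {b c : E4 → Bil} {s : Set E4} (hb : ContDiffOn ℝ n b s)
    (hc : ContDiffOn ℝ n c s) (hne : ∀ y ∈ s, W (b y) (b y) ≠ 0) :
    ContDiffOn ℝ n (fun y => quo (b y) (c y)) s := by
  rw [contDiffOn_clm_apply]
  intro u
  rw [contDiffOn_euclidean]
  intro k
  simp only [quo_apply]
  refine (contDiffOn_const.div (contDiffOn_W hb hb) hne).mul (ContDiffOn.sum fun i _ => ?_)
  exact ((hc.clm_apply contDiffOn_const).clm_apply contDiffOn_const).mul (contDiffOn_stm hb i k)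

theorem contDiffOn_gf {n : WithTop ℕ∞} {a b c : E4 → Bil} {s : Set E4} (ha : ContDiffOn ℝ n a s)
    (hb : ContDiffOn ℝ n b s)
    (hc : ContDiffOn ℝ n c s) (hne : ∀ y ∈ s, W (b y) (b y) ≠ 0) :
    ContDiffOn ℝ n (fun y => gf (a y) (b y) (c y)) s := by
  rw [contDiffOn_clm_apply]
  intro u
  rw [contDiffOn_clm_apply]
  intro v
  simp only [gf_apply, jj_apply]
  exact (ha.clm_apply contDiffOn_const).clm_apply
    ((contDiffOn_quo hb hc hne).clm_apply contDiffOn_const).neg

end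

end Crest.Agent.R235.IndTri_451
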