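import Mathlib
import Crest.Agent.R235.Defs_837
import Crest.Agent.R247.Ms4_322

/-!
Row 235, package IND, node IND-3 (VOLM) (helper57): the volume measure of R240 against the
Riemannian measure.

Setting: `M` compact, Riemannian (instances of R247 / R249), `F` a nondegenerate two-form of R240, `J` an
endomorphism field with `J² = -1` and `⟨u, v⟩ = F(u, J v)`.

* `dens_eq`   : in the chart at `p`: `|W(F,F)| = 2 √(det g)`;
* `mu_eq`     : `mu F = 2 • μHE[4]`;
* `WF b c v`  : `(b ∧ c)(v 0, v 1, v 2, v 3)`; `WF_orth`: `|WF F F e| = 2` for orthonormal `e`;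
  `qG_frame`: `2 q(a,b) = WF a b e` if `e` is orthonormal and positive (`0 < WF F F e`);
* `I_eq`      : `I F a b = ∫ 2 q(a,b) dμHE[4]`;
* `I_eq_frame`: `I F a b = ∫ WF a b (e x) dμHE[4]`, `e x` orthonormal and positive;
* `pI_eq`, `pI_eq_frame` : the same for `pI`.
-/

set_option autoImplicit false
set_option maxSynthPendingDepth 3
set_option linter.unusedSectionVars false
set_option linter.unusedVariables false

open Set Function Filter MeasureTheory Bundle Metric
open scoped Manifold ContDiff Topology ENNReal NNReal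
open Crest.GeometryTopology.CoordMetric Crest.GeometryTopology.ChartCurvature
open Crest.Agent.R240 Crest.Agent.R240.Ch Crest.Agent.R240.Int
open Crest.Agent.R226.ChartMet842

universe u

namespace Crest.Agent.R235.IndVol_57

noncomputable section

/-! ### linear algebra -/

/-- the wedge product of two bilinear forms evaluated on four vectors. -/
def WF (b c : Bil) (v : Fin 4 → E4) : ℝ :=
  b (v 0) (v 1) * c (v 2) (v 3) - b (v 0) (v 2) * c (v 1) (v 3) + b (v 0) (v 3) * c (v 1) (v 2)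
    + b (v 1) (v 2) * c (v 0) (v 3) - b (v 1) (v 3) * c (v 0) (v 2) + b (v 2) (v 3) * c (v 0) (v 1)

/-- the endomorphism with columns `v`. -/
def colM (v : Fin 4 → E4) : E4 →L[ℝ] E4 :=
  ∑ i, (EuclideanSpace.proj i : E4 →L[ℝ] ℝ).smulRight (v i)

theorem colM_apply (v : Fin 4 → E4) (u : E4) : colM v u = ∑ i, u i • v i := by
  unfold colM
  rw [sum_apply]
  rfl

theorem colM_ee (v : Fin 4 → E4) (i : Fin 4) : colM v (ee i) = v i := by
  rw [colM_apply, Finset.sum_eq_single i]
  · simp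
  · intro j _ hj; simp [hj]
  · intro h; exact absurd (Finset.mem_univ _) h

theorem WF_eq (b c : Bil) (v : Fin 4 → E4) : WF b c v = W (pull (colM v) b) (pull (colM v) c) := by
  unfold WF W ent
  simp only [pull_apply, colM_ee]

theorem WF_det {b c : Bil} (hb : Alt b) (hc : Alt c) (v : Fin 4 → E4) :
    WF b c v = LinearMap.det ((colM v : E4 →L[ℝ] E4) : E4 →ₗ[ℝ] E4) * W b c := by
  rw [WF_eq, W_pull hb hc]

/-- the matrix of a bilinear form. -/
def mat (b : Bil) : Matrix (Fin 4) (Fin 4) ℝ := Matrix.of fun i j => ent b i j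

/-- the Pfaffian identity. -/
theorem det_mat {b : Bil} (hb : Alt b) : (mat b).det = (W b b / 2) ^ 2 := by
  have h : mat b = !![0, ent b 0 1, ent b 0 2, ent b 0 3; -ent b 0 1, 0, ent b 1 2, ent b 1 3;
      -ent b 0 2, -ent b 1 2, 0, ent b 2 3; -ent b 0 3, -ent b 1 3, -ent b 2 3, 0] := by
    ext i j
    fin_cases i <;> fin_cases j <;>
      simp [mat, hb.ent_self, hb.ent_swap 1 0, hb.ent_swap 2 0, hb.ent_swap 3 0, hb.ent_swap 2 1,
        hb.ent_swap 3 1, hb.ent_swap 3 2]
  rw [h]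
  unfold W
  generalize ent b 0 1 = b01
  generalize ent b 0 2 = b02
  generalize ent b 0 3 = b03
  generalize ent b 1 2 = b12
  generalize ent b 1 3 = b13
  generalize ent b 2 3 = b23
  simp only [Matrix.det_succ_row_zero, Fin.sum_univ_succ, Matrix.of_apply, Matrix.submatrix_apply,
    Fin.succ_zero_eq_one, Fin.succ_one_eq_two, Finset.univ_unique, Fin.default_eq_zero,
    Matrix.det_unique, Finset.sum_singleton, Fin.zero_succAbove, Fin.val_zero, pow_zero, one_mul,
    Fin.val_succ, zero_add, pow_one]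
  simp [Fin.succAbove, Fin.lt_def]
  ring

/-- matrix of an endomorphism. -/
def matE (A : E4 →L[ℝ] E4) : Matrix (Fin 4) (Fin 4) ℝ := Matrix.of fun i j => (A (ee j)) i

theorem matE_sq {A : E4 →L[ℝ] E4} (hA : ∀ v, A (A v) = -v) : matE A * matE A = -1 := by
  ext i j
  rw [Matrix.mul_apply]
  have h := hA (ee j)
  have h1 : A (ee j) = ∑ k, (A (ee j)) k • ee k := by
    rw [Fin.sum_univ_four]; exact sum_ee _
  have h2 : A (A (ee j)) = ∑ k, (A (ee j)) k • A (ee k) := by
    conv_lhs => rw [h1]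
    rw [map_sum]
    simp only [map_smul]
  rw [h] at h2
  have h3 := congrArg (fun w : E4 => w i) h2
  simp only [matE, Matrix.of_apply]
  have h4 : (∑ k, (A (ee j)) k • A (ee k)) i = ∑ k, (A (ee j)) k * (A (ee k)) i := by
    simp [Fin.sum_univ_four]
  rw [h4] at h3
  have h5 : (-ee j : E4) i = (-1 : Matrix (Fin 4) (Fin 4) ℝ) i j := by
    simp only [PiLp.neg_apply, ee_apply, Matrix.neg_apply, Matrix.one_apply]
  rw [← h5, h3]
  exact Finset.sum_congr rfl fun k _ => mul_comm _ _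

theorem det_matE_sq {A : E4 →L[ℝ] E4} (hA : ∀ v, A (A v) = -v) : (matE A).det ^ 2 = 1 := by
  have h := congrArg Matrix.det (matE_sq hA)
  rw [Matrix.det_mul] at h
  rw [sq, h]
  rw [Matrix.det_neg]
  norm_num

/-- `|W(F,F)| = 2 √(det g)` if `g(u,v) = F(u, A v)`, `A² = -1`, `g > 0`. -/
theorem W_abs {F : Bil} (hF : Alt F) {A : E4 →L[ℝ] E4} (hA : ∀ v, A (A v) = -v)
    {G : Matrix (Fin 4) (Fin 4) ℝ} (hG : ∀ i j, G i j = F (ee i) (A (ee j))) (hp : 0 < G.det) :
    |W F F| = 2 * √G.det := by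
  have h1 : G = mat F * matE A := by
    ext i j
    rw [hG, Matrix.mul_apply]
    have h2 : A (ee j) = ∑ k, (A (ee j)) k • ee k := by
      rw [Fin.sum_univ_four]; exact sum_ee _
    conv_lhs => rw [h2]
    rw [map_sum]
    refine Finset.sum_congr rfl fun k _ => ?_
    rw [map_smul, smul_eq_mul, mul_comm]
    rfl
  have h3 : G.det = (W F F / 2) ^ 2 * (matE A).det := by
    rw [h1, Matrix.det_mul, det_mat hF]
  have h4 := det_matE_sq hA
  have h5 : (matE A).det = 1 := by
    have h6 : ((matE A).det - 1) * ((matE A).det + 1) = 0 := by linear_combination h4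
    rcases mul_eq_zero.1 h6 with h7 | h7
    · linarith
    · exfalso
      have h8 : (matE A).det = -1 := by linarith
      rw [h8] at h3
      nlinarith [sq_nonneg (W F F / 2)]
  rw [h5, mul_one] at h3
  rw [h3, Real.sqrt_sq_eq_abs, abs_div]
  norm_num
  ring

/-- `|WF F F e| = 2` for an orthonormal frame `e` of `F(u, A v)`. -/
theorem WF_abs {F : Bil} (hF : Alt F) {A : E4 →L[ℝ] E4} (hA : ∀ v, A (A v) = -v)
    {e : Fin 4 → E4} (he : ∀ i j, F (e i) (A (e j)) = if i = j then 1 else 0) :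
    |WF F F e| = 2 := by
  set G : Matrix (Fin 4) (Fin 4) ℝ := Matrix.of fun i j => F (ee i) (A (ee j)) with hG
  set E : Matrix (Fin 4) (Fin 4) ℝ := matE (colM e) with hE
  have hEe : ∀ i j, E i j = (e j) i := by
    intro i j
    rw [hE]
    show (colM e (ee j)) i = _
    rw [colM_ee]
  have h1 : E.transpose * G * E = 1 := by
    ext k l
    rw [Matrix.mul_apply, Matrix.one_apply, ← he k l]
    have hk : e k = ∑ i, (e k) i • ee i := by rw [Fin.sum_univ_four]; exact sum_ee _
    have hl : e l = ∑ i, (e l) i • ee i := by rw [Fin.sum_univ_four]; exact sum_ee _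
    have h2 : A (e l) = ∑ j, (e l) j • A (ee j) := by
      conv_lhs => rw [hl]
      rw [map_sum]; simp only [map_smul]
    rw [h2, map_sum]
    refine Finset.sum_congr rfl fun j _ => ?_
    rw [Matrix.mul_apply, map_smul, smul_eq_mul, hEe, mul_comm]
    congr 1
    conv_rhs => rw [hk]
    rw [map_sum, sum_apply]
    refine Finset.sum_congr rfl fun i _ => ?_
    rw [Matrix.transpose_apply, hEe, map_smul]
    rfl
  have h3 : E.det ^ 2 * G.det = 1 := by
    have h := congrArg Matrix.det h1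
    rw [Matrix.det_mul, Matrix.det_mul, Matrix.det_transpose, Matrix.det_one] at h
    linarith
  have hGp : 0 < G.det := by
    by_contra h
    push Not at h
    nlinarith [sq_nonneg E.det]
  have h4 : |W F F| = 2 * √G.det := W_abs hF hA (fun i j => rfl) hGp
  have h5 : WF F F e = E.det * W F F := by
    rw [WF_det hF hF, det_eq]; rfl
  have h6 : |E.det| * √G.det = 1 := by
    have h7 : (|E.det| * √G.det) ^ 2 = 1 := by
      rw [mul_pow, sq_abs, Real.sq_sqrt hGp.le, h3]
    have h8 : 0 ≤ |E.det| * √G.det := by positivity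
    nlinarith
  rw [h5, abs_mul, h4]
  linear_combination 2 * h6

theorem WF_vol {F a b : Bil} (hF : Alt F) (ha : Alt a) (hb : Alt b) (h0 : W F F ≠ 0)
    (v : Fin 4 → E4) : WF a b v = (WF F F v / 2) * (2 * q F a b) := by
  rw [WF_det ha hb, WF_det hF hF]
  unfold q
  field_simp

/-- `2 q(a,b) = WF a b e` for a positive orthonormal frame. -/
theorem q_frame {F a b : Bil} (hF : Alt F) (ha : Alt a) (hb : Alt b) (h0 : W F F ≠ 0)
    {A : E4 →L[ℝ] E4} (hA : ∀ v, A (A v) = -v)
    {e : Fin 4 → E4} (he : ∀ i j, F (e i) (A (e j)) = if i = j then 1 else 0)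
    (hp : 0 < WF F F e) : 2 * q F a b = WF a b e := by
  have h1 := WF_abs hF hA he
  rw [abs_of_pos hp] at h1
  rw [WF_vol hF ha hb h0, h1]
  ring

/-! ### charts -/

section Man

variable {M : Type u} [MetricSpace M] [ChartedSpace (EuclideanSpace ℝ (Fin 4)) M]
  [IsManifold (𝓡 4) ∞ M]
  [RiemannianBundle (fun p : M => TangentSpace (𝓡 4) p)]
  [IsContMDiffRiemannianBundle (𝓡 4) ∞ (EuclideanSpace ℝ (Fin 4))
    (fun p : M => TangentSpace (𝓡 4) p)]

theorem dC_tcc (p : M) {x : M} (hx : x ∈ (chartAt E4 p).source) (v : E4) :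
    (dC (n := 4) p x v : E4) = tcc x p x v := by
  unfold dC
  rw [mfderiv_chartAt_eq_tangentCoordChange hx]
  rfl

theorem dS_tcc (p : M) {y : E4} (hy : y ∈ (chartAt E4 p).target) (u : E4) :
    (dS (n := 4) p y u : E4) =
      tcc p ((chartAt E4 p).symm y) ((chartAt E4 p).symm y) u := by
  have hx := symm_mem hy
  apply tcc_inj hx
  rw [tcc_cancel hx]
  have h1 := dC_dS (n := 4) p hy u
  have h2 := dC_tcc p hx (dS (n := 4) p y u)
  exact h2.symm.trans h1

/-- `J² = -1` and `⟨u, v⟩ = F(u, J v)`. -/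
structure Cpt (F : F2 E4 M) (J : EndF E4 M) : Prop where
  vol : Vol F
  sq : ∀ x v, atJ J x (atJ J x v) = -v
  met : ∀ (x : M) (u v : TangentSpace (𝓡 4) x), inner ℝ u v = at2 F x u (atJ J x v)

theorem repJ_sq {J : EndF E4 M} (hJ : ∀ x v, atJ J x (atJ J x v) = -v) (p : M) {y : E4}
    (hy : y ∈ (chartAt E4 p).target) (v : E4) : repJ p J y (repJ p J y v) = -v := by
  have hx := symm_mem hy
  rw [repJ_apply, repJ_apply, tcc_cancel' hx, hJ, map_neg, tcc_cancel hx]

theorem chartMetric_F {F : F2 E4 M} {J : EndF E4 M} (hC : Cpt F J) (p : M) {y : E4}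
    (hy : y ∈ (chartAt E4 p).target) (i j : Fin 4) :
    chartMetric 4 M p y i j = rep p F y (ee i) (repJ p J y (ee j)) := by
  have hx := symm_mem hy
  rw [R247.Ms322.chartMetric_apply, gm_apply, hC.met, rep_apply, repJ_apply, tcc_cancel' hx]
  have h1 := dS_tcc p hy (EuclideanSpace.single i 1)
  have h2 := dS_tcc p hy (EuclideanSpace.single j 1)
  unfold ee
  rw [← h1, ← h2]

/-- **density**: `|W(F,F)| = 2 √(det g)` in every chart. -/
theorem dens_eq {F : F2 E4 M} {J : EndF E4 M} (hC : Cpt F J) (p : M) {y : E4}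
    (hy : y ∈ (chartAt E4 p).target) :
    Int.dens F p y = 2 * R247.Ms322.dens (n := 4) p y :=
  W_abs (rep_alt hC.vol.alt p y) (repJ_sq hC.sq p hy) (chartMetric_F hC p hy)
    (R247.Ms322.det_pos p hy)

variable [IsRiemannianManifold (𝓡 4) M] [MeasurableSpace M] [BorelSpace M]

theorem isVol_muHE {F : F2 E4 M} {J : EndF E4 M} (hC : Cpt F J) :
    IsVol F ((2 : ℝ≥0∞) • (μHE[4] : Measure M)) := by
  intro p f hf h0
  rw [lintegral_smul_measure]
  have h1 : ∫⁻ x, f x ∂(μHE[4] : Measure M) =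
      ∫⁻ x in (chartAt E4 p).source, f x ∂(μHE[4] : Measure M) := by
    rw [← lintegral_indicator (chartAt E4 p).open_source.measurableSet]
    congr 1; funext x
    by_cases hx : x ∈ (chartAt E4 p).source
    · rw [indicator_of_mem hx]
    · rw [indicator_of_notMem hx, h0 x hx]
  rw [h1, R247.Ms322.lintegral_source]
  rw [smul_eq_mul, ← lintegral_const_mul' _ _ (by norm_num)]
  refine setLIntegral_congr_fun (chartAt E4 p).open_target.measurableSet (fun y hy => ?_)
  have h2 : |W (rep p F y) (rep p F y)| = 2 * R247.Ms322.dens (n := 4) p y := dens_eq hC p hy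
  rw [h2, ENNReal.ofReal_mul (by norm_num)]
  have h3 : ENNReal.ofReal 2 = 2 := by norm_num
  rw [h3]
  ring

variable [CompactSpace M]

/-- **the measures**: `mu F = 2 μHE[4]`. -/
theorem mu_eq {F : F2 E4 M} {J : EndF E4 M} (hC : Cpt F J) :
    mu F = (2 : ℝ≥0∞) • (μHE[4] : Measure M) := (isVol_eq_mu hC.vol (isVol_muHE hC)).symm

theorem integral_mu_eq {F : F2 E4 M} {J : EndF E4 M} (hC : Cpt F J) {G : Type*}
    [NormedAddCommGroup G] [NormedSpace ℝ G] (f : M → G) :
    ∫ x, f x ∂(mu F) = (2 : ℝ) • ∫ x, f x ∂(μHE[4] : Measure M) := by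
  rw [mu_eq hC, integral_smul_measure]
  norm_num

/-- `I F a b = ∫ 2 q(a,b) dμHE[4]`. -/
theorem I_eq {F : F2 E4 M} {J : EndF E4 M} (hC : Cpt F J) (a b : F2 E4 M) :
    Int.I F a b = ∫ x, 2 * qG F a b x ∂(μHE[4] : Measure M) := by
  unfold Int.I
  rw [integral_mu_eq hC, smul_eq_mul, integral_const_mul]

theorem WF_orth {F : F2 E4 M} {J : EndF E4 M} (hC : Cpt F J) (x : M)
    {e : Fin 4 → TangentSpace (𝓡 4) x} (he : ∀ i j, inner ℝ (e i) (e j) = if i = j then (1:ℝ) else 0) :
    |WF (at2 F x) (at2 F x) e| = 2 :=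
  WF_abs (hC.vol.alt x) (hC.sq x) (fun i j => by rw [← he i j, hC.met])

theorem qG_frame {F : F2 E4 M} {J : EndF E4 M} (hC : Cpt F J) {a b : F2 E4 M} (x : M)
    (ha : Alt (at2 a x)) (hb : Alt (at2 b x))
    {e : Fin 4 → TangentSpace (𝓡 4) x} (he : ∀ i j, inner ℝ (e i) (e j) = if i = j then (1:ℝ) else 0)
    (hp : 0 < WF (at2 F x) (at2 F x) e) :
    2 * qG F a b x = WF (at2 a x) (at2 b x) e :=
  q_frame (hC.vol.alt x) ha hb (hC.vol.ne x) (hC.sq x) (fun i j => by rw [← he i j, hC.met]) hp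

/-- `I F a b = ∫ (a ∧ b)(e x) dμHE[4]`, `e x` orthonormal and positive. -/
theorem I_eq_frame {F : F2 E4 M} {J : EndF E4 M} (hC : Cpt F J) {a b : F2 E4 M}
    (ha : ∀ x, Alt (at2 a x)) (hb : ∀ x, Alt (at2 b x))
    (e : (x : M) → Fin 4 → TangentSpace (𝓡 4) x)
    (he : ∀ x i j, inner ℝ (e x i) (e x j) = if i = j then (1:ℝ) else 0)
    (hp : ∀ x, 0 < WF (at2 F x) (at2 F x) (e x)) :
    Int.I F a b = ∫ x, WF (at2 a x) (at2 b x) (e x) ∂(μHE[4] : Measure M) := by
  rw [I_eq hC]
  congr 1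
  funext x
  exact qG_frame hC x (ha x) (hb x) (he x) (hp x)

/-! ### the pairing `pI` of `Defs_837` -/

theorem pI_eq_I (F a b : Z2 M) :
    pI F a b = Int.I (F.1.1 : F2 E4 M) (a.1.1 : F2 E4 M) (b.1.1 : F2 E4 M) := by
  unfold pI
  have h : ‹MeasurableSpace M› = borel M := BorelSpace.measurable_eq
  subst h
  rfl

theorem pI_eq {F : Z2 M} {J : EndF E4 M} (hC : Cpt (F.1.1 : F2 E4 M) J) (a b : Z2 M) :
    pI F a b = ∫ x, 2 * qG (F.1.1 : F2 E4 M) (a.1.1 : F2 E4 M) (b.1.1 : F2 E4 M) x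
      ∂(μHE[4] : Measure M) := by
  rw [pI_eq_I, I_eq hC]

theorem pI_eq_frame {F : Z2 M} {J : EndF E4 M} (hC : Cpt (F.1.1 : F2 E4 M) J) (a b : Z2 M)
    (e : (x : M) → Fin 4 → TangentSpace (𝓡 4) x)
    (he : ∀ x i j, inner ℝ (e x i) (e x j) = if i = j then (1:ℝ) else 0)
    (hp : ∀ x, 0 < WF (val F x) (val F x) (e x)) :
    pI F a b = ∫ x, WF (val a x) (val b x) (e x) ∂(μHE[4] : Measure M) := by
  rw [pI_eq_I]
  exact I_eq_frame hC a.1.2.1 b.1.2.1 e he hp

end Man

end

end Crest.Agent.R235.IndVol_57
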