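import Crest.Agent.R235.Riem_399
import Crest.Agent.R235.IndVol_57
import Crest.Agent.R249.TofM_352
import Crest.Agent.R249.Vol_285

/-!
Row 235, package IND, node IND-2 (RIEM), part 2 (helper399): bridges between the chart format of R240
(`F1`, `F2`, `VF`, `EndF`, `rep`, `tcc`) and the vector fields of R249 (`VSm`, `vCh`, `dCh`, `mgrad`, `mCov`,
`PF`, `IsVol`), on a Riemannian manifold of R249.
-/

set_option autoImplicit false
set_option maxSynthPendingDepth 3
set_option linter.unusedSectionVars false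
set_option linter.unusedVariables false
set_option linter.style.haveILetI false

open Set Function Filter Bundle Manifold
open scoped Manifold ContDiff Topology ENNReal
open Crest.GeometryTopology.CoordMetric Crest.GeometryTopology.ChartCurvature
open Crest.Agent.R240 Crest.Agent.R240.Ch
open Crest.Agent.R202.Tens
open Crest.Agent.R247.Bo84 hiding trans
open Crest.Agent.R249.Vf281 Crest.Agent.R249.Tz2_805

universe u

namespace Crest.Agent.R235.RiemB_399

noncomputable section

variable {M : Type u} [TopologicalSpace M] [ChartedSpace E4 M] [IsManifold 𝓘(ℝ, E4) ∞ M]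

/-! ### derivatives of charts -/

theorem dCh_tcc (p : M) {x : M} (hx : x ∈ (chartAt E4 p).source) (v : E4) :
    dCh (n := 4) p x v = tcc x p x v := by
  unfold dCh
  rw [mfderiv_chartAt_eq_tangentCoordChange hx]

theorem dSy_tcc (p : M) {y : E4} (hy : y ∈ (chartAt E4 p).target) (u : E4) :
    dSy (n := 4) p y u = tcc p ((chartAt E4 p).symm y) ((chartAt E4 p).symm y) u := by
  have hx := symm_mem hy
  apply tcc_inj hx
  rw [tcc_cancel hx]
  exact (dCh_tcc p hx (dSy (n := 4) p y u)).symm.trans (dCh_dSy (n := 4) p hy u)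

variable [RiemannianBundle (fun x : M => TangentSpace 𝓘(ℝ, E4) x)]
  [IsContMDiffRiemannianBundle 𝓘(ℝ, E4) ∞ E4 (fun x : M => TangentSpace 𝓘(ℝ, E4) x)]

theorem vCh_repV (p : M) {y : E4} (hy : y ∈ (chartAt E4 p).target)
    (X : (x : M) → TangentSpace 𝓘(ℝ, E4) x) : vCh 4 p X y = repV p (X : VF E4 M) y :=
  dCh_tcc p (symm_mem hy) _

/-- **smooth vector fields.** -/
theorem smoothV_iff (X : (x : M) → TangentSpace 𝓘(ℝ, E4) x) :
    SmoothV (X : VF E4 M) ↔ ∀ z, VSm 4 ∞ X z := by
  constructor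
  · intro h z
    have hz := mem_chart_target E4 z
    refine ((h z).contDiffAt ((chartAt E4 z).open_target.mem_nhds hz)).congr_of_eventuallyEq ?_
    filter_upwards [(chartAt E4 z).open_target.mem_nhds hz] with y hy
    exact vCh_repV z hy X
  · intro h
    refine SmoothV.of_local fun x => ⟨x, mem_chart_source E4 x, ?_⟩
    have hz := mem_chart_target E4 x
    refine ContDiffAt.congr_of_eventuallyEq (h x) ?_
    filter_upwards [(chartAt E4 x).open_target.mem_nhds hz] with y hy
    exact (vCh_repV x hy X).symm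

theorem contDiffAt_repV {X : (x : M) → TangentSpace 𝓘(ℝ, E4) x} {z : M} (h : VSm 4 ∞ X z) :
    ContDiffAt ℝ ∞ (repV z (X : VF E4 M)) (chartAt E4 z z) := by
  refine ContDiffAt.congr_of_eventuallyEq h ?_
  filter_upwards [(chartAt E4 z).open_target.mem_nhds (mem_chart_target E4 z)] with y hy
  exact (vCh_repV z hy X).symm

theorem VSm_of_repV {X : (x : M) → TangentSpace 𝓘(ℝ, E4) x} {z : M}
    (h : ContDiffAt ℝ ∞ (repV z (X : VF E4 M)) (chartAt E4 z z)) : VSm 4 ∞ X z := by
  refine ContDiffAt.congr_of_eventuallyEq h ?_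
  filter_upwards [(chartAt E4 z).open_target.mem_nhds (mem_chart_target E4 z)] with y hy
  exact vCh_repV z hy X

/-! ### functions -/

theorem smoothF_iff (f : M → ℝ) : SmoothF E4 f ↔ ContMDiff 𝓘(ℝ, E4) 𝓘(ℝ, ℝ) ∞ f := by
  have h := forall_chart_iff (E := E4) (M := M) (P := fun p y => ContDiffAt ℝ ∞ (repF (E := E4) p f) y)
    (Q := fun x => ContMDiffAt 𝓘(ℝ, E4) 𝓘(ℝ, ℝ) ∞ f x)
    (fun p x hx => contMDiffAt_of_eq hx fun z hz => by
      unfold repF; rw [(chartAt E4 p).left_inv hz])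
  constructor
  · intro h2
    exact h.2 fun p => contDiffOn_chart_iff.1 (h2 p)
  · intro h2 p
    exact contDiffOn_chart_iff.2 (h.1 h2 p)

/-- `b(X, Y)` is smooth. -/
theorem contMDiffAt_form2 {b : F2 E4 M} (hb : ∀ p : M, ContDiffOn ℝ ∞ (rep p b) (chartAt E4 p).target)
    {X Y : (x : M) → TangentSpace 𝓘(ℝ, E4) x} {z : M} (hX : VSm 4 ∞ X z) (hY : VSm 4 ∞ Y z) :
    ContMDiffAt 𝓘(ℝ, E4) 𝓘(ℝ, ℝ) ∞ (fun x => at2 b x (X x) (Y x)) z := by
  have hz := mem_chart_source E4 z
  refine (contMDiffAt_of_eq (f := fun y => rep z b y (repV z (X : VF E4 M) y) (repV z (Y : VF E4 M) y))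
    hz fun x hx => ?_).2 ?_
  · have h := rep_repV ((chartAt E4 z).map_source hx) b (X : VF E4 M) (Y : VF E4 M)
    rw [(chartAt E4 z).left_inv hx] at h
    exact h.symm
  · have h1 := (hb z).contDiffAt ((chartAt E4 z).open_target.mem_nhds (mem_chart_target E4 z))
    exact (h1.clm_apply (contDiffAt_repV hX)).clm_apply (contDiffAt_repV hY)

/-- `s(X)` is smooth. -/
theorem contMDiffAt_form1 {s : F1 E4 M} (hs : Smooth1 s)
    {X : (x : M) → TangentSpace 𝓘(ℝ, E4) x} {z : M} (hX : VSm 4 ∞ X z) :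
    ContMDiffAt 𝓘(ℝ, E4) 𝓘(ℝ, ℝ) ∞ (fun x => at1 s x (X x)) z := by
  have hz := mem_chart_source E4 z
  refine (contMDiffAt_of_eq (f := fun y => rep1 z s y (repV z (X : VF E4 M) y))
    hz fun x hx => ?_).2 ?_
  · have h := rep1_repV ((chartAt E4 z).map_source hx) s (X : VF E4 M)
    rw [(chartAt E4 z).left_inv hx] at h
    exact h.symm
  · have h1 := (hs z).contDiffAt ((chartAt E4 z).open_target.mem_nhds (mem_chart_target E4 z))
    exact h1.clm_apply (contDiffAt_repV hX)

/-! ### endomorphisms -/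

theorem repV_endo (J : EndF E4 M) (X : VF E4 M) (p : M) {y : E4} (hy : y ∈ (chartAt E4 p).target) :
    repV p (fun x => atJ J x (atV X x)) y = repJ p J y (repV p X y) := by
  rw [repJ_apply, repV, repV, tcc_cancel' (symm_mem hy)]
  rfl

/-- `J X` is smooth. -/
theorem VSm_endo {J : EndF E4 M} (hJ : SmoothJ J) {X : (x : M) → TangentSpace 𝓘(ℝ, E4) x} {z : M}
    (hX : VSm 4 ∞ X z) :
    VSm 4 ∞ (fun x => (atJ J x (X x : E4) : TangentSpace 𝓘(ℝ, E4) x)) z := by
  refine VSm_of_repV ?_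
  have h1 := (hJ z).contDiffAt ((chartAt E4 z).open_target.mem_nhds (mem_chart_target E4 z))
  refine (h1.clm_apply (contDiffAt_repV hX)).congr_of_eventuallyEq ?_
  filter_upwards [(chartAt E4 z).open_target.mem_nhds (mem_chart_target E4 z)] with y hy
  exact repV_endo J (X : VF E4 M) z hy

/-! ### sharp and flat -/

/-- the vector field dual to a one-form. -/
def shp (s : F1 E4 M) (x : M) : TangentSpace 𝓘(ℝ, E4) x :=
  haveI : FiniteDimensional ℝ (TangentSpace 𝓘(ℝ, E4) x) := inferInstanceAs (FiniteDimensional ℝ E4)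
  haveI : CompleteSpace (TangentSpace 𝓘(ℝ, E4) x) := FiniteDimensional.complete ℝ _
  (InnerProductSpace.toDual ℝ (TangentSpace 𝓘(ℝ, E4) x)).symm (at1 s x)

theorem inner_shp (s : F1 E4 M) (x : M) (v : TangentSpace 𝓘(ℝ, E4) x) :
    inner ℝ (shp s x) v = at1 s x v := by
  haveI : FiniteDimensional ℝ (TangentSpace 𝓘(ℝ, E4) x) := inferInstanceAs (FiniteDimensional ℝ E4)
  haveI : CompleteSpace (TangentSpace 𝓘(ℝ, E4) x) := FiniteDimensional.complete ℝ _
  unfold shp
  exact InnerProductSpace.toDual_symm_apply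

theorem shp_unique {s : F1 E4 M} {x : M} {w : TangentSpace 𝓘(ℝ, E4) x}
    (h : ∀ v, inner ℝ w v = at1 s x v) : w = shp s x := by
  refine ext_inner_right ℝ fun v => ?_
  rw [h, inner_shp]

theorem shp_eq_PF {κ : Type} [Fintype κ] (P : PF 4 M κ) (s : F1 E4 M) (x : M) :
    shp s x = ∑ A, at1 s x (P.s A x) • P.s A x := by
  refine (shp_unique fun v => ?_).symm
  rw [sum_inner]
  simp only [real_inner_smul_left]
  conv_rhs => rw [← P.pars x v]
  have h1 : at1 s x (∑ A, (inner ℝ (P.s A x) v : ℝ) • P.s A x : TangentSpace 𝓘(ℝ, E4) x) =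
      ∑ A, (inner ℝ (P.s A x) v : ℝ) * at1 s x (P.s A x) := by
    refine (map_sum (at1 s x) _ _).trans (Finset.sum_congr rfl fun A _ => ?_)
    exact map_smul (at1 s x) _ _
  rw [h1]
  exact Finset.sum_congr rfl fun A _ => mul_comm _ _

theorem VSm_sum {κ : Type} [Fintype κ] {X : κ → (x : M) → TangentSpace 𝓘(ℝ, E4) x} {z : M}
    (h : ∀ A, VSm 4 ∞ (X A) z) : VSm 4 ∞ (fun x => ∑ A, X A x) z := by
  classical
  have key : ∀ t : Finset κ, VSm 4 ∞ (fun x => ∑ A ∈ t, X A x) z := by
    intro t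
    induction t using Finset.induction_on with
    | empty => simpa using VSm_zero (n := 4) z
    | insert a t ha ih =>
      simp only [Finset.sum_insert ha]
      exact (h a).add ih
  exact key Finset.univ

/-- **the sharp of a smooth one-form is smooth.** -/
theorem VSm_shp [CompactSpace M] [T2Space M] {s : F1 E4 M} (hs : Smooth1 s) (z : M) :
    VSm 4 ∞ (shp s) z := by
  obtain ⟨m, ⟨P⟩⟩ := exists_PF (n := 4) (M := M)
  have h1 : shp s = fun x => ∑ A, at1 s x (P.s A x) • P.s A x := by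
    funext x; exact shp_eq_PF P s x
  rw [h1]
  exact VSm_sum fun A => VSm.smul le_rfl (contMDiffAt_form1 hs (P.sm A z)) (P.sm A z)

/-- the one-form `g(X, ·)`. -/
def flG (g : F2 E4 M) (X : (x : M) → TangentSpace 𝓘(ℝ, E4) x) : F1 E4 M := fun x => at2 g x (X x)

omit [RiemannianBundle (fun x : M => TangentSpace 𝓘(ℝ, E4) x)]
  [IsContMDiffRiemannianBundle 𝓘(ℝ, E4) ∞ E4 (fun x : M => TangentSpace 𝓘(ℝ, E4) x)] in
theorem rep1_flG (g : F2 E4 M) (X : (x : M) → TangentSpace 𝓘(ℝ, E4) x) (p : M) {y : E4}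
    (hy : y ∈ (chartAt E4 p).target) : rep1 p (flG g X) y = rep p g y (repV p (X : VF E4 M) y) := by
  have h : tcc p ((chartAt E4 p).symm y) ((chartAt E4 p).symm y) (repV p (X : VF E4 M) y) =
      (X ((chartAt E4 p).symm y) : E4) := tcc_cancel' (symm_mem hy) _
  ext v
  rw [rep1_apply, rep_apply, h]
  rfl

theorem smooth1_flG {g : F2 E4 M} (hg : Riem_399.Met g) {X : (x : M) → TangentSpace 𝓘(ℝ, E4) x}
    (hX : ∀ z, VSm 4 ∞ X z) : Smooth1 (flG g X) := by
  intro p
  have h1 : ContDiffOn ℝ ∞ (fun y => rep p g y (repV p (X : VF E4 M) y)) (chartAt E4 p).target :=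
    (hg.smooth p).clm_apply ((smoothV_iff X).2 hX p)
  exact h1.congr fun y hy => rep1_flG g X p hy

section met

variable {g : F2 E4 M} (hin : ∀ (x : M) (u v : TangentSpace 𝓘(ℝ, E4) x), inner ℝ u v = at2 g x u v)
include hin

theorem shp_flG (X : (x : M) → TangentSpace 𝓘(ℝ, E4) x) : shp (flG g X) = X := by
  funext x
  exact (shp_unique fun v => hin x _ v).symm

theorem flG_shp (s : F1 E4 M) : flG g (shp s) = s := by
  funext x
  ext v
  exact (hin x (shp s x) v).symm.trans (inner_shp s x v)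

/-- **one-forms and fields.** -/
theorem smooth1_iff [CompactSpace M] [T2Space M] (hg : Riem_399.Met g) (s : F1 E4 M) :
    Smooth1 s ↔ ∀ z, VSm 4 ∞ (shp s) z := by
  refine ⟨fun h z => VSm_shp h z, fun h => ?_⟩
  rw [← flG_shp hin s]
  exact smooth1_flG hg h

end met

/-! ### gradient -/

theorem dF_eq_mfderiv (f : M → ℝ) (x : M) (v : E4) :
    at1 (dF f) x v = mfderiv 𝓘(ℝ, E4) 𝓘(ℝ, ℝ) f x v := by
  have h1 : dCh (n := 4) x x v = v := by
    rw [dCh_tcc x (mem_chart_source E4 x), tcc_self (mem_chart_source E4 x)]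
  have h2 : mfderiv 𝓘(ℝ, E4) 𝓘(ℝ, ℝ) f x v =
      fderiv ℝ (inCh 4 x f) (chartCentre 4 M x) (dCh (n := 4) x x v) := mfderiv_centre f x v
  refine Eq.trans ?_ h2.symm
  rw [h1]
  rfl

/-- **`grad f` is the dual of `df`** (every `f`). -/
theorem mgrad_eq (f : M → ℝ) (x : M) : mgrad 4 f x = shp (dF f) x :=
  shp_unique fun v => (inner_mgrad (n := 4) f x v).trans (dF_eq_mfderiv f x v).symm

/-! ### the exterior derivative and the covariant derivative -/

theorem dCh_self (x : M) (v : E4) : dCh (n := 4) x x v = v := by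
  rw [dCh_tcc x (mem_chart_source E4 x), tcc_self (mem_chart_source E4 x)]

section met

variable {g : F2 E4 M} (hin : ∀ (x : M) (u v : TangentSpace 𝓘(ℝ, E4) x), inner ℝ u v = at2 g x u v)
include hin

theorem rep_met (p : M) {y : E4} (hy : y ∈ (chartAt E4 p).target) (u v : E4) :
    rep p g y u v = bil (chartMetric 4 M p y) u v := by
  have h1 := bil_chartMetric (n := 4) p y u v
  have h2 := dSy_tcc p hy u
  have h3 := dSy_tcc p hy v
  refine Eq.trans ?_ h1.symm
  refine Eq.trans ?_ (hin _ _ _).symm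
  rw [rep_apply, h2, h3]

theorem fderiv_rep1_flG (hg : Riem_399.Met g) {X : (x : M) → TangentSpace 𝓘(ℝ, E4) x} {x : M}
    (hX : VSm 4 ∞ X x) (u v : E4) :
    fderiv ℝ (rep1 x (flG g X)) (chartAt E4 x x) u v =
      bil (chartMetric 4 M x (chartCentre 4 M x))
        (cov (chartMetric 4 M x) (vCh 4 x X) (chartCentre 4 M x) u) v +
      bil (chartMetric 4 M x (chartCentre 4 M x)) (vCh 4 x X (chartCentre 4 M x))
        (Gam (chartMetric 4 M x) (chartCentre 4 M x) u v) := by
  have hgx := isRiemannianOn_chartMetric (n := 4) (M := M) x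
  have hc : chartAt E4 x x ∈ (chartAt E4 x).target := mem_chart_target E4 x
  have hrep : rep1 x (flG g X) =ᶠ[𝓝 (chartAt E4 x x)] fun y => rep x g y (repV x (X : VF E4 M) y) := by
    filter_upwards [(chartAt E4 x).open_target.mem_nhds hc] with y hy
    exact rep1_flG g X x hy
  have hsm : ContDiffAt ℝ ∞ (fun y => rep x g y (repV x (X : VF E4 M) y)) (chartAt E4 x x) :=
    ((hg.smooth x).contDiffAt ((chartAt E4 x).open_target.mem_nhds hc)).clm_apply
      (contDiffAt_repV hX)
  have hd : DifferentiableAt ℝ (rep1 x (flG g X)) (chartAt E4 x x) :=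
    (hsm.congr_of_eventuallyEq hrep).differentiableAt (by simp)
  have h1 : fderiv ℝ (fun y => rep1 x (flG g X) y v) (chartAt E4 x x) u =
      fderiv ℝ (rep1 x (flG g X)) (chartAt E4 x x) u v := by
    rw [fderiv_clm_apply hd (differentiableAt_const v)]
    simp
  rw [← h1]
  have h2 : (fun y => rep1 x (flG g X) y v) =ᶠ[𝓝 (chartAt E4 x x)]
      fun y => bil (chartMetric 4 M x y) (vCh 4 x X y) ((fun _ => v) y) := by
    filter_upwards [(chartAt E4 x).open_target.mem_nhds hc] with y hy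
    rw [rep1_flG g X x hy, rep_met hin x hy, vCh_repV x hy]
  rw [h2.fderiv_eq]
  have h3 := fderiv_bil hgx hc (ContDiffAt.differentiableAt hX (by simp)) (differentiableAt_const v) u
  refine h3.trans ?_
  congr 1
  rw [cov_apply]
  simp
  rfl

/-- **`dθ(u,v) = ⟨∇_u X, v⟩ - ⟨∇_v X, u⟩`** for `θ = g(X, ·)`. -/
theorem dG_mCov (hg : Riem_399.Met g) {X : (x : M) → TangentSpace 𝓘(ℝ, E4) x} {x : M}
    (hX : VSm 4 ∞ X x) (u v : TangentSpace 𝓘(ℝ, E4) x) :
    at2 (dG (flG g X)) x u v = inner ℝ (mCov 4 X x u) v - inner ℝ (mCov 4 X x v) u := by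
  have hgx := isRiemannianOn_chartMetric (n := 4) (M := M) x
  have hc : chartAt E4 x x ∈ (chartAt E4 x).target := mem_chart_target E4 x
  have h0 : at2 (dG (flG g X)) x u v =
      fderiv ℝ (rep1 x (flG g X)) (chartAt E4 x x) u v -
        fderiv ℝ (rep1 x (flG g X)) (chartAt E4 x x) v u := d1_apply _ _ _ _
  have a1 := fderiv_rep1_flG hin hg hX (u : E4) (v : E4)
  have a2 := fderiv_rep1_flG hin hg hX (v : E4) (u : E4)
  have key : ∀ a b : TangentSpace 𝓘(ℝ, E4) x, inner ℝ (mCov 4 X x a) b =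
      bil (chartMetric 4 M x (chartCentre 4 M x))
        (cov (chartMetric 4 M x) (vCh 4 x X) (chartCentre 4 M x) (a : E4)) (b : E4) := by
    intro a b
    have e1 : dCh (n := 4) x x (mCov 4 X x a) =
        cov (chartMetric 4 M x) (vCh 4 x X) (chartCentre 4 M x) (a : E4) :=
      (dCh_mCov X x a).trans (congrArg _ (dCh_self x a))
    have e2 : dCh (n := 4) x x b = (b : E4) := dCh_self x b
    have e3 := inner_centre x (mCov 4 X x a) b
    rw [e1, e2] at e3
    exact e3
  have e4 : Gam (chartMetric 4 M x) (chartCentre 4 M x) (u : E4) (v : E4) =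
      Gam (chartMetric 4 M x) (chartCentre 4 M x) (v : E4) (u : E4) := Gam_symm hgx hc u v
  rw [e4] at a1
  refine h0.trans ?_
  refine (congrArg₂ (fun a b : ℝ => a - b) (a1.trans (congrArg₂ (fun a b : ℝ => a + b) (key u v).symm rfl))
    (a2.trans (congrArg₂ (fun a b : ℝ => a + b) (key v u).symm rfl))).trans ?_
  exact add_sub_add_right_eq_sub _ _ _

/-- the same with the form given. -/
theorem dG_mCov' (hg : Riem_399.Met g) {s : F1 E4 M} [CompactSpace M] [T2Space M] (hs : Smooth1 s)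
    (x : M) (u v : TangentSpace 𝓘(ℝ, E4) x) :
    at2 (dG s) x u v = inner ℝ (mCov 4 (shp s) x u) v - inner ℝ (mCov 4 (shp s) x v) u := by
  have h := dG_mCov hin hg (VSm_shp hs x) u v
  rwa [flG_shp hin] at h

end met

end

end Crest.Agent.R235.RiemB_399
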