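import Crest.Agent.R235.TauB_483

/-!
Row 235 (S0364), SW-TAU (helper483), part C: the Stokes identities (smooth data, R240 forms).

* `stokes_fun` : `∫ f (dS ∧ φ) = - ∫ df ∧ S ∧ φ`, `φ` closed;
* `T1`  : `∫ 2 ∑ X_j ∧ Y_j ∧ φ = ∫ |α|² Φ ∧ φ`, `∇_A α = X + i Y`, `φ` closed;
* `T2`  : Stokes for `Re (⟨∇_A α, b⟩ ∧ Θ)`, `Θ = ∑ (f_j + i g_j) φ_j`, `φ_j` closed;
* `T3`  : `∫ Φ ∧ φ = 2π ∫ c ∧ φ`.
-/

set_option autoImplicit false
set_option maxSynthPendingDepth 3
set_option linter.unusedSectionVars false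

open Set Function Filter MeasureTheory Matrix Complex
open scoped Manifold ContDiff Topology

universe u

namespace Crest.Agent.R235.Tau483

open Crest.Agent.R240 Crest.Agent.R240.Ch Crest.Agent.R240.Int

noncomputable section

variable {M : Type u} [TopologicalSpace M] [ChartedSpace E4 M] [IsManifold 𝓘(ℝ, E4) ∞ M]
variable {ι : Type*} [Fintype ι] {p : M → Matrix ι ι ℂ}

/-! ### components of `∇_A α` as real covectors -/

theorem dC_add_vec (f : M → ℂ) (x : M) (u v : E4) : dC f x (u + v) = dC f x u + dC f x v :=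
  map_add _ _ _

theorem dC_smul_vec (f : M → ℂ) (x : M) (r : ℝ) (u : E4) : dC f x (r • u) = r • dC f x u :=
  map_smul _ _ _

theorem nab_add (a : F1 E4 M) (α : M → ι → ℂ) (x : M) (u v : E4) :
    nab p a α x (u + v) = nab p a α x u + nab p a α x v := by
  unfold nab
  have h1 : dV α x (u + v) = dV α x u + dV α x v := funext fun j => dC_add_vec _ x u v
  rw [h1, mulVec_add, map_add]
  push_cast
  rw [mul_add, add_smul]
  abel

theorem nab_smul (a : F1 E4 M) (α : M → ι → ℂ) (x : M) (r : ℝ) (u : E4) :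
    nab p a α x (r • u) = r • nab p a α x u := by
  unfold nab
  have h1 : dV α x (r • u) = r • dV α x u := funext fun j => dC_smul_vec _ x r u
  rw [h1, mulVec_smul, map_smul, smul_add, smul_eq_mul]
  congr 1
  push_cast
  funext j
  simp only [Pi.smul_apply, smul_eq_mul, Complex.real_smul]
  ring

/-- real part of the component `j` of `∇_A α`. -/
def nX (p : M → Matrix ι ι ℂ) (a : F1 E4 M) (α : M → ι → ℂ) (x : M)
    (j : ι) : E4 →L[ℝ] ℝ :=
  LinearMap.toContinuousLinearMap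
    { toFun := fun u => (nab p a α x u j).re
      map_add' := fun u v => by rw [nab_add, Pi.add_apply, Complex.add_re]
      map_smul' := fun r u => by
        rw [nab_smul, Pi.smul_apply, Complex.real_smul, Complex.re_ofReal_mul]; rfl }

/-- imaginary part of the component `j` of `∇_A α`. -/
def nY (p : M → Matrix ι ι ℂ) (a : F1 E4 M) (α : M → ι → ℂ) (x : M)
    (j : ι) : E4 →L[ℝ] ℝ :=
  LinearMap.toContinuousLinearMap
    { toFun := fun u => (nab p a α x u j).im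
      map_add' := fun u v => by rw [nab_add, Pi.add_apply, Complex.add_im]
      map_smul' := fun r u => by
        rw [nab_smul, Pi.smul_apply, Complex.real_smul, Complex.im_ofReal_mul]; rfl }

@[simp] theorem nX_apply (a : F1 E4 M) (α : M → ι → ℂ) (x : M) (j : ι) (u : E4) :
    nX p a α x j u = (nab p a α x u j).re := rfl

@[simp] theorem nY_apply (a : F1 E4 M) (α : M → ι → ℂ) (x : M) (j : ι) (u : E4) :
    nY p a α x j u = (nab p a α x u j).im := rfl

/-- real part of the hermitian wedge. -/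
def hwR (X Y X' Y' : ι → E4 →L[ℝ] ℝ) : Bil := ∑ j, (wed (X j) (X' j) + wed (Y j) (Y' j))

/-- imaginary part of the hermitian wedge. -/
def hwI (X Y X' Y' : ι → E4 →L[ℝ] ℝ) : Bil := ∑ j, (wed (Y j) (X' j) - wed (X j) (Y' j))

theorem hwR_eq (a : F1 E4 M) (α b : M → ι → ℂ) (x : M) (u v : E4) :
    hwR (nX p a α x) (nY p a α x) (nX p a b x) (nY p a b x) u v =
      (hw (nab p a α x) (nab p a b x) u v).re := by
  unfold hwR hw
  rw [Complex.sub_re, hp_re, hp_re, ← Finset.sum_sub_distrib]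
  simp only [_root_.sum_apply, _root_.add_apply, wed_apply, nX_apply, nY_apply]
  refine Finset.sum_congr rfl fun j _ => ?_
  ring

theorem hwI_eq (a : F1 E4 M) (α b : M → ι → ℂ) (x : M) (u v : E4) :
    hwI (nX p a α x) (nY p a α x) (nX p a b x) (nY p a b x) u v =
      (hw (nab p a α x) (nab p a b x) u v).im := by
  unfold hwI hw
  rw [Complex.sub_im, hp_im, hp_im, ← Finset.sum_sub_distrib]
  simp only [_root_.sum_apply, _root_.sub_apply, wed_apply, nX_apply, nY_apply]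
  refine Finset.sum_congr rfl fun j _ => ?_
  ring

/-- the curvature as a form. -/
def PhiF (c : Z2 M) (a : F1 E4 M) : F2 E4 M :=
  (2 * Real.pi) • (c.1.1 : F2 E4 M) + (-1 : ℝ) • dG a

theorem at2_PhiF (c : Z2 M) (a : F1 E4 M) (x : M) : at2 (PhiF c a) x = Phi c a x := by
  unfold Phi
  have h : at2 (PhiF c a) x = (2 * Real.pi) • val c x + (-1 : ℝ) • at2 (dG a) x := rfl
  rw [h, neg_one_smul, sub_eq_add_neg]

theorem smooth_PhiF (c : Z2 M) {a : F1 E4 M} (ha : Smooth1 a) : Smooth2 (PhiF c a) :=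
  (Smooth2.smul _ c.1.2).add (Smooth2.smul _ (Smooth2.dG ha))

theorem dG_lre_B (h : Ln p) {c : Z2 M} (hc : Ch0 p c) {a : F1 E4 M} (ha : Smooth1 a)
    {α b : M → ι → ℂ} (hα : SmV α) (hb : SmV b) (hpα : ∀ x, p x *ᵥ α x = α x)
    (hpb : ∀ x, p x *ᵥ b x = b x) (x : M) :
    at2 (dG (lre a α b)) x = (hp (α x) (b x)).im • Phi c a x
      - hwR (nX p a α x) (nY p a α x) (nX p a b x) (nY p a b x) := by
  ext1 u
  ext1 v
  rw [dG_lre_eq h hc ha hα hb hpα hpb]
  simp only [_root_.sub_apply, _root_.smul_apply, smul_eq_mul]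
  rw [hwR_eq]
  ring

theorem dG_lim_B (h : Ln p) {c : Z2 M} (hc : Ch0 p c) {a : F1 E4 M} (ha : Smooth1 a)
    {α b : M → ι → ℂ} (hα : SmV α) (hb : SmV b) (hpα : ∀ x, p x *ᵥ α x = α x)
    (hpb : ∀ x, p x *ᵥ b x = b x) (x : M) :
    at2 (dG (lim a α b)) x = -(hp (α x) (b x)).re • Phi c a x
      - hwI (nX p a α x) (nY p a α x) (nX p a b x) (nY p a b x) := by
  ext1 u
  ext1 v
  rw [dG_lim_eq h hc ha hα hb hpα hpb]
  simp only [_root_.sub_apply, _root_.smul_apply, smul_eq_mul, _root_.neg_apply, neg_smul]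
  rw [hwI_eq]
  ring

/-! ### Stokes -/

section Stokes

variable [T2Space M] [CompactSpace M] [MeasurableSpace M] [BorelSpace M]

/-- Stokes with a function. -/
theorem stokes_fun {F : F2 E4 M} (hF : Vol F) {f : M → ℝ} (hf : SmoothF E4 f) {S : F1 E4 M}
    (hS : Smooth1 S) {φ : F2 E4 M} (hφ : Smooth2 φ) (hcl : Closed2 φ) :
    ∫ x, f x * qG F (dG S) φ x ∂(mu F) = - ∫ x, qG F (wedG (dF f) S) φ x ∂(mu F) := by
  have h1 : Int.I F (dG (fmul1 f S)) φ = 0 :=
    stokes_smooth hF (Smooth1.fmul hf hS) (fun _ _ hy => rep_dG (Smooth1.fmul hf hS) hy) hφ hcl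
  rw [dG_fmul1 hf hS, I_add_left hF (Smooth2.cont2 (Smooth2.wed (Smooth1.dF hf) hS))
    (Smooth2.cont2 (Smooth2.fmul hf (Smooth2.dG hS))) (Smooth2.cont2 hφ)] at h1
  have h2 : Int.I F (fmul f (dG S)) φ = ∫ x, f x * qG F (dG S) φ x ∂(mu F) := by
    unfold Int.I
    congr 1
    funext x
    rw [qG_fmul_left]
  rw [h2] at h1
  unfold Int.I at h1
  linarith

theorem stokes_zero {F : F2 E4 M} (hF : Vol F) {S : F1 E4 M}
    (hS : Smooth1 S) {φ : F2 E4 M} (hφ : Smooth2 φ) (hcl : Closed2 φ) :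
    Int.I F (dG S) φ = 0 :=
  stokes_smooth hF hS (fun _ _ hy => rep_dG hS hy) hφ hcl

/-- **(T3)** `∫ Φ ∧ φ = 2π ∫ c ∧ φ`. -/
theorem T3 {F : F2 E4 M} (hF : Vol F) (c : Z2 M) {a : F1 E4 M} (ha : Smooth1 a) {φ : F2 E4 M}
    (hφ : Smooth2 φ) (hcl : Closed2 φ) :
    Int.I F (PhiF c a) φ = 2 * Real.pi * Int.I F (c.1.1 : F2 E4 M) φ := by
  unfold PhiF
  rw [I_add_left hF (Smooth2.cont2 (Smooth2.smul _ c.1.2))
    (Smooth2.cont2 (Smooth2.smul _ (Smooth2.dG ha))) (Smooth2.cont2 hφ), I_smul_left, I_smul_left,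
    stokes_zero hF ha hφ hcl]
  ring

theorem hwI_self (X Y : ι → E4 →L[ℝ] ℝ) : hwI X Y X Y = (-2 : ℝ) • ∑ j, wed (X j) (Y j) := by
  unfold hwI
  rw [Finset.smul_sum]
  refine Finset.sum_congr rfl fun j _ => ?_
  ext u v
  simp only [_root_.sub_apply, wed_apply, _root_.smul_apply, smul_eq_mul]
  ring

/-- **(T1)** `∫ 2 ∑ X_j ∧ Y_j ∧ φ = ∫ |α|² Φ ∧ φ`. -/
theorem T1 {F : F2 E4 M} (hF : Vol F) (h : Ln p) {c : Z2 M} (hc : Ch0 p c) {a : F1 E4 M}
    (ha : Smooth1 a) {α : M → ι → ℂ} (hα : SmV α) (hpα : ∀ x, p x *ᵥ α x = α x)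
    {φ : F2 E4 M} (hφ : Smooth2 φ) (hcl : Closed2 φ) :
    ∫ x, q (at2 F x) ((2 : ℝ) • ∑ j, wed (nX p a α x j) (nY p a α x j)) (at2 φ x) ∂(mu F) =
      ∫ x, (hp (α x) (α x)).re * q (at2 F x) (Phi c a x) (at2 φ x) ∂(mu F) := by
  have h1 := stokes_zero hF (smooth_lim ha hα hα) hφ hcl
  have h2 : ∀ x, q (at2 F x) ((2 : ℝ) • ∑ j, wed (nX p a α x j) (nY p a α x j)) (at2 φ x) =
      (hp (α x) (α x)).re * q (at2 F x) (Phi c a x) (at2 φ x) + qG F (dG (lim a α α)) φ x := by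
    intro x
    unfold qG
    rw [dG_lim_B h hc ha hα hα hpα hpα, hwI_self]
    simp only [q_sub_left, q_smul_left]
    ring
  rw [show (fun x => q (at2 F x) ((2 : ℝ) • ∑ j, wed (nX p a α x j) (nY p a α x j)) (at2 φ x)) =
    fun x => (hp (α x) (α x)).re * q (at2 F x) (Phi c a x) (at2 φ x) +
      qG F (dG (lim a α α)) φ x from funext h2, integral_add]
  · have : ∫ x, qG F (dG (lim a α α)) φ x ∂(mu F) = 0 := h1
    rw [this, add_zero]
  · have h3 : Continuous fun x => (hp (α x) (α x)).re * qG F (PhiF c a) φ x :=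
      (SmoothF.cont (smC_hp hα hα).re).mul
        (continuous_qG hF (Smooth2.cont2 (smooth_PhiF c ha)) (Smooth2.cont2 hφ))
    have h4 := integrable_of_cont hF h3
    refine h4.congr (Filter.Eventually.of_forall fun x => ?_)
    unfold qG
    simp only [at2_PhiF]
  · exact integrable_qG hF (Smooth2.cont2 (Smooth2.dG (smooth_lim ha hα hα))) (Smooth2.cont2 hφ)

/-! #### second identity -/

theorem cont_f {f : M → ℝ} (hf : SmoothF E4 f) : Continuous f := SmoothF.cont hf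

theorem q_hwR {F : F2 E4 M} (h : Ln p) {c : Z2 M} (hc : Ch0 p c) {a : F1 E4 M}
    (ha : Smooth1 a) {α b : M → ι → ℂ} (hα : SmV α) (hb : SmV b)
    (hpα : ∀ x, p x *ᵥ α x = α x) (hpb : ∀ x, p x *ᵥ b x = b x) (φ : F2 E4 M) (x : M) :
    q (at2 F x) (hwR (nX p a α x) (nY p a α x) (nX p a b x) (nY p a b x)) (at2 φ x) =
      (hp (α x) (b x)).im * qG F (PhiF c a) φ x - qG F (dG (lre a α b)) φ x := by
  unfold qG
  rw [dG_lre_B h hc ha hα hb hpα hpb, at2_PhiF]
  simp only [q_sub_left, q_smul_left]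
  ring

theorem q_hwI {F : F2 E4 M} (h : Ln p) {c : Z2 M} (hc : Ch0 p c) {a : F1 E4 M}
    (ha : Smooth1 a) {α b : M → ι → ℂ} (hα : SmV α) (hb : SmV b)
    (hpα : ∀ x, p x *ᵥ α x = α x) (hpb : ∀ x, p x *ᵥ b x = b x) (φ : F2 E4 M) (x : M) :
    q (at2 F x) (hwI (nX p a α x) (nY p a α x) (nX p a b x) (nY p a b x)) (at2 φ x) =
      - (hp (α x) (b x)).re * qG F (PhiF c a) φ x - qG F (dG (lim a α b)) φ x := by
  unfold qG
  rw [dG_lim_B h hc ha hα hb hpα hpb, at2_PhiF]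
  simp only [q_sub_left, q_smul_left]
  ring

theorem cont_hwR {F : F2 E4 M} (hF : Vol F) (h : Ln p) {c : Z2 M} (hc : Ch0 p c)
    {a : F1 E4 M} (ha : Smooth1 a) {α b : M → ι → ℂ} (hα : SmV α) (hb : SmV b)
    (hpα : ∀ x, p x *ᵥ α x = α x) (hpb : ∀ x, p x *ᵥ b x = b x) {φ : F2 E4 M}
    (hφ : Smooth2 φ) :
    Continuous fun x => q (at2 F x)
      (hwR (nX p a α x) (nY p a α x) (nX p a b x) (nY p a b x)) (at2 φ x) := by
  simp only [q_hwR h hc ha hα hb hpα hpb]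
  exact ((cont_f (smC_hp hα hb).im).mul
    (continuous_qG hF (Smooth2.cont2 (smooth_PhiF c ha)) (Smooth2.cont2 hφ))).sub
    (continuous_qG hF (Smooth2.cont2 (Smooth2.dG (smooth_lre ha hα hb))) (Smooth2.cont2 hφ))

theorem cont_hwI {F : F2 E4 M} (hF : Vol F) (h : Ln p) {c : Z2 M} (hc : Ch0 p c)
    {a : F1 E4 M} (ha : Smooth1 a) {α b : M → ι → ℂ} (hα : SmV α) (hb : SmV b)
    (hpα : ∀ x, p x *ᵥ α x = α x) (hpb : ∀ x, p x *ᵥ b x = b x) {φ : F2 E4 M}
    (hφ : Smooth2 φ) :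
    Continuous fun x => q (at2 F x)
      (hwI (nX p a α x) (nY p a α x) (nX p a b x) (nY p a b x)) (at2 φ x) := by
  simp only [q_hwI h hc ha hα hb hpα hpb]
  exact ((cont_f (smC_hp hα hb).re).neg.mul
    (continuous_qG hF (Smooth2.cont2 (smooth_PhiF c ha)) (Smooth2.cont2 hφ))).sub
    (continuous_qG hF (Smooth2.cont2 (Smooth2.dG (smooth_lim ha hα hb))) (Smooth2.cont2 hφ))

theorem cont_Phi {F : F2 E4 M} (hF : Vol F) (c : Z2 M) {a : F1 E4 M} (ha : Smooth1 a)
    {φ : F2 E4 M} (hφ : Smooth2 φ) :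
    Continuous fun x => q (at2 F x) (Phi c a x) (at2 φ x) := by
  have h1 := continuous_qG hF (Smooth2.cont2 (smooth_PhiF c ha)) (Smooth2.cont2 hφ)
  unfold qG at h1
  simpa only [at2_PhiF] using h1

/-- **(T2)**, real part, one closed form `φ`. -/
theorem T2re {F : F2 E4 M} (hF : Vol F) (h : Ln p) {c : Z2 M} (hc : Ch0 p c) {a : F1 E4 M}
    (ha : Smooth1 a) {α b : M → ι → ℂ} (hα : SmV α) (hb : SmV b)
    (hpα : ∀ x, p x *ᵥ α x = α x) (hpb : ∀ x, p x *ᵥ b x = b x) {f : M → ℝ}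
    (hf : SmoothF E4 f) {φ : F2 E4 M} (hφ : Smooth2 φ) (hcl : Closed2 φ) :
    ∫ x, f x * q (at2 F x) (hwR (nX p a α x) (nY p a α x) (nX p a b x) (nY p a b x)) (at2 φ x)
        ∂(mu F) =
      ∫ x, (f x * (hp (α x) (b x)).im * q (at2 F x) (Phi c a x) (at2 φ x) +
        qG F (wedG (dF f) (lre a α b)) φ x) ∂(mu F) := by
  have h1 := stokes_fun hF hf (smooth_lre ha hα hb) hφ hcl
  have hs := smooth_lre (b := b) ha hα hb
  have i1 : Integrable (fun x => f x * (hp (α x) (b x)).im * q (at2 F x) (Phi c a x) (at2 φ x))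
      (mu F) := integrable_of_cont hF
    (((cont_f hf).mul (cont_f (smC_hp hα hb).im)).mul (cont_Phi hF c ha hφ))
  have i2 : Integrable (fun x => qG F (wedG (dF f) (lre a α b)) φ x) (mu F) :=
    integrable_qG hF (Smooth2.cont2 (Smooth2.wed (Smooth1.dF hf) hs)) (Smooth2.cont2 hφ)
  have i3 : Integrable (fun x => f x * qG F (dG (lre a α b)) φ x) (mu F) :=
    integrable_of_cont hF ((cont_f hf).mul
      (continuous_qG hF (Smooth2.cont2 (Smooth2.dG hs)) (Smooth2.cont2 hφ)))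
  have h2 : ∀ x, f x * q (at2 F x)
      (hwR (nX p a α x) (nY p a α x) (nX p a b x) (nY p a b x)) (at2 φ x) =
      f x * (hp (α x) (b x)).im * q (at2 F x) (Phi c a x) (at2 φ x) -
        f x * qG F (dG (lre a α b)) φ x := by
    intro x
    have e : qG F (PhiF c a) φ x = q (at2 F x) (Phi c a x) (at2 φ x) := by
      unfold qG; rw [at2_PhiF]
    rw [q_hwR h hc ha hα hb hpα hpb, e]; ring
  rw [integral_congr_ae (Filter.Eventually.of_forall h2), integral_sub i1 i3, h1,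
    integral_add i1 i2]
  ring

/-- **(T2)**, imaginary part, one closed form `φ`. -/
theorem T2im {F : F2 E4 M} (hF : Vol F) (h : Ln p) {c : Z2 M} (hc : Ch0 p c) {a : F1 E4 M}
    (ha : Smooth1 a) {α b : M → ι → ℂ} (hα : SmV α) (hb : SmV b)
    (hpα : ∀ x, p x *ᵥ α x = α x) (hpb : ∀ x, p x *ᵥ b x = b x) {f : M → ℝ}
    (hf : SmoothF E4 f) {φ : F2 E4 M} (hφ : Smooth2 φ) (hcl : Closed2 φ) :
    ∫ x, f x * q (at2 F x) (hwI (nX p a α x) (nY p a α x) (nX p a b x) (nY p a b x)) (at2 φ x)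
        ∂(mu F) =
      ∫ x, (-(f x * (hp (α x) (b x)).re * q (at2 F x) (Phi c a x) (at2 φ x)) +
        qG F (wedG (dF f) (lim a α b)) φ x) ∂(mu F) := by
  have h1 := stokes_fun hF hf (smooth_lim ha hα hb) hφ hcl
  have hs := smooth_lim (b := b) ha hα hb
  have i1 : Integrable (fun x => f x * (hp (α x) (b x)).re * q (at2 F x) (Phi c a x) (at2 φ x))
      (mu F) := integrable_of_cont hF
    (((cont_f hf).mul (cont_f (smC_hp hα hb).re)).mul (cont_Phi hF c ha hφ))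
  have i2 : Integrable (fun x => qG F (wedG (dF f) (lim a α b)) φ x) (mu F) :=
    integrable_qG hF (Smooth2.cont2 (Smooth2.wed (Smooth1.dF hf) hs)) (Smooth2.cont2 hφ)
  have i3 : Integrable (fun x => f x * qG F (dG (lim a α b)) φ x) (mu F) :=
    integrable_of_cont hF ((cont_f hf).mul
      (continuous_qG hF (Smooth2.cont2 (Smooth2.dG hs)) (Smooth2.cont2 hφ)))
  have h2 : ∀ x, f x * q (at2 F x)
      (hwI (nX p a α x) (nY p a α x) (nX p a b x) (nY p a b x)) (at2 φ x) =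
      -(f x * (hp (α x) (b x)).re * q (at2 F x) (Phi c a x) (at2 φ x)) -
        f x * qG F (dG (lim a α b)) φ x := by
    intro x
    have e : qG F (PhiF c a) φ x = q (at2 F x) (Phi c a x) (at2 φ x) := by
      unfold qG; rw [at2_PhiF]
    rw [q_hwI h hc ha hα hb hpα hpb, e]; ring
  have i1' : Integrable
      (fun x => -(f x * (hp (α x) (b x)).re * q (at2 F x) (Phi c a x) (at2 φ x))) (mu F) := i1.neg
  rw [integral_congr_ae (Filter.Eventually.of_forall h2), integral_sub i1' i3, h1,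
    integral_add i1' i2]
  ring

end Stokes

end

end Crest.Agent.R235.Tau483
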