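import Crest.Agent.R235.SWTau_53
import Crest.Agent.R235.TauC_483
import Crest.Agent.R235.IndTriB_451
import Crest.Agent.R235.RiemB_399
import Crest.Agent.R249.TofM_352

/-!
Row 235 (S0364), SW-TAU (helper483), INTERFACE of MODEL-5: the facts about a Seiberg-Witten system
`S` (`SWDefs_53.SWS`) from which `T1`, `T2`, `T3` of `SWTau_53` are proved.

* `TG S T cc W sT w e σ ι` : `S` is built from the positive triple `w` (orthonormalised `e`), the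
  symbol `cc`, the connection form `W` of `W⁺ ⊗ L`, the tight frame `sT` of `TM`;
* `TE τ S T cc C Z`        : the Dirac operator on the two eigenlines (451).
-/

set_option autoImplicit false
set_option maxSynthPendingDepth 3
set_option linter.unusedSectionVars false

open scoped ContDiff ENNReal NNReal Topology Manifold Bundle RealInnerProductSpace
open MeasureTheory Set Filter Metric Bundle

universe v

namespace Crest.Agent.R235.Tau483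

open Crest.Agent.R240 Crest.Agent.R240.Ch Crest.Agent.R235.SWDefs_53 Crest.Agent.R235.IndTri_451
open Crest.Agent.R249.Tv57 (Dat OpPair SmF Spec)
open Crest.Agent.R247.Ms322 (Gr)
open Crest.Agent.R249.Vf281 (VSm mCov)
open Crest.Agent.R249.Tz805 (ToF)

noncomputable section

/-- the vector field `∑ a_A s_A`. -/
def fld {M : Type v} [TopologicalSpace M] [ChartedSpace (EuclideanSpace ℝ (Fin 4)) M]
    {κT : Type} [Fintype κT] (sT : κT → (z : M) → TangentSpace (𝓡 4) z) (a : κT → M → ℝ)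
    (z : M) : TangentSpace (𝓡 4) z := ∑ A, a A z • sT A z

variable {M : Type v} [MetricSpace M] [CompactSpace M] [ConnectedSpace M]
  [ChartedSpace (EuclideanSpace ℝ (Fin 4)) M] [IsManifold (𝓡 4) ∞ M]
  [RiemannianBundle (fun p : M => TangentSpace (𝓡 4) p)]
  [IsContMDiffRiemannianBundle (𝓡 4) ∞ (EuclideanSpace ℝ (Fin 4))
    (fun p : M => TangentSpace (𝓡 4) p)]
  [IsRiemannianManifold (𝓡 4) M] [MeasurableSpace M] [BorelSpace M]
  [SecondCountableTopology M] [Nonempty M]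
  {κ0 κ1 κT : Type} [Fintype κ0] [Fintype κ1] [Fintype κT]

/-- the geometric facts. -/
structure TG (S : SWS M κ0 κ1 κT) (T : ToF 4 M)
    (cc : κ1 → κ0 → (z : M) → TangentSpace (𝓡 4) z)
    (W : κ0 → κ0 → (z : M) → TangentSpace (𝓡 4) z)
    (sT : κT → (z : M) → TangentSpace (𝓡 4) z) (w : Trip M) (e : Fin 3 → F2 E4 M)
    (σ ι : ℝ) : Prop where
  tri : IsTri (fun i => (w i).1.1) e
  met : ∀ (x : M) (u v : TangentSpace (𝓡 4) x), inner ℝ u v = at2 (gg e) x u v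
  X_eq : ∀ y y' z, S.D0.X y y' z = T.toF z (W y y' z)
  smW : ∀ y y' z, VSm 4 ∞ (W y y') z
  s_eq : ∀ A z, S.s A z = T.toF z (sT A z)
  smsT : ∀ A z, VSm 4 ∞ (sT A) z
  /-- `J² = -p` -/
  J2 : ∀ y y'' z, ∑ y', S.J y y' z * S.J y' y'' z = - S.D0.p y y'' z
  /-- `p J = J` -/
  pJ : ∀ y y'' z, ∑ y', S.D0.p y y' z * S.J y' y'' z = S.J y y'' z
  /-- `dJ + [X, J] = 0` -/
  parJ : ∀ y y' z, Gr (n := 4) (S.J y y') z +
    ∑ c, (S.J c y' z • S.D0.X y c z - S.J y c z • S.D0.X c y' z) = 0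
  /-- `J ρ = ρ J` -/
  Jrho : ∀ k y y'' z, ∑ y', S.J y y' z * S.rho k y' y'' z = ∑ y', S.rho k y y' z * S.J y' y'' z
  /-- `p ρ = ρ` -/
  prho : ∀ k y y'' z, ∑ y', S.D0.p y y' z * S.rho k y' y'' z = S.rho k y y'' z
  /-- `ρ_j ρ_k + ρ_k ρ_j = 2 δ p` -/
  rho2 : ∀ j k y y'' z, ∑ y', (S.rho j y y' z * S.rho k y' y'' z +
    S.rho k y y' z * S.rho j y' y'' z) = if j = k then 2 * S.D0.p y y'' z else 0
  /-- `ρ_j ρ_{j+1} = ι J ρ_{j+2}` -/
  rho3 : ∀ j y y'' z, ∑ y', S.rho j y y' z * S.rho (j + 1) y' y'' z =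
    ι * ∑ y', S.J y y' z * S.rho (j + 2) y' y'' z
  /-- real rank four -/
  tr : ∀ z, ∑ y, S.D0.p y y z = 4
  /-- Clifford relation -/
  clf : ∀ (z : M) (X Y : TangentSpace (𝓡 4) z) (y y' : κ0),
    ∑ x, inner ℝ (cc x y z) X * inner ℝ (cc x y' z) Y = inner ℝ X Y * S.D0.p y y' z +
      σ * ∑ k, at2 (e k) z X Y * ∑ y'', S.J y y'' z * S.rho k y'' y' z
  /-- `(B a)_{k+1} = 2 σ q(e_k, da)` -/
  HB : ∀ a : κT → M → ℝ, Crest.Agent.R249.Tv57.SmV (n := 4) a → S.DT.Sec a → ∀ (k : Fin 3) (z : M),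
    S.H.B a k.succ z = 2 * σ * qG (w 0).1.1 (e k) (dG (RiemB_399.flG (gg e) (fld sT a))) z
  /-- `DT` is the tangent bundle -/
  cvT : ∀ a : κT → M → ℝ, Crest.Agent.R249.Tv57.SmV (n := 4) a → S.DT.Sec a →
    ∀ (z : M) (u v : TangentSpace (𝓡 4) z),
    ∑ A, inner ℝ (S.DT.cv a A z) (T.toF z u) * inner ℝ (sT A z) v =
      inner ℝ (mCov 4 (fld sT a) z u) v

/-- projection of the covariant derivative of `s'` on the complement of `E`. -/
def nP (τ : TD M κT) (S : SWS M κ0 κ1 κT) (a : κT → M → ℝ) (s : κ0 → M → ℝ) (y : κ0) (z : M) :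
    EuclideanSpace ℝ (Fin 4) :=
  ∑ y', ((1 / 2) * (S.D0.p y y' z + ∑ k, τ.n k z * S.rho k y y' z)) • S.nab a s y' z

/-- the Dirac operator on the two eigenlines (451). -/
structure TE (τ : TD M κT) (S : SWS M κ0 κ1 κT) (T : ToF 4 M)
    (cc : κ1 → κ0 → (z : M) → TangentSpace (𝓡 4) z) (Z : κ1 → κ0 → M → ℝ) : Prop where
  smrr : ContMDiff (𝓡 4) 𝓘(ℝ, ℝ) ∞ τ.rr
  pos : ∀ z, 0 < τ.rr z
  smn : ∀ k, ContMDiff (𝓡 4) 𝓘(ℝ, ℝ) ∞ (τ.n k)
  norm : ∀ z, ∑ k, τ.n k z ^ 2 = 1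
  smsh : Crest.Agent.R249.Tv57.SmV (n := 4) τ.sh
  secsh : S.DT.Sec τ.sh
  cZ : ∀ x y, Continuous (Z x y)
  dir : ∀ (a : κT → M → ℝ) (s : κ0 → M → ℝ), Crest.Agent.R249.Tv57.SmV (n := 4) a →
    S.DT.Sec a → Crest.Agent.R249.Tv57.SmV (n := 4) s → τ.SecE S s → ∀ x z,
    (S.P.A (τ.sc (3 / 4) s) + S.cm a (τ.sc (3 / 4) s)) x z =
      τ.rr z ^ (3 / 4 : ℝ) * ∑ y, inner ℝ (τ.nE S a s y z) (T.toF z (cc x y z))
  dir' : ∀ (a : κT → M → ℝ) (s : κ0 → M → ℝ), Crest.Agent.R249.Tv57.SmV (n := 4) a →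
    S.DT.Sec a → Crest.Agent.R249.Tv57.SmV (n := 4) s → τ.SecE' S s → ∀ x z,
    (S.P.A (τ.sc (3 / 4) s) + S.cm a (τ.sc (3 / 4) s)) x z =
      τ.rr z ^ (3 / 4 : ℝ) * (∑ y, inner ℝ (nP τ S a s y z) (T.toF z (cc x y z)) +
        ∑ y, Z x y z * s y z)

end

end Crest.Agent.R235.Tau483
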