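import Crest.Agent.R235.SWModel_53
import Crest.Agent.R235.TauG_483
import Crest.Agent.R235.SwcGlob_34
import Crest.Agent.R235.SwcDefs2_215

/-!
Row 235 (S0364), PACKAGE SWC, NODE PROD (leader helper215): from Seiberg-Witten solutions with
`r → ∞` to the Taubes sequences `TSeq.OK` of helper34.  EXACT PROPS, no proofs.

Everything is done on SMOOTH approximations.

* `SolB`  : solutions with bounded harmonic part (the format of the output of FAM/SWEX);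
* `APX`   : smooth approximations of a solution (649);
* `Ene`, `TAUS` : the energy estimates on smooth approximate solutions (215);
* `Lnk`   : dictionary between the real sections and `(α, θ, Phi)` (483, 451);
* `SwcData` : everything the geometry has to deliver for one class.
-/

set_option autoImplicit false
set_option maxSynthPendingDepth 3
set_option linter.unusedSectionVars false

open scoped ContDiff ENNReal NNReal Topology Manifold Bundle RealInnerProductSpace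
open MeasureTheory Set Filter Metric Bundle

universe v

namespace Crest.Agent.R235.SwcProd_215

open Crest.Agent.R240 Crest.Agent.R240.Ch Crest.Agent.R235 Crest.Agent.R235.SWDefs_53
open Crest.Agent.R235.IndTri_451 Crest.Agent.R235.Tau483
open Crest.Agent.R249.Tv57 (Dat OpPair SmF SmV KerD)
open Crest.Agent.R249.Tz805 (ToF)

noncomputable section

/-- the `L²` product of vector valued functions -/
local notation "ipp" => Crest.Agent.R249.Tv57.ip 4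

variable {M : Type v} [MetricSpace M] [CompactSpace M] [ConnectedSpace M]
  [ChartedSpace (EuclideanSpace ℝ (Fin 4)) M] [IsManifold (𝓡 4) ∞ M]
  [RiemannianBundle (fun p : M => TangentSpace (𝓡 4) p)]
  [IsContMDiffRiemannianBundle (𝓡 4) ∞ (EuclideanSpace ℝ (Fin 4))
    (fun p : M => TangentSpace (𝓡 4) p)]
  [IsRiemannianManifold (𝓡 4) M] [MeasurableSpace M] [BorelSpace M]
  [SecondCountableTopology M] [Nonempty M]
  {κ0 κ1 κT : Type} [Fintype κ0] [Fintype κ1] [Fintype κT]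

/-- bounded solutions whose harmonic part is bounded by `Hb`. -/
structure SolB [IsFiniteMeasureOnCompacts (μHE[4] : Measure M)] (S : SWS M κ0 κ1 κT)
    (d : SWD M κT) (Hb : ℝ) (t : E3) (a : κT → M → ℝ) (u : κ0 → M → ℝ) : Prop where
  wa : InW S.DT a
  wu : InW S.D0 u
  bd : ∃ C : ℝ, ∀ᵐ z ∂(μHE[4] : Measure M), ∑ y, u y z ^ 2 ≤ C
  dir : WkA S.P u (fun x z => - S.cm (a + d.th t) u x z)
  cur : WkA S.H.swap a (rhs S d t u)
  har : ∀ w : κT → M → ℝ, SmV (n := 4) w → S.DT.Sec w → (∀ k z, S.H.B w k z = 0) →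
    |ipp a w| ≤ Hb * √(ipp w w)

/-- the error in the Dirac equation. -/
def fD (S : SWS M κ0 κ1 κT) (d : SWD M κT) (t : E3) (a : κT → M → ℝ) (u : κ0 → M → ℝ) :
    κ1 → M → ℝ := fun x z => S.P.A u x z + S.cm (a + d.th t) u x z

/-- the error in the curvature equation. -/
def gC (S : SWS M κ0 κ1 κT) (d : SWD M κT) (t : E3) (a : κT → M → ℝ) (u : κ0 → M → ℝ) :
    Fin 4 → M → ℝ := fun k z => S.H.B a k z - rhs S d t u k z

/-- **APX** (649): smooth approximations. -/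
def APX : Prop :=
  ∀ (M : Type v) [MetricSpace M] [CompactSpace M] [ConnectedSpace M]
    [ChartedSpace (EuclideanSpace ℝ (Fin 4)) M] [IsManifold (𝓡 4) ∞ M]
    [RiemannianBundle (fun p : M => TangentSpace (𝓡 4) p)]
    [IsContMDiffRiemannianBundle (𝓡 4) ∞ (EuclideanSpace ℝ (Fin 4))
      (fun p : M => TangentSpace (𝓡 4) p)]
    [IsRiemannianManifold (𝓡 4) M] [MeasurableSpace M] [BorelSpace M]
    [SecondCountableTopology M] [Nonempty M] [IsFiniteMeasureOnCompacts (μHE[4] : Measure M)]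
    (κ0 κ1 κT : Type) [Fintype κ0] [Fintype κ1] [Fintype κT]
    (S : SWS M κ0 κ1 κT) (d : SWD M κT) (τ : TD M κT) (C Hb : ℝ) (t : E3), S.OK → τ.OK S C →
    τ.Fit S d t → ∀ (a : κT → M → ℝ) (u : κ0 → M → ℝ), SolB S d Hb t a u →
    ∃ L : ℝ, ∀ ε : ℝ, 0 < ε → ∃ (a' : κT → M → ℝ) (u' : κ0 → M → ℝ),
      SmV (n := 4) a' ∧ S.DT.Sec a' ∧ SmV (n := 4) u' ∧ S.D0.Sec u' ∧
      (∫ z, ∑ A, (a' A z - a A z) ^ 2 ∂(μHE[4] : Measure M)) ≤ ε ∧
      (∫ z, ∑ y, (u' y z - u y z) ^ 2 ∂(μHE[4] : Measure M)) ≤ ε ∧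
      (∫ z, ∑ x, fD S d t a' u' x z ^ 2 ∂(μHE[4] : Measure M)) ≤ ε ∧
      (∫ z, ∑ k, gC S d t a' u' k z ^ 2 ∂(μHE[4] : Measure M)) ≤ ε ∧
      (∫ z, (∑ y, u' y z ^ 2) ^ 2 ∂(μHE[4] : Measure M)) ≤ L ∧
      (∫ z, ∑ y, ‖S.nab (a' + d.th t) u' y z‖ ^ 2 ∂(μHE[4] : Measure M)) ≤ L

/-- the `E`-component `ρ^{-3/4} Π₀ u`. -/
def cE (τ : TD M κT) (S : SWS M κ0 κ1 κT) (u : κ0 → M → ℝ) : κ0 → M → ℝ :=
  fun y z => τ.rr z ^ (-(3 / 4) : ℝ) * ((1 / 2) * (u y z - τ.R S u y z))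

/-- the component `ρ^{-3/4} Π₁ u`. -/
def cE' (τ : TD M κT) (S : SWS M κ0 κ1 κT) (u : κ0 → M → ℝ) : κ0 → M → ℝ :=
  fun y z => τ.rr z ^ (-(3 / 4) : ℝ) * ((1 / 2) * (u y z + τ.R S u y z))

/-- the energy estimates, for the connection form `b = a + th`. -/
structure Ene (S : SWS M κ0 κ1 κT) (τ : TD M κT) (r : ℝ) (b : κT → M → ℝ) (u : κ0 → M → ℝ)
    (K : ℝ) : Prop where
  e1 : ∫ z, ∑ y, ‖τ.nE S b (cE τ S u) y z‖ ^ 2 ∂(μHE[4] : Measure M) ≤ K * r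
  e2 : ∫ z, (2 * r - ∑ y, cE τ S u y z ^ 2) ^ 2 ∂(μHE[4] : Measure M) ≤ K * r
  e3 : r * ∫ z, ∑ y, cE' τ S u y z ^ 2 ∂(μHE[4] : Measure M) ≤ K
  e4 : ∫ z, ∑ y, ‖S.nab b (τ.sc (3 / 4) (cE' τ S u)) y z‖ ^ 2 ∂(μHE[4] : Measure M) ≤ K
  e5 : ∫ z, ∑ x, (S.P.A (τ.sc (3 / 4) (cE τ S u)) x z + S.cm b (τ.sc (3 / 4) (cE τ S u)) x z) ^ 2
    ∂(μHE[4] : Measure M) ≤ K
  e6 : ∫ z, (∑ y, cE τ S u y z ^ 2) * ∑ y, cE' τ S u y z ^ 2 ∂(μHE[4] : Measure M) ≤ K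

/-- **TAUS** (215): energy estimates of smooth approximate solutions, uniform in `τ`, `t`, `r`. -/
def TAUS : Prop :=
  ∀ (M : Type v) [MetricSpace M] [CompactSpace M] [ConnectedSpace M]
    [ChartedSpace (EuclideanSpace ℝ (Fin 4)) M] [IsManifold (𝓡 4) ∞ M]
    [RiemannianBundle (fun p : M => TangentSpace (𝓡 4) p)]
    [IsContMDiffRiemannianBundle (𝓡 4) ∞ (EuclideanSpace ℝ (Fin 4))
      (fun p : M => TangentSpace (𝓡 4) p)]
    [IsRiemannianManifold (𝓡 4) M] [MeasurableSpace M] [BorelSpace M]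
    [SecondCountableTopology M] [Nonempty M] [IsFiniteMeasureOnCompacts (μHE[4] : Measure M)]
    (κ0 κ1 κT : Type) [Fintype κ0] [Fintype κ1] [Fintype κT]
    (S : SWS M κ0 κ1 κT), S.OK → ∀ m0 m1 B0 C : ℝ, 0 < m0 → ∃ K r0 : ℝ, 0 < K ∧ 0 < r0 ∧
    ∀ (d : SWD M κT) (τ : TD M κT) (t : E3), τ.OK S C → τ.Fit S d t →
    (∀ z, m0 ≤ τ.rr z ∧ τ.rr z ≤ m1) → (∀ k z, |τ.fE k z| ≤ B0) → r0 ≤ d.r →
    ∀ L : ℝ, ∃ ε : ℝ, 0 < ε ∧ ∀ (a : κT → M → ℝ) (u : κ0 → M → ℝ),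
      SmV (n := 4) a → S.DT.Sec a → SmV (n := 4) u → S.D0.Sec u →
      (∫ z, ∑ x, fD S d t a u x z ^ 2 ∂(μHE[4] : Measure M)) ≤ ε →
      (∫ z, ∑ k, gC S d t a u k z ^ 2 ∂(μHE[4] : Measure M)) ≤ ε →
      (∫ z, (∑ y, u y z ^ 2) ^ 2 ∂(μHE[4] : Measure M)) ≤ L →
      Ene S τ d.r (a + d.th t) u K

/-- the complex form `(c - i J c)/√2` of a real vector at `x`. -/
def zv (S : SWS M κ0 κ1 κT) (x : M) (c : κ0 → ℝ) (y : κ0) : ℂ :=
  ((c y : ℂ) - Complex.I * ((∑ y', S.J y y' x * c y' : ℝ) : ℂ)) / ((√2 : ℝ) : ℂ)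

/-- the complex form of a real section. -/
def zet (S : SWS M κ0 κ1 κT) (s : κ0 → M → ℝ) (x : M) (y : κ0) : ℂ := zv S x (fun y => s y x) y

/-- `Π₀ = (p - R)/2`. -/
def pi0 (τ : TD M κT) (S : SWS M κ0 κ1 κT) (y y' : κ0) (x : M) : ℝ :=
  (1 / 2) * (S.D0.p y y' x - ∑ k, τ.n k x * S.rho k y y' x)

/-- `P_E = (Π₀ - i J Π₀)/2`, the rank one projection of `E`. -/
def PE (τ : TD M κT) (S : SWS M κ0 κ1 κT) (x : M) : Matrix κ0 κ0 ℂ := fun y y' =>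
  ((pi0 τ S y y' x : ℂ) - Complex.I * ((∑ c, S.J y c x * pi0 τ S c y' x : ℝ) : ℂ)) / 2

/-- `J_t = ∑ n_k I_k`. -/
def Jn (τ : TD M κT) (e : Fin 3 → F2 E4 M) (x : M) : E4 →L[ℝ] E4 :=
  ∑ k, τ.n k x • atJ (II e k) x

/-- the one-form `θ = - a^♭ - β` of `E`. -/
def thE (sT : κT → (z : M) → TangentSpace (𝓡 4) z) (e : Fin 3 → F2 E4 M) (β : F1 E4 M)
    (a : κT → M → ℝ) : F1 E4 M :=
  fun x => (- at1 (RiemB_399.flG (gg e) (fld sT a)) x - at1 β x : E4 →L[ℝ] ℝ)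

/-- **Lnk** (483, 451): dictionary at one parameter of norm one, with constant `K`. -/
structure Lnk (S : SWS M κ0 κ1 κT) (T : ToF 4 M)
    (cc : κ1 → κ0 → (z : M) → TangentSpace (𝓡 4) z)
    (sT : κT → (z : M) → TangentSpace (𝓡 4) z) (w : Trip M) (e : Fin 3 → F2 E4 M)
    (τ : TD M κT) (a0 : Z2 M) (β : F1 E4 M) (K : ℝ) : Prop where
  line : ∀ (N : ℕ) (ν : Fin N ≃ κ0), IsLine (fun x => (PE τ S x).submatrix ν ν)
  chern : ∀ (N : ℕ) (ν : Fin N ≃ κ0), IsChern (fun x => (PE τ S x).submatrix ν ν) a0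
  smβ : Smooth1 β
  bdβ : ∀ x v, (at1 β x v) ^ 2 ≤ K * at2 (gg e) x v v
  bda : ∀ x u v, (val a0 x u v) ^ 2 ≤ K * (at2 (gg e) x u u * at2 (gg e) x v v)
  /-- the connection of `E` in complex form: `P_E d ζ - i θ ζ = ζ(∇^E s)` -/
  con : ∀ (a : κT → M → ℝ) (s : κ0 → M → ℝ), SmV (n := 4) a → S.DT.Sec a → SmV (n := 4) s →
    τ.SecE S s → ∀ (x : M) (v : TangentSpace (𝓡 4) x) (y : κ0),
    (∑ y', PE τ S x y y' * fderiv ℝ (fun q : E4 => zet S s ((chartAt E4 x).symm q) y')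
        (chartAt E4 x x) v) - Complex.I * ((at1 (thE sT e β a) x v : ℝ) : ℂ) * zet S s x y =
      zv S x (fun y => inner ℝ (τ.nE S a s y x) (T.toF x v)) y
  /-- curvature: `2 Phi_k = (B a)_{k+1} + fE_k` -/
  cur : ∀ a : κT → M → ℝ, SmV (n := 4) a → S.DT.Sec a → ∀ (k : Fin 3) (x : M),
    2 * (2 * Real.pi * qG (w 0).1.1 (e k) (a0.1.1 : F2 E4 M) x +
      qG (w 0).1.1 (e k) (dG (thE sT e β a)) x) = S.H.B a k.succ x + τ.fE k x
  /-- symbol: for `η = (η_y)` with values in `E`, `|η + J η ∘ J_t|² ≤ K |c(η)|²` -/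
  dbar : ∀ (x : M) (η : κ0 → TangentSpace (𝓡 4) x),
    (∀ y, ∑ y', pi0 τ S y y' x • η y' = η y) →
    ∀ v : TangentSpace (𝓡 4) x, ∑ y, (inner ℝ (η y) v +
      ∑ y', S.J y y' x * inner ℝ (η y') (Jn τ e x v : TangentSpace (𝓡 4) x)) ^ 2 ≤
      K * inner ℝ v v * ∑ x', (∑ y, inner ℝ (η y) (cc x' y x)) ^ 2

/-- **everything the geometry delivers** for the class `c` (344, 453, 451, 483, 399, 755): like
`SWDefs_53.Fam` without `top`, `t3`, with the dictionary. -/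
structure SwcData (S : SWS M κ0 κ1 κT) (T : ToF 4 M)
    (cc : κ1 → κ0 → (z : M) → TangentSpace (𝓡 4) z)
    (W : κ0 → κ0 → (z : M) → TangentSpace (𝓡 4) z)
    (sT : κT → (z : M) → TangentSpace (𝓡 4) z) (w : Trip M) (e : Fin 3 → F2 E4 M) (ι : ℝ)
    (ww : Fin 3 → Fin 3 → M → ℝ) (τ : E3 → TD M κT) (C K : ℝ) (c : H2 M) : Prop where
  tg : TG S T cc W sT w e (-1) ι
  ok : S.OK
  smw : ∀ i k, ContMDiff (𝓡 4) 𝓘(ℝ, ℝ) ∞ (ww i k)
  ww_eq : ∀ i x, val (w i) x = ∑ k, ww i k x • at2 (e k) x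
  harm : ∀ i x z, S.H.A (Fin.cons (fun _ => 0) (ww i)) x z = 0
  rr : ∀ (t : E3) z, ‖t‖ = 1 → (τ t).rr z = √(∑ k, (∑ i, t i * ww i k z) ^ 2)
  nn : ∀ (t : E3) k z, ‖t‖ = 1 → (τ t).rr z * (τ t).n k z = ∑ i, t i * ww i k z
  tau : ∀ t : E3, ‖t‖ = 1 → (τ t).OK S C
  te : ∀ t : E3, ‖t‖ = 1 → ∃ Z, TE (τ t) S T cc Z
  bdE : ∀ (t : E3) k z, ‖t‖ = 1 → |(τ t).fE k z| ≤ K
  lnk : ∀ t : E3, ‖t‖ = 1 → ∃ (a0 : Z2 M) (β : F1 E4 M),
    Lnk S T cc sT w e (τ t) a0 β K ∧ cls a0 = c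

/-- **output format of SWEX** (307): solutions for all large `r`, with uniformly bounded harmonic
part. -/
def Sols [IsFiniteMeasureOnCompacts (μHE[4] : Measure M)] (S : SWS M κ0 κ1 κT)
    (τ : E3 → TD M κT) : Prop :=
  ∃ Hb r0 : ℝ, ∀ r : ℝ, r0 ≤ r → ∃ (t : E3) (d : SWD M κT) (a : κT → M → ℝ) (u : κ0 → M → ℝ),
    ‖t‖ = 1 ∧ (τ t).Fit S d t ∧ d.r = r ∧ (∀ A z, d.th t A z = 0) ∧ SolB S d Hb t a u

/-- **PROD** (215, 291): Taubes sequences from solutions. -/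
def PROD : Prop :=
  ∀ (M : Type v) [MetricSpace M] [CompactSpace M] [ConnectedSpace M]
    [ChartedSpace (EuclideanSpace ℝ (Fin 4)) M] [IsManifold (𝓡 4) ∞ M]
    [RiemannianBundle (fun p : M => TangentSpace (𝓡 4) p)]
    [IsContMDiffRiemannianBundle (𝓡 4) ∞ (EuclideanSpace ℝ (Fin 4))
      (fun p : M => TangentSpace (𝓡 4) p)]
    [IsRiemannianManifold (𝓡 4) M] [MeasurableSpace M] [BorelSpace M]
    [SecondCountableTopology M] [Nonempty M] [IsFiniteMeasureOnCompacts (μHE[4] : Measure M)]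
    (κ0 κ1 κT : Type) [Fintype κ0] [Fintype κ1] [Fintype κT]
    (S : SWS M κ0 κ1 κT) (T : ToF 4 M) (cc : κ1 → κ0 → (z : M) → TangentSpace (𝓡 4) z)
    (W : κ0 → κ0 → (z : M) → TangentSpace (𝓡 4) z)
    (sT : κT → (z : M) → TangentSpace (𝓡 4) z) (w : Trip M) (e : Fin 3 → F2 E4 M) (ι : ℝ)
    (ww : Fin 3 → Fin 3 → M → ℝ) (τ : E3 → TD M κT) (C K : ℝ) (c : H2 M), Pos3 w →
    SwcData S T cc W sT w e ι ww τ C K c → Sols S τ →
    ∃ (t : E3) (D : Crest.Agent.R240.Dat M) (N : ℕ) (Q : SwcGlob_34.TSeq M N) (U : Filter ℕ)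
      (lam C' : ℝ), ‖t‖ = 1 ∧ Uu_291.JT w (fun i => t i) D.J ∧
      D.al = ((Uu_291.wt w (fun i => t i)).1.1 : F2 E4 M) ∧
      D.F = ((Uu_291.wt w (fun i => t i)).1.1 : F2 E4 M) ∧
      U.NeBot ∧ Q.OK D U lam C' ∧ cls (Q.a0 0) = c

/-- **MODX** (344, 453, 451, 483, 399, 755, 307): the Seiberg-Witten model of the class `c` over the
metric of the triple, with its solutions. -/
def MODX : Prop :=
  ∀ (M : Type v) [MetricSpace M] [CompactSpace M] [ConnectedSpace M]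
    [ChartedSpace (EuclideanSpace ℝ (Fin 4)) M] [IsManifold (𝓡 4) ∞ M]
    [RiemannianBundle (fun p : M => TangentSpace (𝓡 4) p)]
    [IsContMDiffRiemannianBundle (𝓡 4) ∞ (EuclideanSpace ℝ (Fin 4))
      (fun p : M => TangentSpace (𝓡 4) p)]
    [IsRiemannianManifold (𝓡 4) M] [MeasurableSpace M] [BorelSpace M]
    [SecondCountableTopology M] [Nonempty M] [IsFiniteMeasureOnCompacts (μHE[4] : Measure M)]
    (w : Trip M) (e : Fin 3 → F2 E4 M), Pos3 w → T4R (w 0) → IsTri (fun i => (w i).1.1) e →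
    (∀ (x : M) (u v : TangentSpace (𝓡 4) x), inner ℝ u v = at2 (gg e) x u v) →
    ∀ c ∈ HZ M, ip (w 0) c c = 0 → c ≠ 0 →
    ∃ (κ0 κ1 κT : Type) (_ : Fintype κ0) (_ : Fintype κ1) (_ : Fintype κT)
      (S : SWS M κ0 κ1 κT) (T : ToF 4 M) (cc : κ1 → κ0 → (z : M) → TangentSpace (𝓡 4) z)
      (W : κ0 → κ0 → (z : M) → TangentSpace (𝓡 4) z)
      (sT : κT → (z : M) → TangentSpace (𝓡 4) z) (ι : ℝ)
      (ww : Fin 3 → Fin 3 → M → ℝ) (τ : E3 → TD M κT) (C K : ℝ),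
      SwcData S T cc W sT w e ι ww τ C K c ∧ Sols S τ

end

end Crest.Agent.R235.SwcProd_215
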