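import Crest.Agent.R235.Apx_649
import Crest.Agent.R235.SwcProd_215
import Crest.Agent.R235.Sob4_984

/-!
Row 235 (S0364), SWC, PROD node (e) (helper649): `apx : SwcProd_215.APX`.
-/

set_option autoImplicit false
set_option maxSynthPendingDepth 3
set_option linter.unusedSectionVars false

open scoped ContDiff ENNReal NNReal Topology Manifold Bundle RealInnerProductSpace
open MeasureTheory Set Filter Metric Bundle

universe v

namespace Crest.Agent.R235.Apx2_649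

open Crest.Agent.R249.Tv57 Crest.Agent.R247.Ms322 Crest.Agent.R247.Dir593
open Crest.Agent.R247.Frd657 Crest.Agent.R202.Sp
open Crest.Agent.R235.Fs4_546 Crest.Agent.R235.Fred_649 Crest.Agent.R235.SwcD_649
open Crest.Agent.R235.Cpt_755 Crest.Agent.R235.L4_433 Crest.Agent.R235.SWDefs_53
open Crest.Agent.R235.Apx_649

noncomputable section

/-! ### abstract -/

section abs

variable {W V G : Type*} [NormedAddCommGroup W] [NormedAddCommGroup V] [NormedAddCommGroup G]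

theorem exists_near {A B : Type*} {cA : A → W} {cU : B → V} (hA : DenseRange cA)
    (hU : DenseRange cU) {w : W} {v : V} {P : W × V → Prop} (h : ∀ᶠ q in 𝓝 (w, v), P q) :
    ∃ a u, P (cA a, cU u) := by
  obtain ⟨s, hs, ho, hm⟩ := _root_.eventually_nhds_iff.1 h
  obtain ⟨q, hq⟩ := (hA.prodMap hU).exists_mem_open ho ⟨_, hm⟩
  exact ⟨q.1, q.2, hs _ hq⟩

theorem ev_lt {f : W × V → G} (hf : Continuous f) {w : W} {v : V} {b : ℝ}
    (hb : ‖f (w, v)‖ ^ 2 < b) : ∀ᶠ q in 𝓝 (w, v), ‖f q‖ ^ 2 < b :=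
  ((hf.norm.pow 2).tendsto (w, v)).eventually_lt_const hb

theorem cont1 {f : W → G} (hf : Continuous f) : Continuous fun q : W × V => f q.1 :=
  hf.comp continuous_fst

theorem cont2 {f : V → G} (hf : Continuous f) : Continuous fun q : W × V => f q.2 :=
  hf.comp continuous_snd

theorem cont_sub_const {f : W → G} (hf : Continuous f) (g : G) : Continuous fun w => f w - g :=
  hf.sub continuous_const

theorem cont_sub2 {f : W → G} (hf : Continuous f) {g : V → G} (hg : Continuous g) (c : G) :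
    Continuous fun q : W × V => f q.1 - g q.2 - c :=
  ((hf.comp continuous_fst).sub (hg.comp continuous_snd)).sub continuous_const

end abs

set_option maxHeartbeats 1000000 in
/-- **APX** -/
theorem apx : SwcProd_215.APX.{v} := by
  intro M _ _ _ _ _ _ _ _ _ _ _ _ _ κ0 κ1 κT _ _ _ S d τ C Hb t hS hτ hF a u hsol
  have hA := Sob4_984.emb4_Dat S.DT
  have hU := Sob4_984.emb4_Dat S.D0
  obtain ⟨α, hα⟩ := hsol.wa
  obtain ⟨U, hUu⟩ := hsol.wu
  have ha : ∀ᵐ x ∂(μHE[4] : Measure M), ∀ b, (S.DT.toAD.i1 α b : M → ℝ) x = a b x :=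
    ae_all_iff.2 hα
  have hu : ∀ᵐ x ∂(μHE[4] : Measure M), ∀ b, (S.D0.toAD.i1 U b : M → ℝ) x = u b x :=
    ae_all_iff.2 hUu
  set tt : SmS S.DT := ⟨d.th t, hF.smth, hF.secth⟩ with htt
  set ϑ : S.DT.toAD.WE := cW S.DT tt with hϑ
  have ht : ∀ᵐ x ∂(μHE[4] : Measure M), ∀ b, (S.DT.toAD.i1 ϑ b : M → ℝ) x = d.th t b x :=
    coe_cW tt
  have hmu : BM (μHE[4] : Measure M) (d.mu t) := by
    have h0 : d.mu t = fun z => τ.rr z ^ (-(1 / 2) : ℝ) := funext hF.mu
    rw [h0]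
    exact bm_cont (hτ.smrr.continuous.rpow_const fun z => Or.inl (hτ.pos z).ne')
  -- the curvature equation
  have hcur : ∀ᵐ x ∂(μHE[4] : Measure M), ∀ k,
      (((Ah S.H.swap α : S.DL.toAD.HE) : HH (μHE[4] : Measure M) (Fin 4)) k : M → ℝ) x =
        rhs S d t u k x := ae_all_iff.2 ((wkA_iff (P := S.H.swap) hα).1 hsol.cur)
  set cst : Fin 4 → M → ℝ :=
    Fin.cons (fun _ => 0) (fun k z => d.r * d.wt t k z + d.et t k z) with hcst
  have hrhs : ∀ (v : κ0 → M → ℝ) (k : Fin 4) (z : M), rhs S d t v k z =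
      (Fin.cons (fun _ => 0) fun k z => d.mu t z * ((1 / 2) * S.rq k v z) : Fin 4 → M → ℝ) k z +
        cst k z := by
    intro v k z
    rw [hcst]
    unfold rhs
    refine Fin.cases ?_ (fun k => ?_) k
    · simp only [Fin.cons_zero, add_zero]
    · simp only [Fin.cons_succ]
      ring
  set C0 : HH (μHE[4] : Measure M) (Fin 4) :=
    ((Ah S.H.swap α : S.DL.toAD.HE) : HH (μHE[4] : Measure M) (Fin 4)) - Fq hS hU hmu U with hC0
  have hC0e : ∀ᵐ x ∂(μHE[4] : Measure M), ∀ k, (C0 k : M → ℝ) x = cst k x := by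
    filter_upwards [Apx_649.coe_sub ((Ah S.H.swap α : S.DL.toAD.HE) : HH (μHE[4] : Measure M) (Fin 4))
      (Fq hS hU hmu U), hcur, coe_Fq hS hU hmu hu] with x e1 e2 e3 k
    have e4 : (C0 k : M → ℝ) x = _ := e1 k
    rw [e4, e2 k, e3 k, hrhs, add_sub_cancel_left]
  -- the Dirac equation
  have hdir : ∀ᵐ x ∂(μHE[4] : Measure M), ∀ b,
      (((Ah S.P U : S.D1.toAD.HE) : HH (μHE[4] : Measure M) κ1) b : M → ℝ) x =
        - S.cm (a + d.th t) u b x := ae_all_iff.2 ((wkA_iff hUu).1 hsol.dir)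
  have hFd0 : ‖Fd hS hA hU ϑ α U‖ ^ 2 = 0 := by
    have h1 := norm_rep (coe_Fd hS hA hU ha ht hu hdir)
    rw [← h1]
    simp
  have hFc0 : ‖((Ah S.H.swap α : S.DL.toAD.HE) : HH (μHE[4] : Measure M) (Fin 4)) -
      Fq hS hU hmu U - C0‖ ^ 2 = 0 := by
    rw [hC0, sub_self, norm_zero]
    norm_num
  refine ⟨‖F4 hU U‖ ^ 2 + ‖Fn hS hA hU ϑ α U‖ ^ 2 + 1, fun ε hε => ?_⟩
  have hp4 : 0 ≤ ‖F4 hU U‖ ^ 2 := sq_nonneg _
  have hpn : 0 ≤ ‖Fn hS hA hU ϑ α U‖ ^ 2 := sq_nonneg _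
  have E1 := ev_lt (continuous_Fd hS hA hU ϑ) (w := α) (v := U) (b := ε) (by rw [hFd0]; exact hε)
  have E2 := ev_lt (cont_sub2 (S.DL.toAD.HE.subtypeL.comp (Ah S.H.swap)).continuous
    (continuous_Fq hS hU hmu) C0) (w := α) (v := U) (b := ε) (by
      have h1 : ((S.DL.toAD.HE.subtypeL.comp (Ah S.H.swap)) α : HH (μHE[4] : Measure M) (Fin 4)) =
        ((Ah S.H.swap α : S.DL.toAD.HE) : HH (μHE[4] : Measure M) (Fin 4)) := rfl
      rw [h1, hFc0]
      exact hε)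
  have E3 := ev_lt (cont1 (V := S.D0.toAD.WE) (cont_sub_const S.DT.toAD.i1.continuous
    (S.DT.toAD.i1 α))) (w := α) (v := U) (b := ε) (by
      rw [sub_self, norm_zero]
      norm_num
      exact hε)
  have E4 := ev_lt (cont2 (W := S.DT.toAD.WE) (cont_sub_const S.D0.toAD.i1.continuous
    (S.D0.toAD.i1 U))) (w := α) (v := U) (b := ε) (by
      rw [sub_self, norm_zero]
      norm_num
      exact hε)
  have E5 := ev_lt (cont2 (W := S.DT.toAD.WE) (continuous_F4 hU)) (w := α) (v := U)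
    (b := ‖F4 hU U‖ ^ 2 + ‖Fn hS hA hU ϑ α U‖ ^ 2 + 1) (by linarith)
  have E6 := ev_lt (continuous_Fn hS hA hU ϑ) (w := α) (v := U)
    (b := ‖F4 hU U‖ ^ 2 + ‖Fn hS hA hU ϑ α U‖ ^ 2 + 1) (by linarith)
  obtain ⟨a', u', G1, G2, G3, G4, G5, G6⟩ := exists_near (dns4 S.DT) (dns4 S.D0)
    (E1.and (E2.and (E3.and (E4.and (E5.and E6)))))
  have ha' := coe_cW a'
  have hu' := coe_cW u'
  refine ⟨a'.1, u'.1, a'.2.1, a'.2.2, u'.2.1, u'.2.2, ?_, ?_, ?_, ?_, ?_, ?_⟩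
  · refine le_trans (le_of_eq ?_) G3.le
    refine norm_rep ?_
    filter_upwards [Apx_649.coe_sub (S.DT.toAD.i1 (cW S.DT a')) (S.DT.toAD.i1 α), ha', ha]
      with x e1 e2 e3 b
    have e4 := e1 b
    rw [e2 b, e3 b] at e4
    exact e4
  · refine le_trans (le_of_eq ?_) G4.le
    refine norm_rep ?_
    filter_upwards [Apx_649.coe_sub (S.D0.toAD.i1 (cW S.D0 u')) (S.D0.toAD.i1 U), hu', hu]
      with x e1 e2 e3 b
    have e4 := e1 b
    rw [e2 b, e3 b] at e4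
    exact e4
  · refine le_trans (le_of_eq ?_) G1.le
    exact norm_rep (coe_Fd hS hA hU ha' ht hu' (coe_Ah S.P u'))
  · refine le_trans (le_of_eq ?_) G2.le
    refine norm_rep ?_
    filter_upwards [Apx_649.coe_sub (((Ah S.H.swap (cW S.DT a') : S.DL.toAD.HE) :
        HH (μHE[4] : Measure M) (Fin 4)) - Fq hS hU hmu (cW S.D0 u')) C0,
      Apx_649.coe_sub ((Ah S.H.swap (cW S.DT a') : S.DL.toAD.HE) : HH (μHE[4] : Measure M) (Fin 4))
        (Fq hS hU hmu (cW S.D0 u')), coe_Ah S.H.swap a', coe_Fq hS hU hmu hu', hC0e]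
      with x e1 e2 e3 e4 e5 k
    have e6 := e1 k
    rw [e2 k, e3 k, e4 k, e5 k] at e6
    refine e6.trans ?_
    unfold SwcProd_215.gC
    rw [hrhs]
    have e7 : S.H.swap.A a'.1 k x = S.H.B a'.1 k x := rfl
    rw [e7]
    ring
  · exact (le_of_eq (norm_F4 hU hu')).trans G5.le
  · refine le_trans (le_of_eq ?_) G6.le
    exact norm_repF (coe_Fn hS hA hU ha' ht hu' (coe_c1 u'))

end

end Crest.Agent.R235.Apx2_649
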