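import Crest.Agent.R235.SWDefs_53

/-!
Row 235 (S0364), PACKAGE SW (helper53): TAUBES DATA at a parameter `t` of norm one, and the output
Props `TAUX` (energy inequality => the spinor is parallel) and `TAUF` (=> `∫ F ∧ F = 0`).

`w_t = ρ n`, `|n| = 1`; `R = ∑ n_k ρ_k`, `R² = 1`; `Π₀ = (p - R)/2` projects on `E = ℓ ⊗ L`,
`∇^E s = Π₀ ∇_a s + i sh ⊗ s`, `A_a (ρ^{3/4} s) = ρ^{3/4} c(∇^E s)`.
`B`-components of the self-dual curvature of `E`: `(B a)_{k+1} + fE_k`.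
-/

set_option autoImplicit false
set_option maxSynthPendingDepth 3
set_option linter.unusedSectionVars false

open scoped ContDiff ENNReal NNReal Topology Manifold Bundle RealInnerProductSpace
open MeasureTheory Set Filter Metric Bundle

universe v

namespace Crest.Agent.R235.SWDefs_53

open Crest.Agent.R249.Tv57 Crest.Agent.R247.Ms322 Crest.Agent.R247.Dir593

noncomputable section

local notation "ipp" => Crest.Agent.R249.Tv57.ip 4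

variable {M : Type v} [MetricSpace M] [CompactSpace M] [ConnectedSpace M]
  [ChartedSpace (EuclideanSpace ℝ (Fin 4)) M] [IsManifold (𝓡 4) ∞ M]
  [RiemannianBundle (fun p : M => TangentSpace (𝓡 4) p)]
  [IsContMDiffRiemannianBundle (𝓡 4) ∞ (EuclideanSpace ℝ (Fin 4))
    (fun p : M => TangentSpace (𝓡 4) p)]
  [IsRiemannianManifold (𝓡 4) M] [MeasurableSpace M] [BorelSpace M]
  [SecondCountableTopology M] [Nonempty M]
  {κ0 κ1 κT : Type} [Fintype κ0] [Fintype κ1] [Fintype κT]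

/-- Taubes data at a parameter of norm one. -/
structure TD (M : Type v) (κT : Type) where
  /-- `ρ` -/
  rr : M → ℝ
  n : Fin 3 → M → ℝ
  /-- shift of the connection of `ℓ` -/
  sh : κT → M → ℝ
  /-- self-dual curvature of `E` for `a = 0` -/
  fE : Fin 3 → M → ℝ

/-- `R = ∑ n_k ρ_k` applied to `u`. -/
def TD.R (τ : TD M κT) (S : SWS M κ0 κ1 κT) (u : κ0 → M → ℝ) : κ0 → M → ℝ :=
  fun y z => ∑ k, ∑ y', τ.n k z * S.rho k y y' z * u y' z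

/-- sections of `E = ℓ ⊗ L`: `p s = s`, `R s = - s`. -/
def TD.SecE (τ : TD M κT) (S : SWS M κ0 κ1 κT) (s : κ0 → M → ℝ) : Prop :=
  S.D0.Sec s ∧ ∀ y z, τ.R S s y z = - s y z

/-- sections of the orthogonal complement of `E`: `p s = s`, `R s = s`. -/
def TD.SecE' (τ : TD M κT) (S : SWS M κ0 κ1 κT) (s : κ0 → M → ℝ) : Prop :=
  S.D0.Sec s ∧ ∀ y z, τ.R S s y z = s y z

/-- the connection of `E`, from the values `G y z` of `∇_a s` and `s`. -/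
def TD.prE (τ : TD M κT) (S : SWS M κ0 κ1 κT) (G : κ0 → M → EuclideanSpace ℝ (Fin 4))
    (s : κ0 → M → ℝ) (y : κ0) (z : M) : EuclideanSpace ℝ (Fin 4) :=
  (∑ y', ((1 / 2) * (S.D0.p y y' z - ∑ k, τ.n k z * S.rho k y y' z)) • G y' z) +
    (∑ y', S.J y y' z * s y' z) • ∑ A, τ.sh A z • S.s A z

/-- `∇^E s` for the connection form `a`. -/
def TD.nE (τ : TD M κT) (S : SWS M κ0 κ1 κT) (a : κT → M → ℝ) (s : κ0 → M → ℝ) :
    κ0 → M → EuclideanSpace ℝ (Fin 4) :=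
  τ.prE S (S.nab a s) s

/-- `f ^ p • s`. -/
def TD.sc (τ : TD M κT) (p : ℝ) (s : κ0 → M → ℝ) : κ0 → M → ℝ := fun y z => τ.rr z ^ p * s y z

/-- the properties of Taubes data, with constant `C`. -/
structure TD.OK (τ : TD M κT) (S : SWS M κ0 κ1 κT) (C : ℝ) : Prop where
  smrr : ContMDiff (𝓡 4) 𝓘(ℝ, ℝ) ∞ τ.rr
  pos : ∀ z, 0 < τ.rr z
  smn : ∀ k, ContMDiff (𝓡 4) 𝓘(ℝ, ℝ) ∞ (τ.n k)
  smsh : SmV (n := 4) τ.sh
  secsh : S.DT.Sec τ.sh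
  smfE : ∀ k, ContMDiff (𝓡 4) 𝓘(ℝ, ℝ) ∞ (τ.fE k)
  norm : ∀ z, ∑ k, τ.n k z ^ 2 = 1
  rsec : ∀ k y y'' z, ∑ y', S.D0.p y y' z * S.rho k y' y'' z = S.rho k y y'' z
  invol : ∀ y y'' z, ∑ y', (∑ k, τ.n k z * S.rho k y y' z) * (∑ k, τ.n k z * S.rho k y' y'' z) =
    S.D0.p y y'' z
  harm : ∀ x z, S.H.A (Fin.cons (fun _ => 0) fun k z => τ.rr z * τ.n k z) x z = 0
  /-- first Stokes identity (`d w_t = 0`) -/
  T1 : ∀ (a : κT → M → ℝ) (s : κ0 → M → ℝ), SmV (n := 4) a → S.DT.Sec a → SmV (n := 4) s →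
    τ.SecE S s →
    ∫ z, τ.rr z ^ (-(1 / 2) : ℝ) * ∑ x, ((S.P.A (τ.sc (3 / 4) s) + S.cm a (τ.sc (3 / 4) s)) x z) ^ 2
      ∂(μHE[4] : Measure M) =
    ∫ z, (τ.rr z * (∑ y, ‖τ.nE S a s y z‖ ^ 2) -
      τ.rr z * (∑ k, (S.H.B a k.succ z + τ.fE k z) * τ.n k z) * ∑ y, s y z ^ 2)
      ∂(μHE[4] : Measure M)
  /-- second identity -/
  T2 : ∀ (a : κT → M → ℝ) (s s' : κ0 → M → ℝ), SmV (n := 4) a → S.DT.Sec a → SmV (n := 4) s →
    SmV (n := 4) s' → τ.SecE S s → τ.SecE' S s' →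
    |∫ z, (τ.rr z ^ (-(1 / 2) : ℝ) *
        (∑ x, (S.P.A (τ.sc (3 / 4) s) + S.cm a (τ.sc (3 / 4) s)) x z *
          (S.P.A (τ.sc (3 / 4) s') + S.cm a (τ.sc (3 / 4) s')) x z) -
        τ.rr z * ∑ k, (S.H.B a k.succ z + τ.fE k z) * ∑ y, ∑ y', S.rho k y y' z * s y z * s' y' z)
      ∂(μHE[4] : Measure M)| ≤
    C * ∫ z, √(∑ y, ‖τ.nE S a s y z‖ ^ 2) * √(∑ y, s' y z ^ 2) ∂(μHE[4] : Measure M)

/-- the data `d` at `t` are given by the Taubes data. -/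
structure TD.Fit (τ : TD M κT) (S : SWS M κ0 κ1 κT) (d : SWD M κT) (t : E3) : Prop where
  mu : ∀ z, d.mu t z = τ.rr z ^ (-(1 / 2) : ℝ)
  wt : ∀ k z, d.wt t k z = τ.rr z * τ.n k z
  et : ∀ k z, d.et t k z = - (τ.fE k z + S.H.B (d.th t) k.succ z)
  smth : SmV (n := 4) (d.th t)
  secth : S.DT.Sec (d.th t)

/-- conclusion of the energy inequality: `u = ρ^{3/4} s`, `s` a section of `E` of constant norm,
`∇^E s = 0`. -/
structure TD.Par [IsFiniteMeasureOnCompacts (μHE[4] : Measure M)] (τ : TD M κT)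
    (S : SWS M κ0 κ1 κT) (d : SWD M κT) (t : E3) (a : κT → M → ℝ) (u : κ0 → M → ℝ)
    (w : S.D0.toAD.WE) : Prop where
  rep : ∀ᵐ z ∂(μHE[4] : Measure M), ∀ y,
    (S.D0.toAD.i1 w y : M → ℝ) z = τ.rr z ^ (-(3 / 4) : ℝ) * u y z
  nrm : ∀ᵐ z ∂(μHE[4] : Measure M), ∑ y, (S.D0.toAD.i1 w y : M → ℝ) z ^ 2 = 2 * d.r
  sec : ∀ᵐ z ∂(μHE[4] : Measure M), ∀ y,
    ∑ k, ∑ y', τ.n k z * S.rho k y y' z * (S.D0.toAD.i1 w y' : M → ℝ) z =
      - (S.D0.toAD.i1 w y : M → ℝ) z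
  par : ∀ᵐ z ∂(μHE[4] : Measure M), ∀ y,
    τ.prE S (fun y z => (S.D0.toAD.c1 w y : M → EuclideanSpace ℝ (Fin 4)) z +
        (∑ y', S.J y y' z * (S.D0.toAD.i1 w y' : M → ℝ) z) •
          ∑ A, (a A z + d.th t A z) • S.s A z)
      (fun y z => (S.D0.toAD.i1 w y : M → ℝ) z) y z = 0

/-- **TAUX**: the energy inequality. -/
def TAUX : Prop :=
  ∀ (M : Type v) [MetricSpace M] [CompactSpace M] [ConnectedSpace M]
    [ChartedSpace (EuclideanSpace ℝ (Fin 4)) M] [IsManifold (𝓡 4) ∞ M]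
    [RiemannianBundle (fun p : M => TangentSpace (𝓡 4) p)]
    [IsContMDiffRiemannianBundle (𝓡 4) ∞ (EuclideanSpace ℝ (Fin 4))
      (fun p : M => TangentSpace (𝓡 4) p)]
    [IsRiemannianManifold (𝓡 4) M] [MeasurableSpace M] [BorelSpace M]
    [SecondCountableTopology M] [Nonempty M] [IsFiniteMeasureOnCompacts (μHE[4] : Measure M)]
    (κ0 κ1 κT : Type) [Fintype κ0] [Fintype κ1] [Fintype κT]
    (S : SWS M κ0 κ1 κT) (d : SWD M κT) (τ : TD M κT) (C : ℝ) (t : E3), S.OK → τ.OK S C →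
    τ.Fit S d t → 0 < d.r → (∀ z, C ^ 2 ≤ d.r * τ.rr z ^ 3) →
    ∫ z, ∑ k, τ.rr z * τ.n k z * τ.fE k z ∂(μHE[4] : Measure M) ≤ 0 →
    ∀ (a : κT → M → ℝ) (u : κ0 → M → ℝ), Sol S d t a u →
    ∃ w : S.D0.toAD.WE, τ.Par S d t a u w

/-- third identity, for a closed two-form `F` (the curvature of `E` for `a = 0`): `fF = F ∧ F`,
`∑ ⟪(∇ a)_A, g_A⟫ = da ∧ F`. -/
structure TD.T3 (τ : TD M κT) (S : SWS M κ0 κ1 κT) (C : ℝ) (fF : M → ℝ)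
    (g : κT → M → EuclideanSpace ℝ (Fin 4)) : Prop where
  smf : ContMDiff (𝓡 4) 𝓘(ℝ, ℝ) ∞ fF
  smg : ∀ A, SmF (g A)
  ex : ∀ a : κT → M → ℝ, SmV (n := 4) a → S.DT.Sec a →
    ∫ z, ∑ A, ⟪S.DT.cv a A z, g A z⟫ ∂(μHE[4] : Measure M) = 0
  st : ∀ (a : κT → M → ℝ) (s : κ0 → M → ℝ), SmV (n := 4) a → S.DT.Sec a → SmV (n := 4) s →
    τ.SecE S s →
    |∫ z, (∑ y, s y z ^ 2) * (fF z + ∑ A, ⟪S.DT.cv a A z, g A z⟫) ∂(μHE[4] : Measure M)| ≤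
      C * ∫ z, ∑ y, ‖τ.nE S a s y z‖ ^ 2 ∂(μHE[4] : Measure M)

/-- **TAUF**: a parallel section forces `∫ F ∧ F = 0`. -/
def TAUF : Prop :=
  ∀ (M : Type v) [MetricSpace M] [CompactSpace M] [ConnectedSpace M]
    [ChartedSpace (EuclideanSpace ℝ (Fin 4)) M] [IsManifold (𝓡 4) ∞ M]
    [RiemannianBundle (fun p : M => TangentSpace (𝓡 4) p)]
    [IsContMDiffRiemannianBundle (𝓡 4) ∞ (EuclideanSpace ℝ (Fin 4))
      (fun p : M => TangentSpace (𝓡 4) p)]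
    [IsRiemannianManifold (𝓡 4) M] [MeasurableSpace M] [BorelSpace M]
    [SecondCountableTopology M] [Nonempty M] [IsFiniteMeasureOnCompacts (μHE[4] : Measure M)]
    (κ0 κ1 κT : Type) [Fintype κ0] [Fintype κ1] [Fintype κT]
    (S : SWS M κ0 κ1 κT) (d : SWD M κT) (τ : TD M κT) (C C' : ℝ) (t : E3)
    (fF : M → ℝ) (g : κT → M → EuclideanSpace ℝ (Fin 4)), S.OK → τ.OK S C → τ.T3 S C' fF g →
    τ.Fit S d t → 0 < d.r → ∀ (a : κT → M → ℝ) (u : κ0 → M → ℝ), InW S.DT a →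
    ∀ w : S.D0.toAD.WE, τ.Par S d t a u w → ∫ z, fF z ∂(μHE[4] : Measure M) = 0

end

end Crest.Agent.R235.SWDefs_53
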