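import Crest.Agent.R235.Fred_649

/-!
Row 235 (S0364), SWC, PROD node (d) (helper649): coercivity and compactness of `Ah P` on the
orthogonal complement of the kernel.

* `exists_coer` : `‖u‖_{W^{1,2}} ≤ C ‖Ah P u‖` for `u ⊥ ker`;
* `tail`        : `‖u‖² ≤ ∑_{k<N} ⟨u, φ_k⟩² + Λ⁻¹ ‖Ah P u‖²` if `μ_k ≥ Λ` for `k ≥ N`;
* `tendsto_zero`: `u_n ⊥ ker`, `‖Ah P u_n‖ ≤ K`, `Ah P u_n → 0` against smooth sections
                  ==> `u_n → 0` in `L²`;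
* `coer_sw`, `tendsto_sw` : the same for the curvature equation, in the language of `SWDefs_53`.
-/

set_option autoImplicit false
set_option maxSynthPendingDepth 3
set_option linter.unusedSectionVars false

open scoped ContDiff ENNReal NNReal Topology Manifold Bundle RealInnerProductSpace
open MeasureTheory Set Filter Metric Bundle

namespace Crest.Agent.R235.SwcD_649

open Crest.Agent.R249.Tv57 Crest.Agent.R247.Ms322 Crest.Agent.R247.Dir593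
open Crest.Agent.R247.Frd657 Crest.Agent.R202.Sp
open Crest.Agent.R235.Fs4_546 Crest.Agent.R235.Fred_649

noncomputable section

variable {n : ℕ} {M : Type*} [MetricSpace M] [ChartedSpace (EuclideanSpace ℝ (Fin n)) M]
  [IsManifold (𝓡 n) ∞ M]
  [RiemannianBundle (fun p : M => TangentSpace (𝓡 n) p)]
  [IsContMDiffRiemannianBundle (𝓡 n) ∞ (EuclideanSpace ℝ (Fin n)) (fun p : M => TangentSpace (𝓡 n) p)]
  [IsRiemannianManifold (𝓡 n) M] [MeasurableSpace M] [BorelSpace M]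
  [SecondCountableTopology M] [Nonempty M]
  [CompactSpace M] [IsFiniteMeasureOnCompacts (μHE[n] : Measure M)]
variable {κ κ' : Type} [Fintype κ] [Fintype κ'] {D0 : Dat n M κ} {D1 : Dat n M κ'}

/-- **(d1)** coercivity on the complement of the kernel. -/
theorem exists_coer {P : OpPair D0 D1} (hd0 : Dns D0) (hd1 : Dns D1) (S0 : Spec D0)
    (S1 : Spec D1) : ∃ C : ℝ, 0 < C ∧ ∀ u : D0.toAD.WE,
      (∀ k ∈ S0.ker, (⟪D0.toAD.jj u, cH D0 (ph S0 k)⟫ : ℝ) = 0) → ‖u‖ ≤ C * ‖Ah P u‖ := by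
  refine ⟨‖Go P S1‖ + 1, by positivity, fun u hu => ?_⟩
  have h1 := ((Ah_orth_iff (P := P) hd0 hd1 S0 S1 (u := u) (f := Ah P u)).1 ⟨rfl, hu⟩).1
  calc ‖u‖ = ‖Go P S1 (Ah P u)‖ := by rw [← h1]
    _ ≤ ‖Go P S1‖ * ‖Ah P u‖ := ContinuousLinearMap.le_opNorm _ _
    _ ≤ (‖Go P S1‖ + 1) * ‖Ah P u‖ := by
      have := norm_nonneg (Ah P u)
      nlinarith

/-- Bessel's inequality for the energy. -/
theorem bessel_en {P : OpPair D0 D1} (hd0 : Dns D0) (S0 : Spec D0) (u : D0.toAD.WE)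
    (s : Finset ℕ) :
    ∑ k ∈ s, S0.μ k * (⟪D0.toAD.jj u, cH D0 (ph S0 k)⟫ : ℝ) ^ 2 ≤ ‖Ah P u‖ ^ 2 := by
  classical
  set c : ℕ → ℝ := fun k => ⟪D0.toAD.jj u, cH D0 (ph S0 k)⟫ with hc
  set v : D0.toAD.WE := ∑ k ∈ s, c k • cW D0 (ph S0 k) with hv
  have e1 : Ah P v = ∑ k ∈ s, c k • Ah P (cW D0 (ph S0 k)) := by
    rw [hv, map_sum]
    exact Finset.sum_congr rfl fun k _ => map_smul _ _ _
  have e2 : (⟪Ah P v, Ah P u⟫ : ℝ) = ∑ k ∈ s, S0.μ k * c k ^ 2 := by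
    rw [e1, sum_inner]
    refine Finset.sum_congr rfl fun k _ => ?_
    rw [real_inner_smul_left, Ah_eig S0 hd0, real_inner_comm, jj_cW]
    simp only [hc]
    ring
  have e3 : (⟪Ah P v, Ah P v⟫ : ℝ) = ∑ k ∈ s, S0.μ k * c k ^ 2 := by
    conv_lhs => rw [e1]
    rw [sum_inner]
    refine Finset.sum_congr rfl fun k hk => ?_
    rw [real_inner_smul_left, inner_sum]
    have e4 : ∀ l ∈ s, (⟪Ah P (cW D0 (ph S0 k)), c l • Ah P (cW D0 (ph S0 l))⟫ : ℝ) =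
        if k = l then c k * S0.μ k else 0 := by
      intro l _
      rw [real_inner_smul_right, Ah_ortho S0 hd0]
      split_ifs with h
      · rw [h]
      · rw [mul_zero]
    rw [Finset.sum_congr rfl e4, Finset.sum_ite_eq, if_pos hk]
    ring
  have h1 : 0 ≤ ‖Ah P u - Ah P v‖ ^ 2 := sq_nonneg _
  rw [norm_sub_sq_real, real_inner_comm, e2, ← real_inner_self_eq_norm_sq (Ah P v), e3] at h1
  linarith

/-- **the tail estimate** -/
theorem tail {P : OpPair D0 D1} (hd0 : Dns D0) (S0 : Spec D0) {Λ : ℝ} (hΛ : 0 < Λ) {N : ℕ}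
    (hN : ∀ k, N ≤ k → Λ ≤ S0.μ k) (u : D0.toAD.WE) :
    ‖D0.toAD.jj u‖ ^ 2 ≤ ∑ k ∈ Finset.range N, (⟪D0.toAD.jj u, cH D0 (ph S0 k)⟫ : ℝ) ^ 2 +
      Λ⁻¹ * ‖Ah P u‖ ^ 2 := by
  classical
  have h1 := hasSum_HE S0 (D0.toAD.jj u)
  refine le_of_tendsto' h1 fun s => ?_
  rw [← Finset.sum_filter_add_sum_filter_not s (fun k => k < N)]
  refine add_le_add ?_ ?_
  · refine Finset.sum_le_sum_of_subset_of_nonneg (fun k hk => ?_) fun _ _ _ => sq_nonneg _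
    exact Finset.mem_range.2 (Finset.mem_filter.1 hk).2
  · have h2 := bessel_en (P := P) hd0 S0 u (s.filter fun k => ¬ k < N)
    have h3 : ∑ k ∈ s.filter (fun k => ¬ k < N),
        (⟪D0.toAD.jj u, cH D0 (ph S0 k)⟫ : ℝ) ^ 2 ≤
        ∑ k ∈ s.filter (fun k => ¬ k < N),
          Λ⁻¹ * (S0.μ k * (⟪D0.toAD.jj u, cH D0 (ph S0 k)⟫ : ℝ) ^ 2) := by
      refine Finset.sum_le_sum fun k hk => ?_
      have h4 := hN k (not_lt.1 (Finset.mem_filter.1 hk).2)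
      rw [← mul_assoc]
      have h5 : 1 ≤ Λ⁻¹ * S0.μ k := by
        rw [inv_mul_eq_div, one_le_div hΛ]
        exact h4
      nlinarith [sq_nonneg (⟪D0.toAD.jj u, cH D0 (ph S0 k)⟫ : ℝ)]
    rw [← Finset.mul_sum] at h3
    exact h3.trans (mul_le_mul_of_nonneg_left h2 (inv_nonneg.2 hΛ.le))

/-- **(d2)** -/
theorem tendsto_zero {P : OpPair D0 D1} (hd0 : Dns D0) (S0 : Spec D0)
    {ι : Type*} {l : Filter ι} {u : ι → D0.toAD.WE}
    (ho : ∀ i, ∀ k ∈ S0.ker, (⟪D0.toAD.jj (u i), cH D0 (ph S0 k)⟫ : ℝ) = 0)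
    {K : ℝ} (hK : ∀ i, ‖Ah P (u i)‖ ≤ K)
    (hw : ∀ w : SmS D1, Tendsto (fun i => (⟪Ah P (u i), cH D1 w⟫ : ℝ)) l (𝓝 0)) :
    Tendsto (fun i => ‖D0.toAD.jj (u i)‖ ^ 2) l (𝓝 0) := by
  classical
  have hc : ∀ k, Tendsto (fun i => (⟪D0.toAD.jj (u i), cH D0 (ph S0 k)⟫ : ℝ) ^ 2) l (𝓝 0) := by
    intro k
    by_cases hk : S0.μ k = 0
    · have : (fun i => (⟪D0.toAD.jj (u i), cH D0 (ph S0 k)⟫ : ℝ) ^ 2) = fun _ => 0 := by
        funext i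
        rw [ho i k (S0.mem_ker.2 hk)]
        norm_num
      rw [this]
      exact tendsto_const_nhds
    · have h1 : (fun i => (⟪D0.toAD.jj (u i), cH D0 (ph S0 k)⟫ : ℝ) ^ 2) = fun i =>
          ((S0.μ k)⁻¹ * (⟪Ah P (u i), cH D1 (lA P (ph S0 k))⟫ : ℝ)) ^ 2 := by
        funext i
        have h2 := Ah_eig (P := P) S0 hd0 k (u i)
        rw [Ah_cW hd0, jj_cW] at h2
        rw [real_inner_comm (cH D1 (lA P (ph S0 k))), h2, ← mul_assoc, inv_mul_cancel₀ hk, one_mul,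
          real_inner_comm]
      rw [h1]
      have h3 := ((hw (lA P (ph S0 k))).const_mul (S0.μ k)⁻¹).pow 2
      simpa using h3
  have hnn : ∀ i, 0 ≤ ‖D0.toAD.jj (u i)‖ ^ 2 := fun i => sq_nonneg _
  rw [Metric.tendsto_nhds]
  intro ε hε
  obtain ⟨N, hN⟩ := eventually_atTop.1 (S0.lim.eventually_ge_atTop (2 * (K ^ 2 + 1) / ε))
  have hΛ : 0 < 2 * (K ^ 2 + 1) / ε := by positivity
  have h1 : Tendsto (fun i => ∑ k ∈ Finset.range N,
      (⟪D0.toAD.jj (u i), cH D0 (ph S0 k)⟫ : ℝ) ^ 2) l (𝓝 0) := by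
    have := tendsto_finsetSum (Finset.range N) fun k _ => hc k
    simpa using this
  have h2 : ∀ᶠ i in l, ∑ k ∈ Finset.range N,
      (⟪D0.toAD.jj (u i), cH D0 (ph S0 k)⟫ : ℝ) ^ 2 < ε / 2 := h1.eventually_lt_const (by positivity)
  filter_upwards [h2] with i hi
  rw [Real.dist_eq, sub_zero, abs_of_nonneg (hnn i)]
  have h3 := tail (P := P) hd0 S0 hΛ hN (u i)
  have h4 : (2 * (K ^ 2 + 1) / ε)⁻¹ * ‖Ah P (u i)‖ ^ 2 ≤ ε / 2 := by
    have h5 : ‖Ah P (u i)‖ ^ 2 ≤ K ^ 2 + 1 := by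
      have := pow_le_pow_left₀ (norm_nonneg _) (hK i) 2
      linarith
    rw [inv_div, div_mul_eq_mul_div, div_le_div_iff₀ (by positivity) (by norm_num)]
    nlinarith
  linarith

/-- the norm of a class from a representative. -/
theorem norm_rep {F : HH (μHE[n] : Measure M) κ} {f : κ → M → ℝ}
    (hf : ∀ᵐ x ∂(μHE[n] : Measure M), ∀ a, (F a : M → ℝ) x = f a x) :
    ∫ x, ∑ a, f a x ^ 2 ∂(μHE[n] : Measure M) = ‖F‖ ^ 2 := by
  rw [← real_inner_self_eq_norm_sq, inner_HH F F hf hf]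
  exact integral_congr_ae (Eventually.of_forall fun x =>
    Finset.sum_congr rfl fun a _ => by ring)

end

/-! ### in the language of `SWDefs_53` -/

noncomputable section

open Crest.Agent.R235.SWDefs_53

variable {M : Type*} [MetricSpace M] [CompactSpace M] [ConnectedSpace M]
  [ChartedSpace (EuclideanSpace ℝ (Fin 4)) M] [IsManifold (𝓡 4) ∞ M]
  [RiemannianBundle (fun p : M => TangentSpace (𝓡 4) p)]
  [IsContMDiffRiemannianBundle (𝓡 4) ∞ (EuclideanSpace ℝ (Fin 4))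
    (fun p : M => TangentSpace (𝓡 4) p)]
  [IsRiemannianManifold (𝓡 4) M] [MeasurableSpace M] [BorelSpace M]
  [SecondCountableTopology M] [Nonempty M] [IsFiniteMeasureOnCompacts (μHE[4] : Measure M)]
  {κ κ' : Type} [Fintype κ] [Fintype κ'] {D0 : Dat 4 M κ} {D1 : Dat 4 M κ'}

/-- orthogonality to the kernel of the pair, in terms of functions. -/
def Orth (P : OpPair D0 D1) (u : κ → M → ℝ) : Prop :=
  ∀ w : κ → M → ℝ, SmV (n := 4) w → D0.Sec w → (∀ k z, P.A w k z = 0) →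
    Crest.Agent.R249.Tv57.ip 4 u w = 0

theorem ae_of {U : D0.toAD.WE} {u : κ → M → ℝ} (hU : ∀ a, rp U a =ᵐ[(μHE[4] : Measure M)] u a) :
    ∀ᵐ x ∂(μHE[4] : Measure M), ∀ a, (D0.toAD.i1 U a : M → ℝ) x = u a x := by
  rw [ae_all_iff]
  exact hU

theorem ae_of' {F : HH (μHE[4] : Measure M) κ} {f : κ → M → ℝ}
    (hF : ∀ a, (F a : M → ℝ) =ᵐ[(μHE[4] : Measure M)] f a) :
    ∀ᵐ x ∂(μHE[4] : Measure M), ∀ a, (F a : M → ℝ) x = f a x := by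
  rw [ae_all_iff]
  exact hF

/-- **(d1)** `∫ |u|² ≤ C ∫ |A u|²` for `u ⊥ ker A`, and the `W^{1,2}` norm. -/
theorem coer_fn {P : OpPair D0 D1} (S0 : Spec D0) (S1 : Spec D1) :
    ∃ C : ℝ, 0 < C ∧ ∀ (U : D0.toAD.WE) (u : κ → M → ℝ) (f : κ' → M → ℝ),
      (∀ a, rp U a =ᵐ[(μHE[4] : Measure M)] u a) → WkA P u f → Orth P u →
      ‖U‖ ^ 2 ≤ C * ∫ x, ∑ b, f b x ^ 2 ∂(μHE[4] : Measure M) ∧
      ∫ x, ∑ a, u a x ^ 2 ∂(μHE[4] : Measure M) ≤ ‖U‖ ^ 2 := by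
  obtain ⟨C, hC, h⟩ := exists_coer (P := P) (dns4 D0) (dns4 D1) S0 S1
  refine ⟨C ^ 2, by positivity, fun U u f hU hf ho => ?_⟩
  have h1 := h U ((orth_ker_iff P S0 hU).1 ho)
  have h2 := (wkA_iff hU).1 hf
  have h3 := norm_rep (ae_of' h2)
  have h4 := norm_rep (ae_of hU)
  refine ⟨?_, ?_⟩
  · rw [h3]
    have h5 := pow_le_pow_left₀ (norm_nonneg _) h1 2
    rw [mul_pow] at h5
    exact h5
  · rw [h4]
    have h6 : ‖U‖ ^ 2 = ‖(U : D0.toAD.Amb).fst‖ ^ 2 + ‖(U : D0.toAD.Amb).snd‖ ^ 2 :=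
      D0.toAD.norm_sq_eq (U : D0.toAD.Amb)
    have h7 : ‖D0.toAD.i1 U‖ ^ 2 = ‖(U : D0.toAD.Amb).fst‖ ^ 2 := rfl
    rw [h6, h7]
    exact le_add_of_nonneg_right (sq_nonneg _)

/-- **(d2)** compactness. -/
theorem tendsto_fn {P : OpPair D0 D1} (S0 : Spec D0) {ι : Type*} {l : Filter ι}
    {u : ι → κ → M → ℝ} {f : ι → κ' → M → ℝ} (hu : ∀ i, InW D0 (u i))
    (hf : ∀ i, WkA P (u i) (f i)) (ho : ∀ i, Orth P (u i)) {K : ℝ}
    (hK : ∀ i, ∫ x, ∑ b, f i b x ^ 2 ∂(μHE[4] : Measure M) ≤ K)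
    (hw : ∀ w : κ' → M → ℝ, SmV (n := 4) w → D1.Sec w →
      Tendsto (fun i => Crest.Agent.R249.Tv57.ip 4 (f i) w) l (𝓝 0)) :
    Tendsto (fun i => ∫ x, ∑ a, u i a x ^ 2 ∂(μHE[4] : Measure M)) l (𝓝 0) := by
  choose U hU using hu
  have e1 : ∀ i, ∀ b, (((Ah P (U i) : D1.toAD.HE) : HH (μHE[4] : Measure M) κ') b : M → ℝ)
      =ᵐ[(μHE[4] : Measure M)] f i b := fun i => (wkA_iff (hU i)).1 (hf i)
  have e2 : ∀ i, ‖Ah P (U i)‖ ^ 2 = ∫ x, ∑ b, f i b x ^ 2 ∂(μHE[4] : Measure M) := fun i =>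
    (norm_rep (ae_of' (e1 i))).symm
  have h1 := tendsto_zero (P := P) (dns4 D0) S0 (l := l) (u := U)
    (fun i => (orth_ker_iff P S0 (hU i)).1 (ho i)) (K := √K) (fun i => by
      have h2 := hK i
      rw [← e2] at h2
      rw [← Real.sqrt_sq (norm_nonneg (Ah P (U i)))]
      exact Real.sqrt_le_sqrt h2) (fun w => by
      refine (hw w.1 w.2.1 w.2.2).congr fun i => ?_
      exact (inner_rep (F := ((Ah P (U i) : D1.toAD.HE) : HH (μHE[4] : Measure M) κ'))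
        (ae_of' (e1 i)) w).symm)
  refine h1.congr fun i => ?_
  exact (norm_rep (ae_of (hU i))).symm

variable {κ0 κ1 κT : Type} [Fintype κ0] [Fintype κ1] [Fintype κT]

/-- **(d1)** for the curvature equation. -/
theorem coer_sw (S : SWS M κ0 κ1 κT) (S0 : Spec S.DL) (S1 : Spec S.DT) :
    ∃ C : ℝ, 0 < C ∧ ∀ (A : S.DT.toAD.WE) (a : κT → M → ℝ) (f : Fin 4 → M → ℝ),
      (∀ b, rp A b =ᵐ[(μHE[4] : Measure M)] a b) → WkA S.H.swap a f → NoHarm S a →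
      ‖A‖ ^ 2 ≤ C * ∫ x, ∑ b, f b x ^ 2 ∂(μHE[4] : Measure M) ∧
      ∫ x, ∑ b, a b x ^ 2 ∂(μHE[4] : Measure M) ≤ ‖A‖ ^ 2 :=
  coer_fn (P := S.H.swap) S1 S0

/-- **(d2)** for the curvature equation. -/
theorem tendsto_sw (S : SWS M κ0 κ1 κT) (S1 : Spec S.DT) {ι : Type*} {l : Filter ι}
    {a : ι → κT → M → ℝ} {f : ι → Fin 4 → M → ℝ} (ha : ∀ i, InW S.DT (a i))
    (hf : ∀ i, WkA S.H.swap (a i) (f i)) (ho : ∀ i, NoHarm S (a i)) {K : ℝ}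
    (hK : ∀ i, ∫ x, ∑ b, f i b x ^ 2 ∂(μHE[4] : Measure M) ≤ K)
    (hw : ∀ w : Fin 4 → M → ℝ, SmV (n := 4) w → S.DL.Sec w →
      Tendsto (fun i => Crest.Agent.R249.Tv57.ip 4 (f i) w) l (𝓝 0)) :
    Tendsto (fun i => ∫ x, ∑ b, a i b x ^ 2 ∂(μHE[4] : Measure M)) l (𝓝 0) :=
  tendsto_fn (P := S.H.swap) S1 ha hf ho hK hw

end

end Crest.Agent.R235.SwcD_649
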