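import Crest.Agent.R235.L4_433
import Crest.Agent.R235.SwcD_649
import Crest.Agent.R235.SWTau_53

/-!
Row 235 (S0364), SWC, PROD node (e) APX (helper649): smooth approximation of solutions of the
Seiberg-Witten system, such that the equations hold up to `ε` in `L²`.

* `Fd α U = A U + c(α + ϑ) i U`, `Fc α U = B α - rhs U`, `Fn α U = ∇ U + i (α + ϑ) U` are continuous
  maps from `W^{1,2} × W^{1,2}` to `L²` (`nab4` of `L4_433`, Sobolev embedding `Emb4`);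
* `apx` : the approximation.
-/

set_option autoImplicit false
set_option maxSynthPendingDepth 3
set_option linter.unusedSectionVars false

open scoped ContDiff ENNReal NNReal Topology Manifold Bundle RealInnerProductSpace
open MeasureTheory Set Filter Metric Bundle

universe v

namespace Crest.Agent.R235.Apx_649

open Crest.Agent.R249.Tv57 Crest.Agent.R247.Ms322 Crest.Agent.R247.Dir593
open Crest.Agent.R247.Frd657 Crest.Agent.R202.Sp
open Crest.Agent.R235.Fs4_546 Crest.Agent.R235.Fred_649 Crest.Agent.R235.SwcD_649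
open Crest.Agent.R235.Cpt_755 Crest.Agent.R235.L4_433 Crest.Agent.R235.SWDefs_53

noncomputable section

/-! ### norms from representatives -/

section gen

variable {X : Type*} [MeasurableSpace X] {μ : Measure X} {κ : Type} [Fintype κ]
  {F : Type*} [NormedAddCommGroup F] [InnerProductSpace ℝ F]

theorem norm_repF {G : GG F μ κ} {g : κ → X → F} (hg : ∀ᵐ x ∂μ, ∀ a, (G a : X → F) x = g a x) :
    ∫ x, ∑ a, ‖g a x‖ ^ 2 ∂μ = ‖G‖ ^ 2 := by
  have h1 : ‖G‖ ^ 2 = ∑ a, ‖G a‖ ^ 2 := PiLp.norm_sq_eq_of_L2 _ _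
  have h2 : ∀ a, ‖G a‖ ^ 2 = ∫ x, ‖(G a : X → F) x‖ ^ 2 ∂μ := by
    intro a
    rw [← real_inner_self_eq_norm_sq, L2.inner_def]
    exact integral_congr_ae (Eventually.of_forall fun x => real_inner_self_eq_norm_sq _)
  have h3 : ∀ a, Integrable (fun x => ‖(G a : X → F) x‖ ^ 2) μ := fun a =>
    (memLp_two_iff_integrable_sq_norm (Lp.aestronglyMeasurable _)).1 (Lp.memLp _)
  rw [h1]
  simp only [h2]
  rw [← integral_finsetSum _ fun a _ => h3 a]
  refine integral_congr_ae ?_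
  filter_upwards [hg] with x hx
  exact Finset.sum_congr rfl fun a _ => by rw [hx a]


theorem cont_shift {W V Z : Type*} [NormedAddCommGroup W] [NormedAddCommGroup V]
    [TopologicalSpace Z] {f : W → V → Z} (h : Continuous fun q : W × V => f q.1 q.2) (w : W) :
    Continuous fun q : W × V => f (q.1 + w) q.2 :=
  h.comp ((continuous_fst.add continuous_const).prodMk continuous_snd)

theorem cont_diag {W Z : Type*} [NormedAddCommGroup W]
    [TopologicalSpace Z] {f : W → W → Z} (h : Continuous fun q : W × W => f q.1 q.2) :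
    Continuous fun w : W => f w w :=
  h.comp (continuous_id.prodMk continuous_id)

end gen

variable {M : Type v} [MetricSpace M] [CompactSpace M] [ConnectedSpace M]
  [ChartedSpace (EuclideanSpace ℝ (Fin 4)) M] [IsManifold (𝓡 4) ∞ M]
  [RiemannianBundle (fun p : M => TangentSpace (𝓡 4) p)]
  [IsContMDiffRiemannianBundle (𝓡 4) ∞ (EuclideanSpace ℝ (Fin 4))
    (fun p : M => TangentSpace (𝓡 4) p)]
  [IsRiemannianManifold (𝓡 4) M] [MeasurableSpace M] [BorelSpace M]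
  [SecondCountableTopology M] [Nonempty M] [IsFiniteMeasureOnCompacts (μHE[4] : Measure M)]

/-- a continuous function on the compact manifold is bounded and measurable -/
theorem bm_cont {f : M → ℝ} (hf : Continuous f) : BM (μHE[4] : Measure M) f := by
  refine ⟨hf.aestronglyMeasurable, ?_⟩
  obtain ⟨C, hC⟩ := isCompact_univ.exists_bound_of_continuousOn hf.continuousOn
  exact ⟨max C 0, le_max_right _ _, Eventually.of_forall fun z => (hC z (mem_univ z)).trans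
    (le_max_left _ _)⟩

section smooth
variable {κ κ' : Type} [Fintype κ] [Fintype κ'] {D0 : Dat 4 M κ} {D1 : Dat 4 M κ'}

theorem coe_cW (u : SmS D0) : ∀ᵐ x ∂(μHE[4] : Measure M), ∀ a,
    (D0.toAD.i1 (cW D0 u) a : M → ℝ) x = u.1 a x := coe_clH u.1 u.2.1

theorem coe_Ah (P : OpPair D0 D1) (u : SmS D0) : ∀ᵐ x ∂(μHE[4] : Measure M), ∀ b,
    (((Ah P (cW D0 u) : D1.toAD.HE) : HH (μHE[4] : Measure M) κ') b : M → ℝ) x = P.A u.1 b x := by
  rw [Ah_cW (dns4 D0)]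
  exact coe_clH (lA P u).1 (lA P u).2.1

theorem coe_c1 (u : SmS D0) : ∀ᵐ x ∂(μHE[4] : Measure M), ∀ a,
    (D0.toAD.c1 (cW D0 u) a : M → EuclideanSpace ℝ (Fin 4)) x = D0.cv u.1 a x :=
  Dens_433.coe_c1_secW D0 u.2.1 u.2.2

end smooth

/-! ### the maps -/

variable {κ0 κ1 κT : Type} [Fintype κ0] [Fintype κ1] [Fintype κT]
variable {S : SWS M κ0 κ1 κT}

section maps

variable (hS : S.OK) (hA : Emb4 S.DT.toAD.i1) (hU : Emb4 S.D0.toAD.i1)

include hS in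
theorem bmcl (A : κT) (x : κ1) (y : κ0) : BM (μHE[4] : Measure M) (S.cl A x y) :=
  bm_smooth (hS.smcl A x y)

include hS in
theorem bmJs (A : κT) (y y' : κ0) :
    BM (μHE[4] : Measure M) (fun z => S.J y y' z • S.s A z) :=
  (SmF.smul (hS.smJ y y') (hS.sms A)).bm

/-- coefficients of the quadratic map -/
def qc (S : SWS M κ0 κ1 κT) (m : M → ℝ) (y : κ0) (k : Fin 4) (y' : κ0) : M → ℝ :=
  Fin.cases (fun _ => 0) (fun k z => (1 / 2) * m z * S.rho k y y' z) k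

include hS in
theorem bmq {m : M → ℝ} (hm : BM (μHE[4] : Measure M) m) (y : κ0) (k : Fin 4) (y' : κ0) :
    BM (μHE[4] : Measure M) (qc S m y k y') := by
  refine Fin.cases ?_ (fun k => ?_) k
  · exact bm_smooth contMDiff_const
  · obtain ⟨C, hC0, hC⟩ := hm.bd
    obtain ⟨C', hC0', hC'⟩ := (bm_smooth (hS.smrho k y y')).bd
    refine ⟨(hm.meas.const_mul _).mul (bm_smooth (hS.smrho k y y')).meas, 1 / 2 * C * C',
      by positivity, ?_⟩
    filter_upwards [hC, hC'] with z h1 h2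
    show ‖1 / 2 * m z * S.rho k y y' z‖ ≤ _
    rw [norm_mul, norm_mul]
    have h3 : ‖(1 / 2 : ℝ)‖ = 1 / 2 := by norm_num
    rw [h3]
    gcongr

/-- `A U + c(α + ϑ) i U` -/
def Fd (ϑ : S.DT.toAD.WE) (α : S.DT.toAD.WE) (U : S.D0.toAD.WE) :
    HH (μHE[4] : Measure M) κ1 :=
  ((Ah S.P U : S.D1.toAD.HE) : HH (μHE[4] : Measure M) κ1) +
    nab4 hA hU (c := fun A x y => S.cl A x y) (bmcl hS) (α + ϑ) U

/-- `q(U)` -/
def Fq {m : M → ℝ} (hm : BM (μHE[4] : Measure M) m) (U : S.D0.toAD.WE) :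
    HH (μHE[4] : Measure M) (Fin 4) :=
  nab4 hU hU (c := qc S m) (bmq hS hm) U U

/-- `∇ U + i (α + ϑ) U` -/
def Fn (ϑ : S.DT.toAD.WE) (α : S.DT.toAD.WE) (U : S.D0.toAD.WE) :
    GG (EuclideanSpace ℝ (Fin 4)) (μHE[4] : Measure M) κ0 :=
  S.D0.toAD.c1 U + nab4 hA hU (c := fun A y y' z => S.J y y' z • S.s A z) (bmJs hS) (α + ϑ) U

/-- the products `u_y u_{y'}` -/
def F4 (U : S.D0.toAD.WE) : HH (μHE[4] : Measure M) (κ0 × κ0) :=
  WithLp.toLp 2 fun p => pr4 hU hU p.1 p.2 U U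

theorem continuous_Fd (ϑ : S.DT.toAD.WE) :
    Continuous fun q : S.DT.toAD.WE × S.D0.toAD.WE => Fd hS hA hU ϑ q.1 q.2 := by
  have h1 := cont_shift (continuous_nab4 hA hU (c := fun A x y => S.cl A x y) (bmcl hS)) ϑ
  have h4 : Continuous fun q : S.DT.toAD.WE × S.D0.toAD.WE => S.D1.toAD.HE.subtypeL (Ah S.P q.2) :=
    (S.D1.toAD.HE.subtypeL.comp (Ah S.P)).continuous.comp continuous_snd
  exact h4.add h1

theorem continuous_Fq {m : M → ℝ} (hm : BM (μHE[4] : Measure M) m) :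
    Continuous fun U : S.D0.toAD.WE => Fq hS hU hm U :=
  cont_diag (f := fun w v => nab4 hU hU (c := qc S m) (bmq hS hm) w v)
    (continuous_nab4 hU hU (c := qc S m) (bmq hS hm))

theorem continuous_Fn (ϑ : S.DT.toAD.WE) :
    Continuous fun q : S.DT.toAD.WE × S.D0.toAD.WE => Fn hS hA hU ϑ q.1 q.2 := by
  have h1 := cont_shift (continuous_nab4 hA hU
    (c := fun A y y' z => S.J y y' z • S.s A z) (bmJs hS)) ϑ
  have h4 : Continuous fun q : S.DT.toAD.WE × S.D0.toAD.WE => S.D0.toAD.c1 q.2 :=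
    S.D0.toAD.c1.continuous.comp continuous_snd
  exact h4.add h1

theorem continuous_F4 : Continuous fun U : S.D0.toAD.WE => F4 hU U := by
  unfold F4
  refine (PiLp.continuous_toLp 2 _).comp (continuous_pi fun p => ?_)
  exact cont_diag (f := fun w v => pr4 hU hU p.1 p.2 w v) (continuous_pr4 hU hU p.1 p.2)

/-! ### representatives -/

theorem coe_add {κ : Type} [Fintype κ] {F : Type*} [NormedAddCommGroup F] [InnerProductSpace ℝ F]
    (f g : GG F (μHE[4] : Measure M) κ) : ∀ᵐ x ∂(μHE[4] : Measure M), ∀ a,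
    ((f + g) a : M → F) x = (f a : M → F) x + (g a : M → F) x := by
  rw [ae_all_iff]
  intro a
  exact Lp.coeFn_add (f a) (g a)

theorem coe_sub {κ : Type} [Fintype κ] {F : Type*} [NormedAddCommGroup F] [InnerProductSpace ℝ F]
    (f g : GG F (μHE[4] : Measure M) κ) : ∀ᵐ x ∂(μHE[4] : Measure M), ∀ a,
    ((f - g) a : M → F) x = (f a : M → F) x - (g a : M → F) x := by
  rw [ae_all_iff]
  intro a
  exact Lp.coeFn_sub (f a) (g a)

theorem coe_addW {κ : Type} [Fintype κ] {D : Dat 4 M κ} (α ϑ : D.toAD.WE) {a th : κ → M → ℝ}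
    (ha : ∀ᵐ x ∂(μHE[4] : Measure M), ∀ b, (D.toAD.i1 α b : M → ℝ) x = a b x)
    (ht : ∀ᵐ x ∂(μHE[4] : Measure M), ∀ b, (D.toAD.i1 ϑ b : M → ℝ) x = th b x) :
    ∀ᵐ x ∂(μHE[4] : Measure M), ∀ b, (D.toAD.i1 (α + ϑ) b : M → ℝ) x = (a + th) b x := by
  have h1 : D.toAD.i1 (α + ϑ) = D.toAD.i1 α + D.toAD.i1 ϑ := map_add _ _ _
  have h2 := coe_add (D.toAD.i1 α) (D.toAD.i1 ϑ)
  filter_upwards [h2, ha, ht] with x e1 e2 e3 b
  rw [h1, e1 b, e2 b, e3 b]
  rfl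

theorem coe_Fd {ϑ α : S.DT.toAD.WE} {U : S.D0.toAD.WE} {a th : κT → M → ℝ} {u : κ0 → M → ℝ}
    {f : κ1 → M → ℝ}
    (ha : ∀ᵐ x ∂(μHE[4] : Measure M), ∀ b, (S.DT.toAD.i1 α b : M → ℝ) x = a b x)
    (ht : ∀ᵐ x ∂(μHE[4] : Measure M), ∀ b, (S.DT.toAD.i1 ϑ b : M → ℝ) x = th b x)
    (hu : ∀ᵐ x ∂(μHE[4] : Measure M), ∀ b, (S.D0.toAD.i1 U b : M → ℝ) x = u b x)
    (hf : ∀ᵐ x ∂(μHE[4] : Measure M), ∀ b,
      (((Ah S.P U : S.D1.toAD.HE) : HH (μHE[4] : Measure M) κ1) b : M → ℝ) x = f b x) :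
    ∀ᵐ x ∂(μHE[4] : Measure M), ∀ b, (Fd hS hA hU ϑ α U b : M → ℝ) x =
      f b x + S.cm (a + th) u b x := by
  filter_upwards [coe_add ((Ah S.P U : S.D1.toAD.HE) : HH (μHE[4] : Measure M) κ1)
      (nab4 hA hU (c := fun A x y => S.cl A x y) (bmcl hS) (α + ϑ) U),
    coe_nab4 hA hU (c := fun A x y => S.cl A x y) (bmcl hS) (α + ϑ) U,
    coe_addW α ϑ ha ht, hu, hf] with x e1 e2 e3 e4 e5 b
  have e6 : (Fd hS hA hU ϑ α U b : M → ℝ) x = _ := e1 b
  rw [e6, e5 b, e2 b]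
  congr 1
  unfold SWS.cm
  refine Finset.sum_congr rfl fun A _ => Finset.sum_congr rfl fun y _ => ?_
  rw [e3 A, e4 y, smul_eq_mul]

theorem coe_Fq {m : M → ℝ} (hm : BM (μHE[4] : Measure M) m) {U : S.D0.toAD.WE} {u : κ0 → M → ℝ}
    (hu : ∀ᵐ x ∂(μHE[4] : Measure M), ∀ b, (S.D0.toAD.i1 U b : M → ℝ) x = u b x) :
    ∀ᵐ x ∂(μHE[4] : Measure M), ∀ k, (Fq hS hU hm U k : M → ℝ) x =
      (Fin.cons (fun _ => 0) fun k z => m z * ((1 / 2) * S.rq k u z) : Fin 4 → M → ℝ) k x := by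
  filter_upwards [coe_nab4 hU hU (c := qc S m) (bmq hS hm) U U, hu] with x e1 e2 k
  have e3 : (Fq hS hU hm U k : M → ℝ) x = _ := e1 k
  rw [e3]
  refine Fin.cases ?_ (fun k => ?_) k
  · simp [qc]
  · simp only [qc, Fin.cases_succ, Fin.cons_succ, SWS.rq, Finset.mul_sum, e2, smul_eq_mul]
    refine Finset.sum_congr rfl fun y _ => Finset.sum_congr rfl fun y' _ => ?_
    ring

theorem coe_Fn {ϑ α : S.DT.toAD.WE} {U : S.D0.toAD.WE} {a th : κT → M → ℝ} {u : κ0 → M → ℝ}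
    {g : κ0 → M → EuclideanSpace ℝ (Fin 4)}
    (ha : ∀ᵐ x ∂(μHE[4] : Measure M), ∀ b, (S.DT.toAD.i1 α b : M → ℝ) x = a b x)
    (ht : ∀ᵐ x ∂(μHE[4] : Measure M), ∀ b, (S.DT.toAD.i1 ϑ b : M → ℝ) x = th b x)
    (hu : ∀ᵐ x ∂(μHE[4] : Measure M), ∀ b, (S.D0.toAD.i1 U b : M → ℝ) x = u b x)
    (hg : ∀ᵐ x ∂(μHE[4] : Measure M), ∀ b,
      (S.D0.toAD.c1 U b : M → EuclideanSpace ℝ (Fin 4)) x = g b x) :
    ∀ᵐ x ∂(μHE[4] : Measure M), ∀ y, (Fn hS hA hU ϑ α U y : M → EuclideanSpace ℝ (Fin 4)) x =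
      g y x + (∑ y', S.J y y' x * u y' x) • ∑ A, (a + th) A x • S.s A x := by
  filter_upwards [coe_add (S.D0.toAD.c1 U)
      (nab4 hA hU (c := fun A y y' z => S.J y y' z • S.s A z) (bmJs hS) (α + ϑ) U),
    coe_nab4 hA hU (c := fun A y y' z => S.J y y' z • S.s A z) (bmJs hS) (α + ϑ) U,
    coe_addW α ϑ ha ht, hu, hg] with x e1 e2 e3 e4 e5 y
  have e6 : (Fn hS hA hU ϑ α U y : M → EuclideanSpace ℝ (Fin 4)) x = _ := e1 y
  rw [e6, e5 y, e2 y]
  congr 1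
  rw [Finset.smul_sum]
  refine Finset.sum_congr rfl fun A _ => ?_
  rw [Finset.sum_smul]
  refine Finset.sum_congr rfl fun y' _ => ?_
  rw [e3 A, e4 y', smul_smul, smul_smul]
  congr 1
  ring

theorem norm_F4 {U : S.D0.toAD.WE} {u : κ0 → M → ℝ}
    (hu : ∀ᵐ x ∂(μHE[4] : Measure M), ∀ b, (S.D0.toAD.i1 U b : M → ℝ) x = u b x) :
    ∫ x, (∑ y, u y x ^ 2) ^ 2 ∂(μHE[4] : Measure M) = ‖F4 hU U‖ ^ 2 := by
  have h1 : ∀ᵐ x ∂(μHE[4] : Measure M), ∀ p : κ0 × κ0, (F4 hU U p : M → ℝ) x =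
      u p.1 x * u p.2 x := by
    have h2 : ∀ᵐ x ∂(μHE[4] : Measure M), ∀ p : κ0 × κ0, (pr4 hU hU p.1 p.2 U U : M → ℝ) x =
        (S.D0.toAD.i1 U p.1 : M → ℝ) x * (S.D0.toAD.i1 U p.2 : M → ℝ) x :=
      ae_all_iff.2 fun p => coe_pr4 hU hU p.1 p.2 U U
    filter_upwards [h2, hu] with x e1 e2 p
    have e3 : (F4 hU U p : M → ℝ) x = _ := e1 p
    rw [e3, e2, e2]
  rw [← norm_rep h1]
  refine integral_congr_ae (Eventually.of_forall fun x => ?_)
  simp only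
  rw [Fintype.sum_prod_type, sq, Finset.sum_mul_sum]
  exact Finset.sum_congr rfl fun y _ => Finset.sum_congr rfl fun y' _ => by ring

end maps

end

end Crest.Agent.R235.Apx_649
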