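import Mathlib
import Crest.Agent.R240.Iface
import Crest.Agent.R240.Met

/-!
Row 235 (S0364), helper4: block ATOMS of the Siu decomposition (#1747 (7)), Besicovitch
differentiation on a closed manifold with a metric bi-Lipschitz to the charts.
-/

set_option autoImplicit false
set_option maxSynthPendingDepth 3

open Set Function Filter MeasureTheory Metric
open scoped Manifold ContDiff Topology ENNReal NNReal

namespace Crest.Agent.R235.AtomsB_4

open Crest.Agent.R240

noncomputable section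

/-- Besicovitch in a finite dimensional space, in the form `o(r²)`. -/
theorem compl_small {E : Type*} [NormedAddCommGroup E] [NormedSpace ℝ E] [FiniteDimensional ℝ E]
    [MeasurableSpace E] [BorelSpace E] (μ : Measure E) [IsFiniteMeasure μ] {A : Set E}
    (hA : MeasurableSet A) :
    ∀ᵐ x ∂μ, x ∈ A → ∀ C : ℝ, (∀ r : ℝ, 0 < r → μ.real (closedBall x r) ≤ C * r ^ 2) →
      Tendsto (fun r : ℝ => μ.real (Aᶜ ∩ closedBall x r) / r ^ 2) (𝓝[>] 0) (𝓝 0) := by
  have hB := Besicovitch.ae_tendsto_measure_inter_div_of_measurableSet μ hA.compl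
  filter_upwards [hB] with x hx hxA C hC
  have h0 : (Aᶜ).indicator (1 : E → ℝ≥0∞) x = 0 := by simp [hxA]
  rw [h0] at hx
  have h1 : Tendsto (fun r : ℝ => (μ (Aᶜ ∩ closedBall x r) / μ (closedBall x r)).toReal)
      (𝓝[>] 0) (𝓝 0) := by
    have h := (ENNReal.tendsto_toReal ENNReal.zero_ne_top).comp hx
    rw [ENNReal.toReal_zero] at h
    exact h
  have h2 : Tendsto (fun r : ℝ => (μ (Aᶜ ∩ closedBall x r) / μ (closedBall x r)).toReal * C)
      (𝓝[>] 0) (𝓝 0) := by simpa using h1.mul_const C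
  refine squeeze_zero' (Eventually.of_forall fun r => by positivity) ?_ h2
  filter_upwards [self_mem_nhdsWithin] with r hr
  have hr : 0 < r := hr
  rw [div_le_iff₀ (by positivity), mul_assoc, ENNReal.toReal_div]
  have h3 := hC r hr
  have h4 : 0 ≤ μ.real (Aᶜ ∩ closedBall x r) := measureReal_nonneg
  rcases (measureReal_nonneg (μ := μ) (s := closedBall x r)).eq_or_lt with h5 | h5
  · have h6 : μ.real (Aᶜ ∩ closedBall x r) ≤ μ.real (closedBall x r) :=
      measureReal_mono inter_subset_right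
    have h7 : μ.real (Aᶜ ∩ closedBall x r) = 0 := le_antisymm (h6.trans h5.symm.le) h4
    rw [h7]
    have h8 : 0 ≤ C * r ^ 2 := h5.le.trans h3
    simp only [measureReal_def] at h7
    rw [h7]
    simp
  · calc μ.real (Aᶜ ∩ closedBall x r)
        = μ.real (Aᶜ ∩ closedBall x r) / μ.real (closedBall x r) * μ.real (closedBall x r) := by
          field_simp
      _ ≤ μ.real (Aᶜ ∩ closedBall x r) / μ.real (closedBall x r) * (C * r ^ 2) := by gcongr

variable {M : Type*} [MetricSpace M] [CompactSpace M] [ChartedSpace E4 M]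
    [IsManifold 𝓘(ℝ, E4) ∞ M] [MeasurableSpace M] [BorelSpace M]

omit [IsManifold 𝓘(ℝ, E4) ∞ M] in
/-- Besicovitch on a closed manifold. -/
theorem dens_compl (hb : Met.BiLip E4 M) {s : Measure M} [IsFiniteMeasure s]
    (hs : Dat.Growth2 s) {A : Set M} (hA : MeasurableSet A) :
    ∀ᵐ x ∂s, x ∈ A → Tendsto (fun r : ℝ => s.real (Aᶜ ∩ ball x r) / r ^ 2) (𝓝[>] 0) (𝓝 0) := by
  obtain ⟨G, hG⟩ := hs
  -- local statement
  have hloc : ∀ p : M, ∃ V : Set M, IsOpen V ∧ p ∈ V ∧ ∀ᵐ x ∂s, x ∈ V → x ∈ A →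
      Tendsto (fun r : ℝ => s.real (Aᶜ ∩ ball x r) / r ^ 2) (𝓝[>] 0) (𝓝 0) := by
    intro p
    set φ := chartAt E4 p with hφ
    have hpt : φ p ∈ φ.target := mem_chart_target E4 p
    obtain ⟨ρ, hρ, hρt⟩ := Metric.nhds_basis_closedBall.mem_iff.1 (φ.open_target.mem_nhds hpt)
    set K := closedBall (φ p) ρ with hK
    obtain ⟨c, C, hc, hC, hbl⟩ := hb p K (isCompact_closedBall _ _) hρt
    set V : Set M := φ.source ∩ φ ⁻¹' ball (φ p) ρ with hV
    have hVo : IsOpen V := φ.isOpen_inter_preimage isOpen_ball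
    set Wc : Set M := φ.source ∩ φ ⁻¹' K with hW
    have hVW : V ⊆ Wc := fun x hx => ⟨hx.1, ball_subset_closedBall hx.2⟩
    have hWK : Wc = φ.symm '' K := (φ.symm_image_eq_source_inter_preimage hρt).symm
    have hWcomp : IsCompact Wc := by
      rw [hWK]
      exact (isCompact_closedBall _ _).image_of_continuousOn (φ.continuousOn_symm.mono hρt)
    have hWm : MeasurableSet Wc := hWcomp.isClosed.measurableSet
    have hφm : AEMeasurable φ (s.restrict Wc) :=
      (φ.continuousOn.mono inter_subset_left).aemeasurable hWm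
    set μ : Measure E4 := (s.restrict Wc).map φ with hμ
    have hμfin : IsFiniteMeasure μ := by rw [hμ]; infer_instance
    -- the set `A` in the chart
    set A' : Set E4 := (fun y : K => (y : E4)) '' {y : K | φ.symm (y : E4) ∈ A} with hA'
    have hA'm : MeasurableSet A' := by
      refine MeasurableSet.subtype_image isClosed_closedBall.measurableSet ?_
      have hcont : Continuous fun y : K => φ.symm (y : E4) :=
        (φ.continuousOn_symm.mono hρt).domRestrict
      exact hcont.measurable hA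
    have hmem : ∀ x ∈ Wc, (φ x ∈ A' ↔ x ∈ A) := by
      intro x hx
      constructor
      · rintro ⟨y, hy, hyx⟩
        have : φ.symm (y : E4) = x := by
          rw [show (y : E4) = φ x from hyx]; exact φ.left_inv hx.1
        rw [← this]; exact hy
      · intro hxA
        exact ⟨⟨φ x, hx.2⟩, by simpa [φ.left_inv hx.1] using hxA, rfl⟩
    have hμB : ∀ B : Set E4, MeasurableSet B → μ.real B = s.real (φ ⁻¹' B ∩ Wc) := by
      intro B hB
      rw [measureReal_def, hμ, Measure.map_apply_of_aemeasurable hφm hB,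
        Measure.restrict_apply' hWm, ← measureReal_def]
    have hae := ae_of_ae_map hφm (compl_small μ hA'm)
    rw [ae_restrict_iff' hWm] at hae
    refine ⟨V, hVo, ⟨mem_chart_source E4 p, mem_ball_self hρ⟩, ?_⟩
    filter_upwards [hae] with x hx hxV hxA
    have hxW := hVW hxV
    have h1 := hx hxW ((hmem x hxW).2 hxA) (G * (2 * C) ^ 2) ?_
    swap
    · intro r hr
      rw [hμB _ measurableSet_closedBall]
      have hsub : φ ⁻¹' closedBall (φ x) r ∩ Wc ⊆ ball x (2 * C * r) := by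
        rintro z ⟨hz1, hz2⟩
        have h2 := (hbl (φ z) hz2.2 (φ x) hxW.2).2
        rw [φ.left_inv hz2.1, φ.left_inv hxW.1] at h2
        have h3 : ‖φ z - φ x‖ ≤ r := by
          rw [← dist_eq_norm]; exact hz1
        rw [mem_ball]
        calc dist z x ≤ C * ‖φ z - φ x‖ := h2
          _ ≤ C * r := by gcongr
          _ < 2 * C * r := by nlinarith [mul_pos hC hr]
      calc s.real (φ ⁻¹' closedBall (φ x) r ∩ Wc) ≤ s.real (ball x (2 * C * r)) :=
            measureReal_mono hsub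
        _ ≤ G * (2 * C * r) ^ 2 := hG x _ (by positivity)
        _ = G * (2 * C) ^ 2 * r ^ 2 := by ring
    -- rescale
    have h4 : Tendsto (fun r : ℝ => r / c) (𝓝[>] 0) (𝓝[>] 0) := by
      refine tendsto_nhdsWithin_iff.2 ⟨?_, ?_⟩
      · have : Tendsto (fun r : ℝ => r / c) (𝓝 0) (𝓝 (0 / c)) := tendsto_id.div_const c
        rw [zero_div] at this
        exact this.mono_left nhdsWithin_le_nhds
      · filter_upwards [self_mem_nhdsWithin] with r hr
        exact div_pos hr hc
    have h5 := (h1.comp h4).const_mul (1 / c ^ 2)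
    rw [mul_zero] at h5
    refine squeeze_zero' (Eventually.of_forall fun r => by positivity) ?_ h5
    obtain ⟨δ, hδ, hδV⟩ := Metric.isOpen_iff.1 hVo x hxV
    have h6 : ∀ᶠ r : ℝ in 𝓝[>] 0, r < δ :=
      mem_nhdsWithin_of_mem_nhds (Iio_mem_nhds hδ)
    filter_upwards [self_mem_nhdsWithin, h6] with r hr hrδ
    have hr : 0 < r := hr
    have hsub : Aᶜ ∩ ball x r ⊆ φ ⁻¹' (A'ᶜ ∩ closedBall (φ x) (r / c)) ∩ Wc := by
      rintro z ⟨hz1, hz2⟩
      have hzW : z ∈ Wc := hVW (hδV (ball_subset_ball hrδ.le hz2))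
      refine ⟨⟨fun h => hz1 ((hmem z hzW).1 h), ?_⟩, hzW⟩
      have h2 := (hbl (φ z) hzW.2 (φ x) hxW.2).1
      rw [φ.left_inv hzW.1, φ.left_inv hxW.1] at h2
      have h3 : ‖φ z - φ x‖ ≤ r / c := by
        rw [le_div_iff₀ hc, mul_comm]
        exact h2.trans (le_of_lt hz2)
      rw [← dist_eq_norm] at h3
      exact h3
    have h7 : s.real (Aᶜ ∩ ball x r) ≤ μ.real (A'ᶜ ∩ closedBall (φ x) (r / c)) := by
      rw [hμB _ (hA'm.compl.inter measurableSet_closedBall)]
      exact measureReal_mono hsub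
    show s.real (Aᶜ ∩ ball x r) / r ^ 2 ≤
      1 / c ^ 2 * (μ.real (A'ᶜ ∩ closedBall (φ x) (r / c)) / (r / c) ^ 2)
    have h8 : 1 / c ^ 2 * (μ.real (A'ᶜ ∩ closedBall (φ x) (r / c)) / (r / c) ^ 2) =
        μ.real (A'ᶜ ∩ closedBall (φ x) (r / c)) / r ^ 2 := by
      field_simp
    rw [h8]
    gcongr
  choose V hVo hpV hV using hloc
  obtain ⟨t, ht⟩ := isCompact_univ.elim_finite_subcover V hVo
    (fun x _ => mem_iUnion.2 ⟨x, hpV x⟩)
  have h1 : ∀ᵐ x ∂s, ∀ p ∈ t, x ∈ V p → x ∈ A →
      Tendsto (fun r : ℝ => s.real (Aᶜ ∩ ball x r) / r ^ 2) (𝓝[>] 0) (𝓝 0) :=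
    (ae_ball_iff t.countable_toSet).2 fun p _ => hV p
  filter_upwards [h1] with x hx hxA
  obtain ⟨p, hp, hxp⟩ := mem_iUnion₂.1 (ht (mem_univ x))
  exact hx p hp hxp hxA

end

end Crest.Agent.R235.AtomsB_4
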