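import Mathlib

/-!
Row 235 (S0364), helper4: block ATOMS of the Siu decomposition (#1747 (7)), interface-free part.

* `finite_atoms`, `ae_atom`: a density function whose sublevel measures are quantised from below
  is purely atomic on `{ν ≥ a}`;
* `tendsto_kernel_compl`: Besicovitch for kernels of size `r⁻²`.
-/

set_option autoImplicit false

open Set Function Filter MeasureTheory Metric
open scoped Topology ENNReal NNReal

namespace Crest.Agent.R235.Atoms_4

noncomputable section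

section Atoms

variable {X : Type*} [MeasurableSpace X]

/-- a finite Borel measure on `ℝ` all of whose values are `0` or `≥ k` lives on its atoms. -/
theorem null_of_noAtoms (m : Measure ℝ) [IsFiniteMeasure m] {k : ℝ≥0∞} (hk : 0 < k)
    (h : ∀ A, MeasurableSet A → m A = 0 ∨ k ≤ m A) {E : Set ℝ}
    (h0 : ∀ t ∈ E, m {t} = 0) : m E = 0 := by
  refine measure_null_of_locally_null E fun t ht => ?_
  have h1 : Tendsto (fun n : ℕ => m (ball t (1 / ((n : ℝ) + 1)))) atTop
      (𝓝 (m (⋂ n : ℕ, ball t (1 / ((n : ℝ) + 1))))) := by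
    refine tendsto_measure_iInter_atTop (fun n => measurableSet_ball.nullMeasurableSet) ?_
      ⟨0, measure_ne_top _ _⟩
    intro n n' hn
    refine ball_subset_ball ?_
    apply one_div_le_one_div_of_le (by positivity)
    have : (n : ℝ) ≤ n' := by exact_mod_cast hn
    linarith
  have h2 : (⋂ n : ℕ, ball t (1 / ((n : ℝ) + 1))) = {t} := by
    ext s
    simp only [mem_iInter, mem_ball, mem_singleton_iff]
    constructor
    · intro hs
      by_contra hne
      have hd : 0 < dist s t := dist_pos.2 hne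
      obtain ⟨n, hn⟩ := exists_nat_one_div_lt hd
      exact absurd (hs n) (not_lt.2 hn.le)
    · rintro rfl n
      rw [dist_self]
      positivity
  rw [h2, h0 t ht] at h1
  obtain ⟨n, hn⟩ := ((tendsto_order.1 h1).2 k hk).exists
  refine ⟨ball t (1 / ((n : ℝ) + 1)), mem_nhdsWithin_of_mem_nhds (ball_mem_nhds t (by positivity)),
    ?_⟩
  rcases h _ (measurableSet_ball (x := t) (ε := 1 / ((n : ℝ) + 1))) with h3 | h3
  · exact h3
  · exact absurd hn (not_lt.2 h3)

/-- `{t ≥ a | t is an atom}` is finite. -/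
theorem finite_atoms (s : Measure X) [IsFiniteMeasure s] {ν : X → ℝ} (hν : Measurable ν)
    {a : ℝ} {k : ℝ≥0∞} (hk : 0 < k)
    (h : ∀ A, MeasurableSet A → A ⊆ Ici a → s (ν ⁻¹' A) = 0 ∨ k ≤ s (ν ⁻¹' A)) :
    {t : ℝ | a ≤ t ∧ s (ν ⁻¹' {t}) ≠ 0}.Finite := by
  classical
  by_contra hinf
  have hinf' : {t : ℝ | a ≤ t ∧ s (ν ⁻¹' {t}) ≠ 0}.Infinite := hinf
  have hks : k ≠ ⊤ := by
    obtain ⟨t, ht⟩ := hinf'.nonempty
    rcases h {t} (measurableSet_singleton t) (by simpa using ht.1) with h1 | h1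
    · exact absurd h1 ht.2
    · exact ne_top_of_le_ne_top (measure_ne_top _ _) h1
  have h1 : ∀ n : ℕ, (n : ℝ≥0∞) * k ≤ s univ := by
    intro n
    obtain ⟨F, hF, hFn⟩ := hinf'.exists_subset_card_eq n
    have h2 : s (ν ⁻¹' (F : Set ℝ)) = ∑ t ∈ F, s (ν ⁻¹' {t}) := by
      have : ν ⁻¹' (F : Set ℝ) = ⋃ t ∈ F, ν ⁻¹' {t} := by
        ext x; simp
      rw [this, measure_biUnion_finset]
      · intro t _ t' _ htt
        refine Disjoint.preimage _ ?_
        simpa using htt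
      · intro t _
        exact hν (measurableSet_singleton t)
    calc (n : ℝ≥0∞) * k = ∑ _t ∈ F, k := by rw [Finset.sum_const, hFn, nsmul_eq_mul]
      _ ≤ ∑ t ∈ F, s (ν ⁻¹' {t}) := by
          refine Finset.sum_le_sum fun t ht => ?_
          have htF := hF ht
          rcases h {t} (measurableSet_singleton t) (by simpa using htF.1) with h1 | h1
          · exact absurd h1 htF.2
          · exact h1
      _ = s (ν ⁻¹' (F : Set ℝ)) := h2.symm
      _ ≤ s univ := measure_mono (subset_univ _)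
  obtain ⟨n, hn⟩ := ENNReal.exists_nat_mul_gt hk.ne' (measure_ne_top s univ)
  exact absurd (h1 n) (not_le.2 hn)

/-- almost every point of `{ν ≥ a}` is in an atom. -/
theorem ae_atom (s : Measure X) [IsFiniteMeasure s] {ν : X → ℝ} (hν : Measurable ν)
    {a : ℝ} {k : ℝ≥0∞} (hk : 0 < k)
    (h : ∀ A, MeasurableSet A → A ⊆ Ici a → s (ν ⁻¹' A) = 0 ∨ k ≤ s (ν ⁻¹' A)) :
    ∀ᵐ x ∂s, a ≤ ν x → s (ν ⁻¹' {ν x}) ≠ 0 := by
  have hfin := finite_atoms s hν hk h
  set F : Set ℝ := {t : ℝ | a ≤ t ∧ s (ν ⁻¹' {t}) ≠ 0} with hF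
  have hFm : MeasurableSet F := hfin.measurableSet
  set m : Measure ℝ := (s.map ν).restrict (Ici a) with hm
  have hmA : ∀ A, MeasurableSet A → m A = s (ν ⁻¹' (A ∩ Ici a)) := by
    intro A hA
    rw [hm, Measure.restrict_apply hA, Measure.map_apply hν (hA.inter measurableSet_Ici)]
  have h1 : m (Ici a \ F) = 0 := by
    refine null_of_noAtoms m hk (fun A hA => ?_) ?_
    · rw [hmA A hA]
      exact h _ (hA.inter measurableSet_Ici) inter_subset_right
    · rintro t ⟨hta, htF⟩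
      rw [hmA _ (measurableSet_singleton t)]
      by_contra hne
      apply htF
      refine ⟨hta, fun h0 => hne ?_⟩
      exact measure_mono_null (preimage_mono inter_subset_left) h0
  rw [hmA _ (measurableSet_Ici.diff hFm)] at h1
  rw [ae_iff]
  refine measure_mono_null ?_ h1
  intro x hx
  simp only [mem_ofPred_eq, Classical.not_imp, not_not] at hx
  refine ⟨⟨hx.1, fun hxF => hxF.2 hx.2⟩, hx.1⟩

/-- ENUMERATION: distinct values `c i > 0` (`i ∈ I ⊆ ℕ`), finitely many above every positive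
level, such that a.e. point of `{ν > 0}` has `ν x = c i` for some `i`. -/
theorem exists_enum (s : Measure X) [IsFiniteMeasure s] {ν : X → ℝ} (hν : Measurable ν)
    (h : ∀ a : ℝ, 0 < a → ∃ k : ℝ≥0∞, 0 < k ∧
      ∀ A, MeasurableSet A → A ⊆ Ici a → s (ν ⁻¹' A) = 0 ∨ k ≤ s (ν ⁻¹' A)) :
    ∃ F : Set ℝ, F.Countable ∧ (∀ t ∈ F, 0 < t ∧ s (ν ⁻¹' {t}) ≠ 0) ∧
      (∀ a : ℝ, 0 < a → (F ∩ Ici a).Finite) ∧
      ∀ᵐ x ∂s, 0 < ν x → ν x ∈ F := by
  set F : Set ℝ := {t : ℝ | 0 < t ∧ s (ν ⁻¹' {t}) ≠ 0} with hF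
  have hfin : ∀ a : ℝ, 0 < a → (F ∩ Ici a).Finite := by
    intro a ha
    obtain ⟨k, hk, hk'⟩ := h a ha
    refine (finite_atoms s hν hk hk').subset ?_
    rintro t ⟨⟨_, h2⟩, h3⟩
    exact ⟨h3, h2⟩
  refine ⟨F, ?_, fun t ht => ht, hfin, ?_⟩
  · have : F ⊆ ⋃ n : ℕ, F ∩ Ici (1 / ((n : ℝ) + 1)) := by
      intro t ht
      obtain ⟨n, hn⟩ := exists_nat_one_div_lt ht.1
      exact mem_iUnion.2 ⟨n, ht, hn.le⟩
    refine (countable_iUnion fun n => ?_).mono this
    exact (hfin _ (by positivity)).countable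
  · have h1 : ∀ n : ℕ, ∀ᵐ x ∂s, 1 / ((n : ℝ) + 1) ≤ ν x → s (ν ⁻¹' {ν x}) ≠ 0 := by
      intro n
      obtain ⟨k, hk, hk'⟩ := h (1 / ((n : ℝ) + 1)) (by positivity)
      exact ae_atom s hν hk hk'
    filter_upwards [ae_all_iff.2 h1] with x hx hpos
    obtain ⟨n, hn⟩ := exists_nat_one_div_lt hpos
    exact ⟨hpos, hx n hn.le⟩

end Atoms

end

end Crest.Agent.R235.Atoms_4
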