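import Mathlib
import Crest.Agent.R240.Pol
import Crest.Agent.R240.ChDens
import Crest.Agent.R240.IntPair
import Crest.Agent.R240.En4L
import Crest.Agent.R235.T1_195

/-!
Row 235 (S0364), helper4: GLOBAL DENSITY of a positive (1,1)-current on `M`
(`Φ b = ∫ q(τ_x, b_x) ds`, `τ` a positive `J`-invariant two-form of trace one), and the
multiplication of a current by a bounded Borel function `h ≥ 0`.
-/

set_option autoImplicit false
set_option maxSynthPendingDepth 3
set_option linter.unusedSectionVars false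

open Set Function Filter MeasureTheory Metric
open scoped Manifold ContDiff Topology ENNReal

namespace Crest.Agent.R235.CurDens_4

open Crest.Agent.R240 Crest.Agent.R240.Ch Crest.Agent.R240.Pol Crest.Agent.R240.En4
  Crest.Agent.R240.Vm

noncomputable section

/-! ### pointwise algebra -/

theorem pos_add {J : E4 →L[ℝ] E4} {P Q : Bil} (hP : Pos J P) (hQ : Pos J Q) : Pos J (P + Q) where
  alt v := by
    show P v v + Q v v = 0
    rw [hP.alt v, hQ.alt v, add_zero]
  inv u v := by
    show P (J u) (J v) + Q (J u) (J v) = P u v + Q u v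
    rw [hP.inv, hQ.inv]
  nonneg v := by
    show 0 ≤ P v (J v) + Q v (J v)
    exact add_nonneg (hP.nonneg v) (hQ.nonneg v)

theorem pos_zero {J : E4 →L[ℝ] E4} : Pos J 0 where
  alt _ := rfl
  inv _ _ := rfl
  nonneg _ := le_rfl

theorem pos_sum {J : E4 →L[ℝ] E4} {ι : Type*} (t : Finset ι) (P : ι → Bil)
    (h : ∀ i ∈ t, Pos J (P i)) : Pos J (∑ i ∈ t, P i) := by
  classical
  induction t using Finset.induction_on with
  | empty => simpa using pos_zero
  | insert a t ha ih =>
    rw [Finset.sum_insert ha]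
    exact pos_add (h a (Finset.mem_insert_self a t))
      (ih fun i hi => h i (Finset.mem_insert_of_mem hi))

theorem q_sum_left (F : Bil) {ι : Type*} (t : Finset ι) (P : ι → Bil) (b : Bil) :
    q F (∑ i ∈ t, P i) b = ∑ i ∈ t, q F (P i) b := by
  classical
  induction t using Finset.induction_on with
  | empty => simpa using q_zero_left F b
  | insert a t ha ih => rw [Finset.sum_insert ha, Finset.sum_insert ha, q_add_left, ih]

/-- `|q(P,b)| ≤ 2 q(P,F) |b|` for `P ≥ 0`. -/
theorem abs_q_pos_le {J : E4 →L[ℝ] E4} (hJ : ∀ v, J (J v) = -v) {F : Bil} (hF : SPos J F)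
    {P b : Bil} (hP : Pos J P) (hb : Alt b) : |q F P b| ≤ 2 * (q F P F * nr J F b) := by
  have h1 := (pos_iff hJ hF hP.alt hP.inv).1 hP.nonneg
  have h2 : nsq J F P ≤ 2 * q F P F ^ 2 := by
    rw [nsq_inv hJ hF hP.inv]
    linarith [h1.2]
  have h3 := q_cs hJ hF hP.alt hb
  have h4 := nsq_nonneg hJ hF hb
  have h5 : q F P b ^ 2 ≤ (2 * (q F P F * nr J F b)) ^ 2 := by
    have h6 : (nr J F b) ^ 2 = nsq J F b := Real.sq_sqrt h4
    have h7 : (2 * (q F P F * nr J F b)) ^ 2 = 4 * q F P F ^ 2 * nsq J F b := by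
      rw [← h6]; ring
    rw [h7]
    have h8 : nsq J F P * nsq J F b ≤ 2 * q F P F ^ 2 * nsq J F b :=
      mul_le_mul_of_nonneg_right h2 h4
    have h9 : 0 ≤ q F P F ^ 2 * nsq J F b := by positivity
    linarith
  refine abs_le_of_sq_le_sq h5 ?_
  have := h1.1
  have : 0 ≤ nr J F b := Real.sqrt_nonneg _
  positivity

/-- lower bound: `b' ≥ k F` gives `q(P, b) ≥ k q(P,F)`. -/
theorem q_pos_pos {J : E4 →L[ℝ] E4} (hJ : ∀ v, J (J v) = -v) {F : Bil} (hF : SPos J F)
    {P Q : Bil} (hP : Pos J P) (hQ : Pos J Q) : 0 ≤ q F P Q := by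
  obtain ⟨A, hA⟩ := exists_frame hJ hF
  rw [hA.q_eq hF.alt hP.alt hQ.alt]
  have h1 : ∀ {P : Bil}, Pos J P → Pos J0 (pull (A : E4 →L[ℝ] E4) P) := by
    intro P hP
    refine ⟨hP.alt.pull _, hA.pull_inv hP.inv, fun v => ?_⟩
    have := hP.nonneg (A v)
    rw [hA.cplx] at this
    exact this
  obtain ⟨a1, a2, a3⟩ := pos0_ent (hP.alt.pull _) (hA.pull_inv hP.inv) (h1 hP).nonneg
  obtain ⟨b1, b2, b3⟩ := pos0_ent (hQ.alt.pull _) (hA.pull_inv hQ.inv) (h1 hQ).nonneg
  rw [W_inv0 (hA.pull_inv hP.inv) (hA.pull_inv hQ.inv)]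
  generalize ent (pull (A : E4 →L[ℝ] E4) P) 0 1 = p at *
  generalize ent (pull (A : E4 →L[ℝ] E4) P) 2 3 = q at *
  generalize ent (pull (A : E4 →L[ℝ] E4) P) 0 2 = x at *
  generalize ent (pull (A : E4 →L[ℝ] E4) P) 0 3 = y at *
  generalize ent (pull (A : E4 →L[ℝ] E4) Q) 0 1 = r at *
  generalize ent (pull (A : E4 →L[ℝ] E4) Q) 2 3 = s at *
  generalize ent (pull (A : E4 →L[ℝ] E4) Q) 0 2 = z at *
  generalize ent (pull (A : E4 →L[ℝ] E4) Q) 0 3 = w at *
  have k1 : (x * z + y * w) ^ 2 ≤ (p * q) * (r * s) := by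
    calc (x * z + y * w) ^ 2 ≤ (x ^ 2 + y ^ 2) * (z ^ 2 + w ^ 2) := by
          nlinarith [sq_nonneg (x * w - y * z)]
      _ ≤ (p * q) * (r * s) := by
          apply mul_le_mul a3 b3 (by positivity) (by positivity)
  have k2 : (x * z + y * w) ^ 2 ≤ ((p * s + q * r) / 2) ^ 2 := by
    nlinarith [sq_nonneg (p * s - q * r)]
  have k3 : |x * z + y * w| ≤ (p * s + q * r) / 2 := by
    apply abs_le_of_sq_le_sq k2
    have := mul_nonneg a1 b2
    have := mul_nonneg a2 b1
    linarith
  have k4 := (abs_le.1 k3).2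
  linarith

/-! ### partition of unity with nonnegative functions -/

section PU

variable (M : Type*) [TopologicalSpace M] [T2Space M] [CompactSpace M]
  [ChartedSpace E4 M] [IsManifold 𝓘(ℝ, E4) ∞ M]

theorem exists_ballPU_nn : ∃ P : BallPU M, ∀ i x, 0 ≤ P.χ i x := by
  classical
  have h1 : ∀ x : M, ∃ R : ℝ, 0 < R ∧ closedBall (chartAt E4 x x) (3 * R) ⊆
      (chartAt E4 x).target := by
    intro x
    obtain ⟨ε, hε, h⟩ := Metric.isOpen_iff.1 (chartAt E4 x).open_target (chartAt E4 x x)
      (mem_chart_target E4 x)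
    refine ⟨ε / 6, by positivity, ?_⟩
    refine (closedBall_subset_ball (by linarith)).trans h
  choose R hR hRs using h1
  let U : M → Set M := fun x => (chartAt E4 x).symm '' ball (chartAt E4 x x) (R x)
  have hsub : ∀ x, ball (chartAt E4 x x) (R x) ⊆ (chartAt E4 x).target := fun x =>
    (ball_subset_closedBall.trans (closedBall_subset_closedBall (by linarith [hR x]))).trans
      (hRs x)
  have hU : ∀ x, IsOpen (U x) := fun x =>
    (chartAt E4 x).isOpen_image_symm_of_subset_target isOpen_ball (hsub x)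
  have hxU : ∀ x, x ∈ U x := fun x =>
    ⟨chartAt E4 x x, mem_ball_self (hR x), (chartAt E4 x).left_inv (mem_chart_source E4 x)⟩
  obtain ⟨f, hf⟩ := SmoothPartitionOfUnity.exists_isSubordinate 𝓘(ℝ, E4)
    (isClosed_univ (X := M)) U hU (fun x _ => mem_iUnion.2 ⟨x, hxU x⟩)
  have hfin : {i | (support (f i)).Nonempty}.Finite :=
    f.locallyFinite.finite_nonempty_of_compact
  have hts : ∀ i, tsupport (f i) ⊆ (chartAt E4 i).source := by
    intro i x hx
    obtain ⟨y, hy, rfl⟩ := hf i hx
    exact symm_mem (hsub i hy)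
  refine ⟨⟨hfin.toFinset, fun x => chartAt E4 x x, R, fun i => chartAt E4 i '' tsupport (f i),
    fun i => f i, hR, hRs, ?_, ?_, ?_, ?_, ?_⟩, fun i x => f.nonneg i x⟩
  · intro i
    exact ((isClosed_tsupport (f i)).isCompact).image_of_continuousOn
      ((chartAt E4 i).continuousOn.mono (hts i))
  · rintro i _ ⟨x, hx, rfl⟩
    obtain ⟨y, hy, rfl⟩ := hf i hx
    rwa [(chartAt E4 i).right_inv (hsub i hy)]
  · intro i
    exact (smoothF_iff _).1 (f i).contMDiff
  · intro i x hx
    by_contra hne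
    apply hx
    have hxt : x ∈ tsupport (f i) := subset_tsupport _ hne
    exact ⟨chartAt E4 i x, ⟨x, hxt, rfl⟩, (chartAt E4 i).left_inv (hts i hxt)⟩
  · intro x
    have h2 := f.sum_eq_one (mem_univ x)
    rw [finsum_eq_sum_of_support_subset] at h2
    · exact h2
    · intro p hp
      rw [Set.Finite.coe_toFinset]
      exact ⟨x, hp⟩

end PU

/-! ### the density -/

section Main

variable {M : Type*} [MetricSpace M] [CompactSpace M] [ChartedSpace E4 M]
    [IsManifold 𝓘(ℝ, E4) ∞ M] [MeasurableSpace M] [BorelSpace M]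

/-- `τ` is the (global) density of the positive (1,1)-current `Φ` with trace measure `s`. -/
structure Den (D : Dat M) (Φ : X2 M →ₗ[ℝ] ℝ) (s : Measure M) (τ : F2 E4 M) : Prop where
  pos : PosG D.J τ
  tr : ∀ x, qG D.F τ D.F x = 1
  meas : ∀ b : X2 M, AEStronglyMeasurable (qG D.F τ (b : F2 E4 M)) s
  rep : ∀ b : X2 M, Φ b = ∫ x, qG D.F τ (b : F2 E4 M) x ∂s

theorem Den.abs_le {D : Dat M} {Φ : X2 M →ₗ[ℝ] ℝ} {s : Measure M} {τ : F2 E4 M}
    (h : Den D Φ s τ) (b : X2 M) (x : M) :
    |qG D.F τ (b : F2 E4 M) x| ≤ 2 * D.nr (b : F2 E4 M) x := by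
  have h1 := abs_q_pos_le (D.sq x) (ChDens.spos D x) (h.pos x) (b.2.1 x)
  have h2 := h.tr x
  unfold qG at h2
  rw [h2, one_mul] at h1
  exact h1

theorem smF_val (f : SF M) (b : X2 M) :
    (mulX M f b : X2 M).1 = Ch.fmul f b.1 := rfl

theorem qG_mulX (D : Dat M) (τ : F2 E4 M) (f : SF M) (b : X2 M) (x : M) :
    qG D.F τ ((mulX M f b : X2 M) : F2 E4 M) x = f x * qG D.F τ (b : F2 E4 M) x :=
  q_smul_right _ _ _ _

theorem mulX_sum (P : BallPU M) (χ : M → SF M) (hχ : ∀ i x, χ i x = P.χ i x) (b : X2 M) :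
    b = ∑ i ∈ P.t, mulX M (χ i) b := by
  apply Subtype.ext
  rw [Submodule.coe_sum]
  funext x
  rw [Finset.sum_apply]
  have : ∀ i ∈ P.t, ((mulX M (χ i) b : X2 M) : F2 E4 M) x = P.χ i x • (b : F2 E4 M) x := by
    intro i _
    rw [← hχ i x]
    rfl
  rw [Finset.sum_congr rfl this, ← Finset.sum_smul, P.sum_one, one_smul]

/-- **existence of the global density.** -/
theorem exists_den (D : Dat M) {Φ : X2 M →ₗ[ℝ] ℝ} {s : Measure M} (hinv : D.IsInv Φ)
    (hnn : D.IsNonneg Φ) (hRM : D.IsRM Φ s) : ∃ τ : F2 E4 M, Den D Φ s τ := by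
  classical
  have hfin := hRM.fin
  obtain ⟨P, hPnn⟩ := exists_ballPU_nn M
  have hCD : ∀ i : M, _ := fun i => ChDens.chartDens D Φ s hinv hnn hRM i (P.x0 i) (P.R i)
    (P.R_pos i) (P.sub i)
  choose φ hφm hφp hφn hφb hform using hCD
  have h2sub : ∀ i, closedBall (P.x0 i) (2 * P.R i) ⊆ (chartAt E4 i).target := fun i =>
    (closedBall_subset_closedBall (by linarith [P.R_pos i])).trans (P.sub i)
  have hK2 : ∀ i, P.K i ⊆ closedBall (P.x0 i) (2 * P.R i) := fun i =>
    (P.K_sub i).trans (ball_subset_closedBall.trans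
      (closedBall_subset_closedBall (by linarith [P.R_pos i])))
  have hKt : ∀ i, P.K i ⊆ (chartAt E4 i).target := fun i => (hK2 i).trans (h2sub i)
  set β : M → E4 → Bil := fun i y =>
    if y ∈ P.K i then P.χ i ((chartAt E4 i).symm y) • φ i y else 0 with hβ
  have hβpos : ∀ i, PosG D.J (ext2 i (β i)) := by
    intro i
    refine DensM.pos_ext2 fun y hy => ?_
    simp only [hβ]
    split_ifs with h
    · exact Pos.smul (hφp i y (hK2 i h)) (hPnn i _)
    · exact pos_zero
  -- the key computation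
  have hkey : ∀ (i : M) (b : F2 E4 M), (∀ x, Alt (at2 b x)) → ∀ x,
      qG D.F (ext2 i (β i)) b x = (core i (closedBall (P.x0 i) (2 * P.R i))).indicator
        (fun x => P.χ i x * q (rep i D.F (chartAt E4 i x)) (φ i (chartAt E4 i x))
          (rep i b (chartAt E4 i x))) x := by
    intro i b hb x
    by_cases hx : x ∈ (chartAt E4 i).source
    · rw [Int.qG_chart' (ChDens.vol D) (fun x => (hβpos i x).alt) hb hx,
        DensM.rep_ext2_self ((chartAt E4 i).map_source hx)]
      simp only [hβ]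
      rw [(chartAt E4 i).left_inv hx]
      by_cases hxK : chartAt E4 i x ∈ P.K i
      · rw [if_pos hxK, indicator_of_mem ((Pol.mem_core_iff (h2sub i) hx).2 (hK2 i hxK)),
          q_smul_left]
      · rw [if_neg hxK, q_zero_left]
        have h0 : P.χ i x = 0 := by
          apply P.off i x
          intro h
          exact hxK ((Pol.mem_core_iff (hKt i) hx).1 h)
        by_cases hxc : x ∈ core i (closedBall (P.x0 i) (2 * P.R i))
        · rw [indicator_of_mem hxc, h0, zero_mul]
        · rw [indicator_of_notMem hxc]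
    · rw [indicator_of_notMem (fun h => hx (core_sub (h2sub i) h))]
      unfold qG
      rw [DensM.at2_ext2_notMem hx, q_zero_left]
  set τ : F2 E4 M := ∑ i ∈ P.t, ext2 i (β i) with hτ
  have hτx : ∀ x, at2 τ x = ∑ i ∈ P.t, at2 (ext2 i (β i)) x := by
    intro x
    show τ x = _
    rw [hτ, Finset.sum_apply]
    rfl
  have hτq : ∀ (b : F2 E4 M) (x : M), qG D.F τ b x = ∑ i ∈ P.t, qG D.F (ext2 i (β i)) b x := by
    intro b x
    unfold qG
    rw [hτx, q_sum_left]
  -- measurability of the pieces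
  have hmeas : ∀ (i : M) (b : X2 M),
      AEStronglyMeasurable (qG D.F (ext2 i (β i)) (b : F2 E4 M)) s := by
    intro i b
    have h1 : qG D.F (ext2 i (β i)) (b : F2 E4 M) =
        (core i (closedBall (P.x0 i) (2 * P.R i))).indicator
        (fun x => P.χ i x * q (rep i D.F (chartAt E4 i x)) (φ i (chartAt E4 i x))
          (rep i (b : F2 E4 M) (chartAt E4 i x))) := funext fun x => hkey i b b.2.1 x
    have hAm := core_meas (isCompact_closedBall (P.x0 i) (2 * P.R i)) (h2sub i)
    rw [h1, aestronglyMeasurable_indicator_iff hAm]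
    have hχc : Continuous (P.χ i) := by
      have := (smoothF_iff (P.χ i)).2 (P.smooth i)
      exact this.continuous
    refine hχc.aestronglyMeasurable.mul ?_
    -- a global measurable version of the representation of `b`
    obtain ⟨r, hr, hr1, hr2, hr3⟩ := exists_retr (P.x0 i) (P.R_pos i)
    have hbr : Continuous fun y => rep i (b : F2 E4 M) (r y) := by
      rw [continuous_iff_continuousAt]
      intro y
      have hy : r y ∈ (chartAt E4 i).target := P.sub i (ball_subset_closedBall (hr2 y))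
      have h2 : ContinuousAt (rep i (b : F2 E4 M)) (r y) :=
        ((b.2.2 i).continuousOn).continuousAt ((chartAt E4 i).open_target.mem_nhds hy)
      exact h2.comp hr.continuous.continuousAt
    have h3 := aesm_integrand (ChDens.smF D) (P.R_pos i) (P.sub i) s (hφm i) hbr.measurable
    have h4 := h3.comp_aemeasurable (aemeas_chart (isCompact_closedBall _ _) (h2sub i) s)
    refine h4.congr ?_
    rw [EventuallyEq, ae_restrict_iff' hAm]
    refine Eventually.of_forall fun x hx => ?_
    have hy := chart_core_mem (h2sub i) hx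
    simp only [comp_apply]
    rw [hr1 _ hy]
  have habs : ∀ (i : M) (b : X2 M) (x : M),
      |qG D.F (ext2 i (β i)) (b : F2 E4 M) x| ≤ 2 * (P.χ i x * D.nr (b : F2 E4 M) x) := by
    intro i b x
    have h1 := abs_q_pos_le (D.sq x) (ChDens.spos D x) (hβpos i x) (b.2.1 x)
    have h2 : q (at2 D.F x) (at2 (ext2 i (β i)) x) (at2 D.F x) ≤ P.χ i x := by
      have h3 := hkey i D.F (fun x => (ChDens.spos D x).alt) x
      unfold qG at h3
      rw [h3]
      by_cases hxc : x ∈ core i (closedBall (P.x0 i) (2 * P.R i))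
      · rw [indicator_of_mem hxc, hφn i _ (chart_core_mem (h2sub i) hxc), mul_one]
      · rw [indicator_of_notMem hxc]
        exact hPnn i x
    refine h1.trans ?_
    have h4 : 0 ≤ D.nr (b : F2 E4 M) x := Real.sqrt_nonneg _
    have h5 : nr (atJ D.J x) (at2 D.F x) (at2 (b : F2 E4 M) x) = D.nr (b : F2 E4 M) x := rfl
    rw [h5]
    gcongr
  have hint : ∀ (i : M) (b : X2 M), Integrable (qG D.F (ext2 i (β i)) (b : F2 E4 M)) s := by
    intro i b
    have hχc : Continuous (P.χ i) := ((smoothF_iff (P.χ i)).2 (P.smooth i)).continuous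
    have hc : Continuous fun x => 2 * (P.χ i x * D.nr (b : F2 E4 M) x) :=
      continuous_const.mul (hχc.mul (En4.cont_nr D b.2))
    refine Integrable.mono' (hc.integrable_of_hasCompactSupport
      (HasCompactSupport.of_compactSpace _)) (hmeas i b) ?_
    exact Eventually.of_forall fun x => habs i b x
  refine ⟨τ, ⟨?_, ?_, ?_, ?_⟩⟩
  · intro x
    rw [hτx]
    exact pos_sum _ _ fun i _ => hβpos i x
  · intro x
    rw [hτq]
    have h1 : ∀ i ∈ P.t, qG D.F (ext2 i (β i)) D.F x = P.χ i x := by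
      intro i _
      rw [hkey i D.F (fun x => (ChDens.spos D x).alt) x]
      by_cases hxc : x ∈ core i (closedBall (P.x0 i) (2 * P.R i))
      · rw [indicator_of_mem hxc, hφn i _ (chart_core_mem (h2sub i) hxc), mul_one]
      · rw [indicator_of_notMem hxc]
        symm
        apply P.off i x
        rintro ⟨y, hy, rfl⟩
        exact hxc ⟨y, hK2 i hy, rfl⟩
    rw [Finset.sum_congr rfl h1, P.sum_one]
  · intro b
    have h1 : qG D.F τ (b : F2 E4 M) =
        fun x => ∑ i ∈ P.t, qG D.F (ext2 i (β i)) (b : F2 E4 M) x := funext fun x => hτq _ x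
    rw [h1]
    exact Finset.aestronglyMeasurable_fun_sum _ fun i _ => hmeas i b
  · intro b
    let χ : M → SF M := fun i => ⟨P.χ i, (smoothF_iff _).2 (P.smooth i)⟩
    have h1 : ∀ i ∈ P.t, Φ (mulX M (χ i) b) =
        ∫ x, qG D.F (ext2 i (β i)) (b : F2 E4 M) x ∂s := by
      intro i _
      rw [hform i _ (by
        intro x hx
        rw [at2_mulX]
        have h3 : χ i x = 0 := by
          apply P.off i x
          rintro ⟨y, hy, rfl⟩
          exact hx ⟨y, hK2 i hy, rfl⟩
        rw [h3]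
        exact bzero_smul _),
        ← integral_indicator (core_meas (isCompact_closedBall _ _) (h2sub i))]
      congr 1
      funext x
      rw [hkey i _ b.2.1 x]
      by_cases hxc : x ∈ core i (closedBall (P.x0 i) (2 * P.R i))
      · rw [indicator_of_mem hxc, indicator_of_mem hxc, mulX_coe, Vm.rep_fmul,
          (chartAt E4 i).left_inv (core_sub (h2sub i) hxc), q_smul_right]
        rfl
      · rw [indicator_of_notMem hxc, indicator_of_notMem hxc]
    conv_lhs => rw [mulX_sum P χ (fun i x => rfl) b]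
    rw [map_sum, Finset.sum_congr rfl h1, ← integral_finsetSum _ fun i _ => hint i b]
    congr 1
    funext x
    rw [hτq]

end Main

end

end Crest.Agent.R235.CurDens_4
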