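import Mathlib
import Crest.Agent.R235.CurDens_4

/-!
Row 235 (S0364), helper4: currents given by a density, `Φ b = ∫ q(τ_x, b_x) ds`: the calculus of
multiplication of a positive (1,1)-current by bounded Borel functions / restriction to Borel sets.
-/

set_option autoImplicit false
set_option maxSynthPendingDepth 3
set_option linter.unusedSectionVars false

open Set Function Filter MeasureTheory Metric
open scoped Manifold ContDiff Topology ENNReal NNReal

namespace Crest.Agent.R235.CurDens_4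

open Crest.Agent.R240 Crest.Agent.R240.Ch Crest.Agent.R240.Pol Crest.Agent.R240.En4
  Crest.Agent.R240.Vm Crest.Agent.R235.T1_195

noncomputable section

variable {M : Type*} [MetricSpace M] [CompactSpace M] [ChartedSpace E4 M]
    [IsManifold 𝓘(ℝ, E4) ∞ M] [MeasurableSpace M] [BorelSpace M]

/-- `τ` is a density field: positive, of trace one, measurable for `s`. -/
structure Dn (D : Dat M) (s : Measure M) (τ : F2 E4 M) : Prop where
  pos : PosG D.J τ
  tr : ∀ x, qG D.F τ D.F x = 1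
  meas : ∀ b : X2 M, AEStronglyMeasurable (qG D.F τ (b : F2 E4 M)) s

variable {D : Dat M} {s s' : Measure M} {τ : F2 E4 M}

theorem Den.dn {Φ : X2 M →ₗ[ℝ] ℝ} (h : Den D Φ s τ) : Dn D s τ := ⟨h.pos, h.tr, h.meas⟩

theorem Dn.ac (h : Dn D s τ) (hs : s' ≪ s) : Dn D s' τ :=
  ⟨h.pos, h.tr, fun b => (h.meas b).mono_ac hs⟩

theorem Dn.restrict (h : Dn D s τ) (A : Set M) : Dn D (s.restrict A) τ :=
  ⟨h.pos, h.tr, fun b => (h.meas b).restrict⟩

theorem Dn.smul (h : Dn D s τ) (c : ℝ≥0∞) : Dn D (c • s) τ :=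
  h.ac (Measure.smul_absolutelyContinuous)

theorem Dn.withDensity (h : Dn D s τ) (f : M → ℝ≥0∞) : Dn D (s.withDensity f) τ :=
  h.ac (withDensity_absolutelyContinuous _ _)

theorem Dn.abs_le (h : Dn D s τ) (b : X2 M) (x : M) :
    |qG D.F τ (b : F2 E4 M) x| ≤ 2 * D.nr (b : F2 E4 M) x := by
  have h1 := abs_q_pos_le (D.sq x) (ChDens.spos D x) (h.pos x) (b.2.1 x)
  have h2 := h.tr x
  unfold qG at h2
  rw [h2, one_mul] at h1
  exact h1

theorem exists_nr_bd (D : Dat M) (b : X2 M) : ∃ C : ℝ, 0 ≤ C ∧ ∀ x, D.nr (b : F2 E4 M) x ≤ C := by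
  obtain ⟨C, hC⟩ := (isCompact_univ.image (En4.cont_nr D b.2)).isBounded.bddAbove
  exact ⟨max C 0, le_max_right _ _, fun x => (hC ⟨x, mem_univ _, rfl⟩).trans (le_max_left _ _)⟩

theorem Dn.integrable (h : Dn D s τ) [IsFiniteMeasure s] (b : X2 M) :
    Integrable (qG D.F τ (b : F2 E4 M)) s := by
  obtain ⟨C, hC0, hC⟩ := exists_nr_bd D b
  refine Integrable.mono' (integrable_const (2 * C)) (h.meas b) ?_
  refine Eventually.of_forall fun x => (h.abs_le b x).trans ?_
  have := hC x
  linarith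

/-- the current with density `τ` and trace measure `s`. -/
def Dn.cur (h : Dn D s τ) [IsFiniteMeasure s] : X2 M →ₗ[ℝ] ℝ where
  toFun b := ∫ x, qG D.F τ (b : F2 E4 M) x ∂s
  map_add' b c := by
    rw [← integral_add (h.integrable b) (h.integrable c)]
    congr 1
    funext x
    exact q_add_right _ _ _ _
  map_smul' r b := by
    rw [RingHom.id_apply, smul_eq_mul, ← integral_const_mul]
    congr 1
    funext x
    exact q_smul_right _ _ _ _

theorem Dn.cur_apply (h : Dn D s τ) [IsFiniteMeasure s] (b : X2 M) :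
    h.cur b = ∫ x, qG D.F τ (b : F2 E4 M) x ∂s := rfl

theorem Dn.den (h : Dn D s τ) [IsFiniteMeasure s] : Den D h.cur s τ :=
  ⟨h.pos, h.tr, h.meas, fun _ => rfl⟩

theorem Den.eq_cur {Φ : X2 M →ₗ[ℝ] ℝ} (h : Den D Φ s τ) [IsFiniteMeasure s] : Φ = h.dn.cur := by
  ext b
  exact h.rep b

theorem Dn.q_pi (h : Dn D s τ) (b : X2 M) (x : M) :
    qG D.F τ ((D.pi' b : X2 M) : F2 E4 M) x = qG D.F τ (b : F2 E4 M) x := by
  have h1 := q_split (D.sq x) (ChDens.spos D x) (h.pos x).alt (b.2.1 x)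
  have h2 : antip (atJ D.J x) (at2 τ x) = 0 := antip_of_inv (h.pos x).inv
  have h3 : invp (atJ D.J x) (at2 τ x) = at2 τ x := invp_of_inv (h.pos x).inv
  rw [h2, h3, q_zero_left, add_zero] at h1
  exact h1.symm

theorem Dn.inv (h : Dn D s τ) [IsFiniteMeasure s] : D.IsInv h.cur := by
  intro b
  rw [h.cur_apply, h.cur_apply]
  congr 1
  funext x
  exact (h.q_pi b x).symm

theorem Dn.nonneg (h : Dn D s τ) [IsFiniteMeasure s] : D.IsNonneg h.cur := by
  intro P hP
  rw [h.cur_apply]
  refine integral_nonneg fun x => ?_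
  exact q_pos_pos (D.sq x) (ChDens.spos D x) (h.pos x) (hP x)

theorem Dn.ge (h : Dn D s τ) {b : F2 E4 M} {x : M} (hb : Alt (at2 b x)) {k : ℝ}
    (hk : ∀ v, k * at2 D.F x v (atJ D.J x v) ≤ at2 b x v (atJ D.J x v)) :
    k ≤ q (at2 D.F x) (at2 τ x) (invp (atJ D.J x) (at2 b x)) := by
  have hF := ChDens.spos D x
  have hpos : Pos (atJ D.J x) (invp (atJ D.J x) (at2 b x) + (-k) • at2 D.F x) := by
    have e : ∀ u v, (invp (atJ D.J x) (at2 b x) + (-k) • at2 D.F x) u v =
      invp (atJ D.J x) (at2 b x) u v + (-k) * at2 D.F x u v := fun _ _ => rfl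
    refine ⟨fun v => ?_, fun u v => ?_, fun v => ?_⟩
    · rw [e, hb.invp _ v, hF.alt v]; ring
    · rw [e, e, invp_inv (D.sq x), hF.inv]
    · rw [e, invp_diag (D.sq x) hb v]
      linarith [hk v]
  have h1 := q_pos_pos (D.sq x) hF (h.pos x) hpos
  rw [q_add_right, q_smul_right] at h1
  have h2 : q (at2 D.F x) (at2 τ x) (at2 D.F x) = 1 := h.tr x
  rw [h2] at h1
  linarith

theorem Dn.rm (h : Dn D s τ) [hfin : IsFiniteMeasure s] : D.IsRM h.cur s where
  fin := hfin
  trace f hf b hb := by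
    rw [h.cur_apply]
    congr 1
    funext x
    have h1 : at2 (b : F2 E4 M) x = f x • at2 D.F x := by rw [hb]; rfl
    unfold qG
    rw [h1, q_smul_right]
    have h2 : q (at2 D.F x) (at2 τ x) (at2 D.F x) = 1 := h.tr x
    rw [h2, mul_one]
  bound b := by
    rw [h.cur_apply]
    have h1 : ∀ x, |qG D.F τ ((D.pi' b : X2 M) : F2 E4 M) x| ≤ 2 * D.nr (b : F2 E4 M) x := by
      intro x
      rw [h.q_pi b x]
      exact h.abs_le b x
    have hc : Integrable (fun x => 2 * D.nr (b : F2 E4 M) x) s :=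
      (continuous_const.mul (En4.cont_nr D b.2)).integrable_of_hasCompactSupport
        (HasCompactSupport.of_compactSpace _)
    rw [← integral_const_mul]
    exact (abs_integral_le_integral_abs).trans
      (integral_mono (h.integrable _).abs hc h1)
  lower b k hk hge := by
    rw [h.cur_apply]
    refine integral_mono (hk.integrable_of_hasCompactSupport
      (HasCompactSupport.of_compactSpace _)) (h.integrable _) fun x => ?_
    exact h.ge (b.2.1 x) (hge x)

/-- a density current which kills the exact forms is a `Cur`. -/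
theorem Dn.toCur (h : Dn D s τ) [IsFiniteMeasure s] (hcl : Dat.KillsExact h.cur) :
    Cur D h.cur s := ⟨h.inv, h.nonneg, hcl, h.rm⟩

theorem cur_exists_den {Φ : X2 M →ₗ[ℝ] ℝ} (h : Cur D Φ s) : ∃ τ, Den D Φ s τ :=
  exists_den D h.inv h.nonneg h.rm

/-! ### restriction to a Borel set -/

theorem Dn.cur_restrict_add (h : Dn D s τ) [IsFiniteMeasure s] {A : Set M} (hA : MeasurableSet A)
    (b : X2 M) : (h.restrict A).cur b + (h.restrict Aᶜ).cur b = h.cur b :=
  integral_add_compl hA (h.integrable b)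

theorem Dn.cur_smul (h : Dn D s τ) [IsFiniteMeasure s] {c : ℝ≥0∞}
    [IsFiniteMeasure (c • s)] (b : X2 M) :
    (h.smul c).cur b = c.toReal * h.cur b := by
  rw [Dn.cur_apply, Dn.cur_apply, integral_smul_measure, smul_eq_mul]

end

end Crest.Agent.R235.CurDens_4
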