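import Mathlib
import Crest.Agent.R235.Atoms_4
import Crest.Agent.R235.AtomsB_4
import Crest.Agent.R235.CurMul_4

/-!
Row 235 (S0364), helper4: block ATOMS of the Siu decomposition (#1747 (7)): from
"`1_A(ν) S` is closed for every Borel `A`" to the decomposition `S = Σ c_i C_i + S''`.
-/

set_option autoImplicit false
set_option maxSynthPendingDepth 3
set_option linter.unusedSectionVars false

open Set Function Filter MeasureTheory Metric
open scoped Manifold ContDiff Topology ENNReal NNReal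

namespace Crest.Agent.R235.AtomsC_4

open Crest.Agent.R240 Crest.Agent.R240.Ch Crest.Agent.R240.En4
  Crest.Agent.R235.T1_195 Crest.Agent.R235.CurDens_4

noncomputable section

/-! ### kernels of size `r⁻²` -/

section Ker

variable {M : Type*} [MetricSpace M] [MeasurableSpace M]

/-- `f r y ≈ r⁻² 1_{d(x,y) ≲ r}` for small `r` (the constants may depend on `x`). -/
structure KerAt (f : ℝ → M → ℝ) (x : M) (K c r0 : ℝ) : Prop where
  K0 : 0 < K
  c0 : 0 < c
  r00 : 0 < r0
  upper : ∀ r y, 0 < r → r ≤ r0 → f r y ≤ K / r ^ 2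
  supp : ∀ r y, 0 < r → r ≤ r0 → c * r ≤ dist x y → f r y = 0
  lower : ∀ r y, 0 < r → r ≤ r0 → c * dist x y ≤ r → 1 / (K * r ^ 2) ≤ f r y

/-- a kernel of size `r⁻²`. -/
structure IsKer (k : ℝ → M → M → ℝ) : Prop where
  meas : ∀ r x, Measurable (k r x)
  nonneg : ∀ r x y, 0 ≤ k r x y
  at' : ∀ x, ∃ K c r0 : ℝ, KerAt (fun r => k r x) x K c r0

/-- the density at scale `r`. -/
def nuR (k : ℝ → M → M → ℝ) (s : Measure M) (r : ℝ) (x : M) : ℝ := ∫ y, k r x y ∂s

/-- `ν` is the density of `s` (limit of the densities at scale `r`). -/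
def IsNu (k : ℝ → M → M → ℝ) (s : Measure M) (ν : M → ℝ) : Prop :=
  ∀ x, Tendsto (fun r => nuR k s r x) (𝓝[>] 0) (𝓝 (ν x))

variable {k : ℝ → M → M → ℝ}

theorem IsKer.integrable (hk : IsKer k) (s : Measure M) [IsFiniteMeasure s] {x : M} {K c r0 : ℝ}
    (hx : KerAt (fun r => k r x) x K c r0) {r : ℝ}
    (hr : 0 < r) (hr0 : r ≤ r0) : Integrable (k r x) s := by
  refine Integrable.mono' (integrable_const (K / r ^ 2)) (hk.meas r x).aestronglyMeasurable ?_
  refine Eventually.of_forall fun y => ?_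
  rw [Real.norm_of_nonneg (hk.nonneg r x y)]
  exact hx.upper r y hr hr0

theorem IsNu.unique {s : Measure M} {ν ν' : M → ℝ} (h : IsNu k s ν) (h' : IsNu k s ν') :
    ν = ν' := funext fun x => tendsto_nhds_unique (h x) (h' x)

theorem nuR_nonneg (hk : IsKer k) (s : Measure M) (r : ℝ) (x : M) : 0 ≤ nuR k s r x :=
  integral_nonneg fun y => hk.nonneg r x y

theorem IsNu.nonneg (hk : IsKer k) {s : Measure M} {ν : M → ℝ} (h : IsNu k s ν) (x : M) :
    0 ≤ ν x := ge_of_tendsto (h x) (Eventually.of_forall fun r => nuR_nonneg hk s r x)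

theorem ev_le {r0 : ℝ} (hr0 : 0 < r0) : ∀ᶠ r : ℝ in 𝓝[>] 0, 0 < r ∧ r ≤ r0 := by
  filter_upwards [self_mem_nhdsWithin, mem_nhdsWithin_of_mem_nhds (Iic_mem_nhds hr0)] with r h1 h2
    using ⟨h1, h2⟩

theorem tendsto_scale {c : ℝ} (hc : 0 < c) :
    Tendsto (fun r : ℝ => c * r) (𝓝[>] 0) (𝓝[>] 0) := by
  refine tendsto_nhdsWithin_iff.2 ⟨?_, ?_⟩
  · have : Tendsto (fun r : ℝ => c * r) (𝓝 0) (𝓝 (c * 0)) := tendsto_id.const_mul c
    rw [mul_zero] at this
    exact this.mono_left nhdsWithin_le_nhds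
  · filter_upwards [self_mem_nhdsWithin] with r hr
    exact mul_pos hc hr

/-- the density of a multiple. -/
theorem IsNu.smul {s : Measure M} {ν : M → ℝ} (h : IsNu k s ν) (a : ℝ≥0∞) :
    IsNu k (a • s) (fun x => a.toReal * ν x) := by
  intro x
  have h1 : (fun r => nuR k (a • s) r x) = fun r => a.toReal * nuR k s r x := by
    funext r
    unfold nuR
    rw [integral_smul_measure, smul_eq_mul]
  rw [h1]
  exact (h x).const_mul _

end Ker

section Main

variable {M : Type*} [MetricSpace M] [CompactSpace M] [ChartedSpace E4 M]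
    [IsManifold 𝓘(ℝ, E4) ∞ M] [MeasurableSpace M] [BorelSpace M]

variable {k : ℝ → M → M → ℝ}

/-- the part of the density at `x ∈ A` coming from the complement of `A` is negligible. -/
theorem tendsto_compl (hk : IsKer k) (hb : Met.BiLip E4 M) {s : Measure M}
    [IsFiniteMeasure s] (hs : Dat.Growth2 s) {A : Set M} (hA : MeasurableSet A) :
    ∀ᵐ x ∂s, x ∈ A → Tendsto (fun r => nuR k s r x - nuR k (s.restrict A) r x) (𝓝[>] 0) (𝓝 0) := by
  filter_upwards [AtomsB_4.dens_compl hb hs hA] with x hx hxA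
  obtain ⟨K, c, r0, hkx⟩ := hk.at' x
  have h1 := hx hxA
  have h5 := (h1.comp (tendsto_scale hkx.c0)).const_mul (K * c ^ 2)
  rw [mul_zero] at h5
  have h6 : ∀ᶠ r : ℝ in 𝓝[>] 0, nuR k s r x - nuR k (s.restrict A) r x =
      ∫ y in Aᶜ, k r x y ∂s := by
    filter_upwards [ev_le hkx.r00] with r hr
    unfold nuR
    have := integral_add_compl hA (hk.integrable s hkx hr.1 hr.2)
    linarith
  refine Tendsto.congr' (h6.mono fun r hr => hr.symm) ?_
  refine squeeze_zero' (Eventually.of_forall fun r => integral_nonneg fun y => hk.nonneg r x y)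
    ?_ h5
  filter_upwards [ev_le hkx.r00] with r hr
  have hr1 := hr.1
  have h7 : ∫ y in Aᶜ, k r x y ∂s ≤ ∫ y in Aᶜ, (ball x (c * r)).indicator (fun _ => K / r ^ 2) y
      ∂s := by
    refine integral_mono (hk.integrable _ hkx hr.1 hr.2)
      ((integrable_const _).indicator measurableSet_ball) fun y => ?_
    by_cases hy : y ∈ ball x (c * r)
    · rw [indicator_of_mem hy]
      exact hkx.upper r y hr.1 hr.2
    · rw [indicator_of_notMem hy]
      rw [mem_ball, not_lt, dist_comm] at hy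
      exact (hkx.supp r y hr.1 hr.2 hy).le
  refine h7.trans (le_of_eq ?_)
  rw [integral_indicator measurableSet_ball, setIntegral_const, smul_eq_mul,
    measureReal_restrict_apply measurableSet_ball, inter_comm]
  show _ = K * c ^ 2 * (s.real (Aᶜ ∩ ball x (c * r)) / (c * r) ^ 2)
  have := hkx.c0
  field_simp

/-- the density of the restriction. -/
theorem nu_restrict (hk : IsKer k) (hb : Met.BiLip E4 M) {s : Measure M}
    [IsFiniteMeasure s] (hs : Dat.Growth2 s) {A : Set M} (hA : MeasurableSet A) {ν ν' : M → ℝ}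
    (hν : IsNu k s ν) (hν' : IsNu k (s.restrict A) ν') : ∀ᵐ x ∂s, x ∈ A → ν' x = ν x := by
  filter_upwards [tendsto_compl hk hb hs hA] with x hx hxA
  have h1 := hx hxA
  have h2 := (hν x).sub (hν' x)
  have h3 := tendsto_nhds_unique h1 h2
  linarith

/-- the density of a ball of radius `r` is bounded by the kernel density. -/
theorem ball_le (hk : IsKer k) (s : Measure M) [IsFiniteMeasure s] {x : M} {K c r0 : ℝ}
    (hkx : KerAt (fun r => k r x) x K c r0) {r : ℝ} (hr : 0 < r) (hr0 : c * r ≤ r0) :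
    s.real (ball x r) / r ^ 2 ≤ K * c ^ 2 * nuR k s (c * r) x := by
  have hc := hkx.c0
  have hK := hkx.K0
  have h7 : s.real (ball x r) * (1 / (K * (c * r) ^ 2)) ≤ nuR k s (c * r) x := by
    have h8 : ∫ y, (ball x r).indicator (fun _ => 1 / (K * (c * r) ^ 2)) y ∂s ≤
        ∫ y, k (c * r) x y ∂s := by
      refine integral_mono ((integrable_const _).indicator measurableSet_ball)
        (hk.integrable s hkx (mul_pos hc hr) hr0) fun y => ?_
      by_cases hy : y ∈ ball x r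
      · rw [indicator_of_mem hy]
        refine hkx.lower _ y (mul_pos hc hr) hr0 ?_
        rw [mem_ball, dist_comm] at hy
        gcongr
      · rw [indicator_of_notMem hy]
        exact hk.nonneg _ _ _
    rw [integral_indicator measurableSet_ball, setIntegral_const, smul_eq_mul] at h8
    exact h8
  have h9 : s.real (ball x r) / r ^ 2 =
      K * c ^ 2 * (s.real (ball x r) * (1 / (K * (c * r) ^ 2))) := by
    field_simp
  rw [h9]
  gcongr

/-- a point of density zero. -/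
theorem tendsto_ball_of_zero (hk : IsKer k) {s : Measure M} [IsFiniteMeasure s]
    {ν : M → ℝ} (hν : IsNu k s ν) {x : M} (hx : ν x = 0) :
    Tendsto (fun r : ℝ => s.real (ball x r) / r ^ 2) (𝓝[>] 0) (𝓝 0) := by
  obtain ⟨K, c, r0, hkx⟩ := hk.at' x
  have h1 := hν x
  rw [hx] at h1
  have h5 := (h1.comp (tendsto_scale hkx.c0)).const_mul (K * c ^ 2)
  rw [mul_zero] at h5
  refine squeeze_zero' (Eventually.of_forall fun r => by positivity) ?_ h5
  have h6 : ∀ᶠ r : ℝ in 𝓝[>] 0, 0 < c * r ∧ c * r ≤ r0 :=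
    (tendsto_scale hkx.c0).eventually (ev_le hkx.r00)
  filter_upwards [self_mem_nhdsWithin, h6] with r hr hr'
  exact ball_le hk s hkx hr hr'.2

variable {D : Dat M}

/-- INPUT of the block, for ONE current (density field `τ`, trace measure `s`, density `ν`):
for every Borel set `A ⊆ ℝ`, `1_A(ν) S` is closed and its density exists everywhere;
if it is `≥ a > 0` at one point, the mass is `≥ κ(a) > 0` (monotonicity). -/
structure Inp (k : ℝ → M → M → ℝ) {s : Measure M} {τ : F2 E4 M} (h : Dn D s τ)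
    [IsFiniteMeasure s] (ν : M → ℝ) : Prop where
  ker : IsKer k
  closed : ∀ A : Set ℝ, MeasurableSet A → Dat.KillsExact (h.restrict (ν ⁻¹' A)).cur
  meas : Measurable ν
  nu : IsNu k s ν
  lim : ∀ A : Set ℝ, MeasurableSet A → ∃ ν' : M → ℝ, IsNu k (s.restrict (ν ⁻¹' A)) ν'
  quant : ∀ a : ℝ, 0 < a → ∃ κ : ℝ, 0 < κ ∧ ∀ A : Set ℝ, MeasurableSet A → ∀ ν' : M → ℝ,
    IsNu k (s.restrict (ν ⁻¹' A)) ν' → ∀ x, a ≤ ν' x → κ ≤ s.real (ν ⁻¹' A)

/-- a closed positive current of density one almost everywhere. -/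
structure One (D : Dat M) (k : ℝ → M → M → ℝ) (Φ : X2 M →ₗ[ℝ] ℝ) (s : Measure M) : Prop where
  cur : Cur D Φ s
  one : ∃ ν : M → ℝ, IsNu k s ν ∧ ∀ᵐ x ∂s, ν x = 1

section Inp

variable {s : Measure M} {τ : F2 E4 M} {h : Dn D s τ} [IsFiniteMeasure s] {ν : M → ℝ}

theorem Inp.closed' (H : Inp k h ν) : Dat.KillsExact h.cur := by
  intro b hb
  have h1 := H.closed univ MeasurableSet.univ b hb
  rw [Dn.cur_apply] at h1
  rw [Dn.cur_apply]
  simpa using h1

/-- quantisation. -/
theorem Inp.quant' (H : Inp k h ν) {a : ℝ} (ha : 0 < a) : ∃ κ : ℝ≥0∞, 0 < κ ∧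
    ∀ A : Set ℝ, MeasurableSet A → A ⊆ Ici a → s (ν ⁻¹' A) = 0 ∨ κ ≤ s (ν ⁻¹' A) := by
  obtain ⟨κ, hκ, hq⟩ := H.quant a ha
  refine ⟨ENNReal.ofReal κ, ENNReal.ofReal_pos.2 hκ, fun A hA hAa => ?_⟩
  rcases eq_or_ne (s (ν ⁻¹' A)) 0 with h0 | h0
  · exact Or.inl h0
  · right
    have hB : MeasurableSet (ν ⁻¹' A) := H.meas hA
    obtain ⟨ν', hν'⟩ := H.lim A hA
    have hgr : Dat.Growth2 s := (h.toCur H.closed').growth
    have h1 := nu_restrict H.ker D.bl hgr hB H.nu hν'
    have h2 : ∃ᵐ x ∂s, x ∈ ν ⁻¹' A := by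
      rw [Filter.Frequently, ae_iff]
      simp only [not_not]
      exact h0
    obtain ⟨x, hxA, hx⟩ := (h2.and_eventually h1).exists
    have h3 : a ≤ ν x := hAa hxA
    rw [← hx hxA] at h3
    rw [← ENNReal.ofReal_toReal (measure_ne_top s (ν ⁻¹' A))]
    exact ENNReal.ofReal_le_ofReal (hq A hA ν' hν' x h3)

end Inp

/-- the component of multiplicity `t`: `C_t = t⁻¹ 1_{ν = t} S`, as a measure. -/
def cm (s : Measure M) (ν : M → ℝ) (t : ℝ) : Measure M :=
  (ENNReal.ofReal t⁻¹) • s.restrict (ν ⁻¹' {t})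

instance (s : Measure M) [IsFiniteMeasure s] (ν : M → ℝ) (t : ℝ) : IsFiniteMeasure (cm s ν t) := by
  unfold cm
  exact Measure.smul_finite _ ENNReal.ofReal_ne_top

theorem cm_dn {s : Measure M} {τ : F2 E4 M} (h : Dn D s τ) (ν : M → ℝ) (t : ℝ) :
    Dn D (cm s ν t) τ := (h.restrict _).smul _

theorem cm_cur {s : Measure M} [IsFiniteMeasure s] {τ : F2 E4 M} (h : Dn D s τ) (ν : M → ℝ)
    {t : ℝ} (ht : 0 < t) (b : X2 M) :
    (cm_dn h ν t).cur b = t⁻¹ * (h.restrict (ν ⁻¹' {t})).cur b := by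
  rw [Dn.cur_apply, Dn.cur_apply]
  unfold cm
  rw [integral_smul_measure, smul_eq_mul, ENNReal.toReal_ofReal (by positivity)]

/-- the component of multiplicity `t` is closed, of density one. -/
theorem one_cm {s : Measure M} {τ : F2 E4 M} {h : Dn D s τ}
    [IsFiniteMeasure s] {ν : M → ℝ} (H : Inp k h ν) {t : ℝ} (ht : 0 < t) :
    One D k (cm_dn h ν t).cur (cm s ν t) := by
  have hcl := H.closed'
  have hνm := H.meas
  have hν := H.nu
  have hB : MeasurableSet (ν ⁻¹' {t}) := hνm (measurableSet_singleton t)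
  have hclB := H.closed {t} (measurableSet_singleton t)
  have hcurB : Cur D (h.restrict (ν ⁻¹' {t})).cur (s.restrict (ν ⁻¹' {t})) :=
    (h.restrict _).toCur hclB
  have hscl : Dat.KillsExact (cm_dn h ν t).cur := by
    intro b hb
    rw [cm_cur h ν ht, hclB b hb, mul_zero]
  refine ⟨(cm_dn h ν t).toCur hscl, ?_⟩
  obtain ⟨ν', hν'⟩ := H.lim {t} (measurableSet_singleton t)
  refine ⟨_, hν'.smul (ENNReal.ofReal t⁻¹), ?_⟩
  have h1 := nu_restrict H.ker D.bl (h.toCur hcl).growth hB hν hν'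
  have h2 : ∀ᵐ x ∂(s.restrict (ν ⁻¹' {t})), (ENNReal.ofReal t⁻¹).toReal * ν' x = 1 := by
    rw [ae_restrict_iff' hB]
    filter_upwards [h1] with x hx hxB
    rw [hx hxB, ENNReal.toReal_ofReal (by positivity), show ν x = t from hxB]
    field_simp
  exact Measure.smul_absolutelyContinuous.ae_le h2

/-- **SIU DECOMPOSITION.**  `F` = the set of multiplicities (countable, locally finite in
`(0, ∞)`), `C_t` (`t ∈ F`) closed positive of density one, and for every `a > 0`
`S = Σ_{t ∈ F, t ≥ a} t C_t + 1_{ν < a} S`; `S = Σ_t t C_t + S''`, `S''` of density zero. -/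
theorem siu {s : Measure M} {τ : F2 E4 M} {h : Dn D s τ}
    [IsFiniteMeasure s] {ν : M → ℝ} (H : Inp k h ν) :
    ∃ F : Set ℝ, F.Countable ∧ (∀ t ∈ F, 0 < t ∧ s (ν ⁻¹' {t}) ≠ 0) ∧
      (∀ t ∈ F, One D k (cm_dn h ν t).cur (cm s ν t)) ∧
      (∀ a : ℝ, 0 < a → (F ∩ Ici a).Finite) ∧ (∀ᵐ x ∂s, 0 < ν x → ν x ∈ F) ∧
      (∀ a : ℝ, 0 < a → ∀ Fa : Finset ℝ, (Fa : Set ℝ) = F ∩ Ici a → ∀ b : X2 M,
        h.cur b = ∑ t ∈ Fa, t * (cm_dn h ν t).cur b + (h.restrict (ν ⁻¹' Iio a)).cur b) ∧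
      (∀ b : X2 M, HasSum (fun t : F => (t : ℝ) * (cm_dn h ν t).cur b)
        (h.cur b - (h.restrict (ν ⁻¹' Iic 0)).cur b)) ∧
      Cur D (h.restrict (ν ⁻¹' Iic 0)).cur (s.restrict (ν ⁻¹' Iic 0)) ∧
      Dat.ZeroDens (s.restrict (ν ⁻¹' Iic 0)) := by
  have hνm := H.meas
  have hν := H.nu
  obtain ⟨F, hFc, hF1, hF2, hF3⟩ := Atoms_4.exists_enum s hνm (fun a ha => H.quant' ha)
  have hone : ∀ t ∈ F, One D k (cm_dn h ν t).cur (cm s ν t) := fun t ht =>
    one_cm H (hF1 t ht).1
  have hcm : ∀ (b : X2 M) (t : ℝ), 0 < t → t * (cm_dn h ν t).cur b =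
      ∫ x in ν ⁻¹' {t}, qG D.F τ (b : F2 E4 M) x ∂s := by
    intro b t ht
    rw [cm_cur h ν ht, ← mul_assoc, mul_inv_cancel₀ ht.ne', one_mul]
    rfl
  refine ⟨F, hFc, hF1, hone, hF2, hF3, ?_, ?_, ?_, ?_⟩
  · intro a ha Fa hFa b
    have h1 : ∑ t ∈ Fa, t * (cm_dn h ν t).cur b =
        ∫ x in ⋃ t ∈ Fa, ν ⁻¹' {t}, qG D.F τ (b : F2 E4 M) x ∂s := by
      rw [integral_biUnion_finset Fa (fun t _ => hνm (measurableSet_singleton t))
        (fun t _ t' _ htt => Disjoint.preimage _ (by simpa using htt))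
        (fun t _ => (h.integrable b).integrableOn)]
      refine Finset.sum_congr rfl fun t ht => hcm b t ?_
      have : t ∈ (Fa : Set ℝ) := ht
      rw [hFa] at this
      exact (hF1 t this.1).1
    have h2 : (⋃ t ∈ Fa, ν ⁻¹' {t} : Set M) =ᵐ[s] ((ν ⁻¹' Iio a)ᶜ : Set M) := by
      refine eventuallyEq_set.2 ?_
      filter_upwards [hF3] with x hx
      simp only [mem_iUnion, mem_preimage, mem_singleton_iff, exists_prop, mem_compl_iff, mem_Iio,
        not_lt]
      constructor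
      · rintro ⟨t, ht, rfl⟩
        have : ν x ∈ (Fa : Set ℝ) := ht
        rw [hFa] at this
        exact this.2
      · intro hxa
        refine ⟨ν x, ?_, rfl⟩
        have : ν x ∈ (Fa : Set ℝ) := by
          rw [hFa]
          exact ⟨hx (ha.trans_le hxa), hxa⟩
        exact this
    rw [h1, setIntegral_congr_set h2, h.cur_apply, Dn.cur_apply, add_comm]
    exact (integral_add_compl (hνm measurableSet_Iio) (h.integrable b)).symm
  · intro b
    have : Countable F := hFc.to_subtype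
    have h1 : HasSum (fun t : F => ∫ x in ν ⁻¹' {(t : ℝ)}, qG D.F τ (b : F2 E4 M) x ∂s)
        (∫ x in ⋃ t : F, ν ⁻¹' {(t : ℝ)}, qG D.F τ (b : F2 E4 M) x ∂s) := by
      refine hasSum_integral_iUnion (fun t => hνm (measurableSet_singleton _)) ?_
        (h.integrable b).integrableOn
      intro t t' htt
      refine Disjoint.preimage _ ?_
      have : (t : ℝ) ≠ t' := fun h => htt (Subtype.ext h)
      simpa using this
    have h2 : (⋃ t : F, ν ⁻¹' {(t : ℝ)} : Set M) =ᵐ[s] ((ν ⁻¹' Iic 0)ᶜ : Set M) := by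
      refine eventuallyEq_set.2 ?_
      filter_upwards [hF3] with x hx
      simp only [mem_iUnion, mem_preimage, mem_singleton_iff, mem_compl_iff, mem_Iic,
        not_le]
      constructor
      · rintro ⟨t, ht⟩
        rw [ht]
        exact (hF1 t t.2).1
      · intro hx0
        exact ⟨⟨ν x, hx hx0⟩, rfl⟩
    have h3 : (∫ x in ⋃ t : F, ν ⁻¹' {(t : ℝ)}, qG D.F τ (b : F2 E4 M) x ∂s) =
        h.cur b - (h.restrict (ν ⁻¹' Iic 0)).cur b := by
      rw [setIntegral_congr_set h2, h.cur_apply, Dn.cur_apply]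
      exact eq_sub_of_add_eq' (integral_add_compl (hνm measurableSet_Iic) (h.integrable b))
    have h4 : (fun t : F => (t : ℝ) * (cm_dn h ν t).cur b) =
        fun t : F => ∫ x in ν ⁻¹' {(t : ℝ)}, qG D.F τ (b : F2 E4 M) x ∂s :=
      funext fun t => hcm b t (hF1 t t.2).1
    rw [← h3, h4]
    exact h1
  · exact (h.restrict _).toCur (H.closed _ measurableSet_Iic)
  · unfold Dat.ZeroDens
    rw [ae_restrict_iff' (hνm measurableSet_Iic)]
    refine Eventually.of_forall fun x hx => ?_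
    have hx0 : ν x = 0 := le_antisymm hx (hν.nonneg H.ker x)
    refine squeeze_zero' (Eventually.of_forall fun r => by positivity)
      ?_ (tendsto_ball_of_zero H.ker hν hx0)
    filter_upwards [self_mem_nhdsWithin] with r hr
    have hr : 0 < r := hr
    gcongr
    exact ENNReal.toReal_mono (measure_ne_top _ _) (Measure.restrict_apply_le _ _)

end Main

end

end Crest.Agent.R235.AtomsC_4
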