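import Crest.Agent.R235.FDADef_365

/-!
Row 235, package FD-A (leader helper365), sub-block B0 (helper785): the partition functions
`bet ε : ℝᵇ → ℝ`, `ε : Fin b → Bool` over the torus `ℝᵇ/ℤᵇ`.

* `bet ε` is continuous, `0 ≤ bet ε ≤ 1`, supported in a box of side `3/4`, so that the lattice
  translates of its support are pairwise disjoint (`bet_disj`);
* `∑ ε, ∑ᶠ m, bet ε (h - lat m) ^ 2 = 1` (`sum_sq`);
* near `0`: `bet 0 = 1` and all the other translates vanish (`plateau`).
* `bsum ε F h = ∑ᶠ m, bet ε (h - lat m) • F m`: a single term (`exists_single`), continuity with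
  parameters (`continuous_bsum`), equivariance (`bsum_add`).
-/

set_option autoImplicit false

open Topology Set Function

namespace Crest.Agent.R235.Bet_785

open Crest.Agent.R235.FDADef_365

noncomputable section

/-- the plateau tent: `1` on `|x| ≤ 1/8`, `0` off `|x| ≤ 3/8`, linear in between. -/
def p (x : ℝ) : ℝ := max 0 (min 1 (4 * (3 / 8 - |x|)))

theorem continuous_p : Continuous p := by unfold p; fun_prop

theorem p_nonneg (x : ℝ) : 0 ≤ p x := le_max_left _ _

theorem p_le_one (x : ℝ) : p x ≤ 1 := max_le zero_le_one (min_le_left _ _)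

theorem p_eq_one {x : ℝ} (hx : |x| ≤ 1 / 8) : p x = 1 := by
  unfold p
  rw [min_eq_left (by linarith), max_eq_right zero_le_one]

theorem p_eq_zero {x : ℝ} (hx : 3 / 8 ≤ |x|) : p x = 0 := by
  unfold p
  exact max_eq_left ((min_le_right _ _).trans (by linarith))

theorem abs_lt_of_p_ne {x : ℝ} (hx : p x ≠ 0) : |x| < 3 / 8 := by
  by_contra h
  exact hx (p_eq_zero (not_lt.1 h))

/-- the shift attached to a boolean. -/
def sh (e : Bool) : ℝ := if e then 1 / 2 else 0

/-- the functions `bet`. -/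
def bet {b : ℕ} (ε : Fin b → Bool) (h : Fin b → ℝ) : ℝ := ∏ i, Real.sqrt (p (h i - sh (ε i)))

variable {b : ℕ}

theorem continuous_bet (ε : Fin b → Bool) : Continuous (bet ε) := by
  unfold bet
  exact continuous_finsetProd _ fun i _ =>
    Real.continuous_sqrt.comp (continuous_p.comp (by fun_prop))

theorem bet_nonneg (ε : Fin b → Bool) (h : Fin b → ℝ) : 0 ≤ bet ε h :=
  Finset.prod_nonneg fun _ _ => Real.sqrt_nonneg _

theorem bet_le_one (ε : Fin b → Bool) (h : Fin b → ℝ) : bet ε h ≤ 1 :=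
  Finset.prod_le_one (fun _ _ => Real.sqrt_nonneg _) fun _ _ =>
    Real.sqrt_le_one.2 (p_le_one _)

theorem bet_sq (ε : Fin b → Bool) (h : Fin b → ℝ) : bet ε h ^ 2 = ∏ i, p (h i - sh (ε i)) := by
  unfold bet
  rw [← Finset.prod_pow]
  exact Finset.prod_congr rfl fun i _ => Real.sq_sqrt (p_nonneg _)

theorem abs_lt_of_bet_ne {ε : Fin b → Bool} {h : Fin b → ℝ} (hb : bet ε h ≠ 0) (i : Fin b) :
    |h i - sh (ε i)| < 3 / 8 := by
  refine abs_lt_of_p_ne fun h0 => hb ?_
  unfold bet
  refine Finset.prod_eq_zero (Finset.mem_univ i) ?_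
  rw [h0, Real.sqrt_zero]

/-- the lattice translates of the support are disjoint. -/
theorem bet_disj {ε : Fin b → Bool} {h : Fin b → ℝ} {m n : Fin b → ℤ}
    (hm : bet ε (h - lat m) ≠ 0) (hn : bet ε (h - lat n) ≠ 0) : m = n := by
  funext i
  have h1 := abs_lt.1 (abs_lt_of_bet_ne hm i)
  have h2 := abs_lt.1 (abs_lt_of_bet_ne hn i)
  simp only [Pi.sub_apply, lat] at h1 h2
  have h3 : ((m i - n i : ℤ) : ℝ) < 1 := by push_cast; linarith
  have h4 : (-1 : ℝ) < ((m i - n i : ℤ) : ℝ) := by push_cast; linarith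
  have h5 : m i - n i < 1 := by exact_mod_cast h3
  have h6 : -1 < m i - n i := by exact_mod_cast h4
  omega

/-- bounded support. -/
theorem norm_lt_of_bet_ne {ε : Fin b → Bool} {h : Fin b → ℝ} (hb : bet ε h ≠ 0) : ‖h‖ < 1 := by
  rw [pi_norm_lt_iff one_pos]
  intro i
  have h1 := abs_lt.1 (abs_lt_of_bet_ne hb i)
  rw [Real.norm_eq_abs, abs_lt]
  have h2 : 0 ≤ sh (ε i) ∧ sh (ε i) ≤ 1 / 2 := by
    unfold sh; split_ifs <;> norm_num
  constructor <;> linarith [h1.1, h1.2, h2.1, h2.2]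

theorem bet_eq_zero {ε : Fin b → Bool} {h : Fin b → ℝ} (hh : 1 ≤ ‖h‖) : bet ε h = 0 := by
  by_contra hb
  exact absurd (norm_lt_of_bet_ne hb) (not_lt.2 hh)

/-! ### the lattice points near a bounded set -/

/-- the lattice points of norm `≤ R + 1`. -/
def box (b : ℕ) (R : ℝ) : Finset (Fin b → ℤ) :=
  Fintype.piFinset fun _ => Finset.Icc (-⌈R + 1⌉) ⌈R + 1⌉

theorem mem_box {R : ℝ} {h : Fin b → ℝ} (hh : ‖h‖ ≤ R) {ε : Fin b → Bool} {m : Fin b → ℤ}
    (hm : bet ε (h - lat m) ≠ 0) : m ∈ box b R := by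
  rw [box, Fintype.mem_piFinset]
  intro i
  have h1 := norm_lt_of_bet_ne hm
  have h2 : |h i - m i| < 1 := lt_of_le_of_lt (norm_le_pi_norm (h - lat m) i) h1
  have h3 : |h i| ≤ R := (norm_le_pi_norm h i).trans hh
  have h4 := abs_lt.1 h2
  have h5 := abs_le.1 h3
  have h6 : R + 1 ≤ ⌈R + 1⌉ := Int.le_ceil _
  rw [Finset.mem_Icc]
  constructor
  · have : -((⌈R + 1⌉ : ℤ) : ℝ) ≤ m i := by linarith
    exact_mod_cast this
  · have : (m i : ℝ) ≤ ((⌈R + 1⌉ : ℤ) : ℝ) := by linarith
    exact_mod_cast this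

/-! ### sums over the lattice -/

section sums

variable {E : Type*} [AddCommGroup E] [Module ℝ E]

/-- `∑ m, bet ε (h - m) • F m` -/
def bsum (ε : Fin b → Bool) (F : (Fin b → ℤ) → E) (h : Fin b → ℝ) : E :=
  ∑ᶠ m : Fin b → ℤ, bet ε (h - lat m) • F m

theorem support_subset {R : ℝ} {h : Fin b → ℝ} (hh : ‖h‖ ≤ R) (ε : Fin b → Bool)
    (F : (Fin b → ℤ) → E) :
    (support fun m : Fin b → ℤ => bet ε (h - lat m) • F m) ⊆ box b R := by
  intro m hm
  rw [mem_support] at hm
  exact mem_box hh (left_ne_zero_of_smul hm)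

/-- the sum as a finite sum. -/
theorem bsum_eq_sum {R : ℝ} {h : Fin b → ℝ} (hh : ‖h‖ ≤ R) (ε : Fin b → Bool)
    (F : (Fin b → ℤ) → E) :
    bsum ε F h = ∑ m ∈ box b R, bet ε (h - lat m) • F m :=
  finsum_eq_sum_of_support_subset _ (support_subset hh ε F)

/-- at every `h` at most one term: there is `m₀` (independent of `F`) with
`bsum ε F h = bet ε (h - m₀) • F m₀`. -/
theorem exists_single (ε : Fin b → Bool) (h : Fin b → ℝ) : ∃ m₀ : Fin b → ℤ,
    (∀ m, m ≠ m₀ → bet ε (h - lat m) = 0) ∧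
    ∀ (E : Type*) [AddCommGroup E] [Module ℝ E] (F : (Fin b → ℤ) → E),
      bsum ε F h = bet ε (h - lat m₀) • F m₀ := by
  by_cases hex : ∃ m₀ : Fin b → ℤ, bet ε (h - lat m₀) ≠ 0
  · obtain ⟨m₀, hm₀⟩ := hex
    have h0 : ∀ m, m ≠ m₀ → bet ε (h - lat m) = 0 := by
      intro m hm
      by_contra hne
      exact hm (bet_disj hne hm₀)
    refine ⟨m₀, h0, fun E _ _ F => ?_⟩
    exact finsum_eq_single _ m₀ fun m hm => by rw [h0 m hm, zero_smul]
  · push Not at hex
    exact ⟨0, fun m _ => hex m, fun E _ _ F => finsum_eq_single _ 0 fun m _ => by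
      rw [hex m, zero_smul]⟩

theorem bsum_of_ne {ε : Fin b → Bool} {h : Fin b → ℝ} {m₀ : Fin b → ℤ}
    (hm₀ : bet ε (h - lat m₀) ≠ 0) (F : (Fin b → ℤ) → E) :
    bsum ε F h = bet ε (h - lat m₀) • F m₀ :=
  finsum_eq_single _ m₀ fun m hm => by
    have : bet ε (h - lat m) = 0 := by
      by_contra hne
      exact hm (bet_disj hne hm₀)
    rw [this, zero_smul]

theorem bsum_eq_zero {ε : Fin b → Bool} {h : Fin b → ℝ} (hz : ∀ m, bet ε (h - lat m) = 0)
    (F : (Fin b → ℤ) → E) : bsum ε F h = 0 := by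
  unfold bsum
  simp [hz]

theorem lat_add (m n : Fin b → ℤ) : lat (m + n) = lat m + lat n := by
  funext i; simp [lat]

theorem lat_sub (m n : Fin b → ℤ) : lat (m - n) = lat m - lat n := by
  funext i; simp [lat]

theorem lat_neg (m : Fin b → ℤ) : lat (-m) = -lat m := by
  funext i; simp [lat]

theorem lat_zero : lat (0 : Fin b → ℤ) = 0 := by
  funext i; simp [lat]

/-- equivariance. -/
theorem bsum_add (ε : Fin b → Bool) (F : (Fin b → ℤ) → E) (h : Fin b → ℝ) (n : Fin b → ℤ) :
    bsum ε F (h + lat n) = bsum ε (fun m => F (m + n)) h := by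
  unfold bsum
  rw [← finsum_comp_equiv (Equiv.addRight n)]
  refine finsum_congr fun m => ?_
  simp only [Equiv.coe_addRight]
  have : h + lat n - lat (m + n) = h - lat m := by rw [lat_add]; abel
  rw [this]

theorem bsum_add_left (ε : Fin b → Bool) (F G : (Fin b → ℤ) → E) (h : Fin b → ℝ) :
    bsum ε (fun m => F m + G m) h = bsum ε F h + bsum ε G h := by
  obtain ⟨m₀, -, h1⟩ := exists_single (b := b) ε h
  rw [h1, h1, h1, smul_add]

theorem bsum_smul (ε : Fin b → Bool) (c : ℝ) (F : (Fin b → ℤ) → E) (h : Fin b → ℝ) :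
    bsum ε (fun m => c • F m) h = c • bsum ε F h := by
  obtain ⟨m₀, -, h1⟩ := exists_single (b := b) ε h
  rw [h1, h1, smul_comm]

/-- linear maps. -/
theorem bsum_map {E' : Type*} [AddCommGroup E'] [Module ℝ E'] (ε : Fin b → Bool) (T : E →ₗ[ℝ] E')
    (F : (Fin b → ℤ) → E) (h : Fin b → ℝ) :
    bsum ε (fun m => T (F m)) h = T (bsum ε F h) := by
  by_cases hex : ∃ m₀ : Fin b → ℤ, bet ε (h - lat m₀) ≠ 0
  · obtain ⟨m₀, hm₀⟩ := hex
    rw [bsum_of_ne hm₀, bsum_of_ne hm₀, map_smul]
  · push Not at hex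
    rw [bsum_eq_zero hex, bsum_eq_zero hex, map_zero]

end sums

/-- continuity with parameters. -/
theorem continuous_bsum {X E : Type*} [TopologicalSpace X] [NormedAddCommGroup E]
    [NormedSpace ℝ E] (ε : Fin b → Bool) (F : (Fin b → ℤ) → X → E) (hF : ∀ m, Continuous (F m))
    (g : X → Fin b → ℝ) (hg : Continuous g) :
    Continuous fun x => bsum ε (fun m => F m x) (g x) := by
  rw [continuous_iff_continuousAt]
  intro x₀
  have hU : ∀ᶠ x in 𝓝 x₀, ‖g x‖ ≤ ‖g x₀‖ + 1 := by
    have : ∀ᶠ x in 𝓝 x₀, ‖g x‖ < ‖g x₀‖ + 1 :=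
      (hg.norm.tendsto x₀).eventually (gt_mem_nhds (lt_add_one _))
    exact this.mono fun x hx => hx.le
  have hc : ContinuousAt (fun x => ∑ m ∈ box b (‖g x₀‖ + 1), bet ε (g x - lat m) • F m x) x₀ := by
    refine (continuous_finsetSum _ fun m _ => ?_).continuousAt
    exact ((continuous_bet ε).comp (hg.sub continuous_const)).smul (hF m)
  refine hc.congr ?_
  filter_upwards [hU] with x hx
  exact (bsum_eq_sum hx ε _).symm

/-- a pointwise bound. -/
theorem norm_bsum_le {E : Type*} [NormedAddCommGroup E] [NormedSpace ℝ E] (ε : Fin b → Bool)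
    (F : (Fin b → ℤ) → E) (h : Fin b → ℝ) {C : ℝ} (hC : ∀ m, ‖F m‖ ≤ C) :
    ‖bsum ε F h‖ ≤ C := by
  obtain ⟨m₀, -, h1⟩ := exists_single (b := b) ε h
  rw [h1, norm_smul, Real.norm_of_nonneg (bet_nonneg _ _)]
  calc _ ≤ 1 * ‖F m₀‖ := mul_le_mul_of_nonneg_right (bet_le_one _ _) (norm_nonneg _)
    _ ≤ C := by rw [one_mul]; exact hC _

/-! ### the partition of unity -/

/-- one dimension: `∑ e, ∑ᶠ k, p (x - k - sh e) = 1`. -/
theorem sum_p (x : ℝ) (N : ℕ) (hx : |x| ≤ N) :
    ∑ k ∈ Finset.Icc (-(N + 1 : ℤ)) (N + 1), (p (x - k) + p (x - k - 1 / 2)) = 1 := by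
  -- the integer part and the fractional part
  set n : ℤ := ⌊x⌋ with hn
  set f : ℝ := Int.fract x with hf
  have hxf : x = n + f := (Int.floor_add_fract x).symm
  have hf0 : 0 ≤ f := Int.fract_nonneg x
  have hf1 : f < 1 := Int.fract_lt_one x
  have hz : ∀ k : ℤ, k ≠ n → k ≠ n + 1 → p (x - k) + p (x - k - 1 / 2) = 0 := by
    intro k h1 h2
    rcases lt_or_gt_of_ne h1 with h | h
    · -- `k ≤ n - 1` : `x - k ≥ 1`
      have h3 : (k : ℝ) ≤ n - 1 := by exact_mod_cast Int.le_sub_one_of_lt h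
      rw [p_eq_zero, p_eq_zero, add_zero]
      · rw [abs_of_nonneg (by linarith)]; linarith
      · rw [abs_of_nonneg (by linarith)]; linarith
    · have h3 : n + 2 ≤ k := by omega
      have h4 : (n : ℝ) + 2 ≤ k := by exact_mod_cast h3
      rw [p_eq_zero, p_eq_zero, add_zero]
      · rw [abs_of_nonpos (by linarith)]; linarith
      · rw [abs_of_nonpos (by linarith)]; linarith
  have hab := abs_le.1 hx
  have hn1 : -(N + 1 : ℤ) ≤ n := by
    have : -(N : ℝ) - 1 < n := by linarith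
    have h2 : -(N : ℤ) - 1 < n := by exact_mod_cast this
    omega
  have hn2 : n ≤ N := by
    have : (n : ℝ) ≤ N := by linarith
    exact_mod_cast this
  have hsub : ({n, n + 1} : Finset ℤ) ⊆ Finset.Icc (-(N + 1 : ℤ)) (N + 1) := by
    intro k hk
    simp only [Finset.mem_insert, Finset.mem_singleton] at hk
    rw [Finset.mem_Icc]
    omega
  rw [← Finset.sum_subset hsub (by
    intro k _ hk
    simp only [Finset.mem_insert, Finset.mem_singleton, not_or] at hk
    exact hz k hk.1 hk.2)]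
  rw [Finset.sum_pair (by omega)]
  have e1 : x - (n : ℝ) = f := by linarith
  have e2 : x - ((n + 1 : ℤ) : ℝ) = f - 1 := by push_cast; linarith
  rw [e1, e2]
  -- now a computation with `0 ≤ f < 1`
  have e3 : p (f - 1 - 1 / 2) = 0 := by
    apply p_eq_zero; rw [abs_of_nonpos (by linarith)]; linarith
  rw [e3, add_zero]
  rcases le_total f (1 / 8) with h1 | h1
  · rw [p_eq_one (by rw [abs_of_nonneg hf0]; exact h1), p_eq_zero (x := f - 1 / 2)
      (by rw [abs_of_nonpos (by linarith)]; linarith), p_eq_zero (x := f - 1)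
      (by rw [abs_of_nonpos (by linarith)]; linarith)]
    norm_num
  rcases le_total f (3 / 8) with h2 | h2
  · have a1 : p f = 4 * (3 / 8 - f) := by
      unfold p
      rw [abs_of_nonneg hf0, min_eq_right (by linarith), max_eq_right (by linarith)]
    have a2 : p (f - 1 / 2) = 4 * (3 / 8 - (1 / 2 - f)) := by
      unfold p
      rw [abs_of_nonpos (by linarith), min_eq_right (by linarith), max_eq_right (by linarith)]
      ring
    rw [a1, a2, p_eq_zero (x := f - 1) (by rw [abs_of_nonpos (by linarith)]; linarith)]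
    ring
  rcases le_total f (5 / 8) with h3 | h3
  · rw [p_eq_zero (x := f) (by rw [abs_of_nonneg hf0]; exact h2), p_eq_one (x := f - 1 / 2)
      (by rw [abs_le]; constructor <;> linarith), p_eq_zero (x := f - 1)
      (by rw [abs_of_nonpos (by linarith)]; linarith)]
    norm_num
  rcases le_total f (7 / 8) with h4 | h4
  · have a1 : p (f - 1) = 4 * (3 / 8 - (1 - f)) := by
      unfold p
      rw [abs_of_nonpos (by linarith), min_eq_right (by linarith), max_eq_right (by linarith)]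
      ring
    have a2 : p (f - 1 / 2) = 4 * (3 / 8 - (f - 1 / 2)) := by
      unfold p
      rw [abs_of_nonneg (by linarith), min_eq_right (by linarith), max_eq_right (by linarith)]
    rw [a1, a2, p_eq_zero (x := f) (by rw [abs_of_nonneg hf0]; linarith)]
    ring
  · rw [p_eq_zero (x := f) (by rw [abs_of_nonneg hf0]; linarith), p_eq_zero (x := f - 1 / 2)
      (by rw [abs_of_nonneg (by linarith)]; linarith), p_eq_one (x := f - 1)
      (by rw [abs_le]; constructor <;> linarith)]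
    norm_num

/-- **the partition of unity**, finite form. -/
theorem sum_sq_box (h : Fin b → ℝ) (N : ℕ) (hN : ‖h‖ ≤ N) :
    ∑ ε : Fin b → Bool, ∑ m ∈ box b N, bet ε (h - lat m) ^ 2 = 1 := by
  have hbox : box b N = Fintype.piFinset fun _ : Fin b => Finset.Icc (-(N + 1 : ℤ)) (N + 1) := by
    unfold box
    have : ⌈(N : ℝ) + 1⌉ = (N + 1 : ℤ) := by
      have : ((N : ℝ) + 1) = (((N + 1 : ℤ)) : ℝ) := by push_cast; ring
      rw [this, Int.ceil_intCast]
    rw [this]
  have h1 : ∀ i, ∑ e : Bool, ∑ k ∈ Finset.Icc (-(N + 1 : ℤ)) (N + 1), p (h i - k - sh e) = 1 := by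
    intro i
    rw [Fintype.sum_bool, ← Finset.sum_add_distrib, ← sum_p (h i) N
      ((norm_le_pi_norm h i).trans hN)]
    refine Finset.sum_congr rfl fun k _ => ?_
    simp only [sh, if_true, Bool.false_eq_true, if_false, sub_zero]
    ring
  have h2 : ∑ ε : Fin b → Bool, ∑ m ∈ box b N, bet ε (h - lat m) ^ 2
      = ∏ i : Fin b, ∑ e : Bool, ∑ k ∈ Finset.Icc (-(N + 1 : ℤ)) (N + 1), p (h i - k - sh e) := by
    rw [Finset.prod_univ_sum]
    rw [Fintype.piFinset_univ]
    refine Finset.sum_congr rfl fun ε _ => ?_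
    rw [Finset.prod_univ_sum, hbox]
    refine Finset.sum_congr rfl fun m _ => ?_
    rw [bet_sq]
    rfl
  rw [h2]
  exact Finset.prod_eq_one fun i _ => h1 i

/-- **the partition of unity**. -/
theorem sum_sq (h : Fin b → ℝ) :
    ∑ ε : Fin b → Bool, ∑ᶠ m : Fin b → ℤ, bet ε (h - lat m) ^ 2 = 1 := by
  obtain ⟨N, hN⟩ := exists_nat_ge ‖h‖
  rw [← sum_sq_box h N hN]
  refine Finset.sum_congr rfl fun ε _ => ?_
  refine finsum_eq_sum_of_support_subset _ ?_
  intro m hm
  rw [mem_support] at hm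
  exact mem_box hN (fun h0 => hm (by rw [h0]; simp))

/-- some `bet` is bounded below. -/
theorem exists_ge (h : Fin b → ℝ) : ∃ (ε : Fin b → Bool) (m : Fin b → ℤ),
    bet ε (h - lat m) ≠ 0 := by
  by_contra hc
  push Not at hc
  have := sum_sq h
  simp [hc] at this

/-- the index `0`. -/
def z0 : Fin b → Bool := fun _ => false

/-- **plateau**: near `0` only `bet z0` (translate `0`) is there, and it is `1`. -/
theorem plateau {h : Fin b → ℝ} (hh : ‖h‖ ≤ 1 / 8) : bet z0 h = 1 := by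
  unfold bet
  refine Finset.prod_eq_one fun i _ => ?_
  have h1 : |h i| ≤ 1 / 8 := (norm_le_pi_norm h i).trans hh
  simp only [z0, sh, Bool.false_eq_true, if_false, sub_zero]
  rw [p_eq_one h1, Real.sqrt_one]

theorem plateau_zero {h : Fin b → ℝ} (hh : ‖h‖ ≤ 1 / 8) {ε : Fin b → Bool} {m : Fin b → ℤ}
    (hne : ε ≠ z0 ∨ m ≠ 0) : bet ε (h - lat m) = 0 := by
  by_contra hb
  have hm : m = 0 ∧ ε = z0 := by
    have key : ∀ i, m i = 0 ∧ ε i = false := by
      intro i
      have h1 := abs_lt.1 (abs_lt_of_bet_ne hb i)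
      have h2 := abs_le.1 ((norm_le_pi_norm h i).trans hh)
      simp only [Pi.sub_apply, lat] at h1
      cases he : ε i
      · rw [he] at h1
        simp only [sh, Bool.false_eq_true, if_false, sub_zero] at h1
        have h3 : (m i : ℝ) < 1 := by linarith [h1.1, h2.2]
        have h4 : (-1 : ℝ) < m i := by linarith [h1.2, h2.1]
        have h5 : m i < 1 := by exact_mod_cast h3
        have h6 : -1 < m i := by exact_mod_cast h4
        exact ⟨by omega, rfl⟩
      · exfalso
        rw [he] at h1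
        simp only [sh, if_true] at h1
        have h3 : (m i : ℝ) < 0 := by linarith [h1.1, h2.2]
        have h4 : (-1 : ℝ) < m i := by linarith [h1.2, h2.1]
        have h5 : m i < 0 := by exact_mod_cast h3
        have h6 : -1 < m i := by exact_mod_cast h4
        omega
    exact ⟨funext fun i => (key i).1, funext fun i => (key i).2⟩
  rcases hne with h | h
  · exact h hm.2
  · exact h hm.1

end

end Crest.Agent.R235.Bet_785
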