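import Crest.Agent.R235.AdjBox_43
import Crest.Agent.R235.AdjGen_83
import Crest.Agent.R235.BranchProd_266

/-!
Row 235 (S0364), package ADJ, leaf L2 (helper266), part 3: the planar data of a foliation box.

`Pl B` for `B : FBox c p V`: the coordinates `e j` in which `ζ_j = (e j)^{m_j}`, with common radius
`ρ` and constant `K`, and a radius `δ` such that all points of the curve in `Θ (ball 0 δ)` lie on the
branches `v j '' (e j).source`.
-/

set_option autoImplicit false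
set_option maxSynthPendingDepth 3

open Set Function Filter MeasureTheory Metric
open scoped Manifold ContDiff Topology

universe u

namespace Crest.Agent.R235.BoxL2_266

open Crest.Agent.R240 Crest.Agent.R240.Ch Crest.Agent.R240.Int
open Crest.Agent.R235 Crest.Agent.R235.Glob_370 Crest.Agent.R235.Wind_688
open Crest.Agent.R235.NWDefs_334 Crest.Agent.R235.BrNF_266 Crest.Agent.R235.Adj
open Crest.Agent.R235.RootProd_266 Crest.Agent.R235.BranchProd_266

noncomputable section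

/-! ### shrinking a normal form -/

/-- restriction of the target of a local homeomorphism to a ball. -/
def shr (e : OpenPartialHomeomorph ℂ ℂ) (ρ : ℝ) : OpenPartialHomeomorph ℂ ℂ :=
  (e.symm.restrOpen (ball 0 ρ) isOpen_ball).symm

theorem shr_coe (e : OpenPartialHomeomorph ℂ ℂ) (ρ : ℝ) : (shr e ρ : ℂ → ℂ) = e := rfl

theorem shr_symm (e : OpenPartialHomeomorph ℂ ℂ) (ρ : ℝ) : ((shr e ρ).symm : ℂ → ℂ) = e.symm :=
  rfl

theorem shr_target (e : OpenPartialHomeomorph ℂ ℂ) (ρ : ℝ) :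
    (shr e ρ).target = e.target ∩ ball 0 ρ := rfl

theorem shr_source_sub (e : OpenPartialHomeomorph ℂ ℂ) (ρ : ℝ) : (shr e ρ).source ⊆ e.source := by
  intro s hs
  have h1 : (shr e ρ) s ∈ (shr e ρ).target := (shr e ρ).map_source hs
  have h2 : (shr e ρ).symm ((shr e ρ) s) = s := (shr e ρ).left_inv hs
  rw [← h2]
  exact e.map_target h1.1

theorem NF.shrink {n : ℕ∞} {f : ℂ → ℂ} {m : ℕ} {e : OpenPartialHomeomorph ℂ ℂ} {b : ℂ}
    {ρ K ρ' K' : ℝ} (h : NF n f m e b ρ K) (h0 : 0 < ρ') (h1 : ρ' ≤ ρ) (hK : K ≤ K') :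
    NF n f m (shr e ρ') b ρ' K' := by
  have hsub : ball (0 : ℂ) ρ' ⊆ ball 0 ρ := ball_subset_ball h1
  have ht : (shr e ρ').target = ball 0 ρ' := by
    rw [shr_target, h.tgt]
    exact inter_eq_right.2 hsub
  have hs0 : (0 : ℂ) ∈ (shr e ρ').source := by
    have h2 : (0 : ℂ) ∈ (shr e ρ').target := by
      rw [ht]
      exact mem_ball_self h0
    have h3 := (shr e ρ').map_target h2
    have h4 : (shr e ρ').symm 0 = 0 := by
      rw [shr_symm]
      have := e.left_inv h.src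
      rwa [h.zero] at this
    rwa [h4] at h3
  have hss := shr_source_sub e ρ'
  exact
    { b0 := h.b0
      ρ0 := h0
      K0 := h.K0.trans_le hK
      tgt := ht
      src := hs0
      zero := h.zero
      c1 := h.c1.mono hss
      c1s := h.c1s.mono hsub
      cn := h.cn.mono (sdiff_subset_sdiff_left hss)
      cns := h.cns.mono (sdiff_subset_sdiff_left hsub)
      pow := fun s hs => h.pow s (hss hs)
      bd := fun s hs => (h.bd s (hss hs)).trans (by gcongr)
      dbd := fun s hs => (h.dbd s (hss hs)).trans (by gcongr)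
      bds := fun w hw => (h.bds w (hsub hw)).trans (by gcongr)
      dbds := fun w hw => (h.dbds w (hsub hw)).trans (by gcongr) }

section Basic

variable {M : Type u} [TopologicalSpace M] [ChartedSpace E4 M] [IsManifold 𝓘(ℝ, E4) ∞ M]
variable {J : EndF E4 M} {c : JCurve J} {p : M} {V : Set M}

/-- the planar data of a foliation box. -/
structure Pl (B : FBox c p V) where
  /-- the coordinates of the branches -/
  e : Fin (c.L p).n → OpenPartialHomeomorph ℂ ℂ
  /-- the leading coefficients -/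
  b : Fin (c.L p).n → ℂ
  ρ : ℝ
  K : ℝ
  ρ_pos : 0 < ρ
  ρ_le : ρ ≤ 1
  K_pos : 0 < K
  nf : ∀ j, NF ⊤ (fun s => (B.v j s).1) (B.m j) (e j) (b j) ρ K
  bm : ∀ j, b j ^ B.m j = B.a j
  src : ∀ j, (e j).source ⊆ ball 0 B.r1
  δ : ℝ
  δ_pos : 0 < δ
  δ_le : δ ≤ B.ρ
  δ_lt : ∀ j, δ ≤ ρ ^ B.m j
  sheets : ∀ j, ∀ s ∈ ball (0 : ℂ) B.r1, B.v j s ∈ ball (0 : ℂ × ℂ) δ → s ∈ (e j).source

/-- `Θ (v j s) = u j s`. -/
theorem Θ_v (B : FBox c p V) (j : Fin (c.L p).n) {s : ℂ} (hs : s ∈ ball (0 : ℂ) B.r1) :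
    B.Θ (B.v j s) = (c.L p).u j s := by
  rw [B.v_eq]
  exact B.Θ.right_inv (B.inT j s hs)

theorem v_mem (B : FBox c p V) (j : Fin (c.L p).n) {s : ℂ} (hs : s ∈ ball (0 : ℂ) B.r1) :
    B.v j s ∈ ball (0 : ℂ × ℂ) B.R := by
  rw [B.v_eq, ← B.source]
  exact B.Θ.map_target (B.inT j s hs)

theorem Θ0_source (B : FBox c p V) : (0 : ℂ × ℂ) ∈ B.Θ.source := by
  rw [B.source]
  exact mem_ball_self B.R_pos

theorem p_mem (B : FBox c p V) : p ∈ B.Θ.target := by
  have h := B.Θ.map_source (Θ0_source B)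
  rwa [B.centre] at h

theorem symm_p (B : FBox c p V) : B.Θ.symm p = 0 := by
  have h := B.Θ.left_inv (Θ0_source B)
  rwa [B.centre] at h

theorem v_zero (B : FBox c p V) (j : Fin (c.L p).n) : B.v j 0 = 0 := by
  rw [B.v_eq, (c.L p).centre j, symm_p]

/-- a finite set of positive numbers has a positive lower bound. -/
theorem exists_pos_le {n : ℕ} (f : Fin n → ℝ) (hf : ∀ i, 0 < f i) :
    ∃ x > 0, x ≤ 1 ∧ ∀ i, x ≤ f i := by
  have h : ∀ s : Finset (Fin n), ∃ x > 0, x ≤ 1 ∧ ∀ i ∈ s, x ≤ f i := by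
    intro s
    induction s using Finset.induction_on with
    | empty => exact ⟨1, one_pos, le_rfl, by simp⟩
    | insert a s _ ih =>
      obtain ⟨x, hx, hx1, h⟩ := ih
      refine ⟨min x (f a), lt_min hx (hf a), (min_le_left _ _).trans hx1, fun i hi => ?_⟩
      rcases Finset.mem_insert.1 hi with rfl | hi
      · exact min_le_right _ _
      · exact (min_le_left _ _).trans (h i hi)
  obtain ⟨x, hx, hx1, h⟩ := h Finset.univ
  exact ⟨x, hx, hx1, fun i => h i (Finset.mem_univ i)⟩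

theorem exists_ub {n : ℕ} (f : Fin n → ℝ) : ∃ x > 0, ∀ i, f i ≤ x := by
  refine ⟨∑ i, |f i| + 1, by positivity, fun i => ?_⟩
  have h1 : |f i| ≤ ∑ i, |f i| :=
    Finset.single_le_sum (f := fun i => |f i|) (fun _ _ => abs_nonneg _) (Finset.mem_univ i)
  linarith [le_abs_self (f i)]

/-- **the planar data exist.** -/
theorem exists_pl [T2Space M] (B : FBox c p V) : Nonempty (Pl B) := by
  have h1 : ∀ j, ∃ (e : OpenPartialHomeomorph ℂ ℂ) (b : ℂ) (ρ K : ℝ), b ^ B.m j = B.a j ∧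
      e.source ⊆ ball 0 B.r1 ∧ NF ⊤ (fun s => (B.v j s).1) (B.m j) e b ρ K := by
    intro j
    have hs : ContDiffOn ℝ ((⊤ : ℕ∞) : WithTop ℕ∞) (fun s => (B.v j s).1) (ball 0 B.r1) :=
      (B.v_smooth j).fst
    exact branch_nf (Nat.one_le_iff_ne_zero.1 (B.m_pos j)) (B.a_ne j) B.r1_pos le_top hs (B.ζ0 j)
      (B.ζ1 j)
  choose e b ρ K hb hsrc hnf using h1
  obtain ⟨ρ0, hρ0, hρ1, hρ⟩ := exists_pos_le ρ fun j => (hnf j).ρ0
  obtain ⟨K0, hK0, hK⟩ := exists_ub K
  have hnf' : ∀ j, NF ⊤ (fun s => (B.v j s).1) (B.m j) (shr (e j) ρ0) (b j) ρ0 K0 := fun j =>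
    NF.shrink (hnf j) hρ0 (hρ j) (hK j)
  -- the neighbourhood
  have : LocallyCompactSpace M := ChartedSpace.locallyCompactSpace E4 M
  obtain ⟨C, hC, hCU, hCc⟩ := local_compact_nhds ((c.L p).openU.mem_nhds (c.L p).mem)
  have h2 : ∀ j, ∃ W ∈ 𝓝 p, ∀ s ∈ ball (0 : ℂ) 1, (c.L p).u j s ∈ W → s ∈ (shr (e j) ρ0).source := by
    intro j
    obtain ⟨r, hr1, hr⟩ := (c.L p).proper j C hCc hCU
    set A : Set ℂ := closedBall (0 : ℂ) r \ (shr (e j) ρ0).source with hA
    have hAc : IsCompact A := (isCompact_closedBall 0 r).diff (shr (e j) ρ0).open_source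
    have hcont : ContinuousOn ((c.L p).u j) A :=
      ((c.L p).disc j).hol.smooth.continuousOn.mono
        (sdiff_subset.trans (closedBall_subset_ball hr1))
    have hcl : IsClosed ((c.L p).u j '' A) := (hAc.image_of_continuousOn hcont).isClosed
    have hp : p ∉ (c.L p).u j '' A := by
      rintro ⟨s, hs, h⟩
      have hs1 : s ∈ ball (0 : ℂ) 1 := closedBall_subset_ball hr1 hs.1
      have h3 : s = 0 := ((c.L p).disc j).inj hs1 (mem_ball_self one_pos)
        (h.trans ((c.L p).centre j).symm)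
      subst h3
      exact hs.2 (hnf' j).src
    refine ⟨C ∩ ((c.L p).u j '' A)ᶜ, inter_mem hC (hcl.isOpen_compl.mem_nhds hp), ?_⟩
    rintro s hs ⟨hsC, hsA⟩
    by_contra h
    exact hsA ⟨s, ⟨by simpa using hr s hs hsC, h⟩, rfl⟩
  choose W hW hWs using h2
  have hWn : (⋂ j, W j) ∈ 𝓝 p := by
    rw [Filter.iInter_mem]
    exact hW
  have hpre : B.Θ ⁻¹' (⋂ j, W j) ∈ 𝓝 (0 : ℂ × ℂ) := by
    refine (B.Θ.continuousAt (Θ0_source B)).preimage_mem_nhds ?_
    rw [B.centre]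
    exact hWn
  obtain ⟨δ1, hδ1, hδW⟩ := Metric.mem_nhds_iff.1 hpre
  obtain ⟨δ2, hδ2, -, hδ2'⟩ := exists_pos_le (fun j => ρ0 ^ B.m j) fun j => by positivity
  refine ⟨⟨fun j => shr (e j) ρ0, b, ρ0, K0, hρ0, hρ1, hK0, hnf', hb,
    fun j => (shr_source_sub _ _).trans (hsrc j), min (min δ1 δ2) B.ρ,
    lt_min (lt_min hδ1 hδ2) B.ρ_pos, min_le_right _ _,
    fun j => ((min_le_left _ _).trans (min_le_right _ _)).trans (hδ2' j), ?_⟩⟩
  intro j s hs hv
  refine hWs j s (ball_subset_ball B.r1_le hs) ?_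
  have h3 : B.v j s ∈ ball (0 : ℂ × ℂ) δ1 :=
    ball_subset_ball ((min_le_left _ _).trans (min_le_left _ _)) hv
  have h4 : B.Θ (B.v j s) ∈ ⋂ j, W j := hδW h3
  rw [Θ_v B j hs] at h4
  exact mem_iInter.1 h4 j

end Basic

end

end Crest.Agent.R235.BoxL2_266
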