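import Crest.Agent.R235.BoxA_266

/-!
Row 235 (S0364), package ADJ, leaf L2 (helper266), part 4: the function `G = ∏ (z - Z_b w)` of a
foliation box in the coordinates `(ζ, z)`: basic properties and local sheets.
-/

set_option autoImplicit false
set_option maxSynthPendingDepth 3

open Set Function Filter MeasureTheory Metric
open scoped Manifold ContDiff Topology

universe u

namespace Crest.Agent.R235.BoxL2_266

open Crest.Agent.R240 Crest.Agent.R240.Ch Crest.Agent.R240.Int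
open Crest.Agent.R235 Crest.Agent.R235.Glob_370 Crest.Agent.R235.Wind_688
open Crest.Agent.R235.NWDefs_334 Crest.Agent.R235.BrNF_266 Crest.Agent.R235.Adj
open Crest.Agent.R235.RootProd_266 Crest.Agent.R235.BranchProd_266

noncomputable section

/-- the local root is the local inverse of the power. -/
theorem bt_near {m : ℕ} (hm : m ≠ 0) {w₀ : ℂ} (h0 : w₀ ≠ 0) :
    ∀ᶠ w in 𝓝 w₀, bt m w₀ (w ^ m) = w := by
  have h1 : Tendsto (fun w : ℂ => w / w₀) (𝓝 w₀) (𝓝 1) := by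
    have : ContinuousAt (fun w : ℂ => w / w₀) w₀ := by fun_prop
    simpa [ContinuousAt, div_self h0] using this
  have h2 : ContinuousAt Complex.arg 1 := Complex.continuousAt_arg (by simp)
  have hpos : 0 < Real.pi / m := by
    have : (0 : ℝ) < m := by exact_mod_cast Nat.pos_of_ne_zero hm
    positivity
  have h3 : ∀ᶠ u in 𝓝 (1 : ℂ), Complex.arg u ∈ Ioo (-(Real.pi / m)) (Real.pi / m) := by
    refine h2.eventually_mem (isOpen_Ioo.mem_nhds ?_)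
    rw [Complex.arg_one]
    exact ⟨by linarith, hpos⟩
  filter_upwards [h1.eventually h3] with w hw
  rw [bt, ← div_pow, Complex.pow_cpow_nat_inv hm hw.1 hw.2.le]
  field_simp

section Basic

variable {M : Type u} [TopologicalSpace M] [ChartedSpace E4 M] [IsManifold 𝓘(ℝ, E4) ∞ M]
variable {J : EndF E4 M} {c : JCurve J} {p : M} {V : Set M} {B : FBox c p V}

namespace Pl

variable (P : Pl B)

/-- the second coordinate of the branch `j` as a function of `w = e j s`. -/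
def Z (j : Fin (c.L p).n) (w : ℂ) : ℂ := (B.v j ((P.e j).symm w)).2

/-- the local equation in the coordinates `(ζ, z)`. -/
def G (x : ℂ × ℂ) : ℂ := bp B.m P.Z x.1 x.2

/-- the local equation on `M`. -/
def F (x : M) : ℂ := P.G (B.Θ.symm x)

variable {P}

theorem m_ne (B : FBox c p V) (j : Fin (c.L p).n) : B.m j ≠ 0 :=
  Nat.one_le_iff_ne_zero.1 (B.m_pos j)

theorem symm_mem {j : Fin (c.L p).n} {w : ℂ} (hw : w ∈ ball (0 : ℂ) P.ρ) :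
    (P.e j).symm w ∈ (P.e j).source :=
  (P.e j).map_target (by rw [(P.nf j).tgt]; exact hw)

theorem symm_mem' {j : Fin (c.L p).n} {w : ℂ} (hw : w ∈ ball (0 : ℂ) P.ρ) :
    (P.e j).symm w ∈ ball (0 : ℂ) B.r1 := P.src j (symm_mem hw)

theorem e_mem {j : Fin (c.L p).n} {s : ℂ} (hs : s ∈ (P.e j).source) :
    P.e j s ∈ ball (0 : ℂ) P.ρ := by
  rw [← (P.nf j).tgt]
  exact (P.e j).map_source hs

theorem e_symm {j : Fin (c.L p).n} {w : ℂ} (hw : w ∈ ball (0 : ℂ) P.ρ) :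
    P.e j ((P.e j).symm w) = w := (P.e j).right_inv (by rw [(P.nf j).tgt]; exact hw)

theorem symm_zero (j : Fin (c.L p).n) : (P.e j).symm 0 = 0 := by
  have h := (P.e j).left_inv (P.nf j).src
  rwa [(P.nf j).zero] at h

theorem e_ne {j : Fin (c.L p).n} {s : ℂ} (hs : s ∈ (P.e j).source) (h0 : s ≠ 0) :
    P.e j s ≠ 0 := by
  intro h
  have h1 := (P.e j).left_inv hs
  rw [h, symm_zero] at h1
  exact h0 h1.symm

theorem symm_ne {j : Fin (c.L p).n} {w : ℂ} (hw : w ∈ ball (0 : ℂ) P.ρ) (h0 : w ≠ 0) :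
    (P.e j).symm w ≠ 0 := by
  intro h
  have h1 := e_symm (P := P) (j := j) hw
  rw [h, (P.nf j).zero] at h1
  exact h0 h1.symm

theorem v_symm {j : Fin (c.L p).n} {w : ℂ} (hw : w ∈ ball (0 : ℂ) P.ρ) :
    B.v j ((P.e j).symm w) = (w ^ B.m j, P.Z j w) := by
  have h1 := (P.nf j).pow _ (symm_mem hw)
  rw [e_symm hw] at h1
  exact Prod.ext h1.symm rfl

theorem v_eq {j : Fin (c.L p).n} {s : ℂ} (hs : s ∈ (P.e j).source) :
    B.v j s = (P.e j s ^ B.m j, P.Z j (P.e j s)) := by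
  rw [← v_symm (e_mem hs), (P.e j).left_inv hs]

theorem Z_zero (j : Fin (c.L p).n) : P.Z j 0 = 0 := by
  rw [Z, symm_zero, v_zero]
  rfl

theorem Z_c1 (j : Fin (c.L p).n) : ContDiffOn ℝ 1 (P.Z j) (ball 0 P.ρ) := by
  have h1 : ContDiffOn ℝ 1 (fun s => (B.v j s).2) (ball 0 B.r1) :=
    ((B.v_smooth j).snd).of_le (by simp)
  exact h1.comp (P.nf j).c1s fun _ hw => symm_mem' hw

theorem Z_cn (j : Fin (c.L p).n) : ContDiffOn ℝ ∞ (P.Z j) (ball 0 P.ρ \ {0}) :=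
  ((B.v_smooth j).snd).comp (P.nf j).cns fun _ hw => symm_mem' hw.1

theorem Z_cont (j : Fin (c.L p).n) : ContinuousOn (P.Z j) (ball 0 P.ρ) := (Z_c1 j).continuousOn

theorem Z_smoothAt {j : Fin (c.L p).n} {w : ℂ} (hw : w ∈ ball (0 : ℂ) P.ρ) (h0 : w ≠ 0) :
    ContDiffAt ℝ ∞ (P.Z j) w :=
  (Z_cn j).contDiffAt ((isOpen_ball.sdiff isClosed_singleton).mem_nhds ⟨hw, h0⟩)

theorem Z_diffAt {j : Fin (c.L p).n} {w : ℂ} (hw : w ∈ ball (0 : ℂ) P.ρ) :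
    DifferentiableAt ℝ (P.Z j) w :=
  ((Z_c1 j).contDiffAt (isOpen_ball.mem_nhds hw)).differentiableAt (by simp)

theorem root_mem {j : Fin (c.L p).n} {w ζ : ℂ} (hζ : ‖ζ‖ < P.δ) (h : w ^ B.m j = ζ) :
    w ∈ ball (0 : ℂ) P.ρ := by
  rw [mem_ball_zero_iff, ← norm_root_lt (m_ne B j) P.ρ_pos.le, h]
  exact hζ.trans_le (P.δ_lt j)

theorem norm_fst_lt {x : ℂ × ℂ} (hx : x ∈ ball (0 : ℂ × ℂ) P.δ) : ‖x.1‖ < P.δ :=
  (norm_fst_le x).trans_lt (mem_ball_zero_iff.1 hx)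

/-! ### sizes -/

/-- bounds of the branch functions. -/
theorem exists_Z_bound (P : Pl B) : ∃ C : ℝ, 0 ≤ C ∧ ∀ j, ∀ w ∈ ball (0 : ℂ) P.ρ,
    ‖P.Z j w‖ ≤ C * ‖w‖ ^ B.m j ∧ ‖fderiv ℝ (P.Z j) w‖ ≤ C * ‖w‖ ^ (B.m j - 1) := by
  have hone : ∀ j, ∃ C : ℝ, ∀ w ∈ ball (0 : ℂ) P.ρ,
      ‖P.Z j w‖ ≤ C * ‖w‖ ^ B.m j ∧ ‖fderiv ℝ (P.Z j) w‖ ≤ C * ‖w‖ ^ (B.m j - 1) := by
    intro j
    set D : ℝ := ‖(P.b j)⁻¹‖ + P.K with hD
    have hK := P.K_pos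
    have hD0 : 0 ≤ D := by positivity
    refine ⟨B.C * D ^ B.m j + B.C * D ^ (B.m j - 1) * D, fun w hw => ?_⟩
    have hw1 : ‖w‖ ≤ 1 := (mem_ball_zero_iff.1 hw).le.trans P.ρ_le
    have hs := symm_mem' (P := P) (j := j) hw
    have hsn : ‖(P.e j).symm w‖ ≤ D * ‖w‖ := by
      have h1 := (P.nf j).bds w hw
      have h2 : ‖(P.e j).symm w‖ ≤ ‖(P.b j)⁻¹ * w‖ + ‖(P.e j).symm w - (P.b j)⁻¹ * w‖ := by
        have := norm_add_le ((P.b j)⁻¹ * w) ((P.e j).symm w - (P.b j)⁻¹ * w)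
        simpa using this
      rw [norm_mul] at h2
      have h3 : P.K * ‖w‖ ^ 2 ≤ P.K * ‖w‖ := by
        have : ‖w‖ ^ 2 ≤ ‖w‖ := by nlinarith [norm_nonneg w]
        gcongr
      calc _ ≤ ‖(P.b j)⁻¹‖ * ‖w‖ + P.K * ‖w‖ := by linarith
        _ = D * ‖w‖ := by ring
    have hCC := B.C_nonneg
    have hdn : ‖fderiv ℝ (P.e j).symm w‖ ≤ D := by
      have h1 := (P.nf j).dbds w hw
      have h2 : ‖fderiv ℝ (P.e j).symm w‖ ≤
          ‖mulc (P.b j)⁻¹‖ + ‖fderiv ℝ (P.e j).symm w - mulc (P.b j)⁻¹‖ := by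
        have := norm_add_le (mulc (P.b j)⁻¹) (fderiv ℝ (P.e j).symm w - mulc (P.b j)⁻¹)
        simpa using this
      rw [norm_mulc] at h2
      have h3 : P.K * ‖w‖ ≤ P.K * 1 := by gcongr
      rw [hD]
      linarith
    constructor
    · have h1 := B.z0 j _ hs
      calc ‖P.Z j w‖ ≤ B.C * ‖(P.e j).symm w‖ ^ B.m j := h1
        _ ≤ B.C * (D * ‖w‖) ^ B.m j := by gcongr
        _ = B.C * D ^ B.m j * ‖w‖ ^ B.m j := by rw [mul_pow]; ring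
        _ ≤ _ := by
          have : 0 ≤ B.C * D ^ (B.m j - 1) * D := by positivity
          gcongr
          linarith
    · have h1 := B.z1 j _ hs
      have hz : DifferentiableAt ℝ (fun s => (B.v j s).2) ((P.e j).symm w) :=
        (((B.v_smooth j).snd).contDiffAt (isOpen_ball.mem_nhds hs)).differentiableAt (by simp)
      have he : DifferentiableAt ℝ (P.e j).symm w :=
        ((P.nf j).c1s.contDiffAt (isOpen_ball.mem_nhds hw)).differentiableAt (by simp)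
      have h2 : fderiv ℝ (P.Z j) w =
          (fderiv ℝ (fun s => (B.v j s).2) ((P.e j).symm w)).comp (fderiv ℝ (P.e j).symm w) :=
        (hz.hasFDerivAt.comp w he.hasFDerivAt).fderiv
      rw [h2]
      refine (ContinuousLinearMap.opNorm_comp_le _ _).trans ?_
      calc _ ≤ (B.C * ‖(P.e j).symm w‖ ^ (B.m j - 1)) * D := by
            gcongr
        _ ≤ (B.C * (D * ‖w‖) ^ (B.m j - 1)) * D := by gcongr
        _ = B.C * D ^ (B.m j - 1) * D * ‖w‖ ^ (B.m j - 1) := by rw [mul_pow]; ring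
        _ ≤ _ := by
          have : 0 ≤ B.C * D ^ B.m j := by positivity
          gcongr
          linarith
  choose C hC using hone
  obtain ⟨C0, hC0, hC1⟩ := exists_ub C
  refine ⟨C0, hC0.le, fun j w hw => ⟨((hC j w hw).1).trans ?_, ((hC j w hw).2).trans ?_⟩⟩
  · exact mul_le_mul_of_nonneg_right (hC1 j) (by positivity)
  · exact mul_le_mul_of_nonneg_right (hC1 j) (by positivity)

/-- the sheets have bounded slope: `‖dz - dZ‖ ≤ C`. -/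
theorem exists_dsh_bound (P : Pl B) : ∃ C : ℝ, 0 ≤ C ∧ ∀ j, ∀ w ∈ ball (0 : ℂ) P.ρ, w ≠ 0 →
    ‖dsh (B.m j) (P.Z j) (w ^ B.m j) w‖ ≤ C := by
  obtain ⟨C, hC, h⟩ := exists_Z_bound P
  refine ⟨1 + C, by positivity, fun j w hw h0 => ?_⟩
  refine (norm_dsh_le _ _ _ _).trans ?_
  have h1 := (h j w hw).2
  have hwp : 0 < ‖w‖ := norm_pos_iff.2 h0
  have hm : (1 : ℝ) ≤ B.m j := by exact_mod_cast B.m_pos j
  have h2 : ‖w‖ / (B.m j * ‖w ^ B.m j‖) ≤ (‖w‖ ^ (B.m j - 1))⁻¹ := by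
    rw [norm_pow, inv_eq_one_div, div_le_div_iff₀ (by positivity) (by positivity)]
    have h3 : ‖w‖ * ‖w‖ ^ (B.m j - 1) = ‖w‖ ^ B.m j := by
      rw [← pow_succ', Nat.sub_add_cancel (B.m_pos j)]
    rw [h3, one_mul]
    have h4 : 0 ≤ ‖w‖ ^ B.m j := by positivity
    nlinarith
  have h3 : ‖fderiv ℝ (P.Z j) w‖ * (‖w‖ / (B.m j * ‖w ^ B.m j‖)) ≤ C := by
    calc _ ≤ (C * ‖w‖ ^ (B.m j - 1)) * (‖w‖ ^ (B.m j - 1))⁻¹ := by gcongr
      _ = C := by field_simp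
  linarith

/-! ### basic properties of `G` -/

theorem G_continuousAt {x : ℂ × ℂ} (hx : ‖x.1‖ < P.δ) : ContinuousAt P.G x :=
  continuousAt_bp (fun j => m_ne B j) P.ρ_pos.le (fun j => Z_cont j)
    fun j => hx.trans_le (P.δ_lt j)

theorem G_smoothAt {x : ℂ × ℂ} (hx : ‖x.1‖ < P.δ) (h0 : x.1 ≠ 0) : ContDiffAt ℝ ∞ P.G x := by
  refine contDiffAt_bp (k := ⊤) (fun j => m_ne B j) h0 fun j w hw => ?_
  refine Z_smoothAt (root_mem hx hw) ?_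
  rintro rfl
  rw [zero_pow (m_ne B j)] at hw
  exact h0 hw.symm

/-- the zeros of `G` are the points of the branches. -/
theorem G_eq_zero {x : ℂ × ℂ} (hx : ‖x.1‖ < P.δ) :
    P.G x = 0 ↔ ∃ j, ∃ s ∈ (P.e j).source, B.v j s = x := by
  unfold G
  rw [bp_eq_zero fun j => m_ne B j]
  constructor
  · rintro ⟨j, w, h1, h2⟩
    have hw := root_mem (P := P) hx h1
    refine ⟨j, (P.e j).symm w, symm_mem hw, ?_⟩
    rw [v_symm hw]
    exact Prod.ext h1 h2.symm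
  · rintro ⟨j, s, hs, h⟩
    refine ⟨j, P.e j s, ?_, ?_⟩
    · rw [← h, v_eq hs]
    · rw [← h, v_eq hs]

/-! ### local sheets -/

/-- the index set of the sheets. -/
abbrev Ix (B : FBox c p V) : Type := Σ b : Fin (c.L p).n, Fin (B.m b)

/-- the parameter of the sheet `i`, for the choice `w₀` of roots. -/
def tau (P : Pl B) (w₀ : Fin (c.L p).n → ℂ) (i : Ix B) (ζ : ℂ) : ℂ :=
  (P.e i.1).symm (xi (B.m i.1) ^ (i.2 : ℕ) * bt (B.m i.1) (w₀ i.1) ζ)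

variable {w₀ : Fin (c.L p).n → ℂ} {ζ₀ : ℂ}

theorem w0_ne (hw : ∀ b, w₀ b ^ B.m b = ζ₀) (h0 : ζ₀ ≠ 0) (b : Fin (c.L p).n) : w₀ b ≠ 0 := by
  intro h
  have := hw b
  rw [h, zero_pow (m_ne B b)] at this
  exact h0 this.symm

theorem arg_mem {ζ : ℂ} (hζ : ‖ζ‖ < P.δ) (hw : ∀ b, w₀ b ^ B.m b = ζ₀) (h0 : ζ₀ ≠ 0) (i : Ix B) :
    xi (B.m i.1) ^ (i.2 : ℕ) * bt (B.m i.1) (w₀ i.1) ζ ∈ ball (0 : ℂ) P.ρ := by
  refine root_mem (j := i.1) hζ ?_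
  rw [mul_pow, xi_pow_pow (m_ne B _), one_mul, bt_pow (m_ne B _) (w0_ne hw h0 _)]

theorem arg_pow {ζ : ℂ} (hw : ∀ b, w₀ b ^ B.m b = ζ₀) (h0 : ζ₀ ≠ 0) (i : Ix B) :
    (xi (B.m i.1) ^ (i.2 : ℕ) * bt (B.m i.1) (w₀ i.1) ζ) ^ B.m i.1 = ζ := by
  rw [mul_pow, xi_pow_pow (m_ne B _), one_mul, bt_pow (m_ne B _) (w0_ne hw h0 _)]

theorem tau_mem {ζ : ℂ} (hζ : ‖ζ‖ < P.δ) (hw : ∀ b, w₀ b ^ B.m b = ζ₀) (h0 : ζ₀ ≠ 0) (i : Ix B) :
    tau P w₀ i ζ ∈ (P.e i.1).source := symm_mem (arg_mem hζ hw h0 i)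

theorem v_tau {ζ : ℂ} (hζ : ‖ζ‖ < P.δ) (hw : ∀ b, w₀ b ^ B.m b = ζ₀) (h0 : ζ₀ ≠ 0) (i : Ix B) :
    B.v i.1 (tau P w₀ i ζ) =
      (ζ, P.Z i.1 (xi (B.m i.1) ^ (i.2 : ℕ) * bt (B.m i.1) (w₀ i.1) ζ)) := by
  rw [tau, v_symm (arg_mem hζ hw h0 i), arg_pow hw h0]

theorem tau_ne {ζ : ℂ} (hζ : ‖ζ‖ < P.δ) (hζ0 : ζ ≠ 0) (hw : ∀ b, w₀ b ^ B.m b = ζ₀) (h0 : ζ₀ ≠ 0)
    (i : Ix B) : tau P w₀ i ζ ≠ 0 := by
  intro h
  have h1 := congrArg Prod.fst (v_tau hζ hw h0 i)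
  rw [h, v_zero] at h1
  exact hζ0 h1.symm

theorem tau_smooth (hζ : ‖ζ₀‖ < P.δ) (hw : ∀ b, w₀ b ^ B.m b = ζ₀) (h0 : ζ₀ ≠ 0) (i : Ix B) :
    ContDiffAt ℝ ∞ (tau P w₀ i) ζ₀ := by
  have hb := w0_ne hw h0 i.1
  have h1 : ContDiffAt ℝ ∞ (bt (B.m i.1) (w₀ i.1)) ζ₀ := by
    have h2 : ζ₀ ∈ cutPlane (B.m i.1) (w₀ i.1) := by
      rw [← hw i.1]
      exact self_mem_cutPlane hb
    exact (analyticAt_bt h2).contDiffAt.restrict_scalars ℝ
  have h2 : ContDiffAt ℝ ∞ (fun ζ => xi (B.m i.1) ^ (i.2 : ℕ) * bt (B.m i.1) (w₀ i.1) ζ) ζ₀ :=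
    contDiffAt_const.mul h1
  have hm := arg_mem hζ hw h0 i
  have hne : xi (B.m i.1) ^ (i.2 : ℕ) * bt (B.m i.1) (w₀ i.1) ζ₀ ≠ 0 :=
    mul_ne_zero (xi_pow_ne (m_ne B _) _) (bt_ne (m_ne B _) hb h0)
  have h3 : ContDiffAt ℝ ∞ (P.e i.1).symm
      (xi (B.m i.1) ^ (i.2 : ℕ) * bt (B.m i.1) (w₀ i.1) ζ₀) :=
    (P.nf i.1).cns.contDiffAt ((isOpen_ball.sdiff isClosed_singleton).mem_nhds ⟨hm, hne⟩)
  exact ContDiffAt.comp (g := (P.e i.1).symm)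
    (f := fun ζ => xi (B.m i.1) ^ (i.2 : ℕ) * bt (B.m i.1) (w₀ i.1) ζ) ζ₀ h3 h2

/-- `G` is the product over the sheets. -/
theorem G_sheets {ζ : ℂ} (hζ : ‖ζ‖ < P.δ) (hw : ∀ b, w₀ b ^ B.m b = ζ₀) (h0 : ζ₀ ≠ 0) (z : ℂ) :
    P.G (ζ, z) = ∏ i : Ix B, (z - (B.v i.1 (tau P w₀ i ζ)).2) := by
  rw [Fintype.prod_sigma, G, BranchProd_266.bp]
  refine Finset.prod_congr rfl fun b _ => ?_
  rw [rp_bt (m_ne B b) (P.Z b) (w0_ne hw h0 b), Finset.prod_range]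
  refine Finset.prod_congr rfl fun j _ => ?_
  rw [v_tau hζ hw h0 ⟨b, j⟩]

/-- **(ii) local sheets**, for helper688. -/
theorem sheets_exist (P : Pl B) (hζ : ‖ζ₀‖ < P.δ) (h0 : ζ₀ ≠ 0) :
    ∃ τ : Ix B → ℂ → ℂ, (∀ i, ContDiffAt ℝ ∞ (τ i) ζ₀) ∧
      ∀ ζ : ℂ, ‖ζ‖ < P.δ →
        (∀ i, τ i ζ ∈ (P.e i.1).source ∧ (B.v i.1 (τ i ζ)).1 = ζ ∧ (ζ ≠ 0 → τ i ζ ≠ 0)) ∧
        ∀ z, P.G (ζ, z) = ∏ i : Ix B, (z - (B.v i.1 (τ i ζ)).2) := by
  choose w₀ hw using fun b : Fin (c.L p).n => exists_root (m_ne B b) ζ₀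
  refine ⟨tau P w₀, fun i => tau_smooth hζ hw h0 i, fun ζ hζ' => ⟨fun i => ?_, fun z => ?_⟩⟩
  · exact ⟨tau_mem hζ' hw h0 i, by rw [v_tau hζ' hw h0 i], fun h => tau_ne hζ' h hw h0 i⟩
  · exact G_sheets hζ' hw h0 z

/-! ### the sheets along a branch -/

/-- the own sheet. -/
def own (B : FBox c p V) (b : Fin (c.L p).n) : Ix B := ⟨b, ⟨0, Nat.pos_of_ne_zero (m_ne B b)⟩⟩

theorem prod_erase_own (b : Fin (c.L p).n) (f : Ix B → ℂ) :
    ∏ i ∈ Finset.univ.erase (own B b), f i =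
      (∏ a ∈ Finset.univ.erase b, ∏ j : Fin (B.m a), f ⟨a, j⟩) *
        ∏ j ∈ Finset.univ.erase (⟨0, Nat.pos_of_ne_zero (m_ne B b)⟩ : Fin (B.m b)), f ⟨b, j⟩ := by
  classical
  set g : Ix B → ℂ := fun i => if i = own B b then 1 else f i with hg
  have h1 : ∏ i ∈ Finset.univ.erase (own B b), f i = ∏ i, g i := by
    rw [← Finset.mul_prod_erase Finset.univ g (Finset.mem_univ (own B b))]
    simp only [hg, if_true, one_mul]
    exact Finset.prod_congr rfl fun i hi => by rw [if_neg (Finset.ne_of_mem_erase hi)]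
  rw [h1, Fintype.prod_sigma, ← Finset.mul_prod_erase Finset.univ _ (Finset.mem_univ b), mul_comm]
  congr 1
  · refine Finset.prod_congr rfl fun a ha => Finset.prod_congr rfl fun j _ => ?_
    have : (⟨a, j⟩ : Ix B) ≠ own B b := by
      intro h
      exact Finset.ne_of_mem_erase ha (congrArg Sigma.fst h)
    simp only [hg, if_neg this]
  · rw [← Finset.mul_prod_erase Finset.univ _
      (Finset.mem_univ (⟨0, Nat.pos_of_ne_zero (m_ne B b)⟩ : Fin (B.m b)))]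
    have h2 : g ⟨b, ⟨0, Nat.pos_of_ne_zero (m_ne B b)⟩⟩ = 1 := if_pos rfl
    rw [h2, one_mul]
    refine Finset.prod_congr rfl fun j hj => ?_
    have : (⟨b, j⟩ : Ix B) ≠ own B b := by
      intro h
      refine Finset.ne_of_mem_erase hj ?_
      simpa [own] using h
    simp only [hg, if_neg this]

theorem prod_Ico_fin {m : ℕ} (hm : 0 < m) (f : ℕ → ℂ) :
    ∏ j ∈ Finset.Ico 1 m, f j = ∏ j ∈ Finset.univ.erase (⟨0, hm⟩ : Fin m), f j := by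
  refine (Finset.prod_bij (fun (j : Fin m) _ => (j : ℕ)) ?_ ?_ ?_ ?_).symm
  · intro j hj
    have h1 := Finset.ne_of_mem_erase hj
    rw [Finset.mem_Ico]
    refine ⟨Nat.one_le_iff_ne_zero.2 fun h => h1 (Fin.ext h), j.2⟩
  · intro i _ j _ h
    exact Fin.ext h
  · intro j hj
    rw [Finset.mem_Ico] at hj
    refine ⟨⟨j, hj.2⟩, ?_, rfl⟩
    refine Finset.mem_erase.2 ⟨fun h => ?_, Finset.mem_univ _⟩
    have := congrArg Fin.val h
    simp only at this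
    omega
  · intro j _
    rfl

/-- `hb` as the product over the other sheets. -/
theorem hb_sheets {b : Fin (c.L p).n} {s : ℂ} (hs : s ∈ (P.e b).source)
    (hζ : ‖(B.v b s).1‖ < P.δ) (hw : ∀ a, w₀ a ^ B.m a = ζ₀) (h0 : ζ₀ ≠ 0)
    (hbt : bt (B.m b) (w₀ b) (P.e b s ^ B.m b) = P.e b s) :
    hb B.m P.Z b (P.e b s) =
      ∏ i ∈ Finset.univ.erase (own B b), ((B.v b s).2 - (B.v i.1 (tau P w₀ i (B.v b s).1)).2) := by
  rw [prod_erase_own, hb]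
  have hv := v_eq hs
  have hζ' : ‖P.e b s ^ B.m b‖ < P.δ := by
    rw [hv] at hζ
    exact hζ
  congr 1
  · refine Finset.prod_congr rfl fun a _ => ?_
    rw [rp_bt (m_ne B a) (P.Z a) (w0_ne hw h0 a), Finset.prod_range]
    refine Finset.prod_congr rfl fun j _ => ?_
    rw [hv]
    simp only
    rw [v_tau hζ' hw h0 ⟨a, j⟩]
  · rw [hk, prod_Ico_fin (Nat.pos_of_ne_zero (m_ne B b))]
    refine Finset.prod_congr rfl fun j _ => ?_
    rw [hv]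
    simp only
    rw [v_tau hζ' hw h0 ⟨b, j⟩]
    simp only
    rw [hbt]

/-- **(ii) local sheets along a branch.** -/
theorem sheets_own (P : Pl B) {b : Fin (c.L p).n} {s₀ : ℂ} (hs : s₀ ∈ (P.e b).source)
    (hs0 : s₀ ≠ 0) (hζ : ‖(B.v b s₀).1‖ < P.δ) :
    ∃ σ : Ix B → ℂ → ℂ, (∀ i, ContDiffAt ℝ ∞ (σ i) s₀) ∧
      (∀ᶠ s in 𝓝 s₀, ∀ i, σ i s ∈ (P.e i.1).source ∧ σ i s ≠ 0 ∧
        (B.v i.1 (σ i s)).1 = (B.v b s).1) ∧
      (∀ᶠ s in 𝓝 s₀, hb B.m P.Z b (P.e b s) =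
        ∏ i ∈ Finset.univ.erase (own B b), ((B.v b s).2 - (B.v i.1 (σ i s)).2)) := by
  have hsb : s₀ ∈ ball (0 : ℂ) B.r1 := P.src b hs
  set ζ₀ : ℂ := (B.v b s₀).1 with hζ₀
  have hv0 : ζ₀ = P.e b s₀ ^ B.m b := by rw [hζ₀, v_eq hs]
  have he0 := e_ne hs hs0
  have h0 : ζ₀ ≠ 0 := by
    rw [hv0]
    exact pow_ne_zero _ he0
  choose w₁ hw₁ using fun a : Fin (c.L p).n => exists_root (m_ne B a) ζ₀
  classical
  set w₀ : Fin (c.L p).n → ℂ := Function.update w₁ b (P.e b s₀) with hw₀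
  have hwb : w₀ b = P.e b s₀ := by simp [hw₀]
  have hw : ∀ a, w₀ a ^ B.m a = ζ₀ := by
    intro a
    by_cases ha : a = b
    · subst ha
      rw [hwb, hv0]
    · rw [hw₀, Function.update_of_ne ha]
      exact hw₁ a
  have hζs : ContDiffAt ℝ ∞ (fun s => (B.v b s).1) s₀ :=
    ((B.v_smooth b).fst).contDiffAt (isOpen_ball.mem_nhds hsb)
  have hnear : ∀ᶠ s in 𝓝 s₀, s ∈ (P.e b).source ∧ ‖(B.v b s).1‖ < P.δ ∧ (B.v b s).1 ≠ 0 := by
    have h1 : ContinuousAt (fun s => (B.v b s).1) s₀ := hζs.continuousAt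
    have h2 : ∀ᶠ s in 𝓝 s₀, ‖(B.v b s).1‖ < P.δ :=
      (h1.norm).eventually (Iio_mem_nhds hζ)
    have h3 : ∀ᶠ s in 𝓝 s₀, (B.v b s).1 ≠ 0 := h1.eventually_ne h0
    filter_upwards [(P.e b).open_source.mem_nhds hs, h2, h3] with s a1 a2 a3
    exact ⟨a1, a2, a3⟩
  refine ⟨fun i s => tau P w₀ i (B.v b s).1, fun i => ?_, ?_, ?_⟩
  · exact ContDiffAt.comp (g := tau P w₀ i) (f := fun s => (B.v b s).1) s₀
      (tau_smooth hζ hw h0 i) hζs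
  · filter_upwards [hnear] with s ⟨h1, h2, h3⟩ i
    refine ⟨tau_mem h2 hw h0 i, tau_ne h2 h3 hw h0 i, ?_⟩
    rw [v_tau h2 hw h0 i]
  · have h1 : ContinuousAt (P.e b) s₀ := (P.e b).continuousAt hs
    have h2 : ∀ᶠ s in 𝓝 s₀, bt (B.m b) (P.e b s₀) (P.e b s ^ B.m b) = P.e b s :=
      h1.eventually (bt_near (m_ne B b) he0)
    filter_upwards [hnear, h2] with s ⟨h1, h3, _⟩ h4
    refine hb_sheets h1 h3 hw h0 ?_
    rw [hwb]
    exact h4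

end Pl

end Basic

end

end Crest.Agent.R235.BoxL2_266
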