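import Crest.Agent.R235.BoxB_266
import Crest.Agent.R235.Field_910

/-!
Row 235 (S0364), package ADJ, leaf L2 (helper266), part 5: the local function `F = G ∘ Θ⁻¹` on `M`:
the fields `cont`, `zero`, `E`, `closedE`, `smooth`, `E_sub`, `reg`, `κ_eq` of `Adj.Box`.
-/

set_option autoImplicit false
set_option maxSynthPendingDepth 3

open Set Function Filter MeasureTheory Metric
open scoped Manifold ContDiff Topology

universe u

namespace Crest.Agent.R235.BoxL2_266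

open Crest.Agent.R240 Crest.Agent.R240.Ch Crest.Agent.R240.Int
open Crest.Agent.R235 Crest.Agent.R235.Glob_370 Crest.Agent.R235.Wind_688
open Crest.Agent.R235.NWDefs_334 Crest.Agent.R235.BrNF_266 Crest.Agent.R235.Adj
open Crest.Agent.R235.RootProd_266 Crest.Agent.R235.BranchProd_266

noncomputable section

section Basic

variable {M : Type u} [TopologicalSpace M] [ChartedSpace E4 M] [IsManifold 𝓘(ℝ, E4) ∞ M]
variable {J : EndF E4 M} {c : JCurve J} {p : M} {V : Set M} {B : FBox c p V}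

/-- the neighbourhoods. -/
def UU (B : FBox c p V) (δ : ℝ) : Set M := B.Θ.target ∩ B.Θ.symm ⁻¹' ball (0 : ℂ × ℂ) δ

theorem isOpen_UU (B : FBox c p V) (δ : ℝ) : IsOpen (UU B δ) :=
  B.Θ.symm.isOpen_inter_preimage isOpen_ball

theorem p_mem_UU (B : FBox c p V) {δ : ℝ} (hδ : 0 < δ) : p ∈ UU B δ := by
  refine ⟨p_mem B, ?_⟩
  rw [mem_preimage, symm_p]
  exact mem_ball_self hδ

theorem UU_subV (B : FBox c p V) (δ : ℝ) : UU B δ ⊆ V := fun _ hx => (B.target hx.1).1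

theorem UU_subL (B : FBox c p V) (δ : ℝ) : UU B δ ⊆ (c.L p).U := fun _ hx => (B.target hx.1).2

theorem UU_mono (B : FBox c p V) {δ δ' : ℝ} (h : δ ≤ δ') : UU B δ ⊆ UU B δ' :=
  fun _ hx => ⟨hx.1, ball_subset_ball h hx.2⟩

theorem Θ_mem_UU (B : FBox c p V) {δ : ℝ} (hδ : δ ≤ B.R) {y : ℂ × ℂ}
    (hy : y ∈ ball (0 : ℂ × ℂ) δ) : B.Θ y ∈ UU B δ := by
  have hs : y ∈ B.Θ.source := by
    rw [B.source]
    exact ball_subset_ball hδ hy
  refine ⟨B.Θ.map_source hs, ?_⟩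
  rw [mem_preimage, B.Θ.left_inv hs]
  exact hy

namespace Pl

variable (P : Pl B)

theorem δ_le_R : P.δ ≤ B.R := P.δ_le.trans B.ρ_le

theorem F_continuousOn : ContinuousOn P.F (UU B P.δ) := by
  intro x hx
  have h1 : ContinuousAt B.Θ.symm x := B.Θ.symm.continuousAt hx.1
  have h2 : ContinuousAt P.G (B.Θ.symm x) := G_continuousAt (norm_fst_lt hx.2)
  exact (ContinuousAt.comp (f := B.Θ.symm) (g := P.G) h2 h1).continuousWithinAt

theorem F_zero {x : M} (hx : x ∈ UU B P.δ) : P.F x = 0 ↔ x ∈ range c.f := by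
  unfold F
  rw [G_eq_zero (norm_fst_lt hx.2)]
  constructor
  · rintro ⟨j, s, hs, h⟩
    have h1 : (c.L p).u j s = x := by
      rw [← Θ_v B j (P.src j hs), h]
      exact B.Θ.right_inv hx.1
    refine ⟨c.φ p j s, ?_⟩
    rw [c.φ_f p j s (ball_subset_ball B.r1_le (P.src j hs)), h1]
  · intro h
    have h1 : B.Θ.symm x ∈ ball (0 : ℂ × ℂ) B.ρ := ball_subset_ball P.δ_le hx.2
    have h2 : B.Θ (B.Θ.symm x) ∈ range c.f := by
      rw [B.Θ.right_inv hx.1]
      exact h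
    obtain ⟨j, s, hs, h3⟩ := B.near _ h1 h2
    exact ⟨j, s, P.sheets j s hs (by rw [h3]; exact hx.2), h3⟩

variable (B) in
/-- the exceptional leaf. -/
def EE : Set M := {x | x ∈ B.Θ.target ∧ (B.Θ.symm x).1 = 0 ∧ ¬ ∀ j, B.m j = 1}

theorem isOpen_sdiff_EE (B : FBox c p V) (δ : ℝ) : IsOpen (UU B δ \ EE B) := by
  by_cases h : ∀ j, B.m j = 1
  · have : UU B δ \ EE B = UU B δ := by
      ext x
      exact ⟨fun hx => hx.1, fun hx => ⟨hx, fun hE => hE.2.2 h⟩⟩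
    rw [this]
    exact isOpen_UU B δ
  · have : UU B δ \ EE B = B.Θ.target ∩ B.Θ.symm ⁻¹' (ball (0 : ℂ × ℂ) δ ∩ {y | y.1 ≠ 0}) := by
      ext x
      exact ⟨fun hx => ⟨hx.1.1, hx.1.2, fun h0 => hx.2 ⟨hx.1.1, h0, h⟩⟩,
        fun hx => ⟨⟨hx.1, hx.2.1⟩, fun hE => hx.2.2 hE.2.1⟩⟩
    rw [this]
    refine B.Θ.symm.isOpen_inter_preimage (isOpen_ball.inter ?_)
    exact isOpen_ne.preimage continuous_fst

theorem EE_sub {x : M} (hx : x ∈ UU B P.δ) (hE : x ∈ EE B) (hc : x ∈ range c.f) : x = p := by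
  have h1 := (P.F_zero hx).2 hc
  unfold F at h1
  rw [G_eq_zero (norm_fst_lt hx.2)] at h1
  obtain ⟨j, s, hs, h⟩ := h1
  have h2 : (B.v j s).1 = 0 := by
    rw [h]
    exact hE.2.1
  rw [v_eq hs] at h2
  have h3 : P.e j s = 0 := pow_eq_zero_iff (m_ne B j) |>.1 h2
  have h4 : s = 0 := by
    by_contra h5
    exact e_ne hs h5 h3
  rw [h4, v_zero] at h
  rw [← B.Θ.right_inv hx.1, ← h, B.centre]

/-- in the unramified case the branch function is smooth at `0` too. -/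
theorem Z_smoothAt_one {j : Fin (c.L p).n} (hm : B.m j = 1) {w : ℂ}
    (hw : w ∈ ball (0 : ℂ) P.ρ) : ContDiffAt ℝ ∞ (P.Z j) w := by
  by_cases h0 : w = 0
  · subst h0
    have hs0 : (0 : ℂ) ∈ (P.e j).source := (P.nf j).src
    have ht0 : (0 : ℂ) ∈ (P.e j).target := by
      rw [(P.nf j).tgt]
      exact hw
    have h1 : ContDiffAt ℝ ∞ (P.e j) 0 := by
      have h2 : ContDiffAt ℝ ∞ (fun s => (B.v j s).1) 0 :=
        ((B.v_smooth j).fst).contDiffAt (isOpen_ball.mem_nhds (mem_ball_self B.r1_pos))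
      refine h2.congr_of_eventuallyEq ?_
      filter_upwards [(P.e j).open_source.mem_nhds hs0] with s hs
      have := (P.nf j).pow s hs
      rwa [hm, pow_one] at this
    have h2 : fderiv ℝ (P.e j) 0 = mulc (P.b j) := by
      have h3 := (P.nf j).dbd 0 hs0
      rw [norm_zero, mul_zero] at h3
      exact sub_eq_zero.1 (norm_le_zero_iff.1 h3)
    have h3 : HasFDerivAt (P.e j) (mulE (P.b j) (P.nf j).b0 : ℂ →L[ℝ] ℂ) ((P.e j).symm 0) := by
      rw [symm_zero, mulE_coe, ← h2]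
      exact (h1.differentiableAt (by simp)).hasFDerivAt
    have h4 : ContDiffAt ℝ ∞ (P.e j).symm 0 :=
      (P.e j).contDiffAt_symm ht0 h3 (by rw [symm_zero]; exact h1)
    have h5 : ContDiffAt ℝ ∞ (fun s => (B.v j s).2) ((P.e j).symm 0) := by
      rw [symm_zero]
      exact ((B.v_smooth j).snd).contDiffAt (isOpen_ball.mem_nhds (mem_ball_self B.r1_pos))
    exact ContDiffAt.comp (f := (P.e j).symm) (g := fun s => (B.v j s).2) 0 h5 h4
  · exact Z_smoothAt hw h0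

theorem G_smoothAt_one (hm : ∀ j, B.m j = 1) {x : ℂ × ℂ} (hx : ‖x.1‖ < P.δ) :
    ContDiffAt ℝ ∞ P.G x := by
  refine contDiffAt_bp_one (k := ⊤) hm fun j => ?_
  refine Z_smoothAt_one P (hm j) ?_
  refine root_mem (j := j) hx ?_
  rw [hm j, pow_one]

theorem F_smooth {x : M} (hx : x ∈ UU B P.δ) (hE : x ∉ EE B) : SmAt P.F x := by
  have h1 : ContDiffAt ℝ ∞ P.G (B.Θ.symm x) := by
    by_cases h : (B.Θ.symm x).1 = 0
    · have hm : ∀ j, B.m j = 1 := by
        by_contra h2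
        exact hE ⟨hx.1, h, h2⟩
      exact G_smoothAt_one P hm (norm_fst_lt hx.2)
    · exact G_smoothAt (norm_fst_lt hx.2) h
  have h2 : ContMDiffAt 𝓘(ℝ, E4) 𝓘(ℝ, ℂ × ℂ) ∞ B.Θ.symm x :=
    B.smooth_symm.contMDiffAt (B.Θ.open_target.mem_nhds hx.1)
  exact ContMDiffAt.comp x (g := P.G) h1.contMDiffAt h2

variable (B) in
theorem EE_reg (h : ∀ j, dmap ((c.L p).u j) 0 1 ≠ 0) : EE B = ∅ := by
  have hm : ∀ j, B.m j = 1 := by
    intro j
    by_contra hj
    have hj2 : 2 ≤ B.m j := by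
      have := B.m_pos j
      omega
    have h0 := mem_ball_self (x := (0 : ℂ)) B.r1_pos
    have h1 := B.ζ1 j 0 h0
    have h2 := B.z1 j 0 h0
    have e1 : B.m j - 1 ≠ 0 := by omega
    simp only [norm_zero, zero_pow (m_ne B j), zero_pow e1, mul_zero] at h1 h2
    have h1' : fderiv ℝ (fun s => (B.v j s).1) 0 = 0 := by
      have := norm_le_zero_iff.1 h1
      rw [sub_eq_zero] at this
      rw [this]
      ext
      simp
    have h2' : fderiv ℝ (fun s => (B.v j s).2) 0 = 0 := norm_le_zero_iff.1 h2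
    have hvd : DifferentiableAt ℝ (B.v j) 0 :=
      ((B.v_smooth j).contDiffAt (isOpen_ball.mem_nhds h0)).differentiableAt (by simp)
    have h3 : fderiv ℝ (B.v j) 0 = 0 := by
      ext v
      · have := hvd.hasFDerivAt.fst.fderiv
        rw [h1'] at this
        have h4 := DFunLike.congr_fun this v
        simpa using h4.symm
      · have := hvd.hasFDerivAt.snd.fderiv
        rw [h2'] at this
        have h4 := DFunLike.congr_fun this v
        simpa using h4.symm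
    refine h j ?_
    have hc : (c.L p).u j =ᶠ[𝓝 0] fun s => B.Θ (B.v j s) := by
      filter_upwards [isOpen_ball.mem_nhds h0] with s hs
      exact (Θ_v B j hs).symm
    have hΘ : ContMDiffAt 𝓘(ℝ, ℂ × ℂ) 𝓘(ℝ, E4) ∞ B.Θ (B.v j 0) := by
      refine B.smooth.contMDiffAt (isOpen_ball.mem_nhds ?_)
      rw [v_zero]
      exact mem_ball_self B.R_pos
    rw [AdjGen_83.dmap_congr hc, AdjGen_83.dmap_comp hvd.hasFDerivAt hΘ, h3]
    exact AdjGen_83.dmap_zero _ _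
  rw [Set.eq_empty_iff_forall_notMem]
  exact fun x hx => hx.2.2 hm

/-! ### the factor `κ` -/

/-- the differential of `Θ⁻¹` in the preferred chart at `x`. -/
def DS (B : FBox c p V) (x : M) : E4 →L[ℝ] ℂ × ℂ :=
  fderiv ℝ (fun y : E4 => B.Θ.symm ((chartAt E4 x).symm y)) (chartAt E4 x x)

theorem hasFDerivAt_DS {x : M} (hx : x ∈ B.Θ.target) :
    HasFDerivAt (fun y : E4 => B.Θ.symm ((chartAt E4 x).symm y)) (DS B x) (chartAt E4 x x) := by
  have h1 : ContMDiffAt 𝓘(ℝ, E4) 𝓘(ℝ, ℂ × ℂ) ∞ B.Θ.symm ((chartAt E4 x).symm (chartAt E4 x x)) := by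
    rw [(chartAt E4 x).left_inv (mem_chart_source E4 x)]
    exact B.smooth_symm.contMDiffAt (B.Θ.open_target.mem_nhds hx)
  have h2 : ContMDiffAt 𝓘(ℝ, E4) 𝓘(ℝ, E4) ∞ (chartAt E4 x).symm (chartAt E4 x x) :=
    (contMDiffOn_chart_symm (I := 𝓘(ℝ, E4)) (x := x)).contMDiffAt
      ((chartAt E4 x).open_target.mem_nhds (mem_chart_target E4 x))
  have h3 : ContMDiffAt 𝓘(ℝ, E4) 𝓘(ℝ, ℂ × ℂ) ∞
      (fun y : E4 => B.Θ.symm ((chartAt E4 x).symm y)) (chartAt E4 x x) := h1.comp _ h2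
  exact (h3.contDiffAt.differentiableAt (by simp)).hasFDerivAt

theorem Θ_smoothAt {y : ℂ × ℂ} (hy : y ∈ ball (0 : ℂ × ℂ) B.R) :
    ContMDiffAt 𝓘(ℝ, ℂ × ℂ) 𝓘(ℝ, E4) ∞ B.Θ y := B.smooth.contMDiffAt (isOpen_ball.mem_nhds hy)

theorem symm_mem_ball {x : M} (hx : x ∈ B.Θ.target) : B.Θ.symm x ∈ ball (0 : ℂ × ℂ) B.R := by
  rw [← B.source]
  exact B.Θ.map_target hx

/-- `dΘ (DS v) = v`. -/
theorem dmap_DS {x : M} (hx : x ∈ B.Θ.target) (v : E4) :
    dmap B.Θ (B.Θ.symm x) (DS B x v) = v := by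
  set y := B.Θ.symm x with hy
  have hxy : B.Θ y = x := B.Θ.right_inv hx
  have h1 : HasFDerivAt (fun q : ℂ × ℂ => chartAt E4 x (B.Θ q))
      (fderiv ℝ (fun q : ℂ × ℂ => chartAt E4 x (B.Θ q)) y) y := by
    have h2 : B.Θ y ∈ (chartAt E4 x).source := by
      rw [hxy]
      exact mem_chart_source E4 x
    exact (AdjGen_83.diffAt_chart (Θ_smoothAt (symm_mem_ball hx)) h2).hasFDerivAt
  have h2 := hasFDerivAt_DS (B := B) hx
  have h3 : (chartAt E4 x).symm (chartAt E4 x x) = x :=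
    (chartAt E4 x).left_inv (mem_chart_source E4 x)
  have h1' : HasFDerivAt (fun q : ℂ × ℂ => chartAt E4 x (B.Θ q))
      (fderiv ℝ (fun q : ℂ × ℂ => chartAt E4 x (B.Θ q)) y)
      (B.Θ.symm ((chartAt E4 x).symm (chartAt E4 x x))) := by
    rw [h3]
    exact h1
  have h4 := HasFDerivAt.comp (g := fun q : ℂ × ℂ => chartAt E4 x (B.Θ q))
    (f := fun y : E4 => B.Θ.symm ((chartAt E4 x).symm y)) (chartAt E4 x x) h1' h2
  have h5 : ((fun q : ℂ × ℂ => chartAt E4 x (B.Θ q)) ∘ fun y : E4 =>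
      B.Θ.symm ((chartAt E4 x).symm y)) =ᶠ[𝓝 (chartAt E4 x x)] fun y => y := by
    have h6 : ContinuousAt (chartAt E4 x).symm (chartAt E4 x x) :=
      (chartAt E4 x).continuousAt_symm (mem_chart_target E4 x)
    have h7 : ∀ᶠ y in 𝓝 (chartAt E4 x x), (chartAt E4 x).symm y ∈ B.Θ.target := by
      refine h6.eventually_mem (B.Θ.open_target.mem_nhds ?_)
      rw [h3]
      exact hx
    filter_upwards [h7, (chartAt E4 x).open_target.mem_nhds (mem_chart_target E4 x)] with q h8 h9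
    show chartAt E4 x (B.Θ (B.Θ.symm ((chartAt E4 x).symm q))) = q
    rw [B.Θ.right_inv h8, (chartAt E4 x).right_inv h9]
  have h6 := (h4.congr_of_eventuallyEq h5.symm).unique (hasFDerivAt_id (chartAt E4 x x))
  have h7 := DFunLike.congr_fun h6 v
  unfold dmap
  rw [hxy]
  exact h7

/-- the differential of `F` from the differential of `G`. -/
theorem dC_F {x : M} (hx : x ∈ B.Θ.target) {L : ℂ × ℂ →L[ℝ] ℂ}
    (hL : HasFDerivAt P.G L (B.Θ.symm x)) (v : E4) : dC P.F x v = L (DS B x v) := by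
  have h2 := hasFDerivAt_DS (B := B) hx
  have h3 : (chartAt E4 x).symm (chartAt E4 x x) = x :=
    (chartAt E4 x).left_inv (mem_chart_source E4 x)
  have hL' : HasFDerivAt P.G L (B.Θ.symm ((chartAt E4 x).symm (chartAt E4 x x))) := by
    rw [h3]
    exact hL
  have h4 := HasFDerivAt.comp (g := P.G)
    (f := fun y : E4 => B.Θ.symm ((chartAt E4 x).symm y)) (chartAt E4 x x) hL' h2
  unfold dC
  exact DFunLike.congr_fun h4.fderiv v

/-- two sheets at the same point coincide. -/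
theorem sheet_inj {a b : Fin (c.L p).n} {s t : ℂ} (hs : s ∈ (P.e a).source)
    (ht : t ∈ (P.e b).source) (h : B.v a s = B.v b t) (hs0 : s ≠ 0) : a = b ∧ s = t := by
  have h1 : (c.L p).u a s = (c.L p).u b t := by
    rw [← Θ_v B a (P.src a hs), ← Θ_v B b (P.src b ht), h]
  have hs1 := ball_subset_ball B.r1_le (P.src a hs)
  have ht1 := ball_subset_ball B.r1_le (P.src b ht)
  by_cases hab : a = b
  · subst hab
    exact ⟨rfl, ((c.L p).disc a).inj hs1 ht1 h1⟩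
  · exact absurd ((c.L p).disj a b hab s hs1 t ht1 h1) hs0

theorem rp_other_ne {b : Fin (c.L p).n} {s : ℂ} (hs : s ∈ (P.e b).source) (hs0 : s ≠ 0)
    (hζ : ‖(B.v b s).1‖ < P.δ) {a : Fin (c.L p).n} (hab : a ≠ b) :
    rp (B.m a) (P.Z a) (P.e b s ^ B.m b) (P.Z b (P.e b s)) ≠ 0 := by
  intro h
  obtain ⟨w, h1, h2⟩ := (rp_eq_zero (m_ne B a) _ _ _).1 h
  have hv := v_eq hs
  have hw : w ∈ ball (0 : ℂ) P.ρ := by
    refine root_mem (j := a) ?_ h1
    rw [hv] at hζ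
    exact hζ
  have h3 : B.v b s = B.v a ((P.e a).symm w) := by
    rw [hv, v_symm hw, h1, h2]
  exact hab (sheet_inj P hs (symm_mem hw) h3 hs0).1.symm

theorem hk_ne {b : Fin (c.L p).n} {s : ℂ} (hs : s ∈ (P.e b).source) (hs0 : s ≠ 0)
    (hζ : ‖(B.v b s).1‖ < P.δ) : hk (B.m b) (P.Z b) (P.e b s) ≠ 0 := by
  rw [hk, Finset.prod_ne_zero_iff]
  intro j hj h
  rw [Finset.mem_Ico] at hj
  have hv := v_eq hs
  have h1 : (xi (B.m b) ^ j * P.e b s) ^ B.m b = P.e b s ^ B.m b := by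
    rw [mul_pow, xi_pow_pow (m_ne B b), one_mul]
  have hw : xi (B.m b) ^ j * P.e b s ∈ ball (0 : ℂ) P.ρ := by
    refine root_mem (j := b) ?_ h1
    rw [hv] at hζ
    exact hζ
  have h3 : B.v b s = B.v b ((P.e b).symm (xi (B.m b) ^ j * P.e b s)) := by
    rw [hv, v_symm hw, h1, sub_eq_zero.1 h]
  have h4 := (sheet_inj P hs (symm_mem hw) h3 hs0).2
  have h5 : P.e b s = xi (B.m b) ^ j * P.e b s := by
    conv_lhs => rw [h4]
    exact e_symm hw
  have he := e_ne hs hs0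
  have h6 : xi (B.m b) ^ j = 1 := by
    apply mul_right_cancel₀ he
    rw [← h5, one_mul]
  have h7 := (xi_prim (m_ne B b)).pow_inj hj.2 (Nat.pos_of_ne_zero (m_ne B b))
    (h6.trans (pow_zero _).symm)
  omega

/-- `hb ≠ 0` off the centre. -/
theorem hb_ne {b : Fin (c.L p).n} {s : ℂ} (hs : s ∈ (P.e b).source) (hs0 : s ≠ 0)
    (hζ : ‖(B.v b s).1‖ < P.δ) : hb B.m P.Z b (P.e b s) ≠ 0 := by
  rw [hb]
  refine mul_ne_zero ?_ (hk_ne P hs hs0 hζ)
  rw [Finset.prod_ne_zero_iff]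
  intro a ha
  exact rp_other_ne P hs hs0 hζ (Finset.ne_of_mem_erase ha)

/-- the derivative of `G` at a point of the branch `b`. -/
theorem hasFDerivAt_G {b : Fin (c.L p).n} {s : ℂ} (hs : s ∈ (P.e b).source) (hs0 : s ≠ 0)
    (hζ : ‖(B.v b s).1‖ < P.δ) :
    HasFDerivAt P.G (hb B.m P.Z b (P.e b s) •
      dsh (B.m b) (P.Z b) (P.e b s ^ B.m b) (P.e b s)) (B.v b s) := by
  have hv := v_eq hs
  have hζ' : ‖P.e b s ^ B.m b‖ < P.δ := by
    rw [hv] at hζ
    exact hζ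
  rw [hv]
  refine hasFDerivAt_bp_zero (fun j => m_ne B j) (e_ne hs hs0) (fun a w h => ?_) fun a hab => ?_
  · exact Z_diffAt (root_mem hζ' h)
  · exact rp_other_ne P hs hs0 hζ hab

end Pl

end Basic

end

end Crest.Agent.R235.BoxL2_266
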