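import Crest.Agent.R235.FBoxG_130
import Crest.Agent.R235.AdjPair_43

/-!
# Row 235 (S0364), PACKAGE ADJ (helper130): `fboxp_of : FolStmt → FBOXP`

Foliation boxes of `c` at `p` whose vertical leaf meets the second curve `c'` at most at `p`.
-/

set_option autoImplicit false
set_option maxSynthPendingDepth 3

open Set Function Filter MeasureTheory Metric
open scoped Manifold ContDiff Topology

universe u

namespace Crest.Agent.R235.FBoxP_130

open Crest.Agent.R240 Crest.Agent.R240.Ch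
open Crest.Agent.R235 Crest.Agent.R235.Glob_370 Crest.Agent.R235.Adj
open Crest.Agent.R235.NWDefs_334 Crest.Agent.R235.FBoxG_130

noncomputable section

/-- radii for a smaller box. -/
theorem exists_radius {M : Type u} [TopologicalSpace M] [ChartedSpace E4 M]
    [IsManifold 𝓘(ℝ, E4) ∞ M] {J : EndF E4 M} {p : M} {V : Set M} {ι : Type} [Finite ι]
    {u : ι → ℂ → M} (B : GBox J p V u) (hu0 : ∀ j, u j 0 = p) {R' : ℝ} (hR' : 0 < R') :
    ∃ r : ℝ, 0 < r ∧ r ≤ B.r1 ∧ ∀ j, ∀ s ∈ ball (0 : ℂ) r, B.v j s ∈ ball (0 : ℂ × ℂ) R' := by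
  have h1 : ∀ j, ∃ r : ℝ, 0 < r ∧ ∀ s ∈ ball (0 : ℂ) r, B.v j s ∈ ball (0 : ℂ × ℂ) R' := by
    intro j
    have h2 : ContinuousAt (B.v j) 0 :=
      ((B.v_smooth j).continuousOn).continuousAt (ball_mem_nhds _ B.r1_pos)
    have h3 : B.v j ⁻¹' ball (0 : ℂ × ℂ) R' ∈ 𝓝 (0 : ℂ) :=
      h2.preimage_mem_nhds (by rw [B.v_zero (hu0 j)]; exact ball_mem_nhds _ hR')
    obtain ⟨r, hr, h4⟩ := Metric.mem_nhds_iff.1 h3
    exact ⟨r, hr, fun s hs => h4 hs⟩
  choose r hr hr' using h1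
  obtain ⟨r0, h2, -, h4⟩ := exists_pos_le r hr
  exact ⟨min r0 B.r1, lt_min h2 B.r1_pos, min_le_right _ _, fun j s hs =>
    hr' j s (ball_subset_ball ((min_le_left _ _).trans (h4 j)) hs)⟩

/-- a branch meets the vertical leaf through `p` only at its centre. -/
theorem exists_radius' {M : Type u} [TopologicalSpace M] [ChartedSpace E4 M]
    [IsManifold 𝓘(ℝ, E4) ∞ M] {J : EndF E4 M} {p : M} {V : Set M} {ι : Type} [Finite ι]
    {u : ι → ℂ → M} (B : GBox J p V u) :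
    ∃ r : ℝ, 0 < r ∧ r ≤ B.r1 ∧ ∀ j, ∀ s ∈ ball (0 : ℂ) r, (B.v j s).1 = 0 → s = 0 := by
  have h1 : ∀ j, ∃ r : ℝ, 0 < r ∧ r ≤ B.r1 ∧ ∀ s ∈ ball (0 : ℂ) r, (B.v j s).1 = 0 → s = 0 := by
    intro j
    have hb : 0 < ‖(B.b j).1‖ := norm_pos_iff.2 (B.b_ne j)
    have hC := B.C_nonneg
    refine ⟨min B.r1 (‖(B.b j).1‖ / (B.C + 1)), lt_min B.r1_pos (by positivity), min_le_left _ _,
      fun s hs h => ?_⟩
    by_contra hs0
    have hs1 : 0 < ‖s‖ := norm_pos_iff.2 hs0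
    have h2 := B.ζ0 j s (ball_subset_ball (min_le_left _ _) hs)
    rw [h, zero_sub, norm_neg, norm_mul, norm_pow, pow_succ] at h2
    have h3 : ‖(B.b j).1‖ ≤ B.C * ‖s‖ := by
      have h4 : 0 < ‖s‖ ^ B.m j := pow_pos hs1 _
      have h5 : ‖(B.b j).1‖ * ‖s‖ ^ B.m j ≤ (B.C * ‖s‖) * ‖s‖ ^ B.m j := by
        calc _ ≤ B.C * (‖s‖ ^ B.m j * ‖s‖) := h2
          _ = _ := by ring
      exact le_of_mul_le_mul_right h5 h4
    have h4 : ‖s‖ < ‖(B.b j).1‖ / (B.C + 1) := by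
      have := ball_subset_ball (min_le_right B.r1 (‖(B.b j).1‖ / (B.C + 1))) hs
      rwa [mem_ball_zero_iff] at this
    rw [lt_div_iff₀ (by positivity)] at h4
    nlinarith
  choose r hr hr1 hr' using h1
  obtain ⟨r0, h2, -, h4⟩ := exists_pos_le r hr
  exact ⟨min r0 B.r1, lt_min h2 B.r1_pos, min_le_right _ _, fun j s hs =>
    hr' j s (ball_subset_ball ((min_le_left _ _).trans (h4 j)) hs)⟩

/-- **FBOXP** -/
theorem fboxp_of (hF : FolStmt) : FBOXP.{u} := by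
  intro M _ _ _ _ _ _ J hJs hJ2 c c' p V hV hpV _
  -- the common box
  let u : Fin (c.L p).n ⊕ Fin (c'.L p).n → ℂ → M := Sum.elim (c.L p).u (c'.L p).u
  have hu : ∀ j, IsDisc J (u j) := by
    rintro (j | j)
    · exact (c.L p).disc j
    · exact (c'.L p).disc j
  have hu0 : ∀ j, u j 0 = p := by
    rintro (j | j)
    · exact (c.L p).centre j
    · exact (c'.L p).centre j
  obtain ⟨B⟩ := gbox_of hF hJs hJ2 u hu hu0 (hV.inter (c.L p).openU) ⟨hpV, (c.L p).mem⟩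
  obtain ⟨r0, hr0, hr0', hvert⟩ := exists_radius' B
  -- near `p` the second curve consists of its branches
  obtain ⟨N', hN', hN''⟩ := near_lemma c' p hr0
  obtain ⟨R', hR', hR'B, hR'N⟩ : ∃ R' : ℝ, 0 < R' ∧ R' ≤ B.R ∧
      ∀ x ∈ ball (0 : ℂ × ℂ) R', B.Θ x ∈ N' := by
    have h1 : B.Θ ⁻¹' N' ∈ 𝓝 (0 : ℂ × ℂ) := by
      refine (B.Θ.continuousAt (by rw [B.source]; exact mem_ball_self B.R_pos)).preimage_mem_nhds ?_
      rw [B.centre]; exact hN'
    obtain ⟨R', h2, h3⟩ := Metric.mem_nhds_iff.1 h1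
    exact ⟨min R' B.R, lt_min h2 B.R_pos, min_le_right _ _,
      fun x hx => h3 (ball_subset_ball (min_le_left _ _) hx)⟩
  obtain ⟨r1, hr1, hr1', hr1B⟩ := exists_radius B hu0 hR'
  have hΘV : ∀ x ∈ ball (0 : ℂ × ℂ) R', B.Θ x ∈ V ∩ (c.L p).U := fun x hx =>
    B.target (B.Θ.map_source (by rw [B.source]; exact ball_subset_ball hR'B hx))
  let B' : GBox J p (V ∩ (c.L p).U) u :=
    B.restr (V ∩ (c.L p).U) R' hR' hR'B r1 hr1 hr1' hΘV hr1B
  -- near `p` the first curve consists of its branches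
  obtain ⟨N, hN, hN1⟩ := near_lemma c p hr1
  obtain ⟨ρ, hρ, hρN⟩ : ∃ ρ : ℝ, 0 < ρ ∧ ∀ x ∈ ball (0 : ℂ × ℂ) ρ, B.Θ x ∈ N := by
    have h1 : B.Θ ⁻¹' N ∈ 𝓝 (0 : ℂ × ℂ) := by
      refine (B.Θ.continuousAt (by rw [B.source]; exact mem_ball_self B.R_pos)).preimage_mem_nhds ?_
      rw [B.centre]; exact hN
    obtain ⟨ρ, h2, h3⟩ := Metric.mem_nhds_iff.1 h1
    exact ⟨ρ, h2, fun x hx => h3 hx⟩
  let F : FBox c p V :=
    { Θ := B'.Θ
      R := R'
      R_pos := hR'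
      source := B'.source
      centre := B'.centre
      target := B'.target
      smooth := B'.smooth
      smooth_symm := B'.smooth_symm
      J' := B'.J'
      smoothJ := B'.smoothJ
      conj := B'.conj
      leaf := B'.leaf
      J0 := B'.J0
      r1 := r1
      r1_pos := hr1
      r1_le := B'.r1_le
      inT := fun j => B'.inT (Sum.inl j)
      v := fun j => B'.v (Sum.inl j)
      v_eq := fun j => B'.v_eq (Sum.inl j)
      v_smooth := fun j => B'.v_smooth (Sum.inl j)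
      v_hol := fun j => B'.v_hol (Sum.inl j)
      m := fun j => B'.m (Sum.inl j)
      m_pos := fun j => B'.m_pos (Sum.inl j)
      a := fun j => (B'.b (Sum.inl j)).1
      a_ne := fun j => B'.b_ne (Sum.inl j)
      C := B'.C
      C_nonneg := B'.C_nonneg
      ζ0 := fun j => B'.ζ0 (Sum.inl j)
      ζ1 := fun j => B'.ζ1 (Sum.inl j)
      z0 := fun j => B'.z0 (Sum.inl j)
      z1 := fun j => B'.z1 (Sum.inl j)
      ρ := min ρ R'
      ρ_pos := lt_min hρ hR'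
      ρ_le := min_le_right _ _
      near := by
        intro x hx hxf
        obtain ⟨j, s, hs, hjs⟩ := hN1 (B.Θ x) (hρN x (ball_subset_ball (min_le_left _ _) hx)) hxf
        refine ⟨j, s, hs, ?_⟩
        show B.v (Sum.inl j) s = x
        have h1 : u (Sum.inl j) s = B.Θ x := hjs
        rw [B.v_eq, h1]
        exact B.Θ.left_inv (by
          rw [B.source]
          exact ball_subset_ball ((min_le_right _ _).trans hR'B) hx) }
  refine ⟨F, ?_⟩
  intro x hx hx1 hxc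
  have hx' : x ∈ ball (0 : ℂ × ℂ) R' := hx
  have hxc' : B.Θ x ∈ range c'.f := hxc
  obtain ⟨j, s, hs, hjs⟩ := hN'' (B.Θ x) (hR'N x hx') hxc'
  have h1 : u (Sum.inr j) s = B.Θ x := hjs
  have h2 : B.v (Sum.inr j) s = x := by
    rw [B.v_eq, h1]
    exact B.Θ.left_inv (by rw [B.source]; exact ball_subset_ball hR'B hx')
  have h3 : s = 0 := hvert (Sum.inr j) s hs (by rw [h2]; exact hx1)
  rw [← h2, h3]
  exact B.v_zero (hu0 (Sum.inr j))

end

end Crest.Agent.R235.FBoxP_130
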