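import Crest.Agent.R235.BoxF_266
import Crest.Agent.R235.WkK_250
import Crest.Agent.R235.NWAll_334

/-!
Row 235 (S0364), package ADJ, helper250: **BOXP** (local theory of a `J`-curve), no hypothesis.
-/

set_option autoImplicit false

universe u

namespace Crest.Agent.R235.Wk_250

/-- **BOXP.** -/
theorem boxp : Adj.BOXP.{u} := BoxL2_266.boxp_of_fol NWAll_334.fol_stmt weakp

end Crest.Agent.R235.Wk_250
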