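import Crest.Agent.R235.Defs_837
import Crest.Agent.R281.Nef1_252
import Crest.Agent.R281.Dif1_268

/-!
# R235, BRIDGE 281 (helper819), part 1: forms

`M : Type`, a smooth four-manifold in the sense of `Defs_837`.

* `RC M : RCh E4 M`     : the preferred charts as real charts in the sense of R281
* `toF : Z2 M → F2 (RC M)`, `ofF : F2 (RC M) → Z2 M` : closed forms of R240 and of R281;
  `ofF_toF` (equality), `toF_ofF` (`Eqv`), linearity, `toF_w`, `val_ofF`, `w_eq_val`
* `toS : F1 E4 M → ...` : smooth one-forms, `ex_toF` : exactness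
* `toA`, `ofA`          : smooth fields of endomorphisms (`AJ (RC M)`)
* `pos_iff`, `t11_iff`  : positivity and invariance
-/

set_option autoImplicit false
set_option maxSynthPendingDepth 3

open Set Filter Topology
open scoped Manifold ContDiff

namespace Crest.Agent.R235.Br281_819

open Crest.Agent.R240 Crest.Agent.R240.Ch Crest.Agent.R235
open Crest.Agent.R281.HkR_835 (RCh)
open Crest.Agent.R281.Ti_846 (IsD Ex)
open Crest.Agent.R281.NefO_476 (AJ)

noncomputable section

/-- the closed two-forms of R281 -/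
abbrev HF {V X : Type} [NormedAddCommGroup V] [NormedSpace ℝ V] [TopologicalSpace X]
    (C : RCh V X) : Type := Crest.Agent.R281.HkR_835.F2 C

/-- the one-forms of R281 -/
abbrev HF1 {V X : Type} [NormedAddCommGroup V] [NormedSpace ℝ V] [FiniteDimensional ℝ V]
    [TopologicalSpace X] (C : RCh V X) : Type := Crest.Agent.R281.Ti_846.F1 C

variable (M : Type) [TopologicalSpace M] [ChartedSpace E4 M] [IsManifold 𝓘(ℝ, E4) ∞ M]

/-- the preferred charts as a system of real charts -/
def RC : RCh E4 M where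
  ι := M
  e p := chartAt E4 p
  cover x := ⟨x, mem_chart_source E4 x⟩
  sm p q := fun _ hz => (trans_contDiffAt (p := p) (q := q) hz.1 hz.2).contDiffWithinAt

variable {M}

@[simp] theorem rc_e (p : M) : (RC M).e p = chartAt E4 p := rfl

theorem rc_t (p q : M) : (RC M).t p q = Ch.trans p q := rfl

theorem mem_ov {p q : M} {z : E4} : z ∈ (RC M).ov p q ↔
    z ∈ (chartAt E4 p).target ∧ (chartAt E4 p).symm z ∈ (chartAt E4 q).source := Iff.rfl

/-! ### two-forms -/

theorem fderiv_anti {a : F2 E4 M} (ha : Smooth2 a) {p : M} {z : E4}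
    (hz : z ∈ (chartAt E4 p).target) (c u v : E4) :
    fderiv ℝ (rep p a) z c u v = - fderiv ℝ (rep p a) z c v u := by
  have hd : DifferentiableAt ℝ (rep p a) z := ha.diff hz
  have h1 : ∀ u v, fderiv ℝ (fun y => rep p a y u v) z c = fderiv ℝ (rep p a) z c u v := by
    intro u v
    rw [((hd.hasFDerivAt.clm_apply (hasFDerivAt_const u z)).clm_apply
      (hasFDerivAt_const v z)).fderiv]
    simp
  rw [← h1 u v, ← h1 v u]
  have h2 : (fun y => rep p a y u v) = fun y => - rep p a y v u := by
    funext y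
    exact ha.antisymm_rep p y u v
  rw [h2, fderiv_fun_neg]
  rfl

/-- a closed form of R240 as a closed form of R281 -/
def toF (a : Z2 M) : HF (RC M) where
  w := fun (p : M) y => rep p (a.1.1 : F2 E4 M) y
  sm := fun (p : M) => a.1.2.2 p
  alt := fun (p : M) z _ u v => a.1.2.antisymm_rep p z u v
  tr := fun (p q : M) z hz u v => rep_pullback hz.1 hz.2 _ u v
  closed := fun (p : M) z hz u v w => by
    have h := a.2 p z hz u v w
    unfold dd at h
    have h2 := fderiv_anti a.1.2 (p := p) hz v u w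
    show fderiv ℝ (rep p (a.1.1 : F2 E4 M)) z u v w + fderiv ℝ (rep p (a.1.1 : F2 E4 M)) z v w u +
      fderiv ℝ (rep p (a.1.1 : F2 E4 M)) z w u v = 0
    linarith

theorem toF_w (a : Z2 M) (p : M) (y : E4) : (toF a).w p y = rep p (a.1.1 : F2 E4 M) y := rfl

theorem toF_val (a : Z2 M) (x : M) (u v : E4) :
    (toF a).w x (chartAt E4 x x) u v = val a x u v := rep_self x _ u v

/-- the value of `toF a` in an arbitrary chart -/
theorem toF_w_eq (a : Z2 M) {p x : M} (hx : x ∈ (chartAt E4 p).source) (u v : E4) :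
    (toF a).w p (chartAt E4 p x) u v = val a x (tcc p x x u) (tcc p x x v) := by
  rw [toF_w, rep_apply, (chartAt E4 p).left_inv hx]
  rfl

/-- the raw form -/
def ofR (w : HF (RC M)) : F2 E4 M := fun x => (w.w x (chartAt E4 x x) : E4 →L[ℝ] E4 →L[ℝ] ℝ)

theorem rep_ofR (w : HF (RC M)) {p : M} {y : E4} (hy : y ∈ (chartAt E4 p).target) :
    rep p (ofR w) y = w.w p y := by
  set x := (chartAt E4 p).symm y with hx
  have hxp : x ∈ (chartAt E4 p).source := symm_mem hy
  have hyx : chartAt E4 p x = y := (chartAt E4 p).right_inv hy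
  ext u v
  rw [rep_apply]
  have h1 := w.tr p x y ⟨hy, mem_chart_source E4 x⟩ u v
  have h2 : (RC M).t p x y = chartAt E4 x x := rfl
  have h3 : fderiv ℝ ((RC M).t p x) y = tcc p x x := by
    rw [tcc_eq_fderiv_trans, rc_t, hyx]
  rw [h1, h2, h3]
  rfl

/-- a closed form of R281 as a closed form of R240 -/
def ofF (w : HF (RC M)) : Z2 M :=
  ⟨⟨ofR w, ⟨fun x v => by
      have h := w.alt x (chartAt E4 x x) (mem_chart_target E4 x) v v
      show w.w x (chartAt E4 x x) v v = 0
      linarith, fun p => (w.sm p).congr fun y hy => rep_ofR w hy⟩⟩, fun p y hy u v c => by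
      have he : rep p (ofR w) =ᶠ[𝓝 y] w.w p := by
        filter_upwards [(chartAt E4 p).open_target.mem_nhds hy] with z hz using rep_ofR w hz
      have hd : ∀ c u v, fderiv ℝ (w.w p) y c u v = - fderiv ℝ (w.w p) y c v u := by
        intro c u v
        have hs : Smooth2 (ofR w) := ⟨fun x v => by
          have h := w.alt x (chartAt E4 x x) (mem_chart_target E4 x) v v
          show w.w x (chartAt E4 x x) v v = 0
          linarith, fun p => (w.sm p).congr fun y hy => rep_ofR w hy⟩
        have h := fderiv_anti hs (p := p) hy c u v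
        rwa [he.fderiv_eq] at h
      have h := w.closed p y hy u v c
      show dd (rep p (ofR w)) y u v c = 0
      rw [dd_congr he]
      unfold dd
      have h2 := hd v u c
      linarith⟩

@[simp] theorem val_ofF (w : HF (RC M)) (x : M) : val (ofF w) x = w.w x (chartAt E4 x x) := rfl

theorem ofF_coe (w : HF (RC M)) : ((ofF w).1.1 : F2 E4 M) = ofR w := rfl

/-- the forms agree on the targets -/
abbrev Eqv (w w' : HF (RC M)) : Prop := Crest.Agent.R281.Dif_268.Eqv w w'

theorem toF_ofF (w : HF (RC M)) : Eqv (toF (ofF w)) w := by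
  intro p z hz u v
  have h := rep_ofR w (p := (show M from p)) hz
  exact congrArg (fun T : E4 →L[ℝ] E4 →L[ℝ] ℝ => T u v) h

theorem ofF_toF (a : Z2 M) : ofF (toF a) = a := by
  apply Subtype.ext
  apply Subtype.ext
  funext x
  show ((toF a).w x (chartAt E4 x x) : E4 →L[ℝ] E4 →L[ℝ] ℝ) = val a x
  ext u v
  exact toF_val a x u v

theorem ext_val {a b : Z2 M} (h : ∀ x u v, val a x u v = val b x u v) : a = b := by
  apply Subtype.ext
  apply Subtype.ext
  funext x
  show val a x = val b x
  ext u v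
  exact h x u v

theorem ofF_congr {w w' : HF (RC M)} (h : Eqv w w') : ofF w = ofF w' := by
  refine ext_val fun x u v => ?_
  rw [val_ofF, val_ofF]
  exact h x _ (mem_chart_target E4 x) u v

theorem eqv_of_ofF {w w' : HF (RC M)} (h : ofF w = ofF w') : Eqv w w' :=
  (toF_ofF w).symm.trans (h ▸ toF_ofF w')

@[simp] theorem val_add (a b : Z2 M) (x : M) : val (a + b) x = val a x + val b x := rfl

@[simp] theorem val_smul (c : ℝ) (a : Z2 M) (x : M) : val (c • a) x = c • val a x := rfl

@[simp] theorem val_sub (a b : Z2 M) (x : M) : val (a - b) x = val a x - val b x := rfl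

@[simp] theorem val_neg (a : Z2 M) (x : M) : val (-a) x = - val a x := rfl

@[simp] theorem val_zero (x : M) : val (0 : Z2 M) x = 0 := rfl

theorem toF_add (a b : Z2 M) : toF (a + b) = toF a + toF b := by
  ext p y u v
  rfl

theorem toF_smul (c : ℝ) (a : Z2 M) : toF (c • a) = c • toF a := by
  ext p y u v
  rfl

theorem toF_sub (a b : Z2 M) : toF (a - b) = toF a - toF b := by
  ext p y u v
  rfl

theorem ofF_add (w w' : HF (RC M)) : ofF (w + w') = ofF w + ofF w' :=
  ext_val fun _ _ _ => rfl

theorem ofF_smul (c : ℝ) (w : HF (RC M)) : ofF (c • w) = c • ofF w :=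
  ext_val fun _ _ _ => rfl

theorem ofF_sub (w w' : HF (RC M)) : ofF (w - w') = ofF w - ofF w' :=
  ext_val fun _ _ _ => rfl

/-! ### one-forms, exactness -/

/-- a smooth one-form of R240 as a one-form of R281 -/
def toS (s : F1 E4 M) (hs : Smooth1 s) : HF1 (RC M) where
  η := fun (p : M) y => rep1 p s y
  sm := fun (p : M) => hs p
  tr := fun (p q : M) z hz v => by
    have h := rep1_trans (symm_mem hz.1) hz.2 s v
    rw [tcc_eq_fderiv_trans, (chartAt E4 p).right_inv hz.1] at h
    exact h

/-- a one-form of R281 as a one-form of R240 -/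
def ofS (η : HF1 (RC M)) : F1 E4 M := fun x => (η.η x (chartAt E4 x x) : E4 →L[ℝ] ℝ)

theorem rep1_ofS (η : HF1 (RC M)) {p : M} {y : E4} (hy : y ∈ (chartAt E4 p).target) :
    rep1 p (ofS η) y = η.η p y := by
  set x := (chartAt E4 p).symm y with hx
  have hyx : chartAt E4 p x = y := (chartAt E4 p).right_inv hy
  ext u
  rw [rep1_apply]
  have h1 := η.tr p x y ⟨hy, mem_chart_source E4 x⟩ u
  have h2 : (RC M).t p x y = chartAt E4 x x := rfl
  have h3 : fderiv ℝ ((RC M).t p x) y = tcc p x x := by
    rw [tcc_eq_fderiv_trans, rc_t, hyx]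
  rw [h1, h2, h3]
  rfl

theorem smooth1_ofS (η : HF1 (RC M)) : Smooth1 (ofS η) := fun p =>
  (η.sm p).congr fun _ hy => rep1_ofS η hy

theorem ex_toF {a : Z2 M} : Ex (toF a) ↔ IsEx (a.1.1 : F2 E4 M) := by
  constructor
  · rintro ⟨η, hη⟩
    refine isEx_iff.2 ⟨ofS η, smooth1_ofS η, ?_⟩
    funext x
    show at2 _ x = at2 (dG (ofS η)) x
    ext u v
    have h1 := hη x _ (mem_chart_target E4 x) u v
    have h2 := toF_val a x u v
    rw [h2] at h1
    have he : rep1 x (ofS η) =ᶠ[𝓝 (chartAt E4 x x)] η.η x := by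
      filter_upwards [(chartAt E4 x).open_target.mem_nhds (mem_chart_target E4 x)] with z hz
        using rep1_ofS η hz
    show val a x u v = Ch.d1 (rep1 x (ofS η)) (chartAt E4 x x) u v
    rw [h1, Ch.d1_congr he]
    rfl
  · intro h
    obtain ⟨s, hs, h⟩ := isEx_iff.1 h
    refine ⟨toS s hs, fun p z hz u v => ?_⟩
    have h1 : rep (show M from p) (a.1.1 : F2 E4 M) z = Ch.d1 (rep1 (show M from p) s) z := by
      rw [h, rep_dG hs hz]
    exact congrArg (fun T : E4 →L[ℝ] E4 →L[ℝ] ℝ => T u v) h1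

theorem ex_ofF {w : HF (RC M)} : IsEx ((ofF w).1.1 : F2 E4 M) ↔ Ex w := by
  rw [← ex_toF]
  exact ⟨(toF_ofF w).ex, (toF_ofF w).symm.ex⟩

theorem cls_eq_iff {a b : Z2 M} : cls a = cls b ↔ Ex (toF a - toF b) := by
  rw [← toF_sub, ex_toF]
  exact (Submodule.Quotient.eq (B2 M)).trans Iff.rfl

theorem cls_ofF_eq_iff {w w' : HF (RC M)} : cls (ofF w) = cls (ofF w') ↔ Ex (w - w') := by
  rw [← ex_ofF, ofF_sub]
  exact (Submodule.Quotient.eq (B2 M)).trans Iff.rfl

/-! ### fields of endomorphisms -/

theorem tcc_bij {p x : M} (hx : x ∈ (chartAt E4 p).source) {v : E4} (h : tcc p x x v = 0) :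
    v = 0 := by
  have := tcc_cancel (E := E4) (x := p) (z := x) hx v
  rw [h, map_zero] at this
  exact this.symm

/-- a smooth field of endomorphisms of R240 as one of R281 -/
def toA (J : EndF E4 M) (hJ : SmoothJ J) : AJ (RC M) where
  J := fun (p : M) y => repJ p J y
  sm := fun (p : M) => hJ p
  tr := fun (p q : M) z hz v => by
    have h := repJ_trans (symm_mem hz.1) hz.2 J v
    rw [tcc_eq_fderiv_trans, (chartAt E4 p).right_inv hz.1] at h
    exact h

theorem toA_J (J : EndF E4 M) (hJ : SmoothJ J) (p : M) (y : E4) :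
    (toA J hJ).J p y = repJ p J y := rfl

/-- a field of endomorphisms of R281 as one of R240 -/
def ofA (A : AJ (RC M)) : EndF E4 M := fun x => (A.J x (chartAt E4 x x) : E4 →L[ℝ] E4)

theorem repJ_ofA (A : AJ (RC M)) {p : M} {y : E4} (hy : y ∈ (chartAt E4 p).target) :
    repJ p (ofA A) y = A.J p y := by
  set x := (chartAt E4 p).symm y with hx
  have hxp : x ∈ (chartAt E4 p).source := symm_mem hy
  have hyx : chartAt E4 p x = y := (chartAt E4 p).right_inv hy
  ext1 v
  rw [repJ_apply]
  have h1 := A.tr p x y ⟨hy, mem_chart_source E4 x⟩ v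
  have h2 : (RC M).t p x y = chartAt E4 x x := rfl
  have h3 : fderiv ℝ ((RC M).t p x) y = tcc p x x := by
    rw [tcc_eq_fderiv_trans, rc_t, hyx]
  rw [h2, h3] at h1
  have h4 : atJ (ofA A) x (tcc p x x v) = A.J x (chartAt E4 x x) (tcc p x x v) := rfl
  rw [← hx, h4, ← h1]
  exact tcc_cancel hxp _

theorem smoothJ_ofA (A : AJ (RC M)) : SmoothJ (ofA A) := fun p =>
  (A.sm p).congr fun _ hy => repJ_ofA A hy

/-- pointwise values in a chart -/
theorem toA_apply (J : EndF E4 M) (hJ : SmoothJ J) {p : M} {z : E4}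
    (hz : z ∈ (chartAt E4 p).target) (v : E4) :
    tcc p ((chartAt E4 p).symm z) ((chartAt E4 p).symm z) ((toA J hJ).J p z v) =
      atJ J ((chartAt E4 p).symm z)
        (tcc p ((chartAt E4 p).symm z) ((chartAt E4 p).symm z) v) := by
  rw [toA_J, repJ_apply]
  exact tcc_cancel' (symm_mem hz) _

theorem toA_self (J : EndF E4 M) (hJ : SmoothJ J) (x : M) (v : E4) :
    (toA J hJ).J x (chartAt E4 x x) v = atJ J x v := by
  have h := toA_apply J hJ (mem_chart_target E4 x) v
  rw [(chartAt E4 x).left_inv (mem_chart_source E4 x)] at h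
  rwa [tcc_self (mem_chart_source E4 x), tcc_self (mem_chart_source E4 x)] at h

theorem toF_pair (a : Z2 M) {p : M} {z : E4} (u v : E4) :
    (toF a).w p z u v = val a ((chartAt E4 p).symm z)
      (tcc p ((chartAt E4 p).symm z) ((chartAt E4 p).symm z) u)
      (tcc p ((chartAt E4 p).symm z) ((chartAt E4 p).symm z) v) := rfl

theorem toF_pair_J {J : EndF E4 M} (hJ : SmoothJ J) (a : Z2 M) {p : M} {z : E4}
    (hz : z ∈ (chartAt E4 p).target) (u v : E4) :
    (toF a).w p z u ((toA J hJ).J p z v) = val a ((chartAt E4 p).symm z)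
      (tcc p ((chartAt E4 p).symm z) ((chartAt E4 p).symm z) u)
      (atJ J ((chartAt E4 p).symm z)
        (tcc p ((chartAt E4 p).symm z) ((chartAt E4 p).symm z) v)) := by
  rw [toF_pair, toA_apply J hJ hz]

theorem toF_pair_JJ {J : EndF E4 M} (hJ : SmoothJ J) (a : Z2 M) {p : M} {z : E4}
    (hz : z ∈ (chartAt E4 p).target) (u v : E4) :
    (toF a).w p z ((toA J hJ).J p z u) ((toA J hJ).J p z v) = val a ((chartAt E4 p).symm z)
      (atJ J ((chartAt E4 p).symm z)
        (tcc p ((chartAt E4 p).symm z) ((chartAt E4 p).symm z) u))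
      (atJ J ((chartAt E4 p).symm z)
        (tcc p ((chartAt E4 p).symm z) ((chartAt E4 p).symm z) v)) := by
  rw [toF_pair, toA_apply J hJ hz, toA_apply J hJ hz]

theorem t11_iff {J : EndF E4 M} (hJ : SmoothJ J) {a : Z2 M} :
    Crest.Agent.R281.Nef_252.T11 (toA J hJ) (toF a) ↔
      ∀ x u v, val a x (atJ J x u) (atJ J x v) = val a x u v := by
  constructor
  · intro h x u v
    have := h x _ (mem_chart_target E4 x) u v
    rwa [toA_self, toA_self, toF_val, toF_val] at this
  · intro h p z hz u v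
    exact (toF_pair_JJ hJ a hz u v).trans (h _ _ _)

theorem anti_iff {J : EndF E4 M} (hJ : SmoothJ J) {a : Z2 M} :
    (∀ p : M, ∀ z ∈ (chartAt E4 p).target, ∀ u v, (toF a).w p z ((toA J hJ).J p z u)
      ((toA J hJ).J p z v) = - (toF a).w p z u v) ↔
      ∀ x u v, val a x (atJ J x u) (atJ J x v) = - val a x u v := by
  constructor
  · intro h x u v
    have := h x _ (mem_chart_target E4 x) u v
    rwa [toA_self, toA_self, toF_val, toF_val] at this
  · intro h p z hz u v
    rw [toF_pair, toF_pair, toA_apply J hJ hz, toA_apply J hJ hz]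
    exact h _ _ _

theorem pos_iff {J : EndF E4 M} (hJ : SmoothJ J) {a : Z2 M} :
    Crest.Agent.R281.NefO_476.Pos (toA J hJ) (toF a) ↔
      ∀ x v, v ≠ 0 → 0 < val a x v (atJ J x v) := by
  constructor
  · intro h x v hv
    have := h x _ (mem_chart_target E4 x) v hv
    rwa [toA_self, toF_val] at this
  · intro h p z hz v hv
    have h1 : tcc (show M from p) ((chartAt E4 (show M from p)).symm z)
        ((chartAt E4 (show M from p)).symm z) v ≠ 0 := fun h0 => hv (tcc_bij (symm_mem hz) h0)
    exact (h _ _ h1).trans_eq (toF_pair_J hJ a hz v v).symm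

theorem sq_iff {J : EndF E4 M} (hJ : SmoothJ J) :
    (∀ p : M, ∀ z ∈ (chartAt E4 p).target, ∀ v, (toA J hJ).J p z ((toA J hJ).J p z v) = -v) ↔
      ∀ x v, atJ J x (atJ J x v) = -v := by
  constructor
  · intro h x v
    have := h x _ (mem_chart_target E4 x) v
    rwa [toA_self, toA_self] at this
  · intro h p z hz v
    have h0 := toA_apply J hJ hz v
    have h1 := toA_apply J hJ hz ((toA J hJ).J p z v)
    rw [h0, h] at h1
    have h2 := tcc_cancel (E := E4) (symm_mem hz) ((toA J hJ).J p z ((toA J hJ).J p z v))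
    rw [h1, map_neg, tcc_cancel (symm_mem hz)] at h2
    exact h2.symm

end

end Crest.Agent.R235.Br281_819
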