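import Crest.Agent.R235.Br281_819
import Crest.Agent.R281.Al4_830
import Crest.Agent.R281.KpK_487

/-!
# R235, BRIDGE 281 (helper819), part 2: the wedge product of Kaehler and (2,0) forms on `ℂ²`

* `Bc : E4 →L[ℝ] Cn 2`, `Bi` : the standard real coordinates
* `pl D τ`          : pull back of a bilinear form on `Cn 2`
* `W_pl`            : `W (pl D τ) (pl D η) = det * W (pl Bc τ) (pl Bc η)`
* `W_kah`           : `W = 2 det g` for the form of the Hermitian matrix `g`
* `W_sym`           : `W = 2 ‖det S‖` for the real part of the antisymmetric matrix `S`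
-/

set_option autoImplicit false
set_option maxSynthPendingDepth 3

open Set Filter Topology Complex
open scoped Manifold ContDiff ComplexConjugate

namespace Crest.Agent.R235.Br281b_819

open Crest.Agent.R240 Crest.Agent.R275.Geo Crest.Agent.R275.Core144

noncomputable section

/-- real coordinates on `ℂ²` -/
def Bc : E4 →L[ℝ] Cn 2 :=
  LinearMap.toContinuousLinearMap
    { toFun := fun x => WithLp.toLp 2 ![(x 0 : ℂ) + (x 1 : ℂ) * I, (x 2 : ℂ) + (x 3 : ℂ) * I]
      map_add' := fun x y => by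
        ext a
        fin_cases a <;> simp <;> ring
      map_smul' := fun c x => by
        ext a
        fin_cases a <;> simp <;> ring }

theorem Bc_0 (x : E4) : (Bc x) 0 = (x 0 : ℂ) + (x 1 : ℂ) * I := rfl
theorem Bc_1 (x : E4) : (Bc x) 1 = (x 2 : ℂ) + (x 3 : ℂ) * I := rfl

/-- the inverse -/
def Bi : Cn 2 →L[ℝ] E4 :=
  LinearMap.toContinuousLinearMap
    { toFun := fun z => WithLp.toLp 2 ![(z 0).re, (z 0).im, (z 1).re, (z 1).im]
      map_add' := fun x y => by
        ext a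
        fin_cases a <;> simp
      map_smul' := fun c x => by
        ext a
        fin_cases a <;> simp }

theorem Bc_Bi (z : Cn 2) : Bc (Bi z) = z := by
  ext a
  fin_cases a
  · exact Complex.re_add_im _
  · exact Complex.re_add_im _

theorem Bi_Bc (x : E4) : Bi (Bc x) = x := by
  ext a
  fin_cases a
  · show ((Bc x) 0).re = x 0
    rw [Bc_0]; simp
  · show ((Bc x) 0).im = x 1
    rw [Bc_0]; simp
  · show ((Bc x) 1).re = x 2
    rw [Bc_1]; simp
  · show ((Bc x) 1).im = x 3
    rw [Bc_1]; simp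

/-- pull back of a bilinear form -/
def pl (D : E4 →L[ℝ] Cn 2) (τ : Cn 2 →L[ℝ] Cn 2 →L[ℝ] ℝ) : Bil := τ.bilinearComp D D

@[simp] theorem pl_apply (D : E4 →L[ℝ] Cn 2) (τ : Cn 2 →L[ℝ] Cn 2 →L[ℝ] ℝ) (u v : E4) :
    pl D τ u v = τ (D u) (D v) := rfl

theorem pl_eq (D : E4 →L[ℝ] Cn 2) (τ : Cn 2 →L[ℝ] Cn 2 →L[ℝ] ℝ) :
    pl D τ = pull (Bi.comp D) (pl Bc τ) := by
  ext u v
  rw [pull_apply, pl_apply, pl_apply, ContinuousLinearMap.comp_apply,
    ContinuousLinearMap.comp_apply, Bc_Bi, Bc_Bi]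

theorem alt_pl {τ : Cn 2 →L[ℝ] Cn 2 →L[ℝ] ℝ} (h : ∀ u v, τ u v = - τ v u)
    (D : E4 →L[ℝ] Cn 2) : Alt (pl D τ) := by
  intro v
  have := h (D v) (D v)
  show τ (D v) (D v) = 0
  linarith

theorem W_pl {τ η : Cn 2 →L[ℝ] Cn 2 →L[ℝ] ℝ} (h : ∀ u v, τ u v = - τ v u)
    (h' : ∀ u v, η u v = - η v u) (D : E4 →L[ℝ] Cn 2) :
    W (pl D τ) (pl D η) =
      LinearMap.det ((Bi.comp D : E4 →L[ℝ] E4) : E4 →ₗ[ℝ] E4) * W (pl Bc τ) (pl Bc η) := by
  rw [pl_eq D τ, pl_eq D η, W_pull (alt_pl h Bc) (alt_pl h' Bc)]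

theorem Bc_ee (i : Fin 4) : Bc (ee i) = WithLp.toLp 2
    ![if i = 0 then 1 else if i = 1 then I else 0, if i = 2 then 1 else if i = 3 then I else 0] := by
  ext a
  fin_cases i <;> fin_cases a <;> simp [Bc, ee]

theorem W_kah {g : Matrix (Fin 2) (Fin 2) ℂ} (hg : g.IsHermitian)
    {τ : Cn 2 →L[ℝ] Cn 2 →L[ℝ] ℝ}
    (h : ∀ u v, τ u v = (I * Crest.Agent.R281.HkR_835.hb g u v).re) :
    W (pl Bc τ) (pl Bc τ) = 2 * g.det.re := by
  have e00 : (g 0 0).im = 0 := by
    have := congrFun (congrFun hg 0) 0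
    rw [Matrix.conjTranspose_apply] at this
    have := congrArg Complex.im this
    simp at this
    linarith
  have e11 : (g 1 1).im = 0 := by
    have := congrFun (congrFun hg 1) 1
    rw [Matrix.conjTranspose_apply] at this
    have := congrArg Complex.im this
    simp at this
    linarith
  have e10 : g 1 0 = conj (g 0 1) := by
    have := congrFun (congrFun hg 1) 0
    rw [Matrix.conjTranspose_apply] at this
    exact this.symm
  have h10r : (g 1 0).re = (g 0 1).re := by rw [e10, Complex.conj_re]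
  have h10i : (g 1 0).im = - (g 0 1).im := by rw [e10, Complex.conj_im]
  have hent : ∀ i j, ent (pl Bc τ) i j = (I * Crest.Agent.R281.HkR_835.hb g (Bc (ee i)) (Bc (ee j))).re :=
    fun i j => h _ _
  unfold W
  simp only [hent, Bc_ee, Crest.Agent.R281.HkR_835.hb, Fin.sum_univ_two]
  simp [Matrix.det_fin_two, e00, e11, h10r, h10i]
  ring

theorem W_sym {S : Matrix (Fin 2) (Fin 2) ℂ} (hS : S.transpose = -S)
    {τ : Cn 2 →L[ℝ] Cn 2 →L[ℝ] ℝ}
    (h : ∀ u v, τ u v = (Crest.Agent.R281.HkR_835.sb S u v).re) :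
    W (pl Bc τ) (pl Bc τ) = 2 * ‖S.det‖ := by
  have e00 : S 0 0 = 0 := by
    have := congrFun (congrFun hS 0) 0
    rw [Matrix.transpose_apply, Matrix.neg_apply] at this
    have h2 : (2 : ℂ) * S 0 0 = 0 := by linear_combination this
    simpa using h2
  have e11 : S 1 1 = 0 := by
    have := congrFun (congrFun hS 1) 1
    rw [Matrix.transpose_apply, Matrix.neg_apply] at this
    have h2 : (2 : ℂ) * S 1 1 = 0 := by linear_combination this
    simpa using h2
  have e10 : S 1 0 = - S 0 1 := by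
    have := congrFun (congrFun hS 0) 1
    rw [Matrix.transpose_apply, Matrix.neg_apply] at this
    exact this
  have hdet : S.det = S 0 1 ^ 2 := by
    rw [Matrix.det_fin_two, e00, e11, e10]
    ring
  have hn : ‖S.det‖ = (S 0 1).re ^ 2 + (S 0 1).im ^ 2 := by
    rw [hdet, norm_pow, ← Complex.normSq_eq_norm_sq, Complex.normSq_apply]
    ring
  have hent : ∀ i j, ent (pl Bc τ) i j = (Crest.Agent.R281.HkR_835.sb S (Bc (ee i)) (Bc (ee j))).re :=
    fun i j => h _ _
  rw [hn]
  unfold W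
  simp only [hent, Bc_ee, Crest.Agent.R281.HkR_835.sb, Fin.sum_univ_two]
  simp [e00, e11, e10]
  ring

end

end Crest.Agent.R235.Br281b_819
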