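import Crest.Agent.R235.Br281b_819
import Crest.Agent.R281.HkM1_835
import Crest.Agent.R281.Nef4_252

/-!
# R235, BRIDGE 281 (helper819), part 3: Yau's theorem in the language of real charts, dimension 4

* `yauF` : `J : AJ C` with a Kaehler form `om` and a closed pair `s1 + i s2` of type (2,0)
  (`HD J om s1 s2`), `F` smooth ==> a Kaehler form `om'` in the class of `om` with
  `om' ∧ om' = exp (F + c) s1 ∧ s1`
-/

set_option autoImplicit false
set_option maxSynthPendingDepth 3
set_option linter.unusedSectionVars false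

open Set Filter Topology Complex
open scoped Manifold ContDiff Matrix ComplexConjugate ComplexOrder

namespace Crest.Agent.R235.Br281c_819

open Crest.Agent.R240 Crest.Agent.R275.Geo Crest.Agent.R275.Core144 Crest.Agent.R275.GC293
open Crest.Agent.R273 Crest.Agent.R273.Hess_333 Crest.Agent.R273.HessB_333
open Crest.Agent.R273.Defs_333 Crest.Agent.R273.HM_333 Crest.Agent.R273.Kah_333
open Crest.Agent.R273.Vol_333 Crest.Agent.R273.Vm_333
open Crest.Agent.R281.Defs_273 (H2 HSymp)
open Crest.Agent.R281.HkR_835 hiding pb pb_apply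
open Crest.Agent.R281.HkR_835.Cmp
open Crest.Agent.R281.Ti_846 hiding pb pb_apply
open Crest.Agent.R281.NefO_476 Crest.Agent.R281.Nef_252
open Crest.Agent.R281.Al_830 Crest.Agent.R281.HkP2_508
open Crest.Agent.R281.Dif_268 (Eqv)
open Crest.Agent.R235.Br281b_819

noncomputable section

variable {X : Type} [TopologicalSpace X] {C : RCh E4 X}

theorem sm_of_cmp {A : Atl 2 X} (h : Cmp C (ofAtl A)) {F : X → ℝ} (hF : Sm C F) : A.Sm F := by
  intro j z hz
  obtain ⟨i, hi⟩ := exists_mov (C' := ofAtl A) C (j := j) hz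
  refine ContDiffAt.contDiffWithinAt ?_
  have h1 : (fun y => F ((A.e j).symm y)) =ᶠ[𝓝 z]
      fun y => uc C F i (mt C (ofAtl A) i j y) := by
    filter_upwards [(isOpen_mov C (ofAtl A) i j).mem_nhds hi] with y hy
    exact congrArg F ((C.e i).left_inv hy.2).symm
  have h2 : ContDiffAt ℝ ∞ (mt C (ofAtl A) i j) z :=
    (h.s i j).contDiffAt ((isOpen_mov C (ofAtl A) i j).mem_nhds hi)
  have h3 : ContDiffAt ℝ ∞ (uc C F i) (mt C (ofAtl A) i j z) := hF.at (mt_mem hi).1
  exact (h3.comp z h2).congr_of_eventuallyEq h1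

theorem finrank_E4 : Module.finrank ℝ E4 = 2 * 2 := by
  rw [finrank_euclideanSpace]
  rfl

theorem yauF [T2Space X] [CompactSpace X] [ConnectedSpace X] {J : AJ C} {om s1 s2 : F2 C}
    (D : HD J om s1 s2) {F : X → ℝ} (hF : Sm C F) :
    ∃ (om' : F2 C) (c : ℝ), Ex (om' - om) ∧ T11 J om' ∧ Pos J om' ∧
      ∀ i, ∀ z ∈ (C.e i).target, W (om'.w i z) (om'.w i z) =
        Real.exp (F ((C.e i).symm z) + c) * W (s1.w i z) (s1.w i z) := by
  obtain ⟨A, hfin, hgood, ⟨PA⟩, h, hI⟩ := exists_atlas (d := 2) finrank_E4 D.cx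
  set K : Kah A := D.K hI h with hK
  set S : HSymp A := D.S hI h with hS
  obtain ⟨u, c, hu, hY⟩ := Crest.Agent.R281.KpK_487.yau_kah A K
    (fun x => F x + ratio (volK K) (volS S) x)
    (fun i => (sm_of_cmp h hF i).add (sm_ratio (volK K) (volS S) i))
  have hp : ∀ i, ∀ x ∈ (A.e i).source, (K.g i x + hsf A u i x).PosDef :=
    fun i x hx => (hY i x hx).1
  set K' : Kah A := addK K u hu hp with hK'
  set om' : F2 C := h.symm.F (ofKah K').f2 with hom'
  -- reading in the charts of `A`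
  have hrd : ∀ {i : C.ι} {j : A.ι} {z : E4}, z ∈ mov (ofAtl A) C j i → ∀ a b : E4,
      om'.w i z a b = (ofKah K').f2.w j (mt (ofAtl A) C j i z)
        (fderiv ℝ (mt (ofAtl A) C j i) z a) (fderiv ℝ (mt (ofAtl A) C j i) z b) := by
    intro i j z hz a b
    exact h.symm.F_w _ hz a b
  have hex : Ex (om' - om) := by
    have e1 : Ex ((ofKah K').f2 - (ofKah K).f2) := ex_of_hsf hu fun i x _ => rfl
    have e2 : Ex (h.symm.F ((ofKah K').f2 - (ofKah K).f2)) :=
      Crest.Agent.R281.HkR_835.ex_F h.symm e1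
    have e3 : Ex (h.symm.F (ofKah K').f2 - h.symm.F (ofKah K).f2) :=
      (Crest.Agent.R281.HkR_835.F_sub h.symm _ _).ex e2
    have e4 : Eqv (h.symm.F (ofKah K).f2) om := by
      refine Eqv.trans (w' := h.symm.F (h.F om)) ?_ (Crest.Agent.R281.HkR_835.F_F h om)
      refine F_eqv fun j z hz a b => ?_
      rw [D.K_f2 hI h hz]
    refine Eqv.ex (w := h.symm.F (ofKah K').f2 - h.symm.F (ofKah K).f2) ?_ e3
    intro i z hz a b
    have := e4 i z hz a b
    show (h.symm.F (ofKah K').f2).w i z a b - (h.symm.F (ofKah K).f2).w i z a b =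
      om'.w i z a b - om.w i z a b
    rw [this]
  have h11 : T11 J om' := by
    intro i z hz a b
    obtain ⟨j, hj⟩ := exists_mov (C' := C) (ofAtl A) (j := i) hz
    rw [hrd hj, hrd hj, hI.back h hj, hI.back h hj]
    exact K11.f2_inv _ (mt_mem hj).1 _ _
  have hpos : Pos J om' := by
    intro i z hz v hv
    obtain ⟨j, hj⟩ := exists_mov (C' := C) (ofAtl A) (j := i) hz
    rw [hrd hj, hI.back h hj]
    refine ((pos_f2 (ofKah K')).2 fun i x hx => K'.pos i x hx) j _ (mt_mem hj).1 _ fun h0 => hv ?_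
    exact h.symm.inj hj (by rw [h0, map_zero])
  refine ⟨om', c, hex, h11, hpos, fun i z hz => ?_⟩
  obtain ⟨j, hj⟩ := exists_mov (C' := C) (ofAtl A) (j := i) hz
  set z' := mt (ofAtl A) C j i z with hz'
  have hzt : z' ∈ (A.e j).target := (mt_mem hj).1
  set Dm := fderiv ℝ (mt (ofAtl A) C j i) z with hDm
  have hx : (A.e j).symm z' = (C.e i).symm z := (A.e j).left_inv hj.2
  have hxs : (C.e i).symm z ∈ (A.e j).source := hj.2
  have e1 : om'.w i z = pl Dm ((ofKah K').f2.w j z') := by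
    ext a b
    rw [hrd hj]
    rfl
  have e2 : s1.w i z = pl Dm ((h.F s1).w j z') := by
    ext a b
    have := Crest.Agent.R281.HkR_835.F_F h s1 i z hz a b
    rw [← this, h.symm.F_w _ hj]
    rfl
  have a1 : ∀ u v, (ofKah K').f2.w j z' u v = - (ofKah K').f2.w j z' v u :=
    fun u v => (ofKah K').f2.alt j z' hzt u v
  have a2 : ∀ u v, (h.F s1).w j z' u v = - (h.F s1).w j z' v u :=
    fun u v => (h.F s1).alt j z' hzt u v
  have w1 : W (pl Bc ((ofKah K').f2.w j z')) (pl Bc ((ofKah K').f2.w j z')) =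
      2 * (K'.g j ((C.e i).symm z)).det.re :=
    W_kah (K'.pos j _ hxs).isHermitian fun u v => by
      rw [K11.f2_w _ hzt, hx]
      rfl
  have w2 : W (pl Bc ((h.F s1).w j z')) (pl Bc ((h.F s1).w j z')) =
      2 * ‖(S.s j ((C.e i).symm z)).det‖ :=
    W_sym (S.alt j _ hxs) fun u v => by
      have h3 := D.S0_sb hI h hzt u v
      have h4 : sl (D.S0 hI h) j z' = S.s j ((C.e i).symm z) := by
        show (D.S0 hI h).s j ((A.e j).symm z') = _
        rw [hx]
        rfl
      rw [h4] at h3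
      rw [h3]
      simp
  rw [e1, e2, W_pl a1 a1, W_pl a2 a2, w1, w2]
  have h5 := (hY j _ hxs).2
  have h6 : (K'.g j ((C.e i).symm z)).det.re =
      Real.exp (F ((C.e i).symm z) + ratio (volK K) (volS S) ((C.e i).symm z) + c) *
        (K.g j ((C.e i).symm z)).det.re := by
    have : (K'.g j ((C.e i).symm z)).det =
      (K.g j ((C.e i).symm z) + hsf A u j ((C.e i).symm z)).det := rfl
    rw [this, h5, Complex.re_ofReal_mul]
  have h7 : ‖(S.s j ((C.e i).symm z)).det‖ =
      Real.exp (ratio (volK K) (volS S) ((C.e i).symm z)) * (K.g j ((C.e i).symm z)).det.re :=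
    w_ratio (volK K) (volS S) hxs
  rw [h6, h7]
  have h8 : F ((C.e i).symm z) + ratio (volK K) (volS S) ((C.e i).symm z) + c =
    (F ((C.e i).symm z) + c) + ratio (volK K) (volS S) ((C.e i).symm z) := by ring
  rw [h8, Real.exp_add (F ((C.e i).symm z) + c)]
  ring

end

end Crest.Agent.R235.Br281c_819
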