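import Crest.Agent.R235.Br281_819
import Crest.Agent.R240.Lin4

/-!
# R235, BRIDGE 281 (helper819), part 4: pointwise algebra of anti-invariant pairs; the global sign

* `inv_spos`  : the invariant part of a taming form is strictly positive
* `anti_W`    : `W b c = 2 (p p' + q q') det⁻¹` in a frame
* `pair_sign` : `b`, `c` anti-invariant, `W b b = W c c ≠ 0`, `W b c = 0` ==> `c = ± b (J ·, ·)`
* `anti_nd`   : an anti-invariant form with `W b b ≠ 0` is nondegenerate
* `W_inv_anti`: `W a b = 0` for `a` invariant, `b` anti-invariant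
* `glob_sign` : the sign is constant on a connected manifold
-/

set_option autoImplicit false
set_option maxSynthPendingDepth 3

open Set Filter Topology
open scoped Manifold ContDiff

namespace Crest.Agent.R235.Br281d_819

open Crest.Agent.R240 Crest.Agent.R240.Ch Crest.Agent.R235 Crest.Agent.R235.Br281_819

noncomputable section

section pw

variable {J : E4 →L[ℝ] E4} {b c : Bil}

theorem inv_spos (hJ : ∀ v, J (J v) = -v) (hb : Alt b) (ht : ∀ v, v ≠ 0 → 0 < b v (J v)) :
    SPos J (invp J b) where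
  alt := hb.invp J
  inv u v := by
    rw [invp_apply, invp_apply, hJ, hJ, neg_neg_apply]
    ring
  pos v hv := by
    rw [invp_apply, hJ, map_neg, hb.swap (J v) v]
    have := ht v hv
    linarith

/-- the entries of an anti-invariant form in a frame -/
theorem anti_ent {A : E4 ≃L[ℝ] E4} (hA : ∀ v, J (A v) = A (J0 v)) (hb : Alt b)
    (h : ∀ u v, b (J u) (J v) = - b u v) :
    ent (pull A b) 0 1 = 0 ∧ ent (pull A b) 2 3 = 0 ∧ ent (pull A b) 1 3 = - ent (pull A b) 0 2 ∧
      ent (pull A b) 1 2 = ent (pull A b) 0 3 := by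
  have hb' : Alt (pull A b) := hb.pull A
  have h0 : ∀ u v, (pull A b) (J0 u) (J0 v) = - (pull A b) u v := by
    intro u v
    rw [pull_apply, pull_apply]
    show b (A (J0 u)) (A (J0 v)) = - b (A u) (A v)
    rw [← hA, ← hA, h]
  have j0 : J0 (ee 0) = ee 1 := by ext i; fin_cases i <;> simp
  have j1 : J0 (ee 1) = - ee 0 := by ext i; fin_cases i <;> simp
  have j2 : J0 (ee 2) = ee 3 := by ext i; fin_cases i <;> simp
  have j3 : J0 (ee 3) = - ee 2 := by ext i; fin_cases i <;> simp
  have e1 := h0 (ee 0) (ee 1)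
  have e2 := h0 (ee 2) (ee 3)
  have e3 := h0 (ee 0) (ee 2)
  have e4 := h0 (ee 0) (ee 3)
  rw [j0, j1, map_neg] at e1
  rw [j2, j3, map_neg] at e2
  rw [j0, j2] at e3
  rw [j0, j3, map_neg] at e4
  have s1 := hb'.swap (ee 1) (ee 0)
  have s2 := hb'.swap (ee 3) (ee 2)
  refine ⟨?_, ?_, ?_, ?_⟩
  · show (pull A b) (ee 0) (ee 1) = 0
    linarith
  · show (pull A b) (ee 2) (ee 3) = 0
    linarith
  · exact e3
  · show (pull A b) (ee 1) (ee 2) = (pull A b) (ee 0) (ee 3)
    linarith

theorem W_anti {A : E4 ≃L[ℝ] E4} (hA : ∀ v, J (A v) = A (J0 v)) (hb : Alt b) (hc : Alt c)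
    (h : ∀ u v, b (J u) (J v) = - b u v) (h' : ∀ u v, c (J u) (J v) = - c u v) :
    LinearMap.det ((A : E4 →L[ℝ] E4) : E4 →ₗ[ℝ] E4) * W b c =
      2 * (ent (pull A b) 0 2 * ent (pull A c) 0 2 + ent (pull A b) 0 3 * ent (pull A c) 0 3) := by
  obtain ⟨b1, b2, b3, b4⟩ := anti_ent hA hb h
  obtain ⟨c1, c2, c3, c4⟩ := anti_ent hA hc h'
  have := W_pull hb hc (A : E4 →L[ℝ] E4)
  rw [← this]
  unfold W
  have e : ∀ i j, ent (pull ((A : E4 ≃L[ℝ] E4) : E4 →L[ℝ] E4) b) i j = ent (pull A b) i j :=
    fun _ _ => rfl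
  rw [b1, b2, b3, b4, c1, c2, c3, c4]
  ring

theorem det_ne (A : E4 ≃L[ℝ] E4) :
    LinearMap.det ((A : E4 →L[ℝ] E4) : E4 →ₗ[ℝ] E4) ≠ 0 := by
  have h : LinearMap.det (A.toLinearEquiv : E4 →ₗ[ℝ] E4) ≠ 0 :=
    (LinearEquiv.isUnit_det' A.toLinearEquiv).ne_zero
  exact h

/-- the form `b (J ·, ·)` -/
theorem pair_sign {A : E4 ≃L[ℝ] E4} (hA : ∀ v, J (A v) = A (J0 v)) (hb : Alt b) (hc : Alt c)
    (hJ : ∀ v, J (J v) = -v)
    (h : ∀ u v, b (J u) (J v) = - b u v) (h' : ∀ u v, c (J u) (J v) = - c u v)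
    (h0 : W b b ≠ 0) (h1 : W b b = W c c) (h2 : W b c = 0) :
    (∀ u v, c u v = b (J u) v) ∨ (∀ u v, c u v = - b (J u) v) := by
  have e1 := W_anti hA hb hb h h
  have e2 := W_anti hA hc hc h' h'
  have e3 := W_anti hA hb hc h h'
  rw [h2, mul_zero] at e3
  rw [← h1] at e2
  have hd := det_ne A
  set d := LinearMap.det ((A : E4 →L[ℝ] E4) : E4 →ₗ[ℝ] E4)
  obtain ⟨b1, b2, b3, b4⟩ := anti_ent hA hb h
  obtain ⟨c1, c2, c3, c4⟩ := anti_ent hA hc h'
  set p := ent (pull A b) 0 2 with hp
  set q := ent (pull A b) 0 3 with hq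
  set p' := ent (pull A c) 0 2 with hp'
  set q' := ent (pull A c) 0 3 with hq'
  have hn : p * p + q * q ≠ 0 := by
    intro h3
    rw [h3, mul_zero] at e1
    exact (mul_ne_zero hd h0) e1
  -- `J`-twisted form
  set β : Bil := b.comp J with hβ
  have hβa : ∀ u v, β u v = b (J u) v := fun _ _ => rfl
  have hβalt : Alt β := by
    intro v
    have e := h v (J v)
    rw [hJ v, map_neg] at e
    have e' := hb.swap v (J v)
    rw [hβa]
    linarith
  have j0 : J0 (ee 0) = ee 1 := by ext i; fin_cases i <;> simp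
  have j1 : J0 (ee 1) = - ee 0 := by ext i; fin_cases i <;> simp
  have j2 : J0 (ee 2) = ee 3 := by ext i; fin_cases i <;> simp
  have hent : ∀ i j, ent (pull A β) i j = (pull A b) (J0 (ee i)) (ee j) := by
    intro i j
    unfold ent
    rw [pull_apply, pull_apply, hβa]
    show b (J (A (ee i))) (A (ee j)) = b (A (J0 (ee i))) (A (ee j))
    rw [hA]
  have hb' : Alt (pull A b) := hb.pull A
  have t01 : ent (pull A β) 0 1 = 0 := by rw [hent, j0]; exact hb' _
  have t02 : ent (pull A β) 0 2 = q := by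
    rw [hent, j0]; exact b4
  have t03 : ent (pull A β) 0 3 = -p := by
    rw [hent, j0]; exact b3
  have t12 : ent (pull A β) 1 2 = -p := by
    rw [hent, j1, map_neg]; rfl
  have t13 : ent (pull A β) 1 3 = -q := by
    rw [hent, j1, map_neg]; rfl
  have t23 : ent (pull A β) 2 3 = 0 := by rw [hent, j2]; exact hb' _
  have hinj : ∀ {x y : Bil}, pull A x = pull A y → ∀ u v, x u v = y u v := by
    intro x y hxy u v
    have e := congrArg (fun T : Bil => T (A.symm u) (A.symm v)) hxy
    simp only [pull_apply] at e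
    have e2 : ∀ w, ((A : E4 ≃L[ℝ] E4) : E4 →L[ℝ] E4) (A.symm w) = w := fun w => A.apply_symm_apply w
    rw [e2, e2] at e
    exact e
  -- `(p', q') = ± (q, -p)`
  have k1 : p' * p' + q' * q' = p * p + q * q := by linarith
  have k2 : p * p' + q * q' = 0 := by linarith
  have k3 : (p' * q - q' * p) ^ 2 = (p * p + q * q) ^ 2 := by
    have : (p' * q - q' * p) ^ 2 = (p * p + q * q) * (p' * p' + q' * q') -
      (p * p' + q * q') ^ 2 := by ring
    rw [this, k1, k2]
    ring
  have k4 : (p' * q - q' * p = p * p + q * q) ∨ (p' * q - q' * p = -(p * p + q * q)) :=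
    sq_eq_sq_iff_eq_or_eq_neg.1 k3
  rcases k4 with k4 | k4
  · have e5 : p' = q := by
      have : (p * p + q * q) * (p' - q) = 0 := by linear_combination q * k4 + p * k2
      rcases mul_eq_zero.1 this with h5 | h5
      · exact absurd h5 hn
      · linarith
    have e6 : q' = -p := by
      have : (p * p + q * q) * (q' + p) = 0 := by linear_combination q * k2 - p * k4
      rcases mul_eq_zero.1 this with h5 | h5
      · exact absurd h5 hn
      · linarith
    left
    intro u v
    rw [← hβa]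
    refine hinj (alt_ext (hc.pull A) (hβalt.pull A) ?_ ?_ ?_ ?_ ?_ ?_) u v
    · exact c1.trans t01.symm
    · exact (hp'.symm.trans e5).trans t02.symm
    · exact (hq'.symm.trans e6).trans t03.symm
    · exact (c4.trans e6).trans t12.symm
    · exact (c3.trans (by rw [e5])).trans t13.symm
    · exact c2.trans t23.symm
  · have e5 : p' = -q := by
      have : (p * p + q * q) * (p' + q) = 0 := by linear_combination q * k4 + p * k2
      rcases mul_eq_zero.1 this with h5 | h5
      · exact absurd h5 hn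
      · linarith
    have e6 : q' = p := by
      have : (p * p + q * q) * (q' - p) = 0 := by linear_combination q * k2 - p * k4
      rcases mul_eq_zero.1 this with h5 | h5
      · exact absurd h5 hn
      · linarith
    right
    intro u v
    rw [← hβa]
    have hneg : ∀ i j, ent (pull A (-β)) i j = - ent (pull A β) i j := by
      intro i j
      unfold ent
      rw [pull_apply, pull_apply]
      rfl
    refine hinj (x := c) (y := -β) (alt_ext (hc.pull A) (hβalt.neg.pull A) ?_ ?_ ?_ ?_ ?_ ?_) u v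
    · rw [hneg, t01, neg_zero]; exact c1
    · rw [hneg, t02]; exact hp'.symm.trans e5
    · rw [hneg, t03, neg_neg]; exact hq'.symm.trans e6
    · rw [hneg, t12, neg_neg]; exact c4.trans e6
    · rw [hneg, t13, neg_neg]; exact c3.trans (by rw [e5, neg_neg])
    · rw [hneg, t23, neg_zero]; exact c2

theorem anti_nd {A : E4 ≃L[ℝ] E4} (hA : ∀ v, J (A v) = A (J0 v)) (hb : Alt b)
    (h : ∀ u v, b (J u) (J v) = - b u v) (h0 : W b b ≠ 0) {u : E4} (hu : ∀ v, b u v = 0) :
    u = 0 := by
  have e1 := W_anti hA hb hb h h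
  obtain ⟨b1, b2, b3, b4⟩ := anti_ent hA hb h
  set p := ent (pull A b) 0 2 with hp
  set q := ent (pull A b) 0 3 with hq
  have hn : p * p + q * q ≠ 0 := by
    intro h3
    rw [h3, mul_zero] at e1
    exact (mul_ne_zero (det_ne A) h0) e1
  have hb' : Alt (pull A b) := hb.pull A
  set w := A.symm u with hw
  have hwv : ∀ v, (pull A b) w v = 0 := by
    intro v
    rw [pull_apply]
    have : ((A : E4 ≃L[ℝ] E4) : E4 →L[ℝ] E4) w = u := A.apply_symm_apply u
    rw [this]
    exact hu _
  have g0 := hwv (ee 0)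
  have g1 := hwv (ee 1)
  have g2 := hwv (ee 2)
  have g3 := hwv (ee 3)
  rw [alt_expand hb'] at g0 g1 g2 g3
  rw [b1, b2, b3, b4] at g0 g1 g2 g3
  simp at g0 g1 g2 g3
  have k0 : w 0 = 0 := by
    have : (p * p + q * q) * w 0 = 0 := by linear_combination p * g2 + q * g3
    exact (mul_eq_zero.1 this).resolve_left hn
  have k1 : w 1 = 0 := by
    have : (p * p + q * q) * w 1 = 0 := by linear_combination q * g2 - p * g3
    exact (mul_eq_zero.1 this).resolve_left hn
  have k2 : w 2 = 0 := by
    have : (p * p + q * q) * w 2 = 0 := by linear_combination - p * g0 - q * g1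
    exact (mul_eq_zero.1 this).resolve_left hn
  have k3 : w 3 = 0 := by
    have : (p * p + q * q) * w 3 = 0 := by linear_combination - q * g0 + p * g1
    exact (mul_eq_zero.1 this).resolve_left hn
  have h9 : w = 0 := by
    ext i
    fin_cases i
    exacts [k0, k1, k2, k3]
  have : A w = u := A.apply_symm_apply u
  rw [← this, h9, map_zero]

theorem W_inv_anti (hb : Alt b) (hc : Alt c)
    (h : ∀ u v, b (J u) (J v) = b u v) (h' : ∀ u v, c (J u) (J v) = - c u v)
    (h0 : W b b ≠ 0) : W b c = 0 := by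
  have e1 : pull J b = b := by ext u v; rw [pull_apply, h]
  have e2 : pull J c = -c := by ext u v; rw [pull_apply, h']; rfl
  have e3 := W_pull hb hb J
  have e4 := W_pull hb hc J
  rw [e1] at e3 e4
  rw [e2] at e4
  have e5 : W b (-c) = - W b c := by
    have := W_smul_right (-1) b c
    simpa using this
  rw [e5] at e4
  have e6 : LinearMap.det (J : E4 →ₗ[ℝ] E4) = 1 := by
    have : (LinearMap.det (J : E4 →ₗ[ℝ] E4) - 1) * W b b = 0 := by linarith
    rcases mul_eq_zero.1 this with h7 | h7
    · linarith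
    · exact absurd h7 h0
  rw [e6] at e4
  linarith

end pw

/-! ### the global sign -/

section glob

variable {M : Type} [TopologicalSpace M] [ChartedSpace E4 M] [IsManifold 𝓘(ℝ, E4) ∞ M]

theorem isClosed_tw {J : EndF E4 M} (hJ : SmoothJ J) (a b : Z2 M) (r : ℝ) :
    IsClosed {x : M | ∀ u v, val b x u v = r * val a x (atJ J x u) v} := by
  rw [← isOpen_compl_iff, isOpen_iff_mem_nhds]
  intro x hx
  have hx' : ¬ ∀ u v, val b x u v = r * val a x (atJ J x u) v := hx
  push Not at hx'
  obtain ⟨u, v, huv⟩ := hx'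
  set y0 := chartAt E4 x x with hy0
  have hy0t : y0 ∈ (chartAt E4 x).target := mem_chart_target E4 x
  set f : E4 → ℝ := fun y => rep x (b.1.1 : F2 E4 M) y u v -
    r * rep x (a.1.1 : F2 E4 M) y (repJ x J y u) v with hf
  have hfc : ContinuousAt f y0 := by
    have h1 : ContinuousAt (rep x (b.1.1 : F2 E4 M)) y0 := (b.1.2.at hy0t).continuousAt
    have h2 : ContinuousAt (rep x (a.1.1 : F2 E4 M)) y0 := (a.1.2.at hy0t).continuousAt
    have h3 : ContinuousAt (repJ x J) y0 := (hJ.at hy0t).continuousAt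
    exact ((h1.clm_apply continuousAt_const).clm_apply continuousAt_const).sub
      (continuousAt_const.mul ((h2.clm_apply (h3.clm_apply continuousAt_const)).clm_apply
        continuousAt_const))
  have hf0 : f y0 ≠ 0 := by
    intro h0
    apply huv
    have e1 := toF_val b x u v
    have e2 := toA_self J hJ x u
    have e3 := toF_val a x (atJ J x u) v
    rw [← e1, ← e3]
    rw [toA_J] at e2
    have : f y0 = (toF b).w x (chartAt E4 x x) u v -
        r * (toF a).w x (chartAt E4 x x) (atJ J x u) v := by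
      rw [← e2]
      rfl
    linarith
  have hnb : ∀ᶠ y in 𝓝 y0, f y ≠ 0 := hfc.eventually_ne hf0
  have hcc : ContinuousAt (chartAt E4 x) x :=
    (chartAt E4 x).continuousAt (mem_chart_source E4 x)
  filter_upwards [hcc.eventually hnb, (chartAt E4 x).open_source.mem_nhds
    (mem_chart_source E4 x)] with z hz hzs
  intro hP
  apply hz
  have hzt := (chartAt E4 x).map_source hzs
  have h4 := toF_pair (p := x) (z := chartAt E4 x z) b u v
  have h5 := toF_pair (p := x) (z := chartAt E4 x z) a ((toA J hJ).J x (chartAt E4 x z) u) v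
  have h6 := toA_apply J hJ hzt u
  rw [(chartAt E4 x).left_inv hzs] at h4 h5 h6
  have h7 : f (chartAt E4 x z) = (toF b).w x (chartAt E4 x z) u v -
      r * (toF a).w x (chartAt E4 x z) ((toA J hJ).J x (chartAt E4 x z) u) v := rfl
  have hP' : ∀ u v, val b z u v = r * val a z (atJ J z u) v := hP
  rw [h7, h4, h5, h6, hP']
  ring

/-- **the global sign** -/
theorem glob_sign [ConnectedSpace M] {w : Trip M} {J : EndF E4 M} (hJ : IsJ w J)
    (h11 : ∀ x, W (val (w 1) x) (val (w 1) x) = W (val (w 2) x) (val (w 2) x))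
    (h12 : ∀ x, W (val (w 1) x) (val (w 2) x) = 0)
    (h0 : ∀ x, W (val (w 1) x) (val (w 1) x) ≠ 0) :
    ∃ r : ℝ, (r = 1 ∨ r = -1) ∧ ∀ x u v, val (w 2) x u v = r * val (w 1) x (atJ J x u) v := by
  have hpt : ∀ x, (∀ u v, val (w 2) x u v = 1 * val (w 1) x (atJ J x u) v) ∨
      (∀ u v, val (w 2) x u v = (-1) * val (w 1) x (atJ J x u) v) := by
    intro x
    have a0 : Alt (val (w 0) x) := (w 0).1.2.1 x
    have a1 : Alt (val (w 1) x) := (w 1).1.2.1 x
    have a2 : Alt (val (w 2) x) := (w 2).1.2.1 x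
    obtain ⟨A, hA⟩ := exists_frame (hJ.sq x) (inv_spos (hJ.sq x) a0 (hJ.tame x))
    rcases pair_sign hA.cplx a1 a2 (hJ.sq x) (hJ.anti1 x) (hJ.anti2 x) (h0 x) (h11 x) (h12 x)
      with h | h
    · left
      intro u v
      rw [h, one_mul]
    · right
      intro u v
      rw [h]
      ring
  have hc1 := isClosed_tw hJ.smooth (w 1) (w 2) 1
  have hc2 := isClosed_tw hJ.smooth (w 1) (w 2) (-1)
  have hun : (Set.univ : Set M) ⊆
      {x : M | ∀ u v, val (w 2) x u v = 1 * val (w 1) x (atJ J x u) v} ∪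
      {x : M | ∀ u v, val (w 2) x u v = (-1) * val (w 1) x (atJ J x u) v} :=
    fun x _ => hpt x
  have hpre : IsPreconnected (Set.univ : Set M) := isPreconnected_univ
  have hdis : Set.univ ∩ ({x : M | ∀ u v, val (w 2) x u v = 1 * val (w 1) x (atJ J x u) v} ∩
      {x : M | ∀ u v, val (w 2) x u v = (-1) * val (w 1) x (atJ J x u) v}) = ∅ := by
    ext x
    simp only [mem_inter_iff, mem_univ, true_and, mem_setOf_eq, mem_empty_iff_false, iff_false,
      not_and]
    intro h1 h2
    apply h0 x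
    have : ∀ u v, val (w 1) x u v = 0 := by
      intro u v
      have e1 := h1 (atJ J x u) v
      have e2 := h2 (atJ J x u) v
      rw [hJ.sq x u, map_neg, neg_apply] at e1 e2
      linarith
    have e : val (w 1) x = 0 := by ext u v; exact this u v
    rw [e]
    unfold W
    simp [ent]
  have := isPreconnected_closed_iff.1 hpre _ _ hc1 hc2 hun
  by_cases hA : (Set.univ ∩ {x : M | ∀ u v,
      val (w 2) x u v = 1 * val (w 1) x (atJ J x u) v}).Nonempty
  · by_cases hB : (Set.univ ∩ {x : M | ∀ u v,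
        val (w 2) x u v = (-1) * val (w 1) x (atJ J x u) v}).Nonempty
    · have h9 := this hA hB
      rw [hdis] at h9
      exact absurd h9 Set.not_nonempty_empty
    · refine ⟨1, Or.inl rfl, fun x => ?_⟩
      rcases hpt x with h | h
      · exact h
      · exact absurd ⟨x, mem_univ x, h⟩ hB
  · refine ⟨-1, Or.inr rfl, fun x => ?_⟩
    rcases hpt x with h | h
    · exact absurd ⟨x, mem_univ x, h⟩ hA
    · exact h

end glob

end

end Crest.Agent.R235.Br281d_819
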