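import Crest.Agent.R235.Br281c_819
import Crest.Agent.R235.Br281d_819

/-!
# R235, BRIDGE 281 (helper819), part 5: Yau's theorem and the hyperkaehler move over `Defs_837`

* `JInv J a`, `JPos J a` : `a` is `J`-invariant, positive
* `yau`    : prescribed volume in a Kaehler class
* `hkmove` : `w` hyperkaehler, `J` its pair structure, `a` Kaehler for `J` ==> there is `a'` in the
             class of `a` such that `update w 0 a'` is hyperkaehler; the segment is positive
-/

set_option autoImplicit false
set_option maxSynthPendingDepth 3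

open Set Filter Topology
open scoped Manifold ContDiff

namespace Crest.Agent.R235.Br281e_819

open Crest.Agent.R240 Crest.Agent.R240.Ch Crest.Agent.R235 Crest.Agent.R235.Br281_819
open Crest.Agent.R235.Br281d_819

noncomputable section

variable {M : Type} [TopologicalSpace M] [ChartedSpace E4 M] [IsManifold 𝓘(ℝ, E4) ∞ M]

/-- `a` is `J`-invariant -/
def JInv (J : EndF E4 M) (a : Z2 M) : Prop :=
  ∀ x u v, val a x (atJ J x u) (atJ J x v) = val a x u v

/-- `a` tames `J` -/
def JPos (J : EndF E4 M) (a : Z2 M) : Prop := ∀ x v, v ≠ 0 → 0 < val a x v (atJ J x v)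

theorem alt_val (a : Z2 M) (x : M) : Alt (val a x) := a.1.2.1 x

theorem JPos.W_ne {J : EndF E4 M} (hsq : ∀ x v, atJ J x (atJ J x v) = -v) {a : Z2 M}
    (hi : JInv J a) (hp : JPos J a) (x : M) : W (val a x) (val a x) ≠ 0 := by
  have hS : SPos (atJ J x) (val a x) := ⟨alt_val a x, hi x, hp x⟩
  obtain ⟨A, hA⟩ := exists_frame (hsq x) hS
  exact hA.W_ne (alt_val a x)

variable [T2Space M] [CompactSpace M] [ConnectedSpace M]

/-- **Yau's theorem** on a four-manifold with a closed pair -/
theorem yau {w : Trip M} {J : EndF E4 M} (hJ : IsJ w J)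
    (h11 : ∀ x, W (val (w 1) x) (val (w 1) x) = W (val (w 2) x) (val (w 2) x))
    (h12 : ∀ x, W (val (w 1) x) (val (w 2) x) = 0)
    (h0 : ∀ x, W (val (w 1) x) (val (w 1) x) ≠ 0)
    {a : Z2 M} (hi : JInv J a) (hp : JPos J a) {F : M → ℝ} (hF : SmoothF E4 F) :
    ∃ (a' : Z2 M) (c : ℝ), cls a' = cls a ∧ JInv J a' ∧ JPos J a' ∧
      (∀ x, W (val a' x) (val a' x) = Real.exp (F x + c) * W (val (w 1) x) (val (w 1) x)) ∧
      (∀ x, W (val a' x) (val (w 1) x) = 0) ∧ ∀ x, W (val a' x) (val (w 2) x) = 0 := by
  obtain ⟨r, hr, hg⟩ := glob_sign hJ h11 h12 h0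
  have hrr : r * r = 1 := by rcases hr with rfl | rfl <;> norm_num
  have hs2 : ∀ x u v, val ((-r) • w 2) x u v = - val (w 1) x (atJ J x u) v := by
    intro x u v
    rw [val_smul, smul_apply, smul_apply, smul_eq_mul, hg]
    linear_combination (- val (w 1) x (atJ J x u) v) * hrr
  have D : Crest.Agent.R281.Al_830.HD (toA J hJ.smooth) (toF a) (toF (w 1))
      (toF ((-r) • w 2)) := by
    refine ⟨(sq_iff hJ.smooth).2 hJ.sq, (t11_iff hJ.smooth).2 hi, (pos_iff hJ.smooth).2 hp,
      fun p z hz u v => ?_, fun p z hz u hu => ?_⟩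
    · have e1 := toF_pair (p := (show M from p)) (z := z) (w 1)
        ((toA J hJ.smooth).J (show M from p) z u) v
      have e2 := toF_pair (p := (show M from p)) (z := z) ((-r) • w 2) u v
      have e3 := toA_apply J hJ.smooth (p := (show M from p)) hz u
      have e4 := hs2 ((chartAt E4 (show M from p)).symm z)
        (tcc (show M from p) ((chartAt E4 (show M from p)).symm z)
          ((chartAt E4 (show M from p)).symm z) u)
        (tcc (show M from p) ((chartAt E4 (show M from p)).symm z)
          ((chartAt E4 (show M from p)).symm z) v)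
      rw [e3] at e1
      exact e1.trans (by rw [e2, e4, neg_neg])
    · set x := (chartAt E4 (show M from p)).symm z with hx
      have hxs : x ∈ (chartAt E4 (show M from p)).source := symm_mem hz
      obtain ⟨A, hA⟩ := exists_frame (hJ.sq x) (inv_spos (hJ.sq x) (alt_val (w 0) x) (hJ.tame x))
      refine tcc_bij hxs ?_
      refine anti_nd hA.cplx (alt_val (w 1) x) (hJ.anti1 x) (h0 x) fun v => ?_
      have e1 := hu (tcc x (show M from p) x v)
      have e2 := toF_pair (p := (show M from p)) (z := z) (w 1) u (tcc x (show M from p) x v)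
      rw [← hx, tcc_cancel' hxs] at e2
      exact e2.symm.trans e1
  obtain ⟨om', c, hex, ht, hpo, hW⟩ := Crest.Agent.R235.Br281c_819.yauF D (F := F) (fun p => hF p)
  have hc : cls (ofF om') = cls a := by
    have := cls_ofF_eq_iff.2 hex
    rwa [ofF_toF] at this
  have ht' : JInv J (ofF om') := (t11_iff hJ.smooth).1
    (fun p z hz u v => by
      have e := toF_ofF om'
      rw [e p z hz, e p z hz]
      exact ht p z hz u v)
  have hp' : JPos J (ofF om') := (pos_iff hJ.smooth).1
    (fun p z hz v hv => by
      have e := toF_ofF om'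
      rw [e p z hz]
      exact hpo p z hz v hv)
  have hne : ∀ x, W (val (ofF om') x) (val (ofF om') x) ≠ 0 := fun x => hp'.W_ne hJ.sq ht' x
  refine ⟨ofF om', c, hc, ht', hp', fun x => ?_, fun x => ?_, fun x => ?_⟩
  · have h := hW x _ (mem_chart_target E4 x)
    have e1 : om'.w x (chartAt E4 x x) = val (ofF om') x := rfl
    have e2 : (toF (w 1)).w x (chartAt E4 x x) = val (w 1) x := by
      ext u v
      exact toF_val _ _ _ _
    have e3 : ((RC M).e x).symm (chartAt E4 x x) = x := (chartAt E4 x).left_inv (mem_chart_source E4 x)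
    rw [e1, e2, e3] at h
    exact h
  · exact W_inv_anti (alt_val _ x) (alt_val _ x) (ht' x) (hJ.anti1 x) (hne x)
  · exact W_inv_anti (alt_val _ x) (alt_val _ x) (ht' x) (hJ.anti2 x) (hne x)

end

end Crest.Agent.R235.Br281e_819
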