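import Crest.Agent.R235.Br281e_819

/-!
# R235, BRIDGE 281 (helper819), part 6: the hyperkaehler move over `Defs_837`

* `pos_pt`      : (pointwise) a tamed form and a nondegenerate anti-invariant pair give `Pos3`
* `seg_of_isJ`  : `w` positive, `J` its structure, `a` tames `J` ==> `Seg w (update w 0 a)`
* `hkmove`      : `w` hyperkaehler (ANY Gram matrix), `J` its structure, `a` Kaehler for `J` ==>
                  there is `a'` in the class of `a`, Kaehler for `J`, with
                  `Seg w (update w 0 a')`, `HK (update w 0 a')`, `IsJ (update w 0 a') J`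
-/

set_option autoImplicit false
set_option maxSynthPendingDepth 3

open Set Filter Topology Function
open scoped Manifold ContDiff

namespace Crest.Agent.R235.Br281f_819

open Crest.Agent.R240 Crest.Agent.R240.Ch Crest.Agent.R235 Crest.Agent.R235.Br281_819
open Crest.Agent.R235.Br281d_819 Crest.Agent.R235.Br281e_819

noncomputable section

section Pointwise

variable {J : E4 →L[ℝ] E4} {F b c : Bil}

/-- positivity of a tamed form plus an anti-invariant form -/
theorem pos_pt (hJ : ∀ v, J (J v) = -v) (hF : Alt F) (ht : ∀ v, v ≠ 0 → 0 < F v (J v))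
    (hb : Alt b) (h : ∀ u v, b (J u) (J v) = - b u v) {r : ℝ} (hr : r ≠ 0) :
    W (r • F + b) (r • F + b) ≠ 0 := by
  have hS := inv_spos hJ hF ht
  obtain ⟨A, hA⟩ := exists_frame hJ hS
  -- the anti-invariant part
  set Q : Bil := r • antip J F + b with hQ
  have hQalt : Alt Q := fun u => by
    have e1 := hF.antip J u
    have e2 := hb u
    show r • antip J F u u + b u u = 0
    rw [e1, e2, smul_zero, add_zero]
  have hQanti : ∀ u v, Q (J u) (J v) = - Q u v := by
    intro u v
    show r • antip J F (J u) (J v) + b (J u) (J v) = - (r • antip J F u v + b u v)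
    rw [antip_anti hJ F u v, h u v, smul_neg]
    ring
  have hsum : r • F + b = r • invp J F + Q := by
    rw [hQ, ← add_assoc, ← smul_add, invp_add_antip]
  clear_value Q
  have hWF : W (invp J F) (invp J F) ≠ 0 := hA.W_ne hS.alt
  have hmix : W (invp J F) Q = 0 := W_inv_anti hS.alt hQalt hS.inv hQanti hWF
  have e0 := W_pull hS.alt hS.alt (A : E4 →L[ℝ] E4)
  rw [hA.pull_form, W_om0] at e0
  have e1 := W_anti hA.cplx hQalt hQalt hQanti hQanti
  intro h0
  rw [hsum, W_add_left, W_add_right, W_add_right, W_smul_left, W_smul_right, W_smul_left,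
    W_comm Q, W_smul_left, hmix] at h0
  have e2 : LinearMap.det ((A : E4 →L[ℝ] E4) : E4 →ₗ[ℝ] E4) *
      (r * (r * W (invp J F) (invp J F)) + r * 0 + (r * 0 + W Q Q)) = 0 := by
    rw [h0, mul_zero]
  have e3 : r * r * (LinearMap.det ((A : E4 →L[ℝ] E4) : E4 →ₗ[ℝ] E4) *
      W (invp J F) (invp J F)) + LinearMap.det ((A : E4 →L[ℝ] E4) : E4 →ₗ[ℝ] E4) * W Q Q = 0 := by
    linarith
  rw [e1, ← e0] at e3
  have e4 : 0 < r * r := mul_self_pos.2 hr
  nlinarith [mul_self_nonneg (ent (pull (A : E4 →L[ℝ] E4) Q) 0 2),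
    mul_self_nonneg (ent (pull (A : E4 →L[ℝ] E4) Q) 0 3)]

end Pointwise

variable {M : Type} [TopologicalSpace M] [ChartedSpace E4 M] [IsManifold 𝓘(ℝ, E4) ∞ M]

/-- `a` tames `J` -/
def Tame (J : EndF E4 M) (a : Z2 M) : Prop := ∀ x v, v ≠ 0 → 0 < val a x v (atJ J x v)

/-- positivity from taming -/
theorem pos3_of_isJ {w : Trip M} {J : EndF E4 M} (hJ : IsJ w J)
    (h0 : ∀ x (c : Fin 3 → ℝ), c 0 = 0 → c ≠ 0 →
      W (∑ i, c i • val (w i) x) (∑ i, c i • val (w i) x) ≠ 0) : Pos3 w := by
  intro x c hc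
  by_cases h : c 0 = 0
  · exact h0 x c h hc
  · have e : ∑ i, c i • val (w i) x = c 0 • val (w 0) x + (c 1 • val (w 1) x + c 2 • val (w 2) x) := by
      rw [Fin.sum_univ_three, add_assoc]
    rw [e]
    refine pos_pt (hJ.sq x) (alt_val (w 0) x) (hJ.tame x) ?_ ?_ h
    · intro u
      show c 1 • val (w 1) x u u + c 2 • val (w 2) x u u = 0
      rw [alt_val (w 1) x u, alt_val (w 2) x u, smul_zero, smul_zero, add_zero]
    · intro u v
      show c 1 • val (w 1) x _ _ + c 2 • val (w 2) x _ _ = - (c 1 • val (w 1) x u v + c 2 • val (w 2) x u v)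
      rw [hJ.anti1, hJ.anti2, smul_neg, smul_neg]
      ring

/-- the structure of the pair does not depend on the third form -/
theorem isJ_update {w : Trip M} {J : EndF E4 M} (hJ : IsJ w J) {a : Z2 M} (ha : Tame J a) :
    IsJ (update w 0 a) J :=
  ⟨hJ.smooth, hJ.sq, fun x u v => by
      rw [update_of_ne (by decide : (1 : Fin 3) ≠ 0)]; exact hJ.anti1 x u v,
    fun x u v => by
      rw [update_of_ne (by decide : (2 : Fin 3) ≠ 0)]; exact hJ.anti2 x u v,
    fun x v hv => by rw [update_self]; exact ha x v hv⟩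

/-- replacing the third form of a positive triple by a form taming the structure of the pair -/
theorem seg_of_isJ {w : Trip M} {J : EndF E4 M} (hw : Pos3 w) (hJ : IsJ w J) {a : Z2 M}
    (ha : Tame J a) : Seg w (update w 0 a) := by
  intro t h0 h1
  have e0 : seg w (update w 0 a) t 0 = (1 - t) • w 0 + t • a := by
    unfold seg; rw [update_self]
  have e1 : seg w (update w 0 a) t 1 = w 1 := by
    unfold seg
    rw [update_of_ne (by decide : (1 : Fin 3) ≠ 0), ← add_smul, sub_add_cancel, one_smul]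
  have e2 : seg w (update w 0 a) t 2 = w 2 := by
    unfold seg
    rw [update_of_ne (by decide : (2 : Fin 3) ≠ 0), ← add_smul, sub_add_cancel, one_smul]
  have hJ' : IsJ (seg w (update w 0 a) t) J := by
    refine ⟨hJ.smooth, hJ.sq, fun x u v => ?_, fun x u v => ?_, fun x v hv => ?_⟩
    · rw [e1]; exact hJ.anti1 x u v
    · rw [e2]; exact hJ.anti2 x u v
    · rw [e0]
      show 0 < (1 - t) * val (w 0) x v (atJ J x v) + t * val a x v (atJ J x v)
      have g1 := hJ.tame x v hv
      have g2 := ha x v hv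
      rcases h0.lt_or_eq with ht | ht
      · have : 0 ≤ (1 - t) * val (w 0) x v (atJ J x v) := mul_nonneg (by linarith) g1.le
        have : 0 < t * val a x v (atJ J x v) := mul_pos ht g2
        linarith
      · rw [← ht]; linarith
  refine pos3_of_isJ hJ' fun x c hc hne => ?_
  have e : ∑ i, c i • val (seg w (update w 0 a) t i) x = ∑ i, c i • val (w i) x := by
    rw [Fin.sum_univ_three, Fin.sum_univ_three, e1, e2, hc, zero_smul, zero_smul]
  rw [e]
  exact hw x c hne

theorem Pos3.ne (w : Trip M) (hw : Pos3 w) (k : Fin 3) (x : M) :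
    W (val (w k) x) (val (w k) x) ≠ 0 := by
  have h := hw x (Pi.single k 1) (by
    intro h
    have := congrFun h k
    rw [Pi.single_eq_same] at this
    exact one_ne_zero this)
  have e : ∑ i, (Pi.single k 1 : Fin 3 → ℝ) i • val (w i) x = val (w k) x := by
    rw [Finset.sum_eq_single k]
    · rw [Pi.single_eq_same, one_smul]
    · intro i _ hi
      rw [Pi.single_eq_of_ne hi, zero_smul]
    · intro h; exact absurd (Finset.mem_univ _) h
  rwa [e] at h

/-- the two-by-two determinant -/
theorem posDef_two {G : Matrix (Fin 3) (Fin 3) ℝ} (hG : G.PosDef) :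
    0 < G 1 1 ∧ 0 < G 1 1 * G 2 2 - G 1 2 * G 1 2 ∧ G 2 1 = G 1 2 := by
  have hs : G 2 1 = G 1 2 := by
    have := congrFun (congrFun hG.isHermitian 1) 2
    simpa [Matrix.conjTranspose_apply] using this
  have h1 : 0 < G 1 1 := by
    have := hG.dotProduct_mulVec_pos (x := ![0, 1, 0]) (by
      intro h; have := congrFun h 1; simp at this)
    simpa [Matrix.mulVec, dotProduct, Fin.sum_univ_three] using this
  refine ⟨h1, ?_, hs⟩
  have h2 := hG.dotProduct_mulVec_pos (x := ![0, - G 1 2, G 1 1]) (by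
      intro h
      have := congrFun h 2
      simp at this
      exact h1.ne' this)
  have h3 : 0 < G 1 1 * (G 1 1 * G 2 2 - G 1 2 * G 1 2) := by
    have e : star ![0, - G 1 2, G 1 1] ⬝ᵥ (G.mulVec ![0, - G 1 2, G 1 1]) =
        G 1 1 * (G 1 1 * G 2 2 - G 1 2 * G 1 2) := by
      simp [Matrix.mulVec, dotProduct, Fin.sum_univ_three, hs]
      ring
    rwa [e] at h2
  exact (mul_pos_iff_of_pos_left h1).1 h3

/-- the block matrix -/
theorem posDef_block {G : Matrix (Fin 3) (Fin 3) ℝ} (hG : G.PosDef) {r : ℝ} (hr : 0 < r) :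
    (Matrix.of fun i j : Fin 3 => if i = 0 then (if j = 0 then r else 0) else
      (if j = 0 then 0 else G i j)).PosDef := by
  refine Matrix.PosDef.of_dotProduct_mulVec_pos ?_ fun x hx => ?_
  · ext i j
    have hij : G j i = G i j := by
      have := congrFun (congrFun hG.isHermitian i) j
      simpa [Matrix.conjTranspose_apply] using this
    by_cases hi : i = 0 <;> by_cases hj : j = 0 <;>
      simp [Matrix.conjTranspose_apply, Matrix.of_apply, hi, hj, hij]
  · have e : star x ⬝ᵥ ((Matrix.of fun i j : Fin 3 => if i = 0 then (if j = 0 then r else 0) else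
      (if j = 0 then 0 else G i j)).mulVec x) = r * (x 0 * x 0) +
        star ![0, x 1, x 2] ⬝ᵥ (G.mulVec ![0, x 1, x 2]) := by
      simp [Matrix.mulVec, dotProduct, Fin.sum_univ_three]
      ring
    rw [e]
    by_cases h : (![0, x 1, x 2] : Fin 3 → ℝ) = 0
    · have h1 : x 1 = 0 := by simpa using congrFun h 1
      have h2 : x 2 = 0 := by simpa using congrFun h 2
      have h0 : x 0 ≠ 0 := by
        intro h0
        apply hx
        funext i
        fin_cases i
        · exact h0
        · exact h1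
        · exact h2
      rw [h]
      simp only [Matrix.mulVec_zero, dotProduct_zero, add_zero]
      exact mul_pos hr (mul_self_pos.2 h0)
    · have := hG.dotProduct_mulVec_pos h
      have h0 : 0 ≤ r * (x 0 * x 0) := mul_nonneg hr.le (mul_self_nonneg _)
      linarith

/-- Gram-Schmidt for the pair -/
theorem gs_eq {A B C : ℝ} (h : 0 < A * C - B * B) :
    (-(B / Real.sqrt (A * C - B * B))) * ((-(B / Real.sqrt (A * C - B * B))) * A) +
      (-(B / Real.sqrt (A * C - B * B))) * ((A / Real.sqrt (A * C - B * B)) * B) +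
      ((A / Real.sqrt (A * C - B * B)) * ((-(B / Real.sqrt (A * C - B * B))) * B) +
        (A / Real.sqrt (A * C - B * B)) * ((A / Real.sqrt (A * C - B * B)) * C)) = A := by
  have hsD : 0 < Real.sqrt (A * C - B * B) := Real.sqrt_pos.2 h
  have hDD : Real.sqrt (A * C - B * B) ^ 2 = A * C - B * B := Real.sq_sqrt h.le
  set r := Real.sqrt (A * C - B * B) with hr
  clear_value r
  field_simp
  rw [hDD]
  ring

/-- the Gram matrix after the move -/
theorem hk_update {w : Trip M} {a' : Z2 M} {G : Matrix (Fin 3) (Fin 3) ℝ} (hG : G.PosDef)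
    (hs : ∀ x : M, ∃ s : ℝ, ∀ i j, W (val (w i) x) (val (w j) x) = s * G i j)
    {r : ℝ} (hr : 0 < r)
    (h0 : ∀ x, W (val a' x) (val a' x) = r * W (val (w 1) x) (val (w 1) x))
    (h1 : ∀ x, W (val a' x) (val (w 1) x) = 0) (h2 : ∀ x, W (val a' x) (val (w 2) x) = 0) :
    HK (update w 0 a') := by
  obtain ⟨g1, g2, g3⟩ := posDef_two hG
  refine ⟨_, posDef_block hG (r := r * G 1 1) (mul_pos hr g1), fun x => ?_⟩
  obtain ⟨s, hs⟩ := hs x
  have hW' : W (val a' x) (val a' x) = s * (r * G 1 1) := by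
    rw [h0, hs]; ring
  have u0 : (update w 0 a') 0 = a' := update_self _ _ _
  have u1 : (update w 0 a') 1 = w 1 := update_of_ne (by decide : (1 : Fin 3) ≠ 0) _ _
  have u2 : (update w 0 a') 2 = w 2 := update_of_ne (by decide : (2 : Fin 3) ≠ 0) _ _
  have ui : ∀ i : Fin 3, i ≠ 0 → (update w 0 a') i = w i := fun i hi => update_of_ne hi _ _
  have hz : ∀ i : Fin 3, i ≠ 0 → W (val a' x) (val (w i) x) = 0 := by
    intro i hi
    fin_cases i
    · exact absurd rfl hi
    · exact h1 x
    · exact h2 x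
  refine ⟨s, fun i j => ?_⟩
  by_cases hi : i = 0
  · subst hi
    by_cases hj : j = 0
    · subst hj
      rw [u0, hW', Matrix.of_apply, if_pos rfl, if_pos rfl]
    · rw [u0, ui j hj, hz j hj, Matrix.of_apply, if_pos rfl, if_neg hj, mul_zero]
  · by_cases hj : j = 0
    · subst hj
      rw [u0, ui i hi, W_comm, hz i hi, Matrix.of_apply, if_neg hi, if_pos rfl, mul_zero]
    · rw [ui i hi, ui j hj, hs, Matrix.of_apply, if_neg hi, if_neg hj]

variable [T2Space M] [CompactSpace M] [ConnectedSpace M]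

/-- **the hyperkaehler move**: the third form of a hyperkaehler triple (any Gram matrix) can be
moved to any class which is Kaehler for the complex structure of the pair -/
theorem hkmove {w : Trip M} {J : EndF E4 M} (hw : Pos3 w) (hk : HK w) (hJ : IsJ w J)
    {a : Z2 M} (hi : JInv J a) (hp : JPos J a) :
    ∃ a' : Z2 M, cls a' = cls a ∧ JInv J a' ∧ JPos J a' ∧ Seg w (update w 0 a') ∧
      HK (update w 0 a') ∧ IsJ (update w 0 a') J := by
  obtain ⟨G, hG, hs⟩ := hk
  obtain ⟨g1, g2, g3⟩ := posDef_two hG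
  obtain ⟨al, be, hgs, hgo⟩ : ∃ al be : ℝ,
      al * (al * G 1 1) + al * (be * G 1 2) + (be * (al * G 1 2) + be * (be * G 2 2)) = G 1 1 ∧
      al * G 1 1 + be * G 1 2 = 0 :=
    ⟨_, _, gs_eq g2, by ring⟩
  set w2 : Z2 M := al • w 1 + be • w 2 with hw2
  set w' : Trip M := ![w 0, w 1, w2] with hw'
  have hJ' : IsJ w' J := by
    refine ⟨hJ.smooth, hJ.sq, hJ.anti1, fun x u v => ?_, hJ.tame⟩
    show al • val (w 1) x _ _ + be • val (w 2) x _ _ = -(al • val (w 1) x u v + be • val (w 2) x u v)
    rw [hJ.anti1, hJ.anti2, smul_neg, smul_neg]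
    ring
  have k11 : ∀ x, W (val (w' 1) x) (val (w' 1) x) = W (val (w' 2) x) (val (w' 2) x) := by
    intro x
    obtain ⟨s, hs⟩ := hs x
    show W (val (w 1) x) (val (w 1) x) =
      W (al • val (w 1) x + be • val (w 2) x) (al • val (w 1) x + be • val (w 2) x)
    rw [W_add_left, W_add_right, W_add_right, W_smul_left, W_smul_left, W_smul_left, W_smul_left,
      W_smul_right, W_smul_right, W_smul_right, W_smul_right, hs, hs, hs, hs, g3]
    linear_combination (-s) * hgs
  have k12 : ∀ x, W (val (w' 1) x) (val (w' 2) x) = 0 := by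
    intro x
    obtain ⟨s, hs⟩ := hs x
    show W (val (w 1) x) (al • val (w 1) x + be • val (w 2) x) = 0
    rw [W_add_right, W_smul_right, W_smul_right, hs, hs]
    linear_combination s * hgo
  have k0 : ∀ x, W (val (w' 1) x) (val (w' 1) x) ≠ 0 := fun x => Pos3.ne w hw 1 x
  have hF : SmoothF E4 (fun _ : M => (0 : ℝ)) := fun p => contDiffOn_const
  obtain ⟨a', c, hc, ht, hpo, hW, h1, h2⟩ := yau hJ' k11 k12 k0 hi hp hF
  have ha' : Tame J a' := hpo
  have h3 : ∀ x, W (val a' x) (val (w 2) x) = 0 := fun x =>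
    W_inv_anti (alt_val _ x) (alt_val _ x) (ht x) (hJ.anti2 x) (hpo.W_ne hJ.sq ht x)
  refine ⟨a', hc, ht, hpo, seg_of_isJ hw hJ ha', ?_, isJ_update hJ ha'⟩
  exact hk_update hG hs (Real.exp_pos c) (fun x => by rw [hW x, zero_add]; rfl) h1 h3

end

end Crest.Agent.R235.Br281f_819
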