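import Mathlib
import Crest.Agent.R096.BelA_205
import Crest.Agent.R143.DbarMor_63

/-!
Row 235, NW4: the Cauchy transform of Banach valued functions; `L³ → C⁰` bound, `∂̄ P u = u`.
-/

set_option autoImplicit false

noncomputable section

namespace Crest.Agent.R235.CauchyV_679

open Set Metric MeasureTheory Filter Topology
open scoped ContDiff NNReal Real
open Crest.Agent.R096.BelA_205 (norm_ker measurable_ker locallyIntegrable_ker P dzb Tst)

local notation "kr" => Crest.Agent.R096.BelA_205.ker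

variable {F : Type*} [NormedAddCommGroup F] [NormedSpace ℂ F]

/-- `∂̄ f` -/
def db (f : ℂ → F) (z : ℂ) : F := (2:ℂ)⁻¹ • (fderiv ℝ f z 1 + Complex.I • fderiv ℝ f z Complex.I)

/-- the Cauchy transform -/
def PV (u : ℂ → F) (z : ℂ) : F := ∫ ζ, kr ζ • u (z - ζ)

theorem PV_swap (u : ℂ → F) (z : ℂ) : PV u z = ∫ ζ, kr (z - ζ) • u ζ := by
  unfold PV
  rw [← integral_sub_left_eq_self (fun ζ => kr (z - ζ) • u ζ) volume z]
  simp

/-! ### the kernel in `L^{3/2}` -/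

theorem integrableOn_pow (r : ℝ) :
    IntegrableOn (fun ζ : ℂ => ‖ζ‖ ^ (-(3/2) : ℝ)) (ball 0 r) := by
  have h := (integrableOn_fun_norm_addHaar (volume : Measure ℂ)
    (f := fun y : ℝ => y ^ (-(3/2) : ℝ)) (r := r)).2
  apply h
  rw [Complex.finrank_real_complex]
  by_cases hr : 0 < r
  · have h1 : IntegrableOn (fun y : ℝ => y ^ (-(1/2) : ℝ)) (Ioo 0 r) := by
      have := (intervalIntegral.intervalIntegrable_rpow' (a := 0) (b := r) (r := (-(1/2) : ℝ))
        (by norm_num))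
      rw [intervalIntegrable_iff_integrableOn_Ioo_of_le hr.le] at this
      exact this
    refine h1.congr_fun ?_ measurableSet_Ioo
    intro y hy
    have hy0 : 0 < y := hy.1
    simp only [smul_eq_mul]
    rw [← Real.rpow_natCast, ← Real.rpow_add hy0]
    norm_num
  · rw [Ioo_eq_empty (by linarith)]
    exact integrableOn_empty

/-- the constant of the bound -/
def KC (R : ℝ) : ENNReal :=
  (∫⁻ ζ, ‖(closedBall (0:ℂ) (2 * R)).indicator kr ζ‖ₑ ^ (3/2 : ℝ)) ^ (1 / (3/2 : ℝ))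

theorem KC_lt (R : ℝ) : KC R < ⊤ := by
  unfold KC
  refine ENNReal.rpow_lt_top_of_nonneg (by norm_num) ?_
  have h1 : ∀ ζ : ℂ, ‖(closedBall (0:ℂ) (2 * R)).indicator kr ζ‖ₑ ^ (3/2 : ℝ)
      ≤ (ball (0:ℂ) (2 * R + 1)).indicator
        (fun ζ => ‖((π⁻¹ : ℝ) ^ (3/2 : ℝ)) * ‖ζ‖ ^ (-(3/2) : ℝ)‖ₑ) ζ := by
    intro ζ
    by_cases hζ : ζ ∈ closedBall (0:ℂ) (2 * R)
    · have hζ' : ζ ∈ ball (0:ℂ) (2 * R + 1) := by
        rw [mem_closedBall] at hζ
        rw [mem_ball]; linarith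
      rw [indicator_of_mem hζ, indicator_of_mem hζ']
      rw [← ofReal_norm, norm_ker, ← ofReal_norm,
        ENNReal.ofReal_rpow_of_nonneg (by positivity) (by norm_num)]
      apply ENNReal.ofReal_le_ofReal
      rw [Real.mul_rpow (by positivity) (by positivity), Real.rpow_neg (norm_nonneg _),
        Real.inv_rpow (norm_nonneg _)]
      exact le_abs_self _
    · rw [indicator_of_notMem hζ]
      simp
  refine ((lintegral_mono h1).trans_lt ?_).ne
  rw [lintegral_indicator measurableSet_ball]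
  have h2 := (integrableOn_pow (2 * R + 1)).const_mul ((π⁻¹ : ℝ) ^ (3/2 : ℝ))
  exact h2.2

theorem enorm_PV_le {R : ℝ} {u : ℂ → F} (hu : AEStronglyMeasurable u)
    (h0 : ∀ ζ, R < ‖ζ‖ → u ζ = 0) {z : ℂ} (hz : ‖z‖ ≤ R) :
    ‖PV u z‖ₑ ≤ KC R * (∫⁻ ζ, ‖u ζ‖ₑ ^ (3:ℝ)) ^ (1 / (3:ℝ)) := by
  rw [PV_swap]
  have hm : Measurable ((closedBall (0:ℂ) (2 * R)).indicator kr) :=
    measurable_ker.indicator measurableSet_closedBall
  calc ‖∫ ζ, kr (z - ζ) • u ζ‖ₑ ≤ ∫⁻ ζ, ‖kr (z - ζ) • u ζ‖ₑ := enorm_integral_le_lintegral_enorm _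
    _ ≤ ∫⁻ ζ, ((fun ζ => ‖(closedBall (0:ℂ) (2 * R)).indicator kr (z - ζ)‖ₑ) *
          (fun ζ => ‖u ζ‖ₑ)) ζ := by
        refine lintegral_mono fun ζ => ?_
        simp only [Pi.mul_apply]
        rw [enorm_smul]
        by_cases hζ : R < ‖ζ‖
        · rw [h0 ζ hζ]; simp
        · have : z - ζ ∈ closedBall (0:ℂ) (2 * R) := by
            rw [mem_closedBall, dist_zero_right]
            calc ‖z - ζ‖ ≤ ‖z‖ + ‖ζ‖ := norm_sub_le _ _
              _ ≤ 2 * R := by linarith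
          rw [indicator_of_mem this]
    _ ≤ (∫⁻ ζ, ‖(closedBall (0:ℂ) (2 * R)).indicator kr (z - ζ)‖ₑ ^ (3/2 : ℝ)) ^ (1 / (3/2 : ℝ)) *
          (∫⁻ ζ, ‖u ζ‖ₑ ^ (3:ℝ)) ^ (1 / (3:ℝ)) := by
        apply ENNReal.lintegral_mul_le_Lp_mul_Lq
        · rw [Real.holderConjugate_iff]; norm_num
        · exact (hm.comp (measurable_const.sub measurable_id)).enorm.aemeasurable
        · exact hu.enorm
    _ = KC R * (∫⁻ ζ, ‖u ζ‖ₑ ^ (3:ℝ)) ^ (1 / (3:ℝ)) := by
        unfold KC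
        rw [lintegral_sub_left_eq_self
          (fun ζ => ‖(closedBall (0:ℂ) (2 * R)).indicator kr ζ‖ₑ ^ (3/2 : ℝ)) z]

/-- integrability of the integrand -/
theorem int_PV {R : ℝ} {u : ℂ → F} (hu : AEStronglyMeasurable u)
    (h0 : ∀ ζ, R < ‖ζ‖ → u ζ = 0) (hf : (∫⁻ ζ, ‖u ζ‖ₑ ^ (3:ℝ)) < ⊤) {z : ℂ} (hz : ‖z‖ ≤ R) :
    Integrable fun ζ => kr (z - ζ) • u ζ := by
  have hm : Measurable ((closedBall (0:ℂ) (2 * R)).indicator kr) :=
    measurable_ker.indicator measurableSet_closedBall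
  refine ⟨?_, ?_⟩
  · exact ((measurable_ker.comp (measurable_const.sub measurable_id)).aestronglyMeasurable).smul hu
  · have h1 : ∫⁻ ζ, ‖kr (z - ζ) • u ζ‖ₑ ≤
        (∫⁻ ζ, ‖(closedBall (0:ℂ) (2 * R)).indicator kr (z - ζ)‖ₑ ^ (3/2 : ℝ)) ^ (1 / (3/2 : ℝ)) *
          (∫⁻ ζ, ‖u ζ‖ₑ ^ (3:ℝ)) ^ (1 / (3:ℝ)) := by
      calc ∫⁻ ζ, ‖kr (z - ζ) • u ζ‖ₑ
          ≤ ∫⁻ ζ, ((fun ζ => ‖(closedBall (0:ℂ) (2 * R)).indicator kr (z - ζ)‖ₑ) *
            (fun ζ => ‖u ζ‖ₑ)) ζ := by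
            refine lintegral_mono fun ζ => ?_
            simp only [Pi.mul_apply]
            rw [enorm_smul]
            by_cases hζ : R < ‖ζ‖
            · rw [h0 ζ hζ]; simp
            · have : z - ζ ∈ closedBall (0:ℂ) (2 * R) := by
                rw [mem_closedBall, dist_zero_right]
                calc ‖z - ζ‖ ≤ ‖z‖ + ‖ζ‖ := norm_sub_le _ _
                  _ ≤ 2 * R := by linarith
              rw [indicator_of_mem this]
        _ ≤ _ := by
            apply ENNReal.lintegral_mul_le_Lp_mul_Lq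
            · rw [Real.holderConjugate_iff]; norm_num
            · exact (hm.comp (measurable_const.sub measurable_id)).enorm.aemeasurable
            · exact hu.enorm
    refine h1.trans_lt ?_
    have h2 := KC_lt R
    unfold KC at h2
    rw [lintegral_sub_left_eq_self
      (fun ζ => ‖(closedBall (0:ℂ) (2 * R)).indicator kr ζ‖ₑ ^ (3/2 : ℝ)) z]
    exact ENNReal.mul_lt_top h2 (ENNReal.rpow_lt_top_of_nonneg (by norm_num) hf.ne)

/-! ### smooth functions -/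

theorem PV_eq_conv (u : ℂ → F) :
    PV u = MeasureTheory.convolution kr u (ContinuousLinearMap.lsmul ℝ ℂ) volume := by
  ext z
  rw [convolution_def]
  rfl

theorem PV_contDiff [CompleteSpace F] {u : ℂ → F} (h : ContDiff ℝ ∞ u) (hc : HasCompactSupport u) :
    ContDiff ℝ ∞ (PV u) := by
  rw [PV_eq_conv]
  exact hc.contDiff_convolution_right _ locallyIntegrable_ker h

theorem db_comp {f : ℂ → F} {z : ℂ} (hf : DifferentiableAt ℝ f z) (l : F →L[ℂ] ℂ) :
    dzb (fun z => l (f z)) z = l (db f z) := by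
  have h1 : fderiv ℝ (fun z => l (f z)) z = (l.restrictScalars ℝ).comp (fderiv ℝ f z) :=
    ((l.restrictScalars ℝ).hasFDerivAt.comp z hf.hasFDerivAt).fderiv
  unfold db dzb Crest.Agent.R096.BelA_205.dd
  rw [h1]
  simp
  ring

theorem db_PV [CompleteSpace F] {u : ℂ → F} (h : ContDiff ℝ ∞ u) (hc : HasCompactSupport u) (z : ℂ) :
    db (PV u) z = u z := by
  have hd : Differentiable ℝ (PV u) := (PV_contDiff h hc).differentiable (by simp)
  rw [SeparatingDual.eq_iff_forall_dual_eq (R := ℂ)]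
  intro l
  rw [← db_comp (hd z) l]
  obtain ⟨R, hR⟩ := hc.isCompact.isBounded.subset_closedBall 0
  have ht : Tst R (fun z => l (u z)) := by
    refine ⟨(l.restrictScalars ℝ).contDiff.comp h, fun z hz => ?_⟩
    have : z ∉ tsupport u := fun hz' => by
      have := hR hz'
      rw [mem_closedBall, dist_zero_right] at this
      linarith
    simp [image_eq_zero_of_notMem_tsupport this]
  have he : (fun z => l (PV u z)) = P (fun z => l (u z)) := by
    ext z
    unfold PV P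
    rw [← ContinuousLinearMap.integral_comp_comm]
    · simp
    · exact hc.convolutionExists_right (ContinuousLinearMap.lsmul ℝ ℂ) locallyIntegrable_ker
        h.continuous z
  rw [he]
  exact congrFun (Crest.Agent.R096.BelA_205.dzb_P ht) z

/-! ### approximation -/

theorem approx {R : ℝ} (hR : 0 < R) {u : ℂ → F} (hu : MemLp u 3 volume)
    (h0 : ∀ ζ, R < ‖ζ‖ → u ζ = 0) :
    ∃ a : ℕ → ℂ → F, (∀ n, ContDiff ℝ ∞ (a n)) ∧ (∀ n, HasCompactSupport (a n)) ∧
      (∀ n ζ, R + 1 < ‖ζ‖ → a n ζ = 0) ∧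
      Tendsto (fun n => eLpNorm (fun ζ => u ζ - a n ζ) 3 volume) atTop (𝓝 0) := by
  have hex : ∀ n : ℕ, ∃ g : ℂ → F, HasCompactSupport g ∧ ContDiff ℝ ∞ g ∧
      eLpNorm (u - g) 3 volume ≤ ENNReal.ofReal (1 / ((n:ℝ) + 1)) := by
    intro n
    exact MemLp.exist_eLpNorm_sub_le (by norm_num) (by norm_num) hu (by positivity)
  choose g hg1 hg2 hg3 using hex
  let χ : ContDiffBump (0:ℂ) := ⟨R, R + 1, hR, by linarith⟩
  have hχ1 : ∀ ζ : ℂ, ‖ζ‖ ≤ R → χ ζ = 1 := fun ζ hζ =>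
    χ.one_of_mem_closedBall (by rw [mem_closedBall, dist_zero_right]; exact hζ)
  have hχ0 : ∀ ζ : ℂ, R + 1 < ‖ζ‖ → χ ζ = 0 := fun ζ hζ =>
    χ.zero_of_le_dist (by rw [dist_zero_right]; exact hζ.le)
  refine ⟨fun n ζ => χ ζ • g n ζ, fun n => χ.contDiff.smul (hg2 n), fun n => ?_,
    fun n ζ hζ => by simp [hχ0 ζ hζ], ?_⟩
  · refine HasCompactSupport.intro (hg1 n).isCompact fun ζ hζ => ?_
    show χ ζ • g n ζ = 0
    rw [image_eq_zero_of_notMem_tsupport hζ, smul_zero]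
  · have hle : ∀ n, eLpNorm (fun ζ => u ζ - χ ζ • g n ζ) 3 volume ≤
        ENNReal.ofReal (1 / ((n:ℝ) + 1)) := by
      intro n
      refine le_trans (eLpNorm_mono fun ζ => ?_) (hg3 n)
      have h1 : u ζ - χ ζ • g n ζ = χ ζ • (u ζ - g n ζ) := by
        by_cases hζ : ‖ζ‖ ≤ R
        · rw [hχ1 ζ hζ]; simp
        · rw [h0 ζ (not_le.1 hζ)]; simp
      rw [h1, norm_smul, Pi.sub_apply]
      have h2 : ‖χ ζ‖ ≤ 1 := by
        rw [Real.norm_eq_abs, abs_of_nonneg χ.nonneg]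
        exact χ.le_one
      calc ‖χ ζ‖ * ‖u ζ - g n ζ‖ ≤ 1 * ‖u ζ - g n ζ‖ := by gcongr
        _ = _ := one_mul _
    refine tendsto_of_tendsto_of_tendsto_of_le_of_le tendsto_const_nhds ?_ (fun _ => bot_le) hle
    have := tendsto_one_div_add_atTop_nhds_zero_nat (𝕜 := ℝ)
    have h3 := (ENNReal.continuous_ofReal.tendsto 0).comp this
    rw [ENNReal.ofReal_zero] at h3
    exact h3

omit [NormedSpace ℂ F] in
theorem eLp_three (u : ℂ → F) : (∫⁻ ζ, ‖u ζ‖ₑ ^ (3:ℝ)) ^ (1 / (3:ℝ)) = eLpNorm u 3 volume := by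
  rw [eLpNorm_eq_lintegral_rpow_enorm_toReal (by norm_num) (by norm_num)]
  norm_num

omit [NormedSpace ℂ F] in
theorem lint_lt {u : ℂ → F} (hu : MemLp u 3 volume) : (∫⁻ ζ, ‖u ζ‖ₑ ^ (3:ℝ)) < ⊤ := by
  have := hu.2
  rw [← eLp_three] at this
  by_contra h
  rw [not_lt, top_le_iff] at h
  rw [h] at this
  simp at this

theorem enorm_PV_le' {R : ℝ} {u : ℂ → F} (hu : MemLp u 3 volume)
    (h0 : ∀ ζ, R < ‖ζ‖ → u ζ = 0) {z : ℂ} (hz : ‖z‖ ≤ R) :
    ‖PV u z‖ₑ ≤ KC R * eLpNorm u 3 volume := by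
  rw [← eLp_three]
  exact enorm_PV_le hu.1 h0 hz

theorem PV_sub {R : ℝ} {u v : ℂ → F} (hu : MemLp u 3 volume) (hv : MemLp v 3 volume)
    (h0 : ∀ ζ, R < ‖ζ‖ → u ζ = 0) (h0' : ∀ ζ, R < ‖ζ‖ → v ζ = 0) {z : ℂ} (hz : ‖z‖ ≤ R) :
    PV (fun ζ => u ζ - v ζ) z = PV u z - PV v z := by
  rw [PV_swap, PV_swap, PV_swap, ← integral_sub (int_PV hu.1 h0 (lint_lt hu) hz)
    (int_PV hv.1 h0' (lint_lt hv) hz)]
  congr 1
  ext ζ
  rw [smul_sub]

theorem tendsto_PV {R : ℝ} {u : ℂ → F} (hu : MemLp u 3 volume)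
    (h0 : ∀ ζ, R < ‖ζ‖ → u ζ = 0) {a : ℕ → ℂ → F} (ha : ∀ n, MemLp (a n) 3 volume)
    (ha0 : ∀ n ζ, R < ‖ζ‖ → a n ζ = 0)
    (ht : Tendsto (fun n => eLpNorm (fun ζ => u ζ - a n ζ) 3 volume) atTop (𝓝 0)) :
    TendstoUniformlyOn (fun n => PV (a n)) (PV u) atTop (closedBall 0 R) := by
  rw [EMetric.tendstoUniformlyOn_iff]
  intro ε hε
  have h1 : Tendsto (fun n => KC R * eLpNorm (fun ζ => u ζ - a n ζ) 3 volume) atTop (𝓝 0) := by
    have := ENNReal.Tendsto.const_mul ht (Or.inr (KC_lt R).ne)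
    simpa using this
  filter_upwards [(tendsto_order.1 h1).2 ε hε] with n hn
  intro z hz
  rw [mem_closedBall, dist_zero_right] at hz
  rw [edist_eq_enorm_sub, ← PV_sub hu (ha n) h0 (ha0 n) hz]
  exact (enorm_PV_le' (hu.sub (ha n)) (fun ζ hζ => by simp [h0 ζ hζ, ha0 n ζ hζ]) hz).trans_lt hn

/-- smooth compactly supported approximations of a bounded function with compact support -/
theorem exists_approx [CompleteSpace F] {R : ℝ} (hR : 0 < R) {u : ℂ → F} (hu : MemLp u 3 volume)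
    (h0 : ∀ ζ, R < ‖ζ‖ → u ζ = 0) :
    ∃ a : ℕ → ℂ → F, (∀ n, ContDiff ℝ ∞ (a n)) ∧ (∀ n, ContDiff ℝ ∞ (PV (a n))) ∧
      (∀ n z, db (PV (a n)) z = a n z) ∧ (∀ n, MemLp (a n) 3 volume) ∧
      Tendsto (fun n => eLpNorm (fun ζ => u ζ - a n ζ) 3 volume) atTop (𝓝 0) ∧
      TendstoUniformlyOn (fun n => PV (a n)) (PV u) atTop (closedBall 0 (R + 1)) ∧
      ∀ n z, ‖z‖ ≤ R + 1 →
        ‖PV u z - PV (a n) z‖ₑ ≤ KC (R + 1) * eLpNorm (fun ζ => u ζ - a n ζ) 3 volume := by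
  obtain ⟨a, h1, h2, h3, h4⟩ := approx hR hu h0
  have hm : ∀ n, MemLp (a n) 3 volume := fun n =>
    (h1 n).continuous.memLp_of_hasCompactSupport (h2 n)
  refine ⟨a, h1, fun n => PV_contDiff (h1 n) (h2 n), fun n z => db_PV (h1 n) (h2 n) z, hm, h4, ?_, ?_⟩
  · exact tendsto_PV hu (fun ζ hζ => h0 ζ (by linarith)) hm h3 h4
  · intro n z hz
    rw [← PV_sub hu (hm n) (fun ζ hζ => h0 ζ (by linarith)) (h3 n) hz]
    exact enorm_PV_le' (hu.sub (hm n)) (fun ζ hζ => by simp [h0 ζ (by linarith), h3 n ζ hζ]) hz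

theorem continuousOn_PV [CompleteSpace F] {R : ℝ} (hR : 0 < R) {u : ℂ → F} (hu : MemLp u 3 volume)
    (h0 : ∀ ζ, R < ‖ζ‖ → u ζ = 0) : ContinuousOn (PV u) (closedBall 0 (R + 1)) := by
  obtain ⟨a, -, h2, -, -, -, h6, -⟩ := exists_approx hR hu h0
  exact h6.continuousOn (Frequently.of_forall fun n => (h2 n).continuous.continuousOn)

omit [NormedSpace ℂ F] in
/-- bounded functions with support in a ball -/
theorem memLp_bdd {R C : ℝ} {u : ℂ → F} (hu : AEStronglyMeasurable u) (h0 : ∀ ζ, R < ‖ζ‖ → u ζ = 0)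
    (hC : ∀ ζ, ‖u ζ‖ ≤ C) : MemLp u 3 volume := by
  have h1 : MemLp ((closedBall (0:ℂ) R).indicator fun _ => (C : ℝ)) 3 volume := by
    apply memLp_indicator_const
    · exact measurableSet_closedBall
    · right
      exact measure_closedBall_lt_top.ne
  refine MemLp.mono h1 hu (Eventually.of_forall fun ζ => ?_)
  by_cases hζ : ζ ∈ closedBall (0:ℂ) R
  · rw [indicator_of_mem hζ]
    exact (hC ζ).trans (le_abs_self _)
  · rw [mem_closedBall, dist_zero_right, not_le] at hζ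
    rw [h0 ζ hζ]; simp

/-- holomorphic limits, vector valued -/
theorem holo [FiniteDimensional ℂ F] {ρ : ℝ} {g : ℕ → ℂ → F} {h : ℂ → F}
    (hg : ∀ n, ContDiff ℝ 1 (g n)) (hl : TendstoUniformlyOn g h atTop (ball 0 ρ))
    (hd : Tendsto (fun n => ∫⁻ z in ball 0 ρ, ‖db (g n) z‖ₑ) atTop (𝓝 0)) :
    DifferentiableOn ℂ h (ball 0 ρ) := by
  have hcoord : ∀ l : F →L[ℂ] ℂ, DifferentiableOn ℂ (fun z => l (h z)) (ball 0 ρ) := by
    intro l
    have hb := Crest.Agent.R143.DbarMorx63.bc3 (ball 0 ρ) isOpen_ball ℕ atTop inferInstance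
      (fun n z => l (g n z)) (fun z => l (h z)) (fun n => (l.restrictScalars ℝ).contDiff.comp (hg n))
      ?_ ?_
    · exact hb
    · apply TendstoUniformlyOn.tendstoLocallyUniformlyOn
      exact l.uniformContinuous.comp_tendstoUniformlyOn hl
    · intro K hK hKs
      have h1 : ∀ n z, Crest.Agent.R143.BC0x336.dbar (fun z => l (g n z)) z = l (db (g n) z) :=
        fun n z => db_comp ((hg n).differentiable (by norm_num) z) l
      simp only [h1]
      have h2 : ∀ n, ∫ z in K, ‖l (db (g n) z)‖ =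
          (∫⁻ z in K, ‖l (db (g n) z)‖ₑ).toReal := by
        intro n
        rw [integral_eq_lintegral_of_nonneg_ae (Eventually.of_forall fun z => norm_nonneg _)]
        · simp only [ofReal_norm]
        · have hc : Continuous (fun z => db (g n) z) := by
            have := (hg n).continuous_fderiv (by norm_num)
            unfold db
            fun_prop
          exact (l.continuous.comp hc).norm.aestronglyMeasurable
      simp only [h2]
      rw [← ENNReal.toReal_zero]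
      apply (ENNReal.continuousAt_toReal (by simp)).tendsto.comp
      have h3 : Tendsto (fun n => ‖l‖ₑ * ∫⁻ z in ball 0 ρ, ‖db (g n) z‖ₑ) atTop (𝓝 0) := by
        have := ENNReal.Tendsto.const_mul hd (Or.inr (show ‖l‖ₑ ≠ ⊤ from enorm_ne_top))
        simpa using this
      refine tendsto_of_tendsto_of_tendsto_of_le_of_le tendsto_const_nhds h3
        (fun _ => bot_le) fun n => ?_
      calc ∫⁻ z in K, ‖l (db (g n) z)‖ₑ ≤ ∫⁻ z in ball 0 ρ, ‖l (db (g n) z)‖ₑ :=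
            lintegral_mono_set hKs
        _ ≤ ∫⁻ z in ball 0 ρ, ‖l‖ₑ * ‖db (g n) z‖ₑ := by
            refine lintegral_mono fun z => ?_
            exact l.le_opENorm _
        _ ≤ ‖l‖ₑ * ∫⁻ z in ball 0 ρ, ‖db (g n) z‖ₑ := by
            rw [lintegral_const_mul']
            exact enorm_ne_top
  let e : F ≃L[ℂ] (Fin (Module.finrank ℂ F) → ℂ) :=
    ContinuousLinearEquiv.ofFinrankEq (by simp)
  have h1 : DifferentiableOn ℂ (fun z => e (h z)) (ball 0 ρ) := by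
    rw [differentiableOn_pi]
    intro i
    exact hcoord ((ContinuousLinearMap.proj i).comp (e : F →L[ℂ] (Fin (Module.finrank ℂ F) → ℂ)))
  have h2 : h = fun z => e.symm (e (h z)) := by
    ext z; simp
  rw [h2]
  exact e.symm.differentiable.comp_differentiableOn h1

end Crest.Agent.R235.CauchyV_679
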