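import Mathlib
import Crest.Agent.R235.T1_195

/-!
Row 235 (S0364), helper4: UNIFORM two-dimensional growth: `s(B(x,r)) ≤ K s(M) r²` with one constant
`K` for all closed positive (1,1)-currents on `M` (same proof as R240 `N5P.n5'_of`, helper240).
-/

set_option autoImplicit false
set_option maxSynthPendingDepth 3

open Set Function Filter MeasureTheory Metric
open scoped Manifold ContDiff Topology ENNReal

namespace Crest.Agent.R235.GrowthU_4

open Crest.Agent.R240 Crest.Agent.R240.Ch Crest.Agent.R240.En4 Crest.Agent.R240.N5P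
  Crest.Agent.R235.T1_195

noncomputable section

variable {M : Type*} [MetricSpace M] [CompactSpace M] [ChartedSpace E4 M]
    [IsManifold 𝓘(ℝ, E4) ∞ M] [MeasurableSpace M] [BorelSpace M]

omit [CompactSpace M] [ChartedSpace E4 M] [IsManifold 𝓘(ℝ, E4) ∞ M] [BorelSpace M] in
/-- from the smoothed densities to the growth of the measure. -/
theorem growth_of {s : Measure M} [IsFiniteMeasure s] {μ : Measure M} {Cm K r0 e1 : ℝ}
    (hCm : 1 ≤ Cm) (hr0 : 0 < r0) (he1 : 0 < e1) (hK : 0 ≤ K)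
    (h : ∀ e, 0 < e → e ≤ e1 → ∃ g : M → ℝ,
      (∀ x r, e ≤ r → s.real (ball x r) ≤ Cm * ∫ y in ball x (Cm * r), g y ∂μ) ∧
      (∀ x r, e ≤ r → r ≤ r0 → ∫ y in ball x r, g y ∂μ ≤ K * r ^ 2)) :
    ∀ x : M, ∀ r : ℝ, 0 < r →
      s.real (ball x r) ≤ (Cm * (K * Cm ^ 2) + s.real univ * (Cm / r0) ^ 2) * r ^ 2 := by
  intro x r hr
  have hCm0 : 0 < Cm := by linarith
  have hsu : 0 ≤ s.real univ := measureReal_nonneg
  rcases le_or_gt (Cm * r) r0 with h1 | h1
  · obtain ⟨g, hg1, hg2⟩ := h (min e1 r) (lt_min he1 hr) (min_le_left _ _)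
    have h2 := hg1 x r (min_le_right _ _)
    have h3 := hg2 x (Cm * r) ((min_le_right _ _).trans (by nlinarith)) h1
    have h4 : Cm * ∫ y in ball x (Cm * r), g y ∂μ ≤ Cm * (K * (Cm * r) ^ 2) := by gcongr
    have h5 : 0 ≤ s.real univ * (Cm / r0) ^ 2 * r ^ 2 := by positivity
    nlinarith
  · have h2 : s.real (ball x r) ≤ s.real univ := measureReal_mono (subset_univ _) (measure_ne_top _ _)
    have h3 : 1 ≤ Cm / r0 * r := by
      rw [div_mul_eq_mul_div, one_le_div hr0]; exact h1.le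
    have h4 : 1 ≤ (Cm / r0 * r) ^ 2 := one_le_pow₀ h3
    have h5 : 0 ≤ Cm * (K * Cm ^ 2) * r ^ 2 := by positivity
    have h6 : s.real univ * 1 ≤ s.real univ * (Cm / r0 * r) ^ 2 := by gcongr
    nlinarith

/-- **uniform growth**. -/
theorem growthU (D : Dat M) : ∃ K : ℝ, 0 < K ∧ ∀ (Φ : X2 M →ₗ[ℝ] ℝ) (s : Measure M), Cur D Φ s →
    ∀ (x : M) (r : ℝ), 0 < r → s.real (ball x r) ≤ K * s.real univ * r ^ 2 := by
  obtain ⟨𝒰⟩ := Int.node_COV D
  obtain ⟨S⟩ := D.n8 𝒰
  obtain ⟨C1, hC1, hT⟩ := tpart D S (nrcm D 𝒰)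
  obtain ⟨Cm, hCm, hm⟩ := S.repm
  obtain ⟨C9, r0, hC9, hr0, h9⟩ := node_N9 D (C1 + 1) (by linarith)
  have he1 : 0 < min S.e0 (1 / (2 * C1)) := lt_min S.e0_pos (by positivity)
  have hCm0 : 0 < Cm := by linarith
  refine ⟨Cm * (C9 * Cm ^ 2) + (Cm / r0) ^ 2, by positivity, fun Φ s hΦ x r hr => ?_⟩
  have hInv := hΦ.inv
  have hEx := hΦ.closed
  have hRM := hΦ.rm
  have hfin := hRM.fin
  have hgr := growth_of (s := s) (μ := D.μ) (K := C9 * s.real univ) hCm hr0 he1
    (mul_nonneg hC9.le measureReal_nonneg) (fun e he hee => ?_) x r hr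
  · calc s.real (ball x r) ≤ (Cm * (C9 * s.real univ * Cm ^ 2) +
          s.real univ * (Cm / r0) ^ 2) * r ^ 2 := hgr
      _ = _ := by ring
  have hee0 : e ≤ S.e0 := hee.trans (min_le_left _ _)
  have hee1 : e * C1 ≤ 1 / 2 := by
    have h := hee.trans (min_le_right _ _)
    rw [le_div_iff₀ (by positivity)] at h
    linarith
  obtain ⟨g, hgS, hg0, hgs, -, hgm⟩ := hm s hfin e he hee0
  refine ⟨g, hgm, ?_⟩
  obtain ⟨T, hT0, hT1, -, hT3, hT4, -, hT6⟩ :=
    hT Φ s hRM e he hee0 g hgS hg0 hgs S.one (S.one_mem 0)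
  have hTZ : T ∈ Z2 M := by
    refine Fund.fund D T fun b hb => ?_
    rw [← hT0, ← hInv]
    exact hEx _ (S.exact e S.one he hee0 b hb)
  intro x r her hr
  have h := h9 e he (hee0.trans S.e0_le) T 0 g hgS hg0 (by rw [add_zero]; exact hTZ)
    (fun x => (hT1 x).trans (by nlinarith [hg0 x]))
    (GeF.mono D hT3 fun x => by
      have := hg0 x
      have h2 : 0 ≤ e ^ 2 * g x := by positivity
      nlinarith)
    (fun x => (hT4 x).trans (by
      have := hg0 x
      have h2 : 0 ≤ e * g x := by positivity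
      nlinarith))
    (fun x => by
      have h1 := hT6 rfl x
      have h2 := hg0 x
      have h3 : 1 / 2 * g x ≤ (1 - C1 * e) * g x := by
        apply mul_le_mul_of_nonneg_right _ h2
        linarith
      have h4 : 0 ≤ qG D.F (T : F2 E4 M) D.F x := by nlinarith
      nlinarith) x r her hr
  rw [map_zero, n2_zero, mass_eq S he hee0 hgs, zero_div, add_zero, add_zero] at h
  calc ∫ y in ball x r, g y ∂D.μ ≤ C9 * r ^ 2 * s.real univ := h
    _ = C9 * s.real univ * r ^ 2 := by ring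

end

end Crest.Agent.R235.GrowthU_4
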