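import Mathlib
import Crest.Agent.R240.PotGeo
import Crest.Agent.R235.AtomsC_4
import Crest.Agent.R235.GrowthU_4

/-!
Row 235 (S0364), helper4: the density `s{y : g_x(Δ,Δ) < r²}/(π r²)` in the preferred chart at `x`
(frozen metric) is given by an `IsKer` kernel.
-/

set_option autoImplicit false
set_option maxSynthPendingDepth 3
set_option linter.unusedSectionVars false

open Set Function Filter MeasureTheory Metric
open scoped Manifold ContDiff Topology ENNReal NNReal

namespace Crest.Agent.R235.DenM_4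

open Crest.Agent.R240 Crest.Agent.R240.Ch Crest.Agent.R240.En4 Crest.Agent.R240.Pot
  Crest.Agent.R235.T1_195 Crest.Agent.R235.CurDens_4 Crest.Agent.R235.AtomsC_4

noncomputable section

variable {M : Type*} [MetricSpace M] [CompactSpace M] [ChartedSpace E4 M]
    [IsManifold 𝓘(ℝ, E4) ∞ M] [MeasurableSpace M] [BorelSpace M]

/-- the frozen metric at `x`, in the preferred chart. -/
def gx (D : Dat M) (x : M) (v : E4) : ℝ := at2 D.F x v (atJ D.J x v)

/-- the ellipsoid of radius `r` at `x`. -/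
def ell (D : Dat M) (x : M) (r : ℝ) : Set M :=
  {y | y ∈ (chartAt E4 x).source ∧ gx D x (chartAt E4 x y - chartAt E4 x x) < r ^ 2}

theorem continuous_gx (D : Dat M) (x : M) : Continuous (gx D x) := by
  unfold gx
  exact ((at2 D.F x).continuous.clm_apply (atJ D.J x).continuous)

theorem isOpen_ell (D : Dat M) (x : M) (r : ℝ) : IsOpen (ell D x r) := by
  have h : ell D x r = (chartAt E4 x).source ∩
      (chartAt E4 x) ⁻¹' {z | gx D x (z - chartAt E4 x x) < r ^ 2} := rfl
  rw [h]
  refine (chartAt E4 x).isOpen_inter_preimage ?_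
  exact isOpen_lt ((continuous_gx D x).comp (continuous_id.sub continuous_const)) continuous_const

/-- two-sided bounds of the frozen metric. -/
theorem exists_gx_bd (D : Dat M) (x : M) : ∃ m L : ℝ, 0 < m ∧ 0 < L ∧ ∀ v : E4,
    m * ‖v‖ ^ 2 ≤ gx D x v ∧ gx D x v ≤ L * ‖v‖ ^ 2 := by
  have hc : ContinuousOn (gx D x) (sphere (0 : E4) 1) := (continuous_gx D x).continuousOn
  have hne : (sphere (0 : E4) 1).Nonempty := by
    exact NormedSpace.sphere_nonempty.2 zero_le_one
  obtain ⟨v0, hv0, hmin⟩ := (isCompact_sphere (0 : E4) 1).exists_isMinOn hne hc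
  obtain ⟨v1, hv1, hmax⟩ := (isCompact_sphere (0 : E4) 1).exists_isMaxOn hne hc
  have hpos : ∀ v : E4, v ≠ 0 → 0 < gx D x v := fun v hv => (ChDens.spos D x).pos v hv
  have hn0 : v0 ≠ 0 := by
    rintro rfl
    simp at hv0
  have hn1 : v1 ≠ 0 := by
    rintro rfl
    simp at hv1
  have hom : ∀ (t : ℝ) (v : E4), gx D x (t • v) = t ^ 2 * gx D x v := by
    intro t v
    unfold gx
    simp only [map_smul, smul_apply, smul_eq_mul]
    ring
  refine ⟨gx D x v0, gx D x v1, hpos v0 hn0, hpos v1 hn1, fun v => ?_⟩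
  rcases eq_or_ne v 0 with rfl | hv
  · have : gx D x 0 = 0 := by
      unfold gx
      simp
    rw [this]
    simp
  · have hnv : 0 < ‖v‖ := norm_pos_iff.2 hv
    have h1 : ‖v‖⁻¹ • v ∈ sphere (0 : E4) 1 := by
      rw [mem_sphere_zero_iff_norm, norm_smul, norm_inv, norm_norm, inv_mul_cancel₀ hnv.ne']
    have h2 : gx D x v = ‖v‖ ^ 2 * gx D x (‖v‖⁻¹ • v) := by
      rw [hom]
      field_simp
    have h3 : gx D x v0 ≤ gx D x (‖v‖⁻¹ • v) := hmin h1
    have h4 : gx D x (‖v‖⁻¹ • v) ≤ gx D x v1 := hmax h1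
    rw [h2]
    constructor
    · rw [mul_comm]
      gcongr
    · rw [mul_comm (gx D x v1)]
      gcongr

/-- the ellipsoids are comparable with the balls. -/
theorem exists_ell_bd (D : Dat M) (x : M) : ∃ c r0 : ℝ, 0 < c ∧ 0 < r0 ∧ ∀ r, 0 < r → r ≤ r0 →
    ell D x r ⊆ ball x (c * r) ∧ ∀ y, c * dist x y ≤ r → y ∈ ell D x r := by
  set φ := chartAt E4 x with hφ
  have hxs := mem_chart_source E4 x
  obtain ⟨ρ, hρ, hρt⟩ := Metric.nhds_basis_closedBall.mem_iff.1
    (φ.open_target.mem_nhds (mem_chart_target E4 x))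
  obtain ⟨c1, C1, hc1, hC1, hbl⟩ := D.bl x (closedBall (φ x) ρ) (isCompact_closedBall _ _) hρt
  obtain ⟨m, L, hm, hL, hg⟩ := exists_gx_bd D x
  -- a ball inside the chart ball
  have hV : IsOpen (φ.source ∩ φ ⁻¹' ball (φ x) ρ) := φ.isOpen_inter_preimage isOpen_ball
  obtain ⟨δ, hδ, hδV⟩ := Metric.isOpen_iff.1 hV x ⟨hxs, mem_ball_self hρ⟩
  set c : ℝ := C1 / √m + 2 * (√L / c1) + 1 with hcdef
  have hsm : 0 < √m := Real.sqrt_pos.2 hm
  have hsL : 0 < √L := Real.sqrt_pos.2 hL
  have hc : 0 < c := by positivity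
  have hcc1 : C1 / √m < c := by
    have : 0 < 2 * (√L / c1) := by positivity
    linarith
  have hcc2 : √L / c1 < c := by
    have : 0 < √L / c1 := by positivity
    have : 0 < C1 / √m := by positivity
    linarith
  refine ⟨c, min (√m * ρ) (c * δ / 2), hc, by positivity, fun r hr hr0 => ⟨?_, ?_⟩⟩
  · rintro y ⟨hys, hyg⟩
    have h1 := (hg (φ y - φ x)).1
    have h2 : (√m * ‖φ y - φ x‖) ^ 2 < r ^ 2 := by
      rw [mul_pow, Real.sq_sqrt hm.le]
      exact h1.trans_lt hyg
    have h3 : √m * ‖φ y - φ x‖ < r := lt_of_pow_lt_pow_left₀ 2 hr.le h2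
    have h4 : ‖φ y - φ x‖ ≤ ρ := by
      have : √m * ‖φ y - φ x‖ ≤ √m * ρ := h3.le.trans (hr0.trans (min_le_left _ _))
      exact le_of_mul_le_mul_left this hsm
    have h5 := (hbl (φ y) (by rw [mem_closedBall, dist_eq_norm]; exact h4) (φ x)
      (mem_closedBall_self hρ.le)).2
    rw [φ.left_inv hys, φ.left_inv hxs] at h5
    rw [mem_ball]
    calc dist y x ≤ C1 * ‖φ y - φ x‖ := h5
      _ = C1 / √m * (√m * ‖φ y - φ x‖) := by field_simp
      _ ≤ C1 / √m * r := by gcongr
      _ < c * r := by gcongr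
  · intro y hy
    have hyd : dist x y < δ := by
      have h1 : c * dist x y ≤ c * (δ / 2) := by
        have := hr0.trans (min_le_right _ _)
        linarith
      have h2 : dist x y ≤ δ / 2 := le_of_mul_le_mul_left h1 hc
      linarith
    obtain ⟨hys, hyb⟩ := hδV (show y ∈ ball x δ by rw [mem_ball, dist_comm]; exact hyd)
    refine ⟨hys, ?_⟩
    have h5 := (hbl (φ y) (ball_subset_closedBall hyb) (φ x) (mem_closedBall_self hρ.le)).1
    rw [φ.left_inv hys, φ.left_inv hxs] at h5
    have h6 := (hg (φ y - φ x)).2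
    have h7 : gx D x (φ y - φ x) ≤ (√L / c1 * dist x y) ^ 2 := by
      have h8 : ‖φ y - φ x‖ ≤ dist x y / c1 := by
        rw [le_div_iff₀ hc1, mul_comm, dist_comm x y]
        exact h5
      calc gx D x (φ y - φ x) ≤ L * ‖φ y - φ x‖ ^ 2 := h6
        _ ≤ L * (dist x y / c1) ^ 2 := by gcongr
        _ = (√L / c1 * dist x y) ^ 2 := by
          rw [mul_pow, div_pow, div_pow, Real.sq_sqrt hL.le]
          ring
    refine h7.trans_lt ?_
    rcases (dist_nonneg (x := x) (y := y)).eq_or_lt with h0 | h0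
    · rw [← h0, mul_zero, zero_pow two_ne_zero]
      positivity
    · have h9 : √L / c1 * dist x y < r := by
        calc √L / c1 * dist x y < c * dist x y := by gcongr
          _ ≤ r := hy
      exact pow_lt_pow_left₀ h9 (by positivity) two_ne_zero

/-- the kernel of the density. -/
def kM (D : Dat M) (r : ℝ) (x : M) : M → ℝ := (ell D x r).indicator fun _ => 1 / (Real.pi * r ^ 2)

theorem isKer_kM (D : Dat M) : IsKer (kM D) where
  meas r x := measurable_const.indicator (isOpen_ell D x r).measurableSet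
  nonneg r x y := indicator_nonneg (fun _ _ => by positivity) _
  at' x := by
    obtain ⟨c, r0, hc, hr0, h⟩ := exists_ell_bd D x
    have hpi := Real.pi_pos
    have hpi3 := Real.pi_gt_three
    refine ⟨Real.pi, c, r0, hpi, hc, hr0, ?_, ?_, ?_⟩
    · intro r y hr hrr
      unfold kM
      refine (indicator_le_self' (fun _ _ => by positivity) y).trans ?_
      rw [div_le_div_iff₀ (by positivity) (by positivity)]
      have h1 : 0 < r ^ 2 := by positivity
      have h2 : 1 ≤ Real.pi * Real.pi := by nlinarith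
      nlinarith [mul_le_mul_of_nonneg_right h2 h1.le]
    · intro r y hr hrr hy
      unfold kM
      rw [indicator_of_notMem]
      intro hmem
      have := (h r hr hrr).1 hmem
      rw [mem_ball, dist_comm] at this
      exact absurd this (not_lt.2 hy)
    · intro r y hr hrr hy
      unfold kM
      rw [indicator_of_mem ((h r hr hrr).2 y hy)]

theorem nuR_kM (D : Dat M) (s : Measure M) (r : ℝ) (x : M) :
    nuR (kM D) s r x = s.real (ell D x r) / (Real.pi * r ^ 2) := by
  unfold nuR kM
  rw [integral_indicator (isOpen_ell D x r).measurableSet, setIntegral_const, smul_eq_mul]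
  ring

end

end Crest.Agent.R235.DenM_4
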