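import Mathlib
import Crest.Agent.R235.DenM_4
import Crest.Agent.R240.Pol3

/-!
Row 235 (S0364), helper4: CHIND, the two-dimensional density (frozen metric) does not depend on the
chart.
-/

set_option autoImplicit false
set_option maxSynthPendingDepth 3
set_option linter.unusedSectionVars false

open Set Function Filter MeasureTheory Metric
open scoped Manifold ContDiff Topology ENNReal NNReal

namespace Crest.Agent.R235.DenM_4

open Crest.Agent.R240 Crest.Agent.R240.Ch Crest.Agent.R240.En4 Crest.Agent.R240.Pot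
  Crest.Agent.R235.T1_195 Crest.Agent.R235.CurDens_4 Crest.Agent.R235.AtomsC_4

noncomputable section

/-! ### the abstract squeeze -/

theorem tendsto_dens_of_sandwich {A B : ℝ → ℝ} {θ : ℝ}
    (hB : ∀ r, 0 ≤ B r)
    (h1 : ∀ ε : ℝ, 0 < ε → ∀ᶠ r in 𝓝[>] (0 : ℝ), A r ≤ B ((1 + ε) * r))
    (h2 : ∀ ε : ℝ, 0 < ε → ∀ᶠ r in 𝓝[>] (0 : ℝ), B r ≤ A ((1 + ε) * r))
    (h : Tendsto (fun r => B r / (Real.pi * r ^ 2)) (𝓝[>] 0) (𝓝 θ)) :
    Tendsto (fun r => A r / (Real.pi * r ^ 2)) (𝓝[>] 0) (𝓝 θ) := by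
  have hpi := Real.pi_pos
  have hθ : 0 ≤ θ := ge_of_tendsto h (Eventually.of_forall fun r => by
    have := hB r
    positivity)
  have hsc : ∀ c : ℝ, 0 < c → Tendsto (fun r => B (c * r) / (Real.pi * r ^ 2)) (𝓝[>] 0)
      (𝓝 (c ^ 2 * θ)) := by
    intro c hc
    have h3 := (h.comp (tendsto_scale hc)).const_mul (c ^ 2)
    refine h3.congr' ?_
    filter_upwards [self_mem_nhdsWithin] with r hr
    have hr : 0 < r := hr
    simp only [comp_apply]
    field_simp
  refine tendsto_order.2 ⟨fun a ha => ?_, fun a ha => ?_⟩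
  · -- lower bound
    have h3 : ContinuousAt (fun ε : ℝ => ((1 + ε)⁻¹) ^ 2 * θ) 0 := by
      have : ContinuousAt (fun ε : ℝ => (1 + ε)⁻¹) 0 :=
        (continuousAt_const.add continuousAt_id).inv₀ (by norm_num)
      exact (this.pow 2).mul continuousAt_const
    have h4 : ∀ᶠ ε : ℝ in 𝓝[>] 0, a < ((1 + ε)⁻¹) ^ 2 * θ := by
      refine (h3.mono_left nhdsWithin_le_nhds).eventually_const_lt ?_
      simpa using ha
    obtain ⟨ε, hε1, hε0⟩ := (h4.and self_mem_nhdsWithin).exists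
    have hε0 : 0 < ε := hε0
    have hc : 0 < (1 + ε)⁻¹ := by positivity
    have h5 := (hsc _ hc).eventually_const_lt hε1
    have h6 := (tendsto_scale hc).eventually (h2 ε hε0)
    filter_upwards [h5, h6, self_mem_nhdsWithin] with r hr1 hr2 hr0
    have hr0 : 0 < r := hr0
    refine hr1.trans_le ?_
    have h7 : (1 + ε) * ((1 + ε)⁻¹ * r) = r := by field_simp
    rw [h7] at hr2
    gcongr
  · have h3 : ContinuousAt (fun ε : ℝ => (1 + ε) ^ 2 * θ) 0 :=
      ((continuousAt_const.add continuousAt_id).pow 2).mul continuousAt_const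
    have h4 : ∀ᶠ ε : ℝ in 𝓝[>] 0, (1 + ε) ^ 2 * θ < a := by
      refine (h3.mono_left nhdsWithin_le_nhds).eventually_lt_const ?_
      simpa using ha
    obtain ⟨ε, hε1, hε0⟩ := (h4.and self_mem_nhdsWithin).exists
    have hε0 : 0 < ε := hε0
    have hc : 0 < 1 + ε := by positivity
    have h5 := (hsc _ hc).eventually_lt_const hε1
    filter_upwards [h5, h1 ε hε0, self_mem_nhdsWithin] with r hr1 hr2 hr0
    have hr0 : 0 < r := hr0
    refine lt_of_le_of_lt ?_ hr1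
    gcongr

variable {M : Type*} [MetricSpace M] [CompactSpace M] [ChartedSpace E4 M]
    [IsManifold 𝓘(ℝ, E4) ∞ M] [MeasurableSpace M] [BorelSpace M]

/-! ### the frozen metric in another chart -/

/-- the frozen metric at `x` in the chart `p`. -/
def gp (D : Dat M) (p x : M) (v : E4) : ℝ :=
  rep p D.F (chartAt E4 p x) v (repJ p D.J (chartAt E4 p x) v)

theorem gp_eq {D : Dat M} {p x : M} (hx : x ∈ (chartAt E4 p).source) (v : E4) :
    gp D p x v = gx D x (tcc p x x v) := by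
  unfold gp gx
  rw [rep_apply, repJ_apply, (chartAt E4 p).left_inv hx, tcc_cancel' hx]

theorem gp_self (D : Dat M) (x : M) (v : E4) : gp D x x v = gx D x v := by
  rw [gp_eq (mem_chart_source E4 x), tcc_self (mem_chart_source E4 x)]

/-- the ellipsoid in the chart `p`. -/
def ellP (D : Dat M) (p x : M) (r : ℝ) : Set M :=
  {y | y ∈ (chartAt E4 p).source ∧ gp D p x (chartAt E4 p y - chartAt E4 p x) < r ^ 2}

theorem ellP_self (D : Dat M) (x : M) (r : ℝ) : ellP D x x r = ell D x r := by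
  ext y
  unfold ellP ell
  simp only [mem_ofPred_eq, gp_self]

theorem continuous_gp (D : Dat M) (p x : M) : Continuous (gp D p x) := by
  unfold gp
  exact ((rep p D.F (chartAt E4 p x)).continuous.clm_apply
    (repJ p D.J (chartAt E4 p x)).continuous)

theorem isOpen_ellP (D : Dat M) (p x : M) (r : ℝ) : IsOpen (ellP D p x r) := by
  have h : ellP D p x r = (chartAt E4 p).source ∩
      (chartAt E4 p) ⁻¹' {z | gp D p x (z - chartAt E4 p x) < r ^ 2} := rfl
  rw [h]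
  refine (chartAt E4 p).isOpen_inter_preimage ?_
  exact isOpen_lt ((continuous_gp D p x).comp (continuous_id.sub continuous_const)) continuous_const

/-- Young's inequality. -/
theorem gx_young (D : Dat M) (x : M) (a b : E4) {ε : ℝ} (hε : 0 < ε) :
    gx D x (a + b) ≤ (1 + ε) * gx D x a + (1 + 1 / ε) * gx D x b := by
  have hnn : ∀ v, 0 ≤ gx D x v := by
    intro v
    obtain ⟨m, L, hm, hL, h⟩ := exists_gx_bd D x
    exact le_trans (by positivity) (h v).1
  have h1 := hnn (ε • a - b)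
  have e1 : gx D x (ε • a - b) = ε ^ 2 * gx D x a -
      ε * (at2 D.F x a (atJ D.J x b) + at2 D.F x b (atJ D.J x a)) + gx D x b := by
    unfold gx
    simp only [map_sub, map_smul, sub_apply, smul_apply, smul_eq_mul]
    ring
  have e2 : gx D x (a + b) = gx D x a +
      (at2 D.F x a (atJ D.J x b) + at2 D.F x b (atJ D.J x a)) + gx D x b := by
    unfold gx
    simp only [map_add, add_apply]
    ring
  rw [e1] at h1
  rw [e2]
  set t := at2 D.F x a (atJ D.J x b) + at2 D.F x b (atJ D.J x a)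
  have h2 : t ≤ ε * gx D x a + 1 / ε * gx D x b := by
    have h3 : ε * t ≤ ε * (ε * gx D x a + 1 / ε * gx D x b) := by
      have : ε * (ε * gx D x a + 1 / ε * gx D x b) = ε ^ 2 * gx D x a + gx D x b := by
        field_simp
      rw [this]
      linarith
    exact le_of_mul_le_mul_left h3 hε
  linarith

/-- comparison of the frozen metric in two charts near `x`. -/
theorem exists_cmp (D : Dat M) {p x : M} (hx : x ∈ (chartAt E4 p).source) {ε : ℝ} (hε : 0 < ε) :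
    ∃ δ : ℝ, 0 < δ ∧ ∀ y ∈ ball x δ, y ∈ (chartAt E4 p).source ∧ y ∈ (chartAt E4 x).source ∧
      gx D x (chartAt E4 x y - chartAt E4 x x) ≤
        (1 + ε) * gp D p x (chartAt E4 p y - chartAt E4 p x) ∧
      gp D p x (chartAt E4 p y - chartAt E4 p x) ≤
        (1 + ε) * gx D x (chartAt E4 x y - chartAt E4 x x) := by
  obtain ⟨m, L, hm, hL, hg⟩ := exists_gx_bd D x
  have hxs := mem_chart_source E4 x
  set T : E4 →L[ℝ] E4 := tcc p x x with hT
  set T' : E4 →L[ℝ] E4 := tcc x p x with hT'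
  have hTT : ∀ v, T' (T v) = v := fun v => by
    rw [hT, hT', tcc_comp hx hxs hx, tcc_self hx]
  set κ : ℝ := ‖T'‖ + 1 with hκ
  have hκ0 : 0 < κ := by positivity
  have hκv : ∀ v, ‖v‖ ≤ κ * ‖T v‖ := by
    intro v
    calc ‖v‖ = ‖T' (T v)‖ := by rw [hTT]
      _ ≤ ‖T'‖ * ‖T v‖ := T'.le_opNorm _
      _ ≤ κ * ‖T v‖ := by gcongr; linarith
  -- the constant of the linear approximation
  set e1 : ℝ := ε / 2 with he1
  have he10 : 0 < e1 := by positivity
  set C : ℝ := (1 + 1 / e1) * (L / m) * κ ^ 2 with hC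
  have hC0 : 0 < C := by positivity
  obtain ⟨η, hη, hηC, hηκ⟩ : ∃ η : ℝ, 0 < η ∧ 4 * C * η ^ 2 ≤ e1 ∧ η * κ ≤ 1 / 2 := by
    refine ⟨min (√(e1 / (4 * C))) (1 / (2 * κ)), by positivity, ?_, ?_⟩
    · have h1 : (min (√(e1 / (4 * C))) (1 / (2 * κ))) ^ 2 ≤ (√(e1 / (4 * C))) ^ 2 :=
        pow_le_pow_left₀ (by positivity) (min_le_left _ _) 2
      rw [Real.sq_sqrt (by positivity)] at h1
      calc 4 * C * (min (√(e1 / (4 * C))) (1 / (2 * κ))) ^ 2 ≤ 4 * C * (e1 / (4 * C)) := by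
            gcongr
        _ = e1 := by field_simp
    · calc min (√(e1 / (4 * C))) (1 / (2 * κ)) * κ ≤ 1 / (2 * κ) * κ := by
            gcongr
            exact min_le_right _ _
        _ = 1 / 2 := by field_simp
  have hder : HasFDerivAt (chartAt E4 x ∘ (chartAt E4 p).symm) T (chartAt E4 p x) := by
    have h1 : ContDiffAt ℝ ∞ (trans (E := E4) p x) (chartAt E4 p x) :=
      trans_contDiffAt ((chartAt E4 p).map_source hx) (by
        rw [(chartAt E4 p).left_inv hx]; exact hxs)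
    have h2 := (h1.differentiableAt (by simp)).hasFDerivAt
    rw [hT, tcc_eq_fderiv]
    exact h2
  rw [hasFDerivAt_iff_isLittleO_nhds_zero, Asymptotics.isLittleO_iff] at hder
  have h3 := hder hη
  have hcont : ContinuousAt (fun y => chartAt E4 p y - chartAt E4 p x) x :=
    ((chartAt E4 p).continuousAt hx).sub continuousAt_const
  have h4 : Tendsto (fun y => chartAt E4 p y - chartAt E4 p x) (𝓝 x) (𝓝 0) := by
    have := hcont.tendsto
    rwa [sub_self] at this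
  have h5 := h4.eventually h3
  have h6 : ∀ᶠ y in 𝓝 x, y ∈ (chartAt E4 p).source := (chartAt E4 p).open_source.mem_nhds hx
  have h7 : ∀ᶠ y in 𝓝 x, y ∈ (chartAt E4 x).source := (chartAt E4 x).open_source.mem_nhds hxs
  obtain ⟨δ, hδ, hδ'⟩ := Metric.eventually_nhds_iff.1 (h5.and (h6.and h7))
  refine ⟨δ, hδ, fun y hy => ?_⟩
  obtain ⟨hy1, hy2, hy3⟩ := hδ' hy
  refine ⟨hy2, hy3, ?_⟩
  set V : E4 := chartAt E4 p y - chartAt E4 p x with hV
  set W : E4 := chartAt E4 x y - chartAt E4 x x with hW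
  have h8 : ‖W - T V‖ ≤ η * ‖V‖ := by
    have e : chartAt E4 p x + V = chartAt E4 p y := by rw [hV]; abel
    rw [e] at hy1
    simp only [comp_apply] at hy1
    rw [(chartAt E4 p).left_inv hy2, (chartAt E4 p).left_inv hx] at hy1
    exact hy1
  have hVT : ‖V‖ ≤ κ * ‖T V‖ := hκv V
  have hVW : ‖V‖ ≤ 2 * κ * ‖W‖ := by
    have h9 : ‖T V‖ ≤ ‖W‖ + η * ‖V‖ := by
      calc ‖T V‖ = ‖W - (W - T V)‖ := by congr 1; abel
        _ ≤ ‖W‖ + ‖W - T V‖ := norm_sub_le _ _
        _ ≤ _ := by gcongr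
    have h10 : ‖V‖ ≤ κ * ‖W‖ + η * κ * ‖V‖ := by
      calc ‖V‖ ≤ κ * ‖T V‖ := hVT
        _ ≤ κ * (‖W‖ + η * ‖V‖) := by gcongr
        _ = _ := by ring
    have h11 : η * κ * ‖V‖ ≤ 1 / 2 * ‖V‖ := by gcongr
    linarith
  have hgW := hg W
  have hgT := hg (T V)
  have hgd : gx D x (W - T V) ≤ L * (η * ‖V‖) ^ 2 := by
    refine (hg _).2.trans ?_
    gcongr
  have hgd' : gx D x (T V - W) ≤ L * (η * ‖V‖) ^ 2 := by
    refine (hg _).2.trans ?_
    rw [norm_sub_rev]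
    gcongr
  rw [gp_eq hx]
  have hbound : ∀ N : ℝ, 0 ≤ N → ∀ G : ℝ, m * N ^ 2 ≤ G → ‖V‖ ≤ 2 * κ * N →
      (1 + 1 / e1) * (L * (η * ‖V‖) ^ 2) ≤ e1 * G := by
    intro N hN G hG hVN
    have hN2 : N ^ 2 ≤ G / m := by
      rw [le_div_iff₀ hm]
      linarith
    calc (1 + 1 / e1) * (L * (η * ‖V‖) ^ 2) ≤ (1 + 1 / e1) * (L * (η * (2 * κ * N)) ^ 2) := by
          gcongr
      _ = (1 + 1 / e1) * L * κ ^ 2 * 4 * η ^ 2 * N ^ 2 := by ring
      _ ≤ (1 + 1 / e1) * L * κ ^ 2 * 4 * η ^ 2 * (G / m) := by gcongr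
      _ = 4 * C * η ^ 2 * G := by
          rw [hC]
          field_simp
      _ ≤ e1 * G := by
          have : 0 ≤ G := le_trans (by positivity) hG
          gcongr
  constructor
  · have h12 := gx_young D x (T V) (W - T V) he10
    have e : T V + (W - T V) = W := by abel
    rw [e] at h12
    have h13 := hbound ‖T V‖ (norm_nonneg _) _ hgT.1 (by
      have : 0 ≤ ‖T V‖ := norm_nonneg _
      nlinarith)
    have h14 : (1 + 1 / e1) * gx D x (W - T V) ≤ (1 + 1 / e1) * (L * (η * ‖V‖) ^ 2) := by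
      gcongr
    have h15 : (1 + ε) * gx D x (T V) = (1 + e1) * gx D x (T V) + e1 * gx D x (T V) := by
      rw [he1]; ring
    rw [h15]
    linarith
  · have h12 := gx_young D x W (T V - W) he10
    have e : W + (T V - W) = T V := by abel
    rw [e] at h12
    have h13 := hbound ‖W‖ (norm_nonneg _) _ hgW.1 hVW
    have h14 : (1 + 1 / e1) * gx D x (T V - W) ≤ (1 + 1 / e1) * (L * (η * ‖V‖) ^ 2) := by
      gcongr
    have h15 : (1 + ε) * gx D x W = (1 + e1) * gx D x W + e1 * gx D x W := by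
      rw [he1]; ring
    rw [h15]
    linarith

/-- the ellipsoids in the chart `p` shrink to the point. -/
theorem exists_ellP_bd (D : Dat M) {p x : M} (hx : x ∈ (chartAt E4 p).source) :
    ∃ c r0 : ℝ, 0 < c ∧ 0 < r0 ∧ ∀ r, 0 < r → r ≤ r0 → ellP D p x r ⊆ ball x (c * r) := by
  set φ := chartAt E4 p with hφ
  obtain ⟨ρ, hρ, hρt⟩ := Metric.nhds_basis_closedBall.mem_iff.1
    (φ.open_target.mem_nhds (φ.map_source hx))
  obtain ⟨c1, C1, hc1, hC1, hbl⟩ := D.bl p (closedBall (φ x) ρ) (isCompact_closedBall _ _) hρt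
  obtain ⟨m, L, hm, hL, hg⟩ := exists_gx_bd D x
  set T : E4 →L[ℝ] E4 := tcc p x x with hT
  set T' : E4 →L[ℝ] E4 := tcc x p x with hT'
  have hTT : ∀ v, T' (T v) = v := fun v => by
    rw [hT, hT', tcc_comp hx (mem_chart_source E4 x) hx, tcc_self hx]
  set κ : ℝ := ‖T'‖ + 1 with hκ
  have hκ0 : 0 < κ := by positivity
  have hκv : ∀ v, ‖v‖ ≤ κ * ‖T v‖ := by
    intro v
    calc ‖v‖ = ‖T' (T v)‖ := by rw [hTT]
      _ ≤ ‖T'‖ * ‖T v‖ := T'.le_opNorm _
      _ ≤ κ * ‖T v‖ := by gcongr; linarith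
  have hsm : 0 < √m := Real.sqrt_pos.2 hm
  have hkey : ∀ (v : E4) (r : ℝ), 0 < r → gp D p x v < r ^ 2 → ‖v‖ < κ / √m * r := by
    intro v r hr h
    rw [gp_eq hx] at h
    have h2 : (√m * ‖T v‖) ^ 2 < r ^ 2 := by
      rw [mul_pow, Real.sq_sqrt hm.le]
      exact (hg (T v)).1.trans_lt h
    have h3 : √m * ‖T v‖ < r := lt_of_pow_lt_pow_left₀ 2 hr.le h2
    calc ‖v‖ ≤ κ * ‖T v‖ := hκv v
      _ = κ / √m * (√m * ‖T v‖) := by field_simp
      _ < κ / √m * r := by gcongr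
  refine ⟨C1 * (κ / √m), √m / κ * ρ, by positivity, by positivity, fun r hr hr0 => ?_⟩
  rintro y ⟨hys, hyg⟩
  have h1 := hkey _ r hr hyg
  have h4 : ‖φ y - φ x‖ ≤ ρ := by
    refine h1.le.trans ?_
    calc κ / √m * r ≤ κ / √m * (√m / κ * ρ) := by gcongr
      _ = ρ := by field_simp
  have h5 := (hbl (φ y) (by rw [mem_closedBall, dist_eq_norm]; exact h4) (φ x)
    (mem_closedBall_self hρ.le)).2
  rw [φ.left_inv hys, φ.left_inv hx] at h5
  rw [mem_ball]
  calc dist y x ≤ C1 * ‖φ y - φ x‖ := h5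
    _ < C1 * (κ / √m * r) := by gcongr
    _ = C1 * (κ / √m) * r := by ring

theorem ev_ball {c r0 δ : ℝ} (hc : 0 < c) (hr0 : 0 < r0) (hδ : 0 < δ) :
    ∀ᶠ r : ℝ in 𝓝[>] 0, 0 < r ∧ r ≤ r0 ∧ c * r ≤ δ := by
  have h1 : 0 < min r0 (δ / c) := by positivity
  filter_upwards [ev_le h1] with r hr
  refine ⟨hr.1, hr.2.trans (min_le_left _ _), ?_⟩
  have := hr.2.trans (min_le_right _ _)
  rwa [le_div_iff₀ hc, mul_comm] at this

/-- **CHIND**. -/
theorem den_indep (D : Dat M) {p x : M} (hx : x ∈ (chartAt E4 p).source) (s : Measure M)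
    [IsFiniteMeasure s] {θ : ℝ} :
    Tendsto (fun r => s.real (ellP D p x r) / (Real.pi * r ^ 2)) (𝓝[>] 0) (𝓝 θ) ↔
    Tendsto (fun r => s.real (ell D x r) / (Real.pi * r ^ 2)) (𝓝[>] 0) (𝓝 θ) := by
  have hsq : ∀ ε r : ℝ, 0 < ε → 0 < r → (1 + ε) * r ^ 2 ≤ ((1 + ε) * r) ^ 2 := by
    intro ε r hε hr
    rw [mul_pow]
    have : (1 + ε) ≤ (1 + ε) ^ 2 := by nlinarith
    gcongr
  have h1 : ∀ ε : ℝ, 0 < ε → ∀ᶠ r in 𝓝[>] (0 : ℝ), ellP D p x r ⊆ ell D x ((1 + ε) * r) := by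
    intro ε hε
    obtain ⟨δ, hδ, hc⟩ := exists_cmp D hx hε
    obtain ⟨c, r0, hc0, hr0, hsub⟩ := exists_ellP_bd D hx
    filter_upwards [ev_ball hc0 hr0 hδ] with r hr
    intro y hy
    have hyb := (ball_subset_ball hr.2.2) (hsub r hr.1 hr.2.1 hy)
    obtain ⟨a1, a2, a3, a4⟩ := hc y hyb
    refine ⟨a2, ?_⟩
    have hy2 : gp D p x (chartAt E4 p y - chartAt E4 p x) < r ^ 2 := hy.2
    have : (1 + ε) * gp D p x (chartAt E4 p y - chartAt E4 p x) < (1 + ε) * r ^ 2 := by gcongr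
    exact (a3.trans_lt this).trans_le (hsq ε r hε hr.1)
  have h2 : ∀ ε : ℝ, 0 < ε → ∀ᶠ r in 𝓝[>] (0 : ℝ), ell D x r ⊆ ellP D p x ((1 + ε) * r) := by
    intro ε hε
    obtain ⟨δ, hδ, hc⟩ := exists_cmp D hx hε
    obtain ⟨c, r0, hc0, hr0, hsub⟩ := exists_ell_bd D x
    filter_upwards [ev_ball hc0 hr0 hδ] with r hr
    intro y hy
    have hyb := (ball_subset_ball hr.2.2) ((hsub r hr.1 hr.2.1).1 hy)
    obtain ⟨a1, a2, a3, a4⟩ := hc y hyb
    refine ⟨a1, ?_⟩
    have hy2 : gx D x (chartAt E4 x y - chartAt E4 x x) < r ^ 2 := hy.2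
    have : (1 + ε) * gx D x (chartAt E4 x y - chartAt E4 x x) < (1 + ε) * r ^ 2 := by gcongr
    exact (a4.trans_lt this).trans_le (hsq ε r hε hr.1)
  have h1' : ∀ ε : ℝ, 0 < ε → ∀ᶠ r in 𝓝[>] (0 : ℝ),
      s.real (ellP D p x r) ≤ s.real (ell D x ((1 + ε) * r)) := fun ε hε =>
    (h1 ε hε).mono fun r hr => measureReal_mono hr
  have h2' : ∀ ε : ℝ, 0 < ε → ∀ᶠ r in 𝓝[>] (0 : ℝ),
      s.real (ell D x r) ≤ s.real (ellP D p x ((1 + ε) * r)) := fun ε hε =>
    (h2 ε hε).mono fun r hr => measureReal_mono hr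
  constructor
  · exact tendsto_dens_of_sandwich (fun _ => measureReal_nonneg)
      h2' h1'
  · exact tendsto_dens_of_sandwich (fun _ => measureReal_nonneg)
      h1' h2'

end

end Crest.Agent.R235.DenM_4
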