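import Mathlib
import Crest.Agent.R240.LocDef
import Crest.Agent.R240.Lin6
import Crest.Agent.R240.PotGeo
import Crest.Agent.R240.En1
import Crest.Agent.R235.Defs_837

/-!
Row 235 (S0364), PACKAGE CUR, helper132: definitions and Props of the NEW PROOF OF SIU (post 1747).
No proofs.  Local part: an almost Kaehler structure on a ball of `E4` and a closed positive current
`b ↦ ∫ q(F)(φ,b) ds` satisfying the intersection bound `(Q)`.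
-/

set_option autoImplicit false
set_option maxSynthPendingDepth 3

open Set Function Filter MeasureTheory Metric
open scoped ContDiff ENNReal Manifold Topology

namespace Crest.Agent.R235.CurDefs_132

open Crest.Agent.R240 Crest.Agent.R240.En Crest.Agent.R240.Pot

noncomputable section

/-- cut-off profiles: smooth, antitone, `1` on `(-∞,1]`, `0` on `[1+δ, ∞)`. -/
structure Cut (δ : ℝ) (K : ℝ → ℝ) : Prop where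
  smooth : ContDiff ℝ ∞ K
  anti : Antitone K
  one : ∀ t, t ≤ 1 → K t = 1
  zero : ∀ t, 1 + δ ≤ t → K t = 0

/-- local data: almost Kaehler structure on `ball x0 (4R)` and a closed positive current with
two-dimensional growth and `(Q)`. -/
structure LC where
  J : E4 → E4 →L[ℝ] E4
  F : E4 → Bil
  m : ℝ
  M : ℝ
  L : ℝ
  x0 : E4
  R : ℝ
  s : Measure E4
  C : ℝ
  Q : ℝ
  φ : E4 → Bil
  smJ : ContDiff ℝ ∞ J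
  smF : ContDiff ℝ ∞ F
  bd : ∀ y, Bd (J y) (F y) m M
  bJ : ∀ y, ‖J y‖ ≤ L
  bF : ∀ y, ‖F y‖ ≤ L
  bJ1 : ∀ y, ‖fderiv ℝ J y‖ ≤ L
  bF1 : ∀ y, ‖fderiv ℝ F y‖ ≤ L
  bJ2 : ∀ y, ‖fderiv ℝ (fderiv ℝ J) y‖ ≤ L
  bF2 : ∀ y, ‖fderiv ℝ (fderiv ℝ F) y‖ ≤ L
  R_pos : 0 < R
  R_le : R ≤ 1
  L_ge : 1 ≤ L
  C_nn : 0 ≤ C
  Q_nn : 0 ≤ Q
  cl : ∀ y ∈ ball x0 (4 * R), Cl F y
  fin : IsFiniteMeasure s
  gr : ∀ y r, 0 < r → s.real (ball y r) ≤ C * r ^ 2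
  meas : Measurable φ
  pos : ∀ y, Pos (J y) (φ y)
  nrm : ∀ y, q (F y) (φ y) (F y) = 1
  closed : ∀ S : E4 → Cov, ContDiff ℝ ∞ S → HasCompactSupport S → tsupport S ⊆ ball x0 (4 * R) →
    ∫ y, q (F y) (φ y) (d1 S y) ∂s = 0
  qq : ∀ r, 0 < r → r ≤ R →
    ∫ x in ball x0 (3 * R), ∫ y in ball x r, |q (F x) (φ x) (φ y)| ∂s ∂s
      ≤ Q * r ^ 4 * (1 + |Real.log r|)

/-- the deficit `2 q(F,α∧Jcα) - q(φ,α∧Jcα)` of a covector. -/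
def defi (J : E4 →L[ℝ] E4) (F φ : Bil) (α : Cov) : ℝ :=
  2 * q F F (wed α (Jc J α)) - q F φ (wed α (Jc J α))

/-- the vector `w` with `α(w) = q(φ, α ∧ θ)` for all `α`. -/
def wv (F φ : Bil) (θ : Cov) : E4 := ∑ i : Fin 4, q F φ (wed (pr i) θ) • ee i

namespace LC

variable (D : LC)

/-- the metric `g(u,v) = F(u, J v)`. -/
def G (y : E4) : Bil := gm (D.J y) (D.F y)

/-- squared distance (up to fourth order). -/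
def rho2 (x y : E4) : ℝ := (D.G x (y - x) (y - x) + D.G y (y - x) (y - x)) / 2

/-- `d_x rho2`. -/
def dx (x y : E4) : Cov := fderiv ℝ (fun z => D.rho2 z y) x

/-- `d_y rho2`. -/
def dy (x y : E4) : Cov := fderiv ℝ (fun z => D.rho2 x z) y

/-- the deficit of the pair. -/
def De (x y : E4) : ℝ := defi (D.J y) (D.F y) (D.φ y) (D.dy x y)

/-- `q_x(φ_x, φ_y)`. -/
def qx (x y : E4) : ℝ := q (D.F x) (D.φ x) (D.φ y)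

/-- mollified density ratio. -/
def nuR (K : ℝ → ℝ) (r : ℝ) (x : E4) : ℝ := (r ^ 2)⁻¹ * ∫ y, K (D.rho2 x y / r ^ 2) ∂D.s

/-- the test 1-form `F(w + A(y-x), ·)`. -/
def bet (w : E4) (A : E4 →L[ℝ] E4) (x y : E4) : Cov := D.F y (w + A (y - x))

end LC

/-! ### pointwise linear algebra -/

/-- LIN1. -/
def LIN1 : Prop := ∀ (J : E4 →L[ℝ] E4) (F : Bil) (m M : ℝ), Bd J F m M → ∀ φ : Bil, Pos J φ →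
  q F φ F = 1 → ∀ α : Cov, ∃ Z : E4, (∀ u, F Z (J u) = α u) ∧ defi J F φ α = φ Z (J Z) / 2 ∧
    ∀ V : E4, q F φ (wed α (F V)) = α V - φ Z (J V) / 2

/-- LIN1': consequence by Cauchy-Schwarz. -/
def LIN1' : Prop := ∀ (J : E4 →L[ℝ] E4) (F : Bil) (m M : ℝ), Bd J F m M → ∀ φ : Bil, Pos J φ →
  q F φ F = 1 → ∀ (α : Cov) (V : E4),
    0 ≤ defi J F φ α ∧ 0 ≤ φ V (J V) ∧
      (α V - q F φ (wed α (F V))) ^ 2 ≤ defi J F φ α * (φ V (J V) / 2)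

/-- LIN2. -/
def LIN2 : Prop := ∀ (J : E4 →L[ℝ] E4) (F : Bil) (m M : ℝ), Bd J F m M → ∀ φ b : Bil, Pos J φ →
  q F φ F = 1 → Pos J b → ∀ θ : Cov,
    b (wv F φ θ) (J (wv F φ θ)) ≤ 2 * q F F (wed θ (Jc J θ)) * q F φ b

/-- LIN3: two different structures, quadratic error. -/
def LIN3 : Prop := ∀ m M L : ℝ, ∃ C : ℝ, 0 ≤ C ∧ ∀ (J0 J1 : E4 →L[ℝ] E4) (F0 F1 : Bil),
  Bd J0 F0 m M → Bd J1 F1 m M → ‖J0‖ ≤ L → ‖J1‖ ≤ L → ∀ φ0 φ1 : Bil, Pos J0 φ0 → q F0 φ0 F0 = 1 →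
  Pos J1 φ1 → q F1 φ1 F1 = 1 → ∀ t : ℝ, ‖J1 - J0‖ ≤ t → ∀ θ : Cov,
    φ1 (wv F0 φ0 θ) (J1 (wv F0 φ0 θ)) ≤ C * ‖θ‖ ^ 2 * (|q F0 φ0 φ1| + t ^ 2)

/-- LIN3': the pairing of two positive forms of nearby structures is `≥ - C t²`. -/
def LIN3' : Prop := ∀ m M L : ℝ, ∃ C : ℝ, 0 ≤ C ∧ ∀ (J0 J1 : E4 →L[ℝ] E4) (F0 F1 : Bil),
  Bd J0 F0 m M → Bd J1 F1 m M → ‖J0‖ ≤ L → ‖J1‖ ≤ L → ∀ φ0 φ1 : Bil, Pos J0 φ0 → q F0 φ0 F0 = 1 →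
  Pos J1 φ1 → q F1 φ1 F1 = 1 → ∀ t : ℝ, ‖J1 - J0‖ ≤ t → - (C * t ^ 2) ≤ q F0 φ0 φ1

/-- LIN4: boundedness. -/
def LIN4 : Prop := ∀ m M L : ℝ, ∃ C : ℝ, 0 ≤ C ∧ ∀ (J : E4 →L[ℝ] E4) (F : Bil), Bd J F m M →
  ‖J‖ ≤ L → ∀ φ : Bil, Pos J φ → q F φ F = 1 → ‖φ‖ ≤ C ∧
    (∀ b : Bil, Alt b → |q F φ b| ≤ C * ‖b‖) ∧ (∀ θ : Cov, ‖wv F φ θ‖ ≤ C * ‖θ‖) ∧
    (∀ α : Cov, defi J F φ α ≤ C * ‖α‖ ^ 2) ∧
    ∀ α θ : Cov, q F φ (wed α θ) = α (wv F φ θ)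

/-! ### geometry of the kernel -/

/-- GEO1: size and smoothness of `rho2`. -/
def GEO1 : Prop := ∀ D : LC, ContDiff ℝ ∞ (fun z : E4 × E4 => D.rho2 z.1 z.2) ∧
  (∀ x y, D.m * ‖y - x‖ ^ 2 ≤ D.rho2 x y ∧ D.rho2 x y ≤ D.M * ‖y - x‖ ^ 2) ∧
  ∃ C : ℝ, 0 ≤ C ∧ ∀ x y, ‖y - x‖ ≤ 1 → ‖D.dx x y‖ ≤ C * ‖y - x‖ ∧ ‖D.dy x y‖ ≤ C * ‖y - x‖ ∧
    ‖fderiv ℝ (fun z => D.dy x z) y‖ ≤ C

/-- GEO2: transport of a vector (this is where `dF = 0` and the choice of `rho2` are used). -/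
def GEO2 : Prop := ∀ D : LC, ∃ C : ℝ, 0 ≤ C ∧ ∀ x w : E4, ∃ A : E4 →L[ℝ] E4, ‖A‖ ≤ C * ‖w‖ ∧
  (∀ y, ‖y - x‖ ≤ 1 → |D.dx x y w + D.dy x y (w + A (y - x))| ≤ C * ‖w‖ * ‖y - x‖ ^ 3) ∧
  ∀ y ∈ ball D.x0 (4 * D.R), ‖y - x‖ ≤ 1 →
    |q (D.F y) (D.φ y) (d1 (D.bet w A x) y)| ≤ C * ‖w‖ * ‖y - x‖

/-- GEO3: the two terms of the monotonicity formula. -/
def GEO3 : Prop := ∀ D : LC, ∃ C : ℝ, 0 ≤ C ∧ ∀ x y, ‖y - x‖ ≤ 1 →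
  |2 * q (D.F y) (D.F y) (wed (D.dy x y) (Jc (D.J y) (D.dy x y))) - 4 * D.rho2 x y|
      ≤ C * ‖y - x‖ ^ 3 ∧
  |q (D.F y) (D.φ y) (d1 (fun z => Jc (D.J z) (D.dy x z)) y) - 4| ≤ C * ‖y - x‖

/-! ### monotonicity -/

/-- MON0: the profile `f = f_{r,R'}` with `(t f)' = (k_r - k_{R'})/2`, `k_r(t) = r^{-2} K(t/r²)`. -/
def MON0 : Prop := ∀ (δ : ℝ) (K : ℝ → ℝ), 0 < δ → δ ≤ 1 → Cut δ K → ∃ C c : ℝ, 0 ≤ C ∧ 0 < c ∧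
  ∀ r r' : ℝ, 0 < r → r < r' → ∃ f : ℝ → ℝ, ContDiff ℝ ∞ f ∧ (∀ t, 2 * r' ^ 2 ≤ t → f t = 0) ∧
    (∀ t, f t + t * deriv f t = ((r ^ 2)⁻¹ * K (t / r ^ 2) - (r' ^ 2)⁻¹ * K (t / r' ^ 2)) / 2) ∧
    (∀ t, 0 < t → |f t| ≤ C / t ∧ |deriv f t| ≤ C / t ^ 2) ∧ (∀ t, 0 ≤ t → deriv f t ≤ 0) ∧
    ∀ t, 2 * r ^ 2 ≤ t → t ≤ r' ^ 2 → c / t ^ 2 ≤ - deriv f t

/-- MON: almost monotonicity of `nuR` and integrability of the deficit. -/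
def MON : Prop := ∀ (D : LC) (δ : ℝ) (K : ℝ → ℝ), 0 < δ → δ ≤ 1 → Cut δ K →
  ∃ C r1 : ℝ, 0 ≤ C ∧ 0 < r1 ∧ (∀ x ∈ ball D.x0 (3 * D.R), ∀ r r', 0 < r → r < r' → r' ≤ r1 →
    D.nuR K r x ≤ D.nuR K r' x + C * r') ∧
  (∀ x, ∀ r, 0 < r → 0 ≤ D.nuR K r x ∧ D.nuR K r x ≤ C) ∧
  ∀ x ∈ ball D.x0 (3 * D.R),
    ∫⁻ y in ball x r1, ENNReal.ofReal (D.De x y / ‖y - x‖ ^ 4) ∂D.s ≤ ENNReal.ofReal C

/-- LIM: the limit exists. -/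
def LIM : Prop := ∀ (D : LC) (δ : ℝ) (K : ℝ → ℝ), 0 < δ → δ ≤ 1 → Cut δ K →
  ∃ ν : E4 → ℝ, Measurable ν ∧ (∃ C, ∀ x, 0 ≤ ν x ∧ ν x ≤ C) ∧
    ∀ x ∈ ball D.x0 (3 * D.R), Tendsto (fun r => D.nuR K r x) (𝓝[>] 0) (𝓝 (ν x))

/-- DEL: the averaged deficit, times a logarithm, tends to `0` along a sequence (helper195). -/
def DEL : Prop := ∀ (D : LC) (a : ℝ), 0 < a → ∃ r : ℕ → ℝ, (∀ k, 0 < r k) ∧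
  Tendsto r atTop (𝓝 0) ∧ Tendsto
  (fun k => (r k ^ 4)⁻¹ * (∫ x in ball D.x0 (2 * D.R), ∫ y in ball x (a * r k), D.De x y ∂D.s ∂D.s)
    * (1 + |Real.log (r k)|)) atTop (𝓝 0)

/-! ### the gradient estimate -/

/-- GRA: the tangential gradient of `nuR`. -/
def GRA : Prop := ∀ (D : LC) (δ : ℝ) (K : ℝ → ℝ), 0 < δ → δ ≤ 1 → Cut δ K →
  ∃ C r1 a : ℝ, 0 ≤ C ∧ 0 < r1 ∧ 0 < a ∧ ∀ r, 0 < r → r ≤ r1 → ContDiff ℝ ∞ (D.nuR K r) ∧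
    ∀ x ∈ ball D.x0 (2 * D.R), ∀ θ : Cov,
      |q (D.F x) (D.φ x) (wed (fderiv ℝ (D.nuR K r) x) θ)| ≤ C * ‖θ‖ *
        ((r ^ 4)⁻¹ * (∫ y in ball x (a * r), √(D.De x y) * √(|D.qx x y| + ‖y - x‖ ^ 2) ∂D.s) + r)

/-- GRI: the integral of the bound tends to `0` along a sequence. -/
def GRI : Prop := ∀ (D : LC) (a : ℝ), 0 < a → ∃ r : ℕ → ℝ, (∀ k, 0 < r k) ∧
  Tendsto r atTop (𝓝 0) ∧ Tendsto
  (fun k => (r k ^ 4)⁻¹ * ∫ x in ball D.x0 (2 * D.R), ∫ y in ball x (a * r k),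
    √(D.De x y) * √(|D.qx x y| + ‖y - x‖ ^ 2) ∂D.s ∂D.s) atTop (𝓝 0)

/-- CLO: `H(ν) S` is closed, `ν` the limit of `nuR`. -/
def CLO : Prop := ∀ (D : LC) (δ : ℝ) (K : ℝ → ℝ), 0 < δ → δ ≤ 1 → Cut δ K →
  ∀ ν : E4 → ℝ, Measurable ν →
    (∀ x ∈ ball D.x0 (2 * D.R), Tendsto (fun r => D.nuR K r x) (𝓝[>] 0) (𝓝 (ν x))) →
    ∀ H : ℝ → ℝ, ContDiff ℝ ∞ H →
    ∀ S : E4 → Cov, ContDiff ℝ ∞ S → HasCompactSupport S → tsupport S ⊆ ball D.x0 (2 * D.R) →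
      ∫ y, H (ν y) * q (D.F y) (D.φ y) (d1 S y) ∂D.s = 0

/-- `θ` is the density of `s` at `x` (metric `g`). -/
def IsDenE (g : Bil) (s : Measure E4) (x : E4) (θ : ℝ) : Prop :=
  Tendsto (fun r : ℝ => s.real {y | g (y - x) (y - x) < r ^ 2} / (Real.pi * r ^ 2)) (𝓝[>] 0)
    (𝓝 θ)

/-- **SIUL: the local theorem.** -/
def SIUL : Prop := ∀ D : LC, ∃ Θ : E4 → ℝ, Measurable Θ ∧ (∃ C, ∀ x, 0 ≤ Θ x ∧ Θ x ≤ C) ∧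
  (∀ x ∈ ball D.x0 (2 * D.R), IsDenE (D.G x) D.s x (Θ x)) ∧
  ∀ h : ℝ → ℝ, Measurable h → (∃ B, ∀ t, |h t| ≤ B) →
    ∀ S : E4 → Cov, ContDiff ℝ ∞ S → HasCompactSupport S → tsupport S ⊆ ball D.x0 (2 * D.R) →
      ∫ y, h (Θ y) * q (D.F y) (D.φ y) (d1 S y) ∂D.s = 0

/-- LEB: the density of `1_A(Θ) s` at almost every point of `{Θ ∈ A}` is `Θ`. -/
def LEB : Prop := ∀ (s : Measure E4), IsFiniteMeasure s → ∀ (g : E4 → Bil) (m M : ℝ), 0 < m →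
  (∀ x v, m * ‖v‖ ^ 2 ≤ g x v v ∧ g x v v ≤ M * ‖v‖ ^ 2) → ∀ (A : Set E4), MeasurableSet A →
  ∀ᵐ x ∂s, x ∈ A → ∀ θ : ℝ, IsDenE (g x) s x θ → IsDenE (g x) (s.restrict A) x θ

end

end Crest.Agent.R235.CurDefs_132
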