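import Mathlib
import Crest.Agent.R240.LocPolesFin
import Crest.Agent.R240.Lin5

/-!
Row 235 (S0364), helper195: (Q'), the local logarithmic bound
`∬_{|x-y|<e} W(φ_x, φ_y)^+ ds ds ≤ C e⁴ log(1/e)` for a closed positive current in a ball of `E4`,
from Lemma P of R240.
-/

set_option autoImplicit false
set_option maxSynthPendingDepth 3

open MeasureTheory Metric Set Filter Topology
open scoped ContDiff ENNReal

namespace Crest.Agent.R235.QLog_195

open Crest.Agent.R240 Crest.Agent.R240.En Crest.Agent.R240.Loc5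

noncomputable section

/-! ### the logarithmic bound of the potential -/

/-- `(d+e)^{-2}` is dominated by a dyadic sum. -/
theorem inv_sq_le_sum {d e : ℝ} (hd : 0 ≤ d) (he : 0 < e) {N : ℕ} (hN : (1 / 2 : ℝ) ^ N ≤ e) :
    1 / (d + e) ^ 2 ≤ 1 + ∑ k ∈ Finset.range (N + 1),
      (if d < (1 / 2 : ℝ) ^ k then (4 : ℝ) ^ (k + 1) else 0) := by
  have hnn : ∀ k ∈ Finset.range (N + 1), 0 ≤ (if d < (1 / 2 : ℝ) ^ k then (4 : ℝ) ^ (k + 1) else 0) := by
    intro k _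
    split_ifs <;> positivity
  have hp : ∀ k : ℕ, ((1 / 2 : ℝ) ^ (k + 1)) ^ 2 * (4 : ℝ) ^ (k + 1) = 1 := by
    intro k
    rw [← pow_mul, mul_comm (k + 1) 2, pow_mul, ← mul_pow]
    norm_num
  by_cases h1 : 1 ≤ d
  · have h2 : 1 / (d + e) ^ 2 ≤ 1 := by
      rw [div_le_one (by positivity)]
      nlinarith
    have h3 := Finset.sum_nonneg hnn
    linarith
  push Not at h1
  -- the largest k ≤ N with d < 2^{-k}
  by_cases h2 : d < (1 / 2 : ℝ) ^ N
  · have h3 := Finset.single_le_sum hnn (Finset.mem_range.2 (Nat.lt_succ_self N))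
    simp only [h2, if_true] at h3
    have h4 : 1 / (d + e) ^ 2 ≤ (4 : ℝ) ^ (N + 1) := by
      rw [div_le_iff₀ (by positivity)]
      have h5 := hp N
      have h6 : (1 / 2 : ℝ) ^ (N + 1) ≤ d + e := by
        have : (1 / 2 : ℝ) ^ (N + 1) ≤ (1 / 2 : ℝ) ^ N :=
          pow_le_pow_of_le_one (by norm_num) (by norm_num) (Nat.le_succ N)
        linarith
      have h7 : ((1 / 2 : ℝ) ^ (N + 1)) ^ 2 ≤ (d + e) ^ 2 := by gcongr
      have h8 : (0 : ℝ) < 4 ^ (N + 1) := by positivity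
      nlinarith
    linarith
  · push Not at h2
    obtain ⟨k, hk1, hk2⟩ : ∃ k, d < (1 / 2 : ℝ) ^ k ∧ ¬ d < (1 / 2 : ℝ) ^ (k + 1) := by
      by_contra hcon
      push Not at hcon
      have h3 : ∀ k : ℕ, d < (1 / 2 : ℝ) ^ k := by
        intro k
        induction k with
        | zero => simpa using h1
        | succ k ih => exact hcon k ih
      exact absurd (h3 N) (not_lt.2 h2)
    push Not at hk2
    have hkN : k < N := by
      by_contra hcon
      push Not at hcon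
      have : (1 / 2 : ℝ) ^ k ≤ (1 / 2 : ℝ) ^ N :=
        pow_le_pow_of_le_one (by norm_num) (by norm_num) hcon
      linarith
    have h3 := Finset.single_le_sum hnn (Finset.mem_range.2 (hkN.trans (Nat.lt_succ_self N)))
    simp only [hk1, if_true] at h3
    have h4 : 1 / (d + e) ^ 2 ≤ (4 : ℝ) ^ (k + 1) := by
      rw [div_le_iff₀ (by positivity)]
      have h5 := hp k
      have h7 : ((1 / 2 : ℝ) ^ (k + 1)) ^ 2 ≤ (d + e) ^ 2 := by
        gcongr
        linarith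
      have h8 : (0 : ℝ) < 4 ^ (k + 1) := by positivity
      nlinarith
    linarith

theorem wE_log (s : Measure E4) [IsFiniteMeasure s] {C : ℝ} (hC : 0 ≤ C)
    (hgr : ∀ y r, 0 < r → s (ball y r) ≤ ENNReal.ofReal (C * r ^ 2)) :
    ∃ C' : ℝ, 0 ≤ C' ∧ ∀ (c : E4) (R e : ℝ) (x : E4), 0 < e → e ≤ 1 / 2 →
      1 + Pot.wE s c R e 2 x ≤ C' * Real.log (1 / e) := by
  have hl2 : 0 < Real.log 2 := Real.log_pos (by norm_num)
  have hsu : 0 ≤ s.real univ := measureReal_nonneg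
  refine ⟨(1 + s.real univ + 12 * C) / Real.log 2, by positivity, fun c R e x he hee => ?_⟩
  set N : ℕ := ⌈Real.log (1 / e) / Real.log 2⌉₊ with hN
  have hN1 : Real.log (1 / e) / Real.log 2 ≤ N := Nat.le_ceil _
  have hle : Real.log 2 ≤ Real.log (1 / e) := by
    apply Real.log_le_log (by norm_num)
    rw [le_div_iff₀ he]
    linarith
  have h0 : 1 ≤ Real.log (1 / e) / Real.log 2 := by rw [le_div_iff₀ hl2]; linarith
  have hN2 : (N : ℝ) < Real.log (1 / e) / Real.log 2 + 1 := Nat.ceil_lt_add_one (by linarith)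
  have hNe : (1 / 2 : ℝ) ^ N ≤ e := by
    rw [div_le_iff₀ hl2] at hN1
    have h1 : Real.log (1 / e) ≤ Real.log ((2 : ℝ) ^ N) := by rw [Real.log_pow]; exact hN1
    have h2 : 1 / e ≤ (2 : ℝ) ^ N := (Real.log_le_log_iff (by positivity) (by positivity)).1 h1
    rw [div_pow, one_pow, div_le_iff₀ (by positivity)]
    rw [div_le_iff₀ he] at h2
    linarith
  have hgr' : ∀ r, 0 < r → s.real (ball x r) ≤ C * r ^ 2 := fun r hr =>
    ENNReal.toReal_le_of_le_ofReal (by positivity) (hgr x r hr)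
  -- pointwise
  have hpt : ∀ y, 1 / (‖x - y‖ + e) ^ 2 ≤ 1 + ∑ k ∈ Finset.range (N + 1),
      (ball x ((1 / 2 : ℝ) ^ k)).indicator (fun _ => (4 : ℝ) ^ (k + 1)) y := by
    intro y
    refine (inv_sq_le_sum (norm_nonneg _) he hNe).trans (le_of_eq ?_)
    congr 1
    refine Finset.sum_congr rfl fun k _ => ?_
    by_cases h : ‖x - y‖ < (1 / 2 : ℝ) ^ k
    · rw [if_pos h, indicator_of_mem]
      rw [mem_ball, dist_comm, dist_eq_norm]; exact h
    · rw [if_neg h, indicator_of_notMem]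
      rw [mem_ball, dist_comm, dist_eq_norm]; exact h
  have hI : Integrable (fun y => 1 + ∑ k ∈ Finset.range (N + 1),
      (ball x ((1 / 2 : ℝ) ^ k)).indicator (fun _ => (4 : ℝ) ^ (k + 1)) y) s := by
    refine (integrable_const _).add (integrable_finsetSum _ fun k _ => ?_)
    exact (integrable_const _).indicator measurableSet_ball
  have hint : Integrable (fun y => 1 / (‖x - y‖ + e) ^ 2) s := by
    refine Integrable.of_bound (C := 1 / e ^ 2) ?_ (ae_of_all _ fun y => ?_)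
    · have : Measurable fun y : E4 => 1 / (‖x - y‖ + e) ^ 2 := by fun_prop
      exact this.aestronglyMeasurable
    · rw [Real.norm_of_nonneg (by positivity)]
      have := norm_nonneg (x - y)
      gcongr
      linarith
  have h1 : Pot.wE s c R e 2 x ≤ ∫ y, 1 / (‖x - y‖ + e) ^ 2 ∂s := by
    unfold Pot.wE
    exact setIntegral_le_integral hint (ae_of_all _ fun y => by positivity)
  have h2 : ∫ y, 1 / (‖x - y‖ + e) ^ 2 ∂s ≤ s.real univ + 4 * C * (N + 1) := by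
    refine (integral_mono hint hI hpt).trans ?_
    rw [integral_add (integrable_const _) (integrable_finsetSum _ fun k _ =>
      (integrable_const _).indicator measurableSet_ball), integral_const, smul_eq_mul, mul_one,
      integral_finsetSum _ fun k _ => (integrable_const _).indicator measurableSet_ball]
    have h3 : ∀ k ∈ Finset.range (N + 1),
        ∫ y, (ball x ((1 / 2 : ℝ) ^ k)).indicator (fun _ => (4 : ℝ) ^ (k + 1)) y ∂s ≤ 4 * C := by
      intro k _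
      rw [integral_indicator measurableSet_ball, setIntegral_const, smul_eq_mul]
      have h4 := hgr' ((1 / 2 : ℝ) ^ k) (by positivity)
      have h5 : (0 : ℝ) < 4 ^ (k + 1) := by positivity
      calc s.real (ball x ((1 / 2 : ℝ) ^ k)) * 4 ^ (k + 1)
          ≤ C * ((1 / 2 : ℝ) ^ k) ^ 2 * 4 ^ (k + 1) := by gcongr
        _ = 4 * C * (((1 / 2 : ℝ) ^ k) ^ 2 * 4 ^ k) := by ring
        _ = 4 * C := by
          rw [← pow_mul, mul_comm k 2, pow_mul, ← mul_pow]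
          norm_num
    have h4 := Finset.sum_le_sum h3
    rw [Finset.sum_const, Finset.card_range, nsmul_eq_mul] at h4
    push_cast at h4
    linarith
  rw [div_mul_eq_mul_div, le_div_iff₀ hl2]
  have h3 : ((N : ℝ) + 1) * Real.log 2 ≤ 3 * Real.log (1 / e) := by
    have h4 : ((N : ℝ) + 1) ≤ 3 * (Real.log (1 / e) / Real.log 2) := by linarith
    calc ((N : ℝ) + 1) * Real.log 2 ≤ 3 * (Real.log (1 / e) / Real.log 2) * Real.log 2 := by gcongr
      _ = _ := by field_simp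
  have h5 : (1 + Pot.wE s c R e 2 x) * Real.log 2 ≤
      (1 + s.real univ + 4 * C * (N + 1)) * Real.log 2 :=
    mul_le_mul_of_nonneg_right (by linarith) hl2.le
  refine h5.trans ?_
  have h6 : 4 * C * ((N : ℝ) + 1) * Real.log 2 ≤ 12 * C * Real.log (1 / e) := by
    have := mul_le_mul_of_nonneg_left h3 (by positivity : (0 : ℝ) ≤ 4 * C)
    linarith
  have h7 : (1 + s.real univ) * Real.log 2 ≤ (1 + s.real univ) * Real.log (1 / e) := by gcongr
  linarith

/-! ### positivity of the pairing of nearby positive forms -/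

/-- `q(P,R) ≥ - C |J - J₁|²` for `P ≥ 0` (`J`), `R ≥ 0` (`J₁`). -/
theorem q_near {J J1 : E4 →L[ℝ] E4} {F : Bil} {m M : ℝ} (h : Bd J F m M)
    (hJ1 : ∀ v, J1 (J1 v) = -v) {P R : Bil} (hP : Pos J P) (hR : Pos J1 R) :
    - (‖J - J1‖ ^ 2 * ‖J1‖ * ‖R‖ / m * q F P F) ≤ q F P R := by
  have hm := h.m_pos
  set s : ℝ := ‖J - J1‖ ^ 2 * ‖J1‖ * ‖R‖ / m with hs
  have hs0 : 0 ≤ s := by positivity
  have h1 : Pos J (invp J R + s • F) := by
    refine h.pos_add (hR.alt.invp J) (invp_inv h.sq R) (fun v => ?_) hs0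
    rw [invp_diag h.sq hR.alt]
    refine le_trans ?_ (Q_lower (J := J) hJ1 hR v)
    have e : s * m = ‖J - J1‖ ^ 2 * ‖J1‖ * ‖R‖ := by rw [hs]; field_simp
    rw [e]
    have : 0 ≤ ‖J - J1‖ ^ 2 * ‖J1‖ * ‖R‖ * ‖v‖ ^ 2 := by positivity
    linarith
  have h2 := h.q_pos_pos hP h1
  rw [q_add_right, q_smul_right, ← h.q_inv_left hP.alt hP.inv hR.alt] at h2
  linarith

/-! ### the mollifier -/

/-- a mollifier which is bounded below on the ball of radius `1/2`. -/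
theorem exists_moll' : ∃ (ρ : E4 → ℝ) (κ : ℝ), Moll ρ ∧ 0 < κ ∧ ∀ z, ‖z‖ ≤ 1 / 2 → κ ≤ ρ z := by
  let f : ContDiffBump (0 : E4) := ⟨1/2, 1, by norm_num, by norm_num⟩
  have hI : 0 < ∫ x, f x := f.integral_pos
  refine ⟨f.normed volume, (∫ x, f x)⁻¹, ⟨f.contDiff_normed, fun z => f.nonneg_normed z,
    fun z hz => ?_, f.integral_normed⟩, by positivity, fun z hz => ?_⟩
  · have h1 : z ∉ Function.support (f.normed volume) := by
      rw [f.support_normed_eq]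
      simp only [mem_ball, dist_zero_right, not_lt]
      exact hz
    simpa using h1
  · rw [ContDiffBump.normed_def, f.one_of_mem_closedBall (by
      rw [mem_closedBall, dist_zero_right]; exact hz), one_div]

theorem d1_add {S T : E4 → Cov} {x : E4} (hS : DifferentiableAt ℝ S x)
    (hT : DifferentiableAt ℝ T x) : d1 (fun y => S y + T y) x = d1 S x + d1 T x := by
  unfold d1
  rw [fderiv_fun_add hS hT]
  ext v w
  simp
  ring

theorem wed_zero_left (ξ : Cov) : wed 0 ξ = 0 := by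
  ext v w; simp

theorem W_zero_right (b : Bil) : W b 0 = 0 := by simp [W, ent_zero]

section main

variable {J : E4 → E4 →L[ℝ] E4} {F : E4 → Bil} {φ : E4 → Bil} {m M L LJ w0 c0 σ : ℝ}

/-- the symmetry `W(φ, dζ ∧ Jc du) = W(φ, du ∧ Jc dζ)`. -/
theorem W_wedJ_symm (hC : Cst J F m M L LJ w0 c0 σ) {P : Bil} {x : E4} (hP : Pos (J x) P)
    (ξ η : Cov) : W P (wed ξ (Jc (J x) η)) = W P (wed η (Jc (J x) ξ)) := by
  have h1 := (hC.bd x).q_wedJ_symm hP.alt hP.inv ξ η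
  unfold q at h1
  have h2 := (hC.bd x).W_ne
  rwa [div_left_inj' h2] at h1

/-- closedness tested with `ζ • α`. -/
theorem test_smul {s : Measure E4} [IsFiniteMeasure s] {φ₁ : E4 → Bil} (hm : Measurable φ₁)
    {B : ℝ} (hB : ∀ y, ‖φ₁ y‖ ≤ B) {U : Set E4}
    (hcl : ∀ S : E4 → Cov, ContDiff ℝ ∞ S → HasCompactSupport S → tsupport S ⊆ U →
      ∫ y, W (φ₁ y) (d1 S y) ∂s = 0)
    {f : E4 → ℝ} {α : E4 → Cov} (hf : ContDiff ℝ ∞ f) (hα : ContDiff ℝ ∞ α)
    (hc : HasCompactSupport fun y => f y • α y) (hs : tsupport (fun y => f y • α y) ⊆ U)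
    (hc1 : HasCompactSupport fun y => f y • d1 α y) :
    ∫ y, f y * W (φ₁ y) (d1 α y) ∂s = - ∫ y, W (φ₁ y) (wed (fderiv ℝ f y) (α y)) ∂s := by
  have hfα : ContDiff ℝ ∞ fun y => f y • α y := hf.smul hα
  have h0 := hcl _ hfα hc hs
  have hd : ∀ y, d1 (fun z => f z • α z) y = wed (fderiv ℝ f y) (α y) + f y • d1 α y := fun y =>
    d1_smul (hf.differentiable (by simp) y) (hα.differentiable (by simp) y)
  have hbd : ∀ {b : E4 → Bil}, Continuous b → HasCompactSupport b →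
      Integrable (fun y => W (φ₁ y) (b y)) s := by
    intro b hb hbc
    obtain ⟨K, hK⟩ := hbc.exists_bound_of_continuous hb
    refine Integrable.of_bound (C := 6 * (B * K)) (measurable_W hm hb.measurable).aestronglyMeasurable
      (ae_of_all _ fun y => ?_)
    rw [Real.norm_eq_abs]
    refine (Loc5.abs_W_le _ _).trans ?_
    have h1 := hB y
    have h2 := hK y
    have h3 : 0 ≤ B := (norm_nonneg _).trans h1
    gcongr
  have i2 : Integrable (fun y => W (φ₁ y) (f y • d1 α y)) s :=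
    hbd (hf.continuous.smul (contDiff_d1 hα).continuous) hc1
  have i0 : Integrable (fun y => W (φ₁ y) (d1 (fun z => f z • α z) y)) s :=
    hbd (contDiff_d1 hfα).continuous
      (hc.of_isClosed_subset (isClosed_tsupport _) (tsupport_d1 _))
  have h3 : ∀ y, W (φ₁ y) (wed (fderiv ℝ f y) (α y)) =
      W (φ₁ y) (d1 (fun z => f z • α z) y) - W (φ₁ y) (f y • d1 α y) := by
    intro y
    rw [hd, W_add_right]
    ring
  simp_rw [h3]
  rw [integral_sub i0 i2, h0, zero_sub, neg_neg]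
  refine integral_congr_ae (ae_of_all _ fun y => ?_)
  simp only
  rw [W_smul_right]

/-- integrability of the pairing with a compactly supported continuous form. -/
theorem integrable_pair {s : Measure E4} [IsFiniteMeasure s] {φ₁ : E4 → Bil} (hm : Measurable φ₁)
    {B : ℝ} (hB : ∀ y, ‖φ₁ y‖ ≤ B) {b : E4 → Bil} (hb : Continuous b) (hbc : HasCompactSupport b) :
    Integrable (fun y => W (φ₁ y) (b y)) s := by
  obtain ⟨K, hK⟩ := hbc.exists_bound_of_continuous hb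
  refine Integrable.of_bound (C := 6 * (B * K)) (measurable_W hm hb.measurable).aestronglyMeasurable
    (ae_of_all _ fun y => ?_)
  rw [Real.norm_eq_abs]
  refine (Loc5.abs_W_le _ _).trans ?_
  have h1 := hB y
  have h2 := hK y
  have h3 : 0 ≤ B := (norm_nonneg _).trans h1
  gcongr

theorem fderiv_zero_off {ζ : E4 → ℝ} {x : E4} (hx : x ∉ tsupport ζ) : fderiv ℝ ζ x = 0 := by
  have h1 : ζ =ᶠ[𝓝 x] fun _ => 0 := notMem_tsupport_iff_eventuallyEq.mp hx
  rw [h1.fderiv_eq]; simp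

/-- `Jc dζ`. -/
def gam (J : E4 → E4 →L[ℝ] E4) (ζ : E4 → ℝ) (x : E4) : Cov := Jc (J x) (fderiv ℝ ζ x)

theorem gam_smooth (hJ : ContDiff ℝ ∞ J) {ζ : E4 → ℝ} (hζ : ContDiff ℝ ∞ ζ) :
    ContDiff ℝ ∞ (gam J ζ) := contDiff_Jc' hJ (hζ.fderiv_right (m := ∞) le_rfl)

theorem gam_supp {ζ : E4 → ℝ} : tsupport (gam J ζ) ⊆ tsupport ζ :=
  closure_minimal (fun x hx => by
    by_contra h
    refine hx ?_
    show Jc (J x) (fderiv ℝ ζ x) = 0
    rw [fderiv_zero_off h]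
    ext v; simp) (isClosed_tsupport ζ)

/-- term 1: closedness tested with `ζ • α`, `ζ` compactly supported. -/
theorem test_cut {s : Measure E4} [IsFiniteMeasure s] {φ₁ : E4 → Bil} (hm : Measurable φ₁)
    {B : ℝ} (hB : ∀ y, ‖φ₁ y‖ ≤ B) {U : Set E4}
    (hcl : ∀ S : E4 → Cov, ContDiff ℝ ∞ S → HasCompactSupport S → tsupport S ⊆ U →
      ∫ y, W (φ₁ y) (d1 S y) ∂s = 0)
    {ζ : E4 → ℝ} {α : E4 → Cov} (hζ : ContDiff ℝ ∞ ζ) (hζc : HasCompactSupport ζ)
    (hζR : tsupport ζ ⊆ U) (hα : ContDiff ℝ ∞ α) :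
    ∫ y, ζ y * W (φ₁ y) (d1 α y) ∂s = - ∫ y, W (φ₁ y) (wed (fderiv ℝ ζ y) (α y)) ∂s := by
  have h1 : HasCompactSupport fun y => ζ y • α y := hζc.smul_right
  have h2 : tsupport (fun y => ζ y • α y) ⊆ U := (tsupport_smul_subset_left ζ α).trans hζR
  have h3 : HasCompactSupport fun y => ζ y • d1 α y := hζc.smul_right
  exact test_smul hm hB hcl hζ hα h1 h2 h3

/-- term 2: closedness tested with `u • α`, `α` compactly supported. -/
theorem test_cut' {s : Measure E4} [IsFiniteMeasure s] {φ₁ : E4 → Bil} (hm : Measurable φ₁)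
    {B : ℝ} (hB : ∀ y, ‖φ₁ y‖ ≤ B) {U : Set E4}
    (hcl : ∀ S : E4 → Cov, ContDiff ℝ ∞ S → HasCompactSupport S → tsupport S ⊆ U →
      ∫ y, W (φ₁ y) (d1 S y) ∂s = 0)
    {u : E4 → ℝ} {α : E4 → Cov} (hu : ContDiff ℝ ∞ u) (hα : ContDiff ℝ ∞ α)
    (hc : HasCompactSupport α) (hs : tsupport α ⊆ U) :
    ∫ y, u y * W (φ₁ y) (d1 α y) ∂s = - ∫ y, W (φ₁ y) (wed (fderiv ℝ u y) (α y)) ∂s := by
  have h1 : HasCompactSupport fun y => u y • α y :=
    hc.of_isClosed_subset (isClosed_tsupport _) (tsupport_smul_subset_right u α)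
  have h2 : tsupport (fun y => u y • α y) ⊆ U := (tsupport_smul_subset_right u α).trans hs
  have hd : HasCompactSupport (d1 α) := hc.of_isClosed_subset (isClosed_tsupport _) (tsupport_d1 _)
  have h3 : HasCompactSupport fun y => u y • d1 α y :=
    hd.of_isClosed_subset (isClosed_tsupport _) (tsupport_smul_subset_right u (d1 α))
  exact test_smul hm hB hcl hu hα h1 h2 h3

theorem integrable_cut {s : Measure E4} [IsFiniteMeasure s] {φ₁ : E4 → Bil} (hm : Measurable φ₁)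
    {B : ℝ} (hB : ∀ y, ‖φ₁ y‖ ≤ B) {ζ : E4 → ℝ} {α : E4 → Cov} (hζ : ContDiff ℝ ∞ ζ)
    (hζc : HasCompactSupport ζ) (hα : ContDiff ℝ ∞ α) :
    Integrable (fun y => ζ y * W (φ₁ y) (d1 α y)) s := by
  have h3 : HasCompactSupport fun y => ζ y • d1 α y := hζc.smul_right
  have h4 : Continuous fun y => ζ y • d1 α y := hζ.continuous.smul (contDiff_d1 hα).continuous
  have h := integrable_pair (s := s) hm hB h4 h3
  have h5 : (fun y => ζ y * W (φ₁ y) (d1 α y)) = fun y => W (φ₁ y) (ζ y • d1 α y) := by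
    funext y
    rw [W_smul_right]
  rw [h5]
  exact h

/-- the identity `∫ ζ W(φ, d(Jc du) + da) = ∫ u W(φ, d Jc dζ) - ∫ W(φ, dζ ∧ a)`. -/
theorem energy_id (hJ : ContDiff ℝ ∞ J) (hC : Cst J F m M L LJ w0 c0 σ)
    {s : Measure E4} [IsFiniteMeasure s] {φ₁ : E4 → Bil} (hm : Measurable φ₁)
    {B : ℝ} (hB : ∀ y, ‖φ₁ y‖ ≤ B) (pφ : ∀ y, Pos (J y) (φ₁ y)) {U : Set E4}
    (hcl : ∀ S : E4 → Cov, ContDiff ℝ ∞ S → HasCompactSupport S → tsupport S ⊆ U →
      ∫ y, W (φ₁ y) (d1 S y) ∂s = 0) {ζ : E4 → ℝ}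
    (hζ : ContDiff ℝ ∞ ζ) (hζc : HasCompactSupport ζ) (hζR : tsupport ζ ⊆ U)
    {u : E4 → ℝ} {a : E4 → Cov} (hu : ContDiff ℝ ∞ u) (ha : ContDiff ℝ ∞ a) :
    ∫ x, ζ x * W (φ₁ x) (d1 (gam J u) x + d1 a x) ∂s =
      ∫ y, u y * W (φ₁ y) (d1 (gam J ζ) y) ∂s - ∫ y, W (φ₁ y) (wed (fderiv ℝ ζ y) (a y)) ∂s := by
  have hγs : ContDiff ℝ ∞ (gam J ζ) := gam_smooth hJ hζ
  have hβs : ContDiff ℝ ∞ (gam J u) := gam_smooth hJ hu
  have hγc : HasCompactSupport (gam J ζ) := hζc.of_isClosed_subset (isClosed_tsupport _) gam_supp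
  have t1 := test_cut hm hB hcl hζ hζc hζR hβs
  have t2 := test_cut hm hB hcl hζ hζc hζR ha
  have t3 := test_cut' hm hB hcl hu hγs hγc (gam_supp.trans hζR)
  have hβγ : ∀ y, W (φ₁ y) (wed (fderiv ℝ ζ y) (gam J u y)) =
      W (φ₁ y) (wed (fderiv ℝ u y) (gam J ζ y)) := fun y => W_wedJ_symm hC (pφ y) _ _
  have t4 : ∫ y, W (φ₁ y) (wed (fderiv ℝ ζ y) (gam J u y)) ∂s =
      ∫ y, W (φ₁ y) (wed (fderiv ℝ u y) (gam J ζ y)) ∂s :=
    integral_congr_ae (ae_of_all _ hβγ)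
  have i1 := integrable_cut (s := s) hm hB hζ hζc hβs
  have i2 := integrable_cut (s := s) hm hB hζ hζc ha
  have h1 : ∫ x, ζ x * W (φ₁ x) (d1 (gam J u) x + d1 a x) ∂s =
      ∫ x, (ζ x * W (φ₁ x) (d1 (gam J u) x) + ζ x * W (φ₁ x) (d1 a x)) ∂s := by
    refine integral_congr_ae (ae_of_all _ fun x => ?_)
    show ζ x * W (φ₁ x) (d1 (gam J u) x + d1 a x) =
      ζ x * W (φ₁ x) (d1 (gam J u) x) + ζ x * W (φ₁ x) (d1 a x)
    rw [W_add_right, mul_add]
  rw [h1, integral_add i1 i2, t1, t2, t3, t4, ← sub_eq_add_neg]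

/-- bound of an integral over the support. -/
theorem integral_bound {s : Measure E4} [IsFiniteMeasure s] {f : E4 → ℝ} {K : ℝ}
    (h : ∀ x, |f x| ≤ K) : |∫ x, f x ∂s| ≤ K * s.real univ := by
  have h1 : ‖∫ x, f x ∂s‖ ≤ K * s.real univ :=
    norm_integral_le_of_norm_le_const (ae_of_all _ fun x => by rw [Real.norm_eq_abs]; exact h x)
  rwa [Real.norm_eq_abs] at h1

/-- **the energy bound**: the current against its mollification is `O(log(1/e))`. -/
theorem energy (hBg : Bg J F) (hC : Cst J F m M L LJ w0 c0 σ) {x0 : E4} {R : ℝ} (hR : 0 < R)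
    {s : Measure E4} [IsFiniteMeasure s] {Cg : ℝ} (hCg : 0 ≤ Cg)
    (hgr : ∀ y r, 0 < r → s (ball y r) ≤ ENNReal.ofReal (Cg * r ^ 2)) (hd : Dens J F φ)
    (hcl : ClosedIn F s φ (ball x0 (2 * R))) {ρ : E4 → ℝ} (hρ : Moll ρ) {ζ : E4 → ℝ}
    (hζ : ContDiff ℝ ∞ ζ) (hζc : HasCompactSupport ζ) (hζR : tsupport ζ ⊆ ball x0 R) :
    ∃ C e0 : ℝ, 0 ≤ C ∧ 0 < e0 ∧ e0 ≤ 1 / 2 ∧ ∀ e, 0 < e → e ≤ e0 →
      |∫ x, ζ x * W (ph1 σ F φ x) (Ph s (ph1 σ F φ) (Pot.rhoE ρ e) x) ∂s| ≤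
        C * Real.log (1 / e) := by
  have hM : 0 < M := (hC.bd 0).M_pos
  have hc0 := hC.c0pos
  have hRR : ball x0 R ⊆ ball x0 (2 * R) := ball_subset_ball (by linarith)
  have hR2 : 2 * R / 2 = R := by ring
  have mφ : Measurable (ph1 σ F φ) := ph1_meas hBg hd
  have bφ := ph1_bound hC hd
  have pφ := ph1_pos hC hd
  have hcl' : ∀ S : E4 → Cov, ContDiff ℝ ∞ S → HasCompactSupport S →
      tsupport S ⊆ ball x0 (2 * R) → ∫ y, W (ph1 σ F φ y) (d1 S y) ∂s = 0 :=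
    fun S hS hSc hSU => ph1_closed hC hcl S hS hSc hSU
  obtain ⟨C1, e1, hC1, he1, hPe⟩ := Pot.p4 J F hBg.smJ hBg.smF hBg.sq hBg.pos x0 (2 * R)
    (by positivity) s inferInstance _ mφ _ 1 bφ one_pos pφ (ph1_tr hC hd)
    hcl' ρ hρ.sm hρ.nn hρ.supp hρ.int
  rw [hR2] at hPe
  generalize ph1 σ F φ = φ₁ at mφ bφ pφ hcl' hPe ⊢
  obtain ⟨B1, hB1, bφ'⟩ : ∃ B1 : ℝ, 0 ≤ B1 ∧ ∀ y, ‖φ₁ y‖ ≤ B1 :=
    ⟨c0⁻¹ * (2 * M), by positivity, bφ⟩
  clear bφ
  obtain ⟨C2, hC2, hlog⟩ := wE_log s hCg hgr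
  have hsr : 0 ≤ s.real univ := measureReal_nonneg
  obtain ⟨K1, hK1, hK1'⟩ : ∃ K1 : ℝ, 0 ≤ K1 ∧ ∀ x, ‖d1 (gam J ζ) x‖ ≤ K1 := by
    have hdγc : HasCompactSupport (d1 (gam J ζ)) :=
      (hζc.of_isClosed_subset (isClosed_tsupport _) gam_supp).of_isClosed_subset
        (isClosed_tsupport _) (tsupport_d1 _)
    obtain ⟨K1, hK1⟩ :=
      hdγc.exists_bound_of_continuous (contDiff_d1 (gam_smooth hBg.smJ hζ)).continuous
    exact ⟨K1, (norm_nonneg _).trans (hK1 0), hK1⟩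
  obtain ⟨K2, hK2, hK2'⟩ : ∃ K2 : ℝ, 0 ≤ K2 ∧ ∀ x, ‖fderiv ℝ ζ x‖ ≤ K2 := by
    have hdζc : HasCompactSupport (fderiv ℝ ζ) := hζc.fderiv (𝕜 := ℝ)
    obtain ⟨K2, hK2⟩ := hdζc.exists_bound_of_continuous
      (hζ.fderiv_right (m := ∞) le_rfl).continuous
    exact ⟨K2, (norm_nonneg _).trans (hK2 0), hK2⟩
  refine ⟨s.real univ * (12 * B1 * K1 * C1 * C2) + s.real univ * (12 * B1 * K2 * C1 * C2),
    min e1 (1 / 2), by positivity, lt_min he1 (by norm_num), min_le_right _ _,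
    fun e he hee => ?_⟩
  have hee1 : e ≤ e1 := hee.trans (min_le_left _ _)
  have hee2 : e ≤ 1 / 2 := hee.trans (min_le_right _ _)
  obtain ⟨u, a, hu, ha, hua⟩ := hPe e he hee1
  have hlg : 0 ≤ Real.log (1 / e) := Real.log_nonneg (by rw [le_div_iff₀ he]; linarith)
  have hwl : ∀ x, 1 + Pot.wE s x0 (2 * R) e 2 x ≤ C2 * Real.log (1 / e) := fun x =>
    hlog x0 (2 * R) e x he hee2
  have hw0 : ∀ x, 0 ≤ Pot.wE s x0 (2 * R) e 2 x := fun x => wE_nonneg s x0 (2 * R) he 2 x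
  obtain ⟨ℓ, hℓ, hℓ0⟩ : ∃ ℓ : ℝ, ℓ = C1 * (C2 * Real.log (1 / e)) ∧ 0 ≤ ℓ :=
    ⟨_, rfl, by positivity⟩
  have hub : ∀ x ∈ ball x0 R, |u x| ≤ 2 * ℓ := by
    intro x hx
    have h1 := hua x hx
    have h2 := hwl x
    have h3 := hw0 x
    have h4 : 0 ≤ Pot.wE s x0 (2 * R) e 2 x / C1 := by positivity
    have h5 : C1 * (1 + Pot.wE s x0 (2 * R) e 2 x) ≤ ℓ := by
      rw [hℓ]
      gcongr
    have h6 : C1 ≤ C1 * (1 + Pot.wE s x0 (2 * R) e 2 x) := le_mul_of_one_le_right hC1.le (by linarith)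
    rw [abs_le]
    constructor <;> linarith [h1.2.1, h1.2.2.1]
  have hab : ∀ x ∈ ball x0 R, ‖a x‖ ≤ ℓ := by
    intro x hx
    refine (hua x hx).2.2.2.1.trans ?_
    have := hwl x
    rw [hℓ]
    gcongr
  have hmain : ∫ x, ζ x * W (φ₁ x) (Ph s φ₁ (Pot.rhoE ρ e) x) ∂s =
      ∫ x, ζ x * W (φ₁ x) (d1 (gam J u) x + d1 a x) ∂s := by
    refine integral_congr_ae (ae_of_all _ fun x => ?_)
    simp only
    by_cases hx : x ∈ tsupport ζ
    · have h2 : Ph s φ₁ (Pot.rhoE ρ e) x = d1 (gam J u) x + d1 a x := (hua x (hζR hx)).1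
      rw [h2]
    · rw [image_eq_zero_of_notMem_tsupport hx, zero_mul, zero_mul]
  rw [hmain, energy_id hBg.smJ hC mφ bφ' pφ hcl' hζ hζc (hζR.trans hRR) hu ha]
  have b1 : |∫ y, u y * W (φ₁ y) (d1 (gam J ζ) y) ∂s| ≤
      2 * ℓ * (6 * (B1 * K1)) * s.real univ := by
    refine integral_bound fun y => ?_
    by_cases hy : y ∈ tsupport ζ
    · rw [abs_mul]
      have h1 := hub y (hζR hy)
      have h2 := Loc5.abs_W_le (φ₁ y) (d1 (gam J ζ) y)
      have h3 := bφ' y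
      have h4 := hK1' y
      have h5 : 6 * (‖φ₁ y‖ * ‖d1 (gam J ζ) y‖) ≤ 6 * (B1 * K1) := by gcongr
      exact mul_le_mul h1 (h2.trans h5) (abs_nonneg _) (by positivity)
    · have h1 : d1 (gam J ζ) y = 0 := d1_zero_off fun h => hy (gam_supp h)
      rw [h1, W_zero_right, mul_zero, abs_zero]
      positivity
  have b2 : |∫ y, W (φ₁ y) (wed (fderiv ℝ ζ y) (a y)) ∂s| ≤
      6 * (B1 * (2 * K2 * ℓ)) * s.real univ := by
    refine integral_bound fun y => ?_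
    by_cases hy : y ∈ tsupport ζ
    · refine (Loc5.abs_W_le _ _).trans ?_
      have h1 := hab y (hζR hy)
      have h2 := norm_wed_le (fderiv ℝ ζ y) (a y)
      have h3 := bφ' y
      have h4 := hK2' y
      have h5 : 2 * ‖fderiv ℝ ζ y‖ * ‖a y‖ ≤ 2 * K2 * ℓ := by gcongr
      have h6 := h2.trans h5
      gcongr
    · rw [fderiv_zero_off hy, wed_zero_left, W_zero_right, abs_zero]
      positivity
  refine (abs_sub _ _).trans ((add_le_add b1 b2).trans (le_of_eq ?_))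
  rw [hℓ]
  ring

end main

end

end Crest.Agent.R235.QLog_195
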