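import Mathlib
import Crest.Agent.R235.QLog_195

/-!
Row 235 (S0364), helper195: (Q') for a closed positive current in a ball of `E4` (`LC.qq` of
`CurDefs_132`), from the energy bound of `QLog_195`.
-/

set_option autoImplicit false
set_option maxSynthPendingDepth 3

open MeasureTheory Metric Set Filter Topology
open scoped ContDiff ENNReal

namespace Crest.Agent.R235.QLog_195

open Crest.Agent.R240 Crest.Agent.R240.En Crest.Agent.R240.Loc5

noncomputable section

section main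

variable {J : E4 → E4 →L[ℝ] E4} {F : E4 → Bil} {φ : E4 → Bil} {m M L LJ w0 c0 σ : ℝ}

/-- the constant of the lower bound. -/
def cA (m M L LJ c0 : ℝ) : ℝ := L ^ 2 * LJ * (c0⁻¹ * (2 * M)) / m

theorem LJ_nonneg (hC : Cst J F m M L LJ w0 c0 σ) : 0 ≤ LJ := (norm_nonneg _).trans (hC.nJ 0)

theorem w0_nonneg (hC : Cst J F m M L LJ w0 c0 σ) : 0 ≤ w0 :=
  hC.c0pos.le.trans ((hC.lo 0).trans (hC.hi 0))

theorem cA_nonneg (hC : Cst J F m M L LJ w0 c0 σ) : 0 ≤ cA m M L LJ c0 := by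
  have h1 := LJ_nonneg hC
  have h2 := (hC.bd 0).m_pos
  have h3 := (hC.bd 0).M_pos
  have h4 := hC.c0pos
  unfold cA
  positivity

/-- `g(x,y) = q_x(φ_x, φ₁_y) + A |x-y|²`. -/
def gg (A σ : ℝ) (F φ : E4 → Bil) (x y : E4) : ℝ :=
  q (F x) (φ x) (ph1 σ F φ y) + A * ‖x - y‖ ^ 2

theorem gg_nonneg (hC : Cst J F m M L LJ w0 c0 σ) (hd : Dens J F φ) (x y : E4) :
    0 ≤ gg (cA m M L LJ c0) σ F φ x y := by
  have h1 := q_near (hC.bd x) (hC.bd y).sq (hd.pos x) (ph1_pos hC hd y)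
  rw [hd.nrm x, mul_one] at h1
  have hm := (hC.bd x).m_pos
  have h2 : ‖J x - J y‖ ^ 2 ≤ L ^ 2 * ‖x - y‖ ^ 2 := by
    rw [← mul_pow]
    exact pow_le_pow_left₀ (norm_nonneg _) (hC.lip x y) 2
  have h3 : ‖J x - J y‖ ^ 2 * ‖J y‖ * ‖ph1 σ F φ y‖ / m ≤ cA m M L LJ c0 * ‖x - y‖ ^ 2 := by
    unfold cA
    rw [div_mul_eq_mul_div]
    refine div_le_div_of_nonneg_right ?_ hm.le
    have h4 := hC.nJ y
    have h5 := ph1_bound hC hd y
    have h6 := LJ_nonneg hC
    calc ‖J x - J y‖ ^ 2 * ‖J y‖ * ‖ph1 σ F φ y‖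
        ≤ (L ^ 2 * ‖x - y‖ ^ 2) * LJ * (c0⁻¹ * (2 * M)) := by gcongr
      _ = _ := by ring
  unfold gg
  linarith

theorem q_ph1 (hC : Cst J F m M L LJ w0 c0 σ) (x : E4) (c : Bil) :
    q (F x) (φ x) c = σ * W (ph1 σ F φ x) c := by
  rw [W_ph1 hC.sg, ← mul_assoc, sigma_sq hC.sg, one_mul]

theorem q_q1 (hC : Cst J F m M L LJ w0 c0 σ) (x y : E4) :
    q (F x) (φ x) (φ y) = σ * W (F y) (F y) * q (F x) (φ x) (ph1 σ F φ y) := by
  have h1 : σ * W (F y) (F y) ≠ 0 := (hC.c0pos.trans_le (hC.lo y)).ne'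
  unfold ph1
  rw [q_smul_right, ← mul_assoc, mul_inv_cancel₀ h1, one_mul]

theorem abs_q_le_gg (hC : Cst J F m M L LJ w0 c0 σ) (hd : Dens J F φ) (x y : E4) :
    |q (F x) (φ x) (φ y)| ≤ w0 * (gg (cA m M L LJ c0) σ F φ x y +
      cA m M L LJ c0 * ‖x - y‖ ^ 2) := by
  have hA := cA_nonneg hC
  have h0 := gg_nonneg hC hd x y
  have h1 : 0 ≤ σ * W (F y) (F y) := hC.c0pos.le.trans (hC.lo y)
  rw [q_q1 hC, abs_mul, abs_of_nonneg h1]
  have h2 : 0 ≤ cA m M L LJ c0 * ‖x - y‖ ^ 2 := by positivity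
  have h3 : |q (F x) (φ x) (ph1 σ F φ y)| ≤ gg (cA m M L LJ c0) σ F φ x y +
      cA m M L LJ c0 * ‖x - y‖ ^ 2 := by
    have h4 : q (F x) (φ x) (ph1 σ F φ y) = gg (cA m M L LJ c0) σ F φ x y -
      cA m M L LJ c0 * ‖x - y‖ ^ 2 := by unfold gg; ring
    rw [h4, abs_le]
    constructor <;> linarith
  exact mul_le_mul (hC.hi y) h3 (abs_nonneg _) (w0_nonneg hC)

theorem abs_q_bound (hC : Cst J F m M L LJ w0 c0 σ) (hd : Dens J F φ) (x y : E4) :
    |q (F x) (φ x) (φ y)| ≤ w0 * (6 * ((c0⁻¹ * (2 * M)) * (c0⁻¹ * (2 * M)))) := by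
  have h1 : 0 ≤ σ * W (F y) (F y) := hC.c0pos.le.trans (hC.lo y)
  rw [q_q1 hC, abs_mul, abs_of_nonneg h1, q_ph1 hC, abs_mul]
  have h2 : |σ| = 1 := by
    rcases hC.sg with h | h <;> rw [h] <;> norm_num
  rw [h2, one_mul]
  have h3 := Loc5.abs_W_le (ph1 σ F φ x) (ph1 σ F φ y)
  have h4 := ph1_bound hC hd x
  have h5 := ph1_bound hC hd y
  have h6 : 6 * (‖ph1 σ F φ x‖ * ‖ph1 σ F φ y‖) ≤ 6 * ((c0⁻¹ * (2 * M)) * (c0⁻¹ * (2 * M))) := by
    have h7 : 0 ≤ c0⁻¹ * (2 * M) := (norm_nonneg _).trans h4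
    gcongr
  exact mul_le_mul (hC.hi y) (h3.trans h6) (abs_nonneg _) (w0_nonneg hC)

theorem gg_meas (hB : Bg J F) (hd : Dens J F φ) (A : ℝ) (x : E4) :
    Measurable fun y => gg A σ F φ x y := by
  unfold gg q
  have h1 : Measurable fun y => W (φ x) (ph1 σ F φ y) :=
    measurable_W measurable_const (ph1_meas hB hd)
  have h2 : Measurable fun y : E4 => A * ‖x - y‖ ^ 2 := by fun_prop
  exact (h1.div_const _).add h2

theorem q_meas (hd : Dens J F φ) (x : E4) :
    Measurable fun y => |q (F x) (φ x) (φ y)| := by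
  unfold q
  have h1 : Measurable fun y => W (φ x) (φ y) := measurable_W measurable_const hd.meas
  exact (h1.div_const _).abs

/-- measurability of the mollification. -/
theorem Ph_meas {s : Measure E4} [IsFiniteMeasure s] {φ₁ : E4 → Bil} (hφ : Measurable φ₁) {e : ℝ}
    {k : E4 → ℝ} (hk : Ker e k) : Measurable (Ph s φ₁ k) := by
  have h1 : Measurable fun z : E4 × E4 => k (z.1 - z.2) • φ₁ z.2 :=
    (hk.cont.measurable.comp (measurable_fst.sub measurable_snd)).smul (hφ.comp measurable_snd)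
  have h2 : StronglyMeasurable (Function.uncurry fun (x : E4) (y : E4) => k (x - y) • φ₁ y) :=
    h1.stronglyMeasurable
  exact (h2.integral_prod_right (ν := s)).measurable

/-- the mollifier against `g(x, ·)`. -/
theorem moll_gg (hB : Bg J F) (hC : Cst J F m M L LJ w0 c0 σ) (hd : Dens J F φ)
    {s : Measure E4} [IsFiniteMeasure s] {Cg : ℝ} (hCg : 0 ≤ Cg)
    (hgr : ∀ y r, 0 < r → s (ball y r) ≤ ENNReal.ofReal (Cg * r ^ 2))
    {ρ : E4 → ℝ} (hρ : Moll ρ) {κ : ℝ} (hκ : 0 < κ) (hκ' : ∀ z, ‖z‖ ≤ 1 / 2 → κ ≤ ρ z)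
    {B : ℝ} (hB0 : 0 ≤ B) (hBρ : ∀ e, 0 < e → ∀ z, Pot.rhoE ρ e z ≤ B * (e ^ 4)⁻¹)
    {e : ℝ} (he : 0 < e) (x : E4) :
    κ * (e ^ 4)⁻¹ * ∫ y in ball x (e / 2), gg (cA m M L LJ c0) σ F φ x y ∂s ≤
      σ * W (ph1 σ F φ x) (Ph s (ph1 σ F φ) (Pot.rhoE ρ e) x) + cA m M L LJ c0 * (B * Cg) := by
  have hk := hρ.ker he
  set A := cA m M L LJ c0 with hA
  have hA0 : 0 ≤ A := cA_nonneg hC
  have mφ : Measurable (ph1 σ F φ) := ph1_meas hB hd
  have bφ := ph1_bound hC hd
  set k := Pot.rhoE ρ e with hk'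
  -- integrability
  have ig1 : Integrable (fun y => k (x - y) * (σ * W (ph1 σ F φ x) (ph1 σ F φ y))) s := by
    refine Integrable.of_bound (C := B * (e ^ 4)⁻¹ * (6 * ((c0⁻¹ * (2 * M)) * (c0⁻¹ * (2 * M)))))
      ?_ (ae_of_all _ fun y => ?_)
    · have h1 : Measurable fun y => k (x - y) := hk.cont.measurable.comp (by fun_prop)
      have h2 : Measurable fun y => W (ph1 σ F φ x) (ph1 σ F φ y) :=
        measurable_W measurable_const mφ
      exact (h1.mul (h2.const_mul σ)).aestronglyMeasurable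
    · rw [Real.norm_eq_abs, abs_mul, abs_of_nonneg (hk.nonneg _), abs_mul]
      have h2 : |σ| = 1 := by rcases hC.sg with h | h <;> rw [h] <;> norm_num
      rw [h2, one_mul]
      have h3 := Loc5.abs_W_le (ph1 σ F φ x) (ph1 σ F φ y)
      have h4 := bφ x
      have h5 := bφ y
      have h6 : 6 * (‖ph1 σ F φ x‖ * ‖ph1 σ F φ y‖) ≤
          6 * ((c0⁻¹ * (2 * M)) * (c0⁻¹ * (2 * M))) := by
        have h7 : 0 ≤ c0⁻¹ * (2 * M) := (norm_nonneg _).trans h4
        gcongr
      exact mul_le_mul (hBρ e he _) (h3.trans h6) (abs_nonneg _) (by positivity)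
  have hkd : ∀ y, k (x - y) * (A * ‖x - y‖ ^ 2) ≤ A * e ^ 2 * k (x - y) := by
    intro y
    by_cases hy : ‖x - y‖ < e
    · have h1 : ‖x - y‖ ^ 2 ≤ e ^ 2 := pow_le_pow_left₀ (norm_nonneg _) hy.le 2
      have h2 := hk.nonneg (x - y)
      calc k (x - y) * (A * ‖x - y‖ ^ 2) ≤ k (x - y) * (A * e ^ 2) := by gcongr
        _ = _ := by ring
    · rw [hk.supp _ (not_lt.1 hy)]
      simp
  have ik := integrable_k (s := s) hk x
  have ig2 : Integrable (fun y => k (x - y) * (A * ‖x - y‖ ^ 2)) s := by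
    refine (ik.const_mul (A * e ^ 2)).mono' ?_ (ae_of_all _ fun y => ?_)
    · have h1 : Measurable fun y => k (x - y) := hk.cont.measurable.comp (by fun_prop)
      have h2 : Measurable fun y : E4 => A * ‖x - y‖ ^ 2 := by fun_prop
      exact (h1.mul h2).aestronglyMeasurable
    · have h2 := hk.nonneg (x - y)
      rw [Real.norm_of_nonneg (by positivity)]
      exact hkd y
  have hpt : ∀ y, k (x - y) * gg A σ F φ x y =
      k (x - y) * (σ * W (ph1 σ F φ x) (ph1 σ F φ y)) + k (x - y) * (A * ‖x - y‖ ^ 2) := by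
    intro y
    unfold gg
    rw [q_ph1 hC]
    ring
  have igg : Integrable (fun y => k (x - y) * gg A σ F φ x y) s := by
    simp_rw [hpt]
    exact ig1.add ig2
  -- the left side
  have h1 : κ * (e ^ 4)⁻¹ * ∫ y in ball x (e / 2), gg A σ F φ x y ∂s ≤
      ∫ y, k (x - y) * gg A σ F φ x y ∂s := by
    rw [← integral_const_mul]
    refine le_trans ?_ (setIntegral_le_integral (s := ball x (e / 2)) igg (ae_of_all _ fun y => ?_))
    · refine integral_mono_of_nonneg (ae_of_all _ fun y => ?_) igg.integrableOn ?_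
      · have := gg_nonneg hC hd x y
        show 0 ≤ κ * (e ^ 4)⁻¹ * gg A σ F φ x y
        positivity
      · refine (ae_restrict_iff' measurableSet_ball).2 (ae_of_all _ fun y hy => ?_)
        refine mul_le_mul_of_nonneg_right ?_ (gg_nonneg hC hd x y)
        rw [hk']
        unfold Pot.rhoE
        rw [mul_comm κ]
        refine mul_le_mul_of_nonneg_left (hκ' _ ?_) (by positivity)
        rw [mem_ball, dist_comm, dist_eq_norm] at hy
        rw [norm_smul, Real.norm_of_nonneg (by positivity), inv_mul_eq_div, div_le_iff₀ he]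
        linarith
    · exact mul_nonneg (hk.nonneg _) (gg_nonneg hC hd x y)
  refine h1.trans ?_
  simp_rw [hpt]
  rw [integral_add ig1 ig2]
  have h2 : ∫ y, k (x - y) * (σ * W (ph1 σ F φ x) (ph1 σ F φ y)) ∂s =
      σ * W (ph1 σ F φ x) (Ph s (ph1 σ F φ) k x) := by
    rw [W_comm, W_Ph mφ bφ hk, ← integral_const_mul]
    refine integral_congr_ae (ae_of_all _ fun y => ?_)
    show k (x - y) * (σ * W (ph1 σ F φ x) (ph1 σ F φ y)) =
      σ * (k (x - y) * W (ph1 σ F φ y) (ph1 σ F φ x))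
    rw [W_comm (ph1 σ F φ x)]
    ring
  have h3 : ∫ y, k (x - y) * (A * ‖x - y‖ ^ 2) ∂s ≤ A * (B * Cg) := by
    refine (integral_mono ig2 (ik.const_mul (A * e ^ 2)) hkd).trans ?_
    rw [integral_const_mul]
    have h4 := pe_le (s := s) (B := 1) zero_le_one hk he (hBρ e he) hB0 hCg hgr x
    unfold pe at h4
    rw [one_mul, one_mul] at h4
    calc A * e ^ 2 * ∫ y, k (x - y) ∂s = A * (e ^ 2 * ∫ y, k (x - y) ∂s) := by ring
      _ ≤ A * (B * Cg) := by gcongr
  rw [h2]
  linarith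

set_option maxHeartbeats 1000000 in
/-- **(Q') on a ball**, closedness on `ball x0 (2R)`, estimate on a compact subset of `ball x0 R`. -/
theorem qq_ball (hB : Bg J F) (hC : Cst J F m M L LJ w0 c0 σ) (hd : Dens J F φ)
    {s : Measure E4} [IsFiniteMeasure s] {Cg : ℝ} (hCg : 0 ≤ Cg)
    (hgr : ∀ y r, 0 < r → s (ball y r) ≤ ENNReal.ofReal (Cg * r ^ 2)) {x0 : E4} {R : ℝ}
    (hR : 0 < R) (hcl : ClosedIn F s φ (ball x0 (2 * R))) {K : Set E4} (hK : IsClosed K)
    (hKR : K ⊆ ball x0 R) :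
    ∃ Q : ℝ, 0 ≤ Q ∧ ∀ r, 0 < r → r ≤ 1 →
      ∫ x in K, ∫ y in ball x r, |q (F x) (φ x) (φ y)| ∂s ∂s ≤
        Q * (r ^ 4 * (1 + |Real.log r|)) := by
  obtain ⟨ρ, κ, hρ, hκ, hκ'⟩ := exists_moll'
  obtain ⟨B, hB0, hBρ⟩ := hρ.bound
  obtain ⟨ζ0, hζ0, hζ0c, hζ0R, hζ0K⟩ := exists_cut hR hK hKR
  -- a nonnegative cut-off
  obtain ⟨ζ, hζ, hζc, hζR, hζK, hζn⟩ : ∃ ζ : E4 → ℝ, ContDiff ℝ ∞ ζ ∧ HasCompactSupport ζ ∧
      tsupport ζ ⊆ ball x0 R ∧ (∀ x ∈ K, ζ x = 1) ∧ ∀ x, 0 ≤ ζ x := by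
    have h1 : tsupport (fun x => ζ0 x ^ 2) ⊆ tsupport ζ0 := by
      refine closure_mono fun x hx => ?_
      rw [Function.mem_support] at hx ⊢
      intro h
      exact hx (by rw [h]; norm_num)
    refine ⟨fun x => ζ0 x ^ 2, hζ0.pow 2, hζ0c.of_isClosed_subset (isClosed_tsupport _) h1,
      h1.trans hζ0R, fun x hx => ?_, fun x => sq_nonneg _⟩
    show ζ0 x ^ 2 = 1
    rw [hζ0K x hx]; norm_num
  obtain ⟨C1, e0, hC1, he0, he0', hen⟩ := energy hB hC hR hCg hgr hd hcl hρ hζ hζc hζR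
  set A := cA m M L LJ c0 with hA
  have hA0 : 0 ≤ A := cA_nonneg hC
  have hw0 := w0_nonneg hC
  have mφ : Measurable (ph1 σ F φ) := ph1_meas hB hd
  have bφ := ph1_bound hC hd
  have hsr : 0 ≤ s.real univ := measureReal_nonneg
  obtain ⟨Z, hZ⟩ := hζc.exists_bound_of_continuous hζ.continuous
  have hZ0 : 0 ≤ Z := (norm_nonneg _).trans (hZ x0)
  have hζZ : ∀ x, ζ x ≤ Z := fun x => (le_abs_self _).trans (hZ x)
  have iζ : Integrable ζ s := Integrable.of_bound hζ.continuous.aestronglyMeasurable Z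
    (ae_of_all _ hZ)
  have iζle : ∫ x, ζ x ∂s ≤ Z * s.real univ := by
    have h := integral_mono iζ (integrable_const Z) hζZ
    rwa [integral_const, smul_eq_mul, mul_comm] at h
  have iζ0 : 0 ≤ ∫ x, ζ x ∂s := integral_nonneg hζn
  set Bq : ℝ := w0 * (6 * ((c0⁻¹ * (2 * M)) * (c0⁻¹ * (2 * M)))) with hBq
  have hBq0 : 0 ≤ Bq := (abs_nonneg _).trans (abs_q_bound hC hd x0 x0)
  -- the two constants
  set Q1 : ℝ := w0 * (16 / κ) * (C1 + A * (B * Cg) * (Z * s.real univ)) +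
    w0 * A * Cg * s.real univ with hQ1
  set Q2 : ℝ := Bq * s.real univ * s.real univ * (2 / e0) ^ 4 with hQ2
  have hQ10 : 0 ≤ Q1 := by positivity
  have hQ20 : 0 ≤ Q2 := by positivity
  refine ⟨Q1 + Q2, by positivity, fun r hr hr1 => ?_⟩
  have hlr : 0 ≤ |Real.log r| := abs_nonneg _
  have hr4 : 0 ≤ r ^ 4 * (1 + |Real.log r|) := by positivity
  by_cases hre : 2 * r ≤ e0
  · -- small r
    have he : 0 < 2 * r := by positivity
    have hpt := moll_gg hB hC hd hCg hgr hρ hκ hκ' hB0 hBρ he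
    have hm : ∀ x, 0 ≤ σ * W (ph1 σ F φ x) (Ph s (ph1 σ F φ) (Pot.rhoE ρ (2 * r)) x) +
        A * (B * Cg) := fun x =>
      le_trans (mul_nonneg (by positivity) (integral_nonneg fun y => gg_nonneg hC hd x y)) (hpt x)
    have hin : ∀ x, ∫ y in ball x r, |q (F x) (φ x) (φ y)| ∂s ≤
        w0 * ((16 * r ^ 4 / κ) * (σ * W (ph1 σ F φ x) (Ph s (ph1 σ F φ) (Pot.rhoE ρ (2 * r)) x) +
          A * (B * Cg))) + w0 * A * Cg * r ^ 4 := by
      intro x
      have hpx := hpt x
      rw [show 2 * r / 2 = r by ring] at hpx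
      have ig : IntegrableOn (fun y => gg A σ F φ x y) (ball x r) s := by
        refine Integrable.of_bound (C := 1 * (6 * ((c0⁻¹ * (2 * M)) * (c0⁻¹ * (2 * M)))) + A * r ^ 2)
          (gg_meas hB hd A x).aestronglyMeasurable ?_
        refine (ae_restrict_iff' measurableSet_ball).2 (ae_of_all _ fun y hy => ?_)
        rw [mem_ball, dist_comm, dist_eq_norm] at hy
        unfold gg
        refine (norm_add_le _ _).trans (add_le_add ?_ ?_)
        · rw [Real.norm_eq_abs, q_ph1 hC, abs_mul]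
          have h2 : |σ| ≤ 1 := by rcases hC.sg with h | h <;> rw [h] <;> norm_num
          have h3 := Loc5.abs_W_le (ph1 σ F φ x) (ph1 σ F φ y)
          have h4 := bφ x
          have h5 := bφ y
          have h6 : 6 * (‖ph1 σ F φ x‖ * ‖ph1 σ F φ y‖) ≤
              6 * ((c0⁻¹ * (2 * M)) * (c0⁻¹ * (2 * M))) := by
            have h7 : 0 ≤ c0⁻¹ * (2 * M) := (norm_nonneg _).trans h4
            gcongr
          exact mul_le_mul h2 (h3.trans h6) (abs_nonneg _) zero_le_one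
        · rw [Real.norm_of_nonneg (by positivity)]
          gcongr
      have i2 : IntegrableOn (fun y => w0 * (gg A σ F φ x y + A * r ^ 2)) (ball x r) s :=
        (ig.add (integrable_const _)).const_mul _
      have h1 : ∫ y in ball x r, |q (F x) (φ x) (φ y)| ∂s ≤
          ∫ y in ball x r, w0 * (gg A σ F φ x y + A * r ^ 2) ∂s := by
        refine integral_mono_of_nonneg (ae_of_all _ fun y => abs_nonneg _) i2 ?_
        refine (ae_restrict_iff' measurableSet_ball).2 (ae_of_all _ fun y hy => ?_)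
        rw [mem_ball, dist_comm, dist_eq_norm] at hy
        refine (abs_q_le_gg hC hd x y).trans ?_
        have h5 : A * ‖x - y‖ ^ 2 ≤ A * r ^ 2 := by gcongr
        exact mul_le_mul_of_nonneg_left (by linarith) hw0
      refine h1.trans ?_
      rw [integral_const_mul, integral_add ig (integrable_const _), setIntegral_const, smul_eq_mul]
      have h2 : ∫ y in ball x r, gg A σ F φ x y ∂s ≤ (16 * r ^ 4 / κ) *
          (σ * W (ph1 σ F φ x) (Ph s (ph1 σ F φ) (Pot.rhoE ρ (2 * r)) x) + A * (B * Cg)) := by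
        have h3 : κ * ((2 * r) ^ 4)⁻¹ * ((16 * r ^ 4 / κ) * ∫ y in ball x r, gg A σ F φ x y ∂s) =
            ∫ y in ball x r, gg A σ F φ x y ∂s := by
          field_simp
          ring
        calc ∫ y in ball x r, gg A σ F φ x y ∂s
            = (16 * r ^ 4 / κ) * (κ * ((2 * r) ^ 4)⁻¹ * ∫ y in ball x r, gg A σ F φ x y ∂s) := by
              field_simp
              ring
          _ ≤ _ := by gcongr
      have h3 : s.real (ball x r) ≤ Cg * r ^ 2 :=
        ENNReal.toReal_le_of_le_ofReal (by positivity) (hgr x r hr)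
      calc w0 * (∫ y in ball x r, gg A σ F φ x y ∂s + s.real (ball x r) * (A * r ^ 2))
          ≤ w0 * ((16 * r ^ 4 / κ) *
          (σ * W (ph1 σ F φ x) (Ph s (ph1 σ F φ) (Pot.rhoE ρ (2 * r)) x) + A * (B * Cg)) +
            Cg * r ^ 2 * (A * r ^ 2)) := by gcongr
        _ = _ := by ring
    -- the dominating function
    have mP := Ph_meas (s := s) mφ (hρ.ker he)
    have mW : Measurable fun x => W (ph1 σ F φ x) (Ph s (ph1 σ F φ) (Pot.rhoE ρ (2 * r)) x) :=
      measurable_W mφ mP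
    have bP : ∀ x, ‖Ph s (ph1 σ F φ) (Pot.rhoE ρ (2 * r)) x‖ ≤
        B * ((2 * r) ^ 4)⁻¹ * (c0⁻¹ * (2 * M)) * s.real univ := by
      intro x
      unfold Ph
      refine norm_integral_le_of_norm_le_const (ae_of_all _ fun y => ?_)
      rw [norm_smul, Real.norm_of_nonneg ((hρ.ker he).nonneg _)]
      exact mul_le_mul (hBρ _ he _) (bφ y) (norm_nonneg _) (by positivity)
    have iT : Integrable (fun x => ζ x * W (ph1 σ F φ x)
        (Ph s (ph1 σ F φ) (Pot.rhoE ρ (2 * r)) x)) s := by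
      refine Integrable.of_bound (C := Z * (6 * ((c0⁻¹ * (2 * M)) *
        (B * ((2 * r) ^ 4)⁻¹ * (c0⁻¹ * (2 * M)) * s.real univ))))
        (hζ.continuous.measurable.mul mW).aestronglyMeasurable (ae_of_all _ fun x => ?_)
      rw [norm_mul]
      refine mul_le_mul (hZ x) ?_ (norm_nonneg _) hZ0
      rw [Real.norm_eq_abs]
      refine (Loc5.abs_W_le _ _).trans ?_
      have h4 := bφ x
      have h5 := bP x
      have h7 : 0 ≤ c0⁻¹ * (2 * M) := (norm_nonneg _).trans h4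
      gcongr
    obtain ⟨T, hT⟩ : ∃ T : E4 → ℝ, T = fun x => ζ x * W (ph1 σ F φ x)
        (Ph s (ph1 σ F φ) (Pot.rhoE ρ (2 * r)) x) := ⟨_, rfl⟩
    have hTx : ∀ x, T x = ζ x * W (ph1 σ F φ x) (Ph s (ph1 σ F φ) (Pot.rhoE ρ (2 * r)) x) :=
      fun x => by rw [hT]
    have hTe : |∫ x, T x ∂s| ≤ C1 * Real.log (1 / (2 * r)) := by
      rw [hT]
      exact hen _ he hre
    rw [← hT] at iT
    obtain ⟨c1, hc1⟩ : ∃ c1 : ℝ, c1 = w0 * (16 * r ^ 4 / κ) := ⟨_, rfl⟩
    have hc10 : 0 ≤ c1 := by rw [hc1]; positivity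
    obtain ⟨G, hG⟩ : ∃ G : E4 → ℝ, G = fun x =>
      c1 * (σ * T x + A * (B * Cg) * ζ x) + w0 * A * Cg * r ^ 4 := ⟨_, rfl⟩
    have iG : Integrable G s := by
      rw [hG]
      exact (((iT.const_mul σ).add (iζ.const_mul _)).const_mul c1).add (integrable_const _)
    have hG0 : ∀ x, 0 ≤ G x := by
      intro x
      have h1 := mul_nonneg (hζn x) (hm x)
      have h2 : G x = c1 * (ζ x * (σ * W (ph1 σ F φ x)
          (Ph s (ph1 σ F φ) (Pot.rhoE ρ (2 * r)) x) + A * (B * Cg))) + w0 * A * Cg * r ^ 4 := by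
        rw [hG]
        show c1 * (σ * T x + A * (B * Cg) * ζ x) + w0 * A * Cg * r ^ 4 = _
        rw [hTx]
        ring
      rw [h2]
      positivity
    have hGK : ∀ x ∈ K, ∫ y in ball x r, |q (F x) (φ x) (φ y)| ∂s ≤ G x := by
      intro x hx
      refine (hin x).trans (le_of_eq ?_)
      rw [hG]
      show _ = c1 * (σ * T x + A * (B * Cg) * ζ x) + w0 * A * Cg * r ^ 4
      rw [hTx, hζK x hx, hc1]
      ring
    have h1 : ∫ x in K, ∫ y in ball x r, |q (F x) (φ x) (φ y)| ∂s ∂s ≤ ∫ x in K, G x ∂s := by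
      refine integral_mono_of_nonneg (ae_of_all _ fun x => integral_nonneg fun y => abs_nonneg _)
        iG.integrableOn ?_
      exact (ae_restrict_iff' hK.measurableSet).2 (ae_of_all _ hGK)
    have h2 : ∫ x in K, G x ∂s ≤ ∫ x, G x ∂s := setIntegral_le_integral iG (ae_of_all _ hG0)
    have h3 : ∫ x, G x ∂s = c1 * (σ * ∫ x, T x ∂s + A * (B * Cg) * ∫ x, ζ x ∂s) +
        w0 * A * Cg * r ^ 4 * s.real univ := by
      have j1 : Integrable (fun x => σ * T x) s := iT.const_mul σ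
      have j2 : Integrable (fun x => A * (B * Cg) * ζ x) s := iζ.const_mul _
      have j3 : Integrable (fun x => c1 * (σ * T x + A * (B * Cg) * ζ x)) s :=
        (j1.add j2).const_mul c1
      rw [hG, integral_add j3 (integrable_const _), integral_const_mul, integral_add j1 j2,
        integral_const_mul, integral_const_mul, integral_const, smul_eq_mul]
      ring
    have h4 : σ * ∫ x, T x ∂s ≤ C1 * |Real.log r| := by
      have h5 : σ * ∫ x, T x ∂s ≤ |∫ x, T x ∂s| := by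
        refine (le_abs_self _).trans (le_of_eq ?_)
        rw [abs_mul]
        rcases hC.sg with h | h <;> rw [h] <;> norm_num
      have h6 : Real.log (1 / (2 * r)) ≤ |Real.log r| := by
        rw [one_div, Real.log_inv, Real.log_mul (by norm_num) hr.ne']
        have h7 : 0 < Real.log 2 := Real.log_pos (by norm_num)
        have h8 := neg_le_abs (Real.log r)
        linarith
      exact h5.trans (hTe.trans (mul_le_mul_of_nonneg_left h6 hC1))
    have h5 : A * (B * Cg) * ∫ x, ζ x ∂s ≤ A * (B * Cg) * (Z * s.real univ) := by gcongr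
    calc ∫ x in K, ∫ y in ball x r, |q (F x) (φ x) (φ y)| ∂s ∂s
        ≤ c1 * (σ * ∫ x, T x ∂s + A * (B * Cg) * ∫ x, ζ x ∂s) +
          w0 * A * Cg * r ^ 4 * s.real univ := h1.trans (h2.trans (le_of_eq h3))
      _ ≤ c1 * (C1 * |Real.log r| + A * (B * Cg) * (Z * s.real univ)) +
          w0 * A * Cg * r ^ 4 * s.real univ := by gcongr
      _ ≤ c1 * ((C1 + A * (B * Cg) * (Z * s.real univ)) * (1 + |Real.log r|)) +
          w0 * A * Cg * r ^ 4 * s.real univ * (1 + |Real.log r|) := by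
        have h6 : 0 ≤ A * (B * Cg) * (Z * s.real univ) := by positivity
        have h7 : 0 ≤ w0 * A * Cg * r ^ 4 * s.real univ := by positivity
        have h8 : C1 * |Real.log r| + A * (B * Cg) * (Z * s.real univ) ≤
            (C1 + A * (B * Cg) * (Z * s.real univ)) * (1 + |Real.log r|) := by
          have h9 := mul_nonneg h6 hlr
          nlinarith
        have h10 := mul_nonneg h7 hlr
        have h11 := mul_le_mul_of_nonneg_left h8 hc10
        linarith
      _ = Q1 * (r ^ 4 * (1 + |Real.log r|)) := by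
        rw [hQ1, hc1]
        ring
      _ ≤ (Q1 + Q2) * (r ^ 4 * (1 + |Real.log r|)) := by
        refine mul_le_mul_of_nonneg_right ?_ hr4
        linarith
  · push Not at hre
    have h1 : ∀ x, ∫ y in ball x r, |q (F x) (φ x) (φ y)| ∂s ≤ Bq * s.real univ := by
      intro x
      have h2 : ∫ y in ball x r, |q (F x) (φ x) (φ y)| ∂s ≤ ∫ _y in ball x r, Bq ∂s :=
        integral_mono_of_nonneg (ae_of_all _ fun y => abs_nonneg _) (integrable_const _)
          (ae_of_all _ fun y => abs_q_bound hC hd x y)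
      rw [setIntegral_const, smul_eq_mul] at h2
      have h3 : s.real (ball x r) ≤ s.real univ := measureReal_mono (subset_univ _)
      calc _ ≤ s.real (ball x r) * Bq := h2
        _ ≤ s.real univ * Bq := by gcongr
        _ = _ := mul_comm _ _
    have h2 : ∫ x in K, ∫ y in ball x r, |q (F x) (φ x) (φ y)| ∂s ∂s ≤
        ∫ _x in K, Bq * s.real univ ∂s :=
      integral_mono_of_nonneg (ae_of_all _ fun x => integral_nonneg fun y => abs_nonneg _)
        (integrable_const _) (ae_of_all _ h1)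
    rw [setIntegral_const, smul_eq_mul] at h2
    have h3 : s.real K ≤ s.real univ := measureReal_mono (subset_univ _)
    have h4 : 1 ≤ (2 / e0) ^ 4 * r ^ 4 := by
      rw [← mul_pow]
      refine one_le_pow₀ ?_
      rw [div_mul_eq_mul_div, le_div_iff₀ he0]
      linarith
    calc _ ≤ s.real K * (Bq * s.real univ) := h2
      _ ≤ s.real univ * (Bq * s.real univ) := by gcongr
      _ = Bq * s.real univ * s.real univ * 1 := by ring
      _ ≤ Bq * s.real univ * s.real univ * ((2 / e0) ^ 4 * r ^ 4) := by gcongr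
      _ = Q2 * r ^ 4 := by rw [hQ2]; ring
      _ ≤ Q2 * (r ^ 4 * (1 + |Real.log r|)) := by
        refine mul_le_mul_of_nonneg_left ?_ hQ20
        have : 0 ≤ r ^ 4 := by positivity
        nlinarith
      _ ≤ (Q1 + Q2) * (r ^ 4 * (1 + |Real.log r|)) := by
        refine mul_le_mul_of_nonneg_right ?_ hr4
        linarith

/-- measurability of the inner integral. -/
theorem in_meas (hB : Bg J F) (hd : Dens J F φ) {s : Measure E4} [IsFiniteMeasure s] (r : ℝ) :
    Measurable fun x => ∫ y in ball x r, |q (F x) (φ x) (φ y)| ∂s := by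
  have h1 : Measurable fun z : E4 × E4 => |q (F z.1) (φ z.1) (φ z.2)| := by
    unfold q
    have h2 : Measurable fun z : E4 × E4 => W (φ z.1) (φ z.2) :=
      measurable_W (hd.meas.comp measurable_fst) (hd.meas.comp measurable_snd)
    have h3 : Measurable fun z : E4 × E4 => W (F z.1) (F z.1) :=
      (continuous_WW hB).measurable.comp measurable_fst
    exact (h2.div h3).abs
  have h4 : MeasurableSet {z : E4 × E4 | dist z.2 z.1 < r} :=
    (isOpen_lt (by fun_prop) continuous_const).measurableSet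
  have h5 := h1.indicator h4
  have h6 : StronglyMeasurable (Function.uncurry fun (x : E4) (y : E4) =>
      ({z : E4 × E4 | dist z.2 z.1 < r}.indicator fun z => |q (F z.1) (φ z.1) (φ z.2)|) (x, y)) :=
    h5.stronglyMeasurable
  have h7 := (h6.integral_prod_right (ν := s)).measurable
  have h8 : (fun x => ∫ y in ball x r, |q (F x) (φ x) (φ y)| ∂s) = fun x => ∫ y,
      ({z : E4 × E4 | dist z.2 z.1 < r}.indicator fun z => |q (F z.1) (φ z.1) (φ z.2)|) (x, y)
        ∂s := by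
    funext x
    rw [← integral_indicator measurableSet_ball]
    refine integral_congr_ae (ae_of_all _ fun y => ?_)
    show (ball x r).indicator (fun y => |q (F x) (φ x) (φ y)|) y =
      {z : E4 × E4 | dist z.2 z.1 < r}.indicator (fun z => |q (F z.1) (φ z.1) (φ z.2)|) (x, y)
    by_cases hy : dist y x < r
    · have hm : ((x, y) : E4 × E4) ∈ {z : E4 × E4 | dist z.2 z.1 < r} := hy
      rw [indicator_of_mem (mem_ball.2 hy), indicator_of_mem hm]
    · have hm : ((x, y) : E4 × E4) ∉ {z : E4 × E4 | dist z.2 z.1 < r} := hy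
      rw [indicator_of_notMem (fun h => hy (mem_ball.1 h)), indicator_of_notMem hm]
  rw [h8]
  exact h7

/-- **(Q')**: the field `qq` of `CurDefs_132.LC`. -/
theorem qq_of (hB : Bg J F) (hd : Dens J F φ) {s : Measure E4} [IsFiniteMeasure s] {Cg : ℝ}
    (hCg : 0 ≤ Cg) (hgr : ∀ y r, 0 < r → s (ball y r) ≤ ENNReal.ofReal (Cg * r ^ 2)) {x0 : E4}
    {R : ℝ} (hR : 0 < R) (hR1 : R ≤ 1) (hcl : ClosedIn F s φ (ball x0 (4 * R))) :
    ∃ Q : ℝ, 0 ≤ Q ∧ ∀ r, 0 < r → r ≤ R →
      ∫ x in ball x0 (3 * R), ∫ y in ball x r, |q (F x) (φ x) (φ y)| ∂s ∂s ≤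
        Q * r ^ 4 * (1 + |Real.log r|) := by
  obtain ⟨m, M, L, LJ, w0, c0, σ, hC⟩ := exists_cst hB
  obtain ⟨t, ht, htf, htc⟩ := (isCompact_closedBall x0 (3 * R)).finite_cover_balls
    (show 0 < R / 4 by positivity)
  have hloc : ∀ c ∈ t, ∃ Q : ℝ, 0 ≤ Q ∧ ∀ r, 0 < r → r ≤ 1 →
      ∫ x in closedBall c (R / 4), ∫ y in ball x r, |q (F x) (φ x) (φ y)| ∂s ∂s ≤
        Q * (r ^ 4 * (1 + |Real.log r|)) := by
    intro c hc
    have hcl' : ClosedIn F s φ (ball c (2 * (R / 2))) := fun S hS hSc hSU =>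
      hcl S hS hSc (hSU.trans (ball_subset_ball' (by
        have := mem_closedBall.1 (ht hc)
        linarith)))
    exact qq_ball hB hC hd hCg hgr (by positivity) hcl' isClosed_closedBall
      (closedBall_subset_ball (by linarith))
  choose! Q hQ0 hQ using hloc
  refine ⟨∑ c ∈ htf.toFinset, Q c, Finset.sum_nonneg fun c hc => hQ0 c (htf.mem_toFinset.1 hc),
    fun r hr hrR => ?_⟩
  have hr1 : r ≤ 1 := hrR.trans hR1
  obtain ⟨f, hf⟩ : ∃ f : E4 → ℝ, f = fun x => ∫ y in ball x r, |q (F x) (φ x) (φ y)| ∂s :=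
    ⟨_, rfl⟩
  have hf0 : ∀ x, 0 ≤ f x := fun x => by
    rw [hf]; exact integral_nonneg fun y => abs_nonneg _
  have hfm : Measurable f := by rw [hf]; exact in_meas hB hd r
  have hfb : ∀ x, f x ≤ s.real univ * (w0 * (6 * ((c0⁻¹ * (2 * M)) * (c0⁻¹ * (2 * M))))) := by
    intro x
    have hb0 : 0 ≤ w0 * (6 * ((c0⁻¹ * (2 * M)) * (c0⁻¹ * (2 * M)))) :=
      (abs_nonneg _).trans (abs_q_bound hC hd x0 x0)
    rw [hf]
    have h2 : ∫ y in ball x r, |q (F x) (φ x) (φ y)| ∂s ≤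
        ∫ _y in ball x r, w0 * (6 * ((c0⁻¹ * (2 * M)) * (c0⁻¹ * (2 * M)))) ∂s :=
      integral_mono_of_nonneg (ae_of_all _ fun y => abs_nonneg _) (integrable_const _)
        (ae_of_all _ fun y => abs_q_bound hC hd x y)
    rw [setIntegral_const, smul_eq_mul] at h2
    have h3 : s.real (ball x r) ≤ s.real univ := measureReal_mono (subset_univ _)
    exact h2.trans (mul_le_mul_of_nonneg_right h3 hb0)
  have hfi : Integrable f s := Integrable.of_bound hfm.aestronglyMeasurable _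
    (ae_of_all _ fun x => by rw [Real.norm_of_nonneg (hf0 x)]; exact hfb x)
  have h1 : ∫ x in ball x0 (3 * R), f x ∂s ≤
      ∑ c ∈ htf.toFinset, ∫ x in closedBall c (R / 4), f x ∂s := by
    have h2 : ∀ c ∈ htf.toFinset, ∫ x in closedBall c (R / 4), f x ∂s =
        ∫ x, (closedBall c (R / 4)).indicator f x ∂s := fun c _ =>
      (integral_indicator isClosed_closedBall.measurableSet).symm
    rw [Finset.sum_congr rfl h2, ← integral_finsetSum _ fun c _ =>
      hfi.indicator isClosed_closedBall.measurableSet, ← integral_indicator measurableSet_ball]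
    refine integral_mono (hfi.indicator measurableSet_ball) (integrable_finsetSum _ fun c _ =>
      hfi.indicator isClosed_closedBall.measurableSet) fun x => ?_
    have hnn : ∀ c ∈ htf.toFinset, 0 ≤ (closedBall c (R / 4)).indicator f x := fun c _ =>
      indicator_nonneg (fun x _ => hf0 x) x
    by_cases hx : x ∈ ball x0 (3 * R)
    · rw [indicator_of_mem hx]
      obtain ⟨c, hc, hxc⟩ := mem_iUnion₂.1 (htc (ball_subset_closedBall hx))
      have h3 := Finset.single_le_sum hnn (htf.mem_toFinset.2 hc)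
      rwa [indicator_of_mem (ball_subset_closedBall hxc)] at h3
    · rw [indicator_of_notMem hx]
      exact Finset.sum_nonneg hnn
  have h2 : ∑ c ∈ htf.toFinset, ∫ x in closedBall c (R / 4), f x ∂s ≤
      ∑ c ∈ htf.toFinset, Q c * (r ^ 4 * (1 + |Real.log r|)) := by
    refine Finset.sum_le_sum fun c hc => ?_
    rw [hf]
    exact hQ c (htf.mem_toFinset.1 hc) r hr hr1
  rw [← Finset.sum_mul] at h2
  rw [hf] at h1
  rw [mul_assoc]
  rw [hf] at h2
  exact h1.trans h2

/-- the same with the growth of `s.real`. -/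
theorem qq_of' (hB : Bg J F) (hd : Dens J F φ) {s : Measure E4} [IsFiniteMeasure s] {Cg : ℝ}
    (hCg : 0 ≤ Cg) (hgr : ∀ y r, 0 < r → s.real (ball y r) ≤ Cg * r ^ 2) {x0 : E4}
    {R : ℝ} (hR : 0 < R) (hR1 : R ≤ 1) (hcl : ClosedIn F s φ (ball x0 (4 * R))) :
    ∃ Q : ℝ, 0 ≤ Q ∧ ∀ r, 0 < r → r ≤ R →
      ∫ x in ball x0 (3 * R), ∫ y in ball x r, |q (F x) (φ x) (φ y)| ∂s ∂s ≤
        Q * r ^ 4 * (1 + |Real.log r|) := by
  refine qq_of hB hd hCg (fun y r hr => ?_) hR hR1 hcl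
  rw [← ofReal_measureReal (measure_ne_top s (ball y r))]
  exact ENNReal.ofReal_le_ofReal (hgr y r hr)

end main

end

end Crest.Agent.R235.QLog_195
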