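import Mathlib
import Crest.Agent.R235.CurDefs_132
import Crest.Agent.R235.QLog2_195
import Crest.Agent.R240.Loc5B

/-!
Row 235 (S0364), PACKAGE CUR, node MKLC (helper4): background data `Bg J F`, `dF = 0` on a ball, a
normalised positive density closed in the ball and growth give a local datum `LC`.
-/

set_option autoImplicit false
set_option maxSynthPendingDepth 3

open Set Function Filter MeasureTheory Metric
open scoped ContDiff ENNReal Manifold Topology

namespace Crest.Agent.R235.MkLC_4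

open Crest.Agent.R240 Crest.Agent.R240.En Crest.Agent.R240.Pot Crest.Agent.R235.CurDefs_132

noncomputable section

variable {V : Type*} [NormedAddCommGroup V] [NormedSpace ℝ V]

omit [NormedSpace ℝ V] in
/-- a continuous function constant outside a ball is bounded. -/
theorem bdd_of_cst {g : E4 → V} (hg : Continuous g) {R : ℝ} {g0 : V}
    (h : ∀ y, R ≤ ‖y‖ → g y = g0) : ∃ L : ℝ, 0 ≤ L ∧ ∀ y, ‖g y‖ ≤ L := by
  obtain ⟨C, hC⟩ := (isCompact_closedBall (0 : E4) R).exists_bound_of_continuousOn hg.continuousOn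
  refine ⟨max |C| ‖g0‖, by positivity, fun y => ?_⟩
  rcases le_or_gt R ‖y‖ with h1 | h1
  · rw [h y h1]
    exact le_max_right _ _
  · refine (hC y ?_).trans ((le_abs_self C).trans (le_max_left _ _))
    rw [mem_closedBall, dist_zero_right]
    exact h1.le

theorem fderiv_cst {g : E4 → V} {R : ℝ} {g0 : V} (h : ∀ y, R ≤ ‖y‖ → g y = g0) :
    ∀ y, R + 1 ≤ ‖y‖ → fderiv ℝ g y = 0 := by
  intro y hy
  have h1 : g =ᶠ[𝓝 y] fun _ => g0 := by
    have : ∀ᶠ z in 𝓝 y, R < ‖z‖ :=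
      continuous_norm.continuousAt.eventually_const_lt (by linarith : R < ‖y‖)
    filter_upwards [this] with z hz using h z hz.le
  rw [h1.fderiv_eq]
  simp

/-- **MKLC**. -/
theorem mkLC {J : E4 → E4 →L[ℝ] E4} {F : E4 → Bil} (hB : Bg J F) {φ : E4 → Bil}
    (hd : Dens J F φ) {s : Measure E4} [hfin : IsFiniteMeasure s] {C : ℝ} (hC : 0 ≤ C)
    (hgr : ∀ y r, 0 < r → s.real (ball y r) ≤ C * r ^ 2) {x0 : E4} {R : ℝ} (hR : 0 < R)
    (hR1 : R ≤ 1) (hcl : ClosedIn F s φ (ball x0 (4 * R))) (hF : ∀ y ∈ ball x0 (4 * R), Cl F y) :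
    ∃ D : LC, D.J = J ∧ D.F = F ∧ D.x0 = x0 ∧ D.R = R ∧ D.s = s ∧ D.φ = φ ∧ D.C = C := by
  obtain ⟨m, M', L0, LJ, w0, c0, σ, hcst⟩ := Crest.Agent.R240.Loc5.exists_cst hB
  obtain ⟨R', J0, F0, hc⟩ := hB.cst
  have hJc : ∀ y, R' ≤ ‖y‖ → J y = J0 := fun y hy => (hc y hy).1
  have hFc : ∀ y, R' ≤ ‖y‖ → F y = F0 := fun y hy => (hc y hy).2
  have hJ1 : ContDiff ℝ ∞ (fderiv ℝ J) := hB.smJ.fderiv_right (by simp)
  have hF1 : ContDiff ℝ ∞ (fderiv ℝ F) := hB.smF.fderiv_right (by simp)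
  have hJ2 : ContDiff ℝ ∞ (fderiv ℝ (fderiv ℝ J)) := hJ1.fderiv_right (by simp)
  have hF2 : ContDiff ℝ ∞ (fderiv ℝ (fderiv ℝ F)) := hF1.fderiv_right (by simp)
  obtain ⟨a1, a10, ha1⟩ := bdd_of_cst hB.smJ.continuous hJc
  obtain ⟨a2, a20, ha2⟩ := bdd_of_cst hB.smF.continuous hFc
  obtain ⟨a3, a30, ha3⟩ := bdd_of_cst hJ1.continuous (fderiv_cst hJc)
  obtain ⟨a4, a40, ha4⟩ := bdd_of_cst hF1.continuous (fderiv_cst hFc)
  obtain ⟨a5, a50, ha5⟩ := bdd_of_cst hJ2.continuous (fderiv_cst (fderiv_cst hJc))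
  obtain ⟨a6, a60, ha6⟩ := bdd_of_cst hF2.continuous (fderiv_cst (fderiv_cst hFc))
  obtain ⟨Q, hQ0, hQ⟩ := QLog_195.qq_of' hB hd hC hgr hR hR1 hcl
  set L : ℝ := 1 + a1 + a2 + a3 + a4 + a5 + a6 with hL
  refine ⟨{ J := J, F := F, m := m, M := M', L := L, x0 := x0, R := R, s := s, C := C, Q := Q,
            φ := φ, smJ := hB.smJ, smF := hB.smF, bd := hcst.bd,
            bJ := fun y => (ha1 y).trans (by rw [hL]; linarith),
            bF := fun y => (ha2 y).trans (by rw [hL]; linarith),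
            bJ1 := fun y => (ha3 y).trans (by rw [hL]; linarith),
            bF1 := fun y => (ha4 y).trans (by rw [hL]; linarith),
            bJ2 := fun y => (ha5 y).trans (by rw [hL]; linarith),
            bF2 := fun y => (ha6 y).trans (by rw [hL]; linarith),
            R_pos := hR, R_le := hR1, L_ge := by rw [hL]; linarith, C_nn := hC, Q_nn := hQ0,
            cl := hF, fin := hfin, gr := hgr, meas := hd.meas, pos := hd.pos, nrm := hd.nrm,
            closed := hcl, qq := hQ }, rfl, rfl, rfl, rfl, rfl, rfl, rfl⟩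

end

end Crest.Agent.R235.MkLC_4
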