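import Mathlib
import Crest.Agent.R240.Pol
import Crest.Agent.R240.MonoM4
import Crest.Agent.R235.MkLC_4
import Crest.Agent.R235.ChInd_4

/-!
Row 235 (S0364), PACKAGE CUR, node CHLC (helper4): the local datum `LC` of a positive closed current
on `M` in a ball of a chart.
-/

set_option autoImplicit false
set_option maxSynthPendingDepth 3
set_option linter.unusedSectionVars false

open Set Function Filter MeasureTheory Metric
open scoped Manifold ContDiff Topology ENNReal NNReal

namespace Crest.Agent.R235.ChLC_4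

open Crest.Agent.R240 Crest.Agent.R240.Ch Crest.Agent.R240.En4 Crest.Agent.R240.Pot
  Crest.Agent.R240.Pol Crest.Agent.R240.Vm
  Crest.Agent.R235.T1_195 Crest.Agent.R235.CurDens_4 Crest.Agent.R235.AtomsC_4
  Crest.Agent.R235.CurDefs_132

noncomputable section

variable {M : Type*} [MetricSpace M] [CompactSpace M] [ChartedSpace E4 M]
    [IsManifold 𝓘(ℝ, E4) ∞ M] [MeasurableSpace M] [BorelSpace M]

/-- `L` is the local datum, in the ball `B(x0, 2R₀)` of the chart `p`, of the current with trace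
measure `s` and density `τ`. -/
structure ChRep (D : Dat M) (s : Measure M) (τ : F2 E4 M) (p : M) (x0 : E4) (R₀ : ℝ)
    (L : LC) : Prop where
  x0_eq : L.x0 = x0
  R_eq : L.R = R₀ / 2
  s_eq : L.s = chMeas p (closedBall x0 (2 * R₀)) s
  J_eq : ∀ y ∈ closedBall x0 (2 * R₀), L.J y = repJ p D.J y
  F_eq : ∀ y ∈ closedBall x0 (2 * R₀), L.F y = rep p D.F y
  int : ∀ b : X2 M, (∀ x, x ∉ core p (closedBall x0 (2 * R₀)) → at2 (b : F2 E4 M) x = 0) →
    ∀ᵐ x ∂s, x ∈ core p (closedBall x0 (2 * R₀)) → qG D.F τ (b : F2 E4 M) x =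
      q (rep p D.F (chartAt E4 p x)) (L.φ (chartAt E4 p x)) (rep p (b : F2 E4 M) (chartAt E4 p x))

/-- the integrand of the chart formula for a smooth form. -/
theorem aesm_core (D : Dat M) {p : M} {x0 : E4} {R : ℝ} (hR : 0 < R)
    (hsub : closedBall x0 (3 * R) ⊆ (chartAt E4 p).target) (s : Measure M) {φ : E4 → Bil}
    (hφ : Measurable φ) (b : X2 M) :
    AEStronglyMeasurable ((core p (closedBall x0 (2 * R))).indicator fun x =>
      q (rep p D.F (chartAt E4 p x)) (φ (chartAt E4 p x))
        (rep p (b : F2 E4 M) (chartAt E4 p x))) s := by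
  have h2sub : closedBall x0 (2 * R) ⊆ (chartAt E4 p).target :=
    (closedBall_subset_closedBall (by linarith)).trans hsub
  have h2c : IsCompact (closedBall x0 (2 * R)) := isCompact_closedBall _ _
  have hAm := core_meas h2c h2sub
  rw [aestronglyMeasurable_indicator_iff hAm]
  obtain ⟨r, hr, hr1, hr2, hr3⟩ := exists_retr x0 hR
  have hbr : Continuous fun y => rep p (b : F2 E4 M) (r y) := by
    rw [continuous_iff_continuousAt]
    intro y
    have hy : r y ∈ (chartAt E4 p).target := hsub (ball_subset_closedBall (hr2 y))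
    have h2 : ContinuousAt (rep p (b : F2 E4 M)) (r y) :=
      ((b.2.2 p).continuousOn).continuousAt ((chartAt E4 p).open_target.mem_nhds hy)
    exact h2.comp hr.continuous.continuousAt
  have h3 := aesm_integrand (ChDens.smF D) hR hsub s hφ hbr.measurable
  have h4 := h3.comp_aemeasurable (aemeas_chart h2c h2sub s)
  refine h4.congr ?_
  rw [EventuallyEq, ae_restrict_iff' hAm]
  refine Eventually.of_forall fun x hx => ?_
  have hy := chart_core_mem h2sub hx
  simp only [comp_apply]
  rw [hr1 _ hy]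

/-- the chart density is the representation of the global density. -/
theorem ae_eq_chart (D : Dat M) {Φ : X2 M →ₗ[ℝ] ℝ} {s : Measure M} [IsFiniteMeasure s]
    {τ : F2 E4 M} (hτ : Den D Φ s τ) {p : M} {x0 : E4} {R : ℝ} (hR : 0 < R)
    (hsub : closedBall x0 (3 * R) ⊆ (chartAt E4 p).target) {φ : E4 → Bil} (hφ : Measurable φ)
    {C : ℝ} (hφb : ∀ y ∈ closedBall x0 (2 * R), ‖φ y‖ ≤ C)
    (hform : ∀ b : X2 M, (∀ x, x ∉ core p (closedBall x0 (2 * R)) → at2 (b : F2 E4 M) x = 0) →
      Φ b = ∫ x in core p (closedBall x0 (2 * R)),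
        q (rep p D.F (chartAt E4 p x)) (φ (chartAt E4 p x))
          (rep p (b : F2 E4 M) (chartAt E4 p x)) ∂s)
    (b : X2 M) (hb : ∀ x, x ∉ core p (closedBall x0 (2 * R)) → at2 (b : F2 E4 M) x = 0) :
    ∀ᵐ x ∂s, x ∈ core p (closedBall x0 (2 * R)) → qG D.F τ (b : F2 E4 M) x =
      q (rep p D.F (chartAt E4 p x)) (φ (chartAt E4 p x))
        (rep p (b : F2 E4 M) (chartAt E4 p x)) := by
  have h2sub : closedBall x0 (2 * R) ⊆ (chartAt E4 p).target :=
    (closedBall_subset_closedBall (by linarith)).trans hsub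
  have h2c : IsCompact (closedBall x0 (2 * R)) := isCompact_closedBall _ _
  have hAm := core_meas h2c h2sub
  set A := core p (closedBall x0 (2 * R)) with hA
  set g : M → ℝ := A.indicator fun x => q (rep p D.F (chartAt E4 p x)) (φ (chartAt E4 p x))
    (rep p (b : F2 E4 M) (chartAt E4 p x)) with hg
  have hgm : AEStronglyMeasurable g s := aesm_core D hR hsub s hφ b
  obtain ⟨Cq, hCq0, hCq⟩ := bdd_q (p := p) h2c h2sub (J := D.J) (Pol.smF D)
    (fun y hy => spos_rep (sposF D) (h2sub hy)) (fun y hy v => repJ_sq D.sq (h2sub hy) v) hφb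
    (((b.2.2 p).continuousOn).mono h2sub)
  have hgb : ∀ x, |g x| ≤ Cq := by
    intro x
    by_cases hx : x ∈ A
    · rw [hg, indicator_of_mem hx]
      exact hCq _ (chart_core_mem h2sub hx)
    · rw [hg, indicator_of_notMem hx, abs_zero]
      exact hCq0
  have hgi : Integrable g s :=
    Integrable.mono' (integrable_const Cq) hgm (Eventually.of_forall hgb)
  have h1 := ae_eq_of_integral_contMDiff_smul_eq 𝓘(ℝ, E4)
    (hτ.dn.integrable b).locallyIntegrable hgi.locallyIntegrable (by
    intro f hf _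
    let f' : SF M := ⟨f, hf⟩
    have e1 : Φ (mulX M f' b) = ∫ x, f x • qG D.F τ (b : F2 E4 M) x ∂s := by
      rw [hτ.rep]
      congr 1
      funext x
      rw [qG_mulX]
      rfl
    rw [← e1, hform _ (by
      intro x hx
      rw [at2_mulX, hb x hx, smul_zero]), ← integral_indicator hAm]
    congr 1
    funext x
    by_cases hx : x ∈ A
    · rw [hg, indicator_of_mem hx, indicator_of_mem hx, mulX_coe, Vm.rep_fmul,
        (chartAt E4 p).left_inv (core_sub h2sub hx), q_smul_right]
      rfl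
    · rw [hg, indicator_of_notMem hx, indicator_of_notMem hx, smul_zero])
  filter_upwards [h1] with x hx hxA
  rw [hx, hg, indicator_of_mem hxA]

/-- **CHLC**. -/
theorem exists_chRep (D : Dat M) (hF : D.FX ∈ Z2 M) {Φ : X2 M →ₗ[ℝ] ℝ} {s : Measure M}
    (hΦ : Cur D Φ s) {τ : F2 E4 M} (hτ : Den D Φ s τ) {p : M} {x0 : E4} {R₀ : ℝ} (hR : 0 < R₀)
    (hR1 : R₀ ≤ 2) (hsub : closedBall x0 (3 * R₀) ⊆ (chartAt E4 p).target) :
    ∃ L : LC, ChRep D s τ p x0 R₀ L := by
  classical
  have hfin := hΦ.fin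
  obtain ⟨φ, hφm, hφp, hφn, ⟨Cφ, hCφ⟩, hform⟩ :=
    ChDens.chartDens D Φ s hΦ.inv hΦ.nonneg hΦ.rm p x0 R₀ hR hsub
  have h2sub : closedBall x0 (2 * R₀) ⊆ (chartAt E4 p).target :=
    (closedBall_subset_closedBall (by linarith)).trans hsub
  have h2c : IsCompact (closedBall x0 (2 * R₀)) := isCompact_closedBall _ _
  obtain ⟨r, hr, hr1, hr2, hr3⟩ := exists_retr x0 hR
  have hrU : ∀ y, r y ∈ (chartAt E4 p).target := fun y => hsub (ball_subset_closedBall (hr2 y))
  have hbg := bg_comp (chartAt E4 p).open_target (D.smJ p) ((Pol.smF D).2 p)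
    (fun y hy v => repJ_sq D.sq hy v) (fun y hy => spos_rep (sposF D) hy) hr hrU hr3
  set K : Set E4 := closedBall x0 (2 * R₀) with hK
  have hKm : MeasurableSet K := isClosed_closedBall.measurableSet
  set φ' : E4 → Bil := fun y => if y ∈ K then φ y else rep p D.F (r y) with hφ'
  have hφK : ∀ y ∈ K, φ' y = φ y := fun y hy => by simp only [hφ', if_pos hy]
  have hd : Dens (fun y => repJ p D.J (r y)) (fun y => rep p D.F (r y)) φ' := by
    refine ⟨?_, ?_, ?_⟩
    · exact Measurable.ite hKm hφm hbg.smF.continuous.measurable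
    · intro y
      by_cases hy : y ∈ K
      · rw [hφK y hy, hr1 y hy]
        exact hφp y hy
      · simp only [hφ', if_neg hy]
        have h := hbg.pos y
        exact ⟨h.alt, h.inv, fun v => by
          by_cases hv : v = 0
          · simp [hv]
          · exact (h.pos v hv).le⟩
    · intro y
      by_cases hy : y ∈ K
      · rw [hφK y hy, hr1 y hy]
        exact hφn y hy
      · simp only [hφ', if_neg hy]
        exact q_self_of_spos (hbg.sq y) (hbg.pos y)
  have hae : ∀ᵐ y ∂(chMeas p K s), y ∈ K := by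
    rw [ae_iff]
    exact chMeas_compl h2c h2sub s
  -- growth
  obtain ⟨C, hC⟩ := hΦ.growth
  have hs : ∀ x r, 0 < r → s (ball x r) ≤ ENNReal.ofReal (C * r ^ 2) := by
    intro x r hr
    rw [← ENNReal.ofReal_toReal (measure_ne_top s (ball x r))]
    exact ENNReal.ofReal_le_ofReal (hC x r hr)
  obtain ⟨C', hC'⟩ := chMeas_ball_le D.bl h2c h2sub hs
  have hgr : ∀ y r, 0 < r → (chMeas p K s).real (ball y r) ≤ |C'| * r ^ 2 := by
    intro y r hr
    refine ENNReal.toReal_le_of_le_ofReal (by positivity) ((hC' y r hr).trans ?_)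
    exact ENNReal.ofReal_le_ofReal (by gcongr; exact le_abs_self _)
  -- closedness
  have hclos : ClosedIn (fun y => rep p D.F (r y)) (chMeas p K s) φ'
      (ball x0 (4 * (R₀ / 2))) := by
    intro S hS hSc hSs
    have hSs : tsupport S ⊆ ball x0 (2 * R₀) := by
      have : 4 * (R₀ / 2) = 2 * R₀ := by ring
      rwa [this] at hSs
    have hSt : tsupport S ⊆ (chartAt E4 p).target :=
      (hSs.trans ball_subset_closedBall).trans h2sub
    have hS0 : ∀ y, y ∉ tsupport S → S y = 0 := fun y hy => image_eq_zero_of_notMem_tsupport hy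
    have hsm : Smooth1 (ext1 p S) := Pol.smooth1_ext1 hSc.isCompact hSt hS hS0
    have hrep1 : ∀ y ∈ (chartAt E4 p).target, rep1 p (ext1 p S) y = S y :=
      fun y hy => Pol.rep1_ext1_self hy S
    have hz := hΦ.closed ⟨dG (ext1 p S), Smooth2.dG hsm⟩
      ⟨ext1 p S, hsm, fun q y hy => rep_dG hsm hy⟩
    rw [hform _ (by
      intro x hx
      apply dG_zero_of_off hSc.isCompact hSt (fun x hx => Pol.at1_ext1_zero hS0 hx)
      intro h
      apply hx
      obtain ⟨y, hy, rfl⟩ := h
      exact ⟨y, ball_subset_closedBall (hSs hy), rfl⟩)] at hz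
    have hSm : Measurable (En.d1 S) := by
      have h1 : Continuous (fderiv ℝ S) := hS.continuous_fderiv (by simp)
      have h2 : Continuous fun y => fderiv ℝ S y - (fderiv ℝ S y).flip :=
        h1.sub ((ContinuousLinearMap.flipₗᵢ ℝ E4 E4 ℝ).continuous.comp h1)
      exact h2.measurable
    have e1 : ∫ y, q (rep p D.F (r y)) (φ' y) (En.d1 S y) ∂(chMeas p K s) =
        ∫ y, q (rep p D.F y) (φ y) (En.d1 S y) ∂(chMeas p K s) := by
      apply integral_congr_ae
      filter_upwards [hae] with y hy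
      simp only [hφK y hy, hr1 y hy]
    rw [e1, integral_chMeas h2c h2sub s (aesm_integrand (Pol.smF D) hR hsub s hφm hSm), ← hz]
    apply setIntegral_congr_fun (core_meas h2c h2sub)
    intro x hx
    have hy := h2sub (chart_core_mem h2sub hx)
    simp only
    rw [rep_eq_d1 hsm hrep1 hy]
  have hCl : ∀ y ∈ ball x0 (4 * (R₀ / 2)), En.Cl (fun y => rep p D.F (r y)) y := by
    intro y hy
    have hy : y ∈ ball x0 (2 * R₀) := by
      have : 4 * (R₀ / 2) = 2 * R₀ := by ring
      rwa [this] at hy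
    refine En.Cl_congr (c := rep p D.F) ?_ ?_
    · filter_upwards [isOpen_ball.mem_nhds hy] with z hz
      rw [hr1 z (ball_subset_closedBall hz)]
    · exact MonoM.cl_of_closed (Pol.smF D) hF (h2sub (ball_subset_closedBall hy))
  obtain ⟨L, hLJ, hLF, hLx, hLR, hLs, hLφ, hLC⟩ := MkLC_4.mkLC hbg hd (abs_nonneg C') hgr
    (half_pos hR) (by linarith) hclos hCl
  refine ⟨L, hLx, hLR, hLs, fun y hy => ?_, fun y hy => ?_, fun b hb => ?_⟩
  · rw [hLJ]
    simp only
    rw [hr1 y hy]
  · rw [hLF]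
    simp only
    rw [hr1 y hy]
  · filter_upwards [ae_eq_chart D hτ hR hsub hφm hCφ hform b hb] with x hx hxA
    rw [hx hxA, hLφ, hφK _ (chart_core_mem h2sub hxA)]

end

end Crest.Agent.R235.ChLC_4
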