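import Mathlib
import Crest.Agent.R235.CurDefs_132

/-!
Row 235 (S0364), package CUR, helper311: the one-variable profile `MON0` (task 347).
-/

set_option autoImplicit false

open Set Function Filter MeasureTheory intervalIntegral
open scoped ContDiff Topology

namespace Crest.Agent.R235.CurMon0_311

open Crest.Agent.R235.CurDefs_132

noncomputable section

/-- primitive of `K`. -/
def Lam (K : ℝ → ℝ) (t : ℝ) : ℝ := ∫ u in (0:ℝ)..t, K u

/-- the profile. -/
def prof (K : ℝ → ℝ) (r r' t : ℝ) : ℝ := (∫ v in (r' ^ 2)⁻¹..(r ^ 2)⁻¹, K (t * v)) / 2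

section

variable {δ : ℝ} {K : ℝ → ℝ}

theorem K_nn (hK : Cut δ K) (t : ℝ) : 0 ≤ K t := by
  have h := hK.anti (le_max_left t (1 + δ))
  rwa [hK.zero _ (le_max_right t (1 + δ))] at h

theorem K_le (hK : Cut δ K) (t : ℝ) : K t ≤ 1 := by
  have h := hK.anti (min_le_left t 1)
  rwa [hK.one _ (min_le_right t 1)] at h

theorem K_ii (hK : Cut δ K) (a b : ℝ) : IntervalIntegrable K volume a b :=
  hK.smooth.continuous.intervalIntegrable a b

theorem Lam_deriv (hK : Cut δ K) (t : ℝ) : HasDerivAt (Lam K) (K t) t :=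
  integral_hasDerivAt_right (K_ii hK 0 t)
    (hK.smooth.continuous.stronglyMeasurableAtFilter _ _) hK.smooth.continuous.continuousAt

theorem Lam_smooth (hK : Cut δ K) : ContDiff ℝ ∞ (Lam K) := by
  rw [contDiff_infty_iff_deriv]
  refine ⟨fun t => (Lam_deriv hK t).differentiableAt, ?_⟩
  have : deriv (Lam K) = K := funext fun t => (Lam_deriv hK t).deriv
  rw [this]
  exact hK.smooth

theorem Lam_sub (hK : Cut δ K) (a b : ℝ) : Lam K b - Lam K a = ∫ u in a..b, K u := by
  unfold Lam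
  exact integral_interval_sub_left (K_ii hK 0 b) (K_ii hK 0 a)

theorem Lam_mono (hK : Cut δ K) : Monotone (Lam K) := by
  intro a b hab
  have h := Lam_sub hK a b
  have h2 : 0 ≤ ∫ u in a..b, K u := integral_nonneg hab fun u _ => K_nn hK u
  linarith

theorem Lam_zero : Lam K 0 = 0 := by
  unfold Lam
  exact integral_same

theorem Lam_le_one (hK : Cut δ K) {t : ℝ} (ht : t ≤ 1) : Lam K t = t := by
  unfold Lam
  have : ∫ u in (0:ℝ)..t, K u = ∫ u in (0:ℝ)..t, (1:ℝ) := by
    refine integral_congr fun u hu => ?_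
    have : u ≤ 1 := by
      rcases Set.mem_uIcc.1 hu with h | h
      · exact h.2.trans ht
      · exact h.2.trans zero_le_one
    exact hK.one u this
  rw [this]
  simp

theorem Lam_nn (hK : Cut δ K) {t : ℝ} (ht : 0 ≤ t) : 0 ≤ Lam K t := by
  have := Lam_mono hK ht
  rwa [Lam_zero] at this

theorem Lam_ge_one (hK : Cut δ K) {t : ℝ} (ht : 1 ≤ t) : 1 ≤ Lam K t := by
  have := Lam_mono hK ht
  rwa [Lam_le_one hK le_rfl] at this

theorem Lam_const (hK : Cut δ K) {a b : ℝ} (ha : 1 + δ ≤ a) (hb : 1 + δ ≤ b) :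
    Lam K a = Lam K b := by
  have h := Lam_sub hK a b
  have : ∫ u in a..b, K u = ∫ u in a..b, (0:ℝ) := by
    refine integral_congr fun u hu => ?_
    have : 1 + δ ≤ u := by
      rcases Set.mem_uIcc.1 hu with h | h
      · exact ha.trans h.1
      · exact hb.trans h.1
    exact hK.zero u this
  rw [this] at h
  simp at h
  linarith

theorem Lam_le_two (hδ1 : δ ≤ 1) (hK : Cut δ K) (t : ℝ) : Lam K t ≤ 2 := by
  have h1 : Lam K t ≤ Lam K (max t 2) := Lam_mono hK (le_max_left _ _)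
  have h2 : Lam K (max t 2) = Lam K 2 :=
    Lam_const hK (by linarith [le_max_right t 2]) (by linarith)
  have h3 : Lam K 2 ≤ 2 := by
    have : ∫ u in (0:ℝ)..2, K u ≤ ∫ u in (0:ℝ)..2, (1:ℝ) :=
      integral_mono_on (by norm_num) (K_ii hK 0 2) (by simp) fun u _ => K_le hK u
    simpa [Lam] using this
  linarith

theorem prof_mul (hK : Cut δ K) (r r' t : ℝ) :
    t * prof K r r' t = (Lam K (t / r ^ 2) - Lam K (t / r' ^ 2)) / 2 := by
  rw [Lam_sub hK]
  unfold prof
  have h := mul_integral_comp_mul_left (a := (r' ^ 2)⁻¹) (b := (r ^ 2)⁻¹) (f := K) (c := t)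
  rw [div_eq_mul_inv t, div_eq_mul_inv t, ← h]
  ring

theorem prof_anti (hK : Cut δ K) {r r' : ℝ} (hr : 0 < r) (hrr : r < r') :
    Antitone (prof K r r') := by
  intro s t hst
  have hr' : 0 < r' := hr.trans hrr
  have hle : (r' ^ 2)⁻¹ ≤ (r ^ 2)⁻¹ := by
    apply inv_anti₀ (by positivity)
    exact pow_le_pow_left₀ hr.le hrr.le 2
  unfold prof
  have hc : ∀ a : ℝ, Continuous fun v => K (a * v) := fun a =>
    hK.smooth.continuous.comp (continuous_const.mul continuous_id)
  have : ∫ v in (r' ^ 2)⁻¹..(r ^ 2)⁻¹, K (t * v) ≤ ∫ v in (r' ^ 2)⁻¹..(r ^ 2)⁻¹, K (s * v) := by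
    refine integral_mono_on hle ((hc t).intervalIntegrable _ _) ((hc s).intervalIntegrable _ _) ?_
    intro v hv
    apply hK.anti
    have : 0 ≤ v := le_trans (by positivity) hv.1
    exact mul_le_mul_of_nonneg_right hst this
  linarith

theorem prof_small (hK : Cut δ K) {r r' : ℝ} (hr : 0 < r) (hrr : r < r') {t : ℝ}
    (ht : t ≤ r ^ 2) : prof K r r' t = ((r ^ 2)⁻¹ - (r' ^ 2)⁻¹) / 2 := by
  have hr' : 0 < r' := hr.trans hrr
  have hle : (r' ^ 2)⁻¹ ≤ (r ^ 2)⁻¹ := by
    apply inv_anti₀ (by positivity)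
    exact pow_le_pow_left₀ hr.le hrr.le 2
  unfold prof
  have : ∫ v in (r' ^ 2)⁻¹..(r ^ 2)⁻¹, K (t * v) = ∫ v in (r' ^ 2)⁻¹..(r ^ 2)⁻¹, (1:ℝ) := by
    refine integral_congr fun v hv => ?_
    rw [Set.uIcc_of_le hle] at hv
    apply hK.one
    have h0 : 0 ≤ v := le_trans (by positivity) hv.1
    calc t * v ≤ r ^ 2 * v := mul_le_mul_of_nonneg_right ht h0
      _ ≤ r ^ 2 * (r ^ 2)⁻¹ := mul_le_mul_of_nonneg_left hv.2 (by positivity)
      _ = 1 := mul_inv_cancel₀ (by positivity)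
  rw [this]
  simp

theorem prof_pos (hK : Cut δ K) (r r' : ℝ) {t : ℝ} (ht : t ≠ 0) :
    prof K r r' t = (Lam K (t / r ^ 2) - Lam K (t / r' ^ 2)) / (2 * t) := by
  have h := prof_mul hK r r' t
  field_simp
  linarith

theorem prof_smooth (hK : Cut δ K) {r r' : ℝ} (hr : 0 < r) (hrr : r < r') :
    ContDiff ℝ ∞ (prof K r r') := by
  rw [contDiff_iff_contDiffAt]
  intro t
  rcases lt_or_ge t (r ^ 2) with h | h
  · have : prof K r r' =ᶠ[𝓝 t] fun _ => ((r ^ 2)⁻¹ - (r' ^ 2)⁻¹) / 2 := by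
      filter_upwards [Iio_mem_nhds h] with s hs
      exact prof_small hK hr hrr (le_of_lt hs)
    exact contDiffAt_const.congr_of_eventuallyEq this
  · have ht : 0 < t := lt_of_lt_of_le (by positivity) h
    have : prof K r r' =ᶠ[𝓝 t]
        fun t => (Lam K (t / r ^ 2) - Lam K (t / r' ^ 2)) / (2 * t) := by
      filter_upwards [Ioi_mem_nhds ht] with s hs
      exact prof_pos hK r r' (ne_of_gt hs)
    refine ContDiffAt.congr_of_eventuallyEq ?_ this
    have h1 : ContDiff ℝ ∞ fun t : ℝ => Lam K (t / r ^ 2) - Lam K (t / r' ^ 2) :=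
      ((Lam_smooth hK).comp (contDiff_id.div_const _)).sub
        ((Lam_smooth hK).comp (contDiff_id.div_const _))
    exact h1.contDiffAt.div (contDiffAt_const.mul contDiffAt_id) (by simpa using ht.ne')

theorem prof_eq (hK : Cut δ K) {r r' : ℝ} (hr : 0 < r) (hrr : r < r') (t : ℝ) :
    prof K r r' t + t * deriv (prof K r r') t
      = ((r ^ 2)⁻¹ * K (t / r ^ 2) - (r' ^ 2)⁻¹ * K (t / r' ^ 2)) / 2 := by
  have hd : HasDerivAt (prof K r r') (deriv (prof K r r') t) t :=
    ((prof_smooth hK hr hrr).differentiable (by simp) t).hasDerivAt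
  have h1 : HasDerivAt (fun t => t * prof K r r' t)
      (1 * prof K r r' t + t * deriv (prof K r r') t) t := (hasDerivAt_id t).mul hd
  have hL : ∀ a : ℝ, HasDerivAt (fun t => Lam K (t / a)) (K (t / a) * (1 / a)) t := fun a =>
    HasDerivAt.comp (h₂ := Lam K) (h := fun t => t / a) t (Lam_deriv hK (t / a))
      ((hasDerivAt_id t).div_const a)
  have h2 : HasDerivAt (fun t => (Lam K (t / r ^ 2) - Lam K (t / r' ^ 2)) / 2)
      ((K (t / r ^ 2) * (1 / r ^ 2) - K (t / r' ^ 2) * (1 / r' ^ 2)) / 2) t :=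
    ((hL _).sub (hL _)).div_const 2
  have h3 : (fun t => t * prof K r r' t)
      = fun t => (Lam K (t / r ^ 2) - Lam K (t / r' ^ 2)) / 2 := funext (prof_mul hK r r')
  rw [h3] at h1
  have h4 := h1.unique h2
  rw [one_mul] at h4
  rw [h4]
  ring

end

/-- **MON0.** -/
theorem mon0 : MON0 := by
  intro δ K hδ hδ1 hK
  refine ⟨2, 1 / 2, by norm_num, by norm_num, ?_⟩
  intro r r' hr hrr
  have hr' : 0 < r' := hr.trans hrr
  have hr2 : 0 < r ^ 2 := by positivity
  have hr2' : 0 < r' ^ 2 := by positivity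
  have hsq : r ^ 2 ≤ r' ^ 2 := pow_le_pow_left₀ hr.le hrr.le 2
  have habs : ∀ t, 0 < t → |prof K r r' t| ≤ 1 / t := by
    intro t ht
    rw [prof_pos hK r r' ht.ne', abs_div, abs_of_pos (by linarith : 0 < 2 * t),
      div_le_div_iff₀ (by linarith) ht]
    have a1 := Lam_nn hK (div_pos ht hr2).le
    have a2 := Lam_nn hK (div_pos ht hr2').le
    have a3 := Lam_le_two hδ1 hK (t / r ^ 2)
    have a4 := Lam_le_two hδ1 hK (t / r' ^ 2)
    have : |Lam K (t / r ^ 2) - Lam K (t / r' ^ 2)| ≤ 2 := by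
      rw [abs_le]
      constructor <;> linarith
    nlinarith
  have hk : ∀ a t : ℝ, 0 < a → 0 < t → 0 ≤ a⁻¹ * K (t / a) ∧ a⁻¹ * K (t / a) ≤ 2 / t := by
    intro a t ha ht
    refine ⟨mul_nonneg (inv_nonneg.2 ha.le) (K_nn hK _), ?_⟩
    rcases le_or_gt (2 * a) t with h | h
    · rw [hK.zero (t / a) ?_, mul_zero]
      · positivity
      · rw [le_div_iff₀ ha]
        nlinarith
    · calc a⁻¹ * K (t / a) ≤ a⁻¹ * 1 :=
            mul_le_mul_of_nonneg_left (K_le hK _) (inv_nonneg.2 ha.le)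
        _ ≤ 2 / t := by
            rw [mul_one, inv_eq_one_div, div_le_div_iff₀ ha ht]
            linarith
  refine ⟨prof K r r', prof_smooth hK hr hrr, ?_, prof_eq hK hr hrr, ?_, ?_, ?_⟩
  · intro t ht
    have ht0 : 0 < t := lt_of_lt_of_le (by positivity) ht
    rw [prof_pos hK r r' ht0.ne', Lam_const hK (a := t / r ^ 2) (b := t / r' ^ 2)]
    · simp
    · rw [le_div_iff₀ hr2]
      nlinarith
    · rw [le_div_iff₀ hr2']
      nlinarith
  · intro t ht
    have e := prof_eq hK hr hrr t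
    have b1 := habs t ht
    obtain ⟨c1, c2⟩ := hk (r ^ 2) t hr2 ht
    obtain ⟨c3, c4⟩ := hk (r' ^ 2) t hr2' ht
    have e1 : (1:ℝ) / t ≤ 2 / t := by
      rw [div_le_div_iff₀ ht ht]; nlinarith
    have e2 : 2 / t = 2 * (1 / t) := by ring
    refine ⟨b1.trans e1, ?_⟩
    have e3 : t * |deriv (prof K r r') t| ≤ 2 / t := by
      rw [← abs_of_pos ht, ← abs_mul, abs_of_pos ht]
      rw [abs_le] at b1 ⊢
      constructor <;> linarith [b1.1, b1.2]
    rw [le_div_iff₀ (by positivity)]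
    have e4 : t * (t * |deriv (prof K r r') t|) ≤ t * (2 / t) :=
      mul_le_mul_of_nonneg_left e3 ht.le
    have e5 : t * (2 / t) = 2 := by field_simp
    nlinarith
  · intro t _
    exact (prof_anti hK hr hrr).deriv_nonpos
  · intro t ht1 ht2
    have ht : 0 < t := lt_of_lt_of_le (by positivity) ht1
    have e := prof_eq hK hr hrr t
    have z1 : K (t / r ^ 2) = 0 := by
      apply hK.zero
      rw [le_div_iff₀ hr2]
      nlinarith
    have z2 : t / r' ^ 2 ≤ 1 := by
      rw [div_le_one hr2']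
      exact ht2
    have z3 : 1 ≤ Lam K (t / r ^ 2) := by
      apply Lam_ge_one hK
      rw [le_div_iff₀ hr2]
      linarith
    rw [z1, hK.one _ z2, prof_pos hK r r' ht.ne', Lam_le_one hK z2] at e
    have e6 : t * deriv (prof K r r') t = - (Lam K (t / r ^ 2) / (2 * t)) := by
      have : (Lam K (t / r ^ 2) - t / r' ^ 2) / (2 * t)
          = Lam K (t / r ^ 2) / (2 * t) - (r' ^ 2)⁻¹ / 2 := by
        field_simp
      rw [this] at e
      linarith
    have e7 : - deriv (prof K r r') t = Lam K (t / r ^ 2) / (2 * t ^ 2) := by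
      have : deriv (prof K r r') t = (t * deriv (prof K r r') t) / t := by field_simp
      rw [this, e6]
      field_simp
    rw [e7, div_le_div_iff₀ (by positivity) (by positivity)]
    nlinarith [sq_nonneg t]

end

end Crest.Agent.R235.CurMon0_311
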