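import Mathlib
import Crest.Agent.R235.Top_837
import Crest.Agent.R240.HB

/-!
Row 235 (S0364), helper195: HBN (Hahn-Banach, Sullivan): a class which is positive on all non-zero
positive closed currents contains a taming form.
-/

set_option autoImplicit false
set_option maxSynthPendingDepth 3

open Set Function Filter MeasureTheory
open scoped Manifold ContDiff Topology

universe u

namespace Crest.Agent.R235.Hbn_195

open Crest.Agent.R240 Crest.Agent.R240.Ch Crest.Agent.R235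

noncomputable section

section A

variable {M : Type u} [TopologicalSpace M] [ChartedSpace E4 M] [IsManifold 𝓘(ℝ, E4) ∞ M]

/-- `b(v, J v)` in a chart. -/
lemma rep_JJ (J : EndF E4 M) (b : F2 E4 M) (p : M) {y : E4} (hy : y ∈ (chartAt E4 p).target)
    (v : E4) : rep p b y v (repJ p J y v) =
      at2 b ((chartAt E4 p).symm y) (tcc p ((chartAt E4 p).symm y) ((chartAt E4 p).symm y) v)
        (atJ J ((chartAt E4 p).symm y)
          (tcc p ((chartAt E4 p).symm y) ((chartAt E4 p).symm y) v)) := by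
  rw [rep_apply, repJ_apply, tcc_cancel' (symm_mem hy)]

lemma at_JJ (J : EndF E4 M) (b : F2 E4 M) {p x : M} (hx : x ∈ (chartAt E4 p).source) (v : E4) :
    at2 b x v (atJ J x v) = rep p b (chartAt E4 p x) (tcc x p x v)
      (repJ p J (chartAt E4 p x) (tcc x p x v)) := by
  rw [apply_eq_rep hx, apply_eq_repJ hx]

/-- local order unit. -/
lemma unit_local {J : EndF E4 M} (hJs : SmoothJ J) {a b : F2 E4 M} (ha : Smooth2 a)
    (hb : Smooth2 b) (hpos : ∀ x v, v ≠ 0 → 0 < at2 a x v (atJ J x v)) (p : M) :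
    ∃ U ∈ 𝓝 p, ∃ r : ℝ, 0 ≤ r ∧
      ∀ x ∈ U, ∀ v, at2 b x v (atJ J x v) ≤ r * at2 a x v (atJ J x v) := by
  have hy0 : chartAt E4 p p ∈ (chartAt E4 p).target :=
    (chartAt E4 p).map_source (mem_chart_source E4 p)
  obtain ⟨ρ, hρ, hball⟩ := Metric.isOpen_iff.1 (chartAt E4 p).open_target _ hy0
  set K : Set E4 := Metric.closedBall (chartAt E4 p p) (ρ / 2) with hK
  have hKt : K ⊆ (chartAt E4 p).target := fun y hy =>
    hball (Metric.mem_ball.2 (lt_of_le_of_lt (Metric.mem_closedBall.1 hy) (by linarith)))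
  have hKc : IsCompact K := isCompact_closedBall _ _
  set S : Set E4 := Metric.sphere (0 : E4) 1 with hS
  have hSc : IsCompact S := isCompact_sphere _ _
  have hcont : ∀ c : F2 E4 M, Smooth2 c →
      ContinuousOn (fun z : E4 × E4 => rep p c z.1 z.2 (repJ p J z.1 z.2)) (K ×ˢ S) := by
    intro c hc
    have h1 : ContinuousOn (fun z : E4 × E4 => rep p c z.1) (K ×ˢ S) :=
      ((hc.2 p).continuousOn.mono hKt).comp continuousOn_fst (fun z hz => hz.1)
    have h2 : ContinuousOn (fun z : E4 × E4 => repJ p J z.1) (K ×ˢ S) :=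
      ((hJs p).continuousOn.mono hKt).comp continuousOn_fst (fun z hz => hz.1)
    exact (h1.clm_apply continuousOn_snd).clm_apply (h2.clm_apply continuousOn_snd)
  have hposK : ∀ z ∈ K ×ˢ S, 0 < rep p a z.1 z.2 (repJ p J z.1 z.2) := by
    rintro ⟨y, v⟩ ⟨hy, hv⟩
    rw [rep_JJ J a p (hKt hy)]
    apply hpos
    intro h0
    have h1 := tcc_cancel' (E := E4) (symm_mem (hKt hy))
      (tcc p ((chartAt E4 p).symm y) ((chartAt E4 p).symm y) v)
    have h2 := tcc_cancel (E := E4) (symm_mem (hKt hy)) v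
    rw [h0, map_zero] at h2
    rw [← h2] at hv
    simp [hS] at hv
  have hKS : IsCompact (K ×ˢ S) := hKc.prod hSc
  obtain ⟨m, hm, hmle⟩ : ∃ m : ℝ, 0 < m ∧
      ∀ z ∈ K ×ˢ S, m ≤ rep p a z.1 z.2 (repJ p J z.1 z.2) := by
    rcases (K ×ˢ S).eq_empty_or_nonempty with h | h
    · exact ⟨1, one_pos, fun z hz => by rw [h] at hz; exact hz.elim⟩
    · obtain ⟨z0, hz0, hmin⟩ := hKS.exists_isMinOn h (hcont a ha)
      exact ⟨_, hposK z0 hz0, fun z hz => hmin hz⟩
  obtain ⟨C, hC⟩ := hKS.exists_bound_of_continuousOn (hcont b hb)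
  have hC' : ∀ z ∈ K ×ˢ S, rep p b z.1 z.2 (repJ p J z.1 z.2) ≤
      (|C| / m) * rep p a z.1 z.2 (repJ p J z.1 z.2) := by
    intro z hz
    have h1 := (le_abs_self _).trans ((hC z hz).trans (le_abs_self C))
    refine h1.trans ?_
    rw [div_mul_eq_mul_div, le_div_iff₀ hm]
    exact mul_le_mul_of_nonneg_left (hmle z hz) (abs_nonneg C)
  refine ⟨(chartAt E4 p).source ∩ (chartAt E4 p) ⁻¹' K, ?_, |C| / m, by positivity, ?_⟩
  · refine inter_mem ((chartAt E4 p).open_source.mem_nhds (mem_chart_source E4 p)) ?_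
    exact (chartAt E4 p).continuousAt (mem_chart_source E4 p)
      (Metric.closedBall_mem_nhds _ (by linarith))
  · rintro x ⟨hx, hxK⟩ v
    rw [at_JJ J a hx, at_JJ J b hx]
    set u : E4 := tcc x p x v with hu
    rcases eq_or_ne u 0 with h0 | h0
    · rw [h0]; simp
    · have hn : 0 < ‖u‖ := norm_pos_iff.2 h0
      have h1 := hC' (chartAt E4 p x, ‖u‖⁻¹ • u) ⟨hxK, by
        rw [hS, mem_sphere_zero_iff_norm, norm_smul, norm_inv, norm_norm, inv_mul_cancel₀ hn.ne']⟩
      simp only [map_smul, smul_apply, smul_eq_mul] at h1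
      have h2 : ∀ r : ℝ, ‖u‖ ^ 2 * (‖u‖⁻¹ * (‖u‖⁻¹ * r)) = r := by
        intro r; field_simp
      have h3 := mul_le_mul_of_nonneg_left h1 (sq_nonneg ‖u‖)
      rw [h2] at h3
      calc _ ≤ _ := h3
        _ = _ := by
          rw [show ‖u‖ ^ 2 * (|C| / m * (‖u‖⁻¹ * (‖u‖⁻¹ *
            (rep p a (chartAt E4 p x) u) (repJ p J (chartAt E4 p x) u)))) =
            |C| / m * (‖u‖ ^ 2 * (‖u‖⁻¹ * (‖u‖⁻¹ *
            (rep p a (chartAt E4 p x) u) (repJ p J (chartAt E4 p x) u)))) by ring, h2]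

/-- the taming form is an order unit. -/
lemma unit_global [CompactSpace M] {J : EndF E4 M} (hJs : SmoothJ J) {a b : F2 E4 M}
    (ha : Smooth2 a) (hb : Smooth2 b) (hpos : ∀ x v, v ≠ 0 → 0 < at2 a x v (atJ J x v)) :
    ∃ r : ℝ, 0 ≤ r ∧ ∀ x v, at2 b x v (atJ J x v) ≤ r * at2 a x v (atJ J x v) := by
  choose U hU r hr hle using fun p => unit_local hJs ha hb hpos p
  obtain ⟨t, ht⟩ := isCompact_univ.elim_nhds_subcover U (fun x _ => hU x)
  refine ⟨∑ p ∈ t, r p, Finset.sum_nonneg fun p _ => hr p, fun x v => ?_⟩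
  have hx : x ∈ ⋃ p ∈ t, U p := ht.2 (mem_univ x)
  obtain ⟨p, hp, hxp⟩ := mem_iUnion₂.1 hx
  refine (hle p x hxp v).trans ?_
  have h1 : r p ≤ ∑ p ∈ t, r p := Finset.single_le_sum (fun p _ => hr p) hp
  have h2 : 0 ≤ at2 a x v (atJ J x v) := by
    rcases eq_or_ne v 0 with h | h
    · rw [h]; simp
    · exact (hpos x v h).le
  exact mul_le_mul_of_nonneg_right h1 h2

end A

section B

set_option linter.unusedSectionVars false

variable {M : Type u} [TopologicalSpace M] [T2Space M] [CompactSpace M] [ConnectedSpace M]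
  [ChartedSpace E4 M] [IsManifold 𝓘(ℝ, E4) ∞ M]

/-- `b(v, J v)` of an element of `X2 M`. -/
def ev (J : EndF E4 M) (x : M) (v : E4) (b : X2 M) : ℝ :=
  at2 (b.1 : F2 E4 M) x v (atJ J x v)

lemma ev_add (J : EndF E4 M) (x : M) (v : E4) (b c : X2 M) :
    ev J x v (b + c) = ev J x v b + ev J x v c := rfl

lemma ev_sub (J : EndF E4 M) (x : M) (v : E4) (b c : X2 M) :
    ev J x v (b - c) = ev J x v b - ev J x v c := rfl

lemma ev_smul (J : EndF E4 M) (x : M) (v : E4) (r : ℝ) (b : X2 M) :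
    ev J x v (r • b) = r * ev J x v b := rfl

lemma ev_neg (J : EndF E4 M) (x : M) (v : E4) (b : X2 M) :
    ev J x v (-b) = - ev J x v b := rfl

lemma ev_zero (J : EndF E4 M) (x : M) (v : E4) : ev J x v (0 : X2 M) = 0 := rfl

/-- exact forms are closed. -/
lemma closed_of_ex {b : X2 M} (hb : b ∈ EX2 M) : b ∈ Z2 M := by
  obtain ⟨s, hs, hsa⟩ := isEx_iff.1 (show IsEx (b : F2 E4 M) from hb)
  rw [mem_Z2]
  have h : (b.1 : F2 E4 M) = dG s := hsa
  rw [h]
  exact Closed2.dG hs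

theorem hbn_core (a0 : X2 M) (J : EndF E4 M) (hJs : SmoothJ J)
    (hpos : ∀ x v, v ≠ 0 → 0 < ev J x v a0)
    (hsq : ∀ x v, atJ J x (atJ J x v) = -v)
    (c : X2 M) (hc : ∀ S : X2 M →ₗ[ℝ] ℝ, PCur J S → S ≠ 0 → 0 < S c) :
    ∃ e ∈ EX2 M, ∀ x v, v ≠ 0 → 0 < ev J x v (c + e) := by
  have hev0 : ∀ (x : M) (b : X2 M), ev J x 0 b = 0 := by
    intro x b; unfold ev; simp
  have hpos0 : ∀ x v, 0 ≤ ev J x v a0 := by
    intro x v
    rcases eq_or_ne v 0 with h | h
    · rw [h, hev0]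
    · exact (hpos x v h).le
  have hunit : ∀ b : X2 M, ∃ r : ℝ, 0 ≤ r ∧ ∀ x v, ev J x v b ≤ r * ev J x v a0 :=
    fun b => unit_global hJs a0.2 b.2 hpos
  by_contra hcon
  push Not at hcon
  obtain ⟨Φ, hΦ⟩ := HB.exists_linear_of_rel
    (fun (x : X2 M) (r : ℝ) => ∃ e ∈ EX2 M, ∃ s : ℝ, 0 ≤ s ∧
      ∀ (y : M) (v : E4), ev J y v (x - s • c - e) ≤ r * ev J y v a0)
    (by
      intro x
      obtain ⟨r, -, hr⟩ := hunit x
      exact ⟨r, 0, (EX2 M).zero_mem, 0, le_rfl, by simpa using hr⟩)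
    (by
      rintro x y r s ⟨e, he, t, ht, h1⟩ ⟨e', he', t', ht', h2⟩
      refine ⟨e + e', (EX2 M).add_mem he he', t + t', add_nonneg ht ht', fun z v => ?_⟩
      have h3 : x + y - (t + t') • c - (e + e') = (x - t • c - e) + (y - t' • c - e') := by
        rw [add_smul]; abel
      rw [h3, ev_add, add_mul]
      exact add_le_add (h1 z v) (h2 z v))
    (by
      rintro k hk x r ⟨e, he, t, ht, h1⟩
      refine ⟨k • e, (EX2 M).smul_mem k he, k * t, mul_nonneg hk.le ht, fun z v => ?_⟩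
      have h3 : k • x - (k * t) • c - k • e = k • (x - t • c - e) := by
        rw [smul_sub, smul_sub, smul_smul]
      rw [h3, ev_smul, mul_assoc]
      exact mul_le_mul_of_nonneg_left (h1 z v) hk.le)
    (by
      rintro r ⟨e, he, s, hs, h1⟩
      by_contra hr
      push Not at hr
      -- `s c + e` is strictly positive
      have h2 : ∀ (y : M) (v : E4), v ≠ 0 → 0 < ev J y v (s • c + e) := by
        intro y v hv
        have h3 := h1 y v
        have h4 : (0 : X2 M) - s • c - e = -(s • c + e) := by abel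
        rw [h4, ev_neg] at h3
        have := mul_neg_of_neg_of_pos hr (hpos y v hv)
        linarith
      rcases hs.lt_or_eq with hs0 | hs0
      · obtain ⟨x, v, hv, hle⟩ := hcon (s⁻¹ • e) ((EX2 M).smul_mem _ he)
        have h5 := h2 x v hv
        have h6 : s • c + e = s • (c + s⁻¹ • e) := by
          rw [smul_add, smul_smul, mul_inv_cancel₀ hs0.ne', one_smul]
        rw [h6, ev_smul] at h5
        have := mul_nonpos_of_nonneg_of_nonpos hs hle
        linarith
      · -- an exact strictly positive form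
        rw [← hs0] at h2
        simp only [zero_smul, zero_add] at h2
        obtain ⟨k, hk, hk2⟩ : ∃ k : ℝ, 0 ≤ k ∧
            ∀ x v, ev J x v (-c) ≤ k * ev J x v e := by
          exact unit_global hJs e.2 (-c).2 h2
        obtain ⟨x, v, hv, hle⟩ := hcon ((k + 1) • e) ((EX2 M).smul_mem _ he)
        have h5 := h2 x v hv
        have h6 := hk2 x v
        rw [ev_neg] at h6
        rw [ev_add, ev_smul] at hle
        linarith)
  -- the current
  have hex : ∀ b ∈ EX2 M, Φ b = 0 := by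
    intro b hb
    have h1 := hΦ b 0 ⟨b, hb, 0, le_rfl, fun y v => by
      rw [zero_smul, sub_zero, sub_self, ev_zero, zero_mul]⟩
    have h2 := hΦ (-b) 0 ⟨-b, (EX2 M).neg_mem hb, 0, le_rfl, fun y v => by
      rw [zero_smul, sub_zero, sub_self, ev_zero, zero_mul]⟩
    rw [map_neg] at h2
    linarith
  have hnn : ∀ b : X2 M, (∀ x v, 0 ≤ ev J x v b) → 0 ≤ Φ b := by
    intro b hb
    have h1 := hΦ (-b) 0 ⟨0, (EX2 M).zero_mem, 0, le_rfl, fun y v => by
      rw [zero_smul, sub_zero, sub_zero, ev_neg, zero_mul]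
      linarith [hb y v]⟩
    rw [map_neg] at h1
    linarith
  have hS : PCur J Φ := by
    refine ⟨fun b b' hbb => ?_, fun b hb => ?_, fun b hb => hex b hb⟩
    · have h0 : ∀ x v, ev J x v (b - b') = 0 := by
        intro x v
        rw [ev_sub]
        have h1 : ev J x v b' = at2 (b'.1 : F2 E4 M) x v (atJ J x v) := rfl
        rw [h1, ← hbb x, invp_apply, hsq]
        have h2 : at2 (b.1 : F2 E4 M) x (atJ J x v) (-v) = at2 (b.1 : F2 E4 M) x v (atJ J x v) := by
          have h3 : Alt (at2 (b.1 : F2 E4 M) x) := b.2.1 x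
          rw [map_neg, h3.swap]; ring
        rw [h2]
        unfold ev
        ring
      have h1 := hnn (b - b') (fun x v => (h0 x v).ge)
      have h2 := hnn (-(b - b')) (fun x v => by rw [ev_neg, h0, neg_zero])
      rw [map_neg, map_sub] at h2
      rw [map_sub] at h1
      linarith
    · exact hnn b (fun x v => (hb x).nonneg v)
  have hne : Φ ≠ 0 := by
    intro h
    have h1 := hΦ (-a0) (-1) ⟨0, (EX2 M).zero_mem, 0, le_rfl, fun y v => by
      rw [zero_smul, sub_zero, sub_zero, ev_neg, neg_one_mul]⟩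
    rw [h] at h1
    simp only [LinearMap.zero_apply] at h1
    linarith
  have h1 := hc Φ hS hne
  have h2 := hΦ c 0 ⟨0, (EX2 M).zero_mem, 1, zero_le_one, fun y v => by
    rw [one_smul, sub_self, sub_zero, ev_zero, zero_mul]⟩
  linarith

end B

/-- HBN. -/
theorem hbn : HBN.{u} := by
  intro M i1 i2 i3 i4 i5 i6 w J hJ c hc
  have hpos : ∀ (x : M) (v : E4), v ≠ 0 → 0 < ev J x v (w 0).1 := fun x v hv => hJ.tame x v hv
  obtain ⟨e, he, h⟩ := hbn_core (w 0).1 J hJ.smooth hpos hJ.sq c.1 hc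
  have hz : e ∈ Z2 M := closed_of_ex he
  obtain ⟨a, ha⟩ : ∃ a : Z2 M, a = c + (⟨e, hz⟩ : Z2 M) := ⟨_, rfl⟩
  have ha1 : a.1 = c.1 + e := by rw [ha]; rfl
  refine ⟨a, ?_, fun x v hv => ?_⟩
  · rw [ha, map_add]
    have h0 : cls (⟨e, hz⟩ : Z2 M) = 0 := (Submodule.Quotient.mk_eq_zero _).2 he
    rw [h0, add_zero]
  · have h2 := h x v hv
    rw [← ha1] at h2
    exact h2

end

end Crest.Agent.R235.Hbn_195
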