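import Crest.Agent.R235.Ip3_288
import Crest.Agent.R235.Hbn_195

/-!
Row 235 (helper288): positive closed currents (`PCur`): sign on semi-positive forms, mass bound,
`S ≠ 0 → 0 < S (w 0)`, cone operations, compactness of the normalised currents `SS w J` (pointwise
convergence), Krein-Milman (`exists_extreme`), splitting at extreme points (`extreme_split`).
-/

set_option autoImplicit false
set_option maxSynthPendingDepth 3

open Set Function Filter MeasureTheory
open scoped Manifold ContDiff Topology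

universe u

namespace Crest.Agent.R235.CurB_288

open Crest.Agent.R240 Crest.Agent.R240.Ch Crest.Agent.R240.Int Crest.Agent.R235
open Crest.Agent.R235.Hbn_195

noncomputable section

/-! ### positive closed currents -/

section Cur

variable {M : Type u} [TopologicalSpace M] [T2Space M] [CompactSpace M] [ConnectedSpace M]
  [ChartedSpace E4 M] [IsManifold 𝓘(ℝ, E4) ∞ M]

omit [T2Space M] [CompactSpace M] [ConnectedSpace M] in
theorem nonneg_of_ev {J : EndF E4 M} (hJs : SmoothJ J) (hsq : ∀ x v, atJ J x (atJ J x v) = -v)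
    {S : X2 M →ₗ[ℝ] ℝ} (hS : PCur J S) {b : X2 M}
    (hb : ∀ x v, 0 ≤ at2 (b.1 : F2 E4 M) x v (atJ J x v)) : 0 ≤ S b := by
  have h1 : S b = S (invM J hJs b) := hS.inv b (invM J hJs b) fun x => rfl
  rw [h1]
  refine hS.nonneg _ fun x => ⟨?_, ?_, fun v => ?_⟩
  · exact Alt.invp (b.2.1 x) _
  · exact invp_inv (hsq x) _
  · change 0 ≤ invp (atJ J x) (at2 (b.1 : F2 E4 M) x) v (atJ J x v)
    rw [invp_diag (hsq x) (b.2.1 x)]
    exact hb x v

omit [T2Space M] [ConnectedSpace M] in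
/-- mass bound. -/
theorem mass_bound {w : Trip M} {J : EndF E4 M} (hJ : IsJ w J) (b : X2 M) :
    ∃ r : ℝ, 0 ≤ r ∧ ∀ S : X2 M →ₗ[ℝ] ℝ, PCur J S → |S b| ≤ r * S (w 0).1 := by
  obtain ⟨r1, hr1, h1⟩ := unit_global hJ.smooth (smooth2_coe (w 0)) b.2 hJ.tame
  obtain ⟨r2, hr2, h2⟩ := unit_global hJ.smooth (smooth2_coe (w 0)) (-b).2 hJ.tame
  refine ⟨max r1 r2, le_max_of_le_left hr1, fun S hS => ?_⟩
  have h0 : 0 ≤ S (w 0).1 := nonneg_of_ev hJ.smooth hJ.sq hS fun x v => by
    rcases eq_or_ne v 0 with h | h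
    · rw [h]; simp
    · exact (hJ.tame x v h).le
  have h3 : 0 ≤ S (r1 • (w 0).1 - b) := nonneg_of_ev hJ.smooth hJ.sq hS fun x v => by
    have := h1 x v
    change 0 ≤ r1 * at2 ((w 0).1.1 : F2 E4 M) x v (atJ J x v) - at2 (b.1 : F2 E4 M) x v (atJ J x v)
    linarith
  have h4 : 0 ≤ S (r2 • (w 0).1 - (-b)) := nonneg_of_ev hJ.smooth hJ.sq hS fun x v => by
    have := h2 x v
    change 0 ≤ r2 * at2 ((w 0).1.1 : F2 E4 M) x v (atJ J x v) -
      at2 ((-b : X2 M).1 : F2 E4 M) x v (atJ J x v)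
    linarith
  rw [map_sub, map_smul, smul_eq_mul] at h3 h4
  rw [map_neg] at h4
  have h5 : r1 * S (w 0).1 ≤ max r1 r2 * S (w 0).1 := mul_le_mul_of_nonneg_right (le_max_left _ _) h0
  have h6 : r2 * S (w 0).1 ≤ max r1 r2 * S (w 0).1 := mul_le_mul_of_nonneg_right (le_max_right _ _) h0
  rw [abs_le]
  constructor <;> linarith

omit [T2Space M] [ConnectedSpace M] in
theorem cur_pos {w : Trip M} {J : EndF E4 M} (hJ : IsJ w J) {S : X2 M →ₗ[ℝ] ℝ} (hS : PCur J S)
    (h0 : S ≠ 0) : 0 < S (w 0).1 := by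
  by_contra h
  apply h0
  ext b
  obtain ⟨r, hr, h1⟩ := mass_bound hJ b
  have h2 := h1 S hS
  have h3 : r * S (w 0).1 ≤ 0 := mul_nonpos_of_nonneg_of_nonpos hr (not_lt.1 h)
  have h4 : |S b| = 0 := le_antisymm (h2.trans h3) (abs_nonneg _)
  simpa using h4

omit [T2Space M] [CompactSpace M] [ConnectedSpace M] in
theorem PCur.add {J : EndF E4 M} {S T : X2 M →ₗ[ℝ] ℝ} (hS : PCur J S) (hT : PCur J T) :
    PCur J (S + T) where
  inv b c h := by rw [LinearMap.add_apply, LinearMap.add_apply, hS.inv b c h, hT.inv b c h]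
  nonneg b h := add_nonneg (hS.nonneg b h) (hT.nonneg b h)
  closed b h := by rw [LinearMap.add_apply, hS.closed b h, hT.closed b h, add_zero]

omit [T2Space M] [CompactSpace M] [ConnectedSpace M] in
theorem PCur.smul {J : EndF E4 M} {S : X2 M →ₗ[ℝ] ℝ} (hS : PCur J S) {r : ℝ} (hr : 0 ≤ r) :
    PCur J (r • S) where
  inv b c h := by rw [LinearMap.smul_apply, LinearMap.smul_apply, hS.inv b c h]
  nonneg b h := mul_nonneg hr (hS.nonneg b h)
  closed b h := by rw [LinearMap.smul_apply, hS.closed b h, smul_zero]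

omit [T2Space M] [CompactSpace M] [ConnectedSpace M] in
/-- currents kill the pair. -/
theorem cur_anti {w : Trip M} {J : EndF E4 M} (hJ : IsJ w J) {S : X2 M →ₗ[ℝ] ℝ}
    (hS : ∀ b c : X2 M, (∀ x, invp (atJ J x) (at2 (b.1 : F2 E4 M) x) = at2 (c.1 : F2 E4 M) x) →
      S b = S c) {i : Fin 3} (hi : i ≠ 0) : S (w i).1 = 0 := by
  have h : S (w i).1 = S 0 := hS _ _ fun x => by
    have h1 : invp (atJ J x) (val (w i) x) = 0 := by
      apply invp_of_anti
      intro u v
      fin_cases i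
      · exact absurd rfl hi
      · exact hJ.anti1 x u v
      · exact hJ.anti2 x u v
    exact h1
  rw [h, map_zero]

/-- the normalised currents. -/
def SS (w : Trip M) (J : EndF E4 M) : Set (X2 M → ℝ) :=
  {f | (∀ b c, f (b + c) = f b + f c) ∧ (∀ (r : ℝ) b, f (r • b) = r * f b) ∧
    (∀ b c : X2 M, (∀ x, invp (atJ J x) (at2 (b.1 : F2 E4 M) x) = at2 (c.1 : F2 E4 M) x) →
      f b = f c) ∧
    (∀ b : X2 M, PosG J (b.1 : F2 E4 M) → 0 ≤ f b) ∧
    (∀ b : X2 M, IsEx (b.1 : F2 E4 M) → f b = 0) ∧ f (w 0).1 = 1}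

omit [T2Space M] [CompactSpace M] [ConnectedSpace M] in
theorem mem_SS {w : Trip M} {J : EndF E4 M} {f : X2 M → ℝ} :
    f ∈ SS w J ↔ ∃ S : X2 M →ₗ[ℝ] ℝ, PCur J S ∧ S (w 0).1 = 1 ∧ (S : X2 M → ℝ) = f := by
  constructor
  · rintro ⟨h1, h2, h3, h4, h5, h6⟩
    exact ⟨{ toFun := f, map_add' := h1, map_smul' := h2 }, ⟨h3, h4, h5⟩, h6, rfl⟩
  · rintro ⟨S, hS, h1, rfl⟩
    exact ⟨fun b c => map_add S b c, fun r b => map_smul S r b, hS.inv, hS.nonneg, hS.closed, h1⟩

omit [T2Space M] [ConnectedSpace M] in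
theorem isCompact_SS {w : Trip M} {J : EndF E4 M} (hJ : IsJ w J) : IsCompact (SS w J) := by
  choose r hr h using fun b : X2 M => mass_bound hJ b
  have hK : IsCompact (Set.pi univ fun b : X2 M => Icc (-(r b)) (r b)) :=
    isCompact_univ_pi fun b => isCompact_Icc
  refine hK.of_isClosed_subset ?_ ?_
  · have e : SS w J = (⋂ b : X2 M, ⋂ c : X2 M, {f | f (b + c) = f b + f c}) ∩
        ((⋂ r : ℝ, ⋂ b : X2 M, {f | f (r • b) = r * f b}) ∩
        ((⋂ b : X2 M, ⋂ c : X2 M, ⋂ _ : ∀ x, invp (atJ J x) (at2 (b.1 : F2 E4 M) x) =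
          at2 (c.1 : F2 E4 M) x, {f | f b = f c}) ∩
        ((⋂ b : X2 M, ⋂ _ : PosG J (b.1 : F2 E4 M), {f | 0 ≤ f b}) ∩
        ((⋂ b : X2 M, ⋂ _ : IsEx (b.1 : F2 E4 M), {f | f b = 0}) ∩
          {f | f (w 0).1 = 1})))) := by
      ext f
      simp only [SS, mem_ofPred_eq, mem_inter_iff, mem_iInter]
    rw [e]
    refine IsClosed.inter (isClosed_iInter fun b => isClosed_iInter fun c => ?_)
      (IsClosed.inter (isClosed_iInter fun r => isClosed_iInter fun b => ?_)
      (IsClosed.inter (isClosed_iInter fun b => isClosed_iInter fun c => isClosed_iInter fun _ => ?_)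
      (IsClosed.inter (isClosed_iInter fun b => isClosed_iInter fun _ => ?_)
      (IsClosed.inter (isClosed_iInter fun b => isClosed_iInter fun _ => ?_) ?_))))
    · exact isClosed_eq (continuous_apply _) (by fun_prop)
    · exact isClosed_eq (continuous_apply _) (continuous_const.mul (continuous_apply _))
    · exact isClosed_eq (continuous_apply _) (continuous_apply _)
    · exact isClosed_le continuous_const (continuous_apply _)
    · exact isClosed_eq (continuous_apply _) continuous_const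
    · exact isClosed_eq (continuous_apply _) continuous_const
  · intro f hf b _
    obtain ⟨S, hS, h1, rfl⟩ := mem_SS.1 hf
    have h2 := h b S hS
    rw [h1, mul_one, abs_le] at h2
    exact h2

omit [T2Space M] [ConnectedSpace M] in
/-- Krein-Milman: a continuous linear functional which is `≤ 0` somewhere on the normalised
currents is `≤ 0` at an extreme point. -/
theorem exists_extreme {w : Trip M} {J : EndF E4 M} (hJ : IsJ w J) (a : X2 M)
    (h : ∃ f ∈ SS w J, f a ≤ 0) : ∃ f ∈ (SS w J).extremePoints ℝ, f a ≤ 0 := by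
  obtain ⟨f1, hf1, h1⟩ := h
  have hc := isCompact_SS hJ
  obtain ⟨f2, hf2, h2⟩ := hc.exists_isMinOn ⟨f1, hf1⟩ (f := fun f : X2 M → ℝ => f a)
    (continuous_apply a).continuousOn
  have hmin : ∀ f ∈ SS w J, f2 a ≤ f a := fun f hf => h2 hf
  set F : Set (X2 M → ℝ) := {f ∈ SS w J | f a = f2 a} with hF
  have hFc : IsCompact F := hc.inter_right (isClosed_eq (continuous_apply a) continuous_const)
  have hFne : F.Nonempty := ⟨f2, hf2, rfl⟩
  obtain ⟨f, hf⟩ := hFc.extremePoints_nonempty hFne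
  have hext : IsExtreme ℝ (SS w J) F := by
    refine ⟨fun f hf => hf.1, ?_⟩
    rintro x hx y hy z ⟨hz, hza⟩ ⟨s, t, hs, ht, hst, rfl⟩
    have h3 := hmin x hx
    have h4 := hmin y hy
    have h5 : s * x a + t * y a = f2 a := hza
    refine ⟨hx, ?_⟩
    have h6 : f2 a = s * f2 a + t * f2 a := by rw [← add_mul, hst, one_mul]
    nlinarith
  refine ⟨f, hext.extremePoints_subset_extremePoints hf, ?_⟩
  have h7 : f a = f2 a := (extremePoints_subset hf).2
  rw [h7]
  exact (hmin f1 hf1).trans h1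

omit [T2Space M] [ConnectedSpace M] in
/-- at an extreme point every summand is a multiple. -/
theorem extreme_split {w : Trip M} {J : EndF E4 M} (hJ : IsJ w J) {S T S' : X2 M →ₗ[ℝ] ℝ}
    (hS1 : (S : X2 M → ℝ) ∈ (SS w J).extremePoints ℝ) (hT : PCur J T) (hS' : PCur J S')
    (e : S = T + S') (hT0 : T ≠ 0) : T = (T (w 0).1) • S := by
  have hS : S (w 0).1 = 1 := by
    obtain ⟨S1, -, h1, h2⟩ := mem_SS.1 (extremePoints_subset hS1)
    rw [← h2]; exact h1
  have hl := cur_pos hJ hT hT0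
  set l := T (w 0).1 with hldef
  by_cases h0 : S' = 0
  · have : T = S := by rw [e, h0, add_zero]
    have h1 : l = 1 := by rw [hldef, this, hS]
    rw [h1, one_smul, this]
  · have hl' := cur_pos hJ hS' h0
    have hsum : l + S' (w 0).1 = 1 := by
      rw [← hS, e]; rfl
    have hx : ((l⁻¹ • T : X2 M →ₗ[ℝ] ℝ) : X2 M → ℝ) ∈ SS w J :=
      mem_SS.2 ⟨_, PCur.smul hT (inv_nonneg.2 hl.le), by
        rw [LinearMap.smul_apply, smul_eq_mul, inv_mul_cancel₀ hl.ne'], rfl⟩
    have hy : (((S' (w 0).1)⁻¹ • S' : X2 M →ₗ[ℝ] ℝ) : X2 M → ℝ) ∈ SS w J :=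
      mem_SS.2 ⟨_, PCur.smul hS' (inv_nonneg.2 hl'.le), by
        rw [LinearMap.smul_apply, smul_eq_mul, inv_mul_cancel₀ hl'.ne'], rfl⟩
    have hseg : (S : X2 M → ℝ) ∈ openSegment ℝ ((l⁻¹ • T : X2 M →ₗ[ℝ] ℝ) : X2 M → ℝ)
        (((S' (w 0).1)⁻¹ • S' : X2 M →ₗ[ℝ] ℝ) : X2 M → ℝ) := by
      refine ⟨l, S' (w 0).1, hl, hl', hsum, ?_⟩
      funext b
      simp only [Pi.add_apply, Pi.smul_apply, LinearMap.smul_apply, smul_eq_mul]
      rw [← mul_assoc, ← mul_assoc, mul_inv_cancel₀ hl.ne', mul_inv_cancel₀ hl'.ne', one_mul,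
        one_mul, e]
      rfl
    have h1 := hS1.2 hx hy hseg
    have h2 : l⁻¹ • T = S := by
      apply LinearMap.ext
      intro b
      exact congrFun h1 b
    rw [← h2, smul_smul, mul_inv_cancel₀ hl.ne', one_smul]

end Cur

end

end Crest.Agent.R235.CurB_288
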