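import Mathlib
import Crest.Agent.R235.SwcDefs_215
import Crest.Agent.R235.CurB_288

/-!
Row 235 (S0364), package TOR / SWC, helper225: node LIMT, part A.
Ultrafilter limits of closed positive currents; the lower bound of the density passes to the limit.
-/

set_option autoImplicit false
set_option maxSynthPendingDepth 3

open Set Function Filter MeasureTheory Metric
open scoped Manifold ContDiff Topology

universe u

namespace Crest.Agent.R235.Limt

open Crest.Agent.R240 Crest.Agent.R240.Ch Crest.Agent.R235 Crest.Agent.R235.Swc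

noncomputable section

section PC

variable {M : Type u} [TopologicalSpace M] [T2Space M] [CompactSpace M] [ConnectedSpace M]
  [ChartedSpace E4 M] [IsManifold 𝓘(ℝ, E4) ∞ M]

/-- ultrafilter limit of currents of bounded mass. -/
theorem exists_lim {w : Trip M} {J : EndF E4 M} (hJ : IsJ w J) (T : ℕ → X2 M →ₗ[ℝ] ℝ)
    (hT : ∀ n, PCur J (T n)) (K : ℝ) (hK : ∀ n, T n (w 0).1 ≤ K) :
    ∃ S : X2 M →ₗ[ℝ] ℝ, PCur J S ∧
      ∀ b, Tendsto (fun n => T n b) (hyperfilter ℕ : Filter ℕ) (𝓝 (S b)) := by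
  have h1 : ∀ b : X2 M, ∃ t : ℝ, Tendsto (fun n => T n b) (hyperfilter ℕ : Filter ℕ) (𝓝 t) := by
    intro b
    obtain ⟨r, hr, h⟩ := CurB_288.mass_bound hJ b
    have h2 : ∀ n, T n b ∈ Icc (-(r * K)) (r * K) := by
      intro n
      have h3 := (h (T n) (hT n)).trans (mul_le_mul_of_nonneg_left (hK n) hr)
      exact ⟨(abs_le.1 h3).1, (abs_le.1 h3).2⟩
    obtain ⟨t, -, ht⟩ := isCompact_Icc.ultrafilter_le_nhds ((hyperfilter ℕ).map fun n => T n b)
      (by
        rw [Filter.le_principal_iff]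
        exact Filter.mem_map.2 (Filter.univ_mem' h2))
    exact ⟨t, ht⟩
  choose S hS using h1
  let S' : X2 M →ₗ[ℝ] ℝ :=
    { toFun := S
      map_add' := fun b c => tendsto_nhds_unique (hS (b + c))
        (by simpa using (hS b).add (hS c))
      map_smul' := fun r b => tendsto_nhds_unique (hS (r • b))
        (by simpa using (hS b).const_mul r) }
  refine ⟨S', ⟨fun b c h => ?_, fun b h => ?_, fun b h => ?_⟩, hS⟩
  · refine tendsto_nhds_unique (hS b) ?_
    have e : (fun n => T n b) = fun n => T n c := funext fun n => (hT n).inv b c h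
    rw [e]
    exact hS c
  · exact ge_of_tendsto' (hS b) fun n => (hT n).nonneg b h
  · refine tendsto_nhds_unique (hS b) ?_
    have e : (fun n => T n b) = fun _ => (0 : ℝ) := funext fun n => (hT n).closed b h
    rw [e]
    exact tendsto_const_nhds

end PC

section Met

variable {M : Type u} [MetricSpace M] [CompactSpace M] [ConnectedSpace M] [ChartedSpace E4 M]
    [IsManifold 𝓘(ℝ, E4) ∞ M] [MeasurableSpace M] [BorelSpace M]

omit [ConnectedSpace M] [MeasurableSpace M] [BorelSpace M] in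
/-- smooth cut-offs between balls. -/
theorem exists_cut (x : M) {r R : ℝ} (hrR : r < R) :
    ∃ χ : M → ℝ, SmoothF E4 χ ∧ (∀ y, 0 ≤ χ y) ∧ (∀ y, χ y ≤ 1) ∧
      (∀ y ∈ closedBall x r, χ y = 1) ∧ ∀ y ∉ ball x R, χ y = 0 := by
  obtain ⟨f, hf0, hf1, hf⟩ := exists_contMDiffMap_zero_one_of_isClosed 𝓘(ℝ, E4) (n := (⊤ : ℕ∞))
    (M := M) (s := (ball x R)ᶜ) (t := closedBall x r) isOpen_ball.isClosed_compl
    isClosed_closedBall
    (by
      rw [Set.disjoint_compl_left_iff_subset]
      exact closedBall_subset_ball hrR)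
  exact ⟨fun x => f x, (smoothF_iff _).1 f.contMDiff, fun x => (hf x).1, fun x => (hf x).2,
    fun y hy => hf1 hy, fun y hy => hf0 hy⟩

variable (D : Dat M)

/-- `f F`. -/
def fX {f : M → ℝ} (hf : SmoothF E4 f) : X2 M := ⟨fmul f D.F, Smooth2.fmul hf (Int.dat_smF D)⟩

variable {D}

omit [ConnectedSpace M] in
theorem int_eq {S : X2 M →ₗ[ℝ] ℝ} {s : Measure M} (h : T1_195.Cur D S s) {f : M → ℝ}
    (hf : SmoothF E4 f) : ∫ x, f x ∂s = S (fX D hf) :=
  (h.rm.trace f hf (fX D hf) rfl).symm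

omit [ConnectedSpace M] in
theorem integrable_sm {s : Measure M} [IsFiniteMeasure s] {f : M → ℝ} (hf : SmoothF E4 f) :
    Integrable f s := by
  have hc : Continuous f := ((smoothF_iff _).2 hf).continuous
  exact hc.integrable_of_hasCompactSupport (HasCompactSupport.of_compactSpace f)

omit [ConnectedSpace M] in
/-- lower bound of the integral of a cut-off. -/
theorem le_int {s : Measure M} [IsFiniteMeasure s] {χ : M → ℝ} (hχ : SmoothF E4 χ)
    (h0 : ∀ y, 0 ≤ χ y) {A : Set M} (hA : MeasurableSet A) (h1 : ∀ y ∈ A, χ y = 1) :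
    s.real A ≤ ∫ y, χ y ∂s := by
  have h2 : s.real A = ∫ y, indicator A (fun _ => (1 : ℝ)) y ∂s := by
    rw [integral_indicator hA]; simp
  rw [h2]
  refine integral_mono ((integrable_const 1).indicator hA) (integrable_sm hχ) fun y => ?_
  by_cases hy : y ∈ A
  · rw [indicator_of_mem hy, h1 y hy]
  · rw [indicator_of_notMem hy]; exact h0 y

omit [ConnectedSpace M] in
/-- upper bound of the integral of a cut-off. -/
theorem int_le {s : Measure M} [IsFiniteMeasure s] {χ : M → ℝ} (hχ : SmoothF E4 χ)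
    (h1 : ∀ y, χ y ≤ 1) {A : Set M} (hA : MeasurableSet A) (h0 : ∀ y ∉ A, χ y = 0) :
    ∫ y, χ y ∂s ≤ s.real A := by
  have h2 : s.real A = ∫ y, indicator A (fun _ => (1 : ℝ)) y ∂s := by
    rw [integral_indicator hA]; simp
  rw [h2]
  refine integral_mono (integrable_sm hχ) ((integrable_const 1).indicator hA) fun y => ?_
  by_cases hy : y ∈ A
  · rw [indicator_of_mem hy]; exact h1 y
  · rw [indicator_of_notMem hy, h0 y hy]

omit [CompactSpace M] [ConnectedSpace M] [ChartedSpace E4 M] [IsManifold 𝓘(ℝ, E4) ∞ M]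
  [BorelSpace M] in
/-- a set of positive measure contains a point of the support. -/
theorem exists_sup [SecondCountableTopology M] {s : Measure M} [IsFiniteMeasure s] {A : Set M}
    (hA : 0 < s.real A) : ∃ x ∈ A, Sup s x := by
  by_contra hcon
  push Not at hcon
  have h1 : ∀ x ∈ A, ∃ r : ℝ, 0 < r ∧ s (ball x r) = 0 := by
    intro x hx
    have h2 := hcon x hx
    unfold Sup at h2
    push Not at h2
    obtain ⟨r, hr, h3⟩ := h2
    refine ⟨r, hr, ?_⟩
    have h4 : s.real (ball x r) = 0 := le_antisymm h3 measureReal_nonneg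
    exact (measureReal_eq_zero_iff).1 h4
  have h5 : s A = 0 := by
    refine measure_null_of_locally_null A fun x hx => ?_
    obtain ⟨r, hr, h3⟩ := h1 x hx
    exact ⟨ball x r, mem_nhdsWithin_of_mem_nhds (ball_mem_nhds x hr), h3⟩
  have h6 : s.real A = 0 := by rw [Measure.real, h5]; rfl
  exact hA.ne' h6

/-- **the limit theorem.** -/
theorem lim_low [SecondCountableTopology M] {w : Trip M} (hJ : IsJ w D.J)
    (T : ℕ → X2 M →ₗ[ℝ] ℝ) (s : ℕ → Measure M)
    (hT : ∀ n, T1_195.Cur D (T n) (s n)) (hP : ∀ n, PCur D.J (T n)) (K : ℝ)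
    (hK : ∀ n, T n (w 0).1 ≤ K)
    (κ r0 : ℝ) (hκ : 0 < κ) (hr0 : 0 < r0)
    (hlow : ∀ n x, Sup (s n) x → ∀ r, 0 < r → r ≤ r0 → κ * r ^ 2 ≤ (s n).real (ball x r))
    (x : ℕ → M) (hx : ∀ n, Sup (s n) (x n)) (x0 : M) (hx0 : Tendsto x atTop (𝓝 x0)) :
    ∃ (S : X2 M →ₗ[ℝ] ℝ) (t : Measure M), PCur D.J S ∧ T1_195.Cur D S t ∧
      (∀ b, Tendsto (fun n => T n b) (hyperfilter ℕ : Filter ℕ) (𝓝 (S b))) ∧
      LowDens t ∧ Sup t x0 := by
  obtain ⟨S, hS, hlim⟩ := exists_lim hJ T hP K hK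
  have hSinv : D.IsInv S := fun b => hS.inv b (D.pi' b) fun x => rfl
  have hSnn : D.IsNonneg S := fun P hP => hS.nonneg P hP
  obtain ⟨t, ht⟩ := T1_195.exists_cur D hSinv hSnn hS.closed
  have : IsFiniteMeasure t := ht.fin
  have hsfin : ∀ n, IsFiniteMeasure (s n) := fun n => (hT n).fin
  -- convergence of the integrals
  have hint : ∀ {f : M → ℝ} (hf : SmoothF E4 f),
      Tendsto (fun n => ∫ y, f y ∂(s n)) (hyperfilter ℕ : Filter ℕ) (𝓝 (∫ y, f y ∂t)) := by
    intro f hf
    rw [int_eq ht hf]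
    have e : (fun n => ∫ y, f y ∂(s n)) = fun n => T n (fX D hf) :=
      funext fun n => int_eq (hT n) hf
    rw [e]
    exact hlim _
  refine ⟨S, t, hS, ht, hlim, ?_, ?_⟩
  · refine ⟨κ / 64, r0, by positivity, hr0, fun y hy r hr hrr => ?_⟩
    -- cut-offs
    obtain ⟨χ, hχs, hχ0, hχ1, hχe, hχz⟩ := exists_cut y (r := r / 2) (R := r) (by linarith)
    obtain ⟨ψ, hψs, hψ0, hψ1, hψe, hψz⟩ := exists_cut y (r := r / 8) (R := r / 4) (by linarith)
    have h1 : 0 < ∫ z, ψ z ∂t := by
      refine lt_of_lt_of_le (hy (r / 8) (by linarith)) ?_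
      exact le_int hψs hψ0 measurableSet_ball fun z hz => hψe z (ball_subset_closedBall hz)
    have h2 : ∀ᶠ n in (hyperfilter ℕ : Filter ℕ), 0 < ∫ z, ψ z ∂(s n) :=
      (hint hψs).eventually (lt_mem_nhds h1)
    have h3 : ∀ᶠ n in (hyperfilter ℕ : Filter ℕ), κ * (r / 4) ^ 2 ≤ ∫ z, χ z ∂(s n) := by
      filter_upwards [h2] with n hn
      have h4 : 0 < (s n).real (ball y (r / 4)) :=
        lt_of_lt_of_le hn (int_le hψs hψ1 measurableSet_ball hψz)
      obtain ⟨z, hz, hzs⟩ := exists_sup h4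
      have h5 := hlow n z hzs (r / 4) (by linarith) (by linarith)
      have h6 : ball z (r / 4) ⊆ closedBall y (r / 2) := by
        intro u hu
        rw [mem_closedBall]
        rw [mem_ball] at hu hz
        have := dist_triangle u z y
        linarith
      refine h5.trans ?_
      refine (measureReal_mono h6).trans ?_
      exact le_int hχs hχ0 measurableSet_closedBall hχe
    have h7 : κ * (r / 4) ^ 2 ≤ ∫ z, χ z ∂t := ge_of_tendsto (hint hχs) h3
    have h8 : ∫ z, χ z ∂t ≤ t.real (ball y r) := int_le hχs hχ1 measurableSet_ball hχz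
    have h9 : κ / 64 * r ^ 2 ≤ κ * (r / 4) ^ 2 := by
      have : κ * (r / 4) ^ 2 = κ / 16 * r ^ 2 := by ring
      rw [this]
      have : 0 ≤ r ^ 2 := sq_nonneg _
      nlinarith
    linarith
  · intro r hr
    obtain ⟨χ, hχs, hχ0, hχ1, hχe, hχz⟩ := exists_cut x0 (r := r / 2) (R := r) (by linarith)
    set ρ : ℝ := min (r / 4) r0 with hρ
    have hρ0 : 0 < ρ := lt_min (by linarith) hr0
    have h1 : ∀ᶠ n in atTop, x n ∈ ball x0 (r / 4) := hx0 (ball_mem_nhds _ (by linarith))
    have h2 : ∀ᶠ n in (hyperfilter ℕ : Filter ℕ), x n ∈ ball x0 (r / 4) :=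
      Nat.hyperfilter_le_atTop h1
    have h3 : ∀ᶠ n in (hyperfilter ℕ : Filter ℕ), κ * ρ ^ 2 ≤ ∫ z, χ z ∂(s n) := by
      filter_upwards [h2] with n hn
      have h5 := hlow n (x n) (hx n) ρ hρ0 (min_le_right _ _)
      have h6 : ball (x n) ρ ⊆ closedBall x0 (r / 2) := by
        intro u hu
        rw [mem_closedBall]
        rw [mem_ball] at hu hn
        have := dist_triangle u (x n) x0
        have := min_le_left (r / 4) r0
        linarith
      refine h5.trans ?_
      refine (measureReal_mono h6).trans ?_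
      exact le_int hχs hχ0 measurableSet_closedBall hχe
    have h7 : κ * ρ ^ 2 ≤ ∫ z, χ z ∂t := ge_of_tendsto (hint hχs) h3
    have h8 : ∫ z, χ z ∂t ≤ t.real (ball x0 r) := int_le hχs hχ1 measurableSet_ball hχz
    have h9 : 0 < κ * ρ ^ 2 := by positivity
    linarith

end Met

end

end Crest.Agent.R235.Limt
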