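import Mathlib
import Crest.Agent.R235.CurDefs_132

/-!
Row 235 (S0364), PACKAGE CUR, GEO1 (helper679): the kernel `rho2`, its first derivatives in closed
form, bounds for the metric and its first two derivatives.
-/

set_option autoImplicit false
set_option maxSynthPendingDepth 3

open Set Function Filter MeasureTheory Metric
open scoped ContDiff ENNReal Manifold Topology

namespace Crest.Agent.R235.CurGeo1_679

open Crest.Agent.R240 Crest.Agent.R240.En Crest.Agent.R240.Pot Crest.Agent.R235.CurDefs_132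

noncomputable section

/-- the bilinear map `(F, J) ↦ gm J F`. -/
def gmB : Bil →L[ℝ] (E4 →L[ℝ] E4) →L[ℝ] Bil :=
  LinearMap.mkContinuous₂
    (LinearMap.mk₂ ℝ (fun (F : Bil) (J : E4 →L[ℝ] E4) => gm J F)
      (by intro F F' J; ext v w; simp [gm_apply])
      (by intro c F J; ext v w; simp [gm_apply])
      (by intro F J J'; ext v w; simp [gm_apply])
      (by intro c F J; ext v w; simp [gm_apply])) 1
    (by
      intro F J
      refine ContinuousLinearMap.opNorm_le_bound₂ _ (by positivity) fun v w => ?_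
      calc ‖gm J F v w‖ = ‖F v (J w)‖ := rfl
        _ ≤ ‖F‖ * ‖v‖ * ‖J w‖ := F.le_opNorm₂ v (J w)
        _ ≤ ‖F‖ * ‖v‖ * (‖J‖ * ‖w‖) := by gcongr; exact J.le_opNorm w
        _ = 1 * ‖F‖ * ‖J‖ * ‖v‖ * ‖w‖ := by ring)

@[simp] theorem gmB_apply (F : Bil) (J : E4 →L[ℝ] E4) : gmB F J = gm J F := rfl

theorem norm_gmB_le : ‖gmB‖ ≤ 1 := LinearMap.mkContinuous₂_norm_le _ zero_le_one _

theorem norm_gm_le (F : Bil) (J : E4 →L[ℝ] E4) : ‖gm J F‖ ≤ ‖F‖ * ‖J‖ := by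
  have h := gmB.le_opNorm₂ F J
  rw [gmB_apply] at h
  calc ‖gm J F‖ ≤ ‖gmB‖ * ‖F‖ * ‖J‖ := h
    _ ≤ 1 * ‖F‖ * ‖J‖ := by gcongr; exact norm_gmB_le
    _ = ‖F‖ * ‖J‖ := by ring

section LC

variable (D : LC)

theorem G_apply (y v w : E4) : D.G y v w = D.F y v (D.J y w) := rfl

theorem G_symm (y v w : E4) : D.G y v w = D.G y w v := gm_symm (D.bd y).sq (D.bd y).spos v w

theorem G_lo (y v : E4) : D.m * ‖v‖ ^ 2 ≤ D.G y v v := (D.bd y).lo v

theorem G_hi (y v : E4) : D.G y v v ≤ D.M * ‖v‖ ^ 2 := (D.bd y).hi v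

theorem G_smooth : ContDiff ℝ ∞ D.G := gm_contDiff D.smJ D.smF

theorem diff_J : Differentiable ℝ D.J := D.smJ.differentiable (by simp)

theorem diff_F : Differentiable ℝ D.F := D.smF.differentiable (by simp)

theorem diff_G : Differentiable ℝ D.G := (G_smooth D).differentiable (by simp)

theorem smooth_dG : ContDiff ℝ ∞ (fderiv ℝ D.G) := (G_smooth D).fderiv_right (by simp)

theorem diff_dG : Differentiable ℝ (fderiv ℝ D.G) := (smooth_dG D).differentiable (by simp)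

/-- derivative of the metric. -/
theorem fderiv_G (y a v w : E4) :
    fderiv ℝ D.G y a v w = fderiv ℝ D.F y a v (D.J y w) + D.F y v (fderiv ℝ D.J y a w) := by
  have h := (gmB.hasFDerivAt_of_bilinear (diff_F D y).hasFDerivAt (diff_J D y).hasFDerivAt)
  have h2 : (fun y => gmB (D.F y) (D.J y)) = D.G := rfl
  rw [h2] at h
  rw [h.fderiv]
  simp [gm_apply]
  ring

theorem L_nn : 0 ≤ D.L := zero_le_one.trans D.L_ge

theorem norm_G_le (y : E4) : ‖D.G y‖ ≤ 4 * D.L ^ 2 := by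
  have h := norm_gm_le (D.F y) (D.J y)
  have h2 := D.bF y
  have h3 := D.bJ y
  have h4 := L_nn D
  calc ‖D.G y‖ ≤ ‖D.F y‖ * ‖D.J y‖ := h
    _ ≤ D.L * D.L := by gcongr
    _ ≤ 4 * D.L ^ 2 := by nlinarith

theorem norm_itF (y : E4) (n : ℕ) (hn : n ≤ 2) : ‖iteratedFDeriv ℝ n D.F y‖ ≤ D.L := by
  interval_cases n
  · rw [norm_iteratedFDeriv_zero]; exact D.bF y
  · rw [norm_iteratedFDeriv_one]; exact D.bF1 y
  · rw [← norm_iteratedFDeriv_fderiv, norm_iteratedFDeriv_one]; exact D.bF2 y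

theorem norm_itJ (y : E4) (n : ℕ) (hn : n ≤ 2) : ‖iteratedFDeriv ℝ n D.J y‖ ≤ D.L := by
  interval_cases n
  · rw [norm_iteratedFDeriv_zero]; exact D.bJ y
  · rw [norm_iteratedFDeriv_one]; exact D.bJ1 y
  · rw [← norm_iteratedFDeriv_fderiv, norm_iteratedFDeriv_one]; exact D.bJ2 y

theorem norm_itG (y : E4) (n : ℕ) (hn : n ≤ 2) : ‖iteratedFDeriv ℝ n D.G y‖ ≤ 4 * D.L ^ 2 := by
  have h2 : (fun y => gmB (D.F y) (D.J y)) = D.G := rfl
  have h := gmB.norm_iteratedFDeriv_le_of_bilinear (N := ∞) D.smF D.smJ y (n := n)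
    (by exact_mod_cast le_top)
  rw [h2] at h
  have hL := L_nn D
  refine h.trans ?_
  have h3 : ∀ i ∈ Finset.range (n + 1), ((n.choose i : ℕ) : ℝ) * ‖iteratedFDeriv ℝ i D.F y‖ *
      ‖iteratedFDeriv ℝ (n - i) D.J y‖ ≤ (n.choose i : ℕ) * (D.L * D.L) := by
    intro i hi
    rw [Finset.mem_range] at hi
    rw [mul_assoc]
    gcongr
    · exact norm_itF D y i (by omega)
    · exact norm_itJ D y (n - i) (by omega)
  calc ‖gmB‖ * ∑ i ∈ Finset.range (n + 1), ((n.choose i : ℕ) : ℝ) * ‖iteratedFDeriv ℝ i D.F y‖ *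
      ‖iteratedFDeriv ℝ (n - i) D.J y‖
      ≤ 1 * ∑ i ∈ Finset.range (n + 1), ((n.choose i : ℕ) : ℝ) * (D.L * D.L) :=
        mul_le_mul norm_gmB_le (Finset.sum_le_sum h3)
          (Finset.sum_nonneg fun i _ => by positivity) zero_le_one
    _ = (2 : ℝ) ^ n * (D.L * D.L) := by
        rw [one_mul, ← Finset.sum_mul]
        congr 1
        exact_mod_cast Nat.sum_range_choose n
    _ ≤ 4 * D.L ^ 2 := by
        have : (2 : ℝ) ^ n ≤ 2 ^ 2 := pow_le_pow_right₀ (by norm_num) hn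
        nlinarith [mul_nonneg hL hL]

theorem norm_dG_le (y : E4) : ‖fderiv ℝ D.G y‖ ≤ 4 * D.L ^ 2 := by
  have h := norm_itG D y 1 (by norm_num)
  rwa [norm_iteratedFDeriv_one] at h

theorem norm_ddG_le (y : E4) : ‖fderiv ℝ (fderiv ℝ D.G) y‖ ≤ 4 * D.L ^ 2 := by
  have h := norm_itG D y 2 le_rfl
  rwa [← norm_iteratedFDeriv_fderiv, norm_iteratedFDeriv_one] at h

/-! ### the kernel -/

theorem rho2_def (x y : E4) :
    D.rho2 x y = (D.G x (y - x) (y - x) + D.G y (y - x) (y - x)) / 2 := rfl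

theorem rho2_symm (x y : E4) : D.rho2 x y = D.rho2 y x := by
  rw [rho2_def, rho2_def, ← neg_sub y x]
  simp only [map_neg, neg_apply, neg_neg]
  ring

theorem rho2_smooth : ContDiff ℝ ∞ (fun z : E4 × E4 => D.rho2 z.1 z.2) := by
  have hG := G_smooth D
  have h1 : ContDiff ℝ ∞ (fun z : E4 × E4 => z.2 - z.1) := contDiff_snd.sub contDiff_fst
  exact ((((hG.comp contDiff_fst).clm_apply h1).clm_apply h1).add
    (((hG.comp contDiff_snd).clm_apply h1).clm_apply h1)).div_const 2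

theorem rho2_lo (x y : E4) : D.m * ‖y - x‖ ^ 2 ≤ D.rho2 x y := by
  have h1 := G_lo D x (y - x)
  have h2 := G_lo D y (y - x)
  rw [rho2_def]; linarith

theorem rho2_hi (x y : E4) : D.rho2 x y ≤ D.M * ‖y - x‖ ^ 2 := by
  have h1 := G_hi D x (y - x)
  have h2 := G_hi D y (y - x)
  rw [rho2_def]; linarith

/-- the second differential in operator form. -/
theorem hasFDerivAt_rho2 (x y : E4) : HasFDerivAt (fun z => D.rho2 x z)
    ((2 : ℝ)⁻¹ • ((fderiv ℝ D.G y).flip (y - x)).flip (y - x) + (D.G x (y - x) + D.G y (y - x)))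
    y := by
  have hd : HasFDerivAt (fun z : E4 => z - x) (ContinuousLinearMap.id ℝ E4) y :=
    (hasFDerivAt_id y).sub_const x
  have hG : HasFDerivAt D.G (fderiv ℝ D.G y) y := (diff_G D y).hasFDerivAt
  have h1 : HasFDerivAt (fun z => D.G x (z - x)) ((D.G x).comp (ContinuousLinearMap.id ℝ E4)) y :=
    (D.G x).hasFDerivAt.comp y hd
  have h2 := h1.clm_apply hd
  have h3 := (hG.clm_apply hd).clm_apply hd
  have h4 := (h2.add h3).mul_const (2 : ℝ)⁻¹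
  have h5 : (fun z => D.rho2 x z) = fun z =>
      (D.G x (z - x) (z - x) + D.G z (z - x) (z - x)) * (2 : ℝ)⁻¹ := by
    funext z; rw [rho2_def, div_eq_mul_inv]
  rw [h5]
  refine h4.congr_fderiv ?_
  ext v
  have s1 := G_symm D x v (y - x)
  have s2 := G_symm D y v (y - x)
  simp [-map_sub, s1, s2]
  ring

theorem dy_eq (x y : E4) : D.dy x y =
    (2 : ℝ)⁻¹ • ((fderiv ℝ D.G y).flip (y - x)).flip (y - x) + (D.G x (y - x) + D.G y (y - x)) :=
  (hasFDerivAt_rho2 D x y).fderiv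

theorem dx_eq (x y : E4) : D.dx x y = D.dy y x := by
  unfold LC.dx LC.dy
  congr 1
  funext z
  exact rho2_symm D z y

/-- **`d_y rho2`.** -/
theorem dy_apply (x y v : E4) : D.dy x y v =
    fderiv ℝ D.G y v (y - x) (y - x) / 2 + (D.G x (y - x) v + D.G y (y - x) v) := by
  rw [dy_eq]
  simp
  ring

/-- **`d_x rho2`.** -/
theorem dx_apply (x y v : E4) : D.dx x y v =
    fderiv ℝ D.G x v (y - x) (y - x) / 2 - (D.G x (y - x) v + D.G y (y - x) v) := by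
  rw [dx_eq, dy_apply, ← neg_sub y x]
  simp only [map_neg, neg_apply, neg_neg]
  ring

theorem dy_smooth2 : ContDiff ℝ ∞ (fun z : E4 × E4 => D.dy z.1 z.2) := by
  have h1 : ContDiff ℝ ∞ (Function.uncurry fun (p : E4 × E4) (w : E4) => D.rho2 p.1 w) :=
    (rho2_smooth D).comp ((contDiff_fst.comp contDiff_fst).prodMk contDiff_snd)
  exact h1.fderiv contDiff_snd (by simp)

theorem dy_smooth (x : E4) : ContDiff ℝ ∞ (fun z => D.dy x z) := by
  have h : ContDiff ℝ ∞ (fun z : E4 => (x, z)) := contDiff_const.prodMk contDiff_id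
  exact ContDiff.comp (g := fun z : E4 × E4 => D.dy z.1 z.2) (f := fun z : E4 => (x, z))
    (dy_smooth2 D) h

theorem dx_smooth2 : ContDiff ℝ ∞ (fun z : E4 × E4 => D.dx z.1 z.2) := by
  have h1 : (fun z : E4 × E4 => D.dx z.1 z.2) = fun z => D.dy z.2 z.1 := by
    funext z; exact dx_eq D _ _
  rw [h1]
  have h : ContDiff ℝ ∞ (fun z : E4 × E4 => (z.2, z.1)) := contDiff_snd.prodMk contDiff_fst
  exact ContDiff.comp (g := fun z : E4 × E4 => D.dy z.1 z.2) (f := fun z : E4 × E4 => (z.2, z.1))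
    (dy_smooth2 D) h

/-- **derivative of `d_y rho2`.** -/
theorem fderiv_dy (x y w v : E4) : fderiv ℝ (fun z => D.dy x z) y w v =
      fderiv ℝ (fderiv ℝ D.G) y w v (y - x) (y - x) / 2 + fderiv ℝ D.G y v (y - x) w +
        fderiv ℝ D.G y w (y - x) v + (D.G x w v + D.G y w v) := by
  have hdy : HasFDerivAt (fun z => D.dy x z) (fderiv ℝ (fun z => D.dy x z) y) y :=
    ((dy_smooth D x).differentiable (by simp) y).hasFDerivAt
  have h0 : HasFDerivAt (fun z => D.dy x z v)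
      ((fderiv ℝ (fun z => D.dy x z) y).flip v) y := by
    have := hdy.clm_apply (hasFDerivAt_const v y)
    simpa using this
  have hd : HasFDerivAt (fun z : E4 => z - x) (ContinuousLinearMap.id ℝ E4) y :=
    (hasFDerivAt_id y).sub_const x
  have hG : HasFDerivAt D.G (fderiv ℝ D.G y) y := (diff_G D y).hasFDerivAt
  have hdG : HasFDerivAt (fderiv ℝ D.G) (fderiv ℝ (fderiv ℝ D.G) y) y :=
    (diff_dG D y).hasFDerivAt
  have h1 : HasFDerivAt (fun z => D.G x (z - x)) ((D.G x).comp (ContinuousLinearMap.id ℝ E4)) y :=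
    (D.G x).hasFDerivAt.comp y hd
  have h2 := h1.clm_apply (hasFDerivAt_const v y)
  have h3 := (hG.clm_apply hd).clm_apply (hasFDerivAt_const v y)
  have h4 := ((hdG.clm_apply (hasFDerivAt_const v y)).clm_apply hd).clm_apply hd
  have h5 := (h4.mul_const (2 : ℝ)⁻¹).add (h2.add h3)
  have h6 : (fun z => D.dy x z v) = fun z => fderiv ℝ D.G z v (z - x) (z - x) * (2 : ℝ)⁻¹ +
      (D.G x (z - x) v + D.G z (z - x) v) := by
    funext z; rw [dy_apply, div_eq_mul_inv]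
  rw [h6] at h0
  have h7 := congrArg (fun T : Cov => T w) (h0.unique h5)
  have hs : ∀ a b c : E4, fderiv ℝ D.G y a b c = fderiv ℝ D.G y a c b := by
    intro a b c
    have e1 : fderiv ℝ (fun z => D.G z b c) y a = fderiv ℝ D.G y a b c := by
      have := (hG.clm_apply (hasFDerivAt_const b y)).clm_apply (hasFDerivAt_const c y)
      rw [this.fderiv]; simp
    have e2 : fderiv ℝ (fun z => D.G z c b) y a = fderiv ℝ D.G y a c b := by
      have := (hG.clm_apply (hasFDerivAt_const c y)).clm_apply (hasFDerivAt_const b y)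
      rw [this.fderiv]; simp
    rw [← e1, ← e2]
    congr 2
    funext z
    exact G_symm D z b c
  have s1 := hs v w (y - x)
  simp [-map_sub, s1] at h7
  rw [h7]
  ring

/-- symmetry of the derivative of the metric. -/
theorem dG_symm (y a b c : E4) : fderiv ℝ D.G y a b c = fderiv ℝ D.G y a c b := by
  have hG : HasFDerivAt D.G (fderiv ℝ D.G y) y := (diff_G D y).hasFDerivAt
  have e1 : fderiv ℝ (fun z => D.G z b c) y a = fderiv ℝ D.G y a b c := by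
    have := (hG.clm_apply (hasFDerivAt_const b y)).clm_apply (hasFDerivAt_const c y)
    rw [this.fderiv]; simp
  have e2 : fderiv ℝ (fun z => D.G z c b) y a = fderiv ℝ D.G y a c b := by
    have := (hG.clm_apply (hasFDerivAt_const c y)).clm_apply (hasFDerivAt_const b y)
    rw [this.fderiv]; simp
  rw [← e1, ← e2]
  congr 2
  funext z
  exact G_symm D z b c

theorem norm_dy_le (x y : E4) (h : ‖y - x‖ ≤ 1) : ‖D.dy x y‖ ≤ 12 * D.L ^ 2 * ‖y - x‖ := by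
  have hL : 0 ≤ D.L ^ 2 := sq_nonneg _
  refine ContinuousLinearMap.opNorm_le_bound _ (by positivity) fun v => ?_
  rw [dy_apply]
  have a1 : |fderiv ℝ D.G y v (y - x) (y - x)| ≤ 4 * D.L ^ 2 * ‖v‖ * ‖y - x‖ * ‖y - x‖ := by
    calc |fderiv ℝ D.G y v (y - x) (y - x)| ≤ ‖fderiv ℝ D.G y v (y - x)‖ * ‖y - x‖ :=
          (fderiv ℝ D.G y v (y - x)).le_opNorm _
      _ ≤ ‖fderiv ℝ D.G y v‖ * ‖y - x‖ * ‖y - x‖ := by
          gcongr; exact (fderiv ℝ D.G y v).le_opNorm _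
      _ ≤ 4 * D.L ^ 2 * ‖v‖ * ‖y - x‖ * ‖y - x‖ := by
          gcongr; exact (fderiv ℝ D.G y).le_of_opNorm_le (norm_dG_le D y) v
  have a2 : ∀ z, |D.G z (y - x) v| ≤ 4 * D.L ^ 2 * ‖y - x‖ * ‖v‖ := by
    intro z
    calc |D.G z (y - x) v| ≤ ‖D.G z‖ * ‖y - x‖ * ‖v‖ := (D.G z).le_opNorm₂ _ _
      _ ≤ 4 * D.L ^ 2 * ‖y - x‖ * ‖v‖ := by gcongr; exact norm_G_le D z
  have b1 := abs_le.1 a1
  have b2 := abs_le.1 (a2 x)
  have b3 := abs_le.1 (a2 y)
  have c1 : 4 * D.L ^ 2 * ‖v‖ * ‖y - x‖ * ‖y - x‖ ≤ 4 * D.L ^ 2 * ‖y - x‖ * ‖v‖ := by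
    have : 4 * D.L ^ 2 * ‖v‖ * ‖y - x‖ * ‖y - x‖ ≤ 4 * D.L ^ 2 * ‖v‖ * ‖y - x‖ * 1 := by gcongr
    linarith
  rw [Real.norm_eq_abs, abs_le]
  constructor <;> linarith [b1.1, b1.2, b2.1, b2.2, b3.1, b3.2]

theorem norm_dx_le (x y : E4) (h : ‖y - x‖ ≤ 1) : ‖D.dx x y‖ ≤ 12 * D.L ^ 2 * ‖y - x‖ := by
  rw [dx_eq, norm_sub_rev]
  exact norm_dy_le D y x (by rwa [norm_sub_rev])

theorem norm_fderiv_dy_le (x y : E4) (h : ‖y - x‖ ≤ 1) :
    ‖fderiv ℝ (fun z => D.dy x z) y‖ ≤ 20 * D.L ^ 2 := by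
  have hL : 0 ≤ D.L ^ 2 := sq_nonneg _
  refine ContinuousLinearMap.opNorm_le_bound₂ _ (by positivity) fun w v => ?_
  rw [fderiv_dy]
  have a1 : |fderiv ℝ (fderiv ℝ D.G) y w v (y - x) (y - x)| ≤ 4 * D.L ^ 2 * ‖w‖ * ‖v‖ := by
    calc |fderiv ℝ (fderiv ℝ D.G) y w v (y - x) (y - x)|
        ≤ ‖fderiv ℝ (fderiv ℝ D.G) y w v (y - x)‖ * ‖y - x‖ :=
          (fderiv ℝ (fderiv ℝ D.G) y w v (y - x)).le_opNorm _
      _ ≤ ‖fderiv ℝ (fderiv ℝ D.G) y w v‖ * ‖y - x‖ * ‖y - x‖ := by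
          gcongr; exact (fderiv ℝ (fderiv ℝ D.G) y w v).le_opNorm _
      _ ≤ (4 * D.L ^ 2 * ‖w‖ * ‖v‖) * 1 * 1 := by
          gcongr
          calc ‖fderiv ℝ (fderiv ℝ D.G) y w v‖ ≤ ‖fderiv ℝ (fderiv ℝ D.G) y w‖ * ‖v‖ :=
                (fderiv ℝ (fderiv ℝ D.G) y w).le_opNorm _
            _ ≤ 4 * D.L ^ 2 * ‖w‖ * ‖v‖ := by
                gcongr
                exact (fderiv ℝ (fderiv ℝ D.G) y).le_of_opNorm_le (norm_ddG_le D y) w
      _ = _ := by ring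
  have a3 : ∀ a b : E4, |fderiv ℝ D.G y a (y - x) b| ≤ 4 * D.L ^ 2 * ‖a‖ * ‖b‖ := by
    intro a b
    calc |fderiv ℝ D.G y a (y - x) b| ≤ ‖fderiv ℝ D.G y a (y - x)‖ * ‖b‖ :=
          (fderiv ℝ D.G y a (y - x)).le_opNorm _
      _ ≤ (‖fderiv ℝ D.G y a‖ * ‖y - x‖) * ‖b‖ := by
          gcongr; exact (fderiv ℝ D.G y a).le_opNorm _
      _ ≤ (4 * D.L ^ 2 * ‖a‖ * 1) * ‖b‖ := by
          gcongr; exact (fderiv ℝ D.G y).le_of_opNorm_le (norm_dG_le D y) a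
      _ = _ := by ring
  have a2 : ∀ z, |D.G z w v| ≤ 4 * D.L ^ 2 * ‖w‖ * ‖v‖ := by
    intro z
    calc |D.G z w v| ≤ ‖D.G z‖ * ‖w‖ * ‖v‖ := (D.G z).le_opNorm₂ _ _
      _ ≤ 4 * D.L ^ 2 * ‖w‖ * ‖v‖ := by gcongr; exact norm_G_le D z
  have b1 := abs_le.1 a1
  have b2 := abs_le.1 (a2 x)
  have b3 := abs_le.1 (a2 y)
  have b4 := abs_le.1 (a3 v w)
  have b5 := abs_le.1 (a3 w v)
  have c0 : 4 * D.L ^ 2 * ‖v‖ * ‖w‖ = 4 * D.L ^ 2 * ‖w‖ * ‖v‖ := by ring
  have c1 : 0 ≤ D.L ^ 2 * ‖w‖ * ‖v‖ := by positivity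
  rw [Real.norm_eq_abs, abs_le]
  constructor <;> linarith [b1.1, b1.2, b2.1, b2.2, b3.1, b3.2, b4.1, b4.2, b5.1, b5.2]

end LC

/-- **GEO1**. -/
theorem geo1 : GEO1 := by
  intro D
  have hL : 0 ≤ D.L ^ 2 := sq_nonneg _
  refine ⟨rho2_smooth D, fun x y => ⟨rho2_lo D x y, rho2_hi D x y⟩, 20 * D.L ^ 2, by positivity,
    fun x y h => ⟨(norm_dx_le D x y h).trans ?_, (norm_dy_le D x y h).trans ?_,
      norm_fderiv_dy_le D x y h⟩⟩
  all_goals
    gcongr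
    norm_num

end

end Crest.Agent.R235.CurGeo1_679
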