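import Crest.Agent.R235.CurDefs_132

/-!
Row 235, PACKAGE CUR (helper132), leaf GEO3 (helper52): the two terms of the monotonicity formula.
Reusable: `G_fd`, `G_fd2` (derivatives of the metric), `G_lip`, `dy_eq`, `hess_eq`, `dy_le`, `hess_le`.
-/

set_option autoImplicit false
set_option maxSynthPendingDepth 3
set_option linter.unusedSectionVars false

open Set Function Filter MeasureTheory Metric
open scoped ContDiff ENNReal Manifold Topology

namespace Crest.Agent.R235.CurGeo3_52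

open Crest.Agent.R240 Crest.Agent.R240.En Crest.Agent.R240.Pot Crest.Agent.R235.CurDefs_132

noncomputable section

/-! ### generalities -/

section gen

variable {X : Type*} [NormedAddCommGroup X] [NormedSpace ℝ X] {Y : Type*} [NormedAddCommGroup Y]
  [NormedSpace ℝ Y]

theorem fd_apply {A : E4 → X →L[ℝ] Y} {y : E4} (hA : DifferentiableAt ℝ A y) (v : X) (u : E4) :
    fderiv ℝ (fun z => A z v) y u = fderiv ℝ A y u v := by
  rw [fderiv_clm_apply hA (differentiableAt_const v)]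
  simp

theorem fd_prod {A : E4 → X →L[ℝ] Y} {b : E4 → X} {y : E4} (hA : DifferentiableAt ℝ A y)
    (hb : DifferentiableAt ℝ b y) (u : E4) :
    fderiv ℝ (fun z => A z (b z)) y u = fderiv ℝ A y u (b y) + A y (fderiv ℝ b y u) := by
  rw [fderiv_clm_apply hA hb]
  simp [add_comm]

theorem fd_sub (x y u : E4) : fderiv ℝ (fun z : E4 => z - x) y u = u := by
  rw [fderiv_sub_const]; simp

end gen

variable (D : LC)

theorem smG : ContDiff ℝ ∞ D.G := gm_contDiff D.smJ D.smF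

theorem dJ (y : E4) : DifferentiableAt ℝ D.J y := (D.smJ.differentiable (by simp)) y
theorem dF (y : E4) : DifferentiableAt ℝ D.F y := (D.smF.differentiable (by simp)) y
theorem dG (y : E4) : DifferentiableAt ℝ D.G y := ((smG D).differentiable (by simp)) y
theorem dJ' (y : E4) : DifferentiableAt ℝ (fderiv ℝ D.J) y :=
  ((D.smJ.fderiv_right (m := ∞) (by simp)).differentiable (by simp)) y
theorem dF' (y : E4) : DifferentiableAt ℝ (fderiv ℝ D.F) y :=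
  ((D.smF.fderiv_right (m := ∞) (by simp)).differentiable (by simp)) y
theorem dG' (y : E4) : DifferentiableAt ℝ (fderiv ℝ D.G) y :=
  (((smG D).fderiv_right (m := ∞) (by simp)).differentiable (by simp)) y

theorem G_apply (y v w : E4) : D.G y v w = D.F y v (D.J y w) := rfl

theorem G_symm (y v w : E4) : D.G y v w = D.G y w v := gm_symm (D.bd y).sq (D.bd y).spos v w

theorem G_fd (y u v w : E4) : fderiv ℝ D.G y u v w =
    fderiv ℝ D.F y u v (D.J y w) + D.F y v (fderiv ℝ D.J y u w) := by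
  have h1 : fderiv ℝ (fun z => D.G z v w) y u = fderiv ℝ D.G y u v w := by
    have h2 : DifferentiableAt ℝ (fun z => D.G z v) y := (dG D y).clm_apply
      (differentiableAt_const v)
    rw [fd_apply h2, fd_apply (dG D y)]
  have h3 : (fun z => D.G z v w) = fun z => D.F z v (D.J z w) := rfl
  have h2 : DifferentiableAt ℝ (fun z => D.F z v) y := (dF D y).clm_apply
    (differentiableAt_const v)
  have h4 : DifferentiableAt ℝ (fun z => D.J z w) y := (dJ D y).clm_apply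
    (differentiableAt_const w)
  rw [← h1, h3, fd_prod h2 h4, fd_apply (dF D y), fd_apply (dJ D y)]

theorem G_fd2 (y t u v w : E4) : fderiv ℝ (fderiv ℝ D.G) y t u v w =
    (fderiv ℝ (fderiv ℝ D.F) y t u v (D.J y w) + fderiv ℝ D.F y u v (fderiv ℝ D.J y t w)) +
      (fderiv ℝ D.F y t v (fderiv ℝ D.J y u w) + D.F y v (fderiv ℝ (fderiv ℝ D.J) y t u w)) := by
  have a1 : DifferentiableAt ℝ (fun z => fderiv ℝ D.G z u) y := (dG' D y).clm_apply
      (differentiableAt_const u)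
  have a2 : DifferentiableAt ℝ (fun z => fderiv ℝ D.G z u v) y := a1.clm_apply
      (differentiableAt_const v)
  have h1 : fderiv ℝ (fun z => fderiv ℝ D.G z u v w) y t = fderiv ℝ (fderiv ℝ D.G) y t u v w := by
    rw [fd_apply a2, fd_apply a1, fd_apply (dG' D y)]
  have h3 : (fun z => fderiv ℝ D.G z u v w) = fun z => fderiv ℝ D.F z u v (D.J z w) +
      D.F z v (fderiv ℝ D.J z u w) := funext fun z => G_fd D z u v w
  have b1 : DifferentiableAt ℝ (fun z => fderiv ℝ D.F z u) y := (dF' D y).clm_apply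
      (differentiableAt_const u)
  have b2 : DifferentiableAt ℝ (fun z => fderiv ℝ D.F z u v) y := b1.clm_apply
      (differentiableAt_const v)
  have b3 : DifferentiableAt ℝ (fun z => D.J z w) y := (dJ D y).clm_apply
    (differentiableAt_const w)
  have b4 : DifferentiableAt ℝ (fun z => D.F z v) y := (dF D y).clm_apply
    (differentiableAt_const v)
  have b5 : DifferentiableAt ℝ (fun z => fderiv ℝ D.J z u) y := (dJ' D y).clm_apply
      (differentiableAt_const u)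
  have b6 : DifferentiableAt ℝ (fun z => fderiv ℝ D.J z u w) y := b5.clm_apply
      (differentiableAt_const w)
  rw [← h1, h3, fderiv_fun_add (b2.clm_apply b3) (b4.clm_apply b6), _root_.add_apply,
    fd_prod b2 b3, fd_prod b4 b6, fd_apply b1, fd_apply (dF' D y), fd_apply (dJ D y),
    fd_apply (dF D y), fd_apply b5, fd_apply (dJ' D y)]

theorem L_pos : 0 < D.L := one_pos.trans_le D.L_ge

theorem le2 {A : E4 →L[ℝ] E4} {L : ℝ} (h : ‖A‖ ≤ L) (v : E4) : ‖A v‖ ≤ L * ‖v‖ :=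
  (A.le_opNorm v).trans (mul_le_mul_of_nonneg_right h (norm_nonneg _))

theorem le3 {A : Bil} {L : ℝ} (h : ‖A‖ ≤ L) (v w : E4) : |A v w| ≤ L * ‖v‖ * ‖w‖ := by
  have h1 := A.le_opNorm₂ v w
  rw [Real.norm_eq_abs] at h1
  refine h1.trans ?_
  gcongr

theorem F_le (y v w : E4) : |D.F y v w| ≤ D.L * ‖v‖ * ‖w‖ := le3 (D.bF y) v w

theorem J_le (y v : E4) : ‖D.J y v‖ ≤ D.L * ‖v‖ := le2 (D.bJ y) v

theorem J'_le (y u v : E4) : ‖fderiv ℝ D.J y u v‖ ≤ D.L * ‖u‖ * ‖v‖ := by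
  have h1 : ‖fderiv ℝ D.J y u‖ ≤ D.L * ‖u‖ := ((fderiv ℝ D.J y).le_opNorm u).trans
    (mul_le_mul_of_nonneg_right (D.bJ1 y) (norm_nonneg _))
  exact le2 h1 v

theorem J''_le (y t u v : E4) :
    ‖fderiv ℝ (fderiv ℝ D.J) y t u v‖ ≤ D.L * ‖t‖ * ‖u‖ * ‖v‖ := by
  have h1 : ‖fderiv ℝ (fderiv ℝ D.J) y t‖ ≤ D.L * ‖t‖ :=
    ((fderiv ℝ (fderiv ℝ D.J) y).le_opNorm t).trans
      (mul_le_mul_of_nonneg_right (D.bJ2 y) (norm_nonneg _))
  have h2 : ‖fderiv ℝ (fderiv ℝ D.J) y t u‖ ≤ D.L * ‖t‖ * ‖u‖ :=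
    ((fderiv ℝ (fderiv ℝ D.J) y t).le_opNorm u).trans
      (mul_le_mul_of_nonneg_right h1 (norm_nonneg _))
  exact le2 h2 v

theorem F'_le (y u v w : E4) : |fderiv ℝ D.F y u v w| ≤ D.L * ‖u‖ * ‖v‖ * ‖w‖ := by
  have h1 : ‖fderiv ℝ D.F y u‖ ≤ D.L * ‖u‖ := ((fderiv ℝ D.F y).le_opNorm u).trans
    (mul_le_mul_of_nonneg_right (D.bF1 y) (norm_nonneg _))
  exact le3 h1 v w

theorem F''_le (y t u v w : E4) :
    |fderiv ℝ (fderiv ℝ D.F) y t u v w| ≤ D.L * ‖t‖ * ‖u‖ * ‖v‖ * ‖w‖ := by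
  have h1 : ‖fderiv ℝ (fderiv ℝ D.F) y t‖ ≤ D.L * ‖t‖ :=
    ((fderiv ℝ (fderiv ℝ D.F) y).le_opNorm t).trans
      (mul_le_mul_of_nonneg_right (D.bF2 y) (norm_nonneg _))
  have h2 : ‖fderiv ℝ (fderiv ℝ D.F) y t u‖ ≤ D.L * ‖t‖ * ‖u‖ :=
    ((fderiv ℝ (fderiv ℝ D.F) y t).le_opNorm u).trans
      (mul_le_mul_of_nonneg_right h1 (norm_nonneg _))
  exact le3 h2 v w

theorem G_le (y v w : E4) : |D.G y v w| ≤ D.L ^ 2 * ‖v‖ * ‖w‖ := by
  have hL := L_pos D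
  rw [G_apply]
  refine (F_le D y v _).trans ?_
  calc D.L * ‖v‖ * ‖D.J y w‖ ≤ D.L * ‖v‖ * (D.L * ‖w‖) := by gcongr; exact J_le D y w
    _ = _ := by ring

theorem G'_le (y u v w : E4) : |fderiv ℝ D.G y u v w| ≤ 2 * D.L ^ 2 * ‖u‖ * ‖v‖ * ‖w‖ := by
  have hL := L_pos D
  rw [G_fd]
  have h1 := F'_le D y u v (D.J y w)
  have h2 := F_le D y v (fderiv ℝ D.J y u w)
  have h3 := J_le D y w
  have h4 := J'_le D y u w
  calc |fderiv ℝ D.F y u v (D.J y w) + D.F y v (fderiv ℝ D.J y u w)|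
      ≤ |fderiv ℝ D.F y u v (D.J y w)| + |D.F y v (fderiv ℝ D.J y u w)| := abs_add_le _ _
    _ ≤ D.L * ‖u‖ * ‖v‖ * (D.L * ‖w‖) + D.L * ‖v‖ * (D.L * ‖u‖ * ‖w‖) := by
        refine add_le_add (h1.trans ?_) (h2.trans ?_)
        · gcongr
        · gcongr
    _ = _ := by ring

theorem G''_le (y t u v w : E4) :
    |fderiv ℝ (fderiv ℝ D.G) y t u v w| ≤ 4 * D.L ^ 2 * ‖t‖ * ‖u‖ * ‖v‖ * ‖w‖ := by
  have hL := L_pos D
  rw [G_fd2]
  have h1 := F''_le D y t u v (D.J y w)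
  have h2 := F'_le D y u v (fderiv ℝ D.J y t w)
  have h3 := F'_le D y t v (fderiv ℝ D.J y u w)
  have h4 := F_le D y v (fderiv ℝ (fderiv ℝ D.J) y t u w)
  have k1 := J_le D y w
  have k2 := J'_le D y t w
  have k3 := J'_le D y u w
  have k4 := J''_le D y t u w
  have e1 : |fderiv ℝ (fderiv ℝ D.F) y t u v (D.J y w)| ≤
      D.L * ‖t‖ * ‖u‖ * ‖v‖ * (D.L * ‖w‖) := h1.trans (by gcongr)
  have e2 : |fderiv ℝ D.F y u v (fderiv ℝ D.J y t w)| ≤
      D.L * ‖u‖ * ‖v‖ * (D.L * ‖t‖ * ‖w‖) := h2.trans (by gcongr)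
  have e3 : |fderiv ℝ D.F y t v (fderiv ℝ D.J y u w)| ≤
      D.L * ‖t‖ * ‖v‖ * (D.L * ‖u‖ * ‖w‖) := h3.trans (by gcongr)
  have e4 : |D.F y v (fderiv ℝ (fderiv ℝ D.J) y t u w)| ≤
      D.L * ‖v‖ * (D.L * ‖t‖ * ‖u‖ * ‖w‖) := h4.trans (by gcongr)
  have e5 : 4 * D.L ^ 2 * ‖t‖ * ‖u‖ * ‖v‖ * ‖w‖ = D.L * ‖t‖ * ‖u‖ * ‖v‖ * (D.L * ‖w‖) +
      D.L * ‖u‖ * ‖v‖ * (D.L * ‖t‖ * ‖w‖) + D.L * ‖t‖ * ‖v‖ * (D.L * ‖u‖ * ‖w‖) +
      D.L * ‖v‖ * (D.L * ‖t‖ * ‖u‖ * ‖w‖) := by ring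
  rw [e5]
  refine abs_le.2 ⟨?_, ?_⟩
  · have := abs_le.1 e1; have := abs_le.1 e2; have := abs_le.1 e3; have := abs_le.1 e4
    linarith
  · have := abs_le.1 e1; have := abs_le.1 e2; have := abs_le.1 e3; have := abs_le.1 e4
    linarith

theorem G_lip (x y v w : E4) :
    |D.G x v w - D.G y v w| ≤ 2 * D.L ^ 2 * ‖y - x‖ * ‖v‖ * ‖w‖ := by
  have hL := L_pos D
  have hd : ∀ z, DifferentiableAt ℝ (fun z => D.G z v w) z := fun z =>
    ((dG D z).clm_apply (differentiableAt_const v)).clm_apply (differentiableAt_const w)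
  have hb : ∀ z, ‖fderiv ℝ (fun z => D.G z v w) z‖ ≤ 2 * D.L ^ 2 * ‖v‖ * ‖w‖ := by
    intro z
    refine ContinuousLinearMap.opNorm_le_bound _ (by positivity) fun u => ?_
    have h2 : DifferentiableAt ℝ (fun z => D.G z v) z := (dG D z).clm_apply
      (differentiableAt_const v)
    rw [fd_apply h2, fd_apply (dG D z), Real.norm_eq_abs]
    refine (G'_le D z u v w).trans (le_of_eq (by ring))
  have h := Convex.norm_image_sub_le_of_norm_fderiv_le (𝕜 := ℝ) (f := fun z => D.G z v w)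
    (fun z _ => hd z) (fun z _ => hb z) convex_univ (mem_univ y) (mem_univ x)
  rw [Real.norm_eq_abs, norm_sub_rev x y] at h
  refine h.trans (le_of_eq (by ring))

theorem gdiff (x z v : E4) : fderiv ℝ (fun z => D.G z (z - x) (z - x)) z v =
    fderiv ℝ D.G z v (z - x) (z - x) + 2 * D.G z (z - x) v := by
  have hs : DifferentiableAt ℝ (fun z : E4 => z - x) z := differentiableAt_id.sub_const x
  have h1 : DifferentiableAt ℝ (fun z => D.G z (z - x)) z := (dG D z).clm_apply hs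
  rw [fd_prod h1 hs, fd_prod (dG D z) hs, fd_sub, _root_.add_apply, G_symm D z v (z - x)]
  ring

theorem cdiff (x z v : E4) : fderiv ℝ (fun z => D.G x (z - x) (z - x)) z v =
    2 * D.G x (z - x) v := by
  have hs : DifferentiableAt ℝ (fun z : E4 => z - x) z := differentiableAt_id.sub_const x
  have h0 : DifferentiableAt ℝ (fun _ : E4 => D.G x) z := differentiableAt_const _
  have h1 : DifferentiableAt ℝ (fun z => D.G x (z - x)) z := h0.clm_apply hs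
  have hz : fderiv ℝ (fun _ : E4 => D.G x) z = 0 := (hasFDerivAt_const (D.G x) z).fderiv
  rw [fd_prod h1 hs, fd_prod h0 hs, fd_sub, hz, _root_.add_apply, G_symm D x v (z - x)]
  show (0 : ℝ) + D.G x (z - x) v + D.G x (z - x) v = _
  ring

theorem dy_eq (x z v : E4) : D.dy x z v = D.G x (z - x) v + D.G z (z - x) v +
    fderiv ℝ D.G z v (z - x) (z - x) / 2 := by
  have hs : DifferentiableAt ℝ (fun z : E4 => z - x) z := differentiableAt_id.sub_const x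
  have h0 : DifferentiableAt ℝ (fun _ : E4 => D.G x) z := differentiableAt_const _
  have h1 : DifferentiableAt ℝ (fun z => D.G x (z - x) (z - x)) z :=
    (h0.clm_apply hs).clm_apply hs
  have h2 : DifferentiableAt ℝ (fun z => D.G z (z - x) (z - x)) z :=
    ((dG D z).clm_apply hs).clm_apply hs
  have e : (fun z => D.rho2 x z) = fun z =>
      (1 / 2 : ℝ) * (D.G x (z - x) (z - x) + D.G z (z - x) (z - x)) := by
    funext z
    unfold LC.rho2
    ring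
  unfold LC.dy
  have h3 : DifferentiableAt ℝ
    (fun z => D.G x (z - x) (z - x) + D.G z (z - x) (z - x)) z := h1.add h2
  rw [e, fderiv_const_mul h3, fderiv_fun_add h1 h2]
  show (1 / 2 : ℝ) * (fderiv ℝ (fun z => D.G x (z - x) (z - x)) z v +
    fderiv ℝ (fun z => D.G z (z - x) (z - x)) z v) = _
  rw [gdiff, cdiff]
  ring

theorem sm_rho (x : E4) : ContDiff ℝ ∞ (fun z => D.rho2 x z) := by
  have hs : ContDiff ℝ ∞ (fun z : E4 => z - x) := contDiff_id.sub contDiff_const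
  have h1 : ContDiff ℝ ∞ (fun z => D.G x (z - x) (z - x)) :=
    ((contDiff_const (c := D.G x)).clm_apply hs).clm_apply hs
  have h2 : ContDiff ℝ ∞ (fun z => D.G z (z - x) (z - x)) := ((smG D).clm_apply hs).clm_apply hs
  exact (h1.add h2).div_const 2

theorem sm_dy (x : E4) : ContDiff ℝ ∞ (fun z => D.dy x z) :=
  (sm_rho D x).fderiv_right (by simp)

theorem d_dy (x y : E4) : DifferentiableAt ℝ (fun z => D.dy x z) y :=
  ((sm_dy D x).differentiable (by simp)) y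

theorem hess_eq (x y u v : E4) : fderiv ℝ (fun z => D.dy x z) y u v =
    D.G x u v + D.G y u v + fderiv ℝ D.G y u (y - x) v +
      (fderiv ℝ (fderiv ℝ D.G) y u v (y - x) (y - x) +
        fderiv ℝ D.G y v u (y - x) + fderiv ℝ D.G y v (y - x) u) / 2 := by
  have hs : DifferentiableAt ℝ (fun z : E4 => z - x) y := differentiableAt_id.sub_const x
  have h0 : DifferentiableAt ℝ (fun _ : E4 => D.G x) y := differentiableAt_const _
  have hz : fderiv ℝ (fun _ : E4 => D.G x) y = 0 := (hasFDerivAt_const (D.G x) y).fderiv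
  have h1 : DifferentiableAt ℝ (fun z => D.G x (z - x)) y := h0.clm_apply hs
  have h1' : DifferentiableAt ℝ (fun z => D.G x (z - x) v) y :=
    h1.clm_apply (differentiableAt_const v)
  have h2 : DifferentiableAt ℝ (fun z => D.G z (z - x)) y := (dG D y).clm_apply hs
  have h2' : DifferentiableAt ℝ (fun z => D.G z (z - x) v) y :=
    h2.clm_apply (differentiableAt_const v)
  have h3 : DifferentiableAt ℝ (fun z => fderiv ℝ D.G z v) y :=
    (dG' D y).clm_apply (differentiableAt_const v)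
  have h4 : DifferentiableAt ℝ (fun z => fderiv ℝ D.G z v (z - x)) y := h3.clm_apply hs
  have h5 : DifferentiableAt ℝ (fun z => fderiv ℝ D.G z v (z - x) (z - x)) y := h4.clm_apply hs
  have h6 : DifferentiableAt ℝ (fun z => (1 / 2 : ℝ) * fderiv ℝ D.G z v (z - x) (z - x)) y :=
    h5.const_mul _
  have e : (fun z => D.dy x z v) = fun z => (D.G x (z - x) v + D.G z (z - x) v) +
      (1 / 2 : ℝ) * fderiv ℝ D.G z v (z - x) (z - x) := by
    funext z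
    rw [dy_eq]; ring
  have h12 : DifferentiableAt ℝ (fun z => D.G x (z - x) v + D.G z (z - x) v) y := h1'.add h2'
  rw [← fd_apply (d_dy D x y), e, fderiv_fun_add h12 h6, fderiv_fun_add h1' h2',
    fderiv_const_mul h5]
  show fderiv ℝ (fun z => D.G x (z - x) v) y u + fderiv ℝ (fun z => D.G z (z - x) v) y u +
    (1 / 2 : ℝ) * fderiv ℝ (fun z => fderiv ℝ D.G z v (z - x) (z - x)) y u = _
  rw [fd_apply h1, fd_apply h2, fd_prod h0 hs, fd_prod (dG D y) hs, fd_prod h4 hs, fd_prod h3 hs,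
    fd_apply (dG' D y), fd_sub, hz]
  show (0 : ℝ) + D.G x u v + (fderiv ℝ D.G y u (y - x) v + D.G y u v) +
    1 / 2 * (fderiv ℝ (fderiv ℝ D.G) y u v (y - x) (y - x) + fderiv ℝ D.G y v u (y - x) +
      fderiv ℝ D.G y v (y - x) u) = _
  ring

theorem dy_sub_le (x y v : E4) : |D.dy x y v - 2 * D.G y (y - x) v| ≤
    3 * D.L ^ 2 * ‖y - x‖ ^ 2 * ‖v‖ := by
  rw [dy_eq]
  have h1 := G_lip D x y (y - x) v
  have h2 := G'_le D y v (y - x) (y - x)
  have e : D.G x (y - x) v + D.G y (y - x) v + fderiv ℝ D.G y v (y - x) (y - x) / 2 -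
      2 * D.G y (y - x) v = (D.G x (y - x) v - D.G y (y - x) v) +
        fderiv ℝ D.G y v (y - x) (y - x) / 2 := by ring
  rw [e]
  calc _ ≤ |D.G x (y - x) v - D.G y (y - x) v| + |fderiv ℝ D.G y v (y - x) (y - x) / 2| :=
        abs_add_le _ _
    _ ≤ 2 * D.L ^ 2 * ‖y - x‖ * ‖y - x‖ * ‖v‖ + 2 * D.L ^ 2 * ‖v‖ * ‖y - x‖ * ‖y - x‖ / 2 := by
        rw [abs_div, abs_two]
        gcongr
    _ = _ := by ring

theorem dy_le (x y v : E4) (h : ‖y - x‖ ≤ 1) : |D.dy x y v| ≤ 5 * D.L ^ 2 * ‖y - x‖ * ‖v‖ := by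
  have hL := L_pos D
  have h1 := dy_sub_le D x y v
  have h2 := G_le D y (y - x) v
  have h3 : ‖y - x‖ ^ 2 ≤ ‖y - x‖ := by
    rw [pow_two]; exact mul_le_of_le_one_left (norm_nonneg _) h
  have h4 : 3 * D.L ^ 2 * ‖y - x‖ ^ 2 * ‖v‖ ≤ 3 * D.L ^ 2 * ‖y - x‖ * ‖v‖ := by gcongr
  have h5 : |D.dy x y v| ≤ |D.dy x y v - 2 * D.G y (y - x) v| + |2 * D.G y (y - x) v| := by
    have := abs_add_le (D.dy x y v - 2 * D.G y (y - x) v) (2 * D.G y (y - x) v)
    simpa using this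
  rw [abs_mul, abs_two] at h5
  nlinarith

theorem hess_sub_le (x y u v : E4) (h : ‖y - x‖ ≤ 1) :
    |fderiv ℝ (fun z => D.dy x z) y u v - 2 * D.G y u v| ≤
      8 * D.L ^ 2 * ‖y - x‖ * ‖u‖ * ‖v‖ := by
  have hL := L_pos D
  rw [hess_eq]
  have h1 := G_lip D x y u v
  have h2 := G'_le D y u (y - x) v
  have h3 := G''_le D y u v (y - x) (y - x)
  have h4 := G'_le D y v u (y - x)
  have h5 := G'_le D y v (y - x) u
  have h6 : ‖y - x‖ * ‖y - x‖ ≤ ‖y - x‖ := mul_le_of_le_one_left (norm_nonneg _) h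
  have h7 : 4 * D.L ^ 2 * ‖u‖ * ‖v‖ * ‖y - x‖ * ‖y - x‖ ≤ 4 * D.L ^ 2 * ‖u‖ * ‖v‖ * ‖y - x‖ := by
    rw [mul_assoc _ ‖y - x‖ ‖y - x‖]
    gcongr
  have h3' := h3.trans h7
  have a1 := abs_le.1 h1
  have a2 := abs_le.1 h2
  have a3 := abs_le.1 h3'
  have a4 := abs_le.1 h4
  have a5 := abs_le.1 h5
  have e1 : 8 * D.L ^ 2 * ‖y - x‖ * ‖u‖ * ‖v‖ = 2 * D.L ^ 2 * ‖y - x‖ * ‖u‖ * ‖v‖ +
    2 * D.L ^ 2 * ‖u‖ * ‖y - x‖ * ‖v‖ + (4 * D.L ^ 2 * ‖u‖ * ‖v‖ * ‖y - x‖ +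
      2 * D.L ^ 2 * ‖v‖ * ‖u‖ * ‖y - x‖ + 2 * D.L ^ 2 * ‖v‖ * ‖y - x‖ * ‖u‖) / 2 := by ring
  rw [e1]
  refine abs_le.2 ⟨?_, ?_⟩
  · linarith [a1.1, a2.1, a3.1, a4.1, a5.1]
  · linarith [a1.2, a2.2, a3.2, a4.2, a5.2]

theorem S_fd (x y u v : E4) : fderiv ℝ (fun z => Jc (D.J z) (D.dy x z)) y u v =
    -(fderiv ℝ (fun z => D.dy x z) y u (D.J y v) + D.dy x y (fderiv ℝ D.J y u v)) := by
  have h1 : DifferentiableAt ℝ (fun z => Jc (D.J z) (D.dy x z)) y := by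
    have h2 : DifferentiableAt ℝ (fun z => (D.dy x z).comp (D.J z)) y :=
      (d_dy D x y).clm_comp (dJ D y)
    exact h2.neg
  have h3 : DifferentiableAt ℝ (fun z => D.J z v) y := (dJ D y).clm_apply
    (differentiableAt_const v)
  have e : (fun z => Jc (D.J z) (D.dy x z) v) = fun z => -(D.dy x z (D.J z v)) := by
    funext z; rw [Jc_apply]
  rw [← fd_apply h1, e, fderiv_fun_neg]
  show -(fderiv ℝ (fun z => D.dy x z (D.J z v)) y u) = _
  rw [fd_prod (d_dy D x y) h3, fd_apply (dJ D y)]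

theorem d1_sub_le (x y : E4) (h : ‖y - x‖ ≤ 1) :
    ‖d1 (fun z => Jc (D.J z) (D.dy x z)) y - (4 : ℝ) • D.F y‖ ≤ 26 * D.L ^ 3 * ‖y - x‖ := by
  have hL := L_pos D
  refine ContinuousLinearMap.opNorm_le_bound₂ _ (by positivity) fun u v => ?_
  have e0 : (d1 (fun z => Jc (D.J z) (D.dy x z)) y - (4 : ℝ) • D.F y) u v =
      d1 (fun z => Jc (D.J z) (D.dy x z)) y u v - 4 * D.F y u v := rfl
  rw [e0, d1_apply, S_fd, S_fd, Real.norm_eq_abs]
  have e1 : D.G y u (D.J y v) = - D.F y u v := by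
    rw [G_apply, (D.bd y).sq, map_neg]
  have e2 : D.G y v (D.J y u) = D.F y u v := by
    rw [G_apply, (D.bd y).sq, map_neg, (D.bd y).spos.alt.swap v u, neg_neg]
  have h1 := hess_sub_le D x y u (D.J y v) h
  have h2 := hess_sub_le D x y v (D.J y u) h
  have h3 := dy_le D x y (fderiv ℝ D.J y u v) h
  have h4 := dy_le D x y (fderiv ℝ D.J y v u) h
  have k1 := J_le D y v
  have k2 := J_le D y u
  have k3 := J'_le D y u v
  have k4 := J'_le D y v u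
  rw [e1] at h1
  rw [e2] at h2
  have g1 : 8 * D.L ^ 2 * ‖y - x‖ * ‖u‖ * ‖D.J y v‖ ≤ 8 * D.L ^ 2 * ‖y - x‖ * ‖u‖ * (D.L * ‖v‖) := by
    gcongr
  have g2 : 8 * D.L ^ 2 * ‖y - x‖ * ‖v‖ * ‖D.J y u‖ ≤ 8 * D.L ^ 2 * ‖y - x‖ * ‖v‖ * (D.L * ‖u‖) := by
    gcongr
  have g3 : 5 * D.L ^ 2 * ‖y - x‖ * ‖fderiv ℝ D.J y u v‖ ≤
    5 * D.L ^ 2 * ‖y - x‖ * (D.L * ‖u‖ * ‖v‖) := by gcongr
  have g4 : 5 * D.L ^ 2 * ‖y - x‖ * ‖fderiv ℝ D.J y v u‖ ≤
    5 * D.L ^ 2 * ‖y - x‖ * (D.L * ‖v‖ * ‖u‖) := by gcongr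
  have a1 := abs_le.1 (h1.trans g1)
  have a2 := abs_le.1 (h2.trans g2)
  have a3 := abs_le.1 (h3.trans g3)
  have a4 := abs_le.1 (h4.trans g4)
  have e3 : 26 * D.L ^ 3 * ‖y - x‖ * ‖u‖ * ‖v‖ = 8 * D.L ^ 2 * ‖y - x‖ * ‖u‖ * (D.L * ‖v‖) +
    8 * D.L ^ 2 * ‖y - x‖ * ‖v‖ * (D.L * ‖u‖) + 5 * D.L ^ 2 * ‖y - x‖ * (D.L * ‖u‖ * ‖v‖) +
    5 * D.L ^ 2 * ‖y - x‖ * (D.L * ‖v‖ * ‖u‖) := by ring
  rw [e3]
  refine abs_le.2 ⟨?_, ?_⟩
  · linarith [a1.1, a1.2, a2.1, a2.2, a3.1, a3.2, a4.1, a4.2]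
  · linarith [a1.1, a1.2, a2.1, a2.2, a3.1, a3.2, a4.1, a4.2]

/-- `|α|² = 4 G(d,d)` for `α = 2 G(d,·)`. -/
theorem flat_eq {J : E4 →L[ℝ] E4} {F : Bil} {m M : ℝ} (h : Bd J F m M) (d : E4) :
    q F F (wed ((2 : ℝ) • gm J F d) (Jc J ((2 : ℝ) • gm J F d))) = 2 * gm J F d d := by
  obtain ⟨A, hA, -, -⟩ := h.frame
  have hF := h.spos.alt
  rw [hA.q_eq hF hF (wed_alt _ _), hA.pull_form]
  obtain ⟨e, rfl⟩ : ∃ e, A e = d := ⟨A.symm d, A.apply_symm_apply d⟩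
  have h1 : ∀ v, ((2 : ℝ) • gm J F (A e)) (A v) = 2 * om0 e (J0 v) := by
    intro v
    show 2 * F (A e) (J (A v)) = _
    rw [hA.cplx, hA.form]
  have h2 : ∀ v, Jc J ((2 : ℝ) • gm J F (A e)) (A v) = 2 * om0 e v := by
    intro v
    rw [Jc_apply, hA.cplx, h1, J0_J0, map_neg]
    ring
  have h3 : ∀ i j, ent (pull (A : E4 →L[ℝ] E4) (wed ((2 : ℝ) • gm J F (A e))
      (Jc J ((2 : ℝ) • gm J F (A e))))) i j =
      (2 * om0 e (J0 (ee i))) * (2 * om0 e (ee j)) - (2 * om0 e (J0 (ee j))) * (2 * om0 e (ee i)) := by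
    intro i j
    show pull (A : E4 →L[ℝ] E4) _ (ee i) (ee j) = _
    rw [pull_apply]
    show wed ((2 : ℝ) • gm J F (A e)) (Jc J ((2 : ℝ) • gm J F (A e))) (A (ee i)) (A (ee j)) = _
    rw [wed_apply, h1, h1, h2, h2]
    ring
  have h4 : gm J F (A e) (A e) = om0 e (J0 e) := by
    rw [gm_apply, hA.cplx, hA.form]
  have h5 : ∀ i j, ent om0 i j = om0 (ee i) (ee j) := fun i j => rfl
  rw [h4]
  unfold W
  simp only [h3, h5, om0_apply, ee_apply, J0_0, J0_1, J0_2, J0_3]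
  simp
  ring

/-- the explicit constant of `GEO3` -/
def c3 (m M L : ℝ) : ℝ :=
  (252 * L ^ 6 / m ^ 2 + 4 * L ^ 2) + 3 / m ^ 2 * (2 * M * (26 * L ^ 3))

theorem c3_nonneg : 0 ≤ c3 D.m D.M D.L := by
  have hL := L_pos D
  have hm : 0 < D.m := (D.bd D.x0).m_pos
  have hM : 0 < D.M := Crest.Agent.R240.Bd.M_pos (D.bd D.x0)
  unfold c3
  positivity

/-- `GEO3` with the explicit constant `c3 m M L` (uniform in the data). -/
theorem geo3_u (x y : E4) (h : ‖y - x‖ ≤ 1) :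
    |2 * q (D.F y) (D.F y) (wed (D.dy x y) (Jc (D.J y) (D.dy x y))) - 4 * D.rho2 x y|
      ≤ c3 D.m D.M D.L * ‖y - x‖ ^ 3 ∧
    |q (D.F y) (D.φ y) (d1 (fun z => Jc (D.J z) (D.dy x z)) y) - 4| ≤
      c3 D.m D.M D.L * ‖y - x‖ := by
  have hL := L_pos D
  have hm : 0 < D.m := (D.bd D.x0).m_pos
  have hM : 0 < D.M := Crest.Agent.R240.Bd.M_pos (D.bd D.x0)
  set C1 : ℝ := 252 * D.L ^ 6 / D.m ^ 2 + 4 * D.L ^ 2 with hC1
  set C2 : ℝ := 3 / D.m ^ 2 * (2 * D.M * (26 * D.L ^ 3)) with hC2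
  have hC1' : 0 ≤ C1 := by positivity
  have hC2' : 0 ≤ C2 := by positivity
  have hc3 : c3 D.m D.M D.L = C1 + C2 := rfl
  rw [hc3]
  refine ⟨?_, ?_⟩
  · refine le_trans ?_ (mul_le_mul_of_nonneg_right (le_add_of_nonneg_right hC2' : C1 ≤ C1 + C2)
      (by positivity))
    have hB := D.bd y
    set r : ℝ := ‖y - x‖ with hr
    have hr0 : 0 ≤ r := norm_nonneg _
    set α0 : Cov := (2 : ℝ) • D.G y (y - x) with hα0
    set β : Cov := D.dy x y - α0 with hβ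
    have hα : D.dy x y = α0 + β := by rw [hβ]; abel
    have nβ : ‖β‖ ≤ 3 * D.L ^ 2 * r ^ 2 :=
      ContinuousLinearMap.opNorm_le_bound _ (by positivity) fun v => dy_sub_le D x y v
    have nα : ‖α0‖ ≤ 2 * D.L ^ 2 * r := by
      refine ContinuousLinearMap.opNorm_le_bound _ (by positivity) fun v => ?_
      show ‖2 * D.G y (y - x) v‖ ≤ _
      rw [norm_mul, Real.norm_eq_abs, Real.norm_eq_abs, abs_two]
      have := G_le D y (y - x) v
      calc 2 * |D.G y (y - x) v| ≤ 2 * (D.L ^ 2 * ‖y - x‖ * ‖v‖) := by gcongr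
        _ = _ := by rw [hr]; ring
    have bound : ∀ a b : Cov, |q (D.F y) (D.F y) (wed a (Jc (D.J y) b))| ≤
        6 * D.L ^ 2 / D.m ^ 2 * (‖a‖ * ‖b‖) := by
      intro a b
      refine (Crest.Agent.R240.Bd.abs_q_le hB hB.spos.alt (wed_alt _ _)).trans ?_
      have h1 := norm_wed_le a (Jc (D.J y) b)
      have h2 := norm_Jc_le (D.J y) b
      have h3 := D.bF y
      have h4 := D.bJ y
      have h5 : ‖wed a (Jc (D.J y) b)‖ ≤ 2 * ‖a‖ * (‖b‖ * D.L) :=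
        h1.trans (by gcongr; exact h2.trans (by gcongr))
      calc 3 / D.m ^ 2 * (‖D.F y‖ * ‖wed a (Jc (D.J y) b)‖)
          ≤ 3 / D.m ^ 2 * (D.L * (2 * ‖a‖ * (‖b‖ * D.L))) := by gcongr
        _ = _ := by ring
    have hexp : q (D.F y) (D.F y) (wed (D.dy x y) (Jc (D.J y) (D.dy x y))) =
        2 * D.G y (y - x) (y - x) + (q (D.F y) (D.F y) (wed α0 (Jc (D.J y) β)) +
          q (D.F y) (D.F y) (wed β (Jc (D.J y) α0)) +
          q (D.F y) (D.F y) (wed β (Jc (D.J y) β))) := by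
      have e0 : q (D.F y) (D.F y) (wed α0 (Jc (D.J y) α0)) = 2 * D.G y (y - x) (y - x) :=
        flat_eq hB (y - x)
      rw [hα, Jc_add, Crest.Agent.R240.wed_add_left, Crest.Agent.R240.wed_add_right,
        Crest.Agent.R240.wed_add_right, q_add_right, q_add_right, q_add_right, e0]
      ring
    have b1 := bound α0 β
    have b2 := bound β α0
    have b3 := bound β β
    have c1 : ‖α0‖ * ‖β‖ ≤ 6 * D.L ^ 4 * r ^ 3 := by
      calc ‖α0‖ * ‖β‖ ≤ (2 * D.L ^ 2 * r) * (3 * D.L ^ 2 * r ^ 2) := by gcongr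
        _ = _ := by ring
    have c2 : ‖β‖ * ‖β‖ ≤ 9 * D.L ^ 4 * r ^ 3 := by
      have h4 : r ^ 4 ≤ r ^ 3 := pow_le_pow_of_le_one hr0 h (by norm_num)
      calc ‖β‖ * ‖β‖ ≤ (3 * D.L ^ 2 * r ^ 2) * (3 * D.L ^ 2 * r ^ 2) := by gcongr
        _ = 9 * D.L ^ 4 * r ^ 4 := by ring
        _ ≤ _ := by gcongr
    have d1' : |q (D.F y) (D.F y) (wed α0 (Jc (D.J y) β))| ≤
        6 * D.L ^ 2 / D.m ^ 2 * (6 * D.L ^ 4 * r ^ 3) := b1.trans (by gcongr)
    have d2' : |q (D.F y) (D.F y) (wed β (Jc (D.J y) α0))| ≤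
        6 * D.L ^ 2 / D.m ^ 2 * (6 * D.L ^ 4 * r ^ 3) := by
      rw [mul_comm ‖β‖ ‖α0‖] at b2
      exact b2.trans (by gcongr)
    have d3' : |q (D.F y) (D.F y) (wed β (Jc (D.J y) β))| ≤
        6 * D.L ^ 2 / D.m ^ 2 * (9 * D.L ^ 4 * r ^ 3) := b3.trans (by gcongr)
    have hrho : 4 * D.rho2 x y = 2 * D.G x (y - x) (y - x) + 2 * D.G y (y - x) (y - x) := by
      unfold LC.rho2; ring
    have hG := G_lip D x y (y - x) (y - x)
    rw [hexp, hrho]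
    have e5 : C1 * r ^ 3 = 2 * (6 * D.L ^ 2 / D.m ^ 2 * (6 * D.L ^ 4 * r ^ 3)) +
        2 * (6 * D.L ^ 2 / D.m ^ 2 * (6 * D.L ^ 4 * r ^ 3)) +
        2 * (6 * D.L ^ 2 / D.m ^ 2 * (9 * D.L ^ 4 * r ^ 3)) +
        2 * (2 * D.L ^ 2 * r * r * r) := by rw [hC1]; ring
    rw [e5]
    have k1 := abs_le.1 d1'
    have k2 := abs_le.1 d2'
    have k3 := abs_le.1 d3'
    have k4 := abs_le.1 hG
    refine abs_le.2 ⟨?_, ?_⟩
    · linarith [k1.1, k2.1, k3.1, k4.1, k4.2]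
    · linarith [k1.2, k2.2, k3.2, k4.1, k4.2]
  · refine le_trans ?_ (mul_le_mul_of_nonneg_right (le_add_of_nonneg_left hC1' : C2 ≤ C1 + C2)
      (by positivity))
    have hB := D.bd y
    have h1 := d1_sub_le D x y h
    have h2 : q (D.F y) (D.φ y) ((4 : ℝ) • D.F y) = 4 := by
      rw [q_smul_right, D.nrm]; norm_num
    have h3 : q (D.F y) (D.φ y) (d1 (fun z => Jc (D.J z) (D.dy x z)) y) - 4 =
        q (D.F y) (D.φ y) (d1 (fun z => Jc (D.J z) (D.dy x z)) y - (4 : ℝ) • D.F y) := by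
      rw [q_sub_right, h2]
    have h4 : ‖D.φ y‖ ≤ 2 * D.M := by
      have := Crest.Agent.R240.Bd.norm_le_q hB (D.pos y)
      rwa [D.nrm, mul_one] at this
    rw [h3]
    refine (Crest.Agent.R240.Bd.abs_q_le hB (D.pos y).alt
      ((alt_d1 _ _).sub (hB.spos.alt.smul 4))).trans ?_
    calc 3 / D.m ^ 2 * (‖D.φ y‖ * ‖d1 (fun z => Jc (D.J z) (D.dy x z)) y - (4 : ℝ) • D.F y‖)
        ≤ 3 / D.m ^ 2 * ((2 * D.M) * (26 * D.L ^ 3 * ‖y - x‖)) := by gcongr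
      _ = C2 * ‖y - x‖ := by rw [hC2]; ring

theorem geo3 : GEO3 := fun D => ⟨c3 D.m D.M D.L, c3_nonneg D, fun x y h => geo3_u D x y h⟩

end

end Crest.Agent.R235.CurGeo3_52
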