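import Crest.Agent.R235.CurDefs_132

/-!
Row 235, package CUR, leaves LIN1 and LIN1' (helper785): the deficit of a covector, and the
Cauchy-Schwarz inequality.
-/

set_option autoImplicit false
set_option maxSynthPendingDepth 3

namespace Crest.Agent.R235.CurLin1_785

open Crest.Agent.R240 Crest.Agent.R240.En Crest.Agent.R240.Pot Crest.Agent.R235.CurDefs_132

noncomputable section

/-- the identity in the standard frame. -/
theorem frame_id {β : Bil} (ha : Alt β) (hi : ∀ u v, β (J0 u) (J0 v) = β u v) (al : Cov)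
    (z V : E4) (hz : ∀ u, om0 z (J0 u) = al u) :
    W β (wed al (om0 V)) / 2 = (W β om0 / 2) * al V - β z (J0 V) / 2 := by
  have e : ∀ i, al (ee i) = z i := by
    intro i
    rw [← hz, om0_apply]
    fin_cases i <;> simp
  have eV : al V = z 0 * V 0 + z 1 * V 1 + z 2 * V 2 + z 3 * V 3 := by
    rw [← hz, om0_apply]; simp; ring
  have eo : ∀ i, om0 V (ee i) = V 0 * (ee i) 1 - V 1 * (ee i) 0 + (V 2 * (ee i) 3 - V 3 * (ee i) 2) :=
    fun i => om0_apply _ _
  have ew : ∀ i j, ent (wed al (om0 V)) i j = z i * om0 V (ee j) - om0 V (ee i) * z j := by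
    intro i j
    unfold ent
    rw [wed_apply, e, e]
  have eom : ∀ i j, ent om0 i j = om0 (ee i) (ee j) := fun i j => rfl
  obtain ⟨h13, h12⟩ := inv0_ent hi
  rw [alt_expand ha z (J0 V), eV]
  unfold W
  simp only [ew, eo, eom, om0_apply, ee_apply, h13, h12, J0_0, J0_1, J0_2, J0_3]
  simp
  ring

/-- the identity. -/
theorem id1 {J : E4 →L[ℝ] E4} {F : Bil} {m M : ℝ} (h : Bd J F m M) {φ : Bil} (ha : Alt φ)
    (hi : ∀ u v, φ (J u) (J v) = φ u v) (al : Cov) (Z : E4) (hZ : ∀ u, F Z (J u) = al u) (V : E4) :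
    q F φ (wed al (F V)) = q F φ F * al V - φ Z (J V) / 2 := by
  obtain ⟨A, hA⟩ := exists_frame h.sq h.spos
  have hF := h.spos.alt
  rw [hA.q_eq hF ha (wed_alt _ _), hA.q_eq hF ha hF, hA.pull_form]
  have e1 : pull (A : E4 →L[ℝ] E4) (wed al (F V)) =
      wed (al.comp (A : E4 →L[ℝ] E4)) (om0 (A.symm V)) := by
    ext u v
    rw [pull_apply, wed_apply, wed_apply]
    have : ∀ x, om0 (A.symm V) x = F V (A x) := by
      intro x; rw [← hA.form]; simp
    rw [this, this]; rfl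
  rw [e1, frame_id (ha.pull _) (hA.pull_inv hi) (al.comp (A : E4 →L[ℝ] E4)) (A.symm Z) (A.symm V)]
  · congr 1
    · congr 1
      simp
    · rw [pull_apply]
      simp only [ContinuousLinearEquiv.coe_coe, ContinuousLinearEquiv.apply_symm_apply]
      rw [hA.J_symm, ContinuousLinearEquiv.apply_symm_apply]
  · intro u
    rw [← hA.form, ContinuousLinearEquiv.apply_symm_apply, ← hA.cplx, hZ]
    rfl

theorem exists_Z {J : E4 →L[ℝ] E4} {F : Bil} {m M : ℝ} (h : Bd J F m M) (al : Cov) :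
    ∃ Z : E4, ∀ u, F Z (J u) = al u := by
  obtain ⟨A, hA⟩ := exists_frame h.sq h.spos
  set z : E4 := al (A (ee 0)) • ee 0 + al (A (ee 1)) • ee 1 + al (A (ee 2)) • ee 2
    + al (A (ee 3)) • ee 3 with hz
  refine ⟨A z, fun u => ?_⟩
  obtain ⟨x, rfl⟩ := A.surjective u
  rw [hA.cplx, hA.form, om0_apply]
  conv_rhs => rw [sum_ee x]
  simp only [map_add, map_smul, smul_eq_mul]
  simp [hz]
  ring

theorem lin1 : LIN1 := by
  intro J F m M h φ hφ hn al
  obtain ⟨Z, hZ⟩ := exists_Z h al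
  have hV : ∀ V : E4, q F φ (wed al (F V)) = al V - φ Z (J V) / 2 := by
    intro V
    rw [id1 h hφ.alt hφ.inv al Z hZ V, hn, one_mul]
  have hF : ∀ V : E4, q F F (wed al (F V)) = al V / 2 := by
    intro V
    rw [id1 h h.spos.alt h.spos.inv al Z hZ V, h.q_self, hZ]; ring
  refine ⟨Z, hZ, ?_, hV⟩
  have e : Jc J al = F Z := by
    ext u
    rw [Jc_apply, ← hZ, h.sq, map_neg, neg_neg]
  unfold defi
  rw [e, hV, hF]; ring

theorem cs {J : E4 →L[ℝ] E4} (hJ : ∀ v, J (J v) = -v) {φ : Bil} (hφ : Pos J φ) (u v : E4) :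
    (φ u (J v)) ^ 2 ≤ φ u (J u) * φ v (J v) := by
  have hs : φ v (J u) = φ u (J v) := by
    have h := hφ.inv u (J v)
    rw [hJ v, map_neg] at h
    rw [← h, hφ.alt.swap (J u) v]; ring
  have hx : ∀ x : ℝ, 0 ≤ φ u (J u) * (x * x) + (2 * φ u (J v)) * x + φ v (J v) := by
    intro x
    have h := hφ.nonneg (x • u + v)
    simp only [map_add, map_smul, add_apply, smul_apply, smul_eq_mul, hs] at h
    linarith
  have hd := discrim_le_zero hx
  unfold discrim at hd
  nlinarith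

theorem lin1' : LIN1' := by
  intro J F m M h φ hφ hn al V
  obtain ⟨Z, -, hd, hV⟩ := lin1 J F m M h φ hφ hn al
  have h1 := hφ.nonneg Z
  have h2 := hφ.nonneg V
  have h3 := cs h.sq hφ Z V
  refine ⟨?_, h2, ?_⟩
  · rw [hd]; linarith
  · rw [hd, hV]
    have : (al V - (al V - φ Z (J V) / 2)) ^ 2 = (φ Z (J V)) ^ 2 / 4 := by ring
    rw [this]
    nlinarith

end

end Crest.Agent.R235.CurLin1_785
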