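import Mathlib
import Crest.Agent.R235.CurDefs_132
import Crest.Agent.R240.Lin5

/-!
Row 235 (S0364), PACKAGE CUR, helper253: LIN4 (pointwise bounds for a normalised positive form).
-/

set_option autoImplicit false
set_option maxSynthPendingDepth 3

namespace Crest.Agent.R235.CurLin4_253

open Crest.Agent.R240 Crest.Agent.R240.En Crest.Agent.R240.Pot Crest.Agent.R235.CurDefs_132

noncomputable section

theorem norm_pr_le (i : Fin 4) : ‖(R240.pr i : Cov)‖ ≤ 1 := by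
  refine ContinuousLinearMap.opNorm_le_bound _ zero_le_one fun v => ?_
  rw [R240.pr_apply, one_mul]
  exact PiLp.norm_apply_le v i

/-- expansion of a covector in the coordinate covectors. -/
theorem cov_expand (α : Cov) : α = ∑ i : Fin 4, α (ee i) • (R240.pr i : Cov) := by
  ext v
  have h : (∑ i : Fin 4, α (ee i) • (R240.pr i : Cov)) v = ∑ i : Fin 4, α (ee i) * v i := by
    simp only [Fin.sum_univ_four, add_apply, smul_apply, R240.pr_apply, smul_eq_mul]
  rw [h]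
  conv_lhs => rw [sum_ee v]
  simp only [map_add, map_smul, smul_eq_mul, Fin.sum_univ_four]
  ring

theorem spos_pos {J : E4 →L[ℝ] E4} {F : Bil} (h : SPos J F) : Pos J F where
  alt := h.alt
  inv := h.inv
  nonneg v := by
    by_cases hv : v = 0
    · subst hv; simp
    · exact (h.pos v hv).le

/-- `q(φ, α ∧ θ) = α(w)`. -/
theorem q_wed (F φ : Bil) (α θ : Cov) : q F φ (wed α θ) = α (wv F φ θ) := by
  have e : wed α θ = ∑ i : Fin 4, α (ee i) • wed (R240.pr i) θ := by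
    conv_lhs => rw [cov_expand α]
    simp only [Fin.sum_univ_four, R240.wed_add_left, R240.wed_smul_left]
  have e2 : α (wv F φ θ) = ∑ i : Fin 4, q F φ (wed (R240.pr i) θ) * α (ee i) := by
    unfold wv
    simp only [Fin.sum_univ_four, map_add, map_smul, smul_eq_mul]
  rw [e, e2]
  simp only [Fin.sum_univ_four, q_add_right, q_smul_right]
  ring

theorem LIN4_proof : LIN4 := by
  intro m M L
  set N : ℝ := 3 / m ^ 2 * (2 * |M|) with hN
  have hN0 : 0 ≤ N := by positivity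
  set C : ℝ := 2 * |M| + N + 8 * N + 6 * N * |L| with hC
  have hC0 : 0 ≤ C := by positivity
  refine ⟨C, hC0, ?_⟩
  intro J F hB hJ φ hφ hn
  have hm := hB.m_pos
  have hM := hB.M_pos
  have hMM : |M| = M := abs_of_pos hM
  have hφn : ‖φ‖ ≤ 2 * |M| := by
    have := hB.norm_le_q hφ
    rw [hn, mul_one] at this
    rw [hMM]; exact this
  have hFn : ‖F‖ ≤ 2 * |M| := by
    have := hB.norm_le_q (spos_pos hB.spos)
    rw [hB.q_self, mul_one] at this
    rw [hMM]; exact this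
  have hqφ : ∀ b : Bil, Alt b → |q F φ b| ≤ N * ‖b‖ := by
    intro b hb
    refine (hB.abs_q_le hφ.alt hb).trans ?_
    calc 3 / m ^ 2 * (‖φ‖ * ‖b‖) ≤ 3 / m ^ 2 * ((2 * |M|) * ‖b‖) := by gcongr
      _ = N * ‖b‖ := by rw [hN]; ring
  have hqF : ∀ b : Bil, Alt b → |q F F b| ≤ N * ‖b‖ := by
    intro b hb
    refine (hB.abs_q_le hB.spos.alt hb).trans ?_
    calc 3 / m ^ 2 * (‖F‖ * ‖b‖) ≤ 3 / m ^ 2 * ((2 * |M|) * ‖b‖) := by gcongr
      _ = N * ‖b‖ := by rw [hN]; ring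
  have hNL : 0 ≤ N * |L| := by positivity
  refine ⟨?_, ?_, ?_, ?_, fun α θ => q_wed F φ α θ⟩
  · linarith
  · intro b hb
    refine (hqφ b hb).trans ?_
    have : N ≤ C := by
      have : 0 ≤ |M| := abs_nonneg M
      linarith
    gcongr
  · intro θ
    have h1 : ∀ i : Fin 4, ‖q F φ (wed (R240.pr i) θ) • ee i‖ ≤ N * (2 * ‖θ‖) := by
      intro i
      rw [norm_smul, norm_ee, mul_one, Real.norm_eq_abs]
      refine (hqφ _ (wed_alt _ _)).trans ?_
      have h2 : ‖wed (R240.pr i) θ‖ ≤ 2 * ‖θ‖ := by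
        refine (norm_wed_le _ _).trans ?_
        have := norm_pr_le i
        calc 2 * ‖(R240.pr i : Cov)‖ * ‖θ‖ ≤ 2 * 1 * ‖θ‖ := by gcongr
          _ = 2 * ‖θ‖ := by ring
      gcongr
    have h3 : ‖wv F φ θ‖ ≤ ∑ _i : Fin 4, N * (2 * ‖θ‖) := norm_sum_le_of_le _ fun i _ => h1 i
    refine h3.trans ?_
    rw [Fin.sum_univ_four]
    have h4 : 8 * N ≤ C := by
      have : 0 ≤ |M| := abs_nonneg M
      linarith
    calc N * (2 * ‖θ‖) + N * (2 * ‖θ‖) + N * (2 * ‖θ‖) + N * (2 * ‖θ‖) = 8 * N * ‖θ‖ := by ring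
      _ ≤ C * ‖θ‖ := by gcongr
  · intro α
    unfold defi
    have hb := wed_alt α (Jc J α)
    have h1 := (abs_le.1 (hqF _ hb)).2
    have h2 := (abs_le.1 (hqφ _ hb)).1
    have h3 : ‖wed α (Jc J α)‖ ≤ 2 * |L| * ‖α‖ ^ 2 := by
      refine (norm_wed_le _ _).trans ?_
      have h4 : ‖Jc J α‖ ≤ ‖α‖ * |L| := by
        refine (R240.norm_Jc_le J α).trans ?_
        have := hJ.trans (le_abs_self L)
        gcongr
      calc 2 * ‖α‖ * ‖Jc J α‖ ≤ 2 * ‖α‖ * (‖α‖ * |L|) := by gcongr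
        _ = 2 * |L| * ‖α‖ ^ 2 := by ring
    have h5 : N * ‖wed α (Jc J α)‖ ≤ N * (2 * |L| * ‖α‖ ^ 2) := by gcongr
    have h6 : 6 * N * |L| ≤ C := by
      have : 0 ≤ |M| := abs_nonneg M
      linarith
    calc 2 * q F F (wed α (Jc J α)) - q F φ (wed α (Jc J α))
        ≤ 6 * N * |L| * ‖α‖ ^ 2 := by nlinarith
      _ ≤ C * ‖α‖ ^ 2 := by gcongr

end

end Crest.Agent.R235.CurLin4_253
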