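import Crest.Agent.R235.FlatDef_607

/-!
Row 235 (S0364), PACKAGE REG, block FLATW, leaf FLAT-10 (task 388), helper400:
lower bound of the mass on the support, `MON → GEO1 → LOWM`.
-/

set_option autoImplicit false
set_option maxSynthPendingDepth 3

open Set Function Filter MeasureTheory Metric
open scoped ContDiff ENNReal Manifold Topology

namespace Crest.Agent.R235.FlatLow_400

open Crest.Agent.R240 Crest.Agent.R240.En Crest.Agent.R240.Pot
open Crest.Agent.R235.CurDefs_132 Crest.Agent.R235.Flat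

noncomputable section

/-- a cut-off profile. -/
def K0 (t : ℝ) : ℝ := Real.smoothTransition (2 - t)

theorem cut_K0 : Cut 1 K0 where
  smooth := (Real.smoothTransition.contDiff (n := (⊤ : ℕ∞))).comp (by fun_prop)
  anti := fun a b h => Real.smoothTransition.monotone (by linarith)
  one := fun t h => Real.smoothTransition.one_of_one_le (by linarith)
  zero := fun t h => Real.smoothTransition.zero_of_nonpos (by linarith)

theorem K0_nonneg (t : ℝ) : 0 ≤ K0 t := Real.smoothTransition.nonneg _
theorem K0_le_one (t : ℝ) : K0 t ≤ 1 := Real.smoothTransition.le_one _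

theorem continuous_K0 : Continuous K0 := cut_K0.smooth.continuous

variable (D : LC)

theorem G_lo (x v : E4) : D.m * ‖v‖ ^ 2 ≤ D.G x v v := (D.bd x).lo v
theorem G_hi (x v : E4) : D.G x v v ≤ D.M * ‖v‖ ^ 2 := (D.bd x).hi v

theorem cont_right {f : E4 → E4 → ℝ} (h : Continuous fun z : E4 × E4 => f z.1 z.2) (x : E4) :
    Continuous fun y => f x y :=
  h.comp (continuous_const.prodMk continuous_id : Continuous fun y : E4 => (x, y))

theorem cont_rho2 (hG : GEO1) (x : E4) : Continuous fun y => D.rho2 x y :=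
  cont_right (f := D.rho2) (hG D).1.continuous x

theorem integrable_K (hG : GEO1) (x : E4) (r : ℝ) :
    Integrable (fun y => K0 (D.rho2 x y / r ^ 2)) D.s := by
  have := D.fin
  refine Integrable.of_bound (C := 1) ?_ ?_
  · exact (continuous_K0.comp ((cont_rho2 D hG x).div_const _)).aestronglyMeasurable
  · refine Eventually.of_forall fun y => ?_
    rw [Real.norm_of_nonneg (K0_nonneg _)]
    exact K0_le_one _

/-- lower bound of the mollified ratio. -/
theorem nuR_ge (hG : GEO1) (x : E4) {r ρ : ℝ} (hr : 0 < r) (hρ : D.M * ρ ^ 2 = D.m * r ^ 2) :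
    (r ^ 2)⁻¹ * D.s.real {y | D.G x (y - x) (y - x) < ρ ^ 2} ≤ D.nuR K0 r x := by
  have := D.fin
  have hm := (D.bd x).m_pos
  have hM := (D.bd x).M_pos
  unfold LC.nuR
  refine mul_le_mul_of_nonneg_left ?_ (by positivity)
  have hS : MeasurableSet {y | D.G x (y - x) (y - x) < ρ ^ 2} := by
    refine (isOpen_lt ?_ continuous_const).measurableSet
    have : Continuous fun y : E4 => y - x := by fun_prop
    exact ((D.G x).continuous.comp this).clm_apply this
  have h1 : D.s.real {y | D.G x (y - x) (y - x) < ρ ^ 2} =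
      ∫ y, indicator {y | D.G x (y - x) (y - x) < ρ ^ 2} (fun _ => (1 : ℝ)) y ∂D.s := by
    rw [integral_indicator hS]
    simp
  rw [h1]
  refine integral_mono ((integrable_const 1).indicator hS) (integrable_K D hG x r) ?_
  intro y
  by_cases hy : y ∈ {y | D.G x (y - x) (y - x) < ρ ^ 2}
  · rw [indicator_of_mem hy]
    have hy' : D.G x (y - x) (y - x) < ρ ^ 2 := hy
    have h2 := G_lo D x (y - x)
    have h3 := ((hG D).2.1 x y).2
    have h4 : D.rho2 x y ≤ r ^ 2 := by
      have h5 : D.m * (D.M * ‖y - x‖ ^ 2) ≤ D.M * (D.G x (y - x) (y - x)) := by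
        have := mul_le_mul_of_nonneg_left h2 hM.le
        linarith
      have h6 : D.m * (D.M * ‖y - x‖ ^ 2) ≤ D.m * r ^ 2 := by
        rw [← hρ]
        refine h5.trans ?_
        have := mul_le_mul_of_nonneg_left hy'.le hM.le
        linarith
      have h7 := le_of_mul_le_mul_left h6 hm
      linarith
    have h8 : K0 (D.rho2 x y / r ^ 2) = 1 := by
      refine cut_K0.one _ ?_
      rw [div_le_one (by positivity)]
      exact h4
    show (1 : ℝ) ≤ K0 (D.rho2 x y / r ^ 2)
    rw [h8]
  · rw [indicator_of_notMem hy]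
    exact K0_nonneg _

/-- upper bound of the mollified ratio. -/
theorem nuR_le (hG : GEO1) (x : E4) {r c : ℝ} (hr : 0 < r) (hc : 0 < c)
    (hcm : D.m * c ^ 2 = 2) :
    D.nuR K0 r x ≤ (r ^ 2)⁻¹ * D.s.real (ball x (c * r)) := by
  have := D.fin
  have hm := (D.bd x).m_pos
  unfold LC.nuR
  refine mul_le_mul_of_nonneg_left ?_ (by positivity)
  have h1 : D.s.real (ball x (c * r)) =
      ∫ y, indicator (ball x (c * r)) (fun _ => (1 : ℝ)) y ∂D.s := by
    rw [integral_indicator measurableSet_ball]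
    simp
  rw [h1]
  refine integral_mono (integrable_K D hG x r)
    ((integrable_const 1).indicator measurableSet_ball) ?_
  intro y
  by_cases hy : y ∈ ball x (c * r)
  · rw [indicator_of_mem hy]
    exact K0_le_one _
  · rw [indicator_of_notMem hy]
    have h2 : c * r ≤ ‖y - x‖ := by
      rw [mem_ball, dist_eq_norm, not_lt] at hy
      exact hy
    have h3 := ((hG D).2.1 x y).1
    have h4 : 2 * r ^ 2 ≤ D.rho2 x y := by
      calc 2 * r ^ 2 = D.m * (c * r) ^ 2 := by rw [mul_pow, ← mul_assoc, hcm]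
        _ ≤ D.m * ‖y - x‖ ^ 2 := by gcongr
        _ ≤ _ := h3
    have h5 : K0 (D.rho2 x y / r ^ 2) = 0 := by
      refine cut_K0.zero _ ?_
      rw [le_div_iff₀ (by positivity)]
      linarith
    show K0 (D.rho2 x y / r ^ 2) ≤ 0
    rw [h5]

/-- at a point of density one the mollified ratio is eventually bounded below. -/
theorem nuR_good (hG : GEO1) (x : E4) (hx : Den1 D x) :
    ∀ᶠ r in 𝓝[>] (0 : ℝ), D.m / D.M ≤ D.nuR K0 r x := by
  have := D.fin
  have hm := (D.bd x).m_pos
  have hM := (D.bd x).M_pos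
  set k : ℝ := √(D.m / D.M) with hk
  have hk0 : 0 < k := Real.sqrt_pos.2 (by positivity)
  have hk2 : k ^ 2 = D.m / D.M := Real.sq_sqrt (by positivity)
  have h1 : ∀ᶠ ρ in 𝓝[>] (0 : ℝ), 1 / Real.pi <
      D.s.real {y | D.G x (y - x) (y - x) < ρ ^ 2} / (Real.pi * ρ ^ 2) := by
    refine (tendsto_order.1 hx).1 _ ?_
    rw [div_lt_one Real.pi_pos]
    linarith [Real.pi_gt_three]
  have h2 : Tendsto (fun r : ℝ => k * r) (𝓝[>] 0) (𝓝[>] 0) := by
    refine tendsto_nhdsWithin_iff.2 ⟨?_, ?_⟩
    · have : Tendsto (fun r : ℝ => k * r) (𝓝 0) (𝓝 (k * 0)) :=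
        (continuous_const.mul continuous_id).tendsto 0
      rw [mul_zero] at this
      exact this.mono_left nhdsWithin_le_nhds
    · filter_upwards [self_mem_nhdsWithin] with r hr
      exact mul_pos hk0 hr
  filter_upwards [h2.eventually h1, self_mem_nhdsWithin] with r h3 hr
  have hr0 : 0 < r := hr
  have h4 : D.M * (k * r) ^ 2 = D.m * r ^ 2 := by
    rw [mul_pow, hk2]
    field_simp
  have h5 := nuR_ge D hG x hr0 h4
  refine le_trans ?_ h5
  have h6 : (k * r) ^ 2 ≤ D.s.real {y | D.G x (y - x) (y - x) < (k * r) ^ 2} := by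
    have hp := Real.pi_pos
    have h7 : 0 < (k * r) ^ 2 := by positivity
    rw [lt_div_iff₀ (by positivity)] at h3
    have : 1 / Real.pi * (Real.pi * (k * r) ^ 2) = (k * r) ^ 2 := by field_simp
    linarith
  calc D.m / D.M = (r ^ 2)⁻¹ * (k * r) ^ 2 := by
        rw [mul_pow, hk2]
        field_simp
    _ ≤ _ := by gcongr

theorem lowm (hM : MON) (hG : GEO1) : LOWM := by
  intro D hD
  have := D.fin
  have hm := (D.bd 0).m_pos
  have hMp := (D.bd 0).M_pos
  obtain ⟨C, r1, hC, hr1, hmono, -, -⟩ := hM D 1 K0 one_pos le_rfl cut_K0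
  set c : ℝ := √(2 / D.m) with hc
  have hc0 : 0 < c := Real.sqrt_pos.2 (by positivity)
  have hc2 : D.m * c ^ 2 = 2 := by
    rw [hc, Real.sq_sqrt (by positivity)]
    field_simp
  set a : ℝ := D.m / D.M with ha
  have ha0 : 0 < a := by positivity
  -- radius
  set r2 : ℝ := min r1 (a / (2 * (C + 1))) with hr2
  have hr20 : 0 < r2 := lt_min hr1 (by positivity)
  have hgood : ∀ x ∈ ball D.x0 (2 * D.R), Den1 D x → ∀ r, 0 < r → r ≤ r2 →
      a / 2 * r ^ 2 ≤ D.s.real (ball x (c * r)) := by
    intro x hx hx1 r hr hrr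
    have h1 : a - C * r ≤ D.nuR K0 r x := by
      have h2 := nuR_good D hG x hx1
      have h3 : ∀ᶠ t in 𝓝[>] (0 : ℝ), t < r :=
        (Iio_mem_nhds hr : Iio r ∈ 𝓝 (0 : ℝ)) |> mem_nhdsWithin_of_mem_nhds
      obtain ⟨t, ht1, ht2, ht0⟩ := (h2.and (h3.and self_mem_nhdsWithin)).exists
      have hx3 : x ∈ ball D.x0 (3 * D.R) := by
        refine ball_subset_ball ?_ hx
        linarith [D.R_pos]
      have := hmono x hx3 t r ht0 ht2 (hrr.trans (min_le_left _ _))
      linarith
    have h4 : C * r ≤ a / 2 := by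
      have h5 : r ≤ a / (2 * (C + 1)) := hrr.trans (min_le_right _ _)
      rw [le_div_iff₀ (by positivity)] at h5
      nlinarith
    have h6 := nuR_le D hG x hr hc0 hc2
    have h7 : a / 2 ≤ (r ^ 2)⁻¹ * D.s.real (ball x (c * r)) := by linarith
    rw [inv_mul_eq_div, le_div_iff₀ (by positivity)] at h7
    exact h7
  refine ⟨a / 2 / (2 * c) ^ 2, 2 * c * r2, by positivity, by positivity, ?_⟩
  intro x hx hsupp r hr hrr
  set t : ℝ := r / (2 * c) with ht
  have ht0 : 0 < t := by positivity
  have htr : t ≤ r2 := by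
    rw [ht, div_le_iff₀ (by positivity)]
    linarith
  have hrt : r = 2 * c * t := by
    rw [ht]
    field_simp
  -- a good point near `x`
  obtain ⟨e, he0, he⟩ := Metric.isOpen_iff.1 isOpen_ball x hx
  set e' : ℝ := min e (c * t) with he'
  have he'0 : 0 < e' := lt_min he0 (by positivity)
  have h1 : 0 < D.s (ball x e') := hsupp e' he'0
  obtain ⟨x', hx'1, hx'2⟩ : ∃ x' ∈ ball x e', x' ∈ ball D.x0 (2 * D.R) → Den1 D x' := by
    by_contra hcon
    push Not at hcon
    have h2 : D.s (ball x e') = 0 := by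
      refine measure_mono_null ?_ hD
      intro y hy
      have := hcon y hy
      exact fun h => this.2 (h this.1)
    exact h1.ne' h2
  have hx'3 : x' ∈ ball D.x0 (2 * D.R) := he (ball_subset_ball (min_le_left _ _) hx'1)
  have h3 := hgood x' hx'3 (hx'2 hx'3) t ht0 htr
  have h4 : ball x' (c * t) ⊆ ball x r := by
    intro y hy
    rw [mem_ball] at hy hx'1 ⊢
    have h5 := dist_triangle y x' x
    have h6 : e' ≤ c * t := min_le_right _ _
    rw [hrt]
    linarith
  calc a / 2 / (2 * c) ^ 2 * r ^ 2 = a / 2 * t ^ 2 := by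
        rw [hrt]
        field_simp
    _ ≤ D.s.real (ball x' (c * t)) := h3
    _ ≤ D.s.real (ball x r) := measureReal_mono h4

end

end Crest.Agent.R235.FlatLow_400
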