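import Mathlib
import Crest.Agent.R235.FlatLow_400
import Crest.Agent.R235.CurMon_956
import Crest.Agent.R235.CurGeo3_52
import Crest.Agent.R235.CurGeo1_679
import Crest.Agent.R235.CurLin1_785
import Crest.Agent.R235.CurLin4_253

/-!
Row 235 (S0364), package TOR / SWC, helper225: node LIMT, part U.
Lower bound of the mass of small balls with constants depending only on the geometry and on the
growth constant.
-/

set_option autoImplicit false
set_option maxSynthPendingDepth 3

open Set Function Filter MeasureTheory Metric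
open scoped ContDiff ENNReal Manifold Topology

namespace Crest.Agent.R235.LimtU_225

open Crest.Agent.R240 Crest.Agent.R240.En Crest.Agent.R240.Pot
open Crest.Agent.R235.CurDefs_132 Crest.Agent.R235.FlatLow_400 Crest.Agent.R235.CurMon_956

noncomputable section

variable (D : LC)

/-- lower bound of the mollified ratio by the mass of a ball. -/
theorem nuR_ge_ball (hG : GEO1) (x : E4) {r ρ : ℝ} (hr : 0 < r) (hρ : D.M * ρ ^ 2 = r ^ 2) :
    (r ^ 2)⁻¹ * D.s.real (ball x ρ) ≤ D.nuR K0 r x := by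
  have := D.fin
  have hM := (D.bd x).M_pos
  unfold LC.nuR
  refine mul_le_mul_of_nonneg_left ?_ (by positivity)
  have h1 : D.s.real (ball x ρ) = ∫ y, indicator (ball x ρ) (fun _ => (1 : ℝ)) y ∂D.s := by
    rw [integral_indicator measurableSet_ball]
    simp
  rw [h1]
  refine integral_mono ((integrable_const 1).indicator measurableSet_ball)
    (integrable_K D hG x r) ?_
  intro y
  by_cases hy : y ∈ ball x ρ
  · rw [indicator_of_mem hy]
    have hy' : ‖y - x‖ < ρ := by rwa [mem_ball, dist_eq_norm] at hy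
    have h3 := ((hG D).2.1 x y).2
    have h4 : D.rho2 x y ≤ r ^ 2 := by
      have h5 : ‖y - x‖ ^ 2 ≤ ρ ^ 2 := by
        have := norm_nonneg (y - x)
        gcongr
      calc D.rho2 x y ≤ D.M * ‖y - x‖ ^ 2 := h3
        _ ≤ D.M * ρ ^ 2 := by gcongr
        _ = r ^ 2 := hρ
    have h8 : K0 (D.rho2 x y / r ^ 2) = 1 := by
      refine cut_K0.one _ ?_
      rw [div_le_one (by positivity)]
      exact h4
    show (1 : ℝ) ≤ K0 (D.rho2 x y / r ^ 2)
    rw [h8]
  · rw [indicator_of_notMem hy]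
    exact K0_nonneg _

/-- **uniform lower bound.** -/
theorem low_u (h0 : MON0) (m M L R Cg c0 : ℝ) (hm : 0 < m) (hM : 0 < M) (hR : 0 < R)
    (hc0 : 0 < c0) :
    ∃ κ r2 : ℝ, 0 < κ ∧ 0 < r2 ∧ ∀ D : LC, D.m = m → D.M = M → D.L = L → D.R = R → D.C = Cg →
      ∀ x ∈ ball D.x0 (3 * D.R), (∀ᶠ r in 𝓝[>] (0 : ℝ), c0 * r ^ 2 ≤ D.s.real (ball x r)) →
      ∀ r, 0 < r → r ≤ r2 → κ * r ^ 2 ≤ D.s.real (ball x r) := by
  have hG : GEO1 := CurGeo1_679.geo1
  obtain ⟨C0, c', hC0, hc', hprof⟩ := h0 1 K0 one_pos le_rfl cut_K0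
  set C3 : ℝ := CurGeo3_52.c3 m M L with hC3
  set C7 : ℝ := |c7 m M Cg R C0 c' C3| with hC7
  have hC7n : 0 ≤ C7 := abs_nonneg _
  have hrr1 : 0 < rr1 m M R := by
    unfold rr1 rr0
    positivity
  set a : ℝ := c0 / M with ha
  have ha0 : 0 < a := by positivity
  set c : ℝ := √(2 / m) with hc
  have hcp : 0 < c := Real.sqrt_pos.2 (by positivity)
  have hc2 : m * c ^ 2 = 2 := by
    rw [hc, Real.sq_sqrt (by positivity)]
    field_simp
  set r2 : ℝ := min (rr1 m M R) (a / (2 * (C7 + 1))) with hr2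
  have hr20 : 0 < r2 := lt_min hrr1 (by positivity)
  refine ⟨a / 2 / c ^ 2, c * r2, by positivity, by positivity, ?_⟩
  rintro D rfl rfl rfl rfl rfl x hx hev r hr hrr
  have := D.fin
  have hprofD : Prof K0 C0 c' := hprof
  have hmon := mon_u hG CurLin1_785.lin1' CurLin4_253.LIN4_proof D le_rfl cut_K0 hC0
    (CurGeo3_52.c3_nonneg D) hc' hprofD (fun x y h => CurGeo3_52.geo3_u D x y h)
  obtain ⟨h70, -, hmono, -, -⟩ := hmon
  set t : ℝ := r / c with ht
  have ht0 : 0 < t := by positivity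
  have htr : t ≤ r2 := by
    rw [ht, div_le_iff₀ hcp]
    linarith
  have hrt : r = c * t := by
    rw [ht]
    field_simp
  -- small radii
  set k : ℝ := √(1 / D.M) with hk
  have hk0 : 0 < k := Real.sqrt_pos.2 (by positivity)
  have hk2 : D.M * k ^ 2 = 1 := by
    rw [hk, Real.sq_sqrt (by positivity)]
    field_simp
  have h2 : Tendsto (fun r : ℝ => k * r) (𝓝[>] 0) (𝓝[>] 0) := by
    refine tendsto_nhdsWithin_iff.2 ⟨?_, ?_⟩
    · have : Tendsto (fun r : ℝ => k * r) (𝓝 0) (𝓝 (k * 0)) :=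
        (continuous_const.mul continuous_id).tendsto 0
      rw [mul_zero] at this
      exact this.mono_left nhdsWithin_le_nhds
    · filter_upwards [self_mem_nhdsWithin] with r hr
      exact mul_pos hk0 hr
  have h3 : ∀ᶠ u in 𝓝[>] (0 : ℝ), u < t :=
    mem_nhdsWithin_of_mem_nhds (Iio_mem_nhds ht0)
  obtain ⟨u, hu1, hu2, hu0⟩ := ((h2.eventually hev).and (h3.and self_mem_nhdsWithin)).exists
  have hu0' : 0 < u := hu0
  have h4 : a ≤ D.nuR K0 u x := by
    refine le_trans ?_ (nuR_ge_ball D hG x hu0' (ρ := k * u) (by rw [mul_pow, ← mul_assoc, hk2, one_mul]))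
    have h5 : a = (u ^ 2)⁻¹ * (c0 * (k * u) ^ 2) := by
      have h6 : k ^ 2 = 1 / D.M := by
        field_simp
        linarith
      rw [mul_pow, h6, ha]
      field_simp
    rw [h5]
    exact mul_le_mul_of_nonneg_left hu1 (by positivity)
  have h5 := hmono x hx u t hu0' hu2 (htr.trans (min_le_left _ _))
  have h6 : c7 D.m D.M D.C D.R C0 c' C3 * t ≤ a / 2 := by
    have h7 : t ≤ a / (2 * (C7 + 1)) := htr.trans (min_le_right _ _)
    rw [le_div_iff₀ (by positivity)] at h7
    have h8 : c7 D.m D.M D.C D.R C0 c' C3 ≤ C7 := le_abs_self _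
    nlinarith
  have h7 : a / 2 ≤ D.nuR K0 t x := by
    have e : CurGeo3_52.c3 D.m D.M D.L = C3 := rfl
    rw [e] at h5
    linarith
  have h8 := nuR_le D hG x ht0 hcp hc2
  have h9 : a / 2 ≤ (t ^ 2)⁻¹ * D.s.real (ball x (c * t)) := h7.trans h8
  rw [inv_mul_eq_div, le_div_iff₀ (by positivity)] at h9
  calc a / 2 / c ^ 2 * r ^ 2 = a / 2 * t ^ 2 := by
        rw [hrt]
        field_simp
    _ ≤ D.s.real (ball x (c * t)) := h9
    _ = D.s.real (ball x r) := by rw [← hrt]

end

end Crest.Agent.R235.LimtU_225
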