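import Mathlib
import Crest.Agent.R235.LimtD_225
import Crest.Agent.R235.LimtU_225
import Crest.Agent.R235.GrowthU_4

/-!
Row 235 (S0364), package TOR / SWC, helper225: node LIMT, assembly.
`CHLCU, MON0, TORCUR, LB ⇒ LIMT`.
-/

set_option autoImplicit false
set_option maxSynthPendingDepth 3

open Set Function Filter MeasureTheory Metric
open scoped Manifold ContDiff Topology

universe u

namespace Crest.Agent.R235.Limt

open Crest.Agent.R240 Crest.Agent.R240.Ch Crest.Agent.R235 Crest.Agent.R235.Swc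
open Crest.Agent.R235.CurDefs_132

noncomputable section

/-- **CHLCU** (helper4): local data of the currents with geometry independent of the current. -/
def CHLCU : Prop :=
  ∀ (M : Type u) [MetricSpace M] [CompactSpace M] [ConnectedSpace M] [ChartedSpace E4 M]
    [IsManifold 𝓘(ℝ, E4) ∞ M] [MeasurableSpace M] [BorelSpace M] (D : Dat M), D.F = D.al →
    ∀ x : M, ∃ (m K L R : ℝ) (Cf : ℝ → ℝ), 0 < m ∧ 0 < K ∧ 0 < R ∧
      closedBall (chartAt E4 x x) (4 * R) ⊆ (chartAt E4 x).target ∧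
      ∀ (S : X2 M →ₗ[ℝ] ℝ) (s : Measure M), T1_195.Cur D S s → ∀ Cg : ℝ, 0 ≤ Cg →
        (∀ (y : M) (r : ℝ), 0 < r → s.real (ball y r) ≤ Cg * r ^ 2) →
        ∃ E : LC, E.m = m ∧ E.M = K ∧ E.L = L ∧ E.R = R ∧ E.C = Cf Cg ∧
          E.x0 = chartAt E4 x x ∧ ∀ A : Set E4, MeasurableSet A → A ⊆ ball E.x0 (4 * R) →
            E.s A = s ((chartAt E4 x).symm '' A)

/-- **TORCUR** (helper129): the current of a `J`-torus. -/
def TORCUR : Prop :=
  ∀ (M : Type u) [TopologicalSpace M] [T2Space M] [CompactSpace M] [ConnectedSpace M]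
    [ChartedSpace E4 M] [IsManifold 𝓘(ℝ, E4) ∞ M] (w : Trip M) (J : EndF E4 M), Pos3 w → IsJ w J →
    ∀ (f : H2 M) (σ : Ep → M), JTor w σ f →
    ∃ T : X2 M →ₗ[ℝ] ℝ, PCur J T ∧ ∀ b : X2 M, T b = torI σ (b.1 : F2 E4 M)

/-- **LB** (helper129): asymptotic lower bound of the area of small balls, and the support. -/
def LB : Prop :=
  ∀ (M : Type u) [MetricSpace M] [CompactSpace M] [ConnectedSpace M] [ChartedSpace E4 M]
    [IsManifold 𝓘(ℝ, E4) ∞ M] [MeasurableSpace M] [BorelSpace M] (D : Dat M) (w : Trip M),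
    Pos3 w → IsJ w D.J → ∃ k : ℝ, 0 < k ∧ ∀ (f : H2 M) (σ : Ep → M), JTor w σ f →
      ∀ (T : X2 M →ₗ[ℝ] ℝ) (s : Measure M), T1_195.Cur D T s →
      (∀ b : X2 M, T b = torI σ (b.1 : F2 E4 M)) →
      (∀ y : Ep, ∀ᶠ r in 𝓝[>] (0 : ℝ), k * r ^ 2 ≤ s.real (ball (σ y) r)) ∧
        ∀ x : M, Sup s x → x ∈ range σ

section Met

variable {M : Type u} [MetricSpace M] [CompactSpace M] [ConnectedSpace M] [ChartedSpace E4 M]
    [IsManifold 𝓘(ℝ, E4) ∞ M] [MeasurableSpace M] [BorelSpace M]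

/-- the uniform lower bound near a point. -/
theorem near (hC : CHLCU.{u}) (h0 : MON0) (D : Dat M) (hF : D.F = D.al) (x : M) (k Cg : ℝ)
    (hk : 0 < k) (hCg : 0 ≤ Cg) :
    ∃ U : Set M, IsOpen U ∧ x ∈ U ∧ ∃ κ r2 : ℝ, 0 < κ ∧ 0 < r2 ∧
      ∀ (S : X2 M →ₗ[ℝ] ℝ) (s : Measure M), T1_195.Cur D S s →
        (∀ (y : M) (r : ℝ), 0 < r → s.real (ball y r) ≤ Cg * r ^ 2) →
        ∀ y ∈ U, (∀ᶠ r in 𝓝[>] (0 : ℝ), k * r ^ 2 ≤ s.real (ball y r)) →
        ∀ r, 0 < r → r ≤ r2 → κ * r ^ 2 ≤ s.real (ball y r) := by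
  obtain ⟨m, K, L, R, Cf, hm, hK, hR, hsub, hE⟩ := hC M D hF x
  set e := chartAt E4 x with he
  set p : E4 := e x with hp
  have hBt : ball p (4 * R) ⊆ e.target := ball_subset_closedBall.trans hsub
  obtain ⟨c, C, hc, hCp, hbl⟩ := D.bl x (closedBall p (2 * R)) (isCompact_closedBall _ _)
    ((closedBall_subset_closedBall (by linarith)).trans hsub)
  -- the neighbourhoods
  have hopen : ∀ ρ, ρ ≤ 4 * R → IsOpen (e.symm '' ball p ρ) := fun ρ hρ =>
    e.isOpen_image_symm_of_subset_target isOpen_ball ((ball_subset_ball hρ).trans hBt)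
  have hcpt : IsCompact (e.symm '' closedBall p R) := by
    refine (isCompact_closedBall p R).image_of_continuousOn (e.continuousOn_symm.mono ?_)
    exact (closedBall_subset_closedBall (by linarith)).trans hsub
  have hcs : e.symm '' closedBall p R ⊆ e.symm '' ball p (2 * R) :=
    image_mono (closedBall_subset_ball (by linarith))
  obtain ⟨δ, hδ, hδ2⟩ := hcpt.exists_thickening_subset_open (hopen (2 * R) (by linarith)) hcs
  obtain ⟨κ, r2, hκ, hr2, hlow⟩ := LimtU_225.low_u h0 m K L R (Cf Cg) (k * c ^ 2) hm hK hR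
    (by positivity)
  refine ⟨e.symm '' ball p R, hopen R (by linarith), ?_, κ / C ^ 2, C * min r2 R, by positivity,
    mul_pos hCp (lt_min hr2 hR), ?_⟩
  · exact ⟨p, mem_ball_self hR, e.left_inv (mem_chart_source E4 x)⟩
  intro S s hS hgr y hy hev r hr hrr
  have := hS.fin
  obtain ⟨q, hq, rfl⟩ := hy
  obtain ⟨E, hEm, hEK, hEL, hER, hEC, hEx, hEs⟩ := hE S s hS Cg hCg hgr
  have hEfin := E.fin
  have hqR : q ∈ closedBall p R := ball_subset_closedBall hq
  have hq2 : q ∈ closedBall p (2 * R) := closedBall_subset_closedBall (by linarith) hqR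
  -- measures
  have hEs' : ∀ ρ, ρ ≤ 2 * R → E.s.real (ball q ρ) = s.real (e.symm '' ball q ρ) := by
    intro ρ hρ
    have h1 : ball q ρ ⊆ ball E.x0 (4 * R) := by
      intro z hz
      rw [hEx, mem_ball]
      rw [mem_ball] at hz hq
      have := dist_triangle z q p
      linarith
    show (E.s _).toReal = (s _).toReal
    rw [hEs _ measurableSet_ball h1]
  -- asymptotic bound in the chart
  have hasy : ∀ᶠ ρ in 𝓝[>] (0 : ℝ), k * c ^ 2 * ρ ^ 2 ≤ E.s.real (ball q ρ) := by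
    have h2 : Tendsto (fun ρ : ℝ => c * ρ) (𝓝[>] 0) (𝓝[>] 0) := by
      refine tendsto_nhdsWithin_iff.2 ⟨?_, ?_⟩
      · have : Tendsto (fun r : ℝ => c * r) (𝓝 0) (𝓝 (c * 0)) :=
          (continuous_const.mul continuous_id).tendsto 0
        rw [mul_zero] at this
        exact this.mono_left nhdsWithin_le_nhds
      · filter_upwards [self_mem_nhdsWithin] with r hr
        exact mul_pos hc hr
    have h3 : ∀ᶠ ρ in 𝓝[>] (0 : ℝ), ρ < min R (δ / c) :=
      mem_nhdsWithin_of_mem_nhds (Iio_mem_nhds (lt_min hR (by positivity)))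
    filter_upwards [h2.eventually hev, h3, self_mem_nhdsWithin] with ρ h4 h5 h6
    have h6' : 0 < ρ := h6
    have h7 : ρ < R := h5.trans_le (min_le_left _ _)
    have h8 : ρ < δ / c := h5.trans_le (min_le_right _ _)
    rw [hEs' ρ (by linarith)]
    have h9 : ball (e.symm q) (c * ρ) ⊆ e.symm '' ball q ρ := by
      intro z hz
      have h10 : z ∈ e.symm '' ball p (2 * R) := by
        refine hδ2 (mem_thickening_iff.2 ⟨e.symm q, ⟨q, hqR, rfl⟩, ?_⟩)
        rw [mem_ball] at hz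
        rw [lt_div_iff₀ hc] at h8
        linarith
      obtain ⟨z', hz', rfl⟩ := h10
      refine ⟨z', ?_, rfl⟩
      have h11 := (hbl z' (ball_subset_closedBall hz') q hq2).1
      rw [mem_ball] at hz
      rw [mem_ball, dist_eq_norm]
      have h12 : c * ‖z' - q‖ < c * ρ := lt_of_le_of_lt h11 hz
      exact lt_of_mul_lt_mul_left h12 hc.le
    calc k * c ^ 2 * ρ ^ 2 = k * (c * ρ) ^ 2 := by ring
      _ ≤ s.real (ball (e.symm q) (c * ρ)) := h4
      _ ≤ s.real (e.symm '' ball q ρ) := measureReal_mono h9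
  have hxq : q ∈ ball E.x0 (3 * E.R) := by
    rw [hEx, hER]
    exact ball_subset_ball (by linarith) hq
  have h1 := hlow E hEm hEK hEL hER hEC q hxq hasy (r / C) (by positivity) (by
    rw [div_le_iff₀ hCp]
    have := min_le_left r2 R
    calc r ≤ C * min r2 R := hrr
      _ ≤ C * r2 := by gcongr
      _ = r2 * C := mul_comm _ _)
  have hrC : r / C ≤ R := by
    rw [div_le_iff₀ hCp]
    have := min_le_right r2 R
    calc r ≤ C * min r2 R := hrr
      _ ≤ C * R := by gcongr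
      _ = R * C := mul_comm _ _
  rw [hEs' (r / C) (by linarith)] at h1
  have h2 : e.symm '' ball q (r / C) ⊆ ball (e.symm q) r := by
    rintro _ ⟨z, hz, rfl⟩
    have hz2 : z ∈ closedBall p (2 * R) := by
      rw [mem_closedBall]
      rw [mem_ball] at hz hq
      have := dist_triangle z q p
      linarith
    have h3 := (hbl z hz2 q hq2).2
    rw [mem_ball]
    rw [mem_ball, dist_eq_norm, lt_div_iff₀ hCp] at hz
    calc dist (e.symm z) (e.symm q) ≤ C * ‖z - q‖ := h3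
      _ < r := by linarith
  calc κ / C ^ 2 * r ^ 2 = κ * (r / C) ^ 2 := by
        field_simp
    _ ≤ s.real (e.symm '' ball q (r / C)) := h1
    _ ≤ s.real (ball (e.symm q) r) := measureReal_mono h2

/-- the uniform lower bound. -/
theorem unif (hC : CHLCU.{u}) (h0 : MON0) (D : Dat M) (hF : D.F = D.al) (k Cg : ℝ)
    (hk : 0 < k) (hCg : 0 ≤ Cg) :
    ∃ κ r2 : ℝ, 0 < κ ∧ 0 < r2 ∧
      ∀ (S : X2 M →ₗ[ℝ] ℝ) (s : Measure M), T1_195.Cur D S s →
        (∀ (y : M) (r : ℝ), 0 < r → s.real (ball y r) ≤ Cg * r ^ 2) →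
        ∀ y : M, (∀ᶠ r in 𝓝[>] (0 : ℝ), k * r ^ 2 ≤ s.real (ball y r)) →
        ∀ r, 0 < r → r ≤ r2 → κ * r ^ 2 ≤ s.real (ball y r) := by
  choose U hUo hxU κ r2 hκ hr2 h using fun x : M => near hC h0 D hF x k Cg hk hCg
  obtain ⟨t, ht⟩ := isCompact_univ.elim_nhds_subcover U fun x _ => (hUo x).mem_nhds (hxU x)
  obtain ⟨x0⟩ : Nonempty M := inferInstance
  have htne : t.Nonempty := by
    obtain ⟨p, hp, -⟩ := mem_iUnion₂.1 (ht.2 (mem_univ x0))
    exact ⟨p, hp⟩
  refine ⟨t.inf' htne κ, t.inf' htne r2, ?_, ?_, ?_⟩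
  · rw [Finset.lt_inf'_iff]; exact fun p _ => hκ p
  · rw [Finset.lt_inf'_iff]; exact fun p _ => hr2 p
  intro S s hS hg y hy r hr hrr
  obtain ⟨p, hp, hyp⟩ := mem_iUnion₂.1 (ht.2 (mem_univ y))
  have h1 := h p S s hS hg y hyp hy r hr (hrr.trans (Finset.inf'_le _ hp))
  refine le_trans ?_ h1
  have : t.inf' htne κ ≤ κ p := Finset.inf'_le _ hp
  gcongr

end Met

/-- **LIMT.** -/
theorem limt_of (hC : CHLCU.{u}) (h0 : MON0) (hT : TORCUR.{u}) (hB : LB.{u}) : LIMT.{u} := by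
  intro M _ _ _ _ _ _ _ D w hw hJ hal f x hx
  obtain ⟨D', hD'J, hD'F⟩ := exists_closedF D
  have hJ' : IsJ w D'.J := by rw [hD'J]; exact hJ
  obtain ⟨k, hk, hlb⟩ := hB M D' w hw hJ'
  obtain ⟨K, hK, hgrow⟩ := GrowthU_4.growthU D'
  -- the sequence
  obtain ⟨y, hy, hyx⟩ := mem_closure_iff_seq_limit.1 hx
  choose σ hσ hyσ using hy
  choose T hTP hTe using fun n => hT M w D'.J hw hJ' f (σ n) (hσ n)
  have hcur : ∀ n, ∃ s, T1_195.Cur D' (T n) s := fun n => T1_195.exists_cur D'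
    (fun b => (hTP n).inv b (D'.pi' b) fun x => rfl) (fun P hP => (hTP n).nonneg P hP)
    (hTP n).closed
  choose s hs using hcur
  have hcls : ∀ n (b : Z2 M), T n b.1 = ip (w 0) f (cls b) := fun n b => by
    rw [hTe n, (hσ n).rep b]
  -- the mass
  set a : Z2 M := ⟨⟨D'.al, D'.sm_al⟩, D'.cl_al⟩ with ha
  have hmass : ∀ n, (s n).real univ = ip (w 0) f (cls a) := by
    intro n
    have := (hs n).fin
    have h1 : SmoothF E4 (fun _ : M => (1 : ℝ)) := (smoothF_iff _).1 contMDiff_const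
    have h2 := int_eq (hs n) h1
    have h3 : fX D' h1 = a.1 := by
      apply Subtype.ext
      funext x
      show (1 : ℝ) • D'.F x = D'.al x
      rw [one_smul, hD'F]
    rw [h3, hcls n a] at h2
    rw [← h2]
    simp
  have hpos0 : 0 ≤ ip (w 0) f (cls a) := by rw [← hmass 0]; exact measureReal_nonneg
  set Cg : ℝ := K * ip (w 0) f (cls a) with hCg
  have hCg0 : 0 ≤ Cg := mul_nonneg hK.le hpos0
  obtain ⟨κ, r2, hκ, hr2, hun⟩ := unif hC h0 D' hD'F k Cg hk hCg0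
  have hg : ∀ n (y : M) (r : ℝ), 0 < r → (s n).real (ball y r) ≤ Cg * r ^ 2 := by
    intro n y r hr
    have := hgrow (T n) (s n) (hs n) y r hr
    rwa [hmass n] at this
  have hlow : ∀ n x, Sup (s n) x → ∀ r, 0 < r → r ≤ r2 → κ * r ^ 2 ≤ (s n).real (ball x r) := by
    intro n z hz
    obtain ⟨h1, h2⟩ := hlb f (σ n) (hσ n) (T n) (s n) (hs n) (hTe n)
    obtain ⟨q, rfl⟩ := h2 z hz
    exact hun (T n) (s n) (hs n) (hg n) _ (h1 q)
  have hsup : ∀ n, Sup (s n) (y n) := by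
    intro n r hr
    obtain ⟨h1, -⟩ := hlb f (σ n) (hσ n) (T n) (s n) (hs n) (hTe n)
    obtain ⟨q, hq⟩ := hyσ n
    have h2 : ∀ᶠ ρ in 𝓝[>] (0 : ℝ), ρ < r := mem_nhdsWithin_of_mem_nhds (Iio_mem_nhds hr)
    obtain ⟨ρ, h3, h4, h5⟩ := ((h1 q).and (h2.and self_mem_nhdsWithin)).exists
    have h5' : 0 < ρ := h5
    have := (hs n).fin
    rw [hq] at h3
    have h6 : (s n).real (ball (y n) ρ) ≤ (s n).real (ball (y n) r) :=
      measureReal_mono (ball_subset_ball h4.le)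
    have h7 : 0 < k * ρ ^ 2 := by positivity
    linarith
  obtain ⟨S, t, hSP, hSt, hlim, hlD, hSx⟩ := lim_low (D := D') hJ' T s hs hTP
    (ip (w 0) f (cls (w 0))) (fun n => (hcls n (w 0)).le) κ r2 hκ hr2 hlow y hsup x hyx
  have hSP' : PCur D.J S := by rw [← hD'J]; exact hSP
  obtain ⟨s', hs'⟩ := T1_195.exists_cur D (fun b => hSP'.inv b (D.pi' b) fun x => rfl)
    (fun P hP => hSP'.nonneg P hP) hSP'.closed
  refine ⟨S, s', hs', fun b => ?_, lowDens_of hD'J hs' hSt hlD, sup_of hD'J hs' hSt hSx⟩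
  have h1 := hlim b.1
  have e : (fun n => T n b.1) = fun _ => ip (w 0) f (cls b) := funext fun n => hcls n b
  rw [e] at h1
  exact tendsto_nhds_unique h1 tendsto_const_nhds

end

end Crest.Agent.R235.Limt
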