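import Crest.Agent.R235.LimtT_129
import Crest.Agent.R235.LimtE_225
import Crest.Agent.R235.CurMon0_311

/-!
Row 235 (S0364), node LIMT (helper129): the Props `TORCUR` and `LB` of `LimtE_225`.
-/

set_option autoImplicit false
set_option maxSynthPendingDepth 3

universe u

namespace Crest.Agent.R235.LimtF_129

open Crest.Agent.R240 Crest.Agent.R240.Ch Crest.Agent.R235 Crest.Agent.R235.Limt
open Crest.Agent.R235.Swc Crest.Agent.R235.CurDefs_132

theorem torcur : TORCUR.{u} := by
  intro M _ _ _ _ _ _ w J hw hJ f σ hs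
  exact LimtT_129.torcur hw hJ hs

theorem lb : LB.{u} := by
  intro M _ _ _ _ _ _ _ D w hw hJ
  exact LimtT_129.lb D hw hJ

/-- LIMT from CHLCU only. -/
theorem limt_of (hC : CHLCU.{u}) : LIMT.{u} := Limt.limt_of hC CurMon0_311.mon0 torcur lb

end Crest.Agent.R235.LimtF_129
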