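import Mathlib
import Crest.Agent.R235.ChLC_4
import Crest.Agent.R235.LimtF_129

/-!
Row 235 (S0364), node LIMT (helper129): `CHLCU` of `LimtE_225`: the local data `LC` of the positive
closed currents in a chart, with geometric constants and growth constant independent of the current.
(The proof follows `MkLC_4.mkLC` and `ChLC_4.exists_chRep` of helper4.)
-/

set_option autoImplicit false
set_option maxSynthPendingDepth 3
set_option linter.unusedSectionVars false

open Set Function Filter MeasureTheory Metric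
open scoped Manifold ContDiff Topology ENNReal NNReal

universe u

namespace Crest.Agent.R235.ChLCU_129

open Crest.Agent.R240 Crest.Agent.R240.Ch Crest.Agent.R240.En Crest.Agent.R240.En4
  Crest.Agent.R240.Pot Crest.Agent.R240.Pol Crest.Agent.R240.Vm
  Crest.Agent.R235.T1_195 Crest.Agent.R235.CurDens_4 Crest.Agent.R235.AtomsC_4
  Crest.Agent.R235.CurDefs_132 Crest.Agent.R235.MkLC_4 Crest.Agent.R235.Limt

noncomputable section

/-- **MKLC with uniform constants.** -/
theorem mkLCu {J : E4 → E4 →L[ℝ] E4} {F : E4 → Bil} (hB : Bg J F) :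
    ∃ m K L : ℝ, 0 < m ∧ 0 < K ∧ ∀ {φ : E4 → Bil} (_ : Dens J F φ) {s : Measure E4}
      [IsFiniteMeasure s] {C : ℝ} (_ : 0 ≤ C)
      (_ : ∀ y r, 0 < r → s.real (ball y r) ≤ C * r ^ 2) {x0 : E4} {R : ℝ} (_ : 0 < R)
      (_ : R ≤ 1) (_ : ClosedIn F s φ (ball x0 (4 * R))) (_ : ∀ y ∈ ball x0 (4 * R), Cl F y),
      ∃ D : LC, D.m = m ∧ D.M = K ∧ D.L = L ∧ D.x0 = x0 ∧ D.R = R ∧ D.s = s ∧ D.C = C := by
  obtain ⟨m, M', L0, LJ, w0, c0, σ, hcst⟩ := Crest.Agent.R240.Loc5.exists_cst hB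
  obtain ⟨R', J0, F0, hc⟩ := hB.cst
  have hJc : ∀ y, R' ≤ ‖y‖ → J y = J0 := fun y hy => (hc y hy).1
  have hFc : ∀ y, R' ≤ ‖y‖ → F y = F0 := fun y hy => (hc y hy).2
  have hJ1 : ContDiff ℝ ∞ (fderiv ℝ J) := hB.smJ.fderiv_right (by simp)
  have hF1 : ContDiff ℝ ∞ (fderiv ℝ F) := hB.smF.fderiv_right (by simp)
  have hJ2 : ContDiff ℝ ∞ (fderiv ℝ (fderiv ℝ J)) := hJ1.fderiv_right (by simp)
  have hF2 : ContDiff ℝ ∞ (fderiv ℝ (fderiv ℝ F)) := hF1.fderiv_right (by simp)
  obtain ⟨a1, a10, ha1⟩ := bdd_of_cst hB.smJ.continuous hJc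
  obtain ⟨a2, a20, ha2⟩ := bdd_of_cst hB.smF.continuous hFc
  obtain ⟨a3, a30, ha3⟩ := bdd_of_cst hJ1.continuous (fderiv_cst hJc)
  obtain ⟨a4, a40, ha4⟩ := bdd_of_cst hF1.continuous (fderiv_cst hFc)
  obtain ⟨a5, a50, ha5⟩ := bdd_of_cst hJ2.continuous (fderiv_cst (fderiv_cst hJc))
  obtain ⟨a6, a60, ha6⟩ := bdd_of_cst hF2.continuous (fderiv_cst (fderiv_cst hFc))
  set L : ℝ := 1 + a1 + a2 + a3 + a4 + a5 + a6 with hL
  have hm : 0 < m := (hcst.bd 0).m_pos
  refine ⟨m, M', L, hm, hm.trans_le (hcst.bd 0).m_le_M, ?_⟩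
  intro φ hd s hfin C hC hgr x0 R hR hR1 hcl hF
  obtain ⟨Q, hQ0, hQ⟩ := QLog_195.qq_of' hB hd hC hgr hR hR1 hcl
  refine ⟨{ J := J, F := F, m := m, M := M', L := L, x0 := x0, R := R, s := s, C := C, Q := Q,
            φ := φ, smJ := hB.smJ, smF := hB.smF, bd := hcst.bd,
            bJ := fun y => (ha1 y).trans (by rw [hL]; linarith),
            bF := fun y => (ha2 y).trans (by rw [hL]; linarith),
            bJ1 := fun y => (ha3 y).trans (by rw [hL]; linarith),
            bF1 := fun y => (ha4 y).trans (by rw [hL]; linarith),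
            bJ2 := fun y => (ha5 y).trans (by rw [hL]; linarith),
            bF2 := fun y => (ha6 y).trans (by rw [hL]; linarith),
            R_pos := hR, R_le := hR1, L_ge := by rw [hL]; linarith, C_nn := hC, Q_nn := hQ0,
            cl := hF, fin := hfin, gr := hgr, meas := hd.meas, pos := hd.pos, nrm := hd.nrm,
            closed := hcl, qq := hQ }, rfl, rfl, rfl, rfl, rfl, rfl, rfl⟩

section Man

variable {M : Type*} [MetricSpace M] [CompactSpace M] [ChartedSpace E4 M]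
    [IsManifold 𝓘(ℝ, E4) ∞ M] [MeasurableSpace M] [BorelSpace M]

/-- growth of the chart measure, with a uniform constant. -/
theorem chMeas_ball_u {p : M} {K : Set E4} (hb : Met.BiLip E4 M) (hK : IsCompact K)
    (hKt : K ⊆ (chartAt E4 p).target) :
    ∃ f : ℝ → ℝ, ∀ (s : Measure M) (D : ℝ),
      (∀ x r, 0 < r → s (ball x r) ≤ ENNReal.ofReal (D * r ^ 2)) →
      ∀ y r, 0 < r → chMeas p K s (ball y r) ≤ ENNReal.ofReal (f D * r ^ 2) := by
  obtain ⟨c, C, hc, hC, h1, h2⟩ := bilip_core hb hK hKt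
  exact ⟨fun D => D * (2 * c⁻¹) ^ 2, fun s D hs y r hr =>
    map_ball_le (core_meas hK hKt) (aemeas_chart hK hKt s) hc h1 hs y r hr⟩

/-- the chart measure of a subset of the core. -/
theorem chMeas_apply {p : M} {K : Set E4} (hK : IsCompact K)
    (hKt : K ⊆ (chartAt E4 p).target) (s : Measure M) {A : Set E4} (hA : MeasurableSet A)
    (hAK : A ⊆ K) : chMeas p K s A = s ((chartAt E4 p).symm '' A) := by
  unfold chMeas
  rw [Measure.map_apply_of_aemeasurable (aemeas_chart hK hKt s) hA,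
    Measure.restrict_apply' (core_meas hK hKt)]
  congr 1
  ext x
  constructor
  · rintro ⟨h1, h2⟩
    exact ⟨chartAt E4 p x, h1, (chartAt E4 p).left_inv (core_sub hKt h2)⟩
  · rintro ⟨y, hy, rfl⟩
    refine ⟨?_, y, hAK hy, rfl⟩
    show chartAt E4 p ((chartAt E4 p).symm y) ∈ A
    rw [(chartAt E4 p).right_inv (hKt (hAK hy))]
    exact hy

/-- the local datum with uniform constants. -/
theorem exists_LCu (D : Dat M) (hF : D.FX ∈ Z2 M) {p : M} {x0 : E4} {R₀ : ℝ} (hR : 0 < R₀)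
    (hR1 : R₀ ≤ 2) (hsub : closedBall x0 (3 * R₀) ⊆ (chartAt E4 p).target) :
    ∃ (m K L : ℝ) (Cf : ℝ → ℝ), 0 < m ∧ 0 < K ∧
      ∀ (S : X2 M →ₗ[ℝ] ℝ) (s : Measure M), T1_195.Cur D S s → ∀ Cg : ℝ, 0 ≤ Cg →
        (∀ (y : M) (r : ℝ), 0 < r → s.real (ball y r) ≤ Cg * r ^ 2) →
        ∃ E : LC, E.m = m ∧ E.M = K ∧ E.L = L ∧ E.R = R₀ / 2 ∧ E.C = Cf Cg ∧ E.x0 = x0 ∧
          ∀ A : Set E4, MeasurableSet A → A ⊆ ball E.x0 (4 * E.R) →
            E.s A = s ((chartAt E4 p).symm '' A) := by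
  classical
  have h2sub : closedBall x0 (2 * R₀) ⊆ (chartAt E4 p).target :=
    (closedBall_subset_closedBall (by linarith)).trans hsub
  have h2c : IsCompact (closedBall x0 (2 * R₀)) := isCompact_closedBall _ _
  obtain ⟨r, hr, hr1, hr2, hr3⟩ := exists_retr x0 hR
  have hrU : ∀ y, r y ∈ (chartAt E4 p).target := fun y => hsub (ball_subset_closedBall (hr2 y))
  have hbg := bg_comp (chartAt E4 p).open_target (D.smJ p) ((Pol.smF D).2 p)
    (fun y hy v => repJ_sq D.sq hy v) (fun y hy => spos_rep (sposF D) hy) hr hrU hr3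
  obtain ⟨m, K', L, hm, hK', hmk⟩ := mkLCu hbg
  obtain ⟨f, hf⟩ := chMeas_ball_u D.bl h2c h2sub
  refine ⟨m, K', L, fun C => |f C|, hm, hK', ?_⟩
  intro Φ s hΦ C hC0 hC
  have hfin := hΦ.fin
  obtain ⟨φ, hφm, hφp, hφn, ⟨Cφ, hCφ⟩, hform⟩ :=
    ChDens.chartDens D Φ s hΦ.inv hΦ.nonneg hΦ.rm p x0 R₀ hR hsub
  set K : Set E4 := closedBall x0 (2 * R₀) with hK
  have hKm : MeasurableSet K := isClosed_closedBall.measurableSet
  set φ' : E4 → Bil := fun y => if y ∈ K then φ y else rep p D.F (r y) with hφ'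
  have hφK : ∀ y ∈ K, φ' y = φ y := fun y hy => by simp only [hφ', if_pos hy]
  have hd : Dens (fun y => repJ p D.J (r y)) (fun y => rep p D.F (r y)) φ' := by
    refine ⟨?_, ?_, ?_⟩
    · exact Measurable.ite hKm hφm hbg.smF.continuous.measurable
    · intro y
      by_cases hy : y ∈ K
      · rw [hφK y hy, hr1 y hy]
        exact hφp y hy
      · simp only [hφ', if_neg hy]
        have h := hbg.pos y
        exact ⟨h.alt, h.inv, fun v => by
          by_cases hv : v = 0
          · simp [hv]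
          · exact (h.pos v hv).le⟩
    · intro y
      by_cases hy : y ∈ K
      · rw [hφK y hy, hr1 y hy]
        exact hφn y hy
      · simp only [hφ', if_neg hy]
        exact q_self_of_spos (hbg.sq y) (hbg.pos y)
  have hae : ∀ᵐ y ∂(chMeas p K s), y ∈ K := by
    rw [ae_iff]
    exact chMeas_compl h2c h2sub s
  -- growth
  have hs : ∀ x r, 0 < r → s (ball x r) ≤ ENNReal.ofReal (C * r ^ 2) := by
    intro x r hr
    rw [← ENNReal.ofReal_toReal (measure_ne_top s (ball x r))]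
    exact ENNReal.ofReal_le_ofReal (hC x r hr)
  have hC' := hf s C hs
  have hgr : ∀ y r, 0 < r → (chMeas p K s).real (ball y r) ≤ |f C| * r ^ 2 := by
    intro y r hr
    refine ENNReal.toReal_le_of_le_ofReal (by positivity) ((hC' y r hr).trans ?_)
    exact ENNReal.ofReal_le_ofReal (by gcongr; exact le_abs_self _)
  -- closedness
  have hclos : ClosedIn (fun y => rep p D.F (r y)) (chMeas p K s) φ'
      (ball x0 (4 * (R₀ / 2))) := by
    intro S hS hSc hSs
    have hSs : tsupport S ⊆ ball x0 (2 * R₀) := by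
      have : 4 * (R₀ / 2) = 2 * R₀ := by ring
      rwa [this] at hSs
    have hSt : tsupport S ⊆ (chartAt E4 p).target :=
      (hSs.trans ball_subset_closedBall).trans h2sub
    have hS0 : ∀ y, y ∉ tsupport S → S y = 0 := fun y hy => image_eq_zero_of_notMem_tsupport hy
    have hsm : Smooth1 (ext1 p S) := Pol.smooth1_ext1 hSc.isCompact hSt hS hS0
    have hrep1 : ∀ y ∈ (chartAt E4 p).target, rep1 p (ext1 p S) y = S y :=
      fun y hy => Pol.rep1_ext1_self hy S
    have hz := hΦ.closed ⟨dG (ext1 p S), Smooth2.dG hsm⟩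
      ⟨ext1 p S, hsm, fun q y hy => rep_dG hsm hy⟩
    rw [hform _ (by
      intro x hx
      apply dG_zero_of_off hSc.isCompact hSt (fun x hx => Pol.at1_ext1_zero hS0 hx)
      intro h
      apply hx
      obtain ⟨y, hy, rfl⟩ := h
      exact ⟨y, ball_subset_closedBall (hSs hy), rfl⟩)] at hz
    have hSm : Measurable (En.d1 S) := by
      have h1 : Continuous (fderiv ℝ S) := hS.continuous_fderiv (by simp)
      have h2 : Continuous fun y => fderiv ℝ S y - (fderiv ℝ S y).flip :=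
        h1.sub ((ContinuousLinearMap.flipₗᵢ ℝ E4 E4 ℝ).continuous.comp h1)
      exact h2.measurable
    have e1 : ∫ y, q (rep p D.F (r y)) (φ' y) (En.d1 S y) ∂(chMeas p K s) =
        ∫ y, q (rep p D.F y) (φ y) (En.d1 S y) ∂(chMeas p K s) := by
      apply integral_congr_ae
      filter_upwards [hae] with y hy
      simp only [hφK y hy, hr1 y hy]
    rw [e1, integral_chMeas h2c h2sub s (aesm_integrand (Pol.smF D) hR hsub s hφm hSm), ← hz]
    apply setIntegral_congr_fun (core_meas h2c h2sub)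
    intro x hx
    have hy := h2sub (chart_core_mem h2sub hx)
    simp only
    rw [rep_eq_d1 hsm hrep1 hy]
  have hCl : ∀ y ∈ ball x0 (4 * (R₀ / 2)), En.Cl (fun y => rep p D.F (r y)) y := by
    intro y hy
    have hy : y ∈ ball x0 (2 * R₀) := by
      have : 4 * (R₀ / 2) = 2 * R₀ := by ring
      rwa [this] at hy
    refine En.Cl_congr (c := rep p D.F) ?_ ?_
    · filter_upwards [isOpen_ball.mem_nhds hy] with z hz
      rw [hr1 z (ball_subset_closedBall hz)]
    · exact MonoM.cl_of_closed (Pol.smF D) hF (h2sub (ball_subset_closedBall hy))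
  obtain ⟨E, hEm, hEM, hEL, hEx, hER, hEs, hEC⟩ := hmk hd (abs_nonneg (f C)) hgr
    (half_pos hR) (by linarith) hclos hCl
  refine ⟨E, hEm, hEM, hEL, hER, hEC, hEx, fun A hA hAs => ?_⟩
  rw [hEs]
  refine chMeas_apply h2c h2sub s hA ?_
  rw [hEx, hER] at hAs
  have : 4 * (R₀ / 2) = 2 * R₀ := by ring
  rw [this] at hAs
  exact hAs.trans ball_subset_closedBall

end Man

/-- **CHLCU.** -/
theorem chlcu : CHLCU.{u} := by
  intro M _ _ _ _ _ _ _ D hDF x
  have hF : D.FX ∈ Z2 M := by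
    show Closed2 D.F
    rw [hDF]
    exact D.cl_al
  obtain ⟨ε, hε, hεs⟩ := Metric.isOpen_iff.1 (chartAt E4 x).open_target (chartAt E4 x x)
    (mem_chart_target E4 x)
  set R₀ : ℝ := min 2 (ε / 6) with hR₀
  have hR : 0 < R₀ := lt_min two_pos (by positivity)
  have hR2 : R₀ ≤ ε / 6 := min_le_right _ _
  have hsub : closedBall (chartAt E4 x x) (3 * R₀) ⊆ (chartAt E4 x).target := by
    refine Subset.trans (closedBall_subset_ball ?_) hεs
    linarith
  obtain ⟨m, K, L, Cf, hm, hK, h⟩ := exists_LCu D hF hR (min_le_left _ _) hsub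
  refine ⟨m, K, L, R₀ / 2, Cf, hm, hK, by positivity, ?_, fun S s hS Cg hCg hgr => ?_⟩
  · refine Subset.trans (closedBall_subset_closedBall ?_) hsub
    linarith
  · obtain ⟨E, h1, h2, h3, h4, h5, h6, h7⟩ := h S s hS Cg hCg hgr
    refine ⟨E, h1, h2, h3, h4, h5, h6, fun A hA hAs => h7 A hA ?_⟩
    rw [h4]
    exact hAs

/-- **LIMT is a theorem.** -/
theorem limt : Swc.LIMT.{u} := LimtF_129.limt_of chlcu

end

end Crest.Agent.R235.ChLCU_129
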