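import Crest.Agent.R235.EndA_745

/-!
Row 235, package REG, leaf REG-END (helper745), part 3: cut-off of Hölder germs, the Beltrami
coordinate as a global `C¹` homeomorphism close to the identity.
-/

set_option autoImplicit false

open Complex Metric Set Filter Topology
open scoped ContDiff ComplexConjugate

namespace Crest.Agent.R235.EndB_745

open Crest.Agent.R235.NWDefs_334 Crest.Agent.R235.NWIface_334 Crest.Agent.R235.EndA_745

noncomputable section

theorem min_one_le_rpow {t b : ℝ} (ht : 0 ≤ t) (hb : 0 < b) (hb1 : b ≤ 1) : min 1 t ≤ t ^ b := by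
  rcases le_total 1 t with h | h
  · rw [min_eq_left h]
    exact Real.one_le_rpow h hb.le
  · rw [min_eq_right h]
    rcases eq_or_lt_of_le ht with h0 | h0
    · rw [← h0, Real.zero_rpow hb.ne']
    · calc t = t ^ (1 : ℝ) := (Real.rpow_one t).symm
        _ ≤ t ^ b := Real.rpow_le_rpow_of_exponent_ge h0 h hb1

/-- the basic estimate for `cut r z • f z`. -/
theorem cut_est {b r A : ℝ} {f : ℂ → ℂ} (hr : 0 < r) (hb : 0 < b) (hb1 : b ≤ 1)
    (hA0 : 0 ≤ A) (hA : ∀ z, ‖z‖ < 2 * r → ‖f z‖ ≤ A) {B : ℝ} (hB0 : 0 ≤ B)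
    (hB : ∀ x y, ‖x‖ < 2 * r → ‖y‖ < 2 * r → ‖f x - f y‖ ≤ B * dist x y ^ b) :
    HB b (A + A * (1 / r) ^ b + B) (fun z => (cut r z : ℂ) * f z) := by
  have hc : ∀ z, ‖(cut r z : ℂ)‖ = cut r z := fun z => by
    rw [Complex.norm_real, Real.norm_of_nonneg (cut_nonneg r z)]
  constructor
  · intro x
    rw [norm_mul, hc]
    rcases lt_or_ge ‖x‖ (2 * r) with h | h
    · calc cut r x * ‖f x‖ ≤ 1 * A := by
            gcongr
            · exact cut_le_one r x
            · exact hA x h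
        _ ≤ A + A * (1 / r) ^ b + B := by
            have : 0 ≤ A * (1 / r) ^ b := by positivity
            linarith
    · rw [cut_eq_zero hr h, zero_mul]; positivity
  · -- symmetric estimate
    have main : ∀ x y, ‖x‖ < 2 * r → ‖(cut r x : ℂ) * f x - (cut r y : ℂ) * f y‖ ≤
        (A + A * (1 / r) ^ b + B) * dist x y ^ b := by
      intro x y hx
      have e1 : (cut r x : ℂ) * f x - (cut r y : ℂ) * f y =
          ((cut r x - cut r y : ℝ) : ℂ) * f x + (cut r y : ℂ) * (f x - f y) := by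
        push_cast; ring
      have h1 : ‖((cut r x - cut r y : ℝ) : ℂ) * f x‖ ≤ A * (1 / r) ^ b * dist x y ^ b := by
        rw [norm_mul, Complex.norm_real, Real.norm_eq_abs]
        have h2 : |cut r x - cut r y| ≤ min 1 (dist x y / r) := by
          refine le_min ?_ (cut_lip hr x y)
          rw [abs_le]
          constructor <;> linarith [cut_nonneg r x, cut_nonneg r y, cut_le_one r x, cut_le_one r y]
        have h3 : min 1 (dist x y / r) ≤ (dist x y / r) ^ b :=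
          min_one_le_rpow (by positivity) hb hb1
        have h4 : (dist x y / r) ^ b = (1 / r) ^ b * dist x y ^ b := by
          rw [← Real.mul_rpow (by positivity) dist_nonneg]
          congr 1; ring
        calc |cut r x - cut r y| * ‖f x‖ ≤ ((1 / r) ^ b * dist x y ^ b) * A := by
              gcongr
              · rw [← h4]; exact h2.trans h3
              · exact hA x hx
          _ = A * (1 / r) ^ b * dist x y ^ b := by ring
      have h2 : ‖(cut r y : ℂ) * (f x - f y)‖ ≤ B * dist x y ^ b := by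
        rw [norm_mul, hc]
        rcases lt_or_ge ‖y‖ (2 * r) with h | h
        · calc cut r y * ‖f x - f y‖ ≤ 1 * (B * dist x y ^ b) := by
                gcongr
                · exact cut_le_one r y
                · exact hB x y hx h
            _ = B * dist x y ^ b := one_mul _
        · rw [cut_eq_zero hr h, zero_mul]; positivity
      rw [e1]
      refine (norm_add_le _ _).trans ?_
      have h5 : 0 ≤ A * dist x y ^ b := by positivity
      nlinarith
    intro x y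
    rcases lt_or_ge ‖x‖ (2 * r) with hx | hx
    · exact main x y hx
    · rcases lt_or_ge ‖y‖ (2 * r) with hy | hy
      · rw [norm_sub_rev, dist_comm]; exact main y x hy
      · simp only [cut_eq_zero hr hx, cut_eq_zero hr hy]
        simp only [Complex.ofReal_zero, zero_mul, sub_self, norm_zero]
        positivity

/-- small cut-off of a Hölder germ vanishing at `0` -/
theorem HG.lift_small {a b : ℝ} {f : ℂ → ℂ} (hf : HG a f) (h0 : f 0 = 0) (hb : 0 < b)
    (hba : b < a) (hb1 : b ≤ 1) {η : ℝ} (hη : 0 < η) :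
    ∃ μ : ℂ → ℂ, HB b η μ ∧ ∃ r > 0, ∀ z ∈ ball (0 : ℂ) r, μ z = f z := by
  obtain ⟨r0, hr0, C, hC, H⟩ := hf
  have hlim : Tendsto (fun r : ℝ => C * (2 * r) ^ a + C * (2 * r) ^ a * (1 / r) ^ b +
      C * (4 * r) ^ (a - b)) (𝓝[>] 0) (𝓝 0) := by
    have ha : 0 < a := hb.trans hba
    have t1 : Tendsto (fun r : ℝ => C * (2 * r) ^ a) (𝓝[>] 0) (𝓝 0) := by
      have : ContinuousAt (fun r : ℝ => C * (2 * r) ^ a) 0 :=
        continuousAt_const.mul ((continuousAt_const.mul continuousAt_id).rpow_const (Or.inr ha.le))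
      have h2 := this.tendsto
      simp only [mul_zero, Real.zero_rpow ha.ne'] at h2
      exact h2.mono_left nhdsWithin_le_nhds
    have t3 : Tendsto (fun r : ℝ => C * (4 * r) ^ (a - b)) (𝓝[>] 0) (𝓝 0) := by
      have : ContinuousAt (fun r : ℝ => C * (4 * r) ^ (a - b)) 0 :=
        continuousAt_const.mul
          ((continuousAt_const.mul continuousAt_id).rpow_const (Or.inr (by linarith)))
      have h2 := this.tendsto
      simp only [mul_zero, Real.zero_rpow (sub_pos.2 hba).ne'] at h2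
      exact h2.mono_left nhdsWithin_le_nhds
    have t2 : Tendsto (fun r : ℝ => C * (2 * r) ^ a * (1 / r) ^ b) (𝓝[>] 0) (𝓝 0) := by
      have h3 : (fun r : ℝ => C * (2 * r) ^ a * (1 / r) ^ b) =ᶠ[𝓝[>] 0]
          fun r : ℝ => C * 2 ^ a * r ^ (a - b) := by
        filter_upwards [self_mem_nhdsWithin] with r hr
        have hr' : (0 : ℝ) < r := hr
        rw [Real.mul_rpow (by norm_num) hr'.le, one_div, Real.inv_rpow hr'.le, Real.rpow_sub hr']
        ring
      have : ContinuousAt (fun r : ℝ => C * 2 ^ a * r ^ (a - b)) 0 :=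
        continuousAt_const.mul (Real.continuousAt_rpow_const 0 (a - b) (Or.inr (by linarith)))
      have h2 := this.tendsto
      simp only [Real.zero_rpow (sub_pos.2 hba).ne', mul_zero] at h2
      exact (h2.mono_left nhdsWithin_le_nhds).congr' h3.symm
    have := (t1.add t2).add t3
    simpa using this
  have hev := (hlim.eventually (gt_mem_nhds hη)).and
    ((eventually_nhdsWithin_of_eventually_nhds (gt_mem_nhds (by positivity : (0:ℝ) < r0 / 2))).and
      (self_mem_nhdsWithin : Ioi (0:ℝ) ∈ 𝓝[>] 0))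
  obtain ⟨r, h1, h2, h3⟩ := hev.exists
  have hr : 0 < r := h3
  have ha : 0 < a := hb.trans hba
  have hin : ∀ z : ℂ, ‖z‖ < 2 * r → z ∈ ball (0 : ℂ) r0 := by
    intro z hz; rw [mem_ball_zero_iff]; linarith
  have hA : ∀ z : ℂ, ‖z‖ < 2 * r → ‖f z‖ ≤ C * (2 * r) ^ a := by
    intro z hz
    have := H z (hin z hz) 0 (mem_ball_self hr0)
    rw [h0, sub_zero, dist_zero_right] at this
    refine this.trans ?_
    gcongr
  have hB : ∀ x y : ℂ, ‖x‖ < 2 * r → ‖y‖ < 2 * r → ‖f x - f y‖ ≤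
      C * (4 * r) ^ (a - b) * dist x y ^ b := by
    intro x y hx hy
    refine (H x (hin x hx) y (hin y hy)).trans ?_
    have hd : dist x y ≤ 4 * r := by
      calc dist x y ≤ ‖x‖ + ‖y‖ := dist_le_norm_add_norm x y
        _ ≤ 4 * r := by linarith
    have e : dist x y ^ a = dist x y ^ (a - b) * dist x y ^ b := by
      rw [← Real.rpow_add' dist_nonneg (by linarith)]
      congr 1; ring
    rw [e, mul_assoc]
    gcongr
  refine ⟨fun z => (cut r z : ℂ) * f z, ?_, r, hr, ?_⟩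
  · have h5 := cut_est hr hb hb1 (by positivity) hA (B := C * (4 * r) ^ (a - b))
      (by positivity) hB
    exact ⟨fun x => (h5.bdd x).trans h1.le, fun x y => (h5.hol x y).trans (by gcongr)⟩
  · intro z hz
    show (cut r z : ℂ) * f z = f z
    rw [cut_eq_one hr (mem_ball_zero_iff.1 hz).le, Complex.ofReal_one, one_mul]

/-- cut-off of a Hölder germ -/
theorem HG.lift {a : ℝ} {f : ℂ → ℂ} (hf : HG a f) (ha : 0 < a) (ha1 : a ≤ 1) :
    ∃ (μ : ℂ → ℂ) (M R : ℝ), HB a M μ ∧ 0 < R ∧ (∀ z, R < ‖z‖ → μ z = 0) ∧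
      ∃ r > 0, ∀ z ∈ ball (0 : ℂ) r, μ z = f z := by
  obtain ⟨r1, hr1, A, hA0, hA⟩ := hf.bdd ha
  obtain ⟨r0, hr0, C, hC, H⟩ := hf
  set r := min r0 r1 / 2 with hr
  have hrp : 0 < r := by positivity
  have h2r : 2 * r = min r0 r1 := by rw [hr]; ring
  refine ⟨fun z => (cut r z : ℂ) * f z, _, 2 * r,
    cut_est hrp ha ha1 hA0 (fun z hz => hA z ?_) hC (fun x y hx hy => H x ?_ y ?_),
    by positivity, fun z hz => ?_, r, hrp, fun z hz => ?_⟩
  · rw [mem_ball_zero_iff]; exact lt_of_lt_of_le hz (h2r.le.trans (min_le_right _ _))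
  · rw [mem_ball_zero_iff]; exact lt_of_lt_of_le hx (h2r.le.trans (min_le_left _ _))
  · rw [mem_ball_zero_iff]; exact lt_of_lt_of_le hy (h2r.le.trans (min_le_left _ _))
  · simp only [cut_eq_zero hrp hz.le, Complex.ofReal_zero, zero_mul]
  · simp only [cut_eq_one hrp (mem_ball_zero_iff.1 hz).le, Complex.ofReal_one, one_mul]

/-! ### the Beltrami coordinate -/

/-- a real-linear map close to the identity is invertible -/
theorem exists_equiv {L : ℂ →L[ℝ] ℂ} (h : ‖L - ContinuousLinearMap.id ℝ ℂ‖ ≤ 1 / 4) :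
    ∃ e : ℂ ≃L[ℝ] ℂ, (e : ℂ →L[ℝ] ℂ) = L := by
  have h1 : ‖ContinuousLinearMap.id ℝ ℂ - L‖ < 1 := by
    rw [norm_sub_rev]; linarith
  let u := Units.oneSub (ContinuousLinearMap.id ℝ ℂ - L) h1
  refine ⟨ContinuousLinearEquiv.unitsEquiv ℝ ℂ u, ?_⟩
  have : (u : ℂ →L[ℝ] ℂ) = L := by
    show 1 - (ContinuousLinearMap.id ℝ ℂ - L) = L
    have : (1 : ℂ →L[ℝ] ℂ) = ContinuousLinearMap.id ℝ ℂ := rfl
    rw [this]; abel
  rw [← this]
  rfl

/-- **Beltrami coordinate**: `K` is the inverse of the coordinate. -/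
theorem bel_coord (hBel : BelStmt) {a b : ℝ} {ν : ℂ → ℂ} (hν : HG a ν) (hν0 : ν 0 = 0)
    (hb : 0 < b) (hba : b < a) (hb1 : b < 1) :
    ∃ (K : ℂ ≃ₜ ℂ), ContDiff ℝ 1 K ∧ ContDiff ℝ 1 K.symm ∧ K 0 = 0 ∧
      (∀ t, ‖t‖ / 2 ≤ ‖K t‖ ∧ ‖K t‖ ≤ 2 * ‖t‖) ∧ (∀ x y, ‖K x - K y‖ ≤ 2 * dist x y) ∧
      (∀ t, ∃ e : ℂ ≃L[ℝ] ℂ, (e : ℂ →L[ℝ] ℂ) = fderiv ℝ K t) ∧
      (∀ t, dz K t ≠ 0) ∧ HG b (fun t => dz K t) ∧
      ∃ ρ > 0, ∀ t ∈ ball (0 : ℂ) ρ, dzb K t = - ν (K t) * conj (dz K t) := by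
  obtain ⟨η, hη, H⟩ := hBel b hb hb1 1 (1 / 4) one_pos (by norm_num)
  obtain ⟨μ, hμ, r, hr, hμν⟩ := HG.lift_small hν hν0 hb hba hb1.le hη
  obtain ⟨χ, hχ, hχb, hχc, hχd⟩ := H μ hμ
  -- normalise
  set φ : ℂ → ℂ := fun z => χ z - χ 0 with hφ
  have hφC : ContDiff ℝ 1 φ := hχ.sub contDiff_const
  have hφ0 : φ 0 = 0 := by simp [hφ]
  have hφd : ∀ z, fderiv ℝ φ z = fderiv ℝ χ z := by
    intro z
    rw [hφ]
    exact fderiv_sub_const _
  have hdist : ∀ z, ‖fderiv ℝ φ z - ContinuousLinearMap.id ℝ ℂ‖ ≤ 1 / 4 := by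
    intro z; rw [hφd]; exact hχd.bdd z
  have hapx : ApproximatesLinearOn φ ((ContinuousLinearEquiv.refl ℝ ℂ : ℂ ≃L[ℝ] ℂ) : ℂ →L[ℝ] ℂ)
      univ (1 / 4 : NNReal) := by
    intro x _ y _
    have hd : ∀ z ∈ (univ : Set ℂ), HasFDerivWithinAt (fun w => φ w - w)
        (fderiv ℝ φ z - ContinuousLinearMap.id ℝ ℂ) univ z := by
      intro z _
      exact (((hφC.differentiable (by norm_num)) z).hasFDerivAt.sub
        (hasFDerivAt_id z)).hasFDerivWithinAt
    have := Convex.norm_image_sub_le_of_norm_hasFDerivWithin_le hd (fun z _ => hdist z)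
      convex_univ (mem_univ y) (mem_univ x)
    have e : φ x - φ y - ((ContinuousLinearEquiv.refl ℝ ℂ : ℂ ≃L[ℝ] ℂ) : ℂ →L[ℝ] ℂ) (x - y) =
        (φ x - x) - (φ y - y) := by
      simp only [ContinuousLinearEquiv.coe_refl, ContinuousLinearMap.coe_id', id_eq]
      ring
    rw [e]
    refine this.trans (le_of_eq ?_)
    norm_num
  have hN : ‖(((ContinuousLinearEquiv.refl ℝ ℂ : ℂ ≃L[ℝ] ℂ).symm : ℂ ≃L[ℝ] ℂ) : ℂ →L[ℝ] ℂ)‖₊
      = 1 := by
    have : (((ContinuousLinearEquiv.refl ℝ ℂ : ℂ ≃L[ℝ] ℂ).symm : ℂ ≃L[ℝ] ℂ) : ℂ →L[ℝ] ℂ) =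
        ContinuousLinearMap.id ℝ ℂ := rfl
    rw [this]
    exact ContinuousLinearMap.nnnorm_id
  have hc : Subsingleton ℂ ∨ (1 / 4 : NNReal) <
      ‖(((ContinuousLinearEquiv.refl ℝ ℂ : ℂ ≃L[ℝ] ℂ).symm : ℂ ≃L[ℝ] ℂ) : ℂ →L[ℝ] ℂ)‖₊⁻¹ := by
    right
    rw [hN, inv_one]
    rw [← NNReal.coe_lt_coe]; norm_num
  let Hm : ℂ ≃ₜ ℂ := hapx.toHomeomorph φ hc
  have hHm : ∀ z, Hm z = φ z := fun z => rfl
  choose e he using fun z => exists_equiv (hdist z)
  have hHd : ∀ z, HasFDerivAt Hm (e z : ℂ →L[ℝ] ℂ) z := by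
    intro z
    rw [he z]
    exact ((hφC.differentiable (by norm_num)) z).hasFDerivAt
  have hKC : ContDiff ℝ 1 Hm.symm := Hm.contDiff_symm hHd hφC
  have hK0 : Hm.symm 0 = 0 := by
    rw [Homeomorph.symm_apply_eq]; exact hφ0.symm
  -- bilipschitz
  have hlip : ∀ x y, ‖(φ x - φ y) - (x - y)‖ ≤ 1 / 4 * ‖x - y‖ := by
    intro x y
    have := hapx x (mem_univ x) y (mem_univ y)
    simpa using this
  have hlow : ∀ x y, 3 / 4 * ‖x - y‖ ≤ ‖φ x - φ y‖ := by
    intro x y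
    have h1 := hlip x y
    have h2 : ‖x - y‖ ≤ ‖φ x - φ y‖ + ‖(φ x - φ y) - (x - y)‖ := by
      calc ‖x - y‖ = ‖(φ x - φ y) - ((φ x - φ y) - (x - y))‖ := by congr 1; ring
        _ ≤ _ := norm_sub_le _ _
    linarith
  have hup : ∀ x y, ‖φ x - φ y‖ ≤ 5 / 4 * ‖x - y‖ := by
    intro x y
    have h1 := hlip x y
    have h2 : ‖φ x - φ y‖ ≤ ‖x - y‖ + ‖(φ x - φ y) - (x - y)‖ := by
      calc ‖φ x - φ y‖ = ‖(x - y) + ((φ x - φ y) - (x - y))‖ := by congr 1; ring
        _ ≤ _ := norm_add_le _ _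
    linarith
  have hφK : ∀ t, φ (Hm.symm t) = t := fun t => Hm.apply_symm_apply t
  -- derivative identities
  have hder : ∀ t, (fderiv ℝ φ (Hm.symm t)).comp (fderiv ℝ Hm.symm t) =
      ContinuousLinearMap.id ℝ ℂ := by
    intro t
    have h1 : HasFDerivAt (fun t => φ (Hm.symm t))
        ((fderiv ℝ φ (Hm.symm t)).comp (fderiv ℝ Hm.symm t)) t :=
      ((hφC.differentiable (by norm_num)) _).hasFDerivAt.comp t
        ((hKC.differentiable (by norm_num)) t).hasFDerivAt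
    have h2 : HasFDerivAt (fun t => φ (Hm.symm t)) (ContinuousLinearMap.id ℝ ℂ) t := by
      have : (fun t => φ (Hm.symm t)) = id := by
        funext t; exact hφK t
      rw [this]; exact hasFDerivAt_id t
    exact h1.unique h2
  have hder2 : ∀ t, (fderiv ℝ Hm.symm t).comp (fderiv ℝ φ (Hm.symm t)) =
      ContinuousLinearMap.id ℝ ℂ := by
    intro t
    have h1 : HasFDerivAt (fun s => Hm.symm (φ s))
        ((fderiv ℝ Hm.symm (φ (Hm.symm t))).comp (fderiv ℝ φ (Hm.symm t))) (Hm.symm t) :=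
      ((hKC.differentiable (by norm_num)) _).hasFDerivAt.comp _
        ((hφC.differentiable (by norm_num)) _).hasFDerivAt
    have h2 : HasFDerivAt (fun s => Hm.symm (φ s)) (ContinuousLinearMap.id ℝ ℂ) (Hm.symm t) := by
      have : (fun s => Hm.symm (φ s)) = id := by
        funext s; exact Hm.symm_apply_apply s
      rw [this]; exact hasFDerivAt_id _
    have h3 := h1.unique h2
    rwa [hφK t] at h3
  have hdl1 : ∀ t, dl (fderiv ℝ φ (Hm.symm t)) * dz Hm.symm t +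
      dbl (fderiv ℝ φ (Hm.symm t)) * conj (dzb Hm.symm t) = 1 := by
    intro t
    have := (dl_comp (fderiv ℝ φ (Hm.symm t)) (fderiv ℝ Hm.symm t)).1
    rw [hder t, dl_id.1] at this
    exact this.symm
  have hdl2 : ∀ t, dl (fderiv ℝ φ (Hm.symm t)) * dzb Hm.symm t +
      dbl (fderiv ℝ φ (Hm.symm t)) * conj (dz Hm.symm t) = 0 := by
    intro t
    have := (dl_comp (fderiv ℝ φ (Hm.symm t)) (fderiv ℝ Hm.symm t)).2
    rw [hder t, dl_id.2] at this
    exact this.symm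
  -- the coefficient of `φ`
  have hnorm_dl : ∀ L : ℂ →L[ℝ] ℂ, ‖dl L‖ ≤ ‖L‖ ∧ ‖dbl L‖ ≤ ‖L‖ := by
    intro L
    have h1 : ‖L 1‖ ≤ ‖L‖ := by simpa using L.le_opNorm 1
    have h2 : ‖L Complex.I‖ ≤ ‖L‖ := by simpa using L.le_opNorm Complex.I
    have h2i : ‖(2 : ℂ)⁻¹‖ = 1 / 2 := by norm_num
    constructor
    · have : ‖L 1 - Complex.I * L Complex.I‖ ≤ 2 * ‖L‖ := by
        refine (norm_sub_le _ _).trans ?_
        rw [norm_mul, Complex.norm_I, one_mul]; linarith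
      simp only [dl, smul_eq_mul]
      rw [norm_mul, h2i]
      linarith
    · have : ‖L 1 + Complex.I * L Complex.I‖ ≤ 2 * ‖L‖ := by
        refine (norm_add_le _ _).trans ?_
        rw [norm_mul, Complex.norm_I, one_mul]; linarith
      simp only [dbl, smul_eq_mul]
      rw [norm_mul, h2i]
      linarith
  have hP : ∀ s, ‖dl (fderiv ℝ φ s) - 1‖ ≤ 1 / 4 := by
    intro s
    have h1 := (hnorm_dl (fderiv ℝ φ s - ContinuousLinearMap.id ℝ ℂ)).1
    rw [(dl_sub _ _).1, dl_id.1] at h1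
    exact h1.trans (hdist s)
  have hQ : ∀ s, ‖dbl (fderiv ℝ φ s)‖ ≤ 1 / 4 := by
    intro s
    have h1 := (hnorm_dl (fderiv ℝ φ s - ContinuousLinearMap.id ℝ ℂ)).2
    rw [(dl_sub _ _).2, dl_id.2, sub_zero] at h1
    exact h1.trans (hdist s)
  have hP1 : ∀ s, 3 / 4 ≤ ‖dl (fderiv ℝ φ s)‖ := by
    intro s
    have h1 : ‖(1 : ℂ)‖ ≤ ‖dl (fderiv ℝ φ s)‖ + ‖dl (fderiv ℝ φ s) - 1‖ := by
      calc ‖(1 : ℂ)‖ = ‖dl (fderiv ℝ φ s) - (dl (fderiv ℝ φ s) - 1)‖ := by congr 1; ring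
        _ ≤ _ := norm_sub_le _ _
    rw [norm_one] at h1
    linarith [hP s]
  have hP0 : ∀ s, dl (fderiv ℝ φ s) ≠ 0 := by
    intro s h
    have := hP1 s
    rw [h, norm_zero] at this
    linarith
  -- `|P|² - |Q|² ≠ 0` and the formula for `dz K`
  have hD : ∀ s, dl (fderiv ℝ φ s) * conj (dl (fderiv ℝ φ s)) -
      dbl (fderiv ℝ φ s) * conj (dbl (fderiv ℝ φ s)) ≠ 0 := by
    intro s h
    have h1 : ‖dl (fderiv ℝ φ s) * conj (dl (fderiv ℝ φ s))‖ =
        ‖dbl (fderiv ℝ φ s) * conj (dbl (fderiv ℝ φ s))‖ := by rw [sub_eq_zero.1 h]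
    rw [norm_mul, norm_mul, Complex.norm_conj, Complex.norm_conj] at h1
    nlinarith [hP1 s, hQ s, norm_nonneg (dbl (fderiv ℝ φ s))]
  have hform : ∀ t, dz Hm.symm t = conj (dl (fderiv ℝ φ (Hm.symm t))) *
      (dl (fderiv ℝ φ (Hm.symm t)) * conj (dl (fderiv ℝ φ (Hm.symm t))) -
      dbl (fderiv ℝ φ (Hm.symm t)) * conj (dbl (fderiv ℝ φ (Hm.symm t))))⁻¹ := by
    intro t
    rw [eq_mul_inv_iff_mul_eq₀ (hD _)]
    have h1 := hdl1 t
    have h2 := congrArg conj (hdl2 t)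
    simp only [map_add, map_mul, Complex.conj_conj, map_zero] at h2
    linear_combination conj (dl (fderiv ℝ φ (Hm.symm t))) * h1 -
      dbl (fderiv ℝ φ (Hm.symm t)) * h2
  refine ⟨Hm.symm, hKC, ?_, hK0, ?_, ?_, ?_, ?_, ?_, ?_⟩
  · exact hφC
  · intro t
    have h1 := hlow (Hm.symm t) (Hm.symm 0)
    have h2 := hup (Hm.symm t) (Hm.symm 0)
    rw [hφK, hφK, hK0, sub_zero, sub_zero] at h1 h2
    constructor <;> linarith [norm_nonneg (Hm.symm t)]
  · intro x y
    have h1 := hlow (Hm.symm x) (Hm.symm y)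
    rw [hφK, hφK] at h1
    rw [dist_eq_norm]
    linarith [norm_nonneg (x - y)]
  · intro t
    refine ⟨ContinuousLinearEquiv.equivOfInverse (fderiv ℝ Hm.symm t) (fderiv ℝ φ (Hm.symm t))
      ?_ ?_, rfl⟩
    · intro v
      have := DFunLike.congr_fun (hder t) v
      exact this
    · intro v
      have := DFunLike.congr_fun (hder2 t) v
      exact this
  · intro t h
    have h2 := hform t
    rw [h] at h2
    have h3 : conj (dl (fderiv ℝ φ (Hm.symm t))) ≠ 0 := by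
      rw [Ne, map_eq_zero]; exact hP0 _
    rcases mul_eq_zero.1 h2.symm with h4 | h4
    · exact h3 h4
    · exact (inv_ne_zero (hD _)) h4
  · -- Hölder
    have hDφ : HG b (fun s => fderiv ℝ φ s) := by
      refine ⟨1, one_pos, 1 / 4, by norm_num, fun x _ y _ => ?_⟩
      have := hχd.hol x y
      show ‖fderiv ℝ φ x - fderiv ℝ φ y‖ ≤ 1 / 4 * dist x y ^ b
      rw [hφd, hφd]
      have e : fderiv ℝ χ x - fderiv ℝ χ y = (fderiv ℝ χ x - ContinuousLinearMap.id ℝ ℂ) -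
        (fderiv ℝ χ y - ContinuousLinearMap.id ℝ ℂ) := by abel
      rw [e]
      exact this
    have hlipK : ∀ x ∈ ball (0 : ℂ) 1, ∀ y ∈ ball (0 : ℂ) 1, ‖Hm.symm x - Hm.symm y‖ ≤
        2 * dist x y := by
      intro x _ y _
      have h1 := hlow (Hm.symm x) (Hm.symm y)
      rw [hφK, hφK] at h1
      rw [dist_eq_norm]
      linarith [norm_nonneg (x - y)]
    have hDK : HG b (fun t => fderiv ℝ φ (Hm.symm t)) :=
      HG.comp hb hDφ hK0 (by norm_num) one_pos hlipK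
    -- `dl`, `dbl` as continuous linear maps
    let dlC : (ℂ →L[ℝ] ℂ) →L[ℝ] ℂ := (2 : ℂ)⁻¹ • (ContinuousLinearMap.apply ℝ ℂ (1 : ℂ) -
      Complex.I • ContinuousLinearMap.apply ℝ ℂ Complex.I)
    let dblC : (ℂ →L[ℝ] ℂ) →L[ℝ] ℂ := (2 : ℂ)⁻¹ • (ContinuousLinearMap.apply ℝ ℂ (1 : ℂ) +
      Complex.I • ContinuousLinearMap.apply ℝ ℂ Complex.I)
    have hP2 : HG b (fun t => dl (fderiv ℝ φ (Hm.symm t))) := HG.clm dlC hDK
    have hQ2 : HG b (fun t => dbl (fderiv ℝ φ (Hm.symm t))) := HG.clm dblC hDK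
    have hE : HG b (fun t => dl (fderiv ℝ φ (Hm.symm t)) * conj (dl (fderiv ℝ φ (Hm.symm t))) +
      -(dbl (fderiv ℝ φ (Hm.symm t)) * conj (dbl (fderiv ℝ φ (Hm.symm t))))) :=
      (HG.mul hb hP2 hP2.conj).add (HG.mul hb hQ2 hQ2.conj).neg
    have hE2 := HG.inv hb hE (by rw [← sub_eq_add_neg]; exact hD _)
    have hE3 := HG.mul hb hP2.conj hE2
    refine hE3.congr (Eventually.of_forall fun t => ?_)
    simp only
    rw [hform t, sub_eq_add_neg]
  · refine ⟨min (r / 2) (1 / 2), by positivity, fun t ht => ?_⟩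
    have hKt : ‖Hm.symm t‖ ≤ 2 * ‖t‖ := by
      have h1 := hlow (Hm.symm t) (Hm.symm 0)
      rw [hφK, hφK, hK0, sub_zero, sub_zero] at h1
      linarith [norm_nonneg (Hm.symm t), norm_nonneg t]
    have ht1 : ‖t‖ < r / 2 := mem_ball_zero_iff.1 (ball_subset_ball (min_le_left _ _) ht)
    have ht2 : ‖t‖ < 1 / 2 := mem_ball_zero_iff.1 (ball_subset_ball (min_le_right _ _) ht)
    have hin : Hm.symm t ∈ ball (0 : ℂ) r := by rw [mem_ball_zero_iff]; linarith
    have hin1 : Hm.symm t ∈ ball (0 : ℂ) 1 := by rw [mem_ball_zero_iff]; linarith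
    have h1 : dbl (fderiv ℝ φ (Hm.symm t)) = ν (Hm.symm t) * dl (fderiv ℝ φ (Hm.symm t)) := by
      have := hχb (Hm.symm t) hin1
      simp only [dzb, dz] at this
      rw [hφd, ← hμν _ hin, this]
    have h2 := hdl2 t
    rw [h1] at h2
    have h3 : dl (fderiv ℝ φ (Hm.symm t)) *
        (dzb Hm.symm t + ν (Hm.symm t) * conj (dz Hm.symm t)) = 0 := by
      linear_combination h2
    rcases mul_eq_zero.1 h3 with h4 | h4
    · exact absurd h4 (hP0 _)
    · linear_combination h4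

end

end Crest.Agent.R235.EndB_745
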