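import Mathlib
import Crest.Agent.R235.EndB_745

/-!
Row 235 (S0364), package ADJ, leaf X1 (helper61), part 1: isothermal coordinates.

`iso`: an immersed surface `v : ℂ → ℂ × ℂ` with `J`-invariant tangent planes is, near `0`, after a
`C¹` change of the parameter, a smooth `J`-holomorphic disc.
-/

set_option autoImplicit false

open Complex Metric Set Filter Topology
open scoped ContDiff ComplexConjugate

namespace Crest.Agent.R235.Iso_61

open Crest.Agent.R235.NWDefs_334 Crest.Agent.R235.NWIface_334 Crest.Agent.R235.EndA_745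
  Crest.Agent.R235.EndB_745

noncomputable section

/-- the induced complex structure on the parameter plane. -/
def jv (J : ℂ × ℂ → ℂ × ℂ →L[ℝ] ℂ × ℂ) (v : ℂ → ℂ × ℂ) (z : ℂ) : ℂ →L[ℝ] ℂ :=
  (ContinuousLinearMap.inverse ((ContinuousLinearMap.snd ℝ ℂ ℂ).comp (fderiv ℝ v z))).comp
    ((ContinuousLinearMap.snd ℝ ℂ ℂ).comp ((J (v z)).comp (fderiv ℝ v z)))

/-- a bijective real-linear map of the plane near the identity is an equivalence. -/
theorem exists_equiv' {L : ℂ →L[ℝ] ℂ} (h : ‖L - ContinuousLinearMap.id ℝ ℂ‖ < 1) :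
    ∃ e : ℂ ≃L[ℝ] ℂ, (e : ℂ →L[ℝ] ℂ) = L := by
  have h1 : ‖ContinuousLinearMap.id ℝ ℂ - L‖ < 1 := by
    rw [norm_sub_rev]; exact h
  let u := Units.oneSub (ContinuousLinearMap.id ℝ ℂ - L) h1
  refine ⟨ContinuousLinearEquiv.unitsEquiv ℝ ℂ u, ?_⟩
  have : (u : ℂ →L[ℝ] ℂ) = L := by
    show 1 - (ContinuousLinearMap.id ℝ ℂ - L) = L
    have : (1 : ℂ →L[ℝ] ℂ) = ContinuousLinearMap.id ℝ ℂ := rfl
    rw [this]; abel
  rw [← this]
  rfl

/-- the induced complex structure: `dv (j w) = J dv w`. -/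
theorem jv_spec {J : ℂ × ℂ → ℂ × ℂ →L[ℝ] ℂ × ℂ} {v : ℂ → ℂ × ℂ} {z : ℂ} {e : ℂ ≃L[ℝ] ℂ}
    (he : (e : ℂ →L[ℝ] ℂ) = (ContinuousLinearMap.snd ℝ ℂ ℂ).comp (fderiv ℝ v z))
    (hinv : ∀ w, ∃ w', fderiv ℝ v z w' = J (v z) (fderiv ℝ v z w)) (w : ℂ) :
    fderiv ℝ v z (jv J v z w) = J (v z) (fderiv ℝ v z w) := by
  obtain ⟨w', hw'⟩ := hinv w
  have h1 : jv J v z w = w' := by
    unfold jv
    rw [← he, ContinuousLinearMap.inverse_equiv]
    show e.symm ((J (v z) (fderiv ℝ v z w)).2) = w'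
    rw [ContinuousLinearEquiv.symm_apply_eq, ← hw']
    have : e w' = (e : ℂ →L[ℝ] ℂ) w' := rfl
    rw [this, he]
    rfl
  rw [h1, hw']

/-- **isothermal coordinates.** -/
theorem iso (hB : BelStmt) {J : ℂ × ℂ → ℂ × ℂ →L[ℝ] ℂ × ℂ} {r : ℝ} (hJ : ACS J r)
    {v : ℂ → ℂ × ℂ} {r1 : ℝ} (hr1 : 0 < r1) (hv : ContDiffOn ℝ ∞ v (ball 0 r1)) (v0 : v 0 = 0)
    (hvr : ∀ z ∈ ball (0 : ℂ) r1, v z ∈ ball (0 : ℂ × ℂ) r)
    (hinv : ∀ z ∈ ball (0 : ℂ) r1, ∀ w, ∃ w', fderiv ℝ v z w' = J (v z) (fderiv ℝ v z w))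
    (hcl : ∀ w, fderiv ℝ v 0 w = (0, w)) :
    ∃ (K : ℂ ≃ₜ ℂ) (ρ : ℝ), 0 < ρ ∧ K 0 = 0 ∧ ContDiff ℝ 1 K ∧
      (∀ t ∈ ball (0 : ℂ) ρ, K t ∈ ball (0 : ℂ) r1) ∧
      (∀ t, ∃ e : ℂ ≃L[ℝ] ℂ, (e : ℂ →L[ℝ] ℂ) = fderiv ℝ K t) ∧
      JHol J (fun t => v (K t)) (ball 0 ρ) := by
  have h0r1 : (0 : ℂ) ∈ ball (0 : ℂ) r1 := mem_ball_self hr1
  have hvat : ∀ z ∈ ball (0 : ℂ) r1, ContDiffAt ℝ ∞ v z := fun z hz =>
    hv.contDiffAt (isOpen_ball.mem_nhds hz)
  set B : ℂ → ℂ →L[ℝ] ℂ := fun z => (ContinuousLinearMap.snd ℝ ℂ ℂ).comp (fderiv ℝ v z) with hBdef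
  have hfd : ∀ z ∈ ball (0 : ℂ) r1, ContDiffAt ℝ ∞ (fderiv ℝ v) z := fun z hz =>
    (hvat z hz).fderiv_right (m := ∞) (by simp)
  have hBc : ∀ z ∈ ball (0 : ℂ) r1, ContDiffAt ℝ ∞ B z := fun z hz =>
    contDiffAt_const.clm_comp (hfd z hz)
  have hB0 : B 0 = ContinuousLinearMap.id ℝ ℂ := by
    refine ContinuousLinearMap.ext fun w => ?_
    show (fderiv ℝ v 0 w).2 = w
    rw [hcl]
  -- near `0` the map `B z` is invertible
  have hBn : ∀ᶠ z in 𝓝 (0 : ℂ), ‖B z - ContinuousLinearMap.id ℝ ℂ‖ < 1 := by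
    have hc : ContinuousAt (fun z => ‖B z - ContinuousLinearMap.id ℝ ℂ‖) 0 :=
      ((hBc 0 h0r1).continuousAt.sub continuousAt_const).norm
    refine hc.eventually_lt continuousAt_const ?_
    rw [hB0]; simp
  have hj0 : ∀ w, jv J v 0 w = Complex.I * w := by
    intro w
    unfold jv
    have e1 : (ContinuousLinearMap.snd ℝ ℂ ℂ).comp (fderiv ℝ v 0) =
        ((ContinuousLinearEquiv.refl ℝ ℂ : ℂ ≃L[ℝ] ℂ) : ℂ →L[ℝ] ℂ) := hB0
    rw [e1, ContinuousLinearMap.inverse_equiv]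
    show (J (v 0) (fderiv ℝ v 0 w)).2 = Complex.I * w
    rw [hcl, v0, hJ.zero]
    rfl
  have hjc : ContDiffAt ℝ ∞ (jv J v) 0 := by
    have h1 : ContDiffAt ℝ ∞ (fun z => ContinuousLinearMap.inverse (B z)) 0 := by
      have h2 : ContDiffAt ℝ ∞ (ContinuousLinearMap.inverse : (ℂ →L[ℝ] ℂ) → (ℂ →L[ℝ] ℂ)) (B 0) := by
        rw [hB0]
        exact contDiffAt_map_inverse (ContinuousLinearEquiv.refl ℝ ℂ)
      exact h2.comp (0 : ℂ) (hBc 0 h0r1)
    have h3 : ContDiffAt ℝ ∞ (fun z => J (v z)) 0 := by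
      refine ContDiffAt.comp (g := J) (f := v) (0 : ℂ) ?_ (hvat 0 h0r1)
      exact hJ.smooth.contDiffAt (isOpen_ball.mem_nhds (hvr 0 h0r1))
    exact h1.clm_comp (contDiffAt_const.clm_comp (h3.clm_comp (hfd 0 h0r1)))
  have hdj0 : dl (jv J v 0) = Complex.I ∧ dbl (jv J v 0) = 0 :=
    dl_of_apply (p := Complex.I) (q := 0) fun w => by rw [hj0]; ring
  -- the coefficient
  set ν : ℂ → ℂ := fun z => dbl (jv J v z) / (Complex.I + dl (jv J v z)) with hν
  have hdl : ContDiffAt ℝ ∞ (fun z => dl (jv J v z)) 0 := by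
    have h1 : ContDiffAt ℝ ∞ (fun z => jv J v z 1) 0 := hjc.clm_apply contDiffAt_const
    have h2 : ContDiffAt ℝ ∞ (fun z => jv J v z Complex.I) 0 := hjc.clm_apply contDiffAt_const
    show ContDiffAt ℝ ∞ (fun z => (2 : ℂ)⁻¹ • (jv J v z 1 - Complex.I • jv J v z Complex.I)) 0
    exact (h1.sub (h2.const_smul Complex.I)).const_smul _
  have hdbl : ContDiffAt ℝ ∞ (fun z => dbl (jv J v z)) 0 := by
    have h1 : ContDiffAt ℝ ∞ (fun z => jv J v z 1) 0 := hjc.clm_apply contDiffAt_const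
    have h2 : ContDiffAt ℝ ∞ (fun z => jv J v z Complex.I) 0 := hjc.clm_apply contDiffAt_const
    show ContDiffAt ℝ ∞ (fun z => (2 : ℂ)⁻¹ • (jv J v z 1 + Complex.I • jv J v z Complex.I)) 0
    exact (h1.add (h2.const_smul Complex.I)).const_smul _
  have hden : Complex.I + dl (jv J v 0) ≠ 0 := by
    rw [hdj0.1]
    intro h
    have := congrArg Complex.im h
    simp at this
  have hνc : ContDiffAt ℝ ∞ ν 0 := by
    have h1 : ContDiffAt ℝ ∞ (fun z => Complex.I + dl (jv J v z)) 0 := contDiffAt_const.add hdl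
    have h2 : ContDiffAt ℝ ∞ (fun z => dbl (jv J v z) * (Complex.I + dl (jv J v z))⁻¹) 0 :=
      hdbl.mul (h1.inv hden)
    simpa only [hν, div_eq_mul_inv] using h2
  have hν0 : ν 0 = 0 := by rw [hν]; simp only; rw [hdj0.2, zero_div]
  have hνG : HG 1 ν := HG.of_contDiffAt one_pos le_rfl (hνc.of_le (by simp))
  obtain ⟨K, hK, hKs, hK0, hKb, hKl, hKe, hKz, -, ρ, hρ, hKeq⟩ :=
    bel_coord hB hνG hν0 (b := 1 / 2) (by norm_num) (by norm_num) (by norm_num)
  -- the good neighbourhood of `0` in the `z`-plane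
  have hgood : ∀ᶠ z in 𝓝 (0 : ℂ), z ∈ ball (0 : ℂ) r1 ∧
      ‖B z - ContinuousLinearMap.id ℝ ℂ‖ < 1 ∧
      ‖dbl (jv J v z)‖ < ‖Complex.I + dl (jv J v z)‖ := by
    have hb0 : ∀ᶠ z in 𝓝 (0 : ℂ), z ∈ ball (0 : ℂ) r1 := isOpen_ball.mem_nhds h0r1
    refine hb0.and (hBn.and ?_)
    refine ContinuousAt.eventually_lt hdbl.continuousAt.norm
      (continuousAt_const.add hdl.continuousAt).norm ?_
    rw [hdj0.2, norm_zero]
    exact norm_pos_iff.2 hden
  have hgoodK : ∀ᶠ t in 𝓝 (0 : ℂ), K t ∈ ball (0 : ℂ) r1 ∧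
      ‖B (K t) - ContinuousLinearMap.id ℝ ℂ‖ < 1 ∧
      ‖dbl (jv J v (K t))‖ < ‖Complex.I + dl (jv J v (K t))‖ := by
    have hc : Tendsto K (𝓝 0) (𝓝 0) := by
      have := K.continuous.continuousAt (x := 0)
      rwa [ContinuousAt, hK0] at this
    exact hc.eventually hgood
  obtain ⟨ρ1, hρ1, hb⟩ := Metric.eventually_nhds_iff_ball.1 hgoodK
  refine ⟨K, min ρ ρ1, lt_min hρ hρ1, hK0, hK, fun t ht => ?_, hKe, fun t ht => ?_⟩
  · exact (hb t (ball_subset_ball (min_le_right _ _) ht)).1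
  · have htρ : t ∈ ball (0 : ℂ) ρ := ball_subset_ball (min_le_left _ _) ht
    obtain ⟨h1, h2, h3⟩ := hb t (ball_subset_ball (min_le_right _ _) ht)
    have hKd : HasFDerivAt K (fderiv ℝ K t) t :=
      ((hK.differentiable (by norm_num)) t).hasFDerivAt
    have hvd : HasFDerivAt v (fderiv ℝ v (K t)) (K t) :=
      ((hvat _ h1).differentiableAt (by simp)).hasFDerivAt
    have hcomp := hvd.comp t hKd
    have hcomp' : HasFDerivAt (fun t => v (K t)) ((fderiv ℝ v (K t)).comp (fderiv ℝ K t)) t := hcomp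
    refine ⟨hcomp'.differentiableAt, fun s => ?_⟩
    rw [hcomp'.fderiv]
    obtain ⟨e, he⟩ := exists_equiv' h2
    have hspec := jv_spec (J := J) he (hinv _ h1)
    -- `j j = -1`
    have hinj : ∀ w, fderiv ℝ v (K t) w = 0 → w = 0 := by
      intro w hw
      have : e w = 0 := by
        have e2 : e w = (e : ℂ →L[ℝ] ℂ) w := rfl
        rw [e2, he]
        show (fderiv ℝ v (K t) w).2 = 0
        rw [hw]; rfl
      exact (map_eq_zero_iff e e.injective).1 this
    have hjj : ∀ w, jv J v (K t) (jv J v (K t) w) = - w := by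
      intro w
      have h5 : fderiv ℝ v (K t) (jv J v (K t) (jv J v (K t) w) + w) = 0 := by
        rw [map_add, hspec, hspec, hJ.sq _ (hvr _ h1)]
        simp
      have := hinj _ h5
      exact eq_neg_of_add_eq_zero_left this
    -- the equation
    have hkey : ∀ s, fderiv ℝ K t (Complex.I * s) = jv J v (K t) (fderiv ℝ K t s) := by
      set D := fderiv ℝ K t with hD
      set j := jv J v (K t) with hj
      set α := dl j with hα
      set β := dbl j with hβ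
      have hp : dbl D = - ν (K t) * conj (dl D) := hKeq t htρ
      have hden2 : Complex.I + α ≠ 0 := norm_pos_iff.1 (lt_of_le_of_lt (norm_nonneg _) h3)
      have hνK : ν (K t) = β / (Complex.I + α) := rfl
      -- the defect `X s = D (i s) - j (D s)` is complex linear
      set x0 := Complex.I * dl D - α * dl D - β * conj (dbl D) with hx0
      have hX : ∀ s, D (Complex.I * s) - j (D s) = x0 * s := by
        intro s
        have hq : - Complex.I * dbl D - α * dbl D - β * conj (dl D) = 0 := by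
          rw [hp, hνK]
          field_simp
          ring
        rw [apply_eq D (Complex.I * s), apply_eq j (D s), apply_eq D s]
        simp only [map_add, map_mul, Complex.conj_I, Complex.conj_conj]
        rw [← hα, ← hβ, hx0]
        linear_combination (conj s) * hq
      -- `X i = - j X`
      have hXi : ∀ s, x0 * (Complex.I * s) = - j (x0 * s) := by
        intro s
        rw [← hX (Complex.I * s), ← hX s, map_sub, hjj]
        have e1 : Complex.I * (Complex.I * s) = -s := by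
          rw [← mul_assoc, Complex.I_mul_I]; ring
        rw [e1, map_neg]
        ring
      have h6 := hXi 1
      rw [mul_one, mul_one, apply_eq j x0, ← hα, ← hβ] at h6
      have h7 : (Complex.I + α) * x0 = - (β * conj x0) := by linear_combination h6
      have h8 : x0 = 0 := by
        by_contra hne
        have h9 := congrArg norm h7
        rw [norm_mul, norm_neg, norm_mul, RCLike.norm_conj] at h9
        have h10 : ‖Complex.I + α‖ = ‖β‖ := mul_right_cancel₀ (norm_ne_zero_iff.2 hne) h9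
        rw [h10] at h3
        exact lt_irrefl _ h3
      intro s
      have := hX s
      rw [h8, zero_mul] at this
      exact sub_eq_zero.1 this
    show fderiv ℝ v (K t) (fderiv ℝ K t (Complex.I * s)) =
      J (v (K t)) (fderiv ℝ v (K t) (fderiv ℝ K t s))
    rw [hkey, hspec]

end

end Crest.Agent.R235.Iso_61
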