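import Crest.Agent.R235.NWJ_130

/-!
# Row 235 (S0364), PACKAGE NW, leaf J, second part (helper130)

* `exists_lin`, `exists_lin2` : linear normal forms of a complex structure in real dimension four;
* `exists_straight`           : straightening of an immersed `J`-disc;
* `jhol_symm`                 : transport of `J`-holomorphic maps;
* `dzb_snd_le`                : `|∂̄ u₂| ≤ C |u₂| |du|` for every `J'`-holomorphic `u`.
-/

set_option autoImplicit false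
set_option maxSynthPendingDepth 3
set_option linter.style.haveILetI false

open Set Filter Metric Topology
open scoped ContDiff Real

namespace Crest.Agent.R235.NWJ2_130

open Crest.Agent.R235.NWDefs_334 Crest.Agent.R235.NWJ_130

noncomputable section

section lin

variable {V : Type*} [NormedAddCommGroup V] [NormedSpace ℝ V]

/-- `(a, b) ↦ a f + b e` for the complex structure `j` -/
def S (j : V →L[ℝ] V) (f e : V) : ℂ × ℂ →ₗ[ℝ] V where
  toFun x := x.1.re • f + x.1.im • j f + x.2.re • e + x.2.im • j e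
  map_add' x y := by
    simp only [Prod.fst_add, Prod.snd_add, Complex.add_re, Complex.add_im]
    module
  map_smul' c x := by
    simp only [Prod.smul_fst, Prod.smul_snd, Complex.real_smul, Complex.mul_re, Complex.ofReal_re,
      Complex.ofReal_im, Complex.mul_im, RingHom.id_apply, zero_mul, sub_zero, add_zero]
    module

theorem S_apply (j : V →L[ℝ] V) (f e : V) (x : ℂ × ℂ) :
    S j f e x = x.1.re • f + x.1.im • j f + x.2.re • e + x.2.im • j e := rfl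

theorem S_I {j : V →L[ℝ] V} (hj : ∀ v, j (j v) = -v) (f e : V) (x : ℂ × ℂ) :
    S j f e (Complex.I • x) = j (S j f e x) := by
  rw [S_apply, S_apply]
  simp only [map_add, map_smul, hj, Prod.smul_fst, Prod.smul_snd, smul_eq_mul, Complex.mul_re,
    Complex.I_re, zero_mul, Complex.I_im, one_mul, zero_sub, Complex.mul_im, zero_add]
  module

theorem cancel_j {j : V →L[ℝ] V} (hj : ∀ v, j (j v) = -v) (a b : ℝ) (v : V) :
    a • (a • v + b • j v) - b • j (a • v + b • j v) = (a ^ 2 + b ^ 2) • v := by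
  rw [map_add, map_smul, map_smul, hj]
  module

theorem S_injective {j : V →L[ℝ] V} (hj : ∀ v, j (j v) = -v) {f e : V} (he : e ≠ 0)
    (hf : ∀ a b : ℝ, f ≠ a • e + b • j e) : Function.Injective (S j f e) := by
  rw [injective_iff_map_eq_zero]
  intro x hx
  rw [S_apply] at hx
  have h1 : x.1 = 0 := by
    by_contra h
    have hn : x.1.re ^ 2 + x.1.im ^ 2 ≠ 0 := by
      intro h0
      have a1 : x.1.re = 0 := by nlinarith [sq_nonneg x.1.re, sq_nonneg x.1.im]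
      have a2 : x.1.im = 0 := by nlinarith [sq_nonneg x.1.re, sq_nonneg x.1.im]
      exact h (Complex.ext a1 a2)
    have h2 : x.1.re • f + x.1.im • j f = -(x.2.re • e + x.2.im • j e) := by
      rw [← sub_eq_zero, sub_neg_eq_add, ← hx]; abel
    have h3 := cancel_j hj x.1.re x.1.im f
    rw [h2] at h3
    refine hf ((x.1.re ^ 2 + x.1.im ^ 2)⁻¹ * (-(x.1.re * x.2.re) - x.1.im * x.2.im))
      ((x.1.re ^ 2 + x.1.im ^ 2)⁻¹ * (-(x.1.re * x.2.im) + x.1.im * x.2.re)) ?_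
    have h4 : f = (x.1.re ^ 2 + x.1.im ^ 2)⁻¹ • ((x.1.re ^ 2 + x.1.im ^ 2) • f) := by
      rw [smul_smul, inv_mul_cancel₀ hn, one_smul]
    rw [h4, ← h3, map_neg, map_add, map_smul, map_smul, hj]
    module
  have h2 : x.2 = 0 := by
    by_contra h
    have hn : x.2.re ^ 2 + x.2.im ^ 2 ≠ 0 := by
      intro h0
      have a1 : x.2.re = 0 := by nlinarith [sq_nonneg x.2.re, sq_nonneg x.2.im]
      have a2 : x.2.im = 0 := by nlinarith [sq_nonneg x.2.re, sq_nonneg x.2.im]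
      exact h (Complex.ext a1 a2)
    have h3 := cancel_j hj x.2.re x.2.im e
    rw [h1] at hx
    have h4 : x.2.re • e + x.2.im • j e = 0 := by
      rw [← hx]; simp
    rw [h4, map_zero, smul_zero, smul_zero, sub_zero] at h3
    exact (smul_ne_zero hn he) h3.symm
  exact Prod.ext h1 h2

/-- linear normal form with two given vectors -/
theorem exists_lin2 (hV : Module.finrank ℝ V = 4) {j : V →L[ℝ] V} (hj : ∀ v, j (j v) = -v)
    {f e : V} (he : e ≠ 0) (hf : ∀ a b : ℝ, f ≠ a • e + b • j e) :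
    ∃ T : V ≃L[ℝ] ℂ × ℂ, (∀ v, T (j v) = Complex.I • T v) ∧ T f = (1, 0) ∧ T e = (0, 1) ∧
      ∀ x, T.symm x = x.1.re • f + x.1.im • j f + x.2.re • e + x.2.im • j e := by
  have hfd : FiniteDimensional ℝ V := FiniteDimensional.of_finrank_pos (by omega)
  have hd : Module.finrank ℝ (ℂ × ℂ) = Module.finrank ℝ V := by
    rw [hV, Module.finrank_prod, Complex.finrank_real_complex]
  let T0 : (ℂ × ℂ) ≃ₗ[ℝ] V := LinearEquiv.ofInjectiveOfFinrankEq (S j f e) (S_injective hj he hf) hd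
  have hT0 : ∀ x, T0 x = S j f e x := fun x => rfl
  let T : V ≃L[ℝ] ℂ × ℂ := T0.symm.toContinuousLinearEquiv
  have hT : ∀ x, T.symm x = S j f e x := fun x => rfl
  refine ⟨T, fun v => ?_, ?_, ?_, fun x => by rw [hT, S_apply]⟩
  · apply T.symm.injective
    rw [T.symm_apply_apply, hT, S_I hj, ← hT, T.symm_apply_apply]
  · apply T.symm.injective
    rw [T.symm_apply_apply, hT, S_apply]; simp
  · apply T.symm.injective
    rw [T.symm_apply_apply, hT, S_apply]; simp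

/-- a vector outside a complex line -/
theorem exists_not_mem (hV : Module.finrank ℝ V = 4) (j : V →L[ℝ] V) (e : V) :
    ∃ f : V, ∀ a b : ℝ, f ≠ a • e + b • j e := by
  have hfd : FiniteDimensional ℝ V := FiniteDimensional.of_finrank_pos (by omega)
  by_contra h
  push Not at h
  have hs : Submodule.span ℝ (Set.range ![e, j e]) = ⊤ := by
    rw [eq_top_iff]
    rintro f -
    obtain ⟨a, b, hab⟩ := h f
    rw [hab]
    refine Submodule.add_mem _ (Submodule.smul_mem _ _ (Submodule.subset_span ⟨0, rfl⟩))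
      (Submodule.smul_mem _ _ (Submodule.subset_span ⟨1, rfl⟩))
  have h1 := finrank_range_le_card (R := ℝ) (b := ![e, j e])
  rw [Set.finrank, hs, finrank_top, hV] at h1
  simp at h1

theorem exists_lin (hV : Module.finrank ℝ V = 4) {j : V →L[ℝ] V} (hj : ∀ v, j (j v) = -v)
    {e : V} (he : e ≠ 0) :
    ∃ T : V ≃L[ℝ] ℂ × ℂ, (∀ v, T (j v) = Complex.I • T v) ∧ T e = (0, 1) := by
  obtain ⟨f, hf⟩ := exists_not_mem hV j e
  obtain ⟨T, h1, -, h3, -⟩ := exists_lin2 hV hj he hf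
  exact ⟨T, h1, h3⟩

theorem finrank_CC : Module.finrank ℝ (ℂ × ℂ) = 4 := by
  rw [Module.finrank_prod, Complex.finrank_real_complex]

end lin

section straight

/-- `Θ` straightens the `J`-disc `v`; `J'` is the pulled back structure -/
structure Straight (J : ℂ × ℂ → ℂ × ℂ →L[ℝ] ℂ × ℂ) (v : ℂ → ℂ × ℂ) (ρ : ℝ)
    (Θ : OpenPartialHomeomorph (ℂ × ℂ) (ℂ × ℂ)) (J' : ℂ × ℂ → ℂ × ℂ →L[ℝ] ℂ × ℂ) : Prop where
  pos : 0 < ρ
  source : Θ.source = ball 0 ρ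
  axis : ∀ z : ℂ, ‖z‖ < ρ → Θ (z, 0) = v z
  smooth : ContDiffOn ℝ ∞ Θ (ball 0 ρ)
  smooth_symm : ContDiffOn ℝ ∞ Θ.symm Θ.target
  conj : ∀ x ∈ ball (0 : ℂ × ℂ) ρ, ∀ y, fderiv ℝ Θ x (J' x y) = J (Θ x) (fderiv ℝ Θ x y)
  inv : ∀ x ∈ ball (0 : ℂ × ℂ) ρ, ∀ y, fderiv ℝ Θ.symm (Θ x) (fderiv ℝ Θ x y) = y
  inv' : ∀ x ∈ ball (0 : ℂ × ℂ) ρ, ∀ y, fderiv ℝ Θ x (fderiv ℝ Θ.symm (Θ x) y) = y
  smoothJ : ContDiffOn ℝ ∞ J' (ball 0 ρ)
  sq : ∀ x ∈ ball (0 : ℂ × ℂ) ρ, ∀ y, J' x (J' x y) = -y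
  axisJ : ∀ z : ℂ, ‖z‖ < ρ → ∀ y, J' (z, 0) y = Complex.I • y

theorem Straight.acs {J : ℂ × ℂ → ℂ × ℂ →L[ℝ] ℂ × ℂ} {v : ℂ → ℂ × ℂ} {ρ : ℝ}
    {Θ : OpenPartialHomeomorph (ℂ × ℂ) (ℂ × ℂ)} {J' : ℂ × ℂ → ℂ × ℂ →L[ℝ] ℂ × ℂ}
    (h : Straight J v ρ Θ J') : ACS J' ρ :=
  ⟨h.pos, h.smoothJ, h.sq, fun y => h.axisJ 0 (by rw [norm_zero]; exact h.pos) y⟩

/-- **STRAIGHTENING** of an immersed `J`-disc. -/
theorem exists_straight {J : ℂ × ℂ → ℂ × ℂ →L[ℝ] ℂ × ℂ} {U : Set (ℂ × ℂ)} (hU : IsOpen U)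
    (hJ : ContDiffOn ℝ ∞ J U) (hJ2 : ∀ x ∈ U, ∀ y, J x (J x y) = -y)
    {v : ℂ → ℂ × ℂ} {O : Set ℂ} (hO : IsOpen O) (h0 : (0 : ℂ) ∈ O) (hv : ContDiffOn ℝ ∞ v O)
    (hvU : ∀ z ∈ O, v z ∈ U) (hvJ : JHol J v O) (hv1 : fderiv ℝ v 0 1 ≠ 0) :
    ∃ (ρ : ℝ) (Θ : OpenPartialHomeomorph (ℂ × ℂ) (ℂ × ℂ)) (J' : ℂ × ℂ → ℂ × ℂ →L[ℝ] ℂ × ℂ),
      Straight J v ρ Θ J' ∧ (∀ x ∈ ball (0 : ℂ × ℂ) ρ, Θ x ∈ U) ∧ ∀ z : ℂ, ‖z‖ < ρ → z ∈ O := by
  obtain ⟨n, hn⟩ := exists_not_mem finrank_CC (J (v 0)) (fderiv ℝ v 0 1)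
  have hn0 : n ≠ 0 := by
    intro h
    exact hn 0 0 (by rw [h]; simp)
  -- the vector `v'(0)` is not in the line of `n`
  have hj0 := hJ2 _ (hvU 0 h0)
  have hf : ∀ a b : ℝ, fderiv ℝ v 0 1 ≠ a • n + b • J (v 0) n := by
    intro a b hab
    have hc := cancel_j hj0 a b n
    rw [← hab] at hc
    have hab0 : a ^ 2 + b ^ 2 ≠ 0 := by
      intro h
      have a1 : a = 0 := by nlinarith [sq_nonneg a, sq_nonneg b]
      have a2 : b = 0 := by nlinarith [sq_nonneg a, sq_nonneg b]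
      rw [a1, a2] at hab
      exact hv1 (by rw [hab]; simp)
    refine hn ((a ^ 2 + b ^ 2)⁻¹ * a) (-((a ^ 2 + b ^ 2)⁻¹ * b)) ?_
    have h4 : n = (a ^ 2 + b ^ 2)⁻¹ • ((a ^ 2 + b ^ 2) • n) := by
      rw [smul_smul, inv_mul_cancel₀ hab0, one_smul]
    rw [h4, ← hc]
    module
  obtain ⟨T, -, -, -, hT⟩ := exists_lin2 finrank_CC hj0 hn0 hf
  -- the map
  let Θ0 : ℂ × ℂ → ℂ × ℂ := fun x => v x.1 + (x.2.re • n + x.2.im • J (v x.1) n)
  have hre : ContDiff ℝ ∞ (fun x : ℂ × ℂ => x.2.re) :=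
    Complex.reCLM.contDiff.comp contDiff_snd
  have him : ContDiff ℝ ∞ (fun x : ℂ × ℂ => x.2.im) :=
    Complex.imCLM.contDiff.comp contDiff_snd
  have hvat : ∀ z ∈ O, ContDiffAt ℝ ∞ v z := fun z hz => hv.contDiffAt (hO.mem_nhds hz)
  have hJv : ∀ z ∈ O, ContDiffAt ℝ ∞ (fun z => J (v z)) z := fun z hz =>
    ContDiffAt.comp z (hJ.contDiffAt (hU.mem_nhds (hvU z hz))) (hvat z hz)
  have hJvn : ∀ z ∈ O, ContDiffAt ℝ ∞ (fun z => J (v z) n) z := fun z hz =>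
    (hJv z hz).clm_apply contDiffAt_const
  have hsm : ∀ x : ℂ × ℂ, x.1 ∈ O → ContDiffAt ℝ ∞ Θ0 x := by
    intro x hx
    have h1 : ContDiffAt ℝ ∞ (fun x : ℂ × ℂ => v x.1) x :=
      ContDiffAt.comp (f := Prod.fst) x (hvat _ hx) contDiffAt_fst
    have h2 : ContDiffAt ℝ ∞ (fun x : ℂ × ℂ => J (v x.1) n) x :=
      ContDiffAt.comp (g := fun z => J (v z) n) (f := Prod.fst) x (hJvn _ hx) contDiffAt_fst
    exact h1.add ((hre.contDiffAt.smul contDiffAt_const).add (him.contDiffAt.smul h2))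
  -- derivative on the axis
  have hder : ∀ z ∈ O, ∀ y : ℂ × ℂ, fderiv ℝ Θ0 (z, 0) y =
      fderiv ℝ v z y.1 + (y.2.re • n + y.2.im • J (v z) n) := by
    intro z hz y
    have e1 : HasFDerivAt (fun x : ℂ × ℂ => v x.1)
        ((fderiv ℝ v z).comp (ContinuousLinearMap.fst ℝ ℂ ℂ)) (z, 0) := by
      have := ((hvat z hz).differentiableAt (by simp)).hasFDerivAt
      exact HasFDerivAt.comp (f := Prod.fst) (z, (0 : ℂ)) this hasFDerivAt_fst
    have e2 : HasFDerivAt (fun x : ℂ × ℂ => x.2.re • n)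
        ((Complex.reCLM.comp (ContinuousLinearMap.snd ℝ ℂ ℂ)).smulRight n) (z, 0) :=
      ((Complex.reCLM.comp (ContinuousLinearMap.snd ℝ ℂ ℂ)).hasFDerivAt
        (x := (z, (0 : ℂ)))).smul_const n
    have e3 : HasFDerivAt (fun x : ℂ × ℂ => J (v x.1) n)
        ((fderiv ℝ (fun z => J (v z) n) z).comp (ContinuousLinearMap.fst ℝ ℂ ℂ)) (z, 0) := by
      have := ((hJvn z hz).differentiableAt (by simp)).hasFDerivAt
      exact HasFDerivAt.comp (g := fun z => J (v z) n) (f := Prod.fst) (z, (0 : ℂ)) this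
        hasFDerivAt_fst
    have e4 := ((Complex.imCLM.comp (ContinuousLinearMap.snd ℝ ℂ ℂ)).hasFDerivAt
        (x := (z, (0 : ℂ)))).smul e3
    have e5 := e1.add (e2.add e4)
    have e6 : fderiv ℝ Θ0 (z, 0) = _ := e5.fderiv
    rw [e6]
    simp
  have hfd0 : fderiv ℝ Θ0 (0, 0) = (T.symm : ℂ × ℂ →L[ℝ] ℂ × ℂ) := by
    refine ContinuousLinearMap.ext fun y => ?_
    rw [hder 0 h0, ContinuousLinearEquiv.coe_coe, hT]
    have : fderiv ℝ v 0 y.1 = y.1.re • fderiv ℝ v 0 1 + y.1.im • J (v 0) (fderiv ℝ v 0 1) := by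
      have h1 := (hvJ 0 h0).2 1
      rw [mul_one] at h1
      rw [← h1]; exact L_eq _ _
    rw [this]; abel
  have hΘd : HasFDerivAt Θ0 (T.symm : ℂ × ℂ →L[ℝ] ℂ × ℂ) ((0, 0) : ℂ × ℂ) := by
    rw [← hfd0]; exact ((hsm (0, 0) h0).differentiableAt (by simp)).hasFDerivAt
  let Φ := (hsm (0, 0) h0).toOpenPartialHomeomorph Θ0 hΘd (by simp)
  have hΦ : ∀ x, Φ x = Θ0 x := fun x => rfl
  have hΦs : ((0, 0) : ℂ × ℂ) ∈ Φ.source :=
    (hsm (0, 0) h0).mem_toOpenPartialHomeomorph_source hΘd (by simp)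
  -- the good open set
  have hopen : ∀ᶠ x in 𝓝 ((0, 0) : ℂ × ℂ), x ∈ Φ.source ∧ x.1 ∈ O ∧ Θ0 x ∈ U ∧
      fderiv ℝ Θ0 x ∈ Set.range
        (fun e : (ℂ × ℂ) ≃L[ℝ] (ℂ × ℂ) => (e : ℂ × ℂ →L[ℝ] ℂ × ℂ)) := by
    have hS : ∀ᶠ x in 𝓝 ((0, 0) : ℂ × ℂ), x ∈ Φ.source := Φ.open_source.mem_nhds hΦs
    refine hS.and (Eventually.and ?_ (Eventually.and ?_ ?_))
    · exact (continuous_fst.continuousAt.eventually_mem (hO.mem_nhds h0))
    · refine (hsm (0, 0) h0).continuousAt.eventually_mem (hU.mem_nhds ?_)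
      change v 0 + ((0 : ℂ).re • n + (0 : ℂ).im • J (v 0) n) ∈ U
      simpa using hvU 0 h0
    · have hc : ContinuousAt (fderiv ℝ Θ0) (0, 0) :=
        ((hsm (0, 0) h0).fderiv_right (m := 0) (by simp)).continuousAt
      refine hc.eventually_mem (ContinuousLinearEquiv.isOpen.mem_nhds ?_)
      exact ⟨T.symm, hfd0.symm⟩
  obtain ⟨ρ, hρ, hball⟩ := Metric.mem_nhds_iff.1 hopen
  have hzero : ((0, 0) : ℂ × ℂ) = 0 := rfl
  rw [hzero] at hball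
  let Θ := Φ.restrOpen (ball 0 ρ) isOpen_ball
  have hΘ : ∀ x, Θ x = Θ0 x := fun x => rfl
  have hΘf : (Θ : ℂ × ℂ → ℂ × ℂ) = Θ0 := rfl
  have hsrc : Θ.source = ball 0 ρ := by
    rw [OpenPartialHomeomorph.restrOpen_source]
    exact inter_eq_right.2 fun x hx => (hball hx).1
  have hΘsm : ∀ x ∈ ball (0 : ℂ × ℂ) ρ, ContDiffAt ℝ ∞ Θ x := fun x hx => by
    rw [hΘf]; exact hsm x (hball hx).2.1
  have hsymm : ∀ y ∈ Θ.target, ContDiffAt ℝ ∞ Θ.symm y := by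
    intro y hy
    have hx : Θ.symm y ∈ ball (0 : ℂ × ℂ) ρ := by rw [← hsrc]; exact Θ.map_target hy
    obtain ⟨e, he⟩ := (hball hx).2.2.2
    refine Θ.contDiffAt_symm hy (f₀' := e) ?_ (hΘsm _ hx)
    rw [show (e : ℂ × ℂ →L[ℝ] ℂ × ℂ) = fderiv ℝ Θ0 (Θ.symm y) from he]
    exact ((hΘsm _ hx).differentiableAt (by simp)).hasFDerivAt
  have hmem : ∀ x ∈ ball (0 : ℂ × ℂ) ρ, Θ x ∈ Θ.target := fun x hx =>
    Θ.map_source (by rw [hsrc]; exact hx)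
  have hleft : ∀ x ∈ ball (0 : ℂ × ℂ) ρ, Θ.symm (Θ x) = x := fun x hx =>
    Θ.left_inv (by rw [hsrc]; exact hx)
  have hinv : ∀ x ∈ ball (0 : ℂ × ℂ) ρ, ∀ y, fderiv ℝ Θ.symm (Θ x) (fderiv ℝ Θ x y) = y := by
    intro x hx y
    have h1 : HasFDerivAt (fun x => Θ.symm (Θ x))
        ((fderiv ℝ Θ.symm (Θ x)).comp (fderiv ℝ Θ x)) x :=
      (((hsymm _ (hmem x hx)).differentiableAt (by simp)).hasFDerivAt).comp x
        ((hΘsm x hx).differentiableAt (by simp)).hasFDerivAt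
    have h2 : HasFDerivAt (fun x => Θ.symm (Θ x)) (ContinuousLinearMap.id ℝ _) x :=
      (hasFDerivAt_id x).congr_of_eventuallyEq (by
        filter_upwards [isOpen_ball.mem_nhds hx] with z hz
        exact hleft z hz)
    have h3 := h1.unique h2
    have := congrArg (fun L : ℂ × ℂ →L[ℝ] ℂ × ℂ => L y) h3
    exact this
  have hinv' : ∀ x ∈ ball (0 : ℂ × ℂ) ρ, ∀ y, fderiv ℝ Θ x (fderiv ℝ Θ.symm (Θ x) y) = y := by
    intro x hx y
    obtain ⟨e, he⟩ := (hball hx).2.2.2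
    have h1 : ∀ y, fderiv ℝ Θ x y = e y := fun y => by
      rw [hΘf, ← he]; rfl
    have h2 : fderiv ℝ Θ.symm (Θ x) y = e.symm y := by
      have := hinv x hx (e.symm y)
      rw [h1, e.apply_symm_apply] at this
      exact this
    rw [h2, h1, e.apply_symm_apply]
  let J' : ℂ × ℂ → ℂ × ℂ →L[ℝ] ℂ × ℂ := fun x =>
    (fderiv ℝ Θ.symm (Θ x)).comp ((J (Θ x)).comp (fderiv ℝ Θ x))
  have hJ' : ∀ x y, J' x y = fderiv ℝ Θ.symm (Θ x) (J (Θ x) (fderiv ℝ Θ x y)) := fun _ _ => rfl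
  refine ⟨ρ, Θ, J', ⟨hρ, hsrc, ?_, fun x hx => (hΘsm x hx).contDiffWithinAt,
    fun y hy => (hsymm y hy).contDiffWithinAt, ?_, hinv, hinv', ?_, ?_, ?_⟩, ?_, ?_⟩
  · intro z hz
    change v z + ((0 : ℂ).re • n + (0 : ℂ).im • J (v z) n) = v z
    simp
  · intro x hx y
    rw [hJ', hinv' x hx]
  · intro x hx
    have h1 : ContDiffAt ℝ ∞ (fderiv ℝ Θ) x := (hΘsm x hx).fderiv_right (by simp)
    have h2 : ContDiffAt ℝ ∞ (fun x => fderiv ℝ Θ.symm (Θ x)) x :=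
      ContDiffAt.comp x ((hsymm _ (hmem x hx)).fderiv_right (by simp)) (hΘsm x hx)
    have h3 : ContDiffAt ℝ ∞ (fun x => J (Θ x)) x :=
      ContDiffAt.comp x (hJ.contDiffAt (hU.mem_nhds (hball hx).2.2.1)) (hΘsm x hx)
    exact (h2.clm_comp (h3.clm_comp h1)).contDiffWithinAt
  · intro x hx y
    have hxU : Θ x ∈ U := (hball hx).2.2.1
    rw [hJ', hJ', hinv' x hx, hJ2 _ hxU, map_neg, hinv x hx]
  · intro z hz y
    have hx : ((z, 0) : ℂ × ℂ) ∈ ball (0 : ℂ × ℂ) ρ := by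
      rw [mem_ball, dist_zero_right, Prod.norm_def]
      simp only [norm_zero]
      exact max_lt hz hρ
    have hzO : z ∈ O := (hball hx).2.1
    have hΘz : Θ (z, 0) = v z := by
      change v z + ((0 : ℂ).re • n + (0 : ℂ).im • J (v z) n) = v z
      simp
    have h1 : J (Θ (z, 0)) (fderiv ℝ Θ (z, 0) y) = fderiv ℝ Θ (z, 0) (Complex.I • y) := by
      rw [hΘz, hΘf, hder z hzO, hder z hzO]
      have h2 := (hvJ z hzO).2 y.1
      simp only [map_add, map_smul, hJ2 _ (hvU z hzO), Prod.smul_fst, Prod.smul_snd, smul_eq_mul,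
        ← h2, Complex.mul_re, Complex.I_re, zero_mul, Complex.I_im, one_mul, zero_sub,
        Complex.mul_im, zero_add]
      module
    rw [hJ', h1, hinv _ hx]
  · intro x hx
    exact (hball hx).2.2.1
  · intro z hz
    have hx : ((z, 0) : ℂ × ℂ) ∈ ball (0 : ℂ × ℂ) ρ := by
      rw [mem_ball, dist_zero_right, Prod.norm_def]
      simp only [norm_zero]
      exact max_lt hz hρ
    exact (hball hx).2.1

/-- transport of `J`-holomorphic maps -/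
theorem jhol_symm {J : ℂ × ℂ → ℂ × ℂ →L[ℝ] ℂ × ℂ} {v : ℂ → ℂ × ℂ} {ρ : ℝ}
    {Θ : OpenPartialHomeomorph (ℂ × ℂ) (ℂ × ℂ)} {J' : ℂ × ℂ → ℂ × ℂ →L[ℝ] ℂ × ℂ}
    (h : Straight J v ρ Θ J') {u : ℂ → ℂ × ℂ} {O : Set ℂ} (hu : JHol J u O)
    (hO : ∀ z ∈ O, u z ∈ Θ.target) : JHol J' (fun z => Θ.symm (u z)) O := by
  intro z hz
  have hx : Θ.symm (u z) ∈ ball (0 : ℂ × ℂ) ρ := by
    rw [← h.source]; exact Θ.map_target (hO z hz)
  have hΘx : Θ (Θ.symm (u z)) = u z := Θ.right_inv (hO z hz)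
  have hd : DifferentiableAt ℝ Θ.symm (u z) :=
    (h.smooth_symm.contDiffAt (Θ.open_target.mem_nhds (hO z hz))).differentiableAt (by simp)
  have h1 : HasFDerivAt (fun z => Θ.symm (u z))
      ((fderiv ℝ Θ.symm (u z)).comp (fderiv ℝ u z)) z :=
    hd.hasFDerivAt.comp z (hu z hz).1.hasFDerivAt
  refine ⟨h1.differentiableAt, fun w => ?_⟩
  rw [h1.fderiv]
  change fderiv ℝ Θ.symm (u z) (fderiv ℝ u z (Complex.I * w)) =
    J' (Θ.symm (u z)) (fderiv ℝ Θ.symm (u z) (fderiv ℝ u z w))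
  rw [(hu z hz).2 w]
  have h2 := h.conj _ hx (fderiv ℝ Θ.symm (u z) (fderiv ℝ u z w))
  have h3 := h.inv' _ hx (fderiv ℝ u z w)
  rw [hΘx] at h2 h3
  rw [h3] at h2
  rw [← h2]
  have h4 := h.inv _ hx (J' (Θ.symm (u z)) (fderiv ℝ Θ.symm (u z) (fderiv ℝ u z w)))
  rw [hΘx] at h4
  exact h4

/-- `‖J'(z,w) - i‖ ≤ C |w|` -/
theorem norm_sub_le {J' : ℂ × ℂ → ℂ × ℂ →L[ℝ] ℂ × ℂ} {ρ ρ' : ℝ}
    (hsm : ContDiffOn ℝ ∞ J' (ball 0 ρ))
    (hax : ∀ z : ℂ, ‖z‖ < ρ → ∀ y, J' (z, 0) y = Complex.I • y) (hρ : ρ' < ρ) :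
    ∃ C : ℝ, 0 ≤ C ∧ ∀ x ∈ closedBall (0 : ℂ × ℂ) ρ', ‖J' x - iC (ℂ × ℂ)‖ ≤ C * ‖x.2‖ := by
  have hK : IsCompact (closedBall (0 : ℂ × ℂ) ρ') := isCompact_closedBall _ _
  have hsub : closedBall (0 : ℂ × ℂ) ρ' ⊆ ball 0 ρ := closedBall_subset_ball hρ
  have hc : ContinuousOn (fderiv ℝ J') (closedBall 0 ρ') :=
    (hsm.continuousOn_fderiv_of_isOpen isOpen_ball (by simp)).mono hsub
  obtain ⟨C, hC⟩ := hK.exists_bound_of_continuousOn hc
  refine ⟨max C 0, le_max_right _ _, fun x hx => ?_⟩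
  have hx1 : ((x.1, 0) : ℂ × ℂ) ∈ closedBall (0 : ℂ × ℂ) ρ' := by
    rw [mem_closedBall, dist_zero_right] at hx ⊢
    refine le_trans ?_ hx
    rw [Prod.norm_def, Prod.norm_def]
    exact max_le (le_max_left _ _) (by simp)
  have h1 := (convex_closedBall (0 : ℂ × ℂ) ρ').norm_image_sub_le_of_norm_fderiv_le
    (𝕜 := ℝ) (f := J') (C := max C 0)
    (fun y hy => (hsm.contDiffAt (isOpen_ball.mem_nhds (hsub hy))).differentiableAt (by simp))
    (fun y hy => (hC y hy).trans (le_max_left _ _)) hx1 hx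
  have h2 : J' (x.1, 0) = iC (ℂ × ℂ) := by
    refine ContinuousLinearMap.ext fun y => ?_
    rw [hax _ ?_, iC_apply]
    have := hsub hx1
    rw [mem_ball, dist_zero_right, Prod.norm_def] at this
    exact lt_of_le_of_lt (le_max_left _ _) this
  rw [h2] at h1
  refine h1.trans (le_of_eq ?_)
  congr 1
  have : x - (x.1, 0) = (0, x.2) := by
    ext1 <;> simp
  rw [this, Prod.norm_def]
  simp

/-- the second component of a `J'`-disc satisfies `|∂̄ u₂| ≤ C |u₂| |du|` -/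
theorem dzb_snd_le {J' : ℂ × ℂ → ℂ × ℂ →L[ℝ] ℂ × ℂ} {ρ ρ' : ℝ}
    (hsm : ContDiffOn ℝ ∞ J' (ball 0 ρ))
    (hax : ∀ z : ℂ, ‖z‖ < ρ → ∀ y, J' (z, 0) y = Complex.I • y) (hρ : ρ' < ρ) :
    ∃ C : ℝ, 0 ≤ C ∧ ∀ (u : ℂ → ℂ × ℂ) (z : ℂ), DifferentiableAt ℝ u z →
      (fderiv ℝ u z Complex.I = J' (u z) (fderiv ℝ u z 1)) → u z ∈ closedBall (0 : ℂ × ℂ) ρ' →
      ‖dzb (fun z => (u z).2) z‖ ≤ C * ‖(u z).2‖ * ‖fderiv ℝ u z‖ := by
  obtain ⟨C, hC0, hC⟩ := norm_sub_le hsm hax hρ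
  refine ⟨C, hC0, fun u z hd hj hz => ?_⟩
  have h1 : fderiv ℝ (fun z => (u z).2) z =
      (ContinuousLinearMap.snd ℝ ℂ ℂ).comp (fderiv ℝ u z) := by
    exact ((ContinuousLinearMap.snd ℝ ℂ ℂ).hasFDerivAt.comp z hd.hasFDerivAt).fderiv
  have h2 : dzb (fun z => (u z).2) z = (dbl (fderiv ℝ u z)).2 := by
    unfold dzb
    rw [h1]
    unfold dbl
    simp [mul_add]
  have h3 : dbl (fderiv ℝ u z) =
      (2 : ℂ)⁻¹ • (Complex.I • ((J' (u z) - iC (ℂ × ℂ)) (fderiv ℝ u z 1))) := by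
    unfold dbl
    rw [hj]
    congr 1
    rw [sub_apply, iC_apply, smul_sub, smul_smul, Complex.I_mul_I, neg_one_smul]
    abel
  rw [h2, h3]
  have h4 : ‖((2 : ℂ)⁻¹ • (Complex.I • ((J' (u z) - iC (ℂ × ℂ)) (fderiv ℝ u z 1)))).2‖ ≤
      ‖(2 : ℂ)⁻¹ • (Complex.I • ((J' (u z) - iC (ℂ × ℂ)) (fderiv ℝ u z 1)))‖ := by
    rw [Prod.norm_def]; exact le_max_right _ _
  refine h4.trans ?_
  rw [norm_smul, norm_smul, Complex.norm_I, one_mul]
  have h5 : ‖(J' (u z) - iC (ℂ × ℂ)) (fderiv ℝ u z 1)‖ ≤ C * ‖(u z).2‖ * ‖fderiv ℝ u z‖ := by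
    refine ((J' (u z) - iC (ℂ × ℂ)).le_opNorm _).trans ?_
    have h6 : ‖fderiv ℝ u z 1‖ ≤ ‖fderiv ℝ u z‖ := by
      have := (fderiv ℝ u z).le_opNorm 1
      rwa [norm_one, mul_one] at this
    exact mul_le_mul (hC _ hz) h6 (norm_nonneg _) (mul_nonneg hC0 (norm_nonneg _))
  have h7 : ‖(2 : ℂ)⁻¹‖ ≤ 1 := by rw [norm_inv]; norm_num
  exact (mul_le_of_le_one_left (norm_nonneg _) h7).trans h5

end straight

end

end Crest.Agent.R235.NWJ2_130
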