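import Mathlib
import Crest.Agent.R235.Iso_61
import Crest.Agent.R235.AdjET_61
import Crest.Agent.R235.NWJ2_130

/-!
Row 235 (S0364), package ADJ, leaf X1 (helper61), part 2: an embedded surface with `J`-invariant
tangent planes, given by a smooth parametrisation `s : D → M`, has a local form (`LocForm`) with
its current.
-/

set_option autoImplicit false
set_option maxSynthPendingDepth 3

open Set Function Filter MeasureTheory Metric
open scoped Manifold ContDiff Topology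

universe u

namespace Crest.Agent.R235.EmbLoc_61

open Crest.Agent.R240 Crest.Agent.R240.Ch Crest.Agent.R235.Glob_370 Crest.Agent.R235.Dm_61
open Crest.Agent.R235.AdjET_61 Crest.Agent.R235.NWDefs_334 Crest.Agent.R235.NWIface_334

noncomputable section

variable {M : Type u} [TopologicalSpace M] [ChartedSpace E4 M] [IsManifold 𝓘(ℝ, E4) ∞ M]

/-- a parametrised piece of an embedded `J`-surface `S` with current `C`. -/
structure Patch (J : EndF E4 M) (F : F2 E4 M) (S : Set M) (C : X2 M →ₗ[ℝ] ℝ) (p : M) where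
  /-- the parametrisation -/
  s : ℂ → M
  /-- its domain -/
  D : Set ℂ
  openD : IsOpen D
  /-- the centre -/
  z0 : ℂ
  mem : z0 ∈ D
  val : s z0 = p
  smooth : ContMDiffOn 𝓘(ℝ, ℂ) 𝓘(ℝ, E4) ∞ s D
  inj : InjOn s D
  imm : ∀ z ∈ D, ∀ v, dmap s z v = 0 → v = 0
  jinv : ∀ z ∈ D, ∀ v, ∃ v', dmap s z v' = atJ J (s z) (dmap s z v)
  op : ∀ O ⊆ D, IsOpen O → ∃ U, IsOpen U ∧ S ∩ U = s '' O
  pos : ∀ z ∈ D, 0 < pb s F z
  cur : ∀ b : X2 M, C b = ∫ z in D, pb s (b.1 : F2 E4 M) z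

/-- a real linear map of the plane by its values. -/
theorem eq_lam (L : ℂ →L[ℝ] ℂ) : L = lam (L 1) (L Complex.I) := by
  refine ContinuousLinearMap.ext fun v => ?_
  rw [lam_apply]
  have h : v = v.re • (1 : ℂ) + v.im • Complex.I := by
    apply Complex.ext <;> simp
  conv_lhs => rw [h]
  rw [map_add, map_smul, map_smul, Complex.real_smul, Complex.real_smul]

/-- `pb (s ∘ G) = det G' pb s`. -/
theorem pb_comp_real {s : ℂ → M} {G : ℂ → ℂ} {G' : ℂ →L[ℝ] ℂ} {t : ℂ}
    (h : ContMDiffAt 𝓘(ℝ, ℂ) 𝓘(ℝ, E4) ∞ s (G t)) (hG : HasFDerivAt G G' t) {b : F2 E4 M}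
    (hb : Smooth2 b) : pb (fun t => s (G t)) b t = G'.det * pb s b (G t) := by
  have h1 : ∀ v, dmap (fun t => s (G t)) t v = dmap s (G t) (G' v) := fun v => dmap_comp' h hG v
  have h2 : pb (fun t => s (G t)) b t =
      at2 b (s (G t)) (dmap s (G t) (G' 1)) (dmap s (G t) (G' Complex.I)) := by
    unfold pb
    rw [h1, h1]
  rw [h2, at2_dmap_comb hb, eq_lam G', det_lam, ← eq_lam G']
  ring

section main

variable {J : EndF E4 M} {F : F2 E4 M} {S : Set M} {C : X2 M →ₗ[ℝ] ℝ} {p : M}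

/-- the linear change of the parameter at the centre. -/
theorem exists_A (P : Patch J F S C p) (hJ2 : ∀ x v, atJ J x (atJ J x v) = -v) :
    ∃ (T : E4 ≃L[ℝ] ℂ × ℂ) (A : ℂ ≃L[ℝ] ℂ),
      (∀ v, T (atJ J p v) = Complex.I • T v) ∧ ∀ w, T (dmap P.s P.z0 (A w)) = (0, w) := by
  have he : dmap P.s P.z0 1 ≠ 0 := fun h => one_ne_zero (P.imm _ P.mem 1 h)
  have hfin : Module.finrank ℝ E4 = 4 := by simp
  obtain ⟨T, hT, hTe⟩ := NWJ2_130.exists_lin hfin (j := atJ J p) (hJ2 p) he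
  obtain ⟨a, ha⟩ := P.jinv _ P.mem 1
  rw [P.val] at ha
  have hk : ∀ w : ℂ, T (dmap P.s P.z0 (lam 1 a w)) = (0, w) := by
    intro w
    have e1 : lam 1 a w = w.re • (1 : ℂ) + w.im • a := by
      rw [lam_apply, Complex.real_smul, Complex.real_smul]
    rw [e1, dmap_add, dmap_smul, dmap_smul, ha, map_add, map_smul, map_smul, hT, hTe]
    apply Prod.ext
    · simp
    · simp only [Prod.smul_mk, Prod.mk_add_mk, smul_zero, smul_eq_mul, mul_one,
        Complex.real_smul]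
      exact Complex.re_add_im w
  have hinj : Injective (lam 1 a : ℂ →ₗ[ℝ] ℂ) := by
    intro w w' h
    have h' : lam 1 a w = lam 1 a w' := h
    have h1 := hk w
    rw [h', hk w'] at h1
    exact (congrArg Prod.snd h1).symm
  refine ⟨T, (LinearEquiv.ofInjectiveEndo (lam 1 a : ℂ →ₗ[ℝ] ℂ) hinj).toContinuousLinearEquiv,
    hT, fun w => ?_⟩
  exact hk w

/-- the almost complex structure in linear coordinates at `p`. -/
def JT (J : EndF E4 M) (p : M) (T : E4 ≃L[ℝ] ℂ × ℂ) (x : ℂ × ℂ) : ℂ × ℂ →L[ℝ] ℂ × ℂ :=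
  (T : E4 →L[ℝ] ℂ × ℂ).comp ((repJ p J (chartAt E4 p p + T.symm x)).comp
    (T.symm : ℂ × ℂ →L[ℝ] E4))

theorem repJ_sq (hJ2 : ∀ x v, atJ J x (atJ J x v) = -v) {y : E4}
    (hy : y ∈ (chartAt E4 p).target) (v : E4) : repJ p J y (repJ p J y v) = -v := by
  rw [repJ_apply, repJ_apply, tcc_cancel' (symm_mem hy), hJ2, map_neg]
  have h := tcc_comp (w := p) (x := (chartAt E4 p).symm y) (y := p) (z := (chartAt E4 p).symm y)
    (symm_mem hy) (mem_chart_source E4 _) (symm_mem hy) v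
  rw [h, tcc_self (symm_mem hy)]

theorem acs_JT (hJ : SmoothJ J) (hJ2 : ∀ x v, atJ J x (atJ J x v) = -v) {T : E4 ≃L[ℝ] ℂ × ℂ}
    (hT : ∀ v, T (atJ J p v) = Complex.I • T v) : ∃ r : ℝ, ACS (JT J p T) r ∧
      ∀ x ∈ ball (0 : ℂ × ℂ) r, chartAt E4 p p + T.symm x ∈ (chartAt E4 p).target := by
  have hc : Continuous fun x : ℂ × ℂ => chartAt E4 p p + T.symm x :=
    continuous_const.add T.symm.continuous
  have h0 : chartAt E4 p p + T.symm (0 : ℂ × ℂ) ∈ (chartAt E4 p).target := by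
    rw [map_zero, add_zero]; exact (chartAt E4 p).map_source (mem_chart_source E4 p)
  have hn : ∀ᶠ x in 𝓝 (0 : ℂ × ℂ), chartAt E4 p p + T.symm x ∈ (chartAt E4 p).target :=
    hc.continuousAt.eventually_mem ((chartAt E4 p).open_target.mem_nhds h0)
  obtain ⟨r, hr, hb⟩ := Metric.eventually_nhds_iff_ball.1 hn
  refine ⟨r, ⟨hr, ?_, ?_, ?_⟩, hb⟩
  · have h1 : ContDiffOn ℝ ∞ (fun x : ℂ × ℂ => repJ p J (chartAt E4 p p + T.symm x)) (ball 0 r) := by
      refine (hJ p).comp (g := repJ p J) (f := fun x : ℂ × ℂ => chartAt E4 p p + T.symm x) ?_ hb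
      exact (contDiff_const.add T.symm.contDiff).contDiffOn
    exact contDiffOn_const.clm_comp (h1.clm_comp contDiffOn_const)
  · intro x hx v
    show T (repJ p J _ (T.symm (T (repJ p J _ (T.symm v))))) = -v
    rw [T.symm_apply_apply, repJ_sq hJ2 (hb x hx), map_neg, T.apply_symm_apply]
  · intro v
    show T (repJ p J (chartAt E4 p p + T.symm 0) (T.symm v)) = Complex.I • v
    rw [map_zero, add_zero]
    have h := apply_eq_repJ (mem_chart_source E4 p) J (T.symm v)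
    rw [tcc_self (mem_chart_source E4 p), tcc_self (mem_chart_source E4 p)] at h
    rw [← h, hT, T.apply_symm_apply]

/-- **local form of an embedded `J`-surface.** -/
theorem loc_form [T2Space M] (hB : BelStmt) (hR : RegStmt) (hJ : SmoothJ J)
    (hJ2 : ∀ x v, atJ J x (atJ J x v) = -v) (hF : Smooth2 F)
    (hFt : ∀ x v, v ≠ 0 → 0 < at2 F x v (atJ J x v)) (P : Patch J F S C p) :
    ∃ L : LocForm J S p, L.Cur C := by
  obtain ⟨T, A, hT, hTA⟩ := exists_A P hJ2
  obtain ⟨r, hacs, hrt⟩ := acs_JT hJ hJ2 hT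
  -- the affine change of the parameter
  set α : ℂ → ℂ := fun z => P.z0 + A z with hα
  have hα0 : α 0 = P.z0 := by simp [hα]
  have hαc : Continuous α := continuous_const.add A.continuous
  have hαd : ∀ z, HasFDerivAt α (A : ℂ →L[ℝ] ℂ) z := fun z =>
    (A.hasFDerivAt (x := z)).const_add P.z0
  have hαinj : Injective α := fun z w h => A.injective (add_left_cancel h)
  have hsat : ∀ z ∈ P.D, ContMDiffAt 𝓘(ℝ, ℂ) 𝓘(ℝ, E4) ∞ P.s z := fun z hz =>
    P.smooth.contMDiffAt (P.openD.mem_nhds hz)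
  set v : ℂ → ℂ × ℂ := fun z => T (chartAt E4 p (P.s (α z)) - chartAt E4 p p) with hv
  have hv0 : v 0 = 0 := by
    rw [hv]; simp only; rw [hα0, P.val, sub_self, map_zero]
  -- the good neighbourhood of `0`
  have hsc : ContinuousAt (fun z => P.s (α z)) 0 := by
    refine ContinuousAt.comp (g := P.s) (f := α) ?_ hαc.continuousAt
    rw [hα0]
    exact (hsat _ P.mem).continuousAt
  have hgood : ∀ᶠ z in 𝓝 (0 : ℂ), α z ∈ P.D ∧ P.s (α z) ∈ (chartAt E4 p).source := by
    refine (hαc.continuousAt.eventually_mem (P.openD.mem_nhds ?_)).and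
      (hsc.eventually_mem ((chartAt E4 p).open_source.mem_nhds ?_))
    · rw [hα0]; exact P.mem
    · rw [hα0, P.val]; exact mem_chart_source E4 p
  obtain ⟨r0, hr0, hb0⟩ := Metric.eventually_nhds_iff_ball.1 hgood
  have hchart : ∀ z, α z ∈ P.D → P.s (α z) ∈ (chartAt E4 p).source →
      ContDiffAt ℝ ∞ (fun z => chartAt E4 p (P.s (α z))) z := by
    intro z hz1 hz2
    exact ContDiffAt.comp (g := fun z => chartAt E4 p (P.s z)) (f := α) z
      (contDiffAt_chart (hsat _ hz1) hz2) (contDiff_const.add A.contDiff).contDiffAt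
  have hvs : ∀ z, α z ∈ P.D → P.s (α z) ∈ (chartAt E4 p).source → ContDiffAt ℝ ∞ v z := by
    intro z hz1 hz2
    exact T.contDiff.contDiffAt.comp z ((hchart z hz1 hz2).sub contDiffAt_const)
  have hvc : ContinuousAt v 0 := (hvs 0 (hb0 0 (mem_ball_self hr0)).1
    (hb0 0 (mem_ball_self hr0)).2).continuousAt
  have hgood2 : ∀ᶠ z in 𝓝 (0 : ℂ), v z ∈ ball (0 : ℂ × ℂ) r := by
    refine hvc.eventually_mem (isOpen_ball.mem_nhds ?_)
    rw [hv0]; exact mem_ball_self hacs.pos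
  obtain ⟨r1, hr1, hb1⟩ := Metric.eventually_nhds_iff_ball.1 (hgood.and hgood2)
  have hvsm : ContDiffOn ℝ ∞ v (ball 0 r1) := fun z hz =>
    (hvs z (hb1 z hz).1.1 (hb1 z hz).1.2).contDiffWithinAt
  -- the differential of `v`
  have hvd : ∀ z, α z ∈ P.D → P.s (α z) ∈ (chartAt E4 p).source → ∀ w,
      fderiv ℝ v z w = T (tcc (P.s (α z)) p (P.s (α z)) (dmap P.s (α z) (A w))) := by
    intro z hz1 hz2 w
    have h1 : HasFDerivAt (fun z => chartAt E4 p (P.s z))
        (fderiv ℝ (fun z => chartAt E4 p (P.s z)) (α z)) (α z) :=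
      ((contDiffAt_chart (hsat _ hz1) hz2).differentiableAt (by simp)).hasFDerivAt
    have h2 : HasFDerivAt (fun z => chartAt E4 p (P.s (α z)) - chartAt E4 p p)
        ((fderiv ℝ (fun z => chartAt E4 p (P.s z)) (α z)).comp (A : ℂ →L[ℝ] ℂ)) z :=
      (h1.comp z (hαd z)).sub_const _
    have h3 : HasFDerivAt v _ z := (T : E4 →L[ℝ] ℂ × ℂ).hasFDerivAt.comp z h2
    rw [h3.fderiv, ← fderiv_chart (hsat _ hz1) hz2]
    rfl
  have hinv : ∀ z ∈ ball (0 : ℂ) r1, ∀ w, ∃ w',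
      fderiv ℝ v z w' = JT J p T (v z) (fderiv ℝ v z w) := by
    intro z hz w
    obtain ⟨⟨hz1, hz2⟩, hz3⟩ := hb1 z hz
    obtain ⟨w1, hw1⟩ := P.jinv _ hz1 (A w)
    refine ⟨A.symm w1, ?_⟩
    rw [hvd z hz1 hz2, hvd z hz1 hz2, A.apply_symm_apply, hw1]
    show _ = T (repJ p J (chartAt E4 p p + T.symm (v z)) (T.symm (T _)))
    have e1 : chartAt E4 p p + T.symm (v z) = chartAt E4 p (P.s (α z)) := by
      rw [hv]; simp
    rw [e1, T.symm_apply_apply, ← apply_eq_repJ hz2]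
  have hcl : ∀ w, fderiv ℝ v 0 w = (0, w) := by
    intro w
    rw [hvd 0 (hb0 0 (mem_ball_self hr0)).1 (hb0 0 (mem_ball_self hr0)).2, hα0, P.val,
      tcc_self (mem_chart_source E4 p)]
    exact hTA w
  obtain ⟨K, ρ, hρ, hK0, hKC, hKb, hKe, hKJ⟩ := Iso_61.iso hB hacs hr1 hvsm hv0
    (fun z hz => (hb1 z hz).2) hinv hcl
  -- smoothness of the disc
  have hu0C1 : ContDiffOn ℝ 1 (fun t => v (K t)) (ball 0 ρ) :=
    (hvsm.of_le (by simp)).comp hKC.contDiffOn hKb
  have hu0 : ContDiffOn ℝ ∞ (fun t => v (K t)) (ball 0 ρ) :=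
    hR (JT J p T) (ball 0 r) isOpen_ball hacs.smooth hacs.sq (fun t => v (K t)) (ball 0 ρ)
      isOpen_ball hu0C1 (fun t ht => (hb1 _ (hKb t ht)).2) hKJ
  -- the disc
  set m : ℂ → ℂ := fun t => (ρ / 2) • t with hm
  have hmd : ∀ t, HasFDerivAt m ((ρ / 2) • ContinuousLinearMap.id ℝ ℂ) t := fun t =>
    (hasFDerivAt_id t).const_smul (ρ / 2)
  have hmb : ∀ t ∈ ball (0 : ℂ) 2, m t ∈ ball (0 : ℂ) ρ := by
    intro t ht
    rw [mem_ball_zero_iff] at ht ⊢
    rw [hm]; simp only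
    rw [norm_smul, Real.norm_eq_abs, abs_of_pos (by linarith)]
    nlinarith
  have hminj : Injective m := by
    intro x y h
    have h' : (ρ / 2) • x = (ρ / 2) • y := h
    exact smul_right_injective ℂ (by positivity : ρ / 2 ≠ 0) h'
  have hmc : Continuous m := continuous_const_smul (ρ / 2)
  set G : ℂ → ℂ := fun t => α (K (m t)) with hG
  have hGc : Continuous G := hαc.comp (K.continuous.comp hmc)
  have hGinj : Injective G := hαinj.comp (K.injective.comp hminj)
  have hGD : ∀ t ∈ ball (0 : ℂ) 2, G t ∈ P.D := fun t ht => (hb1 _ (hKb _ (hmb t ht))).1.1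
  have hGs : ∀ t ∈ ball (0 : ℂ) 2, P.s (G t) ∈ (chartAt E4 p).source := fun t ht =>
    (hb1 _ (hKb _ (hmb t ht))).1.2
  have hGd : ∀ t, HasFDerivAt G ((A : ℂ →L[ℝ] ℂ).comp ((fderiv ℝ K (m t)).comp
      ((ρ / 2) • ContinuousLinearMap.id ℝ ℂ))) t := by
    intro t
    have h1 : HasFDerivAt K (fderiv ℝ K (m t)) (m t) :=
      ((hKC.differentiable (by norm_num)) _).hasFDerivAt
    exact (hαd _).comp t (h1.comp t (hmd t))
  have h12 : ball (0 : ℂ) 1 ⊆ ball 0 2 := ball_subset_ball (by norm_num)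
  set u : ℂ → M := fun t => P.s (G t) with hu
  have huc : ∀ t ∈ ball (0 : ℂ) 2, ContinuousAt u t := fun t ht =>
    ContinuousAt.comp (g := P.s) (f := G) (hsat _ (hGD t ht)).continuousAt hGc.continuousAt
  have hchu : ∀ t, chartAt E4 p (u t) = chartAt E4 p p + T.symm (v (K (m t))) := by
    intro t
    rw [hv]; simp [hu, hG]
  have hcu : ∀ t ∈ ball (0 : ℂ) 2, ContDiffAt ℝ ∞ (fun t => chartAt E4 p (u t)) t := by
    intro t ht
    have h1 : ContDiffAt ℝ ∞ (fun t => v (K t)) (m t) :=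
      hu0.contDiffAt (isOpen_ball.mem_nhds (hmb t ht))
    have h2 : ContDiffAt ℝ ∞ m t := contDiffAt_id.const_smul (ρ / 2)
    have h3 : ContDiffAt ℝ ∞ (fun t => v (K (m t))) t :=
      ContDiffAt.comp (g := fun t => v (K t)) (f := m) t h1 h2
    have h4 : (fun t => chartAt E4 p (u t)) = fun t => chartAt E4 p p + T.symm (v (K (m t))) :=
      funext hchu
    rw [h4]
    exact contDiffAt_const.add (T.symm.contDiff.contDiffAt.comp t h3)
  have husm : ∀ t ∈ ball (0 : ℂ) 2, ContMDiffAt 𝓘(ℝ, ℂ) 𝓘(ℝ, E4) ∞ u t := fun t ht =>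
    contMDiffAt_of_chart (huc t ht) (hGs t ht) (hcu t ht)
  have hdm : ∀ t ∈ ball (0 : ℂ) 2, ∀ w, tcc (u t) p (u t) (dmap u t w) =
      T.symm (fderiv ℝ (fun t => v (K t)) (m t) ((ρ / 2) • w)) := by
    intro t ht w
    rw [← fderiv_chart (husm t ht) (hGs t ht)]
    have h1 : HasFDerivAt (fun t => v (K t)) (fderiv ℝ (fun t => v (K t)) (m t)) (m t) :=
      ((hu0.contDiffAt (isOpen_ball.mem_nhds (hmb t ht))).differentiableAt (by simp)).hasFDerivAt
    have h2 : HasFDerivAt (fun t => v (K (m t))) _ t :=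
      HasFDerivAt.comp (g := fun t => v (K t)) (f := m) t h1 (hmd t)
    have h3 : HasFDerivAt (fun t => chartAt E4 p p + T.symm (v (K (m t)))) _ t :=
      ((T.symm : ℂ × ℂ →L[ℝ] E4).hasFDerivAt.comp t h2).const_add _
    have h4 : (fun t => chartAt E4 p (u t)) = fun t => chartAt E4 p p + T.symm (v (K (m t))) :=
      funext hchu
    rw [h4, h3.fderiv]
    rfl
  have hjh : ∀ t ∈ ball (0 : ℂ) 2, ∀ w : ℂ,
      dmap u t (Complex.I * w) = atJ J (u t) (dmap u t w) := by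
    intro t ht w
    refine tcc_inj (hGs t ht) ?_
    have h1 := (hKJ (m t) (hmb t ht)).2 ((ρ / 2) • w)
    have h2 : (ρ / 2) • (Complex.I * w) = Complex.I * ((ρ / 2) • w) := by
      rw [mul_smul_comm]
    have h3 : tcc (u t) p (u t) (dmap u t (Complex.I * w)) = T.symm (JT J p T (v (K (m t)))
        (fderiv ℝ (fun t => v (K t)) (m t) ((ρ / 2) • w))) := by
      rw [hdm t ht, h2, h1]
    have h4 : T.symm (JT J p T (v (K (m t)))
        (fderiv ℝ (fun t => v (K t)) (m t) ((ρ / 2) • w))) =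
        repJ p J (chartAt E4 p p + T.symm (v (K (m t))))
          (T.symm (fderiv ℝ (fun t => v (K t)) (m t) ((ρ / 2) • w))) :=
      T.symm_apply_apply _
    rw [h3, h4, ← hdm t ht, ← hchu, apply_eq_repJ (hGs t ht)]
  have hdu : ∀ t ∈ ball (0 : ℂ) 2, ∀ w, dmap u t w =
      dmap P.s (G t) (A (fderiv ℝ K (m t) ((ρ / 2) • w))) := by
    intro t ht w
    exact dmap_comp' (σ := P.s) (τ := G) (hsat _ (hGD t ht)) (hGd t) w
  have himm : ∀ t ∈ ball (0 : ℂ) 2, ∀ w, dmap u t w = 0 → w = 0 := by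
    intro t ht w hw
    rw [hdu t ht] at hw
    have h1 := P.imm _ (hGD t ht) _ hw
    have h2 : fderiv ℝ K (m t) ((ρ / 2) • w) = 0 := (map_eq_zero_iff A A.injective).1 h1
    obtain ⟨e, he⟩ := hKe (m t)
    rw [← he] at h2
    have h3 : (ρ / 2) • w = 0 := (map_eq_zero_iff e e.injective).1 h2
    exact (smul_eq_zero.1 h3).resolve_left (by positivity)
  -- the open set
  set O : Set ℂ := G '' ball 0 1 with hO
  have hOo : IsOpen O := by
    have e1 : O = (fun z => P.z0 + z) '' (A '' (K '' (m '' ball 0 1))) := by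
      rw [hO, image_image, image_image, image_image]
    rw [e1]
    refine (Homeomorph.addLeft P.z0).isOpenMap _ (A.toHomeomorph.isOpenMap _
      (K.isOpenMap _ ?_))
    exact (Homeomorph.smulOfNeZero (ρ / 2) (by positivity)).isOpenMap _ isOpen_ball
  have hOD : O ⊆ P.D := by
    rintro _ ⟨t, ht, rfl⟩
    exact hGD t (h12 ht)
  obtain ⟨U, hUo, hUS⟩ := P.op O hOD hOo
  have himg : P.s '' O = u '' ball 0 1 := by rw [hO, image_image]
  have hSD : P.s '' P.D ⊆ S := by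
    obtain ⟨U', -, hU'⟩ := P.op P.D Subset.rfl P.openD
    rw [← hU']; exact inter_subset_left
  have hu0p : u 0 = p := by
    show P.s (α (K ((ρ / 2) • (0 : ℂ)))) = p
    rw [smul_zero, hK0, hα0, P.val]
  have hpU : p ∈ U := by
    have h1 : p ∈ S ∩ U := by
      rw [hUS, himg]
      exact ⟨0, mem_ball_self one_pos, hu0p⟩
    exact h1.2
  -- points of `D` mapped to `U` are in `O`
  have hDU : ∀ z ∈ P.D, P.s z ∈ U → z ∈ O := by
    intro z hz hzU
    have h1 : P.s z ∈ S ∩ U := ⟨hSD ⟨z, hz, rfl⟩, hzU⟩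
    rw [hUS] at h1
    obtain ⟨z', hz', h2⟩ := h1
    rwa [← P.inj (hOD hz') hz h2]
  have hproper : ∀ K' : Set M, IsCompact K' → K' ⊆ U →
      ∃ r < (1 : ℝ), ∀ z ∈ ball (0 : ℂ) 1, u z ∈ K' → ‖z‖ ≤ r := by
    intro K' hK' hKU
    have hcl : closedBall (0 : ℂ) 1 ⊆ ball 0 2 := closedBall_subset_ball (by norm_num)
    have hcu : ContinuousOn u (closedBall (0 : ℂ) 1) := fun t ht =>
      (huc t (hcl ht)).continuousWithinAt
    have hZ : IsCompact (closedBall (0 : ℂ) 1 ∩ u ⁻¹' K') :=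
      (isCompact_closedBall (0 : ℂ) 1).of_isClosed_subset
        (hcu.preimage_isClosed_of_isClosed isClosed_closedBall hK'.isClosed) inter_subset_left
    have hlt : ∀ z ∈ closedBall (0 : ℂ) 1 ∩ u ⁻¹' K', ‖z‖ < 1 := by
      rintro z ⟨hz, hzK⟩
      have h1 : G z ∈ O := hDU _ (hGD z (hcl hz)) (hKU hzK)
      obtain ⟨z', hz', h2⟩ := h1
      rw [← hGinj h2]
      exact mem_ball_zero_iff.1 hz'
    rcases (closedBall (0 : ℂ) 1 ∩ u ⁻¹' K').eq_empty_or_nonempty with he | hne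
    · refine ⟨0, one_pos, fun z hz hzK => ?_⟩
      have : z ∈ closedBall (0 : ℂ) 1 ∩ u ⁻¹' K' := ⟨ball_subset_closedBall hz, hzK⟩
      rw [he] at this
      exact absurd this (notMem_empty z)
    · obtain ⟨z1, hz1, hmax⟩ := hZ.exists_isMaxOn hne continuous_norm.continuousOn
      exact ⟨‖z1‖, hlt z1 hz1, fun z hz hzK => hmax ⟨ball_subset_closedBall hz, hzK⟩⟩
  let L : LocForm J S p :=
    { U := U
      openU := hUo
      mem := hpU
      n := 1
      u := fun _ => u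
      disc := fun _ =>
        { hol := ⟨fun t ht => (husm t (h12 ht)).contMDiffWithinAt, fun t ht w => hjh t (h12 ht) w⟩
          inj := fun x hx y hy h => hGinj (P.inj (hGD x (h12 hx)) (hGD y (h12 hy)) h)
          imm := fun t ht _ w hw => himm t (h12 ht) w hw }
      centre := fun _ => hu0p
      disj := fun i j hij => absurd (Subsingleton.elim i j) hij
      supp := by
        rw [hUS, himg]
        exact (iUnion_const _).symm
      proper := fun _ K' hK' hKU => hproper K' hK' hKU }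
  refine ⟨L, ?_⟩
  intro b K' hK' hKU hb
  show C b = ∑ _j : Fin 1, ∫ z in ball (0 : ℂ) 1, pb u (b.1 : F2 E4 M) z
  rw [Finset.sum_const, Finset.card_univ, Fintype.card_fin, one_smul, P.cur b]
  have h1 : ∫ z in P.D, pb P.s (b.1 : F2 E4 M) z = ∫ z in O, pb P.s (b.1 : F2 E4 M) z := by
    refine setIntegral_eq_of_subset_of_forall_sdiff_eq_zero P.openD.measurableSet hOD ?_
    rintro z ⟨hz, hzO⟩
    have h2 : P.s z ∉ K' := fun h => hzO (hDU z hz (hKU h))
    unfold pb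
    rw [hb _ h2]
    rfl
  have h3 := integral_image_eq_integral_abs_det_fderiv_smul volume
    (measurableSet_ball (x := (0 : ℂ)) (ε := 1))
    (fun t _ => (hGd t).hasFDerivWithinAt) (hGinj.injOn) (fun z => pb P.s (b.1 : F2 E4 M) z)
  rw [h1, h3]
  refine setIntegral_congr_fun measurableSet_ball fun t ht => ?_
  have ht2 := h12 ht
  have h4 := pb_comp_real (hsat _ (hGD t ht2)) (hGd t) b.2
  have h5 := pb_comp_real (hsat _ (hGD t ht2)) (hGd t) hF
  have h6 : 0 < pb u F t := by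
    have h7 : dmap u t 1 ≠ 0 := fun h => one_ne_zero (himm t ht2 1 h)
    have h8 := hFt (u t) _ h7
    have h9 := hjh t ht2 1
    rw [mul_one] at h9
    rw [← h9] at h8
    exact h8
  have h10 := P.pos _ (hGD t ht2)
  have h11 : 0 < ((A : ℂ →L[ℝ] ℂ).comp ((fderiv ℝ K (m t)).comp
      ((ρ / 2) • ContinuousLinearMap.id ℝ ℂ))).det := by
    by_contra hcon
    rw [not_lt] at hcon
    have h12 : pb u F t ≤ 0 := by
      show pb (fun t => P.s (G t)) F t ≤ 0
      rw [h5]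
      exact mul_nonpos_of_nonpos_of_nonneg hcon h10.le
    exact absurd h6 (not_lt.2 h12)
  show |_| • pb P.s (b.1 : F2 E4 M) (G t) = pb (fun t => P.s (G t)) (b.1 : F2 E4 M) t
  rw [h4, abs_of_pos h11, smul_eq_mul]

end main

end

end Crest.Agent.R235.EmbLoc_61
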