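import Mathlib
import Crest.Agent.R235.Defs_837

/-!
Row 235 (S0364), package ADJ, leaf X1 (helper61), part 3: linear algebra.  A plane of `E4` on which
`w 1` and `w 2` vanish is `J`-invariant.
-/

set_option autoImplicit false
set_option maxSynthPendingDepth 3

open Set Function
open scoped Manifold ContDiff Topology

universe u

namespace Crest.Agent.R235.Lag_61

open Crest.Agent.R240 Crest.Agent.R240.Ch

noncomputable section

theorem b_ee0 {b : Bil} (hb : Alt b) (X : E4) :
    b X (ee 0) = - X 1 * ent b 0 1 - X 2 * ent b 0 2 - X 3 * ent b 0 3 := by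
  rw [alt_expand hb]; simp [ee]; ring

theorem b_ee1 {b : Bil} (hb : Alt b) (X : E4) :
    b X (ee 1) = X 0 * ent b 0 1 - X 2 * ent b 1 2 - X 3 * ent b 1 3 := by
  rw [alt_expand hb]; simp [ee]; ring

theorem b_ee2 {b : Bil} (hb : Alt b) (X : E4) :
    b X (ee 2) = X 0 * ent b 0 2 + X 1 * ent b 1 2 - X 3 * ent b 2 3 := by
  rw [alt_expand hb]; simp [ee]; ring

theorem b_ee3 {b : Bil} (hb : Alt b) (X : E4) :
    b X (ee 3) = X 0 * ent b 0 3 + X 1 * ent b 1 3 + X 2 * ent b 2 3 := by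
  rw [alt_expand hb]; simp [ee]

/-- a two-form with non-zero square is nondegenerate. -/
theorem nondeg {b : Bil} (hb : Alt b) (hW : W b b ≠ 0) {X : E4} (h : ∀ v, b X v = 0) : X = 0 := by
  have h0 := h (ee 0)
  have h1 := h (ee 1)
  have h2 := h (ee 2)
  have h3 := h (ee 3)
  rw [b_ee0 hb] at h0
  rw [b_ee1 hb] at h1
  rw [b_ee2 hb] at h2
  rw [b_ee3 hb] at h3
  have hW' : W b b = 2 * (ent b 0 1 * ent b 2 3 - ent b 0 2 * ent b 1 3 + ent b 0 3 * ent b 1 2) := by
    unfold W; ring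
  have e0 : W b b * X 0 = 0 := by
    rw [hW']; linear_combination 2 * ent b 2 3 * h1 - 2 * ent b 1 3 * h2 + 2 * ent b 1 2 * h3
  have e1 : W b b * X 1 = 0 := by
    rw [hW']; linear_combination -2 * ent b 2 3 * h0 - 2 * ent b 0 2 * h3 + 2 * ent b 0 3 * h2
  have e2 : W b b * X 2 = 0 := by
    rw [hW']; linear_combination 2 * ent b 1 3 * h0 + 2 * ent b 0 1 * h3 - 2 * ent b 0 3 * h1
  have e3 : W b b * X 3 = 0 := by
    rw [hW']; linear_combination -2 * ent b 1 2 * h0 - 2 * ent b 0 1 * h2 + 2 * ent b 0 2 * h1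
  ext i
  fin_cases i
  · exact (mul_eq_zero.1 e0).resolve_left hW
  · exact (mul_eq_zero.1 e1).resolve_left hW
  · exact (mul_eq_zero.1 e2).resolve_left hW
  · exact (mul_eq_zero.1 e3).resolve_left hW

/-- `J X` is in the span of `X` and `Y` if `w₁`, `w₂` vanish on the plane. -/
theorem lag {b c : Bil} (hb : Alt b) (hc : Alt c)
    (hW : ∀ s t : ℝ, (s ≠ 0 ∨ t ≠ 0) → W (s • b + t • c) (s • b + t • c) ≠ 0)
    {j : E4 →L[ℝ] E4} (hj : ∀ v, j (j v) = -v) (hbj : ∀ u v, b (j u) (j v) = - b u v)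
    (hcj : ∀ u v, c (j u) (j v) = - c u v) {X Y : E4} (hX : X ≠ 0)
    (hbX : b X Y = 0) (hcX : c X Y = 0) : ∃ α β : ℝ, Y = α • X + β • j X := by
  -- the map `v ↦ (b X v, c X v)`
  let φ : E4 →ₗ[ℝ] ℝ × ℝ := ((b X : E4 →L[ℝ] ℝ) : E4 →ₗ[ℝ] ℝ).prod ((c X : E4 →L[ℝ] ℝ) : E4 →ₗ[ℝ] ℝ)
  have hφ : ∀ v, φ v = (b X v, c X v) := fun v => rfl
  have hsurj : LinearMap.range φ = ⊤ := by
    by_contra hne
    -- a non-zero functional vanishing on the range
    obtain ⟨f, hf0, hf⟩ := Submodule.exists_le_ker_of_lt_top (LinearMap.range φ)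
      (lt_top_iff_ne_top.2 hne)
    have h1 : ∀ v, f (1, 0) * b X v + f (0, 1) * c X v = 0 := by
      intro v
      have h2 : f (φ v) = 0 := hf ⟨v, rfl⟩
      rw [hφ] at h2
      have h3 : ((b X v, c X v) : ℝ × ℝ) = b X v • ((1, 0) : ℝ × ℝ) + c X v • ((0, 1) : ℝ × ℝ) := by
        simp
      rw [h3, map_add, map_smul, map_smul, smul_eq_mul, smul_eq_mul] at h2
      linarith
    have h4 : f (1, 0) ≠ 0 ∨ f (0, 1) ≠ 0 := by
      by_contra hcon
      push Not at hcon
      apply hf0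
      ext
      · simpa using hcon.1
      · simpa using hcon.2
    have halt : Alt (f (1, 0) • b + f (0, 1) • c) := by
      intro v
      show f (1, 0) * b v v + f (0, 1) * c v v = 0
      rw [hb v, hc v]; ring
    exact hX (nondeg halt (hW _ _ h4) h1)
  have hker : Module.finrank ℝ (LinearMap.ker φ) = 2 := by
    have h1 := LinearMap.finrank_range_add_finrank_ker φ
    rw [hsurj, finrank_top] at h1
    simp at h1
    omega
  have hbs : ∀ u v, b u v = - b v u := fun u v => hb.swap u v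
  have hXX : b X (j X) = 0 := by
    have h1 := hbj X (j X)
    rw [hj, map_neg, hbs (j X) X] at h1
    linarith
  have hcs : ∀ u v, c u v = - c v u := fun u v => hc.swap u v
  have hcXX : c X (j X) = 0 := by
    have h1 := hcj X (j X)
    rw [hj, map_neg, hcs (j X) X] at h1
    linarith
  -- `X`, `j X` are independent
  have hind : LinearIndependent ℝ ![X, j X] := by
    rw [LinearIndependent.pair_iff]
    intro s t hst
    have h1 : s • j X - t • X = 0 := by
      have := congrArg j hst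
      rw [map_add, map_smul, map_smul, hj, map_zero, smul_neg] at this
      rw [sub_eq_add_neg]; exact this
    have h2 : (s ^ 2 + t ^ 2) • X = 0 := by
      have e : (s ^ 2 + t ^ 2) • X = s • (s • X + t • j X) - t • (s • j X - t • X) := by module
      rw [e, hst, h1, smul_zero, smul_zero, sub_zero]
    have h3 := (smul_eq_zero.1 h2).resolve_right hX
    constructor
    · nlinarith [sq_nonneg s, sq_nonneg t]
    · nlinarith [sq_nonneg s, sq_nonneg t]
  have hle : Submodule.span ℝ (Set.range ![X, j X]) ≤ LinearMap.ker φ := by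
    rw [Submodule.span_le]
    rintro _ ⟨i, rfl⟩
    fin_cases i
    · show φ X = 0
      rw [hφ, hb X, hc X]; rfl
    · show φ (j X) = 0
      rw [hφ, hXX, hcXX]; rfl
  have heq : Submodule.span ℝ (Set.range ![X, j X]) = LinearMap.ker φ := by
    refine Submodule.eq_of_le_of_finrank_eq hle ?_
    rw [hker, finrank_span_eq_card hind]
    rfl
  have hY : Y ∈ Submodule.span ℝ (Set.range ![X, j X]) := by
    rw [heq, LinearMap.mem_ker, hφ, hbX, hcX]; rfl
  have hr : Set.range ![X, j X] = {X, j X} := by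
    simp [Matrix.range_cons, Matrix.range_empty, Set.pair_comm]
  rw [hr, Submodule.mem_span_pair] at hY
  obtain ⟨α, β, h⟩ := hY
  exact ⟨α, β, h.symm⟩

variable {M : Type u} [TopologicalSpace M] [ChartedSpace E4 M] [IsManifold 𝓘(ℝ, E4) ∞ M]

/-- the pair `(w 1, w 2)` on a plane. -/
theorem lag_trip {w : Trip M} (hw : Pos3 w) {J : EndF E4 M} (hJ : IsJ w J) (x : M) {X Y : E4}
    (hX : X ≠ 0) (h1 : val (w 1) x X Y = 0) (h2 : val (w 2) x X Y = 0) :
    ∃ α β : ℝ, Y = α • X + β • atJ J x X := by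
  refine lag (b := val (w 1) x) (c := val (w 2) x) ((w 1).1.2.1 x) ((w 2).1.2.1 x) ?_
    (hJ.sq x) (hJ.anti1 x) (hJ.anti2 x) hX h1 h2
  intro s t hst
  have h := hw x ![0, s, t] (by
    intro h0
    rcases hst with h' | h'
    · exact h' (congrFun h0 1)
    · exact h' (congrFun h0 2))
  rw [Fin.sum_univ_three] at h
  simpa using h

end

end Crest.Agent.R235.Lag_61
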