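import Mathlib
import Crest.Agent.R235.TorPatch_61
import Crest.Agent.R235.LimtA_225
import Crest.Agent.R235.Pull_129
import Crest.Agent.R235.Ip_288
import Crest.Agent.R240.IntBall

/-!
Row 235 (S0364), package TOR / SWC, node LIMT, leaf LIMT-T (helper129).

* `torcur` : a `J`-torus defines a closed positive current;
* `lb`     : uniform lower bound `k r²` of the area of a `J`-torus in small balls centred on it,
             and its support is the torus.
-/

set_option autoImplicit false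
set_option maxSynthPendingDepth 3
set_option linter.unusedSectionVars false

open Set Function Filter MeasureTheory Metric
open scoped Manifold ContDiff Topology

universe u

namespace Crest.Agent.R235.LimtT_129

open Crest.Agent.R240 Crest.Agent.R240.Ch Crest.Agent.R235 Crest.Agent.R235.Glob_370
open Crest.Agent.R235.TorPatch_61 Crest.Agent.R235.Swc Crest.Agent.R235.Pull_129

noncomputable section

section T1

variable {M : Type u} [TopologicalSpace M] [T2Space M] [CompactSpace M]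
  [ChartedSpace E4 M] [IsManifold 𝓘(ℝ, E4) ∞ M]

variable {σ : Ep → M} {w : Trip M} {J : EndF E4 M} {e : H2 M}

/-- an alternating form on the frame `X, αX + βJX`. -/
lemma pb_frame {b : F2 E4 M} (hb : ∀ x, Alt (at2 b x)) {z : ℂ} {α β : ℝ}
    (hab : dmap (ts σ) z Complex.I =
      α • dmap (ts σ) z 1 + β • atJ J (ts σ z) (dmap (ts σ) z 1)) :
    pb (ts σ) b z = β * at2 b (ts σ z) (dmap (ts σ) z 1) (atJ J (ts σ z) (dmap (ts σ) z 1)) := by
  unfold pb
  rw [hab, map_add, map_smul, map_smul, hb (ts σ z) (dmap (ts σ) z 1), smul_zero, zero_add,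
    smul_eq_mul]

/-- the frame, with its orientation. -/
theorem frame_pos (hw : Pos3 w) (hJ : IsJ w J) (h : JTor w σ e) (z : ℂ) :
    ∃ α β : ℝ, 0 < β ∧ dmap (ts σ) z Complex.I =
      α • dmap (ts σ) z 1 + β • atJ J (ts σ z) (dmap (ts σ) z 1) := by
  obtain ⟨α, β, hβ, hab⟩ := frame hw hJ h z
  have hX : dmap (ts σ) z 1 ≠ 0 := fun h0 => one_ne_zero (imm_ts h.emb z 1 h0)
  have h1 := pos_ts hw hJ h z
  rw [pb_frame (J := J) (w 0).1.2.1 hab] at h1
  have h2 : 0 < at2 ((w 0).1.1 : F2 E4 M) (ts σ z) (dmap (ts σ) z 1)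
      (atJ J (ts σ z) (dmap (ts σ) z 1)) := hJ.tame _ _ hX
  exact ⟨α, β, pos_of_mul_pos_left h1 h2.le, hab⟩

/-- **T1**: the current of a `J`-torus. -/
theorem torcur (hw : Pos3 w) (hJ : IsJ w J) (hs : JTor w σ e) :
    ∃ T : X2 M →ₗ[ℝ] ℝ, PCur J T ∧ ∀ b : X2 M, T b = torI σ (b.1 : F2 E4 M) := by
  refine ⟨torL σ hs.emb, ⟨?_, ?_, ?_⟩, fun b => rfl⟩
  · intro b c hbc
    show torI σ (b.1 : F2 E4 M) = torI σ (c.1 : F2 E4 M)
    rw [torI_sq hs.emb b.2 0 0, torI_sq hs.emb c.2 0 0]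
    congr 1
    funext z
    obtain ⟨α, β, -, hab⟩ := frame_pos hw hJ hs z
    rw [pb_frame (J := J) b.2.1 hab, pb_frame (J := J) c.2.1 hab, ← hbc, invp_apply, hJ.sq,
      map_neg]
    have h1 := Alt.swap (b.2.1 (ts σ z)) (atJ J (ts σ z) (dmap (ts σ) z 1)) (dmap (ts σ) z 1)
    rw [h1]
    ring
  · intro b hb
    show 0 ≤ torI σ (b.1 : F2 E4 M)
    rw [torI_sq hs.emb b.2 0 0]
    refine integral_nonneg fun z => ?_
    obtain ⟨α, β, hβ, hab⟩ := frame_pos hw hJ hs z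
    show 0 ≤ pb (ts σ) (b.1 : F2 E4 M) z
    rw [pb_frame (J := J) b.2.1 hab]
    exact mul_nonneg hβ.le ((hb _).nonneg _)
  · intro b hb
    show torI σ (b.1 : F2 E4 M) = 0
    have h1 : cls (⟨b, IsEx.closed2 hb⟩ : Z2 M) = 0 :=
      (Submodule.Quotient.mk_eq_zero (B2 M)).2 hb
    have h2 := hs.rep (⟨b, IsEx.closed2 hb⟩ : Z2 M)
    rw [h1, ip_zero_right (hw.vol 0)] at h2
    exact h2

end T1

/-! ### the area of a sheared box -/

/-- the sheared box. -/
def Pg (z0 : ℂ) (α a b : ℝ) : Set ℂ :=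
  {z | |(z - z0).re + α * (z - z0).im| < a ∧ |(z - z0).im| < b}

lemma Pg_open (z0 : ℂ) (α a b : ℝ) : IsOpen (Pg z0 α a b) := by
  have h1 : Continuous fun z : ℂ => |(z - z0).re + α * (z - z0).im| := by
    have h2 : Continuous fun z : ℂ => (z - z0).re := Complex.continuous_re.comp (by fun_prop)
    have h3 : Continuous fun z : ℂ => (z - z0).im := Complex.continuous_im.comp (by fun_prop)
    exact (h2.add (h3.const_mul α)).abs
  have h4 : Continuous fun z : ℂ => |(z - z0).im| :=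
    (Complex.continuous_im.comp (by fun_prop : Continuous fun z : ℂ => z - z0)).abs
  exact (isOpen_lt h1 continuous_const).inter (isOpen_lt h4 continuous_const)

lemma vol_Pg (z0 : ℂ) (α : ℝ) {a b : ℝ} (ha : 0 < a) (_hb : 0 < b) :
    volume (Pg z0 α a b) = ENNReal.ofReal (4 * a * b) := by
  have h1 := (Complex.volume_preserving_equiv_real_prod.symm).measure_preimage
    (Pg_open z0 α a b).measurableSet.nullMeasurableSet
  rw [← h1]
  have hS : Complex.measurableEquivRealProd.symm ⁻¹' (Pg z0 α a b) =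
      {q : ℝ × ℝ | |(q.1 - z0.re) + α * (q.2 - z0.im)| < a ∧ |q.2 - z0.im| < b} := by
    ext q
    rfl
  rw [hS]
  have hSm : MeasurableSet
      {q : ℝ × ℝ | |(q.1 - z0.re) + α * (q.2 - z0.im)| < a ∧ |q.2 - z0.im| < b} := by
    have hc1 : Continuous fun q : ℝ × ℝ => |(q.1 - z0.re) + α * (q.2 - z0.im)| := by fun_prop
    have hc2 : Continuous fun q : ℝ × ℝ => |q.2 - z0.im| := by fun_prop
    exact ((isOpen_lt hc1 continuous_const).inter (isOpen_lt hc2 continuous_const)).measurableSet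
  rw [Measure.volume_eq_prod, Measure.prod_apply_symm hSm]
  have h2 : ∀ y : ℝ, volume ((fun x : ℝ => (x, y)) ⁻¹'
      {q : ℝ × ℝ | |(q.1 - z0.re) + α * (q.2 - z0.im)| < a ∧ |q.2 - z0.im| < b}) =
      (ball z0.im b).indicator (fun _ => ENNReal.ofReal (2 * a)) y := by
    intro y
    by_cases hy : y ∈ ball z0.im b
    · rw [indicator_of_mem hy]
      have e : ((fun x : ℝ => (x, y)) ⁻¹'
          {q : ℝ × ℝ | |(q.1 - z0.re) + α * (q.2 - z0.im)| < a ∧ |q.2 - z0.im| < b}) =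
          ball (z0.re - α * (y - z0.im)) a := by
        ext x
        rw [mem_ball, Real.dist_eq] at *
        constructor
        · rintro ⟨h, -⟩
          convert h using 2
          ring
        · intro h
          refine ⟨?_, hy⟩
          convert h using 2
          ring
      rw [e, Real.volume_ball]
    · rw [indicator_of_notMem hy]
      have e : ((fun x : ℝ => (x, y)) ⁻¹'
          {q : ℝ × ℝ | |(q.1 - z0.re) + α * (q.2 - z0.im)| < a ∧ |q.2 - z0.im| < b}) = ∅ := by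
        ext x
        simp only [mem_preimage, mem_ofPred_eq, mem_empty_iff_false, iff_false, not_and]
        intro _ h
        exact hy (by rw [mem_ball, Real.dist_eq]; exact h)
      rw [e, measure_empty]
  simp_rw [h2]
  rw [lintegral_indicator measurableSet_ball, setLIntegral_const, Real.volume_ball,
    ← ENNReal.ofReal_mul (by positivity)]
  congr 1
  ring

/-- sheared boxes in the domain of a map. -/
lemma local_area {h : ℂ → E4} {h' : ℂ →L[ℝ] E4} {z0 : ℂ} (hd : HasFDerivAt h h' z0) {X1 : E4}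
    {α β : ℝ} (hβ : 0 < β) (hI : h' Complex.I = α • h' 1 + β • X1) (hX : h' 1 ≠ 0)
    (hX1 : X1 ≠ 0) {N : Set ℂ} (hN : N ∈ 𝓝 z0) :
    ∃ η0 : ℝ, 0 < η0 ∧ ∀ η : ℝ, 0 < η → η < η0 → ∃ P : Set ℂ, MeasurableSet P ∧ P ⊆ N ∧
      (∀ z ∈ P, ‖h z - h z0‖ ≤ 3 * η) ∧
      volume.real P = 4 * η ^ 2 / (β * ‖h' 1‖ * ‖X1‖) := by
  have hX0 : 0 < ‖h' 1‖ := norm_pos_iff.2 hX
  have hX10 : 0 < ‖X1‖ := norm_pos_iff.2 hX1
  set C3 : ℝ := 1 / ‖h' 1‖ + (|α| + 1) / (β * ‖X1‖) with hC3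
  have hC30 : 0 < C3 := by positivity
  have hε : ∀ᶠ z in 𝓝 z0, ‖h z - h z0 - h' (z - z0)‖ ≤ 1 / C3 * ‖z - z0‖ :=
    hd.isLittleO.def (by positivity)
  obtain ⟨ρ, hρ, hρ2⟩ := Metric.eventually_nhds_iff_ball.1 (hε.and (eventually_mem_set.2 hN))
  refine ⟨ρ / C3, by positivity, fun η hη hη2 => ?_⟩
  set a : ℝ := η / ‖h' 1‖ with ha
  set b : ℝ := η / (β * ‖X1‖) with hb
  have ha0 : 0 < a := by positivity
  have hb0 : 0 < b := by positivity
  have hsmall : ∀ z ∈ Pg z0 α a b, ‖z - z0‖ < C3 * η := by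
    rintro z ⟨h1, h2⟩
    have h3 : |(z - z0).re| < a + |α| * b := by
      have h4 : |(z - z0).re| ≤ |(z - z0).re + α * (z - z0).im| + |α| * |(z - z0).im| := by
        have e : (z - z0).re = ((z - z0).re + α * (z - z0).im) - α * (z - z0).im := by ring
        calc |(z - z0).re| = |((z - z0).re + α * (z - z0).im) - α * (z - z0).im| := by rw [← e]
          _ ≤ |(z - z0).re + α * (z - z0).im| + |α * (z - z0).im| := abs_sub _ _
          _ = _ := by rw [abs_mul]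
      have h5 : |α| * |(z - z0).im| ≤ |α| * b := mul_le_mul_of_nonneg_left h2.le (abs_nonneg _)
      linarith
    calc ‖z - z0‖ ≤ |(z - z0).re| + |(z - z0).im| := Complex.norm_le_abs_re_add_abs_im _
      _ < (a + |α| * b) + b := add_lt_add h3 h2
      _ = C3 * η := by rw [ha, hb, hC3]; field_simp; ring
  have hsub : ∀ z ∈ Pg z0 α a b, z ∈ ball z0 ρ := by
    intro z hz
    rw [mem_ball, dist_eq_norm]
    have h1 : C3 * η < C3 * (ρ / C3) := mul_lt_mul_of_pos_left hη2 hC30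
    have h2 : C3 * (ρ / C3) = ρ := by field_simp
    linarith [hsmall z hz]
  refine ⟨Pg z0 α a b, (Pg_open z0 α a b).measurableSet, fun z hz => (hρ2 z (hsub z hz)).2,
    fun z hz => ?_, ?_⟩
  · have h1 := (hρ2 z (hsub z hz)).1
    have h2 : 1 / C3 * ‖z - z0‖ ≤ η := by
      have h3 := mul_le_mul_of_nonneg_left (hsmall z hz).le
        (show (0 : ℝ) ≤ 1 / C3 by positivity)
      have h4 : 1 / C3 * (C3 * η) = η := by field_simp
      linarith
    have h5 : h' (z - z0) = ((z - z0).re + α * (z - z0).im) • h' 1 +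
        ((z - z0).im * β) • X1 := by
      have e : z - z0 = (z - z0).re • (1 : ℂ) + (z - z0).im • Complex.I := by
        apply Complex.ext <;> simp
      conv_lhs => rw [e]
      rw [map_add, map_smul, map_smul, hI]
      module
    have h6 : ‖h' (z - z0)‖ ≤ 2 * η := by
      rw [h5]
      have h7 : |(z - z0).re + α * (z - z0).im| * ‖h' 1‖ ≤ a * ‖h' 1‖ :=
        mul_le_mul_of_nonneg_right hz.1.le hX0.le
      have h8 : |(z - z0).im| * β * ‖X1‖ ≤ b * β * ‖X1‖ := by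
        have := hz.2.le
        gcongr
      have h9 : a * ‖h' 1‖ = η := by rw [ha]; field_simp
      have h10 : b * β * ‖X1‖ = η := by rw [hb]; field_simp
      calc ‖((z - z0).re + α * (z - z0).im) • h' 1 + ((z - z0).im * β) • X1‖
          ≤ ‖((z - z0).re + α * (z - z0).im) • h' 1‖ + ‖((z - z0).im * β) • X1‖ :=
            norm_add_le _ _
        _ = |(z - z0).re + α * (z - z0).im| * ‖h' 1‖ + |(z - z0).im| * β * ‖X1‖ := by
            rw [norm_smul, norm_smul, Real.norm_eq_abs, Real.norm_eq_abs, abs_mul,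
              abs_of_pos hβ]
        _ ≤ 2 * η := by linarith
    calc ‖h z - h z0‖ = ‖(h z - h z0 - h' (z - z0)) + h' (z - z0)‖ := by congr 1; abel
      _ ≤ ‖h z - h z0 - h' (z - z0)‖ + ‖h' (z - z0)‖ := norm_add_le _ _
      _ ≤ 3 * η := by linarith
  · rw [Measure.real, vol_Pg z0 α ha0 hb0, ENNReal.toReal_ofReal (by positivity), ha, hb]
    field_simp

section T2

variable {M : Type u} [MetricSpace M] [CompactSpace M] [ChartedSpace E4 M]
  [IsManifold 𝓘(ℝ, E4) ∞ M] [MeasurableSpace M] [BorelSpace M]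

/-- uniform bounds on the cores of a finite atlas. -/
lemma exists_consts (D : Dat M) (A : FA E4 M) : ∃ cF CJ : ℝ, 0 < cF ∧ 0 < CJ ∧
    ∀ i, ∀ y ∈ A.K i, (∀ v, cF * ‖v‖ ^ 2 ≤ rep (A.c i) D.F y v (repJ (A.c i) D.J y v)) ∧
      ‖repJ (A.c i) D.J y‖ ≤ CJ := by
  have hpos : ∀ i, ∀ y ∈ A.K i, ∀ v, v ≠ 0 →
      0 < rep (A.c i) D.F y v (repJ (A.c i) D.J y v) := by
    intro i y hy v hv
    rw [rep_J_eq_apply (A.K_sub i hy)]
    exact (Int.dat_sposF D _).pos _ (tcc_ne_zero (A.K_sub i hy) hv)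
  choose c hc hcv using fun i => unif_pos_quad
    (Smooth2.continuousOn (Int.dat_smF D) (A.c i)) (SmoothJ.continuousOn D.smJ (A.c i))
    (A.isCompact_K i) (A.K_sub i) (hpos i)
  choose B hB using fun i => (A.isCompact_K i).exists_bound_of_continuousOn
    ((SmoothJ.continuousOn D.smJ (A.c i)).mono (A.K_sub i))
  obtain ⟨c', hc', hc'2⟩ : ∃ c' : ℝ, 0 < c' ∧ ∀ i, c' ≤ c i := by
    rcases isEmpty_or_nonempty (Fin A.n) with h | h
    · exact ⟨1, one_pos, fun i => (h.false i).elim⟩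
    · refine ⟨Finset.univ.inf' Finset.univ_nonempty c, ?_,
        fun i => Finset.inf'_le _ (Finset.mem_univ i)⟩
      rw [Finset.lt_inf'_iff]; exact fun i _ => hc i
  refine ⟨c', 1 + ∑ i, |B i|, hc', ?_, fun i y hy => ⟨fun v => ?_, ?_⟩⟩
  · have : 0 ≤ ∑ i, |B i| := Finset.sum_nonneg fun i _ => abs_nonneg _
    linarith
  · exact (mul_le_mul_of_nonneg_right (hc'2 i) (sq_nonneg _)).trans (hcv i y hy v)
  · have h1 := Finset.single_le_sum (f := fun i => |B i|) (fun i _ => abs_nonneg _)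
      (Finset.mem_univ i)
    have h2 := (hB i y hy).trans (le_abs_self _)
    have h3 : |B i| ≤ ∑ i, |B i| := h1
    linarith

/-- the integral of a multiple of `F` over the torus. -/
lemma int_tor {D : Dat M} {w : Trip M} {f : H2 M} {σ : Ep → M} (hs : JTor w σ f)
    {T : X2 M →ₗ[ℝ] ℝ} {s : Measure M} (hT : T1_195.Cur D T s)
    (hTt : ∀ b : X2 M, T b = torI σ (b.1 : F2 E4 M)) {χ : M → ℝ} (hχ : SmoothF E4 χ) (x y : ℝ) :
    ∫ x, χ x ∂s = ∫ z in Qop x y, χ (ts σ z) * pb (ts σ) (D.F : F2 E4 M) z := by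
  rw [Limt.int_eq hT hχ, hTt, torI_sq hs.emb (Limt.fX D hχ).2 x y]
  rfl

/-- the support of the current of a torus is contained in the torus. -/
lemma sup_tor {D : Dat M} {w : Trip M} {f : H2 M} {σ : Ep → M} (hs : JTor w σ f)
    {T : X2 M →ₗ[ℝ] ℝ} {s : Measure M} (hT : T1_195.Cur D T s)
    (hTt : ∀ b : X2 M, T b = torI σ (b.1 : F2 E4 M)) {x : M} (hx : Sup s x) : x ∈ range σ := by
  by_contra hcon
  have := hT.fin
  obtain ⟨r, hr, hr2⟩ := Metric.isOpen_iff.1 (isClosed_range hs.emb).isOpen_compl x hcon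
  obtain ⟨χ, hχ, hχ0, hχ1, hχe, hχz⟩ := Limt.exists_cut x (r := r / 2) (R := r) (by linarith)
  have h1 : s.real (ball x (r / 2)) ≤ ∫ y, χ y ∂s :=
    Limt.le_int hχ hχ0 measurableSet_ball fun y hy => hχe y (ball_subset_closedBall hy)
  rw [int_tor hs hT hTt hχ 0 0] at h1
  have h2 : ∫ z in Qop 0 0, χ (ts σ z) * pb (ts σ) (D.F : F2 E4 M) z = 0 := by
    refine integral_eq_zero_of_ae (Eventually.of_forall fun z => ?_)
    show χ (ts σ z) * pb (ts σ) (D.F : F2 E4 M) z = 0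
    rw [hχz (ts σ z) fun hz => hr2 hz ⟨E z, rfl⟩, zero_mul]
  rw [h2] at h1
  exact absurd (hx (r / 2) (by linarith)) (not_lt.2 h1)

lemma Qop_sub (z0 : ℂ) : Qop (z0.re - 1 / 2) (z0.im - 1 / 2) ⊆ closedBall z0 1 := by
  rintro z ⟨h1, h2⟩
  rw [mem_closedBall, dist_eq_norm]
  have h3 : |(z - z0).re| ≤ 1 / 2 := by
    rw [Complex.sub_re, abs_le]
    exact ⟨by linarith [h1.1], by linarith [h1.2]⟩
  have h4 : |(z - z0).im| ≤ 1 / 2 := by
    rw [Complex.sub_im, abs_le]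
    exact ⟨by linarith [h2.1], by linarith [h2.2]⟩
  linarith [Complex.norm_le_abs_re_add_abs_im (z - z0)]

/-- **T2**: the uniform lower bound. -/
theorem lb (D : Dat M) {w : Trip M} (hw : Pos3 w) (hJ : IsJ w D.J) :
    ∃ k : ℝ, 0 < k ∧ ∀ (f : H2 M) (σ : Ep → M), JTor w σ f →
      ∀ (T : X2 M →ₗ[ℝ] ℝ) (s : Measure M), T1_195.Cur D T s →
      (∀ b : X2 M, T b = torI σ (b.1 : F2 E4 M)) →
      (∀ y : Ep, ∀ᶠ r in 𝓝[>] (0 : ℝ), k * r ^ 2 ≤ s.real (ball (σ y) r)) ∧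
      ∀ x, Sup s x → x ∈ range σ := by
  obtain ⟨A⟩ := exists_FA (E := E4) (M := M)
  obtain ⟨c, C, δ, hc, hC, hδ, hbl, hcov⟩ := Int.exists_unif D.bl A
  obtain ⟨cF, CJ, hcF, hCJ, hcons⟩ := exists_consts D A
  refine ⟨cF / (18 * C ^ 2 * CJ), by positivity, fun f σ hs T s hT hTt =>
    ⟨fun y => ?_, fun x hx => sup_tor hs hT hTt hx⟩⟩
  have hfin := hT.fin
  -- the point
  obtain ⟨z0, hz0⟩ : ∃ z0 : ℂ, E z0 = y := E.surjective y
  have hx0 : σ y = ts σ z0 := by rw [← hz0]; rfl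
  rw [hx0]
  obtain ⟨i, hi⟩ := hcov (ts σ z0)
  set p := A.c i with hp
  have hsub : ∀ {u}, u ∈ ball (ts σ z0) δ → u ∈ (chartAt E4 p).source := fun hu => (hi hu).1
  have hKi : ∀ {u}, u ∈ ball (ts σ z0) δ → chartAt E4 p u ∈ A.K i := fun hu =>
    interior_subset (hi hu).2
  have hb0 : ts σ z0 ∈ ball (ts σ z0) δ := mem_ball_self hδ
  have hsm := ts_smooth hs.emb z0
  set h : ℂ → E4 := inC p (ts σ) with hh
  have hhd : DifferentiableAt ℝ h z0 :=
    (inC_contDiffAt hsm (hsub hb0)).differentiableAt (by simp)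
  obtain ⟨α, β, hβ, hab⟩ := frame_pos hw hJ hs z0
  set X : E4 := fderiv ℝ h z0 1 with hX
  have hXe : X = tcc (ts σ z0) p (ts σ z0) (dmap (ts σ) z0 1) := fderiv_inC hsm (hsub hb0) 1
  set j := repJ p D.J (chartAt E4 p (ts σ z0)) with hj
  have hYe : fderiv ℝ h z0 Complex.I = α • X + β • j X := by
    have h1 : fderiv ℝ h z0 Complex.I =
        tcc (ts σ z0) p (ts σ z0) (dmap (ts σ) z0 Complex.I) := fderiv_inC hsm (hsub hb0) _
    rw [h1, hab, map_add, map_smul, map_smul, ← hXe, hXe, hj,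
      ← apply_eq_repJ (hsub hb0)]
  have hXne : X ≠ 0 := by
    intro h0
    rw [hXe] at h0
    have h1 : dmap (ts σ) z0 1 = 0 := by
      have h2 := tcc_inj (E := E4) (hsub hb0) (u := dmap (ts σ) z0 1) (v := 0)
        (by rw [h0, map_zero])
      exact h2
    exact one_ne_zero (imm_ts hs.emb z0 1 h1)
  obtain ⟨hq, hjb⟩ := hcons i _ (hKi hb0)
  have hjX : j X ≠ 0 := by
    intro h0
    have h1 := hq X
    rw [← hp, ← hj, h0, map_zero] at h1
    have h2 : 0 < cF * ‖X‖ ^ 2 := by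
      have := norm_pos_iff.2 hXne
      positivity
    linarith
  have hX0 : 0 < ‖X‖ := norm_pos_iff.2 hXne
  have hjX0 : 0 < ‖j X‖ := norm_pos_iff.2 hjX
  -- the density at the centre
  have hFalt : ∀ x, Alt (at2 (D.F : F2 E4 M) x) := (Int.dat_smF D).1
  have hdens : β * (cF * ‖X‖ ^ 2) ≤ pb (ts σ) (D.F : F2 E4 M) z0 := by
    rw [pb_frame hFalt hab, apply_J_eq_rep (hsub hb0), ← hXe]
    exact mul_le_mul_of_nonneg_left (hq X) hβ.le
  have hd0 : 0 < pb (ts σ) (D.F : F2 E4 M) z0 := lt_of_lt_of_le (by positivity) hdens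
  have hnn : ∀ z, 0 ≤ pb (ts σ) (D.F : F2 E4 M) z := by
    intro z
    obtain ⟨α, β, hβ, hab⟩ := frame_pos hw hJ hs z
    rw [pb_frame hFalt hab]
    have hv : dmap (ts σ) z 1 ≠ 0 := fun h0 => one_ne_zero (imm_ts hs.emb z 1 h0)
    exact mul_nonneg hβ.le ((Int.dat_sposF D _).pos _ hv).le
  have hcont : Continuous (pb (ts σ) (D.F : F2 E4 M)) := pb_ts_cont hs.emb (Int.dat_smF D)
  -- the good neighbourhood
  set N : Set ℂ := {z | z ∈ Qop (z0.re - 1 / 2) (z0.im - 1 / 2) ∧ ts σ z ∈ ball (ts σ z0) δ ∧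
    pb (ts σ) (D.F : F2 E4 M) z0 / 2 < pb (ts σ) (D.F : F2 E4 M) z} with hN
  have hNn : N ∈ 𝓝 z0 := by
    have e1 : ∀ᶠ z in 𝓝 z0, z ∈ Qop (z0.re - 1 / 2) (z0.im - 1 / 2) :=
      (Qop_open _ _).mem_nhds ⟨⟨by linarith, by linarith⟩, ⟨by linarith, by linarith⟩⟩
    have e2 : ∀ᶠ z in 𝓝 z0, ts σ z ∈ ball (ts σ z0) δ :=
      hsm.continuousAt.eventually (isOpen_ball.mem_nhds hb0)
    have e3 : ∀ᶠ z in 𝓝 z0, pb (ts σ) (D.F : F2 E4 M) z0 / 2 < pb (ts σ) (D.F : F2 E4 M) z :=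
      hcont.continuousAt.eventually (lt_mem_nhds (by linarith))
    filter_upwards [e1, e2, e3] with z h1 h2 h3
    exact ⟨h1, h2, h3⟩
  obtain ⟨η0, hη0, hP⟩ := local_area hhd.hasFDerivAt hβ hYe hXne hjX hNn
  filter_upwards [Ioo_mem_nhdsGT (show (0 : ℝ) < 6 * C * η0 by positivity)] with r hr
  obtain ⟨P, hPm, hPN, hPh, hPv⟩ := hP (r / (6 * C)) (by have := hr.1; positivity)
    (by rw [div_lt_iff₀ (by positivity)]; linarith [hr.2])
  have hr0 : 0 < r := hr.1
  obtain ⟨χ, hχ, hχ0, hχ1, hχe, hχz⟩ :=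
    Limt.exists_cut (ts σ z0) (r := r / 2) (R := r) (by linarith)
  have h1 : ∫ y, χ y ∂s ≤ s.real (ball (ts σ z0) r) := Limt.int_le hχ hχ1 measurableSet_ball hχz
  rw [int_tor hs hT hTt hχ (z0.re - 1 / 2) (z0.im - 1 / 2)] at h1
  have hcχ : Continuous fun z => χ (ts σ z) :=
    ((smoothF_iff _).2 hχ).continuous.comp
      (continuous_iff_continuousAt.2 fun z => (ts_smooth hs.emb z).continuousAt)
  have hint : IntegrableOn (fun z => χ (ts σ z) * pb (ts σ) (D.F : F2 E4 M) z)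
      (Qop (z0.re - 1 / 2) (z0.im - 1 / 2)) :=
    ((hcχ.mul hcont).continuousOn.integrableOn_compact (isCompact_closedBall z0 1)).mono_set
      (Qop_sub z0)
  have hPQ : P ⊆ Qop (z0.re - 1 / 2) (z0.im - 1 / 2) := fun z hz => (hPN hz).1
  have h2 : ∫ z in P, χ (ts σ z) * pb (ts σ) (D.F : F2 E4 M) z ≤
      ∫ z in Qop (z0.re - 1 / 2) (z0.im - 1 / 2), χ (ts σ z) * pb (ts σ) (D.F : F2 E4 M) z :=
    setIntegral_mono_set hint
      (Eventually.of_forall fun z => mul_nonneg (hχ0 _) (hnn z)) hPQ.eventuallyLE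
  have hPfin : volume P ≠ ⊤ := by
    have h3 : P ⊆ closedBall z0 1 := hPQ.trans (Qop_sub z0)
    exact ((measure_mono h3).trans_lt measure_closedBall_lt_top).ne
  have h3 : ∫ _ in P, pb (ts σ) (D.F : F2 E4 M) z0 / 2 ≤
      ∫ z in P, χ (ts σ z) * pb (ts σ) (D.F : F2 E4 M) z := by
    refine setIntegral_mono_on (integrableOn_const hPfin) (hint.mono_set hPQ) hPm
      fun z hz => ?_
    have h4 : ts σ z ∈ closedBall (ts σ z0) (r / 2) := by
      have h5 := (hbl i _ (hKi (hPN hz).2.1) _ (hKi hb0)).2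
      rw [← hp, (chartAt E4 p).left_inv (hsub (hPN hz).2.1),
        (chartAt E4 p).left_inv (hsub hb0)] at h5
      have h6 : ‖chartAt E4 p (ts σ z) - chartAt E4 p (ts σ z0)‖ ≤ 3 * (r / (6 * C)) :=
        hPh z hz
      rw [mem_closedBall]
      refine h5.trans ((mul_le_mul_of_nonneg_left h6 hC.le).trans (le_of_eq ?_))
      field_simp
      ring
    rw [hχe _ h4, one_mul]
    exact (hPN hz).2.2.le
  rw [setIntegral_const, hPv, smul_eq_mul] at h3
  refine le_trans ?_ (h3.trans (h2.trans h1))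
  have hjle : ‖j X‖ ≤ CJ * ‖X‖ :=
    (ContinuousLinearMap.le_opNorm _ _).trans (mul_le_mul_of_nonneg_right hjb hX0.le)
  have h7 : 4 * (r / (6 * C)) ^ 2 / (β * ‖X‖ * ‖j X‖) * (β * (cF * ‖X‖ ^ 2) / 2) ≤
      4 * (r / (6 * C)) ^ 2 / (β * ‖X‖ * ‖j X‖) * (pb (ts σ) (D.F : F2 E4 M) z0 / 2) := by
    gcongr
  refine le_trans ?_ h7
  have h8 : 4 * (r / (6 * C)) ^ 2 / (β * ‖X‖ * ‖j X‖) * (β * (cF * ‖X‖ ^ 2) / 2) =
      cF * r ^ 2 / (18 * C ^ 2) * (‖X‖ / ‖j X‖) := by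
    field_simp
    ring
  have h9 : 1 / CJ ≤ ‖X‖ / ‖j X‖ := by
    rw [div_le_div_iff₀ hCJ hjX0]
    linarith
  rw [h8]
  calc cF / (18 * C ^ 2 * CJ) * r ^ 2 = cF * r ^ 2 / (18 * C ^ 2) * (1 / CJ) := by
        field_simp
    _ ≤ _ := mul_le_mul_of_nonneg_left h9 (by positivity)

end T2

end

end Crest.Agent.R235.LimtT_129
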