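import Mathlib
import Crest.Agent.R235.ChLC_4
import Crest.Agent.R235.LimtE_225
import Crest.Agent.R235.LimtT_129
import Crest.Agent.R235.CurMon0_311

/-!
Row 235 (S0364), package TOR / SWC, helper225: the chart data `LC` of helper4 with geometry
independent of the current (`CHLCU`), and `limt : LIMT`.
-/

set_option autoImplicit false
set_option maxSynthPendingDepth 3
set_option linter.unusedSectionVars false

open Set Function Filter MeasureTheory Metric
open scoped Manifold ContDiff Topology ENNReal NNReal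

universe u

namespace Crest.Agent.R235.Limt

open Crest.Agent.R240 Crest.Agent.R240.Ch Crest.Agent.R240.En4 Crest.Agent.R240.Pot
  Crest.Agent.R240.Pol Crest.Agent.R240.Vm
  Crest.Agent.R235.T1_195 Crest.Agent.R235.CurDefs_132 Crest.Agent.R235.MkLC_4

noncomputable section

/-- the bounds of the geometry. -/
theorem exists_bounds {J : E4 → E4 →L[ℝ] E4} {F : E4 → Bil} (hB : Bg J F) :
    ∃ m M' L : ℝ, 0 < m ∧ 0 < M' ∧ 1 ≤ L ∧ (∀ y, Bd (J y) (F y) m M') ∧ (∀ y, ‖J y‖ ≤ L) ∧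
      (∀ y, ‖F y‖ ≤ L) ∧ (∀ y, ‖fderiv ℝ J y‖ ≤ L) ∧ (∀ y, ‖fderiv ℝ F y‖ ≤ L) ∧
      (∀ y, ‖fderiv ℝ (fderiv ℝ J) y‖ ≤ L) ∧ (∀ y, ‖fderiv ℝ (fderiv ℝ F) y‖ ≤ L) := by
  obtain ⟨m, M', L0, LJ, w0, c0, σ, hcst⟩ := Crest.Agent.R240.Loc5.exists_cst hB
  obtain ⟨R', J0, F0, hc⟩ := hB.cst
  have hJc : ∀ y, R' ≤ ‖y‖ → J y = J0 := fun y hy => (hc y hy).1
  have hFc : ∀ y, R' ≤ ‖y‖ → F y = F0 := fun y hy => (hc y hy).2
  have hJ1 : ContDiff ℝ ∞ (fderiv ℝ J) := hB.smJ.fderiv_right (by simp)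
  have hF1 : ContDiff ℝ ∞ (fderiv ℝ F) := hB.smF.fderiv_right (by simp)
  have hJ2 : ContDiff ℝ ∞ (fderiv ℝ (fderiv ℝ J)) := hJ1.fderiv_right (by simp)
  have hF2 : ContDiff ℝ ∞ (fderiv ℝ (fderiv ℝ F)) := hF1.fderiv_right (by simp)
  obtain ⟨a1, a10, ha1⟩ := bdd_of_cst hB.smJ.continuous hJc
  obtain ⟨a2, a20, ha2⟩ := bdd_of_cst hB.smF.continuous hFc
  obtain ⟨a3, a30, ha3⟩ := bdd_of_cst hJ1.continuous (fderiv_cst hJc)
  obtain ⟨a4, a40, ha4⟩ := bdd_of_cst hF1.continuous (fderiv_cst hFc)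
  obtain ⟨a5, a50, ha5⟩ := bdd_of_cst hJ2.continuous (fderiv_cst (fderiv_cst hJc))
  obtain ⟨a6, a60, ha6⟩ := bdd_of_cst hF2.continuous (fderiv_cst (fderiv_cst hFc))
  exact ⟨m, M', 1 + a1 + a2 + a3 + a4 + a5 + a6, (hcst.bd 0).m_pos, (hcst.bd 0).M_pos,
    by linarith, hcst.bd, fun y => (ha1 y).trans (by linarith),
    fun y => (ha2 y).trans (by linarith), fun y => (ha3 y).trans (by linarith),
    fun y => (ha4 y).trans (by linarith), fun y => (ha5 y).trans (by linarith),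
    fun y => (ha6 y).trans (by linarith)⟩

theorem chlcu : CHLCU.{u} := by
  intro M _ _ _ _ _ _ _ D hDF p
  classical
  -- `F` is closed
  have hF : D.FX ∈ Z2 M := by
    show Closed2 (D.FX : F2 E4 M)
    have h1 : (D.FX : F2 E4 M) = D.al := hDF
    rw [h1]
    exact D.cl_al
  set x0 : E4 := chartAt E4 p p with hx0
  -- the radius
  obtain ⟨R₀, hR, hR1, hsub⟩ : ∃ R₀ : ℝ, 0 < R₀ ∧ R₀ ≤ 2 ∧
      closedBall x0 (3 * R₀) ⊆ (chartAt E4 p).target := by
    obtain ⟨ε, hε, h⟩ := Metric.isOpen_iff.1 (chartAt E4 p).open_target x0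
      (mem_chart_target E4 p)
    refine ⟨min 2 (ε / 6), lt_min (by norm_num) (by positivity), min_le_left _ _, ?_⟩
    refine (closedBall_subset_ball ?_).trans h
    have : min 2 (ε / 6) ≤ ε / 6 := min_le_right _ _
    linarith
  have h2sub : closedBall x0 (2 * R₀) ⊆ (chartAt E4 p).target :=
    (closedBall_subset_closedBall (by linarith)).trans hsub
  have h2c : IsCompact (closedBall x0 (2 * R₀)) := isCompact_closedBall _ _
  obtain ⟨r, hr, hr1, hr2, hr3⟩ := exists_retr x0 hR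
  have hrU : ∀ y, r y ∈ (chartAt E4 p).target := fun y => hsub (ball_subset_closedBall (hr2 y))
  have hbg := bg_comp (chartAt E4 p).open_target (D.smJ p) ((Pol.smF D).2 p)
    (fun y hy v => repJ_sq D.sq hy v) (fun y hy => spos_rep (sposF D) hy) hr hrU hr3
  obtain ⟨m, M', L, hm, hM', hL1, hbd, b1, b2, b3, b4, b5, b6⟩ := exists_bounds hbg
  set K : Set E4 := closedBall x0 (2 * R₀) with hK
  have hKm : MeasurableSet K := isClosed_closedBall.measurableSet
  obtain ⟨c, C, hc, hC, h1, -⟩ := bilip_core D.bl h2c h2sub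
  refine ⟨m, M', L, R₀ / 2, fun Cg => Cg * (2 * c⁻¹) ^ 2, hm, hM', by positivity, ?_, ?_⟩
  · have : 4 * (R₀ / 2) = 2 * R₀ := by ring
    rw [this]
    exact h2sub
  intro Φ s hΦ Cg hCg hCgr
  have hfin := hΦ.fin
  obtain ⟨φ, hφm, hφp, hφn, ⟨Cφ, hCφ⟩, hform⟩ :=
    ChDens.chartDens D Φ s hΦ.inv hΦ.nonneg hΦ.rm p x0 R₀ hR hsub
  set φ' : E4 → Bil := fun y => if y ∈ K then φ y else rep p D.F (r y) with hφ'
  have hφK : ∀ y ∈ K, φ' y = φ y := fun y hy => by simp only [hφ', if_pos hy]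
  have hd : Dens (fun y => repJ p D.J (r y)) (fun y => rep p D.F (r y)) φ' := by
    refine ⟨?_, ?_, ?_⟩
    · exact Measurable.ite hKm hφm hbg.smF.continuous.measurable
    · intro y
      by_cases hy : y ∈ K
      · rw [hφK y hy, hr1 y hy]
        exact hφp y hy
      · simp only [hφ', if_neg hy]
        have h := hbg.pos y
        exact ⟨h.alt, h.inv, fun v => by
          by_cases hv : v = 0
          · simp [hv]
          · exact (h.pos v hv).le⟩
    · intro y
      by_cases hy : y ∈ K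
      · rw [hφK y hy, hr1 y hy]
        exact hφn y hy
      · simp only [hφ', if_neg hy]
        exact q_self_of_spos (hbg.sq y) (hbg.pos y)
  have hae : ∀ᵐ y ∂(chMeas p K s), y ∈ K := by
    rw [ae_iff]
    exact chMeas_compl h2c h2sub s
  -- growth
  have hs : ∀ x r, 0 < r → s (ball x r) ≤ ENNReal.ofReal (Cg * r ^ 2) := by
    intro x r hr
    rw [← ENNReal.ofReal_toReal (measure_ne_top s (ball x r))]
    exact ENNReal.ofReal_le_ofReal (hCgr x r hr)
  have hgr : ∀ y r, 0 < r → (chMeas p K s).real (ball y r) ≤ Cg * (2 * c⁻¹) ^ 2 * r ^ 2 := by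
    intro y r hr
    refine ENNReal.toReal_le_of_le_ofReal (by positivity) ?_
    exact map_ball_le (core_meas h2c h2sub) (aemeas_chart h2c h2sub s) hc h1 hs y r hr
  -- closedness
  have hclos : ClosedIn (fun y => rep p D.F (r y)) (chMeas p K s) φ'
      (ball x0 (4 * (R₀ / 2))) := by
    intro S hS hSc hSs
    have hSs : tsupport S ⊆ ball x0 (2 * R₀) := by
      have : 4 * (R₀ / 2) = 2 * R₀ := by ring
      rwa [this] at hSs
    have hSt : tsupport S ⊆ (chartAt E4 p).target :=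
      (hSs.trans ball_subset_closedBall).trans h2sub
    have hS0 : ∀ y, y ∉ tsupport S → S y = 0 := fun y hy => image_eq_zero_of_notMem_tsupport hy
    have hsm : Smooth1 (ext1 p S) := Pol.smooth1_ext1 hSc.isCompact hSt hS hS0
    have hrep1 : ∀ y ∈ (chartAt E4 p).target, rep1 p (ext1 p S) y = S y :=
      fun y hy => Pol.rep1_ext1_self hy S
    have hz := hΦ.closed ⟨dG (ext1 p S), Smooth2.dG hsm⟩
      ⟨ext1 p S, hsm, fun q y hy => rep_dG hsm hy⟩
    rw [hform _ (by
      intro x hx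
      apply dG_zero_of_off hSc.isCompact hSt (fun x hx => Pol.at1_ext1_zero hS0 hx)
      intro h
      apply hx
      obtain ⟨y, hy, rfl⟩ := h
      exact ⟨y, ball_subset_closedBall (hSs hy), rfl⟩)] at hz
    have hSm : Measurable (En.d1 S) := by
      have h1 : Continuous (fderiv ℝ S) := hS.continuous_fderiv (by simp)
      have h2 : Continuous fun y => fderiv ℝ S y - (fderiv ℝ S y).flip :=
        h1.sub ((ContinuousLinearMap.flipₗᵢ ℝ E4 E4 ℝ).continuous.comp h1)
      exact h2.measurable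
    have e1 : ∫ y, q (rep p D.F (r y)) (φ' y) (En.d1 S y) ∂(chMeas p K s) =
        ∫ y, q (rep p D.F y) (φ y) (En.d1 S y) ∂(chMeas p K s) := by
      apply integral_congr_ae
      filter_upwards [hae] with y hy
      simp only [hφK y hy, hr1 y hy]
    rw [e1, integral_chMeas h2c h2sub s (aesm_integrand (Pol.smF D) hR hsub s hφm hSm), ← hz]
    apply setIntegral_congr_fun (core_meas h2c h2sub)
    intro x hx
    have hy := h2sub (chart_core_mem h2sub hx)
    simp only
    rw [rep_eq_d1 hsm hrep1 hy]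
  have hCl : ∀ y ∈ ball x0 (4 * (R₀ / 2)), En.Cl (fun y => rep p D.F (r y)) y := by
    intro y hy
    have hy : y ∈ ball x0 (2 * R₀) := by
      have : 4 * (R₀ / 2) = 2 * R₀ := by ring
      rwa [this] at hy
    refine En.Cl_congr (c := rep p D.F) ?_ ?_
    · filter_upwards [isOpen_ball.mem_nhds hy] with z hz
      rw [hr1 z (ball_subset_closedBall hz)]
    · exact MonoM.cl_of_closed (Pol.smF D) hF (h2sub (ball_subset_closedBall hy))
  obtain ⟨E, hLJ, hLF, hLx, hLR, hLs, hLφ, hLC⟩ := MkLC_4.mkLC hbg hd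
    (by positivity : (0 : ℝ) ≤ Cg * (2 * c⁻¹) ^ 2) hgr
    (half_pos hR) (by linarith) hclos hCl
  have hJe : ∀ y, E.J y = repJ p D.J (r y) := fun y => by rw [hLJ]
  have hFe : ∀ y, E.F y = rep p D.F (r y) := fun y => by rw [hLF]
  refine ⟨{ E with
      m := m, M := M', L := L
      bd := fun y => by rw [hJe, hFe]; exact hbd y
      bJ := fun y => by rw [hLJ]; exact b1 y
      bF := fun y => by rw [hLF]; exact b2 y
      bJ1 := fun y => by rw [hLJ]; exact b3 y
      bF1 := fun y => by rw [hLF]; exact b4 y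
      bJ2 := fun y => by rw [hLJ]; exact b5 y
      bF2 := fun y => by rw [hLF]; exact b6 y
      L_ge := hL1 }, rfl, rfl, rfl, hLR, hLC, hLx, ?_⟩
  intro A hA hAs
  show E.s A = _
  have hAK : A ⊆ K := by
    refine hAs.trans ?_
    show ball E.x0 _ ⊆ _
    rw [hLx]
    have : 4 * (R₀ / 2) = 2 * R₀ := by ring
    rw [this]
    exact ball_subset_closedBall
  rw [hLs]
  unfold chMeas
  rw [Measure.map_apply_of_aemeasurable (aemeas_chart h2c h2sub s) hA,
    Measure.restrict_apply' (core_meas h2c h2sub)]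
  congr 1
  ext x
  constructor
  · rintro ⟨hx1, hx2⟩
    exact ⟨chartAt E4 p x, hx1, (chartAt E4 p).left_inv (core_sub h2sub hx2)⟩
  · rintro ⟨y, hy, rfl⟩
    refine ⟨?_, ⟨y, hAK hy, rfl⟩⟩
    show chartAt E4 p ((chartAt E4 p).symm y) ∈ A
    rw [(chartAt E4 p).right_inv (h2sub (hAK hy))]
    exact hy

theorem torcur : TORCUR.{u} := fun _ _ _ _ _ _ _ _ _ hw hJ _ _ hσ =>
  LimtT_129.torcur hw hJ hσ

theorem lb : LB.{u} := fun _ _ _ _ _ _ _ _ D _ hw hJ => LimtT_129.lb D hw hJ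

/-- **LIMT.** -/
theorem limt : Swc.LIMT.{u} := limt_of chlcu CurMon0_311.mon0 torcur lb

end

end Crest.Agent.R235.Limt
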