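import Mathlib
import Crest.Agent.R235.ChLC_4

/-!
Row 235 (S0364), PACKAGE CUR, node CHSIU (helper4): densities in the chart and on `M`;
closedness of `h(Θ) S` in a chart.
-/

set_option autoImplicit false
set_option maxSynthPendingDepth 3
set_option linter.unusedSectionVars false

open Set Function Filter MeasureTheory Metric
open scoped Manifold ContDiff Topology ENNReal NNReal

namespace Crest.Agent.R235.ChLC_4

open Crest.Agent.R240 Crest.Agent.R240.Ch Crest.Agent.R240.En4 Crest.Agent.R240.Pot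
  Crest.Agent.R240.Pol Crest.Agent.R240.Vm
  Crest.Agent.R235.T1_195 Crest.Agent.R235.CurDens_4 Crest.Agent.R235.AtomsC_4
  Crest.Agent.R235.CurDefs_132 Crest.Agent.R235.DenM_4

noncomputable section

variable {M : Type*} [MetricSpace M] [CompactSpace M] [ChartedSpace E4 M]
    [IsManifold 𝓘(ℝ, E4) ∞ M] [MeasurableSpace M] [BorelSpace M]

/-- the density in the chart and the density on `M`. -/
theorem den_chart (D : Dat M) (s : Measure M) [IsFiniteMeasure s] {p x : M}
    (hx : x ∈ (chartAt E4 p).source) {x0 : E4} {ρ : ℝ}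
    (hsub : closedBall x0 ρ ⊆ (chartAt E4 p).target) (hy : chartAt E4 p x ∈ ball x0 ρ) {θ : ℝ} :
    IsDenE (gm (repJ p D.J (chartAt E4 p x)) (rep p D.F (chartAt E4 p x)))
      (chMeas p (closedBall x0 ρ) s) (chartAt E4 p x) θ ↔
    Tendsto (fun r => s.real (ell D x r) / (Real.pi * r ^ 2)) (𝓝[>] 0) (𝓝 θ) := by
  rw [← den_indep D hx s]
  have hK : IsCompact (closedBall x0 ρ) := isCompact_closedBall _ _
  have hi : x ∈ interior (core p (closedBall x0 ρ)) := by
    refine interior_core hsub hx ?_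
    exact mem_interior.2 ⟨ball x0 ρ, ball_subset_closedBall, isOpen_ball, hy⟩
  obtain ⟨δ, hδ, hδs⟩ := Metric.isOpen_iff.1 isOpen_interior x hi
  obtain ⟨c, r0, hc, hr0, hsm⟩ := exists_ellP_bd D hx
  unfold IsDenE
  refine tendsto_congr' ?_
  filter_upwards [ev_ball hc hr0 hδ] with r hr
  congr 1
  have h1 : ellP D p x r ⊆ core p (closedBall x0 ρ) :=
    (hsm r hr.1 hr.2.1).trans ((ball_subset_ball hr.2.2).trans (hδs.trans interior_subset))
  have hm : MeasurableSet {z : E4 | gm (repJ p D.J (chartAt E4 p x)) (rep p D.F (chartAt E4 p x))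
      (z - chartAt E4 p x) (z - chartAt E4 p x) < r ^ 2} := by
    refine (isOpen_lt ?_ continuous_const).measurableSet
    exact (continuous_gp D p x).comp (continuous_id.sub continuous_const)
  unfold Measure.real chMeas
  rw [Measure.map_apply_of_aemeasurable (aemeas_chart hK hsub s) hm,
    Measure.restrict_apply' (core_meas hK hsub)]
  congr 2
  ext z
  constructor
  · rintro ⟨h2, h3⟩
    exact ⟨core_sub hsub h3, h2⟩
  · intro h
    exact ⟨h.2, h1 h⟩

theorem ChRep.finS {D : Dat M} {s : Measure M} {τ : F2 E4 M} {p : M} {x0 : E4} {R₀ : ℝ}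
    {L : LC} (_h : ChRep D s τ p x0 R₀ L) : IsFiniteMeasure L.s := L.fin

/-- the density of the local datum. -/
theorem ChRep.den {D : Dat M} {s : Measure M} [IsFiniteMeasure s] {τ : F2 E4 M} {p : M} {x0 : E4}
    {R₀ : ℝ} {L : LC} (h : ChRep D s τ p x0 R₀ L) (hR : 0 < R₀)
    (hsub : closedBall x0 (3 * R₀) ⊆ (chartAt E4 p).target) {x : M}
    (hx : x ∈ (chartAt E4 p).source) (hy : chartAt E4 p x ∈ ball x0 (2 * R₀)) {θ : ℝ} :
    IsDenE (L.G (chartAt E4 p x)) L.s (chartAt E4 p x) θ ↔
    Tendsto (fun r => s.real (ell D x r) / (Real.pi * r ^ 2)) (𝓝[>] 0) (𝓝 θ) := by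
  have h2sub : closedBall x0 (2 * R₀) ⊆ (chartAt E4 p).target :=
    (closedBall_subset_closedBall (by linarith)).trans hsub
  rw [← den_chart D s hx h2sub hy, h.s_eq]
  unfold LC.G
  rw [h.J_eq _ (ball_subset_closedBall hy), h.F_eq _ (ball_subset_closedBall hy)]

/-- integrals over `L.s` as integrals on `M`. -/
theorem ChRep.integral {D : Dat M} {s : Measure M} [IsFiniteMeasure s] {τ : F2 E4 M} {p : M}
    {x0 : E4} {R₀ : ℝ} {L : LC} (h : ChRep D s τ p x0 R₀ L) (hR : 0 < R₀)
    (hsub : closedBall x0 (3 * R₀) ⊆ (chartAt E4 p).target) {w : E4 → ℝ} (hw : Measurable w)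
    (b : X2 M) (hb : ∀ x, x ∉ core p (closedBall x0 (2 * R₀)) → at2 (b : F2 E4 M) x = 0)
    {β : E4 → Bil} (hβ : Measurable β)
    (hβb : ∀ y ∈ closedBall x0 (2 * R₀), β y = rep p (b : F2 E4 M) y) :
    ∫ y, w y * q (L.F y) (L.φ y) (β y) ∂L.s =
      ∫ x in core p (closedBall x0 (2 * R₀)),
        w (chartAt E4 p x) * qG D.F τ (b : F2 E4 M) x ∂s := by
  have h2sub : closedBall x0 (2 * R₀) ⊆ (chartAt E4 p).target :=
    (closedBall_subset_closedBall (by linarith)).trans hsub
  have h2c : IsCompact (closedBall x0 (2 * R₀)) := isCompact_closedBall _ _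
  have hm : Measurable fun y => w y * q (L.F y) (L.φ y) (β y) :=
    hw.mul (measurable_q L.smF.continuous.measurable L.meas hβ)
  rw [h.s_eq, integral_chMeas h2c h2sub s hm.aestronglyMeasurable]
  refine setIntegral_congr_ae (core_meas h2c h2sub) ?_
  filter_upwards [h.int b hb] with x hx hxA
  have hy := chart_core_mem h2sub hxA
  rw [hx hxA, h.F_eq _ hy, hβb _ hy]

end

end Crest.Agent.R235.ChLC_4
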