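import Mathlib
import Crest.Agent.R235.ChSiu_4

/-!
Row 235 (S0364), PACKAGE CUR, nodes CHSIU, SIUM (helper4): Siu in a chart, and the gluing.
-/

set_option autoImplicit false
set_option maxSynthPendingDepth 3
set_option linter.unusedSectionVars false

open Set Function Filter MeasureTheory Metric
open scoped Manifold ContDiff Topology ENNReal NNReal

namespace Crest.Agent.R235.ChLC_4

open Crest.Agent.R240 Crest.Agent.R240.Ch Crest.Agent.R240.En4 Crest.Agent.R240.Pot
  Crest.Agent.R240.Pol Crest.Agent.R240.Vm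
  Crest.Agent.R235.T1_195 Crest.Agent.R235.CurDens_4 Crest.Agent.R235.AtomsC_4
  Crest.Agent.R235.CurDefs_132 Crest.Agent.R235.DenM_4

noncomputable section

/-- partition of unity in balls of radius at most `2`. -/
theorem exists_ballPU_le (M : Type*) [TopologicalSpace M] [T2Space M] [CompactSpace M]
    [ChartedSpace E4 M] [IsManifold 𝓘(ℝ, E4) ∞ M] : ∃ P : BallPU M, ∀ i, P.R i ≤ 2 := by
  classical
  have h1 : ∀ x : M, ∃ R : ℝ, 0 < R ∧ R ≤ 2 ∧ closedBall (chartAt E4 x x) (3 * R) ⊆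
      (chartAt E4 x).target := by
    intro x
    obtain ⟨ε, hε, h⟩ := Metric.isOpen_iff.1 (chartAt E4 x).open_target (chartAt E4 x x)
      (mem_chart_target E4 x)
    refine ⟨min (ε / 6) 2, by positivity, min_le_right _ _, ?_⟩
    refine (closedBall_subset_ball ?_).trans h
    have := min_le_left (ε / 6) 2
    linarith
  choose R hR hR2 hRs using h1
  let U : M → Set M := fun x => (chartAt E4 x).symm '' ball (chartAt E4 x x) (R x)
  have hsub : ∀ x, ball (chartAt E4 x x) (R x) ⊆ (chartAt E4 x).target := fun x =>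
    (ball_subset_closedBall.trans (closedBall_subset_closedBall (by linarith [hR x]))).trans
      (hRs x)
  have hU : ∀ x, IsOpen (U x) := fun x =>
    (chartAt E4 x).isOpen_image_symm_of_subset_target isOpen_ball (hsub x)
  have hxU : ∀ x, x ∈ U x := fun x =>
    ⟨chartAt E4 x x, mem_ball_self (hR x), (chartAt E4 x).left_inv (mem_chart_source E4 x)⟩
  obtain ⟨f, hf⟩ := SmoothPartitionOfUnity.exists_isSubordinate 𝓘(ℝ, E4)
    (isClosed_univ (X := M)) U hU (fun x _ => mem_iUnion.2 ⟨x, hxU x⟩)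
  have hfin : {i | (support (f i)).Nonempty}.Finite :=
    f.locallyFinite.finite_nonempty_of_compact
  have hts : ∀ i, tsupport (f i) ⊆ (chartAt E4 i).source := by
    intro i x hx
    obtain ⟨y, hy, rfl⟩ := hf i hx
    exact symm_mem (hsub i hy)
  refine ⟨⟨hfin.toFinset, fun x => chartAt E4 x x, R, fun i => chartAt E4 i '' tsupport (f i),
    fun i => f i, hR, hRs, ?_, ?_, ?_, ?_, ?_⟩, hR2⟩
  · intro i
    exact ((isClosed_tsupport (f i)).isCompact).image_of_continuousOn
      ((chartAt E4 i).continuousOn.mono (hts i))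
  · rintro i _ ⟨x, hx, rfl⟩
    obtain ⟨y, hy, rfl⟩ := hf i hx
    rwa [(chartAt E4 i).right_inv (hsub i hy)]
  · intro i
    exact (smoothF_iff _).1 (f i).contMDiff
  · intro i x hx
    by_contra hne
    apply hx
    have hxt : x ∈ tsupport (f i) := subset_tsupport _ hne
    exact ⟨chartAt E4 i x, ⟨x, hxt, rfl⟩, (chartAt E4 i).left_inv (hts i hxt)⟩
  · intro x
    have h2 := f.sum_eq_one (mem_univ x)
    rw [finsum_eq_sum_of_support_subset] at h2
    · exact h2
    · intro p hp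
      rw [Set.Finite.coe_toFinset]
      exact ⟨x, hp⟩

/-- the open piece of index `i`. -/
def pc {M : Type*} [TopologicalSpace M] [ChartedSpace E4 M] [IsManifold 𝓘(ℝ, E4) ∞ M]
    (P : BallPU M) (i : M) : Set M :=
  {x | x ∈ (chartAt E4 i).source ∧ chartAt E4 i x ∈ ball (P.x0 i) (P.R i)}

theorem pc_cover {M : Type*} [TopologicalSpace M] [ChartedSpace E4 M]
    [IsManifold 𝓘(ℝ, E4) ∞ M] (P : BallPU M) (x : M) : ∃ i ∈ P.t, x ∈ pc P i := by
  by_contra hcon
  push Not at hcon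
  have h1 : ∀ i ∈ P.t, P.χ i x = 0 := by
    intro i hi
    apply P.off
    rintro ⟨y, hy, rfl⟩
    apply hcon i hi
    have hyt : y ∈ (chartAt E4 i).target :=
      P.sub i (ball_subset_closedBall (ball_subset_ball (by linarith [P.R_pos i]) (P.K_sub i hy)))
    refine ⟨symm_mem hyt, ?_⟩
    rw [(chartAt E4 i).right_inv hyt]
    exact P.K_sub i hy
  have h2 := P.sum_one x
  rw [Finset.sum_eq_zero h1] at h2
  exact zero_ne_one h2

theorem isOpen_pc {M : Type*} [TopologicalSpace M] [ChartedSpace E4 M]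
    [IsManifold 𝓘(ℝ, E4) ∞ M] (P : BallPU M) (i : M) : IsOpen (pc P i) :=
  (chartAt E4 i).isOpen_inter_preimage isOpen_ball

variable {M : Type*} [MetricSpace M] [CompactSpace M] [ChartedSpace E4 M]
    [IsManifold 𝓘(ℝ, E4) ∞ M] [MeasurableSpace M] [BorelSpace M]

theorem meas_pre {p : M} {U : Set M} (hU : IsOpen U) (hUs : U ⊆ (chartAt E4 p).source)
    {S : Set E4} (hS : MeasurableSet S) : MeasurableSet (U ∩ chartAt E4 p ⁻¹' S) := by
  have h1 : Measurable (U.domRestrict (chartAt E4 p)) :=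
    ((chartAt E4 p).continuousOn.mono hUs).domRestrict.measurable
  have h2 : U ∩ chartAt E4 p ⁻¹' S = Subtype.val '' (U.domRestrict (chartAt E4 p) ⁻¹' S) := by
    ext x
    simp only [mem_inter_iff, mem_preimage, mem_image, Subtype.exists, exists_and_right,
      exists_eq_right, domRestrict_apply]
    constructor
    · rintro ⟨h, h'⟩
      exact ⟨h, h'⟩
    · rintro ⟨h, h'⟩
      exact ⟨h, h'⟩
  rw [h2]
  exact hU.measurableSet.subtype_image (h1 hS)

/-- **CHSIU**: Siu in a chart ball. -/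
theorem chSiu (hS : SIUL) (D : Dat M) (hF : D.FX ∈ Z2 M) {Φ : X2 M →ₗ[ℝ] ℝ} {s : Measure M}
    (hΦ : Cur D Φ s) {τ : F2 E4 M} (hτ : Den D Φ s τ) {p : M} {x0 : E4} {R₀ : ℝ} (hR : 0 < R₀)
    (hR1 : R₀ ≤ 2) (hsub : closedBall x0 (3 * R₀) ⊆ (chartAt E4 p).target) :
    ∃ Θ : E4 → ℝ, Measurable Θ ∧ (∃ C, ∀ y, 0 ≤ Θ y ∧ Θ y ≤ C) ∧
      (∀ x ∈ (chartAt E4 p).source, chartAt E4 p x ∈ ball x0 R₀ →
        Tendsto (fun r => s.real (ell D x r) / (Real.pi * r ^ 2)) (𝓝[>] 0)
          (𝓝 (Θ (chartAt E4 p x)))) ∧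
      ∀ h : ℝ → ℝ, Measurable h → (∃ B, ∀ t, |h t| ≤ B) → ∀ (s1 : F1 E4 M) (hs1 : Smooth1 s1)
        (K' : Set E4), IsCompact K' → K' ⊆ ball x0 R₀ →
        (∀ x, x ∉ (chartAt E4 p).symm '' K' → at1 s1 x = 0) →
        ∫ x in core p (closedBall x0 (2 * R₀)), h (Θ (chartAt E4 p x)) *
          qG D.F τ (dG s1) x ∂s = 0 := by
  have hfin := hΦ.fin
  obtain ⟨L, hL⟩ := exists_chRep D hF hΦ hτ hR hR1 hsub
  have h2sub : closedBall x0 (2 * R₀) ⊆ (chartAt E4 p).target :=
    (closedBall_subset_closedBall (by linarith)).trans hsub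
  have hRR : 2 * L.R = R₀ := by rw [hL.R_eq]; ring
  obtain ⟨Θ, hΘm, hΘb, hΘd, hΘc⟩ := hS L
  refine ⟨Θ, hΘm, hΘb, fun x hx hy => ?_, fun h hh hhb s1 hs1 K' hK' hK'R h0 => ?_⟩
  · have h1 := hΘd (chartAt E4 p x) (by rw [hL.x0_eq, hRR]; exact hy)
    exact (hL.den hR hsub hx (ball_subset_ball (by linarith) hy)).1 h1
  · have hKt : K' ⊆ (chartAt E4 p).target :=
      (hK'R.trans (ball_subset_closedBall.trans (closedBall_subset_closedBall (by linarith)))).trans
        h2sub
    obtain ⟨σ, hσ, hσK, hσr⟩ := exists_test hK' hKt hs1 h0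
    have hσc : HasCompactSupport σ := hK'.of_isClosed_subset (isClosed_tsupport σ) hσK
    have h1 := hΘc h hh hhb σ hσ hσc (by rw [hL.x0_eq, hRR]; exact hσK.trans hK'R)
    have hσm : Measurable (En.d1 σ) := by
      have h1 : Continuous (fderiv ℝ σ) := hσ.continuous_fderiv (by simp)
      have h2 : Continuous fun y => fderiv ℝ σ y - (fderiv ℝ σ y).flip :=
        h1.sub ((ContinuousLinearMap.flipₗᵢ ℝ E4 E4 ℝ).continuous.comp h1)
      exact h2.measurable
    rw [hL.integral hR hsub (w := fun y => h (Θ y)) (hh.comp hΘm) ⟨dG s1, Smooth2.dG hs1⟩ (by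
      intro x hx
      apply dG_zero_of_off hK' hKt h0
      intro h
      apply hx
      obtain ⟨y, hy, rfl⟩ := h
      exact ⟨y, ball_subset_closedBall (ball_subset_ball (by linarith) (hK'R hy)), rfl⟩) hσm
      (fun y hy => (rep_eq_d1 hs1 hσr (h2sub hy)).symm)] at h1
    exact h1

/-- **SIUM**, with the density field. -/
theorem sium0 (hS : SIUL) (D : Dat M) (hF : D.FX ∈ Z2 M) {Φ : X2 M →ₗ[ℝ] ℝ} {s : Measure M}
    [IsFiniteMeasure s] (hΦ : Cur D Φ s) {τ : F2 E4 M} (hτ : Den D Φ s τ) :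
    ∃ Θ : M → ℝ, Measurable Θ ∧ (∃ C : ℝ, ∀ x, 0 ≤ Θ x ∧ Θ x ≤ C) ∧
      (∀ x, Tendsto (fun r => s.real (ell D x r) / (Real.pi * r ^ 2)) (𝓝[>] 0) (𝓝 (Θ x))) ∧
      ∀ A : Set ℝ, MeasurableSet A → Dat.KillsExact (hτ.dn.restrict (Θ ⁻¹' A)).cur := by
  classical
  obtain ⟨P, hP⟩ := exists_ballPU_le M
  have h1 : ∀ i : M, _ := fun i => chSiu hS D hF hΦ hτ (P.R_pos i) (hP i) (P.sub i)
  choose θ hθm hθb hθd hθc using h1
  choose C hC using hθb
  choose j hj hjp using pc_cover P
  have hlim : ∀ x, Tendsto (fun r => s.real (ell D x r) / (Real.pi * r ^ 2)) (𝓝[>] 0)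
      (𝓝 (θ (j x) (chartAt E4 (j x) x))) := fun x =>
    hθd (j x) x (hjp x).1 (hjp x).2
  set Θ : M → ℝ := fun x => θ (j x) (chartAt E4 (j x) x) with hΘ
  have hloc : ∀ i, ∀ x ∈ pc P i, Θ x = θ i (chartAt E4 i x) := fun i x hx =>
    tendsto_nhds_unique (hlim x) (hθd i x hx.1 hx.2)
  have hΘm : Measurable Θ := by
    intro B hB
    have h2 : Θ ⁻¹' B = ⋃ i ∈ P.t, pc P i ∩ chartAt E4 i ⁻¹' (θ i ⁻¹' B) := by
      ext x
      simp only [mem_iUnion, mem_inter_iff, mem_preimage, exists_prop]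
      constructor
      · intro hx
        exact ⟨j x, hj x, hjp x, hx⟩
      · rintro ⟨i, -, hxi, hx⟩
        rwa [hloc i x hxi]
    rw [h2]
    exact MeasurableSet.biUnion P.t.countable_toSet fun i _ =>
      meas_pre (isOpen_pc P i) (fun x hx => hx.1) (hθm i hB)
  refine ⟨Θ, hΘm, ⟨∑ i ∈ P.t, |C i|, fun x => ⟨(hC (j x) _).1, ?_⟩⟩, hlim, fun A hA => ?_⟩
  · refine ((hC (j x) _).2.trans (le_abs_self _)).trans ?_
    exact Finset.single_le_sum (f := fun i => |C i|) (fun i _ => abs_nonneg _) (hj x)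
  · intro b hb
    obtain ⟨S, hS1, hbS⟩ := hb
    have hSi : ∀ i, Smooth1 (fmul1 (P.χ i) S) := fun i => Smooth1.fmul (P.smooth i) hS1
    have hbe : b.1 = ∑ i ∈ P.t, dG (fmul1 (P.χ i) S) := by
      rw [eq_dG hS1 hbS, ← dG_sum P.t _ (fun i _ => hSi i), sum_pieces P S]
    have hsum : b = ∑ i ∈ P.t, (⟨dG (fmul1 (P.χ i) S), Smooth2.dG (hSi i)⟩ : X2 M) := by
      apply Subtype.ext
      rw [hbe, Submodule.coe_sum]
    rw [hsum, map_sum]
    apply Finset.sum_eq_zero
    intro i _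
    have h0 : ∀ x, x ∉ (chartAt E4 i).symm '' P.K i → at1 (fmul1 (P.χ i) S) x = 0 := by
      intro x hx
      have h1 : P.χ i x = 0 := P.off i x hx
      change P.χ i x • at1 S x = 0
      rw [h1, zero_smul]
    have hRi := P.R_pos i
    have h2sub : closedBall (P.x0 i) (2 * P.R i) ⊆ (chartAt E4 i).target :=
      (closedBall_subset_closedBall (by linarith)).trans (P.sub i)
    have hKt : P.K i ⊆ (chartAt E4 i).target :=
      ((P.K_sub i).trans (ball_subset_closedBall.trans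
        (closedBall_subset_closedBall (by linarith)))).trans h2sub
    have hoff : ∀ x, x ∉ (chartAt E4 i).symm '' P.K i →
        qG D.F τ (dG (fmul1 (P.χ i) S)) x = 0 := by
      intro x hx
      unfold qG
      rw [dG_zero_of_off (P.K_cpt i) hKt h0 hx]
      simp [q, W, ent]
    have hAm := core_meas (isCompact_closedBall (P.x0 i) (2 * P.R i)) h2sub
    have h3 := hθc i (A.indicator fun _ => 1) (measurable_const.indicator hA)
      ⟨1, fun t => by
        by_cases ht : t ∈ A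
        · rw [indicator_of_mem ht, abs_one]
        · rw [indicator_of_notMem ht, abs_zero]; exact zero_le_one⟩ _ (hSi i) (P.K i) (P.K_cpt i)
      (P.K_sub i) h0
    rw [Dn.cur_apply, ← h3, ← integral_indicator (hΘm hA), ← integral_indicator hAm]
    congr 1
    funext x
    by_cases hx : x ∈ (chartAt E4 i).symm '' P.K i
    · obtain ⟨y, hy, rfl⟩ := hx
      have hyt := hKt hy
      have hxp : (chartAt E4 i).symm y ∈ pc P i := by
        refine ⟨symm_mem hyt, ?_⟩
        rw [(chartAt E4 i).right_inv hyt]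
        exact P.K_sub i hy
      have hxc : (chartAt E4 i).symm y ∈ core i (closedBall (P.x0 i) (2 * P.R i)) :=
        ⟨y, ball_subset_closedBall (ball_subset_ball (by linarith) (P.K_sub i hy)), rfl⟩
      have hl := hloc i _ hxp
      rw [indicator_of_mem hxc]
      by_cases hA' : Θ ((chartAt E4 i).symm y) ∈ A
      · rw [indicator_of_mem (show (chartAt E4 i).symm y ∈ Θ ⁻¹' A from hA'),
          indicator_of_mem (by rw [← hl]; exact hA'), one_mul]
      · rw [indicator_of_notMem (show (chartAt E4 i).symm y ∉ Θ ⁻¹' A from hA'),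
          indicator_of_notMem (by rw [← hl]; exact hA'), zero_mul]
    · have h4 := hoff x hx
      have h5 : (Θ ⁻¹' A).indicator (qG D.F τ (dG (fmul1 (P.χ i) S))) x = 0 := by
        by_cases h6 : x ∈ Θ ⁻¹' A
        · rw [indicator_of_mem h6, h4]
        · rw [indicator_of_notMem h6]
      have h7 : (core i (closedBall (P.x0 i) (2 * P.R i))).indicator
          (fun x => A.indicator (fun _ => (1 : ℝ)) (θ i (chartAt E4 i x)) *
            qG D.F τ (dG (fmul1 (P.χ i) S)) x) x = 0 := by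
        by_cases h6 : x ∈ core i (closedBall (P.x0 i) (2 * P.R i))
        · rw [indicator_of_mem h6, h4, mul_zero]
        · rw [indicator_of_notMem h6]
      exact h5.trans h7.symm

end

end Crest.Agent.R235.ChLC_4
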