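import Crest.Agent.R235.RegC1_522
import Crest.Agent.R235.CurvesProps_489

/-!
Row 235, PACKAGE REG, node REGC (helper522): `CHLCD` (local data at every point of `M`, helper4)
and `REGLOC` ⟹ `Curves_489.REGC`.
-/

set_option autoImplicit false
set_option maxSynthPendingDepth 3

open MeasureTheory Metric Set Filter
open scoped ContDiff Topology Manifold

universe u

namespace Crest.Agent.R235.RegC_522

open Crest.Agent.R240 Crest.Agent.R240.Ch Crest.Agent.R235.T1_195
open Crest.Agent.R235.Reg_522 Crest.Agent.R235.CurDefs_132 Crest.Agent.R235.Curves_489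

noncomputable section

/-- **CHLCD** (producer helper4): a closed positive current of density one almost everywhere is
given, near every point, by local data of density one. -/
def CHLCD : Prop :=
  ∀ (M : Type u) [MetricSpace M] [CompactSpace M] [ChartedSpace E4 M]
    [IsManifold 𝓘(ℝ, E4) ∞ M] [MeasurableSpace M] [BorelSpace M] (D : Dat M), AK D →
    ∀ (C : X2 M →ₗ[ℝ] ℝ) (s : Measure M), Cur D C s → (∀ᵐ x ∂s, IsDen D s x 1) →
    ∀ p : M, ∃ D' : LC, LCRep D.J C p D' ∧ Den1 D'

/-- **REGC.** -/
theorem regc (hC : CHLCD.{u}) (hR : REGLOC.{u}) : REGC.{u} := by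
  intro M _ _ _ _ _ _ D hAK C s hcur hden p
  obtain ⟨L, hL⟩ := hR M D.J D.smJ D.sq C (hC M D hAK C s hcur hden) p
  have h : suppC C = msupp s := RegC1_522.suppC_eq hcur
  rw [← h]
  exact ⟨L, hL⟩

end

end Crest.Agent.R235.RegC_522
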