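import Mathlib
import Crest.Agent.R235.ChSiuB_4
import Crest.Agent.R235.CurvesProps_489

/-!
Row 235 (S0364), PACKAGE CUR, node SIUM (helper4): Siu on `M` from the local theorem `SIUL`.
-/

set_option autoImplicit false
set_option maxSynthPendingDepth 3
set_option linter.unusedSectionVars false

open Set Function Filter MeasureTheory Metric
open scoped Manifold ContDiff Topology ENNReal NNReal

universe u

namespace Crest.Agent.R235.SiuM_4

open Crest.Agent.R240 Crest.Agent.R240.Ch Crest.Agent.R240.En4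
  Crest.Agent.R235.T1_195 Crest.Agent.R235.CurDens_4 Crest.Agent.R235.AtomsC_4
  Crest.Agent.R235.CurDefs_132 Crest.Agent.R235.DenM_4 Crest.Agent.R235.ChLC_4
  Crest.Agent.R235.Curves_489

noncomputable section

section

variable {M : Type u} [MetricSpace M] [CompactSpace M] [ChartedSpace E4 M]
    [IsManifold 𝓘(ℝ, E4) ∞ M] [MeasurableSpace M] [BorelSpace M]

theorem F_eq_al {D : Dat M} (h : AK D) : D.F = D.al := by
  funext x
  exact invp_of_inv (h x)

theorem FX_mem {D : Dat M} (h : AK D) : D.FX ∈ Z2 M := by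
  show Closed2 D.F
  rw [F_eq_al h]
  exact D.cl_al

theorem gball_eq (D : Dat M) (x : M) (r : ℝ) : gball D x r = ell D x r := rfl

/-- `IsDen` in terms of the kernel density `nuR`. -/
theorem isDen_iff (D : Dat M) (s : Measure M) (x : M) (θ : ℝ) :
    IsDen D s x θ ↔ Tendsto (fun r => nuR (kM D) s r x) (𝓝[>] 0) (𝓝 θ) := by
  unfold IsDen
  simp only [nuR_kM, gball_eq]

theorem isNu_iff (D : Dat M) (s : Measure M) (ν : M → ℝ) :
    IsNu (kM D) s ν ↔ ∀ x, IsDen D s x (ν x) := by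
  unfold IsNu
  simp only [isDen_iff]

end

/-- **SIUM**. -/
theorem sium_of (hS : SIUL) : SIUM.{u} := by
  intro M _ _ _ _ _ _ D hAK Φ s hΦ
  have hfin := hΦ.fin
  obtain ⟨τ, hτ⟩ := cur_exists_den hΦ
  obtain ⟨Θ, hΘm, hΘb, hΘd, hΘc⟩ := sium0 hS D (FX_mem hAK) hΦ hτ
  refine ⟨Θ, fun A => (hτ.dn.restrict (Θ ⁻¹' A)).cur, hΘm, hΘb, hΘd, fun A hA =>
    (hτ.dn.restrict _).toCur (hΘc A hA), ?_, fun A B hA hB hAB => ?_⟩
  · ext b
    rw [Dn.cur_apply, preimage_univ, Measure.restrict_univ, hτ.rep]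
  · ext b
    show (hτ.dn.restrict (Θ ⁻¹' (A ∪ B))).cur b =
      (hτ.dn.restrict (Θ ⁻¹' A)).cur b + (hτ.dn.restrict (Θ ⁻¹' B)).cur b
    rw [Dn.cur_apply, Dn.cur_apply, Dn.cur_apply, preimage_union]
    exact setIntegral_union (hAB.preimage Θ) (hΘm hB) (hτ.dn.integrable b).integrableOn
      (hτ.dn.integrable b).integrableOn

end

end Crest.Agent.R235.SiuM_4
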