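import Mathlib
import Crest.Agent.R235.SiuM_4
import Crest.Agent.R235.RegC_522

/-!
Row 235 (S0364), PACKAGE CUR/REG, node CHLCD (helper4): local data at every point of `M` for a
closed positive current of density one.
-/

set_option autoImplicit false
set_option maxSynthPendingDepth 3
set_option linter.unusedSectionVars false

open Set Function Filter MeasureTheory Metric
open scoped Manifold ContDiff Topology ENNReal NNReal

universe u

namespace Crest.Agent.R235.Chlcd_4

open Crest.Agent.R240 Crest.Agent.R240.Ch Crest.Agent.R240.En4 Crest.Agent.R240.Pol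
  Crest.Agent.R235.T1_195 Crest.Agent.R235.CurDens_4 Crest.Agent.R235.AtomsC_4
  Crest.Agent.R235.CurDefs_132 Crest.Agent.R235.DenM_4 Crest.Agent.R235.ChLC_4
  Crest.Agent.R235.Curves_489 Crest.Agent.R235.Reg_522

noncomputable section

theorem meas_on {X Y : Type*} [TopologicalSpace X] [MeasurableSpace X] [BorelSpace X]
    [TopologicalSpace Y] [MeasurableSpace Y] [BorelSpace Y] {f : X → Y} {U : Set X}
    (hU : MeasurableSet U) (hf : ContinuousOn f U) {S : Set Y} (hS : MeasurableSet S) :
    MeasurableSet (U ∩ f ⁻¹' S) := by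
  have h1 : Measurable (U.domRestrict f) := hf.domRestrict.measurable
  have h2 : U ∩ f ⁻¹' S = Subtype.val '' (U.domRestrict f ⁻¹' S) := by
    ext x
    simp only [mem_inter_iff, mem_preimage, mem_image, Subtype.exists, exists_and_right,
      exists_eq_right, domRestrict_apply]
    constructor
    · rintro ⟨h, h'⟩
      exact ⟨h, h'⟩
    · rintro ⟨h, h'⟩
      exact ⟨h, h'⟩
  rw [h2]
  exact hU.subtype_image (h1 hS)

variable {M : Type u} [MetricSpace M] [CompactSpace M] [ChartedSpace E4 M]
    [IsManifold 𝓘(ℝ, E4) ∞ M] [MeasurableSpace M] [BorelSpace M]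

/-- null sets in the chart. -/
theorem ae_chMeas {p : M} {K : Set E4} (hK : IsCompact K) (hKt : K ⊆ (chartAt E4 p).target)
    {s : Measure M} {P : M → Prop} (h : ∀ᵐ x ∂s, P x) :
    ∀ᵐ y ∂(chMeas p K s), P ((chartAt E4 p).symm y) := by
  rw [ae_iff] at h
  set N := toMeasurable s {x | ¬ P x} with hN
  have hNm : MeasurableSet N := measurableSet_toMeasurable _ _
  have hN0 : s N = 0 := by rw [hN, measure_toMeasurable, h]
  have hNs : {x | ¬ P x} ⊆ N := subset_toMeasurable _ _
  have hBm : MeasurableSet (K ∩ (chartAt E4 p).symm ⁻¹' N) :=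
    meas_on hK.measurableSet ((chartAt E4 p).continuousOn_symm.mono hKt) hNm
  have hcm := core_meas hK hKt
  have h1 : chMeas p K s (K ∩ (chartAt E4 p).symm ⁻¹' N) = 0 := by
    unfold chMeas
    rw [Measure.map_apply_of_aemeasurable (aemeas_chart hK hKt s) hBm,
      Measure.restrict_apply' hcm]
    refine measure_mono_null ?_ hN0
    rintro x ⟨⟨-, h2⟩, h3⟩
    have h4 : (chartAt E4 p).symm (chartAt E4 p x) ∈ N := h2
    rwa [(chartAt E4 p).left_inv (core_sub hKt h3)] at h4
  rw [ae_iff]
  have h2 : {y | ¬ P ((chartAt E4 p).symm y)} ⊆ Kᶜ ∪ (K ∩ (chartAt E4 p).symm ⁻¹' N) := by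
    intro y hy
    by_cases hyK : y ∈ K
    · exact Or.inr ⟨hyK, hNs hy⟩
    · exact Or.inl hyK
  exact measure_mono_null h2 (measure_union_null (chMeas_compl hK hKt s) h1)

/-- local data of a closed positive current near a point, for an arbitrary density. -/
theorem exists_lcRep {D : Dat M} (hAK : AK D) {C : X2 M →ₗ[ℝ] ℝ} {s : Measure M}
    (hC : Cur D C s) (p : M) : ∃ (D' : LC) (R₀ : ℝ) (τ : F2 E4 M), 0 < R₀ ∧ R₀ ≤ 2 ∧
      closedBall (chartAt E4 p p) (3 * R₀) ⊆ (chartAt E4 p).target ∧ Den D C s τ ∧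
      ChRep D s τ p (chartAt E4 p p) R₀ D' ∧ LCRep D.J C p D' := by
  classical
  have hfin := hC.fin
  obtain ⟨τ, hτ⟩ := cur_exists_den hC
  obtain ⟨ε, hε, hεs⟩ := Metric.isOpen_iff.1 (chartAt E4 p).open_target (chartAt E4 p p)
    (mem_chart_target E4 p)
  set R₀ : ℝ := min (ε / 6) 2 with hR₀
  have hR : 0 < R₀ := by positivity
  have hR2 : R₀ ≤ 2 := min_le_right _ _
  have hsub : closedBall (chartAt E4 p p) (3 * R₀) ⊆ (chartAt E4 p).target := by
    refine (closedBall_subset_ball ?_).trans hεs
    have := min_le_left (ε / 6) 2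
    linarith
  obtain ⟨L, hL⟩ := exists_chRep D (SiuM_4.FX_mem hAK) hC hτ hR hR2 hsub
  have h2sub : closedBall (chartAt E4 p p) (2 * R₀) ⊆ (chartAt E4 p).target :=
    (closedBall_subset_closedBall (by linarith)).trans hsub
  have h4 : 4 * L.R = 2 * R₀ := by rw [hL.R_eq]; ring
  have h3 : 3 * L.R = 3 / 2 * R₀ := by rw [hL.R_eq]; ring
  refine ⟨L, R₀, τ, hR, hR2, hsub, hτ, hL, hL.x0_eq, ?_, ?_, ?_⟩
  · rw [hL.x0_eq, h4]
    exact ball_subset_closedBall.trans h2sub
  · intro y hy
    rw [hL.x0_eq, h4] at hy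
    exact hL.J_eq y (ball_subset_closedBall hy)
  · rintro b ⟨Q, hQs, hQ, hQb⟩
    rw [hL.x0_eq, h3] at hQs ⊢
    have hQ2 : Q ⊆ closedBall (chartAt E4 p p) (2 * R₀) :=
      hQs.trans (ball_subset_closedBall.trans (closedBall_subset_closedBall (by linarith)))
    set B : Set E4 := ball (chartAt E4 p p) (3 / 2 * R₀) with hB
    have hBt : B ⊆ (chartAt E4 p).target :=
      ball_subset_closedBall.trans ((closedBall_subset_closedBall (by linarith)).trans h2sub)
    have hβ : Measurable (B.indicator (rep p (b : F2 E4 M))) := by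
      rw [← piecewise_eq_indicator]
      exact ContinuousOn.measurable_piecewise ((b.2.2 p).continuousOn.mono hBt)
        continuousOn_const measurableSet_ball
    have hβb : ∀ y ∈ closedBall (chartAt E4 p p) (2 * R₀),
        B.indicator (rep p (b : F2 E4 M)) y = rep p (b : F2 E4 M) y := by
      intro y hy
      by_cases hyB : y ∈ B
      · rw [indicator_of_mem hyB]
      · rw [indicator_of_notMem hyB]
        have h5 : at2 (b : F2 E4 M) ((chartAt E4 p).symm y) = 0 := by
          apply hQb
          rintro ⟨z, hz, hzy⟩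
          have : z = y := (chartAt E4 p).symm.injOn (h2sub (hQ2 hz)) (h2sub hy) hzy
          exact hyB (hQs (this ▸ hz))
        ext u v
        rw [rep_apply, h5]
        rfl
    have hboff : ∀ x, x ∉ core p (closedBall (chartAt E4 p p) (2 * R₀)) →
        at2 (b : F2 E4 M) x = 0 := by
      intro x hx
      apply hQb
      rintro ⟨z, hz, rfl⟩
      exact hx ⟨z, hQ2 hz, rfl⟩
    have h6 := hL.integral hR hsub (w := fun _ => 1) measurable_const b hboff hβ hβb
    simp only [one_mul] at h6
    have h7 : ∫ y, q (L.F y) (L.φ y) (B.indicator (rep p (b : F2 E4 M)) y) ∂L.s =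
        ∫ y in B, q (L.F y) (L.φ y) (rep p (b : F2 E4 M) y) ∂L.s := by
      rw [← integral_indicator measurableSet_ball]
      congr 1
      funext y
      by_cases hyB : y ∈ B
      · rw [indicator_of_mem hyB, indicator_of_mem hyB]
      · rw [indicator_of_notMem hyB, indicator_of_notMem hyB]
        simp [q, W, ent]
    rw [← h7, h6, hτ.rep, ← integral_indicator (core_meas (isCompact_closedBall _ _) h2sub)]
    congr 1
    funext x
    by_cases hx : x ∈ core p (closedBall (chartAt E4 p p) (2 * R₀))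
    · rw [indicator_of_mem hx]
    · rw [indicator_of_notMem hx]
      unfold qG
      rw [hboff x hx]
      simp [q, W, ent]

/-- **CHLCD**. -/
theorem chlcd : RegC_522.CHLCD.{u} := by
  intro M _ _ _ _ _ _ D hAK C s hC hden p
  have hfin := hC.fin
  obtain ⟨L, R₀, τ, hR, hR2, hsub, hτ, hL, hrep⟩ := exists_lcRep hAK hC p
  refine ⟨L, hrep, ?_⟩
  have h2sub : closedBall (chartAt E4 p p) (2 * R₀) ⊆ (chartAt E4 p).target :=
    (closedBall_subset_closedBall (by linarith)).trans hsub
  have h1 := ae_chMeas (p := p) (isCompact_closedBall (chartAt E4 p p) (2 * R₀)) h2sub hden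
  unfold Den1
  rw [← hL.s_eq] at h1
  filter_upwards [h1] with y hy hyB
  have hyB' : y ∈ ball (chartAt E4 p p) (2 * R₀) := by
    rw [hL.x0_eq, hL.R_eq] at hyB
    exact ball_subset_ball (by linarith) hyB
  have hyt : y ∈ (chartAt E4 p).target := h2sub (ball_subset_closedBall hyB')
  have h2 := (hL.den hR hsub (symm_mem hyt) (by rw [(chartAt E4 p).right_inv hyt]; exact hyB')
    (θ := 1)).2 hy
  rwa [(chartAt E4 p).right_inv hyt] at h2

end

end Crest.Agent.R235.Chlcd_4
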