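import Crest.Agent.R249.C2c_198

/-!
Row 235 (S0364), block FAM / RC, leaf RC7 (helper723), part 1: the alternating sum of four Clifford
multiplications in dimension four.

* `dd C x`  : `∑ x_k C_k`;
* `alt4 D D'` : `∑_σ sgn σ D_{σ0} D'_{σ1} D_{σ2} D'_{σ3}`;
* `alt4_dd` : `alt4 (dd C x_i) (dd C' x_i) = det x • alt4 C C'`;
* `alt4_cK0`, `alt4_cK1` : for the symbol `cK` : `24`, `-24`.
-/

set_option autoImplicit false
set_option linter.unusedSectionVars false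

open Matrix

namespace Crest.Agent.R235.RC7_723

section ml

variable {ι0 ι1 : Type*} [Fintype ι0] [Fintype ι1]

/-- the symbol at a vector. -/
def dd {m n : Type*} (C : Fin 4 → Matrix m n ℝ) (x : Fin 4 → ℝ) : Matrix m n ℝ := ∑ k, x k • C k

theorem dd_add {m n : Type*} (C : Fin 4 → Matrix m n ℝ) (x y : Fin 4 → ℝ) :
    dd C (x + y) = dd C x + dd C y := by
  unfold dd
  rw [← Finset.sum_add_distrib]
  exact Finset.sum_congr rfl fun k _ => add_smul _ _ _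

theorem dd_smul {m n : Type*} (C : Fin 4 → Matrix m n ℝ) (r : ℝ) (x : Fin 4 → ℝ) :
    dd C (r • x) = r • dd C x := by
  unfold dd
  rw [Finset.smul_sum]
  exact Finset.sum_congr rfl fun k _ => mul_smul _ _ _

theorem dd_single {m n : Type*} (C : Fin 4 → Matrix m n ℝ) (i : Fin 4) :
    dd C (Pi.single i 1) = C i := by
  unfold dd
  rw [Finset.sum_eq_single i]
  · simp
  · intro j _ hj
    simp [hj]
  · intro h
    exact absurd (Finset.mem_univ _) h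

/-- the alternating sum. -/
def alt4 (D : Fin 4 → Matrix ι0 ι1 ℝ) (D' : Fin 4 → Matrix ι1 ι0 ℝ) : Matrix ι0 ι0 ℝ :=
  ∑ σ : Equiv.Perm (Fin 4), ((Equiv.Perm.sign σ : ℤ) : ℝ) •
    (D (σ 0) * D' (σ 1) * D (σ 2) * D' (σ 3))

/-- one entry of the product as a multilinear map. -/
def ml (C : Fin 4 → Matrix ι0 ι1 ℝ) (C' : Fin 4 → Matrix ι1 ι0 ℝ) (a b : ι0) :
    MultilinearMap ℝ (fun _ : Fin 4 => Fin 4 → ℝ) ℝ where
  toFun v := (dd C (v 0) * dd C' (v 1) * dd C (v 2) * dd C' (v 3)) a b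
  map_update_add' := by
    intro inst v i x y
    obtain rfl : inst = instDecidableEqFin 4 := Subsingleton.elim _ _
    fin_cases i <;>
      simp [dd_add, Matrix.add_mul, Matrix.mul_add, Matrix.add_apply]
  map_update_smul' := by
    intro inst v i r x
    obtain rfl : inst = instDecidableEqFin 4 := Subsingleton.elim _ _
    fin_cases i <;>
      simp [dd_smul, Matrix.smul_mul, Matrix.mul_smul, Matrix.smul_apply]

theorem ml_apply (C : Fin 4 → Matrix ι0 ι1 ℝ) (C' : Fin 4 → Matrix ι1 ι0 ℝ) (a b : ι0)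
    (v : Fin 4 → Fin 4 → ℝ) :
    ml C C' a b v = (dd C (v 0) * dd C' (v 1) * dd C (v 2) * dd C' (v 3)) a b := rfl

theorem alt_ml (C : Fin 4 → Matrix ι0 ι1 ℝ) (C' : Fin 4 → Matrix ι1 ι0 ℝ) (a b : ι0)
    (x : Fin 4 → Fin 4 → ℝ) :
    MultilinearMap.alternatization (ml C C' a b) x =
      alt4 (fun i => dd C (x i)) (fun i => dd C' (x i)) a b := by
  rw [MultilinearMap.alternatization_apply, alt4, Matrix.sum_apply]
  refine Finset.sum_congr rfl fun σ _ => ?_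
  rw [MultilinearMap.domDomCongr_apply, ml_apply, Matrix.smul_apply, smul_eq_mul,
    Units.smul_def, zsmul_eq_mul]

/-- **the alternating sum is a determinant**. -/
theorem alt4_dd (C : Fin 4 → Matrix ι0 ι1 ℝ) (C' : Fin 4 → Matrix ι1 ι0 ℝ)
    (x : Fin 4 → Fin 4 → ℝ) :
    alt4 (fun i => dd C (x i)) (fun i => dd C' (x i)) = (Matrix.of x).det • alt4 C C' := by
  ext a b
  rw [← alt_ml, AlternatingMap.eq_smul_basis_det (Pi.basisFun ℝ (Fin 4))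
    (MultilinearMap.alternatization (ml C C' a b)), AlternatingMap.smul_apply, alt_ml,
    Matrix.smul_apply, smul_eq_mul, smul_eq_mul, mul_comm]
  congr 1
  · rw [Pi.basisFun_det]
    rfl
  · congr 2
    · funext i
      rw [Pi.basisFun_apply, dd_single]
    · funext i
      rw [Pi.basisFun_apply, dd_single]

end ml

section num

open Crest.Agent.R249.C2_198

/-- the symbol as integer matrices. -/
def cZ : Fin 4 → Matrix (Fin 4) (Fin 4) ℤ :=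
  ![!![1, 0, 0, 0; 0, -1, 0, 0; 0, 0, -1, 0; 0, 0, 0, -1],
    !![0, 1, 0, 0; 1, 0, 0, 0; 0, 0, 0, 1; 0, 0, -1, 0],
    !![0, 0, 1, 0; 0, 0, 0, -1; 1, 0, 0, 0; 0, 1, 0, 0],
    !![0, 0, 0, 1; 0, 0, 1, 0; 0, -1, 0, 0; 1, 0, 0, 0]]

theorem cK_cZ (i : Fin 4) : cK ℝ i = (cZ i).map (Int.cast : ℤ → ℝ) := by
  rw [cK_eq]
  ext a b
  fin_cases i <;> fin_cases a <;> fin_cases b <;> simp [cZ]

theorem num0 : ∀ σ : Equiv.Perm (Fin 4), (Equiv.Perm.sign σ : ℤ) •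
    ((cZ (σ 0))ᵀ * cZ (σ 1) * (cZ (σ 2))ᵀ * cZ (σ 3)) = 1 := by decide +kernel

theorem num1 : ∀ σ : Equiv.Perm (Fin 4), (Equiv.Perm.sign σ : ℤ) •
    (cZ (σ 0) * (cZ (σ 1))ᵀ * cZ (σ 2) * (cZ (σ 3))ᵀ) = -1 := by decide +kernel

theorem map_mul4 (A B C D : Matrix (Fin 4) (Fin 4) ℤ) :
    (A * B * C * D).map (Int.cast : ℤ → ℝ) = A.map (Int.cast : ℤ → ℝ) * B.map (Int.cast : ℤ → ℝ) *
      C.map (Int.cast : ℤ → ℝ) * D.map (Int.cast : ℤ → ℝ) := by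
  have h : ∀ A B : Matrix (Fin 4) (Fin 4) ℤ, (A * B).map (Int.cast : ℤ → ℝ) =
      A.map (Int.cast : ℤ → ℝ) * B.map (Int.cast : ℤ → ℝ) := by
    intro A B
    ext i j
    simp [Matrix.mul_apply]
  rw [h, h, h]

theorem alt4_cK0 : alt4 (fun i => (cK ℝ i)ᵀ) (fun i => cK ℝ i) =
    (24 : ℝ) • (1 : Matrix (Fin 4) (Fin 4) ℝ) := by
  unfold alt4
  have h : ∀ σ : Equiv.Perm (Fin 4), ((Equiv.Perm.sign σ : ℤ) : ℝ) •
      ((cK ℝ (σ 0))ᵀ * cK ℝ (σ 1) * (cK ℝ (σ 2))ᵀ * cK ℝ (σ 3)) =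
      (1 : Matrix (Fin 4) (Fin 4) ℝ) := by
    intro σ
    have h1 := congrArg (fun A : Matrix (Fin 4) (Fin 4) ℤ => A.map (Int.cast : ℤ → ℝ)) (num0 σ)
    simp only [cK_cZ, ← Matrix.transpose_map, ← map_mul4]
    ext i j
    have h2 := congrFun (congrFun h1 i) j
    simp only [Matrix.map_apply, Matrix.smul_apply, smul_eq_mul, Int.cast_mul] at h2 ⊢
    rw [h2]
    simp [Matrix.one_apply]
  rw [Finset.sum_congr rfl fun σ _ => h σ, Finset.sum_const, Finset.card_univ,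
    Fintype.card_perm, Fintype.card_fin, ← Nat.cast_smul_eq_nsmul ℝ]
  norm_num [Nat.factorial]

theorem alt4_cK1 : alt4 (fun i => cK ℝ i) (fun i => (cK ℝ i)ᵀ) =
    (-24 : ℝ) • (1 : Matrix (Fin 4) (Fin 4) ℝ) := by
  unfold alt4
  have h : ∀ σ : Equiv.Perm (Fin 4), ((Equiv.Perm.sign σ : ℤ) : ℝ) •
      (cK ℝ (σ 0) * (cK ℝ (σ 1))ᵀ * cK ℝ (σ 2) * (cK ℝ (σ 3))ᵀ) =
      (-1 : Matrix (Fin 4) (Fin 4) ℝ) := by
    intro σ
    have h1 := congrArg (fun A : Matrix (Fin 4) (Fin 4) ℤ => A.map (Int.cast : ℤ → ℝ)) (num1 σ)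
    simp only [cK_cZ, ← Matrix.transpose_map, ← map_mul4]
    ext i j
    have h2 := congrFun (congrFun h1 i) j
    simp only [Matrix.map_apply, Matrix.smul_apply, smul_eq_mul, Int.cast_mul] at h2 ⊢
    rw [h2]
    simp [Matrix.one_apply, Matrix.neg_apply]
  rw [Finset.sum_congr rfl fun σ _ => h σ, Finset.sum_const, Finset.card_univ,
    Fintype.card_perm, Fintype.card_fin, ← Nat.cast_smul_eq_nsmul ℝ]
  norm_num [Nat.factorial]

end num

/-! ### conjugation by frames -/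

section conj

variable {ι0 ι1 κ0 κ1 : Type*} [Fintype ι0] [Fintype ι1] [Fintype κ0] [Fintype κ1]
  [DecidableEq ι0] [DecidableEq ι1]

theorem alt4_conj {j0 : Matrix κ0 ι0 ℝ} {j1 : Matrix κ1 ι1 ℝ} (h0 : j0ᵀ * j0 = 1)
    (h1 : j1ᵀ * j1 = 1) (D : Fin 4 → Matrix ι0 ι1 ℝ) (D' : Fin 4 → Matrix ι1 ι0 ℝ) :
    alt4 (fun i => j0 * D i * j1ᵀ) (fun i => j1 * D' i * j0ᵀ) = j0 * alt4 D D' * j0ᵀ := by
  have e1 : ∀ (A : Matrix ι0 ι1 ℝ) (B : Matrix ι1 ι0 ℝ),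
      (j0 * A * j1ᵀ) * (j1 * B * j0ᵀ) = j0 * (A * B) * j0ᵀ := by
    intro A B
    calc (j0 * A * j1ᵀ) * (j1 * B * j0ᵀ) = j0 * (A * ((j1ᵀ * j1) * B)) * j0ᵀ := by
          simp only [Matrix.mul_assoc]
      _ = j0 * (A * B) * j0ᵀ := by rw [h1, Matrix.one_mul]
  have e2 : ∀ (A B : Matrix ι0 ι0 ℝ), (j0 * A * j0ᵀ) * (j0 * B * j0ᵀ) = j0 * (A * B) * j0ᵀ := by
    intro A B
    calc (j0 * A * j0ᵀ) * (j0 * B * j0ᵀ) = j0 * (A * ((j0ᵀ * j0) * B)) * j0ᵀ := by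
          simp only [Matrix.mul_assoc]
      _ = j0 * (A * B) * j0ᵀ := by rw [h0, Matrix.one_mul]
  unfold alt4
  rw [Matrix.mul_sum, Matrix.sum_mul]
  refine Finset.sum_congr rfl fun σ _ => ?_
  rw [Matrix.mul_assoc (j0 * D (σ 0) * j1ᵀ * (j1 * D' (σ 1) * j0ᵀ)), e1, e1, e2,
    Matrix.mul_smul, Matrix.smul_mul]
  simp only [Matrix.mul_assoc]

end conj

end Crest.Agent.R235.RC7_723
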