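import Mathlib
import Crest.Agent.R235.Top_837
import Crest.Agent.R235.HZLat_524
import Crest.Agent.R235.T1A_195

/-!
Row 235 (S0364), helper900: CLS, every positive closed current has a class.
-/

set_option autoImplicit false
set_option maxSynthPendingDepth 3

open Set Function Filter MeasureTheory Metric
open scoped Manifold ContDiff Topology ENNReal

universe u

namespace Crest.Agent.R235.Cls_900

open Crest.Agent.R240 Crest.Agent.R240.Ch Crest.Agent.R240.En4 Crest.Agent.R235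
  Crest.Agent.R235.T1_195 Crest.Agent.R235.T1A_195

noncomputable section

/-- abstract form: a functional which is a pointwise limit of represented ones is represented. -/
theorem rep_of_limit {V : Type*} [AddCommGroup V] [Module ℝ V] [Module.Finite ℝ V]
    (B : V →ₗ[ℝ] V →ₗ[ℝ] ℝ) (f : V →ₗ[ℝ] ℝ) {ι : Type*} {l : Filter ι} [l.NeBot] (s : ι → V)
    (h : ∀ v, Tendsto (fun i => B (s i) v) l (𝓝 (f v))) : ∃ c : V, ∀ v, f v = B c v := by
  let b := Module.finBasis ℝ V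
  let φ : V →ₗ[ℝ] (Fin (Module.finrank ℝ V) → ℝ) := LinearMap.pi fun i => B.flip (b i)
  have hφ : ∀ c i, φ c i = B c (b i) := fun c i => rfl
  have hcl : IsClosed ((LinearMap.range φ : Submodule ℝ _) : Set (Fin (Module.finrank ℝ V) → ℝ)) :=
    Submodule.closed_of_finiteDimensional _
  have hlim : Tendsto (fun i => φ (s i)) l (𝓝 fun i => f (b i)) := by
    rw [tendsto_pi_nhds]
    intro i
    exact h (b i)
  have hmem : (fun i => f (b i)) ∈
      ((LinearMap.range φ : Submodule ℝ _) : Set (Fin (Module.finrank ℝ V) → ℝ)) :=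
    hcl.mem_of_tendsto hlim (Eventually.of_forall fun i => ⟨s i, rfl⟩)
  obtain ⟨c, hc⟩ := hmem
  refine ⟨c, fun v => ?_⟩
  have h1 : f = B c := by
    refine b.ext fun i => ?_
    have h2 := congrFun hc i
    rw [← h2, hφ]
  rw [h1]

section

variable {M : Type u} [MetricSpace M] [CompactSpace M] [ChartedSpace E4 M]
    [IsManifold 𝓘(ℝ, E4) ∞ M] [MeasurableSpace M] [BorelSpace M]

theorem cls_aux (hb : Met.BiLip E4 M) {w : Trip M} {J : EndF E4 M} (hJ : IsJ w J)
    {Φ : X2 M →ₗ[ℝ] ℝ} (hΦ : PCur J Φ) : ∃ s : H2 M, ∀ b : Z2 M, Φ b.1 = ip (w 0) s (cls b) := by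
  obtain ⟨D, hD⟩ := exists_bridge hb hJ
  obtain ⟨s, hs⟩ := hD.exists_cur hΦ
  obtain ⟨𝒰⟩ := Int.node_COV D
  obtain ⟨S⟩ := D.n8 𝒰
  obtain ⟨K, hK, hS⟩ := smoothing S
  have hfinite : Module.Finite ℝ (H2 M) := by
    obtain ⟨G⟩ := nonempty_rgc (M := M)
    exact HZLat_524.finite_H2 G
  -- the functional on `H2`
  have hker : B2 M ≤ LinearMap.ker (Φ.comp (Z2 M).subtype) := by
    intro b hb
    rw [LinearMap.mem_ker]
    exact hΦ.closed b.1 hb
  let f : H2 M →ₗ[ℝ] ℝ := (B2 M).liftQ (Φ.comp (Z2 M).subtype) hker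
  have hf : ∀ b : Z2 M, f (cls b) = Φ b.1 := fun b => rfl
  -- the smoothings
  have hex : ∀ e : ℝ, ∃ η : Z2 M, 0 < e → e ≤ S.e0 →
      ∀ b : X2 M, Φ (S.A e S.one b) = D.I (η.1 : F2 E4 M) (b : F2 E4 M) := by
    intro e
    by_cases he : 0 < e ∧ e ≤ S.e0
    · obtain ⟨η, g, h⟩ := hS Φ s hs e he.1 he.2
      exact ⟨⟨η, h.closed⟩, fun _ _ => h.rep⟩
    · exact ⟨0, fun h1 h2 => absurd ⟨h1, h2⟩ he⟩
  choose η hη using hex
  have hV := hD.vol
  obtain ⟨c, hc⟩ := rep_of_limit (ipB (w 0) hV) f (l := 𝓝[>] (0 : ℝ)) (fun e => cls (η e)) (by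
    intro v
    obtain ⟨b, rfl⟩ := cls_surj v
    rw [hf]
    refine (tendsto_A S hs b.1).congr' ?_
    filter_upwards [Ioc_mem_nhdsGT S.e0_pos] with e he
    rw [ipB_apply, hD.ip_eq, hη e he.1 he.2])
  refine ⟨c, fun b => ?_⟩
  have h1 := hc (cls b)
  rw [hf] at h1
  exact h1

end

/-- **node CLS**. -/
theorem cls : CLS.{u} := by
  intro M _ _ _ _ _ _ w J _ hJ Φ hΦ
  obtain ⟨m, hm, hb⟩ := Met.exists_metric (E := E4) (M := M)
  subst hm
  let _ : MeasurableSpace M := borel M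
  have _ : BorelSpace M := ⟨rfl⟩
  exact cls_aux hb hJ hΦ

end

end Crest.Agent.R235.Cls_900
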