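import Mathlib

/-!
Row 235, REG-CYL C2 (pure part): a finite measure on a disc whose distributional derivatives vanish
is a multiple of Lebesgue measure.
-/

set_option autoImplicit false

noncomputable section

namespace Crest.Agent.R235.ConstMeas_679

open Set Metric MeasureTheory Filter Topology
open scoped ContDiff

/-- the standard mollifier of radius `ε` -/
def bmp (ε : ℝ) (h : 0 < ε) : ContDiffBump (0:ℂ) := ⟨ε / 2, ε, by linarith, by linarith⟩

/-- the mollification of a measure -/
def Fm (ν : Measure ℂ) (ψ : ℂ → ℝ) (x : ℂ) : ℝ := ∫ y, ψ (x - y) ∂ν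

theorem hasFDerivAt_Fm (ν : Measure ℂ) [IsFiniteMeasure ν] {ψ : ℂ → ℝ} (hψ : ContDiff ℝ 1 ψ)
    (hc : HasCompactSupport ψ) (x : ℂ) :
    HasFDerivAt (Fm ν ψ) (∫ y, fderiv ℝ ψ (x - y) ∂ν) x := by
  have hcd : Continuous (fderiv ℝ ψ) := hψ.continuous_fderiv (by norm_num)
  obtain ⟨C, hC⟩ := (hc.fderiv ℝ).exists_bound_of_continuous hcd
  obtain ⟨C0, hC0⟩ := hc.exists_bound_of_continuous hψ.continuous
  unfold Fm
  refine hasFDerivAt_integral_of_dominated_of_fderiv_le (μ := ν) (s := univ) (bound := fun _ => C)
    (F' := fun x y => fderiv ℝ ψ (x - y)) univ_mem ?_ ?_ ?_ ?_ ?_ ?_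
  · exact Eventually.of_forall fun w =>
      (hψ.continuous.comp (continuous_const.sub continuous_id)).aestronglyMeasurable
  · refine Integrable.mono' (integrable_const C0)
      (hψ.continuous.comp (continuous_const.sub continuous_id)).aestronglyMeasurable ?_
    exact Eventually.of_forall fun y => hC0 _
  · exact (hcd.comp (continuous_const.sub continuous_id)).aestronglyMeasurable
  · exact Eventually.of_forall fun y w _ => hC _
  · exact integrable_const C
  · refine Eventually.of_forall fun y w _ => ?_
    have h1 : HasFDerivAt ψ (fderiv ℝ ψ (w - y)) (w - y) :=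
      (hψ.differentiable (by norm_num) _).hasFDerivAt
    have h2 := h1.comp w ((hasFDerivAt_id w).sub_const y)
    rw [ContinuousLinearMap.comp_id] at h2
    exact h2

/-- zero distributional derivative -/
def Stat (ν : Measure ℂ) (z : ℂ) (r : ℝ) : Prop :=
  ∀ f : ℂ → ℝ, ContDiff ℝ 1 f → HasCompactSupport f → tsupport f ⊆ ball z r →
    ∀ e : ℂ, ∫ x, fderiv ℝ f x e ∂ν = 0

theorem Fm_const {ν : Measure ℂ} [IsFiniteMeasure ν] {z : ℂ} {r : ℝ} (h : Stat ν z r)
    {ε : ℝ} (hε : 0 < ε) :
    ∃ d : ℝ, ∀ x ∈ ball z (r - ε), Fm ν ((bmp ε hε).normed volume) x = d := by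
  set ψ : ℂ → ℝ := (bmp ε hε).normed volume with hψ
  have hψ1 : ContDiff ℝ 1 ψ := ((bmp ε hε).contDiff_normed (n := 1))
  have hψc : HasCompactSupport ψ := (bmp ε hε).hasCompactSupport_normed
  have hψs : tsupport ψ = closedBall 0 ε := (bmp ε hε).tsupport_normed_eq
  have hcd : Continuous (fderiv ℝ ψ) := hψ1.continuous_fderiv (by norm_num)
  obtain ⟨C, hC⟩ := (hψc.fderiv ℝ).exists_bound_of_continuous hcd
  have hd : ∀ x ∈ ball z (r - ε), HasFDerivAt (Fm ν ψ) (0 : ℂ →L[ℝ] ℝ) x := by
    intro x hx
    have h1 := hasFDerivAt_Fm ν hψ1 hψc x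
    have h2 : ∫ y, fderiv ℝ ψ (x - y) ∂ν = 0 := by
      ext e
      have hint : Integrable (fun y => fderiv ℝ ψ (x - y)) ν :=
        Integrable.mono' (integrable_const C)
          (hcd.comp (continuous_const.sub continuous_id)).aestronglyMeasurable
          (Eventually.of_forall fun y => hC _)
      rw [ContinuousLinearMap.integral_apply hint]
      have h3 : ∀ y, fderiv ℝ (fun y => ψ (x - y)) y e = -(fderiv ℝ ψ (x - y) e) := by
        intro y
        have h4 : HasFDerivAt ψ (fderiv ℝ ψ (x - y)) (x - y) :=
          (hψ1.differentiable (by norm_num) _).hasFDerivAt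
        have h5 := h4.comp y ((hasFDerivAt_id y).const_sub x)
        have h6 : fderiv ℝ (fun y => ψ (x - y)) y = _ := h5.fderiv
        rw [h6]
        simp
      have hcs : HasCompactSupport (fun y => ψ (x - y)) := by
        refine HasCompactSupport.intro (isCompact_closedBall x ε) fun y hy => ?_
        apply image_eq_zero_of_notMem_tsupport
        rw [hψs]
        intro h4
        apply hy
        rw [mem_closedBall, dist_zero_right] at h4
        rw [mem_closedBall, dist_comm, dist_eq_norm]
        exact h4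
      have hts : tsupport (fun y => ψ (x - y)) ⊆ ball z r := by
        have h4 : tsupport (fun y => ψ (x - y)) ⊆ closedBall x ε := by
          apply closure_minimal _ isClosed_closedBall
          intro y hy
          have h5 : x - y ∈ tsupport ψ := subset_tsupport _ hy
          rw [hψs, mem_closedBall, dist_zero_right] at h5
          rw [mem_closedBall, dist_comm, dist_eq_norm]
          exact h5
        refine h4.trans ?_
        intro y hy
        rw [mem_closedBall] at hy
        rw [mem_ball] at hx ⊢
        calc dist y z ≤ dist y x + dist x z := dist_triangle _ _ _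
          _ < r := by linarith
      have h5 := h (fun y => ψ (x - y)) (hψ1.comp (contDiff_const.sub contDiff_id)) hcs hts e
      simp only [h3, integral_neg, neg_eq_zero] at h5
      simpa using h5
    rwa [h2] at h1
  obtain ⟨d, hd'⟩ := IsOpen.exists_is_const_of_fderiv_eq_zero (𝕜 := ℝ) (s := ball z (r - ε))
    (f := Fm ν ψ) isOpen_ball (convex_ball z (r - ε)).isPreconnected
    (fun x hx => (hd x hx).differentiableAt.differentiableWithinAt)
    (fun x hx => (hd x hx).fderiv)
  exact ⟨d, hd'⟩

/-- the mollified test function -/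
def Gm (g : ℂ → ℝ) (ψ : ℂ → ℝ) (y : ℂ) : ℝ := ∫ x, g x * ψ (x - y)

theorem Gm_close {g : ℂ → ℝ} (hg : Continuous g) {ε η : ℝ} (hε : 0 < ε)
    (h : ∀ x y, dist x y < ε → dist (g x) (g y) ≤ η) (y : ℂ) :
    dist (Gm g ((bmp ε hε).normed volume) y) (g y) ≤ η := by
  have h1 := (bmp ε hε).dist_normed_convolution_le (μ := volume) (g := g) (x₀ := y) (ε := η)
    hg.aestronglyMeasurable (fun x hx => h x y hx)
  have h2 : Gm g ((bmp ε hε).normed volume) y =
      (MeasureTheory.convolution ((bmp ε hε).normed volume) g (ContinuousLinearMap.lsmul ℝ ℝ)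
        volume) y := by
    rw [convolution_def]
    unfold Gm
    rw [← integral_sub_left_eq_self (fun x => g x * (bmp ε hε).normed volume (x - y)) volume y]
    congr 1
    ext t
    simp only [ContinuousLinearMap.lsmul_apply, smul_eq_mul]
    have h3 : y - t - y = -t := by ring
    rw [h3, (bmp ε hε).normed_neg]
    ring
  rw [h2]
  exact h1

theorem swap {ν : Measure ℂ} [IsFiniteMeasure ν] {g ψ : ℂ → ℝ} (hg : Continuous g)
    (hgc : HasCompactSupport g) (hψ : Continuous ψ) (hψc : HasCompactSupport ψ) :
    ∫ y, Gm g ψ y ∂ν = ∫ x, g x * Fm ν ψ x := by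
  unfold Gm Fm
  have h1 : Integrable (Function.uncurry fun (y x : ℂ) => g x * ψ (x - y)) (ν.prod volume) := by
    obtain ⟨C, hC⟩ := hψc.exists_bound_of_continuous hψ
    have h2 : Integrable (fun p : ℂ × ℂ => C * ‖g p.2‖) (ν.prod volume) := by
      have h3 : Integrable g volume := hg.integrable_of_hasCompactSupport hgc
      have := (integrable_const (μ := ν) C).mul_prod h3.norm
      exact this
    refine Integrable.mono' h2 ?_ ?_
    · apply Continuous.aestronglyMeasurable
      exact (hg.comp continuous_snd).mul (hψ.comp (continuous_snd.sub continuous_fst))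
    · refine Eventually.of_forall fun p => ?_
      rw [Function.uncurry, norm_mul, mul_comm]
      gcongr
      exact hC _
  rw [integral_integral_swap h1]
  congr 1
  ext x
  rw [integral_const_mul]

theorem test_const {ν : Measure ℂ} [IsFiniteMeasure ν] {z : ℂ} {r : ℝ} (hr : 0 < r)
    (h : Stat ν z r) :
    ∃ d : ℝ, 0 ≤ d ∧ ∀ g : ℂ → ℝ, Continuous g → HasCompactSupport g → tsupport g ⊆ ball z r →
      ∫ x, g x ∂ν = d * ∫ x, g x := by
  have he : ∀ n : ℕ, (0:ℝ) < 1 / ((n:ℝ) + 1) := fun n => by positivity
  choose d hd using fun n : ℕ => Fm_const h (he n)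
  -- convergence
  have hlim : ∀ g : ℂ → ℝ, Continuous g → HasCompactSupport g → tsupport g ⊆ ball z r →
      Tendsto (fun n => d n * ∫ x, g x) atTop (𝓝 (∫ x, g x ∂ν)) := by
    intro g hg hgc hgs
    obtain ⟨r', hr', hgs'⟩ := exists_lt_subset_ball (isClosed_tsupport g) hgs
    have h1 : ∀ᶠ n : ℕ in atTop, 1 / ((n:ℝ) + 1) < r - r' :=
      (tendsto_order.1 tendsto_one_div_add_atTop_nhds_zero_nat).2 _ (by linarith)
    have h2 : ∀ᶠ n : ℕ in atTop,
        ∫ y, Gm g ((bmp _ (he n)).normed volume) y ∂ν = d n * ∫ x, g x := by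
      filter_upwards [h1] with n hn
      rw [swap hg hgc (bmp _ (he n)).continuous_normed (bmp _ (he n)).hasCompactSupport_normed,
        ← integral_const_mul]
      congr 1
      ext x
      by_cases hx : x ∈ tsupport g
      · have h3 : x ∈ ball z (r - 1 / ((n:ℝ) + 1)) := by
          have := hgs' hx
          rw [mem_ball] at this ⊢
          linarith
        rw [hd n x h3, mul_comm]
      · rw [image_eq_zero_of_notMem_tsupport hx]; simp
    refine Tendsto.congr' h2 ?_
    -- uniform convergence of `Gm`
    have huc : UniformContinuous g := hgc.uniformContinuous_of_continuous hg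
    rw [Metric.tendsto_atTop]
    intro η hη
    obtain ⟨δ, hδ, hδ'⟩ := Metric.uniformContinuous_iff.1 huc (η / (2 * (ν.real univ + 1)))
      (by positivity)
    obtain ⟨N, hN⟩ := eventually_atTop.1 ((tendsto_order.1
      (tendsto_one_div_add_atTop_nhds_zero_nat (𝕜 := ℝ))).2 δ hδ)
    refine ⟨N, fun n hn => ?_⟩
    have hcl : ∀ y, dist (Gm g ((bmp _ (he n)).normed volume) y) (g y) ≤
        η / (2 * (ν.real univ + 1)) := fun y =>
      Gm_close hg (he n) (fun x y hxy => (hδ' (hxy.trans (hN n hn))).le) y
    have hgi : Integrable g ν := by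
      obtain ⟨C, hC⟩ := hgc.exists_bound_of_continuous hg
      exact Integrable.mono' (integrable_const C) hg.aestronglyMeasurable
        (Eventually.of_forall hC)
    have hcG : Continuous (Gm g ((bmp _ (he n)).normed volume)) := by
      have h4 : Gm g ((bmp _ (he n)).normed volume) =
          (MeasureTheory.convolution ((bmp _ (he n)).normed volume) g
            (ContinuousLinearMap.lsmul ℝ ℝ) volume) := by
        ext y
        rw [convolution_def]
        unfold Gm
        rw [← integral_sub_left_eq_self
          (fun x => g x * (bmp _ (he n)).normed volume (x - y)) volume y]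
        congr 1
        ext t
        simp only [ContinuousLinearMap.lsmul_apply, smul_eq_mul]
        have h3 : y - t - y = -t := by ring
        rw [h3, (bmp _ (he n)).normed_neg]
        ring
      rw [h4]
      exact hgc.continuous_convolution_right _
        (bmp _ (he n)).continuous_normed.locallyIntegrable hg
    have hGi : Integrable (Gm g ((bmp _ (he n)).normed volume)) ν := by
      have h5 : Integrable (fun y => ‖g y‖ + η / (2 * (ν.real univ + 1))) ν :=
        hgi.norm.add (integrable_const _)
      refine Integrable.mono' h5 hcG.aestronglyMeasurable (Eventually.of_forall fun y => ?_)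
      have h6 := hcl y
      rw [dist_eq_norm] at h6
      calc ‖Gm g ((bmp _ (he n)).normed volume) y‖
          = ‖g y + (Gm g ((bmp _ (he n)).normed volume) y - g y)‖ := by congr 1; ring
        _ ≤ ‖g y‖ + ‖Gm g ((bmp _ (he n)).normed volume) y - g y‖ := norm_add_le _ _
        _ ≤ _ := by gcongr
    rw [dist_eq_norm, ← integral_sub hGi hgi]
    have h7 := norm_integral_le_of_norm_le_const (μ := ν)
      (f := fun y => Gm g ((bmp _ (he n)).normed volume) y - g y)
      (C := η / (2 * (ν.real univ + 1)))
      (Eventually.of_forall fun y => by rw [← dist_eq_norm]; exact hcl y)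
    have h8 : (0:ℝ) ≤ ν.real univ := measureReal_nonneg
    calc _ ≤ η / (2 * (ν.real univ + 1)) * ν.real univ := h7
      _ < η := by
        rw [div_mul_eq_mul_div, div_lt_iff₀ (by positivity)]
        nlinarith
  -- the reference function
  let φ : ContDiffBump z := ⟨r / 4, r / 2, by linarith, by linarith⟩
  have hφs : tsupport (φ : ℂ → ℝ) ⊆ ball z r := by
    rw [φ.tsupport_eq]
    exact closedBall_subset_ball (by show r / 2 < r; linarith)
  have hφ0 : 0 < ∫ x, φ x := φ.integral_pos
  have h1 := hlim φ φ.continuous φ.hasCompactSupport hφs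
  have h2 : Tendsto d atTop (𝓝 ((∫ x, φ x ∂ν) / ∫ x, φ x)) := by
    have := h1.div_const (∫ x, φ x)
    refine this.congr fun n => ?_
    field_simp
  refine ⟨(∫ x, φ x ∂ν) / ∫ x, φ x, div_nonneg (integral_nonneg fun x => φ.nonneg) hφ0.le,
    fun g hg hgc hgs => ?_⟩
  exact tendsto_nhds_unique (hlim g hg hgc hgs) (h2.mul_const _)

/-- **constancy**: `ν = d · Lebesgue` on the disc -/
theorem const_meas {ν : Measure ℂ} [IsFiniteMeasure ν] {z : ℂ} {r : ℝ} (hr : 0 < r)
    (h : Stat ν z r) :
    ∃ d : ℝ, 0 ≤ d ∧ ∀ A : Set ℂ, MeasurableSet A → A ⊆ ball z r →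
      ν.real A = d * volume.real A := by
  obtain ⟨d, hd, hd'⟩ := test_const hr h
  refine ⟨d, hd, ?_⟩
  -- cut-offs
  set χ : ℕ → ℂ → ℝ := fun n x => min 1 (max 0 (((n:ℝ) + 1) * (r - dist x z) - 1)) with hχ
  have hχc : ∀ n, Continuous (χ n) := by
    intro n
    simp only [hχ]
    fun_prop
  have hχ0 : ∀ (n : ℕ) (x : ℂ), 0 ≤ χ n x := fun n x => le_min zero_le_one (le_max_left _ _)
  have hχ1 : ∀ (n : ℕ) (x : ℂ), χ n x ≤ 1 := fun n x => min_le_left _ _
  have hχs : ∀ (n : ℕ) (x : ℂ), x ∉ closedBall z (r - 1 / ((n:ℝ) + 1)) → χ n x = 0 := by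
    intro n x hx
    rw [mem_closedBall, not_le] at hx
    have h1 : ((n:ℝ) + 1) * (r - dist x z) - 1 ≤ 0 := by
      have h2 : r - dist x z < 1 / ((n:ℝ) + 1) := by linarith
      have h3 : (0:ℝ) < (n:ℝ) + 1 := by positivity
      have h4 : ((n:ℝ) + 1) * (r - dist x z) ≤ ((n:ℝ) + 1) * (1 / ((n:ℝ) + 1)) := by gcongr
      rw [mul_one_div_cancel h3.ne'] at h4
      linarith
    simp only [hχ]
    rw [max_eq_left h1, min_eq_right zero_le_one]
  have hχcs : ∀ n, HasCompactSupport (χ n) := fun n =>
    HasCompactSupport.intro (isCompact_closedBall z (r - 1 / ((n:ℝ) + 1))) (hχs n)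
  have hχts : ∀ n, tsupport (χ n) ⊆ ball z r := by
    intro n
    have h1 : tsupport (χ n) ⊆ closedBall z (r - 1 / ((n:ℝ) + 1)) := by
      apply closure_minimal _ isClosed_closedBall
      intro x hx
      by_contra hx'
      exact hx (hχs n x hx')
    refine h1.trans (closedBall_subset_ball ?_)
    have : (0:ℝ) < 1 / ((n:ℝ) + 1) := by positivity
    linarith
  have hχt : ∀ x ∈ ball z r, Tendsto (fun n => χ n x) atTop (𝓝 1) := by
    intro x hx
    rw [mem_ball] at hx
    have h1 : ∀ᶠ n : ℕ in atTop, χ n x = 1 := by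
      obtain ⟨N, hN⟩ := exists_nat_gt (2 / (r - dist x z))
      filter_upwards [eventually_ge_atTop N] with n hn
      have h2 : (0:ℝ) < r - dist x z := by linarith
      have h3 : 2 / (r - dist x z) < (n:ℝ) + 1 := by
        have : (N:ℝ) ≤ n := by exact_mod_cast hn
        linarith
      rw [div_lt_iff₀ h2] at h3
      simp only [hχ]
      rw [min_eq_left]
      exact le_max_of_le_right (by linarith)
    exact tendsto_const_nhds.congr' (by filter_upwards [h1] with n hn using hn.symm)
  -- equality of measures on the ball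
  have hmeas : ν.restrict (ball z r) = ENNReal.ofReal d • volume.restrict (ball z r) := by
    have : IsFiniteMeasure (volume.restrict (ball z r)) :=
      ⟨by rw [Measure.restrict_apply_univ]; exact measure_ball_lt_top⟩
    have : IsFiniteMeasure (ENNReal.ofReal d • volume.restrict (ball z r)) :=
      Measure.smul_finite _ ENNReal.ofReal_ne_top
    apply ext_of_forall_integral_eq_of_IsFiniteMeasure
    intro f
    obtain ⟨C, hC⟩ : ∃ C, ∀ x, ‖f x‖ ≤ C := ⟨‖f‖, f.norm_coe_le_norm⟩
    have hl : ∀ (κ : Measure ℂ) [IsFiniteMeasure (κ.restrict (ball z r))],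
        Tendsto (fun n => ∫ x, f x * χ n x ∂(κ.restrict (ball z r))) atTop
        (𝓝 (∫ x, f x ∂(κ.restrict (ball z r)))) := by
      intro κ hκ
      refine tendsto_integral_of_dominated_convergence (fun _ => C)
        (fun n => (f.continuous.mul (hχc n)).aestronglyMeasurable) (integrable_const C) ?_ ?_
      · intro n
        refine Eventually.of_forall fun x => ?_
        rw [norm_mul, Real.norm_of_nonneg (hχ0 n x)]
        calc ‖f x‖ * χ n x ≤ C * 1 := by
              apply mul_le_mul (hC x) (hχ1 n x) (hχ0 n x) ((norm_nonneg _).trans (hC x))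
          _ = C := mul_one C
      · filter_upwards [ae_restrict_mem measurableSet_ball] with x hx
        simpa using (hχt x hx).const_mul (f x)
    have h1 := hl ν
    have h2 := (hl volume).const_mul d
    have h3 : ∀ n, ∫ x, f x * χ n x ∂(ν.restrict (ball z r)) =
        d * ∫ x, f x * χ n x ∂(volume.restrict (ball z r)) := by
      intro n
      have h4 : ∀ κ : Measure ℂ, ∫ x, f x * χ n x ∂(κ.restrict (ball z r)) =
          ∫ x, f x * χ n x ∂κ := by
        intro κ
        apply setIntegral_eq_integral_of_forall_compl_eq_zero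
        intro x hx
        have : x ∉ tsupport (χ n) := fun h => hx (hχts n h)
        rw [image_eq_zero_of_notMem_tsupport this, mul_zero]
      rw [h4, h4]
      apply hd' _ (f.continuous.mul (hχc n)) ((hχcs n).mul_left)
      exact (tsupport_mul_subset_right).trans (hχts n)
    rw [integral_smul_measure, ENNReal.toReal_ofReal hd, smul_eq_mul]
    refine tendsto_nhds_unique h1 ?_
    exact h2.congr fun n => (h3 n).symm
  intro A hA hAs
  have h1 : ν A = (ν.restrict (ball z r)) A := by
    rw [Measure.restrict_apply hA, inter_eq_left.2 hAs]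
  have h2 : volume A = (volume.restrict (ball z r)) A := by
    rw [Measure.restrict_apply hA, inter_eq_left.2 hAs]
  rw [measureReal_def, measureReal_def, h1, hmeas, h2]
  simp [ENNReal.toReal_ofReal hd]

end Crest.Agent.R235.ConstMeas_679
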