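import Mathlib

/-!
Row 235, PACKAGE REG (helper842): constancy lemma for measures.
A finite measure on `ℂ` whose distributional gradient vanishes on a ball is a constant multiple of
Lebesgue measure there.
-/

set_option autoImplicit false

open MeasureTheory Metric Set Filter
open scoped ContDiff Topology

namespace Crest.Agent.R235.ConstMeas_842

noncomputable section

/-- vanishing distributional gradient on `U`. -/
def GradZero (ν : Measure ℂ) (U : Set ℂ) : Prop :=
  ∀ η : ℂ → ℝ, ContDiff ℝ ∞ η → HasCompactSupport η → tsupport η ⊆ U →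
    ∀ v : ℂ, ∫ t, fderiv ℝ η t v ∂ν = 0

/-- translation invariance. -/
theorem integral_translate {ν : Measure ℂ} [IsFiniteMeasure ν] {U : Set ℂ} (h : GradZero ν U)
    {η : ℂ → ℝ} (h1 : ContDiff ℝ ∞ η) (h2 : HasCompactSupport η) (y y' : ℂ)
    (h3 : ∀ s ∈ Icc (0:ℝ) 1, ∀ x ∈ tsupport η, x + (y + s • (y' - y)) ∈ U) :
    ∫ t, η (t - y) ∂ν = ∫ t, η (t - y') ∂ν := by
  have hc : Continuous η := h1.continuous
  have hd : Differentiable ℝ η := h1.differentiable (by simp)
  obtain ⟨B, hB⟩ : ∃ B, ∀ x, ‖fderiv ℝ η x‖ ≤ B := by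
    have hcc : Continuous (fderiv ℝ η) := h1.continuous_fderiv (by simp)
    obtain ⟨B, hB⟩ := hcc.bounded_above_of_compact_support (h2.fderiv (𝕜 := ℝ))
    exact ⟨B, hB⟩
  have key : ∀ s ∈ Icc (0:ℝ) 1, ∫ t, fderiv ℝ η (t - (y + s • (y' - y))) (-(y' - y)) ∂ν = 0 := by
    intro s hs
    have e : ∀ t, fderiv ℝ (fun t => η (t - (y + s • (y' - y)))) t =
        fderiv ℝ η (t - (y + s • (y' - y))) := fun t => fderiv_comp_sub _
    have hts : tsupport (fun t => η (t - (y + s • (y' - y)))) =
        (fun t => t - (y + s • (y' - y))) ⁻¹' tsupport η :=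
      tsupport_comp_eq_preimage η (Homeomorph.subRight (y + s • (y' - y)))
    have := h (fun t => η (t - (y + s • (y' - y)))) (h1.comp (contDiff_id.sub contDiff_const))
      (h2.comp_homeomorph (Homeomorph.subRight (y + s • (y' - y)))) (by
        rw [hts]
        intro t ht
        have := h3 s hs _ ht
        simpa using this) (-(y' - y))
    simpa only [e] using this
  have hder : ∀ s ∈ Icc (0:ℝ) 1, HasDerivWithinAt (fun s : ℝ => ∫ t, η (t - (y + s • (y' - y))) ∂ν)
      0 (Icc 0 1) s := by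
    intro s hs
    have := (hasDerivAt_integral_of_dominated_loc_of_deriv_le (μ := ν) (x₀ := s)
      (F := fun s : ℝ => fun t : ℂ => η (t - (y + s • (y' - y))))
      (F' := fun s : ℝ => fun t : ℂ => fderiv ℝ η (t - (y + s • (y' - y))) (-(y' - y)))
      (bound := fun _ => B * ‖-(y' - y)‖) (s := univ) univ_mem
      (Eventually.of_forall fun s => (hc.comp (by fun_prop)).aestronglyMeasurable)
      ?_ ?_ ?_ ?_ ?_).2
    · rw [key s hs] at this
      exact this.hasDerivWithinAt
    · refine Integrable.of_bound (C := ?_) (hc.comp (by fun_prop)).aestronglyMeasurable ?_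
      · exact (hc.bounded_above_of_compact_support h2).choose
      · exact Eventually.of_forall fun t => (hc.bounded_above_of_compact_support h2).choose_spec _
    · exact (((h1.continuous_fderiv (by simp)).comp (by fun_prop)).clm_apply
        continuous_const).aestronglyMeasurable
    · refine Eventually.of_forall fun t s _ => ?_
      exact (ContinuousLinearMap.le_opNorm _ _).trans
        (mul_le_mul_of_nonneg_right (hB _) (norm_nonneg _))
    · exact integrable_const _
    · refine Eventually.of_forall fun t s _ => ?_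
      have h4 : HasDerivAt (fun s : ℝ => t - (y + s • (y' - y))) (-(y' - y)) s := by
        have := (((hasDerivAt_id s).smul_const (y' - y)).const_add y).const_sub t
        simpa using this
      exact (hd (t - (y + s • (y' - y)))).hasFDerivAt.comp_hasDerivAt s h4
  have := constant_of_has_deriv_right_zero (a := (0:ℝ)) (b := 1)
    (f := fun s : ℝ => ∫ t, η (t - (y + s • (y' - y))) ∂ν)
    (fun s hs => (hder s hs).continuousWithinAt)
    (fun s hs => ((hder s ⟨hs.1, hs.2.le⟩).mono_of_mem_nhdsWithin ?_)) 1 (by simp)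
  · simp at this
    simpa using this.symm
  · exact Icc_mem_nhdsGE_of_mem hs

/-- on test functions supported in a smaller ball the measure is a constant multiple of Lebesgue
measure. -/
theorem integral_small {ν : Measure ℂ} [IsFiniteMeasure ν] {t₀ : ℂ} {ρ : ℝ}
    (h : GradZero ν (ball t₀ ρ)) {δ : ℝ} (hδ : 0 < δ) :
    ∃ G : ℝ, ∀ g : ℂ → ℝ, ContDiff ℝ ∞ g → HasCompactSupport g →
      tsupport g ⊆ closedBall t₀ (ρ - 2 * δ) → ∫ t, g t ∂ν = G * ∫ t, g t := by
  let f : ContDiffBump (0 : ℂ) := ⟨δ / 2, δ, by positivity, by linarith⟩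
  set φ : ℂ → ℝ := f.normed volume with hφ
  have φ1 : ContDiff ℝ ∞ φ := f.contDiff_normed
  have φ2 : HasCompactSupport φ := f.hasCompactSupport_normed
  have φ3 : tsupport φ = closedBall 0 δ := f.tsupport_normed_eq
  have φ4 : ∫ x, φ x = 1 := f.integral_normed
  have φ5 : ∀ x, 0 ≤ φ x := f.nonneg_normed
  obtain ⟨B, hB⟩ := φ1.continuous.bounded_above_of_compact_support φ2
  refine ⟨∫ t, φ (t - t₀) ∂ν, fun g g1 g2 g3 => ?_⟩
  obtain ⟨B', hB'⟩ := g1.continuous.bounded_above_of_compact_support g2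
  have gi : Integrable g volume := g1.continuous.integrable_of_hasCompactSupport g2
  have φi : Integrable φ volume := φ1.continuous.integrable_of_hasCompactSupport φ2
  -- translation of `g`
  have e1 : ∀ y, φ y * ∫ t, g (t - y) ∂ν = φ y * ∫ t, g t ∂ν := by
    intro y
    by_cases hy : φ y = 0
    · rw [hy]; simp
    have hy' : y ∈ tsupport φ := subset_tsupport _ hy
    rw [φ3, mem_closedBall, dist_zero_right] at hy'
    have := integral_translate h g1 g2 y 0 (by
      intro s hs x hx
      have hx' := g3 hx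
      rw [mem_closedBall, dist_eq_norm] at hx'
      rw [mem_ball, dist_eq_norm]
      have : x + (y + s • (0 - y)) - t₀ = (x - t₀) + (1 - s) • y := by
        rw [sub_smul, one_smul]; simp; ring
      rw [this]
      calc ‖(x - t₀) + (1 - s) • y‖ ≤ ‖x - t₀‖ + ‖(1 - s) • y‖ := norm_add_le _ _
        _ ≤ (ρ - 2 * δ) + 1 * δ := by
          refine add_le_add hx' ?_
          rw [norm_smul]
          refine mul_le_mul ?_ hy' (norm_nonneg _) (by norm_num)
          rw [Real.norm_eq_abs, abs_le]; constructor <;> linarith [hs.1, hs.2]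
        _ < ρ := by linarith)
    rw [this]; simp
  have e2 : ∀ y, g y * ∫ t, φ (t - y) ∂ν = g y * ∫ t, φ (t - t₀) ∂ν := by
    intro y
    by_cases hy : g y = 0
    · rw [hy]; simp
    have hy' := g3 (subset_tsupport _ hy)
    rw [mem_closedBall, dist_eq_norm] at hy'
    have := integral_translate h φ1 φ2 y t₀ (by
      intro s hs x hx
      rw [φ3, mem_closedBall, dist_zero_right] at hx
      rw [mem_ball, dist_eq_norm]
      have : x + (y + s • (t₀ - y)) - t₀ = x + (1 - s) • (y - t₀) := by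
        rw [sub_smul, one_smul, smul_sub, smul_sub]; ring
      rw [this]
      calc ‖x + (1 - s) • (y - t₀)‖ ≤ ‖x‖ + ‖(1 - s) • (y - t₀)‖ := norm_add_le _ _
        _ ≤ δ + 1 * (ρ - 2 * δ) := by
          refine add_le_add hx ?_
          rw [norm_smul]
          refine mul_le_mul ?_ hy' (norm_nonneg _) (by norm_num)
          rw [Real.norm_eq_abs, abs_le]; constructor <;> linarith [hs.1, hs.2]
        _ < ρ := by linarith)
    rw [this]
  -- Fubini
  have i1 : Integrable (fun p : ℂ × ℂ => g (p.1 - p.2) * φ p.2) (ν.prod volume) := by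
    refine ((φi.norm.comp_snd ν).const_mul B').mono' (by
      exact ((g1.continuous.comp (by fun_prop)).mul (φ1.continuous.comp (by fun_prop))).aestronglyMeasurable) ?_
    refine Eventually.of_forall fun p => ?_
    rw [norm_mul]
    exact mul_le_mul_of_nonneg_right (hB' _) (norm_nonneg _)
  have i2 : Integrable (fun p : ℂ × ℂ => g p.2 * φ (p.1 - p.2)) (ν.prod volume) := by
    refine ((gi.norm.comp_snd ν).mul_const B).mono' (by
      exact ((g1.continuous.comp (by fun_prop)).mul (φ1.continuous.comp (by fun_prop))).aestronglyMeasurable) ?_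
    refine Eventually.of_forall fun p => ?_
    rw [norm_mul]
    exact mul_le_mul_of_nonneg_left (hB _) (norm_nonneg _)
  calc ∫ t, g t ∂ν = ∫ y, φ y * ∫ t, g t ∂ν := by
        rw [integral_mul_const, φ4, one_mul]
    _ = ∫ y, φ y * ∫ t, g (t - y) ∂ν := by simp only [e1]
    _ = ∫ y, ∫ t, g (t - y) * φ y ∂ν := by
        congr 1; ext y; rw [integral_mul_const, mul_comm]
    _ = ∫ t, (∫ y, g (t - y) * φ y) ∂ν := (integral_integral_swap i1).symm
    _ = ∫ t, (∫ y, g y * φ (t - y)) ∂ν := by
        congr 1; ext t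
        have := integral_sub_left_eq_self (fun y => g (t - y) * φ y) volume t
        rw [← this]
        simp
    _ = ∫ y, ∫ t, g y * φ (t - y) ∂ν := integral_integral_swap i2
    _ = ∫ y, g y * ∫ t, φ (t - t₀) ∂ν := by
        congr 1; ext y; rw [integral_const_mul, e2]
    _ = (∫ t, φ (t - t₀) ∂ν) * ∫ t, g t := by rw [integral_mul_const, mul_comm]

theorem integral_eq {ν : Measure ℂ} [IsFiniteMeasure ν] {t₀ : ℂ} {ρ : ℝ}
    (h : GradZero ν (ball t₀ ρ)) :
    ∃ c : ℝ, 0 ≤ c ∧ ∀ g : ℂ → ℝ, ContDiff ℝ ∞ g → HasCompactSupport g →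
      tsupport g ⊆ ball t₀ ρ → ∫ t, g t ∂ν = c * ∫ t, g t := by
  rcases le_or_gt ρ 0 with hρ | hρ
  · refine ⟨0, le_rfl, fun g _ _ hg => ?_⟩
    rw [ball_eq_empty.2 hρ, subset_empty_iff, tsupport_eq_empty_iff] at hg
    simp [hg]
  let f : ContDiffBump t₀ := ⟨ρ / 4, ρ / 2, by positivity, by linarith⟩
  set g₀ : ℂ → ℝ := f.normed volume with hg₀
  have b1 : ContDiff ℝ ∞ g₀ := f.contDiff_normed
  have b2 : HasCompactSupport g₀ := f.hasCompactSupport_normed
  have b3 : tsupport g₀ = closedBall t₀ (ρ / 2) := f.tsupport_normed_eq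
  have b4 : ∫ x, g₀ x = 1 := f.integral_normed
  have b5 : ∀ x, 0 ≤ g₀ x := f.nonneg_normed
  refine ⟨∫ t, g₀ t ∂ν, integral_nonneg b5, fun g g1 g2 g3 => ?_⟩
  obtain ⟨r, hr, hgr⟩ := exists_lt_subset_ball (isClosed_tsupport g) g3
  obtain ⟨δ, hδ, hδ1, hδ2⟩ : ∃ δ > 0, ρ / 2 ≤ ρ - 2 * δ ∧ r ≤ ρ - 2 * δ :=
    ⟨min (ρ / 4) ((ρ - r) / 2), lt_min (by linarith) (by linarith),
      by linarith [min_le_left (ρ / 4) ((ρ - r) / 2)],
      by linarith [min_le_right (ρ / 4) ((ρ - r) / 2)]⟩
  obtain ⟨G, hG⟩ := integral_small h hδ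
  rw [hG g g1 g2 (hgr.trans (ball_subset_closedBall.trans (closedBall_subset_closedBall hδ2))),
    hG g₀ b1 b2 (by rw [b3]; exact closedBall_subset_closedBall hδ1), b4, mul_one]

/-- **constancy.** -/
theorem const_of_grad {ν : Measure ℂ} [IsFiniteMeasure ν] {t₀ : ℂ} {ρ : ℝ}
    (h : GradZero ν (ball t₀ ρ)) :
    ∃ d : ℝ, 0 ≤ d ∧ ∀ E : Set ℂ, MeasurableSet E → E ⊆ ball t₀ ρ →
      ν E = ENNReal.ofReal d * volume E := by
  obtain ⟨c, hc, hcg⟩ := integral_eq h
  refine ⟨c, hc, ?_⟩
  set U : Set ℂ := ball t₀ ρ with hU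
  set ν' := ν.restrict U with hν'
  set l' := (volume : Measure ℂ).restrict U with hl'
  have : IsFiniteMeasure l' := ⟨by rw [hl', Measure.restrict_apply_univ]; exact measure_ball_lt_top⟩
  set μ := ν' + l' with hμ
  have a1 : ν' ≪ μ := Measure.AbsolutelyContinuous.rfl.add_right _
  have a2 : l' ≪ μ := by
    rw [hμ, add_comm]; exact Measure.AbsolutelyContinuous.rfl.add_right _
  let f : ℂ → ℝ := fun x => (ν'.rnDeriv μ x).toReal - c * (l'.rnDeriv μ x).toReal
  have r1 : Integrable (fun x => (ν'.rnDeriv μ x).toReal) μ := Measure.integrable_toReal_rnDeriv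
  have r2 : Integrable (fun x => (l'.rnDeriv μ x).toReal) μ := Measure.integrable_toReal_rnDeriv
  have fi : Integrable f μ := r1.sub (r2.const_mul c)
  have hf0 : ∀ᵐ x ∂μ, x ∈ U → f x = 0 := by
    refine IsOpen.ae_eq_zero_of_integral_contDiff_smul_eq_zero isOpen_ball
      (fi.locallyIntegrable.locallyIntegrableOn U) ?_
    intro g g1 g2 g3
    obtain ⟨B, hB⟩ := g1.continuous.bounded_above_of_compact_support g2
    have z : ∀ x, x ∉ U → g x = 0 := fun x hx => by
      by_contra hne
      exact hx (g3 (subset_tsupport _ hne))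
    have s1 : ∫ x, g x ∂ν' = ∫ x, g x ∂ν := setIntegral_eq_integral_of_forall_compl_eq_zero z
    have s2 : ∫ x, g x ∂l' = ∫ x, g x := setIntegral_eq_integral_of_forall_compl_eq_zero z
    have t1 : ∫ x, (ν'.rnDeriv μ x).toReal • g x ∂μ = ∫ x, g x ∂ν' := integral_rnDeriv_smul a1
    have t2 : ∫ x, (l'.rnDeriv μ x).toReal • g x ∂μ = ∫ x, g x ∂l' := integral_rnDeriv_smul a2
    have j1 : Integrable (fun x => (ν'.rnDeriv μ x).toReal • g x) μ := by
      refine (r1.norm.mul_const B).mono'
        (r1.aestronglyMeasurable.smul g1.continuous.aestronglyMeasurable)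
        (Eventually.of_forall fun x => ?_)
      rw [norm_smul]
      exact mul_le_mul_of_nonneg_left (hB x) (norm_nonneg _)
    have j2 : Integrable (fun x => (l'.rnDeriv μ x).toReal • g x) μ := by
      refine (r2.norm.mul_const B).mono'
        (r2.aestronglyMeasurable.smul g1.continuous.aestronglyMeasurable)
        (Eventually.of_forall fun x => ?_)
      rw [norm_smul]
      exact mul_le_mul_of_nonneg_left (hB x) (norm_nonneg _)
    have : ∀ x, g x • f x = (ν'.rnDeriv μ x).toReal • g x - c * ((l'.rnDeriv μ x).toReal • g x) := by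
      intro x; simp only [f, smul_eq_mul]; ring
    simp_rw [this]
    rw [integral_sub j1 (j2.const_mul c), integral_const_mul, t1, t2, s1, s2, hcg g g1 g2 g3]
    ring
  intro E hE hEU
  have w1 : μ.withDensity (ν'.rnDeriv μ) = ν' := Measure.withDensity_rnDeriv_eq _ _ a1
  have w2 : μ.withDensity (l'.rnDeriv μ) = l' := Measure.withDensity_rnDeriv_eq _ _ a2
  have v1 : ν E = ν' E := by
    rw [hν', Measure.restrict_apply hE, inter_eq_self_of_subset_left hEU]
  have v2 : volume E = l' E := by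
    rw [hl', Measure.restrict_apply hE, inter_eq_self_of_subset_left hEU]
  have fin1 : ∀ᵐ x ∂μ, ν'.rnDeriv μ x < ⊤ := Measure.rnDeriv_lt_top _ _
  have fin2 : ∀ᵐ x ∂μ, l'.rnDeriv μ x < ⊤ := Measure.rnDeriv_lt_top _ _
  rw [v1, v2, ← w1, ← w2, withDensity_apply _ hE, withDensity_apply _ hE,
    ← lintegral_const_mul _ (Measure.measurable_rnDeriv _ _)]
  refine setLIntegral_congr_fun_ae hE ?_
  filter_upwards [hf0, fin1, fin2] with x hx h1 h2 hxE
  have := hx (hEU hxE)
  simp only [f] at this
  rw [← ENNReal.ofReal_toReal h1.ne, ← ENNReal.ofReal_toReal h2.ne, ← ENNReal.ofReal_mul hc]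
  congr 1; linarith

end

end Crest.Agent.R235.ConstMeas_842
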