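import Mathlib
import Crest.Agent.R235.HZLat_524

/-!
Row 235 (S0364), block HZ (helper524): products of integral closed one-forms.

`Int1 G s f m` : `s = d f_i` on `B i`, `f_i - f_j = m_ij ∈ ℤ`; then `s ∧ t` has Čech data
`A_i = f_i t`, `F_ij = m_ij g_j`, with the integral cocycle `m_ij n_jk`: `cup_data`,
`cls_wed_mem : cls (s ∧ t) ∈ Lt G`.
-/

set_option autoImplicit false
set_option maxSynthPendingDepth 3
set_option linter.unusedSectionVars false

open Set Function Filter
open scoped Manifold ContDiff Topology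

universe u

namespace Crest.Agent.R235.Cup1_524

open Crest.Agent.R240 Crest.Agent.R240.Ch Tau_692 Cdr_524 Loc_524 HZLat_524 R275.TopK106

noncomputable section

section General

variable {E : Type} [NormedAddCommGroup E] [NormedSpace ℝ E] [FiniteDimensional ℝ E]
variable {M : Type*} [TopologicalSpace M] [ChartedSpace E M] [IsManifold 𝓘(ℝ, E) ∞ M]
  [T2Space M] [CompactSpace M]

/-- `d (f s) = df ∧ s + f ds` at a point where `f` is smooth. -/
theorem dG_fmul1_at {f : M → ℝ} {s : F1 E M} {U : Set M} (hU : IsOpen U) {x : M} (hx : x ∈ U)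
    (hf : ∀ y ∈ U, SmAtF E f y) (hs : Smooth1 s) :
    at2 (dG (fmul1 f s)) x = at2 (wedG (dF f) s + fmul f (dG s)) x := by
  obtain ⟨g, hg, hgf⟩ := exists_extF (E := E) (K := {x}) isClosed_singleton hU
    (singleton_subset_iff.2 hx) hf
  have h1 : g =ᶠ[𝓝 x] f := hgf x rfl
  have h2 : fmul1 f s =ᶠ[𝓝 x] fmul1 g s := by
    filter_upwards [h1] with y hy
    show f y • s y = g y • s y
    rw [hy]
  rw [dG_congr h2, dG_fmul1 hg hs]
  have h3 : at1 (dF (E := E) g) x = at1 (dF (E := E) f) x := Loc_524.dF_congr h1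
  have h4 : g x = f x := h1.self_of_nhds
  show (at1 (dF g) x).smulRight (at1 s x) - (at1 s x).smulRight (at1 (dF g) x) + g x • at2 (dG s) x =
    (at1 (dF f) x).smulRight (at1 s x) - (at1 s x).smulRight (at1 (dF f) x) + f x • at2 (dG s) x
  rw [h3, h4]

theorem dF_const_mul_at {f : M → ℝ} {x : M} (r : ℝ) (hf : SmAtF E f x) :
    at1 (dF (E := E) (fun y => r * f y)) x = r • at1 (dF (E := E) f) x := by
  show fderiv ℝ (fun y => r * repF x f y) _ = _
  rw [fderiv_const_mul (ContDiffAt.differentiableAt hf infty_ne_zero)]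
  rfl

end General

section Four

variable {M : Type u} [TopologicalSpace M] [ChartedSpace E4 M] [IsManifold 𝓘(ℝ, E4) ∞ M]
  [T2Space M] [CompactSpace M]

/-- local integral data of a closed one-form. -/
structure Int1 (G : RGC M) (s : F1 E4 M) (f : Fin G.n → M → ℝ) (m : Fin G.n → Fin G.n → ℤ) :
    Prop where
  sm : ∀ i x, x ∈ G.B i → SmAtF E4 (f i) x
  d : ∀ i x, x ∈ G.B i → at1 (dF (E := E4) (f i)) x = at1 s x
  c : ∀ i j x, x ∈ G.B i → x ∈ G.B j → f i x - f j x = m i j

theorem dG_closed1 {s : F1 E4 M} (hs : Closed1 s) (x : M) : at2 (dG s) x = 0 :=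
  hs.2 x _ (mem_chart_target E4 x)

/-- **cup product**: Čech data of `s ∧ t`. -/
theorem cup_data {G : RGC M} {s t : F1 E4 M} (ht : Closed1 t)
    {f g : Fin G.n → M → ℝ} {m n : Fin G.n → Fin G.n → ℤ} (hs' : Int1 G s f m)
    (ht' : Int1 G t g n) :
    CData G.B (wedG s t) (fun i => fmul1 (f i) t) (fun i j x => (m i j : ℝ) * g j x)
      (fun i j k => (m i j : ℝ) * n j k) where
  smA i x hx := SmAt1.fmul (hs'.sm i x hx) (smAt1_of_smooth ht.1 x)
  dA i x hx := by
    rw [dG_fmul1_at (G.isOpen i) hx (hs'.sm i) ht.1]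
    show (at1 (dF (f i)) x).smulRight (at1 t x) - (at1 t x).smulRight (at1 (dF (f i)) x) +
      f i x • at2 (dG t) x = (at1 s x).smulRight (at1 t x) - (at1 t x).smulRight (at1 s x)
    rw [hs'.d i x hx, dG_closed1 ht, smul_zero, add_zero]
  smf i j x _ hj := by
    have h := ht'.sm j x hj
    exact ContDiffAt.mul contDiffAt_const h
  df i j x hi hj := by
    rw [dF_const_mul_at _ (ht'.sm j x hj), ht'.d j x hj]
    show f i x • at1 t x - f j x • at1 t x = _
    rw [← sub_smul, hs'.c i j x hi hj]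
  coc i j k x hi hj hk := by
    have e1 := hs'.c i j x hi hj
    have e2 := hs'.c j k x hj hk
    have e3 := hs'.c i k x hi hk
    have e4 := ht'.c j k x hj hk
    have e5 : (m i k : ℝ) = m i j + m j k := by rw [← e1, ← e2, ← e3]; ring
    rw [e5, ← e4]
    ring

/-- the product of integral classes is in the integral lattice. -/
theorem cls_wed_mem {G : RGC M} {s t : F1 E4 M} (ht : Closed1 t)
    {f g : Fin G.n → M → ℝ} {m n : Fin G.n → Fin G.n → ℤ} (hs' : Int1 G s f m)
    (ht' : Int1 G t g n) {a : Ch.Z2 M} (ha : (a.1.1 : F2 E4 M) = wedG s t) :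
    cls a ∈ Lt G := by
  have h := cup_data ht hs' ht'
  rw [← ha] at h
  have h1 := cls_eq_tauZ (pun G) h
  have hz : IsZ2 G.B (fun i j k => m i j * n j k) := by
    rintro i j k l ⟨x, ⟨⟨hi, hj⟩, hk⟩, hl⟩
    have := h.isCoc i j k l ⟨x, hi, hj, hk, hl⟩
    beta_reduce at this
    exact_mod_cast this
  refine ⟨⟨fun i j k => m i j * n j k, hz⟩, ?_⟩
  rw [clsZ_apply, h1]
  congr 1
  apply Subtype.ext
  apply Subtype.ext
  show tau (E := E4) G.ψ _ = tau G.ψ _
  congr 1
  funext i j k
  push_cast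
  rfl

end Four

end

end Crest.Agent.R235.Cup1_524
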