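import Mathlib
import Crest.Agent.R235.SiuM_4

/-!
Row 235 (S0364), PACKAGE CUR, nodes QUANT, CUR3 (helper4): quantisation of the mass, and the
decomposition `S = Σ t_i C_i + S'`, `C_i` of density one, `S'` of density `< a`.
-/

set_option autoImplicit false
set_option maxSynthPendingDepth 3
set_option linter.unusedSectionVars false

open Set Function Filter MeasureTheory Metric
open scoped Manifold ContDiff Topology ENNReal NNReal

universe u

namespace Crest.Agent.R235.Cur3_4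

open Crest.Agent.R240 Crest.Agent.R240.Ch Crest.Agent.R240.En4 Crest.Agent.R240.Pol
  Crest.Agent.R235.T1_195 Crest.Agent.R235.CurDens_4 Crest.Agent.R235.AtomsC_4
  Crest.Agent.R235.CurDefs_132 Crest.Agent.R235.DenM_4 Crest.Agent.R235.ChLC_4
  Crest.Agent.R235.Curves_489

noncomputable section

section

variable {M : Type u} [MetricSpace M] [CompactSpace M] [ChartedSpace E4 M]
    [IsManifold 𝓘(ℝ, E4) ∞ M] [MeasurableSpace M] [BorelSpace M]

/-- the ellipsoids in a fixed chart, uniformly in a ball. -/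
theorem exists_ellP_unif (D : Dat M) {p : M} {x0 : E4} {R : ℝ} (hR : 0 < R)
    (hsub : closedBall x0 (3 * R) ⊆ (chartAt E4 p).target) : ∃ c : ℝ, 0 < c ∧
      ∀ x ∈ (chartAt E4 p).source, chartAt E4 p x ∈ ball x0 R →
        ∀ᶠ r in 𝓝[>] (0 : ℝ), ellP D p x r ⊆ ball x (c * r) := by
  have h2sub : closedBall x0 (2 * R) ⊆ (chartAt E4 p).target :=
    (closedBall_subset_closedBall (by linarith)).trans hsub
  obtain ⟨m, M', hbd⟩ := ChDens.exists_Bd D p (isCompact_closedBall x0 (2 * R)) h2sub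
  obtain ⟨c1, C1, hc1, hC1, hbl⟩ := D.bl p (closedBall x0 (2 * R)) (isCompact_closedBall _ _) h2sub
  have hm : 0 < m := (hbd x0 (mem_closedBall_self (by positivity))).m_pos
  have hsm : 0 < √m := Real.sqrt_pos.2 hm
  refine ⟨C1 / √m, by positivity, fun x hx hy => ?_⟩
  filter_upwards [ev_le (show 0 < √m * R by positivity)] with r hr
  rintro z ⟨hzs, hzg⟩
  have hyc : chartAt E4 p x ∈ closedBall x0 (2 * R) :=
    ball_subset_closedBall (ball_subset_ball (by linarith) hy)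
  have h1 : m * ‖chartAt E4 p z - chartAt E4 p x‖ ^ 2 ≤
      gp D p x (chartAt E4 p z - chartAt E4 p x) := (hbd _ hyc).lo _
  have h2 : (√m * ‖chartAt E4 p z - chartAt E4 p x‖) ^ 2 < r ^ 2 := by
    rw [mul_pow, Real.sq_sqrt hm.le]
    exact h1.trans_lt hzg
  have h3 : √m * ‖chartAt E4 p z - chartAt E4 p x‖ < r := lt_of_pow_lt_pow_left₀ 2 hr.1.le h2
  have h4 : ‖chartAt E4 p z - chartAt E4 p x‖ ≤ R :=
    le_of_mul_le_mul_left (h3.le.trans hr.2) hsm
  have hzc : chartAt E4 p z ∈ closedBall x0 (2 * R) := by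
    rw [mem_closedBall, dist_eq_norm]
    rw [mem_ball, dist_eq_norm] at hy
    calc ‖chartAt E4 p z - x0‖ = ‖(chartAt E4 p z - chartAt E4 p x) + (chartAt E4 p x - x0)‖ := by
          rw [sub_add_sub_cancel]
      _ ≤ ‖chartAt E4 p z - chartAt E4 p x‖ + ‖chartAt E4 p x - x0‖ := norm_add_le _ _
      _ ≤ 2 * R := by linarith
  have h5 := (hbl _ hzc _ hyc).2
  rw [(chartAt E4 p).left_inv hzs, (chartAt E4 p).left_inv hx] at h5
  rw [mem_ball]
  calc dist z x ≤ C1 * ‖chartAt E4 p z - chartAt E4 p x‖ := h5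
    _ = C1 / √m * (√m * ‖chartAt E4 p z - chartAt E4 p x‖) := by field_simp
    _ < C1 / √m * r := by gcongr

/-- **QUANT**: the density is at most a constant times the mass. -/
theorem exists_quant (D : Dat M) : ∃ B : ℝ, 0 < B ∧ ∀ (Φ : X2 M →ₗ[ℝ] ℝ) (s : Measure M),
    Cur D Φ s → ∀ (x : M) (θ : ℝ),
      Tendsto (fun r => s.real (ell D x r) / (Real.pi * r ^ 2)) (𝓝[>] 0) (𝓝 θ) →
      θ ≤ B * s.real univ := by
  classical
  obtain ⟨K, hK, hgr⟩ := GrowthU_4.growthU D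
  obtain ⟨P, -⟩ := exists_ballPU_le M
  have h1 : ∀ i : M, _ := fun i => exists_ellP_unif D (P.R_pos i) (P.sub i)
  choose c hc hce using h1
  have hpi := Real.pi_pos
  refine ⟨∑ i ∈ P.t, K * c i ^ 2 / Real.pi + 1, ?_, fun Φ s hΦ x θ hθ => ?_⟩
  · have : 0 ≤ ∑ i ∈ P.t, K * c i ^ 2 / Real.pi := Finset.sum_nonneg fun i _ => by positivity
    linarith
  have hfin := hΦ.fin
  obtain ⟨i, hi, hx⟩ := pc_cover P x
  have h2 := (den_indep D hx.1 s).2 hθ
  have h3 : θ ≤ K * c i ^ 2 / Real.pi * s.real univ := by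
    refine le_of_tendsto h2 ?_
    filter_upwards [hce i x hx.1 hx.2, self_mem_nhdsWithin] with r hr hr0
    have hr0 : 0 < r := hr0
    have hci := hc i
    have h4 : s.real (ellP D i x r) ≤ K * s.real univ * (c i * r) ^ 2 :=
      (measureReal_mono hr (measure_ne_top s _)).trans (hgr Φ s hΦ x _ (by positivity))
    rw [div_le_iff₀ (by positivity)]
    calc s.real (ellP D i x r) ≤ K * s.real univ * (c i * r) ^ 2 := h4
      _ = K * c i ^ 2 / Real.pi * s.real univ * (Real.pi * r ^ 2) := by field_simp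
  have h5 : K * c i ^ 2 / Real.pi ≤ ∑ i ∈ P.t, K * c i ^ 2 / Real.pi :=
    Finset.single_le_sum (f := fun i => K * c i ^ 2 / Real.pi) (fun i _ => by positivity) hi
  have h6 : 0 ≤ s.real univ := measureReal_nonneg
  calc θ ≤ K * c i ^ 2 / Real.pi * s.real univ := h3
    _ ≤ (∑ i ∈ P.t, K * c i ^ 2 / Real.pi + 1) * s.real univ := by
      gcongr
      linarith

/-- the input of the Siu decomposition. -/
theorem exists_inp (hS : SIUL) {D : Dat M} (hAK : AK D) {Φ : X2 M →ₗ[ℝ] ℝ} {s : Measure M}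
    [IsFiniteMeasure s] (hΦ : Cur D Φ s) {τ : F2 E4 M} (hτ : Den D Φ s τ) :
    ∃ Θ : M → ℝ, Inp (kM D) hτ.dn Θ := by
  obtain ⟨Θ, hΘm, -, hΘd, hΘc⟩ := sium0 hS D (SiuM_4.FX_mem hAK) hΦ hτ
  obtain ⟨B, hB, hBq⟩ := exists_quant D
  refine ⟨Θ, isKer_kM D, hΘc, hΘm, (SiuM_4.isNu_iff D s Θ).2 hΘd, fun A hA => ?_,
    fun a ha => ⟨a / B, by positivity, fun A hA ν' hν' x hx => ?_⟩⟩
  · obtain ⟨Θ', -, -, hΘ', -⟩ := sium0 hS D (SiuM_4.FX_mem hAK)
      ((hτ.dn.restrict (Θ ⁻¹' A)).toCur (hΘc A hA)) (hτ.dn.restrict (Θ ⁻¹' A)).den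
    exact ⟨Θ', (SiuM_4.isNu_iff D _ Θ').2 hΘ'⟩
  · have h1 := hBq _ _ ((hτ.dn.restrict (Θ ⁻¹' A)).toCur (hΘc A hA)) x (ν' x)
      ((SiuM_4.isNu_iff D _ ν').1 hν' x)
    rw [measureReal_restrict_apply MeasurableSet.univ, univ_inter] at h1
    rw [div_le_iff₀ hB, mul_comm]
    exact hx.trans h1

end

theorem sum_enum {β : Type*} [AddCommMonoid β] (Fa : Finset ℝ) (f : ℝ → β) :
    ∑ i, f (Fa.equivFin.symm i : ℝ) = ∑ x ∈ Fa, f x := by
  rw [← Finset.sum_coe_sort Fa f]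
  exact Equiv.sum_comp Fa.equivFin.symm (fun x : Fa => f x)

/-- **CUR3**. -/
theorem cur3_of (hS : SIUL) : CUR3.{u} := by
  classical
  intro M _ _ _ _ _ _ D hAK Φ s hΦ a ha
  have hfin := hΦ.fin
  obtain ⟨τ, hτ⟩ := cur_exists_den hΦ
  obtain ⟨Θ, H⟩ := exists_inp hS hAK hΦ hτ
  obtain ⟨F, hFc, hF1, hone, hFf, hFae, hdec, -, -, -⟩ := siu H
  set Fa : Finset ℝ := (hFf a ha).toFinset with hFa
  have hFa' : (Fa : Set ℝ) = F ∩ Ici a := by rw [hFa, Finite.coe_toFinset]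
  have hmem : ∀ t ∈ Fa, t ∈ F ∧ a ≤ t := by
    intro t ht
    have : t ∈ (Fa : Set ℝ) := ht
    rw [hFa'] at this
    exact this
  set e := Fa.equivFin with he
  set t : Fin Fa.card → ℝ := fun i => (e.symm i : ℝ) with ht
  have htm : ∀ i, t i ∈ Fa := fun i => (e.symm i).2
  have hm := H.meas
  have hpos : ∀ i, 0 < t i := fun i => ha.trans_le (hmem _ (htm i)).2
  have hres : ∀ c : ℝ, 0 < c → ENNReal.ofReal c • cm s Θ c = s.restrict (Θ ⁻¹' {c}) := by
    intro c hc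
    unfold cm
    rw [smul_smul, ← ENNReal.ofReal_mul hc.le, mul_inv_cancel₀ hc.ne', ENNReal.ofReal_one,
      one_smul]
  refine ⟨Fa.card, t, fun i => (cm_dn hτ.dn Θ (t i)).cur, fun i => cm s Θ (t i),
    (hτ.dn.restrict (Θ ⁻¹' Iio a)).cur, s.restrict (Θ ⁻¹' Iio a), fun i => ?_,
    (hτ.dn.restrict _).toCur (H.closed _ measurableSet_Iio), ?_, ?_, ?_⟩
  · have h1 := hone (t i) (hmem _ (htm i)).1
    refine ⟨(hmem _ (htm i)).2, h1.cur, ?_, ?_⟩
    · intro h0
      have h0 : cm s Θ (t i) = 0 := h0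
      have h2 := hres (t i) (hpos i)
      rw [h0, smul_zero] at h2
      apply (hF1 (t i) (hmem _ (htm i)).1).2
      have h3 := congrArg (fun μ : Measure M => μ univ) h2
      simp only [Measure.restrict_apply MeasurableSet.univ, univ_inter] at h3
      rw [← h3]
      rfl
    · obtain ⟨ν, hν, hν1⟩ := h1.one
      filter_upwards [hν1] with x hx
      rw [← hx]
      exact (SiuM_4.isNu_iff D _ ν).1 hν x
  · obtain ⟨ν', hν'⟩ := H.lim (Iio a) measurableSet_Iio
    have h1 := nu_restrict H.ker D.bl hΦ.growth (hm measurableSet_Iio) H.nu hν'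
    rw [ae_restrict_iff' (hm measurableSet_Iio)]
    filter_upwards [h1] with x hx hxa
    have h2 := hx hxa
    refine ⟨Θ x, H.nu.nonneg H.ker x, hxa, ?_, (SiuM_4.isNu_iff D s Θ).1 H.nu x⟩
    rw [← h2]
    exact (SiuM_4.isNu_iff D _ ν').1 hν' x
  · ext b
    have h1 := hdec a ha Fa hFa' b
    have h2 : Φ b = hτ.dn.cur b := by rw [hτ.rep]; rfl
    rw [h2, h1, LinearMap.add_apply, LinearMap.sum_apply]
    congr 1
    rw [← sum_enum Fa (fun c => c * (cm_dn hτ.dn Θ c).cur b)]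
    rfl
  · have h1 : ∑ i, ENNReal.ofReal (t i) • cm s Θ (t i) = ∑ i, s.restrict (Θ ⁻¹' {t i}) :=
      Finset.sum_congr rfl fun i _ => hres (t i) (hpos i)
    rw [h1, sum_enum Fa (fun c => s.restrict (Θ ⁻¹' {c}))]
    have h2 : ∑ c ∈ Fa, s.restrict (Θ ⁻¹' {c}) = s.restrict (⋃ c ∈ Fa, Θ ⁻¹' {c}) := by
      rw [Measure.restrict_biUnion_finset]
      · rw [Measure.sum_fintype, Finset.sum_coe_sort Fa (fun c => s.restrict (Θ ⁻¹' {c}))]
      · intro c _ c' _ hcc
        exact Disjoint.preimage _ (by simpa using hcc)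
      · intro c
        exact hm (measurableSet_singleton c)
    have h3 : (⋃ c ∈ Fa, Θ ⁻¹' {c} : Set M) =ᵐ[s] ((Θ ⁻¹' Iio a)ᶜ : Set M) := by
      refine eventuallyEq_set.2 ?_
      filter_upwards [hFae] with x hx
      simp only [mem_iUnion, mem_preimage, mem_singleton_iff, exists_prop, mem_compl_iff, mem_Iio,
        not_lt]
      constructor
      · rintro ⟨c, hc, rfl⟩
        exact (hmem _ hc).2
      · intro hxa
        refine ⟨Θ x, ?_, rfl⟩
        have : Θ x ∈ (Fa : Set ℝ) := by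
          rw [hFa']
          exact ⟨hx (ha.trans_le hxa), hxa⟩
        exact this
    rw [h2, Measure.restrict_congr_set h3, add_comm]
    exact (Measure.restrict_add_restrict_compl (hm measurableSet_Iio)).symm

end

end Crest.Agent.R235.Cur3_4
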