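import Mathlib
import Crest.Agent.R235.CurDefs_132

/-!
Row 235 (S0364), PACKAGE CUR, leaf CLO (helper505): `H(ν) S` is closed.
-/

set_option autoImplicit false
set_option maxSynthPendingDepth 3

open Set Function Filter MeasureTheory Metric
open scoped ContDiff ENNReal Manifold Topology

namespace Crest.Agent.R235.CurClo_505

open Crest.Agent.R240 Crest.Agent.R240.En Crest.Agent.R240.Pot Crest.Agent.R235.CurDefs_132

noncomputable section

/-! ### measurability -/

theorem meas_ent {X : Type*} [MeasurableSpace X] {f : X → Bil} (hf : Measurable f)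
    (i j : Fin 4) : Measurable fun x => ent (f x) i j := by
  have h : Continuous fun b : Bil => b (ee i) (ee j) := by fun_prop
  exact h.measurable.comp hf

theorem meas_W {X : Type*} [MeasurableSpace X] {f g : X → Bil}
    (h : ∀ i j, Measurable fun x => ent (f x) i j)
    (h' : ∀ i j, Measurable fun x => ent (g x) i j) : Measurable fun x => W (f x) (g x) := by
  unfold W
  exact (((((((h 0 1).mul (h' 2 3)).sub ((h 0 2).mul (h' 1 3))).add ((h 0 3).mul (h' 1 2))).add
    ((h 1 2).mul (h' 0 3))).sub ((h 1 3).mul (h' 0 2))).add ((h 2 3).mul (h' 0 1)))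

theorem meas_q {X : Type*} [MeasurableSpace X] {f g k : X → Bil}
    (hf : ∀ i j, Measurable fun x => ent (f x) i j)
    (hg : ∀ i j, Measurable fun x => ent (g x) i j)
    (hk : ∀ i j, Measurable fun x => ent (k x) i j) : Measurable fun x => q (f x) (g x) (k x) :=
  (meas_W hg hk).div (meas_W hf hf)

theorem meas_wed {X : Type*} [MeasurableSpace X] {a b : X → Cov}
    (ha : ∀ i, Measurable fun x => a x (ee i)) (hb : ∀ i, Measurable fun x => b x (ee i))
    (i j : Fin 4) : Measurable fun x => ent (wed (a x) (b x)) i j := by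
  unfold ent
  simp only [wed_apply]
  exact ((ha i).mul (hb j)).sub ((hb i).mul (ha j))

namespace LC

variable (D : LC)

theorem meas_F : Measurable D.F := D.smF.continuous.measurable

theorem meas_J : Measurable D.J := D.smJ.continuous.measurable

theorem alt_φ (y : E4) : Alt (D.φ y) := (D.pos y).alt

theorem cont_dy (h : GEO1) : Continuous fun p : E4 × E4 => D.dy p.1 p.2 := by
  obtain ⟨hc, -, -⟩ := h D
  have h1 : ∀ p : E4 × E4, D.dy p.1 p.2 =
      (fderiv ℝ (fun z : E4 × E4 => D.rho2 z.1 z.2) p).comp (ContinuousLinearMap.inr ℝ E4 E4) := by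
    intro p
    have h2 : HasFDerivAt (fun z : E4 × E4 => D.rho2 z.1 z.2)
        (fderiv ℝ (fun z : E4 × E4 => D.rho2 z.1 z.2) (p.1, p.2)) (p.1, p.2) :=
      ((hc.differentiable (by simp)) _).hasFDerivAt
    have h3 : HasFDerivAt (fun z : E4 => (p.1, z)) (ContinuousLinearMap.inr ℝ E4 E4) p.2 :=
      hasFDerivAt_prodMk_right p.1 p.2
    exact (h2.comp p.2 h3).fderiv
  have h4 : Continuous fun p : E4 × E4 =>
      (fderiv ℝ (fun z : E4 × E4 => D.rho2 z.1 z.2) p).comp (ContinuousLinearMap.inr ℝ E4 E4) :=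
    (hc.continuous_fderiv (by simp)).clm_comp continuous_const
  simpa only [h1] using h4

theorem meas_De (h : GEO1) : Measurable fun p : E4 × E4 => D.De p.1 p.2 := by
  have hdy := cont_dy D h
  have e1 : ∀ i, Measurable fun p : E4 × E4 => D.dy p.1 p.2 (ee i) := fun i =>
    (hdy.clm_apply continuous_const).measurable
  have e2 : ∀ i, Measurable fun p : E4 × E4 => Jc (D.J p.2) (D.dy p.1 p.2) (ee i) := by
    intro i
    simp only [Jc_apply]
    have : Continuous fun p : E4 × E4 => D.dy p.1 p.2 (D.J p.2 (ee i)) :=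
      hdy.clm_apply ((D.smJ.continuous.comp continuous_snd).clm_apply continuous_const)
    exact this.measurable.neg
  have e3 := meas_ent ((meas_F D).comp (measurable_snd (α := E4) (β := E4)))
  have e4 := meas_ent (D.meas.comp (measurable_snd (α := E4) (β := E4)))
  unfold LC.De defi
  exact ((meas_q e3 e3 (meas_wed e1 e2)).const_mul 2).sub (meas_q e3 e4 (meas_wed e1 e2))

theorem meas_qx : Measurable fun p : E4 × E4 => D.qx p.1 p.2 := by
  unfold LC.qx
  exact meas_q (meas_ent ((meas_F D).comp measurable_fst)) (meas_ent (D.meas.comp measurable_fst))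
    (meas_ent (D.meas.comp measurable_snd))

/-- the integrand of `GRA`. -/
def gi (x y : E4) : ℝ := √(D.De x y) * √(|D.qx x y| + ‖y - x‖ ^ 2)

theorem meas_gi (h : GEO1) : Measurable fun p : E4 × E4 => gi D p.1 p.2 := by
  unfold gi
  have h1 := (meas_De D h).sqrt
  have h2 : Measurable fun p : E4 × E4 => ‖p.2 - p.1‖ ^ 2 := by fun_prop
  have h3 := (((meas_qx D).norm.add h2)).sqrt
  exact h1.mul h3

/-- the inner integral as a function of the centre is measurable. -/
theorem meas_inner {g : E4 × E4 → ℝ} (hg : Measurable g) (ρ : ℝ) :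
    Measurable fun x => ∫ y in ball x ρ, g (x, y) ∂D.s := by
  have := D.fin
  have h1 : MeasurableSet {p : E4 × E4 | dist p.2 p.1 < ρ} :=
    measurableSet_lt (by fun_prop) measurable_const
  have h2 : StronglyMeasurable ({p : E4 × E4 | dist p.2 p.1 < ρ}.indicator g) :=
    (hg.indicator h1).stronglyMeasurable
  have h3 := h2.integral_prod_right' (ν := D.s)
  have h4 : (fun x => ∫ y in ball x ρ, g (x, y) ∂D.s) =
      fun x => ∫ y, {p : E4 × E4 | dist p.2 p.1 < ρ}.indicator g (x, y) ∂D.s := by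
    funext x
    rw [← integral_indicator measurableSet_ball]
    rfl
  rw [h4]
  exact h3.measurable

theorem bd_gi (h : GEO1) (h4 : LIN4) : ∃ B : ℝ, 0 ≤ B ∧ ∀ x y, ‖y - x‖ ≤ 1 → |gi D x y| ≤ B := by
  obtain ⟨-, -, C, hC, hb⟩ := h D
  obtain ⟨Cq, hCq, h4'⟩ := h4 D.m D.M D.L
  have hφ := fun y => h4' (D.J y) (D.F y) (D.bd y) (D.bJ y) (D.φ y) (D.pos y) (D.nrm y)
  refine ⟨√(Cq * C ^ 2) * √(Cq * Cq + 1), by positivity, fun x y hxy => ?_⟩
  have hn : (0 : ℝ) ≤ ‖y - x‖ := norm_nonneg _
  unfold gi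
  rw [abs_of_nonneg (by positivity)]
  refine mul_le_mul (Real.sqrt_le_sqrt ?_) (Real.sqrt_le_sqrt ?_) (Real.sqrt_nonneg _)
    (Real.sqrt_nonneg _)
  · refine ((hφ y).2.2.2.1 _).trans ?_
    have h1 := (hb x y hxy).2.1
    have h2 : ‖D.dy x y‖ ≤ C := h1.trans (by nlinarith)
    have h3 : ‖D.dy x y‖ ^ 2 ≤ C ^ 2 := by gcongr
    exact mul_le_mul_of_nonneg_left h3 hCq
  · have h1 : |D.qx x y| ≤ Cq * Cq :=
      ((hφ x).2.1 _ (alt_φ D y)).trans (mul_le_mul_of_nonneg_left (hφ y).1 hCq)
    have h2 : ‖y - x‖ ^ 2 ≤ 1 := by nlinarith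
    linarith

theorem int_gi (h : GEO1) (h4 : LIN4) {ρ : ℝ} (hρ : ρ ≤ 1) (A : Set E4) :
    IntegrableOn (fun x => ∫ y in ball x ρ, gi D x y ∂D.s) A D.s := by
  have := D.fin
  obtain ⟨B, hB0, hB⟩ := bd_gi D h h4
  refine Integrable.of_bound (C := B * D.s.real univ) ?_ ?_
  · exact (meas_inner D (meas_gi D h) ρ).aestronglyMeasurable
  · refine Eventually.of_forall fun x => ?_
    have h1 : ‖∫ y in ball x ρ, gi D x y ∂D.s‖ ≤ B * D.s.real (ball x ρ) := by
      refine norm_setIntegral_le_of_norm_le_const (measure_lt_top _ _) fun y hy => ?_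
      rw [Real.norm_eq_abs]
      refine hB x y ?_
      rw [mem_ball, dist_eq_norm] at hy
      linarith
    refine h1.trans (mul_le_mul_of_nonneg_left ?_ hB0)
    exact measureReal_mono (subset_univ _)

/-- integrability of the pairing with a continuous compactly supported form. -/
theorem int_q (h4 : LIN4) {β : E4 → Bil} (hc : Continuous β) (hs : HasCompactSupport β)
    (ha : ∀ y, Alt (β y)) : Integrable (fun y => q (D.F y) (D.φ y) (β y)) D.s := by
  have := D.fin
  obtain ⟨Cq, hCq, h4'⟩ := h4 D.m D.M D.L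
  have hφ := fun y => h4' (D.J y) (D.F y) (D.bd y) (D.bJ y) (D.φ y) (D.pos y) (D.nrm y)
  obtain ⟨B, hB⟩ := hs.exists_bound_of_continuous hc
  refine Integrable.of_bound (C := Cq * B) ?_ ?_
  · exact (meas_q (meas_ent (meas_F D)) (meas_ent D.meas)
      (meas_ent hc.measurable)).aestronglyMeasurable
  · refine Eventually.of_forall fun y => ?_
    rw [Real.norm_eq_abs]
    exact ((hφ y).2.1 _ (ha y)).trans (mul_le_mul_of_nonneg_left (hB y) hCq)

end LC

theorem cont_d1 {S : E4 → Cov} (hS : ContDiff ℝ ∞ S) : Continuous (d1 S) := by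
  have h1 : Continuous (fderiv ℝ S) := hS.continuous_fderiv (by simp)
  have h2 : Continuous fun y => (fderiv ℝ S y).flip :=
    (ContinuousLinearMap.flipₗᵢ ℝ E4 E4 ℝ).continuous.comp h1
  exact h1.sub h2

theorem d1_zero_of_notMem {S : E4 → Cov} {y : E4} (hy : y ∉ tsupport S) : d1 S y = 0 := by
  have h1 : fderiv ℝ S y = 0 := by
    by_contra h
    exact hy (support_fderiv_subset ℝ h)
  unfold d1
  rw [h1]
  ext u v
  simp

theorem cpt_d1 {S : E4 → Cov} (hS : HasCompactSupport S) : HasCompactSupport (d1 S) := by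
  refine HasCompactSupport.intro hS fun y hy => d1_zero_of_notMem hy

theorem tsupp_smul (g : E4 → ℝ) (S : E4 → Cov) : tsupport (fun y => g y • S y) ⊆ tsupport S := by
  refine closure_mono fun y hy h0 => hy ?_
  simp only [h0, smul_zero]

theorem cpt_smul {g : E4 → ℝ} {S : E4 → Cov} (hS : HasCompactSupport S) :
    HasCompactSupport fun y => g y • S y := by
  refine HasCompactSupport.intro hS fun y hy => ?_
  rw [image_eq_zero_of_notMem_tsupport hy, smul_zero]

theorem q_smul_right' (F b c : Bil) (t : ℝ) : q F b (t • c) = t * q F b c := by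
  unfold q; rw [W_smul_right]; ring

/-- **CLO.** -/
theorem clo (hgra : GRA) (hgri : GRI) (hmon : MON) (h4 : LIN4) (hgeo : GEO1) : CLO := by
  intro D δ K hδ hδ1 hK ν hν hlim H hH S hS hSc hSs
  have := D.fin
  obtain ⟨C0, r0, hC0, hr0, -, hb, -⟩ := hmon D δ K hδ hδ1 hK
  obtain ⟨C1, r1, a, hC1, hr1, ha, hg⟩ := hgra D δ K hδ hδ1 hK
  obtain ⟨Cq, hCq, h4'⟩ := h4 D.m D.M D.L
  have hφ := fun y => h4' (D.J y) (D.F y) (D.bd y) (D.bJ y) (D.φ y) (D.pos y) (D.nrm y)
  obtain ⟨B0, hB0⟩ : ∃ B, ∀ t ∈ Icc 0 C0, ‖H t‖ ≤ B :=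
    isCompact_Icc.exists_bound_of_continuousOn hH.continuous.continuousOn
  obtain ⟨B1, hB1⟩ : ∃ B, ∀ t ∈ Icc 0 C0, ‖deriv H t‖ ≤ B :=
    isCompact_Icc.exists_bound_of_continuousOn (hH.continuous_deriv (by simp)).continuousOn
  obtain ⟨BS, hBS⟩ := hSc.exists_bound_of_continuous hS.continuous
  have hB1' : 0 ≤ B1 := (norm_nonneg _).trans (hB1 0 ⟨le_rfl, hC0⟩)
  have hBS' : 0 ≤ BS := (norm_nonneg _).trans (hBS 0)
  have hmem : ∀ x r, 0 < r → D.nuR K r x ∈ Icc 0 C0 := fun x r hr => hb x r hr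
  have hdS : Integrable (fun y => q (D.F y) (D.φ y) (d1 S y)) D.s :=
    LC.int_q D h4 (cont_d1 hS) (cpt_d1 hSc) (fun y => alt_d1 S y)
  have hmq : Measurable fun y => q (D.F y) (D.φ y) (d1 S y) :=
    meas_q (meas_ent (LC.meas_F D)) (meas_ent D.meas) (meas_ent (cont_d1 hS).measurable)
  -- claim A
  have hA : Tendsto (fun r => ∫ y, H (D.nuR K r y) * q (D.F y) (D.φ y) (d1 S y) ∂D.s) (𝓝[>] 0)
      (𝓝 (∫ y, H (ν y) * q (D.F y) (D.φ y) (d1 S y) ∂D.s)) := by
    refine tendsto_integral_filter_of_dominated_convergence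
      (fun y => B0 * ‖q (D.F y) (D.φ y) (d1 S y)‖) ?_ ?_ (hdS.norm.const_mul B0) ?_
    · have h1 : ∀ᶠ r in 𝓝[>] (0 : ℝ), r ∈ Ioc 0 r1 := Ioc_mem_nhdsGT hr1
      filter_upwards [h1] with r hr
      have h2 : Continuous (D.nuR K r) := (hg r hr.1 hr.2).1.continuous
      exact ((hH.continuous.comp h2).measurable.mul hmq).aestronglyMeasurable
    · filter_upwards [self_mem_nhdsWithin] with r hr
      refine Eventually.of_forall fun y => ?_
      rw [norm_mul]
      exact mul_le_mul_of_nonneg_right (hB0 _ (hmem y r hr)) (norm_nonneg _)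
    · refine Eventually.of_forall fun y => ?_
      by_cases hy : y ∈ tsupport S
      · have h1 := hlim y (hSs hy)
        exact ((hH.continuous.tendsto _).comp h1).mul_const _
      · have h1 : q (D.F y) (D.φ y) (d1 S y) = 0 := by
          rw [d1_zero_of_notMem hy]
          have := q_smul_right' (D.F y) (D.φ y) 0 0
          rwa [zero_smul, zero_mul] at this
        simp only [h1, mul_zero]
        exact tendsto_const_nhds
  -- claim B
  have hB : ∀ r, 0 < r → r ≤ r1 → a * r ≤ 1 →
      ‖∫ y, H (D.nuR K r y) * q (D.F y) (D.φ y) (d1 S y) ∂D.s‖ ≤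
        B1 * C1 * BS * ((r ^ 4)⁻¹ * (∫ x in ball D.x0 (2 * D.R), ∫ y in ball x (a * r),
          √(D.De x y) * √(|D.qx x y| + ‖y - x‖ ^ 2) ∂D.s ∂D.s) + r * D.s.real univ) := by
    intro r hr hrr har
    obtain ⟨hf, hgr⟩ := hg r hr hrr
    set f := D.nuR K r with hfdef
    have hT : ContDiff ℝ ∞ fun y => H (f y) • S y := (hH.comp hf).smul hS
    have hTc : HasCompactSupport fun y => H (f y) • S y := cpt_smul hSc
    have hTs : tsupport (fun y => H (f y) • S y) ⊆ ball D.x0 (4 * D.R) := by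
      refine (tsupp_smul (fun y => H (f y)) S).trans (hSs.trans (ball_subset_ball ?_))
      have := D.R_pos
      linarith
    have hcl := D.closed _ hT hTc hTs
    have hfd : ∀ y, fderiv ℝ (fun z => H (f z)) y = deriv H (f y) • fderiv ℝ f y := by
      intro y
      have h1 : HasDerivAt H (deriv H (f y)) (f y) :=
        ((hH.differentiable (by simp)) _).hasDerivAt
      have h2 : HasFDerivAt f (fderiv ℝ f y) y := ((hf.differentiable (by simp)) _).hasFDerivAt
      exact (h1.comp_hasFDerivAt y h2).fderiv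
    have hexp : ∀ y, q (D.F y) (D.φ y) (d1 (fun y => H (f y) • S y) y) =
        deriv H (f y) * q (D.F y) (D.φ y) (wed (fderiv ℝ f y) (S y)) +
          H (f y) * q (D.F y) (D.φ y) (d1 S y) := by
      intro y
      have h1 : d1 (fun y => H (f y) • S y) y =
          wed (fderiv ℝ (fun z => H (f z)) y) (S y) + H (f y) • d1 S y :=
        d1_smul ((hH.comp hf).differentiable (by simp) y) (hS.differentiable (by simp) y)
      rw [h1, hfd, En.wed_smul_left, q_add_right, q_smul_right', q_smul_right']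
    have hint : Integrable (fun y => q (D.F y) (D.φ y) (d1 (fun y => H (f y) • S y) y)) D.s :=
      LC.int_q D h4 (cont_d1 hT) (cpt_d1 hTc) (fun y => alt_d1 _ y)
    have hint2 : Integrable (fun y => H (f y) * q (D.F y) (D.φ y) (d1 S y)) D.s := by
      refine Integrable.mono' (hdS.norm.const_mul B0)
        ((hH.continuous.comp hf.continuous).measurable.mul hmq).aestronglyMeasurable
        (Eventually.of_forall fun y => ?_)
      rw [norm_mul]
      exact mul_le_mul_of_nonneg_right (hB0 _ (hmem y r hr)) (norm_nonneg _)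
    have hint1 : Integrable
        (fun y => deriv H (f y) * q (D.F y) (D.φ y) (wed (fderiv ℝ f y) (S y))) D.s := by
      have h1 := hint.sub hint2
      refine h1.congr (Eventually.of_forall fun y => ?_)
      simp only [Pi.sub_apply]
      rw [hexp]; ring
    have hsum : ∫ y, H (f y) * q (D.F y) (D.φ y) (d1 S y) ∂D.s =
        - ∫ y, deriv H (f y) * q (D.F y) (D.φ y) (wed (fderiv ℝ f y) (S y)) ∂D.s := by
      have h1 : ∫ y, q (D.F y) (D.φ y) (d1 (fun y => H (f y) • S y) y) ∂D.s =
          (∫ y, deriv H (f y) * q (D.F y) (D.φ y) (wed (fderiv ℝ f y) (S y)) ∂D.s) +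
            ∫ y, H (f y) * q (D.F y) (D.φ y) (d1 S y) ∂D.s := by
        rw [← integral_add hint1 hint2]
        exact integral_congr_ae (Eventually.of_forall fun y => hexp y)
      rw [hcl] at h1
      linarith
    rw [hsum, norm_neg]
    set I : E4 → ℝ := fun x => ∫ y in ball x (a * r),
      √(D.De x y) * √(|D.qx x y| + ‖y - x‖ ^ 2) ∂D.s with hI
    have hIi : IntegrableOn I (ball D.x0 (2 * D.R)) D.s :=
      LC.int_gi D hgeo h4 har (ball D.x0 (2 * D.R))
    have hci : IntegrableOn (fun _ : E4 => r) (ball D.x0 (2 * D.R)) D.s :=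
      integrableOn_const (measure_ne_top _ _)
    have hbi : IntegrableOn (fun y => B1 * C1 * BS * ((r ^ 4)⁻¹ * I y + r))
        (ball D.x0 (2 * D.R)) D.s := ((hIi.const_mul _).add hci).const_mul _
    refine (norm_integral_le_of_norm_le (hbi.integrable_indicator measurableSet_ball)
      (Eventually.of_forall fun y => ?_)).trans ?_
    · by_cases hy : y ∈ ball D.x0 (2 * D.R)
      · rw [indicator_of_mem hy, norm_mul]
        have h1 := hB1 _ (hmem y r hr)
        have h2 := hgr y hy (S y)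
        rw [← Real.norm_eq_abs] at h2
        have h3 : C1 * ‖S y‖ * ((r ^ 4)⁻¹ * I y + r) ≤ C1 * BS * ((r ^ 4)⁻¹ * I y + r) := by
          have h4 : 0 ≤ I y := integral_nonneg fun z => by positivity
          have := hBS y
          gcongr
        calc ‖deriv H (f y)‖ * ‖q (D.F y) (D.φ y) (wed (fderiv ℝ f y) (S y))‖
            ≤ B1 * (C1 * BS * ((r ^ 4)⁻¹ * I y + r)) :=
              mul_le_mul h1 (h2.trans h3) (norm_nonneg _) hB1'
          _ = _ := by ring
      · have hS0 : S y = 0 := by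
          by_contra h
          exact hy (hSs (subset_tsupport _ h))
        rw [indicator_of_notMem hy, hS0]
        have h1 : wed (fderiv ℝ f y) 0 = (0 : ℝ) • wed (fderiv ℝ f y) 0 := by
          rw [← En.wed_smul_right, smul_zero]
        rw [h1, q_smul_right', zero_mul, mul_zero, norm_zero]
    · rw [integral_indicator measurableSet_ball, integral_const_mul,
        integral_add (hIi.const_mul _) hci, integral_const_mul, setIntegral_const, smul_eq_mul]
      have h1 : D.s.real (ball D.x0 (2 * D.R)) ≤ D.s.real univ := measureReal_mono (subset_univ _)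
      have h2 : D.s.real (ball D.x0 (2 * D.R)) * r ≤ r * D.s.real univ := by nlinarith
      gcongr
  -- conclusion
  obtain ⟨ρ, hρ, hρ0, h1⟩ := hgri D a ha
  have hρn : Tendsto ρ atTop (𝓝[>] 0) :=
    tendsto_nhdsWithin_iff.2 ⟨hρ0, Eventually.of_forall hρ⟩
  have hC : Tendsto (fun k => ∫ y, H (D.nuR K (ρ k) y) * q (D.F y) (D.φ y) (d1 S y) ∂D.s) atTop
      (𝓝 0) := by
    have h2 : Tendsto (fun k => ρ k * D.s.real univ) atTop (𝓝 0) := by
      have h3 := hρ0.mul_const (D.s.real univ)
      rwa [zero_mul] at h3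
    have h3 := (h1.add h2).const_mul (B1 * C1 * BS)
    rw [add_zero, mul_zero] at h3
    refine squeeze_zero_norm' ?_ h3
    have e1 : ∀ᶠ r in 𝓝[>] (0 : ℝ), r ∈ Ioc 0 r1 := Ioc_mem_nhdsGT hr1
    have e2 : ∀ᶠ r in 𝓝[>] (0 : ℝ), r ∈ Ioc 0 (1 / a) := Ioc_mem_nhdsGT (by positivity)
    filter_upwards [hρn.eventually e1, hρn.eventually e2] with k hr hr'
    refine hB (ρ k) hr.1 hr.2 ?_
    have := hr'.2
    rw [le_div_iff₀ ha] at this
    linarith
  exact tendsto_nhds_unique (hA.comp hρn) hC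

end

end Crest.Agent.R235.CurClo_505
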