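import Crest.Agent.R235.CurDefs_132

/-!
Row 235, package CUR (task 350, helper538): `DEL`, the averaged deficit tends to `0`.
-/

set_option autoImplicit false
set_option maxSynthPendingDepth 3

open Set Function Filter MeasureTheory Metric
open scoped ContDiff ENNReal Manifold Topology

namespace Crest.Agent.R235.CurDel_538

open Crest.Agent.R240 Crest.Agent.R240.En Crest.Agent.R240.Pot Crest.Agent.R235.CurDefs_132

noncomputable section

/-! ### measurability -/

theorem meas_ent {X : Type*} [MeasurableSpace X] {b : X → Bil} (hb : Measurable b) (i j : Fin 4) :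
    Measurable fun x => ent (b x) i j := by
  unfold ent
  have h : Continuous fun c : Bil => c (ee i) (ee j) := by fun_prop
  exact h.measurable.comp hb

theorem meas_W {X : Type*} [MeasurableSpace X] {b c : X → Bil} (hb : Measurable b)
    (hc : Measurable c) : Measurable fun x => W (b x) (c x) := by
  unfold W
  exact ((((((meas_ent hb _ _).mul (meas_ent hc _ _)).sub
    ((meas_ent hb _ _).mul (meas_ent hc _ _))).add
    ((meas_ent hb _ _).mul (meas_ent hc _ _))).add
    ((meas_ent hb _ _).mul (meas_ent hc _ _))).sub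
    ((meas_ent hb _ _).mul (meas_ent hc _ _))).add
    ((meas_ent hb _ _).mul (meas_ent hc _ _))

theorem meas_q {X : Type*} [MeasurableSpace X] {F b c : X → Bil} (hF : Measurable F)
    (hb : Measurable b) (hc : Measurable c) : Measurable fun x => q (F x) (b x) (c x) := by
  unfold q
  exact (meas_W hb hc).div (meas_W hF hF)

theorem meas_apply {X : Type*} [MeasurableSpace X] {ξ : X → Cov} (h : Measurable ξ) (v : E4) :
    Measurable fun x => ξ x v := by
  have h1 : Continuous fun c : Cov => c v := by fun_prop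
  exact h1.measurable.comp h

theorem meas_ent_wed {X : Type*} [MeasurableSpace X] {ξ η : X → Cov} (hξ : Measurable ξ)
    (hη : Measurable η) (i j : Fin 4) : Measurable fun x => ent (wed (ξ x) (η x)) i j := by
  have e : (fun x => ent (wed (ξ x) (η x)) i j) =
      fun x => ξ x (ee i) * η x (ee j) - η x (ee i) * ξ x (ee j) := by
    funext x
    unfold ent
    rw [wed_apply]
  rw [e]
  exact ((meas_apply hξ _).mul (meas_apply hη _)).sub ((meas_apply hη _).mul (meas_apply hξ _))

theorem meas_q_wed {X : Type*} [MeasurableSpace X] {F b : X → Bil} {ξ η : X → Cov}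
    (hF : Measurable F) (hb : Measurable b) (hξ : Measurable ξ) (hη : Measurable η) :
    Measurable fun x => q (F x) (b x) (wed (ξ x) (η x)) := by
  unfold q
  refine Measurable.div ?_ (meas_W hF hF)
  unfold W
  exact ((((((meas_ent hb _ _).mul (meas_ent_wed hξ hη _ _)).sub
    ((meas_ent hb _ _).mul (meas_ent_wed hξ hη _ _))).add
    ((meas_ent hb _ _).mul (meas_ent_wed hξ hη _ _))).add
    ((meas_ent hb _ _).mul (meas_ent_wed hξ hη _ _))).sub
    ((meas_ent hb _ _).mul (meas_ent_wed hξ hη _ _))).add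
    ((meas_ent hb _ _).mul (meas_ent_wed hξ hη _ _))

theorem meas_dy (h1 : GEO1) (D : LC) : Measurable fun z : E4 × E4 => D.dy z.1 z.2 := by
  have hs := (h1 D).1
  have hc : Continuous fun z : E4 × E4 => D.dy z.1 z.2 := by
    unfold LC.dy
    have e : (fun z : E4 × E4 => fderiv ℝ (fun y => D.rho2 z.1 y) z.2) = fun z : E4 × E4 =>
        (fderiv ℝ (fun z : E4 × E4 => D.rho2 z.1 z.2) z).comp
          (ContinuousLinearMap.inr ℝ E4 E4) := by
      funext z
      have hd : HasFDerivAt (fun z : E4 × E4 => D.rho2 z.1 z.2)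
          (fderiv ℝ (fun z : E4 × E4 => D.rho2 z.1 z.2) z) (z.1, z.2) :=
        ((hs.differentiable (by simp)) z).hasFDerivAt
      exact (hd.comp z.2 (hasFDerivAt_prodMk_right z.1 z.2)).fderiv
    rw [e]
    exact (hs.continuous_fderiv (by simp)).clm_comp continuous_const
  exact hc.measurable

theorem meas_De (h1 : GEO1) (D : LC) : Measurable fun z : E4 × E4 => D.De z.1 z.2 := by
  have hdy := meas_dy h1 D
  have hJ : Measurable fun z : E4 × E4 => D.J z.2 := D.smJ.continuous.measurable.comp measurable_snd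
  have hF : Measurable fun z : E4 × E4 => D.F z.2 := D.smF.continuous.measurable.comp measurable_snd
  have hφ : Measurable fun z : E4 × E4 => D.φ z.2 := D.meas.comp measurable_snd
  have hJc : Measurable fun z : E4 × E4 => Jc (D.J z.2) (D.dy z.1 z.2) := by
    have hc : Continuous fun p : (E4 →L[ℝ] E4) × Cov => Jc p.1 p.2 := by
      unfold Jc
      exact (continuous_snd.clm_comp continuous_fst).neg
    exact hc.measurable.comp (hJ.prodMk hdy)
  unfold LC.De defi
  exact ((meas_q_wed hF hF hdy hJc).const_mul 2).sub (meas_q_wed hF hφ hdy hJc)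

theorem meas_qx (D : LC) : Measurable fun z : E4 × E4 => D.qx z.1 z.2 := by
  have hF : Measurable fun z : E4 × E4 => D.F z.1 := D.smF.continuous.measurable.comp measurable_fst
  have hφ : Measurable fun z : E4 × E4 => D.φ z.2 := D.meas.comp measurable_snd
  have hφ' : Measurable fun z : E4 × E4 => D.φ z.1 := D.meas.comp measurable_fst
  unfold LC.qx
  exact meas_q hF hφ' hφ

/-! ### bounds -/

theorem De_nonneg (hL : LIN1') (D : LC) (x y : E4) : 0 ≤ D.De x y :=
  (hL (D.J y) (D.F y) D.m D.M (D.bd y) (D.φ y) (D.pos y) (D.nrm y) (D.dy x y) 0).1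

theorem De_bound (h1 : GEO1) (hL : LIN4) (D : LC) : ∃ C : ℝ, 0 ≤ C ∧ ∀ x y, ‖y - x‖ ≤ 1 →
    D.De x y ≤ C * ‖y - x‖ ^ 2 := by
  obtain ⟨-, -, C1, hC1, hC⟩ := h1 D
  obtain ⟨C2, hC2, hC'⟩ := hL D.m D.M D.L
  refine ⟨C2 * C1 ^ 2, by positivity, fun x y hxy => ?_⟩
  obtain ⟨-, h2, -⟩ := hC x y hxy
  obtain ⟨-, -, -, h3, -⟩ := hC' (D.J y) (D.F y) (D.bd y) (D.bJ y) (D.φ y) (D.pos y) (D.nrm y)
  calc D.De x y ≤ C2 * ‖D.dy x y‖ ^ 2 := h3 _
    _ ≤ C2 * (C1 * ‖y - x‖) ^ 2 := by gcongr
    _ = C2 * C1 ^ 2 * ‖y - x‖ ^ 2 := by ring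

theorem De_self (h1 : GEO1) (hL : LIN1') (hL4 : LIN4) (D : LC) (x : E4) : D.De x x = 0 := by
  obtain ⟨C, hC, h⟩ := De_bound h1 hL4 D
  have h2 := h x x (by simp)
  rw [sub_self, norm_zero] at h2
  have h3 := De_nonneg hL D x x
  have h4 : C * (0 : ℝ) ^ 2 = 0 := by ring
  linarith

/-! ### double integrals -/

/-- the double lower integral -/
def LL (s : Measure E4) (B : Set E4) (ρ : ℝ) (f : E4 × E4 → ℝ) : ℝ≥0∞ :=
  ∫⁻ x in B, ∫⁻ y in ball x ρ, ENNReal.ofReal (f (x, y)) ∂s ∂s

theorem meas_ball (ρ : ℝ) : MeasurableSet {z : E4 × E4 | z.2 ∈ ball z.1 ρ} := by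
  have : {z : E4 × E4 | z.2 ∈ ball z.1 ρ} = {z | dist z.2 z.1 < ρ} := rfl
  rw [this]
  exact (isOpen_lt (by fun_prop) continuous_const).measurableSet

theorem inner_eq (s : Measure E4) (ρ : ℝ) (g : E4 × E4 → ℝ≥0∞) (x : E4) :
    ∫⁻ y in ball x ρ, g (x, y) ∂s =
      ∫⁻ y, {z : E4 × E4 | z.2 ∈ ball z.1 ρ}.indicator g (x, y) ∂s := by
  rw [← lintegral_indicator measurableSet_ball]
  refine lintegral_congr fun y => ?_
  by_cases h : y ∈ ball x ρ
  · rw [indicator_of_mem h, indicator_of_mem (show (x, y) ∈ {z : E4 × E4 | z.2 ∈ ball z.1 ρ} from h)]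
  · rw [indicator_of_notMem h,
      indicator_of_notMem (show (x, y) ∉ {z : E4 × E4 | z.2 ∈ ball z.1 ρ} from h)]

theorem meas_inner (s : Measure E4) [SFinite s] (ρ : ℝ) {g : E4 × E4 → ℝ≥0∞} (hg : Measurable g) :
    Measurable fun x => ∫⁻ y in ball x ρ, g (x, y) ∂s := by
  have e : (fun x => ∫⁻ y in ball x ρ, g (x, y) ∂s) = fun x =>
      ∫⁻ y, {z : E4 × E4 | z.2 ∈ ball z.1 ρ}.indicator g (x, y) ∂s := by
    funext x; exact inner_eq s ρ g x
  rw [e]
  exact (hg.indicator (meas_ball ρ)).lintegral_prod_right'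

/-- the Bochner double integral of a bounded nonnegative function -/
theorem bochner_eq (s : Measure E4) [IsFiniteMeasure s] {B : Set E4} (hB : MeasurableSet B)
    {ρ : ℝ} {f : E4 × E4 → ℝ} (hf : Measurable f) (h0 : ∀ x y, 0 ≤ f (x, y)) {c : ℝ}
    (hc : ∀ x ∈ B, ∀ y ∈ ball x ρ, f (x, y) ≤ c) :
    ∫ x in B, ∫ y in ball x ρ, f (x, y) ∂s ∂s = (LL s B ρ f).toReal ∧ LL s B ρ f ≠ ⊤ := by
  have hbd : ∀ x ∈ B, ∫⁻ y in ball x ρ, ENNReal.ofReal (f (x, y)) ∂s ≤
      ENNReal.ofReal c * s univ := by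
    intro x hx
    calc ∫⁻ y in ball x ρ, ENNReal.ofReal (f (x, y)) ∂s
        ≤ ∫⁻ y in ball x ρ, ENNReal.ofReal c ∂s :=
          setLIntegral_mono measurable_const fun y hy => ENNReal.ofReal_le_ofReal (hc x hx y hy)
      _ = ENNReal.ofReal c * s (ball x ρ) := by rw [setLIntegral_const]
      _ ≤ ENNReal.ofReal c * s univ := by gcongr; exact subset_univ _
  have hfin : ENNReal.ofReal c * s univ ≠ ⊤ :=
    ENNReal.mul_ne_top ENNReal.ofReal_ne_top (measure_ne_top _ _)
  have hinner : ∀ x, ∫ y in ball x ρ, f (x, y) ∂s =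
      (∫⁻ y in ball x ρ, ENNReal.ofReal (f (x, y)) ∂s).toReal := by
    intro x
    refine integral_eq_lintegral_of_nonneg_ae (Filter.Eventually.of_forall fun y => h0 x y) ?_
    exact (hf.comp measurable_prodMk_left).aestronglyMeasurable
  have hm : Measurable fun x => ∫⁻ y in ball x ρ, ENNReal.ofReal (f (x, y)) ∂s :=
    meas_inner s ρ (g := fun z => ENNReal.ofReal (f z)) hf.ennreal_ofReal
  constructor
  · simp_rw [hinner]
    refine integral_toReal hm.aemeasurable ?_
    rw [ae_restrict_iff' hB]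
    exact Filter.Eventually.of_forall fun x hx => (hbd x hx).trans_lt hfin.lt_top
  · refine ne_of_lt ?_
    calc LL s B ρ f ≤ ∫⁻ x in B, (ENNReal.ofReal c * s univ) ∂s :=
          setLIntegral_mono measurable_const fun x hx => hbd x hx
      _ = ENNReal.ofReal c * s univ * s B := by rw [setLIntegral_const]
      _ < ⊤ := (ENNReal.mul_ne_top hfin (measure_ne_top _ _)).lt_top

theorem LL_mono {s : Measure E4} {B : Set E4} (hB : MeasurableSet B) {ρ : ℝ}
    {f g : E4 × E4 → ℝ} (h : ∀ x ∈ B, ∀ y ∈ ball x ρ, f (x, y) ≤ g (x, y)) :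
    LL s B ρ f ≤ LL s B ρ g := by
  refine setLIntegral_mono' hB fun x hx => ?_
  exact setLIntegral_mono' measurableSet_ball fun y hy => ENNReal.ofReal_le_ofReal (h x hx y hy)

/-- a cut-off profile -/
theorem exists_cut : ∃ K : ℝ → ℝ, Cut 1 K := by
  refine ⟨fun t => Real.smoothTransition (2 - t), ?_, ?_, ?_, ?_⟩
  · exact Real.smoothTransition.contDiff.comp (contDiff_const.sub contDiff_id)
  · intro s t hst
    exact Real.smoothTransition.monotone (by linarith)
  · intro t ht
    exact Real.smoothTransition.one_of_one_le (by linarith)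
  · intro t ht
    exact Real.smoothTransition.zero_of_nonpos (by linarith)

/-! ### the theorem -/

/-- geometric sums -/
theorem geom_bound {t : ℝ} (ht : 0 < t) (m n : ℕ) :
    ∑ k ∈ Finset.range n, (if (2 : ℝ) ^ (k + m) < t then ((16 : ℝ) ^ (k + m)) else 0) ≤
      2 * t ^ 4 := by
  have key : ∀ n : ℕ, (∑ k ∈ Finset.range n,
      (if (2 : ℝ) ^ (k + m) < t then ((16 : ℝ) ^ (k + m)) else 0) ≤ 2 * t ^ 4) ∧
      (∑ k ∈ Finset.range n, (if (2 : ℝ) ^ (k + m) < t then ((16 : ℝ) ^ (k + m)) else 0) ≤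
      16 ^ (n + m) / 15) := by
    intro n
    induction n with
    | zero =>
      simp only [Finset.range_zero, Finset.sum_empty]
      constructor <;> positivity
    | succ n ih =>
      obtain ⟨h1, h2⟩ := ih
      have e : (16 : ℝ) ^ (n + 1 + m) = 16 * 16 ^ (n + m) := by
        rw [show n + 1 + m = (n + m) + 1 by omega, pow_succ]; ring
      have hp : (0 : ℝ) < 16 ^ (n + m) := by positivity
      rw [Finset.sum_range_succ]
      by_cases h : (2 : ℝ) ^ (n + m) < t
      · rw [if_pos h]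
        have h3 : (16 : ℝ) ^ (n + m) ≤ t ^ 4 := by
          have : (16 : ℝ) ^ (n + m) = ((2 : ℝ) ^ (n + m)) ^ 4 := by
            rw [← pow_mul, mul_comm, pow_mul]; norm_num
          rw [this]
          gcongr
        constructor
        · linarith
        · rw [e]; linarith
      · rw [if_neg h, add_zero]
        refine ⟨h1, h2.trans ?_⟩
        rw [e]; linarith
  exact (key n).1

/-- from summability to a sequence with a logarithmic gain -/
theorem exists_seq {α : ℕ → ℝ} (h0 : ∀ k, 0 ≤ α k) (hs : Summable α) :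
    ∃ φ : ℕ → ℕ, StrictMono φ ∧ Tendsto (fun n => α (φ n) * (1 + (φ n : ℝ))) atTop (𝓝 0) := by
  have hf : ∀ n : ℕ, ∃ᶠ k in atTop, α k * (1 + (k : ℝ)) < 1 / ((n : ℝ) + 1) := by
    intro n
    by_contra hc
    rw [Filter.not_frequently] at hc
    obtain ⟨k0, hk0⟩ := Filter.eventually_atTop.1 hc
    have hε : (0 : ℝ) < 1 / ((n : ℝ) + 1) := by positivity
    have h1 : ∀ k, k0 ≤ k → 1 / ((n : ℝ) + 1) * (1 / ((k : ℝ) + 1)) ≤ α k := by
      intro k hk
      have h2 := not_lt.1 (hk0 k hk)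
      rw [mul_one_div, div_le_iff₀ (by positivity)]
      linarith
    have h3 : Summable fun k : ℕ => 1 / ((n : ℝ) + 1) * (1 / (((k + k0 : ℕ) : ℝ) + 1)) := by
      refine Summable.of_nonneg_of_le (fun k => by positivity) (fun k => h1 _ (by omega))
        ((summable_nat_add_iff k0).2 hs)
    have h4 : Summable fun k : ℕ => 1 / (((k + k0 : ℕ) : ℝ) + 1) := by
      have h5 := h3.mul_left ((n : ℝ) + 1)
      refine h5.congr fun k => ?_
      have h6 : ((n : ℝ) + 1) ≠ 0 := by positivity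
      field_simp
    have h5 : Summable fun k : ℕ => 1 / ((k : ℝ) + 1) :=
      (summable_nat_add_iff (f := fun k : ℕ => 1 / ((k : ℝ) + 1)) k0).1 h4
    have h6 : Summable fun k : ℕ => 1 / (((k + 1 : ℕ)) : ℝ) := by
      refine h5.congr fun k => ?_
      push_cast; rfl
    exact Real.not_summable_one_div_natCast
      ((summable_nat_add_iff (f := fun k : ℕ => 1 / (k : ℝ)) 1).1 h6)
  obtain ⟨φ, hφ, hφ'⟩ := extraction_forall_of_frequently hf
  refine ⟨φ, hφ, ?_⟩
  refine tendsto_of_tendsto_of_tendsto_of_le_of_le tendsto_const_nhds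
    tendsto_one_div_add_atTop_nhds_zero_nat (fun n => ?_) fun n => (hφ' n).le
  exact mul_nonneg (h0 _) (by positivity)

theorem del (hM : MON) (hL : LIN1') (hL4 : LIN4) (h1 : GEO1) : DEL := by
  intro D a ha
  have := D.fin
  obtain ⟨K, hK⟩ := exists_cut
  obtain ⟨C, r1, hC, hr1, -, -, hfin⟩ := hM D 1 K one_pos le_rfl hK
  have hDm := meas_De h1 D
  have hDn := De_nonneg hL D
  set f : E4 × E4 → ℝ := fun z => D.De z.1 z.2 with hf
  set k : E4 × E4 → ℝ := fun z => D.De z.1 z.2 / ‖z.2 - z.1‖ ^ 4 with hk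
  set B := ball D.x0 (2 * D.R) with hB
  have hB3 : B ⊆ ball D.x0 (3 * D.R) := ball_subset_ball (by linarith [D.R_pos])
  have hBm : MeasurableSet B := measurableSet_ball
  obtain ⟨Cb, hCb, hDb⟩ := De_bound h1 hL4 D
  -- the first index
  obtain ⟨k0, hk0⟩ : ∃ k0 : ℕ, a * (1 / 2) ^ k0 ≤ min r1 1 := by
    obtain ⟨n, hn⟩ := exists_pow_lt_of_lt_one (show 0 < min r1 1 / a from
      div_pos (lt_min hr1 one_pos) ha) (show (1 / 2 : ℝ) < 1 by norm_num)
    refine ⟨n, ?_⟩
    rw [lt_div_iff₀ ha] at hn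
    linarith
  set r : ℕ → ℝ := fun j => (1 / 2) ^ (j + k0) with hr
  have hr0 : ∀ j, 0 < r j := fun j => by positivity
  have har : ∀ j, a * r j ≤ min r1 1 := by
    intro j
    refine le_trans ?_ hk0
    have : r j ≤ (1 / 2) ^ k0 := pow_le_pow_of_le_one (by norm_num) (by norm_num) (by omega)
    gcongr
  have hbdf : ∀ j, ∀ x, ∀ y ∈ ball x (a * r j), D.De x y ≤ Cb := by
    intro j x y hy
    have hy1 : ‖y - x‖ ≤ 1 := by
      rw [mem_ball, dist_eq_norm] at hy
      have := (har j).trans (min_le_right _ _)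
      linarith
    refine (hDb x y hy1).trans ?_
    have h3 : ‖y - x‖ ^ 2 ≤ 1 := pow_le_one₀ (norm_nonneg _) hy1
    nlinarith
  -- the terms
  set L : ℕ → ℝ≥0∞ := fun j => LL D.s B (a * r j) (fun z => ((r j) ^ 4)⁻¹ * f z) with hLdef
  have hLreal : ∀ j, (L j).toReal =
      (r j ^ 4)⁻¹ * ∫ x in B, ∫ y in ball x (a * r j), D.De x y ∂D.s ∂D.s := by
    intro j
    have hpos : (0 : ℝ) ≤ ((r j) ^ 4)⁻¹ := by have := hr0 j; positivity
    have e1 := bochner_eq D.s hBm (ρ := a * r j) (f := fun z => ((r j) ^ 4)⁻¹ * f z)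
      (hDm.const_mul _) (fun x y => mul_nonneg hpos (hDn x y)) (c := ((r j) ^ 4)⁻¹ * Cb)
      fun x _ y hy => mul_le_mul_of_nonneg_left (hbdf j x y hy) hpos
    rw [hLdef]
    simp only
    rw [← e1.1, ← integral_const_mul]
    refine integral_congr_ae (Filter.Eventually.of_forall fun x => ?_)
    exact integral_const_mul _ _
  -- the sum
  have hterm : ∀ x y, ∑' j, ({z : E4 × E4 | z.2 ∈ ball z.1 (a * r j)}.indicator
      (fun z => ENNReal.ofReal (((r j) ^ 4)⁻¹ * f z)) (x, y)) ≤
      (ball x r1).indicator (fun y => ENNReal.ofReal (2 * a ^ 4) * ENNReal.ofReal (k (x, y))) y := by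
    intro x y
    by_cases hy : y ∈ ball x r1
    · rw [indicator_of_mem hy]
      refine ENNReal.tsum_le_of_sum_range_le fun n => ?_
      by_cases hyx : y = x
      · refine le_trans (le_of_eq ?_) bot_le
        refine Finset.sum_eq_zero fun j _ => ?_
        have h2 : f (x, y) = 0 := by rw [hyx]; exact De_self h1 hL hL4 D x
        by_cases h : (x, y) ∈ {z : E4 × E4 | z.2 ∈ ball z.1 (a * r j)}
        · rw [indicator_of_mem h, h2, mul_zero, ENNReal.ofReal_zero]
        · rw [indicator_of_notMem h]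
      · have hd : 0 < ‖y - x‖ := norm_pos_iff.2 (sub_ne_zero.2 hyx)
        have e1 : ∀ j, {z : E4 × E4 | z.2 ∈ ball z.1 (a * r j)}.indicator
            (fun z => ENNReal.ofReal (((r j) ^ 4)⁻¹ * f z)) (x, y) =
            ENNReal.ofReal ((if (2 : ℝ) ^ (j + k0) < a / ‖y - x‖ then (16 : ℝ) ^ (j + k0) else 0) *
              D.De x y) := by
          intro j
          have hr2 : r j = ((2 : ℝ) ^ (j + k0))⁻¹ := by
            rw [hr]; simp
          have hiff : (x, y) ∈ {z : E4 × E4 | z.2 ∈ ball z.1 (a * r j)} ↔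
              (2 : ℝ) ^ (j + k0) < a / ‖y - x‖ := by
            show y ∈ ball x (a * r j) ↔ _
            rw [mem_ball, dist_eq_norm, hr2, lt_div_iff₀ hd, ← div_eq_mul_inv,
              lt_div_iff₀ (by positivity), mul_comm]
          by_cases h : (2 : ℝ) ^ (j + k0) < a / ‖y - x‖
          · rw [indicator_of_mem (hiff.2 h), if_pos h, hr2]
            congr 2
            rw [inv_pow, inv_inv, ← pow_mul, mul_comm (j + k0) 4, pow_mul]
            norm_num
          · rw [indicator_of_notMem (fun h' => h (hiff.1 h')), if_neg h, zero_mul,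
              ENNReal.ofReal_zero]
        simp_rw [e1]
        rw [← ENNReal.ofReal_sum_of_nonneg (fun j _ => mul_nonneg (by split_ifs <;> positivity)
          (hDn x y)), ← Finset.sum_mul, ← ENNReal.ofReal_mul (by positivity)]
        refine ENNReal.ofReal_le_ofReal ?_
        calc _ ≤ 2 * (a / ‖y - x‖) ^ 4 * D.De x y :=
              mul_le_mul_of_nonneg_right (geom_bound (div_pos ha hd) k0 n) (hDn x y)
          _ = 2 * a ^ 4 * (D.De x y / ‖y - x‖ ^ 4) := by
              rw [div_pow]; ring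
    · rw [indicator_of_notMem hy]
      refine le_of_eq ?_
      rw [ENNReal.tsum_eq_zero]
      intro j
      rw [indicator_of_notMem]
      intro h
      have h2 : y ∈ ball x (a * r j) := h
      exact hy (ball_subset_ball ((har j).trans (min_le_left _ _)) h2)
  have hsum : ∑' j, L j ≤ ENNReal.ofReal (2 * a ^ 4) * ENNReal.ofReal C * D.s univ := by
    have hgm : ∀ j, Measurable fun z : E4 × E4 => ENNReal.ofReal (((r j) ^ 4)⁻¹ * f z) := fun j =>
      (hDm.const_mul _).ennreal_ofReal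
    calc ∑' j, L j = ∫⁻ x in B, ∑' j, ∫⁻ y in ball x (a * r j),
          ENNReal.ofReal (((r j) ^ 4)⁻¹ * f (x, y)) ∂D.s ∂D.s := by
          rw [lintegral_tsum fun j => (meas_inner D.s (a * r j) (hgm j)).aemeasurable]
          rfl
      _ = ∫⁻ x in B, ∫⁻ y, ∑' j, ({z : E4 × E4 | z.2 ∈ ball z.1 (a * r j)}.indicator
          (fun z => ENNReal.ofReal (((r j) ^ 4)⁻¹ * f z)) (x, y)) ∂D.s ∂D.s := by
          refine lintegral_congr fun x => ?_
          have hmx : ∀ j, AEMeasurable (fun y => {z : E4 × E4 | z.2 ∈ ball z.1 (a * r j)}.indicator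
              (fun z => ENNReal.ofReal (((r j) ^ 4)⁻¹ * f z)) (x, y)) D.s := fun j =>
            (((hgm j).indicator (meas_ball (a * r j))).comp measurable_prodMk_left).aemeasurable
          rw [lintegral_tsum hmx]
          refine tsum_congr fun j => ?_
          exact inner_eq D.s (a * r j) (fun z => ENNReal.ofReal (((r j) ^ 4)⁻¹ * f z)) x
      _ ≤ ∫⁻ x in B, ∫⁻ y, (ball x r1).indicator
          (fun y => ENNReal.ofReal (2 * a ^ 4) * ENNReal.ofReal (k (x, y))) y ∂D.s ∂D.s :=
          lintegral_mono fun x => lintegral_mono fun y => hterm x y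
      _ ≤ ∫⁻ x in B, ENNReal.ofReal (2 * a ^ 4) * ENNReal.ofReal C ∂D.s := by
          refine setLIntegral_mono' hBm fun x hx => ?_
          rw [lintegral_indicator measurableSet_ball, lintegral_const_mul' _ _ ENNReal.ofReal_ne_top]
          gcongr
          exact hfin x (hB3 hx)
      _ = ENNReal.ofReal (2 * a ^ 4) * ENNReal.ofReal C * D.s B := by rw [setLIntegral_const]
      _ ≤ _ := by gcongr; exact subset_univ _
  have hne : ∑' j, L j ≠ ⊤ := ne_top_of_le_ne_top (ENNReal.mul_ne_top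
    (ENNReal.mul_ne_top ENNReal.ofReal_ne_top ENNReal.ofReal_ne_top) (measure_ne_top _ _)) hsum
  obtain ⟨φ, hφ, hlim⟩ := exists_seq (fun j => ENNReal.toReal_nonneg)
    (ENNReal.summable_toReal hne)
  have hrt : Tendsto r atTop (𝓝 0) :=
    (tendsto_add_atTop_iff_nat (f := fun j : ℕ => (1 / 2 : ℝ) ^ j) k0).2
      (tendsto_pow_atTop_nhds_zero_of_lt_one (by norm_num) (by norm_num))
  refine ⟨fun n => r (φ n), fun n => hr0 _, hrt.comp hφ.tendsto_atTop, ?_⟩
  have hlim2 := hlim.const_mul (1 + (k0 : ℝ))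
  rw [mul_zero] at hlim2
  refine tendsto_of_tendsto_of_tendsto_of_le_of_le tendsto_const_nhds hlim2 (fun n => ?_)
    fun n => ?_
  · have := hr0 (φ n)
    refine mul_nonneg (mul_nonneg (by positivity) ?_) (by positivity)
    exact integral_nonneg fun x => integral_nonneg fun y => hDn x y
  · show (r (φ n) ^ 4)⁻¹ * (∫ x in B, ∫ y in ball x (a * r (φ n)), D.De x y ∂D.s ∂D.s) *
      (1 + |Real.log (r (φ n))|) ≤ (1 + (k0 : ℝ)) * ((L (φ n)).toReal * (1 + (φ n : ℝ)))
    rw [← hLreal]
    have hlog : |Real.log (r (φ n))| ≤ (φ n : ℝ) + k0 := by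
      rw [hr]
      simp only
      rw [Real.log_pow, one_div, Real.log_inv, mul_neg, abs_neg, abs_of_nonneg
        (mul_nonneg (Nat.cast_nonneg _) (Real.log_nonneg (by norm_num)))]
      have h2 : Real.log 2 ≤ 1 := by
        have := Real.log_two_lt_d9
        linarith
      push_cast
      nlinarith [Nat.cast_nonneg (α := ℝ) (φ n), Nat.cast_nonneg (α := ℝ) k0]
    have h3 : 0 ≤ (L (φ n)).toReal := ENNReal.toReal_nonneg
    have h4 : 1 + |Real.log (r (φ n))| ≤ (1 + (k0 : ℝ)) * (1 + (φ n : ℝ)) := by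
      nlinarith [mul_nonneg (Nat.cast_nonneg (α := ℝ) (φ n)) (Nat.cast_nonneg (α := ℝ) k0)]
    calc (L (φ n)).toReal * (1 + |Real.log (r (φ n))|)
        ≤ (L (φ n)).toReal * ((1 + (k0 : ℝ)) * (1 + (φ n : ℝ))) := by gcongr
      _ = _ := by ring

end

end Crest.Agent.R235.CurDel_538
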