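import Crest.Agent.R235.CurDefs_132
import Crest.Agent.R240.Lin5
import Crest.Agent.R240.Ch3

/-!
Row 235 (S0364), package CUR, leaf GEO2 (helper133): transport of a vector.
-/

set_option autoImplicit false
set_option maxSynthPendingDepth 3
set_option linter.unusedSectionVars false

open Set Function Filter MeasureTheory Metric
open scoped ContDiff ENNReal Manifold Topology

namespace Crest.Agent.R235.CurGeo2_133

open Crest.Agent.R240 Crest.Agent.R240.En Crest.Agent.R240.Pot Crest.Agent.R235.CurDefs_132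

noncomputable section

/-! ### generic -/

theorem lip_of_fderiv {V : Type*} [NormedAddCommGroup V] [NormedSpace ℝ V] {f : E4 → V} {L : ℝ}
    (hf : Differentiable ℝ f) (h : ∀ y, ‖fderiv ℝ f y‖ ≤ L) (x y : E4) :
    ‖f y - f x‖ ≤ L * ‖y - x‖ :=
  Convex.norm_image_sub_le_of_norm_fderiv_le (𝕜 := ℝ) (s := univ) (fun z _ => hf z)
    (fun z _ => h z) convex_univ (mem_univ _) (mem_univ _)

theorem bil_le {b : Bil} {C : ℝ} (hC : 0 ≤ C) (h : ∀ u v, |b u v| ≤ C * ‖u‖ * ‖v‖) : ‖b‖ ≤ C :=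
  ContinuousLinearMap.opNorm_le_bound₂ _ hC fun u v => by rw [Real.norm_eq_abs]; exact h u v

theorem abs_bil (b : Bil) (u v : E4) : |b u v| ≤ ‖b‖ * ‖u‖ * ‖v‖ := by
  rw [← Real.norm_eq_abs]; exact b.le_opNorm₂ u v

theorem abs_bil_le {b : Bil} {C : ℝ} (h : ‖b‖ ≤ C) (u v : E4) : |b u v| ≤ C * (‖u‖ * ‖v‖) := by
  refine (abs_bil b u v).trans ?_
  rw [mul_assoc]
  exact mul_le_mul_of_nonneg_right h (by positivity)

/-- the vector valued endomorphism with `g(A u, v) = b(u, v)` -/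
theorem exists_endo {g : Bil} {m : ℝ} (hm : 0 < m) (hg : ∀ v, m * ‖v‖ ^ 2 ≤ g v v) (b : Bil) :
    ∃ A : E4 →L[ℝ] E4, (∀ u v, g (A u) v = b u v) ∧ ‖A‖ ≤ ‖b‖ / m := by
  have hinj : Function.Injective (g : E4 →ₗ[ℝ] (E4 →L[ℝ] ℝ)) := by
    rw [← LinearMap.ker_eq_bot, LinearMap.ker_eq_bot']
    intro v hv
    have h1 : g v v = 0 := by
      have : g v = 0 := hv
      rw [this]; rfl
    have h2 := hg v
    rw [h1] at h2
    have h3 : ‖v‖ ^ 2 ≤ 0 := by
      by_contra hc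
      push Not at hc
      have := mul_pos hm hc
      linarith
    have h4 : ‖v‖ = 0 := by nlinarith [norm_nonneg v]
    exact norm_eq_zero.1 h4
  have hfr : Module.finrank ℝ E4 = Module.finrank ℝ (E4 →L[ℝ] ℝ) := by
    have e : (E4 →ₗ[ℝ] ℝ) ≃ₗ[ℝ] (E4 →L[ℝ] ℝ) := LinearMap.toContinuousLinearMap
    rw [← e.finrank_eq]
    exact (Subspace.dual_finrank_eq (K := ℝ) (V := E4)).symm
  set T : E4 ≃ₗ[ℝ] (E4 →L[ℝ] ℝ) := LinearEquiv.ofInjectiveOfFinrankEq _ hinj hfr with hT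
  have hTa : ∀ v, T v = g v := fun v => rfl
  set A : E4 →L[ℝ] E4 := LinearMap.toContinuousLinearMap (T.symm.toLinearMap ∘ₗ (b : E4 →ₗ[ℝ] _))
    with hA
  have hA1 : ∀ u, g (A u) = b u := by
    intro u
    have : A u = T.symm (b u) := rfl
    rw [this, ← hTa, LinearEquiv.apply_symm_apply]
  refine ⟨A, fun u v => by rw [hA1], ?_⟩
  apply ContinuousLinearMap.opNorm_le_bound _ (by positivity)
  intro u
  by_cases h0 : A u = 0
  · rw [h0, norm_zero]; positivity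
  have hp : 0 < ‖A u‖ := norm_pos_iff.2 h0
  have h1 := hg (A u)
  rw [hA1] at h1
  have h2 := (le_abs_self _).trans (abs_bil b u (A u))
  have h3 : m * ‖A u‖ ≤ ‖b‖ * ‖u‖ := by
    have : (m * ‖A u‖) * ‖A u‖ ≤ (‖b‖ * ‖u‖) * ‖A u‖ := by
      calc (m * ‖A u‖) * ‖A u‖ = m * ‖A u‖ ^ 2 := by ring
        _ ≤ _ := h1.trans h2
    exact le_of_mul_le_mul_right this hp
  rw [div_mul_eq_mul_div, le_div_iff₀ hm]
  linarith

section pt

variable (D : LC)

theorem L_nn : 0 ≤ D.L := zero_le_one.trans D.L_ge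

theorem J_diff : Differentiable ℝ D.J := D.smJ.differentiable (by simp)
theorem F_diff : Differentiable ℝ D.F := D.smF.differentiable (by simp)
theorem J1_diff : Differentiable ℝ (fderiv ℝ D.J) :=
  (D.smJ.fderiv_right (m := ∞) (by simp)).differentiable (by simp)
theorem F1_diff : Differentiable ℝ (fderiv ℝ D.F) :=
  (D.smF.fderiv_right (m := ∞) (by simp)).differentiable (by simp)

theorem J_lip (x y : E4) : ‖D.J y - D.J x‖ ≤ D.L * ‖y - x‖ := lip_of_fderiv (J_diff D) D.bJ1 x y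
theorem F_lip (x y : E4) : ‖D.F y - D.F x‖ ≤ D.L * ‖y - x‖ := lip_of_fderiv (F_diff D) D.bF1 x y
theorem J1_lip (x y : E4) : ‖fderiv ℝ D.J y - fderiv ℝ D.J x‖ ≤ D.L * ‖y - x‖ :=
  lip_of_fderiv (J1_diff D) D.bJ2 x y
theorem F1_lip (x y : E4) : ‖fderiv ℝ D.F y - fderiv ℝ D.F x‖ ≤ D.L * ‖y - x‖ :=
  lip_of_fderiv (F1_diff D) D.bF2 x y

theorem J1w_lip (x y w : E4) : ‖fderiv ℝ D.J y w - fderiv ℝ D.J x w‖ ≤ D.L * ‖y - x‖ * ‖w‖ := by
  have h := (fderiv ℝ D.J y - fderiv ℝ D.J x).le_opNorm w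
  exact h.trans (mul_le_mul_of_nonneg_right (J1_lip D x y) (norm_nonneg _))

theorem F1w_lip (x y w : E4) : ‖fderiv ℝ D.F y w - fderiv ℝ D.F x w‖ ≤ D.L * ‖y - x‖ * ‖w‖ := by
  have h := (fderiv ℝ D.F y - fderiv ℝ D.F x).le_opNorm w
  exact h.trans (mul_le_mul_of_nonneg_right (F1_lip D x y) (norm_nonneg _))

theorem J1w_le (y w : E4) : ‖fderiv ℝ D.J y w‖ ≤ D.L * ‖w‖ :=
  (fderiv ℝ D.J y).le_of_opNorm_le (D.bJ1 y) w

theorem F1w_le (y w : E4) : ‖fderiv ℝ D.F y w‖ ≤ D.L * ‖w‖ :=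
  (fderiv ℝ D.F y).le_of_opNorm_le (D.bF1 y) w

theorem Jv_le (y v : E4) : ‖D.J y v‖ ≤ D.L * ‖v‖ := (D.J y).le_of_opNorm_le (D.bJ y) v

theorem G_apply (y u v : E4) : D.G y u v = D.F y u (D.J y v) := rfl

theorem G_diff : Differentiable ℝ D.G := (gm_contDiff D.smJ D.smF).differentiable (by simp)

theorem G1_apply (y w u v : E4) : fderiv ℝ D.G y w u v =
    fderiv ℝ D.F y w u (D.J y v) + D.F y u (fderiv ℝ D.J y w v) := by
  have h1 : fderiv ℝ (fun z => D.G z u v) y w = fderiv ℝ D.G y w u v := by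
    have := Ch.fderiv_pair (b := D.G) (Y := fun _ => u) (Z := fun _ => v) (y := y) (G_diff D y)
      (differentiableAt_const _) (differentiableAt_const _) w
    rw [this]; simp
  have h2 : fderiv ℝ (fun z => D.F z u (D.J z v)) y w =
      fderiv ℝ D.F y w u (D.J y v) + D.F y u (fderiv ℝ D.J y w v) := by
    have := Ch.fderiv_pair (b := D.F) (Y := fun _ => u) (Z := fun z => D.J z v) (y := y)
      (F_diff D y) (differentiableAt_const _) ((J_diff D y).clm_apply (differentiableAt_const _)) w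
    rw [this, fderiv_clm_apply (J_diff D y) (differentiableAt_const _)]
    simp
  rw [← h1, ← h2]
  rfl

theorem G_symm (y u v : E4) : D.G y u v = D.G y v u := gm_symm (D.bd y).sq (D.bd y).spos u v

theorem G1_symm (y w u v : E4) : fderiv ℝ D.G y w u v = fderiv ℝ D.G y w v u := by
  have h : ∀ a b, fderiv ℝ (fun z => D.G z a b) y w = fderiv ℝ D.G y w a b := by
    intro a b
    have := Ch.fderiv_pair (b := D.G) (Y := fun _ => a) (Z := fun _ => b) (y := y) (G_diff D y)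
      (differentiableAt_const _) (differentiableAt_const _) w
    rw [this]; simp
  rw [← h u v, ← h v u]
  congr 2
  funext z
  exact G_symm D z u v

theorem G1_le (y w : E4) : ‖fderiv ℝ D.G y w‖ ≤ 2 * D.L ^ 2 * ‖w‖ := by
  have hL := L_nn D
  apply bil_le (by positivity)
  intro u v
  rw [G1_apply]
  have e1 := abs_bil_le (F1w_le D y w) u (D.J y v)
  have e2 := abs_bil_le (D.bF y) u (fderiv ℝ D.J y w v)
  have e3 := Jv_le D y v
  have e4 : ‖fderiv ℝ D.J y w v‖ ≤ D.L * ‖w‖ * ‖v‖ :=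
    (fderiv ℝ D.J y w).le_of_opNorm_le (J1w_le D y w) v
  calc |fderiv ℝ D.F y w u (D.J y v) + D.F y u (fderiv ℝ D.J y w v)|
      ≤ D.L * ‖w‖ * (‖u‖ * ‖D.J y v‖) + D.L * (‖u‖ * ‖fderiv ℝ D.J y w v‖) :=
        (abs_add_le _ _).trans (add_le_add e1 e2)
    _ ≤ D.L * ‖w‖ * (‖u‖ * (D.L * ‖v‖)) + D.L * (‖u‖ * (D.L * ‖w‖ * ‖v‖)) := by gcongr
    _ = 2 * D.L ^ 2 * ‖w‖ * ‖u‖ * ‖v‖ := by ring

theorem G_lip (x y : E4) : ‖D.G y - D.G x‖ ≤ 2 * D.L ^ 2 * ‖y - x‖ := by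
  have hL := L_nn D
  apply lip_of_fderiv (G_diff D)
  intro z
  exact ContinuousLinearMap.opNorm_le_bound _ (by positivity) (G1_le D z)

theorem G1_lip (x y w : E4) :
    ‖fderiv ℝ D.G y w - fderiv ℝ D.G x w‖ ≤ 4 * D.L ^ 2 * ‖y - x‖ * ‖w‖ := by
  have hL := L_nn D
  apply bil_le (by positivity)
  intro u v
  have e : (fderiv ℝ D.G y w - fderiv ℝ D.G x w) u v =
      (fderiv ℝ D.F y w - fderiv ℝ D.F x w) u (D.J y v)
      + fderiv ℝ D.F x w u ((D.J y - D.J x) v)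
      + (D.F y - D.F x) u (fderiv ℝ D.J y w v)
      + D.F x u ((fderiv ℝ D.J y w - fderiv ℝ D.J x w) v) := by
    have : (fderiv ℝ D.G y w - fderiv ℝ D.G x w) u v =
      fderiv ℝ D.G y w u v - fderiv ℝ D.G x w u v := rfl
    rw [this, G1_apply, G1_apply]
    simp only [sub_apply, map_sub]
    ring
  rw [e]
  have e1 := abs_bil_le (F1w_lip D x y w) u (D.J y v)
  have e2 := abs_bil_le (F1w_le D x w) u ((D.J y - D.J x) v)
  have e3 := abs_bil_le (F_lip D x y) u (fderiv ℝ D.J y w v)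
  have e4 := abs_bil_le (D.bF x) u ((fderiv ℝ D.J y w - fderiv ℝ D.J x w) v)
  have f1 := Jv_le D y v
  have f2 : ‖(D.J y - D.J x) v‖ ≤ D.L * ‖y - x‖ * ‖v‖ :=
    (D.J y - D.J x).le_of_opNorm_le (J_lip D x y) v
  have f3 : ‖fderiv ℝ D.J y w v‖ ≤ D.L * ‖w‖ * ‖v‖ :=
    (fderiv ℝ D.J y w).le_of_opNorm_le (J1w_le D y w) v
  have f4 : ‖(fderiv ℝ D.J y w - fderiv ℝ D.J x w) v‖ ≤ D.L * ‖y - x‖ * ‖w‖ * ‖v‖ :=
    (fderiv ℝ D.J y w - fderiv ℝ D.J x w).le_of_opNorm_le (J1w_lip D x y w) v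
  calc _ ≤ |(fderiv ℝ D.F y w - fderiv ℝ D.F x w) u (D.J y v)|
        + |fderiv ℝ D.F x w u ((D.J y - D.J x) v)|
        + |(D.F y - D.F x) u (fderiv ℝ D.J y w v)|
        + |D.F x u ((fderiv ℝ D.J y w - fderiv ℝ D.J x w) v)| :=
        (abs_add_le _ _).trans (add_le_add_left ((abs_add_le _ _).trans
          (add_le_add_left (abs_add_le _ _) _)) _)
    _ ≤ D.L * ‖y - x‖ * ‖w‖ * (‖u‖ * (D.L * ‖v‖))
        + D.L * ‖w‖ * (‖u‖ * (D.L * ‖y - x‖ * ‖v‖))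
        + D.L * ‖y - x‖ * (‖u‖ * (D.L * ‖w‖ * ‖v‖))
        + D.L * (‖u‖ * (D.L * ‖y - x‖ * ‖w‖ * ‖v‖)) := by
        refine add_le_add (add_le_add (add_le_add (e1.trans ?_) (e2.trans ?_)) (e3.trans ?_))
          (e4.trans ?_)
        all_goals gcongr
    _ = 4 * D.L ^ 2 * ‖y - x‖ * ‖w‖ * ‖u‖ * ‖v‖ := by ring

/-- `d_x rho2`. -/
theorem dx_apply (x y w : E4) : D.dx x y w =
    (fderiv ℝ D.G x w (y - x) (y - x) - 2 * D.G x (y - x) w - 2 * D.G y (y - x) w) / 2 := by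
  have hd : ∀ z : E4, HasFDerivAt (fun z : E4 => y - z) (-ContinuousLinearMap.id ℝ E4) z := by
    intro z
    simpa using (hasFDerivAt_id z).const_sub y
  have h1 := Ch.fderiv_pair (b := D.G) (Y := fun z => y - z) (Z := fun z => y - z) (y := x)
    (G_diff D x) (hd x).differentiableAt (hd x).differentiableAt w
  have h2 := Ch.fderiv_pair (b := fun _ => D.G y) (Y := fun z => y - z) (Z := fun z => y - z)
    (y := x) (differentiableAt_const _) (hd x).differentiableAt (hd x).differentiableAt w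
  rw [(hd x).fderiv] at h1 h2
  simp only [fderiv_fun_const, Pi.zero_apply, zero_apply, zero_add, neg_apply,
    ContinuousLinearMap.id_apply, map_neg] at h1 h2
  have d1 : DifferentiableAt ℝ (fun z => D.G z (y - z) (y - z)) x :=
    ((G_diff D x).clm_apply (hd x).differentiableAt).clm_apply (hd x).differentiableAt
  have d2 : DifferentiableAt ℝ (fun z => D.G y (y - z) (y - z)) x :=
    ((differentiableAt_const (D.G y)).clm_apply (hd x).differentiableAt).clm_apply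
      (hd x).differentiableAt
  have e : D.dx x y w = (fderiv ℝ (fun z => D.G z (y - z) (y - z)) x w
      + fderiv ℝ (fun z => D.G y (y - z) (y - z)) x w) / 2 := by
    unfold LC.dx LC.rho2
    have h3 := ((d1.hasFDerivAt.add d2.hasFDerivAt).mul_const (2:ℝ)⁻¹).fderiv
    simp only [div_eq_mul_inv]
    have h4 : (fun z => (D.G z (y - z) (y - z) + D.G y (y - z) (y - z)) * (2:ℝ)⁻¹) =
      (fun y_1 => ((fun z => D.G z (y - z) (y - z)) + fun z => D.G y (y - z) (y - z)) y_1 * (2:ℝ)⁻¹) := rfl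
    rw [h4, h3]
    simp only [smul_apply, add_apply, smul_eq_mul]
    ring
  rw [e, h1, h2, G_symm D x w, G_symm D y w]
  ring

/-- `d_y rho2`. -/
theorem dy_apply (x y V : E4) : D.dy x y V =
    (2 * D.G x (y - x) V + fderiv ℝ D.G y V (y - x) (y - x) + 2 * D.G y (y - x) V) / 2 := by
  have hd : ∀ z : E4, HasFDerivAt (fun z : E4 => z - x) (ContinuousLinearMap.id ℝ E4) z := by
    intro z
    simpa using (hasFDerivAt_id z).sub_const x
  have h1 := Ch.fderiv_pair (b := D.G) (Y := fun z => z - x) (Z := fun z => z - x) (y := y)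
    (G_diff D y) (hd y).differentiableAt (hd y).differentiableAt V
  have h2 := Ch.fderiv_pair (b := fun _ => D.G x) (Y := fun z => z - x) (Z := fun z => z - x)
    (y := y) (differentiableAt_const _) (hd y).differentiableAt (hd y).differentiableAt V
  rw [(hd y).fderiv] at h1 h2
  simp only [fderiv_fun_const, Pi.zero_apply, zero_apply, zero_add,
    ContinuousLinearMap.id_apply] at h1 h2
  have d1 : DifferentiableAt ℝ (fun z => D.G z (z - x) (z - x)) y :=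
    ((G_diff D y).clm_apply (hd y).differentiableAt).clm_apply (hd y).differentiableAt
  have d2 : DifferentiableAt ℝ (fun z => D.G x (z - x) (z - x)) y :=
    ((differentiableAt_const (D.G x)).clm_apply (hd y).differentiableAt).clm_apply
      (hd y).differentiableAt
  have e : D.dy x y V = (fderiv ℝ (fun z => D.G x (z - x) (z - x)) y V
      + fderiv ℝ (fun z => D.G z (z - x) (z - x)) y V) / 2 := by
    unfold LC.dy LC.rho2
    have h3 := ((d2.hasFDerivAt.add d1.hasFDerivAt).mul_const (2:ℝ)⁻¹).fderiv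
    simp only [div_eq_mul_inv]
    have h4 : (fun z => (D.G x (z - x) (z - x) + D.G z (z - x) (z - x)) * (2:ℝ)⁻¹) =
      (fun y_1 => ((fun z => D.G x (z - x) (z - x)) + fun z => D.G z (z - x) (z - x)) y_1 * (2:ℝ)⁻¹) := rfl
    rw [h4, h3]
    simp only [smul_apply, add_apply, smul_eq_mul]
    ring
  rw [e, h1, h2, G_symm D x V, G_symm D y V]
  ring

/-- derivative of `J² = -1`. -/
theorem JJ' (x w v : E4) :
    fderiv ℝ D.J x w (D.J x v) + D.J x (fderiv ℝ D.J x w v) = 0 := by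
  have h1 : DifferentiableAt ℝ (fun z => D.J z v) x :=
    (J_diff D x).clm_apply (differentiableAt_const _)
  have h2 : fderiv ℝ (fun z => D.J z (D.J z v)) x w =
      fderiv ℝ D.J x w (D.J x v) + D.J x (fderiv ℝ D.J x w v) := by
    rw [fderiv_clm_apply (J_diff D x) h1,
      fderiv_clm_apply (J_diff D x) (differentiableAt_const _)]
    simp [add_comm]
  have h3 : (fun z => D.J z (D.J z v)) = fun _ => -v := by
    funext z; exact (D.bd z).sq v
  rw [← h2, h3]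
  simp

theorem F1_alt (y u : E4) : Alt (fderiv ℝ D.F y u) := by
  intro a
  have h := Ch.fderiv_pair (b := D.F) (Y := fun _ => a) (Z := fun _ => a) (y := y) (F_diff D y)
      (differentiableAt_const _) (differentiableAt_const _) u
  have h2 : (fun z => D.F z a a) = fun _ => 0 := by
    funext z; exact (D.bd z).spos.alt a
  rw [h2] at h
  simpa using h.symm

/-- the first estimate -/
theorem est1 {x w : E4} {A : E4 →L[ℝ] E4} {CA : ℝ}
    (hA : ∀ u v, D.G x (A u) v = (-(1/2 : ℝ) • fderiv ℝ D.G x w) u v) (hn : ‖A‖ ≤ CA * ‖w‖)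
    (y : E4) : |D.dx x y w + D.dy x y (w + A (y - x))|
      ≤ (2 * D.L ^ 2 + 3 * D.L ^ 2 * CA) * ‖w‖ * ‖y - x‖ ^ 3 := by
  have hL := L_nn D
  rw [dx_apply, dy_apply]
  set d := y - x with hd
  have hAd : ‖A d‖ ≤ CA * ‖w‖ * ‖d‖ := A.le_of_opNorm_le hn d
  have h1 : D.G x d (A d) = -(1/2) * fderiv ℝ D.G x w d d := by
    rw [G_symm D x d (A d), hA]; simp
  have e : (fderiv ℝ D.G x w d d - 2 * D.G x d w - 2 * D.G y d w) / 2
      + (2 * D.G x d (w + A d) + fderiv ℝ D.G y (w + A d) d d + 2 * D.G y d (w + A d)) / 2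
      = (1/2) * (fderiv ℝ D.G y w - fderiv ℝ D.G x w) d d + (1/2) * fderiv ℝ D.G y (A d) d d
        + (D.G y - D.G x) d (A d) := by
    simp only [map_add, add_apply, sub_apply]
    rw [h1]
    ring
  rw [e]
  have e1 := abs_bil_le (G1_lip D x y w) d d
  have e2 := abs_bil_le (G1_le D y (A d)) d d
  have e3 := abs_bil_le (G_lip D x y) d (A d)
  rw [← hd] at e1 e3
  have e2' : |fderiv ℝ D.G y (A d) d d| ≤ 2 * D.L ^ 2 * (CA * ‖w‖ * ‖d‖) * (‖d‖ * ‖d‖) :=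
    e2.trans (by gcongr)
  have e3' : |(D.G y - D.G x) d (A d)| ≤ 2 * D.L ^ 2 * ‖d‖ * (‖d‖ * (CA * ‖w‖ * ‖d‖)) :=
    e3.trans (by gcongr)
  have a1 := abs_add_le ((1/2) * (fderiv ℝ D.G y w - fderiv ℝ D.G x w) d d
    + (1/2) * fderiv ℝ D.G y (A d) d d) ((D.G y - D.G x) d (A d))
  have a2 := abs_add_le ((1/2) * (fderiv ℝ D.G y w - fderiv ℝ D.G x w) d d)
    ((1/2) * fderiv ℝ D.G y (A d) d d)
  have a3 : |(1/2) * (fderiv ℝ D.G y w - fderiv ℝ D.G x w) d d|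
      = (1/2) * |(fderiv ℝ D.G y w - fderiv ℝ D.G x w) d d| := by
    rw [abs_mul, abs_of_pos (by norm_num : (0:ℝ) < 1/2)]
  have a4 : |(1/2) * fderiv ℝ D.G y (A d) d d| = (1/2) * |fderiv ℝ D.G y (A d) d d| := by
    rw [abs_mul, abs_of_pos (by norm_num : (0:ℝ) < 1/2)]
  have fin : (2 * D.L ^ 2 + 3 * D.L ^ 2 * CA) * ‖w‖ * ‖d‖ ^ 3
      = (1/2) * (4 * D.L ^ 2 * ‖d‖ * ‖w‖ * (‖d‖ * ‖d‖))
        + (1/2) * (2 * D.L ^ 2 * (CA * ‖w‖ * ‖d‖) * (‖d‖ * ‖d‖))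
        + 2 * D.L ^ 2 * ‖d‖ * (‖d‖ * (CA * ‖w‖ * ‖d‖)) := by ring
  rw [fin]
  linarith

/-- the exterior derivative of the transported form -/
def BB (y V : E4) (A : E4 →L[ℝ] E4) : Bil :=
  fderiv ℝ D.F y V + (D.F y).comp A + ((D.F y).flip.comp A).flip

theorem BB_apply (y V : E4) (A : E4 →L[ℝ] E4) (u v : E4) :
    BB D y V A u v = fderiv ℝ D.F y V u v + D.F y (A u) v + D.F y u (A v) := rfl

theorem BB_alt (y V : E4) (A : E4 →L[ℝ] E4) : Alt (BB D y V A) := by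
  intro v
  rw [BB_apply, F1_alt D y V v, (D.bd y).spos.alt.swap v (A v)]
  ring

theorem d1_bet {x w y : E4} (A : E4 →L[ℝ] E4) (hc : Cl D.F y) :
    d1 (D.bet w A x) y = BB D y (w + A (y - x)) A := by
  have hV : HasFDerivAt (fun z : E4 => w + A (z - x)) A y := by
    have h1 : HasFDerivAt (fun z : E4 => z - x) (ContinuousLinearMap.id ℝ E4) y := by
      simpa using (hasFDerivAt_id y).sub_const x
    have h2 := (A.hasFDerivAt.comp y h1).const_add w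
    simpa using h2
  have hb : ∀ u v, fderiv ℝ (D.bet w A x) y u v =
      fderiv ℝ D.F y u (w + A (y - x)) v + D.F y (A u) v := by
    intro u v
    unfold LC.bet
    rw [fderiv_clm_apply (F_diff D y) hV.differentiableAt, hV.fderiv]
    simp [add_comm]
  ext u v
  rw [d1_apply, hb, hb, BB_apply]
  have c := hc u v (w + A (y - x))
  have a1 := (F1_alt D y u).swap (w + A (y - x)) v
  have a2 := (D.bd y).spos.alt.swap (A v) u
  rw [a1, a2]
  linarith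

theorem BB_anti {x w : E4} {A : E4 →L[ℝ] E4}
    (hA : ∀ u v, D.G x (A u) v = (-(1/2 : ℝ) • fderiv ℝ D.G x w) u v) (u v : E4) :
    BB D x w A (D.J x u) (D.J x v) = - BB D x w A u v := by
  have hJ := (D.bd x).sq
  have hF := (D.bd x).spos
  -- G' in terms of F
  have g : ∀ a b, fderiv ℝ D.G x w a b =
    fderiv ℝ D.F x w a (D.J x b) + D.F x a (fderiv ℝ D.J x w b) := G1_apply D x w
  have gs := G1_symm D x w
  have c1 : ∀ a b, D.F x (A a) b = (1/2) * fderiv ℝ D.G x w a (D.J x b) := by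
    intro a b
    have h := hA a (-(D.J x b))
    rw [G_apply, map_neg, hJ, neg_neg] at h
    rw [h]
    simp only [smul_apply, map_neg, smul_eq_mul]
    ring
  have c2 : ∀ a b, D.F x a (A b) = -(1/2) * fderiv ℝ D.G x w (D.J x a) b := by
    intro a b
    rw [hF.alt.swap, c1, gs b (D.J x a)]
    ring
  have c3 : ∀ a b, fderiv ℝ D.F x w a b = - fderiv ℝ D.G x w a (D.J x b)
      + D.F x a (fderiv ℝ D.J x w (D.J x b)) := by
    intro a b
    rw [g a (D.J x b), hJ, map_neg]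
    ring
  have c4 : D.F x (D.J x u) (fderiv ℝ D.J x w v) = D.F x u (fderiv ℝ D.J x w (D.J x v)) := by
    have h1 := hF.inv (D.J x u) (fderiv ℝ D.J x w v)
    have h2 := JJ' D x w v
    have h3 : D.J x (fderiv ℝ D.J x w v) = - fderiv ℝ D.J x w (D.J x v) :=
      (neg_eq_of_add_eq_zero_right h2).symm
    rw [hJ, h3] at h1
    rw [← h1]; simp
  rw [BB_apply, BB_apply, c1, c2, c3, c1, c2, c3]
  simp only [hJ, map_neg, neg_apply]
  rw [c4]
  ring

theorem BB_diff {x w y : E4} {A : E4 →L[ℝ] E4} {CA : ℝ} (hn : ‖A‖ ≤ CA * ‖w‖) (u v : E4) :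
    |BB D y (w + A (y - x)) A u v - BB D x w A u v|
      ≤ (D.L * (1 + 3 * CA)) * ‖w‖ * ‖y - x‖ * (‖u‖ * ‖v‖) := by
  have hL := L_nn D
  have hAd : ‖A (y - x)‖ ≤ CA * ‖w‖ * ‖y - x‖ := A.le_of_opNorm_le hn (y - x)
  have e : BB D y (w + A (y - x)) A u v - BB D x w A u v
      = (fderiv ℝ D.F y w - fderiv ℝ D.F x w) u v + fderiv ℝ D.F y (A (y - x)) u v
        + (D.F y - D.F x) (A u) v + (D.F y - D.F x) u (A v) := by
    rw [BB_apply, BB_apply]
    simp only [map_add, add_apply, sub_apply]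
    ring
  have e1 := abs_bil_le (F1w_lip D x y w) u v
  have e2 := abs_bil_le (F1w_le D y (A (y - x))) u v
  have e3 := abs_bil_le (F_lip D x y) (A u) v
  have e4 := abs_bil_le (F_lip D x y) u (A v)
  have f1 : ‖A u‖ ≤ CA * ‖w‖ * ‖u‖ := A.le_of_opNorm_le hn u
  have f2 : ‖A v‖ ≤ CA * ‖w‖ * ‖v‖ := A.le_of_opNorm_le hn v
  rw [e]
  calc _ ≤ |(fderiv ℝ D.F y w - fderiv ℝ D.F x w) u v| + |fderiv ℝ D.F y (A (y - x)) u v|
        + |(D.F y - D.F x) (A u) v| + |(D.F y - D.F x) u (A v)| :=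
        (abs_add_le _ _).trans (add_le_add_left ((abs_add_le _ _).trans
          (add_le_add_left (abs_add_le _ _) _)) _)
    _ ≤ D.L * ‖y - x‖ * ‖w‖ * (‖u‖ * ‖v‖) + D.L * (CA * ‖w‖ * ‖y - x‖) * (‖u‖ * ‖v‖)
        + D.L * ‖y - x‖ * ((CA * ‖w‖ * ‖u‖) * ‖v‖) + D.L * ‖y - x‖ * (‖u‖ * (CA * ‖w‖ * ‖v‖)) := by
        refine add_le_add (add_le_add (add_le_add e1 (e2.trans ?_)) (e3.trans ?_)) (e4.trans ?_)
        all_goals gcongr
    _ = _ := by ring

theorem BB_le {x w : E4} {A : E4 →L[ℝ] E4} {CA : ℝ} (hn : ‖A‖ ≤ CA * ‖w‖) (u v : E4) :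
    |BB D x w A u v| ≤ (D.L * (1 + 2 * CA)) * ‖w‖ * (‖u‖ * ‖v‖) := by
  have hL := L_nn D
  have e1 := abs_bil_le (F1w_le D x w) u v
  have e3 := abs_bil_le (D.bF x) (A u) v
  have e4 := abs_bil_le (D.bF x) u (A v)
  have f1 : ‖A u‖ ≤ CA * ‖w‖ * ‖u‖ := A.le_of_opNorm_le hn u
  have f2 : ‖A v‖ ≤ CA * ‖w‖ * ‖v‖ := A.le_of_opNorm_le hn v
  rw [BB_apply]
  calc _ ≤ |fderiv ℝ D.F x w u v| + |D.F x (A u) v| + |D.F x u (A v)| :=
        (abs_add_le _ _).trans (add_le_add_left (abs_add_le _ _) _)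
    _ ≤ D.L * ‖w‖ * (‖u‖ * ‖v‖) + D.L * ((CA * ‖w‖ * ‖u‖) * ‖v‖)
        + D.L * (‖u‖ * (CA * ‖w‖ * ‖v‖)) := by
        refine add_le_add (add_le_add e1 (e3.trans ?_)) (e4.trans ?_)
        all_goals gcongr
    _ = _ := by ring

theorem invp_le {x w y : E4} {A : E4 →L[ℝ] E4} {CA : ℝ} (hCA : 0 ≤ CA)
    (hA : ∀ u v, D.G x (A u) v = (-(1/2 : ℝ) • fderiv ℝ D.G x w) u v) (hn : ‖A‖ ≤ CA * ‖w‖) :
    ‖invp (D.J y) (BB D y (w + A (y - x)) A)‖ ≤
      ((D.L * (1 + 3 * CA)) * (1 + D.L ^ 2) + (D.L * (1 + 2 * CA)) * (2 * D.L ^ 2))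
        * ‖w‖ * ‖y - x‖ := by
  have hL := L_nn D
  apply bil_le (by positivity)
  intro u v
  rw [invp_apply]
  set B := BB D y (w + A (y - x)) A with hB
  set B0 := BB D x w A with hB0
  have an := BB_anti D hA u v
  rw [← hB0] at an
  have e : (B u v + B (D.J y u) (D.J y v)) / 2 = (1/2) * (B u v - B0 u v)
      + (1/2) * (B (D.J y u) (D.J y v) - B0 (D.J y u) (D.J y v))
      + (1/2) * B0 ((D.J y - D.J x) u) (D.J y v)
      + (1/2) * B0 (D.J x u) ((D.J y - D.J x) v) := by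
    simp only [sub_apply, map_sub]
    linarith
  have e1 := BB_diff D (x := x) (y := y) hn u v
  have e2 := BB_diff D (x := x) (y := y) hn (D.J y u) (D.J y v)
  have e3 := BB_le D (x := x) hn ((D.J y - D.J x) u) (D.J y v)
  have e4 := BB_le D (x := x) hn (D.J x u) ((D.J y - D.J x) v)
  rw [← hB, ← hB0] at e1 e2
  rw [← hB0] at e3 e4
  have f1 := Jv_le D y u
  have f2 := Jv_le D y v
  have f3 := Jv_le D x u
  have f4 : ‖(D.J y - D.J x) u‖ ≤ D.L * ‖y - x‖ * ‖u‖ :=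
    (D.J y - D.J x).le_of_opNorm_le (J_lip D x y) u
  have f5 : ‖(D.J y - D.J x) v‖ ≤ D.L * ‖y - x‖ * ‖v‖ :=
    (D.J y - D.J x).le_of_opNorm_le (J_lip D x y) v
  set c1 := D.L * (1 + 3 * CA) with hc1
  set c2 := D.L * (1 + 2 * CA) with hc2
  have hc1' : 0 ≤ c1 := by positivity
  have hc2' : 0 ≤ c2 := by positivity
  have e2' : |B (D.J y u) (D.J y v) - B0 (D.J y u) (D.J y v)| ≤
      c1 * ‖w‖ * ‖y - x‖ * ((D.L * ‖u‖) * (D.L * ‖v‖)) := e2.trans (by gcongr)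
  have e3' : |B0 ((D.J y - D.J x) u) (D.J y v)| ≤
      c2 * ‖w‖ * ((D.L * ‖y - x‖ * ‖u‖) * (D.L * ‖v‖)) := e3.trans (by gcongr)
  have e4' : |B0 (D.J x u) ((D.J y - D.J x) v)| ≤
      c2 * ‖w‖ * ((D.L * ‖u‖) * (D.L * ‖y - x‖ * ‖v‖)) := e4.trans (by gcongr)
  have h2 : ∀ t : ℝ, |(1/2) * t| = (1/2) * |t| := fun t => by
    rw [abs_mul, abs_of_pos (by norm_num : (0:ℝ) < 1/2)]
  rw [e]
  calc _ ≤ |(1/2) * (B u v - B0 u v)|
        + |(1/2) * (B (D.J y u) (D.J y v) - B0 (D.J y u) (D.J y v))|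
        + |(1/2) * B0 ((D.J y - D.J x) u) (D.J y v)|
        + |(1/2) * B0 (D.J x u) ((D.J y - D.J x) v)| :=
        (abs_add_le _ _).trans (add_le_add_left ((abs_add_le _ _).trans
          (add_le_add_left (abs_add_le _ _) _)) _)
    _ ≤ (1/2) * (c1 * ‖w‖ * ‖y - x‖ * (‖u‖ * ‖v‖))
        + (1/2) * (c1 * ‖w‖ * ‖y - x‖ * ((D.L * ‖u‖) * (D.L * ‖v‖)))
        + (1/2) * (c2 * ‖w‖ * ((D.L * ‖y - x‖ * ‖u‖) * (D.L * ‖v‖)))
        + (1/2) * (c2 * ‖w‖ * ((D.L * ‖u‖) * (D.L * ‖y - x‖ * ‖v‖))) := by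
        rw [h2, h2, h2, h2]
        linarith
    _ = (1/2) * ((c1 * (1 + D.L ^ 2) + c2 * (2 * D.L ^ 2)) * ‖w‖ * ‖y - x‖ * ‖u‖ * ‖v‖) := by
        ring
    _ ≤ (c1 * (1 + D.L ^ 2) + c2 * (2 * D.L ^ 2)) * ‖w‖ * ‖y - x‖ * ‖u‖ * ‖v‖ := by
        have : 0 ≤ (c1 * (1 + D.L ^ 2) + c2 * (2 * D.L ^ 2)) * ‖w‖ * ‖y - x‖ * ‖u‖ * ‖v‖ := by
          positivity
        linarith

end pt

/-- **GEO2** -/
theorem geo2 : GEO2 := by
  intro D
  have hL := L_nn D
  have hm : 0 < D.m := (D.bd 0).m_pos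
  have hM : 0 < D.M := (D.bd 0).M_pos
  set CA : ℝ := D.L ^ 2 / D.m with hCA
  have hCA0 : 0 ≤ CA := by positivity
  set C1 : ℝ := 2 * D.L ^ 2 + 3 * D.L ^ 2 * CA with hC1
  set C2 : ℝ := 3 / D.m ^ 2 * (2 * D.M) *
    ((D.L * (1 + 3 * CA)) * (1 + D.L ^ 2) + (D.L * (1 + 2 * CA)) * (2 * D.L ^ 2)) with hC2
  have h1 : 0 ≤ C1 := by positivity
  have h2 : 0 ≤ C2 := by positivity
  refine ⟨CA + C1 + C2, by positivity, fun x w => ?_⟩
  obtain ⟨A, hA, hn⟩ := exists_endo (g := D.G x) hm (fun v => (D.bd x).lo v)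
    (-(1/2 : ℝ) • fderiv ℝ D.G x w)
  have hn' : ‖A‖ ≤ CA * ‖w‖ := by
    refine hn.trans ?_
    have e1 : ‖-(1/2 : ℝ) • fderiv ℝ D.G x w‖ ≤ (1/2) * (2 * D.L ^ 2 * ‖w‖) := by
      refine bil_le (by positivity) fun u v => ?_
      have e2 := abs_bil_le (G1_le D x w) u v
      have e3 : (-(1/2 : ℝ) • fderiv ℝ D.G x w) u v = -((1/2) * fderiv ℝ D.G x w u v) := by
        simp only [smul_apply, smul_eq_mul]; ring
      rw [e3, abs_neg, abs_mul, abs_of_pos (by norm_num : (0:ℝ) < 1/2)]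
      calc (1/2) * |fderiv ℝ D.G x w u v| ≤ (1/2) * (2 * D.L ^ 2 * ‖w‖ * (‖u‖ * ‖v‖)) :=
            mul_le_mul_of_nonneg_left e2 (by norm_num)
        _ = _ := by ring
    calc ‖-(1/2 : ℝ) • fderiv ℝ D.G x w‖ / D.m ≤ ((1/2) * (2 * D.L ^ 2 * ‖w‖)) / D.m :=
          div_le_div_of_nonneg_right e1 hm.le
      _ = CA * ‖w‖ := by rw [hCA]; ring
  refine ⟨A, hn'.trans ?_, fun y _ => (est1 D hA hn' y).trans ?_, fun y hy _ => ?_⟩
  · exact mul_le_mul_of_nonneg_right (by linarith) (norm_nonneg _)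
  · have h3 : C1 ≤ CA + C1 + C2 := by linarith
    exact mul_le_mul_of_nonneg_right (mul_le_mul_of_nonneg_right h3 (norm_nonneg _))
      (by positivity)
  · rw [d1_bet D A (D.cl y hy),
      (D.bd y).q_inv_left (D.pos y).alt (D.pos y).inv (BB_alt D y _ A)]
    have e1 := (D.bd y).abs_q_le (D.pos y).alt ((BB_alt D y (w + A (y - x)) A).invp (D.J y))
    have e2 := (D.bd y).norm_le_q (D.pos y)
    rw [D.nrm y, mul_one] at e2
    have e3 := invp_le D (y := y) hCA0 hA hn'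
    refine e1.trans ?_
    calc 3 / D.m ^ 2 * (‖D.φ y‖ * ‖invp (D.J y) (BB D y (w + A (y - x)) A)‖)
        ≤ 3 / D.m ^ 2 * ((2 * D.M) *
          (((D.L * (1 + 3 * CA)) * (1 + D.L ^ 2) + (D.L * (1 + 2 * CA)) * (2 * D.L ^ 2))
            * ‖w‖ * ‖y - x‖)) := by gcongr
      _ = C2 * ‖w‖ * ‖y - x‖ := by rw [hC2]; ring
      _ ≤ (CA + C1 + C2) * ‖w‖ * ‖y - x‖ := by
          have h3 : C2 ≤ CA + C1 + C2 := by linarith
          exact mul_le_mul_of_nonneg_right (mul_le_mul_of_nonneg_right h3 (norm_nonneg _))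
            (norm_nonneg _)

end

end Crest.Agent.R235.CurGeo2_133
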