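import Crest.Agent.R235.CurDefs_132
import Crest.Agent.R240.SmInt

/-!
Row 235 (S0364), PACKAGE CUR, helper109: the tangential gradient of `nuR`
(`GRA` of `CurDefs_132`).

* `gra : LIN1' → LIN3 → LIN4 → GEO1 → GEO2 → GRA`
* reusable: `Cut` facts, measurability and integrability of `q`-expressions, `hasFDerivAt_nuR`,
  `contDiff_nuR`, the identity `ident` obtained by testing closedness with `K(ρ²/r²) F(V,·)`.
-/

set_option autoImplicit false
set_option maxSynthPendingDepth 3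

open Set Function Filter MeasureTheory Metric
open scoped ContDiff ENNReal Topology

namespace Crest.Agent.R235.CurGra_109

open Crest.Agent.R240 Crest.Agent.R240.En Crest.Agent.R240.Pot Crest.Agent.R235.CurDefs_132

noncomputable section

/-! ### profiles -/

section Kcut

variable {δ : ℝ} {K : ℝ → ℝ}

lemma cut_nonneg (h : Cut δ K) (t : ℝ) : 0 ≤ K t := by
  have := h.anti (le_max_left t (1 + δ))
  rwa [h.zero _ (le_max_right _ _)] at this

lemma cut_le_one (h : Cut δ K) (t : ℝ) : K t ≤ 1 := by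
  have := h.anti (min_le_left t 1)
  rwa [h.one _ (min_le_right _ _)] at this

lemma cut_deriv_gt (h : Cut δ K) {t : ℝ} (ht : 1 + δ < t) : deriv K t = 0 := by
  have : K =ᶠ[𝓝 t] fun _ => (0 : ℝ) := by
    filter_upwards [lt_mem_nhds ht] with u hu using h.zero u hu.le
  rw [this.deriv_eq]; simp

lemma cut_deriv_lt (h : Cut δ K) {t : ℝ} (ht : t < 1) : deriv K t = 0 := by
  have : K =ᶠ[𝓝 t] fun _ => (1 : ℝ) := by
    filter_upwards [gt_mem_nhds ht] with u hu using h.one u hu.le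
  rw [this.deriv_eq]; simp

lemma cut_cont (h : Cut δ K) : Continuous (deriv K) :=
  h.smooth.continuous_deriv (by norm_num)

lemma cut_bound (h : Cut δ K) : ∃ C : ℝ, 0 ≤ C ∧ ∀ t, |deriv K t| ≤ C := by
  obtain ⟨C, hC⟩ := (isCompact_Icc (a := (1 : ℝ)) (b := 1 + δ)).exists_bound_of_continuousOn
    (cut_cont h).continuousOn
  refine ⟨max C 0, le_max_right _ _, fun t => ?_⟩
  by_cases h1 : t < 1
  · rw [cut_deriv_lt h h1]; simp
  · by_cases h2 : 1 + δ < t
    · rw [cut_deriv_gt h h2]; simp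
    · exact (hC t ⟨not_lt.1 h1, not_lt.1 h2⟩).trans (le_max_left _ _)

end Kcut

/-! ### measurability -/

lemma cont_ent (i j : Fin 4) : Continuous fun b : Bil => ent b i j := by
  unfold ent; fun_prop

lemma meas_ent {b : E4 → Bil} (hb : Measurable b) (i j : Fin 4) :
    Measurable fun y => ent (b y) i j := (cont_ent i j).measurable.comp hb

lemma meas_W {b c : E4 → Bil} (hb : Measurable b) (hc : Measurable c) :
    Measurable fun y => W (b y) (c y) := by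
  have h1 := fun i j => meas_ent hb i j
  have h2 := fun i j => meas_ent hc i j
  unfold W
  exact ((((((h1 0 1).mul (h2 2 3)).sub ((h1 0 2).mul (h2 1 3))).add
    ((h1 0 3).mul (h2 1 2))).add ((h1 1 2).mul (h2 0 3))).sub
    ((h1 1 3).mul (h2 0 2))).add ((h1 2 3).mul (h2 0 1))

lemma meas_q {F φ b : E4 → Bil} (hF : Measurable F) (hφ : Measurable φ) (hb : Measurable b) :
    Measurable fun y => q (F y) (φ y) (b y) := by
  unfold q
  exact (meas_W hφ hb).div (meas_W hF hF)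

lemma q_add_right (F b c d : Bil) : q F b (c + d) = q F b c + q F b d := by
  unfold q; rw [W_add_right]; ring

lemma q_smul_right (F b : Bil) (r : ℝ) (c : Bil) : q F b (r • c) = r * q F b c := by
  unfold q; rw [W_smul_right]; ring

/-! ### the kernel and its derivatives -/

variable (D : LC)

lemma cont_F : Continuous D.F := D.smF.continuous
lemma cont_J : Continuous D.J := D.smJ.continuous

section geo

variable {D} (hρ : ContDiff ℝ ∞ (fun z : E4 × E4 => D.rho2 z.1 z.2))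
include hρ

lemma sm_rho2_r (x : E4) : ContDiff ℝ ∞ (fun y => D.rho2 x y) := by
  have h : ContDiff ℝ ∞ (fun y : E4 => (x, y)) := contDiff_const.prodMk contDiff_id
  exact ContDiff.comp (g := fun z : E4 × E4 => D.rho2 z.1 z.2) (f := fun y : E4 => (x, y)) hρ h

lemma sm_rho2_l (y : E4) : ContDiff ℝ ∞ (fun x => D.rho2 x y) := by
  have h : ContDiff ℝ ∞ (fun x : E4 => (x, y)) := contDiff_id.prodMk contDiff_const
  exact ContDiff.comp (g := fun z : E4 × E4 => D.rho2 z.1 z.2) (f := fun x : E4 => (x, y)) hρ h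

lemma dy_eq (x y : E4) : D.dy x y =
    (fderiv ℝ (fun z : E4 × E4 => D.rho2 z.1 z.2) (x, y)).comp
      (ContinuousLinearMap.inr ℝ E4 E4) := by
  have h1 : HasFDerivAt (fun z : E4 × E4 => D.rho2 z.1 z.2)
      (fderiv ℝ (fun z : E4 × E4 => D.rho2 z.1 z.2) (x, y)) (x, y) :=
    (hρ.differentiable (by norm_num) (x, y)).hasFDerivAt
  have h2 : HasFDerivAt (fun z : E4 => (x, z)) (ContinuousLinearMap.inr ℝ E4 E4) y :=
    hasFDerivAt_prodMk_right x y
  exact (h1.comp y h2).fderiv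

lemma dx_eq (x y : E4) : D.dx x y =
    (fderiv ℝ (fun z : E4 × E4 => D.rho2 z.1 z.2) (x, y)).comp
      (ContinuousLinearMap.inl ℝ E4 E4) := by
  have h1 : HasFDerivAt (fun z : E4 × E4 => D.rho2 z.1 z.2)
      (fderiv ℝ (fun z : E4 × E4 => D.rho2 z.1 z.2) (x, y)) (x, y) :=
    (hρ.differentiable (by norm_num) (x, y)).hasFDerivAt
  have h2 : HasFDerivAt (fun z : E4 => (z, y)) (ContinuousLinearMap.inl ℝ E4 E4) x :=
    hasFDerivAt_prodMk_left x y
  exact (h1.comp x h2).fderiv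

lemma cont_dy (x : E4) : Continuous (fun y => D.dy x y) := by
  simp_rw [dy_eq hρ]
  have h : Continuous (fderiv ℝ (fun z : E4 × E4 => D.rho2 z.1 z.2)) :=
    hρ.continuous_fderiv (by norm_num)
  exact (h.comp (Continuous.prodMk continuous_const continuous_id)).clm_comp continuous_const

lemma cont_dx (x : E4) : Continuous (fun y => D.dx x y) := by
  simp_rw [dx_eq hρ]
  have h : Continuous (fderiv ℝ (fun z : E4 × E4 => D.rho2 z.1 z.2)) :=
    hρ.continuous_fderiv (by norm_num)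
  exact (h.comp (Continuous.prodMk continuous_const continuous_id)).clm_comp continuous_const

/-- the `y`-derivative of the cut-off -/
lemma fd_cut_y {δ : ℝ} {K : ℝ → ℝ} (hK : Cut δ K) (r : ℝ) (x y : E4) :
    fderiv ℝ (fun y => K (D.rho2 x y / r ^ 2)) y =
      (deriv K (D.rho2 x y / r ^ 2) * (r ^ 2)⁻¹) • D.dy x y := by
  have h1 : HasFDerivAt (fun y => D.rho2 x y) (D.dy x y) y :=
    ((sm_rho2_r hρ x).differentiable (by norm_num) y).hasFDerivAt
  have h2 : HasFDerivAt (fun y => D.rho2 x y / r ^ 2) ((r ^ 2)⁻¹ • D.dy x y) y := by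
    simp_rw [div_eq_mul_inv]
    exact h1.mul_const ((r ^ 2)⁻¹)
  have h3 : HasDerivAt K (deriv K (D.rho2 x y / r ^ 2)) (D.rho2 x y / r ^ 2) :=
    (hK.smooth.differentiable (by norm_num) _).hasDerivAt
  have h4 := h3.comp_hasFDerivAt y h2
  rw [smul_smul] at h4
  exact h4.fderiv

/-- the `x`-derivative of the cut-off -/
lemma fd_cut_x {δ : ℝ} {K : ℝ → ℝ} (hK : Cut δ K) (r : ℝ) (x y : E4) :
    fderiv ℝ (fun x => K (D.rho2 x y / r ^ 2)) x =
      (deriv K (D.rho2 x y / r ^ 2) * (r ^ 2)⁻¹) • D.dx x y := by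
  have h1 : HasFDerivAt (fun x => D.rho2 x y) (D.dx x y) x :=
    ((sm_rho2_l hρ y).differentiable (by norm_num) x).hasFDerivAt
  have h2 : HasFDerivAt (fun x => D.rho2 x y / r ^ 2) ((r ^ 2)⁻¹ • D.dx x y) x := by
    simp_rw [div_eq_mul_inv]
    exact h1.mul_const ((r ^ 2)⁻¹)
  have h3 : HasDerivAt K (deriv K (D.rho2 x y / r ^ 2)) (D.rho2 x y / r ^ 2) :=
    (hK.smooth.differentiable (by norm_num) _).hasDerivAt
  have h4 := h3.comp_hasFDerivAt x h2
  rw [smul_smul] at h4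
  exact h4.fderiv

lemma sm_cut {δ : ℝ} {K : ℝ → ℝ} (hK : Cut δ K) (r : ℝ) :
    ContDiff ℝ ∞ (fun z : E4 × E4 => K (D.rho2 z.1 z.2 / r ^ 2)) :=
  hK.smooth.comp (hρ.div_const _)

end geo

lemma m_pos : 0 < D.m := (D.bd 0).m_pos

/-- the support radius factor -/
def aa : ℝ := √(2 / D.m)

lemma aa_pos : 0 < aa D := Real.sqrt_pos.2 (div_pos two_pos (m_pos D))

lemma aa_sq : aa D ^ 2 = 2 / D.m := Real.sq_sqrt (div_pos two_pos (m_pos D)).le

variable {D}

lemma lt_of_rho {x y : E4} (hlo : D.m * ‖y - x‖ ^ 2 ≤ D.rho2 x y) {δ r : ℝ} (hδ : δ ≤ 1)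
    (hr : 0 < r) (h : D.rho2 x y / r ^ 2 < 1 + δ) : ‖y - x‖ < aa D * r := by
  have hm := m_pos D
  have h1 : D.rho2 x y < 2 * r ^ 2 := by
    rw [div_lt_iff₀ (by positivity)] at h
    nlinarith [sq_nonneg r]
  have h2 : ‖y - x‖ ^ 2 < (aa D * r) ^ 2 := by
    rw [mul_pow, aa_sq, div_mul_eq_mul_div, lt_div_iff₀ hm]
    linarith
  exact lt_of_pow_lt_pow_left₀ 2 (mul_nonneg (aa_pos D).le hr.le) h2

lemma K_zero {x y : E4} (hlo : D.m * ‖y - x‖ ^ 2 ≤ D.rho2 x y) {δ r : ℝ} (hδ : δ ≤ 1)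
    (hr : 0 < r) {K : ℝ → ℝ} (hK : Cut δ K) (h : aa D * r ≤ ‖y - x‖) :
    K (D.rho2 x y / r ^ 2) = 0 := by
  by_contra h0
  have h1 : D.rho2 x y / r ^ 2 < 1 + δ := by
    by_contra h2
    exact h0 (hK.zero _ (not_lt.1 h2))
  exact absurd (lt_of_rho hlo hδ hr h1) (not_lt.2 h)

lemma cut_deriv_ge {δ : ℝ} {K : ℝ → ℝ} (h : Cut δ K) {t : ℝ} (ht : 1 + δ ≤ t) :
    deriv K t = 0 := by
  have hcl : IsClosed {t | deriv K t = 0} := isClosed_eq (cut_cont h) continuous_const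
  have h1 : closure (Ioi (1 + δ)) ⊆ {t | deriv K t = 0} :=
    hcl.closure_subset_iff.2 fun u hu => cut_deriv_gt h hu
  rw [closure_Ioi] at h1
  exact h1 ht

lemma dK_zero {x y : E4} (hlo : D.m * ‖y - x‖ ^ 2 ≤ D.rho2 x y) {δ r : ℝ} (hδ : δ ≤ 1)
    (hr : 0 < r) {K : ℝ → ℝ} (hK : Cut δ K) (h : aa D * r ≤ ‖y - x‖) :
    deriv K (D.rho2 x y / r ^ 2) = 0 := by
  by_contra h0
  have h1 : D.rho2 x y / r ^ 2 < 1 + δ := by
    by_contra h2
    exact h0 (cut_deriv_ge hK (not_lt.1 h2))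
  exact absurd (lt_of_rho hlo hδ hr h1) (not_lt.2 h)

/-- smoothness of `nuR` and its gradient. -/
theorem nuR_deriv (hρ : ContDiff ℝ ∞ (fun z : E4 × E4 => D.rho2 z.1 z.2))
    (hlo : ∀ x y, D.m * ‖y - x‖ ^ 2 ≤ D.rho2 x y) {δ r : ℝ} (hδ : δ ≤ 1) (hr : 0 < r)
    {K : ℝ → ℝ} (hK : Cut δ K) : ContDiff ℝ ∞ (D.nuR K r) ∧ ∀ x w,
      fderiv ℝ (D.nuR K r) x w =
        (r ^ 2)⁻¹ * ∫ y, deriv K (D.rho2 x y / r ^ 2) * (r ^ 2)⁻¹ * D.dx x y w ∂D.s := by
  have := D.fin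
  have hg := sm_cut hρ hK r
  set g : E4 × E4 → ℝ := fun z => K (D.rho2 z.1 z.2 / r ^ 2) with hgd
  have hgo : ContDiffOn ℝ ∞ g univ := hg.contDiffOn
  -- the set on which everything lives
  have hfar : ∀ x1 x : E4, x ∈ ball x1 1 → ∀ y, y ∉ closedBall x1 (1 + aa D * r) →
      aa D * r ≤ ‖y - x‖ := by
    intro x1 x hx y hy
    rw [mem_closedBall, not_le, dist_eq_norm] at hy
    rw [mem_ball, dist_eq_norm] at hx
    have : ‖y - x1‖ ≤ ‖y - x‖ + ‖x - x1‖ := norm_sub_le_norm_sub_add_norm_sub y x x1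
    linarith
  have hloc : ∀ x1 x : E4, x ∈ ball x1 1 →
      D.nuR K r x = (r ^ 2)⁻¹ * ∫ y in closedBall x1 (1 + aa D * r), g (x, y) ∂D.s := by
    intro x1 x hx
    unfold LC.nuR
    congr 1
    exact (setIntegral_eq_integral_of_forall_compl_eq_zero fun y hy =>
      K_zero (hlo x y) hδ hr hK (hfar x1 x hx y hy)).symm
  have hsub : ∀ x1 : E4, ball x1 1 ×ˢ closedBall x1 (1 + aa D * r) ⊆ (univ : Set (E4 × E4)) :=
    fun _ => subset_univ _
  constructor
  · refine contDiff_iff_contDiffAt.2 fun x1 => ?_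
    have h1 := SmJ.contDiffOn_integral (s := univ) isOpen_univ (U := ball x1 1) isOpen_ball
      (isCompact_closedBall x1 (1 + aa D * r)) (hsub x1) D.s hgo
    have h2 := (contDiffOn_const (c := (r ^ 2)⁻¹)).mul h1
    have h3 := h2.contDiffAt (ball_mem_nhds x1 one_pos)
    refine h3.congr_of_eventuallyEq ?_
    filter_upwards [ball_mem_nhds x1 one_pos] with x hx using hloc x1 x hx
  · intro x w
    have h1 := SmJ.hasFDerivAt_integral (s := univ) isOpen_univ (U := ball x 1) isOpen_ball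
      (isCompact_closedBall x (1 + aa D * r)) (hsub x) D.s hgo (mem_ball_self one_pos)
    have h2 := h1.const_mul ((r ^ 2)⁻¹)
    have h3 : HasFDerivAt (D.nuR K r)
        ((r ^ 2)⁻¹ • ∫ y in closedBall x (1 + aa D * r), SmJ.dx g (x, y) ∂D.s) x := by
      refine h2.congr_of_eventuallyEq ?_
      filter_upwards [ball_mem_nhds x one_pos] with x' hx' using hloc x x' hx'
    rw [h3.fderiv]
    have hdx : ∀ y, SmJ.dx g (x, y) = (deriv K (D.rho2 x y / r ^ 2) * (r ^ 2)⁻¹) • D.dx x y := by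
      intro y
      rw [← fd_cut_x hρ hK r x y]
      have a1 : HasFDerivAt g (fderiv ℝ g (x, y)) (x, y) :=
        (hg.differentiable (by norm_num) (x, y)).hasFDerivAt
      have a2 : HasFDerivAt (fun z : E4 => (z, y)) (ContinuousLinearMap.inl ℝ E4 E4) x :=
        hasFDerivAt_prodMk_left x y
      exact ((a1.comp x a2).fderiv).symm
    simp_rw [hdx]
    have hc : Continuous fun y => (deriv K (D.rho2 x y / r ^ 2) * (r ^ 2)⁻¹) • D.dx x y := by
      have b1 : Continuous fun y => deriv K (D.rho2 x y / r ^ 2) :=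
        (cut_cont hK).comp ((sm_rho2_r hρ x).continuous.div_const _)
      exact (b1.mul continuous_const).smul (cont_dx hρ x)
    have hint : IntegrableOn (fun y => (deriv K (D.rho2 x y / r ^ 2) * (r ^ 2)⁻¹) • D.dx x y)
        (closedBall x (1 + aa D * r)) D.s :=
      hc.continuousOn.integrableOn_compact (isCompact_closedBall _ _)
    rw [smul_apply, smul_eq_mul, ContinuousLinearMap.integral_apply hint]
    congr 1
    simp only [smul_apply, smul_eq_mul]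
    refine setIntegral_eq_integral_of_forall_compl_eq_zero fun y hy => ?_
    rw [dK_zero (hlo x y) hδ hr hK (hfar x x (mem_ball_self one_pos) y hy)]
    ring

/-! ### the test form -/

variable (D) in
lemma sm_bet (w : E4) (A : E4 →L[ℝ] E4) (x : E4) : ContDiff ℝ ∞ (D.bet w A x) := by
  unfold LC.bet
  exact D.smF.clm_apply (contDiff_const.add (A.contDiff.comp (contDiff_id.sub contDiff_const)))

variable (D) in
/-- the test 1-form `K(ρ²/r²) F(w + A(y-x), ·)`. -/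
def tst (K : ℝ → ℝ) (r : ℝ) (w : E4) (A : E4 →L[ℝ] E4) (x : E4) : E4 → Cov :=
  fun y => K (D.rho2 x y / r ^ 2) • D.bet w A x y

lemma sm_K (hρ : ContDiff ℝ ∞ (fun z : E4 × E4 => D.rho2 z.1 z.2)) {δ : ℝ} {K : ℝ → ℝ}
    (hK : Cut δ K) (r : ℝ) (x : E4) : ContDiff ℝ ∞ (fun y => K (D.rho2 x y / r ^ 2)) :=
  hK.smooth.comp ((sm_rho2_r hρ x).div_const _)

lemma sm_tst (hρ : ContDiff ℝ ∞ (fun z : E4 × E4 => D.rho2 z.1 z.2)) {δ : ℝ} {K : ℝ → ℝ}
    (hK : Cut δ K) (r : ℝ) (w : E4) (A : E4 →L[ℝ] E4) (x : E4) :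
    ContDiff ℝ ∞ (tst D K r w A x) :=
  (sm_K hρ hK r x).smul (sm_bet D w A x)

lemma supp_tst (hlo : ∀ x y, D.m * ‖y - x‖ ^ 2 ≤ D.rho2 x y) {δ r : ℝ} (hδ : δ ≤ 1)
    (hr : 0 < r) {K : ℝ → ℝ} (hK : Cut δ K) (w : E4) (A : E4 →L[ℝ] E4) (x : E4) :
    tsupport (tst D K r w A x) ⊆ closedBall x (aa D * r) := by
  refine closure_minimal (fun y hy => ?_) isClosed_closedBall
  rw [mem_closedBall, dist_eq_norm]
  by_contra h
  apply hy
  change K (D.rho2 x y / r ^ 2) • D.bet w A x y = 0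
  rw [K_zero (hlo x y) hδ hr hK (not_le.1 h).le, zero_smul]

lemma cpt_tst (hlo : ∀ x y, D.m * ‖y - x‖ ^ 2 ≤ D.rho2 x y) {δ r : ℝ} (hδ : δ ≤ 1)
    (hr : 0 < r) {K : ℝ → ℝ} (hK : Cut δ K) (w : E4) (A : E4 →L[ℝ] E4) (x : E4) :
    HasCompactSupport (tst D K r w A x) :=
  (isCompact_closedBall x (aa D * r)).of_isClosed_subset (isClosed_tsupport _)
    (supp_tst hlo hδ hr hK w A x)

/-- closedness tested with `tst`. -/
lemma tst_closed (hρ : ContDiff ℝ ∞ (fun z : E4 × E4 => D.rho2 z.1 z.2))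
    (hlo : ∀ x y, D.m * ‖y - x‖ ^ 2 ≤ D.rho2 x y) {δ r : ℝ} (hδ : δ ≤ 1)
    (hr : 0 < r) {K : ℝ → ℝ} (hK : Cut δ K) (w : E4) (A : E4 →L[ℝ] E4) {x : E4}
    (hx : x ∈ ball D.x0 (2 * D.R)) (har : aa D * r ≤ D.R) :
    ∫ y, q (D.F y) (D.φ y) (d1 (tst D K r w A x) y) ∂D.s = 0 := by
  refine D.closed _ (sm_tst hρ hK r w A x) (cpt_tst hlo hδ hr hK w A x)
    ((supp_tst hlo hδ hr hK w A x).trans fun y hy => ?_)
  rw [mem_closedBall] at hy
  rw [mem_ball] at hx ⊢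
  have := dist_triangle y x D.x0
  have := D.R_pos
  linarith

/-- `d(K F(V,·))`. -/
lemma d1_tst (hρ : ContDiff ℝ ∞ (fun z : E4 × E4 => D.rho2 z.1 z.2)) {δ : ℝ} {K : ℝ → ℝ}
    (hK : Cut δ K) (r : ℝ) (w : E4) (A : E4 →L[ℝ] E4) (x y : E4) :
    q (D.F y) (D.φ y) (d1 (tst D K r w A x) y) =
      deriv K (D.rho2 x y / r ^ 2) * (r ^ 2)⁻¹ *
        q (D.F y) (D.φ y) (wed (D.dy x y) (D.bet w A x y)) +
      K (D.rho2 x y / r ^ 2) * q (D.F y) (D.φ y) (d1 (D.bet w A x) y) := by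
  have h1 : DifferentiableAt ℝ (fun y => K (D.rho2 x y / r ^ 2)) y :=
    (sm_K hρ hK r x).differentiable (by norm_num) y
  have h2 : DifferentiableAt ℝ (D.bet w A x) y :=
    (sm_bet D w A x).differentiable (by norm_num) y
  have h3 : d1 (tst D K r w A x) y = wed (fderiv ℝ (fun y => K (D.rho2 x y / r ^ 2)) y)
      (D.bet w A x y) + K (D.rho2 x y / r ^ 2) • d1 (D.bet w A x) y := d1_smul h1 h2
  rw [h3, fd_cut_y hρ hK, En.wed_smul_left, q_add_right, q_smul_right, q_smul_right]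

/-! ### boundedness and integrability -/

lemma cont_d1 {S : E4 → Cov} (hS : ContDiff ℝ ∞ S) : Continuous (d1 S) := by
  have h : Continuous (fderiv ℝ S) := hS.continuous_fderiv (by norm_num)
  unfold d1
  exact h.sub ((ContinuousLinearMap.flipₗᵢ ℝ E4 E4 ℝ).continuous.comp h)

lemma bdd_d1 {S : E4 → Cov} (hS : ContDiff ℝ ∞ S) (hc : HasCompactSupport S) :
    ∃ B, ∀ y, ‖d1 S y‖ ≤ B := by
  have h1 : HasCompactSupport (d1 S) := by
    refine (hc.fderiv (𝕜 := ℝ)).mono' ?_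
    refine subset_trans (fun y hy => ?_) subset_closure
    intro h0
    apply hy
    simp [d1, h0]
  obtain ⟨B, hB⟩ := h1.exists_bound_of_continuous (cont_d1 hS)
  exact ⟨B, hB⟩

lemma lip_J (x y : E4) : ‖D.J y - D.J x‖ ≤ D.L * ‖y - x‖ :=
  convex_univ.norm_image_sub_le_of_norm_fderiv_le (𝕜 := ℝ)
    (fun z _ => D.smJ.differentiable (by norm_num) z) (fun z _ => D.bJ1 z) (mem_univ x)
    (mem_univ y)

lemma pos_add {J : E4 →L[ℝ] E4} {P : Bil} (hP : Pos J P) (u v : E4) :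
    P (u + v) (J (u + v)) ≤ 2 * P u (J u) + 2 * P v (J v) := by
  have h := hP.nonneg (u - v)
  simp only [map_sub, map_add, sub_apply, add_apply] at h ⊢
  linarith

lemma meas_De (hρ : ContDiff ℝ ∞ (fun z : E4 × E4 => D.rho2 z.1 z.2)) (x : E4) :
    Measurable fun y => D.De x y := by
  have h1 := cont_dy hρ x
  have h2 : Continuous fun y => Jc (D.J y) (D.dy x y) := by
    unfold Jc
    exact (h1.clm_comp (cont_J D)).neg
  have h3 : Continuous fun y => wed (D.dy x y) (Jc (D.J y) (D.dy x y)) := by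
    unfold wed
    exact (((ContinuousLinearMap.smulRightL ℝ E4 (E4 →L[ℝ] ℝ)).continuous.comp h1).clm_apply
      h2).sub (((ContinuousLinearMap.smulRightL ℝ E4 (E4 →L[ℝ] ℝ)).continuous.comp
      h2).clm_apply h1)
  have hF := (cont_F D).measurable
  unfold LC.De defi
  exact ((meas_q hF hF h3.measurable).const_mul 2).sub (meas_q hF D.meas h3.measurable)

lemma meas_qx (x : E4) : Measurable fun y => D.qx x y := by
  unfold LC.qx
  exact meas_q measurable_const measurable_const D.meas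

/-- the error weight of `GRA`. -/
def ZZ (D : LC) (x y : E4) : ℝ := √(D.De x y) * √(|D.qx x y| + ‖y - x‖ ^ 2)

lemma ZZ_nonneg (x y : E4) : 0 ≤ ZZ D x y := mul_nonneg (Real.sqrt_nonneg _) (Real.sqrt_nonneg _)

lemma meas_ZZ (hρ : ContDiff ℝ ∞ (fun z : E4 × E4 => D.rho2 z.1 z.2)) (x : E4) :
    Measurable fun y => ZZ D x y := by
  have h1 := (meas_De hρ x).sqrt
  have h2 : Measurable fun y => |D.qx x y| + ‖y - x‖ ^ 2 := by
    have h3 : Continuous fun y : E4 => ‖y - x‖ ^ 2 := by fun_prop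
    exact ((meas_qx x).abs).add h3.measurable
  exact h1.mul h2.sqrt

set_option maxHeartbeats 2000000 in
/-- **GRA**: the tangential gradient of `nuR`. -/
theorem gra (h1 : LIN1') (h3 : LIN3) (h4 : LIN4) (g1 : GEO1) (g2 : GEO2) : GRA := by
  intro D δ K _ hδ hK
  have := D.fin
  have hm := m_pos D
  obtain ⟨hρ, hlohi, c1, hc1, hgeo1⟩ := g1 D
  obtain ⟨c2, hc2, hgeo2⟩ := g2 D
  obtain ⟨c3, hc3, hl3⟩ := h3 D.m D.M D.L
  obtain ⟨c4, hc4, hl4⟩ := h4 D.m D.M D.L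
  obtain ⟨ck, hck, hkb⟩ := cut_bound hK
  have hlo : ∀ x y, D.m * ‖y - x‖ ^ 2 ≤ D.rho2 x y := fun x y => (hlohi x y).1
  have ha := aa_pos D
  have hL : 1 ≤ D.L := D.L_ge
  have hCn : 0 ≤ D.C := D.C_nn
  set a := aa D with had
  set c5 : ℝ := 2 * c3 * (1 + D.L ^ 2) + 2 * c4 * D.L * (c2 * c4) ^ 2 with hc5d
  have hc5 : 0 ≤ c5 := by positivity
  set c6 : ℝ := ck * c2 * c4 * a ^ 3 + ck * √c5 + c2 * c4 * a with hc6d
  have hc6 : 0 ≤ c6 := by positivity
  have hfin : 0 ≤ c6 * (1 + D.C * a ^ 2) := by positivity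
  refine ⟨c6 * (1 + D.C * a ^ 2), min (D.R / a) (1 / a), a, hfin,
    lt_min (div_pos D.R_pos ha) (by positivity), ha, ?_⟩
  intro r hr hr1
  have haR : a * r ≤ D.R := by
    have := hr1.trans (min_le_left _ _)
    rw [le_div_iff₀ ha] at this
    linarith
  have ha1 : a * r ≤ 1 := by
    have := hr1.trans (min_le_right _ _)
    rw [le_div_iff₀ ha] at this
    linarith
  obtain ⟨hsm, hfd⟩ := nuR_deriv hρ hlo hδ hr hK
  refine ⟨hsm, ?_⟩
  intro x hx θ
  obtain ⟨-, -, hwb, -, hwq⟩ := hl4 (D.J x) (D.F x) (D.bd x) (D.bJ x) (D.φ x) (D.pos x) (D.nrm x)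
  rw [hwq, hfd]
  set w := wv (D.F x) (D.φ x) θ with hwd
  have hw : ‖w‖ ≤ c4 * ‖θ‖ := hwb θ
  obtain ⟨A, hA, hA1, hA2⟩ := hgeo2 x w
  -- pointwise quantities
  set kp : E4 → ℝ := fun y => deriv K (D.rho2 x y / r ^ 2) * (r ^ 2)⁻¹ with hkp
  set kk : E4 → ℝ := fun y => K (D.rho2 x y / r ^ 2) with hkk
  set P : E4 → ℝ := fun y => q (D.F y) (D.φ y) (wed (D.dy x y) (D.bet w A x y)) with hP
  set E : E4 → ℝ := fun y => q (D.F y) (D.φ y) (d1 (D.bet w A x) y) with hE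
  set T : E4 → ℝ := fun y => q (D.F y) (D.φ y) (d1 (tst D K r w A x) y) with hT
  have hT0 : ∫ y, T y ∂D.s = 0 := tst_closed hρ hlo hδ hr hK w A hx haR
  have hTe : ∀ y, T y = kp y * P y + kk y * E y := fun y => d1_tst hρ hK r w A x y
  have hTi : Integrable T D.s := by
    obtain ⟨B, hB⟩ := bdd_d1 (sm_tst hρ hK r w A x) (cpt_tst hlo hδ hr hK w A x)
    refine Integrable.of_bound (meas_q (cont_F D).measurable D.meas
      (cont_d1 (sm_tst hρ hK r w A x)).measurable).aestronglyMeasurable (c4 * B)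
      (Eventually.of_forall fun y => ?_)
    obtain ⟨-, hq, -⟩ := hl4 (D.J y) (D.F y) (D.bd y) (D.bJ y) (D.φ y) (D.pos y) (D.nrm y)
    exact (hq _ (alt_d1 _ _)).trans (mul_le_mul_of_nonneg_left (hB y) hc4)
  have hIi : Integrable (fun y => kp y * D.dx x y w) D.s := by
    have b1 : Continuous fun y => deriv K (D.rho2 x y / r ^ 2) :=
      (cut_cont hK).comp ((sm_rho2_r hρ x).continuous.div_const _)
    have b2 : Continuous fun y => kp y * D.dx x y w :=
      (b1.mul continuous_const).mul ((cont_dx hρ x).clm_apply continuous_const)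
    refine b2.integrable_of_hasCompactSupport ?_
    refine HasCompactSupport.intro (isCompact_closedBall x (a * r)) fun y hy => ?_
    rw [mem_closedBall, not_le, dist_eq_norm] at hy
    simp only [hkp]
    rw [dK_zero (hlo x y) hδ hr hK hy.le]
    ring
  -- the vector at `y`
  have hV : ∀ y, ‖y - x‖ ≤ 1 → D.φ y (w + A (y - x)) (D.J y (w + A (y - x))) ≤
      c5 * ‖θ‖ ^ 2 * (|D.qx x y| + ‖y - x‖ ^ 2) := by
    intro y _
    have e1 := pos_add (D.pos y) w (A (y - x))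
    have e2 : D.φ y w (D.J y w) ≤ c3 * ‖θ‖ ^ 2 * (|D.qx x y| + (D.L * ‖y - x‖) ^ 2) :=
      hl3 (D.J x) (D.J y) (D.F x) (D.F y) (D.bd x) (D.bd y) (D.bJ x) (D.bJ y) (D.φ x) (D.φ y)
        (D.pos x) (D.nrm x) (D.pos y) (D.nrm y) _ (lip_J x y) θ
    obtain ⟨hφ, -⟩ := hl4 (D.J y) (D.F y) (D.bd y) (D.bJ y) (D.φ y) (D.pos y) (D.nrm y)
    have e3 : ‖A (y - x)‖ ≤ c2 * c4 * ‖θ‖ * ‖y - x‖ := by
      refine (A.le_opNorm _).trans ?_
      refine mul_le_mul_of_nonneg_right ?_ (norm_nonneg _)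
      calc ‖A‖ ≤ c2 * ‖w‖ := hA
        _ ≤ c2 * (c4 * ‖θ‖) := mul_le_mul_of_nonneg_left hw hc2
        _ = c2 * c4 * ‖θ‖ := by ring
    have e4 : D.φ y (A (y - x)) (D.J y (A (y - x))) ≤
        c4 * D.L * (c2 * c4 * ‖θ‖ * ‖y - x‖) ^ 2 := by
      have f1 := (D.φ y).le_opNorm₂ (A (y - x)) (D.J y (A (y - x)))
      have f2 : ‖D.J y (A (y - x))‖ ≤ D.L * ‖A (y - x)‖ :=
        ((D.J y).le_opNorm _).trans (mul_le_mul_of_nonneg_right (D.bJ y) (norm_nonneg _))
      calc D.φ y (A (y - x)) (D.J y (A (y - x)))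
          ≤ ‖D.φ y (A (y - x)) (D.J y (A (y - x)))‖ := Real.le_norm_self _
        _ ≤ ‖D.φ y‖ * ‖A (y - x)‖ * ‖D.J y (A (y - x))‖ := f1
        _ ≤ c4 * ‖A (y - x)‖ * (D.L * ‖A (y - x)‖) := by gcongr
        _ = c4 * D.L * ‖A (y - x)‖ ^ 2 := by ring
        _ ≤ c4 * D.L * (c2 * c4 * ‖θ‖ * ‖y - x‖) ^ 2 := by gcongr
    have e5 : c3 * ‖θ‖ ^ 2 * (|D.qx x y| + (D.L * ‖y - x‖) ^ 2) ≤
        c3 * (1 + D.L ^ 2) * ‖θ‖ ^ 2 * (|D.qx x y| + ‖y - x‖ ^ 2) := by
      have : |D.qx x y| + (D.L * ‖y - x‖) ^ 2 ≤ (1 + D.L ^ 2) * (|D.qx x y| + ‖y - x‖ ^ 2) := by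
        nlinarith [abs_nonneg (D.qx x y), mul_nonneg (sq_nonneg D.L) (abs_nonneg (D.qx x y)),
          sq_nonneg ‖y - x‖]
      calc c3 * ‖θ‖ ^ 2 * (|D.qx x y| + (D.L * ‖y - x‖) ^ 2)
          ≤ c3 * ‖θ‖ ^ 2 * ((1 + D.L ^ 2) * (|D.qx x y| + ‖y - x‖ ^ 2)) :=
            mul_le_mul_of_nonneg_left this (by positivity)
        _ = _ := by ring
    have e6 : c4 * D.L * (c2 * c4 * ‖θ‖ * ‖y - x‖) ^ 2 ≤
        c4 * D.L * (c2 * c4) ^ 2 * ‖θ‖ ^ 2 * (|D.qx x y| + ‖y - x‖ ^ 2) := by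
      calc c4 * D.L * (c2 * c4 * ‖θ‖ * ‖y - x‖) ^ 2
          = c4 * D.L * (c2 * c4) ^ 2 * ‖θ‖ ^ 2 * ‖y - x‖ ^ 2 := by ring
        _ ≤ _ := mul_le_mul_of_nonneg_left (by linarith [abs_nonneg (D.qx x y)])
            (by positivity)
    calc D.φ y (w + A (y - x)) (D.J y (w + A (y - x)))
        ≤ 2 * (c3 * (1 + D.L ^ 2) * ‖θ‖ ^ 2 * (|D.qx x y| + ‖y - x‖ ^ 2)) +
          2 * (c4 * D.L * (c2 * c4) ^ 2 * ‖θ‖ ^ 2 * (|D.qx x y| + ‖y - x‖ ^ 2)) := by
          linarith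
      _ = c5 * ‖θ‖ ^ 2 * (|D.qx x y| + ‖y - x‖ ^ 2) := by rw [hc5d]; ring
  -- the error `N`
  have hN : ∀ y, ‖y - x‖ ≤ 1 → |D.dy x y (w + A (y - x)) - P y| ≤ √c5 * ‖θ‖ * ZZ D x y := by
    intro y hy
    obtain ⟨hd, -, hn⟩ := h1 (D.J y) (D.F y) D.m D.M (D.bd y) (D.φ y) (D.pos y) (D.nrm y)
      (D.dy x y) (w + A (y - x))
    have hd' : 0 ≤ D.De x y := hd
    have hn' : (D.dy x y (w + A (y - x)) - P y) ^ 2 ≤
        D.De x y * (D.φ y (w + A (y - x)) (D.J y (w + A (y - x))) / 2) := hn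
    have hs : 0 ≤ |D.qx x y| + ‖y - x‖ ^ 2 := by positivity
    refine abs_le_of_sq_le_sq ?_ (mul_nonneg (by positivity) (ZZ_nonneg x y))
    calc (D.dy x y (w + A (y - x)) - P y) ^ 2
        ≤ D.De x y * (D.φ y (w + A (y - x)) (D.J y (w + A (y - x))) / 2) := hn'
      _ ≤ D.De x y * (c5 * ‖θ‖ ^ 2 * (|D.qx x y| + ‖y - x‖ ^ 2)) := by
          refine mul_le_mul_of_nonneg_left ?_ hd'
          have := hV y hy
          have : 0 ≤ c5 * ‖θ‖ ^ 2 * (|D.qx x y| + ‖y - x‖ ^ 2) := by positivity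
          linarith
      _ = (√c5 * ‖θ‖ * ZZ D x y) ^ 2 := by
          unfold ZZ
          rw [mul_pow, mul_pow, mul_pow, Real.sq_sqrt hc5, Real.sq_sqrt hd', Real.sq_sqrt hs]
          ring
  -- the integrand
  have hb : ∀ y, |kp y * D.dx x y w + T y| ≤
      (ball x (a * r)).indicator (fun y => c6 * ‖θ‖ * ((r ^ 2)⁻¹ * ZZ D x y + r)) y := by
    intro y
    by_cases hy : y ∈ ball x (a * r)
    · rw [indicator_of_mem hy]
      rw [mem_ball, dist_eq_norm] at hy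
      have hy1 : ‖y - x‖ ≤ 1 := hy.le.trans ha1
      have hyb : y ∈ ball D.x0 (4 * D.R) := by
        rw [mem_ball] at hx ⊢
        have h5 := dist_triangle y x D.x0
        rw [dist_eq_norm y x] at h5
        have := D.R_pos
        linarith
      have ei : kp y * D.dx x y w + T y = kp y * (D.dx x y w + D.dy x y (w + A (y - x)))
          - kp y * (D.dy x y (w + A (y - x)) - P y) + kk y * E y := by
        rw [hTe]; ring
      have f1 : |kp y| ≤ ck * (r ^ 2)⁻¹ := by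
        simp only [hkp]
        rw [abs_mul, abs_of_pos (inv_pos.2 (pow_pos hr 2))]
        exact mul_le_mul_of_nonneg_right (hkb _) (by positivity)
      have f2 : |D.dx x y w + D.dy x y (w + A (y - x))| ≤ c2 * (c4 * ‖θ‖) * (a * r) ^ 3 := by
        refine (hA1 y hy1).trans ?_
        gcongr
      have f3 := hN y hy1
      have f4 : |kk y| ≤ 1 := by
        simp only [hkk]
        rw [abs_of_nonneg (cut_nonneg hK _)]
        exact cut_le_one hK _
      have f5 : |E y| ≤ c2 * (c4 * ‖θ‖) * (a * r) := by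
        refine (hA2 y hyb hy1).trans ?_
        gcongr
      rw [ei]
      have hr2 : 0 < r ^ 2 := by positivity
      calc |kp y * (D.dx x y w + D.dy x y (w + A (y - x)))
            - kp y * (D.dy x y (w + A (y - x)) - P y) + kk y * E y|
          ≤ |kp y| * |D.dx x y w + D.dy x y (w + A (y - x))|
            + |kp y| * |D.dy x y (w + A (y - x)) - P y| + |kk y| * |E y| := by
            rw [← abs_mul, ← abs_mul, ← abs_mul]
            exact (abs_add_le _ _).trans (add_le_add (abs_sub _ _) le_rfl)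
        _ ≤ (ck * (r ^ 2)⁻¹) * (c2 * (c4 * ‖θ‖) * (a * r) ^ 3)
            + (ck * (r ^ 2)⁻¹) * (√c5 * ‖θ‖ * ZZ D x y) + 1 * (c2 * (c4 * ‖θ‖) * (a * r)) := by
            gcongr
        _ = ‖θ‖ * ((ck * c2 * c4 * a ^ 3 + c2 * c4 * a) * r
            + (ck * √c5) * ((r ^ 2)⁻¹ * ZZ D x y)) := by
            field_simp
            ring
        _ ≤ c6 * ‖θ‖ * ((r ^ 2)⁻¹ * ZZ D x y + r) := by
            have g1 : ck * c2 * c4 * a ^ 3 + c2 * c4 * a ≤ c6 := by
              rw [hc6d]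
              have : 0 ≤ ck * √c5 := by positivity
              linarith
            have g2 : ck * √c5 ≤ c6 := by
              rw [hc6d]
              have : 0 ≤ ck * c2 * c4 * a ^ 3 := by positivity
              have : 0 ≤ c2 * c4 * a := by positivity
              linarith
            have g3 : 0 ≤ (r ^ 2)⁻¹ * ZZ D x y := mul_nonneg (by positivity) (ZZ_nonneg x y)
            calc ‖θ‖ * ((ck * c2 * c4 * a ^ 3 + c2 * c4 * a) * r
                + (ck * √c5) * ((r ^ 2)⁻¹ * ZZ D x y))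
                ≤ ‖θ‖ * (c6 * r + c6 * ((r ^ 2)⁻¹ * ZZ D x y)) := by gcongr
              _ = _ := by ring
    · rw [indicator_of_notMem hy]
      rw [mem_ball, dist_eq_norm, not_lt] at hy
      rw [hTe]
      simp only [hkp, hkk]
      rw [dK_zero (hlo x y) hδ hr hK hy, K_zero (hlo x y) hδ hr hK hy]
      simp
  -- integrability of the bound
  have hZi : IntegrableOn (fun y => ZZ D x y) (ball x (a * r)) D.s := by
    refine Integrable.of_bound (meas_ZZ hρ x).aestronglyMeasurable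
      (√(c4 * (c1 * 1) ^ 2) * √(c4 * c4 + 1)) ?_
    refine (ae_restrict_iff' measurableSet_ball).2 (Eventually.of_forall fun y hy => ?_)
    rw [mem_ball, dist_eq_norm] at hy
    have hy1 : ‖y - x‖ ≤ 1 := hy.le.trans ha1
    rw [Real.norm_of_nonneg (ZZ_nonneg x y)]
    obtain ⟨hφ, -, -, hdef, -⟩ :=
      hl4 (D.J y) (D.F y) (D.bd y) (D.bJ y) (D.φ y) (D.pos y) (D.nrm y)
    obtain ⟨-, hqx, -⟩ :=
      hl4 (D.J x) (D.F x) (D.bd x) (D.bJ x) (D.φ x) (D.pos x) (D.nrm x)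
    unfold ZZ
    refine mul_le_mul (Real.sqrt_le_sqrt ?_) (Real.sqrt_le_sqrt ?_) (Real.sqrt_nonneg _)
      (Real.sqrt_nonneg _)
    · refine (hdef (D.dy x y)).trans ?_
      have := (hgeo1 x y hy1).2.1
      gcongr
      exact this.trans (mul_le_mul_of_nonneg_left hy1 hc1)
    · have k1 : |D.qx x y| ≤ c4 * c4 :=
        (hqx (D.φ y) (D.pos y).alt).trans (mul_le_mul_of_nonneg_left hφ hc4)
      have k2 : ‖y - x‖ ^ 2 ≤ 1 := by
        have := norm_nonneg (y - x)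
        nlinarith
      linarith
  have hbi : IntegrableOn (fun y => c6 * ‖θ‖ * ((r ^ 2)⁻¹ * ZZ D x y + r)) (ball x (a * r))
      D.s := by
    refine Integrable.const_mul ?_ _
    refine Integrable.add (hZi.const_mul _) ?_
    exact integrable_const r
  -- conclusion
  have hmain : |∫ y, kp y * D.dx x y w ∂D.s| ≤
      c6 * ‖θ‖ * ((r ^ 2)⁻¹ * ∫ y in ball x (a * r), ZZ D x y ∂D.s) +
        c6 * ‖θ‖ * (r * (D.C * (a * r) ^ 2)) := by
    have k1 : ∫ y, kp y * D.dx x y w ∂D.s = ∫ y, (kp y * D.dx x y w + T y) ∂D.s := by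
      rw [integral_add hIi hTi, hT0, add_zero]
    rw [k1]
    have k2 : |∫ y, (kp y * D.dx x y w + T y) ∂D.s| ≤
        ∫ y, (ball x (a * r)).indicator (fun y => c6 * ‖θ‖ * ((r ^ 2)⁻¹ * ZZ D x y + r)) y
          ∂D.s := by
      rw [← Real.norm_eq_abs]
      refine norm_integral_le_of_norm_le ?_ (Eventually.of_forall fun y => ?_)
      · exact (integrable_indicator_iff measurableSet_ball).2 hbi
      · rw [Real.norm_eq_abs]; exact hb y
    refine k2.trans ?_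
    rw [integral_indicator measurableSet_ball, integral_const_mul, integral_add
      (hZi.const_mul _) (integrable_const r), integral_const_mul, setIntegral_const, mul_add,
      smul_eq_mul]
    have k3 : D.s.real (ball x (a * r)) ≤ D.C * (a * r) ^ 2 := D.gr x _ (mul_pos ha hr)
    have k4 : D.s.real (ball x (a * r)) * r ≤ r * (D.C * (a * r) ^ 2) := by
      rw [mul_comm]; exact mul_le_mul_of_nonneg_left k3 hr.le
    gcongr
  have hI : ∀ y, deriv K (D.rho2 x y / r ^ 2) * (r ^ 2)⁻¹ * D.dx x y w = kp y * D.dx x y w :=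
    fun y => rfl
  simp_rw [hI]
  rw [abs_mul, abs_of_pos (inv_pos.2 (pow_pos hr 2))]
  set I := ∫ y in ball x (a * r), ZZ D x y ∂D.s with hId
  have hI0 : 0 ≤ I := integral_nonneg fun y => ZZ_nonneg x y
  have hIe : (∫ y in ball x (a * r), √(D.De x y) * √(|D.qx x y| + ‖y - x‖ ^ 2) ∂D.s) = I := rfl
  rw [hIe]
  have hr2 : 0 < r ^ 2 := by positivity
  calc (r ^ 2)⁻¹ * |∫ y, kp y * D.dx x y w ∂D.s|
      ≤ (r ^ 2)⁻¹ * (c6 * ‖θ‖ * ((r ^ 2)⁻¹ * I) + c6 * ‖θ‖ * (r * (D.C * (a * r) ^ 2))) :=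
        mul_le_mul_of_nonneg_left hmain (inv_pos.2 hr2).le
    _ = c6 * ‖θ‖ * ((r ^ 4)⁻¹ * I) + c6 * (D.C * a ^ 2) * ‖θ‖ * r := by
        field_simp
    _ ≤ c6 * (1 + D.C * a ^ 2) * ‖θ‖ * ((r ^ 4)⁻¹ * I + r) := by
        have u1 : 0 ≤ c6 * (D.C * a ^ 2) * ‖θ‖ * ((r ^ 4)⁻¹ * I) := by positivity
        have u2 : 0 ≤ c6 * ‖θ‖ * r := by positivity
        nlinarith

end

end Crest.Agent.R235.CurGra_109
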