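import Crest.Agent.R235.CurDel_538

/-!
Row 235, package CUR (task 352, helper538): `GRI`, the integral of the bound of the gradient
tends to `0`.
-/

set_option autoImplicit false
set_option maxSynthPendingDepth 3

open Set Function Filter MeasureTheory Metric
open scoped ContDiff ENNReal Manifold Topology

namespace Crest.Agent.R235.CurGri_538

open Crest.Agent.R240 Crest.Agent.R240.En Crest.Agent.R240.Pot Crest.Agent.R235.CurDefs_132
open Crest.Agent.R235.CurDel_538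

noncomputable section

theorem qx_bound (hL : LIN4) (D : LC) : ∃ C : ℝ, 0 ≤ C ∧ ∀ x y, |D.qx x y| ≤ C := by
  obtain ⟨C2, hC2, hC'⟩ := hL D.m D.M D.L
  refine ⟨C2 * C2, by positivity, fun x y => ?_⟩
  obtain ⟨-, h2, -⟩ := hC' (D.J x) (D.F x) (D.bd x) (D.bJ x) (D.φ x) (D.pos x) (D.nrm x)
  obtain ⟨h3, -⟩ := hC' (D.J y) (D.F y) (D.bd y) (D.bJ y) (D.φ y) (D.pos y) (D.nrm y)
  calc |D.qx x y| ≤ C2 * ‖D.φ y‖ := h2 _ (D.pos y).alt
    _ ≤ C2 * C2 := by gcongr

theorem am_gm {A B ε : ℝ} (hA : 0 ≤ A) (hB : 0 ≤ B) (hε : 0 < ε) :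
    √A * √B ≤ ε⁻¹ * A + ε * B := by
  have h1 := Real.sq_sqrt hA
  have h2 := Real.sq_sqrt hB
  have h3 : 0 ≤ √A := Real.sqrt_nonneg _
  have h4 : 0 ≤ √B := Real.sqrt_nonneg _
  have h5 : 0 ≤ (√A - ε * √B) ^ 2 := sq_nonneg _
  have h6 : 2 * ε * (√A * √B) ≤ A + ε ^ 2 * B := by nlinarith
  have h7 : 0 ≤ ε * (√A * √B) := by positivity
  have h8 : ε * (√A * √B) ≤ ε * (ε⁻¹ * A + ε * B) := by
    have e : ε * (ε⁻¹ * A + ε * B) = A + ε ^ 2 * B := by field_simp
    rw [e]; linarith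
  exact le_of_mul_le_mul_left h8 hε

theorem LL_add {s : Measure E4} [SFinite s] {B : Set E4} {ρ : ℝ}
    {f g : E4 × E4 → ℝ} (hf : Measurable f) (h0 : ∀ x y, 0 ≤ f (x, y))
    (h1 : ∀ x y, 0 ≤ g (x, y)) :
    LL s B ρ (fun z => f z + g z) = LL s B ρ f + LL s B ρ g := by
  unfold LL
  have hm := meas_inner s ρ (g := fun z => ENNReal.ofReal (f z)) hf.ennreal_ofReal
  rw [← lintegral_add_left hm]
  refine lintegral_congr fun x => ?_
  have hm2 : Measurable fun y => ENNReal.ofReal (f (x, y)) :=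
    hf.ennreal_ofReal.comp measurable_prodMk_left
  rw [← lintegral_add_left hm2]
  refine lintegral_congr fun y => ?_
  exact ENNReal.ofReal_add (h0 x y) (h1 x y)

theorem LL_smul {s : Measure E4} {B : Set E4} {ρ c : ℝ} (hc : 0 ≤ c) (f : E4 × E4 → ℝ) :
    LL s B ρ (fun z => c * f z) = ENNReal.ofReal c * LL s B ρ f := by
  unfold LL
  rw [← lintegral_const_mul' _ _ ENNReal.ofReal_ne_top]
  refine lintegral_congr fun x => ?_
  rw [← lintegral_const_mul' _ _ ENNReal.ofReal_ne_top]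
  refine lintegral_congr fun y => ?_
  exact ENNReal.ofReal_mul hc

theorem gri (hD : DEL) (hL : LIN1') (hL4 : LIN4) (h1 : GEO1) : GRI := by
  intro D a ha
  have := D.fin
  have hDm := meas_De h1 D
  have hqm := meas_qx D
  obtain ⟨Cb, hCb, hDb⟩ := De_bound h1 hL4 D
  obtain ⟨Cq, hCq, hqb⟩ := qx_bound hL4 D
  have hDn := De_nonneg hL D
  set B := ball D.x0 (2 * D.R) with hB
  have hBm : MeasurableSet B := measurableSet_ball
  set S := D.s.real univ with hS
  -- the three kernels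
  set f : E4 × E4 → ℝ := fun z => D.De z.1 z.2 with hf
  set g : E4 × E4 → ℝ := fun z => |D.qx z.1 z.2| with hg
  set h : E4 × E4 → ℝ := fun z => ‖z.2 - z.1‖ ^ 2 with hh
  set P : E4 × E4 → ℝ := fun z => √(D.De z.1 z.2) * √(|D.qx z.1 z.2| + ‖z.2 - z.1‖ ^ 2) with hP
  have hgm : Measurable g := hqm.abs
  have hhm : Measurable h := (by fun_prop : Continuous fun z : E4 × E4 => ‖z.2 - z.1‖ ^ 2).measurable
  have hPm : Measurable P := hDm.sqrt.mul (hgm.add hhm).sqrt
  have hf0 : ∀ x y, 0 ≤ f (x, y) := hDn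
  have hg0 : ∀ x y, 0 ≤ g (x, y) := fun x y => abs_nonneg _
  have hh0 : ∀ x y, 0 ≤ h (x, y) := fun x y => by positivity
  have hP0 : ∀ x y, 0 ≤ P (x, y) := fun x y => mul_nonneg (Real.sqrt_nonneg _) (Real.sqrt_nonneg _)
  -- bounds on small balls
  have hsm : ∀ ρ : ℝ, ρ ≤ 1 → ∀ x : E4, ∀ y ∈ ball x ρ, ‖y - x‖ ≤ 1 ∧ ‖y - x‖ ^ 2 ≤ 1 := by
    intro ρ hρ x y hy
    rw [mem_ball, dist_eq_norm] at hy
    have h3 : ‖y - x‖ ≤ 1 := by linarith
    exact ⟨h3, pow_le_one₀ (norm_nonneg _) h3⟩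
  have bf : ∀ ρ : ℝ, ρ ≤ 1 → ∀ x, ∀ y ∈ ball x ρ, f (x, y) ≤ Cb := by
    intro ρ hρ x y hy
    obtain ⟨h3, h4⟩ := hsm ρ hρ x y hy
    refine (hDb x y h3).trans ?_
    nlinarith
  have bg : ∀ x y, g (x, y) ≤ Cq := hqb
  have bh : ∀ ρ : ℝ, ρ ≤ 1 → ∀ x, ∀ y ∈ ball x ρ, h (x, y) ≤ 1 := fun ρ hρ x y hy =>
    (hsm ρ hρ x y hy).2
  have bP : ∀ ρ : ℝ, ρ ≤ 1 → ∀ x, ∀ y ∈ ball x ρ, P (x, y) ≤ Cb + (Cq + 1) := by
    intro ρ hρ x y hy
    have h3 : P (x, y) ≤ (1 : ℝ)⁻¹ * f (x, y) + 1 * (g (x, y) + h (x, y)) :=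
      am_gm (hf0 x y) (add_nonneg (hg0 x y) (hh0 x y)) one_pos
    have := bf ρ hρ x y hy
    have := bg x y
    have := bh ρ hρ x y hy
    rw [inv_one, one_mul, one_mul] at h3
    linarith
  -- the second factor
  obtain ⟨r, hr0, hrt, hlim⟩ := hD D a ha
  refine ⟨r, hr0, hrt, ?_⟩
  set E : ℝ := D.Q * a ^ 4 * (1 + |Real.log a|) + a ^ 4 * D.C * S with hE
  have hE0 : 0 ≤ E := by
    have := D.Q_nn
    have := D.C_nn
    positivity
  have hev : ∀ᶠ k in atTop, a * r k ≤ D.R ∧ a * r k ≤ 1 := by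
    have h2 : ∀ᶠ k in atTop, r k < min D.R 1 / a :=
      hrt.eventually (gt_mem_nhds (div_pos (lt_min D.R_pos one_pos) ha))
    filter_upwards [h2] with k hk
    have h3 := hk.le
    rw [le_div_iff₀ ha, mul_comm] at h3
    exact ⟨h3.trans (min_le_left _ _), h3.trans (min_le_right _ _)⟩
  have hlogpos : ∀ t : ℝ, 0 < 1 + |Real.log t| := fun t => by positivity
  have hlogmul : ∀ t, 0 < t → 1 + |Real.log (a * t)| ≤ (1 + |Real.log a|) * (1 + |Real.log t|) := by
    intro t ht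
    rw [Real.log_mul ha.ne' ht.ne']
    have h2 := abs_add_le (Real.log a) (Real.log t)
    have h3 := mul_nonneg (abs_nonneg (Real.log a)) (abs_nonneg (Real.log t))
    nlinarith
  have hgLL : ∀ t, 0 < t → a * t ≤ D.R → (LL D.s B (a * t) g).toReal ≤
      D.Q * (a * t) ^ 4 * ((1 + |Real.log a|) * (1 + |Real.log t|)) := by
    intro t ht ht2
    have e1 := bochner_eq D.s (B := ball D.x0 (3 * D.R)) measurableSet_ball (ρ := a * t)
      (f := g) hgm hg0 (c := Cq) fun x _ y _ => bg x y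
    have h2 := D.qq (a * t) (mul_pos ha ht) ht2
    have h3 : (LL D.s (ball D.x0 (3 * D.R)) (a * t) g).toReal ≤
        D.Q * (a * t) ^ 4 * (1 + |Real.log (a * t)|) := by
      rw [← e1.1]; exact h2
    refine (ENNReal.toReal_mono e1.2 ?_).trans (h3.trans ?_)
    · exact lintegral_mono_set (ball_subset_ball (by linarith [D.R_pos]))
    · exact mul_le_mul_of_nonneg_left (hlogmul t ht) (mul_nonneg D.Q_nn (by positivity))
  have hhLL : ∀ t, 0 < t → a * t ≤ 1 → (LL D.s B (a * t) h).toReal ≤ (a * t) ^ 4 * D.C * S := by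
    intro r hr hr2
    have har : 0 < a * r := mul_pos ha hr
    have h2 : LL D.s B (a * r) h ≤ ENNReal.ofReal ((a * r) ^ 4 * D.C) * D.s univ := by
      have h3 : ∀ x, ∫⁻ y in ball x (a * r), ENNReal.ofReal (h (x, y)) ∂D.s ≤
          ENNReal.ofReal ((a * r) ^ 4 * D.C) := by
        intro x
        calc ∫⁻ y in ball x (a * r), ENNReal.ofReal (h (x, y)) ∂D.s
            ≤ ∫⁻ y in ball x (a * r), ENNReal.ofReal ((a * r) ^ 2) ∂D.s := by
              refine setLIntegral_mono measurable_const fun y hy => ENNReal.ofReal_le_ofReal ?_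
              rw [mem_ball, dist_eq_norm] at hy
              show ‖y - x‖ ^ 2 ≤ (a * r) ^ 2
              gcongr
          _ = ENNReal.ofReal ((a * r) ^ 2) * D.s (ball x (a * r)) := by rw [setLIntegral_const]
          _ = ENNReal.ofReal ((a * r) ^ 2) * ENNReal.ofReal (D.s.real (ball x (a * r))) := by
              rw [Measure.real, ENNReal.ofReal_toReal (measure_ne_top _ _)]
          _ ≤ ENNReal.ofReal ((a * r) ^ 2) * ENNReal.ofReal (D.C * (a * r) ^ 2) := by
              gcongr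
              exact D.gr x (a * r) har
          _ = ENNReal.ofReal ((a * r) ^ 4 * D.C) := by
              rw [← ENNReal.ofReal_mul (by positivity)]
              congr 1; ring
      calc LL D.s B (a * r) h ≤ ∫⁻ _ in B, ENNReal.ofReal ((a * r) ^ 4 * D.C) ∂D.s :=
            lintegral_mono fun x => h3 x
        _ = ENNReal.ofReal ((a * r) ^ 4 * D.C) * D.s B := by rw [setLIntegral_const]
        _ ≤ ENNReal.ofReal ((a * r) ^ 4 * D.C) * D.s univ := by gcongr; exact subset_univ _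
    have h4 := ENNReal.toReal_mono (ENNReal.mul_ne_top ENNReal.ofReal_ne_top
      (measure_ne_top _ _)) h2
    rw [ENNReal.toReal_mul, ENNReal.toReal_ofReal (mul_nonneg (by positivity) D.C_nn)] at h4
    exact h4
  -- the inequality
  have key : ∀ ε : ℝ, 0 < ε → ∀ t, 0 < t → a * t ≤ D.R → a * t ≤ 1 →
      (t ^ 4)⁻¹ * ∫ x in B, ∫ y in ball x (a * t), P (x, y) ∂D.s ∂D.s ≤
        ε⁻¹ * ((t ^ 4)⁻¹ * ∫ x in B, ∫ y in ball x (a * t), D.De x y ∂D.s ∂D.s) +
          ε * (E * (1 + |Real.log t|)) := by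
    intro ε hε t ht0 ht1 ht2
    have eP := bochner_eq D.s hBm (ρ := a * t) (f := P) hPm hP0 fun x _ y hy => bP _ ht2 x y hy
    have ef := bochner_eq D.s hBm (ρ := a * t) (f := f) hDm hf0 fun x _ y hy => bf _ ht2 x y hy
    have eg := bochner_eq D.s hBm (ρ := a * t) (f := g) hgm hg0 fun x _ y _ => bg x y
    have eh := bochner_eq D.s hBm (ρ := a * t) (f := h) hhm hh0 fun x _ y hy => bh _ ht2 x y hy
    have hi : (0 : ℝ) ≤ ε⁻¹ := (inv_pos.2 hε).le
    have h2 : LL D.s B (a * t) P ≤ ENNReal.ofReal ε⁻¹ * LL D.s B (a * t) f +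
        ENNReal.ofReal ε * (LL D.s B (a * t) g + LL D.s B (a * t) h) := by
      calc LL D.s B (a * t) P ≤ LL D.s B (a * t) (fun z => ε⁻¹ * f z + ε * (g z + h z)) :=
            LL_mono hBm fun x _ y _ => am_gm (hf0 x y) (add_nonneg (hg0 x y) (hh0 x y)) hε
        _ = LL D.s B (a * t) (fun z => ε⁻¹ * f z) + LL D.s B (a * t) (fun z => ε * (g z + h z)) :=
            LL_add (hDm.const_mul _)
              (fun x y => mul_nonneg hi (hf0 x y))
              (fun x y => mul_nonneg hε.le (add_nonneg (hg0 x y) (hh0 x y)))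
        _ = _ := by
            rw [LL_smul hi, LL_smul hε.le (fun z => g z + h z), LL_add hgm hg0 hh0]
    have h3 : (LL D.s B (a * t) P).toReal ≤ ε⁻¹ * (LL D.s B (a * t) f).toReal +
        ε * ((LL D.s B (a * t) g).toReal + (LL D.s B (a * t) h).toReal) := by
      have h4 := ENNReal.toReal_mono (ENNReal.add_ne_top.2
        ⟨ENNReal.mul_ne_top ENNReal.ofReal_ne_top ef.2, ENNReal.mul_ne_top ENNReal.ofReal_ne_top
          (ENNReal.add_ne_top.2 ⟨eg.2, eh.2⟩)⟩) h2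
      rwa [ENNReal.toReal_add (ENNReal.mul_ne_top ENNReal.ofReal_ne_top ef.2)
        (ENNReal.mul_ne_top ENNReal.ofReal_ne_top (ENNReal.add_ne_top.2 ⟨eg.2, eh.2⟩)),
        ENNReal.toReal_mul, ENNReal.toReal_mul, ENNReal.toReal_add eg.2 eh.2,
        ENNReal.toReal_ofReal hi, ENNReal.toReal_ofReal hε.le] at h4
    have h5 := hgLL t ht0 ht1
    have h6 := hhLL t ht0 ht2
    have e1 : ∫ x in B, ∫ y in ball x (a * t), D.De x y ∂D.s ∂D.s =
        (LL D.s B (a * t) f).toReal := ef.1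
    have hlt := hlogpos t
    have h6' : (LL D.s B (a * t) h).toReal ≤ (a * t) ^ 4 * D.C * S * (1 + |Real.log t|) := by
      refine h6.trans ?_
      have h8 : 0 ≤ (a * t) ^ 4 * D.C * S :=
        mul_nonneg (mul_nonneg (by positivity) D.C_nn) measureReal_nonneg
      have h9 := abs_nonneg (Real.log t)
      nlinarith
    rw [eP.1, e1]
    have h7 : (LL D.s B (a * t) P).toReal ≤ ε⁻¹ * (LL D.s B (a * t) f).toReal +
        ε * (D.Q * (a * t) ^ 4 * ((1 + |Real.log a|) * (1 + |Real.log t|)) +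
          (a * t) ^ 4 * D.C * S * (1 + |Real.log t|)) := by
      refine h3.trans ?_
      gcongr
    calc (t ^ 4)⁻¹ * (LL D.s B (a * t) P).toReal
        ≤ (t ^ 4)⁻¹ * (ε⁻¹ * (LL D.s B (a * t) f).toReal +
          ε * (D.Q * (a * t) ^ 4 * ((1 + |Real.log a|) * (1 + |Real.log t|)) +
          (a * t) ^ 4 * D.C * S * (1 + |Real.log t|))) := by gcongr
      _ = ε⁻¹ * ((t ^ 4)⁻¹ * (LL D.s B (a * t) f).toReal) + ε * (E * (1 + |Real.log t|)) := by
          rw [hE]
          field_simp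
  -- conclusion
  have hpos : ∀ k, 0 ≤ (r k ^ 4)⁻¹ * ∫ x in B, ∫ y in ball x (a * r k), P (x, y) ∂D.s ∂D.s := by
    intro k
    have := hr0 k
    exact mul_nonneg (by positivity) (integral_nonneg fun x => integral_nonneg fun y => hP0 x y)
  show Tendsto (fun k => (r k ^ 4)⁻¹ * ∫ x in B, ∫ y in ball x (a * r k), P (x, y) ∂D.s ∂D.s)
    atTop (𝓝 0)
  rw [Metric.tendsto_nhds]
  intro η hη
  set ε : ℝ := η / (2 * (E + 1)) with hε
  have hε0 : 0 < ε := by positivity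
  have h2 : ∀ᶠ k in atTop, (r k ^ 4)⁻¹ *
      (∫ x in B, ∫ y in ball x (a * r k), D.De x y ∂D.s ∂D.s) * (1 + |Real.log (r k)|) <
      ε * (η / 2) := hlim.eventually (gt_mem_nhds (by positivity))
  filter_upwards [h2, hev] with k h5 hk
  rw [Real.dist_eq, sub_zero, abs_of_nonneg (hpos k)]
  have hΛ := hlogpos (r k)
  have h3 := key (ε / (1 + |Real.log (r k)|)) (by positivity) (r k) (hr0 k) hk.1 hk.2
  have h6 : (ε / (1 + |Real.log (r k)|))⁻¹ * ((r k ^ 4)⁻¹ *
      ∫ x in B, ∫ y in ball x (a * r k), D.De x y ∂D.s ∂D.s) < η / 2 := by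
    rw [inv_div, div_mul_eq_mul_div, div_lt_iff₀ hε0]
    calc _ = (r k ^ 4)⁻¹ * (∫ x in B, ∫ y in ball x (a * r k), D.De x y ∂D.s ∂D.s) *
        (1 + |Real.log (r k)|) := by ring
      _ < ε * (η / 2) := h5
      _ = η / 2 * ε := by ring
  have h7 : ε / (1 + |Real.log (r k)|) * (E * (1 + |Real.log (r k)|)) ≤ η / 2 := by
    have e1 : ε / (1 + |Real.log (r k)|) * (E * (1 + |Real.log (r k)|)) = ε * E := by
      field_simp
    rw [e1, hε, div_mul_eq_mul_div, div_le_div_iff₀ (by positivity) two_pos]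
    nlinarith
  linarith

end

end Crest.Agent.R235.CurGri_538
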