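import Crest.Agent.R235.CurDefs_132

/-!
Row 235 (S0364), task 349 (CUR LIM), helper510: almost monotonicity implies that the limit of the
mollified density ratios exists.
-/

set_option autoImplicit false
set_option maxSynthPendingDepth 3

open Set Function Filter MeasureTheory Metric
open scoped ContDiff ENNReal Manifold Topology

namespace Crest.Agent.R235.CurLim_510

open Crest.Agent.R240 Crest.Agent.R240.En Crest.Agent.R240.Pot Crest.Agent.R235.CurDefs_132

noncomputable section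

/-- an almost monotone function bounded below has a limit at `0+`. -/
theorem exists_lim {f : ℝ → ℝ} {C r1 : ℝ} (hC : 0 ≤ C) (hr1 : 0 < r1)
    (h1 : ∀ r r', 0 < r → r < r' → r' ≤ r1 → f r ≤ f r' + C * r') (h0 : ∀ r, 0 < r → 0 ≤ f r) :
    ∃ l : ℝ, Tendsto f (𝓝[>] 0) (𝓝 l) := by
  let S : Set ℝ := (fun r => f r + C * r) '' (Ioc 0 r1)
  have hne : S.Nonempty := ⟨_, mem_image_of_mem _ (right_mem_Ioc.2 hr1)⟩
  have hbd : BddBelow S := by
    refine ⟨0, ?_⟩
    rintro _ ⟨r, hr, rfl⟩
    have := h0 r hr.1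
    have := mul_nonneg hC hr.1.le
    simp only
    linarith
  refine ⟨sInf S, ?_⟩
  rw [Metric.tendsto_nhdsWithin_nhds]
  intro ε hε
  obtain ⟨_, ⟨r0, hr0, rfl⟩, hlt⟩ := exists_lt_of_csInf_lt hne (show sInf S < sInf S + ε by linarith)
  simp only at hlt
  refine ⟨min r0 (ε / (C + 1)), lt_min hr0.1 (by positivity), ?_⟩
  intro r hr hd
  rw [mem_Ioi] at hr
  rw [Real.dist_eq, sub_zero, abs_of_pos hr] at hd
  have hra : r < r0 := lt_of_lt_of_le hd (min_le_left _ _)
  have hrb : r < ε / (C + 1) := lt_of_lt_of_le hd (min_le_right _ _)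
  have hup := h1 r r0 hr hra hr0.2
  have hlo : sInf S ≤ f r + C * r := csInf_le hbd ⟨r, ⟨hr, hra.le.trans hr0.2⟩, rfl⟩
  have hC1 : 0 < C + 1 := by linarith
  have hrc : r * (C + 1) < ε := by
    rwa [lt_div_iff₀ hC1] at hrb
  rw [Real.dist_eq, abs_lt]
  constructor
  · nlinarith
  · linarith

/-- `rho2` is jointly continuous. -/
theorem cont_rho2 (D : LC) : Continuous (fun z : E4 × E4 => D.rho2 z.1 z.2) := by
  have hJ : Continuous D.J := D.smJ.continuous
  have hF : Continuous D.F := D.smF.continuous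
  unfold LC.rho2 LC.G
  simp only [gm_apply]
  have hx : Continuous fun z : E4 × E4 => D.F z.1 (z.2 - z.1) (D.J z.1 (z.2 - z.1)) := by
    fun_prop
  have hy : Continuous fun z : E4 × E4 => D.F z.2 (z.2 - z.1) (D.J z.2 (z.2 - z.1)) := by
    fun_prop
  fun_prop

theorem meas_nuR (D : LC) {δ : ℝ} {K : ℝ → ℝ} (hK : Cut δ K) (r : ℝ) :
    Measurable (D.nuR K r) := by
  have := D.fin
  have hc : Continuous (fun z : E4 × E4 => K (D.rho2 z.1 z.2 / r ^ 2)) :=
    hK.smooth.continuous.comp ((cont_rho2 D).div_const _)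
  have h := hc.measurable.stronglyMeasurable.integral_prod_right' (ν := D.s)
  exact h.measurable.const_mul _

/-- **LIM: the limit exists.** -/
theorem lim (h : MON) : LIM := by
  intro D δ K hδ hδ1 hK
  obtain ⟨C, r1, hC, hr1, hm, hb, -⟩ := h D δ K hδ hδ1 hK
  have hpos : ∀ n : ℕ, (0 : ℝ) < 1 / ((n : ℝ) + 1) := fun n => by positivity
  let N : ℕ → E4 → ℝ := fun n x => D.nuR K (1 / ((n : ℝ) + 1)) x
  have hN0 : ∀ n x, 0 ≤ N n x := fun n x => (hb x _ (hpos n)).1
  have hNC : ∀ n x, N n x ≤ C := fun n x => (hb x _ (hpos n)).2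
  refine ⟨fun x => limsup (fun n => N n x) atTop, ?_, ⟨C, fun x => ⟨?_, ?_⟩⟩, ?_⟩
  · exact Measurable.limsup fun n => meas_nuR D hK _
  · refine le_limsup_of_frequently_le (Frequently.of_forall fun n => hN0 n x) ?_
    exact isBoundedUnder_of ⟨C, fun n => hNC n x⟩
  · refine limsup_le_of_le ?_ (Eventually.of_forall fun n => hNC n x)
    exact (isBoundedUnder_of ⟨0, fun n => hN0 n x⟩ : IsBoundedUnder (· ≥ ·) atTop
      fun n => N n x).isCoboundedUnder_le
  · intro x hx
    obtain ⟨l, hl⟩ := exists_lim hC hr1 (hm x hx) (fun r hr => (hb x r hr).1)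
    have hseq : Tendsto (fun n : ℕ => (1 : ℝ) / ((n : ℝ) + 1)) atTop (𝓝[>] 0) :=
      tendsto_nhdsWithin_iff.2 ⟨tendsto_one_div_add_atTop_nhds_zero_nat,
        Eventually.of_forall fun n => hpos n⟩
    have := (hl.comp hseq).limsup_eq
    have e : limsup (fun n => N n x) atTop = l := this
    simp only [e]
    exact hl

end

end Crest.Agent.R235.CurLim_510
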