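import Crest.Agent.R235.CurLin1_785

/-!
Row 235, package CUR, leaf LIN2 (helper734).
-/

set_option autoImplicit false
set_option maxSynthPendingDepth 3

namespace Crest.Agent.R235.CurLin2_734

open Crest.Agent.R240 Crest.Agent.R235.CurDefs_132
open Crest.Agent.R240.En (Cov)

noncomputable section

/-- the covector with the given entries. -/
def cv (a : Fin 4 → ℝ) : Cov := ∑ i : Fin 4, a i • pr i

lemma cv_apply (a : Fin 4 → ℝ) (v : E4) : cv a v = a 0 * v 0 + a 1 * v 1 + a 2 * v 2 + a 3 * v 3 := by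
  simp only [cv, Fin.sum_univ_four, add_apply, smul_apply, pr_apply, smul_eq_mul]

lemma ent_cv (a : Fin 4 → ℝ) :
    ent (wed (cv a) (Jc J0 (cv a))) 0 1 = a 0 ^ 2 + a 1 ^ 2 ∧
    ent (wed (cv a) (Jc J0 (cv a))) 2 3 = a 2 ^ 2 + a 3 ^ 2 ∧
    ent (wed (cv a) (Jc J0 (cv a))) 0 2 = a 1 * a 2 - a 0 * a 3 ∧
    ent (wed (cv a) (Jc J0 (cv a))) 0 3 = a 0 * a 2 + a 1 * a 3 := by
  unfold ent
  simp only [wed_apply, Jc_apply, cv_apply, J0_0, J0_1, J0_2, J0_3, ee_apply]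
  refine ⟨?_, ?_, ?_, ?_⟩ <;> simp <;> ring

/-- positive forms are sums of two elementary positive forms (standard frame). -/
lemma decomp0 {P : Bil} (halt : Alt P) (hi : ∀ u v, P (J0 u) (J0 v) = P u v)
    (hp : ∀ v, 0 ≤ P v (J0 v)) :
    ∃ ξ η : Cov, P = wed ξ (Jc J0 ξ) + wed η (Jc J0 η) := by
  obtain ⟨h1, h2, h3⟩ := pos0_ent halt hi hp
  obtain ⟨e13, e12⟩ := inv0_ent hi
  have key : ∀ a b : Fin 4 → ℝ,
      ent P 0 1 = a 0 ^ 2 + a 1 ^ 2 + (b 0 ^ 2 + b 1 ^ 2) →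
      ent P 2 3 = a 2 ^ 2 + a 3 ^ 2 + (b 2 ^ 2 + b 3 ^ 2) →
      ent P 0 2 = a 1 * a 2 - a 0 * a 3 + (b 1 * b 2 - b 0 * b 3) →
      ent P 0 3 = a 0 * a 2 + a 1 * a 3 + (b 0 * b 2 + b 1 * b 3) →
      P = wed (cv a) (Jc J0 (cv a)) + wed (cv b) (Jc J0 (cv b)) := by
    intro a b k1 k2 k3 k4
    have hJ0 : ∀ v, J0 (J0 v) = -v := J0_J0
    have ia : ∀ u v, wed (cv a) (Jc J0 (cv a)) (J0 u) (J0 v) = wed (cv a) (Jc J0 (cv a)) u v :=
      (wed_Jc_pos hJ0 (cv a)).inv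
    have ib : ∀ u v, wed (cv b) (Jc J0 (cv b)) (J0 u) (J0 v) = wed (cv b) (Jc J0 (cv b)) u v :=
      (wed_Jc_pos hJ0 (cv b)).inv
    obtain ⟨a1, a2, a3, a4⟩ := ent_cv a
    obtain ⟨b1, b2, b3, b4⟩ := ent_cv b
    obtain ⟨a5, a6⟩ := inv0_ent ia
    obtain ⟨b5, b6⟩ := inv0_ent ib
    have hadd : ∀ i j, ent (wed (cv a) (Jc J0 (cv a)) + wed (cv b) (Jc J0 (cv b))) i j =
        ent (wed (cv a) (Jc J0 (cv a))) i j + ent (wed (cv b) (Jc J0 (cv b))) i j := by
      intro i j; rfl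
    have hadd' : Alt (wed (cv a) (Jc J0 (cv a)) + wed (cv b) (Jc J0 (cv b))) := by
      intro v
      have h1 := wed_alt (cv a) (Jc J0 (cv a)) v
      have h2 := wed_alt (cv b) (Jc J0 (cv b)) v
      show wed (cv a) (Jc J0 (cv a)) v v + wed (cv b) (Jc J0 (cv b)) v v = 0
      rw [h1, h2, add_zero]
    refine alt_ext halt hadd' ?_ ?_ ?_ ?_ ?_ ?_
    · rw [hadd, a1, b1, k1]
    · rw [hadd, a3, b3, k3]
    · rw [hadd, a4, b4, k4]
    · rw [hadd, a6, b6, a4, b4, e12, k4]; ring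
    · rw [hadd, a5, b5, a3, b3, e13, k3]
    · rw [hadd, a2, b2, k2]
  rcases h1.lt_or_eq with hp0 | hp0
  · set p := ent P 0 1 with hpd
    set r := ent P 2 3 with hrd
    set s := ent P 0 2 with hsd
    set t := ent P 0 3 with htd
    have hsq : Real.sqrt p ^ 2 = p := Real.sq_sqrt h1
    have hsp : 0 < Real.sqrt p := Real.sqrt_pos.2 hp0
    have hr0 : 0 ≤ r - (s ^ 2 + t ^ 2) / p := by
      rw [sub_nonneg, div_le_iff₀ hp0]
      linarith
    refine ⟨_, _, key ![Real.sqrt p, 0, t / Real.sqrt p, - s / Real.sqrt p]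
      ![0, 0, Real.sqrt (r - (s ^ 2 + t ^ 2) / p), 0] ?_ ?_ ?_ ?_⟩
    · simp [hsq]
    · have e1 : Real.sqrt (r - (s ^ 2 + t ^ 2) / p) ^ 2 = r - (s ^ 2 + t ^ 2) / p :=
        Real.sq_sqrt hr0
      simp [e1, div_pow, hsq]
      ring
    · simp
      field_simp
    · simp
      field_simp
  · have hs : ent P 0 2 = 0 ∧ ent P 0 3 = 0 := by
      rw [← hp0, zero_mul] at h3
      constructor <;> nlinarith [sq_nonneg (ent P 0 2), sq_nonneg (ent P 0 3)]
    refine ⟨_, _, key ![0, 0, 0, 0] ![0, 0, Real.sqrt (ent P 2 3), 0] ?_ ?_ ?_ ?_⟩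
    · simp [← hp0]
    · simp [Real.sq_sqrt h2]
    · simp [hs.1]
    · simp [hs.2]

/-- positive forms are sums of two elementary positive forms. -/
theorem decomp {J : E4 →L[ℝ] E4} {F : Bil} {m M : ℝ} (h : Bd J F m M) {b : Bil} (hb : Pos J b) :
    ∃ ξ η : Cov, b = wed ξ (Jc J ξ) + wed η (Jc J η) := by
  obtain ⟨A, hA⟩ := exists_frame h.sq h.spos
  have hpos : ∀ v, 0 ≤ pull (A : E4 →L[ℝ] E4) b v (J0 v) := by
    intro v
    rw [pull_apply]
    simp only [ContinuousLinearEquiv.coe_coe]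
    rw [← hA.cplx]
    exact hb.nonneg _
  obtain ⟨ξ, η, hd⟩ := decomp0 (hb.alt.pull _) (hA.pull_inv hb.inv) hpos
  refine ⟨ξ.comp (A.symm : E4 →L[ℝ] E4), η.comp (A.symm : E4 →L[ℝ] E4), ?_⟩
  ext u v
  have e1 : ∀ w : E4, J0 (A.symm w) = A.symm (J w) := hA.J_symm
  have h2 : pull (A : E4 →L[ℝ] E4) b (A.symm u) (A.symm v) =
      (wed ξ (Jc J0 ξ) + wed η (Jc J0 η)) (A.symm u) (A.symm v) := by rw [hd]
  rw [pull_apply] at h2
  simp only [ContinuousLinearEquiv.coe_coe, ContinuousLinearEquiv.apply_symm_apply] at h2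
  rw [h2]
  simp only [add_apply, wed_apply, Jc_apply, ContinuousLinearMap.comp_apply,
    ContinuousLinearEquiv.coe_coe, e1]

/-- Hermitian Cauchy-Schwarz inequality. -/
theorem csc {J : E4 →L[ℝ] E4} {F : Bil} {m M : ℝ} (h : Bd J F m M) {P : Bil} (hP : Pos J P)
    (α θ : Cov) : q F P (wed α (Jc J θ)) ^ 2 + q F P (wed α θ) ^ 2 ≤
      q F P (wed α (Jc J α)) * q F P (wed θ (Jc J θ)) := by
  set x := q F P (wed α (Jc J θ)) with hx
  set y := q F P (wed α θ) with hy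
  have hA := h.q_wedJ_nonneg hP α
  have hT := h.q_wedJ_nonneg hP θ
  set a := q F P (wed α (Jc J α)) with ha
  have q_zero : q F P 0 = 0 := by
    unfold q W ent
    simp
  -- `q (P, Jc α ∧ Jc θ) = y`
  have e1 : q F P (wed (Jc J α) (Jc J θ)) = y := by
    rw [← pull_wed, h.q_pullJ hP.alt hP.inv (wed_alt _ _)]
  have e2 : q F P (wed (Jc J α) (Jc J (Jc J α))) = a := by
    rw [← pull_wed, h.q_pullJ hP.alt hP.inv (wed_alt _ _)]
  have e3 : q F P (wed α (Jc J (Jc J α))) = 0 := by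
    rw [Jc_Jc h.sq, wed_neg_right, wed_self, neg_zero]
    exact q_zero
  have e4 : q F P (wed (Jc J α) (Jc J α)) = 0 := by
    rw [wed_self]
    exact q_zero
  have h1 := h.cs_wedJ hP (x • α + y • Jc J α) θ
  have e5 : q F P (wed (x • α + y • Jc J α) (Jc J θ)) = x ^ 2 + y ^ 2 := by
    rw [wed_add_left, wed_smul_left, wed_smul_left, q_add_right, q_smul_right, q_smul_right, e1,
      ← hx]
    ring
  have e6 : q F P (wed (x • α + y • Jc J α) (Jc J (x • α + y • Jc J α))) = (x ^ 2 + y ^ 2) * a := by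
    rw [Jc_add, Jc_smul, Jc_smul, wed_add_left, wed_add_right, wed_add_right, wed_smul_left,
      wed_smul_left, wed_smul_left, wed_smul_left, wed_smul_right, wed_smul_right, wed_smul_right,
      wed_smul_right, q_add_right, q_add_right, q_add_right, q_smul_right, q_smul_right,
      q_smul_right, q_smul_right, q_smul_right, q_smul_right, q_smul_right, q_smul_right,
      e2, e3, e4, ← ha]
    ring
  rw [e5, e6] at h1
  have h0 : 0 ≤ x ^ 2 + y ^ 2 := by positivity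
  rcases h0.lt_or_eq with h0 | h0
  · by_contra hc
    push Not at hc
    nlinarith
  · rw [← h0]
    positivity

lemma wv_apply (F φ : Bil) (θ α : Cov) : α (wv F φ θ) = q F φ (wed α θ) := by
  have e : α = ∑ i : Fin 4, α (ee i) • pr i := by
    ext v
    conv_lhs => rw [sum_ee v]
    simp only [map_add, map_smul, smul_eq_mul, Fin.sum_univ_four, add_apply, smul_apply, pr_apply]
    ring
  have e2 : q F φ (wed α θ) = ∑ i : Fin 4, α (ee i) * q F φ (wed (pr i) θ) := by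
    conv_lhs => rw [e]
    simp only [Fin.sum_univ_four, wed_add_left, wed_smul_left, q_add_right, q_smul_right]
  rw [e2]
  unfold wv
  rw [map_sum]
  refine Finset.sum_congr rfl fun i _ => ?_
  rw [map_smul, smul_eq_mul, mul_comm]

theorem lin2 : LIN2 := by
  intro J F m M h φ b hφ hn hb θ
  obtain ⟨ξ, η, hd⟩ := decomp h hb
  have one : ∀ α : Cov, (wed α (Jc J α)) (wv F φ θ) (J (wv F φ θ)) ≤
      q F φ (wed α (Jc J α)) * q F φ (wed θ (Jc J θ)) := by
    intro α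
    have e1 : (wed α (Jc J α)) (wv F φ θ) (J (wv F φ θ)) =
        (α (wv F φ θ)) ^ 2 + (Jc J α (wv F φ θ)) ^ 2 := by
      rw [wed_apply, Jc_apply, Jc_apply, h.sq, map_neg]
      ring
    rw [e1, wv_apply, wv_apply]
    have e2 : q F φ (wed (Jc J α) θ) = - q F φ (wed α (Jc J θ)) := by
      rw [wed_swap, q_neg_right, h.q_wedJ_symm hφ.alt hφ.inv θ α]
    rw [e2]
    have := csc h hφ α θ
    nlinarith
  have hw : b (wv F φ θ) (J (wv F φ θ)) ≤ q F φ b * q F φ (wed θ (Jc J θ)) := by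
    have e1 : b (wv F φ θ) (J (wv F φ θ)) = (wed ξ (Jc J ξ)) (wv F φ θ) (J (wv F φ θ)) +
        (wed η (Jc J η)) (wv F φ θ) (J (wv F φ θ)) := by
      conv_lhs => rw [hd]
      rfl
    have e2 : q F φ b = q F φ (wed ξ (Jc J ξ)) + q F φ (wed η (Jc J η)) := by
      conv_lhs => rw [hd]
      rw [q_add_right]
    rw [e1, e2]
    have h1 := one ξ
    have h2 := one η
    nlinarith
  have h3 := (CurLin1_785.lin1' J F m M h φ hφ hn θ 0).1
  unfold defi at h3
  have h4 : 0 ≤ q F φ b := h.q_pos_pos hφ hb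
  nlinarith

end

end Crest.Agent.R235.CurLin2_734
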