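import Crest.Agent.R235.CurDefs_132
import Crest.Agent.R240.Lin6

/-!
Row 235 (S0364), PACKAGE CUR (132), task 342, helper400: `LIN3` (from `LIN2`) and `LIN3'`:
two nearby almost complex structures, the error is quadratic.
-/

set_option autoImplicit false
set_option maxSynthPendingDepth 3

namespace Crest.Agent.R235.CurLin3_400

open Crest.Agent.R240 Crest.Agent.R240.En Crest.Agent.R240.Pot
open Crest.Agent.R235.CurDefs_132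

noncomputable section

/-- upper bound: `φ(w, J1 w) ≤ 2 φ(w, J0 w) + ‖φ‖ ‖J1‖ ‖J0 - J1‖² ‖w‖²`. -/
theorem diag_le {J0 J1 : E4 →L[ℝ] E4} (hJ1 : ∀ v, J1 (J1 v) = -v) {X : Bil} (hX : Pos J1 X)
    (w : E4) : X w (J1 w) ≤ 2 * X w (J0 w) + ‖X‖ * ‖J1‖ * (‖J0 - J1‖ * ‖w‖) ^ 2 := by
  set u := (J0 - J1) w with hu
  have e : X w (J0 w) = X w (J1 w) + X w u := by
    have : J0 w = J1 w + u := by rw [hu]; simp
    rw [this, map_add]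
  have h1 := hX.cs hJ1 w u
  have a1 := hX.nonneg w
  have a2 := hX.nonneg u
  have h3 := (abs_le.1 (Bd.abs_diag_le J1 X u)).2
  have h4 : ‖u‖ ≤ ‖J0 - J1‖ * ‖w‖ := (J0 - J1).le_opNorm w
  have h2 : X u (J1 u) ≤ ‖X‖ * ‖J1‖ * (‖J0 - J1‖ * ‖w‖) ^ 2 :=
    h3.trans (by gcongr)
  have h6 : |X w u| ≤ (X w (J1 w) + X u (J1 u)) / 2 := by
    apply abs_le_of_sq_le_sq _ (by positivity)
    nlinarith [sq_nonneg (X w (J1 w) - X u (J1 u))]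
  have h7 := (abs_le.1 h6).1
  rw [e]
  linarith

/-- the positive form `b = (φ1)' + c t² F0`. -/
theorem pos_b {J0 J1 : E4 →L[ℝ] E4} {F0 F1 : Bil} {m M L t : ℝ} (h0 : Bd J0 F0 m M)
    (h1 : Bd J1 F1 m M) (hL1 : ‖J1‖ ≤ L) {φ1 : Bil} (hp1 : Pos J1 φ1) (hn1 : q F1 φ1 F1 = 1)
    (ht : ‖J1 - J0‖ ≤ t) : Pos J0 (invp J0 φ1 + (L * M / (2 * m) * t ^ 2) • F0) := by
  have hm := h0.m_pos
  have hM := h0.M_pos
  have hL : 0 ≤ L := (norm_nonneg _).trans hL1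
  have ht0 : 0 ≤ t := (norm_nonneg _).trans ht
  refine ⟨(hp1.alt.invp J0).add (h0.spos.alt.smul _), ?_, ?_⟩
  · intro u v
    have e : ∀ a b : E4, (invp J0 φ1 + (L * M / (2 * m) * t ^ 2) • F0) a b =
        invp J0 φ1 a b + (L * M / (2 * m) * t ^ 2) * F0 a b := fun a b => rfl
    rw [e, e, invp_inv h0.sq, h0.spos.inv]
  · intro v
    have e : (invp J0 φ1 + (L * M / (2 * m) * t ^ 2) • F0) v (J0 v) =
        invp J0 φ1 v (J0 v) + (L * M / (2 * m) * t ^ 2) * F0 v (J0 v) := rfl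
    rw [e, invp_diag h0.sq hp1.alt]
    have h2 := Q_lower (J := J0) h1.sq hp1 v
    have h3 : ‖φ1‖ ≤ 2 * M := by
      have := h1.norm_le_q hp1
      rw [hn1, mul_one] at this
      exact this
    have h4 : ‖J0 - J1‖ ≤ t := by rw [norm_sub_rev]; exact ht
    have h5 : 1 / 4 * ‖J0 - J1‖ ^ 2 * ‖J1‖ * ‖φ1‖ * ‖v‖ ^ 2 ≤
        1 / 4 * t ^ 2 * L * (2 * M) * ‖v‖ ^ 2 := by gcongr
    have h6 : (L * M / (2 * m) * t ^ 2) * (m * ‖v‖ ^ 2) ≤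
        (L * M / (2 * m) * t ^ 2) * F0 v (J0 v) := by
      have := h0.lo v
      gcongr
    have h7 : (L * M / (2 * m) * t ^ 2) * (m * ‖v‖ ^ 2) =
        1 / 4 * t ^ 2 * L * (2 * M) * ‖v‖ ^ 2 := by
      field_simp
      ring
    linarith

theorem q_b {J0 J1 : E4 →L[ℝ] E4} {F0 F1 : Bil} {m M L t : ℝ} (h0 : Bd J0 F0 m M)
    {φ0 φ1 : Bil} (hp0 : Pos J0 φ0) (hn0 : q F0 φ0 F0 = 1) (hp1 : Pos J1 φ1) :
    q F0 φ0 (invp J0 φ1 + (L * M / (2 * m) * t ^ 2) • F0) =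
      q F0 φ0 φ1 + L * M / (2 * m) * t ^ 2 := by
  rw [q_add_right, q_smul_right, hn0, mul_one, ← h0.q_inv_left hp0.alt hp0.inv hp1.alt]

theorem lin3' : LIN3' := by
  intro m M L
  refine ⟨|L * M / (2 * m)|, abs_nonneg _, ?_⟩
  intro J0 J1 F0 F1 h0 h1 hL0 hL1 φ0 φ1 hp0 hn0 hp1 hn1 t ht
  have hb := pos_b h0 h1 hL1 hp1 hn1 ht
  have h2 := h0.q_pos_pos hp0 hb
  rw [q_b (J1 := J1) (F1 := F1) h0 hp0 hn0 hp1] at h2
  have h3 : L * M / (2 * m) * t ^ 2 ≤ |L * M / (2 * m)| * t ^ 2 := by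
    gcongr
    exact le_abs_self _
  linarith

/-- bound of the vector `wv`. -/
theorem norm_wv_le {J : E4 →L[ℝ] E4} {F : Bil} {m M : ℝ} (h : Bd J F m M) {φ : Bil}
    (hp : Pos J φ) (hn : q F φ F = 1) (θ : Cov) : ‖wv F φ θ‖ ≤ 48 * M / m ^ 2 * ‖θ‖ := by
  have hm := h.m_pos
  have hM := h.M_pos
  have h3 : ‖φ‖ ≤ 2 * M := by
    have := h.norm_le_q hp
    rw [hn, mul_one] at this
    exact this
  have hpr : ∀ i : Fin 4, ‖pr i‖ ≤ 1 := by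
    intro i
    refine ContinuousLinearMap.opNorm_le_bound _ zero_le_one ?_
    intro v
    rw [one_mul]
    exact PiLp.norm_apply_le v i
  have hk : ∀ i : Fin 4, ‖q F φ (wed (pr i) θ) • ee i‖ ≤ 12 * M / m ^ 2 * ‖θ‖ := by
    intro i
    rw [norm_smul, norm_ee, mul_one, Real.norm_eq_abs]
    have h4 := h.abs_q_le hp.alt (wed_alt (pr i) θ)
    have h5 : ‖wed (pr i) θ‖ ≤ 2 * ‖θ‖ := by
      have h6 := norm_wed_le (pr i) θ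
      have h7 : 2 * ‖pr i‖ * ‖θ‖ ≤ 2 * 1 * ‖θ‖ := by
        have := hpr i
        gcongr
      linarith
    calc |q F φ (wed (pr i) θ)| ≤ 3 / m ^ 2 * (‖φ‖ * ‖wed (pr i) θ‖) := h4
      _ ≤ 3 / m ^ 2 * ((2 * M) * (2 * ‖θ‖)) := by gcongr
      _ = 12 * M / m ^ 2 * ‖θ‖ := by ring
  unfold wv
  calc ‖∑ i : Fin 4, q F φ (wed (pr i) θ) • ee i‖
      ≤ ∑ i : Fin 4, ‖q F φ (wed (pr i) θ) • ee i‖ := norm_sum_le _ _
    _ ≤ ∑ _i : Fin 4, 12 * M / m ^ 2 * ‖θ‖ := Finset.sum_le_sum fun i _ => hk i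
    _ = 48 * M / m ^ 2 * ‖θ‖ := by
      rw [Finset.sum_const, Finset.card_univ, Fintype.card_fin]
      simp only [nsmul_eq_mul]
      push_cast
      ring

theorem lin3 (H : LIN2) : LIN3 := by
  intro m M L
  -- constants
  set c : ℝ := L * M / (2 * m) with hc
  set K : ℝ := 2 * (3 / m ^ 2 * (2 * M * (2 * L))) with hK
  set D : ℝ := 2 * M * L * (48 * M / m ^ 2) ^ 2 with hD
  refine ⟨|2 * K * (1 + c) + D|, abs_nonneg _, ?_⟩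
  intro J0 J1 F0 F1 h0 h1 hL0 hL1 φ0 φ1 hp0 hn0 hp1 hn1 t ht θ
  have hm := h0.m_pos
  have hM := h0.M_pos
  have hL : 0 ≤ L := (norm_nonneg _).trans hL1
  have ht0 : 0 ≤ t := (norm_nonneg _).trans ht
  have hc0 : 0 ≤ c := by rw [hc]; positivity
  have hK0 : 0 ≤ K := by rw [hK]; positivity
  have hD0 : 0 ≤ D := by rw [hD]; positivity
  set w := wv F0 φ0 θ with hw
  set b := invp J0 φ1 + (c * t ^ 2) • F0 with hb
  have hpb : Pos J0 b := pos_b h0 h1 hL1 hp1 hn1 ht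
  have hqb : q F0 φ0 b = q F0 φ0 φ1 + c * t ^ 2 :=
    q_b (J1 := J1) (F1 := F1) h0 hp0 hn0 hp1
  have h2 := H J0 F0 m M h0 φ0 b hp0 hn0 hpb θ
  rw [← hw, hqb] at h2
  have hqb0 : 0 ≤ q F0 φ0 φ1 + c * t ^ 2 := by
    rw [← hqb]; exact h0.q_pos_pos hp0 hpb
  -- `|θ|²`
  have h3 : 2 * q F0 F0 (wed θ (Jc J0 θ)) ≤ K * ‖θ‖ ^ 2 := by
    have h4 := (abs_le.1 (h0.abs_q_le h0.spos.alt (wed_alt θ (Jc J0 θ)))).2
    have h5 : ‖F0‖ ≤ 2 * M := by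
      have hF : Pos J0 F0 := ⟨h0.spos.alt, h0.spos.inv, fun v => by
        have := h0.lo v
        exact le_trans (by positivity) this⟩
      have := h0.norm_le_q hF
      rw [h0.q_self, mul_one] at this
      exact this
    have h6 : ‖wed θ (Jc J0 θ)‖ ≤ 2 * L * ‖θ‖ ^ 2 := by
      have h7 := norm_wed_le θ (Jc J0 θ)
      have h8 := norm_Jc_le J0 θ
      calc ‖wed θ (Jc J0 θ)‖ ≤ 2 * ‖θ‖ * ‖Jc J0 θ‖ := h7
        _ ≤ 2 * ‖θ‖ * (‖θ‖ * L) := by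
            have : ‖θ‖ * ‖J0‖ ≤ ‖θ‖ * L := by gcongr
            gcongr
            linarith
        _ = _ := by ring
    calc 2 * q F0 F0 (wed θ (Jc J0 θ)) ≤ 2 * (3 / m ^ 2 * (‖F0‖ * ‖wed θ (Jc J0 θ)‖)) := by
          linarith
      _ ≤ 2 * (3 / m ^ 2 * ((2 * M) * (2 * L * ‖θ‖ ^ 2))) := by gcongr
      _ = K * ‖θ‖ ^ 2 := by rw [hK]; ring
  have h4 : b w (J0 w) ≤ K * ‖θ‖ ^ 2 * (q F0 φ0 φ1 + c * t ^ 2) :=
    h2.trans (by gcongr)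
  have h5 : φ1 w (J0 w) ≤ b w (J0 w) := by
    have e : b w (J0 w) = invp J0 φ1 w (J0 w) + (c * t ^ 2) * F0 w (J0 w) := rfl
    rw [e, invp_diag h0.sq hp1.alt]
    have h6 : 0 ≤ F0 w (J0 w) := le_trans (by positivity) (h0.lo w)
    have : 0 ≤ (c * t ^ 2) * F0 w (J0 w) := by positivity
    linarith
  have h6 := diag_le (J0 := J0) h1.sq hp1 w
  have h7 : ‖φ1‖ * ‖J1‖ * (‖J0 - J1‖ * ‖w‖) ^ 2 ≤ D * ‖θ‖ ^ 2 * t ^ 2 := by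
    have h8 : ‖φ1‖ ≤ 2 * M := by
      have := h1.norm_le_q hp1
      rw [hn1, mul_one] at this
      exact this
    have h9 : ‖w‖ ≤ 48 * M / m ^ 2 * ‖θ‖ := norm_wv_le h0 hp0 hn0 θ
    have h10 : ‖J0 - J1‖ ≤ t := by rw [norm_sub_rev]; exact ht
    calc ‖φ1‖ * ‖J1‖ * (‖J0 - J1‖ * ‖w‖) ^ 2
        ≤ (2 * M) * L * (t * (48 * M / m ^ 2 * ‖θ‖)) ^ 2 := by gcongr
      _ = D * ‖θ‖ ^ 2 * t ^ 2 := by rw [hD]; ring
  have h8 : q F0 φ0 φ1 ≤ |q F0 φ0 φ1| := le_abs_self _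
  have h9 : 0 ≤ |q F0 φ0 φ1| := abs_nonneg _
  have hθ : 0 ≤ ‖θ‖ ^ 2 := by positivity
  have ht2 : 0 ≤ t ^ 2 := by positivity
  calc φ1 w (J1 w) ≤ 2 * (K * ‖θ‖ ^ 2 * (q F0 φ0 φ1 + c * t ^ 2)) + D * ‖θ‖ ^ 2 * t ^ 2 := by
        linarith
    _ ≤ 2 * (K * ‖θ‖ ^ 2 * (|q F0 φ0 φ1| + c * t ^ 2)) + D * ‖θ‖ ^ 2 * t ^ 2 := by gcongr
    _ ≤ (2 * K * (1 + c) + D) * ‖θ‖ ^ 2 * (|q F0 φ0 φ1| + t ^ 2) := by
        have e : (2 * K * (1 + c) + D) * ‖θ‖ ^ 2 * (|q F0 φ0 φ1| + t ^ 2) -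
            (2 * (K * ‖θ‖ ^ 2 * (|q F0 φ0 φ1| + c * t ^ 2)) + D * ‖θ‖ ^ 2 * t ^ 2) =
            (2 * K * c + D) * ‖θ‖ ^ 2 * |q F0 φ0 φ1| + 2 * K * ‖θ‖ ^ 2 * t ^ 2 := by ring
        have : 0 ≤ (2 * K * c + D) * ‖θ‖ ^ 2 * |q F0 φ0 φ1| + 2 * K * ‖θ‖ ^ 2 * t ^ 2 := by
          positivity
        linarith
    _ ≤ |2 * K * (1 + c) + D| * ‖θ‖ ^ 2 * (|q F0 φ0 φ1| + t ^ 2) := by
        have := le_abs_self (2 * K * (1 + c) + D)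
        gcongr

end

end Crest.Agent.R235.CurLin3_400
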