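import Mathlib
import Crest.Agent.R235.CurDefs_132

/-!
Row 235 (S0364), PACKAGE CUR, helper531: the assembly `LIM, CLO, GEO1, LIN4 → SIUL`
(ball densities from the mollified ratios, and the passage from smooth to Borel `h`).
-/

set_option autoImplicit false
set_option maxSynthPendingDepth 3

open Set Function Filter MeasureTheory Metric
open scoped ContDiff ENNReal Topology

namespace Crest.Agent.R235.CurSiul_531

open Crest.Agent.R240 Crest.Agent.R240.En Crest.Agent.R240.Pot Crest.Agent.R235.CurDefs_132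

/-! ### A. from smooth to Borel functions of `Θ` -/

/-- the smooth approximation of the indicator of `Iic a`. -/
noncomputable def stp (a : ℝ) (k : ℕ) (t : ℝ) : ℝ := Real.smoothTransition (1 - k * (t - a))

theorem stp_smooth (a : ℝ) (k : ℕ) : ContDiff ℝ ∞ (stp a k) := by
  unfold stp
  exact Real.smoothTransition.contDiff.comp (by fun_prop)

theorem stp_bound (a : ℝ) (k : ℕ) (t : ℝ) : |stp a k t| ≤ 1 := by
  unfold stp
  rw [abs_of_nonneg (Real.smoothTransition.nonneg _)]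
  exact Real.smoothTransition.le_one _

theorem stp_lim (a t : ℝ) :
    Tendsto (fun k : ℕ => stp a k t) atTop (𝓝 ((Iic a).indicator (fun _ => (1 : ℝ)) t)) := by
  by_cases h : t ≤ a
  · have : ∀ k : ℕ, stp a k t = 1 := by
      intro k
      apply Real.smoothTransition.one_of_one_le
      have : (k : ℝ) * (t - a) ≤ 0 := mul_nonpos_of_nonneg_of_nonpos (by positivity) (by linarith)
      linarith
    simp only [this, indicator_of_mem (mem_Iic.2 h)]
    exact tendsto_const_nhds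
  · rw [indicator_of_notMem (by simpa using h)]
    push Not at h
    obtain ⟨n, hn⟩ := exists_nat_gt (1 / (t - a))
    refine tendsto_const_nhds.congr' ?_
    filter_upwards [eventually_ge_atTop n] with k hk
    symm
    apply Real.smoothTransition.zero_of_nonpos
    have h1 : 0 < t - a := by linarith
    have h2 : 1 < n * (t - a) := by rwa [div_lt_iff₀ h1] at hn
    have h3 : (n : ℝ) * (t - a) ≤ k * (t - a) := by
      apply mul_le_mul_of_nonneg_right _ h1.le
      exact_mod_cast hk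
    linarith

theorem int_Iic {X : Type*} [MeasurableSpace X] (s : Measure X) (Θ : X → ℝ)
    (hΘ : Measurable Θ) (f : X → ℝ) (hf : Integrable f s)
    (h0 : ∀ H : ℝ → ℝ, ContDiff ℝ ∞ H → ∫ y, H (Θ y) * f y ∂s = 0) (a : ℝ) :
    ∫ y in Θ ⁻¹' Iic a, f y ∂s = 0 := by
  have h1 : Tendsto (fun k : ℕ => ∫ y, stp a k (Θ y) * f y ∂s) atTop
      (𝓝 (∫ y, (Iic a).indicator (fun _ => (1 : ℝ)) (Θ y) * f y ∂s)) := by
    refine tendsto_integral_of_dominated_convergence (fun y => |f y|) ?_ hf.abs ?_ ?_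
    · intro k
      exact (((stp_smooth a k).continuous.measurable.comp hΘ).aestronglyMeasurable).mul hf.1
    · intro k
      refine ae_of_all _ fun y => ?_
      rw [norm_mul, Real.norm_eq_abs, Real.norm_eq_abs]
      calc |stp a k (Θ y)| * |f y| ≤ 1 * |f y| :=
            mul_le_mul_of_nonneg_right (stp_bound _ _ _) (abs_nonneg _)
        _ = |f y| := one_mul _
    · refine ae_of_all _ fun y => ?_
      exact (stp_lim a (Θ y)).mul_const _
  have h2 : ∀ k : ℕ, ∫ y, stp a k (Θ y) * f y ∂s = 0 := fun k => h0 _ (stp_smooth a k)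
  simp only [h2] at h1
  have h3 := tendsto_nhds_unique h1 tendsto_const_nhds
  rw [← h3, ← integral_indicator (hΘ measurableSet_Iic)]
  refine integral_congr_ae (ae_of_all _ fun y => ?_)
  by_cases hy : Θ y ≤ a
  · simp [indicator, hy]
  · simp [indicator, hy]

theorem int_meas {X : Type*} [MeasurableSpace X] (s : Measure X) (Θ : X → ℝ)
    (hΘ : Measurable Θ) (f : X → ℝ) (hf : Integrable f s)
    (h0 : ∀ H : ℝ → ℝ, ContDiff ℝ ∞ H → ∫ y, H (Θ y) * f y ∂s = 0) (A : Set ℝ)
    (hA : MeasurableSet A) :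
    ∫ y in Θ ⁻¹' A, f y ∂s = 0 := by
  have htot : ∫ y, f y ∂s = 0 := by
    have := h0 (fun _ => 1) contDiff_const
    simpa using this
  induction A, hA using MeasurableSpace.induction_on_inter
    (s := range (Iic : ℝ → Set ℝ)) (borel_eq_generateFrom_Iic ℝ ▸ (BorelSpace.measurable_eq (α := ℝ)))
    isPiSystem_Iic with
  | empty => simp
  | basic t ht =>
    obtain ⟨a, rfl⟩ := ht
    exact int_Iic s Θ hΘ f hf h0 a
  | compl t ht ih =>
    rw [preimage_compl, setIntegral_compl (hΘ ht) hf, ih, htot, sub_zero]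
  | iUnion g hd hm ih =>
    rw [preimage_iUnion, integral_iUnion (fun i => hΘ (hm i)) ?_ hf.integrableOn]
    · simp [ih]
    · intro i j hij
      exact Disjoint.preimage Θ (hd hij)

theorem borel {X : Type*} {m0 : MeasurableSpace X} (s : Measure X) [IsFiniteMeasure s] (Θ : X → ℝ)
    (hΘ : Measurable Θ) (f : X → ℝ) (hf : Integrable f s)
    (h0 : ∀ H : ℝ → ℝ, ContDiff ℝ ∞ H → ∫ y, H (Θ y) * f y ∂s = 0)
    (h : ℝ → ℝ) (hh : Measurable h) (hb : ∃ B, ∀ t, |h t| ≤ B) :
    ∫ y, h (Θ y) * f y ∂s = 0 := by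
  obtain ⟨B, hB⟩ := hb
  have hmle : MeasurableSpace.comap Θ inferInstance ≤ m0 := hΘ.comap_le
  have hc : 0 =ᵐ[s] s[f | MeasurableSpace.comap Θ inferInstance] := by
    refine ae_eq_condExp_of_forall_setIntegral_eq hmle hf ?_ ?_ ?_
    · intro t _ _; exact (integrable_zero _ _ _).integrableOn
    · rintro t ⟨A, hA, rfl⟩ _
      simp only [Pi.zero_apply, integral_zero]
      exact (int_meas s Θ hΘ f hf h0 A hA).symm
    · exact aestronglyMeasurable_zero
  have hg : StronglyMeasurable[MeasurableSpace.comap Θ inferInstance] (fun y => h (Θ y)) := by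
    have : Measurable[MeasurableSpace.comap Θ inferInstance] (fun y => h (Θ y)) :=
      hh.comp (comap_measurable Θ)
    exact this.stronglyMeasurable
  have hgf : Integrable ((fun y => h (Θ y)) * f) s := by
    refine hf.bdd_mul (c := B) (hh.comp hΘ).aestronglyMeasurable (ae_of_all _ fun y => ?_)
    simpa [Real.norm_eq_abs] using hB (Θ y)
  have hp := condExp_mul_of_stronglyMeasurable_left hg hgf hf
  have h1 : ∫ y, ((fun y => h (Θ y)) * f) y ∂s = 0 := by
    rw [← integral_condExp hmle (f := (fun y => h (Θ y)) * f)]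
    rw [integral_congr_ae (hp.trans ((EventuallyEq.refl _ _).mul hc.symm))]
    simp
  simpa using h1

/-! ### B. cut-offs and the sandwich -/

theorem exists_cut (δ : ℝ) (hδ : 0 < δ) : ∃ K, Cut δ K := by
  refine ⟨fun t => Real.smoothTransition ((1 + δ - t) / δ), ?_, ?_, ?_, ?_⟩
  · exact Real.smoothTransition.contDiff.comp (by fun_prop)
  · intro a b hab
    exact Real.smoothTransition.monotone (by gcongr)
  · intro t ht
    apply Real.smoothTransition.one_of_one_le
    rw [le_div_iff₀ hδ]; linarith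
  · intro t ht
    apply Real.smoothTransition.zero_of_nonpos
    exact div_nonpos_of_nonpos_of_nonneg (by linarith) hδ.le

theorem Cut.nonneg {δ : ℝ} {K : ℝ → ℝ} (h : Cut δ K) (t : ℝ) : 0 ≤ K t := by
  rw [← h.zero (max t (1 + δ)) (le_max_right _ _)]
  exact h.anti (le_max_left _ _)

theorem Cut.le_one {δ : ℝ} {K : ℝ → ℝ} (h : Cut δ K) (t : ℝ) : K t ≤ 1 := by
  rw [← h.one (min t 1) (min_le_right _ _)]
  exact h.anti (min_le_left _ _)

theorem sandwich {N δ : ℕ → ℝ} (hδ : ∀ n, 0 < δ n) (hδ0 : Tendsto δ atTop (𝓝 0))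
    (hN : ∀ n, 0 ≤ N n) {a : ℝ → ℝ} (up lo : ℕ → ℝ → ℝ)
    (hup : ∀ n, ∀ᶠ r in 𝓝[>] (0 : ℝ), a r ≤ up n r)
    (hlo : ∀ n, ∀ᶠ r in 𝓝[>] (0 : ℝ), lo n r ≤ a r)
    (hupt : ∀ n, Tendsto (up n) (𝓝[>] 0) (𝓝 (N n)))
    (hlot : ∀ n, Tendsto (lo n) (𝓝[>] 0) (𝓝 (N n / (1 + δ n)))) :
    Tendsto a (𝓝[>] 0) (𝓝 (⨅ n, N n)) ∧ Tendsto N atTop (𝓝 (⨅ n, N n)) ∧
      ∀ n m, N n ≤ (1 + δ n) * N m := by
  have hbd : BddBelow (range N) := ⟨0, by rintro _ ⟨n, rfl⟩; exact hN n⟩
  have h1 : ∀ n m, N n / (1 + δ n) ≤ N m := fun n m =>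
    le_of_tendsto_of_tendsto (hlot n) (hupt m) ((hlo n).mp ((hup m).mono fun r h h' => h'.trans h))
  have h2 : ∀ n, N n / (1 + δ n) ≤ ⨅ m, N m := fun n => le_ciInf (h1 n)
  have h3 : ∀ n, ⨅ m, N m ≤ N n := fun n => ciInf_le hbd n
  have h1δ : ∀ n, 0 < 1 + δ n := fun n => by have := hδ n; linarith
  have hlim : Tendsto N atTop (𝓝 (⨅ n, N n)) := by
    refine tendsto_of_tendsto_of_tendsto_of_le_of_le (g := fun _ => ⨅ n, N n)
      (h := fun n => (1 + δ n) * ⨅ n, N n) tendsto_const_nhds ?_ h3 ?_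
    · have : Tendsto (fun n => (1 + δ n) * ⨅ n, N n) atTop (𝓝 ((1 + 0) * ⨅ n, N n)) :=
        (tendsto_const_nhds.add hδ0).mul_const _
      simpa using this
    · intro n
      have := h2 n
      rw [div_le_iff₀ (h1δ n)] at this
      simpa [mul_comm] using this
  have hlim2 : Tendsto (fun n => N n / (1 + δ n)) atTop (𝓝 (⨅ n, N n)) := by
    have : Tendsto (fun n => N n / (1 + δ n)) atTop (𝓝 ((⨅ n, N n) / (1 + 0))) :=
      hlim.div (tendsto_const_nhds.add hδ0) (by norm_num)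
    simpa using this
  refine ⟨tendsto_order.2 ⟨?_, ?_⟩, hlim, ?_⟩
  · intro b hb
    obtain ⟨n, hn⟩ := ((tendsto_order.1 hlim2).1 b hb).exists
    filter_upwards [(tendsto_order.1 (hlot n)).1 b hn, hlo n] with r h h'
    exact h.trans_le h'
  · intro b hb
    obtain ⟨n, hn⟩ := ((tendsto_order.1 hlim).2 b hb).exists
    filter_upwards [(tendsto_order.1 (hupt n)).2 b hn, hup n] with r h h'
    exact h'.trans_lt h
  · intro n m
    have := h1 n m
    rw [div_le_iff₀ (h1δ n)] at this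
    linarith

/-! ### C. geometry of `rho2` -/

theorem rho_G (D : LC) (x y : E4) :
    |D.rho2 x y - D.G x (y - x) (y - x)| ≤ D.L ^ 2 * ‖y - x‖ ^ 3 := by
  have hL : 0 ≤ D.L := by linarith [D.L_ge]
  have hJ : ‖D.J y - D.J x‖ ≤ D.L * ‖y - x‖ := by
    refine Convex.norm_image_sub_le_of_norm_fderiv_le (s := univ)
      (fun z _ => D.smJ.differentiable (by simp) z) (fun z _ => D.bJ1 z) convex_univ (mem_univ _)
      (mem_univ _)
  have hF : ‖D.F y - D.F x‖ ≤ D.L * ‖y - x‖ := by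
    refine Convex.norm_image_sub_le_of_norm_fderiv_le (s := univ)
      (fun z _ => D.smF.differentiable (by simp) z) (fun z _ => D.bF1 z) convex_univ (mem_univ _)
      (mem_univ _)
  set v := y - x with hv
  have h1 : D.rho2 x y - D.G x v v =
      ((D.F y - D.F x) v (D.J y v) + D.F x v ((D.J y - D.J x) v)) / 2 := by
    simp only [LC.rho2, LC.G, gm_apply, ← hv, sub_apply, map_sub]
    ring
  have h2 : |(D.F y - D.F x) v (D.J y v)| ≤ D.L ^ 2 * ‖v‖ ^ 3 := by
    calc |(D.F y - D.F x) v (D.J y v)| ≤ ‖D.F y - D.F x‖ * ‖v‖ * ‖D.J y v‖ := by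
          rw [← Real.norm_eq_abs]
          exact ContinuousLinearMap.le_opNorm₂ _ _ _
      _ ≤ (D.L * ‖v‖) * ‖v‖ * (D.L * ‖v‖) := by
          gcongr
          exact ((D.J y).le_opNorm v).trans (by gcongr; exact D.bJ y)
      _ = D.L ^ 2 * ‖v‖ ^ 3 := by ring
  have h3 : |D.F x v ((D.J y - D.J x) v)| ≤ D.L ^ 2 * ‖v‖ ^ 3 := by
    calc |D.F x v ((D.J y - D.J x) v)| ≤ ‖D.F x‖ * ‖v‖ * ‖(D.J y - D.J x) v‖ := by
          rw [← Real.norm_eq_abs]
          exact ContinuousLinearMap.le_opNorm₂ _ _ _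
      _ ≤ D.L * ‖v‖ * (D.L * ‖v‖ * ‖v‖) := by
          gcongr
          · exact D.bF x
          · exact ((D.J y - D.J x).le_opNorm v).trans (by gcongr)
      _ = D.L ^ 2 * ‖v‖ ^ 3 := by ring
  rw [h1, abs_div, abs_of_pos (by norm_num : (0 : ℝ) < 2), div_le_iff₀ (by norm_num)]
  calc _ ≤ |(D.F y - D.F x) v (D.J y v)| + |D.F x v ((D.J y - D.J x) v)| := abs_add_le _ _
    _ ≤ _ := by linarith

theorem cube {m r t : ℝ} (hm : 0 < m) (hr : 0 < r) (ht : 0 ≤ t) (h : m * t ^ 2 < r ^ 2) :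
    t ^ 3 ≤ r ^ 3 / √m ^ 3 := by
  have hs : 0 < √m := Real.sqrt_pos.2 hm
  have h1 : √m * t < r := by
    refine lt_of_pow_lt_pow_left₀ 2 hr.le ?_
    rw [mul_pow, Real.sq_sqrt hm.le]; exact h
  have h2 : t ≤ r / √m := by
    rw [le_div_iff₀ hs]; linarith
  calc t ^ 3 ≤ (r / √m) ^ 3 := by gcongr
    _ = r ^ 3 / √m ^ 3 := div_pow _ _ _

theorem incl (D : LC) (hm : ∀ x y, D.m * ‖y - x‖ ^ 2 ≤ D.rho2 x y) :
    ∃ k : ℝ, 0 ≤ k ∧ ∀ x : E4, ∀ r, 0 < r →
      {y | D.G x (y - x) (y - x) < r ^ 2} ⊆ {y | D.rho2 x y < r ^ 2 * (1 + k * r)} ∧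
      (k * r ≤ 1 → {y | D.rho2 x y < r ^ 2 * (1 - k * r)} ⊆
        {y | D.G x (y - x) (y - x) < r ^ 2}) := by
  have hmp : 0 < D.m := (D.bd 0).m_pos
  have hs : 0 < √D.m := Real.sqrt_pos.2 hmp
  refine ⟨D.L ^ 2 / √D.m ^ 3, by positivity, fun x r hr => ⟨?_, ?_⟩⟩
  · intro y hy
    simp only [mem_ofPred_eq] at hy ⊢
    have h1 := (D.bd x).lo (y - x)
    have h2 : D.m * ‖y - x‖ ^ 2 < r ^ 2 := h1.trans_lt hy
    have h3 := cube hmp hr (norm_nonneg _) h2
    have h4 := (abs_le.1 (rho_G D x y)).2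
    have h5 : D.L ^ 2 * ‖y - x‖ ^ 3 ≤ D.L ^ 2 * (r ^ 3 / √D.m ^ 3) := by gcongr
    have h6 : D.L ^ 2 * (r ^ 3 / √D.m ^ 3) = r ^ 2 * (D.L ^ 2 / √D.m ^ 3 * r) := by ring
    linarith
  · intro hk y hy
    simp only [mem_ofPred_eq] at hy ⊢
    have h1 := hm x y
    have h7 : 0 ≤ D.L ^ 2 / √D.m ^ 3 * r := by positivity
    have h8 : r ^ 2 * (1 - D.L ^ 2 / √D.m ^ 3 * r) ≤ r ^ 2 := by
      have : 0 ≤ r ^ 2 * (D.L ^ 2 / √D.m ^ 3 * r) := by positivity
      linarith
    have h2 : D.m * ‖y - x‖ ^ 2 < r ^ 2 := by linarith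
    have h3 := cube hmp hr (norm_nonneg _) h2
    have h4 := (abs_le.1 (rho_G D x y)).1
    have h5 : D.L ^ 2 * ‖y - x‖ ^ 3 ≤ D.L ^ 2 * (r ^ 3 / √D.m ^ 3) := by gcongr
    have h6 : D.L ^ 2 * (r ^ 3 / √D.m ^ 3) = r ^ 2 * (D.L ^ 2 / √D.m ^ 3 * r) := by ring
    linarith

section nuR

variable (D : LC) {δ : ℝ} {K : ℝ → ℝ} (hK : Cut δ K) (x : E4)
  (hc : Continuous fun y => D.rho2 x y)

include hK hc

theorem integrable_K (ρ : ℝ) : Integrable (fun y => K (D.rho2 x y / ρ ^ 2)) D.s := by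
  have := D.fin
  refine Integrable.of_bound (C := 1) ?_ (ae_of_all _ fun y => ?_)
  · exact (hK.smooth.continuous.comp (hc.div_const _)).aestronglyMeasurable
  · rw [Real.norm_eq_abs, abs_of_nonneg (Cut.nonneg hK _)]
    exact Cut.le_one hK _

theorem nuR_lo {ρ : ℝ} (hρ : 0 < ρ) :
    D.s.real {y | D.rho2 x y < ρ ^ 2} ≤ ρ ^ 2 * D.nuR K ρ x := by
  have := D.fin
  have hms : MeasurableSet {y | D.rho2 x y < ρ ^ 2} :=
    (isOpen_lt hc continuous_const).measurableSet
  have h0 : ρ ^ 2 * D.nuR K ρ x = ∫ y, K (D.rho2 x y / ρ ^ 2) ∂D.s := by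
    unfold LC.nuR
    field_simp
  rw [h0, ← integral_indicator_one hms]
  refine integral_mono ((integrable_const (1 : ℝ)).indicator hms) (integrable_K D hK x hc ρ) ?_
  intro y
  by_cases hy : D.rho2 x y < ρ ^ 2
  · have h1 : K (D.rho2 x y / ρ ^ 2) = 1 := by
      apply hK.one
      rw [div_le_one (by positivity)]
      exact hy.le
    simp [indicator, hy, h1]
  · simp only [indicator, mem_ofPred_eq, hy, if_false]
    exact Cut.nonneg hK _

theorem nuR_hi {ρ : ℝ} (hρ : 0 < ρ) :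
    ρ ^ 2 * D.nuR K ρ x ≤ D.s.real {y | D.rho2 x y < (1 + δ) * ρ ^ 2} := by
  have := D.fin
  have hms : MeasurableSet {y | D.rho2 x y < (1 + δ) * ρ ^ 2} :=
    (isOpen_lt hc continuous_const).measurableSet
  have h0 : ρ ^ 2 * D.nuR K ρ x = ∫ y, K (D.rho2 x y / ρ ^ 2) ∂D.s := by
    unfold LC.nuR
    field_simp
  rw [h0, ← integral_indicator_one hms]
  refine integral_mono (integrable_K D hK x hc ρ) ((integrable_const (1 : ℝ)).indicator hms) ?_
  intro y
  by_cases hy : D.rho2 x y < (1 + δ) * ρ ^ 2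
  · simp only [indicator, mem_ofPred_eq, hy, if_true, Pi.one_apply]
    exact Cut.le_one hK _
  · have h1 : K (D.rho2 x y / ρ ^ 2) = 0 := by
      apply hK.zero
      rw [le_div_iff₀ (by positivity)]
      linarith
    simp [indicator, hy, h1]

end nuR

/-! ### D. densities -/

theorem tendsto_fac {g : ℝ → ℝ} (hg : ContinuousAt g 0) {c : ℝ} (hc : 0 < c) (h0 : g 0 = c) :
    Tendsto (fun r => r * √(g r)) (𝓝[>] 0) (𝓝[>] 0) := by
  refine tendsto_nhdsWithin_iff.2 ⟨?_, ?_⟩
  · have h1 : ContinuousAt (fun r => r * √(g r)) 0 :=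
      continuousAt_id.mul (Real.continuous_sqrt.continuousAt.comp hg)
    have h2 : Tendsto (fun r => r * √(g r)) (𝓝 0) (𝓝 (0 * √(g 0))) := h1.tendsto
    rw [zero_mul] at h2
    exact h2.mono_left nhdsWithin_le_nhds
  · have h1 : ∀ᶠ r in 𝓝 (0 : ℝ), 0 < g r := by
      refine hg.eventually (lt_mem_nhds ?_)
      rw [h0]; exact hc
    filter_upwards [nhdsWithin_le_nhds h1, self_mem_nhdsWithin] with r hr hr'
    exact mul_pos hr' (Real.sqrt_pos.2 hr)

theorem dens (D : LC) (hGEO : GEO1) (N : ℕ → E4 → ℝ) (K : ℕ → ℝ → ℝ) (δ : ℕ → ℝ)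
    (hδ : ∀ n, 0 < δ n) (hδ0 : Tendsto δ atTop (𝓝 0)) (hK : ∀ n, Cut (δ n) (K n)) (x : E4)
    (hN0 : ∀ n, 0 ≤ N n x) (hN : ∀ n, Tendsto (fun r => D.nuR (K n) r x) (𝓝[>] 0) (𝓝 (N n x))) :
    Tendsto (fun r : ℝ => D.s.real {y | D.G x (y - x) (y - x) < r ^ 2} / r ^ 2) (𝓝[>] 0)
      (𝓝 (⨅ n, N n x)) ∧ Tendsto (fun n => N n x) atTop (𝓝 (⨅ n, N n x)) ∧
      ∀ n m, N n x ≤ (1 + δ n) * N m x := by
  have := D.fin
  obtain ⟨hsm, hbd, -⟩ := hGEO D
  have hc : Continuous fun y => D.rho2 x y := by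
    have h : Continuous ((fun z : E4 × E4 => D.rho2 z.1 z.2) ∘ fun y => (x, y)) :=
      hsm.continuous.comp (Continuous.prodMk_right x)
    exact h
  obtain ⟨k, hk, hincl⟩ := incl D fun x y => (hbd x y).1
  refine sandwich (N := fun n => N n x) (δ := δ)
    (a := fun r : ℝ => D.s.real {y | D.G x (y - x) (y - x) < r ^ 2} / r ^ 2) hδ hδ0 hN0
    (fun n r => (1 + k * r) * D.nuR (K n) (r * √(1 + k * r)) x)
    (fun n r => ((1 - k * r) / (1 + δ n)) * D.nuR (K n) (r * √((1 - k * r) / (1 + δ n))) x)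
    ?_ ?_ ?_ ?_
  · intro n
    filter_upwards [self_mem_nhdsWithin] with r (hr : 0 < r)
    have h1 : 0 < 1 + k * r := by positivity
    have h2 : 0 < r * √(1 + k * r) := by positivity
    have h3 := nuR_lo D (hK n) x hc h2
    have h4 : (r * √(1 + k * r)) ^ 2 = r ^ 2 * (1 + k * r) := by
      rw [mul_pow, Real.sq_sqrt h1.le]
    rw [h4] at h3
    have h5 := measureReal_mono (μ := D.s) (hincl x r hr).1
    rw [div_le_iff₀ (by positivity)]
    linarith
  · intro n
    have hev : ∀ᶠ r in 𝓝[>] (0 : ℝ), k * r < 1 := by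
      have : Tendsto (fun r : ℝ => k * r) (𝓝[>] 0) (𝓝 (k * 0)) :=
        (tendsto_const_nhds.mul tendsto_id).mono_left nhdsWithin_le_nhds
      rw [mul_zero] at this
      exact this.eventually (gt_mem_nhds one_pos)
    filter_upwards [self_mem_nhdsWithin, hev] with r (hr : 0 < r) hkr
    have hδn := hδ n
    have h1 : 0 < (1 - k * r) / (1 + δ n) := div_pos (by linarith) (by linarith)
    have h2 : 0 < r * √((1 - k * r) / (1 + δ n)) := by positivity
    have h3 := nuR_hi D (hK n) x hc h2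
    have h4 : (r * √((1 - k * r) / (1 + δ n))) ^ 2 = r ^ 2 * ((1 - k * r) / (1 + δ n)) := by
      rw [mul_pow, Real.sq_sqrt h1.le]
    have h5 : (1 + δ n) * (r * √((1 - k * r) / (1 + δ n))) ^ 2 = r ^ 2 * (1 - k * r) := by
      rw [h4]; field_simp
    rw [h5, h4] at h3
    have h6 := measureReal_mono (μ := D.s) ((hincl x r hr).2 hkr.le)
    rw [le_div_iff₀ (by positivity)]
    linarith
  · intro n
    have h1 : Tendsto (fun r => r * √(1 + k * r)) (𝓝[>] 0) (𝓝[>] 0) :=
      tendsto_fac (g := fun r => 1 + k * r) (by fun_prop) one_pos (by simp)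
    have h2 : Tendsto (fun r : ℝ => 1 + k * r) (𝓝[>] 0) (𝓝 (1 + k * 0)) :=
      (Continuous.tendsto (by fun_prop) _).mono_left nhdsWithin_le_nhds
    have := h2.mul ((hN n).comp h1)
    simpa using this
  · intro n
    have hδn := hδ n
    have h1 : Tendsto (fun r => r * √((1 - k * r) / (1 + δ n))) (𝓝[>] 0) (𝓝[>] 0) :=
      tendsto_fac (g := fun r => (1 - k * r) / (1 + δ n)) (c := 1 / (1 + δ n)) (by fun_prop)
        (by positivity) (by simp)
    have h2 : Tendsto (fun r : ℝ => (1 - k * r) / (1 + δ n)) (𝓝[>] 0)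
        (𝓝 ((1 - k * 0) / (1 + δ n))) :=
      (Continuous.tendsto (by fun_prop) _).mono_left nhdsWithin_le_nhds
    have h3 := h2.mul ((hN n).comp h1)
    have h4 : (1 - k * 0) / (1 + δ n) * N n x = N n x / (1 + δ n) := by ring
    rw [h4] at h3
    exact h3

/-! ### E. the integrand -/

theorem meas_q (D : LC) {b : E4 → Bil} (hb : Measurable b) :
    Measurable fun y => q (D.F y) (D.φ y) (b y) := by
  have he : ∀ {c : E4 → Bil}, Measurable c → ∀ i j, Measurable fun y => ent (c y) i j := by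
    intro c hc i j
    exact (hc.apply_continuousLinearMap (ee i)).apply_continuousLinearMap (ee j)
  have hW : ∀ {c d : E4 → Bil}, Measurable c → Measurable d →
      Measurable fun y => W (c y) (d y) := by
    intro c d hc hd
    unfold W
    exact ((((((he hc 0 1).mul (he hd 2 3)).sub ((he hc 0 2).mul (he hd 1 3))).add
      ((he hc 0 3).mul (he hd 1 2))).add ((he hc 1 2).mul (he hd 0 3))).sub
      ((he hc 1 3).mul (he hd 0 2))).add ((he hc 2 3).mul (he hd 0 1))
  have hF : Measurable D.F := D.smF.continuous.measurable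
  exact (hW D.meas hb).div (hW hF hF)

theorem d1_cont {S : E4 → Cov} (hS : ContDiff ℝ ∞ S) : Continuous (d1 S) := by
  have h1 : Continuous (fderiv ℝ S) := hS.continuous_fderiv (by simp)
  have h2 : Continuous fun y => (fderiv ℝ S y).flip :=
    (ContinuousLinearMap.flipₗᵢ ℝ E4 E4 ℝ).continuous.comp h1
  exact h1.sub h2

theorem d1_zero {S : E4 → Cov} {y : E4} (hy : y ∉ tsupport S) : d1 S y = 0 := by
  unfold d1
  rw [fderiv_of_notMem_tsupport ℝ hy]
  ext u v; simp

theorem q_zero (F b : Bil) : q F b 0 = 0 := by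
  simp [q, W, ent_zero]

theorem integrand (D : LC) (hL : LIN4) {S : E4 → Cov} (hS : ContDiff ℝ ∞ S)
    (hc : HasCompactSupport S) : Integrable (fun y => q (D.F y) (D.φ y) (d1 S y)) D.s := by
  have := D.fin
  obtain ⟨C, hC, hC2⟩ := hL D.m D.M D.L
  have h1 : HasCompactSupport (d1 S) := by
    refine hc.mono' ?_
    intro y hy
    by_contra h
    exact hy (d1_zero h)
  obtain ⟨B, hB⟩ := h1.exists_bound_of_continuous (d1_cont hS)
  refine Integrable.of_bound (C := C * B) (meas_q D (d1_cont hS).measurable).aestronglyMeasurable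
    (ae_of_all _ fun y => ?_)
  rw [Real.norm_eq_abs]
  refine ((hC2 (D.J y) (D.F y) (D.bd y) (D.bJ y) (D.φ y) (D.pos y) (D.nrm y)).2.1 _
    (alt_d1 S y)).trans ?_
  gcongr
  exact hB y

/-! ### F. the theorem -/

theorem siul (hLIM : LIM) (hCLO : CLO) (hGEO : GEO1) (hLIN : LIN4) : SIUL := by
  intro D
  have := D.fin
  have hR := D.R_pos
  set δ : ℕ → ℝ := fun n => 1 / ((n : ℝ) + 1) with hδdef
  have hδ : ∀ n, 0 < δ n := fun n => by simp only [hδdef]; positivity
  have hδ1 : ∀ n, δ n ≤ 1 := fun n => by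
    simp only [hδdef]
    rw [div_le_one (by positivity)]
    have : (0 : ℝ) ≤ n := by positivity
    linarith
  have hδ0 : Tendsto δ atTop (𝓝 0) := tendsto_one_div_add_atTop_nhds_zero_nat
  choose K hK using fun n => exists_cut (δ n) (hδ n)
  choose N hNm hNb hNt using fun n => hLIM D (δ n) (K n) (hδ n) (hδ1 n) (hK n)
  choose C hC using hNb
  have hsub : ball D.x0 (2 * D.R) ⊆ ball D.x0 (3 * D.R) := ball_subset_ball (by linarith)
  have hd : ∀ x ∈ ball D.x0 (2 * D.R), _ := fun x hx =>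
    dens D hGEO N K δ hδ hδ0 hK x (fun n => (hC n x).1) (fun n => hNt n x (hsub hx))
  set T : E4 → ℝ := fun x => ⨅ n, N n x with hT
  have hTm : Measurable T := Measurable.iInf hNm
  have hT0 : ∀ x, 0 ≤ T x := fun x => le_ciInf fun n => (hC n x).1
  have hTC : ∀ x, T x ≤ C 0 := fun x =>
    (ciInf_le ⟨0, by rintro _ ⟨n, rfl⟩; exact (hC n x).1⟩ 0).trans (hC 0 x).2
  have hpi := Real.pi_pos
  have hΘm : Measurable fun x => T x / Real.pi := hTm.div_const _
  refine ⟨fun x => T x / Real.pi, hΘm, ⟨C 0 / Real.pi, fun x => ⟨by have := hT0 x; positivity, ?_⟩⟩,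
    ?_, ?_⟩
  · exact div_le_div_of_nonneg_right (hTC x) hpi.le
  · intro x hx
    have h1 := (hd x hx).1
    unfold IsDenE
    have h2 : (fun r : ℝ => D.s.real {y | D.G x (y - x) (y - x) < r ^ 2} / (Real.pi * r ^ 2)) =
        fun r : ℝ => (D.s.real {y | D.G x (y - x) (y - x) < r ^ 2} / r ^ 2) / Real.pi := by
      funext r; rw [div_div, mul_comm]
    rw [h2]
    exact h1.div_const _
  · intro h hh hhb S hS hSc hSs
    refine borel D.s (fun x => T x / Real.pi) hΘm _ (integrand D hLIN hS hSc) ?_ h hh hhb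
    intro H hH
    -- smooth `H`
    have hz : ∀ n, ∫ y, H (N n y / Real.pi) * q (D.F y) (D.φ y) (d1 S y) ∂D.s = 0 := by
      intro n
      exact hCLO D (δ n) (K n) (hδ n) (hδ1 n) (hK n) (N n) (hNm n)
        (fun x hx => hNt n x (hsub hx)) (fun t => H (t / Real.pi))
        (hH.comp (contDiff_id.div_const _)) S hS hSc hSs
    obtain ⟨B, hB⟩ := (isCompact_Icc (a := (0 : ℝ)) (b := 2 * C 0 / Real.pi)).exists_bound_of_continuousOn
      hH.continuous.continuousOn
    have hlim : Tendsto (fun n => ∫ y, H (N n y / Real.pi) * q (D.F y) (D.φ y) (d1 S y) ∂D.s)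
        atTop (𝓝 (∫ y, H (T y / Real.pi) * q (D.F y) (D.φ y) (d1 S y) ∂D.s)) := by
      refine tendsto_integral_of_dominated_convergence
        (fun y => B * |q (D.F y) (D.φ y) (d1 S y)|) ?_
        ((integrand D hLIN hS hSc).abs.const_mul B) ?_ ?_
      · intro n
        exact ((hH.continuous.measurable.comp ((hNm n).div_const _)).aestronglyMeasurable).mul
          (integrand D hLIN hS hSc).1
      · intro n
        refine ae_of_all _ fun y => ?_
        by_cases hy : y ∈ ball D.x0 (2 * D.R)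
        · rw [norm_mul, Real.norm_eq_abs (q _ _ _)]
          refine mul_le_mul_of_nonneg_right (hB _ ⟨?_, ?_⟩) (abs_nonneg _)
          · have := (hC n y).1; positivity
          · have h1 := (hd y hy).2.2 n 0
            have h2 : (1 + δ n) * N 0 y ≤ 2 * C 0 := by
              have h3 := hC 0 y
              have h4 := hδ1 n
              have h5 := hδ n
              nlinarith
            exact div_le_div_of_nonneg_right (h1.trans h2) hpi.le
        · have : d1 S y = 0 := d1_zero fun h => hy (hSs h)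
          rw [this, q_zero]; simp
      · refine ae_of_all _ fun y => ?_
        by_cases hy : y ∈ ball D.x0 (2 * D.R)
        · refine Tendsto.mul_const _ ?_
          exact (hH.continuous.tendsto _).comp ((hd y hy).2.1.div_const _)
        · have : d1 S y = 0 := d1_zero fun h => hy (hSs h)
          rw [this, q_zero]; simp
    simp only [hz] at hlim
    exact tendsto_nhds_unique hlim tendsto_const_nhds

end Crest.Agent.R235.CurSiul_531
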