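import Crest.Agent.R235.CurClo_505
import Crest.Agent.R235.CurSiul_531
import Crest.Agent.R235.CurLim_510
import Crest.Agent.R235.CurGeo1_679
import Crest.Agent.R235.CurGeo2_133
import Crest.Agent.R235.CurGeo3_52
import Crest.Agent.R235.CurGra_109
import Crest.Agent.R235.CurGri_538
import Crest.Agent.R235.CurDel_538
import Crest.Agent.R235.CurMon_956
import Crest.Agent.R235.CurMon0_311
import Crest.Agent.R235.CurLin1_785
import Crest.Agent.R235.CurLin2_734
import Crest.Agent.R235.CurLin3_400
import Crest.Agent.R235.CurLin4_253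
import Crest.Agent.R235.Cur3_4

/-!
Row 235 (S0364), PACKAGE CUR, final assembly (helper4): `SIUL`, `SIUM`, `CUR3`, unconditional.
-/

set_option autoImplicit false

universe u

namespace Crest.Agent.R235.CurFin_4

open Crest.Agent.R235.CurDefs_132

theorem mon : MON :=
  CurMon_956.mon CurGeo1_679.geo1 CurGeo3_52.geo3 CurLin1_785.lin1' CurLin4_253.LIN4_proof
    CurMon0_311.mon0

theorem lim : LIM := CurLim_510.lim mon

theorem gra : GRA :=
  CurGra_109.gra CurLin1_785.lin1' (CurLin3_400.lin3 CurLin2_734.lin2) CurLin4_253.LIN4_proof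
    CurGeo1_679.geo1 CurGeo2_133.geo2

theorem del : DEL := CurDel_538.del mon CurLin1_785.lin1' CurLin4_253.LIN4_proof CurGeo1_679.geo1

theorem gri : GRI := CurGri_538.gri del CurLin1_785.lin1' CurLin4_253.LIN4_proof CurGeo1_679.geo1

theorem clo : CLO := CurClo_505.clo gra gri mon CurLin4_253.LIN4_proof CurGeo1_679.geo1

/-- Siu, local form. -/
theorem siul : SIUL := CurSiul_531.siul lim clo CurGeo1_679.geo1 CurLin4_253.LIN4_proof

/-- Siu on `M`. -/
theorem sium : Curves_489.SIUM.{u} := SiuM_4.sium_of siul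

/-- the decomposition. -/
theorem cur3 : Curves_489.CUR3.{u} := Cur3_4.cur3_of siul

end Crest.Agent.R235.CurFin_4
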