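import Crest.Agent.R235.CurDefs_132

/-!
Row 235 (S0364), package CUR, helper523: `LEB` (task 355).
-/

set_option autoImplicit false
set_option maxSynthPendingDepth 3

open Set Function Filter MeasureTheory Metric
open scoped ContDiff ENNReal Manifold Topology

namespace Crest.Agent.R235.CurLeb_523

open Crest.Agent.R240 Crest.Agent.R240.En Crest.Agent.R240.Pot Crest.Agent.R235.CurDefs_132

/-- the ball comparison: a small closed ball is contained in a `g`-ball. -/
lemma closedBall_sub {g : Bil} {M : ℝ} (hg : ∀ v, g v v ≤ M * ‖v‖ ^ 2) (x : E4) {ρ : ℝ}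
    (hρ : 0 < ρ) :
    closedBall x ρ ⊆ {y | g (y - x) (y - x) < ((|M| + 1) * ρ) ^ 2} := by
  intro y hy
  rw [mem_closedBall, dist_eq_norm] at hy
  have h1 := hg (y - x)
  have h2 : ‖y - x‖ ^ 2 ≤ ρ ^ 2 := by gcongr
  have h3 : M * ‖y - x‖ ^ 2 ≤ |M| * ρ ^ 2 :=
    mul_le_mul (le_abs_self M) h2 (by positivity) (abs_nonneg M)
  have h4 : 0 < ρ ^ 2 := by positivity
  have h5 := abs_nonneg M
  simp only [mem_setOf_eq]
  nlinarith

/-- the ball comparison: a `g`-ball is contained in a closed ball. -/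
lemma sub_closedBall {g : Bil} {m : ℝ} (hm : 0 < m) (hg : ∀ v, m * ‖v‖ ^ 2 ≤ g v v) (x : E4)
    {r : ℝ} (hr : 0 < r) :
    {y | g (y - x) (y - x) < r ^ 2} ⊆ closedBall x (r / √m) := by
  intro y hy
  rw [mem_closedBall, dist_eq_norm]
  have h1 := hg (y - x)
  simp only [mem_setOf_eq] at hy
  have h2 : m * ‖y - x‖ ^ 2 < r ^ 2 := lt_of_le_of_lt h1 hy
  rw [le_div_iff₀ (Real.sqrt_pos.2 hm)]
  have h3 : (‖y - x‖ * √m) ^ 2 ≤ r ^ 2 := by
    rw [mul_pow, Real.sq_sqrt hm.le]; linarith
  exact (abs_le_of_sq_le_sq' h3 hr.le).2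

/-- **LEB.** -/
theorem leb : LEB := by
  intro s hs g m M hm hg A hA
  have key := Besicovitch.ae_tendsto_measure_inter_div_of_measurableSet s hA.compl
  filter_upwards [key] with x hx hxA θ hθ
  have hind : (Aᶜ).indicator (1 : E4 → ℝ≥0∞) x = 0 := by
    simp [hxA]
  rw [hind] at hx
  have hm' : 0 < √m := Real.sqrt_pos.2 hm
  set c : ℝ := |M| + 1 with hc
  have hc0 : 0 < c := by positivity
  -- the density is bounded at `x`
  have hθ2 : ∀ᶠ ρ in 𝓝[>] (0:ℝ),
      s.real {y | g x (y - x) (y - x) < (c * ρ) ^ 2} / (Real.pi * (c * ρ) ^ 2) < θ + 1 := by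
    have ht : Tendsto (fun ρ : ℝ => c * ρ) (𝓝[>] 0) (𝓝[>] 0) := by
      rw [tendsto_nhdsWithin_iff]
      refine ⟨?_, ?_⟩
      · have : Tendsto (fun ρ : ℝ => c * ρ) (𝓝 0) (𝓝 (c * 0)) := tendsto_id.const_mul c
        rw [mul_zero] at this
        exact this.mono_left nhdsWithin_le_nhds
      · filter_upwards [self_mem_nhdsWithin] with ρ hρ
        exact mul_pos hc0 hρ
    exact (hθ.comp ht).eventually (gt_mem_nhds (by linarith))
  have hB : ∀ᶠ ρ in 𝓝[>] (0:ℝ), s.real (closedBall x ρ) ≤ (θ + 1) * Real.pi * c ^ 2 * ρ ^ 2 := by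
    filter_upwards [hθ2, self_mem_nhdsWithin] with ρ h1 h2
    have hρ : 0 < ρ := h2
    have h3 : s.real (closedBall x ρ) ≤ s.real {y | g x (y - x) (y - x) < (c * ρ) ^ 2} :=
      measureReal_mono (closedBall_sub (fun v => (hg x v).2) x hρ)
    have h4 : 0 < Real.pi * (c * ρ) ^ 2 := by positivity
    rw [div_lt_iff₀ h4] at h1
    calc _ ≤ _ := h3
      _ ≤ (θ + 1) * (Real.pi * (c * ρ) ^ 2) := h1.le
      _ = _ := by ring
  -- the real version of the ratio
  have hx' : Tendsto (fun r => s.real (Aᶜ ∩ closedBall x r) / s.real (closedBall x r)) (𝓝[>] 0)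
      (𝓝 0) := by
    have := (ENNReal.tendsto_toReal (ENNReal.zero_ne_top)).comp hx
    simp only [ENNReal.toReal_zero] at this
    refine this.congr (fun r => ?_)
    simp only [Function.comp, ENNReal.toReal_div, Measure.real]
  have ht2 : Tendsto (fun r : ℝ => r / √m) (𝓝[>] 0) (𝓝[>] 0) := by
    rw [tendsto_nhdsWithin_iff]
    refine ⟨?_, ?_⟩
    · have : Tendsto (fun r : ℝ => r / √m) (𝓝 0) (𝓝 (0 / √m)) := tendsto_id.div_const _
      rw [zero_div] at this
      exact this.mono_left nhdsWithin_le_nhds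
    · filter_upwards [self_mem_nhdsWithin] with ρ hρ
      exact div_pos hρ hm'
  -- the error
  have herr : Tendsto (fun r : ℝ => s.real ({y | g x (y - x) (y - x) < r ^ 2} ∩ Aᶜ) /
      (Real.pi * r ^ 2)) (𝓝[>] 0) (𝓝 0) := by
    have hlim : Tendsto (fun r : ℝ => (s.real (Aᶜ ∩ closedBall x (r / √m)) /
        s.real (closedBall x (r / √m))) * ((|θ + 1| * Real.pi * c ^ 2) / (Real.pi * m)))
        (𝓝[>] 0) (𝓝 0) := by
      have := (hx'.comp ht2).mul_const ((|θ + 1| * Real.pi * c ^ 2) / (Real.pi * m))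
      rw [zero_mul] at this
      exact this
    refine squeeze_zero' (Eventually.of_forall fun r => by positivity) ?_ hlim
    filter_upwards [ht2.eventually hB, self_mem_nhdsWithin] with r h1 h2
    have hr : 0 < r := h2
    have h3 : s.real ({y | g x (y - x) (y - x) < r ^ 2} ∩ Aᶜ) ≤
        s.real (Aᶜ ∩ closedBall x (r / √m)) := by
      refine measureReal_mono (fun y hy => ?_)
      exact ⟨hy.2, sub_closedBall hm (fun v => (hg x v).1) x hr hy.1⟩
    have h4 : s.real (Aᶜ ∩ closedBall x (r / √m)) = (s.real (Aᶜ ∩ closedBall x (r / √m)) /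
        s.real (closedBall x (r / √m))) * s.real (closedBall x (r / √m)) := by
      by_cases h0 : s.real (closedBall x (r / √m)) = 0
      · rw [h0, mul_zero]
        refine le_antisymm ?_ measureReal_nonneg
        rw [← h0]
        exact measureReal_mono inter_subset_right
      · rw [div_mul_cancel₀ _ h0]
    have h5 : s.real (closedBall x (r / √m)) ≤ |θ + 1| * Real.pi * c ^ 2 * (r ^ 2 / m) := by
      refine h1.trans ?_
      rw [div_pow, Real.sq_sqrt hm.le]
      have h7 : 0 ≤ Real.pi * c ^ 2 * (r ^ 2 / m) := by positivity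
      nlinarith [le_abs_self (θ + 1)]
    have hπ := Real.pi_pos
    rw [div_le_iff₀ (by positivity)]
    calc _ ≤ _ := h3
      _ = _ := h4
      _ ≤ (s.real (Aᶜ ∩ closedBall x (r / √m)) /
        s.real (closedBall x (r / √m))) * (|θ + 1| * Real.pi * c ^ 2 * (r ^ 2 / m)) := by
          gcongr
      _ = _ := by field_simp
  unfold IsDenE
  have := hθ.sub herr
  rw [sub_zero] at this
  refine this.congr (fun r => ?_)
  rw [← sub_div]
  congr 1
  rw [measureReal_restrict_apply' hA]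
  have h6 := measureReal_sdiff_add_inter (μ := s) (s := {y | g x (y - x) (y - x) < r ^ 2}) hA
  rw [sdiff_eq] at h6
  linarith

end Crest.Agent.R235.CurLeb_523
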