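import Mathlib
import Crest.Agent.R235.CurLin1_785
import Crest.Agent.R235.CurLin4_253

/-!
Row 235 (S0364), PACKAGE CUR, LIN2 (helper132).
-/

set_option autoImplicit false

namespace Crest.Agent.R235.CurLin2_132

open Crest.Agent.R240 Crest.Agent.R240.En Crest.Agent.R235.CurDefs_132

/-- hermitian Cauchy-Schwarz. -/
theorem herm {J : E4 →L[ℝ] E4} (hJ : ∀ v, J (J v) = -v) {b : Bil} (hb : Pos J b) (w u : E4) :
    b w (J u) ^ 2 + b w u ^ 2 ≤ b w (J w) * b u (J u) := by
  set x : ℝ := b w (J u) with hx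
  set y : ℝ := -(b w u) with hy
  have hA : 0 ≤ b w (J w) := hb.nonneg w
  have hB : 0 ≤ b u (J u) := hb.nonneg u
  have h1 := Pos.cs hJ hb w (J (x • u + y • J u))
  have e1 : b w (J (x • u + y • J u)) = x ^ 2 + y ^ 2 := by
    rw [map_add, map_smul, map_smul, hJ, map_add, map_smul, map_smul, map_neg]
    simp only [smul_eq_mul, ← hx]
    rw [hy]; ring
  have e2 : b (J (x • u + y • J u)) (J (J (x • u + y • J u))) = (x ^ 2 + y ^ 2) * b u (J u) := by
    rw [hb.inv]
    have h2 : b (J u) (J u) = 0 := hb.alt _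
    have h3 : b u u = 0 := hb.alt _
    have h4 : b (J u) u = - b u (J u) := hb.alt.swap _ _
    simp only [map_add, map_smul, hJ, ContinuousLinearMap.add_apply,
      ContinuousLinearMap.smul_apply, map_neg, smul_eq_mul, h2, h3, h4]
    ring
  rw [e1, e2] at h1
  have h5 : b w (J u) ^ 2 + b w u ^ 2 = x ^ 2 + y ^ 2 := by rw [hy]; ring
  rw [h5]
  have hN : 0 ≤ x ^ 2 + y ^ 2 := by positivity
  rcases hN.eq_or_lt with h0 | h0
  · rw [← h0]; positivity
  · have h6 : (x ^ 2 + y ^ 2) * (x ^ 2 + y ^ 2) ≤ (x ^ 2 + y ^ 2) * (b w (J w) * b u (J u)) := by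
      nlinarith
    exact le_of_mul_le_mul_left h6 h0

/-- the form `b(w,Jw) b - α ∧ Jcα`, `α = b(w,J·)`, is positive. -/
theorem pos_sub {J : E4 →L[ℝ] E4} (hJ : ∀ v, J (J v) = -v) {b : Bil} (hb : Pos J b) (w : E4) :
    Pos J ((b w (J w)) • b - wed ((b w).comp J) (Jc J ((b w).comp J))) where
  alt := (hb.alt.smul _).sub (wed_alt _ _)
  inv u v := by
    have h1 := hb.inv u v
    have h2 := (wed_Jc_pos hJ ((b w).comp J)).inv u v
    simp only [ContinuousLinearMap.sub_apply, ContinuousLinearMap.smul_apply] at h2 ⊢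
    rw [h1, h2]
  nonneg u := by
    have h1 := herm hJ hb w u
    have h2 : wed ((b w).comp J) (Jc J ((b w).comp J)) u (J u) = b w (J u) ^ 2 + b w u ^ 2 := by
      simp [hJ]; ring
    simp only [ContinuousLinearMap.sub_apply, ContinuousLinearMap.smul_apply, smul_eq_mul]
    rw [h2]
    linarith

theorem lin2 : LIN2 := by
  intro J F m M h φ b hφ hn hb θ
  have hA : 0 ≤ b (wv F φ θ) (J (wv F φ θ)) := hb.nonneg _
  have h0 : 0 ≤ q F φ b := h.q_pos_pos hφ hb
  have h1 : ((b (wv F φ θ)).comp J) (wv F φ θ) = q F φ (wed ((b (wv F φ θ)).comp J) θ) :=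
    (CurLin4_253.q_wed F φ _ θ).symm
  have hcs := h.cs_wed hφ ((b (wv F φ θ)).comp J) θ
  rw [← h1] at hcs
  have h2 := h.q_pos_pos hφ (pos_sub h.sq hb (wv F φ θ))
  rw [q_sub_right, q_smul_right] at h2
  have h3 := (CurLin1_785.lin1' J F m M h φ hφ hn θ 0).1
  unfold defi at h3
  have h4 := h.q_wedJ_nonneg hφ θ
  have h5 : ((b (wv F φ θ)).comp J) (wv F φ θ) = b (wv F φ θ) (J (wv F φ θ)) := rfl
  rw [h5] at hcs
  set A := b (wv F φ θ) (J (wv F φ θ)) with hAdef
  set T := q F φ (wed θ (Jc J θ)) with hT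
  set T' := 2 * q F F (wed θ (Jc J θ)) with hT'
  set X := q F φ (wed ((b (wv F φ θ)).comp J) (Jc J ((b (wv F φ θ)).comp J))) with hX
  have hTT : T ≤ T' := by linarith
  have h6 : A ^ 2 ≤ (A * q F φ b) * T' := by
    calc A ^ 2 ≤ X * T := hcs
      _ ≤ (A * q F φ b) * T := mul_le_mul_of_nonneg_right (by linarith) h4
      _ ≤ (A * q F φ b) * T' := mul_le_mul_of_nonneg_left hTT (by positivity)
  rcases hA.eq_or_lt with h7 | h7
  · rw [← h7]
    exact mul_nonneg (h4.trans hTT) h0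
  · have h8 : A * A ≤ A * (T' * q F φ b) := by nlinarith
    exact le_of_mul_le_mul_left h8 h7

end Crest.Agent.R235.CurLin2_132
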