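import Crest.Agent.R235.CurLin1_785
import Crest.Agent.R235.CurLin4_253

/-!
Row 235, package CUR, leaf LIN2 (helper470).
In the standard frame, with `H_φ, H_b` the hermitian matrices: `w = -(1/2) J adj(H_φ) ξ` and
`4 b(w, J w) = W(φ,b) (tr |ξ|² - φ(ξ,Jξ)) - (W(φ,φ)/2) b(v, J v)`, `v = (-ξ₂, ξ₃, ξ₀, -ξ₁)`
(`A B A + det A adj B = tr(AB) A` for `2 × 2` matrices).
-/

set_option autoImplicit false
set_option maxSynthPendingDepth 3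

namespace Crest.Agent.R235.CurLin2_470

open Crest.Agent.R240 Crest.Agent.R240.En Crest.Agent.R240.Pot Crest.Agent.R235.CurDefs_132
open Crest.Agent.R235.CurLin1_785

noncomputable section

theorem key {P : Bil} (ha : Alt P) (hi : ∀ u v, P (J0 u) (J0 v) = P u v) (v : E4) :
    P v (J0 v) = ent P 0 1 * (v 0 ^ 2 + v 1 ^ 2) + ent P 2 3 * (v 2 ^ 2 + v 3 ^ 2)
      + 2 * ent P 0 2 * (- v 0 * v 3 + v 1 * v 2) + 2 * ent P 0 3 * (v 0 * v 2 + v 1 * v 3) := by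
  obtain ⟨h13, h12⟩ := inv0_ent hi
  rw [alt_expand ha, h13, h12]
  simp only [J0_0, J0_1, J0_2, J0_3]
  ring

theorem W_inv {φ b : Bil} (hφ : ∀ u v, φ (J0 u) (J0 v) = φ u v)
    (hb : ∀ u v, b (J0 u) (J0 v) = b u v) :
    W φ b = ent φ 0 1 * ent b 2 3 + ent φ 2 3 * ent b 0 1 - 2 * ent φ 0 2 * ent b 0 2
      - 2 * ent φ 0 3 * ent b 0 3 := by
  obtain ⟨h13, h12⟩ := inv0_ent hφ
  obtain ⟨k13, k12⟩ := inv0_ent hb
  unfold W
  rw [h13, h12, k13, k12]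
  ring

theorem W_wed {φ : Bil} (hφ : ∀ u v, φ (J0 u) (J0 v) = φ u v) (θ : Cov) (w ξ : E4)
    (hw : ∀ α : Cov, α w = W φ (wed α θ) / 2) (hξ : ∀ i, θ (ee i) = ξ i) :
    w 0 = (ent φ 2 3 * ξ 1 - ent φ 0 2 * ξ 2 - ent φ 0 3 * ξ 3) / 2 ∧
    w 1 = (- ent φ 2 3 * ξ 0 + ent φ 0 3 * ξ 2 - ent φ 0 2 * ξ 3) / 2 ∧
    w 2 = (ent φ 0 2 * ξ 0 - ent φ 0 3 * ξ 1 + ent φ 0 1 * ξ 3) / 2 ∧
    w 3 = (ent φ 0 3 * ξ 0 + ent φ 0 2 * ξ 1 - ent φ 0 1 * ξ 2) / 2 := by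
  obtain ⟨h13, h12⟩ := inv0_ent hφ
  have e : ∀ i, w i = W φ (wed (pr i) θ) / 2 := fun i => by rw [← hw]; rfl
  have ew : ∀ i j k, ent (wed (pr i) θ) j k = (ee j) i * ξ k - ξ j * (ee k) i := by
    intro i j k
    unfold ent
    rw [wed_apply, hξ, hξ]
    rfl
  refine ⟨?_, ?_, ?_, ?_⟩
  all_goals
    rw [e]
    unfold W
    rw [h13, h12]
    simp only [ew, ee_apply]
    simp
    ring

/-- the identity. -/
theorem ident {φ b : Bil} (hφ : ∀ u v, φ (J0 u) (J0 v) = φ u v) (ha : Alt φ) (hba : Alt b)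
    (hb : ∀ u v, b (J0 u) (J0 v) = b u v) (θ : Cov) (w ξ v : E4)
    (hw : ∀ α : Cov, α w = W φ (wed α θ) / 2) (hξ : ∀ i, θ (ee i) = ξ i)
    (hv0 : v 0 = - ξ 2) (hv1 : v 1 = ξ 3) (hv2 : v 2 = ξ 0) (hv3 : v 3 = - ξ 1) :
    4 * b w (J0 w) = W φ b * ((ent φ 0 1 + ent φ 2 3) * (ξ 0 ^ 2 + ξ 1 ^ 2 + ξ 2 ^ 2 + ξ 3 ^ 2)
      - φ ξ (J0 ξ)) - (W φ φ / 2) * b v (J0 v) := by
  obtain ⟨e0, e1, e2, e3⟩ := W_wed hφ θ w ξ hw hξ
  rw [key hba hb w, key hba hb v, key ha hφ ξ, W_inv hφ hb, W_inv hφ hφ, e0, e1, e2, e3, hv0, hv1,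
    hv2, hv3]
  ring

theorem W_om0 {φ : Bil} : W φ om0 = ent φ 0 1 + ent φ 2 3 := by
  have eom : ∀ i j, ent om0 i j = om0 (ee i) (ee j) := fun i j => rfl
  unfold W
  simp only [eom, om0_apply, ee_apply]
  simp

theorem W_om0_wed (θ : Cov) (ξ : E4) (hξ : ∀ i, θ (ee i) = ξ i) :
    W om0 (wed θ (Jc J0 θ)) = ξ 0 ^ 2 + ξ 1 ^ 2 + ξ 2 ^ 2 + ξ 3 ^ 2 := by
  have eom : ∀ i j, ent om0 i j = om0 (ee i) (ee j) := fun i j => rfl
  have hJ : ∀ k : Fin 4, Jc J0 θ (ee k) = - θ (J0 (ee k)) := fun k => Jc_apply _ _ _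
  have e0 : J0 (ee 0) = ee 1 := by
    ext j; fin_cases j <;> simp [ee_apply]
  have e1 : J0 (ee 1) = - ee 0 := by
    ext j; fin_cases j <;> simp [ee_apply]
  have e2 : J0 (ee 2) = ee 3 := by
    ext j; fin_cases j <;> simp [ee_apply]
  have e3 : J0 (ee 3) = - ee 2 := by
    ext j; fin_cases j <;> simp [ee_apply]
  have ew : ∀ j k, ent (wed θ (Jc J0 θ)) j k = ξ j * (- θ (J0 (ee k))) - (- θ (J0 (ee j))) * ξ k := by
    intro j k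
    unfold ent
    rw [wed_apply, hJ, hJ, hξ, hξ]
  unfold W
  simp only [ew, eom, om0_apply, ee_apply, e0, e1, e2, e3, map_neg, hξ]
  simp
  ring

theorem lin2 : LIN2 := by
  intro J F m M h φ b hφ hn hb θ
  obtain ⟨A, hA⟩ := exists_frame h.sq h.spos
  have hF := h.spos.alt
  have hqb : 0 ≤ q F φ b := h.q_pos_pos hφ hb
  have hqφ : 0 ≤ q F φ φ := h.q_pos_pos hφ hφ
  set φ' := pull (A : E4 →L[ℝ] E4) φ with hφ'
  set b' := pull (A : E4 →L[ℝ] E4) b with hb'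
  set θ' : Cov := θ.comp (A : E4 →L[ℝ] E4) with hθ'
  have hia : ∀ u v, φ' (J0 u) (J0 v) = φ' u v := hA.pull_inv hφ.inv
  have hib : ∀ u v, b' (J0 u) (J0 v) = b' u v := hA.pull_inv hb.inv
  have haa : Alt φ' := hφ.alt.pull _
  have hab : Alt b' := hb.alt.pull _
  set w := wv F φ θ with hwdef
  set w' := A.symm w with hw'
  have hwed : ∀ α β : Cov, pull (A : E4 →L[ℝ] E4) (wed α β) =
      wed (α.comp (A : E4 →L[ℝ] E4)) (β.comp (A : E4 →L[ℝ] E4)) := by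
    intro α β
    ext u v
    rw [pull_apply, wed_apply, wed_apply]
    rfl
  have hw : ∀ α : Cov, α w' = W φ' (wed α θ') / 2 := by
    intro α
    have h1 := CurLin4_253.q_wed F φ (α.comp (A.symm : E4 →L[ℝ] E4)) θ
    rw [hA.q_eq hF hφ.alt (wed_alt _ _), hwed] at h1
    have h2 : (α.comp (A.symm : E4 →L[ℝ] E4)).comp (A : E4 →L[ℝ] E4) = α := by
      ext u; simp
    rw [h2] at h1
    exact h1.symm
  set ξ : E4 := θ' (ee 0) • ee 0 + θ' (ee 1) • ee 1 + θ' (ee 2) • ee 2 + θ' (ee 3) • ee 3 with hξd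
  have hξ : ∀ i, θ' (ee i) = ξ i := by
    intro i
    fin_cases i <;> simp [hξd, ee_apply]
  set v : E4 := (- ξ 2) • ee 0 + ξ 3 • ee 1 + ξ 0 • ee 2 + (- ξ 1) • ee 3 with hvd
  have hv0 : v 0 = - ξ 2 := by simp [hvd, ee_apply]
  have hv1 : v 1 = ξ 3 := by simp [hvd, ee_apply]
  have hv2 : v 2 = ξ 0 := by simp [hvd, ee_apply]
  have hv3 : v 3 = - ξ 1 := by simp [hvd, ee_apply]
  have hid := ident hia haa hab hib θ' w' ξ v hw hξ hv0 hv1 hv2 hv3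
  have htr : ent φ' 0 1 + ent φ' 2 3 = 2 := by
    have h1 := hn
    rw [hA.q_eq hF hφ.alt hF, hA.pull_form, ← hφ', W_om0] at h1
    linarith
  have hpos : ∀ {P : Bil} (hP : Pos J P) (u : E4),
      0 ≤ pull (A : E4 →L[ℝ] E4) P u (J0 u) := by
    intro P hP u
    rw [pull_apply]
    simp only [ContinuousLinearEquiv.coe_coe]
    rw [← hA.cplx]
    exact hP.nonneg _
  have hlhs : b w (J w) = b' w' (J0 w') := by
    rw [hb', pull_apply]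
    simp only [ContinuousLinearEquiv.coe_coe]
    rw [← hA.cplx, hw', ContinuousLinearEquiv.apply_symm_apply]
  have hqb' : q F φ b = W φ' b' / 2 := hA.q_eq hF hφ.alt hb.alt
  have hqφ' : q F φ φ = W φ' φ' / 2 := hA.q_eq hF hφ.alt hφ.alt
  have hJc : (Jc J θ).comp (A : E4 →L[ℝ] E4) = Jc J0 θ' := by
    ext u
    rw [Jc_apply]
    show Jc J θ (A u) = _
    rw [Jc_apply, hA.cplx]
    rfl
  have hqθ : q F F (wed θ (Jc J θ)) = (ξ 0 ^ 2 + ξ 1 ^ 2 + ξ 2 ^ 2 + ξ 3 ^ 2) / 2 := by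
    rw [hA.q_eq hF hF (wed_alt _ _), hA.pull_form, hwed, hJc, ← hθ', W_om0_wed θ' ξ hξ]
  rw [hlhs, hqb', hqθ]
  rw [hqb'] at hqb
  rw [hqφ'] at hqφ
  rw [htr] at hid
  have n1 := hpos hφ ξ
  have n2 := hpos hb v
  have n3 := mul_nonneg hqφ n2
  have n4 := mul_nonneg hqb n1
  nlinarith [n3, n4, hid]

end

end Crest.Agent.R235.CurLin2_470
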