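import Mathlib
import Crest.Agent.R235.CurLin1_785
import Crest.Agent.R235.CurLin4_253

/-!
Row 235 (S0364), PACKAGE CUR, LIN2 (helper679): `b(w, J w) ≤ 2 q(F, θ ∧ Jθ) q(φ, b)`,
`w = wv F φ θ`.  Proof: `b(w,Jw) = α(w) = q(φ, α ∧ θ)` for `α = b(w, J ·)`, Cauchy-Schwarz for
`φ`, and `α ∧ Jα ≤ b(w,Jw) b` (Hermitian Cauchy-Schwarz for `b`).
-/

set_option autoImplicit false
set_option maxSynthPendingDepth 3

namespace Crest.Agent.R235.CurLin2_679

open Crest.Agent.R240 Crest.Agent.R240.En Crest.Agent.R235.CurDefs_132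

noncomputable section

/-- Hermitian Cauchy-Schwarz. -/
theorem herm {J : E4 →L[ℝ] E4} (hJ : ∀ v, J (J v) = -v) {b : Bil} (hb : Pos J b) (w v : E4) :
    (b w (J v)) ^ 2 + (b w v) ^ 2 ≤ b w (J w) * b v (J v) := by
  set x := b w (J v) with hx
  set y := b w v with hy
  have h1 := Crest.Agent.R240.Pos.cs hJ hb w (x • J v + y • v)
  have e1 : b w (x • J v + y • v) = x ^ 2 + y ^ 2 := by
    simp only [map_add, map_smul, smul_eq_mul, ← hx, ← hy]
    ring
  have e2 : b (x • J v + y • v) (J (x • J v + y • v)) = (x ^ 2 + y ^ 2) * b v (J v) := by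
    have a1 : b (J v) v = - b v (J v) := hb.alt.swap _ _
    have a2 : b (J v) (J v) = 0 := hb.alt _
    have a3 : b v v = 0 := hb.alt _
    simp only [map_add, map_smul, hJ, smul_neg, map_neg, add_apply, smul_apply,
      smul_eq_mul, a1, a2, a3]
    ring
  rw [e1, e2] at h1
  have h2 := hb.nonneg w
  have h3 := hb.nonneg v
  rcases (add_nonneg (sq_nonneg x) (sq_nonneg y)).eq_or_lt with h4 | h4
  · rw [← h4]; exact mul_nonneg h2 h3
  · have h5 : (x ^ 2 + y ^ 2) * (x ^ 2 + y ^ 2) ≤ (x ^ 2 + y ^ 2) * (b w (J w) * b v (J v)) := by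
      nlinarith
    exact le_of_mul_le_mul_left h5 h4

theorem lin2 : LIN2 := by
  intro J F m M h φ b hφ hn hb θ
  set w := wv F φ θ with hw
  set α : Cov := (b w).comp J with hα
  have hαv : ∀ v, α v = b w (J v) := fun v => rfl
  have h1 : q F φ (wed α θ) = b w (J w) := CurLin4_253.q_wed F φ α θ
  have h2 := h.cs_wed hφ α θ
  have hwn := hb.nonneg w
  have h3 : q F φ (wed α (Jc J α)) ≤ b w (J w) * q F φ b := by
    have hR : Pos J (b w (J w) • b - wed α (Jc J α)) := by
      have hp := wed_Jc_pos h.sq α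
      refine ⟨(hb.alt.smul _).sub hp.alt, fun u v => ?_, fun v => ?_⟩
      · have e := hp.inv u v
        have e' := hb.inv u v
        rw [sub_apply, sub_apply, sub_apply, sub_apply, e, smul_apply, smul_apply, smul_apply,
          smul_apply, e']
      · have e := herm h.sq hb w v
        have e2 : wed α (Jc J α) v (J v) = (b w (J v)) ^ 2 + (b w v) ^ 2 := by
          simp only [wed_apply, Jc_apply, hαv, h.sq, map_neg]
          ring
        rw [sub_apply, sub_apply, e2, smul_apply, smul_apply, smul_eq_mul]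
        linarith
    have h5 := h.q_pos_pos hφ hR
    rw [q_sub_right, q_smul_right] at h5
    linarith
  have h4 : q F φ (wed θ (Jc J θ)) ≤ 2 * q F F (wed θ (Jc J θ)) := by
    have h6 := (CurLin1_785.lin1' J F m M h φ hφ hn θ 0).1
    unfold defi at h6
    linarith
  have h7 : 0 ≤ q F φ (wed θ (Jc J θ)) := h.q_wedJ_nonneg hφ θ
  have h8 : 0 ≤ q F φ b := h.q_pos_pos hφ hb
  rw [h1] at h2
  rcases hwn.eq_or_lt with h9 | h9
  · rw [← h9]
    exact mul_nonneg (h7.trans h4) h8
  · have h10 : b w (J w) * b w (J w) ≤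
        b w (J w) * (2 * q F F (wed θ (Jc J θ)) * q F φ b) := by
      calc b w (J w) * b w (J w) = b w (J w) ^ 2 := by ring
        _ ≤ q F φ (wed α (Jc J α)) * q F φ (wed θ (Jc J θ)) := h2
        _ ≤ (b w (J w) * q F φ b) * (2 * q F F (wed θ (Jc J θ))) := by
            gcongr
        _ = _ := by ring
    exact le_of_mul_le_mul_left h10 h9

end

end Crest.Agent.R235.CurLin2_679
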