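import Crest.Agent.R235.CurDefs_132
import Crest.Agent.R240.Lin5

/-!
Row 235 (S0364), CUR LIN2 (helper82).  With `w = wv F φ θ`, `β = b(w,Jw)`, `a = b(·,Jw)`:
`β b - a ∧ Jc a ≥ 0`, `β² = a(w)² = q(φ,a∧θ)² ≤ q(φ,a∧Jc a) q(φ,θ∧Jc θ) ≤ β q(φ,b) q(φ,θ∧Jc θ)`.
-/

set_option autoImplicit false
set_option maxSynthPendingDepth 3

open Set Function Filter MeasureTheory Metric
open scoped ContDiff ENNReal Manifold Topology

namespace Crest.Agent.R235.CurLin2_82

open Crest.Agent.R240 Crest.Agent.R240.En Crest.Agent.R240.Pot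
open Crest.Agent.R235.CurDefs_132

noncomputable section

/-- complex Cauchy-Schwarz for a nonnegative `(1,1)`-form. -/
theorem cs_complex {J : E4 →L[ℝ] E4} (hJ : ∀ v, J (J v) = -v) {b : Bil} (hb : Pos J b)
    (u w : E4) : b u w ^ 2 + b u (J w) ^ 2 ≤ b u (J u) * b w (J w) := by
  set x := b u w with hx
  set y := b u (J w) with hy
  have h1 := hb.cs hJ u (x • w + y • J w)
  have e1 : b u (x • w + y • J w) = x ^ 2 + y ^ 2 := by
    rw [map_add, map_smul, map_smul, smul_eq_mul, smul_eq_mul, ← hx, ← hy]; ring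
  have e2 : b (x • w + y • J w) (J (x • w + y • J w)) = (x ^ 2 + y ^ 2) * b w (J w) := by
    have a1 : b w w = 0 := hb.alt w
    have a2 : b (J w) (J w) = 0 := hb.alt _
    have a3 : b (J w) w = - b w (J w) := hb.alt.swap _ _
    simp only [map_add, map_smul, hJ, add_apply, smul_apply, smul_eq_mul, map_neg, smul_neg, a1,
      a2, a3]
    ring
  rw [e1, e2] at h1
  have n1 := hb.nonneg u
  have n2 := hb.nonneg w
  rcases (by positivity : (0 : ℝ) ≤ x ^ 2 + y ^ 2).eq_or_lt with h0 | h0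
  · rw [← h0]; positivity
  · nlinarith

/-- the Schur complement `β b - a ∧ Jc a`, `a = b(·, J w)`. -/
theorem schur {J : E4 →L[ℝ] E4} (hJ : ∀ v, J (J v) = -v) {b : Bil} (hb : Pos J b) (w : E4) :
    Pos J (b w (J w) • b - wed (b.flip (J w)) (Jc J (b.flip (J w)))) := by
  have hp := wed_Jc_pos hJ (b.flip (J w))
  have e : ∀ u v, (b w (J w) • b - wed (b.flip (J w)) (Jc J (b.flip (J w)))) u v =
      b w (J w) * b u v - wed (b.flip (J w)) (Jc J (b.flip (J w))) u v := fun u v => rfl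
  refine ⟨(hb.alt.smul _).sub hp.alt, fun u v => ?_, fun v => ?_⟩
  · rw [e, e, hb.inv, hp.inv]
  · rw [e, wed_apply, Jc_apply, Jc_apply, hJ, map_neg]
    simp only [ContinuousLinearMap.flip_apply]
    have h1 := cs_complex hJ hb v w
    have h2 : b (J v) (J w) = b v w := hb.inv _ _
    rw [h2]
    linarith

/-- **LIN2**. -/
theorem lin2 (h1 : LIN1') (h4 : LIN4) : LIN2 := by
  intro J F m M h φ b hφ hn hb θ
  obtain ⟨C, -, hC⟩ := h4 m M ‖J‖
  obtain ⟨-, -, -, -, hw⟩ := hC J F h le_rfl φ hφ hn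
  set w := wv F φ θ with hwd
  set β := b w (J w) with hβ
  have hβ0 : 0 ≤ β := hb.nonneg w
  have hd := (h1 J F m M h φ hφ hn θ 0).1
  unfold defi at hd
  have hφθ := h.q_wedJ_nonneg hφ θ
  have hqb := h.q_pos_pos hφ hb
  rcases hβ0.eq_or_lt with h0 | h0
  · rw [← h0]
    exact mul_nonneg (by linarith) hqb
  set a : Cov := b.flip (J w) with ha
  have haw : a w = β := rfl
  have e1 : q F φ (wed a θ) = β := by rw [hw, haw]
  have e2 := h.cs_wed hφ a θ
  rw [e1] at e2
  have e3 := h.q_pos_pos hφ (schur h.sq hb w)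
  rw [q_sub_right, q_smul_right] at e3
  have e4 : q F φ (wed a (Jc J a)) ≤ β * q F φ b := by linarith
  have e5 : β ^ 2 ≤ β * q F φ b * q F φ (wed θ (Jc J θ)) :=
    e2.trans (mul_le_mul_of_nonneg_right e4 hφθ)
  have e6 : β ≤ q F φ b * q F φ (wed θ (Jc J θ)) := by
    have : β * β ≤ β * (q F φ b * q F φ (wed θ (Jc J θ))) := by nlinarith
    exact le_of_mul_le_mul_left this h0
  calc β ≤ q F φ b * q F φ (wed θ (Jc J θ)) := e6
    _ ≤ q F φ b * (2 * q F F (wed θ (Jc J θ))) := by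
        apply mul_le_mul_of_nonneg_left _ hqb
        linarith
    _ = _ := by ring

end

end Crest.Agent.R235.CurLin2_82
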