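import Crest.Agent.R235.Props_844
import Crest.Agent.R235.Ip2_288
import Crest.Agent.R240.IfaceR
import Crest.Agent.R240.N1

/-!
Row 235, package STF (leader helper861): exact statements of the leaves.

`STF` (Props_844) = the class `c` of positive square, orthogonal to the pair of a normalised
hyperkaehler triple with NC pair, contains a hyperkaehler form.

PLAN (everything on the data `D : Dat M` of R240 with `D.al = w 0` closed and `J`-invariant):
* `KC`   Kaehler current in the class (Hahn-Banach + signature)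
* `ZD`   zero density (CUR + REG + ADJ, NC pair)
* `N5E`  R240's N5 for functionals which only kill the exact forms
* `APX`  approximately compatible forms in the class (dichotomy + contradiction)
* `N3E`  R240's N3 inside the exact forms
* `HDG`  (1,1)-representatives (Hodge theory, R281 `Hdg5_850.h1` through the bridge 819)
* `DOM`  a compatible form in the class
* `LINK` Yau's theorem through the bridge (R281 `moveK`, bridge 819)
* `PD`   every functional on `H²` is `ip s`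
* `NRM`  `w 0` is `J`-invariant
-/

set_option autoImplicit false
set_option maxSynthPendingDepth 3

open Set Function Filter MeasureTheory Metric
open scoped Manifold ContDiff Topology ENNReal

universe u

namespace Crest.Agent.R235.STF_861

open Crest.Agent.R240 Crest.Agent.R240.Ch

noncomputable section

section dat

variable {M : Type u} [MetricSpace M] [CompactSpace M] [ChartedSpace E4 M]
    [IsManifold 𝓘(ℝ, E4) ∞ M] [MeasurableSpace M] [BorelSpace M]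

/-- every positive closed (1,1)-current has zero density almost everywhere. -/
def ZDat (D : Dat M) : Prop :=
  ∀ (Ψ : X2 M →ₗ[ℝ] ℝ) (s : Measure M), D.IsInv Ψ → D.IsNonneg Ψ → Dat.KillsExact Ψ →
    D.IsRM Ψ s → Dat.ZeroDens s

/-- Poincaré duality. -/
def PDat (D : Dat M) : Prop :=
  ∀ L : X2 M →ₗ[ℝ] ℝ, Dat.KillsExact L →
    ∃ a ∈ Z2 M, ∀ b ∈ Z2 M, L b = D.I ((a : X2 M) : F2 E4 M) ((b : X2 M) : F2 E4 M)

/-- the class data: `v 0, v 1` = the pair (closed, anti-invariant, orthonormal), `a` = the class. -/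
structure Cls (D : Dat M) (v : Fin 2 → X2 M) (a : X2 M) : Prop where
  clF : D.FX ∈ Z2 M
  clv : ∀ i, v i ∈ Z2 M
  anti : ∀ i, D.pi' (v i) = 0
  orth : ∀ i j, D.I (v i : F2 E4 M) (v j : F2 E4 M) = if i = j then D.I D.F D.F else 0
  posF : 0 < D.I D.F D.F
  sig : ∀ b ∈ Z2 M, D.I ((b : X2 M) : F2 E4 M) D.F = 0 →
    (∀ i, D.I ((b : X2 M) : F2 E4 M) (v i : F2 E4 M) = 0) →
    D.I ((b : X2 M) : F2 E4 M) ((b : X2 M) : F2 E4 M) ≤ 0
  cla : a ∈ Z2 M
  pos : 0 < D.I (a : F2 E4 M) (a : F2 E4 M)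
  posaF : 0 < D.I (a : F2 E4 M) D.F
  perp : ∀ i, D.I (a : F2 E4 M) (v i : F2 E4 M) = 0

/-- `Φ` is a Kaehler current in the class of `a`. -/
structure KCur (D : Dat M) (a : X2 M) (δ : ℝ) (Φ : X2 M →ₗ[ℝ] ℝ) : Prop where
  dpos : 0 < δ
  inv : D.IsInv Φ
  ge : ∀ P ∈ D.Pp, δ * D.I (P : F2 E4 M) D.F ≤ Φ P
  cls : ∀ b ∈ Z2 M, Φ b = D.I (a : F2 E4 M) (b : F2 E4 M)

end dat

/-- LEAF KC: a Kaehler current in the class. -/
def KC : Prop :=
  ∀ (M : Type u) [MetricSpace M] [CompactSpace M] [ChartedSpace E4 M]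
    [IsManifold 𝓘(ℝ, E4) ∞ M] [MeasurableSpace M] [BorelSpace M] (D : Dat M)
    (v : Fin 2 → X2 M) (a : X2 M), Cls D v a → ∃ (δ : ℝ) (Φ : X2 M →ₗ[ℝ] ℝ), KCur D a δ Φ

/-- LEAF N5E: R240's `N5` (file N5.lean, En4H.lean) with "`L` kills the closed forms" replaced by
"`L` is `b ↦ ∫ a ∧ b` on the closed forms". -/
def N5E : Prop :=
  ∀ (M : Type u) [MetricSpace M] [CompactSpace M] [ChartedSpace E4 M]
    [IsManifold 𝓘(ℝ, E4) ∞ M] [MeasurableSpace M] [BorelSpace M] (D : Dat M)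
    (L : X2 M →ₗ[ℝ] ℝ) (s : Measure M) (a : X2 M), a ∈ Z2 M →
    (∀ b ∈ Z2 M, L b = D.I (a : F2 E4 M) ((b : X2 M) : F2 E4 M)) → D.IsNonneg L →
    0 < L D.FX → D.FinOrd L → D.IsRM L s →
    Dat.Growth2 s ∧ ∃ C : ℝ, ∀ b : X2 M,
      |L (D.pi'' b)| ≤ C * D.n2 ((D.pi'' b : X2 M) : F2 E4 M)

/-- LEAF N3E: R240's `N3` (EllM4 `lemmaA_man`, EllFin `n3_of_local`) inside the exact forms. -/
def N3E : Prop :=
  ∀ (M : Type u) [MetricSpace M] [CompactSpace M] [ChartedSpace E4 M]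
    [IsManifold 𝓘(ℝ, E4) ∞ M] [MeasurableSpace M] [BorelSpace M] (D : Dat M),
    ∃ (𝒰 : Cover M) (m : ℕ) (C : ℝ), ∀ b : X2 M, IsEx (b : F2 E4 M) →
      ∃ c : X2 M, IsEx (c : F2 E4 M) ∧ D.pi'' c = D.pi'' b ∧
        ∀ x, D.nr (c : F2 E4 M) x ≤ C * 𝒰.cm m ((D.pi'' b : X2 M) : F2 E4 M)

/-- LEAF APX: closed forms in the class of `t a` with `b' ≥ F`, `b''` small. -/
def APX : Prop :=
  ∀ (M : Type u) [MetricSpace M] [CompactSpace M] [ChartedSpace E4 M]
    [IsManifold 𝓘(ℝ, E4) ∞ M] [MeasurableSpace M] [BorelSpace M] (D : Dat M)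
    (a : X2 M) (δ : ℝ) (Φ : X2 M →ₗ[ℝ] ℝ), D.FX ∈ Z2 M → a ∈ Z2 M → KCur D a δ Φ →
    PDat D → ZDat D → ∀ (𝒰 : Cover M) (m : ℕ) (ρ : ℝ), 0 < ρ →
    ∃ b ∈ Z2 M, ∃ t : ℝ, IsEx ((b - t • a : X2 M) : F2 E4 M) ∧ D.pi' b - D.FX ∈ D.Pp ∧
      𝒰.cm m ((D.pi'' b : X2 M) : F2 E4 M) < ρ

/-- DOM: a compatible form in the class. -/
def DOM : Prop :=
  ∀ (M : Type u) [MetricSpace M] [CompactSpace M] [ChartedSpace E4 M]
    [IsManifold 𝓘(ℝ, E4) ∞ M] [MeasurableSpace M] [BorelSpace M] (D : Dat M)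
    (v : Fin 2 → X2 M) (a a0 : X2 M), Cls D v a → PDat D → ZDat D →
    a0 ∈ Z2 M → IsEx ((a - a0 : X2 M) : F2 E4 M) → D.pi'' a0 = 0 →
    ∃ b ∈ Z2 M, IsEx ((b - a : X2 M) : F2 E4 M) ∧ D.pi'' b = 0 ∧
      ∀ x v, v ≠ 0 → 0 < at2 ((b : X2 M) : F2 E4 M) x v (atJ D.J x v)

/-- the triple is hyperkaehler and normalised. -/
def Nrm {M : Type u} [TopologicalSpace M] [ChartedSpace E4 M] [IsManifold 𝓘(ℝ, E4) ∞ M]
    (w : Trip M) : Prop :=
  ∀ x : M, ∃ s : ℝ, ∀ i j, W (val (w i) x) (val (w j) x) = if i = j then s else 0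

/-- INPUT ZD (CUR + REG + ADJ): if the pair is NC, positive closed currents have zero density. -/
def ZD : Prop :=
  ∀ (M : Type u) [MetricSpace M] [CompactSpace M] [ConnectedSpace M] [ChartedSpace E4 M]
    [IsManifold 𝓘(ℝ, E4) ∞ M] [MeasurableSpace M] [BorelSpace M] (D : Dat M) (w : Trip M),
    Pos3 w → IsJ w D.J → D.al = ((w 0).1.1 : F2 E4 M) → NC (w 0) (clw w) 0 → ZDat D

/-- INPUT PD: functionals which kill the exact forms are `∫ s ∧ b` on the closed forms. -/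
def PD : Prop :=
  ∀ (M : Type u) [TopologicalSpace M] [T2Space M] [CompactSpace M] [ConnectedSpace M]
    [ChartedSpace E4 M] [IsManifold 𝓘(ℝ, E4) ∞ M] (w : Trip M), Pos3 w →
    ∀ L : X2 M →ₗ[ℝ] ℝ, (∀ b : X2 M, IsEx (b.1 : F2 E4 M) → L b = 0) →
    ∃ s : Z2 M, ∀ b : Z2 M, L b.1 = pI (w 0) s b

/-- LEAF NRM: in a normalised triple `w 0` is `J`-invariant. -/
def NRM : Prop :=
  ∀ (M : Type u) [TopologicalSpace M] [ChartedSpace E4 M] [IsManifold 𝓘(ℝ, E4) ∞ M]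
    (w : Trip M) (J : EndF E4 M), Pos3 w → Nrm w → IsJ w J →
    ∀ x u v, val (w 0) x (atJ J x u) (atJ J x v) = val (w 0) x u v

/-- LEAF HDG (bridge): a class orthogonal to the pair has a (1,1)-representative. -/
def HDG : Prop :=
  ∀ (M : Type) [TopologicalSpace M] [T2Space M] [CompactSpace M] [ConnectedSpace M]
    [ChartedSpace E4 M] [IsManifold 𝓘(ℝ, E4) ∞ M] (w : Trip M) (J : EndF E4 M), Pos3 w → Nrm w →
    IsJ w J → ∀ a : Z2 M, pI (w 0) a (w 1) = 0 → pI (w 0) a (w 2) = 0 →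
    ∃ b : Z2 M, cls b = cls a ∧ ∀ x u v, val b x (atJ J x u) (atJ J x v) = val b x u v

/-- LINK (bridge 819): Yau's theorem. -/
def LINK : Prop :=
  ∀ (M : Type) [TopologicalSpace M] [T2Space M] [CompactSpace M] [ConnectedSpace M]
    [ChartedSpace E4 M] [IsManifold 𝓘(ℝ, E4) ∞ M] (w : Trip M) (J : EndF E4 M), Pos3 w → Nrm w →
    IsJ w J → ∀ a : Z2 M, (∀ x u v, val a x (atJ J x u) (atJ J x v) = val a x u v) →
    (∀ x v, v ≠ 0 → 0 < val a x v (atJ J x v)) →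
    ∃ b : Z2 M, cls b = cls a ∧ Seg w (update w 0 b) ∧ HK (update w 0 b)

end

end Crest.Agent.R235.STF_861
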