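import Crest.Agent.R235.Props_844

/-!
Row 235 (S0364), captain helper837: REAL TORUS TYPE `T4R` (replaces `T4Type` everywhere:
only `∫ s₀ s₁ s₂ s₃ ≠ 0` is needed, not `= ± 1`), with the Props `DICHR`, `TORR`, `LATTR`.
The text of `T4R` is the one of helper723 (DichProps_723).
-/

set_option autoImplicit false
set_option maxSynthPendingDepth 3

open Set Function Filter MeasureTheory
open scoped Manifold ContDiff Topology

universe u

namespace Crest.Agent.R235

open Crest.Agent.R240 Crest.Agent.R240.Ch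

noncomputable section

section

variable {M : Type u} [TopologicalSpace M] [T2Space M] [CompactSpace M]
  [ChartedSpace E4 M] [IsManifold 𝓘(ℝ, E4) ∞ M]

/-- real torus type: like `T4Type`, but the integral classes only form `3U` and the four one-forms
are real with product `≠ 0`. -/
def T4R (F : Z2 M) : Prop :=
  (∃ s : Fin 4 → F1 E4 M, (∀ i, Closed1 (s i)) ∧
    (∀ r : F1 E4 M, Closed1 r → ∃ (c : Fin 4 → ℝ) (f : M → ℝ), SmoothF E4 f ∧
      r = (∑ i, c i • s i) + dF f) ∧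
    ∃ a : Fin 4 → Fin 4 → Z2 M, (∀ i j, (a i j).1.1 = wedG (s i) (s j)) ∧
      (∀ i j k l, pI F (a i j) (a k l) =
        Matrix.det (fun m : Fin 4 => (Pi.single (![i, j, k, l] m) 1 : Fin 4 → ℝ)) *
          pI F (a 0 1) (a 2 3)) ∧
      pI F (a 0 1) (a 2 3) ≠ 0 ∧
      (∀ c : H2 M, ∃ n : Fin 4 → Fin 4 → ℝ, c = ∑ i, ∑ j, n i j • cls (a i j))) ∧
  ∃ f g : Fin 3 → H2 M, (∀ i j, ip F (f i) (f j) = 0) ∧ (∀ i j, ip F (g i) (g j) = 0) ∧
    (∀ i j, ip F (f i) (g j) = if i = j then 1 else 0) ∧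
    HZ M = {c | ∃ m n : Fin 3 → ℤ, c = ∑ i, (m i : ℝ) • f i + ∑ i, (n i : ℝ) • g i}

end

/-- DICHR: K3 type or real torus type. -/
def DICHR : Prop :=
  ∀ (M : Type u) [TopologicalSpace M] [T2Space M] [CompactSpace M] [ConnectedSpace M]
    [ChartedSpace E4 M] [IsManifold 𝓘(ℝ, E4) ∞ M] (w : Trip M), Pos3 w →
    K3Type (w 0) ∨ T4R (w 0)

/-- TORR: `TOR` for the real torus type. -/
def TORR : Prop :=
  ∀ (M : Type u) [TopologicalSpace M] [T2Space M] [CompactSpace M] [ConnectedSpace M]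
    [ChartedSpace E4 M] [IsManifold 𝓘(ℝ, E4) ∞ M] (w : Trip M) (e : H2 M), Pos3 w →
    T4R (w 0) → TorPos (w 0) e (clw w) → ∃ w' : Trip M, PL w w' ∧ HK w'

/-- LATTR: `LATT` for the real torus type. -/
def LATTR : Prop :=
  ∀ (M : Type u) [TopologicalSpace M] [T2Space M] [CompactSpace M] [ConnectedSpace M]
    [ChartedSpace E4 M] [IsManifold 𝓘(ℝ, E4) ∞ M] (w : Trip M), Pos3 w → T4R (w 0) →
    ∃ (e : H2 M) (b : Fin 3 → H2 M), Frame w b ∧ TorPos (w 0) e b

end

end Crest.Agent.R235
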