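import Crest.Agent.R235.AdjDefs_43
import Crest.Agent.R235.STFProps_861
import Crest.Agent.R235.T4R_837

/-!
Row 235 (S0364), helper844: inputs of the CURVES ASSEMBLY (`CurTop_844.lean`):
`JDEC, INTEG, JSAME` (+ `ADJ, ISEC` of 43, `RSEC, SPH0, E1, HZLAT` done) ⇒ `NEGN, ZD, NEGK`.
-/

set_option autoImplicit false
set_option maxSynthPendingDepth 3

open Set Function Filter MeasureTheory Metric
open scoped Manifold ContDiff Topology

universe u

namespace Crest.Agent.R235

open Crest.Agent.R240 Crest.Agent.R240.Ch Crest.Agent.R235.Glob_370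

noncomputable section

/-- JDEC (producer CUR3 + REG + GLOB): a positive closed current has zero density almost
everywhere, or contains a positive multiple of a (non-zero) `J`-curve.
[`S = ν C + S'`, `C` closed of density one almost everywhere, `C ≠ 0`; REG: local form; GLOB:
`C = ∑ c_i.T`; keep one `c_i` with `c_i.T ≠ 0`.] -/
def JDEC : Prop :=
  ∀ (M : Type u) [MetricSpace M] [CompactSpace M] [ConnectedSpace M] [ChartedSpace E4 M]
    [IsManifold 𝓘(ℝ, E4) ∞ M] [MeasurableSpace M] [BorelSpace M] (D : Dat M) (w : Trip M),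
    Pos3 w → IsJ w D.J → D.al = ((w 0).1.1 : F2 E4 M) →
    ∀ (S : X2 M →ₗ[ℝ] ℝ) (s : Measure M), PCur D.J S → D.IsRM S s →
      Dat.ZeroDens s ∨ ∃ (c : JCurve D.J) (a : ℝ) (S' : X2 M →ₗ[ℝ] ℝ),
        0 < a ∧ c.T ≠ 0 ∧ PCur D.J S' ∧ S = a • c.T + S'

/-- INTEG (984/796): curves pair integrally with Chern forms. -/
def INTEG : Prop :=
  ∀ (M : Type u) [TopologicalSpace M] [T2Space M] [CompactSpace M] [ConnectedSpace M]
    [ChartedSpace E4 M] [IsManifold 𝓘(ℝ, E4) ∞ M] (w : Trip M) (J : EndF E4 M), Pos3 w → IsJ w J →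
    ∀ (c : JCurve J) (N : ℕ) (p : M → Matrix (Fin N) (Fin N) ℂ) (a : Z2 M), IsLine p →
      IsChern p a → ∃ n : ℤ, c.T a.1 = n

/-- JSAME (796): two curves meet in finitely many points or have the same current. -/
def JSAME : Prop :=
  ∀ (M : Type u) [TopologicalSpace M] [T2Space M] [CompactSpace M] [ConnectedSpace M]
    [ChartedSpace E4 M] [IsManifold 𝓘(ℝ, E4) ∞ M] (w : Trip M) (J : EndF E4 M), Pos3 w → IsJ w J →
    ∀ c c' : JCurve J, (range c.f ∩ range c'.f).Finite ∨
      (range c.f = range c'.f ∧ c.T = c'.T)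

/-- JINT: the class of a curve is integral (from `INTEG` and `HZLAT`). -/
def JINT : Prop :=
  ∀ (M : Type u) [TopologicalSpace M] [T2Space M] [CompactSpace M] [ConnectedSpace M]
    [ChartedSpace E4 M] [IsManifold 𝓘(ℝ, E4) ∞ M] (w : Trip M) (J : EndF E4 M), Pos3 w → IsJ w J →
    ∀ (c : JCurve J) (s : H2 M), (∀ b : Z2 M, c.T b.1 = ip (w 0) s (cls b)) → s ∈ HZ M

/-- JNEG: curves of negative square are embedded spheres, and their classes are roots
(from `RSEC, ADJ, SPH0, JINT`, type). -/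
def JNEG : Prop :=
  ∀ (M : Type u) [TopologicalSpace M] [T2Space M] [CompactSpace M] [ConnectedSpace M]
    [ChartedSpace E4 M] [IsManifold 𝓘(ℝ, E4) ∞ M] (w : Trip M) (J : EndF E4 M), Pos3 w → IsJ w J →
    ∀ (c : JCurve J) (s : H2 M), (∀ b : Z2 M, c.T b.1 = ip (w 0) s (cls b)) →
      ip (w 0) s s < 0 → s ∈ Rt (w 0) ∧ c.A.IsSph ∧ Adj.Emb c

end

end Crest.Agent.R235
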