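import Mathlib
import Crest.Agent.R235.Defs_837

/-!
Row 235 (S0364), package HZ, line bundles (helper453), file A: curvature of `p = v v^*`.
-/

set_option autoImplicit false
set_option linter.unusedSectionVars false

open Set Function Filter Topology Complex
open scoped ContDiff ComplexConjugate Matrix

namespace Crest.Agent.R235.Lb453

noncomputable section

variable {E : Type*} [NormedAddCommGroup E] [NormedSpace ℝ E] {ι : Type*} [Fintype ι]

/-- the matrix `v v^*` -/
def pr (v : ι → ℂ) : Matrix ι ι ℂ := fun i j => v i * conj (v j)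

theorem pr_herm (v : ι → ℂ) : (pr v).conjTranspose = pr v := by
  ext i j
  simp [pr, Matrix.conjTranspose_apply, mul_comm]

theorem pr_idem {v : ι → ℂ} (hv : ∑ i, conj (v i) * v i = 1) : pr v * pr v = pr v := by
  ext i j
  simp only [Matrix.mul_apply, pr]
  calc ∑ k, v i * conj (v k) * (v k * conj (v j))
      = v i * (∑ k, conj (v k) * v k) * conj (v j) := by
        rw [Finset.mul_sum, Finset.sum_mul]
        exact Finset.sum_congr rfl fun k _ => by ring
    _ = v i * conj (v j) := by rw [hv, mul_one]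

theorem pr_trace {v : ι → ℂ} (hv : ∑ i, conj (v i) * v i = 1) : (pr v).trace = 1 := by
  rw [← hv, Matrix.trace]
  exact Finset.sum_congr rfl fun k _ => by simp [pr, mul_comm]

/-- derivative of the conjugate -/
theorem fderiv_conj {f : E → ℂ} {y : E} (hf : DifferentiableAt ℝ f y) (u : E) :
    fderiv ℝ (fun z => conj (f z)) y u = conj (fderiv ℝ f y u) := by
  have h1 : HasFDerivAt (fun z => conj (f z))
      ((Complex.conjCLE : ℂ →L[ℝ] ℂ).comp (fderiv ℝ f y)) y :=
    (Complex.conjCLE : ℂ →L[ℝ] ℂ).hasFDerivAt.comp y hf.hasFDerivAt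
  rw [h1.fderiv]
  rfl

theorem diff_conj {f : E → ℂ} {y : E} (hf : DifferentiableAt ℝ f y) :
    DifferentiableAt ℝ (fun z => conj (f z)) y :=
  ((Complex.conjCLE : ℂ →L[ℝ] ℂ).hasFDerivAt.comp y hf.hasFDerivAt).differentiableAt

/-- algebraic identity: for `v` of norm one, `a` with `⟨a, v⟩ = -⟨v, a⟩` etc.,
`p = v v^*`, `A = a v^* + v a^*`, `B = b v^* + v b^*`:
`tr (p (A B - B A)) = ⟨a, b⟩ - ⟨b, a⟩`. -/
theorem curv_alg {v a b : ι → ℂ} (hv : ∑ i, conj (v i) * v i = 1)
    (ha : ∑ i, conj (a i) * v i = - ∑ i, conj (v i) * a i)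
    (hb : ∑ i, conj (b i) * v i = - ∑ i, conj (v i) * b i) :
    (pr v * ((Matrix.of fun i j => a i * conj (v j) + v i * conj (a j)) *
        (Matrix.of fun i j => b i * conj (v j) + v i * conj (b j)) -
      (Matrix.of fun i j => b i * conj (v j) + v i * conj (b j)) *
        (Matrix.of fun i j => a i * conj (v j) + v i * conj (a j)))).trace =
      ∑ i, (conj (a i) * b i - conj (b i) * a i) := by
  -- scalar products
  set α := ∑ i, conj (v i) * a i with hα
  set β := ∑ i, conj (v i) * b i with hβ
  have hAB : ∀ a b : ι → ℂ, ((Matrix.of fun i j => a i * conj (v j) + v i * conj (a j)) *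
        (Matrix.of fun i j => b i * conj (v j) + v i * conj (b j)) : Matrix ι ι ℂ) =
      Matrix.of fun i j => a i * ((∑ k, conj (v k) * b k) * conj (v j) +
          (∑ k, conj (v k) * v k) * conj (b j)) +
        v i * ((∑ k, conj (a k) * b k) * conj (v j) + (∑ k, conj (a k) * v k) * conj (b j)) := by
    intro a b
    ext i j
    simp only [Matrix.mul_apply, Matrix.of_apply]
    simp only [Finset.sum_mul, mul_add, Finset.mul_sum]
    simp only [← Finset.sum_add_distrib]
    exact Finset.sum_congr rfl fun k _ => by ring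
  have htr : ∀ c : Matrix ι ι ℂ, (pr v * c).trace = ∑ i, ∑ j, conj (v i) * c i j * v j := by
    intro c
    simp only [Matrix.trace, Matrix.diag, Matrix.mul_apply, pr]
    rw [Finset.sum_comm]
    exact Finset.sum_congr rfl fun i _ => Finset.sum_congr rfl fun j _ => by ring
  have key : ∀ a b : ι → ℂ, (∑ i, conj (b i) * v i = - ∑ i, conj (v i) * b i) →
      (∑ i, conj (a i) * v i = - ∑ i, conj (v i) * a i) →
      (pr v * ((Matrix.of fun i j => a i * conj (v j) + v i * conj (a j)) *
        (Matrix.of fun i j => b i * conj (v j) + v i * conj (b j)))).trace =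
      ∑ i, conj (a i) * b i + (∑ i, conj (v i) * a i) * ∑ i, conj (v i) * b i := by
    intro a b hb ha
    rw [hAB, htr]
    simp only [Matrix.of_apply]
    have h1 : ∀ (s t w z : ℂ), ∑ i, ∑ j, conj (v i) * (a i * (s * conj (v j) + t * conj (b j)) +
        v i * (w * conj (v j) + z * conj (b j))) * v j =
        (∑ i, conj (v i) * a i) * (s * (∑ j, conj (v j) * v j) + t * ∑ j, conj (b j) * v j) +
        (∑ i, conj (v i) * v i) * (w * (∑ j, conj (v j) * v j) + z * ∑ j, conj (b j) * v j) := by
      intro s t w z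
      simp only [Finset.sum_mul, Finset.mul_sum, mul_add]
      simp only [← Finset.sum_add_distrib]
      rw [Finset.sum_comm]
      exact Finset.sum_congr rfl fun k _ => Finset.sum_congr rfl fun l _ => by ring
    rw [h1, hv, hb, ha]
    ring
  rw [mul_sub, Matrix.trace_sub, key a b hb ha, key b a ha hb]
  simp only [Finset.sum_sub_distrib]
  ring

/-- derivative of the entries of `v v^*` -/
theorem fderiv_pr {v : E → ι → ℂ} {y : E} (hv : ∀ i, DifferentiableAt ℝ (fun z => v z i) y)
    (i j : ι) (u : E) :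
    fderiv ℝ (fun z => pr (v z) i j) y u =
      fderiv ℝ (fun z => v z i) y u * conj (v y j) + v y i * conj (fderiv ℝ (fun z => v z j) y u) := by
  have h1 : (fun z => pr (v z) i j) = fun z => v z i * conj (v z j) := rfl
  rw [h1, fderiv_fun_mul (hv i) (diff_conj (hv j))]
  simp only [add_apply, smul_apply, smul_eq_mul,
    fderiv_conj (hv j)]
  ring

/-- norm one implies `⟨dv, v⟩ = -⟨v, dv⟩` -/
theorem deriv_unit {v : E → ι → ℂ} {y : E} (hv : ∀ i, DifferentiableAt ℝ (fun z => v z i) y)
    (h1 : ∀ᶠ z in 𝓝 y, ∑ i, conj (v z i) * v z i = 1) (u : E) :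
    ∑ i, conj (fderiv ℝ (fun z => v z i) y u) * v y i =
      - ∑ i, conj (v y i) * fderiv ℝ (fun z => v z i) y u := by
  have h2 : fderiv ℝ (fun z => ∑ i, conj (v z i) * v z i) y u = 0 := by
    have : (fun z => ∑ i, conj (v z i) * v z i) =ᶠ[𝓝 y] fun _ => (1 : ℂ) := h1
    rw [this.fderiv_eq]
    simp
  have h3 : fderiv ℝ (fun z => ∑ i, conj (v z i) * v z i) y u =
      ∑ i, (conj (fderiv ℝ (fun z => v z i) y u) * v y i +
        conj (v y i) * fderiv ℝ (fun z => v z i) y u) := by
    rw [fderiv_fun_sum (fun i _ => (diff_conj (hv i)).fun_mul (hv i))]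
    rw [sum_apply]
    refine Finset.sum_congr rfl fun i _ => ?_
    rw [fderiv_fun_mul (diff_conj (hv i)) (hv i)]
    simp only [add_apply, smul_apply, smul_eq_mul,
      fderiv_conj (hv i)]
    ring
  rw [h3, Finset.sum_add_distrib] at h2
  exact eq_neg_of_add_eq_zero_left h2

/-- **curvature of the projection on a unit vector field** -/
theorem curv_pr {v : E → ι → ℂ} {y : E} (hv : ∀ i, DifferentiableAt ℝ (fun z => v z i) y)
    (h1 : ∀ᶠ z in 𝓝 y, ∑ i, conj (v z i) * v z i = 1) (u w : E) :
    (pr (v y) * ((Matrix.of fun i j => fderiv ℝ (fun z => pr (v z) i j) y u) *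
        (Matrix.of fun i j => fderiv ℝ (fun z => pr (v z) i j) y w) -
      (Matrix.of fun i j => fderiv ℝ (fun z => pr (v z) i j) y w) *
        (Matrix.of fun i j => fderiv ℝ (fun z => pr (v z) i j) y u))).trace =
      ∑ i, (conj (fderiv ℝ (fun z => v z i) y u) * fderiv ℝ (fun z => v z i) y w -
        conj (fderiv ℝ (fun z => v z i) y w) * fderiv ℝ (fun z => v z i) y u) := by
  simp only [fderiv_pr hv]
  exact curv_alg h1.self_of_nhds (deriv_unit hv h1 u) (deriv_unit hv h1 w)

end

end Crest.Agent.R235.Lb453
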