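import Mathlib
import Crest.Agent.R235.LbC_453
import Crest.Agent.R235.Weil_524
import Crest.Agent.R235.GCov_470

/-!
Row 235 (S0364), package HZ, line bundles (helper453), file D:
**(LB1)** the Weil form `τ c` of an integral Čech cocycle has its class in `HZ`.
-/

set_option autoImplicit false
set_option linter.unusedSectionVars false
set_option maxSynthPendingDepth 3

open Set Function Filter Topology Complex
open scoped ContDiff ComplexConjugate Matrix Manifold

universe u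

namespace Crest.Agent.R235.Lb453

open Crest.Agent.R240 Crest.Agent.R240.Ch Crest.Agent.R235.Weil_524

noncomputable section

section alg

variable {ι : Type*} [Fintype ι] {P Du Dv : ι → ℝ} {T : ι → Prop} {c : ι → ι → ι → ℝ}

theorem alg_tau (sP : ∑ i, P i = 1) (sDu : ∑ i, Du i = 0) (sDv : ∑ i, Dv i = 0)
    (zP : ∀ i, ¬ T i → P i = 0) (zDu : ∀ i, ¬ T i → Du i = 0) (zDv : ∀ i, ¬ T i → Dv i = 0)
    (m : ι) (hc : ∀ i j k, T i → T j → T k → c i j k = c m j k - c m i k + c m i j) :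
    ∑ i, ∑ j, ∑ k, c i j k * (P i * (Du j * Dv k - Du k * Dv j)) =
      ∑ j, ∑ k, c m j k * (Du j * Dv k - Du k * Dv j) := by
  have e : ∀ i j k, c i j k * (P i * (Du j * Dv k - Du k * Dv j)) =
      P i * (c m j k * (Du j * Dv k - Du k * Dv j)) -
        (P i * c m i k * Dv k * Du j - P i * c m i k * Du k * Dv j) +
        (P i * c m i j * Du j * Dv k - P i * c m i j * Dv j * Du k) := by
    intro i j k
    by_cases hi : T i
    · by_cases hj : T j
      · by_cases hk : T k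
        · rw [hc i j k hi hj hk]; ring
        · rw [zDu k hk, zDv k hk]; ring
      · rw [zDu j hj, zDv j hj]; ring
    · rw [zP i hi]; ring
  simp only [e, Finset.sum_add_distrib, Finset.sum_sub_distrib]
  have t1 : ∑ i, ∑ j, ∑ k, P i * (c m j k * (Du j * Dv k - Du k * Dv j)) =
      ∑ j, ∑ k, c m j k * (Du j * Dv k - Du k * Dv j) := by
    simp only [← Finset.mul_sum]
    rw [← Finset.sum_mul, sP, one_mul]
  have t2 : ∑ i, ∑ j, ∑ k, P i * c m i k * Dv k * Du j = 0 := by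
    refine Finset.sum_eq_zero fun i _ => ?_
    rw [Finset.sum_comm]
    refine Finset.sum_eq_zero fun k _ => ?_
    rw [← Finset.mul_sum, sDu, mul_zero]
  have t3 : ∑ i, ∑ j, ∑ k, P i * c m i k * Du k * Dv j = 0 := by
    refine Finset.sum_eq_zero fun i _ => ?_
    rw [Finset.sum_comm]
    refine Finset.sum_eq_zero fun k _ => ?_
    rw [← Finset.mul_sum, sDv, mul_zero]
  have t4 : ∑ i, ∑ j, ∑ k, P i * c m i j * Du j * Dv k = 0 := by
    refine Finset.sum_eq_zero fun i _ => Finset.sum_eq_zero fun j _ => ?_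
    rw [← Finset.mul_sum, sDv, mul_zero]
  have t5 : ∑ i, ∑ j, ∑ k, P i * c m i j * Dv j * Du k = 0 := by
    refine Finset.sum_eq_zero fun i _ => Finset.sum_eq_zero fun j _ => ?_
    rw [← Finset.mul_sum, sDu, mul_zero]
  rw [t1, t2, t3, t4, t5]; ring

theorem alg_pot (sDu : ∑ i, Du i = 0)
    (zP : ∀ i, ¬ T i → P i = 0) (zDu : ∀ i, ¬ T i → Du i = 0) (sP : ∑ i, P i = 1)
    (m m' : ι) (hc : ∀ j k, T j → T k → c m j k - c m' j k = c m m' k - c m m' j) :
    ∑ j, ∑ k, c m j k * (P j * Du k) - ∑ j, ∑ k, c m' j k * (P j * Du k) =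
      ∑ k, c m m' k * Du k := by
  rw [← Finset.sum_sub_distrib]
  simp only [← Finset.sum_sub_distrib]
  have e : ∀ j k, c m j k * (P j * Du k) - c m' j k * (P j * Du k) =
      P j * (c m m' k * Du k) - c m m' j * P j * Du k := by
    intro j k
    by_cases hj : T j
    · by_cases hk : T k
      · have := hc j k hj hk
        linear_combination (P j * Du k) * this
      · rw [zDu k hk]; ring
    · rw [zP j hj]; ring
  simp only [e, Finset.sum_sub_distrib]
  have t1 : ∑ j, ∑ k, P j * (c m m' k * Du k) = ∑ k, c m m' k * Du k := by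
    simp only [← Finset.mul_sum]
    rw [← Finset.sum_mul, sP, one_mul]
  have t2 : ∑ j, ∑ k, c m m' j * P j * Du k = 0 := by
    refine Finset.sum_eq_zero fun j _ => ?_
    rw [← Finset.mul_sum, sDu, mul_zero]
  rw [t1, t2, sub_zero]

end alg

variable {M : Type u} [TopologicalSpace M] [ChartedSpace E4 M] [IsManifold 𝓘(ℝ, E4) ∞ M]
  {n : ℕ}

/-- the potentials of `τ c` -/
def pot (ψ : Fin n → M → ℝ) (c : Fin n → Fin n → Fin n → ℝ) (m : Fin n) : F1 E4 M :=
  ∑ j, ∑ k, c m j k • fmul1 (ψ j) (dF (ψ k))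

/-- the transition functions of `τ c` -/
def trf (ψ : Fin n → M → ℝ) (c : Fin n → Fin n → Fin n → ℝ) (m m' : Fin n) (x : M) : ℝ :=
  ∑ k, c m m' k * ψ k x

variable {ψ : Fin n → M → ℝ} {c : Fin n → Fin n → Fin n → ℝ}

theorem smooth1_pot (hψ : ∀ i, SmoothF E4 (ψ i)) (m : Fin n) : Smooth1 (pot ψ c m) :=
  smooth1_sum fun j _ => smooth1_sum fun k _ =>
    Smooth1.smul _ (Smooth1.fmul (hψ j) (Smooth1.dF (hψ k)))

theorem smoothF_trf (hψ : ∀ i, SmoothF E4 (ψ i)) (m m' : Fin n) : SmoothF E4 (trf ψ c m m') :=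
  smoothF_sum fun k _ => (smoothF_const (c m m' k)).mul (hψ k)

theorem at1_pot (m : Fin n) (x : M) (u : E4) :
    at1 (pot ψ c m) x u = ∑ j, ∑ k, c m j k * (ψ j x * at1 (dF (E := E4) (ψ k)) x u) := by
  unfold pot
  rw [at1_sum, sum_apply]
  refine Finset.sum_congr rfl fun j _ => ?_
  rw [at1_sum, sum_apply]
  rfl

theorem at2_dG_pot (hψ : ∀ i, SmoothF E4 (ψ i)) (m : Fin n) (x : M) (u v : E4) :
    at2 (dG (pot ψ c m)) x u v = ∑ j, ∑ k, c m j k *
      (at1 (dF (E := E4) (ψ j)) x u * at1 (dF (E := E4) (ψ k)) x v -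
        at1 (dF (E := E4) (ψ k)) x u * at1 (dF (E := E4) (ψ j)) x v) := by
  unfold pot
  rw [dG_sum fun j _ => smooth1_sum fun k _ =>
    Smooth1.smul _ (Smooth1.fmul (hψ j) (Smooth1.dF (hψ k))), at2_sum, sum_apply, sum_apply]
  refine Finset.sum_congr rfl fun j _ => ?_
  rw [dG_sum fun k _ => Smooth1.smul _ (Smooth1.fmul (hψ j) (Smooth1.dF (hψ k))), at2_sum,
    sum_apply, sum_apply]
  refine Finset.sum_congr rfl fun k _ => ?_
  rw [dG_smul _ (Smooth1.fmul (hψ j) (Smooth1.dF (hψ k))), dG_fmul1 (hψ j) (Smooth1.dF (hψ k)),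
    dG_dF (hψ k)]
  show c m j k * ((at1 (dF (E := E4) (ψ j)) x u * at1 (dF (E := E4) (ψ k)) x v -
        at1 (dF (E := E4) (ψ k)) x u * at1 (dF (E := E4) (ψ j)) x v) + ψ j x * 0) = _
  rw [mul_zero, add_zero]

theorem dF_trf (hψ : ∀ i, SmoothF E4 (ψ i)) (m m' : Fin n) (x : M) (u : E4) :
    at1 (dF (E := E4) (trf ψ c m m')) x u = ∑ k, c m m' k * at1 (dF (E := E4) (ψ k)) x u := by
  have h := Weil_524.dF_sum (E := E4) (s := Finset.univ) (f := fun k x => c m m' k * ψ k x)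
    (fun k _ => (smoothF_const (c m m' k)).mul (hψ k)) x
  have h' : at1 (dF (E := E4) (trf ψ c m m')) x =
      at1 (dF (E := E4) (fun x => ∑ k, c m m' k * ψ k x)) x := rfl
  rw [h', h, sum_apply]
  refine Finset.sum_congr rfl fun k _ => ?_
  rw [dF_mul (smoothF_const (c m m' k)) (hψ k), dF_const]
  simp

variable (hψ : ∀ i, SmoothF E4 (ψ i)) (hsum : ∀ x, ∑ i, ψ i x = 1)
  (hc : ∀ i j k l x, x ∈ tsupport (ψ i) → x ∈ tsupport (ψ j) → x ∈ tsupport (ψ k) →
    x ∈ tsupport (ψ l) → c j k l - c i k l + c i j l - c i j k = 0)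

include hψ hsum hc

theorem tau_rel1 (m : Fin n) (x : M) (hm : x ∈ tsupport (ψ m)) :
    at2 (dG (pot ψ c m)) x = at2 (tauF (E := E4) ψ c) x := by
  ext u v
  rw [at2_dG_pot hψ, tauF_apply]
  symm
  refine alg_tau (T := fun i => x ∈ tsupport (ψ i)) (hsum x) ?_ ?_ ?_ ?_ ?_ m ?_
  · have := congrArg (fun L : E4 →L[ℝ] ℝ => L u) (sum_dF_eq_zero (E := E4) hψ hsum x)
    simpa [sum_apply] using this
  · have := congrArg (fun L : E4 →L[ℝ] ℝ => L v) (sum_dF_eq_zero (E := E4) hψ hsum x)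
    simpa [sum_apply] using this
  · exact fun i hi => image_eq_zero_of_notMem_tsupport hi
  · intro i hi; rw [dF_eq_zero_of_notMem hi]; rfl
  · intro i hi; rw [dF_eq_zero_of_notMem hi]; rfl
  · intro i j k hi hj hk
    have := hc m i j k x hm hi hj hk
    linarith

theorem tau_rel2 (m m' : Fin n) (x : M) (hm : x ∈ tsupport (ψ m)) (hm' : x ∈ tsupport (ψ m')) :
    at1 (pot ψ c m) x - at1 (pot ψ c m') x = at1 (dF (E := E4) (trf ψ c m m')) x := by
  ext u
  rw [dF_trf hψ]
  show at1 (pot ψ c m) x u - at1 (pot ψ c m') x u = _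
  rw [at1_pot, at1_pot]
  refine alg_pot (T := fun i => x ∈ tsupport (ψ i)) ?_ ?_ ?_ (hsum x) m m' ?_
  · have := congrArg (fun L : E4 →L[ℝ] ℝ => L u) (sum_dF_eq_zero (E := E4) hψ hsum x)
    simpa [sum_apply] using this
  · exact fun i hi => image_eq_zero_of_notMem_tsupport hi
  · intro i hi; rw [dF_eq_zero_of_notMem hi]; rfl
  · intro j k hj hk
    have := hc m m' j k x hm hm' hj hk
    linarith

theorem tau_rel3 (i j k : Fin n) (x : M) (hi : x ∈ tsupport (ψ i)) (hj : x ∈ tsupport (ψ j))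
    (hk : x ∈ tsupport (ψ k)) :
    trf ψ c j k x - trf ψ c i k x + trf ψ c i j x = c i j k := by
  unfold trf
  rw [← Finset.sum_sub_distrib, ← Finset.sum_add_distrib]
  have e : ∀ l, c j k l * ψ l x - c i k l * ψ l x + c i j l * ψ l x = c i j k * ψ l x := by
    intro l
    by_cases hl : x ∈ tsupport (ψ l)
    · have := hc i j k l x hi hj hk hl
      linear_combination (ψ l x) * this
    · rw [image_eq_zero_of_notMem_tsupport hl]; ring
  simp only [e]
  rw [← Finset.mul_sum, hsum x, mul_one]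

/-- the Weil form of a cocycle is closed -/
theorem closed2_tauF : Closed2 (tauF (E := E4) ψ c) := by
  refine Closed2.of_local (smooth2_tauF hψ c) fun x => ⟨x, mem_chart_source E4 x, ?_⟩
  obtain ⟨m, hm⟩ : ∃ m, ψ m x ≠ 0 := by
    by_contra h
    push Not at h
    have := hsum x
    simp [h] at this
  have hev : ∀ᶠ z in 𝓝 x, ψ m z ≠ 0 :=
    (cont_of_smoothF (hψ m)).continuousAt.eventually_ne hm
  intro u v w
  have h1 : rep x (tauF (E := E4) ψ c) =ᶠ[𝓝 (chartAt E4 x x)] rep x (dG (pot ψ c m)) := by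
    filter_upwards [ev_chart hev] with y hy
    unfold rep
    rw [tau_rel1 hψ hsum hc m _ (subset_tsupport _ hy)]
  rw [dd_congr h1]
  exact Closed2.dG (smooth1_pot hψ m) x _ (mem_chart_target E4 x) u v w

/-- the Weil form as a closed form -/
def tauZ : Z2 M := ⟨⟨tauF (E := E4) ψ c, smooth2_tauF hψ c⟩, closed2_tauF hψ hsum hc⟩

/-- **(LB1)**: the class of `τ c` is in `HZ` for an integral cocycle `c` -/
theorem cls_tau_mem_HZ [T2Space M] [CompactSpace M] (hint : ∀ i j k, ∃ m : ℤ, c i j k = m) :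
    cls (tauZ hψ hsum hc) ∈ HZ M := by
  refine cls_mem_HZ (A := pot ψ c) (f := trf ψ c) hψ hsum (smooth1_pot hψ)
    (smoothF_trf hψ) _ (fun m x hm => tau_rel1 hψ hsum hc m x hm) (tau_rel2 hψ hsum hc) ?_
  intro i j k x hi hj hk
  obtain ⟨m, hm⟩ := hint i j k
  exact ⟨m, by rw [tau_rel3 hψ hsum hc i j k x hi hj hk, hm]⟩

end

end Crest.Agent.R235.Lb453
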