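import Mathlib
import Crest.Agent.R235.LbC_453
import Crest.Agent.R235.Cdr_524

/-!
Row 235 (S0364), package HZ, line bundles (helper453), file E: a projection of rank one is
`s s^*` locally; local calculus for complex functions on `M`.
-/

set_option autoImplicit false
set_option linter.unusedSectionVars false
set_option maxSynthPendingDepth 3

open Set Function Filter Topology Complex
open scoped ContDiff ComplexConjugate Matrix Manifold ComplexOrder

universe u

namespace Crest.Agent.R235.Lb453

open Crest.Agent.R240 Crest.Agent.R240.Ch Crest.Agent.R235.Loc_524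

noncomputable section

/-! ### linear algebra -/

section lin

variable {N : ℕ} {P : Matrix (Fin N) (Fin N) ℂ}

/-- the normalised column -/
def col (P : Matrix (Fin N) (Fin N) ℂ) (m : Fin N) (l : Fin N) : ℂ :=
  P l m * (((√((P m m).re))⁻¹ : ℝ) : ℂ)

theorem herm_apply (hh : P.conjTranspose = P) (i j : Fin N) : conj (P j i) = P i j := by
  have := congrFun (congrFun hh i) j
  rwa [Matrix.conjTranspose_apply] at this

theorem diag_eq (hi : P * P = P) (hh : P.conjTranspose = P) (m : Fin N) :
    P m m = ((∑ l, Complex.normSq (P l m) : ℝ) : ℂ) := by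
  have h := congrFun (congrFun hi m) m
  rw [Matrix.mul_apply] at h
  rw [← h, Complex.ofReal_sum]
  refine Finset.sum_congr rfl fun l _ => ?_
  rw [← herm_apply hh m l, Complex.normSq_eq_conj_mul_self]

theorem diag_real (hi : P * P = P) (hh : P.conjTranspose = P) (m : Fin N) :
    P m m = (((P m m).re : ℝ) : ℂ) := by
  rw [diag_eq hi hh m, Complex.ofReal_re]

theorem diag_pos (hi : P * P = P) (hh : P.conjTranspose = P) {m : Fin N} (hm : P m m ≠ 0) :
    0 < (P m m).re := by
  have h := diag_eq hi hh m
  have h0 : 0 ≤ (P m m).re := by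
    rw [h, Complex.ofReal_re]
    exact Finset.sum_nonneg fun l _ => Complex.normSq_nonneg _
  refine lt_of_le_of_ne h0 fun h1 => hm ?_
  rw [diag_real hi hh m, ← h1, Complex.ofReal_zero]

theorem eq_rank_one (hi : P * P = P) (hh : P.conjTranspose = P) (ht : P.trace = 1) {m : Fin N}
    (hm : P m m ≠ 0) (i j : Fin N) : P i j = P i m * P m j / P m m := by
  set q : Matrix (Fin N) (Fin N) ℂ := Matrix.of fun i j => P i j - P i m * P m j / P m m with hq
  have hP : ∀ a b, ∑ k, P a k * P k b = P a b := fun a b => by
    have := congrFun (congrFun hi a) b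
    rwa [Matrix.mul_apply] at this
  have hqh : q.conjTranspose = q := by
    ext a b
    rw [Matrix.conjTranspose_apply]
    simp only [hq, Matrix.of_apply]
    rw [star_def, map_sub, map_div₀, map_mul, herm_apply hh, herm_apply hh, herm_apply hh,
      herm_apply hh]
    ring
  have hqq : q * q = q := by
    ext a b
    rw [Matrix.mul_apply]
    simp only [hq, Matrix.of_apply]
    have e : ∀ k, (P a k - P a m * P m k / P m m) * (P k b - P k m * P m b / P m m) =
        P a k * P k b - (P a k * P k m) * (P m b / P m m) - (P a m / P m m) * (P m k * P k b) +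
          (P a m / P m m) * (P m k * P k m) * (P m b / P m m) := by
      intro k; ring
    simp only [e, Finset.sum_add_distrib, Finset.sum_sub_distrib, ← Finset.sum_mul,
      ← Finset.mul_sum, hP]
    field_simp
    ring
  have hqt : q.trace = 0 := by
    have h1 : q.trace = P.trace - ∑ a, P a m * P m a / P m m := by
      simp [Matrix.trace, hq, Finset.sum_sub_distrib]
    have h2 : ∑ a, P a m * P m a / P m m = 1 := by
      rw [← Finset.sum_div, div_eq_one_iff_eq hm]
      rw [← hP m m]
      exact Finset.sum_congr rfl fun a _ => mul_comm _ _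
    rw [h1, h2, ht, sub_self]
  have hq0 : q = 0 := by
    have h1 : (q.conjTranspose * q).trace = 0 := by rw [hqh, hqq, hqt]
    exact Matrix.trace_conjTranspose_mul_self_eq_zero_iff.1 h1
  have h2 := congrFun (congrFun hq0 i) j
  simp only [hq, Matrix.of_apply, Matrix.zero_apply] at h2
  exact sub_eq_zero.1 h2

theorem eq_pr_col (hi : P * P = P) (hh : P.conjTranspose = P) (ht : P.trace = 1) {m : Fin N}
    (hm : P m m ≠ 0) : P = pr (col P m) := by
  have hp := diag_pos hi hh hm
  have hs : (((√((P m m).re))⁻¹ : ℝ) : ℂ) * (((√((P m m).re))⁻¹ : ℝ) : ℂ) = (P m m)⁻¹ := by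
    conv_rhs => rw [diag_real hi hh m]
    rw [← Complex.ofReal_mul, ← Complex.ofReal_inv, ← mul_inv, Real.mul_self_sqrt hp.le]
  ext i j
  rw [eq_rank_one hi hh ht hm i j]
  unfold pr col
  rw [map_mul, Complex.conj_ofReal, herm_apply hh m j]
  calc P i m * P m j / P m m = P i m * P m j * (P m m)⁻¹ := by ring
    _ = _ := by rw [← hs]; ring

theorem col_unit (hi : P * P = P) (hh : P.conjTranspose = P) {m : Fin N} (hm : P m m ≠ 0) :
    ∑ l, conj (col P m l) * col P m l = 1 := by
  have hp := diag_pos hi hh hm
  have h := diag_eq hi hh m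
  have e : ∀ l, conj (col P m l) * col P m l =
      ((Complex.normSq (P l m) * ((P m m).re)⁻¹ : ℝ) : ℂ) := by
    intro l
    unfold col
    rw [map_mul, Complex.conj_ofReal]
    have hs : (((√((P m m).re))⁻¹ : ℝ) : ℂ) * (((√((P m m).re))⁻¹ : ℝ) : ℂ) =
        ((((P m m).re)⁻¹ : ℝ) : ℂ) := by
      rw [← Complex.ofReal_mul, ← mul_inv, Real.mul_self_sqrt hp.le]
    rw [Complex.ofReal_mul, Complex.normSq_eq_conj_mul_self]
    linear_combination (conj (P l m) * P l m) * hs
  simp only [e]
  rw [← Complex.ofReal_sum, ← Finset.sum_mul]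
  have h2 : ∑ l, Complex.normSq (P l m) = (P m m).re := by rw [h, Complex.ofReal_re]
  rw [h2, mul_inv_cancel₀ hp.ne', Complex.ofReal_one]

/-- two unit vectors with the same projection -/
theorem pr_eq_pr {s t : Fin N → ℂ} (ht : ∑ l, conj (t l) * t l = 1)
    (h : pr s = pr t) (l : Fin N) : t l = (∑ k, conj (s k) * t k) * s l := by
  have h1 : ∑ k, pr s l k * t k = ∑ k, pr t l k * t k := by rw [h]
  have h2 : ∑ k, pr t l k * t k = t l := by
    unfold pr
    have : ∀ k, t l * conj (t k) * t k = t l * (conj (t k) * t k) := fun k => by ring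
    simp only [this, ← Finset.mul_sum, ht, mul_one]
  have h3 : ∑ k, pr s l k * t k = (∑ k, conj (s k) * t k) * s l := by
    unfold pr
    rw [Finset.sum_mul]
    exact Finset.sum_congr rfl fun k _ => by ring
  rw [← h2, ← h1, h3]

theorem norm_ip {s t : Fin N → ℂ} (hs : ∑ l, conj (s l) * s l = 1)
    (ht : ∑ l, conj (t l) * t l = 1) (h : pr s = pr t) :
    conj (∑ k, conj (s k) * t k) * (∑ k, conj (s k) * t k) = 1 := by
  set g := ∑ k, conj (s k) * t k with hg
  have h1 : ∀ l, t l = g * s l := fun l => pr_eq_pr ht h l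
  have h2 : ∑ l, conj (t l) * t l = conj g * g * ∑ l, conj (s l) * s l := by
    rw [Finset.mul_sum]
    refine Finset.sum_congr rfl fun l _ => ?_
    rw [h1 l, map_mul]
    ring
  rw [hs, ht, mul_one] at h2
  exact h2.symm

/-- cocycle property of the transition functions -/
theorem ip_mul_ip {s t w : Fin N → ℂ} (ht : ∑ l, conj (t l) * t l = 1)
    (hst : pr s = pr t) :
    (∑ k, conj (s k) * t k) * (∑ k, conj (t k) * w k) = ∑ k, conj (s k) * w k := by
  have h1 : ∑ k, conj (s k) * w k = ∑ k, conj (s k) * w k := rfl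
  have hs' : ∀ l, s l = (∑ k, conj (t k) * s k) * t l ∨ True := fun l => Or.inr trivial
  -- `s` in terms of `t` : needs `|s| = 1`, avoided by using the projection
  have h2 : ∀ j, ∑ k, conj (s k) * pr t k j = (∑ k, conj (s k) * t k) * conj (t j) := by
    intro j
    rw [Finset.sum_mul]
    exact Finset.sum_congr rfl fun k _ => by unfold pr; ring
  have h3 : ∀ j, ∑ k, conj (s k) * pr s k j = (∑ k, conj (s k) * s k) * conj (s j) := by
    intro j
    rw [Finset.sum_mul]
    exact Finset.sum_congr rfl fun k _ => by unfold pr; ring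
  have hss : ∑ k, conj (s k) * s k = 1 := by
    have e1 : (pr s).trace = (pr t).trace := by rw [hst]
    have e2 : ∀ v : Fin N → ℂ, (pr v).trace = ∑ k, conj (v k) * v k := fun v => by
      rw [Matrix.trace]
      exact Finset.sum_congr rfl fun k _ => by simp [pr, mul_comm]
    rw [e2, e2, ht] at e1
    exact e1
  have h4 : ∀ j, conj (s j) = (∑ k, conj (s k) * t k) * conj (t j) := by
    intro j
    rw [← h2 j, ← hst, h3 j, hss, one_mul]
  rw [Finset.mul_sum]
  refine Finset.sum_congr rfl fun k _ => ?_
  rw [h4 k]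
  ring

end lin

end

end Crest.Agent.R235.Lb453
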