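import Mathlib
import Crest.Agent.R235.LbE_453

/-!
Row 235 (S0364), package HZ, line bundles (helper453), file F: local calculus of complex functions
on `M`; the connection form of a local section; its differential is the Chern form.
-/

set_option autoImplicit false
set_option linter.unusedSectionVars false
set_option maxSynthPendingDepth 3

open Set Function Filter Topology Complex
open scoped ContDiff ComplexConjugate Matrix Manifold ComplexOrder

universe u

namespace Crest.Agent.R235.Lb453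

open Crest.Agent.R240 Crest.Agent.R240.Ch Crest.Agent.R235.Loc_524

noncomputable section

variable {M : Type u} [TopologicalSpace M] [ChartedSpace E4 M] [IsManifold 𝓘(ℝ, E4) ∞ M]

/-- a complex function in the chart at `x` -/
def rc (x : M) (g : M → ℂ) (y : E4) : ℂ := g ((chartAt E4 x).symm y)

/-- smooth at `x` -/
def SC (g : M → ℂ) (x : M) : Prop := ContDiffAt ℝ ∞ (rc x g) (chartAt E4 x x)

/-- the differential -/
def dC (g : M → ℂ) (x : M) (u : E4) : ℂ := fderiv ℝ (rc x g) (chartAt E4 x x) u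

omit [IsManifold 𝓘(ℝ, E4) ∞ M] in
theorem rc_self (x : M) (g : M → ℂ) : rc x g (chartAt E4 x x) = g x := by
  unfold rc; rw [(chartAt E4 x).left_inv (mem_chart_source E4 x)]

theorem sc_of_contMDiff {g : M → ℂ} (hg : ContMDiff 𝓘(ℝ, E4) 𝓘(ℝ, ℂ) ∞ g) (x : M) : SC g x :=
  (contMDiffAt_of_eq (F := ℂ) (mem_chart_source E4 x) (g := g) (f := rc x g) (fun z hz => by
    unfold rc; rw [(chartAt E4 x).left_inv hz])).1 (hg x)

omit [IsManifold 𝓘(ℝ, E4) ∞ M] in
theorem SC.re {g : M → ℂ} {x : M} (h : SC g x) : SmAtF E4 (fun z => (g z).re) x :=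
  Complex.reCLM.contDiff.contDiffAt.comp _ h

omit [IsManifold 𝓘(ℝ, E4) ∞ M] in
theorem SC.im {g : M → ℂ} {x : M} (h : SC g x) : SmAtF E4 (fun z => (g z).im) x :=
  Complex.imCLM.contDiff.contDiffAt.comp _ h

omit [IsManifold 𝓘(ℝ, E4) ∞ M] in
theorem SC.mul {g h : M → ℂ} {x : M} (hg : SC g x) (hh : SC h x) : SC (fun z => g z * h z) x :=
  ContDiffAt.mul hg hh

omit [IsManifold 𝓘(ℝ, E4) ∞ M] in
theorem SC.conj {g : M → ℂ} {x : M} (hg : SC g x) : SC (fun z => conj (g z)) x :=
  (Complex.conjCLE : ℂ →L[ℝ] ℂ).contDiff.contDiffAt.comp _ hg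

omit [IsManifold 𝓘(ℝ, E4) ∞ M] in
theorem SC.sum {ι : Type*} {s : Finset ι} {g : ι → M → ℂ} {x : M} (h : ∀ i ∈ s, SC (g i) x) :
    SC (fun z => ∑ i ∈ s, g i z) x := by
  have : rc x (fun z => ∑ i ∈ s, g i z) = fun y => ∑ i ∈ s, rc x (g i) y := rfl
  unfold SC
  rw [this]
  exact ContDiffAt.sum h

omit [IsManifold 𝓘(ℝ, E4) ∞ M] in
theorem SC.congr {g h : M → ℂ} {x : M} (hg : SC g x) (e : ∀ᶠ z in 𝓝 x, h z = g z) : SC h x :=
  ContDiffAt.congr_of_eventuallyEq hg (ev_chart e)

omit [IsManifold 𝓘(ℝ, E4) ∞ M] in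
theorem SC.diff {g : M → ℂ} {x : M} (h : SC g x) : DifferentiableAt ℝ (rc x g) (chartAt E4 x x) :=
  h.differentiableAt infty_ne_zero

omit [IsManifold 𝓘(ℝ, E4) ∞ M] in
theorem dC_re {g : M → ℂ} {x : M} (h : SC g x) (u : E4) :
    at1 (dF (E := E4) (fun z => (g z).re)) x u = (dC g x u).re := by
  have h1 : HasFDerivAt (fun y => (rc x g y).re)
      (Complex.reCLM.comp (fderiv ℝ (rc x g) (chartAt E4 x x))) (chartAt E4 x x) :=
    Complex.reCLM.hasFDerivAt.comp _ h.diff.hasFDerivAt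
  show fderiv ℝ (fun y => (rc x g y).re) (chartAt E4 x x) u = _
  rw [h1.fderiv]
  rfl

omit [IsManifold 𝓘(ℝ, E4) ∞ M] in
theorem dC_im {g : M → ℂ} {x : M} (h : SC g x) (u : E4) :
    at1 (dF (E := E4) (fun z => (g z).im)) x u = (dC g x u).im := by
  have h1 : HasFDerivAt (fun y => (rc x g y).im)
      (Complex.imCLM.comp (fderiv ℝ (rc x g) (chartAt E4 x x))) (chartAt E4 x x) :=
    Complex.imCLM.hasFDerivAt.comp _ h.diff.hasFDerivAt
  show fderiv ℝ (fun y => (rc x g y).im) (chartAt E4 x x) u = _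
  rw [h1.fderiv]
  rfl

omit [IsManifold 𝓘(ℝ, E4) ∞ M] in
theorem dC_congr {g h : M → ℂ} {x : M} (e : ∀ᶠ z in 𝓝 x, h z = g z) (u : E4) :
    dC h x u = dC g x u := by
  have : rc x h =ᶠ[𝓝 (chartAt E4 x x)] rc x g := ev_chart e
  unfold dC
  rw [this.fderiv_eq]

omit [IsManifold 𝓘(ℝ, E4) ∞ M] in
theorem dC_mul {g h : M → ℂ} {x : M} (hg : SC g x) (hh : SC h x) (u : E4) :
    dC (fun z => g z * h z) x u = g x * dC h x u + h x * dC g x u := by
  show fderiv ℝ (fun y => rc x g y * rc x h y) (chartAt E4 x x) u = _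
  rw [fderiv_fun_mul hg.diff hh.diff]
  simp only [add_apply, smul_apply, smul_eq_mul, rc_self]
  rfl

omit [IsManifold 𝓘(ℝ, E4) ∞ M] in
theorem dC_ex {f : M → ℝ} {x : M} (hf : SmAtF E4 f x) (u : E4) :
    dC (fun z => ex (f z)) x u = 2 * Real.pi * I * ex (f x) * at1 (dF (E := E4) f) x u := by
  show fderiv ℝ (fun y => ex (repF x f y)) (chartAt E4 x x) u = _
  rw [fderiv_ex (hf.differentiableAt infty_ne_zero), repF_chart (mem_chart_source E4 x)]
  rfl

/-- `df` is smooth where `f` is smooth on an open set -/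
theorem smAt1_dF {f : M → ℝ} {U : Set M} (hU : IsOpen U) (hf : ∀ x ∈ U, SmAtF E4 f x) {x : M}
    (hx : x ∈ U) : SmAt1 (dF (E := E4) f) x := by
  have h : rep1 x (dF (E := E4) f) =ᶠ[𝓝 (chartAt E4 x x)] fderiv ℝ (repF x f) := by
    filter_upwards [ev_chart (hU.mem_nhds hx),
      (chartAt E4 x).open_target.mem_nhds (mem_chart_target E4 x)] with y hy hyt
    exact rep1_dF_at hyt (hf _ hy)
  exact ((hf x hx).fderiv_right (m := ∞) (by simp)).congr_of_eventuallyEq h

theorem dG_dF_loc {f : M → ℝ} {U : Set M} (hU : IsOpen U) (hf : ∀ x ∈ U, SmAtF E4 f x) {x : M}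
    (hx : x ∈ U) : at2 (dG (dF (E := E4) f)) x = 0 := by
  have h : rep1 x (dF (E := E4) f) =ᶠ[𝓝 (chartAt E4 x x)] fderiv ℝ (repF x f) := by
    filter_upwards [ev_chart (hU.mem_nhds hx),
      (chartAt E4 x).open_target.mem_nhds (mem_chart_target E4 x)] with y hy hyt
    exact rep1_dF_at hyt (hf _ hy)
  show d1 (rep1 x (dF (E := E4) f)) (chartAt E4 x x) = 0
  rw [d1_congr h, d1_fderiv (hf x hx)]

/-- the connection form of the local section `s` : `(i/2π) ⟨s, ds⟩` -/
def conn {N : ℕ} (s : M → Fin N → ℂ) : F1 E4 M :=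
  fun x => ∑ l, ((2 * Real.pi)⁻¹ : ℝ) • ((s x l).im • dF (E := E4) (fun z => (s z l).re) x -
    (s x l).re • dF (E := E4) (fun z => (s z l).im) x)

theorem conn_apply {N : ℕ} {s : M → Fin N → ℂ} {x : M} (hs : ∀ l, SC (fun z => s z l) x)
    (u : E4) :
    at1 (conn s) x u = ((I / (2 * Real.pi)) * ∑ l, conj (s x l) * dC (fun z => s z l) x u).re := by
  have h1 : at1 (conn s) x u = ∑ l, (2 * Real.pi)⁻¹ *
      ((s x l).im * at1 (dF (E := E4) (fun z => (s z l).re)) x u -
        (s x l).re * at1 (dF (E := E4) (fun z => (s z l).im)) x u) := by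
    unfold conn at1
    rw [sum_apply]
    rfl
  have h2 : (I / (2 * Real.pi)) * ∑ l, conj (s x l) * dC (fun z => s z l) x u =
      (((2 * Real.pi)⁻¹ : ℝ) : ℂ) * ∑ l, I * (conj (s x l) * dC (fun z => s z l) x u) := by
    rw [← Finset.mul_sum]
    push_cast
    ring
  rw [h1, h2, Complex.re_ofReal_mul, Complex.re_sum, Finset.mul_sum]
  refine Finset.sum_congr rfl fun l _ => ?_
  rw [dC_re (hs l), dC_im (hs l)]
  congr 1
  simp only [Complex.mul_re, Complex.I_re, Complex.I_im, Complex.mul_im, Complex.conj_re,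
    Complex.conj_im]
  ring

theorem smAt1_conn {N : ℕ} {s : M → Fin N → ℂ} {U : Set M} (hU : IsOpen U)
    (hs : ∀ x ∈ U, ∀ l, SC (fun z => s z l) x) {x : M} (hx : x ∈ U) : SmAt1 (conn s) x := by
  have e : rep1 x (conn s) = fun y => ∑ l, ((2 * Real.pi)⁻¹ : ℝ) •
      (repF x (fun z => (s z l).im) y • rep1 x (dF (E := E4) (fun z => (s z l).re)) y -
        repF x (fun z => (s z l).re) y • rep1 x (dF (E := E4) (fun z => (s z l).im)) y) := by
    funext y
    ext w
    rw [rep1_apply]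
    unfold conn at1
    rw [sum_apply, sum_apply]
    rfl
  unfold SmAt1
  rw [e]
  refine ContDiffAt.sum fun l _ => ContDiffAt.const_smul _ (ContDiffAt.sub ?_ ?_)
  · exact ContDiffAt.smul (hs x hx l).im (smAt1_dF hU (fun z hz => (hs z hz l).re) hx)
  · exact ContDiffAt.smul (hs x hx l).re (smAt1_dF hU (fun z hz => (hs z hz l).im) hx)

/-- the differential of the connection form -/
theorem dG_conn {N : ℕ} {s : M → Fin N → ℂ} {U : Set M} (hU : IsOpen U)
    (hs : ∀ x ∈ U, ∀ l, SC (fun z => s z l) x) {x : M} (hx : x ∈ U) (u v : E4) :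
    at2 (dG (conn s)) x u v = ((I / (2 * Real.pi)) *
      ∑ l, (conj (dC (fun z => s z l) x u) * dC (fun z => s z l) x v -
        conj (dC (fun z => s z l) x v) * dC (fun z => s z l) x u)).re := by
  -- as a sum over `Fin N × Bool`
  set g : Fin N × Bool → M → ℝ := fun q z =>
    if q.2 then (2 * Real.pi)⁻¹ * (s z q.1).im else -(2 * Real.pi)⁻¹ * (s z q.1).re with hg
  set t : Fin N × Bool → F1 E4 M := fun q =>
    if q.2 then dF (E := E4) (fun z => (s z q.1).re) else dF (E := E4) (fun z => (s z q.1).im) with ht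
  have hgt : ∀ q, S0 (g q) x ∧ S1 (t q) x := by
    rintro ⟨l, b⟩
    cases b
    · refine ⟨?_, ?_⟩
      · exact (contDiffAt_const (c := -(2 * Real.pi)⁻¹)).mul (hs x hx l).re
      · exact smAt1_dF hU (fun z hz => (hs z hz l).im) hx
    · refine ⟨?_, ?_⟩
      · exact (contDiffAt_const (c := (2 * Real.pi)⁻¹)).mul (hs x hx l).im
      · exact smAt1_dF hU (fun z hz => (hs z hz l).re) hx
  have e : (conn s) = (fun z => ∑ q, g q z • t q z : F1 E4 M) := by
    funext z
    rw [Fintype.sum_prod_type]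
    unfold conn
    refine Finset.sum_congr rfl fun l _ => ?_
    rw [Fintype.sum_bool]
    simp only [hg, ht, if_true, Bool.false_eq_true, if_false]
    rw [smul_sub, smul_smul, smul_smul, neg_mul, neg_smul, sub_eq_add_neg]
  rw [e, dG_sum_fmul1 (fun q => Or.inl (hgt q)), Fintype.sum_prod_type]
  have h2 : (I / (2 * Real.pi)) * ∑ l, (conj (dC (fun z => s z l) x u) * dC (fun z => s z l) x v -
        conj (dC (fun z => s z l) x v) * dC (fun z => s z l) x u) =
      (((2 * Real.pi)⁻¹ : ℝ) : ℂ) * ∑ l, I * (conj (dC (fun z => s z l) x u) *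
        dC (fun z => s z l) x v - conj (dC (fun z => s z l) x v) * dC (fun z => s z l) x u) := by
    rw [← Finset.mul_sum]
    push_cast
    ring
  rw [h2, Complex.re_ofReal_mul, Complex.re_sum, Finset.mul_sum]
  refine Finset.sum_congr rfl fun l _ => ?_
  rw [Fintype.sum_bool]
  have d1 : ∀ w, at1 (dF (E := E4) (g (l, true))) x w = (2 * Real.pi)⁻¹ * (dC (fun z => s z l) x w).im := by
    intro w
    rw [← dC_im (hs x hx l)]
    show fderiv ℝ (fun y => (2 * Real.pi)⁻¹ * repF x (fun z => (s z l).im) y) _ w = _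
    rw [fderiv_const_mul ((hs x hx l).im.differentiableAt infty_ne_zero)]
    rfl
  have d2 : ∀ w, at1 (dF (E := E4) (g (l, false))) x w =
      -(2 * Real.pi)⁻¹ * (dC (fun z => s z l) x w).re := by
    intro w
    rw [← dC_re (hs x hx l)]
    show fderiv ℝ (fun y => -(2 * Real.pi)⁻¹ * repF x (fun z => (s z l).re) y) _ w = _
    rw [fderiv_const_mul ((hs x hx l).re.differentiableAt infty_ne_zero)]
    rfl
  have t1 : ∀ w, at1 (t (l, true)) x w = (dC (fun z => s z l) x w).re := fun w =>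
    dC_re (hs x hx l) w
  have t2 : ∀ w, at1 (t (l, false)) x w = (dC (fun z => s z l) x w).im := fun w =>
    dC_im (hs x hx l) w
  have z1 : at2 (dG (t (l, true))) x = 0 := dG_dF_loc hU (fun z hz => (hs z hz l).re) hx
  have z2 : at2 (dG (t (l, false))) x = 0 := dG_dF_loc hU (fun z hz => (hs z hz l).im) hx
  rw [d1, d1, d2, d2, t1, t1, t2, t2, z1, z2]
  simp only [zero_apply, mul_zero, add_zero]
  simp only [Complex.mul_re, Complex.I_re, Complex.I_im, Complex.sub_re, Complex.sub_im,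
    Complex.mul_im, Complex.conj_re, Complex.conj_im]
  ring

end

end Crest.Agent.R235.Lb453
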