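import Mathlib
import Crest.Agent.R235.LbG_453
import Crest.Agent.R235.LbD_453
import Crest.Agent.R235.HZLat_524

/-!
Row 235 (S0364), package HZ, line bundles (helper453), file H:
`HZ M = Lt G` for every good cover `G`, from the unimodularity on the nerves (`UNIALL`).
-/

set_option autoImplicit false
set_option linter.unusedSectionVars false
set_option maxSynthPendingDepth 3

open Set Function Filter Topology
open scoped ContDiff Manifold

universe u

namespace Crest.Agent.R235.Lb453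

open Crest.Agent.R240 Crest.Agent.R240.Ch Crest.Agent.R235.Loc_524 Crest.Agent.R235.Cdr_524
open Crest.Agent.R235.HZLat_524 Crest.Agent.R235.Tau_692

noncomputable section

variable {M : Type u} [TopologicalSpace M] [ChartedSpace E4 M] [IsManifold 𝓘(ℝ, E4) ∞ M]

/-- the standard Čech data of `tau c` -/
theorem cdata_tau {n : ℕ} {B : Fin n → Set M} {ψ : Fin n → M → ℝ} (hP : PUn E4 B ψ)
    {c : Fin n → Fin n → Fin n → ℝ} (hc : Coc B c) :
    CData B (tau ψ c) (pot ψ c) (trf ψ c) c where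
  smA i x _ := smAt1_of_smooth (smooth1_pot hP.sm i) x
  dA m x hm := by
    ext u v
    have h0 : at2 (tau ψ c) x = at2 (Weil_524.tauF (E := E4) ψ c) x := rfl
    rw [h0, at2_dG_pot hP.sm, Weil_524.tauF_apply]
    symm
    have zn : ∀ i, ¬ x ∈ B i → x ∉ tsupport (ψ i) := fun i hi h => hi (hP.supp i h)
    refine alg_tau (T := fun i => x ∈ B i) (hP.sum x) ?_ ?_ ?_ ?_ ?_ m ?_
    · have := congrArg (fun L : E4 →L[ℝ] ℝ => L u)
        (Weil_524.sum_dF_eq_zero (E := E4) hP.sm hP.sum x)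
      simpa [sum_apply] using this
    · have := congrArg (fun L : E4 →L[ℝ] ℝ => L v)
        (Weil_524.sum_dF_eq_zero (E := E4) hP.sm hP.sum x)
      simpa [sum_apply] using this
    · exact fun i hi => image_eq_zero_of_notMem_tsupport (zn i hi)
    · intro i hi; rw [Weil_524.dF_eq_zero_of_notMem (zn i hi)]; rfl
    · intro i hi; rw [Weil_524.dF_eq_zero_of_notMem (zn i hi)]; rfl
    · intro i j k hi hj hk
      have := hc m i j k ⟨x, hm, hi, hj, hk⟩
      linarith
  smf i j x _ _ := smAtF_of_smooth (smoothF_trf hP.sm i j) x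
  df m m' x hm hm' := by
    ext u
    have zn : ∀ i, ¬ x ∈ B i → x ∉ tsupport (ψ i) := fun i hi h => hi (hP.supp i h)
    rw [dF_trf hP.sm]
    show at1 (pot ψ c m) x u - at1 (pot ψ c m') x u = _
    rw [at1_pot, at1_pot]
    refine alg_pot (T := fun i => x ∈ B i) ?_ ?_ ?_ (hP.sum x) m m' ?_
    · have := congrArg (fun L : E4 →L[ℝ] ℝ => L u)
        (Weil_524.sum_dF_eq_zero (E := E4) hP.sm hP.sum x)
      simpa [sum_apply] using this
    · exact fun i hi => image_eq_zero_of_notMem_tsupport (zn i hi)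
    · intro i hi; rw [Weil_524.dF_eq_zero_of_notMem (zn i hi)]; rfl
    · intro j k hj hk
      have := hc m m' j k ⟨x, hm, hm', hj, hk⟩
      linarith
  coc i j k x hi hj hk := by
    unfold trf
    rw [← Finset.sum_sub_distrib, ← Finset.sum_add_distrib]
    have e : ∀ l, c j k l * ψ l x - c i k l * ψ l x + c i j l * ψ l x = c i j k * ψ l x := by
      intro l
      by_cases hl : x ∈ B l
      · have := hc i j k l ⟨x, hi, hj, hk, hl⟩
        linear_combination (ψ l x) * this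
      · rw [image_eq_zero_of_notMem_tsupport fun h => hl (hP.supp l h)]; ring
    simp only [e]
    rw [← Finset.mul_sum, hP.sum x, mul_one]

variable [T2Space M] [CompactSpace M]

/-- **integral Čech data: the class is in `HZ`** -/
theorem mem_HZ_of_cdata {n : ℕ} {B : Fin n → Set M} {ψ : Fin n → M → ℝ} (hP : PUn E4 B ψ)
    {a : Ch.Z2 M} {A : Fin n → F1 E4 M} {f : Fin n → Fin n → M → ℝ}
    {c : Fin n → Fin n → Fin n → ℝ} (h : CData B (a.1.1 : F2 E4 M) A f c)
    (hint : ∀ i j k x, x ∈ B i → x ∈ B j → x ∈ B k → ∃ m : ℤ, c i j k = m) :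
    cls a ∈ HZ M := by
  obtain ⟨A', f', h1, h2, h3, h4, h5⟩ := h.global hP
  refine cls_mem_HZ hP.sm hP.sum h1 h2 a h3 h4 fun i j k x hi hj hk => ?_
  obtain ⟨m, hm⟩ := hint i j k x (hP.supp i hi) (hP.supp j hj) (hP.supp k hk)
  exact ⟨m, by rw [h5 i j k x hi hj hk, hm]⟩

/-- the lattice of a good cover consists of Chern classes -/
theorem Lt_le_HZ (G : RGC M) : (Lt G : Set (H2 M)) ⊆ HZ M := by
  rintro _ ⟨c, rfl⟩
  rw [clsZ_apply]
  exact mem_HZ_of_cdata (pun G) (cdata_tau (pun G) (coc_of_isZ2 c.2))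
    fun i j k x _ _ _ => ⟨c.1 i j k, rfl⟩

/-- refinement -/
theorem Lt_le_of_refine {G G' : RGC M} (r : Fin G'.n → Fin G.n) (hr : ∀ k, G'.B k ⊆ G.B (r k)) :
    Lt G ≤ Lt G' := by
  rintro _ ⟨c, rfl⟩
  have h1 : CData G.B ((tz G c).1.1 : F2 E4 M) _ _ (fun i j k => (c.1 i j k : ℝ)) :=
    cdata_tau (pun G) (coc_of_isZ2 c.2)
  have h2 := h1.refine r hr
  have hz : R275.TopK106.IsZ2 G'.B (fun i j k => c.1 (r i) (r j) (r k)) := by
    intro i j k l ⟨x, hx⟩
    exact c.2 (r i) (r j) (r k) (r l)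
      ⟨x, ⟨⟨⟨hr i hx.1.1.1, hr j hx.1.1.2⟩, hr k hx.1.2⟩, hr l hx.2⟩⟩
  refine ⟨⟨_, hz⟩, ?_⟩
  rw [clsZ_apply, clsZ_apply]
  exact (cls_eq_tauZ (pun G') h2).symm

/-- **(LB2)**: the Chern class of a line bundle is in the lattice of every good cover that
trivialises it. -/
theorem chern_mem_Lt {N : ℕ} {p : M → Matrix (Fin N) (Fin N) ℂ} (hp : IsLine p) {a : Ch.Z2 M}
    (ha : IsChern p a) {G : RGC M} (hm : ∀ i, ∃ m, G.B i ⊆ Om p m) : cls a ∈ Lt G := by
  obtain ⟨A, f, k, h⟩ := exists_cdata_line hp ha G.isOpen G.sub G.conv hm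
  have hz : R275.TopK106.IsZ2 G.B k := by
    intro i j l m ⟨x, hx⟩
    have := h.isCoc i j l m ⟨x, hx.1.1.1, hx.1.1.2, hx.1.2, hx.2⟩
    beta_reduce at this
    exact_mod_cast this
  refine ⟨⟨k, hz⟩, ?_⟩
  rw [clsZ_apply]
  exact (cls_eq_tauZ (pun G) h).symm

/-- **HZEQ for one manifold** -/
theorem HZ_eq_Lt {F : Ch.Z2 M} (hF : ∀ x, W (val F x) (val F x) ≠ 0)
    (hU : ∀ G : RGC M, UNI F G) (G : RGC M) : HZ M = (Lt G : Set (H2 M)) := by
  refine Subset.antisymm ?_ (Lt_le_HZ G)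
  rintro _ ⟨N, p, a, hp, ha, rfl⟩
  obtain ⟨G', hG'⟩ := exists_rgc M (fun q : Fin G.n × Fin N => G.B q.1 ∩ Om p q.2)
    (fun q => (G.isOpen q.1).inter (isOpen_Om hp.smooth q.2)) (fun x => by
      obtain ⟨i, hi⟩ := G.cover x
      obtain ⟨m, hm⟩ := Om_cover hp x
      exact ⟨(i, m), hi, hm⟩)
  choose q hq using hG'
  have hBC : ∀ k, G'.B k ⊆ G'.C k := fun k => subset_closure.trans (G'.clos k)
  have h1 : Lt G ≤ Lt G' := Lt_le_of_refine (fun k => (q k).1) fun k x hx => (hq k (hBC k hx)).1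
  have h2 : cls a ∈ Lt G' := chern_mem_Lt hp ha fun k => ⟨(q k).2, fun x hx => (hq k (hBC k hx)).2⟩
  rw [lt_eq_of_le hF (hU G) (hU G') h1]
  exact h2

/-- **HZEQ from the unimodularity on all nerves** -/
theorem hzeq_of (h : UNIALL.{u}) : HZEQ.{u} := by
  intro M _ _ _ _ _ F hF G
  exact HZ_eq_Lt hF (fun G => h M F hF G) G

/-- **the output HZLAT from UNIALL alone** -/
theorem hzlat_of_uniall (h : UNIALL.{u}) : HZLAT.{u} := hzlat_of h (hzeq_of h)

end

end Crest.Agent.R235.Lb453
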