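import Mathlib
import Crest.Agent.R235.GCov_470
import Crest.Agent.R275.OAJ_627

/-!
Row 235 (S0364), package HZ (helper470): the oriented real atlas `OA 4 M` of a good cover `G` and a
nowhere degenerate two-form `F` (orientation `F ∧ F > 0`).
-/

set_option autoImplicit false
set_option maxSynthPendingDepth 3

open Set Function Filter MeasureTheory
open scoped Manifold ContDiff Topology

universe u

namespace Crest.Agent.R235

open Crest.Agent.R240 Crest.Agent.R240.Ch Crest.Agent.R240.Int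
open Crest.Agent.R275.StkR627 Crest.Agent.R275.OAt627 Crest.Agent.R275.OAJ627

noncomputable section

/-! ### the linear maps -/

/-- coordinates, the first one multiplied by `s`. -/
def cs (s : ℝ) (j : Fin 4) : ℝ := if j = 0 then s else 1

theorem cs_mul_self {s : ℝ} (hs : s * s = 1) (j : Fin 4) : cs s j * cs s j = 1 := by
  unfold cs; split_ifs
  · exact hs
  · norm_num

theorem prod_cs (s : ℝ) : ∏ j, cs s j = s := by
  simp [cs]

/-- the linear chart `E4 ≃ ℝ⁴` with the first coordinate multiplied by `s`, `s² = 1`. -/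
def LsL (s : ℝ) (hs : s * s = 1) : E4 ≃ₗ[ℝ] Rn 4 where
  toFun y := fun j => cs s j * y j
  map_add' y z := by funext j; simp [mul_add]
  map_smul' c y := by funext j; simp; ring
  invFun y := WithLp.toLp 2 fun j => cs s j * y j
  left_inv y := by
    ext j
    show cs s j * (cs s j * y j) = y j
    rw [← mul_assoc, cs_mul_self hs, one_mul]
  right_inv y := by
    funext j
    show cs s j * (cs s j * y j) = y j
    rw [← mul_assoc, cs_mul_self hs, one_mul]

/-- the continuous version. -/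
def Ls (s : ℝ) (hs : s * s = 1) : E4 ≃L[ℝ] Rn 4 := (LsL s hs).toContinuousLinearEquiv

variable {s : ℝ} {hs : s * s = 1}

@[simp] theorem Ls_apply (y : E4) (j : Fin 4) : Ls s hs y j = cs s j * y j := rfl

@[simp] theorem Ls_symm_apply (y : Rn 4) (j : Fin 4) : (Ls s hs).symm y j = cs s j * y j := rfl

theorem Ls_symm_single (b : Fin 4) : (Ls s hs).symm (Pi.single b 1) = cs s b • ee b := by
  ext j
  rw [Ls_symm_apply, PiLp.smul_apply, ee_apply, smul_eq_mul, Pi.single_apply]
  by_cases h : j = b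
  · subst h; simp
  · simp [h]

/-- determinant of a map in the coordinates `Ls`. -/
theorem det_conj_Ls {s t : ℝ} (hs : s * s = 1) (ht : t * t = 1) (A : E4 →L[ℝ] E4) :
    (((Ls t ht : E4 →L[ℝ] Rn 4).comp A).comp ((Ls s hs).symm : Rn 4 →L[ℝ] E4)).det =
      t * s * LinearMap.det (A : E4 →ₗ[ℝ] E4) := by
  have h1 : LinearMap.toMatrix' (((((Ls t ht : E4 →L[ℝ] Rn 4).comp A).comp
      ((Ls s hs).symm : Rn 4 →L[ℝ] E4)) : Rn 4 →L[ℝ] Rn 4) : Rn 4 →ₗ[ℝ] Rn 4) =
      Matrix.diagonal (cs t) * (Matrix.of fun i j => (A (ee j)) i) * Matrix.diagonal (cs s) := by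
    ext i j
    rw [Matrix.mul_diagonal, Matrix.diagonal_mul, LinearMap.toMatrix'_apply]
    show (Ls t ht) (A ((Ls s hs).symm (Pi.single j 1))) i = _
    rw [Ls_symm_single, map_smul, Ls_apply, PiLp.smul_apply, smul_eq_mul, Matrix.of_apply]
    ring
  have h2 : (((Ls t ht : E4 →L[ℝ] Rn 4).comp A).comp ((Ls s hs).symm : Rn 4 →L[ℝ] E4)).det =
      LinearMap.det (((((Ls t ht : E4 →L[ℝ] Rn 4).comp A).comp
      ((Ls s hs).symm : Rn 4 →L[ℝ] E4)) : Rn 4 →L[ℝ] Rn 4) : Rn 4 →ₗ[ℝ] Rn 4) := rfl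
  rw [h2, ← LinearMap.det_toMatrix', h1, Matrix.det_mul, Matrix.det_mul, Matrix.det_diagonal,
    Matrix.det_diagonal, prod_cs, prod_cs]
  have h3 : (Matrix.of fun i j => (A (ee j)) i) =
      LinearMap.toMatrix (EuclideanSpace.basisFun (Fin 4) ℝ).toBasis
        (EuclideanSpace.basisFun (Fin 4) ℝ).toBasis (A : E4 →ₗ[ℝ] E4) := by
    ext i j
    rw [LinearMap.toMatrix_apply]
    simp [ee]
  rw [h3, LinearMap.det_toMatrix]
  ring

/-! ### orientation of the charts -/

section man

variable {M : Type u} [TopologicalSpace M] [ChartedSpace E4 M] [IsManifold 𝓘(ℝ, E4) ∞ M]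

open Classical in
/-- the sign of the chart of `C i`. -/
def RGC.so (G : RGC M) (F : F2 E4 M) (i : Fin G.n) : ℝ :=
  if ∀ y ∈ chartAt E4 (G.p i) '' G.C i, 0 < W (rep (G.p i) F y) (rep (G.p i) F y) then 1 else -1

variable (G : RGC M) {F : F2 E4 M}

theorem RGC.so_mul_self (i : Fin G.n) : G.so F i * G.so F i = 1 := by
  unfold RGC.so; split_ifs <;> norm_num

omit [IsManifold 𝓘(ℝ, E4) ∞ M] in
theorem RGC.imageC_subset_target (i : Fin G.n) :
    chartAt E4 (G.p i) '' G.C i ⊆ (chartAt E4 (G.p i)).target := by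
  rintro _ ⟨x, hx, rfl⟩
  exact (chartAt E4 (G.p i)).map_source (G.subC i hx)

theorem RGC.so_pos (hF : Vol F) (i : Fin G.n) {y : E4} (hy : y ∈ chartAt E4 (G.p i) '' G.C i) :
    0 < G.so F i * W (rep (G.p i) F y) (rep (G.p i) F y) := by
  set S := chartAt E4 (G.p i) '' G.C i
  set w : E4 → ℝ := fun y => W (rep (G.p i) F y) (rep (G.p i) F y) with hw
  have hne : ∀ y ∈ S, w y ≠ 0 := fun y hy => hF.rep_ne (G.imageC_subset_target i hy)
  have hc : ContinuousOn w S :=
    (continuousOn_W (hF.cont _) (hF.cont _)).mono (G.imageC_subset_target i)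
  have hpre : IsPreconnected S := (G.convC i).isPreconnected
  by_cases h : ∀ y ∈ S, 0 < w y
  · have : G.so F i = 1 := if_pos h
    rw [this, one_mul]
    exact h y hy
  · have h1 : G.so F i = -1 := if_neg h
    rw [h1]
    push Not at h
    obtain ⟨z, hz, hz0⟩ := h
    have hz1 : w z < 0 := lt_of_le_of_ne hz0 (hne z hz)
    have : w y < 0 := by
      by_contra hy0
      push Not at hy0
      obtain ⟨t, ht, ht0⟩ := hpre.intermediate_value hz hy hc ⟨hz1.le, hy0⟩
      exact hne t ht ht0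
    show 0 < -1 * w y
    linarith

/-- the oriented chart of `C i`. -/
def RGC.ch (F : F2 E4 M) (i : Fin G.n) : Ch 4 M :=
  ((chartAt E4 (G.p i)).restrOpen (G.C i) (G.openC i)).transHomeomorph
    (Ls (G.so F i) (G.so_mul_self i)).toHomeomorph

theorem RGC.ch_source (i : Fin G.n) : (G.ch F i).source = G.C i := by
  show (chartAt E4 (G.p i)).source ∩ G.C i = G.C i
  exact inter_eq_right.2 (G.subC i)

theorem RGC.ch_apply (i : Fin G.n) (x : M) :
    G.ch F i x = Ls (G.so F i) (G.so_mul_self i) (chartAt E4 (G.p i) x) := rfl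

theorem RGC.ch_symm_apply (i : Fin G.n) (y : Rn 4) :
    (G.ch F i).symm y =
      (chartAt E4 (G.p i)).symm ((Ls (G.so F i) (G.so_mul_self i)).symm y) := rfl

theorem RGC.mem_ch_target {i : Fin G.n} {y : Rn 4} : y ∈ (G.ch F i).target ↔
    (Ls (G.so F i) (G.so_mul_self i)).symm y ∈ chartAt E4 (G.p i) '' G.C i := by
  have : y ∈ (G.ch F i).target ↔ (Ls (G.so F i) (G.so_mul_self i)).symm y ∈
      (chartAt E4 (G.p i)).target ∩ (chartAt E4 (G.p i)).symm ⁻¹' G.C i := Iff.rfl
  rw [this]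
  constructor
  · rintro ⟨h1, h2⟩
    exact ⟨_, h2, (chartAt E4 (G.p i)).right_inv h1⟩
  · rintro h
    refine ⟨G.imageC_subset_target i h, ?_⟩
    obtain ⟨x, hx, hxy⟩ := h
    rw [mem_preimage, ← hxy, (chartAt E4 (G.p i)).left_inv (G.subC i hx)]
    exact hx

/-- a smooth function is smooth in the oriented charts. -/
theorem RGC.smO {f : M → ℝ} (hf : SmoothF E4 f) (i : Fin G.n) : SmO (G.ch F i) f := by
  have h1 := hf (G.p i)
  refine ContDiffOn.comp (g := repF (E := E4) (G.p i) f) h1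
    (Ls (G.so F i) (G.so_mul_self i)).symm.contDiff.contDiffOn fun y hy => ?_
  exact G.imageC_subset_target i (G.mem_ch_target.1 hy)

/-- transition maps of the preferred charts are smooth -/
theorem contDiffAt_trans {p q : M} {y : E4} (hy : y ∈ (chartAt E4 p).target)
    (hq : (chartAt E4 p).symm y ∈ (chartAt E4 q).source) :
    ContDiffAt ℝ ∞ (chartAt E4 q ∘ (chartAt E4 p).symm) y := by
  have h := StructureGroupoid.compatible (contDiffGroupoid ∞ 𝓘(ℝ, E4))
    (chart_mem_atlas E4 p) (chart_mem_atlas E4 q)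
  rw [contDiffGroupoid, mem_groupoid_of_pregroupoid] at h
  have h2 : ContDiffOn ℝ ∞ ((chartAt E4 p).symm ≫ₕ chartAt E4 q)
      ((chartAt E4 p).symm ≫ₕ chartAt E4 q).source := by
    simpa [contDiffPregroupoid] using h.1
  have hmem : y ∈ ((chartAt E4 p).symm ≫ₕ chartAt E4 q).source := by
    rw [OpenPartialHomeomorph.trans_source, OpenPartialHomeomorph.symm_source]
    exact ⟨hy, hq⟩
  exact h2.contDiffAt (((chartAt E4 p).symm ≫ₕ chartAt E4 q).open_source.mem_nhds hmem)

theorem RGC.cpt (hF : Vol F) (i j : Fin G.n) : Cpt (G.ch F i) (G.ch F j) := by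
  have key : ∀ z ∈ (G.ch F i).target ∩ (G.ch F i).symm ⁻¹' (G.ch F j).source,
      (Ls (G.so F i) (G.so_mul_self i)).symm z ∈ (chartAt E4 (G.p i)).target ∧
      (chartAt E4 (G.p i)).symm ((Ls (G.so F i) (G.so_mul_self i)).symm z) ∈
        (chartAt E4 (G.p j)).source ∧
      (Ls (G.so F i) (G.so_mul_self i)).symm z ∈ chartAt E4 (G.p i) '' G.C i ∧
      (chartAt E4 (G.p j) ∘ (chartAt E4 (G.p i)).symm)
        ((Ls (G.so F i) (G.so_mul_self i)).symm z) ∈ chartAt E4 (G.p j) '' G.C j := by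
    rintro z ⟨h1, h2⟩
    have h3 := G.mem_ch_target.1 h1
    have h4 : (G.ch F i).symm z ∈ G.C j := by
      have := h2
      rwa [mem_preimage, RGC.ch_source] at this
    exact ⟨G.imageC_subset_target i h3, G.subC j h4, h3, ⟨_, h4, rfl⟩⟩
  have hfun : (fun z => G.ch F j ((G.ch F i).symm z)) = fun z =>
      Ls (G.so F j) (G.so_mul_self j) ((chartAt E4 (G.p j) ∘ (chartAt E4 (G.p i)).symm)
        ((Ls (G.so F i) (G.so_mul_self i)).symm z)) := rfl
  constructor
  · rw [hfun]
    intro z hz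
    obtain ⟨h1, h2, -, -⟩ := key z hz
    refine ContDiffAt.contDiffWithinAt ?_
    have a1 : ContDiffAt ℝ ∞ (fun z => (chartAt E4 (G.p j) ∘ (chartAt E4 (G.p i)).symm)
        ((Ls (G.so F i) (G.so_mul_self i)).symm z)) z :=
      ContDiffAt.comp (g := chartAt E4 (G.p j) ∘ (chartAt E4 (G.p i)).symm) z
        (contDiffAt_trans h1 h2)
        (Ls (G.so F i) (G.so_mul_self i)).symm.contDiff.contDiffAt
    exact (Ls (G.so F j) (G.so_mul_self j)).contDiff.contDiffAt.comp z a1
  · intro z hz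
    obtain ⟨h1, h2, h3, h4⟩ := key z hz
    set y := (Ls (G.so F i) (G.so_mul_self i)).symm z with hy
    set D := fderiv ℝ (chartAt E4 (G.p j) ∘ (chartAt E4 (G.p i)).symm) y with hD
    have hd : DifferentiableAt ℝ (chartAt E4 (G.p j) ∘ (chartAt E4 (G.p i)).symm) y :=
      (contDiffAt_trans h1 h2).differentiableAt (by simp)
    have hder : HasFDerivAt (fun z => G.ch F j ((G.ch F i).symm z))
        (((Ls (G.so F j) (G.so_mul_self j) : E4 →L[ℝ] Rn 4).comp D).comp
          ((Ls (G.so F i) (G.so_mul_self i)).symm : Rn 4 →L[ℝ] E4)) z := by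
      rw [hfun]
      have a1 : HasFDerivAt (fun z => (Ls (G.so F i) (G.so_mul_self i)).symm z)
        ((Ls (G.so F i) (G.so_mul_self i)).symm : Rn 4 →L[ℝ] E4) z :=
        ((Ls (G.so F i) (G.so_mul_self i)).symm : Rn 4 →L[ℝ] E4).hasFDerivAt
      have a2 := hd.hasFDerivAt.comp z a1
      exact ((Ls (G.so F j) (G.so_mul_self j) : E4 →L[ℝ] Rn 4).hasFDerivAt).comp z a2
    rw [hder.fderiv, det_conj_Ls]
    have e1 := rep_trans_pull h1 h2 F
    have e2 : W (rep (G.p i) F y) (rep (G.p i) F y) = LinearMap.det (D : E4 →ₗ[ℝ] E4) *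
        W (rep (G.p j) F ((chartAt E4 (G.p j) ∘ (chartAt E4 (G.p i)).symm) y))
          (rep (G.p j) F ((chartAt E4 (G.p j) ∘ (chartAt E4 (G.p i)).symm) y)) := by
      rw [e1, W_pull (rep_alt hF.alt _ _) (rep_alt hF.alt _ _)]
    have p1 := G.so_pos hF i h3
    have p2 := G.so_pos hF j h4
    rw [e2] at p1
    set d := LinearMap.det (D : E4 →ₗ[ℝ] E4)
    set a := W (rep (G.p j) F ((chartAt E4 (G.p j) ∘ (chartAt E4 (G.p i)).symm) y))
          (rep (G.p j) F ((chartAt E4 (G.p j) ∘ (chartAt E4 (G.p i)).symm) y))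
    have h5 := G.so_mul_self (F := F) j
    have h6 : 0 < (G.so F j * G.so F i * d) * (G.so F j * a) := by
      have : (G.so F j * G.so F i * d) * (G.so F j * a) =
          (G.so F j * G.so F j) * (G.so F i * (d * a)) := by ring
      rw [this, h5, one_mul]
      exact p1
    exact (pos_iff_pos_of_mul_pos h6).2 p2

/-- **the oriented atlas** of a good cover. -/
def RGC.OAt [CompactSpace M] (hF : Vol F) : OA 4 M where
  ι := Fin G.n
  e := G.ch F
  cpt i j := G.cpt hF i j
  θ := G.ψ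
  θ_sm i j := G.smO (G.smooth i) j
  θ_cpt i := (isClosed_tsupport _).isCompact
  θ_sub i := by
    rw [RGC.ch_source]
    exact (G.supp i).trans (subset_closure.trans (G.clos i))
  lf K _ := Set.toFinite _
  sum x := by rw [finsum_eq_sum_of_fintype]; exact G.sum x

theorem RGC.sm_OAt [CompactSpace M] (hF : Vol F) {f : M → ℝ} (hf : SmoothF E4 f) :
    (G.OAt hF).Sm f := fun i => G.smO hf i

theorem RGC.mem_F [CompactSpace M] (hF : Vol F) {f : M → ℝ} (hf : SmoothF E4 f) :
    f ∈ (G.OAt hF).F := ⟨G.sm_OAt hF hf, 0, univ, isCompact_univ, fun x hx => absurd (mem_univ x) hx⟩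

/-- the partition of unity in `F`. -/
def RGC.ψF [CompactSpace M] (hF : Vol F) (i : Fin G.n) : (G.OAt hF).F :=
  ⟨G.ψ i, G.mem_F hF (G.smooth i)⟩

end man

end

end Crest.Agent.R235
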