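import Mathlib
import Crest.Agent.R235.OAR_470

/-!
Row 235 (S0364), package HZ (helper470): the integral `∫ f0 df1 df2 df3 df4` of the oriented atlas
is `I F (f0 df1 ∧ df2) (df3 ∧ df4)`.
-/

set_option autoImplicit false
set_option maxSynthPendingDepth 3

open Set Function Filter MeasureTheory
open scoped Manifold ContDiff Topology

universe u

namespace Crest.Agent.R235

open Crest.Agent.R240 Crest.Agent.R240.Ch Crest.Agent.R240.Int
open Crest.Agent.R275.StkR627 Crest.Agent.R275.OAt627 Crest.Agent.R275.OAJ627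

noncomputable section

/-! ### linear algebra -/

theorem W_wed4 (a b c d : E4 →L[ℝ] ℝ) :
    W (wed a b) (wed c d) = Matrix.det (Matrix.of fun i j => (![a, b, c, d] i) (ee j)) := by
  rw [Matrix.det_succ_row_zero]
  simp only [Fin.sum_univ_succ, Matrix.det_fin_three, Matrix.submatrix_apply, Matrix.of_apply,
    Fin.sum_univ_zero]
  simp [W, ent, Fin.succAbove, Fin.lt_def]
  ring

theorem measurePreserving_Ls {s : ℝ} (hs : s * s = 1) :
    MeasurePreserving (fun y : E4 => Ls s hs y) volume volume := by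
  have h1 : MeasurePreserving (fun (a : Fin 4 → ℝ) (j : Fin 4) => cs s j * a j) volume volume := by
    refine volume_preserving_pi (f := fun (j : Fin 4) (t : ℝ) => cs s j * t) fun j => ?_
    have h2 : cs s j = 1 ∨ cs s j = -1 := by
      have := cs_mul_self hs j
      exact mul_self_eq_one_iff.1 this
    rcases h2 with h2 | h2
    · rw [h2]
      have h3 : (fun t : ℝ => (1 : ℝ) * t) = id := by funext t; simp
      rw [h3]; exact MeasurePreserving.id (volume : Measure ℝ)
    · rw [h2]; simpa using Measure.measurePreserving_neg (volume : Measure ℝ)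
  exact h1.comp (EuclideanSpace.volume_preserving_symm_measurableEquiv_toLp (Fin 4))

section man

variable {M : Type u} [TopologicalSpace M] [ChartedSpace E4 M] [IsManifold 𝓘(ℝ, E4) ∞ M]
variable (G : RGC M) {F : F2 E4 M}

theorem RGC.der_ch {f : M → ℝ} (hf : SmoothF E4 f) (i : Fin G.n) {z : E4}
    (hz : z ∈ (chartAt E4 (G.p i)).target) (b : Fin 4) :
    der (G.ch F i) f (Ls (G.so F i) (G.so_mul_self i) z) b =
      cs (G.so F i) b * (fderiv ℝ (repF (E := E4) (G.p i) f) z) (ee b) := by
  have h1 : DifferentiableAt ℝ (repF (E := E4) (G.p i) f) z := (hf.at hz).differentiableAt (by simp)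
  have h2 : HasFDerivAt (fun y => f ((G.ch F i).symm y))
      ((fderiv ℝ (repF (E := E4) (G.p i) f) z).comp
        ((Ls (G.so F i) (G.so_mul_self i)).symm : Rn 4 →L[ℝ] E4))
      (Ls (G.so F i) (G.so_mul_self i) z) := by
    have a1 : HasFDerivAt (fun z => (Ls (G.so F i) (G.so_mul_self i)).symm z)
      ((Ls (G.so F i) (G.so_mul_self i)).symm : Rn 4 →L[ℝ] E4)
      (Ls (G.so F i) (G.so_mul_self i) z) :=
      ((Ls (G.so F i) (G.so_mul_self i)).symm : Rn 4 →L[ℝ] E4).hasFDerivAt
    have a2 : HasFDerivAt (repF (E := E4) (G.p i) f) (fderiv ℝ (repF (E := E4) (G.p i) f) z)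
        ((Ls (G.so F i) (G.so_mul_self i)).symm (Ls (G.so F i) (G.so_mul_self i) z)) := by
      rw [ContinuousLinearEquiv.symm_apply_apply]
      exact h1.hasFDerivAt
    exact a2.comp _ a1
  show fderiv ℝ (fun y => f ((G.ch F i).symm y)) _ (Pi.single b 1) = _
  rw [h2.fderiv, ContinuousLinearMap.comp_apply]
  show (fderiv ℝ (repF (E := E4) (G.p i) f) z) ((Ls (G.so F i) (G.so_mul_self i)).symm
    (Pi.single b 1)) = _
  rw [Ls_symm_single, map_smul, smul_eq_mul]

theorem RGC.Dt_ch {f : Fin 4 → M → ℝ} (hf : ∀ a, SmoothF E4 (f a)) (i : Fin G.n) {z : E4}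
    (hz : z ∈ (chartAt E4 (G.p i)).target) :
    Dt (G.ch F i) f (Ls (G.so F i) (G.so_mul_self i) z) =
      G.so F i * W (rep (G.p i) (wedG (dF (f 0)) (dF (f 1))) z)
        (rep (G.p i) (wedG (dF (f 2)) (dF (f 3))) z) := by
  rw [rep_wedG_eq, rep_wedG_eq, W_wed4, Dt_eq]
  have h1 : (Matrix.of fun a b => der (G.ch F i) (f a)
      (Ls (G.so F i) (G.so_mul_self i) z) b) =
      (Matrix.of fun a b => (![rep1 (G.p i) (dF (f 0)) z, rep1 (G.p i) (dF (f 1)) z,
        rep1 (G.p i) (dF (f 2)) z, rep1 (G.p i) (dF (f 3)) z] a) (ee b)) *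
      Matrix.diagonal (cs (G.so F i)) := by
    ext a b
    rw [Matrix.mul_diagonal, Matrix.of_apply, Matrix.of_apply, G.der_ch (hf a) i hz b]
    have h2 : (![rep1 (G.p i) (dF (f 0)) z, rep1 (G.p i) (dF (f 1)) z,
        rep1 (G.p i) (dF (f 2)) z, rep1 (G.p i) (dF (f 3)) z] a) =
        fderiv ℝ (repF (E := E4) (G.p i) (f a)) z := by
      fin_cases a <;> exact rep1_dF (hf _) hz
    rw [h2, mul_comm]
  rw [h1, Matrix.det_mul, Matrix.det_diagonal, prod_cs, mul_comm]

theorem c2s {b : F2 E4 M} (hb : Smooth2 b) : Int.Cont2 b := Int.Smooth2.cont2 hb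

variable [MeasurableSpace M] [BorelSpace M] [T2Space M] [CompactSpace M]

theorem RGC.I_chart (hF : Vol F) (i : Fin G.n) {g : M → ℝ} (hg : SmoothF E4 g)
    (hgs : tsupport g ⊆ G.C i) {b c : F2 E4 M} (hb : Smooth2 b) (hc : Smooth2 c) :
    Int.I F (fmul g b) c = ∫ z in (Ls (G.so F i) (G.so_mul_self i)) ⁻¹' (G.ch F i).target,
      g ((chartAt E4 (G.p i)).symm z) *
        (G.so F i * W (rep (G.p i) b z) (rep (G.p i) c z)) := by
  have hgb : Smooth2 (fmul g b) := Smooth2.fmul hg hb
  have hT : (Ls (G.so F i) (G.so_mul_self i)) ⁻¹' (G.ch F i).target =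
      chartAt E4 (G.p i) '' G.C i := by
    ext z
    rw [mem_preimage, G.mem_ch_target, ContinuousLinearEquiv.symm_apply_apply]
  have hopen : IsOpen (chartAt E4 (G.p i) '' G.C i) :=
    (chartAt E4 (G.p i)).isOpen_image_of_subset_source (G.openC i) (G.subC i)
  unfold Int.I
  rw [integral_mu_of_supp hF (G.p i)
    (continuous_qG hF (c2s hgb) (c2s hc)).aestronglyMeasurable ?_, hT]
  · refine (setIntegral_eq_of_subset_of_forall_sdiff_eq_zero
      (chartAt E4 (G.p i)).open_target.measurableSet (G.imageC_subset_target i) ?_).trans ?_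
    rotate_left
    · refine setIntegral_congr_fun hopen.measurableSet fun z hz => ?_
      have hzt := G.imageC_subset_target i hz
      have h1 := G.so_pos hF i hz
      show dens F (G.p i) z • qG F (fmul g b) c ((chartAt E4 (G.p i)).symm z) = _
      rw [qG_chart hF hgb.1 hc.1 hzt, smul_eq_mul, dens_mul_q hF hzt, rep_fmul, W_smul_left]
      have h2 : sg F (G.p i) z = G.so F i := by
        unfold sg
        rcases mul_self_eq_one_iff.1 (G.so_mul_self (F := F) i) with h | h
        · rw [h, one_mul] at h1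
          rw [h, sign_pos h1]; simp
        · rw [h] at h1
          rw [h, sign_neg (by linarith)]; simp
      rw [h2]
      show G.so F i * (g ((chartAt E4 (G.p i)).symm z) * _) = _
      ring
    · rintro z ⟨hz1, hz2⟩
      have h1 : (chartAt E4 (G.p i)).symm z ∉ G.C i := fun h =>
        hz2 ⟨_, h, (chartAt E4 (G.p i)).right_inv hz1⟩
      have h2 : g ((chartAt E4 (G.p i)).symm z) = 0 :=
        image_eq_zero_of_notMem_tsupport fun h => h1 (hgs h)
      show dens F (G.p i) z • qG F (fmul g b) c ((chartAt E4 (G.p i)).symm z) = 0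
      rw [qG_fmul_left, h2, zero_mul, smul_zero]
  · intro x hx
    have h2 : g x = 0 := image_eq_zero_of_notMem_tsupport fun h => hx (G.subC i (hgs h))
    rw [qG_fmul_left, h2, zero_mul]

/-- **the dictionary**. -/
theorem RGC.Jf_eq (hF : Vol F) {f : Fin 5 → M → ℝ} (hf : ∀ a, SmoothF E4 (f a)) :
    OA.Jf (G.OAt hF) f =
      Int.I F (fmul (f 0) (wedG (dF (f 1)) (dF (f 2)))) (wedG (dF (f 3)) (dF (f 4))) := by
  set b : F2 E4 M := wedG (dF (f 1)) (dF (f 2)) with hb
  set c : F2 E4 M := wedG (dF (f 3)) (dF (f 4)) with hc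
  have hsb : Smooth2 b := Smooth2.wed (Smooth1.dF (hf 1)) (Smooth1.dF (hf 2))
  have hsc : Smooth2 c := Smooth2.wed (Smooth1.dF (hf 3)) (Smooth1.dF (hf 4))
  have h1 : ∀ i : Fin G.n, OA.Jt (G.OAt hF) f i = Int.I F (fmul (G.ψ i) (fmul (f 0) b)) c := by
    intro i
    have e1 : fmul (G.ψ i) (fmul (f 0) b) = fmul (fun x => G.ψ i x * f 0 x) b := by
      funext x
      show G.ψ i x • (f 0 x • b x) = (G.ψ i x * f 0 x) • b x
      rw [smul_smul]
    have hts : tsupport (fun x => G.ψ i x * f 0 x) ⊆ G.C i :=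
      (closure_mono (support_mul_subset_left _ _)).trans
        ((G.supp i).trans (subset_closure.trans (G.clos i)))
    rw [e1, G.I_chart hF i ((G.smooth i).mul (hf 0)) hts hsb hsc]
    have e2 := (measurePreserving_Ls (G.so_mul_self (F := F) i)).setIntegral_preimage_emb
      (Ls (G.so F i) (G.so_mul_self i)).toHomeomorph.measurableEmbedding
      (fun y => (G.ψ i) ((G.ch F i).symm y) *
        OA.W (G.ch F i) f y) (G.ch F i).target
    refine Eq.trans ?_ (e2.symm.trans ?_)
    · rfl
    · refine setIntegral_congr_fun ?_ fun z hz => ?_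
      · exact ((G.ch F i).open_target.preimage
          (Ls (G.so F i) (G.so_mul_self i)).continuous).measurableSet
      · have hz' : z ∈ chartAt E4 (G.p i) '' G.C i := by
          have := G.mem_ch_target.1 hz
          rwa [ContinuousLinearEquiv.symm_apply_apply] at this
        have e3 : (G.ch F i).symm (Ls (G.so F i) (G.so_mul_self i) z) =
            (chartAt E4 (G.p i)).symm z := by
          rw [G.ch_symm_apply, ContinuousLinearEquiv.symm_apply_apply]
        show (G.ψ i) ((G.ch F i).symm (Ls (G.so F i) (G.so_mul_self i) z)) *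
          (f 0 ((G.ch F i).symm (Ls (G.so F i) (G.so_mul_self i) z)) *
            Dt (G.ch F i) (fun a => f a.succ) (Ls (G.so F i) (G.so_mul_self i) z)) = _
        rw [G.Dt_ch (fun a => hf a.succ) i (G.imageC_subset_target i hz'), e3]
        show _ = G.ψ i ((chartAt E4 (G.p i)).symm z) * f 0 ((chartAt E4 (G.p i)).symm z) *
          (G.so F i * W (rep (G.p i) b z) (rep (G.p i) c z))
        rw [mul_assoc]
        rfl
  have h2 : OA.Jf (G.OAt hF) f = ∑ i : Fin G.n, OA.Jt (G.OAt hF) f i :=
    finsum_eq_sum_of_fintype (α := Fin G.n) _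
  rw [h2, Finset.sum_congr rfl fun i _ => h1 i]
  have h3 : ∀ s : Finset (Fin G.n), ∑ i ∈ s, Int.I F (fmul (G.ψ i) (fmul (f 0) b)) c =
      Int.I F (fmul (fun x => ∑ i ∈ s, G.ψ i x) (fmul (f 0) b)) c := by
    intro s
    classical
    induction s using Finset.induction_on with
    | empty =>
      have : fmul (fun x : M => ∑ i ∈ (∅ : Finset (Fin G.n)), G.ψ i x) (fmul (f 0) b) =
          (0 : ℝ) • fmul (f 0) b := by
        funext x
        show (∑ i ∈ (∅ : Finset (Fin G.n)), G.ψ i x) • _ = _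
        rw [Finset.sum_empty]; rfl
      rw [this, I_smul_left, zero_mul, Finset.sum_empty]
    | insert i s hi ih =>
      rw [Finset.sum_insert hi, ih]
      have hs1 : SmoothF E4 fun x => ∑ i ∈ s, G.ψ i x := fun p =>
        ContDiffOn.sum fun i _ => G.smooth i p
      have hfb : Smooth2 (fmul (f 0) b) := Smooth2.fmul (hf 0) hsb
      rw [← I_add_left hF (c2s (Smooth2.fmul (G.smooth i) hfb)) (c2s (Smooth2.fmul hs1 hfb))
        (c2s hsc)]
      congr 1
      funext x
      show G.ψ i x • (fmul (f 0) b x) + (∑ i ∈ s, G.ψ i x) • (fmul (f 0) b x) =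
        (∑ i ∈ insert i s, G.ψ i x) • (fmul (f 0) b x)
      rw [Finset.sum_insert hi, add_smul]
  rw [h3]
  congr 1
  funext x
  show (∑ i, G.ψ i x) • (fmul (f 0) b x) = fmul (f 0) b x
  rw [G.sum x, one_smul]

end man

end

end Crest.Agent.R235
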