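import Mathlib
import Crest.Agent.R235.OAD_470
import Crest.Agent.R275.EOF_627

/-!
Row 235 (S0364), package HZ (helper470): the orientation functional of a closed oriented
four-manifold on Alexander-Spanier cochains, with the label formula in terms of `Int.I`.
-/

set_option autoImplicit false
set_option maxSynthPendingDepth 3

open Set Function Filter MeasureTheory
open scoped Manifold ContDiff Topology

namespace Crest.Agent.R235

open Crest.Agent.R240 Crest.Agent.R240.Ch Crest.Agent.R240.Int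
open Crest.Agent.R275 Crest.Agent.R275.StkR627 Crest.Agent.R275.OAt627 Crest.Agent.R275.OAJ627

noncomputable section

/-- a real chart as a complex chart. -/
def toC2 {M : Type*} [TopologicalSpace M] (e : Ch 4 M) :
    OpenPartialHomeomorph M (EuclideanSpace ℂ (Fin 2)) :=
  e.transHomeomorph OAG627.rl.symm.toHomeomorph

theorem toC2_source {M : Type*} [TopologicalSpace M] (e : Ch 4 M) :
    (toC2 e).source = e.source := rfl

theorem rch_toC2 {M : Type*} [TopologicalSpace M] (e : Ch 4 M) : OAG627.rch (toC2 e) = e := by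
  refine OpenPartialHomeomorph.ext _ _ (fun x => ?_) (fun y => ?_) rfl
  · show OAG627.rl (OAG627.rl.symm (e x)) = e x
    rw [ContinuousLinearEquiv.apply_symm_apply]
  · show e.symm (OAG627.rl (OAG627.rl.symm y)) = e.symm y
    rw [ContinuousLinearEquiv.apply_symm_apply]

variable {M : Type} [TopologicalSpace M] [T2Space M] [CompactSpace M]
  [ChartedSpace E4 M] [IsManifold 𝓘(ℝ, E4) ∞ M]

/-- the weight `∫ ψ_{t₀} dψ_{t₁} ∧ dψ_{t₂} ∧ dψ_{t₃} ∧ dψ_{t₄}`. -/
def RGC.wt (G : RGC M) (F : F2 E4 M) (t : Fin 5 → Fin G.n) : ℝ :=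
  letI : MeasurableSpace M := borel M
  haveI : BorelSpace M := ⟨rfl⟩
  Int.I F (fmul (G.ψ (t 0)) (wedG (dF (G.ψ (t 1))) (dF (G.ψ (t 2)))))
    (wedG (dF (G.ψ (t 3))) (dF (G.ψ (t 4))))

/-- **the orientation functional**. -/
theorem RGC.exists_functional (G : RGC M) {F : F2 E4 M} (hF : Vol F) :
    ∃ E : (List M → ℤ) → ℝ, Zig470.Ev 3 E ∧
      (∀ i p, p ∈ G.C i → ∃ V ∈ 𝓝 p, closure V ⊆ (toC2 (G.ch F i)).source ∧
        E (PD412.tauP (toC2 (G.ch F i)) p V) = 1) ∧
      ∀ lab : M → Fin G.n, ASConv293.Lab G.B lab → ∀ C : List (Fin G.n) → ℤ,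
        (∀ l : List (Fin G.n), l.length = 6 → (∃ x, ∀ v ∈ l, x ∈ G.B v) → ASZ627.dl C l = 0) →
        E (fun l => C (l.map lab)) =
          ∑ t : Fin 5 → Fin G.n, (C [t 0, t 1, t 2, t 3, t 4] : ℝ) * G.wt F t := by
  classical
  letI : MeasurableSpace M := borel M
  haveI : BorelSpace M := ⟨rfl⟩
  haveI : LocallyCompactSpace M := ChartedSpace.locallyCompactSpace E4 M
  haveI : SecondCountableTopology M := ChartedSpace.secondCountable_of_sigmaCompact E4 M
  haveI : TopologicalSpace.MetrizableSpace M := inferInstance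
  let _ : MetricSpace M := TopologicalSpace.metrizableSpaceMetric M
  refine ⟨EOr627.EZ (EOG627.jd (G.OAt hF)), ⟨?_, ?_, ?_⟩, ?_, ?_⟩
  · intro φ ψ h1 h2 h3 h4
    exact EOr627.EZ_add h1 h3 h2 h4
  · intro φ ψ h
    exact EOr627.EZ_congr h
  · intro ψ h
    exact EOr627.EZ_dl h
  · intro i p hp
    have hp' : p ∈ (G.ch F i).source := by rw [G.ch_source]; exact hp
    obtain ⟨V, hV, hVs, hVc⟩ := local_compact_nhds ((G.ch F i).open_source.mem_nhds hp')
    refine ⟨V, hV, ?_, ?_⟩
    · rw [hVc.isClosed.closure_eq]; exact hVs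
    · have h1 := EOF627.tauP_eq (toC2 (G.ch F i)) p V
      rw [rch_toC2] at h1
      exact EOF627.E_TL (A := G.OAt hF) (e := G.ch F i) ((G.OAt hF).ok_e i) hp' hV hVc hVs
        fun l hl => h1 l hl
  · intro lab hlab C hC
    have hrob : ∀ x, ∀ᶠ y in 𝓝 x, x ∈ G.B (lab y) := by
      intro x
      obtain ⟨F', h1, h2⟩ := hlab x
      filter_upwards [h2] with y hy
      exact h1 _ hy
    have key := EOr627.EZ_label (G := EOG627.jd (G.OAt hF)) (U := G.B) hrob
      (ψ := fun v => G.ψF hF v) (fun v => G.supp v) (locallyFinite_of_finite _)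
      (fun x => by rw [finsum_eq_sum_of_fintype]; exact G.sum x) C hC Finset.univ
      (fun _ _ _ _ _ _ => Finset.mem_univ _) (fun v _ => ⟨univ, isCompact_univ, subset_univ _⟩)
    rw [key]
    let ee : (Fin 5 → (Finset.univ : Finset (Fin G.n))) ≃ (Fin 5 → Fin G.n) :=
      Equiv.arrowCongr (Equiv.refl _) (Equiv.subtypeUnivEquiv fun x => Finset.mem_univ x)
    refine Fintype.sum_equiv ee _ _ fun v => ?_
    have e1 : List.ofFn (fun i => (v i : Fin G.n)) =
        [ee v 0, ee v 1, ee v 2, ee v 3, ee v 4] := by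
      simp only [List.ofFn_succ, List.ofFn_zero]
      rfl
    rw [e1]
    congr 1
    have h1 := G.Jf_eq hF (f := fun k => G.ψ (ee v k)) (fun k => G.smooth _)
    exact h1

end

end Crest.Agent.R235
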