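import Crest.Agent.R275.KZig_106

/-!
Row 235 (S0364), package HZ, leaf UNI-ABS (helper692; exact statement helper470 #1682): port of
R275 (PDB_412, KAsm_106, KZig_106) from a complex atlas to a bare good cover.

`GoodU U e` : `U` an open cover, `U i ⊆ (e i).source`, `e i '' (U i ∩ U j)` convex.
For an evaluation functional `E` on closed Alexander-Spanier 4-cochains, normalised by the point
classes: `E` is integral, `IZ` (= `E` of the cup product) is an integral form on the 2-cocycles of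
the nerve, additive, invariant under coboundaries, and unimodular (`IZ_dual`).
-/

set_option autoImplicit false
set_option linter.unusedSectionVars false

open Set Filter Topology

namespace Crest.Agent.R235.UniAbs_692

open Crest.Agent.R275 Crest.Agent.R275.TopK106 Crest.Agent.R275.ASConv293
  Crest.Agent.R275.LnkCup692 Crest.Agent.R275.Zig470 Crest.Agent.R275.PD412
  Crest.Agent.R275.PDA412 Crest.Agent.R275.PDM412 Crest.Agent.R275.PDB412

noncomputable section

variable {M : Type*} [TopologicalSpace M] {ι : Type*}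

/-- a good cover, with charts to `C2` -/
structure GoodU (U : ι → Set M) (e : ι → OpenPartialHomeomorph M C2) : Prop where
  op : ∀ i, IsOpen (U i)
  cov : ∀ x, ∃ i, x ∈ U i
  sub : ∀ i, U i ⊆ (e i).source
  conv : ∀ i j, Convex ℝ (e i '' (U i ∩ U j))

/-- normalisation of a functional at all points -/
def NrmU (U : ι → Set M) (e : ι → OpenPartialHomeomorph M C2) (E : (List M → ℤ) → ℝ) : Prop :=
  ∀ i p, p ∈ U i → ∃ V ∈ 𝓝 p, closure V ⊆ (e i).source ∧ E (tauP (e i) p V) = 1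

/-- intersection over a set of indices -/
def inU (U : ι → Set M) (s : Set ι) : Set M := {x | ∀ i ∈ s, x ∈ U i}

variable {U : ι → Set M} {e : ι → OpenPartialHomeomorph M C2}

namespace GoodU

theorem isOpen_inU (h : GoodU U e) {s : Set ι} (hs : s.Finite) : IsOpen (inU U s) := by
  have : inU U s = ⋂ j ∈ s, U j := by ext x; simp [inU]
  rw [this]
  exact hs.isOpen_biInter fun j _ => h.op j

theorem image_inU (h : GoodU U e) {s : Set ι} {i : ι} (hi : i ∈ s) :
    e i '' inU U s = ⋂ j ∈ s, e i '' (U i ∩ U j) := by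
  ext y
  simp only [mem_image, mem_iInter]
  constructor
  · rintro ⟨x, hx, rfl⟩ j hj
    exact ⟨x, ⟨hx i hi, hx j hj⟩, rfl⟩
  · intro hy
    obtain ⟨x, hx, rfl⟩ := hy i hi
    refine ⟨x, fun j hj => ?_, rfl⟩
    obtain ⟨x', hx', hxx⟩ := hy j hj
    have h1 : x' = x := (e i).injOn (h.sub i hx'.1) (h.sub i hx.1) hxx
    rw [← h1]
    exact hx'.2

theorem convex_inU (h : GoodU U e) {s : Set ι} {i : ι} (hi : i ∈ s) :
    Convex ℝ (e i '' inU U s) := by
  rw [h.image_inU hi]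
  exact convex_iInter₂ fun j _ => h.conv i j

theorem inU_sub (h : GoodU U e) {s : Set ι} {i : ι} (hi : i ∈ s) : inU U s ⊆ (e i).source :=
  fun _ hx => h.sub i (hx i hi)

theorem preconn (h : GoodU U e) {s : Set ι} {i : ι} (hi : i ∈ s) : IsPreconnected (inU U s) := by
  have h1 : IsPreconnected (e i '' inU U s) := (h.convex_inU hi).isPreconnected
  have h2 : (e i).symm '' (e i '' inU U s) = inU U s := by
    rw [image_image]
    refine (image_congr fun x hx => ?_).trans (image_id _)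
    exact (e i).left_inv (h.inU_sub hi hx)
  rw [← h2]
  refine h1.image _ ((e i).continuousOn_symm.mono ?_)
  rintro _ ⟨x, hx, rfl⟩
  exact (e i).map_source (h.inU_sub hi hx)

theorem as_inU (h : GoodU U e) {R : Type} [AddCommGroup R] {s : Set ι} (hs : s.Finite) {i : ι}
    (hi : i ∈ s) : AS1 R (inU U s) ∧ AS2 R (inU U s) :=
  as_of_chart (e i) (h.isOpen_inU hs) (h.inU_sub hi) (h.convex_inU hi)

theorem as2 (h : GoodU U e) {R : Type} [AddCommGroup R] (i : ι) : AS2 R (U i) := by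
  have h1 := (h.as_inU (R := R) (s := {i}) (by simp) (i := i) (by simp)).2
  have h2 : inU U {i} = U i := by ext x; simp [inU]
  rwa [h2] at h1

theorem as1 (h : GoodU U e) {R : Type} [AddCommGroup R] (i : ι) : AS1 R (U i) := by
  have h1 := (h.as_inU (R := R) (s := {i}) (by simp) (i := i) (by simp)).1
  have h2 : inU U {i} = U i := by ext x; simp [inU]
  rwa [h2] at h1

theorem as1' (h : GoodU U e) {R : Type} [AddCommGroup R] (i j : ι) : AS1 R (U i ∩ U j) := by
  have h1 := (h.as_inU (R := R) (s := {i, j}) (by simp) (i := i) (by simp)).1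
  have h2 : inU U {i, j} = U i ∩ U j := by ext x; simp [inU]
  rwa [h2] at h1

theorem pre2 (h : GoodU U e) (i j : ι) : IsPreconnected (U i ∩ U j) := by
  have h1 := h.preconn (s := {i, j}) (i := i) (by simp)
  have h2 : inU U {i, j} = U i ∩ U j := by ext x; simp [inU]
  rwa [h2] at h1

theorem pre3 (h : GoodU U e) (i j k : ι) : IsPreconnected (U i ∩ U j ∩ U k) := by
  have h1 := h.preconn (s := {i, j, k}) (i := i) (by simp)
  have h2 : inU U {i, j, k} = U i ∩ U j ∩ U k := by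
    ext x
    simp only [inU, mem_ofPred_eq, mem_insert_iff, mem_singleton_iff, forall_eq_or_imp, forall_eq,
      mem_inter_iff]
    tauto
  rwa [h2] at h1

/-! ### local duality and integrality -/

variable [T2Space M] [LocallyCompactSpace M]

theorem exists_locOn (h : GoodU U e) {E : (List M → ℤ) → ℝ} (hN : NrmU U e E) {s : Set ι}
    (hs : s.Finite) (hs0 : s.Nonempty) (hne : (inU U s).Nonempty) :
    ∃ T, LocOn 4 (inU U s) T ∧ E T = 1 := by
  obtain ⟨i, hi⟩ := hs0
  obtain ⟨p, hp⟩ := hne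
  obtain ⟨V, hV, hVe, h1⟩ := hN i p (hp i hi)
  exact ⟨_, locOn_tauP (h.isOpen_inU hs) (h.inU_sub hi) (h.convex_inU hi) hp hV hVe, h1⟩

/-- input of 470's zigzag -/
theorem locW (h : GoodU U e) {E : (List M → ℤ) → ℝ} (hE : Ev 3 E) (hN : NrmU U e E)
    (J : List ι) (hJ : J ≠ []) (hn : Nv U J) : LocW 3 E (UJ U J) := by
  have e1 : UJ U J = inU U {i | i ∈ J} := rfl
  have hfin : ({i | i ∈ J} : Set ι).Finite := J.finite_toSet
  have hne : ({i | i ∈ J} : Set ι).Nonempty := by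
    obtain ⟨i, hi⟩ := List.exists_mem_of_ne_nil J hJ
    exact ⟨i, hi⟩
  unfold Nv at hn
  rw [e1] at hn ⊢
  obtain ⟨T, hT, hT1⟩ := h.exists_locOn hN hfin hne hn
  exact locW_of_locOn hE hT hT1

/-- **integrality** on closed `4`-cochains with compact support -/
theorem integral (h : GoodU U e) {E : (List M → ℤ) → ℝ} (hE : Ev 3 E) (hN : NrmU U e E)
    {f : List M → ℤ} (hf : ASN627.Cl 4 f) (hK : IsCompact (ASN627.supp 4 f)) :
    ∃ m : ℤ, E f = m := by
  refine PDM412.integral (G := {W | ∃ s : Set ι, s.Finite ∧ s.Nonempty ∧ W = inU U s})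
    (efun_of_ev hE) (fun f g h _ => hE.congr f g (eqN_iff.2 h)) ?_ ?_ ?_ ?_
    (zc_iff.2 ⟨hf, hK, subset_univ _⟩)
  · rintro _ ⟨s, hs, -, rfl⟩
    exact h.isOpen_inU hs
  · rintro _ ⟨s, hs, hs0, rfl⟩ _ ⟨t, ht, -, rfl⟩
    refine ⟨s ∪ t, hs.union ht, hs0.mono subset_union_left, ?_⟩
    ext x
    simp only [inU, mem_inter_iff, mem_ofPred_eq, mem_union]
    exact ⟨fun h i hi => hi.elim (h.1 i) (h.2 i), fun h => ⟨fun i hi => h i (Or.inl hi),
      fun i hi => h i (Or.inr hi)⟩⟩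
  · rintro _ ⟨s, hs, hs0, rfl⟩ hne
    exact h.exists_locOn hN hs hs0 hne
  · intro x
    obtain ⟨i, hi⟩ := h.cov x
    refine ⟨_, ⟨{i}, finite_singleton i, singleton_nonempty i, rfl⟩, ?_⟩
    rintro j rfl
    exact hi

end GoodU

/-! ### the form -/

section form

variable {R : Type*} [AddCommGroup R] (O : OrE M R) {lab : M → ι}

/-- label pull-back of a nerve cochain -/
def lpU (lab : M → ι) (c : ι → ι → ι → ℤ) : List M → ℤ := fun l => of2 c (l.map lab)

theorem lpU_add (lab : M → ι) (c c' : ι → ι → ι → ℤ) (l : List M) :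
    lpU lab (c + c') l = lpU lab c l + lpU lab c' l := by
  unfold lpU
  match l with
  | [] => rfl
  | [x] => rfl
  | [x, y] => rfl
  | [x, y, z] => rfl
  | x :: y :: z :: w :: l => rfl

/-- the intersection form on the cocycles of the nerve -/
def Ifm (lab : M → ι) (c c' : ι → ι → ι → ℤ) : R :=
  O.E (ASZ627.cup 2 (lpU lab c) (lpU lab c'))

theorem cl_lpU (hU : ∀ i, IsOpen (U i)) (hlab : Lab U lab) {c : ι → ι → ι → ℤ} (hc : IsZ2 U c) :
    LnkCup692.Cl 3 (lpU lab c) := by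
  intro p
  exact cl_label2 hU hlab hc p

theorem Ifm_add (hU : ∀ i, IsOpen (U i)) (hlab : Lab U lab) {a b c : ι → ι → ι → ℤ}
    (ha : IsZ2 U a) (hb : IsZ2 U b) (hc : IsZ2 U c) :
    Ifm O lab (a + b) c = Ifm O lab a c + Ifm O lab b c := by
  unfold Ifm
  rw [← O.add _ _ (LnkCup692.Cl.cup (p := 2) (q := 2) (cl_lpU hU hlab ha) (cl_lpU hU hlab hc))
    (LnkCup692.Cl.cup (p := 2) (q := 2) (cl_lpU hU hlab hb) (cl_lpU hU hlab hc))]
  congr 1
  funext l
  simp only [ASZ627.cup, lpU_add, add_mul]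

theorem Ifm_add_right (hU : ∀ i, IsOpen (U i)) (hlab : Lab U lab) {a b c : ι → ι → ι → ℤ}
    (ha : IsZ2 U a) (hb : IsZ2 U b) (hc : IsZ2 U c) :
    Ifm O lab c (a + b) = Ifm O lab c a + Ifm O lab c b := by
  unfold Ifm
  rw [← O.add _ _ (LnkCup692.Cl.cup (p := 2) (q := 2) (cl_lpU hU hlab hc) (cl_lpU hU hlab ha))
    (LnkCup692.Cl.cup (p := 2) (q := 2) (cl_lpU hU hlab hc) (cl_lpU hU hlab hb))]
  congr 1
  funext l
  simp only [ASZ627.cup, lpU_add, mul_add]

/-- the label pull-back of a coboundary is exact -/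
theorem geq_lpU_of_isB2 (hlab : Lab U lab) {c : ι → ι → ι → ℤ} (hc : IsB2 U c) :
    ∃ N : List M → ℤ, ∀ x, GEq 3 (lpU lab c) (ASZ627.dl N) x := by
  obtain ⟨b, hb⟩ := hc
  refine ⟨k2 fun x y => b (lab x) (lab y), fun p => ?_⟩
  obtain ⟨F, hF, hev⟩ := hlab p
  refine ⟨{y | lab y ∈ F}, hev, fun l hl hlen => ?_⟩
  obtain ⟨x, y, z, rfl⟩ := length_three hlen
  have hx : lab x ∈ F := hl x (by simp)
  have hy : lab y ∈ F := hl y (by simp)
  have hz : lab z ∈ F := hl z (by simp)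
  have := hb (lab x) (lab y) (lab z) ⟨p, ⟨hF _ hx, hF _ hy⟩, hF _ hz⟩
  simp only [lpU, List.map_cons, List.map_nil, of2_apply, dl_k2]
  exact this

theorem Ifm_congr (hU : ∀ i, IsOpen (U i)) (hlab : Lab U lab) {a b a' b' : ι → ι → ι → ℤ}
    (ha : IsZ2 U a) (hb : IsZ2 U b) (ha' : IsZ2 U a')
    (h : IsB2 U (a - b)) (h' : IsB2 U (a' - b')) : Ifm O lab a a' = Ifm O lab b b' := by
  obtain ⟨N, hN⟩ := geq_lpU_of_isB2 hlab h
  obtain ⟨N', hN'⟩ := geq_lpU_of_isB2 hlab h'
  have hs : ∀ (a b : ι → ι → ι → ℤ) (l : List M),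
      lpU lab a l - lpU lab b l = lpU lab (a - b) l := by
    intro a b l
    have := lpU_add lab (a - b) b l
    rw [sub_add_cancel] at this
    rw [this]; ring
  refine O.cup_congr (cl_lpU hU hlab ha) (cl_lpU hU hlab hb) (cl_lpU hU hlab ha') (N := N)
    (N' := N') (fun x => ?_) (fun x => ?_)
  · refine (hN x).mono fun l hl hlen => ?_
    beta_reduce
    rw [hs]
    exact hl hlen
  · refine (hN' x).mono fun l hl hlen => ?_
    beta_reduce
    rw [hs]
    exact hl hlen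

theorem Ifm_zero_left (hU : ∀ i, IsOpen (U i)) (hlab : Lab U lab) {c : ι → ι → ι → ℤ}
    (hc : IsZ2 U c) : Ifm O lab 0 c = 0 := by
  have := Ifm_add O hU hlab (IsZ2.zero (U := U)) (IsZ2.zero (U := U)) hc
  rw [add_zero] at this
  exact left_eq_add.1 this

theorem Ifm_cob (hU : ∀ i, IsOpen (U i)) (hlab : Lab U lab) {a c : ι → ι → ι → ℤ}
    (ha : IsB2 U a) (hc : IsZ2 U c) : Ifm O lab a c = 0 := by
  rw [Ifm_congr O hU hlab ha.isZ2 (IsZ2.zero (U := U)) hc (by rwa [sub_zero])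
    (by rw [sub_self]; exact IsB2.zero), Ifm_zero_left O hU hlab hc]

end form

section dual

variable [CompactSpace M] [T2Space M] {E : (List M → ℤ) → ℝ} {lab : M → ι}

theorem rob_of_lab (h : Lab U lab) : Rob U lab := by
  intro x
  obtain ⟨F, h1, h2⟩ := h x
  exact h2.mono fun y hy => h1 _ hy

/-- **(1) integrality** -/
theorem integral' (h : GoodU U e) (D : Ev 3 E) (hN : NrmU U e E) :
    ∀ f, ASN627.Cl 4 f → ∃ m : ℤ, E f = m := fun _ hf =>
  h.integral D hN hf (ASN627.isClosed_supp _ _).isCompact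

/-- the integral orientation functional -/
def orU (h : GoodU U e) (D : Ev 3 E) (hN : NrmU U e E) : OrE M ℤ :=
  KZig106.orZ D (integral' h D hN)

/-- **(2)** the integral intersection form on the cocycles of the nerve -/
def IZ (h : GoodU U e) (D : Ev 3 E) (hN : NrmU U e E) (lab : M → ι)
    (c c' : ι → ι → ι → ℤ) : ℤ :=
  Ifm (orU h D hN) lab c c'

variable (h : GoodU U e) (D : Ev 3 E) (hN : NrmU U e E) (hlab : Lab U lab)

include hlab

theorem cl_cup (h : GoodU U e) {c c' : ι → ι → ι → ℤ} (hc : IsZ2 U c) (hc' : IsZ2 U c') :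
    ASN627.Cl 4 (ASZ627.cup 2 (lpU lab c) (lpU lab c')) :=
  LnkCup692.Cl.cup (p := 2) (q := 2) (cl_lpU h.op hlab hc) (cl_lpU h.op hlab hc')

theorem IZ_cast {c c' : ι → ι → ι → ℤ} (hc : IsZ2 U c) (hc' : IsZ2 U c') :
    ((IZ h D hN lab c c' : ℤ) : ℝ) = E (ASZ627.cup 2 (lpU lab c) (lpU lab c')) :=
  KZig106.orZ_cast D (integral' h D hN) (cl_cup hlab h hc hc')

theorem IZ_add {a b c : ι → ι → ι → ℤ} (ha : IsZ2 U a) (hb : IsZ2 U b) (hc : IsZ2 U c) :
    IZ h D hN lab (a + b) c = IZ h D hN lab a c + IZ h D hN lab b c :=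
  Ifm_add _ h.op hlab ha hb hc

theorem IZ_add_right {a b c : ι → ι → ι → ℤ} (ha : IsZ2 U a) (hb : IsZ2 U b) (hc : IsZ2 U c) :
    IZ h D hN lab c (a + b) = IZ h D hN lab c a + IZ h D hN lab c b :=
  Ifm_add_right _ h.op hlab ha hb hc

theorem IZ_congr {a b a' b' : ι → ι → ι → ℤ} (ha : IsZ2 U a) (hb : IsZ2 U b) (ha' : IsZ2 U a')
    (hab : IsB2 U (a - b)) (hab' : IsB2 U (a' - b')) :
    IZ h D hN lab a a' = IZ h D hN lab b b' :=
  Ifm_congr _ h.op hlab ha hb ha' hab hab'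

theorem IZ_cob {a c : ι → ι → ι → ℤ} (ha : IsB2 U a) (hc : IsZ2 U c) :
    IZ h D hN lab a c = 0 :=
  Ifm_cob _ h.op hlab ha hc

/-- **(3) unimodularity** -/
theorem IZ_dual [Finite ι] (φ : TopK106.Z2 U →+ ℤ)
    (hφ : ∀ x : TopK106.Z2 U, IsB2 U x.1 → φ x = 0) :
    ∃ c, IsZ2 U c ∧ ∀ x : TopK106.Z2 U, IZ h D hN lab x.1 c = φ x := by
  obtain ⟨z, hz1, hz2, hz3⟩ := exists_cycle_of_hom φ hφ
  obtain ⟨η, h1, -, -, h4⟩ := KZig106.exists_dual2 (U := U) (rob_of_lab hlab) D
    (h.locW D hN) z (fun σ hσ => hz1 σ (Finsupp.mem_support_iff.2 hσ)) (fun b => by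
      have := ev2_d1 b z
      rw [hz2] at this
      simpa [ev2, d1] using this)
  obtain ⟨c, β, hc, -, hβ, -⟩ := as_to_nerve2 h.op (fun i => h.as2 i) (fun i j => h.as1' i j)
    (fun i j k => h.pre3 i j k) hlab h1 univ (fun v hv => absurd (mem_univ v) hv)
  have hcZ : IsZ2 U c := hc
  refine ⟨c, hcZ, fun x => ?_⟩
  have hη' : LnkCup692.Cl 3 η := fun p => h1 p
  have hx : LnkCup692.Cl 3 (lpU lab x.1) := cl_lpU h.op hlab x.2
  have hcl : ASN627.Cl 4 (ASZ627.cup 2 (lpU lab x.1) η) :=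
    LnkCup692.Cl.cup (p := 2) (q := 2) hx hη'
  have e1 := KZig106.orZ_cast D (integral' h D hN) hcl
  have e0 : E (ASZ627.cup 2 (lpU lab x.1) η) =
      ((z.sum fun σ a => a * x.1 σ.1 σ.2.1 σ.2.2 : ℤ) : ℝ) := h4 x.1 x.2
  rw [e0] at e1
  have e2 : (orU h D hN).E (ASZ627.cup 2 (lpU lab x.1) η) = φ x := by
    have e3 : (orU h D hN).E (ASZ627.cup 2 (lpU lab x.1) η) =
        z.sum fun σ a => a * x.1 σ.1 σ.2.1 σ.2.2 := by exact_mod_cast e1
    rw [e3, ← hz3 x]
    rfl
  rw [← e2]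
  unfold IZ Ifm
  refine ((orU h D hN).cup_congr hx hx hη' (N := fun _ => 0) (N' := of1 β) (fun p => ?_)
    (fun p => ?_)).symm
  · refine ⟨univ, univ_mem, fun l _ _ => ?_⟩
    beta_reduce
    rw [sub_self, ASZ627.dl_zero]
  · obtain ⟨W, hW, hh⟩ := hβ p
    refine ⟨W, hW, fun l hl hlen => ?_⟩
    have h2 := hh l hl hlen
    beta_reduce at h2 ⊢
    rw [h2]
    unfold lpU
    ring

end dual

/-! ### robust labels -/

/-- robust labels from a finite family of functions with supports in the sets -/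
theorem exists_lab [Finite ι] {ψ : ι → M → ℝ} (hs : ∀ i, tsupport (ψ i) ⊆ U i)
    (h1 : ∀ x, ∃ i, ψ i x ≠ 0) : ∃ lab : M → ι, Lab U lab ∧ ∀ x, ψ (lab x) x ≠ 0 := by
  classical
  have := Fintype.ofFinite ι
  choose lab hlab using h1
  refine ⟨lab, fun p => ?_, hlab⟩
  refine ⟨Finset.univ.filter fun i => p ∈ tsupport (ψ i), fun v hv => ?_, ?_⟩
  · exact hs v (Finset.mem_filter.1 hv).2
  · have h3 : ∀ᶠ y in 𝓝 p, ∀ i ∈ (Finset.univ : Finset ι), p ∉ tsupport (ψ i) → ψ i y = 0 := by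
      rw [Filter.eventually_all_finset]
      intro i _
      by_cases hi : p ∈ tsupport (ψ i)
      · exact Eventually.of_forall fun y h => absurd hi h
      · exact (notMem_tsupport_iff_eventuallyEq.1 hi).mono fun y hy _ => hy
    filter_upwards [h3] with y hy'
    rw [Finset.mem_filter]
    refine ⟨Finset.mem_univ _, ?_⟩
    by_contra h
    exact hlab y (hy' _ (Finset.mem_univ _) h)

end

end Crest.Agent.R235.UniAbs_692
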