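import Mathlib
import Crest.Agent.R235.EvR_470
import Crest.Agent.R235.UniAbs_692
import Crest.Agent.R235.HZLat_524

/-!
Row 235 (S0364), package HZ (helper470): the wedge pairing of integral Čech classes is integral and
unimodular on the nerve of every good cover (`uniall`).
-/

set_option autoImplicit false
set_option maxSynthPendingDepth 3

open Set Function Filter MeasureTheory
open scoped Manifold ContDiff Topology

namespace Crest.Agent.R235.UniF_470

open Crest.Agent.R240 Crest.Agent.R240.Ch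
open Crest.Agent.R275 Crest.Agent.R275.TopK106 Crest.Agent.R275.ASConv293
open UniAbs_692 HZLat_524 Tau_692

noncomputable section

/-! ### sums -/

theorem sum_cons {ι : Type*} [Fintype ι] {n : ℕ} (g : (Fin (n + 1) → ι) → ℝ) :
    ∑ t, g t = ∑ i, ∑ t : Fin n → ι, g (Fin.cons i t) := by
  rw [← Fintype.sum_prod_type']
  exact (Fintype.sum_equiv (Fin.consEquiv fun _ => ι) _ _ fun _ => rfl).symm

theorem sum5 {ι : Type*} [Fintype ι] (f : ι → ι → ι → ι → ι → ℝ) :
    ∑ t : Fin 5 → ι, f (t 0) (t 1) (t 2) (t 3) (t 4) =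
      ∑ i, ∑ j, ∑ k, ∑ l, ∑ m, f i j k l m := by
  rw [sum_cons]
  refine Finset.sum_congr rfl fun i _ => ?_
  rw [sum_cons]
  refine Finset.sum_congr rfl fun j _ => ?_
  rw [sum_cons]
  refine Finset.sum_congr rfl fun k _ => ?_
  rw [sum_cons]
  refine Finset.sum_congr rfl fun l _ => ?_
  rw [sum_cons]
  refine Finset.sum_congr rfl fun m _ => ?_
  rw [Fintype.sum_unique]
  rfl

/-! ### the cup product cochain -/

/-- the cup product on the nerve. -/
def cp {ι : Type*} (x y : ι → ι → ι → ℤ) : List ι → ℤ := ASZ627.cup 2 (of2 x) (of2 y)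

theorem cp_five {ι : Type*} (x y : ι → ι → ι → ℤ) (a b c d e : ι) :
    cp x y [a, b, c, d, e] = x a b c * y c d e := rfl

theorem dl_cp {M ι : Type*} {U : ι → Set M} {x y : ι → ι → ι → ℤ} (hx : IsZ2 U x)
    (hy : IsZ2 U y) (l : List ι) (hl : l.length = 6) (h : ∃ p, ∀ v ∈ l, p ∈ U v) :
    ASZ627.dl (cp x y) l = 0 := by
  obtain ⟨a, b, c, d, e, f, rfl⟩ : ∃ a b c d e f, l = [a, b, c, d, e, f] := by
    match l, hl with
    | [a, b, c, d, e, f], _ => exact ⟨a, b, c, d, e, f, rfl⟩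
  obtain ⟨p, hp⟩ := h
  have ha := hp a (by simp)
  have hb := hp b (by simp)
  have hc := hp c (by simp)
  have hd := hp d (by simp)
  have he := hp e (by simp)
  have hf := hp f (by simp)
  have h1 := hx a b c d ⟨p, ⟨⟨ha, hb⟩, hc⟩, hd⟩
  have h2 := hy c d e f ⟨p, ⟨⟨hc, hd⟩, he⟩, hf⟩
  simp only [ASZ627.dl_cons, ASZ627.dl_nil, cp_five]
  linear_combination (y d e f) * h1 + (x a b c) * h2

theorem cup_lpU {M ι : Type*} (lab : M → ι) (x y : ι → ι → ι → ℤ) :
    ASZ627.cup 2 (lpU lab x) (lpU lab y) = fun l => cp x y (l.map lab) := by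
  funext l
  show of2 x ((l.take 3).map lab) * of2 y ((l.drop 2).map lab) =
    of2 x ((l.map lab).take 3) * of2 y ((l.map lab).drop 2)
  rw [List.map_take, List.map_drop]

/-! ### the good cover with complex charts -/

variable {M : Type} [TopologicalSpace M] [T2Space M] [CompactSpace M]
  [ChartedSpace E4 M] [IsManifold 𝓘(ℝ, E4) ∞ M]

omit [T2Space M] [CompactSpace M] in
theorem goodU (G : RGC M) (F : F2 E4 M) : GoodU G.B fun i => toC2 (G.ch F i) := by
  refine ⟨G.isOpen, G.cover, fun i => ?_, fun i j => ?_⟩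
  · show G.B i ⊆ (G.ch F i).source
    rw [G.ch_source]
    exact subset_closure.trans (G.clos i)
  · have h1 : (fun x => toC2 (G.ch F i) x) '' (G.B i ∩ G.B j) =
        (fun y => OAG627.rl.symm (Ls (G.so F i) (G.so_mul_self i) y)) ''
          (chartAt E4 (G.p i) '' (G.B i ∩ G.B j)) := by
      rw [image_image]
      rfl
    show Convex ℝ ((fun x => toC2 (G.ch F i) x) '' (G.B i ∩ G.B j))
    rw [h1]
    exact (G.conv i j).is_linear_image
      ⟨fun a b => by rw [map_add, map_add], fun c a => by rw [map_smul, map_smul]⟩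

/-- **integrality and unimodularity**. -/
theorem uni (F : Ch.Z2 M) (hF : ∀ x, W (val F x) (val F x) ≠ 0) (G : RGC M) : UNI F G := by
  classical
  have hV := R235.vol_of_ne hF
  obtain ⟨E, D, hN, hlabel⟩ := G.exists_functional hV
  have hU := goodU G (F.1.1 : F2 E4 M)
  have hNU : NrmU G.B (fun i => toC2 (G.ch (F.1.1 : F2 E4 M) i)) E := fun i p hp =>
    hN i p (G.clos i (subset_closure hp))
  obtain ⟨lab, hlab, -⟩ := exists_lab (U := G.B) (ψ := G.ψ) G.supp fun x => by
    by_contra h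
    push Not at h
    have := G.sum x
    simp [h] at this
  have key : ∀ x y : TopK106.Z2 G.B,
      ((IZ hU D hNU lab x.1 y.1 : ℤ) : ℝ) = pI F (tz G x) (tz G y) := by
    intro x y
    rw [IZ_cast hU D hNU hlab x.2 y.2, cup_lpU,
      hlabel lab hlab (cp x.1 y.1) (dl_cp x.2 y.2)]
    letI : MeasurableSpace M := borel M
    haveI : BorelSpace M := ⟨rfl⟩
    have h1 := I_tau (pun G) hV (fun i j k => (x.1 i j k : ℝ)) (coc_of_isZ2 y.2)
    have h2 : pI F (tz G x) (tz G y) = Int.I (F.1.1 : F2 E4 M)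
        (tau (E := E4) G.ψ (fun i j k => (x.1 i j k : ℝ)))
        (tau (E := E4) G.ψ (fun i j k => (y.1 i j k : ℝ))) := rfl
    rw [h2, h1, ← sum5 fun i j k l m => (x.1 i j k : ℝ) * (y.1 k l m : ℝ) *
      Int.I (F.1.1 : F2 E4 M) (fmul (G.ψ i) (dd2 (E := E4) G.ψ j k)) (dd2 (E := E4) G.ψ l m)]
    refine Finset.sum_congr rfl fun t _ => ?_
    rw [cp_five]
    push_cast
    rfl
  constructor
  · intro x y
    exact ⟨_, (key x y).symm⟩
  · intro φ hφ
    obtain ⟨c, hc, hcx⟩ := IZ_dual hU D hNU hlab φ hφ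
    refine ⟨⟨c, hc⟩, fun x => ?_⟩
    rw [← key, hcx]

/-- **UNIALL** in universe 0. -/
theorem uniall : UNIALL.{0} := fun _ _ _ _ _ _ F hF G => uni F hF G

end

end Crest.Agent.R235.UniF_470
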