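import Mathlib
import Crest.Agent.R235.LbH_453
import Crest.Agent.R235.UniF_470
import Crest.Agent.R235.Cup1_524

/-!
Row 235 (S0364), block HZ (helper524): THE OUTPUT `HZLAT.{0}` is a theorem
(UNI: helper470, helper692; Chern classes: helper453; lattice: helper524, 785, 311).
-/

set_option autoImplicit false
set_option maxSynthPendingDepth 3

open Set Function Filter
open scoped Manifold ContDiff Topology

namespace Crest.Agent.R235.HZFin_524

open Crest.Agent.R240 Crest.Agent.R240.Ch HZLat_524

/-- **OUTPUT OF THE BLOCK HZ**. -/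
theorem hzlat : HZLAT.{0} := Lb453.hzlat_of_uniall UniF_470.uniall

/-- Chern classes = integral classes of any good cover. -/
theorem hzeq : HZEQ.{0} := Lb453.hzeq_of UniF_470.uniall

/-- products of integral closed one-forms are integral classes. -/
theorem wed_mem_HZ {M : Type} [TopologicalSpace M] [T2Space M] [CompactSpace M]
    [ChartedSpace E4 M] [IsManifold 𝓘(ℝ, E4) ∞ M] {F : Ch.Z2 M}
    (hF : ∀ x, W (val F x) (val F x) ≠ 0) {G : RGC M} {s t : F1 E4 M} (ht : Closed1 t)
    {f g : Fin G.n → M → ℝ} {m n : Fin G.n → Fin G.n → ℤ} (hs' : Cup1_524.Int1 G s f m)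
    (ht' : Cup1_524.Int1 G t g n) {a : Ch.Z2 M} (ha : (a.1.1 : F2 E4 M) = wedG s t) :
    cls a ∈ HZ M := by
  rw [hzeq M F hF G]
  exact Cup1_524.cls_wed_mem ht hs' ht' ha

end Crest.Agent.R235.HZFin_524
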