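import Crest.Agent.R235.RSSec2_538
import Crest.Agent.R235.AdjDefs_43

/-!
Row 235, package RS (helper538): **RSEC** (node of `AdjDefs_43`).
-/

set_option autoImplicit false

open Set Filter Topology Function Metric

universe u v

namespace Crest.Agent.R235.RS

noncomputable section

open Crest.Agent.R235.Wind_688 Crest.Agent.R235.Adj

namespace CAtl

variable {N : Type u} [TopologicalSpace N] [T2Space N] [CompactSpace N] [ConnectedSpace N]
  {A : CAtl.{u, u} N}

/-- the section of `K` given by a nonzero one-form -/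
theorem exists_ksec {ω : A.HForm} (h0 : ¬ ω.IsZero) :
    ∃ k : KSec A, (k.Z : Set N) = ω.Z ∧ ∀ x ∈ k.Z, 1 ≤ k.ord x := by
  choose n hn1 hn2 using HForm.exists_ord h0
  refine ⟨⟨ω.h, fun i => ?_, ω.tr, (HForm.finite_Z h0).toFinset, ?_, n, ?_⟩, ?_, ?_⟩
  · intro z hz
    exact (contDiffAt_of_analyticAt (ω.analyticAt hz)).contDiffWithinAt
  · intro i z hz h
    rw [Set.Finite.mem_toFinset]
    exact ⟨i, (A.c i).map_target hz, by rwa [(A.c i).right_inv hz]⟩
  · intro x _ i hi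
    exact hn2 x i hi
  · exact Set.Finite.coe_toFinset _
  · intro x hx
    exact hn1 x ((Set.Finite.mem_toFinset _).1 hx)

theorem exists_ksec_sph (h : A.IsSph) : ∃ k : KSec A, k.deg = -2 := by
  obtain ⟨φ, ψ, hφ, hψ, hφ', hψ', iφ, iψ, hg, h0, hcov⟩ := h
  refine ⟨⟨A.sec φ, sec_smooth hφ hφ' hψ hψ' iφ iψ hg h0 hcov, fun i j z hz =>
    sec_tr hφ hφ' iφ hz, {ψ 0}, ?_, fun _ => -2, ?_⟩, ?_⟩
  · intro i z hz hs
    rw [Finset.mem_singleton]
    refine (hcov ((A.c i).symm z)).resolve_left fun hr => ?_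
    exact sec_ne hφ hφ' iφ hz hr hs
  · intro x hx i hi
    rw [Finset.mem_singleton] at hx
    refine sec_wind hφ hφ' hψ hψ' iφ iψ hg h0 ((A.c i).map_source hi) ?_
    rw [(A.c i).left_inv hi, hx]
  · simp [KSec.deg]

/-- **RSEC** -/
theorem rsec : RSEC.{u} := by
  intro N _ _ _ _ A
  rcases rs_cases A with h | ⟨h, ω, hω⟩ | ⟨ω, hω, hf, h0⟩
  · obtain ⟨k, hk⟩ := exists_ksec_sph h
    exact ⟨k, Or.inl ⟨h, hk⟩⟩
  · have h0 : ¬ ω.IsZero := by
      intro hz
      obtain ⟨x⟩ := (inferInstance : Nonempty N)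
      obtain ⟨i, hi⟩ := A.cover x
      exact hω i _ ((A.c i).map_source hi) (hz i _ ((A.c i).map_source hi))
    obtain ⟨k, hk, -⟩ := exists_ksec h0
    refine ⟨k, Or.inr (Or.inl ⟨h, ?_⟩)⟩
    rw [Finset.eq_empty_iff_forall_notMem]
    intro x hx
    have hx' : x ∈ ω.Z := by rw [← hk]; exact hx
    obtain ⟨i, hi, hi'⟩ := hx'
    exact hω i _ ((A.c i).map_source hi) hi'
  · obtain ⟨k, hk, hk1⟩ := exists_ksec h0
    refine ⟨k, Or.inr (Or.inr ?_)⟩
    obtain ⟨x, hx⟩ := hω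
    have hx' : x ∈ k.Z := by
      have : x ∈ (k.Z : Set N) := by rw [hk]; exact hx
      exact this
    unfold KSec.deg
    calc (1 : ℤ) ≤ k.ord x := hk1 x hx'
      _ ≤ ∑ x ∈ k.Z, k.ord x :=
        Finset.single_le_sum (fun y hy => (zero_le_one.trans (hk1 y hy))) hx'

end CAtl

end

end Crest.Agent.R235.RS
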