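import Crest.Agent.R235.W2A_464
import Crest.Agent.R235.AdjGen_83
import Crest.Agent.R235.Pull_129

/-!
Row 235, package ADJ (helper464), leaf SPH0: the current of a `J`-curve of genus `0` vanishes on
products of closed one-forms.
-/

set_option autoImplicit false
set_option maxSynthPendingDepth 3

open Set Filter Topology Function MeasureTheory Metric
open scoped ContDiff Manifold

universe u

namespace Crest.Agent.R235.Sph0_464

open RS W2_464

noncomputable section

/-! ### the plane -/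

/-- planar Stokes -/
theorem stokes_plane {g : ℂ → ℝ} (hg : ContDiff ℝ 1 g) (hs : HasCompactSupport g)
    {β : ℂ → ℂ →L[ℝ] ℝ} (hβ : ContDiff ℝ 1 β)
    (hc : ∀ z u v, fderiv ℝ β z u v = fderiv ℝ β z v u) :
    Integrable (fun z => wg (fderiv ℝ g z) (β z)) ∧ ∫ z, wg (fderiv ℝ g z) (β z) = 0 := by
  have hgd : Differentiable ℝ g := hg.differentiable one_ne_zero
  have hβd : Differentiable ℝ β := hβ.differentiable one_ne_zero
  have hg' : Continuous (fderiv ℝ g) := hg.continuous_fderiv one_ne_zero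
  have hβ' : Continuous (fderiv ℝ β) := hβ.continuous_fderiv one_ne_zero
  have hd : ∀ v, Differentiable ℝ fun z => β z v := fun v =>
    hβd.clm_apply (differentiable_const v)
  have hdv : ∀ u v z, fderiv ℝ (fun z => β z v) z u = fderiv ℝ β z u v := by
    intro u v z
    rw [fderiv_clm_apply (hβd z) (differentiableAt_const v)]
    simp
  have hi1 : ∀ u v, Integrable fun z => fderiv ℝ g z u * β z v := fun u v =>
    ((hg'.clm_apply continuous_const).mul (hβ.continuous.clm_apply continuous_const)).integrable_of_hasCompactSupport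
      ((hs.fderiv_apply (𝕜 := ℝ) u).mul_right)
  have hi2 : ∀ u v, Integrable fun z => g z * fderiv ℝ (fun z => β z v) z u := by
    intro u v
    simp_rw [hdv]
    exact (hg.continuous.mul ((hβ'.clm_apply continuous_const).clm_apply
      continuous_const)).integrable_of_hasCompactSupport hs.mul_right
  have hi3 : ∀ v, Integrable fun z => g z * β z v := fun v =>
    (hg.continuous.mul (hβ.continuous.clm_apply continuous_const)).integrable_of_hasCompactSupport
      hs.mul_right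
  have key : ∀ u v, ∫ z, g z * fderiv ℝ β z u v = - ∫ z, fderiv ℝ g z u * β z v := by
    intro u v
    have := integral_mul_fderiv_eq_neg_fderiv_mul_of_integrable (μ := volume) (𝕜 := ℝ) (v := u)
      (hi1 u v) (hi2 u v) (hi3 v) (fun z _ => hgd z) (fun z _ => hd v z)
    simp_rw [hdv] at this
    exact this
  refine ⟨(hi1 _ _).sub (hi1 _ _), ?_⟩
  unfold wg
  rw [integral_sub (hi1 _ _) (hi1 _ _)]
  have h1 := key 1 Complex.I
  have h2 := key Complex.I 1
  have h3 : ∫ z, g z * fderiv ℝ β z 1 Complex.I = ∫ z, g z * fderiv ℝ β z Complex.I 1 :=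
    integral_congr_ae (Eventually.of_forall fun z => by
      show g z * _ = g z * _
      rw [hc z 1 Complex.I])
  linarith

/-- the derivative of the inversion -/
theorem hasFDerivAt_inv {z : ℂ} (hz : z ≠ 0) :
    HasFDerivAt (fun z : ℂ => z⁻¹) (mulL (-(z ^ 2)⁻¹)) z := by
  refine ((hasDerivAt_inv hz).hasFDerivAt.restrictScalars ℝ).congr_fderiv ?_
  ext w <;> simp [mul_comm]

theorem inv_image : (fun z : ℂ => z⁻¹) '' {0}ᶜ = {0}ᶜ := by
  ext w
  constructor
  · rintro ⟨z, hz, rfl⟩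
    exact inv_ne_zero hz
  · intro hw
    exact ⟨w⁻¹, inv_ne_zero hw, inv_inv w⟩

/-- change of variables by the inversion -/
theorem cov_inv {G : ℂ → ℝ} (hG : IntegrableOn G {0}ᶜ) :
    IntegrableOn (fun z : ℂ => G z⁻¹ * Complex.normSq (-(z ^ 2)⁻¹)) {0}ᶜ ∧
    ∫ z in ({0}ᶜ : Set ℂ), G z⁻¹ * Complex.normSq (-(z ^ 2)⁻¹) = ∫ w in ({0}ᶜ : Set ℂ), G w := by
  have hm : MeasurableSet ({0}ᶜ : Set ℂ) := (measurableSet_singleton 0).compl
  have hd : ∀ z ∈ ({0}ᶜ : Set ℂ), HasFDerivWithinAt (fun z : ℂ => z⁻¹) (mulL (-(z ^ 2)⁻¹))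
      {0}ᶜ z := fun z hz => (hasFDerivAt_inv hz).hasFDerivWithinAt
  have hinj : InjOn (fun z : ℂ => z⁻¹) {0}ᶜ := fun z _ w _ h => inv_injective h
  have e : ∀ z : ℂ, |(mulL (-(z ^ 2)⁻¹)).det| • G z⁻¹ = G z⁻¹ * Complex.normSq (-(z ^ 2)⁻¹) := by
    intro z
    rw [det_mulL, abs_of_nonneg (Complex.normSq_nonneg _), smul_eq_mul, mul_comm]
  constructor
  · rw [← inv_image, integrableOn_image_iff_integrableOn_abs_det_fderiv_smul volume hm hd hinj] at hG
    simp_rw [e] at hG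
    exact hG
  · conv_rhs => rw [← inv_image, integral_image_eq_integral_abs_det_fderiv_smul volume hm hd hinj]
    simp_rw [e]

theorem integral_compl (G : ℂ → ℝ) : ∫ z in ({0}ᶜ : Set ℂ), G z = ∫ z, G z := by
  rw [Measure.restrict_eq_self_of_ae_mem]
  exact compl_mem_ae_iff.2 (by simp)

/-- **Stokes on the sphere.** -/
theorem sphere_zero {α α' β β' : ℂ → ℂ →L[ℝ] ℝ} (hα : ContDiff ℝ 1 α) (hα' : ContDiff ℝ 1 α')
    (hβ : ContDiff ℝ 1 β) (hβ' : ContDiff ℝ 1 β')
    (cα : ∀ z u v, fderiv ℝ α z u v = fderiv ℝ α z v u)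
    (cα' : ∀ z u v, fderiv ℝ α' z u v = fderiv ℝ α' z v u)
    (cβ : ∀ z u v, fderiv ℝ β z u v = fderiv ℝ β z v u)
    (cβ' : ∀ z u v, fderiv ℝ β' z u v = fderiv ℝ β' z v u)
    (eα : ∀ z, z ≠ 0 → α z = (α' z⁻¹).comp (mulL (-(z ^ 2)⁻¹)))
    (eβ : ∀ z, z ≠ 0 → β z = (β' z⁻¹).comp (mulL (-(z ^ 2)⁻¹))) :
    ∫ z, wg (α z) (β z) = 0 := by
  obtain ⟨h, hh⟩ := convex_univ.exists_forall_hasFDerivAt_of_fderiv_symmetric isOpen_univ
    (hα.differentiable one_ne_zero).differentiableOn fun z _ => cα z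
  obtain ⟨h', hh'⟩ := convex_univ.exists_forall_hasFDerivAt_of_fderiv_symmetric isOpen_univ
    (hα'.differentiable one_ne_zero).differentiableOn fun z _ => cα' z
  replace hh : ∀ z, HasFDerivAt h (α z) z := fun z => hh z (mem_univ z)
  replace hh' : ∀ z, HasFDerivAt h' (α' z) z := fun z => hh' z (mem_univ z)
  -- the two primitives agree up to a constant
  obtain ⟨C, hC⟩ : ∃ C : ℝ, ∀ z : ℂ, z ≠ 0 → h z = h' z⁻¹ + C := by
    have hpre : IsPreconnected ({0}ᶜ : Set ℂ) :=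
      (isConnected_compl_singleton_of_one_lt_rank (by rw [Complex.rank_real_complex]; norm_num)
        0).isPreconnected
    have hd : ∀ z : ℂ, z ≠ 0 → HasFDerivAt (fun z => h z - h' z⁻¹) (0 : ℂ →L[ℝ] ℝ) z := by
      intro z hz
      have h1 := (hh z).sub ((hh' z⁻¹).comp z (hasFDerivAt_inv hz))
      rw [eα z hz, sub_self] at h1
      exact h1
    refine ⟨h 1 - h' 1⁻¹, fun z hz => ?_⟩
    have := isOpen_compl_singleton.is_const_of_fderiv_eq_zero hpre
      (fun z hz => (hd z hz).differentiableAt.differentiableWithinAt) (fun z hz => (hd z hz).fderiv)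
      (x := z) (y := 1) hz (by simp)
    linarith
  have hhc : ContDiff ℝ 1 h := by
    rw [show (1 : WithTop ℕ∞) = 0 + 1 by simp, contDiff_succ_iff_fderiv]
    refine ⟨fun z => (hh z).differentiableAt, by simp, ?_⟩
    have : fderiv ℝ h = α := funext fun z => (hh z).fderiv
    rw [this]
    exact hα.of_le (by simp)
  have hhc' : ContDiff ℝ 1 h' := by
    rw [show (1 : WithTop ℕ∞) = 0 + 1 by simp, contDiff_succ_iff_fderiv]
    refine ⟨fun z => (hh' z).differentiableAt, by simp, ?_⟩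
    have : fderiv ℝ h' = α' := funext fun z => (hh' z).fderiv
    rw [this]
    exact hα'.of_le (by simp)
  -- the cut-off
  let χ' : ContDiffBump (0 : ℂ) := ⟨1 / 2, 1, by norm_num, by norm_num⟩
  classical
  set χ : ℂ → ℝ := fun z => if z = 0 then 1 else 1 - χ' z⁻¹ with hχd
  have hχ0 : ∀ᶠ z in 𝓝 (0 : ℂ), χ z = 1 := by
    filter_upwards [ball_mem_nhds (0 : ℂ) one_pos] with z hz
    by_cases h0 : z = 0
    · simp [hχd, h0]
    · simp only [hχd, if_neg h0]
      rw [χ'.zero_of_le_dist, sub_zero]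
      show (1 : ℝ) ≤ dist z⁻¹ 0
      rw [dist_zero_right, norm_inv]
      rw [mem_ball_zero_iff] at hz
      exact (one_le_inv₀ (norm_pos_iff.2 h0)).2 hz.le
  have hχc : ContDiff ℝ 1 χ := by
    rw [contDiff_iff_contDiffAt]
    intro z
    by_cases h0 : z = 0
    · subst h0
      exact contDiffAt_const.congr_of_eventuallyEq hχ0
    · have h1 : ContDiffAt ℝ 1 (fun z : ℂ => 1 - χ' z⁻¹) z :=
        contDiffAt_const.sub ((χ'.contDiff (n := 1)).contDiffAt.comp z
          ((contDiffAt_inv ℂ h0).restrict_scalars ℝ))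
      refine h1.congr_of_eventuallyEq ?_
      filter_upwards [isOpen_compl_singleton.mem_nhds h0] with w hw
      have hw' : w ≠ 0 := hw
      simp only [hχd, if_neg hw']
  have hχs : HasCompactSupport χ := by
    refine HasCompactSupport.intro (isCompact_closedBall (0 : ℂ) 2) fun z hz => ?_
    rw [mem_closedBall_zero_iff, not_le] at hz
    have h0 : z ≠ 0 := by
      rintro rfl
      simp at hz
      linarith
    simp only [hχd, if_neg h0]
    rw [χ'.one_of_mem_closedBall, sub_self]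
    show z⁻¹ ∈ closedBall (0 : ℂ) (1 / 2)
    rw [mem_closedBall_zero_iff, norm_inv, one_div]
    exact inv_anti₀ (by norm_num) hz.le
  have hχ's : HasCompactSupport (χ' : ℂ → ℝ) := χ'.hasCompactSupport
  -- the two pieces
  set g : ℂ → ℝ := fun z => χ z * h z with hgd
  set g' : ℂ → ℝ := fun z => χ' z * (h' z + C) with hg'd
  have hg : ContDiff ℝ 1 g := hχc.mul hhc
  have hg' : ContDiff ℝ 1 g' := (χ'.contDiff (n := 1)).mul (hhc'.add contDiff_const)
  obtain ⟨hi, hI⟩ := stokes_plane hg hχs.mul_right hβ cβ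
  obtain ⟨hi', hI'⟩ := stokes_plane hg' hχ's.mul_right hβ' cβ'
  have hsum : ∀ z : ℂ, z ≠ 0 → α z = fderiv ℝ g z + (fderiv ℝ g' z⁻¹).comp (mulL (-(z ^ 2)⁻¹)) := by
    intro z hz
    have h1 : HasFDerivAt (fun z => g z + g' z⁻¹)
        (fderiv ℝ g z + (fderiv ℝ g' z⁻¹).comp (mulL (-(z ^ 2)⁻¹))) z :=
      ((hg.differentiable one_ne_zero z).hasFDerivAt).add
        (((hg'.differentiable one_ne_zero z⁻¹).hasFDerivAt).comp z (hasFDerivAt_inv hz))
    have h2 : (fun z => g z + g' z⁻¹) =ᶠ[𝓝 z] h := by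
      filter_upwards [isOpen_compl_singleton.mem_nhds hz] with w hw
      have hw' : w ≠ 0 := hw
      simp only [hgd, hg'd, hχd, if_neg hw']
      rw [← hC w hw']
      ring
    exact ((h1.congr_of_eventuallyEq h2.symm).unique (hh z)).symm
  obtain ⟨hj, hJ⟩ := cov_inv hi'.integrableOn
  rw [← integral_compl]
  have h5 : ∀ z ∈ ({0}ᶜ : Set ℂ), wg (α z) (β z) = wg (fderiv ℝ g z) (β z)
      + wg (fderiv ℝ g' z⁻¹) (β' z⁻¹) * Complex.normSq (-(z ^ 2)⁻¹) := by
    intro z hz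
    rw [hsum z hz, wg_add_left]
    congr 1
    rw [eβ z hz, wg_mul]
  rw [setIntegral_congr_fun (measurableSet_singleton 0).compl h5,
    integral_add hi.integrableOn hj, hJ, integral_compl, integral_compl, hI, hI', add_zero]

/-! ### the sphere in `M` -/

section Main

open Crest.Agent.R240 Crest.Agent.R240.Ch Crest.Agent.R235.Glob_370 Crest.Agent.R235.Pull_129

variable {M : Type u} [TopologicalSpace M] [ChartedSpace E4 M] [IsManifold 𝓘(ℝ, E4) ∞ M]

theorem pb_wedG (u : ℂ → M) (s t : F1 E4 M) (z : ℂ) :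
    pb u (wedG s t) z = wg (pb1 u s z) (pb1 u t z) := by
  have h : pb u (wedG s t) z = pb2 u (wedG s t) z 1 Complex.I := rfl
  rw [h, pb2_wedG, wg]
  ring

theorem dG_zero {s : F1 E4 M} (hs : Closed1 s) (x : M) : at2 (dG s) x = 0 :=
  hs.2 x _ (mem_chart_target E4 x)

theorem pb1_closed {u : ℂ → M} {O : Set ℂ} (hO : IsOpen O)
    (hu : ContMDiffOn 𝓘(ℝ, ℂ) 𝓘(ℝ, E4) ∞ u O) {s : F1 E4 M} (hs : Closed1 s) {z : ℂ}
    (hz : z ∈ O) (v w : ℂ) : fderiv ℝ (pb1 u s) z v w = fderiv ℝ (pb1 u s) z w v := by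
  have h := d1_pb1 hO hu hz hs.1 v w
  rw [d1_apply, pb2_apply, dG_zero hs] at h
  simpa [sub_eq_zero] using h

variable [T2Space M] [CompactSpace M] {J : EndF E4 M}

/-- **SPH0** -/
theorem sph0 (c : JCurve J) (hc : c.A.IsSph) {s t : F1 E4 M} (hs : Closed1 s) (ht : Closed1 t)
    (b : X2 M) (hb : (b.1 : F2 E4 M) = wedG s t) : c.T b = 0 := by
  obtain ⟨φ, ψ, hφ, hψ, -, -, hi, -, hφψ, -, hcov⟩ := hc
  have hcount : ((φ '' univ)ᶜ : Set c.N).Countable := by
    refine (countable_singleton (ψ 0)).mono fun x hx => ?_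
    rcases hcov x with h | h
    · rw [image_univ] at hx
      exact absurd h hx
    · exact h
  have hol : ∀ χ : ℂ → c.N, c.A.Hol χ → ∀ i, DifferentiableOn ℂ (fun z => c.A.c i (χ z))
      {z | z ∈ (univ : Set ℂ) ∧ χ z ∈ (c.A.c i).source} := by
    intro χ hχ i
    have h := hχ.hol i
    have e : {z | z ∈ (univ : Set ℂ) ∧ χ z ∈ (c.A.c i).source} = χ ⁻¹' (c.A.c i).source := by
      ext z; simp
    rw [e]
    exact h
  have hsm : ∀ χ : ℂ → c.N, c.A.Hol χ →
      ContMDiffOn 𝓘(ℝ, ℂ) 𝓘(ℝ, E4) ∞ (fun z => c.f (χ z)) univ := fun χ hχ z _ =>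
    (AdjGen_83.smooth_fφ c isOpen_univ hχ.cont.continuousOn (hol χ hχ)
      (mem_univ z)).contMDiffWithinAt
  have h1 := (AdjGen_83.cur_eq c isOpen_univ hφ.cont.continuousOn (hol φ hφ) Subset.rfl
    MeasurableSet.univ hi.injOn hcount b).2
  rw [h1, setIntegral_univ, hb]
  simp_rw [pb_wedG]
  have hcd : ∀ χ : ℂ → c.N, c.A.Hol χ → ∀ r : F1 E4 M, Closed1 r →
      ContDiff ℝ 1 (pb1 (fun z => c.f (χ z)) r) := fun χ hχ r hr =>
    (contDiffOn_univ.1 (pb1_contDiffOn isOpen_univ (hsm χ hχ) hr.1)).of_le (by simp)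
  have hcl : ∀ χ : ℂ → c.N, c.A.Hol χ → ∀ r : F1 E4 M, Closed1 r → ∀ z u v,
      fderiv ℝ (pb1 (fun z => c.f (χ z)) r) z u v =
        fderiv ℝ (pb1 (fun z => c.f (χ z)) r) z v u := fun χ hχ r hr z u v =>
    pb1_closed isOpen_univ (hsm χ hχ) hr (mem_univ z) u v
  have htr : ∀ r : F1 E4 M, ∀ z : ℂ, z ≠ 0 → pb1 (fun z => c.f (φ z)) r z =
      (pb1 (fun z => c.f (ψ z)) r z⁻¹).comp (mulL (-(z ^ 2)⁻¹)) := by
    intro r z hz
    have e : (fun z => c.f (φ z)) =ᶠ[𝓝 z] fun z => c.f (ψ z⁻¹) := by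
      filter_upwards [isOpen_compl_singleton.mem_nhds hz] with w hw
      rw [hφψ w hw]
    rw [pb1_congr e r]
    have h2 := pb1_comp (Φ := fun z => c.f (ψ z)) (g := fun z : ℂ => z⁻¹) (z := z)
      (((hsm ψ hψ).contMDiffAt univ_mem)) (hasFDerivAt_inv hz).differentiableAt r
    rw [(hasFDerivAt_inv hz).fderiv] at h2
    exact h2
  exact sphere_zero (hcd φ hφ s hs) (hcd ψ hψ s hs) (hcd φ hφ t ht) (hcd ψ hψ t ht)
    (hcl φ hφ s hs) (hcl ψ hψ s hs) (hcl φ hφ t ht) (hcl ψ hψ t ht) (htr s) (htr t)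

end Main

end

end Crest.Agent.R235.Sph0_464
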