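import Crest.Agent.R235.BPlus_723
import Crest.Agent.R235.T4R_837
import Crest.Agent.R235.TopA_844

/-!
Row 235 (S0364), helper844: what the top theorem uses of the type of `F` (`TyOK`), for `K3Type`,
`T4Type` and the real torus type `T4R`.
-/

set_option autoImplicit false
set_option maxSynthPendingDepth 3

open Set Function Filter MeasureTheory
open scoped Manifold ContDiff Topology

universe u

namespace Crest.Agent.R235

open Crest.Agent.R240 Crest.Agent.R240.Ch Crest.Agent.R240.Int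

noncomputable section

section

variable {M : Type u} [TopologicalSpace M] [T2Space M] [CompactSpace M]
  [ChartedSpace E4 M] [IsManifold 𝓘(ℝ, E4) ∞ M]

/-- what is used of the type. -/
structure TyOK (F : Z2 M) : Prop where
  cnt : (HZ M).Countable
  fin : Module.Finite ℝ (H2 M)
  neg : ∀ c : Fin 3 → H2 M, PosCls F c → ∀ x : H2 M, (∀ i, ip F x (c i) = 0) → x ≠ 0 →
    ip F x x < 0

theorem tyOK_of_type {F : Z2 M} (hF : Vol (F.1.1 : F2 E4 M)) (h : K3Type F ∨ T4Type F) : TyOK F where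
  cnt := HZ_countable h
  fin := finite_H2 h
  neg := BPlus_723.neg_of_type hF h

theorem T4R_congr {F G : Z2 M} (hp : pI G = pI F) : T4R G = T4R F := by
  have h : ip G = ip F := by
    funext a b
    unfold ip
    rw [hp]
  unfold T4R
  rw [h, hp]

/-- the hyperbolic data of the real torus type span `H²`. -/
theorem T4R_hyp {F : Z2 M} (hF : Vol (F.1.1 : F2 E4 M)) (h : T4R F) :
    ∃ f g : Fin 3 → H2 M, (∀ i j, ip F (f i) (f j) = 0) ∧ (∀ i j, ip F (g i) (g j) = 0) ∧
      (∀ i j, ip F (f i) (g j) = if i = j then 1 else 0) ∧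
      (∀ c : H2 M, ∃ x y : Fin 3 → ℝ, c = ∑ i, x i • f i + ∑ i, y i • g i) ∧
      HZ M = {c | ∃ m n : Fin 3 → ℤ, c = ∑ i, (m i : ℝ) • f i + ∑ i, (n i : ℝ) • g i} := by
  obtain ⟨⟨s, -, -, a, ha, -, -, hspan⟩, f, g, hff, hgg, hfg, hHZ⟩ := h
  refine ⟨f, g, hff, hgg, hfg, ?_, hHZ⟩
  set A : Fin 4 → Fin 4 → H2 M := fun i j => cls (a i j) with hA
  have hanti : ∀ i j, A j i = - A i j := by
    intro i j
    show cls (a j i) = - cls (a i j)
    rw [← map_neg]
    congr 1
    apply Z2_ext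
    intro x
    show at2 ((a j i).1.1 : F2 E4 M) x = - at2 ((a i j).1.1 : F2 E4 M) x
    rw [ha, ha, BPlus_723.wedG_anti]
    rfl
  have hdiag : ∀ i, A i i = 0 := by
    intro i
    have h1 : A i i = - A i i := hanti i i
    have h2 : (2 : ℝ) • A i i = 0 := by
      rw [two_smul]
      nth_rewrite 1 [h1]
      exact neg_add_cancel _
    calc A i i = (1 / 2 : ℝ) • ((2 : ℝ) • A i i) := by rw [smul_smul]; norm_num
      _ = 0 := by rw [h2, smul_zero]
  -- six vectors span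
  let Ψ : ((Fin 3 → ℝ) × (Fin 3 → ℝ)) →ₗ[ℝ] H2 M :=
    LinearMap.coprod (Fintype.linearCombination ℝ (![A 0 1, A 0 2, A 0 3] : Fin 3 → H2 M))
      (Fintype.linearCombination ℝ
        (![(1 : ℝ) • A 2 3, (-1 : ℝ) • A 1 3, (1 : ℝ) • A 1 2] : Fin 3 → H2 M))
  have hΨ : Function.Surjective Ψ := by
    intro c
    obtain ⟨n, hn⟩ := hspan c
    have h1 := BPlus_723.key A hanti hdiag 1 (by norm_num) n
    refine ⟨((![n 0 1 - n 1 0, n 0 2 - n 2 0, n 0 3 - n 3 0] : Fin 3 → ℝ),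
      (![1 * (n 2 3 - n 3 2), (-1) * (n 1 3 - n 3 1), 1 * (n 1 2 - n 2 1)] : Fin 3 → ℝ)), ?_⟩
    rw [hn]
    refine Eq.trans ?_ h1.symm
    simp only [Ψ, LinearMap.coprod_apply, Fintype.linearCombination_apply]
  have hfd : FiniteDimensional ℝ (H2 M) := Module.Finite.of_surjective Ψ hΨ
  have hdim : Module.finrank ℝ (H2 M) ≤ 6 := by
    have h1 := LinearMap.finrank_le_finrank_of_surjective (f := Ψ) hΨ
    rw [Module.finrank_prod, Module.finrank_fin_fun] at h1
    exact h1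
  let Φ : ((Fin 3 → ℝ) × (Fin 3 → ℝ)) →ₗ[ℝ] H2 M :=
    LinearMap.coprod (Fintype.linearCombination ℝ f) (Fintype.linearCombination ℝ g)
  have hΦ : ∀ p, Φ p = ∑ i, p.1 i • f i + ∑ i, p.2 i • g i := by
    intro p
    simp [Φ, Fintype.linearCombination_apply]
  have hinj : Function.Injective Φ := by
    rw [injective_iff_map_eq_zero]
    rintro ⟨x, y⟩ h0
    rw [hΦ] at h0
    have hp := fun x' y' => BPlus_723.hyp_pair hF hff hgg hfg x y x' y'
    have h1 : ∀ x' y' : Fin 3 → ℝ, ∑ i, (x i * y' i + y i * x' i) = 0 := by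
      intro x' y'
      rw [← hp x' y']
      dsimp only at h0
      rw [h0]
      have := ip_smul_left hF (0 : ℝ) (0 : H2 M) (∑ i, x' i • f i + ∑ i, y' i • g i)
      rw [zero_smul, zero_mul] at this
      exact this
    ext i
    · have := h1 0 (Pi.single i 1)
      simpa [Pi.single_apply] using this
    · have := h1 (Pi.single i 1) 0
      simpa [Pi.single_apply] using this
  have hsurj : Function.Surjective Φ := by
    have h6 : Module.finrank ℝ ((Fin 3 → ℝ) × (Fin 3 → ℝ)) = 6 := by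
      rw [Module.finrank_prod, Module.finrank_fin_fun]
    have h7 : Module.finrank ℝ (H2 M) = 6 := by
      refine le_antisymm hdim ?_
      rw [← h6]
      exact LinearMap.finrank_le_finrank_of_injective hinj
    exact (LinearMap.injective_iff_surjective_of_finrank_eq_finrank (h6.trans h7.symm)).1 hinj
  intro c
  obtain ⟨p, hp⟩ := hsurj c
  exact ⟨p.1, p.2, by rw [← hp, hΦ]⟩

/-- hyperbolic data determine the signature. -/
theorem neg_of_hyp {F : Z2 M} (hF : Vol (F.1.1 : F2 E4 M)) {f g : Fin 3 → H2 M}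
    (hff : ∀ i j, ip F (f i) (f j) = 0) (hgg : ∀ i j, ip F (g i) (g j) = 0)
    (hfg : ∀ i j, ip F (f i) (g j) = if i = j then 1 else 0)
    (hspan : ∀ c : H2 M, ∃ x y : Fin 3 → ℝ, c = ∑ i, x i • f i + ∑ i, y i • g i)
    (c : Fin 3 → H2 M)
    (hc : PosCls F c) (x : H2 M) (hx : ∀ i, ip F x (c i) = 0) (h0 : x ≠ 0) : ip F x x < 0 := by
  let Φ : ((Fin 3 → ℝ) × (Fin 3 → ℝ)) →ₗ[ℝ] H2 M :=
    LinearMap.coprod (Fintype.linearCombination ℝ f) (Fintype.linearCombination ℝ g)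
  have hΦ : ∀ p, Φ p = ∑ i, p.1 i • f i + ∑ i, p.2 i • g i := by
    intro p
    simp [Φ, Fintype.linearCombination_apply]
  have hsurj : Function.Surjective Φ := by
    intro c
    obtain ⟨x, y, hxy⟩ := hspan c
    exact ⟨(x, y), by rw [hΦ, hxy]⟩
  have hfd : FiniteDimensional ℝ (H2 M) := Module.Finite.of_surjective Φ hsurj
  have hdim : Module.finrank ℝ (H2 M) ≤ 6 := by
    have h1 := LinearMap.finrank_le_finrank_of_surjective (f := Φ) hsurj
    rw [Module.finrank_prod, Module.finrank_fin_fun] at h1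
    exact h1
  refine LatS_723.neg_of_sylvester (N := Fin 3 → ℝ) (ipB F hF)
    (fun x y => ip_comm F x y) (Φ ∘ₗ LinearMap.prod LinearMap.id (-LinearMap.id)) ?_ (k := 3) ?_
    c hc x hx h0
  · intro n hn
    have h1 : (Φ ∘ₗ LinearMap.prod LinearMap.id (-LinearMap.id)) n =
        ∑ i, n i • f i + ∑ i, (-n i) • g i := by
      rw [LinearMap.comp_apply, hΦ]
      rfl
    rw [h1, ipB_apply, BPlus_723.hyp_pair hF hff hgg hfg]
    obtain ⟨i, hi⟩ : ∃ i, n i ≠ 0 := by
      by_contra hcon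
      push Not at hcon
      exact hn (funext hcon)
    have h7 : ∀ i, n i * - n i + - n i * n i ≤ 0 := fun i => by
      nlinarith [sq_nonneg (n i)]
    refine Finset.sum_neg' (fun i _ => h7 i) ⟨i, Finset.mem_univ _, ?_⟩
    have := mul_self_pos.2 hi
    nlinarith
  · rw [Module.finrank_fin_fun]
    exact hdim

theorem neg_T4R {F : Z2 M} (hF : Vol (F.1.1 : F2 E4 M)) (h : T4R F) (c : Fin 3 → H2 M)
    (hc : PosCls F c) (x : H2 M) (hx : ∀ i, ip F x (c i) = 0) (h0 : x ≠ 0) : ip F x x < 0 := by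
  obtain ⟨f, g, hff, hgg, hfg, hspan, _⟩ := T4R_hyp hF h
  exact neg_of_hyp hF hff hgg hfg hspan c hc x hx h0

theorem tyOK_of_T4R {F : Z2 M} (hF : Vol (F.1.1 : F2 E4 M)) (h : T4R F) : TyOK F := by
  obtain ⟨f, g, hff, hgg, hfg, hspan, hHZ⟩ := T4R_hyp hF h
  refine ⟨?_, ?_, fun c hc x hx h0 => neg_of_hyp hF hff hgg hfg hspan c hc x hx h0⟩
  · rw [hHZ]
    refine (Set.countable_range (fun p : (Fin 3 → ℤ) × (Fin 3 → ℤ) =>
      ∑ i, (p.1 i : ℝ) • f i + ∑ i, (p.2 i : ℝ) • g i)).mono ?_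
    rintro c ⟨m, n, rfl⟩
    exact ⟨(m, n), rfl⟩
  · let Φ : ((Fin 3 → ℝ) × (Fin 3 → ℝ)) →ₗ[ℝ] H2 M :=
      LinearMap.coprod (Fintype.linearCombination ℝ f) (Fintype.linearCombination ℝ g)
    refine Module.Finite.of_surjective Φ fun c => ?_
    obtain ⟨x, y, hxy⟩ := hspan c
    exact ⟨(x, y), by simp [Φ, Fintype.linearCombination_apply, hxy]⟩

/-- the type, real version. -/
theorem tyOK_of {F : Z2 M} (hF : Vol (F.1.1 : F2 E4 M)) (h : K3Type F ∨ T4R F) : TyOK F := by
  rcases h with h | h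
  · exact tyOK_of_type hF (Or.inl h)
  · exact tyOK_of_T4R hF h

end

end

end Crest.Agent.R235
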