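import Crest.Agent.R235.Defs_837
import Crest.Agent.R235.LatS_723

/-!
Row 235 (S0364), package LAT, helper766: the K3 lattice in coordinates, sixteen explicit orthogonal
roots of `3U ⊕ 2E₈(-1)` whose saturation is the Kummer lattice, and three orthogonal vectors of
square `4` orthogonal to them.
-/

set_option autoImplicit false

open Finset

namespace Crest.Agent.R235.LatKx_766

/-- the index set of `gK3`. -/
abbrev IK : Type := Fin 3 × Fin 2 ⊕ Fin 2 × Fin 8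

section form

variable {R : Type*} [CommRing R]

/-- the bilinear form `E₈`. -/
def e8 (a b : Fin 8 → R) : R :=
  2 * (a 0 * b 0 + a 1 * b 1 + a 2 * b 2 + a 3 * b 3 + a 4 * b 4 + a 5 * b 5 + a 6 * b 6 +
    a 7 * b 7) - (a 0 * b 2 + a 2 * b 0 + a 1 * b 3 + a 3 * b 1 + a 2 * b 3 + a 3 * b 2 +
    a 3 * b 4 + a 4 * b 3 + a 4 * b 5 + a 5 * b 4 + a 5 * b 6 + a 6 * b 5 + a 6 * b 7 + a 7 * b 6)

/-- the hyperbolic part. -/
def hy (x y : IK → R) (k : Fin 3) : R :=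
  x (Sum.inl (k, 0)) * y (Sum.inl (k, 1)) + x (Sum.inl (k, 1)) * y (Sum.inl (k, 0))

/-- the form of the K3 lattice. -/
def qf (x y : IK → R) : R :=
  hy x y 0 + hy x y 1 + hy x y 2 -
    e8 (fun s => x (Sum.inr (0, s))) (fun s => y (Sum.inr (0, s))) -
    e8 (fun s => x (Sum.inr (1, s))) (fun s => y (Sum.inr (1, s)))

theorem qf_comm (x y : IK → R) : qf x y = qf y x := by
  simp only [qf, hy, e8]; ring

theorem qf_add (x y z : IK → R) : qf (x + y) z = qf x z + qf y z := by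
  simp only [qf, hy, e8, Pi.add_apply]; ring

theorem qf_smul (c : R) (x y : IK → R) : qf (c • x) y = c * qf x y := by
  simp only [qf, hy, e8, Pi.smul_apply, smul_eq_mul]; ring

theorem qf_map {S : Type*} [CommRing S] (f : R →+* S) (x y : IK → R) :
    qf (fun i => f (x i)) (fun i => f (y i)) = f (qf x y) := by
  simp only [qf, hy, e8, map_add, map_sub, map_mul, map_ofNat]

theorem gK3_inl (k l : Fin 3) (s t : Fin 2) :
    gK3 (Sum.inl (k, s)) (Sum.inl (l, t)) = if k = l ∧ s ≠ t then 1 else 0 := rfl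

theorem gK3_inr (k l : Fin 2) (s t : Fin 8) :
    gK3 (Sum.inr (k, s)) (Sum.inr (l, t)) = if k = l then - CartanMatrix.E₈ s t else 0 := rfl

theorem e8_eq (a b : Fin 8 → R) :
    ∑ i, ∑ j, a i * b j * (CartanMatrix.E₈ i j : R) = e8 a b := by
  simp only [CartanMatrix.E₈, Fin.sum_univ_eight, Matrix.of_apply, Matrix.cons_val', e8]
  simp
  ring

/-- `qf` is the form with Gram matrix `gK3`. -/
theorem qf_eq (x y : IK → R) :
    ∑ i, ∑ j, x i * y j * (gK3 i j : R) = qf x y := by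
  have h0 := e8_eq (fun s => x (Sum.inr (0, s))) (fun s => y (Sum.inr (0, s)))
  have h1 := e8_eq (fun s => x (Sum.inr (1, s))) (fun s => y (Sum.inr (1, s)))
  rw [Fintype.sum_sum_type]
  simp only [Fintype.sum_sum_type]
  have z1 : ∀ (a : Fin 3 × Fin 2) (b : Fin 2 × Fin 8), gK3 (Sum.inl a) (Sum.inr b) = 0 :=
    fun _ _ => rfl
  have z2 : ∀ (a : Fin 3 × Fin 2) (b : Fin 2 × Fin 8), gK3 (Sum.inr b) (Sum.inl a) = 0 :=
    fun _ _ => rfl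
  simp only [z1, z2, Int.cast_zero, mul_zero, Finset.sum_const_zero, add_zero, zero_add]
  rw [qf, ← h0, ← h1]
  simp only [Fintype.sum_prod_type, Fin.sum_univ_two, Fin.sum_univ_three, gK3_inl,
    gK3_inr, hy]
  simp
  ring

end form

/-- coordinates from a list. -/
def vec (l : List ℤ) : IK → ℤ
  | Sum.inl (i, s) => l.getD (2 * i.1 + s.1) 0
  | Sum.inr (i, s) => l.getD (6 + 8 * i.1 + s.1) 0

/-- the sixteen roots. -/
def dl : List (List ℤ) := [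
  [0, 0, 0, 0, 0, 0, 0, 0, 0, 0, 0, 0, 0, 0, -2, -2, -3, -4, -3, -2, -1, 0],
  [0, 0, 0, 0, 0, 0, 0, 1, 1, 2, 1, 1, 1, 1, 0, 0, 0, 0, 0, 0, 0, 0],
  [0, 0, 0, 0, 0, 0, 0, 0, 0, 0, 0, 0, 0, 0, 0, -1, -1, -2, -1, -1, 0, 0],
  [0, 0, 0, 0, 0, 0, 1, 2, 2, 4, 3, 2, 1, 0, 0, 0, 0, 0, 0, 0, 0, 0],
  [0, 0, 0, 0, 0, 0, 0, 0, 0, 0, 0, 0, 0, 0, -1, -2, -2, -3, -2, -1, -1, -1],
  [0, 0, 0, 0, 0, 0, 2, 2, 3, 4, 3, 2, 1, 1, 0, 0, 0, 0, 0, 0, 0, 0],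
  [0, 0, 0, 0, 1, 0, 0, 0, 0, 0, 0, 0, 0, 0, 1, 1, 2, 3, 2, 2, 2, 1],
  [0, 0, 0, 0, 1, 0, -1, -1, -2, -2, -1, -1, -1, 0, 0, 0, 0, 0, 0, 0, 0, 0],
  [0, 0, 0, 0, 0, 0, 0, 0, 0, 0, 0, 0, 0, 0, -1, -1, -2, -3, -3, -2, -1, -1],
  [0, 0, 0, 0, 0, 0, 1, 1, 2, 3, 3, 2, 2, 1, 0, 0, 0, 0, 0, 0, 0, 0],
  [1, 0, 0, 0, 0, 0, 0, 0, 0, 0, 0, 0, 0, 0, 1, 2, 2, 3, 3, 3, 2, 1],
  [1, 0, 0, 0, 0, 0, 0, 0, 1, 1, 1, 1, 0, 0, 0, 0, 0, 0, 0, 0, 0, 0],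
  [0, 0, 1, 0, 0, 0, 0, 0, 0, 0, 0, 0, 0, 0, 0, 1, 1, 2, 2, 1, 1, 0],
  [0, 0, 1, 0, 0, 0, 1, 2, 2, 3, 3, 3, 2, 1, 0, 0, 0, 0, 0, 0, 0, 0],
  [1, 0, 1, 0, 1, 0, 0, 0, 0, 0, 0, 0, 0, 0, 0, 0, -1, 0, 0, 0, 0, 0],
  [1, 0, 1, 0, 1, 0, 0, 1, 1, 1, 1, 0, 0, 0, 0, 0, 0, 0, 0, 0, 0, 0]]

/-- three vectors of square four. -/
def sl : List (List ℤ) := [
  [0, 0, -3, -2, -2, 0, -1, -3, -3, -4, -4, -3, -2, -1, 0, -1, 0, -2, -2, -1, -1, 0],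
  [-3, -2, -2, 0, -2, 0, 0, -1, -2, -2, -2, -1, 0, 0, -1, -2, -1, -3, -3, -3, -2, -1],
  [0, 0, 0, 0, -3, -2, 1, 0, 1, 1, 0, 1, 1, 0, -1, -1, -1, -3, -2, -2, -2, -1]]

/-- the sixteen roots. -/
def dv (i : Fin 16) : IK → ℤ := vec (dl.getD i.1 [])

/-- three vectors of square four. -/
def sv (i : Fin 3) : IK → ℤ := vec (sl.getD i.1 [])

set_option maxRecDepth 100000 in
theorem qf_dd : ∀ i j : Fin 16, qf (dv i) (dv j) = if i = j then -2 else 0 := by decide +kernel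

set_option maxRecDepth 100000 in
theorem qf_ss : ∀ i j : Fin 3, qf (sv i) (sv j) = if i = j then 4 else 0 := by decide +kernel

set_option maxRecDepth 100000 in
theorem qf_sd : ∀ (i : Fin 3) (j : Fin 16), qf (sv i) (dv j) = 0 := by decide +kernel

set_option maxRecDepth 100000 in
theorem half_d : ∀ k : IK, (∑ i, dv i k) % 2 = 0 := by decide +kernel

end Crest.Agent.R235.LatKx_766
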