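import Crest.Agent.R235.Props_844
import Crest.Agent.R235.Ip2_288
import Crest.Agent.R235.LatKx_766

/-!
Row 235 (S0364), package KUM-B, helper504: WORD8.  The half words of a Kummer configuration: every
integral half sum `½ ∑_{i ∈ I} d i` has `card I = 0, 8` or `16`, and there is one with eight
elements (the code has dimension at least five, since the K3 lattice is unimodular of rank 22).
-/

set_option autoImplicit false
set_option maxSynthPendingDepth 3

open Set Function Filter MeasureTheory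
open scoped Manifold ContDiff Topology

universe u

namespace Crest.Agent.R235.Word8_504

open Crest.Agent.R240 Crest.Agent.R240.Ch Crest.Agent.R240.Int
open Crest.Agent.R235.LatKx_766

noncomputable section

/-! ### the lattice is unimodular -/

/-- the inverse of `E₈`. -/
def e8i : Matrix (Fin 8) (Fin 8) ℤ :=
  !![4, 5, 7, 10, 8, 6, 4, 2;
     5, 8, 10, 15, 12, 9, 6, 3;
     7, 10, 14, 20, 16, 12, 8, 4;
     10, 15, 20, 30, 24, 18, 12, 6;
     8, 12, 16, 24, 20, 15, 10, 5;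
     6, 9, 12, 18, 15, 12, 8, 4;
     4, 6, 8, 12, 10, 8, 6, 3;
     2, 3, 4, 6, 5, 4, 3, 2]

/-- the inverse of `gK3`. -/
def gI : Matrix IK IK ℤ :=
  fun a b => match a, b with
    | Sum.inl (i, s), Sum.inl (j, t) => if i = j ∧ s ≠ t then 1 else 0
    | Sum.inr (i, s), Sum.inr (j, t) => if i = j then - e8i s t else 0
    | _, _ => 0

set_option maxRecDepth 100000 in
theorem gg : ∀ i j : IK, ∑ k, gK3 i k * gI k j = if i = j then 1 else 0 := by decide +kernel

theorem gK3_mul : gK3 * gI = 1 := by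
  ext i j
  rw [Matrix.mul_apply, gg, Matrix.one_apply]

/-- the Gram matrix modulo two. -/
def g2 : Matrix IK IK (ZMod 2) := gK3.map (Int.castRingHom (ZMod 2))

theorem g2_unit : IsUnit g2.det := by
  refine Matrix.isUnit_det_of_right_inverse (B := gI.map (Int.castRingHom (ZMod 2))) ?_
  rw [g2, ← Matrix.map_mul, gK3_mul]
  exact Matrix.map_one _ (map_zero _) (map_one _)

/-! ### the code -/

/-- the configuration modulo two. -/
def n2 (n : Fin 16 → IK → ℤ) : Matrix (Fin 16) IK (ZMod 2) := fun i k => (n i k : ZMod 2)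

theorem n2_mul (n : Fin 16 → IK → ℤ) (h : ∀ i j, qf (n i) (n j) = if i = j then -2 else 0) :
    n2 n * (g2 * (n2 n).transpose) = 0 := by
  ext i j
  have h1 := qf_eq (R := ZMod 2) (fun k => (n i k : ZMod 2)) (fun k => (n j k : ZMod 2))
  have h2 := qf_map (Int.castRingHom (ZMod 2)) (n i) (n j)
  have h3 : qf (fun k => (n i k : ZMod 2)) (fun k => (n j k : ZMod 2)) = 0 := by
    refine h2.trans ?_
    rw [h i j]
    split_ifs
    · decide
    · exact map_zero _
  rw [Matrix.zero_apply, Matrix.mul_apply, ← h3, ← h1]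
  refine Finset.sum_congr rfl fun a _ => ?_
  rw [Matrix.mul_apply, Finset.mul_sum]
  refine Finset.sum_congr rfl fun b _ => ?_
  simp only [Matrix.transpose_apply, g2, Matrix.map_apply, n2, Int.coe_castRingHom]
  ring

theorem n2_rank (n : Fin 16 → IK → ℤ) (h : ∀ i j, qf (n i) (n j) = if i = j then -2 else 0) :
    (n2 n).rank ≤ 11 := by
  have h1 := Matrix.rank_add_rank_le_card_of_mul_eq_zero (n2_mul n h)
  rw [Matrix.rank_mul_eq_right_of_isUnit_det _ _ g2_unit, Matrix.rank_transpose] at h1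
  have h2 : Fintype.card IK = 22 := by decide
  omega

/-- there are at least `32` words. -/
theorem ker_card (n : Fin 16 → IK → ℤ) (h : ∀ i j, qf (n i) (n j) = if i = j then -2 else 0) :
    5 ≤ Module.finrank (ZMod 2) (LinearMap.ker (n2 n).transpose.mulVecLin) := by
  have h1 := LinearMap.finrank_range_add_finrank_ker (n2 n).transpose.mulVecLin
  have h2 := n2_rank n h
  rw [← Matrix.rank_transpose] at h2
  rw [Matrix.rank] at h2
  have h3 : Module.finrank (ZMod 2) (Fin 16 → ZMod 2) = 16 := by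
    rw [Module.finrank_fintype_fun_eq_card]; rfl
  rw [h3] at h1
  omega

theorem exists_word (n : Fin 16 → IK → ℤ)
    (h : ∀ i j, qf (n i) (n j) = if i = j then -2 else 0) :
    ∃ x : Fin 16 → ZMod 2, (n2 n).transpose.mulVec x = 0 ∧ x ≠ 0 ∧ x ≠ 1 := by
  by_contra hc
  push Not at hc
  have h1 : (LinearMap.ker (n2 n).transpose.mulVecLin) ≤ Submodule.span (ZMod 2) {1} := by
    intro x hx
    rw [LinearMap.mem_ker, Matrix.mulVecLin_apply] at hx
    by_cases h0 : x = 0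
    · rw [h0]; exact Submodule.zero_mem _
    · rw [hc x hx h0]; exact Submodule.mem_span_singleton_self _
  have h2 := Submodule.finrank_mono h1
  have h3 := ker_card n h
  have h4 := finrank_span_le_card (R := ZMod 2) ({1} : Set (Fin 16 → ZMod 2))
  have h5 : ({1} : Set (Fin 16 → ZMod 2)).toFinset.card = 1 := by simp
  rw [h5] at h4
  omega

/-- a word of the code as a finite set. -/
theorem exists_set (n : Fin 16 → IK → ℤ)
    (h : ∀ i j, qf (n i) (n j) = if i = j then -2 else 0) :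
    ∃ (S : Finset (Fin 16)) (v : IK → ℤ), S.card ≠ 0 ∧ S.card ≠ 16 ∧ ∑ i ∈ S, n i = 2 • v := by
  obtain ⟨x, hx, h0, h1⟩ := exists_word n h
  have hx01 : ∀ i, x i = 0 ∨ x i = 1 := fun i => by
    have : ∀ z : ZMod 2, z = 0 ∨ z = 1 := by decide
    exact this (x i)
  refine ⟨Finset.univ.filter fun i => x i = 1,
    fun k => (∑ i ∈ Finset.univ.filter (fun i => x i = 1), n i k) / 2, ?_, ?_, ?_⟩
  · intro hc
    rw [Finset.card_eq_zero, Finset.filter_eq_empty_iff] at hc
    apply h0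
    funext i
    exact (hx01 i).resolve_right (hc (Finset.mem_univ i))
  · intro hc
    apply h1
    have h2 : (Finset.univ.filter fun i => x i = 1) = Finset.univ := by
      rw [← Finset.card_eq_iff_eq_univ, hc]; rfl
    rw [Finset.filter_eq_self] at h2
    funext i
    exact h2 i (Finset.mem_univ i)
  · funext k
    have h2 := congrFun hx k
    rw [Matrix.mulVec, dotProduct] at h2
    simp only [Matrix.transpose_apply, n2, Pi.zero_apply] at h2
    have h3 : ∑ i, (n i k : ZMod 2) * x i =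
        ((∑ i ∈ Finset.univ.filter (fun i => x i = 1), n i k : ℤ) : ZMod 2) := by
      rw [Int.cast_sum, Finset.sum_filter]
      refine Finset.sum_congr rfl fun i _ => ?_
      rcases hx01 i with hi | hi
      · rw [hi, if_neg (by decide), mul_zero]
      · rw [hi, if_pos rfl, mul_one]
    rw [h3] at h2
    have h4 := (ZMod.intCast_zmod_eq_zero_iff_dvd _ 2).1 h2
    rw [Finset.sum_apply, Pi.smul_apply]
    simp only [nsmul_eq_mul]
    push_cast at h4 ⊢
    omega

/-! ### squares -/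

theorem qf_even (v : IK → ℤ) : ∃ m : ℤ, qf v v = 2 * m := by
  refine ⟨v (Sum.inl (0, 0)) * v (Sum.inl (0, 1)) + v (Sum.inl (1, 0)) * v (Sum.inl (1, 1)) +
    v (Sum.inl (2, 0)) * v (Sum.inl (2, 1)) -
    (v (Sum.inr (0, 0)) ^ 2 + v (Sum.inr (0, 1)) ^ 2 + v (Sum.inr (0, 2)) ^ 2 +
      v (Sum.inr (0, 3)) ^ 2 + v (Sum.inr (0, 4)) ^ 2 + v (Sum.inr (0, 5)) ^ 2 +
      v (Sum.inr (0, 6)) ^ 2 + v (Sum.inr (0, 7)) ^ 2
      - v (Sum.inr (0, 0)) * v (Sum.inr (0, 2)) - v (Sum.inr (0, 1)) * v (Sum.inr (0, 3))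
      - v (Sum.inr (0, 2)) * v (Sum.inr (0, 3)) - v (Sum.inr (0, 3)) * v (Sum.inr (0, 4))
      - v (Sum.inr (0, 4)) * v (Sum.inr (0, 5)) - v (Sum.inr (0, 5)) * v (Sum.inr (0, 6))
      - v (Sum.inr (0, 6)) * v (Sum.inr (0, 7))) -
    (v (Sum.inr (1, 0)) ^ 2 + v (Sum.inr (1, 1)) ^ 2 + v (Sum.inr (1, 2)) ^ 2 +
      v (Sum.inr (1, 3)) ^ 2 + v (Sum.inr (1, 4)) ^ 2 + v (Sum.inr (1, 5)) ^ 2 +
      v (Sum.inr (1, 6)) ^ 2 + v (Sum.inr (1, 7)) ^ 2
      - v (Sum.inr (1, 0)) * v (Sum.inr (1, 2)) - v (Sum.inr (1, 1)) * v (Sum.inr (1, 3))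
      - v (Sum.inr (1, 2)) * v (Sum.inr (1, 3)) - v (Sum.inr (1, 3)) * v (Sum.inr (1, 4))
      - v (Sum.inr (1, 4)) * v (Sum.inr (1, 5)) - v (Sum.inr (1, 5)) * v (Sum.inr (1, 6))
      - v (Sum.inr (1, 6)) * v (Sum.inr (1, 7))), ?_⟩
  simp only [qf, hy, e8]
  ring

theorem qf_sum_left {R : Type*} [CommRing R] {ι : Type*} (s : Finset ι) (a : ι → IK → R)
    (b : IK → R) : qf (∑ i ∈ s, a i) b = ∑ i ∈ s, qf (a i) b := by
  classical
  induction s using Finset.induction_on with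
  | empty =>
    simp only [Finset.sum_empty]
    have h := qf_smul (0 : R) 0 b
    rwa [zero_smul, zero_mul] at h
  | insert i s hi ih => rw [Finset.sum_insert hi, Finset.sum_insert hi, qf_add, ih]

theorem qf_sum_self (n : Fin 16 → IK → ℤ)
    (h : ∀ i j, qf (n i) (n j) = if i = j then -2 else 0) (S : Finset (Fin 16)) :
    qf (∑ i ∈ S, n i) (∑ i ∈ S, n i) = -2 * S.card := by
  rw [qf_sum_left]
  have h1 : ∀ i ∈ S, qf (n i) (∑ j ∈ S, n j) = -2 := by
    intro i hi
    rw [qf_comm, qf_sum_left, Finset.sum_eq_single i]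
    · rw [h, if_pos rfl]
    · intro j _ hj
      rw [h, if_neg hj]
    · intro hn; exact absurd hi hn
  rw [Finset.sum_congr rfl h1, Finset.sum_const, nsmul_eq_mul]
  ring

theorem card_four_dvd (n : Fin 16 → IK → ℤ)
    (h : ∀ i j, qf (n i) (n j) = if i = j then -2 else 0) (S : Finset (Fin 16)) (v : IK → ℤ)
    (hv : ∑ i ∈ S, n i = (2 : ℤ) • v) : 2 * qf v v = - S.card ∧ 4 ∣ S.card := by
  have h1 := qf_sum_self n h S
  rw [hv, qf_smul, qf_comm, qf_smul] at h1
  obtain ⟨m, hm⟩ := qf_even v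
  constructor <;> omega

/-! ### classes -/

section

variable {M : Type u} [TopologicalSpace M] [T2Space M] [CompactSpace M]
  [ChartedSpace E4 M] [IsManifold 𝓘(ℝ, E4) ∞ M]

/-- the class with coordinates `n`. -/
def cl (e : Module.Basis IK ℝ (H2 M)) (n : IK → ℤ) : H2 M := ∑ i, (n i : ℝ) • e i

omit [T2Space M] [CompactSpace M] in
theorem cl_add (e : Module.Basis IK ℝ (H2 M)) (n m : IK → ℤ) :
    cl e (n + m) = cl e n + cl e m := by
  rw [cl, cl, cl, ← Finset.sum_add_distrib]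
  refine Finset.sum_congr rfl fun i _ => ?_
  rw [Pi.add_apply, Int.cast_add, add_smul]

omit [T2Space M] [CompactSpace M] in
theorem cl_smul (e : Module.Basis IK ℝ (H2 M)) (c : ℤ) (n : IK → ℤ) :
    cl e (c • n) = (c : ℝ) • cl e n := by
  rw [cl, cl, Finset.smul_sum]
  refine Finset.sum_congr rfl fun i _ => ?_
  rw [Pi.smul_apply, smul_eq_mul, Int.cast_mul, smul_smul]

omit [T2Space M] [CompactSpace M] in
theorem cl_sum (e : Module.Basis IK ℝ (H2 M)) {ι : Type*} (s : Finset ι) (n : ι → IK → ℤ) :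
    cl e (∑ i ∈ s, n i) = ∑ i ∈ s, cl e (n i) := by
  classical
  induction s using Finset.induction_on with
  | empty => simp [cl]
  | insert i s hi ih => rw [Finset.sum_insert hi, Finset.sum_insert hi, cl_add, ih]

omit [T2Space M] [CompactSpace M] in
theorem cl_inj (e : Module.Basis IK ℝ (H2 M)) {n m : IK → ℤ} (h : cl e n = cl e m) : n = m := by
  have h1 : ∀ k : IK → ℤ, e.equivFun (cl e k) = fun i => (k i : ℝ) := by
    intro k
    rw [cl, ← Module.Basis.equivFun_symm_apply e (fun i => (k i : ℝ)),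
      LinearEquiv.apply_symm_apply]
  have h2 := congrArg e.equivFun h
  rw [h1, h1] at h2
  funext i
  exact_mod_cast congrFun h2 i

theorem ip_cl {F : Z2 M} (hF : Vol (F.1.1 : F2 E4 M)) (e : Module.Basis IK ℝ (H2 M))
    (hG : ∀ i j, ip F (e i) (e j) = gK3 i j) (x y : IK → ℤ) :
    ip F (cl e x) (cl e y) = (qf x y : ℤ) := by
  rw [← qf_eq (R := ℤ) x y, cl, cl, ip_sum_left hF, Int.cast_sum]
  refine Finset.sum_congr rfl fun i _ => ?_
  rw [ip_sum_right hF, Int.cast_sum]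
  refine Finset.sum_congr rfl fun j _ => ?_
  rw [ip_smul_left hF, ip_smul_right hF, hG]
  push_cast
  ring

/-- the intersection of a half word with a class of the configuration. -/
theorem ip_half {F : Z2 M} (hF : Vol (F.1.1 : F2 E4 M)) {d : Fin 16 → H2 M} (hd : KumConf F d)
    (S : Finset (Fin 16)) (i : Fin 16) :
    ip F (((1 : ℝ) / 2) • ∑ j ∈ S, d j) (d i) = if i ∈ S then -1 else 0 := by
  rw [ip_smul_left hF, ip_sum_left hF]
  have h1 : ∀ j, ip F (d j) (d i) = if j = i then -2 else 0 := by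
    intro j
    split_ifs with h
    · rw [h]; exact (hd.root i).2
    · exact hd.orth j i h
  simp only [h1, Finset.sum_ite_eq']
  split_ifs <;> norm_num

/-- the square of a half word. -/
theorem ip_half_self {F : Z2 M} (hF : Vol (F.1.1 : F2 E4 M)) {d : Fin 16 → H2 M}
    (hd : KumConf F d) (S : Finset (Fin 16)) :
    ip F (((1 : ℝ) / 2) • ∑ j ∈ S, d j) (((1 : ℝ) / 2) • ∑ j ∈ S, d j) = -(S.card : ℝ) / 2 := by
  rw [ip_smul_right hF, ip_sum_right hF]
  have h1 : ∀ i ∈ S, ip F (((1 : ℝ) / 2) • ∑ j ∈ S, d j) (d i) = -1 := by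
    intro i hi
    rw [ip_half hF hd, if_pos hi]
  rw [Finset.sum_congr rfl h1, Finset.sum_const, nsmul_eq_mul]
  ring

end

/-- no half word has four elements. -/
theorem not_four {M : Type u} [TopologicalSpace M] [T2Space M] [CompactSpace M]
    [ChartedSpace E4 M] [IsManifold 𝓘(ℝ, E4) ∞ M] {F : Z2 M} (hF : Vol (F.1.1 : F2 E4 M))
    {d : Fin 16 → H2 M} {b : Fin 3 → H2 M} (hk : KumPos F d b) (S : Finset (Fin 16))
    (hS : ((1 : ℝ) / 2) • ∑ i ∈ S, d i ∈ HZ M) : S.card ≠ 4 := by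
  intro h4
  have h1 := ip_half_self hF hk.conf S
  rw [h4] at h1
  have hr : ((1 : ℝ) / 2) • ∑ i ∈ S, d i ∈ Root F := ⟨hS, by rw [h1]; norm_num⟩
  have hp : ∀ j : Fin 3, (∀ i, ip F (d i) (b j) = 0) →
      ip F (((1 : ℝ) / 2) • ∑ i ∈ S, d i) (b j) = 0 := by
    intro j hj
    rw [ip_smul_left hF, ip_sum_left hF, Finset.sum_eq_zero fun i _ => hj i, mul_zero]
  obtain ⟨j, hj⟩ := hk.only _ hr (hp 1 hk.perp1) (hp 2 hk.perp2)
  obtain ⟨i, hi⟩ : S.Nonempty := by
    rw [← Finset.card_pos, h4]; norm_num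
  have h2 := ip_half hF hk.conf S i
  rw [if_pos hi] at h2
  have h3 : ip F (d j) (d i) = if j = i then -2 else 0 := by
    split_ifs with h
    · rw [h]; exact (hk.conf.root i).2
    · exact hk.conf.orth j i h
  rcases hj with hj | hj
  · rw [hj, h3] at h2
    split_ifs at h2 <;> norm_num at h2
  · rw [hj, ip_neg_left hF, h3] at h2
    split_ifs at h2 <;> norm_num at h2

/-- coordinates of the configuration. -/
theorem coords {M : Type u} [TopologicalSpace M] [T2Space M] [CompactSpace M]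
    [ChartedSpace E4 M] [IsManifold 𝓘(ℝ, E4) ∞ M] {F : Z2 M} (hF : Vol (F.1.1 : F2 E4 M))
    {d : Fin 16 → H2 M} (hd : KumConf F d) (e : Module.Basis IK ℝ (H2 M))
    (hG : ∀ i j, ip F (e i) (e j) = gK3 i j)
    (hZ : HZ M = {c | ∃ n : IK → ℤ, c = ∑ i, (n i : ℝ) • e i}) :
    ∃ n : Fin 16 → IK → ℤ, (∀ i, d i = cl e (n i)) ∧
      ∀ i j, qf (n i) (n j) = if i = j then -2 else 0 := by
  have h1 : ∀ i, ∃ n : IK → ℤ, d i = cl e n := by
    intro i
    have h := (hd.root i).1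
    rw [hZ] at h
    exact h
  choose n hn using h1
  refine ⟨n, hn, fun i j => ?_⟩
  have h2 := ip_cl hF e hG (n i) (n j)
  rw [← hn, ← hn] at h2
  split_ifs with h
  · subst h
    have h3 := (hd.root i).2
    rw [h3] at h2
    exact_mod_cast h2.symm
  · rw [hd.orth i j h] at h2
    exact_mod_cast h2.symm

section

variable {M : Type u} [TopologicalSpace M] [T2Space M] [CompactSpace M]
  [ChartedSpace E4 M] [IsManifold 𝓘(ℝ, E4) ∞ M] {F : Z2 M}

/-- the integral classes are stable under subtraction (K3 type). -/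
theorem hz_sub (hK : K3Type F) {a b : H2 M} (ha : a ∈ HZ M) (hb : b ∈ HZ M) : a - b ∈ HZ M := by
  obtain ⟨-, e, hG, hZ⟩ := hK
  rw [hZ] at ha hb ⊢
  obtain ⟨n, hn⟩ := ha
  obtain ⟨m, hm⟩ := hb
  refine ⟨n - m, ?_⟩
  rw [hn, hm, ← Finset.sum_sub_distrib]
  refine Finset.sum_congr rfl fun i _ => ?_
  rw [Pi.sub_apply, Int.cast_sub, sub_smul]

theorem hz_add (hK : K3Type F) {a b : H2 M} (ha : a ∈ HZ M) (hb : b ∈ HZ M) : a + b ∈ HZ M := by
  obtain ⟨-, e, hG, hZ⟩ := hK
  rw [hZ] at ha hb ⊢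
  obtain ⟨n, hn⟩ := ha
  obtain ⟨m, hm⟩ := hb
  refine ⟨n + m, ?_⟩
  rw [hn, hm, ← Finset.sum_add_distrib]
  refine Finset.sum_congr rfl fun i _ => ?_
  rw [Pi.add_apply, Int.cast_add, add_smul]

/-- the complement of a half word. -/
theorem compl_word (hK : K3Type F) {d : Fin 16 → H2 M} (hd : KumConf F d)
    {S : Finset (Fin 16)} (hS : ((1 : ℝ) / 2) • ∑ i ∈ S, d i ∈ HZ M) :
    ((1 : ℝ) / 2) • ∑ i ∈ Sᶜ, d i ∈ HZ M := by
  have h := hz_sub hK hd.half hS
  rw [← smul_sub, ← Finset.sum_add_sum_compl S d, add_sub_cancel_left] at h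
  exact h

/-- the symmetric difference of two half words. -/
theorem symmDiff_word (hK : K3Type F) {d : Fin 16 → H2 M} (hd : KumConf F d)
    {S T : Finset (Fin 16)} (hS : ((1 : ℝ) / 2) • ∑ i ∈ S, d i ∈ HZ M)
    (hT : ((1 : ℝ) / 2) • ∑ i ∈ T, d i ∈ HZ M) :
    ((1 : ℝ) / 2) • ∑ i ∈ symmDiff S T, d i ∈ HZ M := by
  have hI : ∑ i ∈ S ∩ T, d i ∈ HZ M := by
    obtain ⟨-, e, hG, hZ⟩ := hK
    have h1 : ∀ i, ∃ n : IK → ℤ, d i = cl e n := by
      intro i
      have h := (hd.root i).1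
      rw [hZ] at h
      exact h
    choose n hn using h1
    rw [hZ]
    refine ⟨∑ i ∈ S ∩ T, n i, ?_⟩
    change _ = cl e (∑ i ∈ S ∩ T, n i)
    rw [cl_sum]
    exact Finset.sum_congr rfl fun i _ => hn i
  have h1 := hz_sub hK (hz_add hK hS hT) hI
  have h2 : ∑ i ∈ S, d i = ∑ i ∈ S \ T, d i + ∑ i ∈ S ∩ T, d i := by
    rw [← Finset.sum_union (Finset.disjoint_sdiff_inter S T), Finset.sdiff_union_inter]
  have h3 : ∑ i ∈ T, d i = ∑ i ∈ T \ S, d i + ∑ i ∈ S ∩ T, d i := by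
    rw [Finset.inter_comm, ← Finset.sum_union (Finset.disjoint_sdiff_inter T S),
      Finset.sdiff_union_inter]
  have h4 : ∑ i ∈ symmDiff S T, d i = ∑ i ∈ S \ T, d i + ∑ i ∈ T \ S, d i := by
    have hs : symmDiff S T = (S \ T) ∪ (T \ S) := rfl
    rw [hs, Finset.sum_union]
    exact Finset.disjoint_left.2 fun i hi hj =>
      (Finset.mem_sdiff.1 hj).2 (Finset.mem_sdiff.1 hi).1
  have h5 : ((1 : ℝ) / 2) • ∑ i ∈ symmDiff S T, d i =
      ((1 : ℝ) / 2) • ∑ i ∈ S, d i + ((1 : ℝ) / 2) • ∑ i ∈ T, d i - ∑ i ∈ S ∩ T, d i := by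
    rw [h2, h3, h4]
    module
  rw [h5]
  exact h1

/-- every half word has `0`, `8` or `16` elements. -/
theorem word_card_F (hF : Vol (F.1.1 : F2 E4 M)) (hK : K3Type F) {d : Fin 16 → H2 M}
    {b : Fin 3 → H2 M} (hk : KumPos F d b) {S : Finset (Fin 16)}
    (hS : ((1 : ℝ) / 2) • ∑ i ∈ S, d i ∈ HZ M) :
    S.card = 0 ∨ S.card = 8 ∨ S.card = 16 := by
  have h4 := not_four hF hk S hS
  have h12 := not_four hF hk Sᶜ (compl_word hK hk.conf hS)
  rw [Finset.card_compl, Fintype.card_fin] at h12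
  have hle : S.card ≤ 16 := by
    have := Finset.card_le_univ S
    rwa [Fintype.card_fin] at this
  obtain ⟨-, e, hG, hZ⟩ := hK
  obtain ⟨n, hn, hq⟩ := coords hF hk.conf e hG hZ
  rw [hZ] at hS
  obtain ⟨v, hv⟩ := hS
  have h1 : ∑ i ∈ S, n i = (2 : ℤ) • v := by
    apply cl_inj e
    rw [cl_sum, cl_smul, cl, ← hv, smul_smul]
    norm_num
    exact (Finset.sum_congr rfl fun i _ => hn i).symm
  have h2 := (card_four_dvd n hq S v h1).2
  omega

end

variable {M : Type u} [TopologicalSpace M] [T2Space M] [CompactSpace M]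
  [ChartedSpace E4 M] [IsManifold 𝓘(ℝ, E4) ∞ M]

/-- every half word has `0`, `8` or `16` elements. -/
theorem word_card (w : Trip M) (d : Fin 16 → H2 M) (hw : Pos3 w) (hK : K3Type (w 0))
    (hk : KumPos (w 0) d (clw w)) (S : Finset (Fin 16))
    (hS : ((1 : ℝ) / 2) • ∑ i ∈ S, d i ∈ HZ M) : S.card = 0 ∨ S.card = 8 ∨ S.card = 16 :=
  word_card_F (hw.vol 0) hK hk hS

/-- WORD8: there is a half word with eight elements. -/
theorem word8 (w : Trip M) (d : Fin 16 → H2 M) (hw : Pos3 w) (hK : K3Type (w 0))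
    (hk : KumPos (w 0) d (clw w)) :
    ∃ I : Finset (Fin 16), I.card = 8 ∧ ((1 : ℝ) / 2) • (∑ i ∈ I, d i) ∈ HZ M := by
  have hF := hw.vol 0
  obtain ⟨-, e, hG, hZ⟩ := id hK
  obtain ⟨n, hn, hq⟩ := coords hF hk.conf e hG hZ
  obtain ⟨S, v, h0, h16, hv⟩ := exists_set n hq
  have hS : ((1 : ℝ) / 2) • ∑ i ∈ S, d i ∈ HZ M := by
    rw [hZ]
    refine ⟨v, ?_⟩
    change _ = cl e v
    have h1 : ∑ i ∈ S, d i = cl e (∑ i ∈ S, n i) := by
      rw [cl_sum]
      exact Finset.sum_congr rfl fun i _ => hn i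
    have h2 : (2 • v : IK → ℤ) = (2 : ℤ) • v := by
      funext k
      simp
    rw [h1, hv, h2, cl_smul, smul_smul]
    norm_num
  refine ⟨S, ?_, hS⟩
  rcases word_card w d hw hK hk S hS with h | h | h
  · exact absurd h h0
  · exact h
  · exact absurd h h16

end

end Crest.Agent.R235.Word8_504
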