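import Crest.Agent.R235.CurTopProps_844
import Crest.Agent.R235.T1A_195
import Crest.Agent.R235.CurB_288
import Crest.Agent.R235.AdjE_83
import Crest.Agent.R235.Sph0_464
import Crest.Agent.R235.Word8_504
import Crest.Agent.R235.HZFin_524
import Crest.Agent.R235.RSSec_538
import Crest.Agent.R235.TyR_844

/-!
Row 235 (S0364), helper844: THE CURVES ASSEMBLY.
`JDEC, INTEG, JSAME, ADJ, ISEC, CLS, DICHR ⇒ NEGN, ZD, NEGK`.
-/

set_option autoImplicit false
set_option maxSynthPendingDepth 3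
set_option linter.unusedSectionVars false

open Set Function Filter MeasureTheory Metric
open scoped Manifold ContDiff Topology

universe u

namespace Crest.Agent.R235.CurTop_844

open Crest.Agent.R240 Crest.Agent.R240.Ch Crest.Agent.R240.Int Crest.Agent.R235
open Crest.Agent.R235.Glob_370 Crest.Agent.R235.CurB_288

noncomputable section

/-! ### classes of curves are integral -/

theorem jint_of (h : INTEG.{u}) (hz : HZLat_524.HZLAT.{u}) : JINT.{u} := by
  intro M _ _ _ _ _ _ w J hw hJ c s hs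
  obtain ⟨m, e, Q, hQ, hdet, hHZ⟩ := hz M (w 0) (hw.W_ne' 0)
  have h1 : ∀ j, ∃ n : ℤ, ip (w 0) s (e j) = n := by
    intro j
    have hj : e j ∈ HZ M := by
      rw [hHZ]
      refine ⟨Pi.single j 1, ?_⟩
      rw [Finset.sum_eq_single j]
      · rw [Pi.single_eq_same, Int.cast_one, one_smul]
      · intro i _ hi
        rw [Pi.single_eq_of_ne hi, Int.cast_zero, zero_smul]
      · intro hn; exact absurd (Finset.mem_univ _) hn
    obtain ⟨N, p, a, hp, ha, hcl⟩ := hj
    obtain ⟨n, hn⟩ := h M w J hw hJ c N p a hp ha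
    exact ⟨n, by rw [← hcl, ← hs a, hn]⟩
  choose n hn using h1
  set x : Fin m → ℝ := e.equivFun s with hx
  have hsx : s = ∑ i, x i • e i := (e.sum_equivFun s).symm
  have h2 : Matrix.vecMul x (Q.map (Int.cast : ℤ → ℝ)) = fun j => (n j : ℝ) := by
    funext j
    rw [← hn j, hsx, ip_sum_left (hw.vol 0)]
    simp only [Matrix.vecMul, dotProduct, Matrix.map_apply]
    refine Finset.sum_congr rfl fun i _ => ?_
    rw [ip_smul_left (hw.vol 0), hQ]
  have h3 : Q.map (Int.cast : ℤ → ℝ) * (Q⁻¹).map (Int.cast : ℤ → ℝ) = 1 := by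
    have h4 : Q * Q⁻¹ = 1 := Matrix.mul_nonsing_inv Q hdet
    have h5 := congrArg (Int.castRingHom ℝ).mapMatrix h4
    rw [map_mul, map_one] at h5
    exact h5
  have h4 : x = fun j => ((Matrix.vecMul n Q⁻¹ j : ℤ) : ℝ) := by
    have h5 : Matrix.vecMul (Matrix.vecMul x (Q.map (Int.cast : ℤ → ℝ)))
        ((Q⁻¹).map (Int.cast : ℤ → ℝ)) = x := by
      rw [Matrix.vecMul_vecMul, h3, Matrix.vecMul_one]
    rw [← h5, h2]
    funext j
    simp only [Matrix.vecMul, dotProduct, Matrix.map_apply]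
    push_cast
    rfl
  rw [hHZ]
  refine ⟨Matrix.vecMul n Q⁻¹, ?_⟩
  rw [hsx, h4]

/-! ### curves of negative square -/

theorem jneg_of (hA : Adj.ADJ.{u}) (hI : JINT.{u}) (hD : DICHR.{u}) : JNEG.{u} := by
  intro M _ _ _ _ _ _ w J hw hJ c s hs hneg
  obtain ⟨k, hk⟩ := RS.CAtl.rsec c.N c.A
  obtain ⟨h1, h2⟩ := hA M w J hw hJ c s hs k
  have hsph : c.A.IsSph ∧ k.deg = -2 := by
    rcases hk with h | ⟨-, h⟩ | h
    · exact h
    · exfalso
      have h3 : k.deg = 0 := by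
        unfold Adj.KSec.deg
        rw [h, Finset.sum_empty]
      rw [h3, Int.cast_zero] at h1
      linarith
    · exfalso
      have h3 : (1 : ℝ) ≤ k.deg := by exact_mod_cast h
      linarith
  rw [hsph.2] at h1 h2
  have hF := hw.vol 0
  rcases hD M w hw with h | h
  · have hsZ := hI M w J hw hJ c s hs
    have hsZ' := hsZ
    obtain ⟨-, e, hG, hHZ⟩ := id h
    rw [hHZ] at hsZ'
    obtain ⟨n, hn⟩ := hsZ'
    have h3 : ip (w 0) s s = (LatKx_766.qf n n : ℤ) := by
      have h4 : s = Word8_504.cl e n := hn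
      rw [h4]
      exact Word8_504.ip_cl hF e hG n n
    obtain ⟨m, hm⟩ := Word8_504.qf_even n
    rw [hm] at h3
    have h5 : (-2 : ℝ) ≤ ((2 * m : ℤ) : ℝ) := by rw [← h3]; exact_mod_cast h1
    have h6 : ((2 * m : ℤ) : ℝ) < 0 := by rw [← h3]; exact hneg
    have h7 : (-2 : ℤ) ≤ 2 * m := by exact_mod_cast h5
    have h8 : 2 * m < 0 := by exact_mod_cast h6
    have h9 : m = -1 := by omega
    have h10 : ip (w 0) s s = -2 := by rw [h3, h9]; norm_num
    refine ⟨⟨h, hsZ, h10⟩, hsph.1, h2 ?_⟩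
    rw [h10]; norm_num
  · exfalso
    obtain ⟨⟨r, hr, -, a, ha, -, -, hspan⟩, -⟩ := h
    have h3 : ∀ i j, ip (w 0) s (cls (a i j)) = 0 := by
      intro i j
      rw [← hs (a i j)]
      exact Sph0_464.sph0 c hsph.1 (hr i) (hr j) _ (ha i j)
    obtain ⟨n, hn⟩ := hspan s
    have h4 : ip (w 0) s s = 0 := by
      nth_rewrite 2 [hn]
      rw [ip_sum_right hF]
      refine Finset.sum_eq_zero fun i _ => ?_
      rw [ip_sum_right hF]
      refine Finset.sum_eq_zero fun j _ => ?_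
      rw [ip_smul_right hF, h3, mul_zero]
    rw [h4] at hneg
    exact lt_irrefl _ hneg

/-! ### diffuse currents -/

section Closed

variable {M : Type u} [TopologicalSpace M] [T2Space M] [CompactSpace M] [ConnectedSpace M]
  [ChartedSpace E4 M] [IsManifold 𝓘(ℝ, E4) ∞ M]

/-- `s` is the class of the current `S`. -/
def HasCl (w : Trip M) (S : X2 M →ₗ[ℝ] ℝ) (s : H2 M) : Prop :=
  ∀ b : Z2 M, S b.1 = ip (w 0) s (cls b)

/-- `S` has non-negative intersection with every positive closed current. -/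
def Dif (w : Trip M) (J : EndF E4 M) (S : X2 M →ₗ[ℝ] ℝ) : Prop :=
  ∀ (S' : X2 M →ₗ[ℝ] ℝ) (s s' : H2 M), PCur J S' → HasCl w S s → HasCl w S' s' →
    0 ≤ ip (w 0) s s'

end Closed

theorem dif_of_zeroDens {M : Type u} [MetricSpace M] [CompactSpace M]
    [ConnectedSpace M] [ChartedSpace E4 M] [IsManifold 𝓘(ℝ, E4) ∞ M] [MeasurableSpace M]
    [BorelSpace M] {w : Trip M} {J : EndF E4 M} {D : Dat M} (hD : T1A_195.Bridge w J D)
    {S : X2 M →ₗ[ℝ] ℝ} {s : Measure M} (hs : T1_195.Cur D S s) (hz : Dat.ZeroDens s) :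
    Dif w J S := by
  intro S' t t' hS' ht ht'
  obtain ⟨s', hs'⟩ := hD.exists_cur hS'
  obtain ⟨a, rfl⟩ := cls_surj t
  obtain ⟨a', rfl⟩ := cls_surj t'
  rw [hD.ip_eq]
  exact T1_195.t1_diffuse D hs hs' (hD.rep ht) (hD.rep ht') hz

theorem dec_aux (h : JDEC.{u}) {M : Type u} [MetricSpace M] [CompactSpace M]
    [ConnectedSpace M] [ChartedSpace E4 M] [IsManifold 𝓘(ℝ, E4) ∞ M] [MeasurableSpace M]
    [BorelSpace M] (hb : Met.BiLip E4 M) {w : Trip M} {J : EndF E4 M} (hw : Pos3 w)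
    (hJ : IsJ w J) {S : X2 M →ₗ[ℝ] ℝ} (hS : PCur J S) :
    Dif w J S ∨ ∃ (c : JCurve J) (a : ℝ) (S' : X2 M →ₗ[ℝ] ℝ),
        0 < a ∧ c.T ≠ 0 ∧ PCur J S' ∧ S = a • c.T + S' := by
  obtain ⟨D, hD⟩ := T1A_195.exists_bridge hb hJ
  obtain ⟨s, hs⟩ := hD.exists_cur hS
  have hDJ := hD.J_eq
  subst hDJ
  rcases h M D w hw hJ hD.al_eq S s hS hs.rm with h1 | h1
  · exact Or.inl (dif_of_zeroDens hD hs h1)
  · exact Or.inr h1

section Closed

variable {M : Type u} [TopologicalSpace M] [T2Space M] [CompactSpace M] [ConnectedSpace M]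
  [ChartedSpace E4 M] [IsManifold 𝓘(ℝ, E4) ∞ M]

theorem dec (h : JDEC.{u}) {w : Trip M} {J : EndF E4 M} (hw : Pos3 w)
    (hJ : IsJ w J) {S : X2 M →ₗ[ℝ] ℝ} (hS : PCur J S) :
    Dif w J S ∨ ∃ (c : JCurve J) (a : ℝ) (S' : X2 M →ₗ[ℝ] ℝ),
        0 < a ∧ c.T ≠ 0 ∧ PCur J S' ∧ S = a • c.T + S' := by
  obtain ⟨m, hm, hb⟩ := Met.exists_metric (E := E4) (M := M)
  subst hm
  let _ : MeasurableSpace M := borel M
  have _ : BorelSpace M := ⟨rfl⟩
  exact dec_aux h hb hw hJ hS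

/-- curves for NC pairs: none. -/
theorem no_curve {w : Trip M} {J : EndF E4 M} (hw : Pos3 w) (hJ : IsJ w J)
    (hNC : NC (w 0) (clw w) 0) (c : JCurve J) (hc0 : c.T ≠ 0) {e : H2 M}
    (he : HasCl w c.T e) (hZ : e ∈ HZ M)
    (hneg : ip (w 0) e e < 0 → e ∈ Rt (w 0)) : False := by
  have hpos : 0 < ip (w 0) e (cls (w 0)) := by
    rw [← he (w 0)]
    exact cur_pos hJ c.pcur hc0
  have hDg : e ∈ Dg (w 0) := by
    refine ⟨hZ, ?_, ?_⟩
    · rintro rfl
      rw [ip_zero_left (hw.vol 0)] at hpos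
      exact lt_irrefl _ hpos
    · rcases le_or_gt 0 (ip (w 0) e e) with h | h
      · exact Or.inl h
      · exact Or.inr (hneg h)
  obtain ⟨i, hi, h1⟩ := hNC e hDg
  apply h1
  show ip (w 0) e (cls (w i)) = 0
  rw [← he (w i)]
  exact cur_anti hJ c.pcur.inv hi

/-! ### the order interval -/

theorem pcur_sub {J : EndF E4 M} {S T : X2 M →ₗ[ℝ] ℝ} (hS : PCur J S) (hT : PCur J T)
    (h : ∀ b : X2 M, PosG J (b.1 : F2 E4 M) → T b ≤ S b) : PCur J (S - T) where
  inv b c hbc := by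
    rw [LinearMap.sub_apply, LinearMap.sub_apply, hS.inv b c hbc, hT.inv b c hbc]
  nonneg b hb := by
    rw [LinearMap.sub_apply]
    exact sub_nonneg.2 (h b hb)
  closed b hb := by rw [LinearMap.sub_apply, hS.closed b hb, hT.closed b hb, sub_zero]

theorem zero_pcur (J : EndF E4 M) : PCur J (0 : X2 M →ₗ[ℝ] ℝ) where
  inv _ _ _ := rfl
  nonneg _ _ := le_rfl
  closed _ _ := rfl

/-- the order interval `[0,S]`. -/
def KS (J : EndF E4 M) (S : X2 M →ₗ[ℝ] ℝ) : Set (X2 M → ℝ) :=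
  {f | (∀ b c, f (b + c) = f b + f c) ∧ (∀ (r : ℝ) b, f (r • b) = r * f b) ∧
    (∀ b c : X2 M, (∀ x, invp (atJ J x) (at2 (b.1 : F2 E4 M) x) = at2 (c.1 : F2 E4 M) x) →
      f b = f c) ∧
    (∀ b : X2 M, PosG J (b.1 : F2 E4 M) → 0 ≤ f b) ∧
    (∀ b : X2 M, IsEx (b.1 : F2 E4 M) → f b = 0) ∧
    ∀ b : X2 M, PosG J (b.1 : F2 E4 M) → f b ≤ S b}

theorem mem_KS {J : EndF E4 M} {S : X2 M →ₗ[ℝ] ℝ} (hS : PCur J S) {f : X2 M → ℝ} :
    f ∈ KS J S ↔ ∃ T : X2 M →ₗ[ℝ] ℝ, PCur J T ∧ PCur J (S - T) ∧ (T : X2 M → ℝ) = f := by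
  constructor
  · rintro ⟨h1, h2, h3, h4, h5, h6⟩
    have hT : PCur J { toFun := f, map_add' := h1, map_smul' := h2 } := ⟨h3, h4, h5⟩
    exact ⟨_, hT, pcur_sub hS hT h6, rfl⟩
  · rintro ⟨T, hT, hd, rfl⟩
    refine ⟨fun b c => map_add T b c, fun r b => map_smul T r b, hT.inv, hT.nonneg, hT.closed,
      fun b hb => ?_⟩
    have := hd.nonneg b hb
    rw [LinearMap.sub_apply] at this
    linarith

theorem isCompact_KS {w : Trip M} {J : EndF E4 M} (hJ : IsJ w J) {S : X2 M →ₗ[ℝ] ℝ}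
    (hS : PCur J S) : IsCompact (KS J S) := by
  choose r hr h using fun b : X2 M => mass_bound hJ b
  have hK : IsCompact (Set.pi univ fun b : X2 M => Icc (-(r b * S (w 0).1)) (r b * S (w 0).1)) :=
    isCompact_univ_pi fun b => isCompact_Icc
  refine hK.of_isClosed_subset ?_ ?_
  · have e : KS J S = (⋂ b : X2 M, ⋂ c : X2 M, {f | f (b + c) = f b + f c}) ∩
        ((⋂ r : ℝ, ⋂ b : X2 M, {f | f (r • b) = r * f b}) ∩
        ((⋂ b : X2 M, ⋂ c : X2 M, ⋂ _ : ∀ x, invp (atJ J x) (at2 (b.1 : F2 E4 M) x) =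
          at2 (c.1 : F2 E4 M) x, {f | f b = f c}) ∩
        ((⋂ b : X2 M, ⋂ _ : PosG J (b.1 : F2 E4 M), {f | 0 ≤ f b}) ∩
        ((⋂ b : X2 M, ⋂ _ : IsEx (b.1 : F2 E4 M), {f | f b = 0}) ∩
          (⋂ b : X2 M, ⋂ _ : PosG J (b.1 : F2 E4 M), {f | f b ≤ S b}))))) := by
      ext f
      simp only [KS, mem_ofPred_eq, mem_inter_iff, mem_iInter]
    rw [e]
    refine IsClosed.inter (isClosed_iInter fun b => isClosed_iInter fun c => ?_)
      (IsClosed.inter (isClosed_iInter fun r => isClosed_iInter fun b => ?_)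
      (IsClosed.inter (isClosed_iInter fun b => isClosed_iInter fun c => isClosed_iInter fun _ => ?_)
      (IsClosed.inter (isClosed_iInter fun b => isClosed_iInter fun _ => ?_)
      (IsClosed.inter (isClosed_iInter fun b => isClosed_iInter fun _ => ?_)
        (isClosed_iInter fun b => isClosed_iInter fun _ => ?_)))))
    · exact isClosed_eq (continuous_apply _) (by fun_prop)
    · exact isClosed_eq (continuous_apply _) (continuous_const.mul (continuous_apply _))
    · exact isClosed_eq (continuous_apply _) (continuous_apply _)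
    · exact isClosed_le continuous_const (continuous_apply _)
    · exact isClosed_eq (continuous_apply _) continuous_const
    · exact isClosed_le (continuous_apply _) continuous_const
  · intro f hf b _
    obtain ⟨T, hT, hd, rfl⟩ := (mem_KS hS).1 hf
    have h2 := h b T hT
    have h0 : 0 ≤ (S - T) (w 0).1 := nonneg_of_ev hJ.smooth hJ.sq hd fun x v => by
      rcases eq_or_ne v 0 with h | h
      · rw [h]; simp
      · exact (hJ.tame x v h).le
    rw [LinearMap.sub_apply] at h0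
    have h3 : r b * T (w 0).1 ≤ r b * S (w 0).1 :=
      mul_le_mul_of_nonneg_left (by linarith) (hr b)
    have h4 := abs_le.1 (h2.trans h3)
    exact ⟨h4.1, h4.2⟩

/-- lexicographic minimum on the order interval: first `T β`, then the mass. -/
theorem exists_lex {w : Trip M} {J : EndF E4 M} (hJ : IsJ w J) {S : X2 M →ₗ[ℝ] ℝ}
    (hS : PCur J S) (β : X2 M) :
    ∃ T : X2 M →ₗ[ℝ] ℝ, PCur J T ∧ PCur J (S - T) ∧ T β ≤ S β ∧
      ∀ T' : X2 M →ₗ[ℝ] ℝ, PCur J T' → PCur J (S - T') → T' β ≤ T β →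
        T (w 0).1 ≤ T' (w 0).1 := by
  have hc := isCompact_KS hJ hS
  have hSm : (S : X2 M → ℝ) ∈ KS J S := (mem_KS hS).2 ⟨S, hS, by
    rw [sub_self]; exact zero_pcur J, rfl⟩
  obtain ⟨f1, hf1, h1⟩ := hc.exists_isMinOn ⟨_, hSm⟩ (f := fun f : X2 M → ℝ => f β)
    (continuous_apply β).continuousOn
  have hmin : ∀ f ∈ KS J S, f1 β ≤ f β := fun f hf => h1 hf
  have hc2 : IsCompact (KS J S ∩ {f | f β = f1 β}) :=
    hc.inter_right (isClosed_eq (continuous_apply β) continuous_const)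
  obtain ⟨f2, hf2, h2⟩ := hc2.exists_isMinOn ⟨f1, hf1, rfl⟩
    (f := fun f : X2 M → ℝ => f (w 0).1) (continuous_apply _).continuousOn
  obtain ⟨T, hT, hd, hTf⟩ := (mem_KS hS).1 hf2.1
  have hTf' : ∀ b, T b = f2 b := fun b => congrFun hTf b
  refine ⟨T, hT, hd, ?_, fun T' hT' hd' hle => ?_⟩
  · rw [hTf' β, hf2.2]
    exact hmin _ hSm
  · have h3 : (T' : X2 M → ℝ) ∈ KS J S := (mem_KS hS).2 ⟨T', hT', hd', rfl⟩
    have h4 : (T' : X2 M → ℝ) ∈ KS J S ∩ {f | f β = f1 β} := by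
      refine ⟨h3, le_antisymm ?_ (hmin _ h3)⟩
      rw [hTf' β, hf2.2] at hle
      exact hle
    rw [hTf']
    exact h2 h4

/-- (A): a current containing no multiple of the curve `c` has non-negative intersection with
`c`. -/
theorem inter_nonneg (hdec : JDEC.{u}) (hcls : CLS.{u}) (hI : Adj.ISEC.{u}) (hE : JSAME.{u})
    {w : Trip M} {J : EndF E4 M} (hw : Pos3 w) (hJ : IsJ w J) {S : X2 M →ₗ[ℝ] ℝ}
    (hS : PCur J S) {s e : H2 M} (hs : HasCl w S s) (c : JCurve J) (he : HasCl w c.T e)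
    (hno : ∀ a : ℝ, 0 < a → ¬ PCur J (S - a • c.T)) : 0 ≤ ip (w 0) s e := by
  by_contra hcon
  push Not at hcon
  obtain ⟨E, rfl⟩ := cls_surj e
  obtain ⟨T, hT, hd, hle, hlex⟩ := exists_lex hJ hS E.1
  have hSE : S E.1 < 0 := by rw [hs E]; exact hcon
  rcases dec hdec hw hJ hT with h | ⟨d, a, T', ha, hd0, hT', hTe⟩
  · obtain ⟨t, ht⟩ := hcls M w J hw hJ T hT
    have h1 := h c.T t _ c.pcur ht he
    rw [← ht E] at h1
    linarith
  · have hdm : 0 < d.T (w 0).1 := cur_pos hJ d.pcur hd0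
    have hnn : 0 ≤ d.T E.1 := by
      obtain ⟨e', he'⟩ := hcls M w J hw hJ d.T d.pcur
      rw [he' E]
      rcases hE M w J hw hJ d c with h | ⟨-, h⟩
      · exact (hI M w J hw hJ d c e' _ he' he h).1
      · exfalso
        refine hno a ha ?_
        have h1 : S - a • c.T = (S - T) + T' := by
          rw [hTe, h]
          abel
        rw [h1]
        exact PCur.add hd hT'
    have h1 : PCur J (S - T') := by
      have h2 : S - T' = (S - T) + a • d.T := by
        rw [hTe]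
        abel
      rw [h2]
      exact PCur.add hd (PCur.smul d.pcur ha.le)
    have h2 : T' E.1 ≤ T E.1 := by
      rw [hTe, LinearMap.add_apply, LinearMap.smul_apply, smul_eq_mul]
      have := mul_nonneg ha.le hnn
      linarith
    have h3 := hlex T' hT' h1 h2
    rw [hTe, LinearMap.add_apply, LinearMap.smul_apply, smul_eq_mul] at h3
    have := mul_pos ha hdm
    linarith

/-- the largest multiple of a curve contained in a current. -/
theorem exists_max {w : Trip M} {J : EndF E4 M} (hJ : IsJ w J) {S : X2 M →ₗ[ℝ] ℝ}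
    (hS : PCur J S) (c : JCurve J) (hc0 : c.T ≠ 0) :
    ∃ a : ℝ, 0 ≤ a ∧ PCur J (S - a • c.T) ∧
      ∀ a' : ℝ, 0 < a' → ¬ PCur J (S - a • c.T - a' • c.T) := by
  have hcm : 0 < c.T (w 0).1 := cur_pos hJ c.pcur hc0
  set A : Set ℝ := Icc 0 (S (w 0).1 / c.T (w 0).1) ∩
    ⋂ b : X2 M, ⋂ _ : PosG J (b.1 : F2 E4 M), {a : ℝ | a * c.T b ≤ S b} with hA
  have hAiff : ∀ a : ℝ, 0 ≤ a → (PCur J (S - a • c.T) ↔ a ∈ A) := by
    intro a ha
    constructor
    · intro h
      refine ⟨⟨ha, ?_⟩, ?_⟩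
      · rw [le_div_iff₀ hcm]
        have h0 : 0 ≤ (S - a • c.T) (w 0).1 := nonneg_of_ev hJ.smooth hJ.sq h fun x v => by
          rcases eq_or_ne v 0 with h | h
          · rw [h]; simp
          · exact (hJ.tame x v h).le
        rw [LinearMap.sub_apply, LinearMap.smul_apply, smul_eq_mul] at h0
        linarith
      · simp only [mem_iInter]
        intro b hb
        have h0 := h.nonneg b hb
        rw [LinearMap.sub_apply, LinearMap.smul_apply, smul_eq_mul] at h0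
        show a * c.T b ≤ S b
        linarith
    · rintro ⟨-, h⟩
      simp only [mem_iInter] at h
      exact pcur_sub hS (PCur.smul c.pcur ha) fun b hb => h b hb
  have hAc : IsCompact A := isCompact_Icc.inter_right
    (isClosed_iInter fun b => isClosed_iInter fun _ =>
      isClosed_le (continuous_id.mul continuous_const) continuous_const)
  have h0A : (0 : ℝ) ∈ A := (hAiff 0 le_rfl).1 (by rw [zero_smul, sub_zero]; exact hS)
  obtain ⟨a, haA, hmax⟩ := hAc.exists_isMaxOn ⟨0, h0A⟩ continuousOn_id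
  have ha0 : 0 ≤ a := haA.1.1
  refine ⟨a, ha0, (hAiff a ha0).2 haA, fun a' ha' h => ?_⟩
  have h1 : a + a' ∈ A := by
    rw [← hAiff (a + a') (by linarith)]
    have h2 : S - (a + a') • c.T = S - a • c.T - a' • c.T := by
      rw [add_smul, sub_sub]
    rw [h2]
    exact h
  have h2 : a + a' ≤ a := hmax h1
  linarith

end Closed

/-! ### the outputs -/

/-- **NEGN**. -/
theorem negn_of (hdec : JDEC.{u}) (hcls : CLS.{u}) (hI : JINT.{u}) (hN : JNEG.{u}) :
    NEGN.{u} := by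
  intro M _ _ _ _ _ _ w J hw hJ hNC S s hS hs
  rcases dec hdec hw hJ hS with h | ⟨c, a, S', ha, hc0, hS', hSe⟩
  · exact h S s s hS hs hs
  · exfalso
    obtain ⟨e, he⟩ := hcls M w J hw hJ c.T c.pcur
    exact no_curve hw hJ hNC c hc0 he (hI M w J hw hJ c e he)
      fun h => (hN M w J hw hJ c e he h).1

/-- **ZD**. -/
theorem zd_of (hdec : JDEC.{u}) (hcls : CLS.{u}) (hI : JINT.{u}) (hN : JNEG.{u}) :
    STF_861.ZD.{u} := by
  intro M _ _ _ _ _ _ _ D w hw hJ hal hNC Ψ s h1 h2 h3 h4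
  have hD : T1A_195.Bridge w D.J D := ⟨rfl, hal⟩
  have hP : PCur D.J Ψ := hD.pcur (⟨h1, h2, h3, h4⟩ : T1_195.Cur D Ψ s)
  rcases hdec M D w hw hJ hal Ψ s hP h4 with h | ⟨c, a, S', ha, hc0, hS', hSe⟩
  · exact h
  · exfalso
    obtain ⟨e, he⟩ := hcls M w D.J hw hJ c.T c.pcur
    exact no_curve hw hJ hNC c hc0 he (hI M w D.J hw hJ c e he)
      fun h => (hN M w D.J hw hJ c e he h).1

set_option maxHeartbeats 1000000 in
/-- **NEGK**. -/
theorem negk_of (hdec : JDEC.{u}) (hcls : CLS.{u}) (hN : JNEG.{u})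
    (hI : Adj.ISEC.{u}) (hE : JSAME.{u}) : NEGK.{u} := by
  intro M _ _ _ _ _ _ w J hw hJ hK S s hS hs hneg
  obtain ⟨β, rfl⟩ := cls_surj s
  obtain ⟨T, hT, hd, hle, hlex⟩ := exists_lex hJ hS β.1
  have hSβ : S β.1 < 0 := by rw [hs β]; exact hneg
  rcases dec hdec hw hJ hT with h | ⟨c, a, T', ha, hc0, hT', hTe⟩
  · exfalso
    obtain ⟨t, ht⟩ := hcls M w J hw hJ T hT
    have h1 := h S t _ hS ht hs
    rw [← ht β] at h1
    linarith
  · obtain ⟨e, he⟩ := hcls M w J hw hJ c.T c.pcur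
    have hcm : 0 < c.T (w 0).1 := cur_pos hJ c.pcur hc0
    have hce : c.T β.1 < 0 := by
      by_contra hcon
      push Not at hcon
      have h1 : PCur J (S - T') := by
        have h2 : S - T' = (S - T) + a • c.T := by
          rw [hTe]
          abel
        rw [h2]
        exact PCur.add hd (PCur.smul c.pcur ha.le)
      have h2 : T' β.1 ≤ T β.1 := by
        rw [hTe, LinearMap.add_apply, LinearMap.smul_apply, smul_eq_mul]
        have := mul_nonneg ha.le hcon
        linarith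
      have h3 := hlex T' hT' h1 h2
      rw [hTe, LinearMap.add_apply, LinearMap.smul_apply, smul_eq_mul] at h3
      have := mul_pos ha hcm
      linarith
    obtain ⟨t, ht0, htS, htmax⟩ := exists_max hJ hS c hc0
    have hF := hw.vol 0
    have hS' : HasCl w (S - t • c.T) (cls β - t • e) := by
      intro b
      rw [LinearMap.sub_apply, LinearMap.smul_apply, smul_eq_mul, hs b, he b, ip_sub_left hF,
        ip_smul_left hF]
    have h1 := inter_nonneg hdec hcls hI hE hw hJ htS hS' c he htmax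
    rw [ip_sub_left hF, ip_smul_left hF] at h1
    have h2 : ip (w 0) (cls β) e < 0 := by
      rw [ip_comm, ← he β]
      exact hce
    have h3 : t * ip (w 0) e e < 0 := by linarith
    have h4 : t ≠ 0 := by
      intro h4
      rw [h4, zero_mul] at h3
      exact lt_irrefl _ h3
    have h5 : 0 < t := lt_of_le_of_ne ht0 (Ne.symm h4)
    have h6 : ip (w 0) e e < 0 := by
      by_contra hcon
      push Not at hcon
      have := mul_nonneg h5.le hcon
      linarith
    obtain ⟨hR, hsph, hemb⟩ := hN M w J hw hJ c e he h6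
    obtain ⟨σ, hσ, hout⟩ := AdjE_83.jsph hJ c hemb.1 hemb.2 hsph he
    refine ⟨σ, e, t, S - t • c.T, hσ, hR.2, h5, h2, htS, fun b => ?_⟩
    rw [hout.int b, LinearMap.sub_apply, LinearMap.smul_apply, smul_eq_mul]
    ring

/-- all outputs from the open nodes (universe `0`, where `HZLAT` is a theorem). -/
theorem jint (h : INTEG.{0}) : JINT.{0} := jint_of h HZFin_524.hzlat

theorem jneg (h : INTEG.{0}) (hA : Adj.ADJ.{0}) (hD : DICHR.{0}) : JNEG.{0} :=
  jneg_of hA (jint h) hD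

theorem negn (hdec : JDEC.{0}) (hcls : CLS.{0}) (h : INTEG.{0}) (hA : Adj.ADJ.{0})
    (hD : DICHR.{0}) : NEGN.{0} := negn_of hdec hcls (jint h) (jneg h hA hD)

theorem zd (hdec : JDEC.{0}) (hcls : CLS.{0}) (h : INTEG.{0}) (hA : Adj.ADJ.{0})
    (hD : DICHR.{0}) : STF_861.ZD.{0} := zd_of hdec hcls (jint h) (jneg h hA hD)

theorem negk (hdec : JDEC.{0}) (hcls : CLS.{0}) (h : INTEG.{0}) (hA : Adj.ADJ.{0})
    (hD : DICHR.{0}) (hI : Adj.ISEC.{0}) (hE : JSAME.{0}) : NEGK.{0} :=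
  negk_of hdec hcls (jneg h hA hD) hI hE

end

end Crest.Agent.R235.CurTop_844
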