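import Crest.Agent.R235.AK_819
import Crest.Agent.R235.CurTopProps_844
import Crest.Agent.R235.SwcDefs_215

/-!
Row 235 (S0364), CURVES, helper819: the consumers' forms from the `Dat` forms of `CurvesProps_489`.

`jdec_of : JDECD → JDEC` (844), `t2s_of : T2SD → Swc.T2S` (215).  The tamed structure is replaced by an
almost Kaehler structure with the same `J` (`AK_819.cur_ak`).
-/

set_option autoImplicit false
set_option maxSynthPendingDepth 3

open Set Function Filter MeasureTheory Metric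
open scoped Manifold ContDiff Topology ENNReal

universe u

namespace Crest.Agent.R235.CurvesGlue_819

open Crest.Agent.R240 Crest.Agent.R240.Ch Crest.Agent.R235 Crest.Agent.R235.T1_195
  Crest.Agent.R235.Curves_489 Crest.Agent.R235.Glob_370 Crest.Agent.R235.AK_819

noncomputable section

/-- a positive closed current with its trace measure. -/
theorem cur_of {M : Type u} [MetricSpace M] [CompactSpace M] [ChartedSpace E4 M]
    [IsManifold 𝓘(ℝ, E4) ∞ M] [MeasurableSpace M] [BorelSpace M] {D : Dat M}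
    {S : X2 M →ₗ[ℝ] ℝ} {s : Measure M} (h : PCur D.J S) (hs : D.IsRM S s) : Cur D S s where
  inv b := h.inv b (D.pi' b) fun _ => rfl
  nonneg P hP := h.nonneg P hP
  closed := h.closed
  rm := hs

theorem jdec_of (h : JDECD.{u}) : JDEC.{u} := by
  intro M _ _ _ _ _ _ _ D w _ hJ _ S s hS hs
  have hC := cur_of hS hs
  obtain ⟨D', s', C, hJJ, hAK, hC', hC0, h1, -⟩ := cur_ak D hC
  have key := h M D' hAK S s' hC'
  rw [hJJ] at key
  rcases key with hz | ⟨c, a, S', ha, hT, hP, he⟩
  · exact Or.inl (zero_of_le hC'.fin hC0.le h1 hz)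
  · exact Or.inr ⟨c, a, S', ha, hT, hP, he⟩

theorem t2s_of (h : T2SD.{u}) : Swc.T2S.{u} := by
  intro M _ _ _ _ _ _ _ D w _ hJ _ S s hC hL
  obtain ⟨D', s', C, hJJ, hAK, hC', hC0, h1, h2⟩ := cur_ak D hC
  have key := h M D' hAK S s' hC'
  rw [hJJ] at key
  obtain ⟨κ, r0, hκ, hr0, hL⟩ := hL
  have hfin := hC.fin
  have hfin' := hC'.fin
  have hSup : ∀ x, x ∈ msupp s → Swc.Sup s x := by
    intro x hx r hr
    have := hx (ball x r) isOpen_ball (mem_ball_self hr)
    exact ENNReal.toReal_pos this.ne' (measure_ne_top _ _)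
  have hSup' : ∀ x, Swc.Sup s x → x ∈ msupp s := by
    intro x hx U hU hxU
    obtain ⟨r, hr, hrU⟩ := Metric.isOpen_iff.1 hU x hxU
    have h3 := hx r hr
    have h4 : 0 < s (ball x r) := by
      rw [measureReal_def] at h3
      exact (ENNReal.toReal_pos_iff.1 h3).1
    exact h4.trans_le (measure_mono hrU)
  have hae : ∀ᵐ x ∂s', x ∈ msupp s' := by
    have e : {x | x ∉ msupp s'} ⊆ ⋃₀ {U : Set M | IsOpen U ∧ s' U = 0} := by
      intro x hx
      have hx' : ¬ ∀ U : Set M, IsOpen U → x ∈ U → 0 < s' U := hx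
      push Not at hx'
      obtain ⟨U, hU, hxU, h0⟩ := hx'
      exact ⟨U, ⟨hU, nonpos_iff_eq_zero.1 h0⟩, hxU⟩
    obtain ⟨T, hT, hTc, hTU⟩ := TopologicalSpace.isOpen_sUnion_countable
      {U : Set M | IsOpen U ∧ s' U = 0} (fun U hU => hU.1)
    have h0 : s' (⋃₀ {U : Set M | IsOpen U ∧ s' U = 0}) = 0 := by
      rw [← hTU]
      exact (measure_sUnion_null_iff hT).2 fun U hU => (hTc hU).2
    exact measure_mono_null e h0
  obtain ⟨m, c, a, ha, he, hr⟩ := key ⟨κ / C, by positivity, hae.mono fun x hx => by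
    have h3 : Swc.Sup s x := hSup x (msupp_mono h2 hx)
    refine Eventually.frequently ?_
    filter_upwards [Ioc_mem_nhdsGT hr0] with r hr
    have h4 := hL x h3 r hr.1 hr.2
    have h5 := real_le hfin' hC0.le h1 (ball x r)
    rw [div_mul_eq_mul_div, div_le_iff₀ hC0]
    linarith⟩
  refine ⟨m, c, a, ha, he, fun x hx => ?_⟩
  have h3 : x ∈ msupp s' := msupp_mono h1 (hSup' x hx)
  rw [hr] at h3
  exact mem_iUnion.1 h3

end

end Crest.Agent.R235.CurvesGlue_819
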