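import Crest.Agent.R235.CurvesProps_489
import Crest.Agent.R235.ChInd_4
import Crest.Agent.R235.LimtD_225
import Crest.Agent.R235.CurTopProps_844
import Crest.Agent.R235.SwcDefs_215

/-!
Row 235 (S0364), helper489: THE CURVES CHAIN, proofs:
`CUR3, REGC, GLOB ⟹ JDECD, T2SD ⟹ JDEC, T2S`.
-/

set_option autoImplicit false
set_option maxSynthPendingDepth 3
set_option linter.unusedSectionVars false

open Set Function Filter MeasureTheory Metric
open scoped Manifold ContDiff Topology ENNReal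

universe u

namespace Crest.Agent.R235.Curves_489

open Crest.Agent.R240 Crest.Agent.R240.Ch Crest.Agent.R235 Crest.Agent.R235.T1_195
  Crest.Agent.R235.Glob_370 Crest.Agent.R235.DenM_4

noncomputable section

section

variable {M : Type u} [MetricSpace M] [CompactSpace M] [ChartedSpace E4 M]
    [IsManifold 𝓘(ℝ, E4) ∞ M] [MeasurableSpace M] [BorelSpace M]

/-! ### comparison of trace measures -/

/-- smooth cut-off functions between a closed and an open set. -/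
theorem exists_cutKU {K U : Set M} (hK : IsClosed K) (hU : IsOpen U) (hKU : K ⊆ U) :
    ∃ χ : M → ℝ, SmoothF E4 χ ∧ (∀ x, 0 ≤ χ x) ∧ (∀ x, χ x ≤ 1) ∧ (∀ x ∈ K, χ x = 1) ∧
      ∀ x ∉ U, χ x = 0 := by
  obtain ⟨f, h0, h1, hf⟩ := exists_contMDiffMap_zero_one_of_isClosed (n := (⊤ : ℕ∞)) 𝓘(ℝ, E4) (M := M)
    hU.isClosed_compl hK (by
      rw [disjoint_left]
      intro x hx hxK
      exact hx (hKU hxK))
  exact ⟨f, (smoothF_iff _).1 f.contMDiff, fun x => (hf x).1, fun x => (hf x).2,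
    fun x hx => h1 hx, fun x hx => h0 hx⟩

/-- absolute continuity from smooth test functions. -/
theorem ac_of_smooth {s s' : Measure M} [IsFiniteMeasure s] [IsFiniteMeasure s'] {C : ℝ}
    (hC : 0 < C) (h : ∀ f : M → ℝ, SmoothF E4 f → (∀ x, 0 ≤ f x) →
      ∫ x, f x ∂s ≤ C * ∫ x, f x ∂s') : s ≪ s' := by
  refine Measure.AbsolutelyContinuous.mk fun A hA hA0 => ?_
  by_contra hcon
  have hpos : 0 < s A := pos_iff_ne_zero.2 hcon
  obtain ⟨K, hKA, hK, hK0⟩ := hA.exists_lt_isClosed_of_ne_top (measure_ne_top s A) hpos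
  have hKr : 0 < s.real K := ENNReal.toReal_pos hK0.ne' (measure_ne_top _ _)
  have hK' : s' K < ENNReal.ofReal (s.real K / C) := by
    rw [measure_mono_null hKA hA0]
    exact ENNReal.ofReal_pos.2 (by positivity)
  obtain ⟨U, hKU, hU, hUs⟩ := K.exists_isOpen_lt_of_lt _ hK'
  obtain ⟨χ, hχ, h0, h1, hχ1, hχ0⟩ := exists_cutKU hK hU hKU
  have e1 : s.real K ≤ ∫ x, χ x ∂s := Limt.le_int hχ h0 hK.measurableSet hχ1
  have e2 : ∫ x, χ x ∂s' ≤ s'.real U := Limt.int_le hχ h1 hU.measurableSet hχ0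
  have e3 := h χ hχ h0
  have e4 : s'.real U < s.real K / C := by
    have := (ENNReal.lt_ofReal_iff_toReal_lt (measure_ne_top s' U)).1 hUs
    exact this
  rw [lt_div_iff₀ hC] at e4
  have e5 : C * ∫ x, χ x ∂s' ≤ C * s'.real U := by gcongr
  linarith

/-- trace measures of the same current for two data with the same `J`. -/
theorem cur_ac {D D' : Dat M} (h : D'.J = D.J) {S : X2 M →ₗ[ℝ] ℝ} {s s' : Measure M}
    (hs : Cur D S s) (hs' : Cur D' S s') : s ≪ s' := by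
  obtain ⟨C, hC, h1⟩ := Limt.comp h.symm
  have := hs.fin
  have := hs'.fin
  exact ac_of_smooth hC (h1 S s' s hs' hs)

/-- zero density does not depend on the data. -/
theorem zeroDens_of {D D' : Dat M} (h : D'.J = D.J) {S : X2 M →ₗ[ℝ] ℝ} {s s' : Measure M}
    (hs : Cur D S s) (hs' : Cur D' S s') (hz : Dat.ZeroDens s') : Dat.ZeroDens s := by
  obtain ⟨C, hC, h1⟩ := Limt.comp_ball h.symm
  have h2 : ∀ᵐ x ∂s, Tendsto (fun r : ℝ => s'.real (ball x r) / r ^ 2) (𝓝[>] 0) (𝓝 0) :=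
    (cur_ac h hs hs').ae_le hz
  filter_upwards [h2] with x hx
  have h3 : Tendsto (fun r : ℝ => C * 4 * (s'.real (ball x (2 * r)) / (2 * r) ^ 2)) (𝓝[>] 0)
      (𝓝 (C * 4 * 0)) := by
    refine Tendsto.const_mul _ (hx.comp ?_)
    refine tendsto_nhdsWithin_iff.2 ⟨?_, ?_⟩
    · have : Tendsto (fun r : ℝ => 2 * r) (𝓝 0) (𝓝 (2 * 0)) := tendsto_id.const_mul 2
      rw [mul_zero] at this
      exact this.mono_left nhdsWithin_le_nhds
    · filter_upwards [self_mem_nhdsWithin] with r hr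
      have hr' : (0 : ℝ) < r := hr
      exact mul_pos two_pos hr'
  rw [mul_zero] at h3
  refine tendsto_of_tendsto_of_tendsto_of_le_of_le' tendsto_const_nhds h3 ?_ ?_
  · filter_upwards [self_mem_nhdsWithin] with r hr
    have hr' : (0 : ℝ) < r := hr
    positivity
  · filter_upwards [self_mem_nhdsWithin] with r hr
    have hr' : (0 : ℝ) < r := hr
    have h4 := h1 S s' s hs' hs x r (2 * r) (by linarith)
    have h5 : s.real (ball x r) / r ^ 2 ≤ C * s'.real (ball x (2 * r)) / r ^ 2 := by gcongr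
    refine h5.trans (le_of_eq ?_)
    field_simp
    ring

/-! ### balls and ellipsoids, uniform in the centre -/

theorem gball_eq (D : Dat M) (x : M) (r : ℝ) : gball D x r = ell D x r := rfl

theorem gball_mono (D : Dat M) (x : M) {r r' : ℝ} (h0 : 0 ≤ r) (h : r ≤ r') :
    gball D x r ⊆ gball D x r' := fun _ hy =>
  ⟨hy.1, hy.2.trans_le (pow_le_pow_left₀ h0 h 2)⟩

theorem unif_gball (D : Dat M) : ∃ c : ℝ, 0 < c ∧ ∀ x : M, ∀ᶠ r in 𝓝[>] (0 : ℝ),
    ball x r ⊆ gball D x (c * r) := by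
  have key := (isCompact_univ (X := M)).induction_on
    (p := fun S : Set M => ∃ c : ℝ, 0 < c ∧ ∀ x ∈ S, ∀ᶠ r in 𝓝[>] (0 : ℝ),
      ball x r ⊆ gball D x (c * r)) ⟨1, one_pos, by simp⟩ ?_ ?_ ?_
  · obtain ⟨c, hc, h⟩ := key
    exact ⟨c, hc, fun x => h x (mem_univ x)⟩
  · rintro S T hST ⟨c, hc, h⟩
    exact ⟨c, hc, fun x hx => h x (hST hx)⟩
  · rintro S T ⟨c, hc, h⟩ ⟨c', hc', h'⟩
    refine ⟨max c c', lt_max_of_lt_left hc, fun x hx => ?_⟩
    rcases hx with hx | hx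
    · filter_upwards [h x hx, self_mem_nhdsWithin] with r hr hr0
      have hr0' : (0 : ℝ) < r := hr0
      exact hr.trans (gball_mono D x (by positivity)
        (mul_le_mul_of_nonneg_right (le_max_left _ _) hr0'.le))
    · filter_upwards [h' x hx, self_mem_nhdsWithin] with r hr hr0
      have hr0' : (0 : ℝ) < r := hr0
      exact hr.trans (gball_mono D x (by positivity)
        (mul_le_mul_of_nonneg_right (le_max_right _ _) hr0'.le))
  · intro p _
    set φ := chartAt E4 p with hφ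
    obtain ⟨ρ, hρ, hρt⟩ := Metric.nhds_basis_closedBall.mem_iff.1
      (φ.open_target.mem_nhds (mem_chart_target E4 p))
    obtain ⟨c1, C1, hc1, hC1, hbl⟩ := D.bl p (closedBall (φ p) ρ) (isCompact_closedBall _ _) hρt
    obtain ⟨m, M', hBd⟩ := ChDens.exists_Bd D p (isCompact_closedBall (φ p) ρ) hρt
    have hM' : 0 < M' := (hBd (φ p) (mem_closedBall_self hρ.le)).M_pos
    have hV : IsOpen (φ.source ∩ φ ⁻¹' ball (φ p) ρ) := φ.isOpen_inter_preimage isOpen_ball
    refine ⟨φ.source ∩ φ ⁻¹' ball (φ p) ρ, mem_nhdsWithin_of_mem_nhds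
      (hV.mem_nhds ⟨mem_chart_source E4 p, mem_ball_self hρ⟩), √(2 * M') / c1 + 1, by positivity,
      fun x hx => ?_⟩
    obtain ⟨δ, hδ, hcmp⟩ := exists_cmp D hx.1 (ε := 1) one_pos
    obtain ⟨δ', hδ', hδV⟩ := Metric.isOpen_iff.1 hV x hx
    have hev : ∀ᶠ r in 𝓝[>] (0 : ℝ), r < min δ δ' :=
      mem_nhdsWithin_of_mem_nhds (Iio_mem_nhds (lt_min hδ hδ'))
    filter_upwards [hev, self_mem_nhdsWithin] with r hr hr0 y hy
    have hr0' : (0 : ℝ) < r := hr0
    have hyδ : y ∈ ball x δ := ball_subset_ball (hr.le.trans (min_le_left _ _)) hy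
    have hyV := hδV (ball_subset_ball (hr.le.trans (min_le_right _ _)) hy)
    obtain ⟨hyp, hyx, h1, -⟩ := hcmp y hyδ
    refine ⟨hyx, ?_⟩
    have hxK : φ x ∈ closedBall (φ p) ρ := ball_subset_closedBall hx.2
    have hyK : φ y ∈ closedBall (φ p) ρ := ball_subset_closedBall hyV.2
    have h2 := (hbl (φ y) hyK (φ x) hxK).1
    rw [φ.left_inv hyp, φ.left_inv hx.1] at h2
    have h3 : gp D p x (φ y - φ x) ≤ M' * ‖φ y - φ x‖ ^ 2 := (hBd (φ x) hxK).hi _
    have h4 : ‖φ y - φ x‖ ≤ r / c1 := by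
      rw [le_div_iff₀ hc1, mul_comm]
      exact h2.trans (mem_ball.1 hy).le
    have h5 : ‖φ y - φ x‖ ^ 2 ≤ (r / c1) ^ 2 := pow_le_pow_left₀ (norm_nonneg _) h4 2
    have h6 : gx D x (chartAt E4 x y - chartAt E4 x x) ≤ 2 * M' * (r / c1) ^ 2 := by
      have h7 : M' * ‖φ y - φ x‖ ^ 2 ≤ M' * (r / c1) ^ 2 := by gcongr
      linarith
    refine lt_of_le_of_lt h6 ?_
    have h8 : 2 * M' * (r / c1) ^ 2 = (√(2 * M') / c1 * r) ^ 2 := by
      have h9 : √(2 * M') ^ 2 = 2 * M' := Real.sq_sqrt (by positivity)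
      rw [mul_pow, div_pow (√(2 * M')) c1 2, h9, div_pow]
      ring
    rw [h8]
    have h10 : √(2 * M') / c1 * r < (√(2 * M') / c1 + 1) * r := by linarith
    exact pow_lt_pow_left₀ h10 (by positivity) two_ne_zero

/-- small density in the frozen metric gives small balls, uniformly. -/
theorem ball_small {D : Dat M} {c : ℝ} (hc : 0 < c) (h : ∀ x : M, ∀ᶠ r in 𝓝[>] (0 : ℝ),
    ball x r ⊆ gball D x (c * r)) {s : Measure M} [IsFiniteMeasure s] {x : M} {θ a : ℝ}
    (hθ : IsDen D s x θ) (ha : θ < a) :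
    ∀ᶠ r in 𝓝[>] (0 : ℝ), s.real (ball x r) < a * Real.pi * c ^ 2 * r ^ 2 := by
  have h1 : Tendsto (fun r : ℝ => c * r) (𝓝[>] 0) (𝓝[>] 0) := by
    refine tendsto_nhdsWithin_iff.2 ⟨?_, ?_⟩
    · have : Tendsto (fun r : ℝ => c * r) (𝓝 0) (𝓝 (c * 0)) := tendsto_id.const_mul c
      rw [mul_zero] at this
      exact this.mono_left nhdsWithin_le_nhds
    · filter_upwards [self_mem_nhdsWithin] with r hr
      have hr' : (0 : ℝ) < r := hr
      exact mul_pos hc hr'
  have h2 := (hθ.comp h1).eventually (Iio_mem_nhds ha)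
  filter_upwards [h2, h x, self_mem_nhdsWithin] with r hr hr2 hr0
  have hr0' : (0 : ℝ) < r := hr0
  have h3 : s.real (gball D x (c * r)) / (Real.pi * (c * r) ^ 2) < a := hr
  rw [div_lt_iff₀ (by positivity)] at h3
  calc s.real (ball x r) ≤ s.real (gball D x (c * r)) := measureReal_mono hr2
    _ < a * (Real.pi * (c * r) ^ 2) := h3
    _ = _ := by ring

/-- zero density in the frozen metric. -/
theorem zeroDens_of_isDen {D : Dat M} {s : Measure M} [IsFiniteMeasure s]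
    (h : ∀ a : ℝ, 0 < a → ∀ᵐ x ∂s, ∃ θ, θ < a ∧ IsDen D s x θ) : Dat.ZeroDens s := by
  obtain ⟨c, hc, hcu⟩ := unif_gball D
  have h1 : ∀ᵐ x ∂s, ∀ k : ℕ, ∃ θ, θ < 1 / ((k : ℝ) + 1) ∧ IsDen D s x θ :=
    ae_all_iff.2 fun k => h _ (by positivity)
  filter_upwards [h1] with x hx
  rw [Metric.tendsto_nhds]
  intro ε hε
  obtain ⟨k, hk⟩ := exists_nat_one_div_lt (show 0 < ε / (Real.pi * c ^ 2) by positivity)
  obtain ⟨θ, hθk, hθ⟩ := hx k
  filter_upwards [ball_small hc hcu hθ (hθk.trans hk), self_mem_nhdsWithin] with r hr hr0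
  have hr0' : (0 : ℝ) < r := hr0
  rw [Real.dist_eq, sub_zero, abs_of_nonneg (by positivity), div_lt_iff₀ (by positivity)]
  refine hr.trans_le (le_of_eq ?_)
  field_simp

/-! ### the decomposition -/

theorem PCur.add' {J : EndF E4 M} {S T : X2 M →ₗ[ℝ] ℝ} (hS : PCur J S) (hT : PCur J T) :
    PCur J (S + T) where
  inv b c h := by
    show S b + T b = S c + T c
    rw [hS.inv b c h, hT.inv b c h]
  nonneg b hb := add_nonneg (hS.nonneg b hb) (hT.nonneg b hb)
  closed b hb := by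
    show S b + T b = 0
    rw [hS.closed b hb, hT.closed b hb, add_zero]

theorem PCur.smul' {J : EndF E4 M} {S : X2 M →ₗ[ℝ] ℝ} (hS : PCur J S) {a : ℝ} (ha : 0 ≤ a) :
    PCur J (a • S) where
  inv b c h := by
    show a * S b = a * S c
    rw [hS.inv b c h]
  nonneg b hb := mul_nonneg ha (hS.nonneg b hb)
  closed b hb := by
    show a * S b = 0
    rw [hS.closed b hb, mul_zero]

theorem PCur.zero' {J : EndF E4 M} : PCur J (0 : X2 M →ₗ[ℝ] ℝ) where
  inv _ _ _ := rfl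
  nonneg _ _ := le_rfl
  closed _ _ := rfl

theorem PCur.sum' {J : EndF E4 M} {ι : Type*} (t : Finset ι) (S : ι → X2 M →ₗ[ℝ] ℝ)
    (h : ∀ i ∈ t, PCur J (S i)) : PCur J (∑ i ∈ t, S i) := by
  classical
  induction t using Finset.induction_on with
  | empty => rw [Finset.sum_empty]; exact PCur.zero'
  | insert i t hi ih =>
    rw [Finset.sum_insert hi]
    exact PCur.add' (h i (Finset.mem_insert_self i t))
      (ih fun j hj => h j (Finset.mem_insert_of_mem hj))

theorem pcur_of_cur {D : Dat M} {Φ : X2 M →ₗ[ℝ] ℝ} {s : Measure M} (h : Cur D Φ s) :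
    PCur D.J Φ where
  inv := by
    intro b c hbc
    rw [h.inv b, h.inv c]
    congr 1
    apply Subtype.ext
    funext x
    show invp (atJ D.J x) (at2 (b : F2 E4 M) x) = invp (atJ D.J x) (at2 (c : F2 E4 M) x)
    rw [← hbc x]
    exact (invp_of_inv (invp_inv (D.sq x) _)).symm
  nonneg b hb := h.nonneg b hb
  closed := h.closed

theorem cur_of_pcur {D : Dat M} {Φ : X2 M →ₗ[ℝ] ℝ} (h : PCur D.J Φ) : ∃ s, Cur D Φ s := by
  refine T1_195.exists_cur D ?_ ?_ h.closed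
  · intro b
    exact h.inv b (D.pi' b) fun x => rfl
  · intro P hP
    exact h.nonneg P hP

theorem cur_of_rm {D : Dat M} {Φ : X2 M →ₗ[ℝ] ℝ} {s : Measure M} (h : PCur D.J Φ)
    (hs : D.IsRM Φ s) : Cur D Φ s := by
  obtain ⟨s', h'⟩ := cur_of_pcur h
  exact ⟨h'.inv, h'.nonneg, h'.closed, hs⟩

/-- a current with trace measure `0` is `0`. -/
theorem cur_zero {D : Dat M} {Φ : X2 M →ₗ[ℝ] ℝ} (h : Cur D Φ 0) : Φ = 0 := by
  ext b
  have h1 := h.rm.bound b
  rw [integral_zero_measure, mul_zero] at h1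
  have h2 := h.inv b
  rw [h2]
  exact abs_nonpos_iff.1 h1

/-- the trace of the full mass. -/
theorem cur_ne_zero {D : Dat M} {Φ : X2 M →ₗ[ℝ] ℝ} {s : Measure M} (h : Cur D Φ s)
    (hs : s ≠ 0) : Φ ≠ 0 := by
  rintro rfl
  have := h.fin
  have h1 := h.rm.trace (fun _ => 1) (En4.sF_const 1) D.FX (by
    funext x
    show at2 D.F x = (1 : ℝ) • at2 D.F x
    rw [one_smul])
  rw [integral_const, smul_eq_mul, mul_one] at h1
  have h2 : s.real univ = 0 := h1.symm
  exact hs (Measure.measure_univ_eq_zero.1 ((measureReal_eq_zero_iff).1 h2))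

end

/-- REGC + GLOB for one current of density one. -/
theorem curves_of (hR : REGC.{u}) (hG : GLOB.{u}) {M : Type u} [MetricSpace M] [CompactSpace M]
    [ConnectedSpace M] [ChartedSpace E4 M] [IsManifold 𝓘(ℝ, E4) ∞ M] [MeasurableSpace M]
    [BorelSpace M] {D : Dat M} (hD : AK D) {C : X2 M →ₗ[ℝ] ℝ} {s : Measure M} (hC : Cur D C s)
    (h1 : ∀ᵐ x ∂s, IsDen D s x 1) :
    ∃ (m : ℕ) (c : Fin m → JCurve D.J), C = ∑ i, (c i).T ∧ msupp s = ⋃ i, range (c i).f := by
  obtain ⟨m, c, hc, hS, -⟩ := hG M D.J D.smJ D.sq (msupp s) C (hR M D hD C s hC h1)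
  exact ⟨m, c, hc, hS⟩

/-- **JDECD**. -/
theorem jdecd (h3 : CUR3.{u}) (hR : REGC.{u}) (hG : GLOB.{u}) : JDECD.{u} := by
  classical
  intro M _ _ _ _ _ _ _ D hD Φ s hΦ
  have hfin := hΦ.fin
  by_cases hz : Dat.ZeroDens s
  · exact Or.inl hz
  refine Or.inr ?_
  -- some `a` with at least one atom
  obtain ⟨a, ha, n, t, C, m, Φ', s', hC, hΦ', hs', hdec, hsum, hn⟩ :
      ∃ a : ℝ, 0 < a ∧ ∃ (n : ℕ) (t : Fin n → ℝ) (C : Fin n → X2 M →ₗ[ℝ] ℝ)
        (m : Fin n → Measure M) (Φ' : X2 M →ₗ[ℝ] ℝ) (s' : Measure M),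
      (∀ i, a ≤ t i ∧ Cur D (C i) (m i) ∧ m i ≠ 0 ∧ ∀ᵐ x ∂(m i), IsDen D (m i) x 1) ∧
      Cur D Φ' s' ∧ (∀ᵐ x ∂s', ∃ θ, 0 ≤ θ ∧ θ < a ∧ IsDen D s' x θ ∧ IsDen D s x θ) ∧
      Φ = ∑ i, t i • C i + Φ' ∧ s = ∑ i, ENNReal.ofReal (t i) • m i + s' ∧ 0 < n := by
    by_contra hcon
    push Not at hcon
    apply hz
    refine zeroDens_of_isDen (D := D) fun a ha => ?_
    obtain ⟨n, t, C, m, Φ', s', hC, hΦ', hs', hdec, hsum⟩ := h3 M D hD Φ s hΦ a ha
    have hn : n = 0 := by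
      have := hcon a ha n t C m Φ' s' hC hΦ' hs' hdec hsum
      omega
    subst hn
    have h4 : s = s' := by rw [hsum]; simp
    rw [h4]
    rw [h4] at hs'
    filter_upwards [hs'] with x hx
    obtain ⟨θ, -, hθ, h5, -⟩ := hx
    exact ⟨θ, hθ, h5⟩
  obtain ⟨k, hk⟩ : ∃ k, k = (⟨0, hn⟩ : Fin n) := ⟨_, rfl⟩
  obtain ⟨hak, hCk, hmk, h1k⟩ := hC k
  obtain ⟨l, c, hc, -⟩ := curves_of hR hG hD hCk h1k
  have hCne : C k ≠ 0 := cur_ne_zero hCk hmk
  obtain ⟨j, hj⟩ : ∃ j, (c j).T ≠ 0 := by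
    by_contra hcon
    push Not at hcon
    apply hCne
    rw [hc]
    exact Finset.sum_eq_zero fun i _ => hcon i
  have htk : 0 < t k := ha.trans_le hak
  refine ⟨c j, t k, t k • (∑ i ∈ Finset.univ.erase j, (c i).T) +
    (∑ i ∈ Finset.univ.erase k, t i • C i + Φ'), htk, hj, ?_, ?_⟩
  · refine PCur.add' (PCur.smul' (PCur.sum' _ _ fun i _ => (c i).pcur) htk.le)
      (PCur.add' (PCur.sum' _ _ fun i _ => PCur.smul' (pcur_of_cur (hC i).2.1)
        (ha.le.trans (hC i).1)) (pcur_of_cur hΦ'))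
  · rw [hdec, ← Finset.add_sum_erase Finset.univ (fun i => t i • C i) (Finset.mem_univ k)]
    have h6 : C k = (c j).T + ∑ i ∈ Finset.univ.erase j, (c i).T := by
      rw [Finset.add_sum_erase Finset.univ (fun i => (c i).T) (Finset.mem_univ j)]
      exact hc
    rw [h6, smul_add]
    abel

/-- **T2SD**. -/
theorem t2sd (h3 : CUR3.{u}) (hR : REGC.{u}) (hG : GLOB.{u}) : T2SD.{u} := by
  classical
  intro M _ _ _ _ _ _ _ D hD Φ s hΦ hlow
  have hfin := hΦ.fin
  obtain ⟨ε, hε, hlow⟩ := hlow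
  obtain ⟨c, hc, hcu⟩ := unif_gball D
  have ha : 0 < ε / (Real.pi * c ^ 2) := by positivity
  obtain ⟨n, t, C, m, Φ', s', hC, hΦ', hs', hdec, hsum⟩ := h3 M D hD Φ s hΦ _ ha
  -- the rest vanishes
  have hss : s' ≤ s := by
    rw [hsum]
    exact Measure.le_add_left le_rfl
  have h0 : s' = 0 := by
    rw [← ae_eq_bot, ← Filter.eventually_false_iff_eq_bot]
    filter_upwards [hs', ae_mono hss hlow] with x hx1 hx2
    obtain ⟨θ, -, hθ, -, h5⟩ := hx1
    have h6 := ball_small hc hcu h5 hθ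
    obtain ⟨r, hr1, hr2⟩ := (hx2.and_eventually h6).exists
    have h7 : ε / (Real.pi * c ^ 2) * Real.pi * c ^ 2 * r ^ 2 = ε * r ^ 2 := by
      have := Real.pi_pos
      field_simp
    rw [h7] at hr2
    exact absurd hr1 (not_le.2 hr2)
  subst h0
  have hΦ0 : Φ' = 0 := cur_zero hΦ'
  -- curves of every piece
  have hcv : ∀ i, ∃ (l : ℕ) (c : Fin l → JCurve D.J), C i = ∑ j, (c j).T ∧
      msupp (m i) = ⋃ j, range (c j).f := fun i => curves_of hR hG hD (hC i).2.1 (hC i).2.2.2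
  choose l cv hcv1 hcv2 using hcv
  have htpos : ∀ i, 0 < t i := fun i => ha.trans_le (hC i).1
  let e := (Fintype.equivFin ((i : Fin n) × Fin (l i)))
  refine ⟨Fintype.card ((i : Fin n) × Fin (l i)), fun k => cv (e.symm k).1 (e.symm k).2,
    fun k => t (e.symm k).1, fun k => htpos _, ?_, ?_⟩
  · rw [e.symm.sum_comp (fun q : (i : Fin n) × Fin (l i) => t q.1 • (cv q.1 q.2).T),
      Fintype.sum_sigma, hdec, hΦ0, add_zero]
    refine Finset.sum_congr rfl fun i _ => ?_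
    rw [hcv1 i, Finset.smul_sum]
  · have h8 : msupp s = ⋃ i, msupp (m i) := by
      ext x
      rw [mem_iUnion]
      constructor
      · intro hx
        by_contra hcon
        push Not at hcon
        have h9 : ∀ i, ∃ U : Set M, IsOpen U ∧ x ∈ U ∧ m i U = 0 := by
          intro i
          have h10 := hcon i
          simp only [msupp, mem_ofPred_eq, not_forall, not_lt, nonpos_iff_eq_zero] at h10
          obtain ⟨U, hU, hxU, h0⟩ := h10
          exact ⟨U, hU, hxU, h0⟩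
        choose U hU hxU hU0 using h9
        have h11 := hx (⋂ i, U i) (isOpen_iInter_of_finite hU) (mem_iInter.2 hxU)
        rw [hsum] at h11
        have h12 : (∑ i, ENNReal.ofReal (t i) • m i + (0 : Measure M)) (⋂ i, U i) = 0 := by
          rw [add_zero, Measure.coe_finsetSum, Finset.sum_apply]
          refine Finset.sum_eq_zero fun i _ => ?_
          rw [Measure.smul_apply, measure_mono_null (iInter_subset U i) (hU0 i), smul_zero]
        rw [h12] at h11
        exact lt_irrefl _ h11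
      · rintro ⟨i, hi⟩ V hV hxV
        have h9 := hi V hV hxV
        rw [hsum, add_zero, Measure.coe_finsetSum, Finset.sum_apply]
        refine lt_of_lt_of_le ?_ (Finset.single_le_sum (f := fun i => (ENNReal.ofReal (t i) • m i) V)
          (fun j _ => zero_le) (Finset.mem_univ i))
        rw [Measure.smul_apply, smul_eq_mul]
        exact ENNReal.mul_pos (ENNReal.ofReal_pos.2 (htpos i)).ne' h9.ne'
    rw [h8]
    ext x
    simp only [mem_iUnion]
    constructor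
    · rintro ⟨i, hi⟩
      rw [hcv2 i, mem_iUnion] at hi
      obtain ⟨j, hj⟩ := hi
      refine ⟨e ⟨i, j⟩, ?_⟩
      rw [e.symm_apply_apply]
      exact hj
    · rintro ⟨k, hk⟩
      refine ⟨(e.symm k).1, ?_⟩
      rw [hcv2, mem_iUnion]
      exact ⟨_, hk⟩

/-! ### the consumers -/

theorem ak_of {M : Type u} [MetricSpace M] [CompactSpace M] [ChartedSpace E4 M]
    [IsManifold 𝓘(ℝ, E4) ∞ M] [MeasurableSpace M] [BorelSpace M] {D : Dat M}
    (h : D.F = D.al) : AK D := by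
  intro x u v
  have h1 : invp (atJ D.J x) (at2 D.al x) = at2 D.al x := by
    have h2 : at2 D.F x = at2 D.al x := by rw [h]
    exact h2
  have h3 := invp_inv (D.sq x) (at2 D.al x) u v
  rwa [h1] at h3

/-- **JDEC** (844). -/
theorem jdec (h3 : CUR3.{u}) (hR : REGC.{u}) (hG : GLOB.{u}) : JDEC.{u} := by
  intro M _ _ _ _ _ _ _ D w _ _ _ S s hS hs
  obtain ⟨D', hJ, hF⟩ := Limt.exists_closedF D
  have hcur : Cur D S s := cur_of_rm hS hs
  have hS' : PCur D'.J S := by rw [hJ]; exact hS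
  obtain ⟨s', hs'⟩ := cur_of_pcur hS'
  have h := jdecd h3 hR hG M D' (ak_of hF) S s' hs'
  rw [hJ] at h
  rcases h with h | h
  · exact Or.inl (zeroDens_of hJ hcur hs' h)
  · exact Or.inr h

theorem sup_iff {M : Type u} [MetricSpace M] [MeasurableSpace M] {s : Measure M}
    [IsFiniteMeasure s] {x : M} : Swc.Sup s x ↔ x ∈ msupp s := by
  constructor
  · intro h U hU hxU
    obtain ⟨r, hr, hrU⟩ := Metric.isOpen_iff.1 hU x hxU
    have h1 := h r hr
    have h2 : 0 < s (ball x r) := (ENNReal.toReal_pos_iff.1 h1).1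
    exact h2.trans_le (measure_mono hrU)
  · intro h r hr
    exact ENNReal.toReal_pos (h (ball x r) isOpen_ball (mem_ball_self hr)).ne' (measure_ne_top _ _)

theorem ae_sup {M : Type u} [MetricSpace M] [CompactSpace M] [MeasurableSpace M] [BorelSpace M]
    (s : Measure M) [IsFiniteMeasure s] : ∀ᵐ x ∂s, Swc.Sup s x := by
  have h1 : {x : M | ¬ Swc.Sup s x} ⊆ ⋃₀ {U | IsOpen U ∧ s U = 0} := by
    intro x hx
    rw [mem_ofPred_eq, sup_iff] at hx
    simp only [msupp, mem_ofPred_eq, not_forall, not_lt, nonpos_iff_eq_zero] at hx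
    obtain ⟨U, hU, hxU, h0⟩ := hx
    exact mem_sUnion.2 ⟨U, ⟨hU, h0⟩, hxU⟩
  obtain ⟨T, hTc, hTs, hTU⟩ := TopologicalSpace.isOpen_sUnion_countable
    {U : Set M | IsOpen U ∧ s U = 0} (fun U hU => hU.1)
  refine measure_mono_null h1 ?_
  rw [← hTU]
  exact (measure_sUnion_null_iff hTc).2 fun U hU => (hTs hU).2

/-- **T2S** (215). -/
theorem t2s (h3 : CUR3.{u}) (hR : REGC.{u}) (hG : GLOB.{u}) : Swc.T2S.{u} := by
  intro M _ _ _ _ _ _ _ D w _ _ _ S s hs hlow
  obtain ⟨D', hJ, hF⟩ := Limt.exists_closedF D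
  have hfin := hs.fin
  have hS' : PCur D'.J S := by rw [hJ]; exact pcur_of_cur hs
  obtain ⟨s', hs'⟩ := cur_of_pcur hS'
  have hfin' := hs'.fin
  have hlow' : Swc.LowDens s' := Limt.lowDens_of hJ.symm hs' hs hlow
  obtain ⟨κ, r0, hκ, hr0, hl⟩ := hlow'
  have h := t2sd h3 hR hG M D' (ak_of hF) S s' hs' ⟨κ, hκ, by
    filter_upwards [ae_sup s'] with x hx
    refine Filter.Eventually.frequently ?_
    have hev : ∀ᶠ r in 𝓝[>] (0 : ℝ), r < r0 := mem_nhdsWithin_of_mem_nhds (Iio_mem_nhds hr0)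
    filter_upwards [hev, self_mem_nhdsWithin] with r hr hr0'
    exact hl x hx r hr0' hr.le⟩
  rw [hJ] at h
  obtain ⟨m, c, a, ha, hSc, hsup⟩ := h
  refine ⟨m, c, a, ha, hSc, fun x hx => ?_⟩
  have hx' : Swc.Sup s' x := Limt.sup_of hJ.symm hs' hs hx
  rw [sup_iff, hsup, mem_iUnion] at hx'
  exact hx'

end

end Crest.Agent.R235.Curves_489
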