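import Crest.Agent.R235.CylDef_607

/-!
Row 235 (S0364), PACKAGE REG, sub-block CYL, leaf C0 (task 277): pointwise algebra of `J`-planes in a
box.  Main result `alg0 : ALG0`.  Exports: `hh_eq` (`(1-|μ|²) h = |θ_z X|²`), `hh_nonneg`,
`norm_fst_sq_le`, `V1_eq`, `VI_eq`, `slo_apply`, `lzb_slo`, ...
-/

set_option autoImplicit false

open Complex
open Crest.Agent.R235.Loc Crest.Agent.R235.Cyl

namespace Crest.Agent.R235.CylAlg_895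

/-- `(1 - |m|²) Im (x̄ y) = |x + m x̄|²` if `y + m ȳ = i (x + m x̄)`. -/
theorem key_hh (m x y : ℂ)
    (h : y + m * (starRingEnd ℂ) y = I * (x + m * (starRingEnd ℂ) x)) :
    (1 - ‖m‖ ^ 2) * (x.re * y.im - y.re * x.im) = ‖x + m * (starRingEnd ℂ) x‖ ^ 2 := by
  have hre := congrArg Complex.re h
  have him := congrArg Complex.im h
  rw [← Complex.normSq_eq_norm_sq, ← Complex.normSq_eq_norm_sq, Complex.normSq_apply,
    Complex.normSq_apply]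
  simp only [Complex.add_re, Complex.add_im, Complex.mul_re, Complex.mul_im, Complex.conj_re,
    Complex.conj_im, Complex.I_re, Complex.I_im] at hre him ⊢
  linear_combination (x.re + (m.re * x.re - m.im * -x.im)) * him
    - (x.im + (m.re * -x.im + m.im * x.re)) * hre

/-- `|x| (1-κ) ≤ |x + m x̄|`. -/
theorem norm_le_of (m x : ℂ) {κ : ℝ} (hm : ‖m‖ ≤ κ) :
    (1 - κ) * ‖x‖ ≤ ‖x + m * (starRingEnd ℂ) x‖ := by
  have h1 : ‖x‖ ≤ ‖x + m * (starRingEnd ℂ) x‖ + ‖m * (starRingEnd ℂ) x‖ := by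
    calc ‖x‖ = ‖(x + m * (starRingEnd ℂ) x) - m * (starRingEnd ℂ) x‖ := by
          congr 1; ring
      _ ≤ _ := norm_sub_le _ _
  rw [norm_mul, Complex.norm_conj] at h1
  have h2 : ‖m‖ * ‖x‖ ≤ κ * ‖x‖ := by gcongr
  linarith

theorem V1_eq (X Y : CC) : V1 X Y = (((hh X Y : ℝ) : ℂ), (V1 X Y).2) := by
  apply Prod.ext
  · apply Complex.ext
    · simp [V1, hh]; ring
    · simp [V1, mul_comm]
  · rfl

theorem VI_eq (X Y : CC) : VI X Y = (I * ((hh X Y : ℝ) : ℂ), (VI X Y).2) := by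
  apply Prod.ext
  · apply Complex.ext
    · simp [VI, mul_comm]
    · simp [VI, hh]
  · rfl

theorem V1_snd (X Y : CC) : (V1 X Y).2 = Y.1.im • X.2 - X.1.im • Y.2 := rfl

theorem VI_snd (X Y : CC) : (VI X Y).2 = X.1.re • Y.2 - Y.1.re • X.2 := rfl

theorem slo_apply (X Y : CC) (ζ : ℂ) :
    slo X Y ζ = (hh X Y)⁻¹ • (ζ.re • (V1 X Y).2 + ζ.im • (VI X Y).2) := by
  simp [slo]

theorem slo_one (X Y : CC) : slo X Y 1 = (hh X Y)⁻¹ • (V1 X Y).2 := by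
  rw [slo_apply]; simp

theorem slo_I (X Y : CC) : slo X Y I = (hh X Y)⁻¹ • (VI X Y).2 := by
  rw [slo_apply]; simp

theorem norm_slo_le {X Y : CC} (h : 0 < hh X Y) :
    ‖slo X Y‖ ≤ (hh X Y)⁻¹ * (‖(V1 X Y).2‖ + ‖(VI X Y).2‖) := by
  refine (slo X Y).opNorm_le_bound (by positivity) (fun ζ => ?_)
  rw [slo_apply, norm_smul, Real.norm_of_nonneg (by positivity : (0 : ℝ) ≤ (hh X Y)⁻¹), mul_assoc]
  have h1 : ‖ζ.re • (V1 X Y).2 + ζ.im • (VI X Y).2‖ ≤ (‖(V1 X Y).2‖ + ‖(VI X Y).2‖) * ‖ζ‖ := by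
    refine (norm_add_le _ _).trans ?_
    rw [norm_smul, norm_smul, Real.norm_eq_abs, Real.norm_eq_abs]
    have ha := Complex.abs_re_le_norm ζ
    have hb := Complex.abs_im_le_norm ζ
    calc |ζ.re| * ‖(V1 X Y).2‖ + |ζ.im| * ‖(VI X Y).2‖
        ≤ ‖ζ‖ * ‖(V1 X Y).2‖ + ‖ζ‖ * ‖(VI X Y).2‖ := by gcongr
      _ = (‖(V1 X Y).2‖ + ‖(VI X Y).2‖) * ‖ζ‖ := by ring
  gcongr

section Plane

variable {μ β : CC → ℂ} {κ L K : ℝ} {p X Y : CC}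

/-- `(1 - |μ|²) h = |θ_z X|²`. -/
theorem hh_eq (hz : thz μ p Y = I * thz μ p X) :
    (1 - ‖μ p‖ ^ 2) * hh X Y = ‖thz μ p X‖ ^ 2 :=
  key_hh (μ p) X.1 Y.1 hz

/-- the slope of a nonvertical `J`-plane solves the equation. -/
theorem lzb_slo (hz : thz μ p Y = I * thz μ p X) (hw : thw β p Y = I * thw β p X)
    (h : 0 < hh X Y) : lzb (slo X Y) = μ p * lz (slo X Y) - β p := by
  have hne : ((hh X Y : ℝ) : ℂ) ≠ 0 := by exact_mod_cast h.ne'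
  have hx : (starRingEnd ℂ) X.1 = (X.1.re : ℂ) - (X.1.im : ℂ) * I := by
    apply Complex.ext <;> simp
  have hy : (starRingEnd ℂ) Y.1 = (Y.1.re : ℂ) - (Y.1.im : ℂ) * I := by
    apply Complex.ext <;> simp
  have hx' : X.1 = (X.1.re : ℂ) + (X.1.im : ℂ) * I := (Complex.re_add_im _).symm
  have hy' : Y.1 = (Y.1.re : ℂ) + (Y.1.im : ℂ) * I := (Complex.re_add_im _).symm
  have halg : Y.2 * (X.1 + μ p * (starRingEnd ℂ) X.1) - X.2 * (Y.1 + μ p * (starRingEnd ℂ) Y.1)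
      = β p * ((starRingEnd ℂ) X.1 * Y.1 - X.1 * (starRingEnd ℂ) Y.1) := by
    unfold thz at hz
    unfold thw at hw
    linear_combination (X.1 + μ p * (starRingEnd ℂ) X.1) * hw - X.2 * hz
      - β p * (starRingEnd ℂ) X.1 * hz
  have hhc : ((hh X Y : ℝ) : ℂ) = (X.1.re : ℂ) * Y.1.im - (Y.1.re : ℂ) * X.1.im := by
    unfold hh; push_cast; ring
  have hI : I * I = -1 := Complex.I_mul_I
  have goal' : (((Y.1.im : ℂ) * X.2 - (X.1.im : ℂ) * Y.2)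
        + I * ((X.1.re : ℂ) * Y.2 - (Y.1.re : ℂ) * X.2))
      = μ p * (((Y.1.im : ℂ) * X.2 - (X.1.im : ℂ) * Y.2)
        - I * ((X.1.re : ℂ) * Y.2 - (Y.1.re : ℂ) * X.2)) - 2 * ((hh X Y : ℝ) : ℂ) * β p := by
    rw [hhc]
    rw [hx, hy] at halg
    generalize hx1 : (X.1.re : ℂ) = x1 at *
    generalize hx2 : (X.1.im : ℂ) = x2 at *
    generalize hy1 : (Y.1.re : ℂ) = y1 at *
    generalize hy2 : (Y.1.im : ℂ) = y2 at *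
    rw [hx', hy'] at halg
    linear_combination I * halg + (-x2 * Y.2 + y2 * X.2 + μ p * (x2 * Y.2 - y2 * X.2)
      + 2 * (x1 * y2 - y1 * x2) * β p) * hI
  unfold lz lzb
  rw [slo_one, slo_I, V1_snd, VI_snd]
  simp only [Complex.real_smul, Complex.ofReal_inv]
  field_simp
  linear_combination goal'

theorem sq_add_le (a b : ℝ) : (a + b) ^ 2 ≤ 2 * a ^ 2 + 2 * b ^ 2 := by
  nlinarith [sq_nonneg (a - b)]

set_option maxHeartbeats 1000000 in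
/-- LOC-C0 with explicit constants. -/
theorem alg0_aux (hκ0 : 0 ≤ κ) (hκ1 : κ < 1) (hL : 0 ≤ L) (hm : ‖μ p‖ ≤ κ) (hb : ‖β p‖ ≤ L)
    (nX : ‖X‖ = 1) (nY : ‖Y‖ ≤ K)
    (hz : thz μ p Y = I * thz μ p X) (hw : thw β p Y = I * thw β p X) :
    0 ≤ hh X Y ∧ hh X Y ≤ K ∧ |kk X Y| ≤ K ∧
    1 / 4 ≤ kk X Y + (4 * L ^ 2 + 1) * (1 / (1 - κ) ^ 2) * hh X Y ∧
    ‖(V1 X Y).2‖ ^ 2 ≤ (2 + 2 * K ^ 2) * (1 / (1 - κ) ^ 2) * hh X Y ∧
    ‖(VI X Y).2‖ ^ 2 ≤ (2 + 2 * K ^ 2) * (1 / (1 - κ) ^ 2) * hh X Y ∧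
    ‖X.1‖ ^ 2 ≤ (1 / (1 - κ) ^ 2) * hh X Y ∧ ‖Y.1‖ ^ 2 ≤ (1 / (1 - κ) ^ 2) * hh X Y ∧
    (0 < hh X Y → ‖slo X Y‖ ^ 2 * hh X Y ≤ 8 * (1 + K ^ 2) * (1 / (1 - κ) ^ 2)) := by
  have hκ' : 0 < 1 - κ := by linarith
  have hK : 0 ≤ K := (norm_nonneg Y).trans nY
  have hX1 : ‖X.1‖ ≤ 1 := by rw [← nX]; exact norm_fst_le X
  have hX2 : ‖X.2‖ ≤ 1 := by rw [← nX]; exact norm_snd_le X
  have hY1 : ‖Y.1‖ ≤ K := (norm_fst_le Y).trans nY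
  have hY2 : ‖Y.2‖ ≤ K := (norm_snd_le Y).trans nY
  have hP := hh_eq (X := X) (Y := Y) hz
  set P : ℝ := ‖thz μ p X‖ with hPdef
  have hP0 : 0 ≤ P := norm_nonneg _
  have hm0 := norm_nonneg (μ p)
  have hm2 : 0 < 1 - ‖μ p‖ ^ 2 := by nlinarith
  have hh0 : 0 ≤ hh X Y := by
    refine le_of_mul_le_mul_left ?_ hm2
    rw [hP, mul_zero]
    exact sq_nonneg P
  have hP2 : P ^ 2 ≤ hh X Y := by
    rw [← hP]; nlinarith [sq_nonneg ‖μ p‖]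
  set C₁ : ℝ := 1 / (1 - κ) ^ 2 with hC₁
  have hC₁0 : 0 < C₁ := by positivity
  have hx : (1 - κ) * ‖X.1‖ ≤ P := norm_le_of (μ p) X.1 hm
  have hy : (1 - κ) * ‖Y.1‖ ≤ P := by
    have h1 := norm_le_of (μ p) Y.1 hm
    have h2 : ‖Y.1 + μ p * (starRingEnd ℂ) Y.1‖ = P := by
      have : Y.1 + μ p * (starRingEnd ℂ) Y.1 = I * thz μ p X := hz
      rw [this, norm_mul, Complex.norm_I, one_mul]
    rwa [h2] at h1
  have hsq : ∀ t : ℝ, 0 ≤ t → (1 - κ) * t ≤ P → t ^ 2 ≤ C₁ * hh X Y := by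
    intro t ht h
    have h1 : ((1 - κ) * t) ^ 2 ≤ P ^ 2 := by gcongr
    rw [mul_pow] at h1
    rw [hC₁, div_mul_eq_mul_div, one_mul, le_div_iff₀ (by positivity)]
    nlinarith
  have hx2 : ‖X.1‖ ^ 2 ≤ C₁ * hh X Y := hsq _ (norm_nonneg _) hx
  have hy2 : ‖Y.1‖ ^ 2 ≤ C₁ * hh X Y := hsq _ (norm_nonneg _) hy
  -- products
  have hprod : ∀ a b : ℂ, |a.re * b.im - b.re * a.im| ≤ ‖a‖ * ‖b‖ := by
    intro a b
    have h1 : a.re * b.im - b.re * a.im = ((starRingEnd ℂ) a * b).im := by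
      simp [Complex.mul_im]; ring
    rw [h1]
    refine (Complex.abs_im_le_norm _).trans ?_
    rw [norm_mul, Complex.norm_conj]
  have hhK : hh X Y ≤ K := by
    have h1 := hprod X.1 Y.1
    have h2 : ‖X.1‖ * ‖Y.1‖ ≤ 1 * K := by gcongr
    have h3 := le_abs_self (hh X Y)
    unfold hh at *
    linarith
  have hkK : |kk X Y| ≤ K := by
    have h1 := hprod X.2 Y.2
    have h2 : ‖X.2‖ * ‖Y.2‖ ≤ 1 * K := by gcongr
    unfold kk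
    linarith
  have hV : ∀ (s t : ℝ), |s| ≤ ‖Y.1‖ → |t| ≤ ‖X.1‖ →
      (|s| * ‖X.2‖ + |t| * ‖Y.2‖) ^ 2 ≤ (2 + 2 * K ^ 2) * C₁ * hh X Y := by
    intro s t hs ht
    have h1 : |s| * ‖X.2‖ + |t| * ‖Y.2‖ ≤ ‖Y.1‖ * 1 + ‖X.1‖ * K := by gcongr
    have h2 : (|s| * ‖X.2‖ + |t| * ‖Y.2‖) ^ 2 ≤ (‖Y.1‖ * 1 + ‖X.1‖ * K) ^ 2 := by gcongr
    have h3 := sq_add_le (‖Y.1‖ * 1) (‖X.1‖ * K)
    have h4 : (‖X.1‖ * K) ^ 2 ≤ C₁ * hh X Y * K ^ 2 := by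
      rw [mul_pow]; gcongr
    nlinarith
  have hV1 : ‖(V1 X Y).2‖ ^ 2 ≤ (2 + 2 * K ^ 2) * C₁ * hh X Y := by
    have h1 : ‖(V1 X Y).2‖ ≤ |Y.1.im| * ‖X.2‖ + |X.1.im| * ‖Y.2‖ := by
      rw [V1_snd]
      refine (norm_sub_le _ _).trans ?_
      rw [norm_smul, norm_smul, Real.norm_eq_abs, Real.norm_eq_abs]
    have h2 : ‖(V1 X Y).2‖ ^ 2 ≤ (|Y.1.im| * ‖X.2‖ + |X.1.im| * ‖Y.2‖) ^ 2 := by gcongr
    exact h2.trans (hV _ _ (Complex.abs_im_le_norm _) (Complex.abs_im_le_norm _))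
  have hVI : ‖(VI X Y).2‖ ^ 2 ≤ (2 + 2 * K ^ 2) * C₁ * hh X Y := by
    have h1 : ‖(VI X Y).2‖ ≤ |Y.1.re| * ‖X.2‖ + |X.1.re| * ‖Y.2‖ := by
      rw [VI_snd]
      refine (norm_sub_le _ _).trans ?_
      rw [norm_smul, norm_smul, Real.norm_eq_abs, Real.norm_eq_abs, add_comm]
    have h2 : ‖(VI X Y).2‖ ^ 2 ≤ (|Y.1.re| * ‖X.2‖ + |X.1.re| * ‖Y.2‖) ^ 2 := by gcongr
    exact h2.trans (hV _ _ (Complex.abs_re_le_norm _) (Complex.abs_re_le_norm _))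
  -- the lower bound for `kk`
  have hb0 := norm_nonneg (β p)
  set Q : ℂ := thw β p X with hQ
  have hX2Q : X.2 = Q - β p * (starRingEnd ℂ) X.1 := by rw [hQ]; unfold thw; ring
  have hY2Q : Y.2 = I * Q - β p * (starRingEnd ℂ) Y.1 := by
    have : Y.2 + β p * (starRingEnd ℂ) Y.1 = I * Q := hw
    rw [← this]; ring
  have hkk : ‖Q‖ ^ 2 / 2 - 3 * L ^ 2 * (C₁ * hh X Y) ≤ kk X Y := by
    have h1 : kk X Y = ‖Q‖ ^ 2
        - ((starRingEnd ℂ) Q * (β p * (starRingEnd ℂ) Y.1)).im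
        - ((starRingEnd ℂ) (β p * (starRingEnd ℂ) X.1) * (I * Q)).im
        + ((starRingEnd ℂ) (β p * (starRingEnd ℂ) X.1) * (β p * (starRingEnd ℂ) Y.1)).im := by
      have h2 : kk X Y = ((starRingEnd ℂ) X.2 * Y.2).im := by
        unfold kk; simp [Complex.mul_im]; ring
      rw [h2, hX2Q, hY2Q, ← Complex.normSq_eq_norm_sq, Complex.normSq_apply]
      generalize β p * (starRingEnd ℂ) X.1 = u
      generalize β p * (starRingEnd ℂ) Y.1 = v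
      simp [Complex.mul_im, Complex.mul_re]
      ring
    have h3 : |((starRingEnd ℂ) Q * (β p * (starRingEnd ℂ) Y.1)).im| ≤ ‖Q‖ * (L * ‖Y.1‖) := by
      refine (Complex.abs_im_le_norm _).trans ?_
      rw [norm_mul, norm_mul, Complex.norm_conj, Complex.norm_conj]
      gcongr
    have h4 : |((starRingEnd ℂ) (β p * (starRingEnd ℂ) X.1) * (I * Q)).im|
        ≤ (L * ‖X.1‖) * ‖Q‖ := by
      refine (Complex.abs_im_le_norm _).trans ?_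
      rw [norm_mul, norm_mul, Complex.norm_conj, norm_mul, Complex.norm_conj, Complex.norm_I,
        one_mul]
      gcongr
    have h5 : |((starRingEnd ℂ) (β p * (starRingEnd ℂ) X.1) * (β p * (starRingEnd ℂ) Y.1)).im|
        ≤ (L * ‖X.1‖) * (L * ‖Y.1‖) := by
      refine (Complex.abs_im_le_norm _).trans ?_
      rw [norm_mul, norm_mul, Complex.norm_conj, norm_mul, Complex.norm_conj, Complex.norm_conj]
      gcongr
    have h3' := (abs_le.mp h3).2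
    have h4' := (abs_le.mp h4).2
    have h5' := (abs_le.mp h5).1
    have a1 : ‖Q‖ * (L * ‖Y.1‖) ≤ ‖Q‖ ^ 2 / 4 + L ^ 2 * ‖Y.1‖ ^ 2 := by
      nlinarith [sq_nonneg (‖Q‖ / 2 - L * ‖Y.1‖)]
    have a2 : (L * ‖X.1‖) * ‖Q‖ ≤ ‖Q‖ ^ 2 / 4 + L ^ 2 * ‖X.1‖ ^ 2 := by
      nlinarith [sq_nonneg (‖Q‖ / 2 - L * ‖X.1‖)]
    have a3 : (L * ‖X.1‖) * (L * ‖Y.1‖) ≤ L ^ 2 * ‖X.1‖ ^ 2 / 2 + L ^ 2 * ‖Y.1‖ ^ 2 / 2 := by
      nlinarith [sq_nonneg (L * ‖X.1‖ - L * ‖Y.1‖)]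
    have a4 : L ^ 2 * ‖X.1‖ ^ 2 ≤ L ^ 2 * (C₁ * hh X Y) := by gcongr
    have a5 : L ^ 2 * ‖Y.1‖ ^ 2 ≤ L ^ 2 * (C₁ * hh X Y) := by gcongr
    rw [h1]
    linarith
  have hChh : 0 ≤ C₁ * hh X Y := by positivity
  have hLC : 0 ≤ L ^ 2 * (C₁ * hh X Y) := by positivity
  have hlow : 1 / 4 ≤ kk X Y + (4 * L ^ 2 + 1) * C₁ * hh X Y := by
    have hmax : ‖X.1‖ = 1 ∨ ‖X.2‖ = 1 := by
      have h1 : max ‖X.1‖ ‖X.2‖ = 1 := by rw [← Prod.norm_def, nX]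
      rcases max_choice ‖X.1‖ ‖X.2‖ with h | h
      · left; rw [← h, h1]
      · right; rw [← h, h1]
    have hexp : (4 * L ^ 2 + 1) * C₁ * hh X Y
        = 4 * (L ^ 2 * (C₁ * hh X Y)) + C₁ * hh X Y := by ring
    rw [hexp]
    have hQ0 : 0 ≤ ‖Q‖ ^ 2 := by positivity
    rcases hmax with h1 | h1
    · rw [h1] at hx2
      linarith
    · have h2 : ‖X.2‖ ≤ ‖Q‖ + L * ‖X.1‖ := by
        rw [hX2Q]
        refine (norm_sub_le _ _).trans ?_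
        rw [norm_mul, Complex.norm_conj]
        gcongr
      rw [h1] at h2
      have h3 : (1 : ℝ) ≤ (‖Q‖ + L * ‖X.1‖) ^ 2 := by
        have := norm_nonneg X.1
        nlinarith
      have h4 := sq_add_le ‖Q‖ (L * ‖X.1‖)
      have h5 : (L * ‖X.1‖) ^ 2 ≤ L ^ 2 * (C₁ * hh X Y) := by
        rw [mul_pow]; gcongr
      linarith
  refine ⟨hh0, hhK, hkK, hlow, hV1, hVI, hx2, hy2, ?_⟩
  intro hpos
  have h1 := norm_slo_le hpos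
  have h2 : ‖slo X Y‖ ^ 2 ≤ ((hh X Y)⁻¹ * (‖(V1 X Y).2‖ + ‖(VI X Y).2‖)) ^ 2 := by gcongr
  have h3 := sq_add_le ‖(V1 X Y).2‖ ‖(VI X Y).2‖
  have h4 : (‖(V1 X Y).2‖ + ‖(VI X Y).2‖) ^ 2 ≤ 8 * (1 + K ^ 2) * C₁ * hh X Y := by
    have : 8 * (1 + K ^ 2) * C₁ * hh X Y = 4 * ((2 + 2 * K ^ 2) * C₁ * hh X Y) := by ring
    linarith
  calc ‖slo X Y‖ ^ 2 * hh X Y
      ≤ ((hh X Y)⁻¹ * (‖(V1 X Y).2‖ + ‖(VI X Y).2‖)) ^ 2 * hh X Y := by gcongr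
    _ = (hh X Y)⁻¹ * (‖(V1 X Y).2‖ + ‖(VI X Y).2‖) ^ 2 := by
        field_simp
    _ ≤ (hh X Y)⁻¹ * (8 * (1 + K ^ 2) * C₁ * hh X Y) := by gcongr
    _ = 8 * (1 + K ^ 2) * C₁ := by field_simp

end Plane

/-- C0: pointwise algebra. -/
theorem alg0 : ALG0 := by
  intro κ L K hκ0 hκ1 hL
  have hκ' : 0 < 1 - κ := by linarith
  set C₁ : ℝ := 1 / (1 - κ) ^ 2 with hC₁
  have hC₁0 : 0 < C₁ := by positivity
  have hc1 : 0 ≤ (2 + 2 * K ^ 2) * C₁ := by positivity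
  have hc2 : 0 ≤ 8 * (1 + K ^ 2) * C₁ := by positivity
  have hc3 : 0 ≤ (4 * L ^ 2 + 1) * C₁ := by positivity
  refine ⟨1 + K ^ 2 + 8 * (1 + K ^ 2) * C₁ + (4 * L ^ 2 + 1) * C₁, 1 / 4, by norm_num,
    by positivity, ?_⟩
  intro μ β hS p X Y nX nY hz hw
  obtain ⟨h0, h1, h2, h3, h4, h5, h6, h7, h8⟩ :=
    alg0_aux (K := K) hκ0 hκ1 hL (hS.box.bμ p) (hS.bβ p) nX nY hz hw
  have hK1 : K ≤ 1 + K ^ 2 := by nlinarith [sq_nonneg (K - 1)]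
  have e1 : (2 + 2 * K ^ 2) * C₁
      ≤ 1 + K ^ 2 + 8 * (1 + K ^ 2) * C₁ + (4 * L ^ 2 + 1) * C₁ := by
    nlinarith [sq_nonneg K]
  have e2 : C₁ ≤ 1 + K ^ 2 + 8 * (1 + K ^ 2) * C₁ + (4 * L ^ 2 + 1) * C₁ := by
    have : 0 ≤ 4 * L ^ 2 * C₁ := by positivity
    nlinarith [sq_nonneg K]
  have e3 : (4 * L ^ 2 + 1) * C₁
      ≤ 1 + K ^ 2 + 8 * (1 + K ^ 2) * C₁ + (4 * L ^ 2 + 1) * C₁ := by
    nlinarith [sq_nonneg K]
  have e4 : 8 * (1 + K ^ 2) * C₁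
      ≤ 1 + K ^ 2 + 8 * (1 + K ^ 2) * C₁ + (4 * L ^ 2 + 1) * C₁ := by
    nlinarith [sq_nonneg K]
  have e5 : K ≤ 1 + K ^ 2 + 8 * (1 + K ^ 2) * C₁ + (4 * L ^ 2 + 1) * C₁ := by linarith
  refine ⟨h0, h1.trans e5, h2.trans e5, ?_, V1_eq X Y, VI_eq X Y, ?_, ?_, ?_, ?_, ?_⟩
  · refine h3.trans ?_
    gcongr
  · exact h4.trans (by gcongr)
  · exact h5.trans (by gcongr)
  · exact h6.trans (by gcongr)
  · exact h7.trans (by gcongr)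
  · intro hpos
    exact ⟨lzb_slo hz hw hpos, (h8 hpos).trans e4⟩

end Crest.Agent.R235.CylAlg_895
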