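import Crest.Agent.R235.LocDef_607

/-!
Row 235 (S0364), PACKAGE REG, sub-block LOC, leaf LOC-1 SEL (helper483): local selections near a
simple point.  Exports:

* `rel_fun`    : a `Multiset.Rel` from an enumerated multiset is realised by a function;
* `SCont S z`  : `S` is continuous at `z` (`∀ ε > 0, ∀ᶠ z', Near ε (S z) (S z')`);
* `sheet_eventuallyEq`, `isSlope_unique`, `slope_eq` : two sheets of multiplicity one through
  `(z, a)` agree near `z`; `slope S z (w z) = fderiv ℝ w z` for every sheet `w`;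
* `sel : SEL`;
* `psum_eq`    : `psum` in terms of an injective enumeration by sheets.
-/

set_option autoImplicit false

open MeasureTheory Metric Set Filter Complex
open scoped ContDiff Topology

namespace Crest.Agent.R235.LocSel_483

open Crest.Agent.R235.Loc

noncomputable section

/-! ### multisets -/

/-- a relation from a duplicate-free multiset is realised by a function. -/
lemma rel_fun_aux {ι β : Type*} [Nonempty β] {r : ι → β → Prop} {s : Multiset ι} {t : Multiset β}
    (h : Multiset.Rel r s t) : s.Nodup → ∃ b : ι → β, t = s.map b ∧ ∀ i ∈ s, r i (b i) := by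
  classical
  induction h with
  | zero =>
    intro _
    exact ⟨fun _ => Classical.arbitrary β, by simp, by simp⟩
  | @cons a b as bs hab _ ih =>
    intro hn
    rw [Multiset.nodup_cons] at hn
    obtain ⟨f, hf, hf'⟩ := ih hn.2
    refine ⟨Function.update f a b, ?_, ?_⟩
    · rw [Multiset.map_cons, Function.update_self, hf]
      congr 1
      refine Multiset.map_congr rfl fun i hi => ?_
      rw [Function.update_of_ne]
      rintro rfl
      exact hn.1 hi
    · intro i hi
      rcases Multiset.mem_cons.1 hi with rfl | hi'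
      · rwa [Function.update_self]
      · have hia : i ≠ a := fun h => hn.1 (h ▸ hi')
        rw [Function.update_of_ne hia]
        exact hf' i hi'

/-- a relation from an enumerated multiset is realised by a function. -/
lemma rel_fun {ι α β : Type*} [Fintype ι] [Nonempty β] {r : α → β → Prop} {a : ι → α}
    {t : Multiset β} (h : Multiset.Rel r (Multiset.map a Finset.univ.val) t) :
    ∃ b : ι → β, t = Multiset.map b Finset.univ.val ∧ ∀ i, r (a i) (b i) := by
  rw [Multiset.rel_map_left] at h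
  obtain ⟨b, hb, hb'⟩ := rel_fun_aux h Finset.univ.nodup
  exact ⟨b, hb, fun i => hb' i (Finset.mem_univ i)⟩

/-- a multiset of cardinality `k` is enumerated by `Fin k`. -/
lemma exists_enum {α : Type*} {k : ℕ} (s : Multiset α) (h : s.card = k) :
    ∃ a : Fin k → α, s = Multiset.map a Finset.univ.val := by
  subst h
  induction s using Quotient.inductionOn with
  | h l =>
    refine ⟨fun i => l.get (Fin.cast (by simp) i), ?_⟩
    have h1 : (Finset.univ : Finset (Fin (Multiset.card (⟦l⟧ : Multiset α)))).val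
        = ((List.finRange (Multiset.card (⟦l⟧ : Multiset α)) : List _) : Multiset _) := rfl
    rw [h1]
    show ((l : List α) : Multiset α) = _
    rw [Multiset.map_coe]
    congr 1
    have h2 : Multiset.card (⟦l⟧ : Multiset α) = l.length := rfl
    refine List.ext_get ?_ ?_
    · simp
    · intro n h3 h4
      simp

lemma inj_of_nodup {ι α : Type*} [Fintype ι] {a : ι → α}
    (h : (Multiset.map a Finset.univ.val).Nodup) : Function.Injective a := by
  intro i j hij
  exact Multiset.inj_on_of_nodup_map h i (Finset.mem_univ i) j (Finset.mem_univ j) hij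

lemma nodup_of_inj {ι α : Type*} [Fintype ι] {a : ι → α} (h : Function.Injective a) :
    (Multiset.map a Finset.univ.val).Nodup :=
  Multiset.Nodup.map h Finset.univ.nodup

/-! ### continuity of `S` and uniqueness of sheets -/

/-- `S` is continuous at `z`. -/
def SCont (S : ℂ → Multiset ℂ) (z : ℂ) : Prop := ∀ ε > 0, ∀ᶠ z' in 𝓝 z, Near ε (S z) (S z')

lemma sCont_of_kg {μ β : ℂ × ℂ → ℂ} {c : ℂ} {R : ℝ} {k : ℕ} {S : ℂ → Multiset ℂ} {e : ℂ → ℝ}
    (h : KG μ β c R k S e) {z : ℂ} (hz : z ∈ ball c R) : SCont S z := h.cont z hz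

/-- a point of a finite multiset of multiplicity one is isolated in it. -/
lemma exists_gap (s : Multiset ℂ) (a : ℂ) :
    ∃ δ > 0, ∀ b ∈ s, b ≠ a → 2 * δ ≤ dist b a := by
  classical
  by_cases hne : ((s.toFinset.erase a).image fun b => dist b a).Nonempty
  · set m := ((s.toFinset.erase a).image fun b => dist b a).min' hne with hm
    have hmm := ((s.toFinset.erase a).image fun b => dist b a).min'_mem hne
    rw [← hm, Finset.mem_image] at hmm
    obtain ⟨b, hb, hbm⟩ := hmm
    have hba : b ≠ a := Finset.ne_of_mem_erase hb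
    have hpos : 0 < m := by rw [← hbm]; exact dist_pos.2 hba
    refine ⟨m / 2, by linarith, fun b' hb' hne' => ?_⟩
    have : m ≤ dist b' a := Finset.min'_le _ _ (Finset.mem_image.2
      ⟨b', Finset.mem_erase.2 ⟨hne', Multiset.mem_toFinset.2 hb'⟩, rfl⟩)
    linarith
  · refine ⟨1, one_pos, fun b hb hba => ?_⟩
    exact absurd ⟨dist b a, Finset.mem_image.2
      ⟨b, Finset.mem_erase.2 ⟨hba, Multiset.mem_toFinset.2 hb⟩, rfl⟩⟩ hne

/-- if `count a s = 1` and `t` is close to `s`, at most one element of `t` is close to `a`. -/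
lemma unique_near {s t : Multiset ℂ} {a : ℂ} (hc : s.count a = 1) {δ : ℝ}
    (hδ : ∀ b ∈ s, b ≠ a → 2 * δ ≤ dist b a) (h : Near δ s t) {x y : ℂ} (hx : x ∈ t) (hy : y ∈ t)
    (hxa : dist x a < δ) (hya : dist y a < δ) : x = y := by
  classical
  have ha : a ∈ s := Multiset.count_pos.1 (by omega)
  obtain ⟨s', hs'⟩ := Multiset.exists_cons_of_mem ha
  have hns : a ∉ s' := by
    intro hm
    have : 2 ≤ s.count a := by
      rw [hs', Multiset.count_cons_self]
      have := Multiset.count_pos.2 hm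
      omega
    omega
  unfold Near at h
  rw [hs', Multiset.rel_cons_left] at h
  obtain ⟨b, t', _, hrel, rfl⟩ := h
  have key : ∀ z : ℂ, z ∈ b ::ₘ t' → dist z a < δ → z = b := by
    intro z hz hza
    rcases Multiset.mem_cons.1 hz with h1 | h1
    · exact h1
    · exfalso
      obtain ⟨u, hu, hud⟩ := Multiset.exists_mem_of_rel_of_mem (r := fun x y => dist y x < δ)
        (Multiset.rel_flip.2 hrel) h1
      have hus : u ∈ s := by rw [hs']; exact Multiset.mem_cons_of_mem hu
      have hua : u ≠ a := fun h => hns (h ▸ hu)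
      have h2 := hδ u hus hua
      have h3 := dist_triangle u z a
      linarith
  rw [key x hx hxa, key y hy hya]

/-- two sheets of multiplicity one through the same point agree near it. -/
lemma sheet_eventuallyEq {S : ℂ → Multiset ℂ} {V₁ V₂ : Set ℂ} {w₁ w₂ : ℂ → ℂ} {z : ℂ}
    (hS : SCont S z) (h₁ : Sheet S V₁ w₁) (h₂ : Sheet S V₂ w₂) (hz₁ : z ∈ V₁) (hz₂ : z ∈ V₂)
    (h : w₁ z = w₂ z) : w₁ =ᶠ[𝓝 z] w₂ := by
  classical
  obtain ⟨δ, hδ, hgap⟩ := exists_gap (S z) (w₁ z)
  have c₁ : ContinuousAt w₁ z := h₁.cont.continuousAt (h₁.isOpen.mem_nhds hz₁)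
  have c₂ : ContinuousAt w₂ z := h₂.cont.continuousAt (h₂.isOpen.mem_nhds hz₂)
  filter_upwards [hS δ hδ, h₁.isOpen.mem_nhds hz₁, h₂.isOpen.mem_nhds hz₂,
    Metric.tendsto_nhds.1 c₁ δ hδ, Metric.tendsto_nhds.1 c₂ δ hδ] with x hx hx₁ hx₂ hd₁ hd₂
  refine unique_near (h₁.simple z hz₁) hgap hx ?_ ?_ hd₁ (by rw [h]; exact hd₂)
  · exact Multiset.count_pos.1 (by rw [h₁.simple x hx₁]; exact one_pos)
  · exact Multiset.count_pos.1 (by rw [h₂.simple x hx₂]; exact one_pos)

/-- the slope is unique. -/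
lemma isSlope_unique {S : ℂ → Multiset ℂ} {z a : ℂ} {A B : ℂ →L[ℝ] ℂ} (hS : SCont S z)
    (hA : IsSlope S z a A) (hB : IsSlope S z a B) : A = B := by
  obtain ⟨V₁, w₁, hz₁, hs₁, ha₁, rfl⟩ := hA
  obtain ⟨V₂, w₂, hz₂, hs₂, ha₂, rfl⟩ := hB
  exact (sheet_eventuallyEq hS hs₁ hs₂ hz₁ hz₂ (ha₁.trans ha₂.symm)).fderiv_eq

/-- **the slope of a sheet.** -/
theorem slope_eq {S : ℂ → Multiset ℂ} {V : Set ℂ} {w : ℂ → ℂ} {z : ℂ} (hS : SCont S z)
    (h : Sheet S V w) (hz : z ∈ V) : Loc.slope S z (w z) = fderiv ℝ w z := by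
  have hA : IsSlope S z (w z) (fderiv ℝ w z) := ⟨V, w, hz, h, rfl, rfl⟩
  have hex : ∃ A, IsSlope S z (w z) A := ⟨_, hA⟩
  unfold Loc.slope
  rw [dif_pos hex]
  exact isSlope_unique hS hex.choose_spec hA

/-! ### selections -/

/-- a positive separation of an injective finite family. -/
lemma exists_sep {k : ℕ} (a : Fin k → ℂ) (ha : Function.Injective a) :
    ∃ d > 0, ∀ i j, i ≠ j → 3 * d ≤ dist (a i) (a j) := by
  classical
  by_cases hne : ((Finset.univ : Finset (Fin k × Fin k)).filter fun p => p.1 ≠ p.2).Nonempty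
  · obtain ⟨p, hp, hmin⟩ := Finset.exists_min_image _ (fun p => dist (a p.1) (a p.2)) hne
    rw [Finset.mem_filter] at hp
    have hpos : 0 < dist (a p.1) (a p.2) := dist_pos.2 fun h => hp.2 (ha h)
    refine ⟨dist (a p.1) (a p.2) / 3, by linarith, fun i j hij => ?_⟩
    have := hmin (i, j) (Finset.mem_filter.2 ⟨Finset.mem_univ _, hij⟩)
    simp only at this
    linarith
  · refine ⟨1, one_pos, fun i j hij => ?_⟩
    exact absurd ⟨(i, j), Finset.mem_filter.2 ⟨Finset.mem_univ _, hij⟩⟩ hne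

/-- the local enumeration around a point with `k` distinct values. -/
lemma exists_local {S : ℂ → Multiset ℂ} {z₀ : ℂ} {k : ℕ} (hS : SCont S z₀)
    (hcard : (S z₀).card = k) (hnd : (S z₀).Nodup) :
    ∃ (a : Fin k → ℂ) (d : ℝ), 0 < d ∧ (∀ i j, i ≠ j → 3 * d ≤ dist (a i) (a j)) ∧
      S z₀ = Multiset.map a Finset.univ.val ∧
      ∀ᶠ z in 𝓝 z₀, ∃ b : Fin k → ℂ, S z = Multiset.map b Finset.univ.val ∧
        ∀ i, dist (a i) (b i) < d := by
  obtain ⟨a, ha⟩ := exists_enum (S z₀) hcard
  have hinj : Function.Injective a := inj_of_nodup (by rwa [← ha])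
  obtain ⟨d, hd, hsep⟩ := exists_sep a hinj
  refine ⟨a, d, hd, hsep, ha, ?_⟩
  filter_upwards [hS d hd] with z hz
  unfold Near at hz
  rw [ha] at hz
  exact rel_fun hz

/-- an element of `S z` at distance `< 2 d` of `a i` is `b i`. -/
lemma eq_of_near {k : ℕ} {a b : Fin k → ℂ} {d : ℝ}
    (hsep : ∀ i j, i ≠ j → 3 * d ≤ dist (a i) (a j)) (hb : ∀ i, dist (a i) (b i) < d)
    {x : ℂ} {i : Fin k} (hx : x ∈ Multiset.map b Finset.univ.val) (hxi : dist (a i) x < 2 * d) :
    x = b i := by
  obtain ⟨j, _, rfl⟩ := Multiset.mem_map.1 hx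
  by_contra hne
  have hij : i ≠ j := fun h => hne (by rw [h])
  have h1 := hsep i j hij
  have h2 := dist_triangle (a i) (b j) (a j)
  have h3 := hb j
  rw [dist_comm] at h3
  linarith

lemma inj_of_near {k : ℕ} {a b : Fin k → ℂ} {d : ℝ}
    (hsep : ∀ i j, i ≠ j → 3 * d ≤ dist (a i) (a j)) (hb : ∀ i, dist (a i) (b i) < d) :
    Function.Injective b := by
  intro i j hij
  by_contra hne
  have h1 := hsep i j hne
  have h2 := dist_triangle (a i) (b i) (a j)
  have h3 := hb i
  have h4 := hb j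
  rw [dist_comm, ← hij] at h4
  have h5 : 0 < d := lt_of_le_of_lt dist_nonneg h3
  linarith

/-- **LOC-1.** -/
theorem sel : SEL := by
  intro μ β κ L _ c R k S e hK
  have main : ∀ z₀ ∈ Usimp c R S, ∃ (r : ℝ) (w : Fin k → ℂ → ℂ), 0 < r ∧
      ball z₀ r ⊆ Usimp c R S ∧
      (∀ i, Sheet S (ball z₀ r) (w i)) ∧ (∀ i, ContDiffOn ℝ ∞ (w i) (ball z₀ r)) ∧
      (∀ z ∈ ball z₀ r, Function.Injective (fun i => w i z)) ∧
      (∀ z ∈ ball z₀ r, S z = Multiset.map (fun i => w i z) Finset.univ.val) ∧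
      (∀ z ∈ ball z₀ r, ∀ i, Loc.slope S z (w i z) = fderiv ℝ (w i) z) := by
    intro z₀ hz₀
    obtain ⟨a, d, hd, hsep, hSa, hev⟩ := exists_local (sCont_of_kg hK hz₀.1)
      (hK.card z₀ hz₀.1) hz₀.2
    obtain ⟨r₁, hr₁, hball⟩ := Metric.eventually_nhds_iff_ball.1 hev
    obtain ⟨r₂, hr₂, hball₂⟩ := Metric.isOpen_ball.mem_nhds hz₀.1 |> Metric.mem_nhds_iff.1
    set r := min r₁ r₂ with hr
    have hr0 : 0 < r := lt_min hr₁ hr₂
    have hsub : ball z₀ r ⊆ ball c R :=
      (ball_subset_ball (min_le_right _ _)).trans hball₂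
    choose! b hbS hbd using hball
    have hbS' : ∀ z ∈ ball z₀ r, S z = Multiset.map (b z) Finset.univ.val := fun z hz =>
      hbS z (ball_subset_ball (min_le_left _ _) hz)
    have hbd' : ∀ z ∈ ball z₀ r, ∀ i, dist (a i) (b z i) < d := fun z hz =>
      hbd z (ball_subset_ball (min_le_left _ _) hz)
    have hinj : ∀ z ∈ ball z₀ r, Function.Injective (b z) := fun z hz =>
      inj_of_near hsep (hbd' z hz)
    have hnd : ∀ z ∈ ball z₀ r, (S z).Nodup := fun z hz => by
      rw [hbS' z hz]; exact nodup_of_inj (hinj z hz)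
    have hcont : ∀ i, ContinuousOn (fun z => b z i) (ball z₀ r) := by
      intro i z hz
      refine ContinuousAt.continuousWithinAt ?_
      rw [Metric.continuousAt_iff']
      intro ε hε
      have hSz : SCont S z := sCont_of_kg hK (hsub hz)
      filter_upwards [hSz (min ε d) (lt_min hε hd), Metric.isOpen_ball.mem_nhds hz] with z' h1 h2
      unfold Near at h1
      rw [hbS' z hz] at h1
      obtain ⟨c', hc', hcd⟩ := rel_fun h1
      have h3 : c' i = b z' i := by
        refine eq_of_near hsep (hbd' z' h2) (i := i) ?_ ?_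
        · rw [← hbS' z' h2, hc']
          exact Multiset.mem_map_of_mem _ (Finset.mem_univ i)
        · have h4 := dist_triangle (a i) (b z i) (c' i)
          have h5 := hbd' z hz i
          have h6 := hcd i
          have h7 := min_le_right ε d
          linarith
      rw [← h3, dist_comm]
      exact lt_of_lt_of_le (hcd i) (min_le_left _ _)
    have hsheet : ∀ i, Sheet S (ball z₀ r) (fun z => b z i) := by
      intro i
      refine ⟨Metric.isOpen_ball, hcont i, fun z hz => ?_⟩
      refine Multiset.count_eq_one_of_mem (hnd z hz) ?_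
      rw [hbS' z hz]
      exact Multiset.mem_map_of_mem _ (Finset.mem_univ i)
    refine ⟨r, fun i z => b z i, hr0, fun z hz => ⟨hsub hz, hnd z hz⟩, hsheet,
      fun i => hK.smooth _ _ hsub (hsheet i), hinj, hbS', fun z hz i => ?_⟩
    exact slope_eq (sCont_of_kg hK (hsub hz)) (hsheet i) hz
  refine ⟨?_, main⟩
  rw [Metric.isOpen_iff]
  intro z hz
  obtain ⟨r, _, hr, hsub, _⟩ := main z hz
  exact ⟨r, hr, hsub⟩

/-! ### `psum` in an enumeration -/

/-- `psum` in terms of an injective enumeration. -/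
theorem psum_eq {S : ℂ → Multiset ℂ} {k : ℕ} {z : ℂ} {w : Fin k → ℂ}
    (hw : Function.Injective w) (hS : S z = Multiset.map w Finset.univ.val)
    (G : ℂ → ℂ → ℂ → (ℂ →L[ℝ] ℂ) → (ℂ →L[ℝ] ℂ) → ℝ) :
    psum S G z = ∑ q ∈ (Finset.univ : Finset (Fin k)).offDiag,
      G z (w q.1) (w q.2) (Loc.slope S z (w q.1)) (Loc.slope S z (w q.2)) := by
  classical
  have hnd : (S z).Nodup := by rw [hS]; exact nodup_of_inj hw
  unfold psum
  rw [if_pos hnd]
  symm
  refine Finset.sum_bij (fun q _ => (w q.1, w q.2)) ?_ ?_ ?_ ?_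
  · intro q hq
    rw [Finset.mem_offDiag] at hq ⊢
    refine ⟨?_, ?_, fun h => hq.2.2 (hw h)⟩
    · rw [Multiset.mem_toFinset, hS]
      exact Multiset.mem_map_of_mem _ (Finset.mem_univ q.1)
    · rw [Multiset.mem_toFinset, hS]
      exact Multiset.mem_map_of_mem _ (Finset.mem_univ q.2)
  · intro q _ q' _ h
    have h1 := congrArg Prod.fst h
    have h2 := congrArg Prod.snd h
    exact Prod.ext (hw h1) (hw h2)
  · rintro ⟨x, y⟩ hxy
    rw [Finset.mem_offDiag, Multiset.mem_toFinset, Multiset.mem_toFinset, hS] at hxy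
    obtain ⟨i, _, hi⟩ := Multiset.mem_map.1 hxy.1
    obtain ⟨j, _, hj⟩ := Multiset.mem_map.1 hxy.2.1
    refine ⟨(i, j), ?_, ?_⟩
    · rw [Finset.mem_offDiag]
      refine ⟨Finset.mem_univ _, Finset.mem_univ _, fun h => hxy.2.2 ?_⟩
      have h' : i = j := h
      have hi' : w i = x := hi
      have hj' : w j = y := hj
      show x = y
      rw [← hi', ← hj', h']
    · exact Prod.ext hi hj
  · intro q _
    rfl

/-- `psum` at a simple point, in terms of local selections. -/
theorem psum_local {S : ℂ → Multiset ℂ} {k : ℕ} {z : ℂ} {V : Set ℂ} {w : Fin k → ℂ → ℂ}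
    (hSz : SCont S z) (hz : z ∈ V) (hsh : ∀ i, Sheet S V (w i))
    (hw : Function.Injective (fun i => w i z))
    (hS : S z = Multiset.map (fun i => w i z) Finset.univ.val)
    (G : ℂ → ℂ → ℂ → (ℂ →L[ℝ] ℂ) → (ℂ →L[ℝ] ℂ) → ℝ) :
    psum S G z = ∑ q ∈ (Finset.univ : Finset (Fin k)).offDiag,
      G z (w q.1 z) (w q.2 z) (fderiv ℝ (w q.1) z) (fderiv ℝ (w q.2) z) := by
  rw [psum_eq hw hS]
  refine Finset.sum_congr rfl fun q _ => ?_
  rw [slope_eq hSz (hsh q.1) hz, slope_eq hSz (hsh q.2) hz]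

end

end Crest.Agent.R235.LocSel_483
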