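import Crest.Agent.R235.CylDef_607
import Crest.Agent.R235.LocSel_483

/-!
Row 235 (S0364), PACKAGE REG, sub-block CYL, leaf C17 (helper437, task 287), part A:

* `scont`            : Hoelder closeness gives continuity of the `k`-valued map;
* `exists_sheets`    : local sheets near a simple point, from continuity only;
* `ae_slope`         : a.e. `slope S z w = slo (X (z,w)) (Y (z,w))` for all `w ∈ S z`;
* `FS_eq`            : the fibre sum as a finite sum over `S z`;
* **`cyl_of`**       : `WEAK → DECAY → REPR → SUPPS → SHEETS → CYL`.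
-/

set_option autoImplicit false

open MeasureTheory Metric Set Filter Complex
open scoped ContDiff Topology

namespace Crest.Agent.R235.CylAsm_437

open Crest.Agent.R235.Loc Crest.Agent.R235.Cyl Crest.Agent.R235.LocSel_483

noncomputable section

/-! ### elementary -/

theorem near_of_close {δ ε : ℝ} (h : δ < ε) {s t : Multiset ℂ} (hc : Close δ s t) : Near ε s t :=
  Multiset.Rel.mono hc fun _ _ _ _ hab => lt_of_le_of_lt hab h

theorem close_mono {δ ε : ℝ} (h : δ ≤ ε) {s t : Multiset ℂ} (hc : Close δ s t) : Close ε s t :=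
  Multiset.Rel.mono hc fun _ _ _ _ hab => hab.trans h

/-- Hoelder closeness on smaller balls. -/
def Hld (c : ℂ) (R : ℝ) (S : ℂ → Multiset ℂ) : Prop :=
  ∀ R' < R, ∃ C b : ℝ, 0 ≤ C ∧ 0 < b ∧ ∀ z ∈ ball c R', ∀ z' ∈ ball c R',
    Close (C * dist z z' ^ b) (S z) (S z')

theorem exists_mid {c : ℂ} {R : ℝ} {z : ℂ} (hz : z ∈ ball c R) :
    ∃ R' < R, z ∈ ball c R' := by
  refine ⟨(dist z c + R) / 2, ?_, ?_⟩
  · have := mem_ball.1 hz; linarith
  · have := mem_ball.1 hz
    rw [mem_ball]; linarith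

theorem scont {c : ℂ} {R : ℝ} {S : ℂ → Multiset ℂ} (h : Hld c R S) {z : ℂ} (hz : z ∈ ball c R) :
    SCont S z := by
  intro ε hε
  obtain ⟨R', hR', hz'⟩ := exists_mid hz
  obtain ⟨C, b, hC, hb, hcl⟩ := h R' hR'
  have hlim : Tendsto (fun z' : ℂ => C * dist z z' ^ b) (𝓝 z) (𝓝 0) := by
    have h1 : Tendsto (fun z' : ℂ => dist z z') (𝓝 z) (𝓝 0) := by
      have := (continuous_const.dist continuous_id : Continuous fun z' : ℂ => dist z z').tendsto z
      simpa using this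
    have h2 : Tendsto (fun z' : ℂ => dist z z' ^ b) (𝓝 z) (𝓝 (0 ^ b)) :=
      h1.rpow_const (Or.inr hb.le)
    rw [Real.zero_rpow hb.ne'] at h2
    simpa using h2.const_mul C
  filter_upwards [hlim.eventually (gt_mem_nhds hε), isOpen_ball.mem_nhds hz'] with z' h1 h2
  exact near_of_close h1 (hcl z hz' z' h2)

/-- local sheets near a simple point, from continuity only. -/
theorem exists_sheets {c : ℂ} {R : ℝ} {k : ℕ} {S : ℂ → Multiset ℂ}
    (hcard : ∀ z ∈ ball c R, (S z).card = k) (hS : ∀ z ∈ ball c R, SCont S z)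
    {z₀ : ℂ} (hz₀ : z₀ ∈ ball c R) (hnd₀ : (S z₀).Nodup) :
    ∃ (r : ℝ) (w : Fin k → ℂ → ℂ), 0 < r ∧ ball z₀ r ⊆ ball c R ∧
      (∀ i, Sheet S (ball z₀ r) (w i)) ∧
      (∀ z ∈ ball z₀ r, Function.Injective (fun i => w i z)) ∧
      (∀ z ∈ ball z₀ r, S z = Multiset.map (fun i => w i z) Finset.univ.val) := by
  obtain ⟨a, d, hd, hsep, hSa, hev⟩ := exists_local (hS z₀ hz₀) (hcard z₀ hz₀) hnd₀
  obtain ⟨r₁, hr₁, hball⟩ := Metric.eventually_nhds_iff_ball.1 hev
  obtain ⟨r₂, hr₂, hball₂⟩ := Metric.isOpen_ball.mem_nhds hz₀ |> Metric.mem_nhds_iff.1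
  set r := min r₁ r₂ with hr
  have hr0 : 0 < r := lt_min hr₁ hr₂
  have hsub : ball z₀ r ⊆ ball c R :=
    (ball_subset_ball (min_le_right _ _)).trans hball₂
  choose! b hbS hbd using hball
  have hbS' : ∀ z ∈ ball z₀ r, S z = Multiset.map (b z) Finset.univ.val := fun z hz =>
    hbS z (ball_subset_ball (min_le_left _ _) hz)
  have hbd' : ∀ z ∈ ball z₀ r, ∀ i, dist (a i) (b z i) < d := fun z hz =>
    hbd z (ball_subset_ball (min_le_left _ _) hz)
  have hinj : ∀ z ∈ ball z₀ r, Function.Injective (b z) := fun z hz =>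
    inj_of_near hsep (hbd' z hz)
  have hnd : ∀ z ∈ ball z₀ r, (S z).Nodup := fun z hz => by
    rw [hbS' z hz]; exact nodup_of_inj (hinj z hz)
  have hcont : ∀ i, ContinuousOn (fun z => b z i) (ball z₀ r) := by
    intro i z hz
    refine ContinuousAt.continuousWithinAt ?_
    rw [Metric.continuousAt_iff']
    intro ε hε
    have hSz : SCont S z := hS z (hsub hz)
    filter_upwards [hSz (min ε d) (lt_min hε hd), Metric.isOpen_ball.mem_nhds hz] with z' h1 h2
    unfold Near at h1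
    rw [hbS' z hz] at h1
    obtain ⟨c', hc', hcd⟩ := rel_fun h1
    have h3 : c' i = b z' i := by
      refine eq_of_near hsep (hbd' z' h2) (i := i) ?_ ?_
      · rw [← hbS' z' h2, hc']
        exact Multiset.mem_map_of_mem _ (Finset.mem_univ i)
      · have h4 := dist_triangle (a i) (b z i) (c' i)
        have h5 := hbd' z hz i
        have h6 := hcd i
        have h7 := min_le_right ε d
        linarith
    rw [← h3, dist_comm]
    exact lt_of_lt_of_le (hcd i) (min_le_left _ _)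
  have hsheet : ∀ i, Sheet S (ball z₀ r) (fun z => b z i) := by
    intro i
    refine ⟨Metric.isOpen_ball, hcont i, fun z hz => ?_⟩
    refine Multiset.count_eq_one_of_mem (hnd z hz) ?_
    rw [hbS' z hz]
    exact Multiset.mem_map_of_mem _ (Finset.mem_univ i)
  exact ⟨r, fun i z => b z i, hr0, hsub, hsheet, hinj, hbS'⟩

/-- a.e. the slope of the graph is the slope of the current. -/
theorem ae_slope {c : ℂ} {R : ℝ} {k : ℕ} {S : ℂ → Multiset ℂ} {X Y : CC → CC}
    (hcard : ∀ z ∈ ball c R, (S z).card = k) (hS : ∀ z ∈ ball c R, SCont S z)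
    (hw : ∀ (V : Set ℂ) (w : ℂ → ℂ), V ⊆ ball c R → Sheet S V w →
      ∀ᵐ z : ℂ, z ∈ V → fderiv ℝ w z = slo (X (z, w z)) (Y (z, w z))) :
    ∀ᵐ z : ℂ, z ∈ ball c R → (S z).Nodup → ∀ w ∈ S z,
      Loc.slope S z w = slo (X (z, w)) (Y (z, w)) := by
  rw [ae_iff]
  refine measure_null_of_locally_null _ ?_
  intro z₀ hz₀
  simp only [mem_ofPred_eq, Classical.not_imp] at hz₀
  obtain ⟨hz₀, hnd₀, -⟩ := hz₀
  obtain ⟨r, w, hr, hsub, hsh, hinj, hSw⟩ := exists_sheets hcard hS hz₀ hnd₀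
  have hae : ∀ᵐ z : ℂ, ∀ i : Fin k, z ∈ ball z₀ r →
      fderiv ℝ (w i) z = slo (X (z, w i z)) (Y (z, w i z)) :=
    ae_all_iff.2 fun i => hw _ _ hsub (hsh i)
  rw [ae_iff] at hae
  refine ⟨{z | ¬ ∀ i : Fin k, z ∈ ball z₀ r →
    fderiv ℝ (w i) z = slo (X (z, w i z)) (Y (z, w i z))}, ?_, hae⟩
  rw [mem_nhdsWithin]
  refine ⟨ball z₀ r, isOpen_ball, mem_ball_self hr, ?_⟩
  rintro z ⟨hz, hz'⟩ hcon
  apply hz'
  intro h1 _ a ha
  rw [hSw z hz] at ha
  obtain ⟨i, -, rfl⟩ := Multiset.mem_map.1 ha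
  rw [slope_eq (hS z h1) (hsh i) hz]
  exact hcon i hz

/-- the fibre sum is a finite sum. -/
theorem FS_eq {m : Measure CC} {S : ℂ → Multiset ℂ} {z : ℂ}
    (h : ∀ w, w ∈ S z ↔ w ∈ fib m z) (Φ : CC → ℝ) :
    FS m Φ z = ∑ w ∈ (S z).toFinset, Φ (z, w) := by
  unfold FS
  have : fib m z = ((S z).toFinset : Set ℂ) := by
    ext w
    rw [← h w]
    simp
  rw [this]
  exact finsum_mem_coe_finset _ _

/-- the energy density. -/
def eD (S : ℂ → Multiset ℂ) (z : ℂ) : ℝ := ∑ w ∈ (S z).toFinset, ‖Loc.slope S z w‖ ^ 2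

theorem eD_nonneg (S : ℂ → Multiset ℂ) (z : ℂ) : 0 ≤ eD S z :=
  Finset.sum_nonneg fun _ _ => by positivity

theorem eD_bd {S : ℂ → Multiset ℂ} {V : Set ℂ} {w : ℂ → ℂ} {z : ℂ} (hS : SCont S z)
    (h : Sheet S V w) (hz : z ∈ V) : ‖fderiv ℝ w z‖ ^ 2 ≤ eD S z := by
  have hmem : w z ∈ (S z).toFinset := by
    rw [Multiset.mem_toFinset]
    exact Multiset.count_pos.1 (by rw [h.simple z hz]; exact one_pos)
  have := Finset.single_le_sum (f := fun w => ‖Loc.slope S z w‖ ^ 2)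
    (fun _ _ => by positivity) hmem
  simp only [slope_eq hS h hz] at this
  exact this

theorem ae_eD {c : ℂ} {R : ℝ} {k : ℕ} {S : ℂ → Multiset ℂ} {m : Measure CC} {X Y : CC → CC}
    (hcard : ∀ z ∈ ball c R, (S z).card = k) (hS : ∀ z ∈ ball c R, SCont S z)
    (hw : ∀ (V : Set ℂ) (w : ℂ → ℂ), V ⊆ ball c R → Sheet S V w →
      ∀ᵐ z : ℂ, z ∈ V → fderiv ℝ w z = slo (X (z, w z)) (Y (z, w z)))
    (hfib : ∀ᵐ z : ℂ, z ∈ ball c R → (S z).Nodup ∧ ∀ w, w ∈ S z ↔ w ∈ fib m z) :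
    ∀ᵐ z : ℂ, z ∈ ball c R → eD S z = en m X Y z := by
  filter_upwards [ae_slope hcard hS hw, hfib] with z h1 h2 hz
  obtain ⟨hnd, h3⟩ := h2 hz
  unfold en
  rw [FS_eq h3]
  refine Finset.sum_congr rfl fun w hw => ?_
  rw [h1 hz hnd w (Multiset.mem_toFinset.1 hw)]

theorem rpow_cmp {t D b b' : ℝ} (ht : 0 ≤ t) (htD : t ≤ D) (hb : 0 < b) (hbb : b ≤ b') :
    t ^ b' ≤ D ^ (b' - b) * t ^ b := by
  rcases ht.eq_or_lt with rfl | ht
  · rw [Real.zero_rpow hb.ne', Real.zero_rpow (hb.trans_le hbb).ne', mul_zero]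
  · have h1 : t ^ b' = t ^ (b' - b) * t ^ b := by
      rw [← Real.rpow_add ht]; congr 1; ring
    rw [h1]
    exact mul_le_mul_of_nonneg_right (Real.rpow_le_rpow ht.le htD (by linarith))
      (Real.rpow_nonneg ht.le _)

/-- **CYL.** -/
theorem cyl_of (hW : WEAK) (hD : DECAY) (hR : REPR) (hSu : SUPPS) (hSh : SHEETS) : CYL := by
  intro μ β κ L hB c R ρ K m X Y hm hR0
  obtain ⟨k, S, hcard, hH, hae⟩ := hR μ β κ L hB c R ρ K m X Y hm hR0
  have hsupp := hSu μ β κ L hB c R ρ K m X Y hm hR0 k S hcard hH hae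
  have hsheets := hSh μ β κ L hB c R ρ K m X Y hm hR0 k S hcard hH hae
  have hS : ∀ z ∈ ball c R, SCont S z := fun z hz => scont hH hz
  have heD := ae_eD hcard hS (fun V w hV hw => (hsheets V w hV hw).2.2) hae
  have hint : IntegrableOn (eD S) (ball c R) := by
    refine ((hW μ β κ L hB c R ρ K m X Y hm).1).congr_fun_ae ?_
    rw [EventuallyEq, ae_restrict_iff' measurableSet_ball]
    filter_upwards [heD] with z hz hz'
    exact (hz hz').symm
  have hdec : ∀ R' < R, ∃ C b r₀ : ℝ, 0 ≤ C ∧ 0 < b ∧ b < 1 ∧ 0 < r₀ ∧ R' + r₀ < R ∧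
      ∀ z₀ ∈ closedBall c R', ∀ r : ℝ, 0 < r → r ≤ r₀ →
        ∫ z in ball z₀ r, eD S z ≤ C * r ^ (2 * b) := by
    intro R' hR'
    obtain ⟨C, b, r₀, hC, hb, hb1, hr₀, hRr, h⟩ := hD μ β κ L hB c R ρ K m X Y hm R' hR'
    refine ⟨C, b, r₀, hC, hb, hb1, hr₀, hRr, fun z₀ hz₀ r hr hr' => ?_⟩
    have h1 := (h z₀ hz₀ r hr hr').2
    refine le_trans (le_of_eq ?_) h1
    refine setIntegral_congr_ae measurableSet_ball ?_
    filter_upwards [heD] with z hz hz'
    refine hz ?_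
    rw [mem_ball] at hz' ⊢
    have h2 := dist_triangle z z₀ c
    have h3 := mem_closedBall.1 hz₀
    linarith
  have hKG : KG μ β c R k S (eD S) := by
    refine ⟨hcard, fun z hz ε hε => hS z hz ε hε, ?_, fun V w hV hw => (hsheets V w hV hw).1,
      fun V w hV hw => (hsheets V w hV hw).2.1, eD_nonneg S, hint,
      fun V w hV hw z hz => eD_bd (hS z (hV hz)) hw hz, ?_, ?_⟩
    · rw [ae_iff] at hae
      refine measure_mono_null ?_ hae
      rintro z ⟨hz, hz'⟩ hcon
      exact hz' (hcon hz).1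
    · intro p hp
      obtain ⟨C, b, r₀, hC, hb, -, hr₀, hRr, h⟩ := hdec (dist p c) (mem_ball.1 hp)
      refine ⟨C, b, r₀, hC, hb, hr₀, fun z hz => ?_, fun r hr hr' =>
        h p (mem_closedBall.2 le_rfl) r hr hr'⟩
      rw [mem_ball] at hz ⊢
      have := dist_triangle z p c
      linarith
    · intro p hp
      obtain ⟨R', hR', hp'⟩ := exists_mid hp
      obtain ⟨C, b, hC, hb, hcl⟩ := hH R' hR'
      obtain ⟨r₀, hr₀, hsub⟩ := Metric.isOpen_iff.1 isOpen_ball p hp'
      refine ⟨C, b, r₀, hC, hb, hr₀, hsub.trans (ball_subset_ball hR'.le), fun z hz => ?_⟩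
      have := hcl p hp' z (hsub hz)
      rwa [dist_comm] at this
  refine ⟨k, S, eD S, hKG, ?_, ?_, hsupp⟩
  · intro R' hR'
    obtain ⟨C, b, r₀, hC, hb, hb1, hr₀, hRr, h⟩ := hdec R' hR'
    obtain ⟨C', b', hC', hb', hcl⟩ := hH ((R' + R) / 2) (by linarith)
    set b₀ := min b b' with hb₀
    have hb₀0 : 0 < b₀ := lt_min hb hb'
    set D : ℝ := max 1 (2 * |R'|) with hDdef
    have hD1 : 1 ≤ D := le_max_left _ _
    refine ⟨max C (C' * D ^ (b' - b₀)), b₀, min r₀ 1, le_max_of_le_left hC, hb₀0,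
      (min_le_left _ _).trans_lt hb1, lt_min hr₀ one_pos, ?_, ?_, ?_⟩
    · have := min_le_left r₀ 1
      linarith
    · intro z₀ hz₀ r hr hr'
      refine (h z₀ hz₀ r hr (hr'.trans (min_le_left _ _))).trans ?_
      refine mul_le_mul (le_max_left _ _) ?_ (Real.rpow_nonneg hr.le _)
        (le_max_of_le_left hC)
      refine Real.rpow_le_rpow_of_exponent_ge hr (hr'.trans (min_le_right _ _)) ?_
      have := min_le_left b b'
      linarith
    · intro z hz z' hz'
      have hin : ∀ x ∈ closedBall c R', x ∈ ball c ((R' + R) / 2) := by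
        intro x hx
        rw [mem_ball]
        have := mem_closedBall.1 hx
        linarith
      refine close_mono ?_ (hcl z (hin z hz) z' (hin z' hz'))
      have hdist : dist z z' ≤ D := by
        have h1 := dist_triangle_right z z' c
        have h2 := mem_closedBall.1 hz
        have h3 := mem_closedBall.1 hz'
        have h4 := le_abs_self R'
        refine le_trans ?_ (le_max_right _ _)
        linarith
      have h5 := rpow_cmp (t := dist z z') dist_nonneg hdist hb₀0 (min_le_right b b')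
      calc C' * dist z z' ^ b' ≤ C' * (D ^ (b' - b₀) * dist z z' ^ b₀) :=
            mul_le_mul_of_nonneg_left h5 hC'
        _ = (C' * D ^ (b' - b₀)) * dist z z' ^ b₀ := by ring
        _ ≤ _ := mul_le_mul_of_nonneg_right (le_max_right _ _)
            (Real.rpow_nonneg dist_nonneg _)
  · intro z hz w hw
    by_contra hcon
    push Not at hcon
    have h1 : InSupp m (z, w) := (hsupp z hz w).1 hw
    have h2 := h1 (‖w‖ - ρ) (by linarith)
    have h3 : m (ball ((z, w) : CC) (‖w‖ - ρ)) = 0 := by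
      have h4 := hm.supp
      rw [ae_iff] at h4
      refine measure_mono_null ?_ h4
      intro p hp hcon'
      have h5 : dist p.2 w < ‖w‖ - ρ := lt_of_le_of_lt (le_max_right _ _) (mem_ball.1 hp)
      have h6 := norm_sub_norm_le w p.2
      rw [← dist_eq_norm, dist_comm] at h6
      linarith [hcon'.2]
    rw [h3] at h2
    exact lt_irrefl _ h2

end

end Crest.Agent.R235.CylAsm_437
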