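import Crest.Agent.R235.CylDef_607

/-!
Row 235 (S0364), PACKAGE REG, sub-block CYL, leaf C0b (task 278, helper344):
the closedness identities of a box current for `C¹` test functions.
-/

set_option autoImplicit false

open MeasureTheory Metric Set Filter Complex
open scoped ContDiff Topology Convolution

namespace Crest.Agent.R235.CylClo_344

open Crest.Agent.R235.Loc Crest.Agent.R235.Cyl

noncomputable section

/-! ### smooth approximation in `C¹` -/

/-- a compactly supported `C¹` function is approximated in `C¹` by smooth ones, with support in a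
given neighbourhood of the support. -/
theorem approx1 {E : Type*} [NormedAddCommGroup E] [NormedSpace ℝ E] [FiniteDimensional ℝ E]
    [MeasurableSpace E] [BorelSpace E] {Ψ : E → ℝ} (hΨ : ContDiff ℝ 1 Ψ) (hc : HasCompactSupport Ψ)
    {U : Set E} (hU : IsOpen U) (hsub : tsupport Ψ ⊆ U) {ε : ℝ} (hε : 0 < ε) :
    ∃ g : E → ℝ, ContDiff ℝ ∞ g ∧ HasCompactSupport g ∧ tsupport g ⊆ U ∧
      ∀ x, ‖fderiv ℝ g x - fderiv ℝ Ψ x‖ ≤ ε := by
  have hcD : HasCompactSupport (fderiv ℝ Ψ) := hc.fderiv ℝ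
  have hDc : Continuous (fderiv ℝ Ψ) := hΨ.continuous_fderiv one_ne_zero
  have huc : UniformContinuous (fderiv ℝ Ψ) := hcD.uniformContinuous_of_continuous hDc
  obtain ⟨δ, hδ, hδ'⟩ := Metric.uniformContinuous_iff.1 huc ε hε
  obtain ⟨δ₂, hδ₂, hth⟩ := hc.isCompact.exists_cthickening_subset_open hU hsub
  obtain ⟨r, hr0, hr1, hr2⟩ : ∃ r : ℝ, 0 < r ∧ r < δ ∧ r < δ₂ :=
    ⟨min δ δ₂ / 2, by positivity, by
      have := min_le_left δ δ₂
      linarith [lt_min hδ hδ₂], by
      have := min_le_right δ δ₂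
      linarith [lt_min hδ hδ₂]⟩
  let φ : ContDiffBump (0 : E) := ⟨r / 2, r, by positivity, by linarith⟩
  let ν : Measure E := Measure.addHaar
  let f : E → ℝ := φ.normed ν
  have hfc : HasCompactSupport f := φ.hasCompactSupport_normed
  have hfs : ContDiff ℝ ∞ f := φ.contDiff_normed
  have hΨl : LocallyIntegrable Ψ ν := hΨ.continuous.locallyIntegrable
  have hfl : LocallyIntegrable f ν := hfs.continuous.locallyIntegrable
  refine ⟨f ⋆[ContinuousLinearMap.lsmul ℝ ℝ, ν] Ψ, ?_, ?_, ?_, ?_⟩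
  · exact hfc.contDiff_convolution_left _ hfs hΨl
  · exact hfc.convolution _ hc
  · have h1 : Function.support (f ⋆[ContinuousLinearMap.lsmul ℝ ℝ, ν] Ψ) ⊆
        cthickening r (tsupport Ψ) := by
      refine (support_convolution_subset _).trans ?_
      rintro x hx
      obtain ⟨a, ha, b, hb, rfl⟩ := Set.mem_add.1 hx
      rw [φ.support_normed_eq] at ha
      refine mem_cthickening_of_dist_le _ b _ _ (subset_tsupport _ hb) ?_
      rw [dist_eq_norm, add_sub_cancel_right]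
      exact (mem_ball_zero_iff.1 ha).le
    have h2 : tsupport (f ⋆[ContinuousLinearMap.lsmul ℝ ℝ, ν] Ψ) ⊆
        cthickening r (tsupport Ψ) := closure_minimal h1 isClosed_cthickening
    exact (h2.trans (cthickening_mono hr2.le _)).trans hth
  · intro x
    have h1 := hc.hasFDerivAt_convolution_right (ContinuousLinearMap.lsmul ℝ ℝ) hfl hΨ x
    rw [h1.fderiv]
    have h2 : (f ⋆[(ContinuousLinearMap.lsmul ℝ ℝ).precompR E, ν] fderiv ℝ Ψ) x =
        (f ⋆[ContinuousLinearMap.lsmul ℝ ℝ, ν] fderiv ℝ Ψ) x := by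
      unfold MeasureTheory.convolution
      refine integral_congr_ae (Eventually.of_forall fun t => ?_)
      ext v
      simp [ContinuousLinearMap.precompR_apply]
    rw [h2, ← dist_eq_norm]
    refine φ.dist_normed_convolution_le hDc.aestronglyMeasurable fun y hy => ?_
    refine (hδ' ?_).le
    exact lt_trans (mem_ball.1 hy) hr1

/-! ### coordinates -/

/-- a covector in coordinates. -/
theorem cov (A : CC →L[ℝ] ℝ) (v : CC) :
    A v = v.1.re * A (1, 0) + v.1.im * A (I, 0) + v.2.re * A (0, 1) + v.2.im * A (0, I) := by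
  have h : v = v.1.re • ((1, 0) : CC) + v.1.im • ((I, 0) : CC) + v.2.re • ((0, 1) : CC) +
      v.2.im • ((0, I) : CC) := by
    ext <;> simp
  conv_lhs => rw [h]
  simp only [map_add, map_smul, smul_eq_mul]

theorem meas_cov {Φ : CC → ℝ} (hΦ : ContDiff ℝ 1 Φ) {X : CC → CC} (hX : Measurable X) :
    Measurable fun p => fderiv ℝ Φ p (X p) := by
  have hDc : Continuous (fderiv ℝ Φ) := hΦ.continuous_fderiv one_ne_zero
  have he : ∀ e : CC, Measurable fun p => fderiv ℝ Φ p e := fun e =>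
    ((ContinuousLinearMap.apply ℝ ℝ e).continuous.comp hDc).measurable
  have h : (fun p => fderiv ℝ Φ p (X p)) = fun p =>
      (X p).1.re * fderiv ℝ Φ p (1, 0) + (X p).1.im * fderiv ℝ Φ p (I, 0) +
      (X p).2.re * fderiv ℝ Φ p (0, 1) + (X p).2.im * fderiv ℝ Φ p (0, I) :=
    funext fun p => cov _ _
  rw [h]
  have h1 : Measurable fun p => (X p).1 := measurable_fst.comp hX
  have h2 : Measurable fun p => (X p).2 := measurable_snd.comp hX
  exact ((((Complex.measurable_re.comp h1).mul (he _)).add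
    ((Complex.measurable_im.comp h1).mul (he _))).add
    ((Complex.measurable_re.comp h2).mul (he _))).add ((Complex.measurable_im.comp h2).mul (he _))

/-- the integrand `(dΦ ∧ lam)(X, Y)`. -/
def br (lam : CC →L[ℝ] ℝ) (Φ : CC → ℝ) (X Y : CC → CC) (p : CC) : ℝ :=
  fderiv ℝ Φ p (X p) * lam (Y p) - fderiv ℝ Φ p (Y p) * lam (X p)

theorem meas_br (lam : CC →L[ℝ] ℝ) {Φ : CC → ℝ} (hΦ : ContDiff ℝ 1 Φ) {X Y : CC → CC}
    (hX : Measurable X) (hY : Measurable Y) : Measurable (br lam Φ X Y) :=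
  ((meas_cov hΦ hX).mul (lam.continuous.measurable.comp hY)).sub
    ((meas_cov hΦ hY).mul (lam.continuous.measurable.comp hX))

theorem int_br (lam : CC →L[ℝ] ℝ) {Φ : CC → ℝ} (hΦ : ContDiff ℝ 1 Φ) (hc : HasCompactSupport Φ)
    {m : Measure CC} [IsFiniteMeasure m] {X Y : CC → CC}
    (hX : Measurable X) (hY : Measurable Y) {K : ℝ} (nX : ∀ p, ‖X p‖ = 1) (nY : ∀ p, ‖Y p‖ ≤ K) :
    Integrable (br lam Φ X Y) m := by
  have hDc : Continuous (fderiv ℝ Φ) := hΦ.continuous_fderiv one_ne_zero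
  obtain ⟨C, hC⟩ := (hc.fderiv ℝ).exists_bound_of_continuous hDc
  have hC0 : 0 ≤ C := (norm_nonneg _).trans (hC 0)
  have hK : 0 ≤ K := (norm_nonneg _).trans (nY 0)
  refine Integrable.of_bound (meas_br lam hΦ hX hY).aestronglyMeasurable (2 * (C * K * ‖lam‖))
    (Eventually.of_forall fun p => ?_)
  have a1 : ‖fderiv ℝ Φ p (X p)‖ ≤ C := by
    have := (fderiv ℝ Φ p).le_opNorm (X p)
    rw [nX, mul_one] at this
    exact this.trans (hC p)
  have a2 : ‖fderiv ℝ Φ p (Y p)‖ ≤ C * K :=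
    ((fderiv ℝ Φ p).le_opNorm (Y p)).trans (mul_le_mul (hC p) (nY p) (norm_nonneg _) hC0)
  have a3 : ‖lam (X p)‖ ≤ ‖lam‖ := by
    have := lam.le_opNorm (X p)
    rwa [nX, mul_one] at this
  have a4 : ‖lam (Y p)‖ ≤ ‖lam‖ * K :=
    (lam.le_opNorm (Y p)).trans (mul_le_mul_of_nonneg_left (nY p) (norm_nonneg _))
  have b1 : ‖fderiv ℝ Φ p (X p) * lam (Y p)‖ ≤ C * (‖lam‖ * K) := by
    rw [norm_mul]; exact mul_le_mul a1 a4 (norm_nonneg _) hC0
  have b2 : ‖fderiv ℝ Φ p (Y p) * lam (X p)‖ ≤ C * K * ‖lam‖ := by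
    rw [norm_mul]; exact mul_le_mul a2 a3 (norm_nonneg _) (by positivity)
  refine (norm_sub_le _ _).trans ?_
  calc _ ≤ C * (‖lam‖ * K) + C * K * ‖lam‖ := add_le_add b1 b2
    _ = _ := by ring

section

variable {μ β : CC → ℂ} {c : ℂ} {R ρ K : ℝ} {m : Measure CC} {X Y : CC → CC}

/-- smooth compactly supported test functions. -/
theorem clo_smooth (h : BoxCur μ β c R ρ K m X Y) (lam : CC →L[ℝ] ℝ) {Φ : CC → ℝ}
    (hΦ : ContDiff ℝ ∞ Φ) (hc : HasCompactSupport Φ) (hs : tsupport Φ ⊆ (ball c R) ×ˢ univ) :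
    ∫ p, br lam Φ X Y p ∂m = 0 := by
  have hl : ContDiff ℝ ∞ (fun p => Φ p • lam) := hΦ.smul contDiff_const
  have hlc : HasCompactSupport (fun p => Φ p • lam) := hc.smul_right
  have hts : tsupport (fun p => Φ p • lam) ⊆ (ball c R) ×ˢ univ :=
    (tsupport_smul_subset_left _ _).trans hs
  have h1 := h.closed _ hl hlc hts
  rw [← h1]
  refine integral_congr_ae (Eventually.of_forall fun p => ?_)
  have hd : DifferentiableAt ℝ Φ p := (hΦ.differentiable (by simp)) p
  have h2 : fderiv ℝ (fun p => Φ p • lam) p = (fderiv ℝ Φ p).smulRight lam := by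
    have := (hd.hasFDerivAt.smul_const lam).fderiv
    exact this
  simp only [h2, br, ContinuousLinearMap.smulRight_apply, ContinuousLinearMap.smul_apply,
    smul_eq_mul]

/-- `C¹` compactly supported test functions. -/
theorem clo_cs (h : BoxCur μ β c R ρ K m X Y) (lam : CC →L[ℝ] ℝ) {Φ : CC → ℝ}
    (hΦ : ContDiff ℝ 1 Φ) (hc : HasCompactSupport Φ) (hs : tsupport Φ ⊆ (ball c R) ×ˢ univ) :
    ∫ p, br lam Φ X Y p ∂m = 0 := by
  have := h.fin
  have hK : 0 ≤ K := (norm_nonneg _).trans (h.nY 0)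
  have hU : IsOpen ((ball c R) ×ˢ (univ : Set ℂ)) := isOpen_ball.prod isOpen_univ
  refine norm_eq_zero.1 (le_antisymm (le_of_forall_pos_le_add fun ε hε => ?_) (norm_nonneg _))
  set B : ℝ := 2 * K * ‖lam‖ * m.real univ + 1 with hB
  have hB0 : 0 < B := by positivity
  obtain ⟨g, gs, gc, gt, gd⟩ := approx1 hΦ hc hU hs (div_pos hε hB0)
  have g1 : ContDiff ℝ 1 g := gs.of_le (by exact_mod_cast le_top)
  have hg := clo_smooth h lam gs gc gt
  have e1 : ∫ p, br lam Φ X Y p ∂m = ∫ p, (br lam Φ X Y p - br lam g X Y p) ∂m := by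
    rw [integral_sub (int_br lam hΦ hc h.mX h.mY h.nX h.nY) (int_br lam g1 gc h.mX h.mY h.nX h.nY),
      hg, sub_zero]
  rw [e1, zero_add]
  have e2 : ∀ p, ‖br lam Φ X Y p - br lam g X Y p‖ ≤ ε / B * (2 * K * ‖lam‖) := by
    intro p
    have a0 : ‖fderiv ℝ Φ p - fderiv ℝ g p‖ ≤ ε / B := by rw [norm_sub_rev]; exact gd p
    have a1 : ‖(fderiv ℝ Φ p - fderiv ℝ g p) (X p)‖ ≤ ε / B := by
      have := (fderiv ℝ Φ p - fderiv ℝ g p).le_opNorm (X p)
      rw [h.nX, mul_one] at this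
      exact this.trans a0
    have a2 : ‖(fderiv ℝ Φ p - fderiv ℝ g p) (Y p)‖ ≤ ε / B * K :=
      ((fderiv ℝ Φ p - fderiv ℝ g p).le_opNorm (Y p)).trans
        (mul_le_mul a0 (h.nY p) (norm_nonneg _) (by positivity))
    have a3 : ‖lam (X p)‖ ≤ ‖lam‖ := by
      have := lam.le_opNorm (X p)
      rwa [h.nX, mul_one] at this
    have a4 : ‖lam (Y p)‖ ≤ ‖lam‖ * K :=
      (lam.le_opNorm (Y p)).trans (mul_le_mul_of_nonneg_left (h.nY p) (norm_nonneg _))
    have e : br lam Φ X Y p - br lam g X Y p = (fderiv ℝ Φ p - fderiv ℝ g p) (X p) * lam (Y p) -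
        (fderiv ℝ Φ p - fderiv ℝ g p) (Y p) * lam (X p) := by
      simp only [br, ContinuousLinearMap.sub_apply]; ring
    rw [e]
    refine (norm_sub_le _ _).trans ?_
    rw [norm_mul, norm_mul]
    calc _ ≤ ε / B * (‖lam‖ * K) + ε / B * K * ‖lam‖ :=
          add_le_add (mul_le_mul a1 a4 (norm_nonneg _) (by positivity))
            (mul_le_mul a2 a3 (norm_nonneg _) (by positivity))
      _ = _ := by ring
  refine (norm_integral_le_of_norm_le_const (Eventually.of_forall e2)).trans ?_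
  have e3 : ε / B * (2 * K * ‖lam‖) * m.real univ ≤ ε := by
    rw [div_mul_eq_mul_div, div_mul_eq_mul_div, div_le_iff₀ hB0]
    have : 2 * K * ‖lam‖ * m.real univ ≤ B := by rw [hB]; linarith
    calc ε * (2 * K * ‖lam‖) * m.real univ = ε * (2 * K * ‖lam‖ * m.real univ) := by ring
      _ ≤ ε * B := mul_le_mul_of_nonneg_left this hε.le
  exact e3

/-- `C¹` test functions with compact support in the base direction only. -/
theorem clo_base (h : BoxCur μ β c R ρ K m X Y) (lam : CC →L[ℝ] ℝ) {Φ : CC → ℝ}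
    (hΦ : ContDiff ℝ 1 Φ) (hT : ∃ T ⊆ ball c R, IsCompact T ∧ ∀ p : CC, p.1 ∉ T → Φ p = 0) :
    ∫ p, br lam Φ X Y p ∂m = 0 := by
  obtain ⟨T, hTs, hTc, hT0⟩ := hT
  let χ : ContDiffBump (0 : ℂ) := ⟨|ρ| + 1, |ρ| + 2, by positivity, by linarith⟩
  have hχ : ContDiff ℝ 1 (fun p : CC => χ p.2) := χ.contDiff.comp contDiff_snd
  have hΨ : ContDiff ℝ 1 (fun p : CC => Φ p * χ p.2) := hΦ.mul hχ
  have hsupp : ∀ p : CC, p ∉ T ×ˢ closedBall (0 : ℂ) (|ρ| + 2) → Φ p * χ p.2 = 0 := by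
    intro p hp
    by_cases h1 : p.1 ∈ T
    · have h2 : p.2 ∉ closedBall (0 : ℂ) (|ρ| + 2) := fun h2 => hp ⟨h1, h2⟩
      rw [χ.zero_of_le_dist (by rw [mem_closedBall, not_le] at h2; exact h2.le), mul_zero]
    · rw [hT0 p h1, zero_mul]
  have hcpt : IsCompact (T ×ˢ closedBall (0 : ℂ) (|ρ| + 2)) := hTc.prod (isCompact_closedBall _ _)
  have hcs : HasCompactSupport (fun p : CC => Φ p * χ p.2) :=
    HasCompactSupport.intro hcpt hsupp
  have hts : tsupport (fun p : CC => Φ p * χ p.2) ⊆ (ball c R) ×ˢ univ := by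
    have h1 : tsupport (fun p : CC => Φ p * χ p.2) ⊆ T ×ˢ closedBall (0 : ℂ) (|ρ| + 2) :=
      closure_minimal (fun p hp => by
        by_contra h2
        exact hp (hsupp p h2)) hcpt.isClosed
    exact h1.trans (prod_mono hTs (subset_univ _))
  have h0 := clo_cs h lam hΨ hcs hts
  rw [← h0]
  refine integral_congr_ae ?_
  filter_upwards [h.supp] with p hp
  have h1 : (fun q : CC => Φ q * χ q.2) =ᶠ[𝓝 p] Φ := by
    have h2 : {q : CC | ‖q.2‖ < |ρ| + 1} ∈ 𝓝 p := by
      refine (isOpen_lt (continuous_norm.comp continuous_snd) continuous_const).mem_nhds ?_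
      have := le_abs_self ρ
      show ‖p.2‖ < |ρ| + 1
      linarith [hp.2]
    filter_upwards [h2] with q hq
    rw [χ.one_of_mem_closedBall (by rw [mem_closedBall_zero_iff]; exact (show ‖q.2‖ < |ρ| + 1 from hq).le),
      mul_one]
  simp only [br, h1.fderiv_eq]

/-- **task 278**: the closedness identities. -/
theorem clo : CLO := by
  intro μ β κ L hb c R ρ K m X Y h Φ hΦ hT
  have key : ∀ lam : CC →L[ℝ] ℝ, ∫ p, br lam Φ X Y p ∂m = 0 := fun lam => clo_base h lam hΦ hT
  refine ⟨?_, ?_, ?_, ?_⟩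
  · rw [← key (imCLM.comp (ContinuousLinearMap.fst ℝ ℂ ℂ))]
    refine integral_congr_ae (Eventually.of_forall fun p => ?_)
    simp only [br, V1, map_sub, map_smul, smul_eq_mul, ContinuousLinearMap.comp_apply,
      ContinuousLinearMap.coe_fst', imCLM_apply]
    ring
  · rw [← neg_zero, ← key (reCLM.comp (ContinuousLinearMap.fst ℝ ℂ ℂ)), ← integral_neg]
    refine integral_congr_ae (Eventually.of_forall fun p => ?_)
    simp only [br, VI, map_sub, map_smul, smul_eq_mul, ContinuousLinearMap.comp_apply,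
      ContinuousLinearMap.coe_fst', reCLM_apply]
    ring
  · rw [← key (imCLM.comp (ContinuousLinearMap.snd ℝ ℂ ℂ))]
    refine integral_congr_ae (Eventually.of_forall fun p => ?_)
    simp only [br, V1, VI, kk, ContinuousLinearMap.comp_apply, ContinuousLinearMap.coe_snd',
      imCLM_apply, Prod.snd_sub, Prod.smul_snd, sub_im, smul_im, smul_eq_mul]
    rw [cov (fderiv ℝ Φ p) (X p), cov (fderiv ℝ Φ p) (Y p)]
    ring
  · rw [← key (reCLM.comp (ContinuousLinearMap.snd ℝ ℂ ℂ))]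
    refine integral_congr_ae (Eventually.of_forall fun p => ?_)
    simp only [br, V1, VI, kk, ContinuousLinearMap.comp_apply, ContinuousLinearMap.coe_snd',
      reCLM_apply, Prod.snd_sub, Prod.smul_snd, sub_re, smul_re, smul_eq_mul]
    rw [cov (fderiv ℝ Φ p) (X p), cov (fderiv ℝ Φ p) (Y p)]
    ring

end

end

end Crest.Agent.R235.CylClo_344
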