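import Crest.Agent.R235.CylDef_607

/-!
Row 235 (S0364), REG-CYL leaf C1 (helper128): near a flat point the support of a box current lies
in a thin cone around the tangent plane.
-/

set_option autoImplicit false

open MeasureTheory Metric Set Filter Complex
open scoped ContDiff Topology

namespace Crest.Agent.R235.CylCone_128

open Crest.Agent.R235.Cyl Crest.Agent.R235.Loc

noncomputable section

/-- `hh` as a continuous bilinear form. -/
def hhL : CC →L[ℝ] CC →L[ℝ] ℝ :=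
  (reCLM.comp (ContinuousLinearMap.fst ℝ ℂ ℂ)).smulRight
      (imCLM.comp (ContinuousLinearMap.fst ℝ ℂ ℂ)) -
    (imCLM.comp (ContinuousLinearMap.fst ℝ ℂ ℂ)).smulRight
      (reCLM.comp (ContinuousLinearMap.fst ℝ ℂ ℂ))

/-- `kk` as a continuous bilinear form. -/
def kkL : CC →L[ℝ] CC →L[ℝ] ℝ :=
  (reCLM.comp (ContinuousLinearMap.snd ℝ ℂ ℂ)).smulRight
      (imCLM.comp (ContinuousLinearMap.snd ℝ ℂ ℂ)) -
    (imCLM.comp (ContinuousLinearMap.snd ℝ ℂ ℂ)).smulRight
      (reCLM.comp (ContinuousLinearMap.snd ℝ ℂ ℂ))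

theorem hhL_apply (X Y : CC) : hhL X Y = hh X Y := by
  simp [hhL, hh]
  ring

theorem kkL_apply (X Y : CC) : kkL X Y = kk X Y := by
  simp [kkL, kk]
  ring

/-- the constant form `du ∧ dv + C₀ dx ∧ dy`. -/
def om (C₀ : ℝ) : CC →L[ℝ] CC →L[ℝ] ℝ := kkL + C₀ • hhL

theorem om_apply (C₀ : ℝ) (X Y : CC) : om C₀ X Y = kk X Y + C₀ * hh X Y := by
  simp [om, hhL_apply, kkL_apply]

theorem om_self (C₀ : ℝ) (X : CC) : om C₀ X X = 0 := by
  rw [om_apply]; simp only [kk, hh]; ring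

theorem om_cont (C₀ : ℝ) : Continuous fun z : CC × CC => om C₀ z.1 z.2 := by
  simp only [om_apply, kk, hh]; fun_prop

theorem om_bound (C₀ K : ℝ) (X Y : CC) (hX : ‖X‖ = 1) (hY : ‖Y‖ ≤ K) :
    ‖om C₀ X Y‖ ≤ ‖om C₀‖ * K := by
  have h := (om C₀).le_opNorm₂ X Y
  rw [hX, mul_one] at h
  exact h.trans (mul_le_mul_of_nonneg_left hY (ContinuousLinearMap.opNorm_nonneg _))

attribute [irreducible] om

/-- the cut-off at `y` of radius `s`: one on `ball y (s/4)`, zero off `ball y (s/2)`. -/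
def cut (y : CC) (s : ℝ) (v : CC) : ℝ := max 0 (min 1 (2 - (4 / s) * dist v y))

theorem cut_cont (y : CC) (s : ℝ) : Continuous (cut y s) := by
  unfold cut; fun_prop

theorem cut_nonneg (y : CC) (s : ℝ) (v : CC) : 0 ≤ cut y s v := le_max_left _ _

theorem cut_le (y : CC) (s : ℝ) (v : CC) : cut y s v ≤ 1 :=
  max_le zero_le_one (min_le_left _ _)

theorem cut_one {y : CC} {s : ℝ} (hs : 0 < s) {v : CC} (h : dist v y ≤ s / 4) :
    cut y s v = 1 := by
  unfold cut
  have : (4 / s) * dist v y ≤ 1 := by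
    rw [div_mul_eq_mul_div, div_le_one hs]; linarith
  rw [min_eq_left (by linarith)]
  simp

theorem cut_zero {y : CC} {s : ℝ} (hs : 0 < s) {v : CC} (h : s / 2 ≤ dist v y) :
    cut y s v = 0 := by
  unfold cut
  have : 2 ≤ (4 / s) * dist v y := by
    rw [div_mul_eq_mul_div, le_div_iff₀ hs]; linarith
  rw [max_eq_left]
  exact (min_le_right _ _).trans (by linarith)

theorem cut_supp (y : CC) {s : ℝ} (hs : 0 < s) : HasCompactSupport (cut y s) := by
  apply HasCompactSupport.of_support_subset_isCompact (isCompact_closedBall y (s / 2))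
  intro v hv
  by_contra h
  rw [mem_closedBall, not_le] at h
  exact hv (cut_zero hs h.le)

/-- the test form. -/
def gf (C₀ : ℝ) (y : CC) (s : ℝ) (v : CC) : CC →L[ℝ] CC →L[ℝ] ℝ := cut y s v • om C₀

theorem gf_apply (C₀ : ℝ) (y : CC) (s : ℝ) (v X Y : CC) :
    gf C₀ y s v X Y = cut y s v * om C₀ X Y := rfl

theorem gf_cont (C₀ : ℝ) (y : CC) (s : ℝ) : Continuous (gf C₀ y s) :=
  (cut_cont y s).smul continuous_const

theorem gf_supp (C₀ : ℝ) (y : CC) {s : ℝ} (hs : 0 < s) : HasCompactSupport (gf C₀ y s) := by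
  apply HasCompactSupport.of_support_subset_isCompact (isCompact_closedBall y (s / 2))
  intro v hv
  by_contra h
  rw [mem_closedBall, not_le] at h
  apply hv
  refine ContinuousLinearMap.ext fun X => ContinuousLinearMap.ext fun Y => ?_
  rw [gf_apply, cut_zero hs h.le, zero_mul]
  rfl

attribute [irreducible] gf

/-- the positive lower bound at one scale. -/
theorem lower (h0 : ALG0) {μ β : CC → ℂ} {κ L : ℝ} (hb : SBox μ β κ L) {c : ℂ} {R ρ K : ℝ}
    {m : Measure CC} {X Y : CC → CC} (hc : BoxCur μ β c R ρ K m X Y) :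
    ∃ C₀ c₀ : ℝ, 0 < c₀ ∧ ∀ (p y : CC) (s r : ℝ), 0 < s → 0 < r → ∀ q : CC,
      dist (r⁻¹ • (q - p)) y < s / 8 →
      c₀ * m.real (ball q (s * r / 8)) ≤
        ∫ x, gf C₀ y s (r⁻¹ • (x - p)) (X x) (Y x) ∂m := by
  obtain ⟨C₀, c₀, hc0, hC0, H⟩ := h0 κ L K hb.box.κ0 hb.box.κ1 hb.box.L0
  refine ⟨C₀, c₀, hc0, ?_⟩
  intro p y s r hs hr q hq
  have := hc.fin
  have hom : ∀ x, c₀ ≤ om C₀ (X x) (Y x) := by
    intro x
    have := H μ β hb x (X x) (Y x) (hc.nX x) (hc.nY x) (hc.jz x) (hc.jw x)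
    rw [om_apply]; exact this.2.2.2.1
  have homb : ∀ x, ‖om C₀ (X x) (Y x)‖ ≤ ‖om C₀‖ * K := fun x =>
    om_bound C₀ K _ _ (hc.nX x) (hc.nY x)
  have h3 : Measurable fun x : CC => cut y s (r⁻¹ • (x - p)) :=
    ((cut_cont y s).comp (by fun_prop)).measurable
  have h1 : Measurable fun x => om C₀ (X x) (Y x) :=
    (om_cont C₀).measurable.comp (hc.mX.prodMk hc.mY)
  simp only [gf_apply]
  have hint : Integrable (fun x => cut y s (r⁻¹ • (x - p)) * om C₀ (X x) (Y x)) m := by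
    refine Integrable.of_bound (h3.mul h1).aestronglyMeasurable (‖om C₀‖ * K) (ae_of_all _ ?_)
    intro x
    rw [norm_mul]
    calc ‖cut y s (r⁻¹ • (x - p))‖ * ‖om C₀ (X x) (Y x)‖ ≤ 1 * (‖om C₀‖ * K) := by
          refine mul_le_mul ?_ (homb x) (norm_nonneg _) zero_le_one
          rw [Real.norm_eq_abs, abs_of_nonneg (cut_nonneg _ _ _)]; exact cut_le _ _ _
      _ = _ := by ring
  have hsub : ∀ x ∈ ball q (s * r / 8), cut y s (r⁻¹ • (x - p)) = 1 := by
    intro x hx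
    apply cut_one hs
    have h1 : dist (r⁻¹ • (x - p)) (r⁻¹ • (q - p)) ≤ s / 8 := by
      rw [dist_smul₀, dist_sub_right, Real.norm_eq_abs, abs_of_pos (inv_pos.2 hr)]
      have := (mem_ball.1 hx).le
      calc r⁻¹ * dist x q ≤ r⁻¹ * (s * r / 8) := by gcongr
        _ = s / 8 := by field_simp
    have := dist_triangle (r⁻¹ • (x - p)) (r⁻¹ • (q - p)) y
    linarith
  calc c₀ * m.real (ball q (s * r / 8)) = ∫ x in ball q (s * r / 8), c₀ ∂m := by
        rw [setIntegral_const, smul_eq_mul, mul_comm]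
    _ ≤ ∫ x in ball q (s * r / 8), cut y s (r⁻¹ • (x - p)) * om C₀ (X x) (Y x) ∂m := by
        apply setIntegral_mono_on
        · exact (integrable_const c₀).integrableOn
        · exact hint.integrableOn
        · exact measurableSet_ball
        · intro x hx
          rw [hsub x hx, one_mul]
          exact hom x
    _ ≤ _ := by
        apply setIntegral_le_integral hint
        refine ae_of_all _ fun x => ?_
        exact mul_nonneg (cut_nonneg _ _ _) (hc0.le.trans (hom x))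

theorem cone (h0 : ALG0) : CONE := by
  intro μ β κ L hb c R ρ K m X Y hc p hp _ hflat ε hε
  by_contra hcon
  push Not at hcon
  obtain ⟨C₀, c₀, hc0, hlow⟩ := lower h0 hb hc
  -- the bad sequence
  have hex : ∀ n : ℕ, ∃ q : CC, InSupp m q ∧ dist q p < 1 / ((n : ℝ) + 1) ∧
      ∀ ζ : ℂ, ε * ‖q - p‖ < ‖q - p - (ζ.re • X p + ζ.im • Y p)‖ := by
    intro n
    obtain ⟨q, h1, h2, h3⟩ := hcon (1 / ((n : ℝ) + 1)) (by positivity)
    exact ⟨q, h1, h2, h3⟩
  choose q hqs hqd hqf using hex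
  have hne : ∀ n, q n - p ≠ 0 := by
    intro n h
    have := hqf n 0
    simp [h] at this
  have hr0 : ∀ n, 0 < ‖q n - p‖ := fun n => norm_pos_iff.2 (hne n)
  set r : ℕ → ℝ := fun n => ‖q n - p‖ with hr
  set y : ℕ → CC := fun n => (r n)⁻¹ • (q n - p) with hy
  have hy1 : ∀ n, y n ∈ sphere (0 : CC) 1 := by
    intro n
    rw [mem_sphere_zero_iff_norm, hy]
    simp only [norm_smul, norm_inv, Real.norm_eq_abs, abs_norm, hr]
    exact inv_mul_cancel₀ (hr0 n).ne'
  obtain ⟨y₀, -, φ, hφ, hlim⟩ := (isCompact_sphere (0 : CC) 1).tendsto_subseq hy1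
  have hyf : ∀ n, ∀ ζ : ℂ, ε ≤ ‖y n - (ζ.re • X p + ζ.im • Y p)‖ := by
    intro n ζ
    have h1 := hqf n ((r n : ℂ) * ζ)
    have h2 : q n - p - ((((r n : ℂ) * ζ)).re • X p + (((r n : ℂ) * ζ)).im • Y p) =
        (r n) • (y n - (ζ.re • X p + ζ.im • Y p)) := by
      have h3 : (r n) • y n = q n - p := by
        rw [hy]; simp only [smul_smul]
        rw [mul_inv_cancel₀ (hr0 n).ne', one_smul]
      rw [smul_sub, h3, smul_add, smul_smul, smul_smul]
      simp
    rw [h2, norm_smul, Real.norm_eq_abs, abs_of_pos (hr0 n), mul_comm ε] at h1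
    exact (lt_of_mul_lt_mul_left h1 (hr0 n).le).le
  have hyf0 : ∀ ζ : ℂ, ε ≤ ‖y₀ - (ζ.re • X p + ζ.im • Y p)‖ := by
    intro ζ
    refine ge_of_tendsto ((hlim.sub_const (ζ.re • X p + ζ.im • Y p)).norm) ?_
    exact Eventually.of_forall fun n => hyf (φ n) ζ
  -- the test form
  have hfl := hflat (gf C₀ y₀ ε) (gf_cont C₀ y₀ ε) (gf_supp C₀ y₀ hε)
    (by intro q v; rw [gf_apply, om_self, mul_zero])
  have hz : ∫ ζ : ℂ, gf C₀ y₀ ε (ζ.re • X p + ζ.im • Y p) (X p) (Y p) = 0 := by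
    have : ∀ ζ : ℂ, gf C₀ y₀ ε (ζ.re • X p + ζ.im • Y p) (X p) (Y p) = 0 := by
      intro ζ
      rw [gf_apply, cut_zero hε, zero_mul]
      rw [dist_comm, dist_eq_norm]
      linarith [hyf0 ζ]
    simp only [this, integral_zero]
  rw [hz] at hfl
  -- the radii
  have hrt : Tendsto r atTop (𝓝 0) := by
    refine squeeze_zero (fun n => (hr0 n).le) (fun n => ?_) tendsto_one_div_add_atTop_nhds_zero_nat
    have := (hqd n).le
    rwa [dist_eq_norm] at this
  have hrt' : Tendsto (r ∘ φ) atTop (𝓝[>] 0) :=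
    tendsto_nhdsWithin_iff.2 ⟨hrt.comp hφ.tendsto_atTop, Eventually.of_forall fun n => hr0 _⟩
  have hfl' := hfl.comp hrt'
  -- lower density
  have hpc : dist p.1 c < R := mem_ball.1 hp
  obtain ⟨c₁, hc1, r₀, hr₀, hlowm⟩ := hc.low ((dist p.1 c + R) / 2) (by linarith)
  have hev : ∀ᶠ n in atTop, c₀ * (c₁ * (ε / 8) ^ 2) ≤
      ((fun r : ℝ => (r ^ 2)⁻¹ *
        ∫ x, gf C₀ y₀ ε (r⁻¹ • (x - p)) (X x) (Y x) ∂m) ∘ (r ∘ φ)) n := by
    have e1 : ∀ᶠ n in atTop, dist (y (φ n)) y₀ < ε / 8 :=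
      (tendsto_iff_dist_tendsto_zero.1 hlim).eventually_lt_const (by positivity)
    have e2 : ∀ᶠ n in atTop, r (φ n) < (R - dist p.1 c) / 2 :=
      (hrt.comp hφ.tendsto_atTop).eventually_lt_const (by linarith)
    have e3 : ∀ᶠ n in atTop, r (φ n) < 8 * r₀ / ε :=
      (hrt.comp hφ.tendsto_atTop).eventually_lt_const (by positivity)
    filter_upwards [e1, e2, e3] with n h1 h2 h3
    have hb1 := hlow p y₀ ε (r (φ n)) hε (hr0 _) (q (φ n)) h1
    have hcl : (q (φ n)).1 ∈ closedBall c ((dist p.1 c + R) / 2) := by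
      rw [mem_closedBall]
      have h4 : dist (q (φ n)).1 p.1 ≤ r (φ n) := by
        rw [dist_eq_norm]; exact norm_fst_le (q (φ n) - p)
      have := dist_triangle (q (φ n)).1 p.1 c
      linarith
    have hrr : ε * r (φ n) / 8 ≤ r₀ := by
      rw [lt_div_iff₀ hε] at h3; linarith
    have hb2 := hlowm (q (φ n)) hcl (hqs _) (ε * r (φ n) / 8)
      (by have := hr0 (φ n); positivity) hrr
    have hrp := hr0 (φ n)
    change _ ≤ (r (φ n) ^ 2)⁻¹ * _
    rw [inv_mul_eq_div, le_div_iff₀ (by positivity)]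
    refine le_trans ?_ hb1
    have : c₀ * (c₁ * (ε * r (φ n) / 8) ^ 2) ≤ c₀ * m.real (ball (q (φ n)) (ε * r (φ n) / 8)) := by
      gcongr
    refine le_trans (le_of_eq ?_) this
    ring
  have := ge_of_tendsto hfl' hev
  have hpos : 0 < c₀ * (c₁ * (ε / 8) ^ 2) := by positivity
  linarith

end

end Crest.Agent.R235.CylCone_128
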