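import Crest.Agent.R235.NWDefs_334

/-!
# Row 235, PACKAGE NW (helper334): interface Props between the leaves

* `C1a.f`, `C1a.d`      : the function and its derivative
* `CauchyStmt`          : leaf K, vector valued Cauchy transform as a CLM `Hol → C1a`
* `Sol`, `NStmt`        : leaf N, smooth solution operator of `w = h + T (κ (A(q,w)(Dw(1+M)) + b(q,w))
                          - ∂̄(Dw M))`
* `FamStmt`             : leaf H2, smooth families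
* `JStmt`               : leaf J, reduction of `J`-holomorphy to `∂̄u = A(u) ∂u`
-/

set_option autoImplicit false

open Set Filter Metric Topology MeasureTheory
open scoped ContDiff Real

namespace Crest.Agent.R235.NWIface_334

open Crest.Agent.R235.NWDefs_334

noncomputable section

section
variable {a : ℝ} {G E : Type*} [NormedAddCommGroup G] [NormedSpace ℝ G] [NormedAddCommGroup E]
  [NormedSpace ℝ E]

/-- the function underlying an element of `C1a` -/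
def C1f (u : C1a a G E) : G → E := Hol.fn u.1.1

/-- its derivative -/
def C1d (u : C1a a G E) : G → G →L[ℝ] E := Hol.fn u.1.2

end

/-- **leaf K**: `T g = P (χ g)` -/
def CauchyStmt : Prop := ∀ (E : Type) [NormedAddCommGroup E] [NormedSpace ℂ E]
  [FiniteDimensional ℂ E] (a : ℝ), 0 < a → a < 1 → ∀ χ : ℂ → ℝ, ContDiff ℝ ∞ χ →
    HasCompactSupport χ → ∃ T : Hol a ℂ E →L[ℝ] C1a a ℂ E, ∀ g : Hol a ℂ E,
      (∀ z, dbl (C1d (T g) z) = χ z • Hol.fn g z) ∧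
      Tendsto (C1f (T g)) (cocompact ℂ) (𝓝 0)

section N

variable {E P : Type} [NormedAddCommGroup E] [NormedSpace ℂ E] [NormedAddCommGroup P]
  [NormedSpace ℝ P]

/-- `C²` smallness -/
def Small {X Y : Type*} [NormedAddCommGroup X] [NormedSpace ℝ X] [NormedAddCommGroup Y]
    [NormedSpace ℝ Y] (η : ℝ) (A : X → Y) : Prop :=
  ∀ x, ‖A x‖ ≤ η ∧ ‖fderiv ℝ A x‖ ≤ η ∧ ‖fderiv ℝ (fderiv ℝ A) x‖ ≤ η

/-- parameters: cut-off `κ`, coefficient argument `q`, change of variables `1 + M` -/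
abbrev Par (a : ℝ) (P : Type) [NormedAddCommGroup P] [NormedSpace ℝ P] : Type :=
  Hol a ℂ ℝ × Hol a ℂ P × Hol a ℂ (ℂ →L[ℝ] ℂ)

/-- the right hand side at one point: `κ (A(q,x)(L(1+M)) + b(q,x)) - ∂̄(L M)` -/
def rhs (A : P × E → (ℂ →L[ℝ] E) →L[ℝ] E) (b : P × E → E) (κ : ℝ) (q : P) (M : ℂ →L[ℝ] ℂ)
    (x : E) (L : ℂ →L[ℝ] E) : E :=
  κ • (A (q, x) (L.comp (ContinuousLinearMap.id ℝ ℂ + M)) + b (q, x)) - dbl (L.comp M)

/-- `w = h + T (rhs)` -/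
def Sol {a : ℝ} (T : Hol a ℂ E →L[ℝ] C1a a ℂ E) (A : P × E → (ℂ →L[ℝ] E) →L[ℝ] E)
    (b : P × E → E) (k : Par a P) (h w : C1a a ℂ E) : Prop :=
  ∃ g : Hol a ℂ E, (∀ z, Hol.fn g z =
    rhs A b (Hol.fn k.1 z) (Hol.fn k.2.1 z) (Hol.fn k.2.2 z) (C1f w z) (C1d w z)) ∧ w = h + T g

/-- the domain of the solution operator -/
def Dom (a : ℝ) (E P : Type) [NormedAddCommGroup E] [NormedSpace ℂ E] [NormedAddCommGroup P]
    [NormedSpace ℝ P] (K R η : ℝ) : Set (Par a P × C1a a ℂ E) :=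
  {p | ‖p.1.1‖ < K ∧ ‖p.1.2.1‖ < K ∧ ‖p.1.2.2‖ < η ∧ ‖p.2‖ < R}

end N

/-- **leaf N**: smooth solution operator -/
def NStmt : Prop := ∀ (E P : Type) [NormedAddCommGroup E] [NormedSpace ℂ E]
  [FiniteDimensional ℂ E] [NormedAddCommGroup P] [NormedSpace ℝ P] [FiniteDimensional ℝ P]
  (a : ℝ), 0 < a → a < 1 → ∀ (T : Hol a ℂ E →L[ℝ] C1a a ℂ E) (K R ε : ℝ), 0 < K → 0 < R → 0 < ε →
  ∃ η : ℝ, 0 < η ∧ ∀ (A : P × E → (ℂ →L[ℝ] E) →L[ℝ] E) (b : P × E → E), BD A → BD b →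
    Small η A → Small η b → ∃ Φ : Par a P × C1a a ℂ E → C1a a ℂ E,
      ContDiffOn ℝ ∞ Φ (Dom a E P K R η) ∧
      ∀ k h, (k, h) ∈ Dom a E P K R η →
        Sol T A b k h (Φ (k, h)) ∧ ‖Φ (k, h) - h‖ ≤ ε ∧
        (∀ c, ‖fderiv ℝ Φ (k, h) (0, c) - c‖ ≤ ε * ‖c‖) ∧
        ∀ w, ‖w‖ < 2 * R + 1 → Sol T A b k h w → w = Φ (k, h)

/-- **leaf H2**, smooth families (`G` = `ℂ`) -/
def FamStmt : Prop := ∀ (S E : Type) [NormedAddCommGroup S] [NormedSpace ℝ S]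
  [FiniteDimensional ℝ S] [NormedAddCommGroup E] [NormedSpace ℝ E] [FiniteDimensional ℝ E]
  (a : ℝ), 0 < a → a < 1 → ∀ (H : S × ℂ → E) (R : ℝ), ContDiff ℝ ∞ H →
    (∀ s z, R ≤ ‖z‖ → H (s, z) = 0) →
    ∃ c : S → C1a a ℂ E, ContDiff ℝ ∞ c ∧ ∀ s z, C1f (c s) z = H (s, z)

/-- **leaf J**: `J`-holomorphy at scale `R` is `∂̄u = A(u) ∂u` with `A` small in `C²`. -/
def JStmt : Prop := ∀ (E : Type) [NormedAddCommGroup E] [NormedSpace ℂ E]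
  [FiniteDimensional ℂ E] (J : E → E →L[ℝ] E) (r : ℝ), ACS J r → ∀ B η : ℝ, 0 < B → 0 < η →
  ∃ R0 : ℝ, 0 < R0 ∧ R0 * B < r ∧ ∀ R : ℝ, 0 < R → R ≤ R0 → ∃ A : E → E →L[ℝ] E,
    BD A ∧ Small η A ∧ ∀ x : E, ‖x‖ ≤ B → ∀ L : ℂ →L[ℝ] E,
      (dbl L = A x (dl L) ↔ ∀ v : ℂ, L (Complex.I * v) = J (R • x) (L v))

/-- weak (`W^{1,2}`) derivative data on the disc of radius `r`: `f` continuous, `p = ∂f`,
`q = ∂̄f` square integrable. -/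
structure WD {E : Type} [NormedAddCommGroup E] [NormedSpace ℂ E] (f p q : ℂ → E) (r : ℝ) : Prop where
  cont : ContinuousOn f (ball 0 r)
  memp : MemLp p 2 (volume.restrict (ball 0 r))
  memq : MemLp q 2 (volume.restrict (ball 0 r))
  weak : ∀ φ : ℂ → ℂ, ContDiff ℝ ∞ φ → HasCompactSupport φ → tsupport φ ⊆ ball 0 r →
    (∫ z, dz φ z • f z = - ∫ z, φ z • p z) ∧ (∫ z, dzb φ z • f z = - ∫ z, φ z • q z)

/-- **leaf R1**: Hölder `W^{1,2}` solutions of `∂̄w = B(z,w)(∂w) + b(z,w)` are `C^{1,a}` near the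
centre if `B` vanishes there (`b`, `B` of class `C¹`). -/
def Reg1Stmt : Prop := ∀ (E : Type) [NormedAddCommGroup E] [NormedSpace ℂ E]
  [FiniteDimensional ℂ E] (a : ℝ), 0 < a → a < 1 →
  ∀ (B : ℂ × E → E →L[ℝ] E) (b : ℂ × E → E), ContDiff ℝ 1 B → ContDiff ℝ 1 b →
  ∀ (f p q : ℂ → E) (r C : ℝ), 0 < r → WD f p q r →
    (∀ x ∈ ball (0 : ℂ) r, ∀ y ∈ ball (0 : ℂ) r, ‖f x - f y‖ ≤ C * dist x y ^ a) →
    (∀ᵐ z, z ∈ ball (0 : ℂ) r → q z = B (z, f z) (p z) + b (z, f z)) →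
    B (0, f 0) = 0 → ∃ r' > 0, ∃ F : C1a a ℂ E, ∀ z ∈ ball (0 : ℂ) r', C1f F z = f z

/-- **leaf R2**: `C^{1,a}` solutions of `∂̄w = B(z,w)(∂w) + b(z,w)` are smooth near the centre if
`B` vanishes there. -/
def Reg2Stmt : Prop := ∀ (E : Type) [NormedAddCommGroup E] [NormedSpace ℂ E]
  [FiniteDimensional ℂ E] (a : ℝ), 0 < a → a < 1 →
  ∀ (B : ℂ × E → E →L[ℝ] E) (b : ℂ × E → E), ContDiff ℝ ∞ B → ContDiff ℝ ∞ b →
  ∀ (F : C1a a ℂ E) (r : ℝ), 0 < r →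
    (∀ z ∈ ball (0 : ℂ) r, dbl (C1d F z) = B (z, C1f F z) (dl (C1d F z)) + b (z, C1f F z)) →
    B (0, C1f F 0) = 0 → ∃ r' > 0, ContDiffOn ℝ ∞ (C1f F) (ball 0 r')

/-- **leaf BEL**: Beltrami coordinate for a small Hölder coefficient. -/
def BelStmt : Prop := ∀ (a : ℝ), 0 < a → a < 1 → ∀ r ε : ℝ, 0 < r → 0 < ε → ∃ η : ℝ, 0 < η ∧
  ∀ μ : ℂ → ℂ, HB a η μ → ∃ χ : ℂ → ℂ, ContDiff ℝ 1 χ ∧
    (∀ z ∈ ball (0 : ℂ) r, dzb χ z = μ z * dz χ z) ∧ (∀ z, ‖χ z - z‖ ≤ ε) ∧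
    HB a ε (fun z => fderiv ℝ χ z - ContinuousLinearMap.id ℝ ℂ)

end

end Crest.Agent.R235.NWIface_334
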