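import Crest.Agent.R235.LocDef_607
import Crest.Agent.R235.NWIface_334

/-!
Row 235 (S0364), PACKAGE REG, sub-block CYL (helper607): definitions and frozen statements.
From a closed positive `J`-current in a box (`BoxCur`) to a `k`-valued graph (`Loc.KG`).
Proof text: posts row 235 #1626 (helper522, A2-A6) and #1748 (helper607, C0-C17).

`ℂ × ℂ` = base × fibre, `θ_z = dz + μ dz̄`, `θ_w = dw + β dz̄` are the (1,0)-forms of `J`.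
-/

set_option autoImplicit false

open MeasureTheory Metric Set Filter Complex
open scoped ContDiff Topology

namespace Crest.Agent.R235.Cyl

open Crest.Agent.R235.Loc

noncomputable section

/-- the ambient space of a box: base × fibre -/
abbrev CC : Type := ℂ × ℂ

/-- smooth bounded box coefficients. -/
structure SBox (μ β : CC → ℂ) (κ L : ℝ) : Prop where
  box : BoxD μ β κ L
  smμ : ContDiff ℝ ∞ μ
  smβ : ContDiff ℝ ∞ β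
  bβ : ∀ p, ‖β p‖ ≤ L

/-- `θ_z (X)` at `p`. -/
def thz (μ : CC → ℂ) (p X : CC) : ℂ := X.1 + μ p * (starRingEnd ℂ) X.1

/-- `θ_w (X)` at `p`. -/
def thw (β : CC → ℂ) (p X : CC) : ℂ := X.2 + β p * (starRingEnd ℂ) X.1

/-- `(dx ∧ dy)(X, Y)`, the horizontal density. -/
def hh (X Y : CC) : ℝ := X.1.re * Y.1.im - Y.1.re * X.1.im

/-- `(du ∧ dv)(X, Y)`, `w = u + i v`. -/
def kk (X Y : CC) : ℝ := X.2.re * Y.2.im - Y.2.re * X.2.im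

/-- `(dΦ ∧ dy)(X, Y) = dΦ (V1 X Y)`; its first component is `hh X Y`. -/
def V1 (X Y : CC) : CC := Y.1.im • X - X.1.im • Y

/-- `(dx ∧ dΦ)(X, Y) = dΦ (VI X Y)`; its first component is `i hh X Y`. -/
def VI (X Y : CC) : CC := X.1.re • Y - Y.1.re • X

/-- the slope of the plane spanned by `X, Y` (if it is not vertical): the plane is the graph of
the real linear map `slo X Y`. -/
def slo (X Y : CC) : ℂ →L[ℝ] ℂ :=
  (hh X Y)⁻¹ • (reCLM.smulRight (V1 X Y).2 + imCLM.smulRight (VI X Y).2)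

/-- `p` is in the support of `m`. -/
def InSupp (m : Measure CC) (p : CC) : Prop := ∀ r > 0, 0 < m (ball p r)

/-- the fibre of the support over `z`. -/
def fib (m : Measure CC) (z : ℂ) : Set ℂ := {w | InSupp m (z, w)}

/-- the blow-ups at `p` converge to the plane spanned by `X p, Y p` with multiplicity one
(`2`-forms `g`: alternating). -/
def FlatAt (m : Measure CC) (X Y : CC → CC) (p : CC) : Prop :=
  ∀ g : CC → (CC →L[ℝ] CC →L[ℝ] ℝ), Continuous g → HasCompactSupport g → (∀ q v, g q v v = 0) →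
    Tendsto (fun r : ℝ => (r ^ 2)⁻¹ * ∫ q, g (r⁻¹ • (q - p)) (X q) (Y q) ∂m) (𝓝[>] 0)
      (𝓝 (∫ ζ : ℂ, g (ζ.re • X p + ζ.im • Y p) (X p) (Y p)))

/-- **a closed positive `J`-current of density one in the box `ball c R × closedBall 0 ρ`**:
`b ↦ ∫ b (X, Y) dm`, `Y = J X`, no mass near the vertical boundary. -/
structure BoxCur (μ β : CC → ℂ) (c : ℂ) (R ρ K : ℝ) (m : Measure CC) (X Y : CC → CC) : Prop where
  fin : IsFiniteMeasure m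
  mX : Measurable X
  mY : Measurable Y
  nX : ∀ p, ‖X p‖ = 1
  nY : ∀ p, ‖Y p‖ ≤ K
  jz : ∀ p, thz μ p (Y p) = I * thz μ p (X p)
  jw : ∀ p, thw β p (Y p) = I * thw β p (X p)
  supp : ∀ᵐ p ∂m, p.1 ∈ ball c R ∧ ‖p.2‖ ≤ ρ
  closed : ∀ l : CC → (CC →L[ℝ] ℝ), ContDiff ℝ ∞ l → HasCompactSupport l →
    tsupport l ⊆ (ball c R) ×ˢ univ →
    ∫ p, (fderiv ℝ l p (X p) (Y p) - fderiv ℝ l p (Y p) (X p)) ∂m = 0
  up : ∀ p r, 0 < r → m.real (closedBall p r) ≤ K * r ^ 2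
  low : ∀ R' < R, ∃ c₀ > 0, ∃ r₀ > 0, ∀ p : CC, p.1 ∈ closedBall c R' → InSupp m p →
    ∀ r, 0 < r → r ≤ r₀ → c₀ * r ^ 2 ≤ m.real (ball p r)
  flat : ∀ᵐ p ∂m, FlatAt m X Y p

/-- sum over the fibre of the support. -/
def FS (m : Measure CC) (Φ : CC → ℝ) (z : ℂ) : ℝ := ∑ᶠ w ∈ fib m z, Φ (z, w)

/-- energy density of the current over the base. -/
def en (m : Measure CC) (X Y : CC → CC) (z : ℂ) : ℝ := FS m (fun p => ‖slo (X p) (Y p)‖ ^ 2) z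

/-- the small cylinder `ball z r × ball w δ` carries degree one. -/
structure DegOne (m : Measure CC) (X Y : CC → CC) (z : ℂ) (r : ℝ) (w : ℂ) (δ : ℝ) : Prop where
  pos : 0 < r
  posδ : 0 < δ
  gap : ∀ q : CC, InSupp m q → q.1 ∈ closedBall z r → dist q.2 w ≤ δ → dist q.2 w < δ / 2
  deg : ∀ A : Set ℂ, MeasurableSet A → A ⊆ ball z r →
    ∫ q in A ×ˢ ball w δ, hh (X q) (Y q) ∂m = volume.real A

/-! ### the leaves -/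

/-- C0: pointwise algebra. -/
def ALG0 : Prop :=
  ∀ (κ L K : ℝ), 0 ≤ κ → κ < 1 → 0 ≤ L → ∃ C₀ c₀ : ℝ, 0 < c₀ ∧ 0 < C₀ ∧
  ∀ (μ β : CC → ℂ), SBox μ β κ L → ∀ (p X Y : CC), ‖X‖ = 1 → ‖Y‖ ≤ K →
    thz μ p Y = I * thz μ p X → thw β p Y = I * thw β p X →
    0 ≤ hh X Y ∧ hh X Y ≤ C₀ ∧ |kk X Y| ≤ C₀ ∧ c₀ ≤ kk X Y + C₀ * hh X Y ∧
    V1 X Y = (((hh X Y : ℝ) : ℂ), (V1 X Y).2) ∧ VI X Y = (I * ((hh X Y : ℝ) : ℂ), (VI X Y).2) ∧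
    ‖(V1 X Y).2‖ ^ 2 ≤ C₀ * hh X Y ∧ ‖(VI X Y).2‖ ^ 2 ≤ C₀ * hh X Y ∧
    ‖X.1‖ ^ 2 ≤ C₀ * hh X Y ∧ ‖Y.1‖ ^ 2 ≤ C₀ * hh X Y ∧
    (0 < hh X Y → lzb (slo X Y) = μ p * lz (slo X Y) - β p ∧
      ‖slo X Y‖ ^ 2 * hh X Y ≤ C₀)

/-- C0b: the three closedness identities, for `C¹` test functions, compact support in the base
direction only. -/
def CLO : Prop :=
  ∀ (μ β : CC → ℂ) (κ L : ℝ), SBox μ β κ L →
  ∀ (c : ℂ) (R ρ K : ℝ) (m : Measure CC) (X Y : CC → CC), BoxCur μ β c R ρ K m X Y →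
  ∀ Φ : CC → ℝ, ContDiff ℝ 1 Φ → (∃ T ⊆ ball c R, IsCompact T ∧ ∀ p : CC, p.1 ∉ T → Φ p = 0) →
    ∫ p, fderiv ℝ Φ p (V1 (X p) (Y p)) ∂m = 0 ∧
    ∫ p, fderiv ℝ Φ p (VI (X p) (Y p)) ∂m = 0 ∧
    ∫ p, (fderiv ℝ Φ p (1, 0) * (VI (X p) (Y p)).2.im - fderiv ℝ Φ p (I, 0) * (V1 (X p) (Y p)).2.im
      + fderiv ℝ Φ p (0, 1) * kk (X p) (Y p)) ∂m = 0 ∧
    ∫ p, (fderiv ℝ Φ p (1, 0) * (VI (X p) (Y p)).2.re - fderiv ℝ Φ p (I, 0) * (V1 (X p) (Y p)).2.re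
      - fderiv ℝ Φ p (0, I) * kk (X p) (Y p)) ∂m = 0

/-- C1: near a flat point the support is in a thin cone around the plane. -/
def CONE : Prop :=
  ∀ (μ β : CC → ℂ) (κ L : ℝ), SBox μ β κ L →
  ∀ (c : ℂ) (R ρ K : ℝ) (m : Measure CC) (X Y : CC → CC), BoxCur μ β c R ρ K m X Y →
  ∀ p : CC, p.1 ∈ ball c R → InSupp m p → FlatAt m X Y p → ∀ ε > 0, ∃ r₁ > 0, ∀ q : CC,
    InSupp m q → dist q p < r₁ → ∃ ζ : ℂ, ‖q - p - (ζ.re • X p + ζ.im • Y p)‖ ≤ ε * ‖q - p‖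

/-- C2: constancy. -/
def CONST : Prop :=
  ∀ (μ β : CC → ℂ) (κ L : ℝ), SBox μ β κ L →
  ∀ (c : ℂ) (R ρ K : ℝ) (m : Measure CC) (X Y : CC → CC), BoxCur μ β c R ρ K m X Y →
  ∀ (z : ℂ) (r : ℝ) (B : Set ℂ), 0 < r → closedBall z r ⊆ ball c R → IsOpen B →
    (∀ q : CC, InSupp m q → q.1 ∈ closedBall z r → q.2 ∉ frontier B) →
    ∃ d : ℝ, 0 ≤ d ∧ ∀ A : Set ℂ, MeasurableSet A → A ⊆ ball z r →
      ∫ q in A ×ˢ B, hh (X q) (Y q) ∂m = d * volume.real A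

/-- C3: small cylinders at flat non-vertical points have degree one. -/
def DEG1 : Prop :=
  ∀ (μ β : CC → ℂ) (κ L : ℝ), SBox μ β κ L →
  ∀ (c : ℂ) (R ρ K : ℝ) (m : Measure CC) (X Y : CC → CC), BoxCur μ β c R ρ K m X Y →
  ∀ p : CC, p.1 ∈ ball c R → InSupp m p → FlatAt m X Y p → 0 < hh (X p) (Y p) → ∀ ε > 0,
    ∃ r δ : ℝ, δ < ε ∧ r < ε ∧ DegOne m X Y p.1 r p.2 δ ∧ fib m p.1 ∩ closedBall p.2 δ = {p.2}

/-- C4: for almost every `z` all points of the support over `z` are flat and non-vertical, and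
finitely many. -/
def GOODZ : Prop :=
  ∀ (μ β : CC → ℂ) (κ L : ℝ), SBox μ β κ L →
  ∀ (c : ℂ) (R ρ K : ℝ) (m : Measure CC) (X Y : CC → CC), BoxCur μ β c R ρ K m X Y →
  ∀ᵐ z : ℂ, z ∈ ball c R → (fib m z).Finite ∧
    ∀ w ∈ fib m z, ‖w‖ ≤ ρ ∧ FlatAt m X Y (z, w) ∧ 0 < hh (X (z, w)) (Y (z, w))

/-- C6: over a small ball around almost every `z` the support splits into `k` cylinders of degree
one, `k` a constant. -/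
def SPLIT : Prop :=
  ∀ (μ β : CC → ℂ) (κ L : ℝ), SBox μ β κ L →
  ∀ (c : ℂ) (R ρ K : ℝ) (m : Measure CC) (X Y : CC → CC), BoxCur μ β c R ρ K m X Y → 0 < R →
  ∃ k : ℕ, ∀ᵐ z : ℂ, z ∈ ball c R → (fib m z).ncard = k ∧ (fib m z).Finite ∧
    ∀ ε > 0, ∃ r > 0, closedBall z r ⊆ ball c R ∧ (∀ w ∈ fib m z, ∃ δ : ℝ, δ < ε ∧
      DegOne m X Y z r w δ) ∧
      ∀ q : CC, InSupp m q → q.1 ∈ closedBall z r → ∃ w ∈ fib m z, dist q.2 w < ε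

/-- C6b: disintegration of the horizontal measure. -/
def DISI : Prop :=
  ∀ (μ β : CC → ℂ) (κ L : ℝ), SBox μ β κ L →
  ∀ (c : ℂ) (R ρ K : ℝ) (m : Measure CC) (X Y : CC → CC), BoxCur μ β c R ρ K m X Y →
  ∀ Φ : CC → ℝ, Measurable Φ → Integrable (fun p => Φ p * hh (X p) (Y p)) m →
    IntegrableOn (FS m Φ) (ball c R) ∧
    ∫ p, Φ p * hh (X p) (Y p) ∂m = ∫ z in ball c R, FS m Φ z

/-- C7: weak derivatives of the fibre sums, and integrability of the energy. -/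
def WEAK : Prop :=
  ∀ (μ β : CC → ℂ) (κ L : ℝ), SBox μ β κ L →
  ∀ (c : ℂ) (R ρ K : ℝ) (m : Measure CC) (X Y : CC → CC), BoxCur μ β c R ρ K m X Y →
  IntegrableOn (en m X Y) (ball c R) ∧
  ∀ Φ : CC → ℝ, ContDiff ℝ 1 Φ → ∀ f : ℂ → ℝ, ContDiff ℝ 1 f → HasCompactSupport f →
    tsupport f ⊆ ball c R → ∀ e : ℂ,
    IntegrableOn (fun z => f z * FS m (fun p => fderiv ℝ Φ p (e, slo (X p) (Y p) e)) z)
      (ball c R) ∧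
    ∫ z in ball c R, fderiv ℝ f z e * FS m Φ z =
      - ∫ z in ball c R, f z * FS m (fun p => fderiv ℝ Φ p (e, slo (X p) (Y p) e)) z

/-- C12: energy and mass decay (hole filling), uniform in the centre. -/
def DECAY : Prop :=
  ∀ (μ β : CC → ℂ) (κ L : ℝ), SBox μ β κ L →
  ∀ (c : ℂ) (R ρ K : ℝ) (m : Measure CC) (X Y : CC → CC), BoxCur μ β c R ρ K m X Y →
  ∀ R' < R, ∃ C b r₀ : ℝ, 0 ≤ C ∧ 0 < b ∧ b < 1 ∧ 0 < r₀ ∧ R' + r₀ < R ∧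
    ∀ z₀ ∈ closedBall c R', ∀ r : ℝ, 0 < r → r ≤ r₀ →
      m.real (closedBall z₀ r ×ˢ univ) ≤ C * r ^ (2 * b) ∧
      ∫ z in ball z₀ r, en m X Y z ≤ C * r ^ (2 * b)

/-- C13: Morrey: the fibre sums are Hoelder. -/
def MORR : Prop :=
  ∀ (μ β : CC → ℂ) (κ L : ℝ), SBox μ β κ L →
  ∀ (c : ℂ) (R ρ K : ℝ) (m : Measure CC) (X Y : CC → CC), BoxCur μ β c R ρ K m X Y →
  ∀ R' < R, ∃ C b : ℝ, 0 ≤ C ∧ 0 < b ∧ b < 1 ∧ ∃ G : Set ℂ, volume (ball c R' \ G) = 0 ∧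
    ∀ z ∈ G, ∀ z' ∈ G, z ∈ ball c R' → z' ∈ ball c R' →
      (fib m z).Finite ∧ (fib m z).ncard = (fib m z').ncard ∧
      ∀ φ : ℂ → ℝ, LipschitzWith 1 φ →
        |FS m (fun p => φ p.2) z - FS m (fun p => φ p.2) z'| ≤ C * dist z z' ^ b

/-- C14: the continuous representative. -/
def REPR : Prop :=
  ∀ (μ β : CC → ℂ) (κ L : ℝ), SBox μ β κ L →
  ∀ (c : ℂ) (R ρ K : ℝ) (m : Measure CC) (X Y : CC → CC), BoxCur μ β c R ρ K m X Y → 0 < R →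
  ∃ (k : ℕ) (S : ℂ → Multiset ℂ), (∀ z ∈ ball c R, (S z).card = k) ∧
    (∀ R' < R, ∃ C b : ℝ, 0 ≤ C ∧ 0 < b ∧ ∀ z ∈ ball c R', ∀ z' ∈ ball c R',
      Close (C * dist z z' ^ b) (S z) (S z')) ∧
    (∀ᵐ z : ℂ, z ∈ ball c R → (S z).Nodup ∧ ∀ w, w ∈ S z ↔ w ∈ fib m z)

/-- C15: the support of `m` over `ball c R` is the graph of `S`. -/
def SUPPS : Prop :=
  ∀ (μ β : CC → ℂ) (κ L : ℝ), SBox μ β κ L →
  ∀ (c : ℂ) (R ρ K : ℝ) (m : Measure CC) (X Y : CC → CC), BoxCur μ β c R ρ K m X Y → 0 < R →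
  ∀ (k : ℕ) (S : ℂ → Multiset ℂ), (∀ z ∈ ball c R, (S z).card = k) →
    (∀ R' < R, ∃ C b : ℝ, 0 ≤ C ∧ 0 < b ∧ ∀ z ∈ ball c R', ∀ z' ∈ ball c R',
      Close (C * dist z z' ^ b) (S z) (S z')) →
    (∀ᵐ z : ℂ, z ∈ ball c R → (S z).Nodup ∧ ∀ w, w ∈ S z ↔ w ∈ fib m z) →
    ∀ z ∈ ball c R, ∀ w, w ∈ S z ↔ w ∈ fib m z

/-- C16: sheets of multiplicity one are smooth, solve the equation, and their differential is the
slope of the current almost everywhere. -/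
def SHEETS : Prop :=
  ∀ (μ β : CC → ℂ) (κ L : ℝ), SBox μ β κ L →
  ∀ (c : ℂ) (R ρ K : ℝ) (m : Measure CC) (X Y : CC → CC), BoxCur μ β c R ρ K m X Y → 0 < R →
  ∀ (k : ℕ) (S : ℂ → Multiset ℂ), (∀ z ∈ ball c R, (S z).card = k) →
    (∀ R' < R, ∃ C b : ℝ, 0 ≤ C ∧ 0 < b ∧ ∀ z ∈ ball c R', ∀ z' ∈ ball c R',
      Close (C * dist z z' ^ b) (S z) (S z')) →
    (∀ᵐ z : ℂ, z ∈ ball c R → (S z).Nodup ∧ ∀ w, w ∈ S z ↔ w ∈ fib m z) →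
    ∀ (V : Set ℂ) (w : ℂ → ℂ), V ⊆ ball c R → Sheet S V w →
      ContDiffOn ℝ ∞ w V ∧
      (∀ z ∈ V, lzb (fderiv ℝ w z) = μ (z, w z) * lz (fderiv ℝ w z) - β (z, w z)) ∧
      ∀ᵐ z : ℂ, z ∈ V → fderiv ℝ w z = slo (X (z, w z)) (Y (z, w z))

/-- decay and Hoelder constants uniform on smaller balls. -/
def DecU (c : ℂ) (R : ℝ) (S : ℂ → Multiset ℂ) (e : ℂ → ℝ) : Prop :=
  ∀ R' < R, ∃ C b r₀ : ℝ, 0 ≤ C ∧ 0 < b ∧ b < 1 ∧ 0 < r₀ ∧ R' + r₀ < R ∧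
    (∀ z₀ ∈ closedBall c R', ∀ r : ℝ, 0 < r → r ≤ r₀ → ∫ z in ball z₀ r, e z ≤ C * r ^ (2 * b)) ∧
    ∀ z ∈ closedBall c R', ∀ z' ∈ closedBall c R', Close (C * dist z z' ^ b) (S z) (S z')

/-- **CYL**: a box current is a `k`-valued graph. -/
def CYL : Prop :=
  ∀ (μ β : CC → ℂ) (κ L : ℝ), SBox μ β κ L →
  ∀ (c : ℂ) (R ρ K : ℝ) (m : Measure CC) (X Y : CC → CC), BoxCur μ β c R ρ K m X Y → 0 < R →
  ∃ (k : ℕ) (S : ℂ → Multiset ℂ) (e : ℂ → ℝ), KG μ β c R k S e ∧ DecU c R S e ∧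
    (∀ z ∈ ball c R, ∀ w ∈ S z, ‖w‖ ≤ ρ) ∧ ∀ z ∈ ball c R, ∀ w, w ∈ S z ↔ InSupp m (z, w)

/-- **CYLF**: the final planar description, with the formula for the current. -/
def CYLF : Prop :=
  ∀ (μ β : CC → ℂ) (κ L : ℝ), SBox μ β κ L →
  ∀ (c : ℂ) (R ρ K : ℝ) (m : Measure CC) (X Y : CC → CC), BoxCur μ β c R ρ K m X Y → 0 < R →
  ∃ (k : ℕ) (S : ℂ → Multiset ℂ) (e : ℂ → ℝ), KG μ β c R k S e ∧ DecU c R S e ∧
    (∀ z ∈ ball c R, ∀ w ∈ S z, ‖w‖ ≤ ρ) ∧ (∀ z ∈ ball c R, ∀ w, w ∈ S z ↔ InSupp m (z, w)) ∧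
    (∀ p ∈ ball c R, ∀ᶠ z in 𝓝[≠] p, (S z).Nodup) ∧
    ∀ g : CC → (CC →L[ℝ] CC →L[ℝ] ℝ), Continuous g →
      (∃ T ⊆ ball c R, IsCompact T ∧ ∀ p : CC, p.1 ∉ T → g p = 0) → (∀ q v, g q v v = 0) →
      IntegrableOn (fun z => ∑ w ∈ (S z).toFinset,
          g (z, w) (1, slope S z w 1) (I, slope S z w I)) (ball c R) ∧
      ∫ p, g p (X p) (Y p) ∂m = ∫ z in ball c R, ∑ w ∈ (S z).toFinset,
        g (z, w) (1, slope S z w 1) (I, slope S z w I)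

end

end Crest.Agent.R235.Cyl
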