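import Crest.Agent.R235.ConstMeas_679
import Crest.Agent.R235.CylDef_607

/-!
Row 235, REG-CYL C2: constancy theorem (task 280).
-/

set_option autoImplicit false

noncomputable section

namespace Crest.Agent.R235.CylConst_679

open Set Metric MeasureTheory Filter Topology
open scoped ContDiff Manifold
open Crest.Agent.R235.Loc Crest.Agent.R235.Cyl Crest.Agent.R235.ConstMeas_679

/-- the support of a measure -/
def supp (m : Measure CC) : Set CC := {q | InSupp m q}

theorem isClosed_supp (m : Measure CC) : IsClosed (supp m) := by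
  rw [← isOpen_compl_iff, isOpen_iff_mem_nhds]
  intro q hq
  have h1 : ¬ InSupp m q := hq
  unfold InSupp at h1
  push Not at h1
  obtain ⟨r, hr, h2⟩ := h1
  filter_upwards [ball_mem_nhds q (show 0 < r / 2 by linarith)] with q' hq'
  intro h3
  have h4 : 0 < m (ball q' (r / 2)) := h3 (r / 2) (by linarith)
  have h5 : ball q' (r / 2) ⊆ ball q r := by
    intro x hx
    rw [mem_ball] at hx hq' ⊢
    calc dist x q ≤ dist x q' + dist q' q := dist_triangle _ _ _
      _ < r := by linarith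
  exact absurd (h4.trans_le ((measure_mono h5).trans h2)) (lt_irrefl _)

theorem supp_ae (m : Measure CC) : ∀ᵐ q ∂m, q ∈ supp m := by
  rw [ae_iff]
  apply measure_null_of_locally_null
  intro q hq
  have h1 : ¬ InSupp m q := hq
  unfold InSupp at h1
  push Not at h1
  obtain ⟨r, hr, h2⟩ := h1
  exact ⟨ball q r, nhdsWithin_le_nhds (ball_mem_nhds q hr), le_antisymm h2 bot_le⟩

/-- an open null set does not meet the support -/
theorem not_mem_supp {m : Measure CC} {U : Set CC} (hU : IsOpen U) (h : m U = 0) {q : CC}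
    (hq : q ∈ supp m) : q ∉ U := by
  intro hqU
  obtain ⟨r, hr, h1⟩ := Metric.isOpen_iff.1 hU q hqU
  have h2 : 0 < m (ball q r) := hq r hr
  have h3 : m (ball q r) ≤ 0 := (measure_mono h1).trans h.le
  exact absurd (h2.trans_le h3) (lt_irrefl _)

theorem measurable_hh {X Y : CC → CC} (hX : Measurable X) (hY : Measurable Y) :
    Measurable fun q => hh (X q) (Y q) := by
  unfold hh
  have h1 : Measurable fun q => (X q).1 := hX.fst
  have h2 : Measurable fun q => (Y q).1 := hY.fst
  exact ((Complex.measurable_re.comp h1).mul (Complex.measurable_im.comp h2)).sub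
    ((Complex.measurable_re.comp h2).mul (Complex.measurable_im.comp h1))

/-- **C2** -/
theorem const_of (h0 : ALG0) (h : CLO) : CONST := by
  intro μ β κ L hS c R ρ K m X Y hB z r B hr hsub hBo hfr
  obtain ⟨C₀, c₀, -, hC₀, hA⟩ := h0 κ L K hS.box.κ0 hS.box.κ1 hS.box.L0
  have hfin : IsFiniteMeasure m := hB.fin
  have halg := fun q => hA μ β hS q (X q) (Y q) (hB.nX q) (hB.nY q) (hB.jz q) (hB.jw q)
  have hh0 : ∀ q, 0 ≤ hh (X q) (Y q) := fun q => (halg q).1
  have hh1 : ∀ q, hh (X q) (Y q) ≤ C₀ := fun q => (halg q).2.1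
  have hV1 : ∀ q, (V1 (X q) (Y q)).1 = ((hh (X q) (Y q) : ℝ) : ℂ) := fun q => by
    have := (halg q).2.2.2.2.1
    rw [this]
  have hVI : ∀ q, (VI (X q) (Y q)).1 = Complex.I * ((hh (X q) (Y q) : ℝ) : ℂ) := fun q => by
    have := (halg q).2.2.2.2.2.1
    rw [this]
  have hhm := measurable_hh hB.mX hB.mY
  -- the projection of the support
  have hρ : ∀ q ∈ supp m, ‖q.2‖ ≤ ρ := by
    intro q hq
    by_contra hlt
    rw [not_le] at hlt
    have hU : IsOpen {q : CC | ρ < ‖q.2‖} := isOpen_lt continuous_const (continuous_snd.norm)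
    refine not_mem_supp hU ?_ hq hlt
    have h1 : ∀ᵐ q ∂m, q ∉ {q : CC | ρ < ‖q.2‖} := by
      filter_upwards [hB.supp] with q hq2
      simpa using hq2.2
    exact measure_eq_zero_iff_ae_notMem.2 h1
  set S0 : Set CC := supp m ∩ Prod.fst ⁻¹' closedBall z r with hS0
  have hS0c : IsCompact S0 := by
    apply (((isCompact_closedBall z r).prod (isCompact_closedBall (0:ℂ) ρ))).of_isClosed_subset
    · exact (isClosed_supp m).inter (isClosed_closedBall.preimage continuous_fst)
    · rintro q ⟨hq1, hq2⟩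
      exact ⟨hq2, by rw [mem_closedBall, dist_zero_right]; exact hρ q hq1⟩
  set Kp : Set ℂ := Prod.snd '' S0 with hKp
  have hKc : IsCompact Kp := hS0c.image continuous_snd
  have hKf : ∀ w ∈ Kp, w ∉ frontier B := by
    rintro w ⟨q, ⟨hq1, hq2⟩, rfl⟩
    exact hfr q hq1 hq2
  have hK1 : Kp ∩ B = Kp ∩ closure B := by
    ext w
    constructor
    · rintro ⟨h1, h2⟩; exact ⟨h1, subset_closure h2⟩
    · rintro ⟨h1, h2⟩
      refine ⟨h1, ?_⟩
      by_contra h3
      apply hKf w h1
      rw [hBo.frontier_eq]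
      exact ⟨h2, h3⟩
  have hK1c : IsClosed (Kp ∩ B) := by
    rw [hK1]; exact hKc.isClosed.inter isClosed_closure
  have hK2c : IsClosed (Kp \ B) := hKc.isClosed.sdiff hBo
  obtain ⟨χ, hχ0, hχ1, hχI⟩ := exists_contMDiffMap_zero_one_nhds_of_isClosed (n := ⊤)
    (𝓘(ℝ, ℂ)) hK2c hK1c (disjoint_left.2 fun w h1 h2 => h1.2 h2.2)
  have hχs : ContDiff ℝ ∞ (χ : ℂ → ℝ) := χ.contMDiff.contDiff
  have hχs1 : ContDiff ℝ 1 (χ : ℂ → ℝ) := hχs.of_le (by simp)
  have hχ0' : ∀ w ∈ Kp \ B, (χ : ℂ → ℝ) w = 0 ∧ fderiv ℝ (χ : ℂ → ℝ) w = 0 := by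
    intro w hw
    have h1 : ∀ᶠ x in 𝓝 w, (χ : ℂ → ℝ) x = 0 := hχ0.filter_mono (nhds_le_nhdsSet hw)
    refine ⟨h1.self_of_nhds, ?_⟩
    have h2 : (χ : ℂ → ℝ) =ᶠ[𝓝 w] fun _ => (0:ℝ) := h1
    rw [h2.fderiv_eq]; simp
  have hχ1' : ∀ w ∈ Kp ∩ B, (χ : ℂ → ℝ) w = 1 ∧ fderiv ℝ (χ : ℂ → ℝ) w = 0 := by
    intro w hw
    have h1 : ∀ᶠ x in 𝓝 w, (χ : ℂ → ℝ) x = 1 := hχ1.filter_mono (nhds_le_nhdsSet hw)
    refine ⟨h1.self_of_nhds, ?_⟩
    have h2 : (χ : ℂ → ℝ) =ᶠ[𝓝 w] fun _ => (1:ℝ) := h1
    rw [h2.fderiv_eq]; simp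
  -- the projected measure
  set D : Set CC := ball z r ×ˢ B with hD
  have hDm : MeasurableSet D := measurableSet_ball.prod hBo.measurableSet
  set den : CC → ENNReal := fun q => ENNReal.ofReal (hh (X q) (Y q)) with hden
  have hdenm : Measurable den := hhm.ennreal_ofReal
  set ν : Measure ℂ := (((m.restrict D).withDensity den).map Prod.fst) with hν
  have hint : ∀ f : ℂ → ℝ, Measurable f →
      ∫ x, f x ∂ν = ∫ q in D, hh (X q) (Y q) * f q.1 ∂m := by
    intro f hf
    rw [hν, integral_map measurable_fst.aemeasurable hf.aestronglyMeasurable,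
      integral_withDensity_eq_integral_toReal_smul hdenm
        (Eventually.of_forall fun q => ENNReal.ofReal_lt_top)]
    congr 1
    ext q
    simp only [hden, ENNReal.toReal_ofReal (hh0 q), smul_eq_mul]
  have hνfin : IsFiniteMeasure ν := by
    have h1 : IsFiniteMeasure ((m.restrict D).withDensity den) := by
      apply isFiniteMeasure_withDensity
      refine ((lintegral_mono (g := fun _ => ENNReal.ofReal C₀) fun q => ?_).trans_lt ?_).ne
      · exact ENNReal.ofReal_le_ofReal (hh1 q)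
      · rw [lintegral_const]
        exact ENNReal.mul_lt_top ENNReal.ofReal_lt_top (measure_lt_top _ _)
    exact Measure.isFiniteMeasure_map _ _
  have hstat : Stat ν z r := by
    intro f hf hfc hfs
    have hfd : Continuous (fderiv ℝ f) := hf.continuous_fderiv (by norm_num)
    -- the test function
    have hΦ : ContDiff ℝ 1 (fun q : CC => f q.1 * (χ : ℂ → ℝ) q.2) :=
      (hf.comp contDiff_fst).mul (hχs1.comp contDiff_snd)
    have hder : ∀ (q v : CC), fderiv ℝ (fun q : CC => f q.1 * (χ : ℂ → ℝ) q.2) q v =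
        f q.1 * fderiv ℝ (χ : ℂ → ℝ) q.2 v.2 + (χ : ℂ → ℝ) q.2 * fderiv ℝ f q.1 v.1 := by
      intro q v
      have h1 : HasFDerivAt (fun q : CC => f q.1)
          ((fderiv ℝ f q.1).comp (ContinuousLinearMap.fst ℝ ℂ ℂ)) q :=
        (hf.differentiable (by norm_num) q.1).hasFDerivAt.comp q hasFDerivAt_fst
      have h2 : HasFDerivAt (fun q : CC => (χ : ℂ → ℝ) q.2)
          ((fderiv ℝ (χ : ℂ → ℝ) q.2).comp (ContinuousLinearMap.snd ℝ ℂ ℂ)) q :=
        (hχs1.differentiable (by norm_num) q.2).hasFDerivAt.comp q hasFDerivAt_snd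
      have h3 : fderiv ℝ (fun q : CC => f q.1 * (χ : ℂ → ℝ) q.2) q = _ := (h1.mul h2).fderiv
      rw [h3]
      simp
    have hcl := h μ β κ L hS c R ρ K m X Y hB (fun q : CC => f q.1 * (χ : ℂ → ℝ) q.2) hΦ
      ⟨tsupport f, (hfs.trans ball_subset_closedBall).trans hsub, hfc.isCompact, fun p hp => by
        simp [image_eq_zero_of_notMem_tsupport hp]⟩
    -- identification of the integrand
    have hid : ∀ (V : CC → CC) (e : ℂ), (∀ q, (V q).1 = ((hh (X q) (Y q) : ℝ) : ℂ) * e) →
        ∫ q, fderiv ℝ (fun q : CC => f q.1 * (χ : ℂ → ℝ) q.2) q (V q) ∂m =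
          ∫ q in D, hh (X q) (Y q) * fderiv ℝ f q.1 e ∂m := by
      intro V e hV
      rw [← integral_indicator hDm]
      apply integral_congr_ae
      filter_upwards [supp_ae m] with q hq
      rw [hder, hV]
      have hlin : fderiv ℝ f q.1 (((hh (X q) (Y q) : ℝ) : ℂ) * e) =
          hh (X q) (Y q) * fderiv ℝ f q.1 e := by
        have : ((hh (X q) (Y q) : ℝ) : ℂ) * e = (hh (X q) (Y q)) • e := by
          rw [Complex.real_smul]
        rw [this, map_smul, smul_eq_mul]
      rw [hlin]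
      by_cases hqz : q.1 ∈ ball z r
      · have hqK : q.2 ∈ Kp := ⟨q, ⟨hq, ball_subset_closedBall hqz⟩, rfl⟩
        by_cases hqB : q.2 ∈ B
        · obtain ⟨h1, h2⟩ := hχ1' q.2 ⟨hqK, hqB⟩
          rw [indicator_of_mem (show q ∈ D from ⟨hqz, hqB⟩), h1, h2]
          simp
        · obtain ⟨h1, h2⟩ := hχ0' q.2 ⟨hqK, hqB⟩
          rw [indicator_of_notMem (show q ∉ D from fun h => hqB h.2), h1, h2]
          simp
      · have h1 : q.1 ∉ tsupport f := fun h => hqz (hfs h)
        have h2 : f q.1 = 0 := image_eq_zero_of_notMem_tsupport h1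
        have h3 : fderiv ℝ f q.1 = 0 := by
          by_contra h4
          exact h1 (support_fderiv_subset ℝ h4)
        rw [indicator_of_notMem (show q ∉ D from fun h => hqz h.1), h2, h3]
        simp
    have hI1 : ∫ q in D, hh (X q) (Y q) * fderiv ℝ f q.1 1 ∂m = 0 := by
      rw [← hid (fun q => V1 (X q) (Y q)) 1 (fun q => by rw [hV1, mul_one])]
      exact hcl.1
    have hII : ∫ q in D, hh (X q) (Y q) * fderiv ℝ f q.1 Complex.I ∂m = 0 := by
      rw [← hid (fun q => VI (X q) (Y q)) Complex.I (fun q => by rw [hVI, mul_comm])]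
      exact hcl.2.1
    intro e
    rw [hint _ (by fun_prop)]
    have he : ∀ q : CC, hh (X q) (Y q) * fderiv ℝ f q.1 e =
        e.re * (hh (X q) (Y q) * fderiv ℝ f q.1 1) +
          e.im * (hh (X q) (Y q) * fderiv ℝ f q.1 Complex.I) := by
      intro q
      have h1 : e = e.re • (1:ℂ) + e.im • Complex.I := by
        simp
      have h2 : fderiv ℝ f q.1 e = e.re * fderiv ℝ f q.1 1 + e.im * fderiv ℝ f q.1 Complex.I := by
        conv_lhs => rw [h1]
        rw [map_add, map_smul, map_smul, smul_eq_mul, smul_eq_mul]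
      rw [h2]; ring
    obtain ⟨M, hM⟩ := (hfc.fderiv ℝ).exists_bound_of_continuous hfd
    have hintg : ∀ v : ℂ, Integrable (fun q : CC => hh (X q) (Y q) * fderiv ℝ f q.1 v)
        (m.restrict D) := by
      intro v
      refine Integrable.mono' (integrable_const (C₀ * (M * ‖v‖))) ?_ ?_
      · exact (hhm.mul (Measurable.comp (g := fun x => fderiv ℝ f x v) (by fun_prop)
          measurable_fst)).aestronglyMeasurable
      · refine Eventually.of_forall fun q => ?_
        rw [norm_mul, Real.norm_of_nonneg (hh0 q)]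
        gcongr
        · exact hh1 q
        · exact (ContinuousLinearMap.le_opNorm _ _).trans (by gcongr; exact hM _)
    simp only [he]
    rw [integral_add ((hintg 1).const_mul _) ((hintg Complex.I).const_mul _), integral_const_mul,
      integral_const_mul, hI1, hII]
    ring
  obtain ⟨d, hd, hd'⟩ := const_meas hr hstat
  refine ⟨d, hd, fun A hA hAs => ?_⟩
  rw [← hd' A hA hAs]
  have h1 : ν.real A = ∫ x, A.indicator (fun _ => (1:ℝ)) x ∂ν := by
    rw [integral_indicator hA, setIntegral_const, smul_eq_mul, mul_one]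
  rw [h1, hint _ (measurable_const.indicator hA)]
  have h2 : ∀ q : CC, hh (X q) (Y q) * A.indicator (fun _ => (1:ℝ)) q.1 =
      (A ×ˢ (univ : Set ℂ)).indicator (fun q => hh (X q) (Y q)) q := by
    intro q
    by_cases hq : q.1 ∈ A
    · rw [indicator_of_mem hq, indicator_of_mem (show q ∈ A ×ˢ (univ : Set ℂ) from ⟨hq, trivial⟩),
        mul_one]
    · rw [indicator_of_notMem hq,
        indicator_of_notMem (show q ∉ A ×ˢ (univ : Set ℂ) from fun h => hq h.1), mul_zero]
  simp only [h2]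
  rw [setIntegral_indicator (hA.prod MeasurableSet.univ)]
  congr 2
  ext q
  simp only [hD, mem_prod, mem_inter_iff, mem_univ, and_true]
  constructor
  · rintro ⟨h3, h4⟩; exact ⟨⟨hAs h3, h4⟩, h3⟩
  · rintro ⟨⟨-, h4⟩, h3⟩; exact ⟨h3, h4⟩

end Crest.Agent.R235.CylConst_679
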