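import Mathlib

/-!
Row 235 (S0364), REG-CYL, leaf C12, the hole-filling step (helper734).  Pure, imports Mathlib only.

* `step` : `a s ≤ C (s g(s) + s²)` for a.e. `s ∈ (r,2r)`, `∫_r^{2r} g ≤ a(2r) - a(r)` ⟹
  `(1 + 2C) a(r) ≤ 2C a(2r) + 4C r²`
* `iter` : iteration of the step
* `decay` : `a(r) ≤ 2 (a(r₀) + 2 r₀²) (r/r₀)^γ`, `γ = gam C ∈ (0,1]` depends on `C` only.
-/

set_option autoImplicit false

open MeasureTheory Set intervalIntegral

namespace Crest.Agent.R235.CylDec_734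

/-- the contraction factor. -/
noncomputable def th (C : ℝ) : ℝ := max (2 * C / (1 + 2 * C)) (1 / 2)

/-- the exponent of the decay. -/
noncomputable def gam (C : ℝ) : ℝ := Real.log (th C)⁻¹ / Real.log 2

lemma th_pos (C : ℝ) : 0 < th C := lt_of_lt_of_le (by norm_num) (le_max_right _ _)

lemma half_le_th (C : ℝ) : 1 / 2 ≤ th C := le_max_right _ _

lemma th_lt {C : ℝ} (hC : 0 ≤ C) : th C < 1 := by
  unfold th
  rw [max_lt_iff]
  refine ⟨?_, by norm_num⟩
  rw [div_lt_one (by linarith)]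
  linarith

lemma gam_pos {C : ℝ} (hC : 0 ≤ C) : 0 < gam C := by
  unfold gam
  refine div_pos (Real.log_pos ?_) (Real.log_pos (by norm_num))
  exact (one_lt_inv₀ (th_pos C)).2 (th_lt hC)

lemma gam_le {C : ℝ} : gam C ≤ 1 := by
  unfold gam
  rw [div_le_one (Real.log_pos (by norm_num))]
  refine Real.log_le_log (inv_pos.2 (th_pos C)) ?_
  rw [inv_le_comm₀ (th_pos C) (by norm_num)]
  simpa using half_le_th C

lemma two_rpow_gam (C : ℝ) : (2 : ℝ) ^ gam C = (th C)⁻¹ := by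
  have h2 : (0 : ℝ) < 2 := by norm_num
  have hl : Real.log 2 ≠ 0 := (Real.log_pos (by norm_num)).ne'
  rw [Real.rpow_def_of_pos h2]
  unfold gam
  rw [mul_div_cancel₀ _ hl, Real.exp_log (inv_pos.2 (th_pos C))]

/-- **hole filling, one step.** -/
theorem step {a g : ℝ → ℝ} {C r : ℝ} (hC : 0 ≤ C) (hr : 0 < r)
    (mono : ∀ s, r < s → s < 2 * r → a r ≤ a s) (g0 : ∀ s, 0 ≤ g s)
    (gint : IntervalIntegrable g volume r (2 * r))
    (hg : ∫ t in r..(2 * r), g t ≤ a (2 * r) - a r)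
    (ineq : ∀ᵐ s : ℝ, r < s → s < 2 * r → a s ≤ C * (s * g s + s ^ 2)) :
    (1 + 2 * C) * a r ≤ 2 * C * a (2 * r) + 4 * C * r ^ 2 := by
  have hrr : r ≤ 2 * r := by linarith
  have hae : (fun _ : ℝ => a r) ≤ᵐ[volume.restrict (Icc r (2 * r))]
      fun t => 2 * C * r * g t + 4 * C * r ^ 2 := by
    have h0 : ∀ᵐ t : ℝ, t ≠ r := by simp [ae_iff]
    have h2 : ∀ᵐ t : ℝ, t ≠ 2 * r := by simp [ae_iff]
    refine (ae_restrict_iff' measurableSet_Icc).2 ?_
    filter_upwards [ineq, h0, h2] with t ht h0 h2 hmem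
    have hlt : r < t := lt_of_le_of_ne hmem.1 (Ne.symm h0)
    have hlt' : t < 2 * r := lt_of_le_of_ne hmem.2 h2
    have hi := ht hlt hlt'
    have hm := mono t hlt hlt'
    have ht0 : 0 ≤ t := by linarith
    have e1 : t * g t ≤ 2 * r * g t := mul_le_mul_of_nonneg_right hlt'.le (g0 t)
    have e2 : t ^ 2 ≤ 4 * r ^ 2 := by nlinarith
    have e3 : C * (t * g t + t ^ 2) ≤ C * (2 * r * g t + 4 * r ^ 2) :=
      mul_le_mul_of_nonneg_left (add_le_add e1 e2) hC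
    calc a r ≤ C * (2 * r * g t + 4 * r ^ 2) := hm.trans (hi.trans e3)
      _ = 2 * C * r * g t + 4 * C * r ^ 2 := by ring
  have hint : IntervalIntegrable (fun t => 2 * C * r * g t + 4 * C * r ^ 2) volume r (2 * r) :=
    (gint.const_mul _).add intervalIntegrable_const
  have h1 : ∫ _t in r..(2 * r), a r ≤ ∫ t in r..(2 * r), (2 * C * r * g t + 4 * C * r ^ 2) :=
    intervalIntegral.integral_mono_ae_restrict hrr intervalIntegrable_const hint hae
  rw [intervalIntegral.integral_add (gint.const_mul _) intervalIntegrable_const,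
    intervalIntegral.integral_const_mul, intervalIntegral.integral_const,
    intervalIntegral.integral_const] at h1
  simp only [smul_eq_mul] at h1
  have h3 : 2 * C * r * ∫ t in r..(2 * r), g t ≤ 2 * C * r * (a (2 * r) - a r) :=
    mul_le_mul_of_nonneg_left hg (by positivity)
  have h4 : r * ((1 + 2 * C) * a r) ≤ r * (2 * C * a (2 * r) + 4 * C * r ^ 2) := by
    have : (2 * r - r) * a r = r * a r := by ring
    rw [this] at h1
    have h5 : (2 * r - r) * (4 * C * r ^ 2) = r * (4 * C * r ^ 2) := by ring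
    rw [h5] at h1
    nlinarith
  exact le_of_mul_le_mul_left h4 hr

/-- one step in the contracted form. -/
theorem step' {a g : ℝ → ℝ} {C r : ℝ} (hC : 0 ≤ C) (hr : 0 < r) (a0 : 0 ≤ a (2 * r))
    (mono : ∀ s, r < s → s < 2 * r → a r ≤ a s) (g0 : ∀ s, 0 ≤ g s)
    (gint : IntervalIntegrable g volume r (2 * r))
    (hg : ∫ t in r..(2 * r), g t ≤ a (2 * r) - a r)
    (ineq : ∀ᵐ s : ℝ, r < s → s < 2 * r → a s ≤ C * (s * g s + s ^ 2)) :
    a r + 2 * r ^ 2 ≤ th C * (a (2 * r) + 2 * (2 * r) ^ 2) := by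
  have h := step hC hr mono g0 gint hg ineq
  have hp : 0 < 1 + 2 * C := by linarith
  have h1 : a r ≤ (2 * C / (1 + 2 * C)) * a (2 * r) + 2 * (2 * C / (1 + 2 * C)) * r ^ 2 := by
    have : (2 * C / (1 + 2 * C)) * a (2 * r) + 2 * (2 * C / (1 + 2 * C)) * r ^ 2 =
        (2 * C * a (2 * r) + 4 * C * r ^ 2) / (1 + 2 * C) := by
      field_simp
      ring
    rw [this, le_div_iff₀ hp]
    linarith
  have h2 : 2 * C / (1 + 2 * C) ≤ th C := le_max_left _ _
  have h3 := half_le_th C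
  have h4 : (2 * C / (1 + 2 * C)) * a (2 * r) ≤ th C * a (2 * r) :=
    mul_le_mul_of_nonneg_right h2 a0
  have h5 : (2 * C / (1 + 2 * C)) * r ^ 2 ≤ th C * r ^ 2 :=
    mul_le_mul_of_nonneg_right h2 (by positivity)
  have h6 : (1 / 2) * r ^ 2 ≤ th C * r ^ 2 := mul_le_mul_of_nonneg_right h3 (by positivity)
  nlinarith

/-- iteration. -/
theorem iter {E : ℝ → ℝ} {θ r₀ : ℝ} (hθ : 0 ≤ θ)
    (h : ∀ r, 0 < r → 2 * r ≤ r₀ → E r ≤ θ * E (2 * r)) (n : ℕ) :
    ∀ r, 0 < r → 2 ^ n * r ≤ r₀ → E r ≤ θ ^ n * E (2 ^ n * r) := by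
  induction n with
  | zero => intro r _ _; simp
  | succ n ih =>
    intro r hr hle
    have hle' : 2 ^ n * (2 * r) ≤ r₀ := by
      have : (2 : ℝ) ^ n * (2 * r) = 2 ^ (n + 1) * r := by ring
      rwa [this]
    have h2 : 2 * r ≤ r₀ := by
      have h1 : (1 : ℝ) ≤ 2 ^ n := one_le_pow₀ (by norm_num)
      nlinarith
    have h3 := ih (2 * r) (by linarith) hle'
    calc E r ≤ θ * E (2 * r) := h r hr h2
      _ ≤ θ * (θ ^ n * E (2 ^ n * (2 * r))) := mul_le_mul_of_nonneg_left h3 hθ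
      _ = θ ^ (n + 1) * E (2 ^ (n + 1) * r) := by
          rw [show (2 : ℝ) ^ n * (2 * r) = 2 ^ (n + 1) * r by ring]; ring

/-- **power decay from the contraction.** -/
theorem decay_of_contr {E : ℝ → ℝ} {C r₀ : ℝ} (hC : 0 ≤ C) (hr₀ : 0 < r₀)
    (E0 : 0 ≤ E r₀) (mono : ∀ r s, 0 < r → r ≤ s → s ≤ r₀ → E r ≤ E s)
    (h : ∀ r, 0 < r → 2 * r ≤ r₀ → E r ≤ th C * E (2 * r)) {r : ℝ} (hr : 0 < r) (hle : r ≤ r₀) :
    E r ≤ 2 * E r₀ * (r / r₀) ^ gam C := by
  have hth := th_pos C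
  have hth1 := th_lt hC
  obtain ⟨n, hn1, hn2⟩ : ∃ n : ℕ, 2 ^ n * r ≤ r₀ ∧ r₀ < 2 ^ (n + 1) * r := by
    have hx : 1 ≤ r₀ / r := (one_le_div hr).2 hle
    obtain ⟨n, hn⟩ := exists_nat_pow_near hx (by norm_num : (1 : ℝ) < 2)
    refine ⟨n, ?_, ?_⟩
    · exact (le_div_iff₀ hr).1 hn.1
    · exact (div_lt_iff₀ hr).1 hn.2
  have h1 : E r ≤ th C ^ n * E r₀ := by
    refine (iter hth.le h n r hr hn1).trans ?_
    refine mul_le_mul_of_nonneg_left ?_ (by positivity)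
    exact mono _ _ (by positivity) hn1 le_rfl
  have h2 : th C ^ n ≤ 2 * (r / r₀) ^ gam C := by
    have hg := gam_pos hC
    have e1 : ((1 : ℝ) / 2 ^ (n + 1)) ^ gam C ≤ (r / r₀) ^ gam C := by
      refine Real.rpow_le_rpow (by positivity) ?_ hg.le
      rw [div_le_div_iff₀ (by positivity) hr₀]
      linarith
    have e2 : ((1 : ℝ) / 2 ^ (n + 1)) ^ gam C = th C ^ (n + 1) := by
      rw [one_div, Real.inv_rpow (by positivity), ← Real.rpow_natCast, ← Real.rpow_mul (by norm_num),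
        mul_comm, Real.rpow_mul (by norm_num), two_rpow_gam, Real.rpow_natCast, inv_pow, inv_inv]
    have e3 : th C ^ n ≤ 2 * th C ^ (n + 1) := by
      have := half_le_th C
      have h5 : 0 < th C ^ n := by positivity
      rw [pow_succ]
      nlinarith
    rw [e2] at e1
    linarith
  calc E r ≤ th C ^ n * E r₀ := h1
    _ ≤ (2 * (r / r₀) ^ gam C) * E r₀ := mul_le_mul_of_nonneg_right h2 E0
    _ = 2 * E r₀ * (r / r₀) ^ gam C := by ring

/-- **C12, hole filling.**  `a` monotone, `g ≥ 0` with `∫_r^s g ≤ a s - a r`, and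
`a r ≤ C (r g(r) + r²)` for a.e. `r`: `a r ≤ 2 (a r₀ + 2 r₀²) (r/r₀)^γ`, `γ = gam C`. -/
theorem decay {a g : ℝ → ℝ} {C r₀ : ℝ} (hC : 0 ≤ C) (hr₀ : 0 < r₀)
    (a0 : ∀ r, 0 < r → r ≤ r₀ → 0 ≤ a r)
    (mono : ∀ r s, 0 < r → r ≤ s → s ≤ r₀ → a r ≤ a s) (g0 : ∀ s, 0 ≤ g s)
    (gint : ∀ r, 0 < r → 2 * r ≤ r₀ → IntervalIntegrable g volume r (2 * r))
    (hg : ∀ r, 0 < r → 2 * r ≤ r₀ → ∫ t in r..(2 * r), g t ≤ a (2 * r) - a r)
    (ineq : ∀ᵐ s : ℝ, 0 < s → s < r₀ → a s ≤ C * (s * g s + s ^ 2)) :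
    ∀ r, 0 < r → r ≤ r₀ → a r ≤ 2 * (a r₀ + 2 * r₀ ^ 2) * (r / r₀) ^ gam C := by
  intro r hr hle
  have key := decay_of_contr (E := fun r => a r + 2 * r ^ 2) hC hr₀
    (by have := a0 r₀ hr₀ le_rfl; positivity)
    (by
      intro r s hr hrs hs
      have h1 := mono r s hr hrs hs
      have h2 : r ^ 2 ≤ s ^ 2 := by nlinarith
      linarith)
    (by
      intro r hr h2
      refine step' hC hr (a0 _ (by linarith) h2) ?_ g0 (gint r hr h2) (hg r hr h2) ?_
      · intro s h1 h3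
        exact mono r s hr h1.le (by linarith)
      · filter_upwards [ineq] with s hs h1 h3
        exact hs (by linarith) (by linarith))
    hr hle
  have h0 : 0 ≤ 2 * r ^ 2 := by positivity
  linarith

end Crest.Agent.R235.CylDec_734
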