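import Mathlib

/-!
Row 235 (S0364), PACKAGE REG, sub-block LOC (leader helper607): definitions and frozen statements.
Planar theory of `k`-valued graphs: the set of non-simple points is discrete.
Proof text: posts row 235, 'PACKAGE REG (T3) CONFIRMED', part LOC.
-/

set_option autoImplicit false

open MeasureTheory Metric Set Filter Complex
open scoped ContDiff Topology

namespace Crest.Agent.R235.Loc

noncomputable section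

/-- the `z`-coefficient of a real-linear map: `A u = lz A * u + lzb A * conj u`. -/
def lz (A : ℂ →L[ℝ] ℂ) : ℂ := (A 1 - I * A I) / 2

/-- the `z̄`-coefficient of a real-linear map. -/
def lzb (A : ℂ →L[ℝ] ℂ) : ℂ := (A 1 + I * A I) / 2

/-- background data of a box: Lipschitz coefficients of the equation
`w_z̄ = μ(z,w) w_z - β(z,w)` for the sheets. -/
structure BoxD (μ β : ℂ × ℂ → ℂ) (κ L : ℝ) : Prop where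
  κ0 : 0 ≤ κ
  κ1 : κ < 1
  L0 : 0 ≤ L
  bμ : ∀ p, ‖μ p‖ ≤ κ
  lipμ : ∀ p q, ‖μ p - μ q‖ ≤ L * ‖p - q‖
  lipβ : ∀ p q, ‖β p - β q‖ ≤ L * ‖p - q‖

/-- `s` and `t` are matched with distances `< ε`. -/
def Near (ε : ℝ) (s t : Multiset ℂ) : Prop := Multiset.Rel (fun a b => dist a b < ε) s t

/-- `s` and `t` are matched with distances `≤ ε`. -/
def Close (ε : ℝ) (s t : Multiset ℂ) : Prop := Multiset.Rel (fun a b => dist a b ≤ ε) s t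

/-- a continuous sheet of multiplicity one over an open set (the other sheets are arbitrary). -/
structure Sheet (S : ℂ → Multiset ℂ) (V : Set ℂ) (w : ℂ → ℂ) : Prop where
  isOpen : IsOpen V
  cont : ContinuousOn w V
  simple : ∀ z ∈ V, (S z).count (w z) = 1

/-- `k`-valued graph over `ball c R`, simple almost everywhere, solving the equation where it is
simple, with energy density `≤ e`, Morrey and Hoelder at every point. -/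
structure KG (μ β : ℂ × ℂ → ℂ) (c : ℂ) (R : ℝ) (k : ℕ) (S : ℂ → Multiset ℂ) (e : ℂ → ℝ) :
    Prop where
  card : ∀ z ∈ ball c R, (S z).card = k
  cont : ∀ z ∈ ball c R, ∀ ε > 0, ∀ᶠ z' in 𝓝 z, Near ε (S z) (S z')
  null : volume {z ∈ ball c R | ¬ (S z).Nodup} = 0
  smooth : ∀ (V : Set ℂ) (w : ℂ → ℂ), V ⊆ ball c R → Sheet S V w → ContDiffOn ℝ ∞ w V
  pde : ∀ (V : Set ℂ) (w : ℂ → ℂ), V ⊆ ball c R → Sheet S V w → ∀ z ∈ V,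
    lzb (fderiv ℝ w z) = μ (z, w z) * lz (fderiv ℝ w z) - β (z, w z)
  e0 : ∀ z, 0 ≤ e z
  eint : IntegrableOn e (ball c R)
  ebd : ∀ (V : Set ℂ) (w : ℂ → ℂ), V ⊆ ball c R → Sheet S V w → ∀ z ∈ V,
    ‖fderiv ℝ w z‖ ^ 2 ≤ e z
  morrey : ∀ p ∈ ball c R, ∃ C a r₀ : ℝ, 0 ≤ C ∧ 0 < a ∧ 0 < r₀ ∧ ball p r₀ ⊆ ball c R ∧
    ∀ r : ℝ, 0 < r → r ≤ r₀ → ∫ z in ball p r, e z ≤ C * r ^ (2 * a)
  hold : ∀ p ∈ ball c R, ∃ C a r₀ : ℝ, 0 ≤ C ∧ 0 < a ∧ 0 < r₀ ∧ ball p r₀ ⊆ ball c R ∧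
    ∀ z ∈ ball p r₀, Close (C * dist z p ^ a) (S p) (S z)

/-- simple points. -/
def Usimp (c : ℂ) (R : ℝ) (S : ℂ → Multiset ℂ) : Set ℂ := {z ∈ ball c R | (S z).Nodup}

/-- non-simple points. -/
def Del (c : ℂ) (R : ℝ) (S : ℂ → Multiset ℂ) : Set ℂ := {z ∈ ball c R | ¬ (S z).Nodup}

/-- all sheets coincide at `z`. -/
def AllEq (S : ℂ → Multiset ℂ) (z : ℂ) : Prop := ∀ a ∈ S z, ∀ b ∈ S z, a = b

/-- induction hypothesis: the non-simple points do not accumulate at points where not all sheets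
coincide. -/
def DiscOff (c : ℂ) (R : ℝ) (S : ℂ → Multiset ℂ) : Prop :=
  ∀ p ∈ ball c R, ¬ AllEq S p → ∀ᶠ z in 𝓝[≠] p, (S z).Nodup

/-- **THEOREM LOC.** -/
def LOC : Prop :=
  ∀ (μ β : ℂ × ℂ → ℂ) (κ L : ℝ), BoxD μ β κ L →
  ∀ (c : ℂ) (R : ℝ) (k : ℕ) (S : ℂ → Multiset ℂ) (e : ℂ → ℝ), KG μ β c R k S e →
    ∀ p ∈ ball c R, ∀ᶠ z in 𝓝[≠] p, (S z).Nodup

/-! ### pair sums -/

/-- `A` is the differential at `z` of the sheet through `(z,a)`. -/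
def IsSlope (S : ℂ → Multiset ℂ) (z a : ℂ) (A : ℂ →L[ℝ] ℂ) : Prop :=
  ∃ (V : Set ℂ) (w : ℂ → ℂ), z ∈ V ∧ Sheet S V w ∧ w z = a ∧ fderiv ℝ w z = A

open Classical in
/-- the differential of the sheet through `(z,a)`. -/
def slope (S : ℂ → Multiset ℂ) (z a : ℂ) : ℂ →L[ℝ] ℂ :=
  if h : ∃ A, IsSlope S z a A then h.choose else 0

open Classical in
/-- sum over the ordered pairs of distinct sheets; `0` at non-simple points. -/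
def psum (S : ℂ → Multiset ℂ) (G : ℂ → ℂ → ℂ → (ℂ →L[ℝ] ℂ) → (ℂ →L[ℝ] ℂ) → ℝ) (z : ℂ) : ℝ :=
  if (S z).Nodup then
    ∑ q ∈ (S z).toFinset.offDiag, G z q.1 q.2 (slope S z q.1) (slope S z q.2) else 0

/-- `v = - log |a - b|`. -/
def pv (a b : ℂ) : ℝ := - Real.log ‖a - b‖

/-- `dL`, `L = log (a - b)`. -/
def pdL (a b : ℂ) (A B : ℂ →L[ℝ] ℂ) : ℂ →L[ℝ] ℂ := (a - b)⁻¹ • (A - B)

/-- `J = - dv ∧ dθ (1, i) = |L_z|² - |L_z̄|²`. -/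
def pJ (a b : ℂ) (A B : ℂ →L[ℝ] ℂ) : ℝ := ‖lz (pdL a b A B)‖ ^ 2 - ‖lzb (pdL a b A B)‖ ^ 2

/-- `(α ∧ dθ)(1, i)`, `θ = arg (a - b)`. -/
def wth (α : ℂ →L[ℝ] ℝ) (a b : ℂ) (A B : ℂ →L[ℝ] ℂ) : ℝ :=
  α 1 * (pdL a b A B I).im - α I * (pdL a b A B 1).im

/-! ### the leaves -/

/-- LOC-1: local selections near a simple point. -/
def SEL : Prop :=
  ∀ (μ β : ℂ × ℂ → ℂ) (κ L : ℝ), BoxD μ β κ L →
  ∀ (c : ℂ) (R : ℝ) (k : ℕ) (S : ℂ → Multiset ℂ) (e : ℂ → ℝ), KG μ β c R k S e →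
  IsOpen (Usimp c R S) ∧
  ∀ z₀ ∈ Usimp c R S, ∃ (r : ℝ) (w : Fin k → ℂ → ℂ), 0 < r ∧ ball z₀ r ⊆ Usimp c R S ∧
    (∀ i, Sheet S (ball z₀ r) (w i)) ∧ (∀ i, ContDiffOn ℝ ∞ (w i) (ball z₀ r)) ∧
    (∀ z ∈ ball z₀ r, Function.Injective (fun i => w i z)) ∧
    (∀ z ∈ ball z₀ r, S z = Multiset.map (fun i => w i z) Finset.univ.val) ∧
    (∀ z ∈ ball z₀ r, ∀ i, slope S z (w i z) = fderiv ℝ (w i) z)

/-- LOC-2a: a cluster of a `k`-valued graph is a `k`-valued graph. -/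
def CLUS : Prop :=
  ∀ (μ β : ℂ × ℂ → ℂ) (κ L : ℝ), BoxD μ β κ L →
  ∀ (c : ℂ) (R : ℝ) (k : ℕ) (S : ℂ → Multiset ℂ) (e : ℂ → ℝ), KG μ β c R k S e →
  ∀ p ∈ ball c R, ∀ a ∈ S p, ∀ ε₀ > 0, ∃ (ε r : ℝ), 0 < ε ∧ ε ≤ ε₀ ∧ 0 < r ∧
    ball p r ⊆ ball c R ∧
    KG μ β p r ((S p).count a) (fun z => (S z).filter (fun b => dist b a < ε)) e ∧
    (S p).filter (fun b => dist b a < ε) = Multiset.replicate ((S p).count a) a ∧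
    (∀ z ∈ ball p r, ∀ b ∈ S z, dist b a < ε ∨ 2 * ε < dist b a) ∧
    (∀ z ∈ ball p r, (S z).Nodup → ∀ b ∈ (S z).filter (fun b => dist b a < ε),
      slope (fun z => (S z).filter (fun b => dist b a < ε)) z b = slope S z b) ∧
    ((S p).count a = k → ∀ z ∈ ball p r, (S z).filter (fun b => dist b a < ε) = S z)

/-- LOC-2b: the induction step off `AllEq` points. -/
def OFFZ : Prop :=
  ∀ (μ β : ℂ × ℂ → ℂ) (κ L : ℝ), BoxD μ β κ L →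
  ∀ (c : ℂ) (R : ℝ) (k : ℕ) (S : ℂ → Multiset ℂ) (e : ℂ → ℝ), KG μ β c R k S e →
  (∀ (c' : ℂ) (R' : ℝ) (k' : ℕ) (S' : ℂ → Multiset ℂ) (e' : ℂ → ℝ), k' < k →
    KG μ β c' R' k' S' e' → ∀ p ∈ ball c' R', ∀ᶠ z in 𝓝[≠] p, (S' z).Nodup) →
  DiscOff c R S

/-- LOC-3: planar Stokes for a one-form which is `C¹` off a finite set and square integrable. -/
def STOKES : Prop :=
  ∀ (b : ℂ → (ℂ →L[ℝ] ℝ)) (F : Finset ℂ) (g : ℂ → ℝ), HasCompactSupport b →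
    ContDiffOn ℝ 1 b (F : Set ℂ)ᶜ → MemLp b 2 volume → Integrable g volume →
    (∀ z ∉ F, g z = fderiv ℝ b z 1 I - fderiv ℝ b z I 1) → ∫ z, g z = 0

/-- LOC-4: the pointwise inequality for `J`. -/
def JALG : Prop :=
  ∀ (κ L : ℝ), 0 ≤ κ → κ < 1 → 0 ≤ L → ∃ c₀ C₀ : ℝ, 0 < c₀ ∧ 0 ≤ C₀ ∧
  ∀ (μ β : ℂ × ℂ → ℂ), BoxD μ β κ L → ∀ (z a b : ℂ) (A B : ℂ →L[ℝ] ℂ), a ≠ b →
    lzb A = μ (z, a) * lz A - β (z, a) → lzb B = μ (z, b) * lz B - β (z, b) →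
    c₀ * ‖pdL a b A B‖ ^ 2 - C₀ * (1 + ‖B‖ ^ 2) ≤ pJ a b A B ∧
    |pJ a b A B| ≤ C₀ * ‖pdL a b A B‖ ^ 2 ∧
    ‖lzb (pdL a b A B) - μ (z, a) * lz (pdL a b A B)‖ ≤ C₀ * (1 + ‖B‖)

/-- LOC-5: the basic identity. -/
def STAR : Prop :=
  ∀ (μ β : ℂ × ℂ → ℂ) (κ L : ℝ), BoxD μ β κ L →
  ∀ (c : ℂ) (R : ℝ) (k : ℕ) (S : ℂ → Multiset ℂ) (e : ℂ → ℝ), KG μ β c R k S e →
  DiscOff c R S → ∀ (φ : ℝ → ℝ) (n : ℝ), ContDiff ℝ 1 φ → (∀ t, n ≤ t → φ t = 0) →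
  ∀ η : ℂ → ℝ, ContDiff ℝ 1 η → HasCompactSupport η → tsupport η ⊆ ball c R →
    Integrable (fun z => η z * psum S (fun _ a b A B => deriv φ (pv a b) * pJ a b A B) z) ∧
    Integrable (fun z => psum S (fun z a b A B => φ (pv a b) * wth (fderiv ℝ η z) a b A B) z) ∧
    ∫ z, η z * psum S (fun _ a b A B => deriv φ (pv a b) * pJ a b A B) z =
      ∫ z, psum S (fun z a b A B => φ (pv a b) * wth (fderiv ℝ η z) a b A B) z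

/-- LOC-6: `psum` of a continuous function is continuous on the simple points. -/
def PSC : Prop :=
  ∀ (μ β : ℂ × ℂ → ℂ) (κ L : ℝ), BoxD μ β κ L →
  ∀ (c : ℂ) (R : ℝ) (k : ℕ) (S : ℂ → Multiset ℂ) (e : ℂ → ℝ), KG μ β c R k S e →
  ∀ G : ℂ → ℂ → ℂ → (ℂ →L[ℝ] ℂ) → (ℂ →L[ℝ] ℂ) → ℝ,
    ContinuousOn (fun q : ℂ × ℂ × ℂ × (ℂ →L[ℝ] ℂ) × (ℂ →L[ℝ] ℂ) =>
      G q.1 q.2.1 q.2.2.1 q.2.2.2.1 q.2.2.2.2)
      {q | q.1 ∈ ball c R ∧ q.2.1 ≠ q.2.2.1} →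
    ContinuousOn (psum S G) (Usimp c R S)

/-- LOC-7 (A1): the energy of `log v`. -/
def LOGV : Prop :=
  ∀ (μ β : ℂ × ℂ → ℂ) (κ L : ℝ), BoxD μ β κ L →
  ∀ (c : ℂ) (R : ℝ) (k : ℕ) (S : ℂ → Multiset ℂ) (e : ℂ → ℝ), KG μ β c R k S e →
  DiscOff c R S → (∀ z ∈ ball c R, ∀ a ∈ S z, ∀ b ∈ S z, ‖a - b‖ ≤ Real.exp (-1)) →
  ∀ R' < R, IntegrableOn (psum S (fun _ a b A B => ‖pdL a b A B‖ ^ 2 / pv a b ^ 2)) (ball c R')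

/-- LOC-8 (A2): almost every circle around the centre avoids the non-simple points. -/
def CIRC : Prop :=
  ∀ (μ β : ℂ × ℂ → ℂ) (κ L : ℝ), BoxD μ β κ L →
  ∀ (c : ℂ) (R : ℝ) (k : ℕ) (S : ℂ → Multiset ℂ) (e : ℂ → ℝ), KG μ β c R k S e →
  DiscOff c R S → (∀ z ∈ ball c R, ∀ a ∈ S z, ∀ b ∈ S z, ‖a - b‖ ≤ Real.exp (-1)) →
  ∀ᵐ r : ℝ, 0 < r → r < R → ∀ z, dist z c = r → (S z).Nodup

/-- radial cut-off data: `η = 1` on `ball c R₁`, supported in `ball c R₂`, radial and monotone, the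
closed annulus is simple. -/
structure Cut (c : ℂ) (R : ℝ) (S : ℂ → Multiset ℂ) (R₁ R₂ : ℝ) (η : ℂ → ℝ) : Prop where
  pos : 0 < R₁
  lt : R₁ < R₂
  lt' : R₂ < R
  smooth : ContDiff ℝ ∞ η
  one : ∀ z ∈ closedBall c R₁, η z = 1
  zero : ∀ z ∉ ball c R₂, η z = 0
  nonneg : ∀ z, 0 ≤ η z
  le_one : ∀ z, η z ≤ 1
  radial : ∃ h : ℝ → ℝ, ContDiff ℝ ∞ h ∧ ∀ z, η z = h (‖z - c‖ ^ 2)
  simple : ∀ z, R₁ ≤ dist z c → dist z c ≤ R₂ → (S z).Nodup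

/-- `2 π N`: the flux through the annulus. -/
def flux (S : ℂ → Multiset ℂ) (η : ℂ → ℝ) : ℝ :=
  - ∫ z, psum S (fun z a b A B => wth (fderiv ℝ η z) a b A B) z

/-- LOC-9a: cut-offs exist at every scale. -/
def CUT : Prop :=
  ∀ (μ β : ℂ × ℂ → ℂ) (κ L : ℝ), BoxD μ β κ L →
  ∀ (c : ℂ) (R : ℝ) (k : ℕ) (S : ℂ → Multiset ℂ) (e : ℂ → ℝ), KG μ β c R k S e →
  DiscOff c R S → (∀ z ∈ ball c R, ∀ a ∈ S z, ∀ b ∈ S z, ‖a - b‖ ≤ Real.exp (-1)) →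
  ∀ r : ℝ, 0 < r → r ≤ R → ∃ (R₁ R₂ : ℝ) (η : ℂ → ℝ), R₂ < r ∧ Cut c R S R₁ R₂ η

/-- a fixed smooth truncation: `1` on `(-∞,1]`, `0` on `[2,∞)`, antitone. -/
structure Chi (χ : ℝ → ℝ) : Prop where
  smooth : ContDiff ℝ ∞ χ
  one : ∀ t ≤ 1, χ t = 1
  zero : ∀ t, 2 ≤ t → χ t = 0
  anti : Antitone χ

/-- LOC-9b (B): flux identities. -/
def FLUX : Prop :=
  ∀ (χ : ℝ → ℝ), Chi χ → ∀ (μ β : ℂ × ℂ → ℂ) (κ L : ℝ), BoxD μ β κ L →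
  ∀ (c : ℂ) (R : ℝ) (k : ℕ) (S : ℂ → Multiset ℂ) (e : ℂ → ℝ), KG μ β c R k S e →
  DiscOff c R S → ∀ (R₁ R₂ : ℝ) (η : ℂ → ℝ), Cut c R S R₁ R₂ η →
  (∃ n₀ : ℝ, ∀ n : ℝ, n₀ ≤ n →
    ∫ z, η z * psum S (fun _ a b A B => (- deriv χ (pv a b / n) / n) * pJ a b A B) z
      = flux S η) ∧
  (∃ n₀ C₁ : ℝ, ∀ n : ℝ, n₀ ≤ n →
    |∫ z, η z * psum S (fun _ a b A B => χ (pv a b / n) * pJ a b A B) z
      - n * (∫ t in (0:ℝ)..2, χ t) * flux S η| ≤ C₁) ∧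
  0 ≤ flux S η

/-- LOC-10: the flux is `2π` times an integer. -/
def WIND : Prop :=
  ∀ (μ β : ℂ × ℂ → ℂ) (κ L : ℝ), BoxD μ β κ L →
  ∀ (c : ℂ) (R : ℝ) (k : ℕ) (S : ℂ → Multiset ℂ) (e : ℂ → ℝ), KG μ β c R k S e →
  ∀ (R₁ R₂ : ℝ) (η : ℂ → ℝ), Cut c R S R₁ R₂ η →
  ∃ N : ℤ, flux S η = 2 * Real.pi * N

/-- LOC-11 (C): the flux at a point where all `k ≥ 2` sheets coincide is not zero. -/
def NONZ : Prop :=
  ∀ (μ β : ℂ × ℂ → ℂ) (κ L : ℝ), BoxD μ β κ L →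
  ∀ (c : ℂ) (R : ℝ) (k : ℕ) (S : ℂ → Multiset ℂ) (e : ℂ → ℝ), KG μ β c R k S e →
  DiscOff c R S → 0 < R → AllEq S c → 2 ≤ k →
  ∀ (R₁ R₂ : ℝ) (η : ℂ → ℝ), Cut c R S R₁ R₂ η → flux S η ≠ 0

/-- LOC-12 (D): finitely many non-simple points in the inner disc, if every one of them carries
a cluster of flux `≥ 2π` at arbitrarily small scales. -/
def SUPER : Prop :=
  ∀ (μ β : ℂ × ℂ → ℂ) (κ L : ℝ), BoxD μ β κ L →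
  ∀ (c : ℂ) (R : ℝ) (k : ℕ) (S : ℂ → Multiset ℂ) (e : ℂ → ℝ), KG μ β c R k S e →
  DiscOff c R S → ∀ (R₁ R₂ : ℝ) (η : ℂ → ℝ), Cut c R S R₁ R₂ η →
  (∀ q ∈ Del c R S, q ∈ ball c R₁ → ∀ r > 0,
    ∃ (a : ℂ) (ε r' R₁' R₂' : ℝ) (k' : ℕ) (η' : ℂ → ℝ),
    0 < ε ∧ 0 < r' ∧ r' < r ∧ ball q r' ⊆ ball c R ∧
    KG μ β q r' k' (fun z => (S z).filter (fun b => dist b a < ε)) e ∧
    DiscOff q r' (fun z => (S z).filter (fun b => dist b a < ε)) ∧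
    (∀ z ∈ ball q r', (S z).Nodup → ∀ b ∈ (S z).filter (fun b => dist b a < ε),
      slope (fun z => (S z).filter (fun b => dist b a < ε)) z b = slope S z b) ∧
    Cut q r' (fun z => (S z).filter (fun b => dist b a < ε)) R₁' R₂' η' ∧
    2 * Real.pi ≤ flux (fun z => (S z).filter (fun b => dist b a < ε)) η') →
  (Del c R S ∩ ball c R₁).Finite

end

end Crest.Agent.R235.Loc
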