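import Mathlib
import Crest.Agent.R235.LocDef_607

/-!
Row 235, PACKAGE REG, block CYL (leader helper522): from a closed positive `J`-current in a cylinder
to a `k`-valued graph `Loc.KG`.

Coordinates `x = (t, z) ∈ ℂ × ℂ`, `t` = base, `z` = fibre; the vertical lines are `J`-complex
(with `J = i`), the `(1,0)`-forms are spanned by `dt + μ dt̄` and `dz + β dt̄`.
The current is `S(b) = ∫ b_x(vec A, vec (iA)) dm(x)`, `A x ∈ ℂ × ℂ` the complex coordinates of a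
tangent vector, `|A| = 1`.
-/

set_option autoImplicit false

open MeasureTheory Metric Set Filter Complex
open scoped ContDiff Topology ComplexConjugate

namespace Crest.Agent.R235.Cyl_522

open Crest.Agent.R235.Loc

noncomputable section

/-- the real tangent vector with complex coordinates `A`:
`v + μ v̄ = A.1`, `w + β v̄ = A.2` for `(v, w) = vec μ β A`. -/
def vec (μ β : ℂ) (A : ℂ × ℂ) : ℂ × ℂ :=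
  ((A.1 - μ * conj A.1) / ((1 - ‖μ‖ ^ 2 : ℝ) : ℂ),
    A.2 - β * conj ((A.1 - μ * conj A.1) / ((1 - ‖μ‖ ^ 2 : ℝ) : ℂ)))

/-- the support of a measure. -/
def msupp (m : Measure (ℂ × ℂ)) : Set (ℂ × ℂ) := {x | ∀ ρ > 0, 0 < m (ball x ρ)}

/-- the horizontal measure (`S ∧ (i/2) dt ∧ dt̄`). -/
def hor (μ : ℂ × ℂ → ℂ) (m : Measure (ℂ × ℂ)) (A : ℂ × ℂ → ℂ × ℂ) : Measure (ℂ × ℂ) :=
  m.withDensity fun x => ENNReal.ofReal (‖(A x).1‖ ^ 2 / (1 - ‖μ x‖ ^ 2))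

/-- the slope `p = z_t` of the tangent plane. -/
def sp (A : ℂ × ℂ → ℂ × ℂ) (x : ℂ × ℂ) : ℂ := (A x).2 / (A x).1

/-- the tangent plane as the graph of a real-linear map: `v ↦ p v + (p μ - β) v̄`. -/
def sl (μ β : ℂ × ℂ → ℂ) (A : ℂ × ℂ → ℂ × ℂ) (x : ℂ × ℂ) (v : ℂ) : ℂ :=
  sp A x * v + (sp A x * μ x - β x) * conj v

/-- the value of the two-form `ds` on the tangent plane. -/
def dS (μ β : ℂ × ℂ → ℂ) (A : ℂ × ℂ → ℂ × ℂ) (s : ℂ × ℂ → (ℂ × ℂ →L[ℝ] ℝ)) (x : ℂ × ℂ) : ℝ :=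
  fderiv ℝ s x (vec (μ x) (β x) (A x)) (vec (μ x) (β x) (I • A x)) -
    fderiv ℝ s x (vec (μ x) (β x) (I • A x)) (vec (μ x) (β x) (A x))

/-- flatness with multiplicity one at `x`. -/
structure Flat (μ β : ℂ × ℂ → ℂ) (m : Measure (ℂ × ℂ)) (A : ℂ × ℂ → ℂ × ℂ) (x : ℂ × ℂ) :
    Prop where
  plane : ∀ ε > 0, ∀ᶠ s in 𝓝[>] (0 : ℝ),
    m {y | y ∈ ball x s ∧ ∀ c : ℂ, ε * s < ‖y - x - vec (μ x) (β x) (c • A x)‖} ≤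
      ENNReal.ofReal (ε * s ^ 2)
  one : (A x).1 ≠ 0 → ∀ K : ℝ, ‖sp A x‖ + ‖sp A x * μ x - β x‖ < K →
    Tendsto (fun s : ℝ => (hor μ m A (ball x.1 s ×ˢ ball x.2 (K * s))).toReal / (Real.pi * s ^ 2))
      (𝓝[>] 0) (𝓝 1)

/-- a closed positive `J`-current in the cylinder `ball 0 R × ball 0 1`, multiplicity one. -/
structure Cyl (μ β : ℂ × ℂ → ℂ) (R : ℝ) (m : Measure (ℂ × ℂ)) (A : ℂ × ℂ → ℂ × ℂ)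
    (C c : ℝ) : Prop where
  R0 : 0 < R
  R1 : R ≤ 1
  C0 : 0 < C
  c0 : 0 < c
  fin : m univ < ⊤
  carr : ∀ᵐ x ∂m, ‖x.1‖ < R ∧ ‖x.2‖ ≤ 1 / 2
  meas : Measurable A
  unit : ∀ x, ‖(A x).1‖ ^ 2 + ‖(A x).2‖ ^ 2 = 1
  closed : ∀ s : ℂ × ℂ → (ℂ × ℂ →L[ℝ] ℝ), ContDiff ℝ ∞ s →
    (∃ R' < R, ∀ x : ℂ × ℂ, R' ≤ ‖x.1‖ → s x = 0) → ∫ x, dS μ β A s x ∂m = 0
  up : ∀ (x : ℂ × ℂ) (ρ : ℝ), 0 < ρ → m (ball x ρ) ≤ ENNReal.ofReal (C * ρ ^ 2)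
  low : ∀ x ∈ msupp m, ∀ ρ : ℝ, 0 < ρ → ‖x.1‖ + ρ < R → ENNReal.ofReal (c * ρ ^ 2) ≤ m (ball x ρ)
  flat : ∀ᵐ x ∂m, Flat μ β m A x

/-- coefficients: Lipschitz, smooth on the cylinder. -/
structure Coef (μ β : ℂ × ℂ → ℂ) (κ L : ℝ) : Prop extends BoxD μ β κ L where
  smμ : ContDiff ℝ ∞ μ
  smβ : ContDiff ℝ ∞ β

/-- the fibre of the support. -/
def Kf (m : Measure (ℂ × ℂ)) (t : ℂ) : Set ℂ := {z | (t, z) ∈ msupp m}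

/-- `d` is the degree of the part of the current in `ball t₀ ρ × W`, whose closure in the fibre
direction avoids the support. -/
structure IsDeg (μ : ℂ × ℂ → ℂ) (m : Measure (ℂ × ℂ)) (A : ℂ × ℂ → ℂ × ℂ) (t₀ : ℂ) (ρ : ℝ)
    (W : Set ℂ) (d : ℝ) : Prop where
  nonneg : 0 ≤ d
  eq : ∀ E : Set ℂ, MeasurableSet E → E ⊆ ball t₀ ρ →
    hor μ m A (E ×ˢ W) = ENNReal.ofReal d * volume E

/-! ### geometry of the fibres -/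

/-- (C01) constancy. -/
def CONST : Prop := ∀ (μ β : ℂ × ℂ → ℂ) (κ L : ℝ), Coef μ β κ L →
  ∀ (R : ℝ) (m : Measure (ℂ × ℂ)) (A : ℂ × ℂ → ℂ × ℂ) (C c : ℝ), Cyl μ β R m A C c →
  ∀ (t₀ : ℂ) (ρ : ℝ) (W : Set ℂ), 0 < ρ → ball t₀ ρ ⊆ ball 0 R → IsOpen W →
    (∀ x ∈ msupp m, x.1 ∈ ball t₀ ρ → x.2 ∉ frontier W) → ∃ d, IsDeg μ m A t₀ ρ W d

/-- (C02) null sets have null projection. -/
def NULLP : Prop := ∀ (μ β : ℂ × ℂ → ℂ) (κ L : ℝ), Coef μ β κ L →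
  ∀ (R : ℝ) (m : Measure (ℂ × ℂ)) (A : ℂ × ℂ → ℂ × ℂ) (C c : ℝ), Cyl μ β R m A C c →
  ∀ N : Set (ℂ × ℂ), m N = 0 →
    volume {t : ℂ | t ∈ ball (0 : ℂ) R ∧ ∃ z, (t, z) ∈ N ∧ (t, z) ∈ msupp m} = 0

/-- (C03) the flat vertical points have null projection. -/
def VERT : Prop := ∀ (μ β : ℂ × ℂ → ℂ) (κ L : ℝ), Coef μ β κ L →
  ∀ (R : ℝ) (m : Measure (ℂ × ℂ)) (A : ℂ × ℂ → ℂ × ℂ) (C c : ℝ), Cyl μ β R m A C c →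
    volume {t : ℂ | t ∈ ball (0 : ℂ) R ∧ ∃ z, (t, z) ∈ msupp m ∧ (A (t, z)).1 = 0 ∧
      Flat μ β m A (t, z)} = 0

/-- (C04) almost every fibre is finite. -/
def FINF : Prop := ∀ (μ β : ℂ × ℂ → ℂ) (κ L : ℝ), Coef μ β κ L →
  ∀ (R : ℝ) (m : Measure (ℂ × ℂ)) (A : ℂ × ℂ → ℂ × ℂ) (C c : ℝ), Cyl μ β R m A C c →
    ∀ᵐ t : ℂ, t ∈ ball (0 : ℂ) R → (Kf m t).Finite

/-- (C05) the degree at an isolated flat non-vertical point of the fibre is one. -/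
def DEG1 : Prop := ∀ (μ β : ℂ × ℂ → ℂ) (κ L : ℝ), Coef μ β κ L →
  ∀ (R : ℝ) (m : Measure (ℂ × ℂ)) (A : ℂ × ℂ → ℂ × ℂ) (C c : ℝ), Cyl μ β R m A C c →
  ∀ (t₀ z₀ : ℂ) (ρ : ℝ) (W : Set ℂ) (d : ℝ), 0 < ρ → ball t₀ ρ ⊆ ball 0 R → IsOpen W →
    (∀ x ∈ msupp m, x.1 ∈ ball t₀ ρ → x.2 ∉ frontier W) → IsDeg μ m A t₀ ρ W d →
    Kf m t₀ ∩ W = {z₀} → (A (t₀, z₀)).1 ≠ 0 → Flat μ β m A (t₀, z₀) → d = 1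

/-- (C06) the good fibres: `T t` is the fibre, it has `k` points, and `hor` is the sum over the
fibre. -/
def GOOD : Prop := ∀ (μ β : ℂ × ℂ → ℂ) (κ L : ℝ), Coef μ β κ L →
  ∀ (R : ℝ) (m : Measure (ℂ × ℂ)) (A : ℂ × ℂ → ℂ × ℂ) (C c : ℝ), Cyl μ β R m A C c →
  ∃ (k : ℕ) (T : ℂ → Finset ℂ),
    (∀ᵐ t : ℂ, t ∈ ball (0 : ℂ) R → (T t).card = k ∧ (T t : Set ℂ) = Kf m t ∧
      ∀ z ∈ T t, (A (t, z)).1 ≠ 0 ∧ Flat μ β m A (t, z)) ∧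
    (∀ Φ : ℂ × ℂ → ENNReal, Measurable Φ →
      AEMeasurable (fun t => ∑ z ∈ T t, Φ (t, z)) (volume.restrict (ball 0 R)) ∧
      ∫⁻ x, Φ x ∂(hor μ m A) = ∫⁻ t in ball (0 : ℂ) R, ∑ z ∈ T t, Φ (t, z))

/-- good fibre data (the conclusion of `GOOD`, as a structure). -/
structure Fib (μ β : ℂ × ℂ → ℂ) (R : ℝ) (m : Measure (ℂ × ℂ)) (A : ℂ × ℂ → ℂ × ℂ) (k : ℕ)
    (T : ℂ → Finset ℂ) : Prop where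
  good : ∀ᵐ t : ℂ, t ∈ ball (0 : ℂ) R → (T t).card = k ∧ (T t : Set ℂ) = Kf m t ∧
      ∀ z ∈ T t, (A (t, z)).1 ≠ 0 ∧ Flat μ β m A (t, z)
  dis : ∀ Φ : ℂ × ℂ → ENNReal, Measurable Φ →
      AEMeasurable (fun t => ∑ z ∈ T t, Φ (t, z)) (volume.restrict (ball 0 R)) ∧
      ∫⁻ x, Φ x ∂(hor μ m A) = ∫⁻ t in ball (0 : ℂ) R, ∑ z ∈ T t, Φ (t, z)

/-! ### weak derivatives and Hölder continuity -/

/-- energy density of the sheets. -/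
def en (A : ℂ × ℂ → ℂ × ℂ) (T : ℂ → Finset ℂ) (t : ℂ) : ℝ := ∑ z ∈ T t, (1 + ‖sp A (t, z)‖ ^ 2)

/-- (C07) the energy of the sheets is controlled by the mass. -/
def ENER : Prop := ∀ (μ β : ℂ × ℂ → ℂ) (κ L : ℝ), Coef μ β κ L → ∃ K : ℝ, 0 < K ∧
  ∀ (R : ℝ) (m : Measure (ℂ × ℂ)) (A : ℂ × ℂ → ℂ × ℂ) (C c : ℝ), Cyl μ β R m A C c →
  ∀ (k : ℕ) (T : ℂ → Finset ℂ), Fib μ β R m A k T →
    IntegrableOn (en A T) (ball 0 R) ∧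
    ∀ E : Set ℂ, MeasurableSet E → E ⊆ ball 0 R →
      ∫ t in E, en A T t ≤ K * (m (E ×ˢ univ)).toReal

/-- (C08) weak derivative of a symmetric function of the fibre. -/
def WEAKF : Prop := ∀ (μ β : ℂ × ℂ → ℂ) (κ L : ℝ), Coef μ β κ L →
  ∀ (R : ℝ) (m : Measure (ℂ × ℂ)) (A : ℂ × ℂ → ℂ × ℂ) (C c : ℝ), Cyl μ β R m A C c →
  ∀ (k : ℕ) (T : ℂ → Finset ℂ), Fib μ β R m A k T →
  ∀ (Φ : ℂ × ℂ → ℝ), ContDiff ℝ ∞ Φ → ∀ (η : ℂ → ℝ), ContDiff ℝ ∞ η → HasCompactSupport η →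
    tsupport η ⊆ ball 0 R → ∀ v : ℂ,
    ∫ t, (∑ z ∈ T t, Φ (t, z)) * fderiv ℝ η t v =
      - ∫ t, η t * ∑ z ∈ T t, fderiv ℝ Φ (t, z) (v, sl μ β A (t, z) v)

/-- (C08') Stokes in the vertical direction: `c ∫ η dm ≤` the boundary term. -/
def STK : Prop := ∀ (μ β : ℂ × ℂ → ℂ) (κ L : ℝ), Coef μ β κ L → ∃ K : ℝ, 0 < K ∧
  ∀ (R : ℝ) (m : Measure (ℂ × ℂ)) (A : ℂ × ℂ → ℂ × ℂ) (C c : ℝ), Cyl μ β R m A C c →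
  ∀ (k : ℕ) (T : ℂ → Finset ℂ), Fib μ β R m A k T →
  ∀ (η : ℂ → ℝ), ContDiff ℝ ∞ η → HasCompactSupport η → tsupport η ⊆ ball 0 R → (∀ t, 0 ≤ η t) →
    ∫ x, η x.1 ∂m ≤ K * (k * ∫ t, η t) + K *
      |∫ t, ∑ z ∈ T t, (fderiv ℝ η t 1 * (conj z * sl μ β A (t, z) I).im -
        fderiv ℝ η t I * (conj z * sl μ β A (t, z) 1).im)|

/-- (C09) hole filling: power decay of the mass over small discs. -/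
def HOLE : Prop := ∀ (μ β : ℂ × ℂ → ℂ) (κ L : ℝ), Coef μ β κ L →
  ∀ (R : ℝ) (m : Measure (ℂ × ℂ)) (A : ℂ × ℂ → ℂ × ℂ) (C c : ℝ), Cyl μ β R m A C c →
  ∀ (k : ℕ) (T : ℂ → Finset ℂ), Fib μ β R m A k T →
  ∃ C' b : ℝ, 0 < C' ∧ 0 < b ∧ b < 1 ∧ ∀ t₀ ∈ ball (0 : ℂ) (R / 2), ∀ ρ : ℝ, 0 < ρ → ρ ≤ R / 2 →
    (m (ball t₀ ρ ×ˢ univ)).toReal ≤ C' * ρ ^ (2 * b)

/-- (C10) Hölder continuity of the good fibres. -/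
def HOLDA : Prop := ∀ (μ β : ℂ × ℂ → ℂ) (κ L : ℝ), Coef μ β κ L →
  ∀ (R : ℝ) (m : Measure (ℂ × ℂ)) (A : ℂ × ℂ → ℂ × ℂ) (C c : ℝ), Cyl μ β R m A C c →
  ∀ (k : ℕ) (T : ℂ → Finset ℂ), Fib μ β R m A k T →
  ∀ C' b : ℝ, 0 < C' → 0 < b → b < 1 → (∀ t₀ ∈ ball (0 : ℂ) (R / 2), ∀ ρ : ℝ, 0 < ρ → ρ ≤ R / 2 →
    (m (ball t₀ ρ ×ˢ univ)).toReal ≤ C' * ρ ^ (2 * b)) →
  ∃ C'' : ℝ, 0 < C'' ∧ ∃ N : Set ℂ, volume N = 0 ∧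
    ∀ t ∈ ball (0 : ℂ) (R / 4) \ N, ∀ t' ∈ ball (0 : ℂ) (R / 4) \ N,
      Close (C'' * dist t t' ^ b) (T t).val (T t').val

/-- (C11) extension of an almost everywhere defined Hölder multiset function. -/
def EXT : Prop := ∀ (k : ℕ) (ρ C b : ℝ) (T : ℂ → Multiset ℂ) (N : Set ℂ), 0 < ρ → 0 < C → 0 < b →
  volume N = 0 → (∀ t ∈ ball (0 : ℂ) ρ \ N, (T t).card = k) →
  (∀ t ∈ ball (0 : ℂ) ρ \ N, ∀ t' ∈ ball (0 : ℂ) ρ \ N, Close (C * dist t t' ^ b) (T t) (T t')) →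
  ∃ S : ℂ → Multiset ℂ, (∀ t ∈ ball (0 : ℂ) ρ, (S t).card = k) ∧
    (∀ t ∈ ball (0 : ℂ) ρ \ N, S t = T t) ∧
    ∀ t ∈ ball (0 : ℂ) ρ, ∀ t' ∈ ball (0 : ℂ) ρ, Close (C * dist t t' ^ b) (S t) (S t')

/-- the extended fibres. -/
structure ExtF (μ β : ℂ × ℂ → ℂ) (R : ℝ) (m : Measure (ℂ × ℂ)) (A : ℂ × ℂ → ℂ × ℂ) (k : ℕ)
    (T : ℂ → Finset ℂ) (C' b : ℝ) (S : ℂ → Multiset ℂ) : Prop where
  C0 : 0 < C'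
  b0 : 0 < b
  b1 : b < 1
  decay : ∀ t₀ ∈ ball (0 : ℂ) (R / 2), ∀ ρ : ℝ, 0 < ρ → ρ ≤ R / 2 →
    (m (ball t₀ ρ ×ˢ univ)).toReal ≤ C' * ρ ^ (2 * b)
  card : ∀ t ∈ ball (0 : ℂ) (R / 4), (S t).card = k
  ae : ∀ᵐ t : ℂ, t ∈ ball (0 : ℂ) (R / 4) → S t = (T t).val
  hold : ∀ t ∈ ball (0 : ℂ) (R / 4), ∀ t' ∈ ball (0 : ℂ) (R / 4),
    Close (C' * dist t t' ^ b) (S t) (S t')

/-- (C12) the support over the small disc is the graph of `S`. -/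
def SUPP : Prop := ∀ (μ β : ℂ × ℂ → ℂ) (κ L : ℝ), Coef μ β κ L →
  ∀ (R : ℝ) (m : Measure (ℂ × ℂ)) (A : ℂ × ℂ → ℂ × ℂ) (C c : ℝ), Cyl μ β R m A C c →
  ∀ (k : ℕ) (T : ℂ → Finset ℂ), Fib μ β R m A k T →
  ∀ (C' b : ℝ) (S : ℂ → Multiset ℂ), ExtF μ β R m A k T C' b S →
    ∀ t ∈ ball (0 : ℂ) (R / 4), ∀ z, (t, z) ∈ msupp m ↔ z ∈ S t

/-- (C13) a simple continuous sheet is smooth and solves the equation. -/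
def SHEET : Prop := ∀ (μ β : ℂ × ℂ → ℂ) (κ L : ℝ), Coef μ β κ L →
  ∀ (R : ℝ) (m : Measure (ℂ × ℂ)) (A : ℂ × ℂ → ℂ × ℂ) (C c : ℝ), Cyl μ β R m A C c →
  ∀ (k : ℕ) (T : ℂ → Finset ℂ), Fib μ β R m A k T →
  ∀ (C' b : ℝ) (S : ℂ → Multiset ℂ), ExtF μ β R m A k T C' b S →
  ∀ (V : Set ℂ) (w : ℂ → ℂ), V ⊆ ball 0 (R / 4) → Sheet S V w →
    ContDiffOn ℝ ∞ w V ∧
    (∀ z ∈ V, lzb (fderiv ℝ w z) = μ (z, w z) * lz (fderiv ℝ w z) - β (z, w z)) ∧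
    ∀ᵐ z : ℂ, z ∈ V → lz (fderiv ℝ w z) = sp A (z, w z)

/-- (C14) the `k`-valued graph. -/
def TOKG : Prop := ∀ (μ β : ℂ × ℂ → ℂ) (κ L : ℝ), Coef μ β κ L →
  ∀ (R : ℝ) (m : Measure (ℂ × ℂ)) (A : ℂ × ℂ → ℂ × ℂ) (C c : ℝ), Cyl μ β R m A C c →
  ∃ (k : ℕ) (T : ℂ → Finset ℂ) (C' b : ℝ) (S : ℂ → Multiset ℂ) (e : ℂ → ℝ),
    Fib μ β R m A k T ∧ ExtF μ β R m A k T C' b S ∧ KG μ β 0 (R / 4) k S e ∧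
    ∀ t ∈ ball (0 : ℂ) (R / 4), ∀ z, (t, z) ∈ msupp m ↔ z ∈ S t

/-- (C15) after `LOC`: no vertical part, and the current is the sum over the sheets. -/
def NOVERT : Prop := ∀ (μ β : ℂ × ℂ → ℂ) (κ L : ℝ), Coef μ β κ L →
  ∀ (R : ℝ) (m : Measure (ℂ × ℂ)) (A : ℂ × ℂ → ℂ × ℂ) (C c : ℝ), Cyl μ β R m A C c →
  ∀ (k : ℕ) (T : ℂ → Finset ℂ), Fib μ β R m A k T →
  ∀ (C' b : ℝ) (S : ℂ → Multiset ℂ) (e : ℂ → ℝ), ExtF μ β R m A k T C' b S →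
  KG μ β 0 (R / 4) k S e → (∀ p ∈ ball (0 : ℂ) (R / 4), ∀ᶠ z in 𝓝[≠] p, (S z).Nodup) →
    m {x | x.1 ∈ ball (0 : ℂ) (R / 4) ∧ (A x).1 = 0} = 0 ∧
    ∀ b : ℂ × ℂ → (ℂ × ℂ →L[ℝ] ℂ × ℂ →L[ℝ] ℝ), Continuous b →
      (∃ R' < R / 4, ∀ x : ℂ × ℂ, R' ≤ ‖x.1‖ → b x = 0) →
      ∫ x, (b x (vec (μ x) (β x) (A x)) (vec (μ x) (β x) (I • A x)) -
        b x (vec (μ x) (β x) (I • A x)) (vec (μ x) (β x) (A x))) ∂m =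
      ∫ t in ball (0 : ℂ) (R / 4), ((S t).map fun z =>
        (b (t, z) (1, slope S t z 1) (I, slope S t z I) -
          b (t, z) (I, slope S t z I) (1, slope S t z 1))).sum

end

end Crest.Agent.R235.Cyl_522
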