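import Crest.Agent.R235.LocDef_607

/-!
Row 235 (S0364), PACKAGE REG, block REG-END (helper745): frozen definitions and the output.

`END`: near every point `P` of the box, the graph of the `k`-valued function `S` (from REG-CYL,
with the bad points isolated by REG-LOC) is a finite union of properly embedded `J`-discs
`u j : ball 0 1 → ℂ × ℂ` through `P`, injective, immersive off `0`, pairwise disjoint off `0`, and
the current is the sum of the integrals over the discs.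

`J` is given by its `(1,0)`-forms `dz + μ dz̄`, `dw + β dz̄` (`z` = base, `w` = fibre).
-/

set_option autoImplicit false

open MeasureTheory Metric Set Filter Complex
open scoped ContDiff Topology ComplexConjugate

namespace Crest.Agent.R235.End

open Crest.Agent.R235.Loc

noncomputable section

/-- a planar `J`-disc: smooth, `J`-holomorphic (`θ (du (i v)) = i θ (du v)` for the two
`(1,0)`-forms), injective, immersive off the centre. -/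
structure PDisc (μ β : ℂ × ℂ → ℂ) (u : ℂ → ℂ × ℂ) : Prop where
  smooth : ContDiffOn ℝ ∞ u (ball 0 1)
  jz : ∀ z ∈ ball (0 : ℂ) 1, ∀ v : ℂ,
    (fderiv ℝ u z (I * v)).1 + μ (u z) * conj (fderiv ℝ u z (I * v)).1 =
      I * ((fderiv ℝ u z v).1 + μ (u z) * conj (fderiv ℝ u z v).1)
  jw : ∀ z ∈ ball (0 : ℂ) 1, ∀ v : ℂ,
    (fderiv ℝ u z (I * v)).2 + β (u z) * conj (fderiv ℝ u z (I * v)).1 =
      I * ((fderiv ℝ u z v).2 + β (u z) * conj (fderiv ℝ u z v).1)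
  inj : InjOn u (ball 0 1)
  imm : ∀ z ∈ ball (0 : ℂ) 1, z ≠ 0 → ∀ v : ℂ, fderiv ℝ u z v = 0 → v = 0

/-- local form at `P` of the graph of the multiset function `S`, inside `V`. -/
structure PLoc (μ β : ℂ × ℂ → ℂ) (S : ℂ → Multiset ℂ) (P : ℂ × ℂ) (V : Set (ℂ × ℂ))
    (U : Set (ℂ × ℂ)) (n : ℕ) (u : Fin n → ℂ → ℂ × ℂ) : Prop where
  openU : IsOpen U
  mem : P ∈ U
  sub : U ⊆ V
  disc : ∀ j, PDisc μ β (u j)
  centre : ∀ j, u j 0 = P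
  disj : ∀ i j, i ≠ j → ∀ z ∈ ball (0 : ℂ) 1, ∀ w ∈ ball (0 : ℂ) 1, u i z = u j w → z = 0
  supp : {q : ℂ × ℂ | q.2 ∈ S q.1} ∩ U = ⋃ j, u j '' ball (0 : ℂ) 1
  proper : ∀ j, ∀ K : Set (ℂ × ℂ), IsCompact K → K ⊆ U →
    ∃ r < (1 : ℝ), ∀ z ∈ ball (0 : ℂ) 1, u j z ∈ K → ‖z‖ ≤ r
  cur : ∀ g : ℂ × ℂ → (ℂ × ℂ →L[ℝ] ℂ × ℂ →L[ℝ] ℝ), Continuous g → (∀ q v, g q v v = 0) →
    (∃ K ⊆ U, IsCompact K ∧ ∀ q ∉ K, g q = 0) →
    Integrable (fun z => ∑ w ∈ (S z).toFinset,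
        g (z, w) (1, slope S z w 1) (I, slope S z w I)) ∧
    (∀ j, IntegrableOn (fun t => g (u j t) (fderiv ℝ (u j) t 1) (fderiv ℝ (u j) t I))
      (ball 0 1)) ∧
    ∫ z, ∑ w ∈ (S z).toFinset, g (z, w) (1, slope S z w 1) (I, slope S z w I) =
      ∑ j, ∫ t in ball (0 : ℂ) 1, g (u j t) (fderiv ℝ (u j) t 1) (fderiv ℝ (u j) t I)

/-- **END.** `P = (p, w₀)` any point over the ball (if `w₀ ∉ S p` then `n = 0`), `V` any
neighbourhood of `P`. -/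
def END : Prop :=
  ∀ (μ β : ℂ × ℂ → ℂ) (κ L : ℝ), BoxD μ β κ L → ContDiff ℝ ∞ μ → ContDiff ℝ ∞ β →
  ∀ (c : ℂ) (R : ℝ) (k : ℕ) (S : ℂ → Multiset ℂ) (e : ℂ → ℝ), KG μ β c R k S e →
  ∀ p ∈ ball c R,
    (∃ C b r : ℝ, 0 < b ∧ 0 < r ∧ ∀ z ∈ ball p r, ∀ z' ∈ ball p r,
      Close (C * dist z z' ^ b) (S z) (S z')) →
    (∀ᶠ z in 𝓝[≠] p, (S z).Nodup) →
  ∀ (w₀ : ℂ) (V : Set (ℂ × ℂ)), IsOpen V → (p, w₀) ∈ V → V ⊆ ball c R ×ˢ univ →
    ∃ (U : Set (ℂ × ℂ)) (n : ℕ) (u : Fin n → ℂ → ℂ × ℂ), PLoc μ β S (p, w₀) V U n u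

end

end Crest.Agent.R235.End
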