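import Crest.Agent.R235.CylDef_607

/-!
Row 235 (S0364), PACKAGE REG, REG-CYL C3 (task 281, helper423):
small cylinders at flat non-vertical points have degree one.
-/

set_option autoImplicit false

open MeasureTheory Metric Set Filter Complex
open scoped ContDiff Topology

namespace Crest.Agent.R235.CylDeg_423

open Crest.Agent.R235.Loc Crest.Agent.R235.Cyl

noncomputable section

/-- almost every point is in the support. -/
theorem ae_inSupp (m : Measure CC) : ∀ᵐ p ∂m, InSupp m p := by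
  have h := MeasureTheory.Measure.support_mem_ae (μ := m)
  filter_upwards [h] with p hp r hr
  exact (Measure.mem_support_iff_forall p).1 hp _ (ball_mem_nhds p hr)

/-! ### the slope -/

theorem slo_X (X Y : CC) (h : hh X Y ≠ 0) : slo X Y X.1 = X.2 := by
  have h1 : X.1.re • (V1 X Y).2 + X.1.im • (VI X Y).2 = hh X Y • X.2 := by
    apply Complex.ext <;> simp [V1, VI, hh] <;> ring
  have h2 : slo X Y X.1 = (hh X Y)⁻¹ • (X.1.re • (V1 X Y).2 + X.1.im • (VI X Y).2) := by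
    simp [slo]
  rw [h2, h1, inv_smul_smul₀ h]

theorem slo_Y (X Y : CC) (h : hh X Y ≠ 0) : slo X Y Y.1 = Y.2 := by
  have h1 : Y.1.re • (V1 X Y).2 + Y.1.im • (VI X Y).2 = hh X Y • Y.2 := by
    apply Complex.ext <;> simp [V1, VI, hh] <;> ring
  have h2 : slo X Y Y.1 = (hh X Y)⁻¹ • (Y.1.re • (V1 X Y).2 + Y.1.im • (VI X Y).2) := by
    simp [slo]
  rw [h2, h1, inv_smul_smul₀ h]

theorem slo_comb (X Y : CC) (h : hh X Y ≠ 0) (s t : ℝ) :
    (s • X + t • Y).2 = slo X Y (s • X + t • Y).1 := by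
  simp only [Prod.snd_add, Prod.smul_snd, Prod.fst_add, Prod.smul_fst, map_add, map_smul,
    slo_X X Y h, slo_Y X Y h]

/-- the support is in a cone around a non-vertical plane. -/
theorem thin {m : Measure CC} {X Y : CC → CC} {p : CC} (hp : 0 < hh (X p) (Y p))
    (hc : ∀ ε > 0, ∃ r₁ > 0, ∀ q : CC, InSupp m q → dist q p < r₁ →
      ∃ ζ : ℂ, ‖q - p - (ζ.re • X p + ζ.im • Y p)‖ ≤ ε * ‖q - p‖) :
    ∃ K₁ r₁ : ℝ, 1 ≤ K₁ ∧ ‖slo (X p) (Y p)‖ ≤ K₁ ∧ 0 < r₁ ∧
      ∀ q : CC, InSupp m q → dist q p < r₁ → ‖q.2 - p.2‖ ≤ K₁ * ‖q.1 - p.1‖ := by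
  set K₀ : ℝ := ‖slo (X p) (Y p)‖ with hK₀
  have hK₀0 : 0 ≤ K₀ := norm_nonneg _
  obtain ⟨r₁, hr₁, H⟩ := hc (1 / (2 * (1 + K₀))) (by positivity)
  refine ⟨2 * K₀ + 1, r₁, by linarith, by linarith, hr₁, fun q hq hqp => ?_⟩
  obtain ⟨ζ, hζ⟩ := H q hq hqp
  set v : CC := ζ.re • X p + ζ.im • Y p with hv
  have hv2 : v.2 = slo (X p) (Y p) v.1 := slo_comb _ _ hp.ne' _ _
  have hv3 : ‖v.2‖ ≤ K₀ * ‖v.1‖ := by
    rw [hv2]; exact ContinuousLinearMap.le_opNorm _ _
  set n : ℝ := ‖q - p‖ with hn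
  have hn0 : 0 ≤ n := norm_nonneg _
  have e1 : ‖q.1 - p.1 - v.1‖ ≤ 1 / (2 * (1 + K₀)) * n :=
    (norm_fst_le (q - p - v)).trans hζ
  have e2 : ‖q.2 - p.2 - v.2‖ ≤ 1 / (2 * (1 + K₀)) * n :=
    (norm_snd_le (q - p - v)).trans hζ
  have e3 : ‖v.1‖ ≤ ‖q.1 - p.1‖ + 1 / (2 * (1 + K₀)) * n := by
    have : v.1 = (q.1 - p.1) - (q.1 - p.1 - v.1) := by abel
    calc ‖v.1‖ = ‖(q.1 - p.1) - (q.1 - p.1 - v.1)‖ := by rw [← this]
      _ ≤ ‖q.1 - p.1‖ + ‖q.1 - p.1 - v.1‖ := norm_sub_le _ _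
      _ ≤ _ := by linarith
  have e4 : ‖q.2 - p.2‖ ≤ ‖v.2‖ + 1 / (2 * (1 + K₀)) * n := by
    have : q.2 - p.2 = v.2 + (q.2 - p.2 - v.2) := by abel
    calc ‖q.2 - p.2‖ = ‖v.2 + (q.2 - p.2 - v.2)‖ := by rw [← this]
      _ ≤ ‖v.2‖ + ‖q.2 - p.2 - v.2‖ := norm_add_le _ _
      _ ≤ _ := by linarith
  have e5 : ‖q.2 - p.2‖ ≤ K₀ * ‖q.1 - p.1‖ + n / 2 := by
    have h1 : K₀ * ‖v.1‖ ≤ K₀ * (‖q.1 - p.1‖ + 1 / (2 * (1 + K₀)) * n) :=
      mul_le_mul_of_nonneg_left e3 hK₀0
    have h2 : K₀ * (1 / (2 * (1 + K₀)) * n) + 1 / (2 * (1 + K₀)) * n = n / 2 := by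
      field_simp
      ring
    nlinarith
  have hmax : n = max ‖q.1 - p.1‖ ‖q.2 - p.2‖ := by
    rw [hn, Prod.norm_def]; rfl
  have ha : 0 ≤ ‖q.1 - p.1‖ := norm_nonneg _
  rcases le_total ‖q.1 - p.1‖ ‖q.2 - p.2‖ with hle | hle
  · rw [max_eq_right hle] at hmax
    rw [hmax] at e5
    nlinarith
  · rw [max_eq_left hle] at hmax
    rw [hmax] at e5
    nlinarith

/-! ### linear change of variables -/

/-- the real linear map `ζ ↦ ζ.re • a + ζ.im • b`. -/
def TT (a b : ℂ) : ℂ →ₗ[ℝ] ℂ := Complex.reLm.smulRight a + Complex.imLm.smulRight b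

theorem TT_apply (a b ζ : ℂ) : TT a b ζ = ζ.re • a + ζ.im • b := by
  simp [TT]

theorem det_TT (a b : ℂ) : LinearMap.det (TT a b) = a.re * b.im - b.re * a.im := by
  rw [← LinearMap.det_toMatrix Complex.basisOneI, Matrix.det_fin_two]
  simp [LinearMap.toMatrix_apply, TT_apply]

theorem int_TT (a b : ℂ) (h : 0 < a.re * b.im - b.re * a.im) (f : ℂ → ℝ) (hf : Continuous f) :
    (∫ ζ : ℂ, f (ζ.re • a + ζ.im • b)) * (a.re * b.im - b.re * a.im) = ∫ z : ℂ, f z := by
  have hd : LinearMap.det (TT a b) ≠ 0 := by rw [det_TT]; exact h.ne'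
  have h1 := Measure.map_linearMap_addHaar_eq_smul_addHaar (volume : Measure ℂ) hd
  have hc : Continuous (TT a b) := LinearMap.continuous_of_finiteDimensional _
  have h2 : ∫ z : ℂ, f z ∂(Measure.map (TT a b) volume) = ∫ ζ : ℂ, f (TT a b ζ) :=
    integral_map hc.measurable.aemeasurable hf.aestronglyMeasurable
  rw [h1, integral_smul_measure, ENNReal.toReal_ofReal (abs_nonneg _), det_TT,
    abs_of_pos (inv_pos.2 h)] at h2
  have h3 : ∫ ζ : ℂ, f (ζ.re • a + ζ.im • b) = ∫ ζ : ℂ, f (TT a b ζ) := by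
    simp only [TT_apply]
  rw [h3, ← h2, smul_eq_mul]
  field_simp

/-! ### the push-forward to the base -/

/-- if `H(A × B) = d |A|` for `A ⊆ ball z r` then `∫ φ(q.1) dH = d ∫ φ`. -/
theorem push {m : Measure CC} [IsFiniteMeasure m] {h : CC → ℝ} (hm : Measurable h)
    (h0 : ∀ q, 0 ≤ h q) (hi : Integrable h m) {z : ℂ} {r : ℝ} {B : Set ℂ} (hB : IsOpen B) {d : ℝ}
    (hd : 0 ≤ d)
    (hA : ∀ A : Set ℂ, MeasurableSet A → A ⊆ ball z r →
      ∫ q in A ×ˢ B, h q ∂m = d * volume.real A)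
    (φ : ℂ → ℝ) (hφ : Continuous φ) :
    ∫ q in (ball z r) ×ˢ B, φ q.1 * h q ∂m = d * ∫ w in ball z r, φ w := by
  set S : Set CC := (ball z r) ×ˢ B with hS
  have hSm : MeasurableSet S := measurableSet_ball.prod hB.measurableSet
  set ν₀ : Measure CC := (m.restrict S).withDensity (fun q => ENNReal.ofReal (h q)) with hν₀
  have hν : Measure.map Prod.fst ν₀ = ENNReal.ofReal d • volume.restrict (ball z r) := by
    ext A hAm
    rw [Measure.map_apply measurable_fst hAm, hν₀,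
      withDensity_apply _ (measurable_fst hAm), Measure.restrict_restrict (measurable_fst hAm),
      Measure.smul_apply, Measure.restrict_apply hAm, smul_eq_mul]
    have hset : Prod.fst ⁻¹' A ∩ S = (A ∩ ball z r) ×ˢ B := by
      ext q
      simp only [hS, mem_inter_iff, mem_preimage, mem_prod]
      tauto
    have h1 := hA (A ∩ ball z r) (hAm.inter measurableSet_ball) inter_subset_right
    rw [hset, ← ofReal_integral_eq_lintegral_ofReal hi.integrableOn
      (Eventually.of_forall fun q => h0 q), h1, ENNReal.ofReal_mul hd]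
    congr 1
    rw [Measure.real, ENNReal.ofReal_toReal]
    exact (lt_of_le_of_lt (measure_mono inter_subset_right) measure_ball_lt_top).ne
  have h2 : ∫ w, φ w ∂(Measure.map Prod.fst ν₀) = ∫ q, φ q.1 ∂ν₀ :=
    integral_map measurable_fst.aemeasurable hφ.aestronglyMeasurable
  rw [hν, integral_smul_measure, ENNReal.toReal_ofReal hd, hν₀,
    integral_withDensity_eq_integral_toReal_smul (by fun_prop)
      (Eventually.of_forall fun q => ENNReal.ofReal_lt_top)] at h2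
  rw [smul_eq_mul] at h2
  rw [h2]
  refine integral_congr_ae (Eventually.of_forall fun q => ?_)
  simp only [smul_eq_mul]
  rw [ENNReal.toReal_ofReal (h0 q), mul_comm]

/-! ### test forms -/

/-- the form `dx ∧ dy`. -/
def om : CC →L[ℝ] CC →L[ℝ] ℝ :=
  ((reCLM.comp (ContinuousLinearMap.fst ℝ ℂ ℂ)).smulRight
    (imCLM.comp (ContinuousLinearMap.fst ℝ ℂ ℂ))) -
  ((imCLM.comp (ContinuousLinearMap.fst ℝ ℂ ℂ)).smulRight
    (reCLM.comp (ContinuousLinearMap.fst ℝ ℂ ℂ)))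

theorem om_apply (X Y : CC) : om X Y = hh X Y := by
  simp [om, hh]; ring

/-- base profile. -/
def f1 (z : ℂ) : ℝ := max 0 (1 - ‖z‖)

/-- fibre profile. -/
def f2 (K₁ : ℝ) (w : ℂ) : ℝ := max 0 (min 1 (K₁ + 2 - ‖w‖))

theorem f1_cont : Continuous f1 := by unfold f1; fun_prop

theorem f2_cont (K₁ : ℝ) : Continuous (f2 K₁) := by unfold f2; fun_prop

theorem f1_zero {z : ℂ} (h : 1 ≤ ‖z‖) : f1 z = 0 := by
  unfold f1; exact max_eq_left (by linarith)

theorem f1_nonneg (z : ℂ) : 0 ≤ f1 z := le_max_left _ _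

theorem f2_zero {K₁ : ℝ} {w : ℂ} (h : K₁ + 2 ≤ ‖w‖) : f2 K₁ w = 0 := by
  unfold f2
  exact max_eq_left ((min_le_right _ _).trans (by linarith))

theorem f2_one {K₁ : ℝ} {w : ℂ} (h : ‖w‖ ≤ K₁ + 1) : f2 K₁ w = 1 := by
  unfold f2
  rw [min_eq_left (by linarith), max_eq_right zero_le_one]

theorem f1_supp : HasCompactSupport f1 := by
  refine HasCompactSupport.intro (isCompact_closedBall (0 : ℂ) 1) fun z hz => ?_
  refine f1_zero ?_
  rw [mem_closedBall_zero_iff, not_le] at hz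
  exact hz.le

theorem int_f1_pos : 0 < ∫ z : ℂ, f1 z := by
  refine Continuous.integral_pos_of_hasCompactSupport_nonneg_nonzero f1_cont f1_supp f1_nonneg
    (x := 0) ?_
  simp [f1]

/-- the test form. -/
def gg (K₁ : ℝ) (y : CC) : CC →L[ℝ] CC →L[ℝ] ℝ := (f1 y.1 * f2 K₁ y.2) • om

theorem gg_apply (K₁ : ℝ) (y X Y : CC) : gg K₁ y X Y = f1 y.1 * f2 K₁ y.2 * hh X Y := by
  simp [gg, om_apply]

theorem gg_cont (K₁ : ℝ) : Continuous (gg K₁) := by
  have h1 : Continuous fun y : CC => f1 y.1 := f1_cont.comp continuous_fst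
  have h2 : Continuous fun y : CC => f2 K₁ y.2 := (f2_cont K₁).comp continuous_snd
  exact (h1.mul h2).smul continuous_const

theorem gg_supp (K₁ : ℝ) : HasCompactSupport (gg K₁) := by
  refine HasCompactSupport.intro
    ((isCompact_closedBall (0 : ℂ) 1).prod (isCompact_closedBall (0 : ℂ) (K₁ + 2))) fun y hy => ?_
  have : f1 y.1 * f2 K₁ y.2 = 0 := by
    by_cases h1 : y.1 ∈ closedBall (0 : ℂ) 1
    · have h2 : y.2 ∉ closedBall (0 : ℂ) (K₁ + 2) := fun h => hy ⟨h1, h⟩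
      rw [mem_closedBall_zero_iff, not_le] at h2
      rw [f2_zero h2.le, mul_zero]
    · rw [mem_closedBall_zero_iff, not_le] at h1
      rw [f1_zero h1.le, zero_mul]
  refine ContinuousLinearMap.ext fun X => ContinuousLinearMap.ext fun Y => ?_
  rw [gg_apply, this, zero_mul]
  rfl

theorem gg_alt (K₁ : ℝ) (q v : CC) : gg K₁ q v v = 0 := by
  rw [gg_apply]; simp only [hh]; ring

/-- scaling. -/
theorem int_scale (z : ℂ) {s : ℝ} (hs : 0 < s) :
    ∫ w : ℂ, f1 (s⁻¹ • (w - z)) = s ^ 2 * ∫ w : ℂ, f1 w := by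
  have h1 : ∫ w : ℂ, f1 (s⁻¹ • (w - z)) = ∫ w : ℂ, f1 (s⁻¹ • w) :=
    integral_sub_right_eq_self (fun w : ℂ => f1 (s⁻¹ • w)) z
  rw [h1, Measure.integral_comp_inv_smul_of_nonneg _ _ hs.le, Complex.finrank_real_complex,
    smul_eq_mul]

/-- **C3**: degree one at flat non-vertical points. -/
theorem deg1_of (h0 : ALG0) (h1 : CONE) (h2 : CONST) : DEG1 := by
  intro μ β κ L hb c R ρ K m X Y hm p hpR hps hflat hpp ε hε
  have := hm.fin
  obtain ⟨C₀, c₀, hc₀, hC₀, hal⟩ := h0 κ L K hb.box.κ0 hb.box.κ1 hb.box.L0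
  have hal' : ∀ q : CC, 0 ≤ hh (X q) (Y q) ∧ hh (X q) (Y q) ≤ C₀ := fun q =>
    ⟨(hal μ β hb q (X q) (Y q) (hm.nX q) (hm.nY q) (hm.jz q) (hm.jw q)).1,
     (hal μ β hb q (X q) (Y q) (hm.nX q) (hm.nY q) (hm.jz q) (hm.jw q)).2.1⟩
  have hmh : Measurable fun q => hh (X q) (Y q) := by
    unfold hh
    have a1 : Measurable fun q => (X q).1 := measurable_fst.comp hm.mX
    have a2 : Measurable fun q => (Y q).1 := measurable_fst.comp hm.mY
    exact ((measurable_re.comp a1).mul (measurable_im.comp a2)).sub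
      ((measurable_re.comp a2).mul (measurable_im.comp a1))
  have hih : Integrable (fun q => hh (X q) (Y q)) m := by
    refine Integrable.mono' (integrable_const C₀) hmh.aestronglyMeasurable
      (Eventually.of_forall fun q => ?_)
    rw [Real.norm_eq_abs, abs_of_nonneg (hal' q).1]
    exact (hal' q).2
  obtain ⟨K₁, r₁, hK₁, hsl, hr₁, hth⟩ := thin hpp (h1 μ β κ L hb c R ρ K m X Y hm p hpR hps hflat)
  -- radii
  set δ : ℝ := min ε r₁ / 2 with hδ
  have hmin : 0 < min ε r₁ := lt_min hε hr₁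
  have hδ0 : 0 < δ := by positivity
  have hδε : δ < ε := by
    have := min_le_left ε r₁
    linarith
  have hδr : δ < r₁ := by
    have := min_le_right ε r₁
    linarith
  have hpR' : 0 < R - dist p.1 c := by
    rw [mem_ball] at hpR; linarith
  set r : ℝ := min (δ / (4 * K₁)) ((R - dist p.1 c) / 2) with hr
  have hK0 : 0 < K₁ := by linarith
  have hr0 : 0 < r := lt_min (by positivity) (by linarith)
  have hr4 : r ≤ δ / (4 * K₁) := min_le_left _ _
  have hKr : K₁ * r ≤ δ / 4 := by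
    have := mul_le_mul_of_nonneg_left hr4 hK0.le
    calc K₁ * r ≤ K₁ * (δ / (4 * K₁)) := this
      _ = δ / 4 := by field_simp
  have hrδ : r ≤ δ / 4 := by
    have : r ≤ K₁ * r := by nlinarith
    linarith
  have hsub : closedBall p.1 r ⊆ ball c R := by
    refine closedBall_subset_ball' ?_
    have : r ≤ (R - dist p.1 c) / 2 := min_le_right _ _
    linarith
  have gap : ∀ q : CC, InSupp m q → q.1 ∈ closedBall p.1 r → dist q.2 p.2 ≤ δ →
      dist q.2 p.2 < δ / 2 := by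
    intro q hq hq1 hq2
    rw [mem_closedBall] at hq1
    have hd : dist q p < r₁ := by
      rw [Prod.dist_eq]
      exact max_lt (by linarith) (by linarith)
    have := hth q hq hd
    rw [← dist_eq_norm, ← dist_eq_norm] at this
    have h5 : K₁ * dist q.1 p.1 ≤ K₁ * r := mul_le_mul_of_nonneg_left hq1 hK0.le
    linarith
  have hfib : fib m p.1 ∩ closedBall p.2 δ = {p.2} := by
    ext w
    simp only [fib, mem_inter_iff, mem_ofPred_eq, mem_closedBall, mem_singleton_iff]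
    constructor
    · rintro ⟨hw, hwd⟩
      have hd : dist ((p.1, w) : CC) p < r₁ := by
        rw [Prod.dist_eq]
        simp only [dist_self]
        exact max_lt hr₁ (by linarith)
      have h3 := hth (p.1, w) hw hd
      simp only [sub_self, norm_zero, mul_zero] at h3
      exact sub_eq_zero.1 (norm_le_zero_iff.1 h3)
    · rintro rfl
      exact ⟨hps, by simp [hδ0.le]⟩
  obtain ⟨d, hd0, hd⟩ := h2 μ β κ L hb c R ρ K m X Y hm p.1 r (ball p.2 δ) hr0 hsub isOpen_ball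
    (by
      intro q hq hq1 hq2
      have h3 : dist q.2 p.2 = δ := by
        have := frontier_ball_subset_sphere hq2
        rwa [mem_sphere] at this
      have := gap q hq hq1 h3.le
      linarith)
  -- the degree
  have hlim := hflat (gg K₁) (gg_cont K₁) (gg_supp K₁) (gg_alt K₁)
  have hL : ∫ ζ : ℂ, gg K₁ (ζ.re • X p + ζ.im • Y p) (X p) (Y p) = ∫ z : ℂ, f1 z := by
    have h3 : ∀ ζ : ℂ, gg K₁ (ζ.re • X p + ζ.im • Y p) (X p) (Y p) =
        f1 (ζ.re • (X p).1 + ζ.im • (Y p).1) * hh (X p) (Y p) := by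
      intro ζ
      rw [gg_apply]
      have h4 := slo_comb (X p) (Y p) hpp.ne' ζ.re ζ.im
      rw [h4]
      simp only [Prod.fst_add, Prod.smul_fst]
      by_cases h5 : 1 ≤ ‖ζ.re • (X p).1 + ζ.im • (Y p).1‖
      · rw [f1_zero h5]; ring
      · push Not at h5
        have h6 : ‖slo (X p) (Y p) (ζ.re • (X p).1 + ζ.im • (Y p).1)‖ ≤ K₁ + 1 := by
          refine (ContinuousLinearMap.le_opNorm _ _).trans ?_
          calc ‖slo (X p) (Y p)‖ * ‖ζ.re • (X p).1 + ζ.im • (Y p).1‖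
              ≤ K₁ * 1 := mul_le_mul hsl h5.le (norm_nonneg _) hK0.le
            _ ≤ K₁ + 1 := by linarith
        rw [f2_one h6]; ring
    simp only [h3]
    rw [integral_mul_const]
    exact int_TT (X p).1 (Y p).1 (by simpa [hh] using hpp) f1 f1_cont
  have hev : ∀ᶠ s : ℝ in 𝓝[>] 0,
      (s ^ 2)⁻¹ * ∫ q, gg K₁ (s⁻¹ • (q - p)) (X q) (Y q) ∂m = d * ∫ z : ℂ, f1 z := by
    have hs1 : 0 < min r (δ / (K₁ + 2)) := lt_min hr0 (by positivity)
    filter_upwards [Ioo_mem_nhdsGT hs1] with s hs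
    obtain ⟨hs0, hs2⟩ := hs
    have hsr : s < r := lt_of_lt_of_le hs2 (min_le_left _ _)
    have hsδ : (K₁ + 2) * s < δ := by
      have := lt_of_lt_of_le hs2 (min_le_right _ _)
      rw [lt_div_iff₀ (by positivity)] at this
      linarith
    have hsi : 0 < s⁻¹ := inv_pos.2 hs0
    have e1 : ∫ q, gg K₁ (s⁻¹ • (q - p)) (X q) (Y q) ∂m =
        ∫ q in (ball p.1 r) ×ˢ (ball p.2 δ), f1 (s⁻¹ • (q.1 - p.1)) * hh (X q) (Y q) ∂m := by
      rw [← integral_indicator (measurableSet_ball.prod measurableSet_ball)]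
      refine integral_congr_ae ?_
      filter_upwards [ae_inSupp m] with q hq
      rw [gg_apply]
      simp only [Prod.smul_fst, Prod.smul_snd, Prod.fst_sub, Prod.snd_sub]
      by_cases h5 : 1 ≤ ‖s⁻¹ • (q.1 - p.1)‖
      · rw [f1_zero h5]
        by_cases h6 : q ∈ (ball p.1 r) ×ˢ (ball p.2 δ)
        · rw [indicator_of_mem h6, f1_zero h5]; ring
        · rw [indicator_of_notMem h6]; ring
      · push Not at h5
        have h7 : ‖q.1 - p.1‖ < s := by
          rw [norm_smul, Real.norm_eq_abs, abs_of_pos hsi] at h5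
          rwa [inv_mul_lt_iff₀ hs0, mul_one] at h5
        by_cases h6 : q.2 ∈ ball p.2 δ
        · have h8 : q ∈ (ball p.1 r) ×ˢ (ball p.2 δ) := by
            refine ⟨?_, h6⟩
            rw [mem_ball, dist_eq_norm]; linarith
          rw [indicator_of_mem h8]
          have hd' : dist q p < r₁ := by
            rw [Prod.dist_eq]
            refine max_lt ?_ ?_
            · rw [dist_eq_norm]; linarith
            · rw [mem_ball] at h6; linarith
          have h9 := hth q hq hd'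
          have h10 : ‖s⁻¹ • (q.2 - p.2)‖ ≤ K₁ + 1 := by
            rw [norm_smul, Real.norm_eq_abs, abs_of_pos hsi, inv_mul_le_iff₀ hs0]
            have : K₁ * ‖q.1 - p.1‖ ≤ K₁ * s := mul_le_mul_of_nonneg_left h7.le hK0.le
            nlinarith
          rw [f2_one h10]; ring
        · have h8 : q ∉ (ball p.1 r) ×ˢ (ball p.2 δ) := fun h => h6 h.2
          rw [indicator_of_notMem h8]
          have h10 : K₁ + 2 ≤ ‖s⁻¹ • (q.2 - p.2)‖ := by
            rw [norm_smul, Real.norm_eq_abs, abs_of_pos hsi, le_inv_mul_iff₀ hs0]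
            rw [mem_ball, not_lt, dist_eq_norm] at h6
            nlinarith
          rw [f2_zero h10]; ring
    have hcs : Continuous fun w : ℂ => f1 (s⁻¹ • (w - p.1)) :=
      f1_cont.comp (by fun_prop)
    have e2 := push (m := m) hmh (fun q => (hal' q).1) hih (isOpen_ball (x := p.2) (ε := δ)) hd0 hd
      (fun w => f1 (s⁻¹ • (w - p.1))) hcs
    have e3 : ∫ w in ball p.1 r, f1 (s⁻¹ • (w - p.1)) = ∫ w : ℂ, f1 (s⁻¹ • (w - p.1)) := by
      refine setIntegral_eq_integral_of_forall_compl_eq_zero fun w hw => f1_zero ?_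
      rw [mem_ball, not_lt, dist_eq_norm] at hw
      rw [norm_smul, Real.norm_eq_abs, abs_of_pos hsi, le_inv_mul_iff₀ hs0]
      linarith
    rw [e1, e2, e3, int_scale p.1 hs0]
    field_simp
  have huniq := tendsto_nhds_unique (hlim.congr' hev) tendsto_const_nhds
  rw [hL] at huniq
  have hd1 : d = 1 := by
    have := int_f1_pos
    have h3 : d * ∫ z : ℂ, f1 z = 1 * ∫ z : ℂ, f1 z := by rw [one_mul, ← huniq]
    exact mul_right_cancel₀ this.ne' h3
  refine ⟨r, δ, hδε, by linarith, ⟨hr0, hδ0, gap, fun A hAm hA => ?_⟩, hfib⟩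
  rw [hd A hAm hA, hd1, one_mul]

end

end Crest.Agent.R235.CylDeg_423
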