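import Crest.Agent.R235.CylDef_607

/-!
Row 235 (S0364), PACKAGE REG, sub-block CYL, leaf C6b `DISI` (helper333): disintegration of the
horizontal measure `hh · m` of a box current over the base.
`disi_of : ALG0 → CONST → SPLIT → DISI`.
-/

set_option autoImplicit false

open MeasureTheory Metric Set Filter Complex
open scoped ContDiff Topology ENNReal NNReal

namespace Crest.Agent.R235.CylDisi_333

open Crest.Agent.R235.Loc Crest.Agent.R235.Cyl

noncomputable section

/-! ### the support -/

theorem supp_null (m : Measure CC) : m {p | ¬ InSupp m p} = 0 := by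
  refine measure_null_of_locally_null _ fun p hp => ?_
  simp only [InSupp, not_forall, not_lt, nonpos_iff_eq_zero, mem_ofPred_eq] at hp
  obtain ⟨r, hr, h0⟩ := hp
  exact ⟨ball p r, mem_nhdsWithin_of_mem_nhds (ball_mem_nhds p hr), h0⟩

theorem closed_supp (m : Measure CC) : IsClosed {p | InSupp m p} := by
  rw [← isOpen_compl_iff, Metric.isOpen_iff]
  intro p hp
  simp only [InSupp, mem_compl_iff, mem_ofPred_eq, not_forall, not_lt, nonpos_iff_eq_zero] at hp
  obtain ⟨r, hr, h0⟩ := hp
  refine ⟨r / 2, by positivity, fun q hq => ?_⟩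
  simp only [InSupp, mem_compl_iff, mem_ofPred_eq, not_forall, not_lt, nonpos_iff_eq_zero]
  refine ⟨r / 2, by positivity, measure_mono_null (fun x hx => ?_) h0⟩
  rw [mem_ball] at hx hq ⊢
  have := dist_triangle x q p
  linarith

theorem closed_fib (m : Measure CC) (z : ℂ) : IsClosed (fib m z) := by
  have h : Continuous fun w : ℂ => ((z, w) : CC) := by fun_prop
  exact (closed_supp m).preimage h

/-- sum over the fibre, `[0, ∞]`-valued. -/
def FSl (m : Measure CC) (f : CC → ℝ≥0∞) (z : ℂ) : ℝ≥0∞ :=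
  ∫⁻ w in fib m z, f (z, w) ∂Measure.count

theorem FSl_eq (m : Measure CC) (f : CC → ℝ≥0∞) (hf : Measurable f) (z : ℂ)
    (hz : (fib m z).Finite) : FSl m f z = ∑ w ∈ hz.toFinset, f (z, w) := by
  unfold FSl
  rw [← lintegral_indicator (closed_fib m z).measurableSet]
  have hg : Measurable (fun w : ℂ => f (z, w)) := hf.comp (by fun_prop)
  have h1 := lintegral_count' (hg.indicator (closed_fib m z).measurableSet)
  rw [h1, tsum_eq_sum (s := hz.toFinset)]
  · refine Finset.sum_congr rfl fun w hw => ?_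
    rw [indicator_of_mem]
    simpa using hw
  · intro w hw
    rw [indicator_of_notMem]
    simpa using hw

/-- local description of a measure over the point `z` of the base. -/
def Pz (m H : Measure CC) (z : ℂ) : Prop :=
  ∀ ε > 0, ∃ r > 0, (∀ w ∈ fib m z, ∃ δ : ℝ, 0 < δ ∧ δ < ε ∧ ∀ A : Set ℂ, MeasurableSet A →
    A ⊆ ball z r → H (A ×ˢ ball w δ) = volume A) ∧
    ∀ q : CC, InSupp m q → q.1 ∈ closedBall z r → ∃ w ∈ fib m z, dist q.2 w < ε

/-- **the local limit**. -/
theorem local_lim (m H : Measure CC) (carr : H {p | ¬ InSupp m p} = 0) (z : ℂ)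
    (hz : (fib m z).Finite) (hP : Pz m H z) (f : CC → ℝ≥0) (hf : Continuous f) :
    Tendsto (fun r : ℝ => (∫⁻ p in Prod.fst ⁻¹' closedBall z r, (f p : ℝ≥0∞) ∂H) /
      volume (closedBall z r)) (𝓝[>] 0) (𝓝 (FSl m (fun p => (f p : ℝ≥0∞)) z)) := by
  have hfm : Measurable (fun p => (f p : ℝ≥0∞)) := hf.measurable.coe_nnreal_ennreal
  rw [FSl_eq m _ hfm z hz]
  set F := hz.toFinset with hF
  have hmF : ∀ w, w ∈ F ↔ w ∈ fib m z := fun w => by rw [hF]; simp
  have hne : (∑ w ∈ F, (f (z, w) : ℝ≥0∞)) ≠ ⊤ := by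
    simp
  rw [ENNReal.tendsto_nhds hne]
  intro ε hε
  obtain ⟨e, he, hen⟩ := ENNReal.exists_nnreal_pos_mul_lt (a := (F.card : ℝ≥0∞)) (b := ε)
    (by simp) hε.ne'
  -- choice of `η`
  have h1 : ∀ᶠ η : ℝ in 𝓝[>] 0, ∀ w ∈ F, ∀ q : CC, dist q (z, w) < η →
      dist (f q) (f (z, w)) < e := by
    rw [Filter.eventually_all_finset]
    intro w _
    obtain ⟨d, hd, hd'⟩ := Metric.continuous_iff.1 hf (z, w) e (by exact_mod_cast he)
    filter_upwards [Ioo_mem_nhdsGT hd] with η hη q hq
    exact hd' q (hq.trans hη.2)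
  have h2 : ∀ᶠ η : ℝ in 𝓝[>] 0, ∀ w ∈ F, ∀ w' ∈ F, w ≠ w' → 2 * η < dist w w' := by
    rw [Filter.eventually_all_finset]
    intro w _
    rw [Filter.eventually_all_finset]
    intro w' _
    by_cases hww : w = w'
    · exact Filter.Eventually.of_forall fun _ h => absurd hww h
    · have hd : 0 < dist w w' / 2 := by have := dist_pos.2 hww; positivity
      filter_upwards [Ioo_mem_nhdsGT hd] with η hη _
      have := hη.2
      linarith
  obtain ⟨η, ⟨h1, h2⟩, hη⟩ := ((h1.and h2).and self_mem_nhdsWithin).exists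
  obtain ⟨r₁, hr₁, hcyl, -⟩ := hP η hη
  choose! δ hδ0 hδη hdeg using hcyl
  have h3 : ∀ᶠ η' : ℝ in 𝓝[>] 0, ∀ w ∈ F, η' < δ w := by
    rw [Filter.eventually_all_finset]
    intro w hw
    filter_upwards [Ioo_mem_nhdsGT (hδ0 w ((hmF w).1 hw))] with η' hη' using hη'.2
  obtain ⟨η', h3, hη'⟩ := (h3.and self_mem_nhdsWithin).exists
  obtain ⟨r₂, hr₂, -, hsup⟩ := hP η' hη'
  have hr0 : 0 < min (min r₁ r₂) η := lt_min (lt_min hr₁ hr₂) hη
  filter_upwards [Ioo_mem_nhdsGT hr0] with s hs
  have hs0 : 0 < s := hs.1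
  have hs1 : s < r₁ := hs.2.trans_le ((min_le_left _ _).trans (min_le_left _ _))
  have hs2 : s < r₂ := hs.2.trans_le ((min_le_left _ _).trans (min_le_right _ _))
  have hs3 : s < η := hs.2.trans_le (min_le_right _ _)
  set T := closedBall z s with hT
  have hTm : MeasurableSet T := measurableSet_closedBall
  have hT1 : T ⊆ ball z r₁ := closedBall_subset_ball hs1
  have hV0 : volume T ≠ 0 := (measure_closedBall_pos volume z hs0).ne'
  have hVt : volume T ≠ ⊤ := measure_closedBall_lt_top.ne
  have hSm : ∀ w, MeasurableSet (T ×ˢ ball w (δ w)) := fun w => hTm.prod measurableSet_ball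
  -- decomposition
  have hdec : ∫⁻ p in Prod.fst ⁻¹' T, (f p : ℝ≥0∞) ∂H =
      ∑ w ∈ F, ∫⁻ p in T ×ˢ ball w (δ w), (f p : ℝ≥0∞) ∂H := by
    rw [← lintegral_biUnion_finset]
    · refine setLIntegral_congr ?_
      have hae : ∀ᵐ p ∂H, InSupp m p := carr
      filter_upwards [hae] with p hp
      apply propext
      constructor
      · intro hpT
        obtain ⟨w, hw, hd⟩ := hsup p hp (closedBall_subset_closedBall hs2.le hpT)
        have hw' := (hmF w).2 hw
        refine mem_iUnion₂.2 ⟨w, hw', hpT, ?_⟩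
        exact mem_ball.2 (hd.trans (h3 w hw'))
      · intro hpU
        obtain ⟨w, _, hw⟩ := mem_iUnion₂.1 hpU
        exact hw.1
    · intro w hw w' hw' hne'
      have hw1 := (hmF w).1 hw
      have hw2 := (hmF w').1 hw'
      refine Set.disjoint_left.2 fun p hp hp' => ?_
      have ha := mem_ball.1 hp.2
      have hb := mem_ball.1 hp'.2
      have hc := h2 w hw w' hw' hne'
      have hd := dist_triangle_left w w' p.2
      have := hδη w hw1
      have := hδη w' hw2
      linarith
    · intro w _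
      exact hSm w
  have hbd : ∀ w ∈ F, ((f (z, w) : ℝ≥0∞) - e) * volume T ≤
      ∫⁻ p in T ×ˢ ball w (δ w), (f p : ℝ≥0∞) ∂H ∧
      ∫⁻ p in T ×ˢ ball w (δ w), (f p : ℝ≥0∞) ∂H ≤ ((f (z, w) : ℝ≥0∞) + e) * volume T := by
    intro w hw
    have hw1 := (hmF w).1 hw
    have hH := hdeg w hw1 T hTm hT1
    have hclose : ∀ p ∈ T ×ˢ ball w (δ w), dist (f p) (f (z, w)) < e := by
      intro p hp
      refine h1 w hw p ?_
      rw [Prod.dist_eq, max_lt_iff]
      exact ⟨(mem_closedBall.1 hp.1).trans_lt hs3, (mem_ball.1 hp.2).trans (hδη w hw1)⟩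
    constructor
    · rw [← hH, ← setLIntegral_const]
      refine setLIntegral_mono' (hSm w) fun p hp => ?_
      have h := hclose p hp
      rw [tsub_le_iff_right]
      have h4 : f (z, w) ≤ f p + e := by
        rw [← NNReal.coe_le_coe, NNReal.coe_add]
        rw [NNReal.dist_eq, abs_lt] at h
        linarith [h.1]
      exact_mod_cast h4
    · rw [← hH, ← setLIntegral_const]
      refine setLIntegral_mono' (hSm w) fun p hp => ?_
      have h := hclose p hp
      have h4 : f p ≤ f (z, w) + e := by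
        rw [← NNReal.coe_le_coe, NNReal.coe_add]
        rw [NNReal.dist_eq, abs_lt] at h
        linarith [h.2]
      exact_mod_cast h4
  have hcard : ∑ w ∈ F, (e : ℝ≥0∞) ≤ ε := by
    rw [Finset.sum_const, nsmul_eq_mul, mul_comm]
    exact hen.le
  have hI : ∫⁻ p in Prod.fst ⁻¹' T, (f p : ℝ≥0∞) ∂H ≤
      (∑ w ∈ F, ((f (z, w) : ℝ≥0∞) + e)) * volume T := by
    rw [hdec, Finset.sum_mul]
    exact Finset.sum_le_sum fun w hw => (hbd w hw).2
  have hI' : (∑ w ∈ F, ((f (z, w) : ℝ≥0∞) - e)) * volume T ≤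
      ∫⁻ p in Prod.fst ⁻¹' T, (f p : ℝ≥0∞) ∂H := by
    rw [hdec, Finset.sum_mul]
    exact Finset.sum_le_sum fun w hw => (hbd w hw).1
  constructor
  · rw [tsub_le_iff_right]
    calc ∑ w ∈ F, (f (z, w) : ℝ≥0∞) ≤ ∑ w ∈ F, (((f (z, w) : ℝ≥0∞) - e) + e) :=
          Finset.sum_le_sum fun w _ => le_tsub_add
      _ = (∑ w ∈ F, ((f (z, w) : ℝ≥0∞) - e)) + ∑ w ∈ F, (e : ℝ≥0∞) := Finset.sum_add_distrib
      _ ≤ (∫⁻ p in Prod.fst ⁻¹' T, (f p : ℝ≥0∞) ∂H) / volume T + ε :=
          add_le_add ((ENNReal.le_div_iff_mul_le (Or.inl hV0) (Or.inl hVt)).2 hI') hcard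
  · refine (ENNReal.div_le_iff_le_mul (Or.inl hV0) (Or.inl hVt)).2 (hI.trans ?_)
    gcongr
    rw [Finset.sum_add_distrib]
    gcongr

/-! ### from continuous functions to all functions -/

/-- what is known about the horizontal measure. -/
structure Dd (m H : Measure CC) (c : ℂ) (R : ℝ) (k : ℕ) : Prop where
  fin : IsFiniteMeasure H
  carr : H {p | ¬ InSupp m p} = 0
  base : H {p : CC | p.1 ∉ ball c R} = 0
  ac : ∀ N : Set ℂ, MeasurableSet N → volume N = 0 → H (Prod.fst ⁻¹' N) = 0
  good : ∀ᵐ z : ℂ, z ∈ ball c R → (fib m z).ncard = k ∧ (fib m z).Finite ∧ Pz m H z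

/-- the conclusion for one function. -/
def QQ (m H : Measure CC) (c : ℂ) (R : ℝ) (f : CC → ℝ≥0∞) : Prop :=
  AEMeasurable (FSl m f) (volume.restrict (ball c R)) ∧
    ∫⁻ p, f p ∂H = ∫⁻ z in ball c R, FSl m f z

theorem qq_cont {m H : Measure CC} {c : ℂ} {R : ℝ} {k : ℕ} (D : Dd m H c R k)
    (f : CC → ℝ≥0) (hf : Continuous f) (C : ℝ≥0) (hC : ∀ p, f p ≤ C) :
    QQ m H c R (fun p => (f p : ℝ≥0∞)) := by
  have := D.fin
  have hfm : Measurable (fun p => (f p : ℝ≥0∞)) := hf.measurable.coe_nnreal_ennreal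
  set Hf := H.withDensity (fun p => (f p : ℝ≥0∞)) with hHf
  have hfint : ∫⁻ p, (f p : ℝ≥0∞) ∂H ≠ ⊤ := by
    refine ((lintegral_mono (g := fun _ => (C : ℝ≥0∞)) fun p => ?_).trans_lt ?_).ne
    · exact ENNReal.coe_le_coe.2 (hC p)
    · rw [lintegral_const]
      exact ENNReal.mul_lt_top (by simp) (measure_lt_top _ _)
  have : IsFiniteMeasure Hf := isFiniteMeasure_withDensity hfint
  set η := Hf.map (Prod.fst : CC → ℂ) with hη
  have : IsFiniteMeasure η := Measure.isFiniteMeasure_map Hf _
  have hηapp : ∀ T : Set ℂ, MeasurableSet T →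
      η T = ∫⁻ p in Prod.fst ⁻¹' T, (f p : ℝ≥0∞) ∂H := by
    intro T hT
    rw [hη, Measure.map_apply measurable_fst hT, hHf, withDensity_apply _ (measurable_fst hT)]
  have hac : η ≪ volume := by
    refine Measure.AbsolutelyContinuous.mk fun N hN hN0 => ?_
    rw [hηapp N hN]
    rw [Measure.restrict_eq_zero.2 (D.ac N hN hN0), lintegral_zero_measure]
  have hlim := Besicovitch.ae_tendsto_rnDeriv η (volume : Measure ℂ)
  have heq : ∀ᵐ z : ℂ, z ∈ ball c R → η.rnDeriv volume z = FSl m (fun p => (f p : ℝ≥0∞)) z := by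
    filter_upwards [hlim, D.good] with z h1 h2 hz
    obtain ⟨-, hfin, hP⟩ := h2 hz
    have h3 := local_lim m H D.carr z hfin hP f hf
    refine tendsto_nhds_unique h1 (h3.congr fun r => ?_)
    rw [hηapp _ measurableSet_closedBall]
  have heq' : η.rnDeriv volume =ᵐ[volume.restrict (ball c R)]
      FSl m (fun p => (f p : ℝ≥0∞)) := (ae_restrict_iff' measurableSet_ball).2 heq
  refine ⟨⟨_, η.measurable_rnDeriv volume, heq'.symm⟩, ?_⟩
  rw [← lintegral_congr_ae heq', Measure.setLIntegral_rnDeriv hac, hηapp _ measurableSet_ball]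
  rw [← lintegral_indicator (measurable_fst measurableSet_ball)]
  refine lintegral_congr_ae ?_
  have : ∀ᵐ p ∂H, p.1 ∈ ball c R := by
    rw [ae_iff]; exact D.base
  filter_upwards [this] with p hp
  rw [indicator_of_mem]
  exact hp

theorem FSl_one {m H : Measure CC} {c : ℂ} {R : ℝ} {k : ℕ} (D : Dd m H c R k) :
    ∀ᵐ z ∂(volume.restrict (ball c R)), FSl m (fun _ => 1) z = k := by
  rw [ae_restrict_iff' measurableSet_ball]
  filter_upwards [D.good] with z h2 hz
  obtain ⟨hk, hfin, -⟩ := h2 hz
  rw [FSl_eq m _ measurable_const z hfin]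
  simp only [Finset.sum_const, nsmul_eq_mul, mul_one]
  rw [← hk, Set.ncard_eq_toFinset_card _ hfin]

theorem FSl_le_one (m : Measure CC) (f : CC → ℝ≥0∞) (hf : ∀ p, f p ≤ 1) (z : ℂ) :
    FSl m f z ≤ FSl m (fun _ => 1) z := lintegral_mono fun w => hf (z, w)

theorem qq_closed {m H : Measure CC} {c : ℂ} {R : ℝ} {k : ℕ} (D : Dd m H c R k)
    (E : Set CC) (hE : IsClosed E) : QQ m H c R (E.indicator fun _ => 1) := by
  have := D.fin
  have hap : ∀ n, QQ m H c R (fun p => (hE.apprSeq n p : ℝ≥0∞)) := fun n =>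
    qq_cont D (fun p => hE.apprSeq n p) (hE.apprSeq n).continuous 1
      fun p => HasOuterApproxClosed.apprSeq_apply_le_one hE n p
  have hpt : ∀ p, Tendsto (fun n => (hE.apprSeq n p : ℝ≥0∞)) atTop
      (𝓝 (E.indicator (fun _ => (1 : ℝ≥0∞)) p)) := by
    intro p
    have h := tendsto_pi_nhds.1 (HasOuterApproxClosed.tendsto_apprSeq hE) p
    have h' := ENNReal.tendsto_coe.2 h
    convert h' using 2
    by_cases hp : p ∈ E <;> simp [hp]
  have hgood : ∀ᵐ z ∂(volume.restrict (ball c R)), (fib m z).Finite := by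
    rw [ae_restrict_iff' measurableSet_ball]
    filter_upwards [D.good] with z h2 hz using (h2 hz).2.1
  have hle1 : ∀ n p, (hE.apprSeq n p : ℝ≥0∞) ≤ 1 := fun n p => by
    exact_mod_cast HasOuterApproxClosed.apprSeq_apply_le_one hE n p
  have hmn : ∀ n, Measurable (fun p => (hE.apprSeq n p : ℝ≥0∞)) := fun n =>
    (hE.apprSeq n).continuous.measurable.coe_nnreal_ennreal
  have hmE : Measurable (E.indicator fun _ => (1 : ℝ≥0∞)) :=
    measurable_const.indicator hE.measurableSet
  have hlimz : ∀ᵐ z ∂(volume.restrict (ball c R)), Tendsto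
      (fun n => FSl m (fun p => (hE.apprSeq n p : ℝ≥0∞)) z) atTop
      (𝓝 (FSl m (E.indicator fun _ => 1) z)) := by
    filter_upwards [hgood] with z hz
    simp only [FSl_eq m _ (hmn _) z hz, FSl_eq m _ hmE z hz]
    exact tendsto_finsetSum _ fun w _ => hpt (z, w)
  refine ⟨aemeasurable_of_tendsto_metrizable_ae atTop (fun n => (hap n).1) hlimz, ?_⟩
  have hL : Tendsto (fun n => ∫⁻ p, (hE.apprSeq n p : ℝ≥0∞) ∂H) atTop
      (𝓝 (∫⁻ p, E.indicator (fun _ => (1 : ℝ≥0∞)) p ∂H)) := by
    refine tendsto_lintegral_of_dominated_convergence (fun _ => 1) hmn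
      (fun n => ae_of_all _ fun p => hle1 n p) ?_ (ae_of_all _ hpt)
    rw [lintegral_const, one_mul]
    exact measure_ne_top _ _
  have hRt : Tendsto (fun n => ∫⁻ z in ball c R, FSl m (fun p => (hE.apprSeq n p : ℝ≥0∞)) z)
      atTop (𝓝 (∫⁻ z in ball c R, FSl m (E.indicator fun _ => 1) z)) := by
    refine tendsto_lintegral_of_dominated_convergence' (fun _ => (k : ℝ≥0∞)) (fun n => (hap n).1)
      (fun n => ?_) ?_ hlimz
    · filter_upwards [FSl_one D] with z hz
      rw [← hz]
      exact FSl_le_one m _ (hle1 n) z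
    · rw [setLIntegral_const]
      exact (ENNReal.mul_lt_top (by simp) measure_ball_lt_top).ne
  refine tendsto_nhds_unique hL (hRt.congr fun n => ?_)
  exact (hap n).2.symm

theorem qq_set {m H : Measure CC} {c : ℂ} {R : ℝ} {k : ℕ} (D : Dd m H c R k)
    (E : Set CC) (hE : MeasurableSet E) : QQ m H c R (E.indicator fun _ => 1) := by
  have := D.fin
  have h1 : QQ m H c R (fun _ => 1) := by
    have h := qq_cont D (fun _ => 1) continuous_const 1 fun _ => le_rfl
    simpa using h
  have hb : (inferInstance : MeasurableSpace CC) = MeasurableSpace.generateFrom {s | IsClosed s} := by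
    rw [BorelSpace.measurable_eq (α := CC)]
    exact borel_eq_generateFrom_isClosed
  refine MeasurableSpace.induction_on_inter
    (C := fun E _ => QQ m H c R (E.indicator fun _ => 1)) hb isPiSystem_isClosed ?_ ?_ ?_ ?_ E hE
  · constructor
    · have : FSl m ((∅ : Set CC).indicator fun _ => 1) = fun _ => 0 := by
        ext z; simp [FSl]
      rw [this]
      exact aemeasurable_const
    · simp [FSl]
  · intro s hs
    exact qq_closed D s hs
  · intro s hs hq
    have hms : Measurable (s.indicator fun _ => (1 : ℝ≥0∞)) := measurable_const.indicator hs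
    have hk := FSl_one D
    have hsub : ∀ᵐ z ∂(volume.restrict (ball c R)),
        FSl m (sᶜ.indicator fun _ => 1) z = FSl m (fun _ => 1) z - FSl m (s.indicator fun _ => 1) z := by
      filter_upwards [hk] with z hz
      have hadd : FSl m (fun _ => 1) z =
          FSl m (sᶜ.indicator fun _ => 1) z + FSl m (s.indicator fun _ => 1) z := by
        unfold FSl
        have hmz : Measurable fun w : ℂ => s.indicator (fun _ => (1 : ℝ≥0∞)) ((z, w) : CC) :=
          hms.comp (by fun_prop)
        rw [← lintegral_add_right _ hmz]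
        refine lintegral_congr fun w => ?_
        by_cases hw : ((z, w) : CC) ∈ s <;> simp [hw]
      have hfin : FSl m (s.indicator fun _ => 1) z ≠ ⊤ := by
        refine ((FSl_le_one m _ (fun p => ?_) z).trans_lt ?_).ne
        · exact indicator_le_self' (fun _ _ => zero_le) p
        · rw [hz]; simp
      rw [hadd, ENNReal.add_sub_cancel_right hfin]
    constructor
    · exact (h1.1.sub hq.1).congr (hsub.mono fun z hz => hz.symm)
    · rw [lintegral_congr_ae hsub, lintegral_sub' hq.1]
      · rw [← h1.2, ← hq.2, lintegral_indicator hs.compl, lintegral_indicator hs,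
          setLIntegral_const, setLIntegral_const, lintegral_const, one_mul, one_mul, one_mul,
          measure_compl hs (measure_ne_top _ _)]
      · rw [← hq.2, lintegral_indicator hs, setLIntegral_const, one_mul]
        exact measure_ne_top _ _
      · exact ae_of_all _ fun z => FSl_le_one m _
          (fun p => indicator_le_self' (fun _ _ => zero_le) p) z
  · intro f hd hm hq
    have hun : ∀ p : CC, (⋃ i, f i).indicator (fun _ => (1 : ℝ≥0∞)) p =
        ∑' i, (f i).indicator (fun _ => 1) p := by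
      intro p
      by_cases hp : p ∈ ⋃ i, f i
      · obtain ⟨i, hi⟩ := mem_iUnion.1 hp
        rw [indicator_of_mem hp, tsum_eq_single i, indicator_of_mem hi]
        intro j hj
        rw [indicator_of_notMem]
        exact fun hj' => Set.disjoint_left.1 (hd hj) hj' hi
      · rw [indicator_of_notMem hp]
        symm
        rw [ENNReal.tsum_eq_zero]
        intro i
        rw [indicator_of_notMem]
        exact fun hi => hp (mem_iUnion.2 ⟨i, hi⟩)
    have hF : ∀ z, FSl m ((⋃ i, f i).indicator fun _ => 1) z =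
        ∑' i, FSl m ((f i).indicator fun _ => 1) z := by
      intro z
      unfold FSl
      simp only [hun]
      rw [lintegral_tsum]
      intro i
      exact ((measurable_const.indicator (hm i)).comp (by fun_prop)).aemeasurable
    constructor
    · have : FSl m ((⋃ i, f i).indicator fun _ => 1) =
        fun z => ∑' i, FSl m ((f i).indicator fun _ => 1) z := funext hF
      rw [this]
      exact AEMeasurable.tsum fun i => (hq i).1
    · simp only [hun, hF]
      rw [lintegral_tsum fun i => (measurable_const.indicator (hm i)).aemeasurable,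
        lintegral_tsum fun i => (hq i).1]
      exact tsum_congr fun i => (hq i).2

theorem qq_all {m H : Measure CC} {c : ℂ} {R : ℝ} {k : ℕ} (D : Dd m H c R k)
    (f : CC → ℝ≥0∞) (hf : Measurable f) : QQ m H c R f := by
  have := D.fin
  refine Measurable.ennreal_induction (motive := fun f => QQ m H c R f) ?_ ?_ ?_ hf
  · intro a s hs
    have h := qq_set D s hs
    have hms : Measurable (s.indicator fun _ => (1 : ℝ≥0∞)) := measurable_const.indicator hs
    have h1 : ∀ p, s.indicator (fun _ => a) p = a * s.indicator (fun _ => 1) p := by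
      intro p
      by_cases hp : p ∈ s <;> simp [hp]
    have h2 : ∀ z, FSl m (s.indicator fun _ => a) z = a * FSl m (s.indicator fun _ => 1) z := by
      intro z
      unfold FSl
      simp only [h1]
      have hmz : Measurable fun w : ℂ => s.indicator (fun _ => (1 : ℝ≥0∞)) ((z, w) : CC) :=
        hms.comp (by fun_prop)
      rw [lintegral_const_mul _ hmz]
    constructor
    · rw [show FSl m (s.indicator fun _ => a) = fun z => a * FSl m (s.indicator fun _ => 1) z
        from funext h2]
      exact h.1.const_mul a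
    · simp only [h1, h2]
      rw [lintegral_const_mul _ hms, lintegral_const_mul'' _ h.1, h.2]
  · intro f g _ hf hg qf qg
    have h2 : ∀ z, FSl m (f + g) z = FSl m f z + FSl m g z := by
      intro z
      unfold FSl
      have hmz : Measurable fun w : ℂ => f ((z, w) : CC) := hf.comp (by fun_prop)
      rw [← lintegral_add_left hmz]
      rfl
    constructor
    · rw [show FSl m (f + g) = fun z => FSl m f z + FSl m g z from funext h2]
      exact qf.1.add qg.1
    · simp only [h2]
      rw [lintegral_add_left' qf.1, ← qf.2, ← qg.2, ← lintegral_add_left hf]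
      rfl
  · intro f hf hmono hq
    have h2 : ∀ z, FSl m (fun p => ⨆ n, f n p) z = ⨆ n, FSl m (f n) z := by
      intro z
      unfold FSl
      exact lintegral_iSup (fun n => (hf n).comp (by fun_prop)) fun i j hij w => hmono hij (z, w)
    constructor
    · rw [show FSl m (fun p => ⨆ n, f n p) = fun z => ⨆ n, FSl m (f n) z from funext h2]
      exact AEMeasurable.iSup fun n => (hq n).1
    · simp only [h2]
      rw [lintegral_iSup hf hmono, lintegral_iSup' (fun n => (hq n).1)
        (ae_of_all _ fun z i j hij => lintegral_mono fun w => hmono hij (z, w))]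
      exact iSup_congr fun n => (hq n).2

/-! ### the horizontal measure of a box current -/

theorem meas_hh {X Y : CC → CC} (hX : Measurable X) (hY : Measurable Y) :
    Measurable fun p => hh (X p) (Y p) := by
  unfold hh
  fun_prop

/-- **C6b**: disintegration of the horizontal measure. -/
theorem disi_of (h0 : ALG0) (h2 : CONST) (h6 : SPLIT) : DISI := by
  intro μ β κ L hS c R ρ K m X Y B Φ hΦ hint
  have hmfin := B.fin
  by_cases hR : 0 < R
  swap
  · -- empty box
    have hb : ball c R = ∅ := ball_eq_empty.2 (not_lt.1 hR)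
    have hm0 : m = 0 := by
      rw [← ae_eq_bot, ← Filter.empty_mem_iff_bot]
      have h := B.supp
      simp only [hb, mem_empty_iff_false, false_and] at h
      exact h
    rw [hb, hm0]
    simp
  obtain ⟨C₀, c₀, -, -, hA⟩ := h0 κ L K hS.box.κ0 hS.box.κ1 hS.box.L0
  have hbd : ∀ p, 0 ≤ hh (X p) (Y p) ∧ hh (X p) (Y p) ≤ C₀ := fun p =>
    ⟨(hA μ β hS p (X p) (Y p) (B.nX p) (B.nY p) (B.jz p) (B.jw p)).1,
      (hA μ β hS p (X p) (Y p) (B.nX p) (B.nY p) (B.jz p) (B.jw p)).2.1⟩
  have hhm := meas_hh B.mX B.mY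
  have hhi : Integrable (fun p => hh (X p) (Y p)) m :=
    Integrable.of_bound hhm.aestronglyMeasurable C₀ (ae_of_all _ fun p => by
      rw [Real.norm_eq_abs, abs_of_nonneg (hbd p).1]; exact (hbd p).2)
  obtain ⟨H, hH⟩ : ∃ H : Measure CC,
    H = m.withDensity (fun p => ENNReal.ofReal (hh (X p) (Y p))) := ⟨_, rfl⟩
  have hHac : H ≪ m := hH ▸ withDensity_absolutelyContinuous _ _
  have hHapp : ∀ T : Set CC, MeasurableSet T →
      H T = ENNReal.ofReal (∫ q in T, hh (X q) (Y q) ∂m) := by
    intro T hT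
    rw [hH, withDensity_apply _ hT, ofReal_integral_eq_lintegral_ofReal hhi.restrict
      (ae_of_all _ fun p => (hbd p).1)]
  obtain ⟨k, hk⟩ := h6 μ β κ L hS c R ρ K m X Y B hR
  have D : Dd m H c R k := by
    refine ⟨?_, hHac (supp_null m), ?_, ?_, ?_⟩
    · rw [hH]
      exact isFiniteMeasure_withDensity_ofReal hhi.2
    · refine hHac ?_
      have h := B.supp
      rw [ae_iff] at h
      refine measure_mono_null (fun p hp => ?_) h
      exact fun hq => hp hq.1
    · intro N hN hN0
      have hbase : H {p : CC | p.1 ∉ ball c R} = 0 := by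
        refine hHac ?_
        have h := B.supp
        rw [ae_iff] at h
        refine measure_mono_null (fun p hp => ?_) h
        exact fun hq => hp hq.1
      have hloc : H (Prod.fst ⁻¹' (N ∩ ball c R)) = 0 := by
        refine measure_null_of_locally_null _ fun p hp => ?_
        obtain ⟨R', h1, h3⟩ := exists_between (mem_ball.1 hp.2)
        have hR' : 0 < R' := dist_nonneg.trans_lt h1
        refine ⟨Prod.fst ⁻¹' (N ∩ ball c R) ∩ Prod.fst ⁻¹' ball c R',
          inter_mem_nhdsWithin _ ((isOpen_ball.preimage continuous_fst).mem_nhds h1), ?_⟩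
        obtain ⟨d, -, hd⟩ := h2 μ β κ L hS c R ρ K m X Y B c R' univ hR'
          (closedBall_subset_ball h3) isOpen_univ (by simp)
        have h4 := hd (N ∩ ball c R') (hN.inter measurableSet_ball) inter_subset_right
        have h5 : volume.real (N ∩ ball c R') = 0 := by
          rw [measureReal_def, measure_mono_null inter_subset_left hN0]
          rfl
        rw [h5, mul_zero] at h4
        have h6' : H ((N ∩ ball c R') ×ˢ univ) = 0 := by
          rw [hHapp _ ((hN.inter measurableSet_ball).prod MeasurableSet.univ), h4,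
            ENNReal.ofReal_zero]
        refine measure_mono_null (fun q hq => ?_) h6'
        exact ⟨⟨hq.1.1, hq.2⟩, mem_univ _⟩
      refine measure_mono_null (fun p hp => ?_) (measure_union_null hbase hloc)
      by_cases hpb : p.1 ∈ ball c R
      · exact Or.inr ⟨hp, hpb⟩
      · exact Or.inl hpb
    · filter_upwards [hk] with z hz hzb
      obtain ⟨h1, h3, h4⟩ := hz hzb
      refine ⟨h1, h3, fun ε hε => ?_⟩
      obtain ⟨r, hr, -, hcyl, hsup⟩ := h4 ε hε
      refine ⟨r, hr, fun w hw => ?_, hsup⟩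
      obtain ⟨δ, hδ, hdeg⟩ := hcyl w hw
      refine ⟨δ, hdeg.posδ, hδ, fun A hAm hAs => ?_⟩
      rw [hHapp _ (hAm.prod measurableSet_ball), hdeg.deg A hAm hAs, measureReal_def,
        ENNReal.ofReal_toReal]
      exact ((measure_mono hAs).trans_lt measure_ball_lt_top).ne
  have hHfin := D.fin
  -- positive and negative parts
  have hpm : Measurable fun p => ENNReal.ofReal (Φ p) := hΦ.ennreal_ofReal
  have hnm : Measurable fun p => ENNReal.ofReal (-Φ p) := hΦ.neg.ennreal_ofReal
  have hq1 := qq_all D _ hpm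
  have hq2 := qq_all D _ hnm
  have hw : ∀ g : CC → ℝ, Measurable g → ∫⁻ p, ENNReal.ofReal (g p) ∂H =
      ∫⁻ p, ENNReal.ofReal (g p * hh (X p) (Y p)) ∂m := by
    intro g hg
    rw [hH, lintegral_withDensity_eq_lintegral_mul _ hhm.ennreal_ofReal hg.ennreal_ofReal]
    refine lintegral_congr fun p => ?_
    rw [Pi.mul_apply, mul_comm (g p), ENNReal.ofReal_mul (hbd p).1]
  have hw1 := hw Φ hΦ
  have hw2 : ∫⁻ p, ENNReal.ofReal (-Φ p) ∂H =
      ∫⁻ p, ENNReal.ofReal (-(Φ p * hh (X p) (Y p))) ∂m := by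
    rw [hw (fun p => -Φ p) hΦ.neg]
    refine lintegral_congr fun p => ?_
    rw [neg_mul]
  have hf1 : ∫⁻ z in ball c R, FSl m (fun p => ENNReal.ofReal (Φ p)) z ≠ ⊤ := by
    rw [← hq1.2, hw1]
    exact hint.lintegral_lt_top.ne
  have hf2 : ∫⁻ z in ball c R, FSl m (fun p => ENNReal.ofReal (-Φ p)) z ≠ ⊤ := by
    rw [← hq2.2, hw2]
    exact hint.neg.lintegral_lt_top.ne
  have hFS : ∀ᵐ z ∂(volume.restrict (ball c R)), FS m Φ z =
      (FSl m (fun p => ENNReal.ofReal (Φ p)) z).toReal -
        (FSl m (fun p => ENNReal.ofReal (-Φ p)) z).toReal := by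
    rw [ae_restrict_iff' measurableSet_ball]
    filter_upwards [D.good] with z hz hzb
    obtain ⟨-, hzf, -⟩ := hz hzb
    rw [FSl_eq m _ hpm z hzf, FSl_eq m _ hnm z hzf, ENNReal.toReal_sum (by simp),
      ENNReal.toReal_sum (by simp), ← Finset.sum_sub_distrib]
    unfold FS
    rw [finsum_mem_eq_finite_toFinset_sum _ hzf]
    refine Finset.sum_congr rfl fun w _ => ?_
    rw [ENNReal.toReal_ofReal', ENNReal.toReal_ofReal']
    rcases le_total 0 (Φ (z, w)) with h | h
    · rw [max_eq_left h, max_eq_right (by linarith), sub_zero]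
    · rw [max_eq_right h, max_eq_left (by linarith), zero_sub, neg_neg]
  have hi1 := integrable_toReal_of_lintegral_ne_top hq1.1 hf1
  have hi2 := integrable_toReal_of_lintegral_ne_top hq2.1 hf2
  refine ⟨(hi1.sub hi2).congr (hFS.mono fun z hz => hz.symm), ?_⟩
  rw [integral_congr_ae hFS, integral_sub hi1 hi2, integral_toReal hq1.1
    (ae_lt_top' hq1.1 hf1), integral_toReal hq2.1 (ae_lt_top' hq2.1 hf2), ← hq1.2, ← hq2.2,
    hw1, hw2]
  exact integral_eq_lintegral_pos_part_sub_lintegral_neg_part hint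

end

end Crest.Agent.R235.CylDisi_333
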