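import Mathlib
import Crest.Agent.R235.LocDef_607

/-!
Row 235 (S0364), PACKAGE REG, sub-block CYL, leaf C14 (task 244), helper463.

* elementary calculus of `Loc.Close` / `Loc.Near` (matching distance of multisets of complex
  numbers): labels, symmetry, triangle inequality, closedness;
* `extend_local`, `extend`: a `k`-multiset valued function on a dense set with a (local) modulus
  of continuity extends, with the same modulus.
-/

set_option autoImplicit false

open MeasureTheory Metric Set Filter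
open scoped Topology

namespace Crest.Agent.R235.CylExt_463

open Crest.Agent.R235.Loc

noncomputable section

/-! ### calculus of `Close` -/

lemma map_fin_cons {k : ℕ} (a : ℂ) (f : Fin k → ℂ) :
    Multiset.map (Fin.cons a f : Fin (k + 1) → ℂ) Finset.univ.val =
      a ::ₘ Multiset.map f Finset.univ.val := by
  rw [Fin.univ_succ, Finset.cons_val, Multiset.map_cons, Fin.cons_zero, Finset.map_val,
    Multiset.map_map]
  rfl

/-- labels for two close multisets. -/
lemma close_exists_labels {ε : ℝ} {s t : Multiset ℂ} (h : Close ε s t) :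
    ∃ (f g : Fin s.card → ℂ), s = Multiset.map f Finset.univ.val ∧
      t = Multiset.map g Finset.univ.val ∧ ∀ i, dist (f i) (g i) ≤ ε := by
  have key : ∀ {s t : Multiset ℂ}, Multiset.Rel (fun a b => dist a b ≤ ε) s t →
      ∃ (k : ℕ) (f g : Fin k → ℂ), s = Multiset.map f Finset.univ.val ∧
      t = Multiset.map g Finset.univ.val ∧ ∀ i, dist (f i) (g i) ≤ ε := by
    intro s t h
    induction h with
    | zero => exact ⟨0, Fin.elim0, Fin.elim0, by simp, by simp, fun i => i.elim0⟩
    | @cons a b as bs hab _ ih =>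
      obtain ⟨k, f, g, h1, h2, h3⟩ := ih
      refine ⟨k + 1, Fin.cons a f, Fin.cons b g, ?_, ?_, ?_⟩
      · rw [map_fin_cons, ← h1]
      · rw [map_fin_cons, ← h2]
      · intro i
        refine Fin.cases ?_ (fun j => ?_) i
        · simpa using hab
        · simpa using h3 j
  obtain ⟨k, f, g, h1, h2, h3⟩ := key h
  have hk : s.card = k := by rw [h1]; simp
  subst hk
  exact ⟨f, g, h1, h2, h3⟩

lemma rel_map_univ {k : ℕ} {r : ℂ → ℂ → Prop} {f g : Fin k → ℂ} (h : ∀ i, r (f i) (g i)) :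
    Multiset.Rel r (Multiset.map f Finset.univ.val) (Multiset.map g Finset.univ.val) := by
  induction k with
  | zero => simp
  | succ k ih =>
    have hf : f = Fin.cons (f 0) (Fin.tail f) := (Fin.cons_self_tail f).symm
    have hg : g = Fin.cons (g 0) (Fin.tail g) := (Fin.cons_self_tail g).symm
    rw [hf, hg, map_fin_cons, map_fin_cons]
    exact Multiset.Rel.cons (h 0) (ih (fun i => h i.succ))

lemma close_labels {k : ℕ} {ε : ℝ} {f g : Fin k → ℂ} (h : ∀ i, dist (f i) (g i) ≤ ε) :
    Close ε (Multiset.map f Finset.univ.val) (Multiset.map g Finset.univ.val) :=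
  rel_map_univ h

lemma near_labels {k : ℕ} {ε : ℝ} {f g : Fin k → ℂ} (h : ∀ i, dist (f i) (g i) < ε) :
    Near ε (Multiset.map f Finset.univ.val) (Multiset.map g Finset.univ.val) :=
  rel_map_univ h

/-- every multiset has labels. -/
lemma exists_labels (s : Multiset ℂ) :
    ∃ f : Fin s.card → ℂ, s = Multiset.map f Finset.univ.val := by
  have h : Close 0 s s := by
    show Multiset.Rel _ s s
    induction s using Multiset.induction_on with
    | empty => exact Multiset.Rel.zero
    | cons a s ih => exact Multiset.Rel.cons (by simp) ih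
  obtain ⟨f, _, h1, _⟩ := close_exists_labels h
  exact ⟨f, h1⟩

/-- two labellings of the same multiset differ by a permutation. -/
lemma exists_perm {k : ℕ} {f g : Fin k → ℂ}
    (h : Multiset.map f Finset.univ.val = Multiset.map g Finset.univ.val) :
    ∃ σ : Equiv.Perm (Fin k), ∀ i, f (σ i) = g i := by
  classical
  have hc : ∀ c : ℂ, Fintype.card {i // f i = c} = Fintype.card {i // g i = c} := by
    intro c
    have hu : ∀ u : Fin k → ℂ, Fintype.card {i // u i = c} =
        (Multiset.map u Finset.univ.val).count c := by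
      intro u
      rw [Fintype.card_subtype, Multiset.count_map, ← Finset.filter_val]
      simp only [eq_comm]
      rfl
    rw [hu, hu, h]
  let e : ∀ c : ℂ, {i // g i = c} ≃ {i // f i = c} := fun c => Fintype.equivOfCardEq (hc c).symm
  refine ⟨(Equiv.sigmaFiberEquiv g).symm.trans
    ((Equiv.sigmaCongrRight e).trans (Equiv.sigmaFiberEquiv f)), fun i => ?_⟩
  exact (e (g i) ⟨i, rfl⟩).2

/-- the canonical form: one labelling prescribed for each side, the matching is a permutation. -/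
lemma close_iff_perm {k : ℕ} {ε : ℝ} {f g : Fin k → ℂ} :
    Close ε (Multiset.map f Finset.univ.val) (Multiset.map g Finset.univ.val) ↔
      ∃ σ : Equiv.Perm (Fin k), ∀ i, dist (f i) (g (σ i)) ≤ ε := by
  constructor
  · intro h
    obtain ⟨f', g', h1, h2, h3⟩ := close_exists_labels h
    have hk : (Multiset.map f Finset.univ.val).card = k := by simp
    generalize (Multiset.map f Finset.univ.val).card = n at *
    subst hk
    obtain ⟨σ, hσ⟩ := exists_perm h1.symm
    obtain ⟨τ, hτ⟩ := exists_perm h2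
    refine ⟨σ.trans τ, fun i => ?_⟩
    show dist (f i) (g (τ (σ i))) ≤ ε
    rw [hτ, ← hσ]
    exact h3 _
  · rintro ⟨σ, hσ⟩
    have hg : Multiset.map g Finset.univ.val =
        Multiset.map (fun i => g (σ i)) Finset.univ.val := by
      have h1 : (Finset.univ : Finset (Fin k)).val = Multiset.map σ Finset.univ.val := by
        rw [← Equiv.coe_toEmbedding, ← Finset.map_val, Finset.map_univ_equiv]
      conv_lhs => rw [h1, Multiset.map_map]
      rfl
    rw [hg]
    exact close_labels hσ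

lemma close_symm {ε : ℝ} {s t : Multiset ℂ} (h : Close ε s t) : Close ε t s := by
  obtain ⟨f, g, h1, h2, h3⟩ := close_exists_labels h
  rw [h1, h2]
  exact close_labels (fun i => by rw [dist_comm]; exact h3 i)

lemma close_card {ε : ℝ} {s t : Multiset ℂ} (h : Close ε s t) : s.card = t.card :=
  Multiset.card_eq_card_of_rel h

lemma close_mono {ε δ : ℝ} {s t : Multiset ℂ} (h : Close ε s t) (hd : ε ≤ δ) : Close δ s t :=
  Multiset.Rel.mono h (fun _ _ _ _ hab => hab.trans hd)

lemma near_of_close {ε δ : ℝ} {s t : Multiset ℂ} (h : Close ε s t) (hd : ε < δ) : Near δ s t :=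
  Multiset.Rel.mono h (fun _ _ _ _ hab => lt_of_le_of_lt hab hd)

lemma close_of_near {ε : ℝ} {s t : Multiset ℂ} (h : Near ε s t) : Close ε s t :=
  Multiset.Rel.mono h (fun _ _ _ _ hab => hab.le)

lemma close_refl {ε : ℝ} (hε : 0 ≤ ε) (s : Multiset ℂ) : Close ε s s := by
  obtain ⟨f, hf⟩ := exists_labels s
  rw [hf]
  exact close_labels (fun i => by simpa using hε)

lemma close_trans {ε δ : ℝ} {s t u : Multiset ℂ} (h : Close ε s t) (h' : Close δ t u) :
    Close (ε + δ) s u := by
  obtain ⟨f, g, h1, h2, h3⟩ := close_exists_labels h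
  obtain ⟨g', w, h4, h5, h6⟩ := close_exists_labels h'
  have hk : t.card = s.card := (close_card h).symm
  generalize t.card = n at *
  subst hk
  obtain ⟨σ, hσ⟩ := exists_perm (h4.symm.trans h2)
  rw [h1, h5, close_iff_perm]
  refine ⟨σ, fun i => ?_⟩
  refine (dist_triangle _ (g i) _).trans (add_le_add (h3 i) ?_)
  rw [← hσ]
  exact h6 _

/-- closedness of the relation in `ε`. -/
lemma close_of_forall_gt {ε : ℝ} {s t : Multiset ℂ} (h : ∀ δ > ε, Close δ s t) :
    Close ε s t := by
  have h0 := h (ε + 1) (by linarith)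
  obtain ⟨f, hf⟩ := exists_labels s
  obtain ⟨g, hg⟩ := exists_labels t
  have hk : t.card = s.card := (close_card h0).symm
  generalize t.card = n at *
  subst hk
  rw [hf, hg, close_iff_perm]
  by_contra hcon
  push Not at hcon
  choose i hi using hcon
  classical
  obtain ⟨σ0, -, hσ0⟩ := Finset.exists_min_image (Finset.univ : Finset (Equiv.Perm (Fin s.card)))
    (fun σ => dist (f (i σ)) (g (σ (i σ)))) ⟨1, Finset.mem_univ _⟩
  set m := dist (f (i σ0)) (g (σ0 (i σ0))) with hm
  have hlt : ε < m := hi σ0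
  have h1 := h ((ε + m) / 2) (by linarith)
  rw [hf, hg, close_iff_perm] at h1
  obtain ⟨σ, hσ⟩ := h1
  have h2 := hσ (i σ)
  have h3 := hσ0 σ (Finset.mem_univ _)
  linarith

lemma close_zero {s t : Multiset ℂ} (h : Close 0 s t) : s = t := by
  obtain ⟨f, g, h1, h2, h3⟩ := close_exists_labels h
  have : f = g := funext fun i => dist_le_zero.1 (h3 i)
  rw [h1, h2, this]

lemma close_eps_nonneg {ε : ℝ} {s t : Multiset ℂ} (h : Close ε s t) (hs : s ≠ 0) : 0 ≤ ε := by
  obtain ⟨f, g, h1, h2, h3⟩ := close_exists_labels h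
  have hc : 0 < s.card := Multiset.card_pos.2 hs
  exact dist_nonneg.trans (h3 ⟨0, hc⟩)

/-! ### limits and extension -/

section Ext

variable {X : Type*} [PseudoMetricSpace X]

/-- `s` is the limit at `z` of the multiset valued function `W` along `G`. -/
def IsLim (G : Set X) (W : X → Multiset ℂ) (z : X) (s : Multiset ℂ) : Prop :=
  ∀ ε > 0, ∀ᶠ z' in 𝓝[G] z, Close ε s (W z')

lemma isLim_unique {G : Set X} {W : X → Multiset ℂ} {z : X} (hz : z ∈ closure G)
    {s t : Multiset ℂ} (hs : IsLim G W z s) (ht : IsLim G W z t) : s = t := by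
  have : (𝓝[G] z).NeBot := mem_closure_iff_nhdsWithin_neBot.1 hz
  refine close_zero (close_of_forall_gt fun δ hδ => ?_)
  obtain ⟨z', h1, h2⟩ := ((hs (δ / 2) (half_pos hδ)).and (ht (δ / 2) (half_pos hδ))).exists
  have h3 := close_trans h1 (close_symm h2)
  rwa [add_halves] at h3

lemma exists_isLim {G : Set X} {W : X → Multiset ℂ} {z : X} (hz : z ∈ closure G) {k : ℕ}
    (hk : ∀ x ∈ G, (W x).card = k)
    (hC : ∀ ε > 0, ∃ r > 0, ∀ x ∈ G, dist x z < r → ∀ y ∈ G, dist y z < r →
      Close ε (W x) (W y)) :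
    ∃ s : Multiset ℂ, s.card = k ∧ IsLim G W z s := by
  obtain ⟨u, huG, hu⟩ := mem_closure_iff_seq_limit.1 hz
  obtain ⟨r, hr, hr1⟩ := hC 1 one_pos
  obtain ⟨N, hN⟩ := (Metric.tendsto_atTop.1 hu) r hr
  obtain ⟨f0, hf0⟩ : ∃ f0 : Fin k → ℂ, W (u N) = Multiset.map f0 Finset.univ.val := by
    have h1 := hk _ (huG N)
    obtain ⟨f, hf⟩ := exists_labels (W (u N))
    generalize hn : (W (u N)).card = n at *
    subst h1
    exact ⟨f, hf⟩
  have hlab : ∀ n, ∃ f : Fin k → ℂ, W (u (N + n)) = Multiset.map f Finset.univ.val ∧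
      ∀ i, dist (f0 i) (f i) ≤ 1 := by
    intro n
    have h1 := hr1 _ (huG N) (hN N le_rfl) _ (huG (N + n)) (hN _ (Nat.le_add_right _ _))
    obtain ⟨f, g, h2, h3, h4⟩ := close_exists_labels h1
    have hc := hk _ (huG N)
    generalize hn : (W (u N)).card = n' at *
    subst hc
    obtain ⟨σ, hσ⟩ := exists_perm (h2.symm.trans hf0)
    refine ⟨fun i => g (σ i), ?_, fun i => ?_⟩
    · rw [h3]
      have h5 : (Finset.univ : Finset (Fin n')).val = Multiset.map σ Finset.univ.val := by
        rw [← Equiv.coe_toEmbedding, ← Finset.map_val, Finset.map_univ_equiv]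
      conv_lhs => rw [h5, Multiset.map_map]
      rfl
    · rw [← hσ]
      exact h4 _
  choose F hF1 hF2 using hlab
  have hmem : ∀ n, F n ∈ Metric.closedBall f0 1 := by
    intro n
    rw [Metric.mem_closedBall, dist_comm]
    exact (dist_pi_le_iff zero_le_one).2 (hF2 n)
  obtain ⟨f, -, φ, hφ, hlim⟩ := (isCompact_closedBall f0 (1 : ℝ)).tendsto_subseq hmem
  refine ⟨Multiset.map f Finset.univ.val, by simp, fun ε hε => ?_⟩
  obtain ⟨r2, hr2, h2⟩ := hC (ε / 2) (half_pos hε)
  have hsub : Tendsto (fun n => u (N + φ n)) atTop (𝓝 z) := by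
    refine hu.comp (tendsto_atTop_mono (fun n => ?_) tendsto_id)
    exact (hφ.le_apply (x := n)).trans (Nat.le_add_left _ _)
  obtain ⟨n, hn1, hn2⟩ := (((Metric.tendsto_nhds.1 hsub) r2 hr2).and
    ((Metric.tendsto_nhds.1 hlim) (ε / 2) (half_pos hε))).exists
  have h3 : Close (ε / 2) (Multiset.map f Finset.univ.val) (W (u (N + φ n))) := by
    rw [hF1]
    refine close_labels (fun i => ?_)
    rw [dist_comm]
    exact (dist_le_pi_dist _ _ i).trans hn2.le
  rw [eventually_nhdsWithin_iff, Metric.eventually_nhds_iff]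
  refine ⟨r2, hr2, fun y hy hyG => ?_⟩
  have h4 := close_trans h3 (h2 _ (huG _) hn1 y hyG hy)
  rwa [add_halves] at h4

/-- passage to the limit in a modulus of continuity. -/
lemma close_of_isLim {G : Set X} {W : X → Multiset ℂ} {ω : ℝ → ℝ} (hω : Continuous ω)
    {p : X} {r : ℝ}
    (hW : ∀ x ∈ G, dist x p < r → ∀ y ∈ G, dist y p < r → Close (ω (dist x y)) (W x) (W y))
    {z z' : X} (hz : z ∈ closure G) (hz' : z' ∈ closure G) (hzp : dist z p < r)
    (hzp' : dist z' p < r) {s t : Multiset ℂ} (hs : IsLim G W z s) (ht : IsLim G W z' t) :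
    Close (ω (dist z z')) s t := by
  refine close_of_forall_gt fun δ hδ => ?_
  set ε := (δ - ω (dist z z')) / 3 with hε
  have hε0 : 0 < ε := by rw [hε]; linarith
  have : (𝓝[G] z).NeBot := mem_closure_iff_nhdsWithin_neBot.1 hz
  have : (𝓝[G] z').NeBot := mem_closure_iff_nhdsWithin_neBot.1 hz'
  have hcont : Tendsto (fun q : X × X => ω (dist q.1 q.2)) (𝓝[G] z ×ˢ 𝓝[G] z')
      (𝓝 (ω (dist z z'))) := by
    have h1 : Continuous (fun q : X × X => ω (dist q.1 q.2)) :=
      hω.comp (continuous_fst.dist continuous_snd)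
    refine (h1.tendsto (z, z')).mono_left ?_
    rw [nhds_prod_eq]
    exact prod_mono nhdsWithin_le_nhds nhdsWithin_le_nhds
  have e1 : ∀ᶠ q : X × X in 𝓝[G] z ×ˢ 𝓝[G] z', ω (dist q.1 q.2) < ω (dist z z') + ε :=
    hcont (Iio_mem_nhds (by linarith))
  have e2 : ∀ᶠ x in 𝓝[G] z, x ∈ G ∧ dist x p < r ∧ Close ε s (W x) := by
    refine Filter.Eventually.and self_mem_nhdsWithin (Filter.Eventually.and ?_ (hs ε hε0))
    exact nhdsWithin_le_nhds ((continuous_id.dist continuous_const).continuousAt.eventually_lt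
      continuousAt_const hzp)
  have e3 : ∀ᶠ y in 𝓝[G] z', y ∈ G ∧ dist y p < r ∧ Close ε t (W y) := by
    refine Filter.Eventually.and self_mem_nhdsWithin (Filter.Eventually.and ?_ (ht ε hε0))
    exact nhdsWithin_le_nhds ((continuous_id.dist continuous_const).continuousAt.eventually_lt
      continuousAt_const hzp')
  obtain ⟨⟨x, y⟩, h1, ⟨hx1, hx2, hx3⟩, hy1, hy2, hy3⟩ :=
    (e1.and ((e2.prod_inl _).and (e3.prod_inr _))).exists
  have h4 := close_trans (close_trans hx3 (hW x hx1 hx2 y hy1 hy2)) (close_symm hy3)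
  refine close_mono h4 ?_
  have h5 : ω (dist x y) < ω (dist z z') + ε := h1
  have h6 : 3 * ε = δ - ω (dist z z') := by rw [hε]; ring
  linarith

/-- **extension of a multiset valued function from a dense set**, local moduli of continuity. -/
theorem extend_local {G D : Set X} (hGD : D ⊆ closure G) (W : X → Multiset ℂ) (k : ℕ)
    (hk : ∀ x ∈ G, (W x).card = k)
    (hloc : ∀ p ∈ D, ∃ r > 0, ∃ ω : ℝ → ℝ, Continuous ω ∧ ω 0 = 0 ∧
      ∀ x ∈ G, dist x p < r → ∀ y ∈ G, dist y p < r → Close (ω (dist x y)) (W x) (W y)) :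
    ∃ S : X → Multiset ℂ, (∀ z ∈ D, z ∈ G → S z = W z) ∧ (∀ z ∈ D, (S z).card = k) ∧
      (∀ z ∈ D, IsLim G W z (S z)) ∧
      ∀ (p : X) (r : ℝ) (ω : ℝ → ℝ), Continuous ω →
        (∀ x ∈ G, dist x p < r → ∀ y ∈ G, dist y p < r → Close (ω (dist x y)) (W x) (W y)) →
        ∀ z ∈ D, dist z p < r → ∀ z' ∈ D, dist z' p < r →
          Close (ω (dist z z')) (S z) (S z') := by
  classical
  have hC : ∀ z ∈ D, ∀ ε > 0, ∃ r > 0, ∀ x ∈ G, dist x z < r → ∀ y ∈ G, dist y z < r →
      Close ε (W x) (W y) := by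
    intro z hz ε hε
    obtain ⟨r, hr, ω, hω, h0, h⟩ := hloc z hz
    have h1 : ∀ᶠ t in 𝓝 (0 : ℝ), ω t < ε := by
      have := hω.tendsto 0
      rw [h0] at this
      exact this (Iio_mem_nhds hε)
    obtain ⟨η, hη, h2⟩ := Metric.eventually_nhds_iff.1 h1
    refine ⟨min r (η / 2), lt_min hr (half_pos hη), fun x hx hxz y hy hyz => ?_⟩
    refine close_mono (h x hx (lt_of_lt_of_le hxz (min_le_left _ _)) y hy
      (lt_of_lt_of_le hyz (min_le_left _ _))) (h2 ?_).le
    rw [Real.dist_eq, sub_zero, abs_of_nonneg dist_nonneg]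
    have h3 := dist_triangle_right x y z
    have h4 := lt_of_lt_of_le hxz (min_le_right _ _)
    have h5 := lt_of_lt_of_le hyz (min_le_right _ _)
    linarith
  have hex : ∀ z, ∃ s : Multiset ℂ, z ∈ D → s.card = k ∧ IsLim G W z s := by
    intro z
    by_cases hz : z ∈ D
    · obtain ⟨s, hs⟩ := exists_isLim (hGD hz) hk (hC z hz)
      exact ⟨s, fun _ => hs⟩
    · exact ⟨0, fun h => absurd h hz⟩
  choose S hS using hex
  refine ⟨S, fun z hz hzG => ?_, fun z hz => (hS z hz).1, fun z hz => (hS z hz).2,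
    fun p r ω hω hW z hz hzp z' hz' hzp' =>
      close_of_isLim hω hW (hGD hz) (hGD hz') hzp hzp' (hS z hz).2 (hS z' hz').2⟩
  refine isLim_unique (hGD hz) (hS z hz).2 ?_
  intro ε hε
  obtain ⟨r, hr, h⟩ := hC z hz ε hε
  rw [eventually_nhdsWithin_iff, Metric.eventually_nhds_iff]
  exact ⟨r, hr, fun y hy hyG => h z hzG (by simpa using hr) y hyG hy⟩

/-- **extension, one Hoelder modulus.** -/
theorem extend {G D : Set X} (hGD : D ⊆ closure G) (W : X → Multiset ℂ) (k : ℕ)
    (hk : ∀ x ∈ G, (W x).card = k) {K b : ℝ} (hb : 0 < b)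
    (hW : ∀ x ∈ G, ∀ y ∈ G, Close (K * dist x y ^ b) (W x) (W y)) :
    ∃ S : X → Multiset ℂ, (∀ z ∈ D, z ∈ G → S z = W z) ∧ (∀ z ∈ D, (S z).card = k) ∧
      ∀ z ∈ D, ∀ z' ∈ D, Close (K * dist z z' ^ b) (S z) (S z') := by
  have hω : Continuous (fun t : ℝ => K * t ^ b) :=
    continuous_const.mul (Real.continuous_rpow_const hb.le)
  obtain ⟨S, h1, h2, -, h4⟩ := extend_local hGD W k hk (fun p _ =>
    ⟨1, one_pos, fun t => K * t ^ b, hω, by simp [Real.zero_rpow hb.ne'],
      fun x hx _ y hy _ => hW x hx y hy⟩)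
  refine ⟨S, h1, h2, fun z hz z' hz' => ?_⟩
  exact h4 z (dist z' z + 1) (fun t => K * t ^ b) hω (fun x hx _ y hy _ => hW x hx y hy)
    z hz (by rw [dist_self]; positivity) z' hz' (by linarith)

end Ext

/-- a set of full measure in an open set of the plane is dense in it. -/
lemma subset_closure_of_ae {D G : Set ℂ} (hD : IsOpen D) (h : volume (D \ G) = 0) :
    D ⊆ closure G := by
  intro z hz
  rw [_root_.mem_closure_iff]
  intro o ho hzo
  by_contra hne
  rw [Set.not_nonempty_iff_eq_empty] at hne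
  have h1 : o ∩ D ⊆ D \ G := fun x hx =>
    ⟨hx.2, fun hxG => (Set.eq_empty_iff_forall_notMem.1 hne) x ⟨hx.1, hxG⟩⟩
  have h2 : 0 < volume (o ∩ D) := (ho.inter hD).measure_pos volume ⟨z, hzo, hz⟩
  exact absurd (measure_mono_null h1 h) h2.ne'

/-- **C14, local form for balls**: for every smaller ball `ball c R'` a Hoelder modulus on the
set `G` of full measure; the extension is Hoelder with the same constants. -/
theorem c14 {c : ℂ} {R : ℝ} {k : ℕ} {G : Set ℂ} (W : ℂ → Multiset ℂ)
    (hG : volume (ball c R \ G) = 0) (hk : ∀ x ∈ G, (W x).card = k)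
    (hW : ∀ p ∈ ball c R, ∃ K a r : ℝ, 0 ≤ K ∧ 0 < a ∧ 0 < r ∧
      ∀ x ∈ G, dist x p < r → ∀ y ∈ G, dist y p < r → Close (K * dist x y ^ a) (W x) (W y)) :
    ∃ S : ℂ → Multiset ℂ, (∀ z ∈ ball c R, z ∈ G → S z = W z) ∧
      (∀ z ∈ ball c R, (S z).card = k) ∧
      (∀ z ∈ ball c R, ∀ ε > 0, ∀ᶠ z' in 𝓝 z, Near ε (S z) (S z')) ∧
      (∀ p ∈ ball c R, ∃ K a r : ℝ, 0 ≤ K ∧ 0 < a ∧ 0 < r ∧ ball p r ⊆ ball c R ∧
        ∀ z ∈ ball p r, Close (K * dist z p ^ a) (S p) (S z)) ∧
      (∀ (p : ℂ) (r K a : ℝ), 0 < a → ball p r ⊆ ball c R →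
        (∀ x ∈ G, dist x p < r → ∀ y ∈ G, dist y p < r →
          Close (K * dist x y ^ a) (W x) (W y)) →
        ∀ z ∈ ball p r, ∀ z' ∈ ball p r, Close (K * dist z z' ^ a) (S z) (S z')) := by
  have hcont : ∀ {K a : ℝ}, 0 < a → Continuous (fun t : ℝ => K * t ^ a) := fun ha =>
    continuous_const.mul (Real.continuous_rpow_const ha.le)
  obtain ⟨S, h1, h2, -, h4⟩ := extend_local (subset_closure_of_ae isOpen_ball hG) W k hk
    (fun p hp => by
      obtain ⟨K, a, r, hK, ha, hr, h⟩ := hW p hp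
      exact ⟨r, hr, fun t => K * t ^ a, hcont ha, by simp [Real.zero_rpow ha.ne'], h⟩)
  have hloc : ∀ p ∈ ball c R, ∃ K a r : ℝ, 0 ≤ K ∧ 0 < a ∧ 0 < r ∧ ball p r ⊆ ball c R ∧
        ∀ z ∈ ball p r, Close (K * dist z p ^ a) (S p) (S z) := by
    intro p hp
    obtain ⟨K, a, r, hK, ha, hr, h⟩ := hW p hp
    obtain ⟨r', hr', hsub⟩ := Metric.isOpen_iff.1 isOpen_ball p hp
    refine ⟨K, a, min r r', hK, ha, lt_min hr hr',
      (ball_subset_ball (min_le_right _ _)).trans hsub, fun z hz => ?_⟩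
    have hz1 : dist z p < r := lt_of_lt_of_le hz (min_le_left _ _)
    have hz2 : z ∈ ball c R := hsub (ball_subset_ball (min_le_right _ _) hz)
    have h5 := h4 p r (fun t => K * t ^ a) (hcont ha) h p hp (by simpa using hr) z hz2 hz1
    rwa [dist_comm] at h5
  refine ⟨S, h1, h2, ?_, hloc, fun p r K a ha hsub h z hz z' hz' =>
    h4 p r (fun t => K * t ^ a) (hcont ha) h z (hsub hz) hz z' (hsub hz') hz'⟩
  intro z hz ε hε
  obtain ⟨K, a, r, hK, ha, hr, hsub, h⟩ := hloc z hz
  have h5 : Tendsto (fun z' : ℂ => K * dist z' z ^ a) (𝓝 z) (𝓝 0) := by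
    have h6 : Continuous (fun z' : ℂ => K * dist z' z ^ a) :=
      (hcont (K := K) ha).comp (continuous_id.dist continuous_const)
    have h7 := h6.tendsto z
    simpa [Real.zero_rpow ha.ne'] using h7
  filter_upwards [h5 (Iio_mem_nhds hε), ball_mem_nhds z hr] with z' h8 h9
  exact near_of_close (h z' h9) h8

end

end Crest.Agent.R235.CylExt_463
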