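import Crest.Agent.R235.CylAsm_437

/-!
Row 235 (S0364), PACKAGE REG, sub-block CYL, leaf C17 (helper437, task 287), part B:

* `ae_inSupp`     : `m`-almost every point is in the support;
* `fibre_null`    : `m ({z} × ℂ) = 0`;
* `del_countable` : the non-simple points are countable;
* `pos_simple`    : `0 < hh` at flat points over simple points;
* `ae_pos`        : `0 < hh` `m`-almost everywhere;
* **`cylf_of`**   : `CYL → LOC → ALG0 → CONE → DECAY → DISI → SHEETS → CYLF`.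
-/

set_option autoImplicit false

open MeasureTheory Metric Set Filter Complex
open scoped ContDiff Topology

namespace Crest.Agent.R235.CylF_437

open Crest.Agent.R235.Loc Crest.Agent.R235.Cyl Crest.Agent.R235.LocSel_483
open Crest.Agent.R235.CylAsm_437

noncomputable section

/-- almost every point is in the support. -/
theorem ae_inSupp (m : Measure CC) : ∀ᵐ p ∂m, InSupp m p := by
  rw [ae_iff]
  refine measure_null_of_locally_null _ ?_
  intro p hp
  simp only [mem_ofPred_eq, InSupp, not_forall, not_lt] at hp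
  obtain ⟨r, hr, h⟩ := hp
  refine ⟨ball p r, mem_nhdsWithin_of_mem_nhds (ball_mem_nhds p hr), ?_⟩
  exact le_antisymm h (by simp)

/-- vertical fibres are null. -/
theorem fibre_null {m : Measure CC} [IsFiniteMeasure m] {z : ℂ} {C b r₀ : ℝ} (hb : 0 < b)
    (hr₀ : 0 < r₀)
    (h : ∀ r : ℝ, 0 < r → r ≤ r₀ → m.real (closedBall z r ×ˢ (univ : Set ℂ)) ≤ C * r ^ (2 * b)) :
    m (({z} : Set ℂ) ×ˢ (univ : Set ℂ)) = 0 := by
  have h1 : m.real (({z} : Set ℂ) ×ˢ (univ : Set ℂ)) ≤ 0 := by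
    have hlim : Tendsto (fun r : ℝ => C * r ^ (2 * b)) (𝓝[>] 0) (𝓝 0) := by
      have h2 : Tendsto (fun r : ℝ => r ^ (2 * b)) (𝓝 0) (𝓝 (0 ^ (2 * b))) :=
        tendsto_id.rpow_const (Or.inr (by positivity))
      rw [Real.zero_rpow (by positivity)] at h2
      simpa using (h2.const_mul C).mono_left nhdsWithin_le_nhds
    refine ge_of_tendsto hlim ?_
    filter_upwards [Ioo_mem_nhdsGT hr₀] with r hr
    refine le_trans ?_ (h r hr.1 hr.2.le)
    refine measureReal_mono (prod_mono ?_ le_rfl)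
    rw [singleton_subset_iff]
    exact mem_closedBall_self hr.1.le
  have h2 := le_antisymm h1 measureReal_nonneg
  rwa [measureReal_eq_zero_iff] at h2

/-- the non-simple points are countable. -/
theorem del_countable {c : ℂ} {R : ℝ} {S : ℂ → Multiset ℂ}
    (h : ∀ p ∈ ball c R, ∀ᶠ z in 𝓝[≠] p, (S z).Nodup) : (Del c R S).Countable := by
  have hd : DiscreteTopology (Del c R S) := by
    rw [discreteTopology_subtype_iff]
    intro p hp
    rw [Filter.inf_principal_eq_bot]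
    filter_upwards [h p hp.1] with z hz hz'
    exact hz'.2 hz
  have : Countable (Del c R S) := TopologicalSpace.separableSpace_iff_countable.1 inferInstance
  exact this

/-- `0 < hh` at a flat point of the support over a simple point. -/
theorem pos_simple (h0 : ALG0) (h1 : CONE) {μ β : CC → ℂ} {κ L : ℝ} (hB : SBox μ β κ L)
    {c : ℂ} {R ρ K : ℝ} {m : Measure CC} {X Y : CC → CC} (hm : BoxCur μ β c R ρ K m X Y)
    {k : ℕ} {S : ℂ → Multiset ℂ} {e : ℂ → ℝ} (hKG : KG μ β c R k S e)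
    (hS : ∀ z ∈ ball c R, ∀ w, w ∈ S z ↔ InSupp m (z, w)) {p : CC} (hp : p.1 ∈ ball c R)
    (hnd : (S p.1).Nodup) (hin : InSupp m p) (hfl : FlatAt m X Y p) :
    0 < hh (X p) (Y p) := by
  obtain ⟨C₀, c₀, -, -, hA⟩ := h0 κ L K hB.box.κ0 hB.box.κ1 hB.box.L0
  obtain ⟨hnn, -, -, -, -, -, -, -, hX1, hY1, -⟩ :=
    hA μ β hB p (X p) (Y p) (hm.nX p) (hm.nY p) (hm.jz p) (hm.jw p)
  refine lt_of_le_of_ne hnn fun h00 => ?_
  have hX0 : (X p).1 = 0 := by
    rw [← h00, mul_zero] at hX1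
    exact norm_eq_zero.1 (pow_eq_zero_iff two_ne_zero |>.1 (le_antisymm hX1 (by positivity)))
  have hY0 : (Y p).1 = 0 := by
    rw [← h00, mul_zero] at hY1
    exact norm_eq_zero.1 (pow_eq_zero_iff two_ne_zero |>.1 (le_antisymm hY1 (by positivity)))
  obtain ⟨r, w, hr, hsub, hsh, -, hSw⟩ := exists_sheets hKG.card hKG.cont hp hnd
  have hmem : p.2 ∈ S p.1 := (hS p.1 hp p.2).2 hin
  rw [hSw p.1 (mem_ball_self hr)] at hmem
  obtain ⟨i, -, hi⟩ := Multiset.mem_map.1 hmem
  have hcd : ContDiffAt ℝ ∞ (w i) p.1 :=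
    (hKG.smooth _ _ hsub (hsh i)).contDiffAt (ball_mem_nhds _ hr)
  have hO : (fun z => w i z - w i p.1) =O[𝓝 p.1] fun z => z - p.1 :=
    (hcd.differentiableAt (by simp)).isBigO_sub
  obtain ⟨K₁, hK₁, hO'⟩ := hO.exists_pos
  rw [Asymptotics.isBigOWith_iff] at hO'
  set M := max 1 K₁ with hM
  have hM1 : 1 ≤ M := le_max_left _ _
  have hMK : K₁ ≤ M := le_max_right _ _
  obtain ⟨r₁, hr₁, hcone⟩ := h1 μ β κ L hB c R ρ K m X Y hm p hp hin hfl (1 / (2 * M))
    (by positivity)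
  have hev : ∀ᶠ z in 𝓝 p.1, z ∈ ball p.1 r ∧ ‖w i z - w i p.1‖ ≤ K₁ * ‖z - p.1‖ ∧
      ‖z - p.1‖ * M < r₁ := by
    have h3 : Tendsto (fun z : ℂ => ‖z - p.1‖ * M) (𝓝 p.1) (𝓝 0) := by
      have : Continuous fun z : ℂ => ‖z - p.1‖ * M := by fun_prop
      simpa using this.tendsto p.1
    filter_upwards [ball_mem_nhds p.1 hr, hO', h3.eventually (gt_mem_nhds hr₁)] with z a1 a2 a3
    exact ⟨a1, a2, a3⟩
  have hev' : ∃ᶠ z in 𝓝[≠] p.1, z ∈ ball p.1 r ∧ ‖w i z - w i p.1‖ ≤ K₁ * ‖z - p.1‖ ∧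
      ‖z - p.1‖ * M < r₁ :=
    (hev.filter_mono nhdsWithin_le_nhds).frequently
  obtain ⟨z, ⟨hz, hzw, hzr⟩, hne⟩ :=
    (hev'.and_eventually (self_mem_nhdsWithin)).exists
  have hzp : 0 < ‖z - p.1‖ := norm_pos_iff.2 (sub_ne_zero.2 hne)
  have hq : InSupp m (z, w i z) := by
    refine (hS z (hsub hz) _).1 ?_
    rw [hSw z hz]
    exact Multiset.mem_map_of_mem _ (Finset.mem_univ i)
  have hnorm : ‖((z, w i z) : CC) - p‖ ≤ ‖z - p.1‖ * M := by
    rw [Prod.norm_def]
    refine max_le ?_ ?_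
    · change ‖z - p.1‖ ≤ _
      nlinarith
    · change ‖w i z - p.2‖ ≤ _
      rw [← hi]
      refine hzw.trans ?_
      rw [mul_comm]
      exact mul_le_mul_of_nonneg_left hMK hzp.le
  obtain ⟨ζ, hζ⟩ := hcone _ hq (by rw [dist_eq_norm]; exact hnorm.trans_lt hzr)
  have h5 : ‖z - p.1‖ ≤ ‖((z, w i z) : CC) - p - (ζ.re • X p + ζ.im • Y p)‖ := by
    refine le_trans (le_of_eq ?_) (norm_fst_le _)
    simp [hX0, hY0]
  have h6 : ‖z - p.1‖ ≤ 1 / (2 * M) * (‖z - p.1‖ * M) :=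
    h5.trans (hζ.trans (mul_le_mul_of_nonneg_left hnorm (by positivity)))
  have h7 : 1 / (2 * M) * (‖z - p.1‖ * M) = ‖z - p.1‖ / 2 := by
    field_simp
  rw [h7] at h6
  linarith

/-- `0 < hh` almost everywhere. -/
theorem ae_pos (h0 : ALG0) (h1 : CONE) (hD : DECAY) {μ β : CC → ℂ} {κ L : ℝ} (hB : SBox μ β κ L)
    {c : ℂ} {R ρ K : ℝ} {m : Measure CC} {X Y : CC → CC} (hm : BoxCur μ β c R ρ K m X Y)
    {k : ℕ} {S : ℂ → Multiset ℂ} {e : ℂ → ℝ} (hKG : KG μ β c R k S e)
    (hS : ∀ z ∈ ball c R, ∀ w, w ∈ S z ↔ InSupp m (z, w))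
    (hloc : ∀ p ∈ ball c R, ∀ᶠ z in 𝓝[≠] p, (S z).Nodup) :
    ∀ᵐ p ∂m, 0 < hh (X p) (Y p) := by
  have := hm.fin
  have hnull : m (Del c R S ×ˢ (univ : Set ℂ)) = 0 := by
    have h2 : Del c R S ×ˢ (univ : Set ℂ) = ⋃ z ∈ Del c R S, ({z} : Set ℂ) ×ˢ (univ : Set ℂ) := by
      ext p
      simp
    rw [h2, measure_biUnion_null_iff (del_countable hloc)]
    intro z hz
    obtain ⟨C, b, r₀, hC, hb, -, hr₀, -, h⟩ :=
      hD μ β κ L hB c R ρ K m X Y hm (dist z c) (mem_ball.1 hz.1)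
    exact fibre_null hb hr₀ fun r hr hr' => (h z (mem_closedBall.2 le_rfl) r hr hr').1
  have hnull' : ∀ᵐ p ∂m, p ∉ Del c R S ×ˢ (univ : Set ℂ) :=
    measure_eq_zero_iff_ae_notMem.1 hnull
  filter_upwards [hnull', ae_inSupp m, hm.flat, hm.supp] with p a1 a2 a3 a4
  refine pos_simple h0 h1 hB hm hKG hS a4.1 ?_ a2 a3
  by_contra hcon
  exact a1 ⟨⟨a4.1, hcon⟩, mem_univ _⟩

theorem slo_one (X Y : CC) : slo X Y 1 = ((hh X Y)⁻¹ : ℝ) • (V1 X Y).2 := by
  simp [slo]

theorem slo_I (X Y : CC) : slo X Y I = ((hh X Y)⁻¹ : ℝ) • (VI X Y).2 := by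
  simp [slo]

/-- the plane form in terms of the slope. -/
theorem form_eq {X Y : CC} (hpos : 0 < hh X Y) (g : CC →L[ℝ] CC →L[ℝ] ℝ) (hg : ∀ v, g v v = 0) :
    g X Y = g (1, slo X Y 1) (I, slo X Y I) * hh X Y := by
  have hanti : ∀ u v, g u v = - g v u := by
    intro u v
    have h := hg (u + v)
    simp only [map_add, add_apply, hg, zero_add, add_zero] at h
    linarith
  have hX : V1 X Y = (hh X Y) • ((1 : ℂ), slo X Y 1) := by
    rw [slo_one]
    have hne := hpos.ne'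
    refine Prod.ext ?_ (by simp [hne])
    apply Complex.ext
    · simp [V1, hh]; ring
    · simp [V1, hh]; ring
  have hY : VI X Y = (hh X Y) • ((I : ℂ), slo X Y I) := by
    rw [slo_I]
    have hne := hpos.ne'
    refine Prod.ext ?_ (by simp [hne])
    apply Complex.ext
    · simp [VI, hh]; ring
    · simp [VI, hh]
  have h1 : g (V1 X Y) (VI X Y) = hh X Y * g X Y := by
    simp only [V1, VI, map_sub, map_smul, sub_apply,
      smul_apply, smul_eq_mul, hg, hanti Y X, hh]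
    ring
  rw [hX, hY] at h1
  simp only [map_smul, smul_apply, smul_eq_mul] at h1
  have h2 := mul_left_cancel₀ hpos.ne' h1
  rw [← h2]
  ring

theorem meas_hh {X Y : CC → CC} (hX : Measurable X) (hY : Measurable Y) :
    Measurable fun p => hh (X p) (Y p) := by
  have h1 : Measurable fun p => (X p).1 := measurable_fst.comp hX
  have h2 : Measurable fun p => (Y p).1 := measurable_fst.comp hY
  exact ((measurable_re.comp h1).mul (measurable_im.comp h2)).sub
    ((measurable_re.comp h2).mul (measurable_im.comp h1))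

theorem meas_V1 {X Y : CC → CC} (hX : Measurable X) (hY : Measurable Y) :
    Measurable fun p => V1 (X p) (Y p) := by
  have h1 : Measurable fun p => (X p).1 := measurable_fst.comp hX
  have h2 : Measurable fun p => (Y p).1 := measurable_fst.comp hY
  exact ((measurable_im.comp h2).smul hX).sub ((measurable_im.comp h1).smul hY)

theorem meas_VI {X Y : CC → CC} (hX : Measurable X) (hY : Measurable Y) :
    Measurable fun p => VI (X p) (Y p) := by
  have h1 : Measurable fun p => (X p).1 := measurable_fst.comp hX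
  have h2 : Measurable fun p => (Y p).1 := measurable_fst.comp hY
  exact ((measurable_re.comp h1).smul hY).sub ((measurable_re.comp h2).smul hX)

theorem meas_slo_one {X Y : CC → CC} (hX : Measurable X) (hY : Measurable Y) :
    Measurable fun p => slo (X p) (Y p) 1 := by
  simp only [slo_one]
  exact (meas_hh hX hY).inv.smul (measurable_snd.comp (meas_V1 hX hY))

theorem meas_slo_I {X Y : CC → CC} (hX : Measurable X) (hY : Measurable Y) :
    Measurable fun p => slo (X p) (Y p) I := by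
  simp only [slo_I]
  exact (meas_hh hX hY).inv.smul (measurable_snd.comp (meas_VI hX hY))

theorem meas_form {g : CC → (CC →L[ℝ] CC →L[ℝ] ℝ)} (hg : Continuous g) {U V : CC → CC}
    (hU : Measurable U) (hV : Measurable V) : Measurable fun p => g p (U p) (V p) := by
  have hc : Continuous fun q : CC × CC × CC => g q.1 q.2.1 q.2.2 := by fun_prop
  exact hc.measurable.comp (measurable_id.prodMk (hU.prodMk hV))

/-- **CYLF.** -/
theorem cylf_of (h : CYL) (hL : LOC) (h0 : ALG0) (h1 : CONE) (hD : DECAY) (hd : DISI)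
    (hw : SHEETS) : CYLF := by
  intro μ β κ L hB c R ρ K m X Y hm hR0
  have hfin := hm.fin
  obtain ⟨k, S, e, hKG, hDec, hbd, hS⟩ := h μ β κ L hB c R ρ K m X Y hm hR0
  have hloc : ∀ p ∈ ball c R, ∀ᶠ z in 𝓝[≠] p, (S z).Nodup := hL μ β κ L hB.box c R k S e hKG
  refine ⟨k, S, e, hKG, hDec, hbd, hS, hloc, ?_⟩
  intro g hgc hgT hgv
  obtain ⟨T, hTR, hT, hgT⟩ := hgT
  -- the sheets
  have hHld : Hld c R S := by
    intro R' hR'
    obtain ⟨C, b, r₀, hC, hb, -, -, -, -, hcl⟩ := hDec R' hR'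
    exact ⟨C, b, hC, hb, fun z hz z' hz' =>
      hcl z (ball_subset_closedBall hz) z' (ball_subset_closedBall hz')⟩
  have hfib : ∀ᵐ z : ℂ, z ∈ ball c R → (S z).Nodup ∧ ∀ w, w ∈ S z ↔ w ∈ fib m z := by
    have h2 := hKG.null
    have h3 : ∀ᵐ z : ℂ, z ∉ {z ∈ ball c R | ¬ (S z).Nodup} :=
      measure_eq_zero_iff_ae_notMem.1 h2
    filter_upwards [h3] with z hz hz'
    refine ⟨?_, hS z hz'⟩
    by_contra hcon
    exact hz ⟨hz', hcon⟩
  have hsheets := hw μ β κ L hB c R ρ K m X Y hm hR0 k S hKG.card hHld hfib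
  have hslope := ae_slope (X := X) (Y := Y) hKG.card (fun z hz => hKG.cont z hz)
    (fun V w hV hw => (hsheets V w hV hw).2.2)
  -- positivity
  have hpos := ae_pos h0 h1 hD hB hm hKG hS hloc
  -- the integrand
  set Φ : CC → ℝ := fun p => g p (1, slo (X p) (Y p) 1) (I, slo (X p) (Y p) I) with hΦ
  have hΦm : Measurable Φ := meas_form hgc
    (measurable_const.prodMk (meas_slo_one hm.mX hm.mY))
    (measurable_const.prodMk (meas_slo_I hm.mX hm.mY))
  have heq : (fun p => g p (X p) (Y p)) =ᵐ[m] fun p => Φ p * hh (X p) (Y p) := by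
    filter_upwards [hpos] with p hp
    exact form_eq hp (g p) (hgv p)
  have hgint : Integrable (fun p => g p (X p) (Y p)) m := by
    obtain ⟨M, hM⟩ : ∃ M : ℝ, ∀ p ∈ T ×ˢ closedBall (0 : ℂ) ρ, ‖g p‖ ≤ M := by
      obtain ⟨M, hM⟩ := (hT.prod (isCompact_closedBall (0 : ℂ) ρ)).exists_bound_of_continuousOn
        (f := fun p => ‖g p‖)
        ((continuous_norm (E := CC →L[ℝ] CC →L[ℝ] ℝ)).comp hgc).continuousOn
      exact ⟨M, fun p hp => (le_abs_self _).trans (hM p hp)⟩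
    refine Integrable.mono' (integrable_const (|M| * 1 * K))
      (meas_form hgc hm.mX hm.mY).aestronglyMeasurable ?_
    filter_upwards [hm.supp] with p hp
    have hK0 : 0 ≤ K := (norm_nonneg _).trans (hm.nY p)
    by_cases hpT : p.1 ∈ T
    · have h4 : ‖g p‖ ≤ |M| := (hM p ⟨hpT, mem_closedBall_zero_iff.2 hp.2⟩).trans (le_abs_self _)
      calc ‖g p (X p) (Y p)‖ ≤ ‖g p‖ * ‖X p‖ * ‖Y p‖ := (g p).le_opNorm₂ _ _
        _ ≤ |M| * 1 * K := by
          rw [hm.nX p]
          exact mul_le_mul (mul_le_mul_of_nonneg_right h4 zero_le_one) (hm.nY p)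
            (norm_nonneg _) (by positivity)
    · rw [hgT p hpT]
      simpa using by positivity
  obtain ⟨hFi, hFe⟩ := hd μ β κ L hB c R ρ K m X Y hm Φ hΦm (hgint.congr heq)
  have hae : ∀ᵐ z : ℂ, z ∈ ball c R → FS m Φ z =
      ∑ w ∈ (S z).toFinset, g (z, w) (1, Loc.slope S z w 1) (I, Loc.slope S z w I) := by
    filter_upwards [hslope, hfib] with z a1 a2 hz
    obtain ⟨hnd, a3⟩ := a2 hz
    rw [FS_eq a3]
    refine Finset.sum_congr rfl fun w hw => ?_
    rw [a1 hz hnd w (Multiset.mem_toFinset.1 hw)]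
  constructor
  · refine hFi.congr_fun_ae ?_
    rw [EventuallyEq, ae_restrict_iff' measurableSet_ball]
    exact hae
  · rw [integral_congr_ae heq, hFe]
    exact setIntegral_congr_ae measurableSet_ball hae

end

end Crest.Agent.R235.CylF_437
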