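import Crest.Agent.R235.LocNonzF_774

/-!
Row 235, REG-LOC 11: NONZ, the flux at a point where all sheets coincide is not zero.
-/

set_option autoImplicit false

open MeasureTheory Metric Set Filter Complex
open scoped ContDiff Topology

namespace Crest.Agent.R235.LocNonz_774

open Crest.Agent.R235.Loc Crest.Agent.R235.LocNonzA_774 Crest.Agent.R235.LocNonzB_774
  Crest.Agent.R235.LocNonzC_774 Crest.Agent.R235.LocNonzD_774 Crest.Agent.R235.LocNonzE_774
  Crest.Agent.R235.LocNonzF_774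

noncomputable section

variable {μ β : ℂ × ℂ → ℂ} {κ L : ℝ} {c : ℂ} {R : ℝ} {k : ℕ} {S : ℂ → Multiset ℂ} {e : ℂ → ℝ}

theorem abs_int_le {F G : ℂ → ℝ} (hG : Integrable G) (h : ∀ᵐ z, |F z| ≤ G z) :
    |∫ z, F z| ≤ ∫ z, G z := by
  rw [← Real.norm_eq_abs]
  exact norm_integral_le_of_norm_le hG h

theorem G1_bound {χ : ℝ → ℝ} (hχ : Chi χ) {n : ℝ} {m c z a b : ℂ} {A B : ℂ →L[ℝ] ℂ}
    {ε Cg X ez : ℝ} (g0 : ‖gam m c ε z‖ ≤ Cg) (hX : 1 ≤ X)
    (hq : χ (pv a b / n) * ‖pdL a b A B‖ ^ 2 ≤ X * ez) :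
    |G1 χ n m c ε z a b A B| ≤ Cg * X * (1 + ez) := by
  have hCg0 : 0 ≤ Cg := (norm_nonneg _).trans g0
  unfold G1
  generalize pdL a b A B = T at hq ⊢
  have t1 : |(T 1).re| ≤ ‖T‖ := (Complex.abs_re_le_norm _).trans (by simpa using T.le_opNorm 1)
  have t2 : |(T I).re| ≤ ‖T‖ := (Complex.abs_re_le_norm _).trans (by simpa using T.le_opNorm I)
  have g1 : |gam m c ε z 1| ≤ Cg := by
    have := (gam m c ε z).le_opNorm 1
    rw [norm_one, mul_one] at this
    exact this.trans g0
  have g2 : |gam m c ε z I| ≤ Cg := by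
    have := (gam m c ε z).le_opNorm I
    rw [Complex.norm_I, mul_one] at this
    exact this.trans g0
  have hx0 := chi_nonneg hχ (pv a b / n)
  have hx1 := chi_le_one hχ (pv a b / n)
  generalize χ (pv a b / n) = x at hq hx0 hx1 ⊢
  rw [abs_mul, abs_of_nonneg hx0]
  have h8 : |(-(T 1).re * gam m c ε z I + (T I).re * gam m c ε z 1)| ≤
      Cg * (1 + ‖T‖ ^ 2) := by
    refine (abs_add_le _ _).trans ?_
    rw [abs_mul, abs_mul, abs_neg]
    have h9 := mul_le_mul t1 g2 (abs_nonneg _) (norm_nonneg _)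
    have h10 := mul_le_mul t2 g1 (abs_nonneg _) (norm_nonneg _)
    have h11 : 2 * ‖T‖ ≤ 1 + ‖T‖ ^ 2 := by nlinarith [sq_nonneg (‖T‖ - 1)]
    have h12 := mul_le_mul_of_nonneg_left h11 hCg0
    linarith
  have h11 := mul_le_mul_of_nonneg_left h8 hx0
  have h13 := mul_le_mul_of_nonneg_left hq hCg0
  have h14 : x * Cg ≤ Cg * X := by nlinarith
  have h15 : x * (Cg * (1 + ‖T‖ ^ 2)) = x * Cg + Cg * (x * ‖T‖ ^ 2) := by ring
  rw [h15] at h11
  have h16 : Cg * X * (1 + ez) = Cg * X + Cg * (X * ez) := by ring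
  rw [h16]
  linarith

theorem gam_le {m c z u : ℂ} {ε κ R₁ : ℝ} (hm : ‖m‖ ≤ κ) (hκ : κ < 1) (hR₁ : 0 < R₁)
    (hε : 0 < ε) (hz : R₁ ≤ ‖z - c‖) (hu : ‖u‖ = 1) :
    |gam m c ε z u| ≤ 4 / ((1 - κ) * R₁) := by
  have hκ' : 0 < 1 - κ := by linarith
  have l1 : (1 - κ) * R₁ ≤ ‖AL m (z - c)‖ := by
    refine le_trans ?_ (le_norm_AL m (z - c))
    exact mul_le_mul (by linarith) hz hR₁.le (by linarith)
  have l0 : 0 < (1 - κ) * R₁ := by positivity
  have l2 : ‖AL m u‖ ≤ 2 := by
    refine (norm_AL_le m u).trans ?_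
    rw [hu]; linarith
  have hN := NN_pos m c ε hε z
  have hA : 0 < ‖AL m (z - c)‖ := l0.trans_le l1
  rw [gam_apply, abs_mul, abs_of_pos (inv_pos.2 hN)]
  have h1 : |dx m (z - c) * dy m u - dy m (z - c) * dx m u| ≤ 4 * ‖AL m (z - c)‖ := by
    have a1 : |dx m (z - c)| ≤ ‖AL m (z - c)‖ := Complex.abs_re_le_norm _
    have a2 : |dy m (z - c)| ≤ ‖AL m (z - c)‖ := Complex.abs_im_le_norm _
    have a3 : |dx m u| ≤ 2 := (Complex.abs_re_le_norm _).trans l2
    have a4 : |dy m u| ≤ 2 := (Complex.abs_im_le_norm _).trans l2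
    have a5 := abs_sub (dx m (z - c) * dy m u) (dy m (z - c) * dx m u)
    rw [abs_mul, abs_mul] at a5
    have a6 := mul_le_mul a1 a4 (abs_nonneg _) (norm_nonneg _)
    have a7 := mul_le_mul a2 a3 (abs_nonneg _) (norm_nonneg _)
    linarith
  have h2 : (NN m c ε z)⁻¹ * (4 * ‖AL m (z - c)‖) ≤ 4 / ((1 - κ) * R₁) := by
    rw [inv_mul_eq_div, div_le_div_iff₀ hN l0, NN_eq]
    have := mul_le_mul_of_nonneg_left l1 hA.le
    nlinarith [sq_nonneg ε]
  exact (mul_le_mul_of_nonneg_left h1 (inv_nonneg.2 hN.le)).trans h2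

/-- the closed annulus -/
def K0 (c : ℂ) (R₁ R₂ : ℝ) : Set ℂ := {z | R₁ ≤ dist z c ∧ dist z c ≤ R₂}

section cut
variable {R₁ R₂ : ℝ} {η : ℂ → ℝ} (hη : Cut c R S R₁ R₂ η)
include hη

theorem fd0 {z : ℂ} (hz : z ∉ K0 c R₁ R₂) : fderiv ℝ η z = 0 := by
  rcases lt_or_ge (dist z c) R₁ with h | h
  · have : η =ᶠ[𝓝 z] fun _ => 1 := by
      filter_upwards [isOpen_ball.mem_nhds (mem_ball.2 h)] with y hy
      exact hη.one y (ball_subset_closedBall hy)
    rw [this.fderiv_eq]; simp
  · have h2 : R₂ < dist z c := by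
      by_contra h3
      exact hz ⟨h, not_lt.1 h3⟩
    have : η =ᶠ[𝓝 z] fun _ => 0 := by
      have ho : IsOpen {y : ℂ | R₂ < dist y c} :=
        isOpen_lt continuous_const (continuous_id.dist continuous_const)
      filter_upwards [ho.mem_nhds h2] with y hy
      exact hη.zero y (by rw [mem_ball, not_lt]; exact le_of_lt hy)
    rw [this.fderiv_eq]; simp

omit hη in
theorem K0_compact : IsCompact (K0 c R₁ R₂) := by
  have h1 : IsClosed (K0 c R₁ R₂) :=
    (isClosed_le continuous_const (continuous_id.dist continuous_const)).inter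
      (isClosed_le (continuous_id.dist continuous_const) continuous_const)
  exact (isCompact_closedBall c R₂).of_isClosed_subset h1 fun z hz => hz.2

theorem K0_simple : K0 c R₁ R₂ ⊆ Usimp c R S := fun z hz =>
  ⟨mem_ball.2 (hz.2.trans_lt hη.lt'), hη.simple z hz.1 hz.2⟩

theorem int_K0 {F : ℂ → ℝ} (hF : ContinuousOn F (Usimp c R S))
    (h0 : ∀ z ∉ K0 c R₁ R₂, F z = 0) : Integrable F := by
  have h1 : IntegrableOn F (K0 c R₁ R₂) :=
    (hF.mono (K0_simple hη)).integrableOn_compact K0_compact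
  rw [← integrableOn_univ, ← union_compl_self (K0 c R₁ R₂)]
  refine h1.union ?_
  have h3 : IntegrableOn (fun _ : ℂ => (0:ℝ)) (K0 c R₁ R₂)ᶜ := integrableOn_zero
  exact h3.congr_fun (fun z hz => (h0 z hz).symm) K0_compact.measurableSet.compl

end cut

set_option maxHeartbeats 1600000 in
theorem nonz_core (h : STAR) (h3 : STOKES) (hF : FLUX) (h1 : SEL) (h4 : JALG) (h6 : PSC)
    (hB : BoxD μ β κ L) (hK : KG μ β c R k S e) (hD : DiscOff c R S) (hR : 0 < R)
    (hA : AllEq S c) (hk : 2 ≤ k) {R₁ R₂ : ℝ} {η : ℂ → ℝ} (hη : Cut c R S R₁ R₂ η)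
    (h0 : flux S η = 0) : False := by
  obtain ⟨χ, hχ⟩ := exists_chi
  obtain ⟨c₀, C₀, hc₀, hC₀, hJ⟩ := h4 κ L hB.κ0 hB.κ1 hB.L0
  obtain ⟨m, s, C₈, hm, hs0, hs1, hC₈, hmu, hMor⟩ := data hB hK hR hA hk
  obtain ⟨Cχ, hCχ0, hCχ⟩ := chi_deriv_bdd hχ
  have hE := energy h1 h4 h6 hF hB hK hD hη h0
  have hκ := hB.κ1
  have hκ0 := hB.κ0
  have hκ' : 0 < 1 - κ := by linarith
  have hηc : Continuous η := hη.smooth.continuous
  have hηd : Differentiable ℝ η := hη.smooth.differentiable (by simp)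
  have hsub : closedBall c R₂ ⊆ ball c R := closedBall_subset_ball hη.lt'
  have hz0 : ∀ z ∉ closedBall c R₂, η z = 0 := fun z hz =>
    hη.zero z fun h => hz (ball_subset_closedBall h)
  have hfc : Continuous (fderiv ℝ η) := hη.smooth.continuous_fderiv (by simp)
  have hR₁ := hη.pos
  have hR₂ : 0 < R₂ := hR₁.trans hη.lt
  have hfd0 : ∀ z ∉ closedBall c R₂, fderiv ℝ η z = 0 := fun z hz =>
    fd0 hη fun h => hz h.2
  -- `a.e.` simple
  have hae : ∀ᵐ z, z ∈ ball c R → z ∈ Usimp c R S := by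
    have h2 := ae_simple hK
    rwa [ae_restrict_iff' measurableSet_ball] at h2
  -- slopes
  have hpair : ∀ z ∈ Usimp c R S, ∀ a ∈ S z, ∀ b ∈ S z, a ≠ b →
      |pJ a b (slope S z a) (slope S z b)| ≤
        C₀ * ‖pdL a b (slope S z a) (slope S z b)‖ ^ 2 ∧
      ‖lzb (pdL a b (slope S z a) (slope S z b)) -
        μ (z, a) * lz (pdL a b (slope S z a) (slope S z b))‖ ≤ C₀ * (1 + ‖slope S z b‖) ∧
      ‖slope S z b‖ ^ 2 ≤ e z := by
    intro z hz a ha b hb hab
    have hpa := slope_props h1 hB hK hz ha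
    have hpb := slope_props h1 hB hK hz hb
    obtain ⟨_, j2, j3⟩ := hJ μ β hB z a b _ _ hab hpa.1 hpb.1
    exact ⟨j2, j3, hpb.2⟩
  -- the majorant `Hf`
  set Hf : ℂ → ℝ := fun z => η z * ((k:ℝ) ^ 2 * (2 / (1 - κ) * (C₀ * (‖z - c‖ ^ (-1:ℝ) +
    (e z * ‖z - c‖ ^ (-s) + ‖z - c‖ ^ (s - 2)) / 2) + C₈ * (‖z - c‖ ^ (2 * s - 2) / 2)))) +
    2 / (1 - κ) * (C₈ / 2) * (η z * EE S z) with hHf
  have hHfi : Integrable Hf := by
    apply Integrable.add
    · apply int_mul hηc (cut_abs hη) (fun z hz => cut_ball hη hz)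
      apply Integrable.const_mul
      apply Integrable.const_mul
      apply Integrable.add
      · apply Integrable.const_mul
        apply Integrable.add (int_rpow c R (by norm_num))
        apply Integrable.div_const
        exact hMor.add (int_rpow c R (by linarith))
      · apply Integrable.const_mul
        apply Integrable.div_const
        exact int_rpow c R (by linarith)
    · exact hE.const_mul _
  -- lower bound for `v`
  obtain ⟨B, hB0, hBb⟩ := bdd_sheets hK (isCompact_closedBall c R₂) hsub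
  set Kv : ℝ := |Real.log (2 * B)| with hKv
  have hKv0 : 0 ≤ Kv := abs_nonneg _
  set K : ℝ := (k:ℝ) ^ 2 * Kv with hKdef
  have hpvl : ∀ z ∈ closedBall c R₂, ∀ a ∈ S z, ∀ b ∈ S z, a ≠ b → -Kv ≤ pv a b := by
    intro z hz a ha b hb hab
    have hpos : 0 < ‖a - b‖ := norm_pos_iff.2 (sub_ne_zero.2 hab)
    have h2 : ‖a - b‖ ≤ 2 * B := by
      have := norm_sub_le a b
      linarith [hBb z hz a ha, hBb z hz b hb]
    unfold pv
    have := Real.log_le_log hpos h2
    linarith [le_abs_self (Real.log (2 * B))]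
  -- the annulus integrals
  have hi_pv : Integrable (fun z => (|K| + psum S (fun _ a b _ _ => |pv a b|) z) *
      ‖fderiv ℝ η z‖ * (8 / ((1 - κ) * R₁))) := by
    apply int_K0 hη
    · apply ContinuousOn.mul_const
      apply ContinuousOn.mul _ hfc.norm.continuousOn
      apply continuousOn_const.add
      exact h6 μ β κ L hB c R k S e hK _ (cPv c R).abs
    · intro z hz
      rw [fd0 hη hz]; simp
  have hcw : CG c R (fun z a b A B => |wth (fderiv ℝ η z) a b A B|) :=
    (cWth c R hfc.continuousOn).abs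
  have hi_w : Integrable (fun z => psum S (fun z a b A B => |wth (fderiv ℝ η z) a b A B|) z) := by
    apply int_K0 hη
    · exact h6 μ β κ L hB c R k S e hK _ hcw
    · intro z hz
      have : psum S (fun z a b A B => |wth (fderiv ℝ η z) a b A B|) z =
          psum S (fun z a b A B => (0:ℝ) * (0:ℝ)) z := by
        apply psum_congr
        intro _ a _ b _ _
        rw [fd0 hη hz]; simp [wth]
      rw [this, psum_mul (fun _ => (0:ℝ)), zero_mul]
  set Cll : ℝ := (|Real.log (((1 - κ) * R₁) ^ 2)| + |Real.log ((2 * R₂) ^ 2 + 1)|) / 2 with hCll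
  set Tot : ℝ := (∫ z, (|K| + psum S (fun _ a b _ _ => |pv a b|) z) *
      ‖fderiv ℝ η z‖ * (8 / ((1 - κ) * R₁))) +
    Cll * (∫ z, psum S (fun z a b A B => |wth (fderiv ℝ η z) a b A B|) z) + ∫ z, Hf z with hTot
  have hc7 : 0 < 2 * Real.pi * (1 - κ ^ 2) / 25 := by
    have : 0 < 1 - κ ^ 2 := by nlinarith
    positivity
  set c₇ : ℝ := 2 * Real.pi * (1 - κ ^ 2) / 25 with hc₇
  set M : ℝ := (|Tot| + 2) / c₇ with hM
  have hM0 : 0 < M := by rw [hM]; positivity
  -- the scale
  obtain ⟨δ, hδ0, hδ⟩ := Metric.eventually_nhds_iff_ball.1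
    (hK.cont c (mem_ball_self hR) (Real.exp (-M) / 2) (by positivity))
  set ε : ℝ := min δ (min 1 R₁) with hε
  have hε0 : 0 < ε := by rw [hε]; positivity
  have hεδ : ε ≤ δ := min_le_left _ _
  have hε1 : ε ≤ 1 := (min_le_right _ _).trans (min_le_left _ _)
  have hεR : ε ≤ R₁ := (min_le_right _ _).trans (min_le_right _ _)
  have hpvM : ∀ z ∈ ball c ε, ∀ a ∈ S z, ∀ b ∈ S z, a ≠ b → M ≤ pv a b := by
    intro z hz a ha b hb hab
    have hN := hδ z (ball_subset_ball hεδ hz)
    obtain ⟨a', ha', h5⟩ := near_right hN ha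
    obtain ⟨b', hb', h7⟩ := near_right hN hb
    rw [hA a' ha' b' hb', dist_comm] at h5
    apply pv_ge_of hab
    rw [← dist_eq_norm]
    have := dist_triangle a b' b
    linarith
  -- the bound of `ll` and `n`
  obtain ⟨Cl, hCl⟩ := (isCompact_closedBall c R₂).exists_bound_of_continuousOn
    (contDiff_ll m c ε hε0).continuous.continuousOn
  have hCl0 : 0 ≤ Cl := (norm_nonneg _).trans (hCl c (mem_closedBall_self hR₂.le))
  set IE : ℝ := ∫ z, η z * EE S z with hIE
  have hEE0 : ∀ z, 0 ≤ EE S z := fun z => psum_nonneg fun _ a _ b _ _ => by positivity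
  have hIE0 : 0 ≤ IE := integral_nonneg fun z => mul_nonneg (hη.nonneg z) (hEE0 z)
  set n : ℝ := max (max M 1) (Cl * Cχ * C₀ * IE) with hn
  have hnM : M ≤ n := (le_max_left _ _).trans (le_max_left _ _)
  have hn0 : 0 < n := hM0.trans_le hnM
  have hnC : Cl * Cχ * C₀ * IE ≤ n := le_max_right _ _
  -- the functions
  set P1 : ℂ → ℝ := fun z => η z * psum S (G1 χ n m c ε) z with hP1
  set P2 : ℂ → ℝ := fun z => VV χ n K k S z *
    (fderiv ℝ η z 1 * gam m c ε z I - fderiv ℝ η z I * gam m c ε z 1) with hP2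
  set P3 : ℂ → ℝ := fun z => VV χ n K k S z *
    (η z * (2 * (1 - ‖m‖ ^ 2) * ε ^ 2 / (NN m c ε z) ^ 2)) with hP3
  set f : ℂ → ℝ := fun y => η y * ll m c ε y with hf
  set φ : ℝ → ℝ := fun t => χ (t / n) with hφ
  set Q1 : ℂ → ℝ := fun z => psum S (fun z a b A B => φ (pv a b) * wth (fderiv ℝ f z) a b A B) z
    with hQ1
  set Q0 : ℂ → ℝ := fun z => f z * psum S (fun _ a b A B => deriv φ (pv a b) * pJ a b A B) z
    with hQ0
  set Q2 : ℂ → ℝ := fun z => ll m c ε z *
    psum S (fun z a b A B => φ (pv a b) * wth (fderiv ℝ η z) a b A B) z with hQ2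
  have hgc := (contDiff_gam m c ε hε0).continuous
  have hgI : Continuous fun z => gam m c ε z I := hgc.clm_apply continuous_const
  have hg1 : Continuous fun z => gam m c ε z 1 := hgc.clm_apply continuous_const
  have hφc : Continuous φ := (chi_cont hχ).comp (continuous_id.div_const n)
  -- integrability
  have iP1 : Integrable P1 := by
    obtain ⟨Cg, hCg⟩ := (isCompact_closedBall c R).exists_bound_of_continuousOn hgc.continuousOn
    have hCg0 : 0 ≤ Cg := (norm_nonneg _).trans (hCg c (mem_closedBall_self hR.le))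
    apply int_mul hηc (cut_abs hη) (fun z hz => cut_ball hη hz)
    refine intOn h1 h6 hB hK (C := Cg * (4 * Real.exp (4 * n))) ?_ ?_
    · unfold CG G1
      have k1 := cPdLu c R 1
      have k2 := cPdLu c R I
      have k3 : ContinuousOn (fun q : ℂ × ℂ × ℂ × (ℂ →L[ℝ] ℂ) × (ℂ →L[ℝ] ℂ) =>
        χ (pv q.2.1 q.2.2.1 / n)) (DD c R) := hφc.comp_continuousOn (cPv c R)
      have k4 : Continuous (fun q : ℂ × ℂ × ℂ × (ℂ →L[ℝ] ℂ) × (ℂ →L[ℝ] ℂ) =>
        gam m c ε q.1 I) := hgI.comp continuous_fst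
      have k5 : Continuous (fun q : ℂ × ℂ × ℂ × (ℂ →L[ℝ] ℂ) × (ℂ →L[ℝ] ℂ) =>
        gam m c ε q.1 1) := hg1.comp continuous_fst
      exact k3.mul (((Complex.continuous_re.comp_continuousOn k1).neg.mul k4.continuousOn).add
        ((Complex.continuous_re.comp_continuousOn k2).mul k5.continuousOn))
    · intro z hz a ha b hb hab
      have hq := chi_pdL_sq hχ hn0 h1 hB hK hz ha hb hab
      have h15 : 1 ≤ 4 * Real.exp (4 * n) := by
        have := Real.add_one_le_exp (4 * n)
        linarith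
      exact G1_bound hχ (hCg z (ball_subset_closedBall hz.1)) h15 hq
  have iP2 : Integrable P2 := by
    apply VV_int hχ hn0 K h1 h6 hB hK hη.lt'
    · exact ((hfc.clm_apply continuous_const).mul hgI).sub
        ((hfc.clm_apply continuous_const).mul hg1)
    · intro z hz
      rw [hfd0 z hz]; simp
  have hXc : Continuous fun z => 2 * (1 - ‖m‖ ^ 2) * ε ^ 2 / (NN m c ε z) ^ 2 := by
    apply continuous_const.div ((contDiff_NN m c ε).continuous.pow 2)
    intro z
    exact pow_ne_zero _ (NN_pos m c ε hε0 z).ne'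
  have iP3 : Integrable P3 := by
    apply VV_int hχ hn0 K h1 h6 hB hK hη.lt'
    · exact hηc.mul hXc
    · intro z hz
      rw [hz0 z hz, zero_mul]
  have hgg : gg χ n K k S η m c ε = fun z => P1 z + P2 z + P3 z := rfl
  have igg : Integrable (gg χ n K k S η m c ε) := by
    rw [hgg]; exact (iP1.add iP2).add iP3
  have hst := stokes_VV hχ hn0 K h1 h3 h6 hB hK hD (hη.smooth.of_le (by simp)) hη.lt' hz0 m hε0 igg
  -- STAR
  have hφC : ContDiff ℝ 1 φ := (hχ.smooth.of_le (by simp)).comp (contDiff_id.div_const n)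
  have hφ0 : ∀ t, 2 * n ≤ t → φ t = 0 := fun t ht => hχ.zero _ (by rwa [le_div_iff₀ hn0])
  have hfC : ContDiff ℝ 1 f :=
    (hη.smooth.mul (contDiff_ll m c ε hε0)).of_le (by simp)
  have hf0 : ∀ z ∉ closedBall c R₂, f z = 0 := fun z hz => by
    simp only [hf]; rw [hz0 z hz, zero_mul]
  have hfsupp : HasCompactSupport f := HasCompactSupport.intro (isCompact_closedBall c R₂) hf0
  have hfts : tsupport f ⊆ ball c R := by
    refine Subset.trans (closure_minimal ?_ isClosed_closedBall) hsub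
    intro z hz
    by_contra hh
    exact hz (hf0 z hh)
  obtain ⟨iQ0, iQ1, hstar⟩ := h μ β κ L hB c R k S e hK hD φ (2 * n) hφC hφ0 f hfC hfsupp hfts
  -- Q2
  have hllK : ∀ z ∈ K0 c R₁ R₂, |ll m c ε z| ≤ Cll := by
    intro z hz
    have hzd : dist z c = ‖z - c‖ := dist_eq_norm _ _
    have l1 : (1 - κ) * R₁ ≤ ‖AL m (z - c)‖ := by
      refine le_trans ?_ (le_norm_AL m (z - c))
      have h7 : R₁ ≤ ‖z - c‖ := by rw [← hzd]; exact hz.1
      have h8 : 1 - κ ≤ 1 - ‖m‖ := by linarith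
      exact mul_le_mul h8 h7 hR₁.le (by linarith)
    have l2 : ‖AL m (z - c)‖ ≤ 2 * R₂ := by
      refine (norm_AL_le m (z - c)).trans ?_
      have h7 : ‖z - c‖ ≤ R₂ := by rw [← hzd]; exact hz.2
      have h8 : 1 + ‖m‖ ≤ 2 := by linarith
      exact mul_le_mul h8 h7 (norm_nonneg _) (by norm_num)
    have l0 : 0 < (1 - κ) * R₁ := by positivity
    have l3 : ((1 - κ) * R₁) ^ 2 ≤ NN m c ε z := by
      rw [NN_eq]
      have := pow_le_pow_left₀ l0.le l1 2
      nlinarith [sq_nonneg ε]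
    have l4 : NN m c ε z ≤ (2 * R₂) ^ 2 + 1 := by
      rw [NN_eq]
      have h7 := pow_le_pow_left₀ (norm_nonneg _) l2 2
      have h8 := pow_le_pow_left₀ hε0.le hε1 2
      linarith
    have l5 := Real.log_le_log (by positivity) l3
    have l6 := Real.log_le_log (NN_pos m c ε hε0 z) l4
    unfold ll
    rw [abs_div, abs_of_pos (two_pos : (0:ℝ) < 2), hCll]
    apply div_le_div_of_nonneg_right _ (by norm_num : (0:ℝ) ≤ 2)
    rw [abs_le]
    constructor
    · linarith [neg_abs_le (Real.log (((1 - κ) * R₁) ^ 2)), abs_nonneg (Real.log ((2 * R₂) ^ 2 + 1))]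
    · linarith [le_abs_self (Real.log ((2 * R₂) ^ 2 + 1)), abs_nonneg (Real.log (((1 - κ) * R₁) ^ 2))]
  have hCll0 : 0 ≤ Cll := by rw [hCll]; positivity
  have hw0 : ∀ z ∉ K0 c R₁ R₂, psum S (fun z a b A B => φ (pv a b) *
      wth (fderiv ℝ η z) a b A B) z = 0 := by
    intro z hz
    have : psum S (fun z a b A B => φ (pv a b) * wth (fderiv ℝ η z) a b A B) z =
          psum S (fun z a b A B => (0:ℝ) * (0:ℝ)) z := by
      apply psum_congr
      intro _ a _ b _ _
      rw [fd0 hη hz]; simp [wth]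
    rw [this, psum_mul (fun _ => (0:ℝ)), zero_mul]
  have iQ2 : Integrable Q2 := by
    apply int_K0 hη
    · apply (contDiff_ll m c ε hε0).continuous.continuousOn.mul
      exact h6 μ β κ L hB c R k S e hK _ ((cPvf hφc).mul (cWth c R hfc.continuousOn))
    · intro z hz
      simp only [hQ2]
      rw [hw0 z hz, mul_zero]
  have bQ2 : |∫ z, Q2 z| ≤
      Cll * ∫ z, psum S (fun z a b A B => |wth (fderiv ℝ η z) a b A B|) z := by
    rw [← integral_const_mul]
    apply abs_int_le (hi_w.const_mul _)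
    refine Eventually.of_forall fun z => ?_
    have hnn : 0 ≤ psum S (fun z a b A B => |wth (fderiv ℝ η z) a b A B|) z :=
      psum_nonneg fun _ a _ b _ _ => abs_nonneg _
    by_cases hz : z ∈ K0 c R₁ R₂
    · simp only [hQ2]
      rw [abs_mul]
      apply mul_le_mul (hllK z hz) _ (abs_nonneg _) hCll0
      refine abs_psum_le_psum.trans (psum_le ?_)
      intro _ a _ b _ _
      rw [abs_mul, abs_of_nonneg (chi_nonneg hχ _)]
      calc _ ≤ 1 * |wth (fderiv ℝ η z) a b (slope S z a) (slope S z b)| :=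
            mul_le_mul_of_nonneg_right (chi_le_one hχ _) (abs_nonneg _)
        _ = _ := one_mul _
    · simp only [hQ2]
      rw [hw0 z hz, mul_zero, abs_zero]
      positivity
  -- Q0
  have hdφ : ∀ t, |deriv φ t| ≤ Cχ / n := by
    intro t
    have h8 : HasDerivAt φ (deriv χ (t / n) * (1 / n)) t :=
      HasDerivAt.comp t ((hχ.smooth.differentiable (by simp) (t / n)).hasDerivAt)
        ((hasDerivAt_id t).div_const n)
    rw [h8.deriv, abs_mul, abs_of_pos (one_div_pos.2 hn0), mul_one_div]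
    exact div_le_div_of_nonneg_right (hCχ _) hn0.le
  have bQ0 : |∫ z, Q0 z| ≤ 1 := by
    have h8 : |∫ z, Q0 z| ≤ ∫ z, (Cl * (Cχ / n * C₀)) * (η z * EE S z) := by
      apply abs_int_le (hE.const_mul _)
      filter_upwards [hae] with z hz
      by_cases hzb : z ∈ closedBall c R₂
      · have hz' := hz (hsub hzb)
        have k1 : |f z| ≤ Cl * η z := by
          simp only [hf]
          rw [abs_mul, abs_of_nonneg (hη.nonneg z), mul_comm]
          exact mul_le_mul_of_nonneg_right (hCl z hzb) (hη.nonneg z)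
        have k2 : |psum S (fun _ a b A B => deriv φ (pv a b) * pJ a b A B) z| ≤
            Cχ / n * C₀ * EE S z := by
          refine abs_psum_le_psum.trans ?_
          unfold EE
          rw [← psum_mul (fun _ => Cχ / n * C₀)]
          apply psum_le
          intro _ a ha b hb hab
          rw [abs_mul, mul_assoc]
          exact mul_le_mul (hdφ _) (hpair z hz' a ha b hb hab).1 (abs_nonneg _) (by positivity)
        simp only [hQ0]
        rw [abs_mul]
        refine (mul_le_mul k1 k2 (abs_nonneg _) (mul_nonneg hCl0 (hη.nonneg z))).trans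
          (le_of_eq (by ring))
      · simp only [hQ0]
        rw [hf0 z hzb, zero_mul, abs_zero]
        have := hEE0 z
        have := hη.nonneg z
        positivity
    rw [integral_const_mul] at h8
    refine h8.trans ?_
    have h9 : Cl * (Cχ / n * C₀) * IE = (Cl * Cχ * C₀ * IE) / n := by ring
    rw [← hIE, h9, div_le_one hn0]
    exact hnC
  -- the error term
  have bErr : |∫ z, (P1 z + Q1 z - Q2 z)| ≤ ∫ z, Hf z := by
    apply abs_int_le hHfi
    filter_upwards [hae] with z hz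
    by_cases hzb : z ∈ ball c R
    · have hz' := hz hzb
      have hzc := c_not_simple hK hA hk hz'
      have e1 : P1 z + Q1 z - Q2 z = psum S (fun z a b A B => η z * G1 χ n m c ε z a b A B +
          φ (pv a b) * wth (fderiv ℝ f z) a b A B -
          ll m c ε z * (φ (pv a b) * wth (fderiv ℝ η z) a b A B)) z := by
        rw [psum_sub, psum_add, psum_mul η, psum_mul (ll m c ε)]
      rw [e1]
      refine abs_psum_le_psum.trans ?_
      have e2 : psum S (fun z a b A B => |η z * G1 χ n m c ε z a b A B +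
          φ (pv a b) * wth (fderiv ℝ f z) a b A B -
          ll m c ε z * (φ (pv a b) * wth (fderiv ℝ η z) a b A B)|) z ≤
          psum S (fun z a b A B => η z * (HH κ C₀ C₈ s c z (e z) 0 +
            (2 / (1 - κ) * (C₈ / 2)) * ‖pdL a b A B‖ ^ 2)) z := by
        apply psum_le
        intro _ a ha b hb hab
        obtain ⟨_, j2, j3⟩ := hpair z hz' a ha b hb hab
        have hp := ptwise (x := χ (pv a b / n)) hκ hm hC₀ hC₈ hzc (chi_nonneg hχ _)
          (chi_le_one hχ _) (hη.nonneg z) (hηd z) hε0 j2 (hmu z hzb a ha) j3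
        refine hp.trans (le_of_eq ?_)
        unfold HH
        ring
      refine e2.trans ?_
      rw [psum_mul η, psum_add, psum_mul (fun _ => 2 / (1 - κ) * (C₈ / 2))]
      have hHH0 : 0 ≤ HH κ C₀ C₈ s c z (e z) 0 := by
        have := hK.e0 z
        unfold HH
        positivity
      have e3 : psum S (fun z _ _ _ _ => HH κ C₀ C₈ s c z (e z) 0) z ≤
          (k:ℝ) ^ 2 * HH κ C₀ C₈ s c z (e z) 0 :=
        psum_le_const (hK.card z hzb) hHH0 fun _ a _ b _ _ => le_rfl
      have e4 := mul_le_mul_of_nonneg_left e3 (hη.nonneg z)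
      have e5 : η z * ((k:ℝ) ^ 2 * HH κ C₀ C₈ s c z (e z) 0) +
          2 / (1 - κ) * (C₈ / 2) * (η z * EE S z) = Hf z := by
        simp only [hHf]
        unfold HH
        ring
      rw [← e5, mul_add]
      have e6 : η z * (2 / (1 - κ) * (C₈ / 2) * psum S (fun z a b A B => ‖pdL a b A B‖ ^ 2) z) =
          2 / (1 - κ) * (C₈ / 2) * (η z * EE S z) := by
        unfold EE; ring
      rw [e6]
      linarith
    · have hzc : z ∉ closedBall c R₂ := fun hh => hzb (hsub hh)
      have e1 : P1 z = 0 := by simp only [hP1]; rw [hz0 z hzc, zero_mul]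
      have e2 : Q2 z = 0 := by
        simp only [hQ2]
        rw [hw0 z (fun hh => hzc hh.2), mul_zero]
      have e3 : Q1 z = 0 := by
        have hfz : fderiv ℝ f z = 0 := fderiv_of_notMem_tsupport ℝ fun hh => hzb (hfts hh)
        have : Q1 z = psum S (fun z a b A B => (0:ℝ) * (0:ℝ)) z := by
          simp only [hQ1]
          apply psum_congr
          intro _ a _ b _ _
          rw [hfz]; simp [wth]
        rw [this, psum_mul (fun _ => (0:ℝ)), zero_mul]
      rw [e1, e2, e3]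
      have e5 : Hf z = 0 := by simp only [hHf]; rw [hz0 z hzc]; simp
      rw [e5]; simp
  -- P2
  have bP2 : |∫ z, P2 z| ≤ ∫ z, (|K| + psum S (fun _ a b _ _ => |pv a b|) z) *
      ‖fderiv ℝ η z‖ * (8 / ((1 - κ) * R₁)) := by
    apply abs_int_le hi_pv
    refine Eventually.of_forall fun z => ?_
    have hnn : 0 ≤ psum S (fun _ a b _ _ => |pv a b|) z :=
      psum_nonneg fun _ a _ b _ _ => abs_nonneg _
    by_cases hz : z ∈ K0 c R₁ R₂
    · have hz' := K0_simple hη hz
      have hzR : R₁ ≤ ‖z - c‖ := by rw [← dist_eq_norm]; exact hz.1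
      simp only [hP2]
      rw [VV_simple hχ hn0 K hK hz', abs_mul, mul_assoc]
      apply mul_le_mul
      · refine (abs_add_le _ _).trans (add_le_add le_rfl ?_)
        exact abs_psum_le_psum.trans (psum_le fun _ a _ b _ _ => abs_Phi_le hχ n _)
      · have g1 := gam_le (ε := ε) (u := 1) hm hκ hR₁ hε0 hzR (by simp)
        have g2 := gam_le (ε := ε) (u := I) hm hκ hR₁ hε0 hzR (by simp)
        have d1 : |fderiv ℝ η z 1| ≤ ‖fderiv ℝ η z‖ := by
          simpa using (fderiv ℝ η z).le_opNorm 1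
        have d2 : |fderiv ℝ η z I| ≤ ‖fderiv ℝ η z‖ := by
          simpa using (fderiv ℝ η z).le_opNorm I
        have d3 := abs_sub (fderiv ℝ η z 1 * gam m c ε z I) (fderiv ℝ η z I * gam m c ε z 1)
        rw [abs_mul, abs_mul] at d3
        have d4 := mul_le_mul d1 g2 (abs_nonneg _) (norm_nonneg _)
        have d5 := mul_le_mul d2 g1 (abs_nonneg _) (norm_nonneg _)
        have d6 : ‖fderiv ℝ η z‖ * (8 / ((1 - κ) * R₁)) =
            ‖fderiv ℝ η z‖ * (4 / ((1 - κ) * R₁)) + ‖fderiv ℝ η z‖ * (4 / ((1 - κ) * R₁)) := by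
          ring
        rw [d6]
        linarith
      · exact abs_nonneg _
      · positivity
    · simp only [hP2]
      rw [fd0 hη hz]; simp
  -- P3
  have hκm : 1 - κ ^ 2 ≤ 1 - ‖m‖ ^ 2 := by
    have := pow_le_pow_left₀ (norm_nonneg m) hm 2
    linarith
  have hκ2 : 0 < 1 - κ ^ 2 := by nlinarith
  have bP3 : c₇ * M ≤ ∫ z, P3 z := by
    have hVV0 : ∀ z ∈ Usimp c R S, z ∈ closedBall c R₂ → 0 ≤ VV χ n K k S z := by
      intro z hz hzc
      rw [VV_simple hχ hn0 K hK hz]
      have h8 : psum S (fun z a b A B => (-1:ℝ) * Phi χ n (pv a b)) z ≤ (k:ℝ) ^ 2 * Kv := by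
        apply psum_le_const (hK.card z hz.1) hKv0
        intro _ a ha b hb hab
        have h9 := Phi_mono hχ n (hpvl z hzc a ha b hb hab)
        rw [Phi_eq hχ hn0 (by linarith : -Kv ≤ n)] at h9
        linarith
      rw [psum_mul (fun _ => (-1:ℝ))] at h8
      linarith
    have hX0 : ∀ z, 0 ≤ 2 * (1 - ‖m‖ ^ 2) * ε ^ 2 / (NN m c ε z) ^ 2 := by
      intro z
      have : 0 ≤ 1 - ‖m‖ ^ 2 := by linarith
      positivity
    have nn : 0 ≤ᵐ[volume] P3 := by
      filter_upwards [hae] with z hz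
      by_cases hzc : z ∈ closedBall c R₂
      · exact mul_nonneg (hVV0 z (hz (hsub hzc)) hzc) (mul_nonneg (hη.nonneg z) (hX0 z))
      · simp only [hP3]
        rw [hz0 z hzc]; simp
    have h8 : ∫ z in ball c ε, P3 z ≤ ∫ z, P3 z := setIntegral_le_integral iP3 nn
    refine le_trans ?_ h8
    have h9 : ∫ z in ball c ε, (M * (2 * (1 - κ ^ 2) / (25 * ε ^ 2))) ≤
        ∫ z in ball c ε, P3 z := by
      have hic : IntegrableOn (fun _ : ℂ => M * (2 * (1 - κ ^ 2) / (25 * ε ^ 2))) (ball c ε) :=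
        integrableOn_const measure_ball_lt_top.ne
      refine integral_mono_ae hic iP3.integrableOn ?_
      rw [EventuallyLE, ae_restrict_iff' measurableSet_ball]
      filter_upwards [hae] with z hz hzε
      have hzR1 : z ∈ closedBall c R₁ := ball_subset_closedBall (ball_subset_ball hεR hzε)
      have hzR2 : z ∈ closedBall c R₂ := closedBall_subset_closedBall hη.lt.le hzR1
      have hz' := hz (hsub hzR2)
      have v1 : M ≤ VV χ n K k S z := by
        rw [VV_simple hχ hn0 K hK hz']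
        have h10 : M ≤ psum S (fun _ a b _ _ => Phi χ n (pv a b)) z := by
          apply le_psum_const (hK.card z hz'.1) hk hz'.2 hM0.le
          intro a ha b hb hab
          have h11 := Phi_mono hχ n (hpvM z hzε a ha b hb hab)
          rwa [Phi_eq hχ hn0 hnM] at h11
        have h12 : 0 ≤ K := by rw [hKdef]; positivity
        linarith
      have v2 : 2 * (1 - κ ^ 2) / (25 * ε ^ 2) ≤
          2 * (1 - ‖m‖ ^ 2) * ε ^ 2 / (NN m c ε z) ^ 2 := by
        have w1 : ‖AL m (z - c)‖ ≤ 2 * ε := by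
          refine (norm_AL_le m (z - c)).trans ?_
          have w2 : ‖z - c‖ ≤ ε := by
            rw [← dist_eq_norm]; exact (mem_ball.1 hzε).le
          exact mul_le_mul (by linarith) w2 (norm_nonneg _) (by norm_num)
        have w3 : NN m c ε z ≤ 5 * ε ^ 2 := by
          rw [NN_eq]
          have := pow_le_pow_left₀ (norm_nonneg _) w1 2
          nlinarith
        have w4 : (NN m c ε z) ^ 2 ≤ 25 * ε ^ 4 := by
          have := pow_le_pow_left₀ (NN_pos m c ε hε0 z).le w3 2
          nlinarith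
        have w5 : 0 < (NN m c ε z) ^ 2 := pow_pos (NN_pos m c ε hε0 z) 2
        have w6 : 2 * (1 - κ ^ 2) / (25 * ε ^ 2) = 2 * (1 - κ ^ 2) * ε ^ 2 / (25 * ε ^ 4) := by
          field_simp
        rw [w6]
        apply div_le_div₀ _ _ w5 w4
        · have : 0 ≤ 1 - ‖m‖ ^ 2 := by linarith
          positivity
        · apply mul_le_mul_of_nonneg_right _ (by positivity)
          linarith
      have v3 : P3 z = VV χ n K k S z * (2 * (1 - ‖m‖ ^ 2) * ε ^ 2 / (NN m c ε z) ^ 2) := by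
        simp only [hP3]
        rw [hη.one z hzR1, one_mul]
      rw [v3]
      exact mul_le_mul v1 v2 (by positivity) (hM0.le.trans v1)
    refine le_trans (le_of_eq ?_) h9
    rw [setIntegral_const, Measure.real, Complex.volume_ball, ENNReal.toReal_mul,
      ENNReal.toReal_pow, ENNReal.toReal_ofReal hε0.le, smul_eq_mul, hc₇]
    have : (NNReal.pi : ENNReal).toReal = Real.pi := by simp
    rw [this]
    field_simp
  -- conclusion
  have hsum : (∫ z, P1 z) + (∫ z, P2 z) + ∫ z, P3 z = 0 := by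
    have e1 : ∫ z, (P1 z + P2 z + P3 z) = (∫ z, (P1 z + P2 z)) + ∫ z, P3 z :=
      integral_add (iP1.add iP2) iP3
    have e2 : ∫ z, (P1 z + P2 z) = (∫ z, P1 z) + ∫ z, P2 z := integral_add iP1 iP2
    rw [← e2, ← e1]
    exact hst
  have hErr : ∫ z, (P1 z + Q1 z - Q2 z) = (∫ z, P1 z) + (∫ z, Q1 z) - ∫ z, Q2 z := by
    have e1 : ∫ z, (P1 z + Q1 z - Q2 z) = (∫ z, (P1 z + Q1 z)) - ∫ z, Q2 z :=
      integral_sub (iP1.add iQ1) iQ2
    have e2 : ∫ z, (P1 z + Q1 z) = (∫ z, P1 z) + ∫ z, Q1 z := integral_add iP1 iQ1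
    rw [← e2, ← e1]
  have hst2 : ∫ z, Q0 z = ∫ z, Q1 z := hstar
  have hcM : c₇ * M = |Tot| + 2 := by rw [hM]; field_simp
  rw [abs_le] at bQ2 bQ0 bErr bP2
  rw [hErr] at bErr
  have := le_abs_self Tot
  linarith [bQ2.1, bQ2.2, bQ0.1, bQ0.2, bErr.1, bErr.2, bP2.1, bP2.2]

/-- **LOC-11** -/
theorem nonz_of (h : STAR) (h3 : STOKES) (hF : FLUX) (h1 : SEL) (h4 : JALG) (h6 : PSC) :
    NONZ := by
  intro μ β κ L hB c R k S e hK hD hR hA hk R₁ R₂ η hη h0
  exact nonz_core h h3 hF h1 h4 h6 hB hK hD hR hA hk hη h0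

end

end Crest.Agent.R235.LocNonz_774
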