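import Crest.Agent.R235.LocFin_607
import Crest.Agent.R235.LocNonz_774

/-!
Row 235, package REG, REG-LOC: THEOREM LOC (the non-simple points of a `k`-valued graph are
isolated).
-/

set_option autoImplicit false

namespace Crest.Agent.R235.LocMain_774

open Crest.Agent.R235.Loc

theorem nonz : NONZ := LocNonz_774.nonz_of LocFin_607.star LocFin_607.stokes LocFin_607.flux
  LocFin_607.sel LocFin_607.jalg LocFin_607.psc

/-- **THEOREM LOC** -/
theorem loc : LOC := LocFin_607.loc_of_nonz nonz

end Crest.Agent.R235.LocMain_774
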