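import Crest.Agent.R235.CylFin_460
import Crest.Agent.R235.NWReg1F_847
import Crest.Agent.R235.LocMain_774

/-! # REG-CYL, assembly: `CYL` and `CYLF` from `Reg2Stmt` only. -/

set_option autoImplicit false

namespace Crest.Agent.R235.CylFin_460

open Crest.Agent.R235.Loc Crest.Agent.R235.Cyl
open Crest.Agent.R235.NWIface_334 (Reg1Stmt Reg2Stmt)

theorem cyl2 (hR2 : Reg2Stmt) : CYL := cyl NWReg1F_847.reg1 hR2

theorem cylf2 (hR2 : Reg2Stmt) : CYLF := cylf NWReg1F_847.reg1 hR2 LocMain_774.nonz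

end Crest.Agent.R235.CylFin_460
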