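import Crest.Agent.R235.NWIface_334
import Crest.Agent.R235.LocDef_607

/-!
Row 235 (S0364), REG-CYL (helper848): interior regularity of one continuous sheet.

`RW w p q c r` : `w` is continuous on `ball c r` and has the square integrable weak derivative
`v ↦ p v + q v̄` (real test functions).
`smooth_near` : a Hölder `w` with `q = μ(z,w) p - β(z,w)` a.e. is smooth near the centre, given
`Reg1Stmt` and `Reg2Stmt`.
`global` : the same on an open set, with the equation everywhere and `p`, `q` the derivatives a.e.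
-/

set_option autoImplicit false

open MeasureTheory Metric Set Filter Complex
open scoped ContDiff Topology ComplexConjugate

namespace Crest.Agent.R235.SheetCore_848

open Crest.Agent.R235.Loc (lz lzb)
open Crest.Agent.R235.NWDefs_334 Crest.Agent.R235.NWIface_334

noncomputable section

/-- `w` continuous on `ball c r` with square integrable weak derivative `v ↦ p v + q v̄`. -/
structure RW (w p q : ℂ → ℂ) (c : ℂ) (r : ℝ) : Prop where
  cont : ContinuousOn w (ball c r)
  memp : MemLp p 2 (volume.restrict (ball c r))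
  memq : MemLp q 2 (volume.restrict (ball c r))
  weak : ∀ η : ℂ → ℝ, ContDiff ℝ ∞ η → HasCompactSupport η → tsupport η ⊆ ball c r → ∀ v : ℂ,
    ∫ t, fderiv ℝ η t v • w t = - ∫ t, η t • (p t * v + q t * conj v)

/-! ### integrability -/

theorem int_aux {f : ℂ → ℂ} {g : ℂ → ℝ} {K : Set ℂ} (hg : Continuous g) (hK : IsCompact K)
    (hs : ∀ x, x ∉ K → g x = 0) (hf : IntegrableOn f K) : Integrable (fun x => g x • f x) := by
  have h1 : IntegrableOn (fun x => g x • f x) K := hf.continuousOn_smul hg.continuousOn hK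
  refine (integrableOn_iff_integrable_of_support_subset ?_).1 h1
  intro x hx
  by_contra hn
  exact hx (by simp [hs x hn])

theorem tsupp_zero {η : ℂ → ℝ} : ∀ x, x ∉ tsupport η → η x = 0 := fun _ hx =>
  image_eq_zero_of_notMem_tsupport hx

theorem tsupp_fderiv_zero {η : ℂ → ℝ} (v : ℂ) : ∀ x, x ∉ tsupport η → fderiv ℝ η x v = 0 := by
  intro x hx
  have : fderiv ℝ η x = 0 := by
    by_contra hn
    exact hx (support_fderiv_subset ℝ hn)
  simp [this]

theorem int_L2 {p : ℂ → ℂ} {c : ℂ} {r : ℝ} (h : MemLp p 2 (volume.restrict (ball c r)))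
    {K : Set ℂ} (hK : K ⊆ ball c r) : IntegrableOn p K := by
  have : IsFiniteMeasure (volume.restrict (ball c r)) :=
    ⟨by rw [Measure.restrict_apply_univ]; exact measure_ball_lt_top⟩
  exact (show IntegrableOn p (ball c r) volume from h.integrable (by norm_num)).mono_set hK

theorem RW.mono {w p q : ℂ → ℂ} {c c' : ℂ} {r r' : ℝ} (h : RW w p q c r)
    (hs : ball c' r' ⊆ ball c r) : RW w p q c' r' where
  cont := h.cont.mono hs
  memp := h.memp.mono_measure (Measure.restrict_mono hs le_rfl)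
  memq := h.memq.mono_measure (Measure.restrict_mono hs le_rfl)
  weak := fun η h1 h2 h3 v => h.weak η h1 h2 (h3.trans hs) v

theorem RW.int_val {w p q : ℂ → ℂ} {c : ℂ} {r : ℝ} (h : RW w p q c r) {K : Set ℂ}
    (hK : K ⊆ ball c r) (v : ℂ) : IntegrableOn (fun t => p t * v + q t * conj v) K :=
  ((int_L2 h.memp hK).mul_const v).add ((int_L2 h.memq hK).mul_const (conj v))

/-- complex test functions. -/
theorem RW.weakC {w p q : ℂ → ℂ} {c : ℂ} {r : ℝ} (h : RW w p q c r) (φ : ℂ → ℂ)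
    (h1 : ContDiff ℝ ∞ φ) (h2 : HasCompactSupport φ) (h3 : tsupport φ ⊆ ball c r) (v : ℂ) :
    Integrable (fun t => fderiv ℝ φ t v * w t) ∧
    Integrable (fun t => φ t * (p t * v + q t * conj v)) ∧
    ∫ t, fderiv ℝ φ t v * w t = - ∫ t, φ t * (p t * v + q t * conj v) := by
  set φ1 : ℂ → ℝ := fun z => (φ z).re with hφ1
  set φ2 : ℂ → ℝ := fun z => (φ z).im with hφ2
  have d1 : ContDiff ℝ ∞ φ1 := reCLM.contDiff.comp h1
  have d2 : ContDiff ℝ ∞ φ2 := imCLM.contDiff.comp h1
  have c1 : HasCompactSupport φ1 := h2.comp_left (g := Complex.re) (by simp)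
  have c2 : HasCompactSupport φ2 := h2.comp_left (g := Complex.im) (by simp)
  have s1 : tsupport φ1 ⊆ ball c r := (tsupport_comp_subset (g := Complex.re) (by simp) φ).trans h3
  have s2 : tsupport φ2 ⊆ ball c r := (tsupport_comp_subset (g := Complex.im) (by simp) φ).trans h3
  have dφ : Differentiable ℝ φ := h1.differentiable (by simp)
  have e0 : ∀ t, φ t = (φ1 t : ℂ) + (φ2 t : ℂ) * I := fun t => (re_add_im (φ t)).symm
  have e1 : ∀ t, fderiv ℝ φ1 t v = (fderiv ℝ φ t v).re := by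
    intro t
    have := (reCLM.hasFDerivAt (x := φ t)).comp t (dφ t).hasFDerivAt
    have h := this.fderiv
    have : fderiv ℝ φ1 t = reCLM.comp (fderiv ℝ φ t) := h
    rw [this]; rfl
  have e2 : ∀ t, fderiv ℝ φ2 t v = (fderiv ℝ φ t v).im := by
    intro t
    have := (imCLM.hasFDerivAt (x := φ t)).comp t (dφ t).hasFDerivAt
    have h := this.fderiv
    have : fderiv ℝ φ2 t = imCLM.comp (fderiv ℝ φ t) := h
    rw [this]; rfl
  have e3 : ∀ t, fderiv ℝ φ t v = (fderiv ℝ φ1 t v : ℂ) + (fderiv ℝ φ2 t v : ℂ) * I := by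
    intro t; rw [e1, e2]; exact (re_add_im _).symm
  have cd1 : Continuous fun t => fderiv ℝ φ1 t v :=
    (d1.continuous_fderiv (by simp)).clm_apply continuous_const
  have cd2 : Continuous fun t => fderiv ℝ φ2 t v :=
    (d2.continuous_fderiv (by simp)).clm_apply continuous_const
  have i1 : Integrable (fun t => fderiv ℝ φ1 t v • w t) :=
    int_aux cd1 c1.isCompact (tsupp_fderiv_zero v)
      ((h.cont.mono s1).integrableOn_compact c1.isCompact)
  have i2 : Integrable (fun t => fderiv ℝ φ2 t v • w t) :=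
    int_aux cd2 c2.isCompact (tsupp_fderiv_zero v)
      ((h.cont.mono s2).integrableOn_compact c2.isCompact)
  have j1 : Integrable (fun t => φ1 t • (p t * v + q t * conj v)) :=
    int_aux d1.continuous c1.isCompact tsupp_zero (h.int_val s1 v)
  have j2 : Integrable (fun t => φ2 t • (p t * v + q t * conj v)) :=
    int_aux d2.continuous c2.isCompact tsupp_zero (h.int_val s2 v)
  have w1 := h.weak φ1 d1 c1 s1 v
  have w2 := h.weak φ2 d2 c2 s2 v
  have f1 : (fun t => fderiv ℝ φ t v * w t) =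
      fun t => fderiv ℝ φ1 t v • w t + I * (fderiv ℝ φ2 t v • w t) := by
    funext t; rw [e3 t]; simp only [real_smul]; ring
  have f2 : (fun t => φ t * (p t * v + q t * conj v)) =
      fun t => φ1 t • (p t * v + q t * conj v) + I * (φ2 t • (p t * v + q t * conj v)) := by
    funext t; rw [e0 t]; simp only [real_smul]; ring
  rw [f1, f2]
  refine ⟨i1.add (i2.const_mul I), j1.add (j2.const_mul I), ?_⟩
  rw [integral_add i1 (i2.const_mul I), integral_add j1 (j2.const_mul I),
    integral_const_mul, integral_const_mul, w1, w2]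
  ring

/-- the data of 334. -/
theorem RW.wd {w p q : ℂ → ℂ} {r : ℝ} (h : RW w p q 0 r) : WD w p q r where
  cont := h.cont
  memp := h.memp
  memq := h.memq
  weak := by
    intro φ h1 h2 h3
    obtain ⟨a1, b1, c1⟩ := h.weakC φ h1 h2 h3 1
    obtain ⟨a2, b2, c2⟩ := h.weakC φ h1 h2 h3 I
    constructor
    · have f1 : (fun z => NWDefs_334.dz φ z • w z) = fun z =>
          (2 : ℂ)⁻¹ * (fderiv ℝ φ z 1 * w z) - (2 : ℂ)⁻¹ * I * (fderiv ℝ φ z I * w z) := by
        funext z; simp only [NWDefs_334.dz, NWDefs_334.dl, smul_eq_mul]; ring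
      have f2 : (fun z => φ z • p z) = fun z =>
          (2 : ℂ)⁻¹ * (φ z * (p z * 1 + q z * conj (1 : ℂ))) -
            (2 : ℂ)⁻¹ * I * (φ z * (p z * I + q z * conj I)) := by
        funext z
        simp only [map_one, conj_I, smul_eq_mul]
        linear_combination ((φ z * (p z - q z)) / 2) * I_mul_I
      rw [f1, f2, integral_sub (a1.const_mul _) (a2.const_mul _), integral_const_mul,
        integral_const_mul, c1, c2, integral_sub (b1.const_mul _) (b2.const_mul _),
        integral_const_mul, integral_const_mul]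
      ring
    · have f1 : (fun z => NWDefs_334.dzb φ z • w z) = fun z =>
          (2 : ℂ)⁻¹ * (fderiv ℝ φ z 1 * w z) + (2 : ℂ)⁻¹ * I * (fderiv ℝ φ z I * w z) := by
        funext z; simp only [NWDefs_334.dzb, NWDefs_334.dbl, smul_eq_mul]; ring
      have f2 : (fun z => φ z • q z) = fun z =>
          (2 : ℂ)⁻¹ * (φ z * (p z * 1 + q z * conj (1 : ℂ))) +
            (2 : ℂ)⁻¹ * I * (φ z * (p z * I + q z * conj I)) := by
        funext z
        simp only [map_one, conj_I, smul_eq_mul]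
        linear_combination (-(φ z * (p z - q z)) / 2) * I_mul_I
      rw [f1, f2, integral_add (a1.const_mul _) (a2.const_mul _), integral_const_mul,
        integral_const_mul, c1, c2, integral_add (b1.const_mul _) (b2.const_mul _),
        integral_const_mul, integral_const_mul]
      ring

/-! ### weak = classical -/

theorem val_ext {L : ℂ →L[ℝ] ℂ} {a b : ℂ} (h1 : L 1 = a * 1 + b * conj (1 : ℂ))
    (hI : L I = a * I + b * conj I) : lz L = a ∧ lzb L = b := by
  constructor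
  · simp only [lz, h1, hI, map_one, conj_I]
    linear_combination (-(a - b) / 2) * I_mul_I
  · simp only [lzb, h1, hI, map_one, conj_I]
    linear_combination ((a - b) / 2) * I_mul_I

theorem lz_val (L : ℂ →L[ℝ] ℂ) (v : ℂ) : L v = lz L * v + lzb L * conj v := by
  have e : L v = v.re • L 1 + v.im • L I := by
    rw [← map_smul, ← map_smul, ← map_add]
    congr 1
    simp only [real_smul, mul_one]
    exact (re_add_im v).symm
  rw [e]
  simp only [lz, lzb, real_smul]
  conv_rhs => rw [← re_add_im v]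
  simp only [map_add, map_mul, conj_ofReal, conj_I]
  linear_combination ((v.im : ℂ) * L I) * I_mul_I

/-- where `w` is `C¹`, the weak derivative is the derivative, almost everywhere. -/
theorem RW.classical {w p q : ℂ → ℂ} {c : ℂ} {r : ℝ} (h : RW w p q c r) {U : Set ℂ}
    (hU : IsOpen U) (hs : U ⊆ ball c r) (hw : ContDiffOn ℝ 1 w U) :
    ∀ᵐ z : ℂ, z ∈ U → lz (fderiv ℝ w z) = p z ∧ lzb (fderiv ℝ w z) = q z := by
  have key : ∀ v : ℂ, ∀ᵐ z : ℂ, z ∈ U → fderiv ℝ w z v - (p z * v + q z * conj v) = 0 := by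
    intro v
    have cfd : ContinuousOn (fun z => fderiv ℝ w z v) U :=
      (hw.continuousOn_fderiv_of_isOpen hU le_rfl).clm_apply continuousOn_const
    have hloc : LocallyIntegrableOn (fun z => fderiv ℝ w z v - (p z * v + q z * conj v)) U := by
      refine (cfd.locallyIntegrableOn hU.measurableSet).sub ?_
      exact (h.int_val hs v).locallyIntegrableOn
    refine hU.ae_eq_zero_of_integral_contDiff_smul_eq_zero hloc ?_
    intro g hg1 hg2 hg3
    have hg4 : tsupport g ⊆ ball c r := hg3.trans hs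
    have cdg : Continuous fun t => fderiv ℝ g t v :=
      (hg1.continuous_fderiv (by simp)).clm_apply continuous_const
    have i1 : Integrable (fun t => fderiv ℝ g t v • w t) :=
      int_aux cdg hg2.isCompact (tsupp_fderiv_zero v)
        ((h.cont.mono hg4).integrableOn_compact hg2.isCompact)
    have i2 : Integrable (fun t => g t • fderiv ℝ w t v) :=
      int_aux hg1.continuous hg2.isCompact tsupp_zero
        ((cfd.mono hg3).integrableOn_compact hg2.isCompact)
    have i3 : Integrable (fun t => g t • w t) :=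
      int_aux hg1.continuous hg2.isCompact tsupp_zero
        ((h.cont.mono hg4).integrableOn_compact hg2.isCompact)
    have j1 : Integrable (fun t => g t • (p t * v + q t * conj v)) :=
      int_aux hg1.continuous hg2.isCompact tsupp_zero (h.int_val hg4 v)
    have hI := integral_smul_fderiv_eq_neg_fderiv_smul_of_integrable (μ := volume) i1 i2 i3
      (fun x _ => (hg1.differentiable (by simp)) x)
      (fun x hx => (hw.differentiableOn one_ne_zero).differentiableAt (hU.mem_nhds (hg3 hx)))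
    have hW := h.weak g hg1 hg2 hg4 v
    simp only [smul_sub]
    rw [integral_sub i2 j1, hI, hW]
    ring
  filter_upwards [key 1, key I] with z h1 hI hz
  exact val_ext (sub_eq_zero.1 (h1 hz)) (sub_eq_zero.1 (hI hz))

/-! ### a real affine change of variables -/

/-- `ζ ↦ ζ + k ζ̄` as an equivalence. -/
def em (k : ℂ) (hk : ‖k‖ < 1) : ℂ ≃L[ℝ] ℂ :=
  ContinuousLinearEquiv.equivOfInverse
    (ContinuousLinearMap.id ℝ ℂ + k • (conjCLE : ℂ →L[ℝ] ℂ))
    (((1 - ‖k‖ ^ 2 : ℝ) : ℂ)⁻¹ • (ContinuousLinearMap.id ℝ ℂ - k • (conjCLE : ℂ →L[ℝ] ℂ)))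
    (by
      intro u
      have hD : ((1 - ‖k‖ ^ 2 : ℝ) : ℂ) ≠ 0 := by
        rw [ofReal_ne_zero]; nlinarith [norm_nonneg k]
      have hkk : k * conj k = ((‖k‖ ^ 2 : ℝ) : ℂ) := by
        rw [mul_conj, normSq_eq_norm_sq]
      simp only [_root_.add_apply, _root_.sub_apply,
        _root_.smul_apply, ContinuousLinearMap.id_apply, smul_eq_mul,
        ContinuousLinearEquiv.coe_coe, conjCLE_apply, map_add, map_mul, conj_conj]
      field_simp
      push_cast
      push_cast at hkk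
      linear_combination (-u) * hkk)
    (by
      intro u
      have hD : ((1 - ‖k‖ ^ 2 : ℝ) : ℂ) ≠ 0 := by
        rw [ofReal_ne_zero]; nlinarith [norm_nonneg k]
      have hkk : k * conj k = ((‖k‖ ^ 2 : ℝ) : ℂ) := by
        rw [mul_conj, normSq_eq_norm_sq]
      simp only [_root_.add_apply, _root_.sub_apply,
        _root_.smul_apply, ContinuousLinearMap.id_apply, smul_eq_mul,
        ContinuousLinearEquiv.coe_coe, conjCLE_apply, map_sub, map_mul, conj_conj, map_inv₀,
        conj_ofReal]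
      field_simp
      push_cast
      push_cast at hkk
      linear_combination (-u) * hkk)

theorem em_apply (k : ℂ) (hk : ‖k‖ < 1) (ζ : ℂ) : em k hk ζ = ζ + k * conj ζ := rfl

theorem em_norm (k : ℂ) (hk : ‖k‖ < 1) (ζ : ℂ) : ‖em k hk ζ‖ ≤ 2 * ‖ζ‖ := by
  rw [em_apply]
  refine (norm_add_le _ _).trans ?_
  rw [norm_mul, RCLike.norm_conj]
  nlinarith [norm_nonneg ζ]

theorem map_em (k : ℂ) (hk : ‖k‖ < 1) (c : ℂ) : ∃ C : ENNReal, C ≠ ⊤ ∧
    Measure.map (fun ζ => c + em k hk ζ) (volume : Measure ℂ) = C • volume := by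
  have hdet : LinearMap.det ((em k hk).toLinearEquiv : ℂ →ₗ[ℝ] ℂ) ≠ 0 :=
    (LinearEquiv.isUnit_det' _).ne_zero
  have h1 := Measure.map_linearMap_addHaar_eq_smul_addHaar (volume : Measure ℂ) hdet
  refine ⟨ENNReal.ofReal |(LinearMap.det ((em k hk).toLinearEquiv : ℂ →ₗ[ℝ] ℂ))⁻¹|,
    ENNReal.ofReal_ne_top, ?_⟩
  have h2 : Measure.map (fun ζ => c + em k hk ζ) (volume : Measure ℂ) =
      Measure.map (fun z => c + z) (Measure.map (em k hk) volume) := by
    rw [Measure.map_map (measurable_const_add c) (em k hk).continuous.measurable]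
    rfl
  have h3 : Measure.map (em k hk) (volume : Measure ℂ) =
      ENNReal.ofReal |(LinearMap.det ((em k hk).toLinearEquiv : ℂ →ₗ[ℝ] ℂ))⁻¹| • volume := h1
  rw [h2, h3, Measure.map_smul, map_add_left_eq_self]

theorem emb_em (k : ℂ) (hk : ‖k‖ < 1) (c : ℂ) :
    MeasurableEmbedding (fun ζ => c + em k hk ζ) :=
  ((em k hk).toHomeomorph.trans (Homeomorph.addLeft c)).measurableEmbedding

theorem qmp_em (k : ℂ) (hk : ‖k‖ < 1) (c : ℂ) :
    Measure.QuasiMeasurePreserving (fun ζ => c + em k hk ζ) (volume : Measure ℂ) volume := by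
  obtain ⟨C, _, h⟩ := map_em k hk c
  refine ⟨(emb_em k hk c).measurable, ?_⟩
  rw [h]
  exact Measure.smul_absolutelyContinuous

theorem em_mem {k : ℂ} {hk : ‖k‖ < 1} {c : ℂ} {r ρ : ℝ} (hρ : 2 * ρ ≤ r) {ζ : ℂ}
    (hζ : ζ ∈ ball (0 : ℂ) ρ) : c + em k hk ζ ∈ ball c r := by
  rw [mem_ball_zero_iff] at hζ
  rw [mem_ball, dist_eq_norm, add_sub_cancel_left]
  have := em_norm k hk ζ
  linarith

/-- the change of variables. -/
theorem RW.comp {w p q : ℂ → ℂ} {c : ℂ} {r : ℝ} (h : RW w p q c r) (k : ℂ) (hk : ‖k‖ < 1)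
    {ρ : ℝ} (hρ : 2 * ρ ≤ r) :
    RW (fun ζ => w (c + em k hk ζ))
      (fun ζ => p (c + em k hk ζ) + conj k * q (c + em k hk ζ))
      (fun ζ => k * p (c + em k hk ζ) + q (c + em k hk ζ)) 0 ρ := by
  obtain ⟨C, hC, hmap⟩ := map_em k hk c
  set ψ : ℂ → ℂ := fun ζ => c + em k hk ζ with hψ
  have hψc : Continuous ψ := continuous_const.add (em k hk).continuous
  have hsub : ball (0 : ℂ) ρ ⊆ ψ ⁻¹' ball c r := fun ζ hζ => em_mem hρ hζ
  have hmem : ∀ g : ℂ → ℂ, MemLp g 2 (volume.restrict (ball c r)) →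
      MemLp (fun ζ => g (ψ ζ)) 2 (volume.restrict (ball 0 ρ)) := by
    intro g hg
    have h1 : MemLp g 2 (Measure.map ψ (volume.restrict (ψ ⁻¹' ball c r))) := by
      rw [← Measure.restrict_map hψc.measurable measurableSet_ball, hmap, Measure.restrict_smul]
      exact hg.smul_measure hC
    exact (h1.comp_of_map hψc.aemeasurable).mono_measure (Measure.restrict_mono hsub le_rfl)
  have hint : ∀ g : ℂ → ℂ, ∫ ζ, g (ψ ζ) = C.toReal • ∫ z, g z := by
    intro g
    rw [← (emb_em k hk c).integral_map g, hmap, integral_smul_measure]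
  refine ⟨h.cont.comp hψc.continuousOn hsub, (hmem p h.memp).add ((hmem q h.memq).const_mul _),
    ((hmem p h.memp).const_mul k).add (hmem q h.memq), ?_⟩
  intro η h1 h2 h3 v
  set θ : ℂ → ℝ := fun z => η ((em k hk).symm (z - c)) with hθ
  have hinv : ∀ ζ, (em k hk).symm (ψ ζ - c) = ζ := by
    intro ζ; simp [hψ]
  have hθψ : ∀ ζ, θ (ψ ζ) = η ζ := by
    intro ζ; simp only [hθ, hinv]
  have hθd : ContDiff ℝ ∞ θ :=
    h1.comp ((em k hk).symm.contDiff.comp (contDiff_id.sub contDiff_const))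
  have hψd : ∀ ζ, HasFDerivAt ψ ((em k hk : ℂ →L[ℝ] ℂ)) ζ := fun ζ =>
    ((em k hk).hasFDerivAt).const_add c
  have hfd : ∀ ζ, fderiv ℝ η ζ v = fderiv ℝ θ (ψ ζ) (em k hk v) := by
    intro ζ
    have e1 : η = θ ∘ ψ := by funext x; exact (hθψ x).symm
    have e2 := ((hθd.differentiable (by simp)) (ψ ζ)).hasFDerivAt.comp ζ (hψd ζ)
    rw [e1, e2.fderiv]
    rfl
  have hcs : ∀ z, θ z ≠ 0 → z ∈ ψ '' tsupport η := by
    intro z hz
    refine ⟨(em k hk).symm (z - c), subset_tsupport _ hz, ?_⟩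
    simp [hψ]
  have hcomp : IsCompact (ψ '' tsupport η) := h2.isCompact.image hψc
  have hts : tsupport θ ⊆ ψ '' tsupport η :=
    closure_minimal (fun z hz => hcs z hz) hcomp.isClosed
  have hθc : HasCompactSupport θ := hcomp.of_isClosed_subset (isClosed_tsupport _) hts
  have hθs : tsupport θ ⊆ ball c r := by
    intro z hz
    obtain ⟨ζ, hζ, rfl⟩ := hts hz
    exact hsub (h3 hζ)
  have hW := h.weak θ hθd hθc hθs (em k hk v)
  have e1 : (fun t => fderiv ℝ η t v • w (ψ t)) =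
      fun t => (fun z => fderiv ℝ θ z (em k hk v) • w z) (ψ t) := by
    funext t; simp only [hfd]
  have e2 : (fun t => η t • ((p (ψ t) + conj k * q (ψ t)) * v + (k * p (ψ t) + q (ψ t)) * conj v)) =
      fun t => (fun z => θ z • (p z * (em k hk v) + q z * conj (em k hk v))) (ψ t) := by
    funext t
    simp only [hθψ, em_apply, map_add, map_mul, conj_conj]
    congr 1
    ring
  rw [e1, e2, hint (fun z => fderiv ℝ θ z (em k hk v) • w z),
    hint (fun z => θ z • (p z * (em k hk v) + q z * conj (em k hk v))), hW, smul_neg]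

/-! ### regularity -/

theorem C1_fd {a : ℝ} (F : C1a a ℂ ℂ) : ∀ z, HasFDerivAt (C1f F) (C1d F z) z := F.2

theorem C1_cd {a : ℝ} (F : C1a a ℂ ℂ) : ContDiff ℝ 1 (C1f F) :=
  contDiff_one_iff_hasFDerivAt.2 ⟨C1d F, F.1.2.1.1.continuous, C1_fd F⟩

theorem mulm_cd {X : Type} [NormedAddCommGroup X] [NormedSpace ℝ X] {n : ℕ∞ω} {g : X → ℂ}
    (hg : ContDiff ℝ n g) : ContDiff ℝ n (fun x => ContinuousLinearMap.mul ℝ ℂ (g x)) :=
  (ContinuousLinearMap.mul ℝ ℂ).contDiff.comp hg

/-- **local regularity.** -/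
theorem smooth_near (hR1 : Reg1Stmt) (hR2 : Reg2Stmt) {μ β : ℂ × ℂ → ℂ} (smμ : ContDiff ℝ ∞ μ)
    (smβ : ContDiff ℝ ∞ β) {κ : ℝ} (hκ : κ < 1) (hμ : ∀ x, ‖μ x‖ ≤ κ) {w p q : ℂ → ℂ} {c : ℂ}
    {r b C : ℝ} (hr : 0 < r) (hb : 0 < b) (hb1 : b < 1) (h : RW w p q c r)
    (hol : ∀ x ∈ ball c r, ∀ y ∈ ball c r, ‖w x - w y‖ ≤ C * dist x y ^ b)
    (pde : ∀ᵐ z : ℂ, z ∈ ball c r → q z = μ (z, w z) * p z - β (z, w z)) :
    ∃ r' > 0, r' ≤ r ∧ ContDiffOn ℝ ∞ w (ball c r') := by
  set k : ℂ := -μ (c, w c) with hk0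
  have hk : ‖k‖ < 1 := by rw [hk0, norm_neg]; exact (hμ _).trans_lt hκ
  set ρ : ℝ := r / 2 with hρ
  have hρ0 : 0 < ρ := by positivity
  have hρr : 2 * ρ ≤ r := by rw [hρ]; linarith
  have hc := h.comp k hk hρr
  set ψ : ℂ → ℂ := fun ζ => c + em k hk ζ with hψ
  have hψc : ContDiff ℝ ∞ ψ := contDiff_const.add (em k hk).contDiff
  have hψ0 : ψ 0 = c := by simp [hψ]
  have hψi : ∀ z, ψ ((em k hk).symm (z - c)) = z := by intro z; simp [hψ]
  set f : ℂ → ℂ := fun ζ => w (ψ ζ) with hf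
  set p' : ℂ → ℂ := fun ζ => p (ψ ζ) + conj k * q (ψ ζ) with hp'
  set q' : ℂ → ℂ := fun ζ => k * p (ψ ζ) + q (ψ ζ) with hq'
  have hne : ∀ x, 1 + conj k * μ x ≠ 0 := by
    intro x hx
    have h1 : ‖conj k * μ x‖ < 1 := by
      rw [norm_mul, RCLike.norm_conj]
      have := hμ x
      nlinarith [norm_nonneg k, norm_nonneg (μ x)]
    have h2 : conj k * μ x = -1 := by linear_combination hx
    rw [h2, norm_neg, norm_one] at h1
    exact lt_irrefl _ h1
  -- the coefficients
  set Ψ : ℂ × ℂ → ℂ × ℂ := fun x => (ψ x.1, x.2) with hΨ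
  have hΨc : ContDiff ℝ ∞ Ψ := (hψc.comp contDiff_fst).prodMk contDiff_snd
  set co : ℂ × ℂ → ℂ := fun x => (k + μ (Ψ x)) / (1 + conj k * μ (Ψ x)) with hco
  have hcoc : ContDiff ℝ ∞ co := by
    have h1 : ContDiff ℝ ∞ fun x => 1 + conj k * μ (Ψ x) :=
      contDiff_const.add (contDiff_const.mul (smμ.comp hΨc))
    have h2 : ContDiff ℝ ∞ fun x => k + μ (Ψ x) := contDiff_const.add (smμ.comp hΨc)
    have h3 := h2.mul (h1.inv (fun x => hne _))
    have e : co = fun x => (k + μ (Ψ x)) * (1 + conj k * μ (Ψ x))⁻¹ := by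
      funext x; simp only [hco, div_eq_mul_inv]
    rw [e]; exact h3
  set B : ℂ × ℂ → ℂ →L[ℝ] ℂ := fun x => ContinuousLinearMap.mul ℝ ℂ (co x) with hB
  set bb : ℂ × ℂ → ℂ := fun x => co x * (conj k * β (Ψ x)) - β (Ψ x) with hbb
  have hBc : ContDiff ℝ ∞ B := mulm_cd hcoc
  have hbbc : ContDiff ℝ ∞ bb :=
    (hcoc.mul (contDiff_const.mul (smβ.comp hΨc))).sub (smβ.comp hΨc)
  have hpde : ∀ᵐ ζ : ℂ, ζ ∈ ball (0 : ℂ) ρ → q' ζ = B (ζ, f ζ) (p' ζ) + bb (ζ, f ζ) := by
    have h1 := (qmp_em k hk c).ae pde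
    filter_upwards [h1] with ζ h2 hζ
    have h3 := h2 (em_mem hρr hζ)
    have h4 : q (ψ ζ) = μ (ψ ζ, w (ψ ζ)) * p (ψ ζ) - β (ψ ζ, w (ψ ζ)) := h3
    simp only [hB, hbb, hco, hΨ, hq', hp', hf, ContinuousLinearMap.mul_apply']
    rw [h4]
    have h5 := div_mul_cancel₀ (k + μ (ψ ζ, w (ψ ζ))) (hne (ψ ζ, w (ψ ζ)))
    linear_combination (-p (ψ ζ)) * h5
  have hhol : ∀ x ∈ ball (0 : ℂ) ρ, ∀ y ∈ ball (0 : ℂ) ρ,
      ‖f x - f y‖ ≤ (|C| * 2 ^ b) * dist x y ^ b := by
    intro x hx y hy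
    have h1 := hol _ (em_mem (c := c) (hk := hk) hρr hx) _ (em_mem (c := c) (hk := hk) hρr hy)
    have h2 : dist (c + em k hk x) (c + em k hk y) ≤ 2 * dist x y := by
      rw [dist_eq_norm, dist_eq_norm, add_sub_add_left_eq_sub, ← map_sub]
      exact em_norm k hk _
    calc ‖f x - f y‖ ≤ C * dist (c + em k hk x) (c + em k hk y) ^ b := h1
      _ ≤ |C| * (2 * dist x y) ^ b := by
          refine mul_le_mul (le_abs_self C) ?_ (by positivity) (abs_nonneg C)
          exact Real.rpow_le_rpow dist_nonneg h2 hb.le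
      _ = (|C| * 2 ^ b) * dist x y ^ b := by
          rw [Real.mul_rpow (by norm_num) dist_nonneg]; ring
  have hB0 : B (0, f 0) = 0 := by
    have : co (0, f 0) = 0 := by
      simp only [hco, hΨ, hf, hψ0, hk0, neg_add_cancel, zero_div]
    simp only [hB, this, map_zero]
  obtain ⟨r1, hr1, F, hF⟩ := hR1 ℂ b hb hb1 B bb (hBc.of_le (by norm_cast))
    (hbbc.of_le (by norm_cast)) f p' q' ρ (|C| * 2 ^ b) hρ0 hc.wd hhol hpde hB0
  set r2 : ℝ := min r1 ρ with hr2
  have hr20 : 0 < r2 := lt_min hr1 hρ0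
  have hb1' : ball (0 : ℂ) r2 ⊆ ball 0 r1 := ball_subset_ball (min_le_left _ _)
  have hb2 : ball (0 : ℂ) r2 ⊆ ball 0 ρ := ball_subset_ball (min_le_right _ _)
  have hfF : EqOn f (C1f F) (ball 0 r2) := fun z hz => (hF z (hb1' hz)).symm
  have hfc : ContDiffOn ℝ 1 f (ball 0 r2) := (C1_cd F).contDiffOn.congr hfF
  have hcl := hc.classical isOpen_ball hb2 hfc
  have hfd : ∀ z ∈ ball (0 : ℂ) r2, fderiv ℝ f z = C1d F z := by
    intro z hz
    have h1 : f =ᶠ[𝓝 z] C1f F := hfF.eventuallyEq_of_mem (isOpen_ball.mem_nhds hz)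
    rw [h1.fderiv_eq, (C1_fd F z).fderiv]
  have hlz : ∀ L : ℂ →L[ℝ] ℂ, NWDefs_334.dl L = lz L := by
    intro L; simp only [NWDefs_334.dl, lz, smul_eq_mul]; ring
  have hlzb : ∀ L : ℂ →L[ℝ] ℂ, NWDefs_334.dbl L = lzb L := by
    intro L; simp only [NWDefs_334.dbl, lzb, smul_eq_mul]; ring
  have hae : ∀ᵐ z : ℂ, z ∈ ball (0 : ℂ) r2 →
      NWDefs_334.dbl (C1d F z) = B (z, C1f F z) (NWDefs_334.dl (C1d F z)) + bb (z, C1f F z) := by
    filter_upwards [hcl, hpde] with z h1 h2 hz
    obtain ⟨h3, h4⟩ := h1 hz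
    rw [hlz, hlzb, ← hfd z hz, h3, h4, hF z (hb1' hz)]
    exact h2 (hb2 hz)
  have hcC1d : Continuous (C1d F) := F.1.2.1.1.continuous
  have hcC1f : Continuous (C1f F) := (C1_cd F).continuous
  have hdl : Continuous fun z => NWDefs_334.dl (C1d F z) := by
    simp only [NWDefs_334.dl, smul_eq_mul]
    have a1 : Continuous fun z => C1d F z 1 := hcC1d.clm_apply continuous_const
    have a2 : Continuous fun z => C1d F z I := hcC1d.clm_apply continuous_const
    exact continuous_const.mul (a1.sub (continuous_const.mul a2))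
  have hdbl : Continuous fun z => NWDefs_334.dbl (C1d F z) := by
    simp only [NWDefs_334.dbl, smul_eq_mul]
    have a1 : Continuous fun z => C1d F z 1 := hcC1d.clm_apply continuous_const
    have a2 : Continuous fun z => C1d F z I := hcC1d.clm_apply continuous_const
    exact continuous_const.mul (a1.add (continuous_const.mul a2))
  have hpair : Continuous fun z => (z, C1f F z) := continuous_id.prodMk hcC1f
  have hrhs : Continuous fun z => B (z, C1f F z) (NWDefs_334.dl (C1d F z)) + bb (z, C1f F z) :=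
    ((hBc.continuous.comp hpair).clm_apply hdl).add (hbbc.continuous.comp hpair)
  have hall := Measure.eqOn_open_of_ae_eq (μ := (volume : Measure ℂ))
    ((ae_restrict_iff' measurableSet_ball).2 hae) isOpen_ball hdbl.continuousOn hrhs.continuousOn
  have hF0 : C1f F 0 = f 0 := hF 0 (mem_ball_self hr1)
  obtain ⟨r3, hr3, hsm⟩ := hR2 ℂ b hb hb1 B bb hBc hbbc F r2 hr20 (fun z hz => hall hz)
    (by rw [hF0]; exact hB0)
  -- back to the original variable
  set r4 : ℝ := min r2 r3 with hr4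
  have hr40 : 0 < r4 := lt_min hr20 hr3
  have hinv : Continuous fun z => (em k hk).symm (z - c) :=
    (em k hk).symm.continuous.comp (continuous_id.sub continuous_const)
  have hop : IsOpen ((fun z => (em k hk).symm (z - c)) ⁻¹' ball 0 r4) := isOpen_ball.preimage hinv
  have hcm : c ∈ (fun z => (em k hk).symm (z - c)) ⁻¹' ball 0 r4 := by
    simp [hr40]
  obtain ⟨r5, hr5, hsub⟩ := Metric.isOpen_iff.1 hop c hcm
  refine ⟨min r5 r, lt_min hr5 hr, min_le_right _ _, ?_⟩
  have hsub' : ball c (min r5 r) ⊆ (fun z => (em k hk).symm (z - c)) ⁻¹' ball 0 r4 :=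
    (ball_subset_ball (min_le_left _ _)).trans hsub
  have h6 : ContDiffOn ℝ ∞ (fun z => C1f F ((em k hk).symm (z - c))) (ball c (min r5 r)) := by
    refine hsm.comp ((em k hk).symm.contDiff.comp (contDiff_id.sub contDiff_const)).contDiffOn ?_
    intro z hz
    exact ball_subset_ball (min_le_right _ _) (hsub' hz)
  refine h6.congr ?_
  intro z hz
  have h7 := hsub' hz
  have h8 : f ((em k hk).symm (z - c)) = C1f F ((em k hk).symm (z - c)) :=
    hfF (ball_subset_ball (min_le_left _ _) h7)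
  rw [← h8]
  simp only [hf, hψi]

/-- **regularity on an open set.** -/
theorem global (hR1 : Reg1Stmt) (hR2 : Reg2Stmt) {μ β : ℂ × ℂ → ℂ} (smμ : ContDiff ℝ ∞ μ)
    (smβ : ContDiff ℝ ∞ β) {κ : ℝ} (hκ : κ < 1) (hμ : ∀ x, ‖μ x‖ ≤ κ) {w p q : ℂ → ℂ}
    {V : Set ℂ} (hV : IsOpen V)
    (H : ∀ c ∈ V, ∃ r b C : ℝ, 0 < r ∧ 0 < b ∧ b < 1 ∧ ball c r ⊆ V ∧ RW w p q c r ∧
      ∀ x ∈ ball c r, ∀ y ∈ ball c r, ‖w x - w y‖ ≤ C * dist x y ^ b)
    (pde : ∀ᵐ z : ℂ, z ∈ V → q z = μ (z, w z) * p z - β (z, w z)) :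
    ContDiffOn ℝ ∞ w V ∧
    (∀ z ∈ V, lzb (fderiv ℝ w z) = μ (z, w z) * lz (fderiv ℝ w z) - β (z, w z)) ∧
    ∀ᵐ z : ℂ, z ∈ V → lz (fderiv ℝ w z) = p z ∧ lzb (fderiv ℝ w z) = q z := by
  have loc : ∀ c ∈ V, ∃ r > 0, ball c r ⊆ V ∧ RW w p q c r ∧ ContDiffOn ℝ ∞ w (ball c r) := by
    intro c hc
    obtain ⟨r, b, C, hr, hb, hb1, hs, hRW, hol⟩ := H c hc
    obtain ⟨r', hr', hle, hsm⟩ := smooth_near hR1 hR2 smμ smβ hκ hμ hr hb hb1 hRW hol
      (pde.mono fun z hz hzb => hz (hs hzb))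
    have hsub : ball c r' ⊆ ball c r := ball_subset_ball hle
    exact ⟨r', hr', hsub.trans hs, hRW.mono hsub, hsm⟩
  have hsm : ContDiffOn ℝ ∞ w V := by
    intro z hz
    obtain ⟨r, hr, _, _, h⟩ := loc z hz
    exact (h.contDiffAt (ball_mem_nhds z hr)).contDiffWithinAt
  have hae : ∀ᵐ z : ℂ, z ∈ V → lz (fderiv ℝ w z) = p z ∧ lzb (fderiv ℝ w z) = q z := by
    rw [ae_iff]
    apply measure_null_of_locally_null
    intro z hz
    have hzV : z ∈ V := by
      by_contra hn
      exact hz fun h => absurd h hn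
    obtain ⟨r, hr, _, hRW, h⟩ := loc z hzV
    have hcl := hRW.classical isOpen_ball subset_rfl (h.of_le (by norm_cast))
    rw [ae_iff] at hcl
    refine ⟨{a | ¬(a ∈ V → lz (fderiv ℝ w a) = p a ∧ lzb (fderiv ℝ w a) = q a)} ∩ ball z r,
      inter_mem self_mem_nhdsWithin (mem_nhdsWithin_of_mem_nhds (ball_mem_nhds z hr)), ?_⟩
    refine measure_mono_null ?_ hcl
    intro a ha hn
    exact ha.1 fun _ => hn ha.2
  refine ⟨hsm, ?_, hae⟩
  have hcont : ContinuousOn w V := hsm.continuousOn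
  have hfd : ContinuousOn (fderiv ℝ w) V :=
    hsm.continuousOn_fderiv_of_isOpen hV (by norm_cast)
  have a1 : ContinuousOn (fun z => fderiv ℝ w z 1) V := hfd.clm_apply continuousOn_const
  have a2 : ContinuousOn (fun z => fderiv ℝ w z I) V := hfd.clm_apply continuousOn_const
  have hl : ContinuousOn (fun z => lz (fderiv ℝ w z)) V := by
    simp only [lz]
    exact (a1.sub (continuousOn_const.mul a2)).div_const 2
  have hlb : ContinuousOn (fun z => lzb (fderiv ℝ w z)) V := by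
    simp only [lzb]
    exact (a1.add (continuousOn_const.mul a2)).div_const 2
  have hpair : ContinuousOn (fun z => (z, w z)) V := continuousOn_id.prodMk hcont
  have hr : ContinuousOn (fun z => μ (z, w z) * lz (fderiv ℝ w z) - β (z, w z)) V :=
    ((smμ.continuous.comp_continuousOn hpair).mul hl).sub
      (smβ.continuous.comp_continuousOn hpair)
  have heq : (fun z => lzb (fderiv ℝ w z)) =ᵐ[volume.restrict V]
      fun z => μ (z, w z) * lz (fderiv ℝ w z) - β (z, w z) := by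
    refine (ae_restrict_iff' hV.measurableSet).2 ?_
    filter_upwards [hae, pde] with z h1 h2 hz
    obtain ⟨h3, h4⟩ := h1 hz
    rw [h3, h4, h2 hz]
  exact fun z hz => Measure.eqOn_open_of_ae_eq heq hV hlb hr hz

end

end Crest.Agent.R235.SheetCore_848
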