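import Crest.Agent.R235.CylDef_522
import Crest.Agent.R235.SheetCore_848

/-!
Row 235 (S0364), REG-CYL C13 (helper848): a simple continuous sheet is smooth and solves the
equation.  `sheet : WEAKF → Reg1Stmt → Reg2Stmt → SHEET`.
-/

set_option autoImplicit false

open MeasureTheory Metric Set Filter Complex
open scoped ContDiff Topology ComplexConjugate

namespace Crest.Agent.R235.CylSHEET_848

open Crest.Agent.R235.Loc Crest.Agent.R235.Cyl_522
open Crest.Agent.R235.NWIface_334 (Reg1Stmt Reg2Stmt)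
open Crest.Agent.R235.SheetCore_848 (RW int_aux tsupp_zero tsupp_fderiv_zero)

noncomputable section

/-! ### isolation of a simple sheet -/

/-- near a point of a sheet the other values stay away. -/
theorem isolateV {S : ℂ → Multiset ℂ} {V : Set ℂ} {w : ℂ → ℂ} (hS : Sheet S V w) {C' b : ℝ}
    (hC : 0 < C') (hb : 0 < b)
    (hold : ∀ t ∈ V, ∀ t' ∈ V, Close (C' * dist t t' ^ b) (S t) (S t'))
    {c : ℂ} (hc : c ∈ V) : ∃ δ > 0, δ ≤ 1 ∧ ∃ r > 0, r ≤ 1 ∧ ball c r ⊆ V ∧
      (∀ t ∈ ball c r, dist (w t) (w c) < δ ∧ w t ∈ S t ∧ ∀ z ∈ S t, z ≠ w t →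
        3 * δ ≤ dist z (w c)) ∧
      ∀ x ∈ ball c r, ∀ y ∈ ball c r, ‖w x - w y‖ ≤ C' * dist x y ^ b := by
  classical
  have hmem : ∀ t ∈ V, w t ∈ S t := fun t ht =>
    Multiset.one_le_count_iff_mem.1 (hS.simple t ht).ge
  obtain ⟨S0, hS0⟩ := Multiset.exists_cons_of_mem (hmem c hc)
  have hn : w c ∉ S0 := by
    intro h
    have h1 := hS.simple c hc
    rw [hS0, Multiset.count_cons_self] at h1
    have h2 := Multiset.one_le_count_iff_mem.2 h
    omega
  -- the gap
  obtain ⟨δ, hδ, hδ1, hgap⟩ : ∃ δ > 0, δ ≤ 1 ∧ ∀ z ∈ S0, 4 * δ ≤ dist z (w c) := by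
    have hop : IsOpen ((S0.toFinset : Set ℂ)ᶜ) := S0.toFinset.finite_toSet.isClosed.isOpen_compl
    have hm : w c ∈ ((S0.toFinset : Set ℂ)ᶜ) := by
      simpa using hn
    obtain ⟨ε, hε, hsub⟩ := Metric.isOpen_iff.1 hop _ hm
    refine ⟨min (ε / 4) 1, by positivity, min_le_right _ _, ?_⟩
    intro z hz
    by_contra hlt
    push Not at hlt
    have h1 : z ∈ ball (w c) ε := by
      rw [mem_ball]
      have := min_le_left (ε / 4) 1
      linarith
    exact hsub h1 (by simpa using hz)
  -- the radius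
  have hlim : Tendsto (fun r : ℝ => C' * (2 * r) ^ b) (𝓝[>] 0) (𝓝 0) := by
    have h1 : Tendsto (fun r : ℝ => C' * (2 * r) ^ b) (𝓝[>] 0) (𝓝 (C' * (2 * 0) ^ b)) := by
      refine tendsto_const_nhds.mul ?_
      have h2 : ContinuousAt (fun r : ℝ => (2 * r) ^ b) 0 :=
        (continuousAt_const.mul continuousAt_id).rpow_const (Or.inr hb.le)
      exact h2.tendsto.mono_left nhdsWithin_le_nhds
    simpa [Real.zero_rpow hb.ne'] using h1
  obtain ⟨r0, hr0, hr0δ⟩ : ∃ r0 > 0, C' * (2 * r0) ^ b < δ := by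
    obtain ⟨x, h2, h1⟩ := ((hlim.eventually (gt_mem_nhds hδ)).and self_mem_nhdsWithin).exists
    exact ⟨x, h1, h2⟩
  have hsm : ∀ r, 0 ≤ r → r ≤ 2 * r0 → C' * r ^ b < δ := by
    intro r h1 h2
    exact (mul_le_mul_of_nonneg_left (Real.rpow_le_rpow h1 h2 hb.le) hC.le).trans_lt hr0δ
  obtain ⟨r1, hr1, hsub1⟩ := Metric.isOpen_iff.1 hS.isOpen c hc
  have hwc : ∀ᶠ t in 𝓝 c, dist (w t) (w c) < δ :=
    (hS.cont.continuousAt (hS.isOpen.mem_nhds hc)).eventually (ball_mem_nhds _ hδ)
  obtain ⟨r2, hr2, hsub2⟩ := Metric.eventually_nhds_iff.1 hwc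
  set r : ℝ := min (min r0 r1) (min r2 1) with hr
  have hrpos : 0 < r := lt_min (lt_min hr0 hr1) (lt_min hr2 one_pos)
  have hrr0 : r ≤ r0 := (min_le_left _ _).trans (min_le_left _ _)
  have hrr1 : r ≤ r1 := (min_le_left _ _).trans (min_le_right _ _)
  have hrr2 : r ≤ r2 := (min_le_right _ _).trans (min_le_left _ _)
  have hrV : ball c r ⊆ V := (ball_subset_ball hrr1).trans hsub1
  have hiso : ∀ t ∈ ball c r, dist (w t) (w c) < δ ∧ w t ∈ S t ∧ ∀ z ∈ S t, z ≠ w t →
      3 * δ ≤ dist z (w c) := by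
    intro t ht
    have htV := hrV ht
    have h1 : dist (w t) (w c) < δ := hsub2 ((mem_ball.1 ht).trans_le hrr2)
    refine ⟨h1, hmem t htV, ?_⟩
    have hcl := hold c hc t htV
    have hε : C' * dist c t ^ b < δ := by
      refine hsm _ dist_nonneg ?_
      have := mem_ball'.1 ht
      linarith
    unfold Close at hcl
    rw [hS0, Multiset.rel_cons_left] at hcl
    obtain ⟨b', bs', hb1, hb2, hb3⟩ := hcl
    have hfar : ∀ z ∈ bs', 3 * δ ≤ dist z (w c) := by
      intro z hz
      obtain ⟨s, hs, hsz⟩ := Multiset.exists_mem_of_rel_of_mem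
        (Multiset.rel_flip.2 hb2) hz
      have h3 := hgap s hs
      have h4 : dist s z ≤ C' * dist c t ^ b := hsz
      have h5 := dist_triangle s z (w c)
      linarith
    have hwb : w t = b' := by
      have h3 := hmem t htV
      rw [hb3, Multiset.mem_cons] at h3
      rcases h3 with h3 | h3
      · exact h3
      · have := hfar _ h3
        linarith
    intro z hz hne
    rw [hb3, Multiset.mem_cons] at hz
    rcases hz with hz | hz
    · exact absurd (hz.trans hwb.symm) hne
    · exact hfar z hz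
  refine ⟨δ, hδ, hδ1, r, hrpos, (min_le_right _ _).trans (min_le_right _ _), hrV, hiso, ?_⟩
  intro x hx y hy
  have hcl := hold x (hrV hx) y (hrV hy)
  obtain ⟨z, hz, hxz⟩ := Multiset.exists_mem_of_rel_of_mem hcl (hiso x hx).2.1
  have hε : C' * dist x y ^ b < δ := by
    refine hsm _ dist_nonneg ?_
    have h1 := mem_ball.1 hx
    have h2 := mem_ball'.1 hy
    have h3 := dist_triangle x c y
    linarith
  have hzy : z = w y := by
    by_contra hne
    have h1 := (hiso y hy).2.2 z hz hne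
    have h2 := (hiso x hx).1
    have h3 : dist (w x) z ≤ C' * dist x y ^ b := hxz
    have h4 := dist_triangle_left z (w c) (w x)
    linarith
  rw [hzy] at hxz
  rw [← dist_eq_norm]
  exact hxz

/-- near a point of a sheet the other values stay away. -/
theorem isolate {S : ℂ → Multiset ℂ} {V : Set ℂ} {w : ℂ → ℂ} (hS : Sheet S V w) {ρ C' b : ℝ}
    (hC : 0 < C') (hb : 0 < b) (hV : V ⊆ ball 0 ρ)
    (hold : ∀ t ∈ ball (0 : ℂ) ρ, ∀ t' ∈ ball (0 : ℂ) ρ, Close (C' * dist t t' ^ b) (S t) (S t'))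
    {c : ℂ} (hc : c ∈ V) : ∃ δ > 0, δ ≤ 1 ∧ ∃ r > 0, r ≤ 1 ∧ ball c r ⊆ V ∧
      (∀ t ∈ ball c r, dist (w t) (w c) < δ ∧ w t ∈ S t ∧ ∀ z ∈ S t, z ≠ w t →
        3 * δ ≤ dist z (w c)) ∧
      ∀ x ∈ ball c r, ∀ y ∈ ball c r, ‖w x - w y‖ ≤ C' * dist x y ^ b :=
  isolateV hS hC hb (fun t ht t' ht' => hold t (hV ht) t' (hV ht')) hc

/-! ### measurability and energy -/

theorem sp_meas {A : ℂ × ℂ → ℂ × ℂ} (h : Measurable A) : Measurable (sp A) :=
  (measurable_snd.comp h).div (measurable_fst.comp h)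

theorem energy {μ β : ℂ × ℂ → ℂ} {κ L : ℝ} (hc : Coef μ β κ L) {R : ℝ} {m : Measure (ℂ × ℂ)}
    {A : ℂ × ℂ → ℂ × ℂ} {C c : ℝ} (hcyl : Cyl μ β R m A C c) {k : ℕ} {T : ℂ → Finset ℂ}
    (hF : Fib μ β R m A k T) :
    ∫⁻ t in ball (0 : ℂ) R, ∑ z ∈ T t, ENNReal.ofReal (1 + ‖sp A (t, z)‖ ^ 2) < ⊤ := by
  have hΦ : Measurable fun x : ℂ × ℂ => ENNReal.ofReal (1 + ‖sp A x‖ ^ 2) :=
    (measurable_const.add ((sp_meas hcyl.meas).norm.pow_const 2)).ennreal_ofReal
  have hd : Measurable fun x : ℂ × ℂ => ENNReal.ofReal (‖(A x).1‖ ^ 2 / (1 - ‖μ x‖ ^ 2)) :=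
    (((measurable_fst.comp hcyl.meas).norm.pow_const 2).div
      (measurable_const.sub (hc.smμ.continuous.measurable.norm.pow_const 2))).ennreal_ofReal
  rw [← (hF.dis _ hΦ).2, hor, lintegral_withDensity_eq_lintegral_mul _ hd hΦ]
  have hκ2 : 0 < 1 - κ ^ 2 := by nlinarith [hc.κ0, hc.κ1]
  have hle : ∀ x, ((fun x : ℂ × ℂ => ENNReal.ofReal (‖(A x).1‖ ^ 2 / (1 - ‖μ x‖ ^ 2))) *
      fun x : ℂ × ℂ => ENNReal.ofReal (1 + ‖sp A x‖ ^ 2)) x ≤ ENNReal.ofReal (1 / (1 - κ ^ 2)) := by
    intro x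
    have hb := hc.bμ x
    have hμ2 : ‖μ x‖ ^ 2 ≤ κ ^ 2 := pow_le_pow_left₀ (norm_nonneg _) hb 2
    have hpos : 0 < 1 - ‖μ x‖ ^ 2 := by linarith
    rw [Pi.mul_apply, ← ENNReal.ofReal_mul (by positivity)]
    apply ENNReal.ofReal_le_ofReal
    by_cases h0 : (A x).1 = 0
    · rw [h0]
      simp only [norm_zero, ne_eq, OfNat.ofNat_ne_zero, not_false_eq_true, zero_pow, zero_div,
        zero_mul]
      positivity
    · have hu := hcyl.unit x
      have hn : 0 < ‖(A x).1‖ := norm_pos_iff.2 h0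
      have e : ‖(A x).1‖ ^ 2 / (1 - ‖μ x‖ ^ 2) * (1 + ‖sp A x‖ ^ 2) = 1 / (1 - ‖μ x‖ ^ 2) := by
        have e0 : ‖(A x).1‖ ^ 2 * (1 + ‖sp A x‖ ^ 2) = 1 := by
          rw [sp, norm_div]
          field_simp
          linarith
        rw [div_mul_eq_mul_div, e0]
      rw [e]
      exact one_div_le_one_div_of_le hκ2 (by linarith)
  refine (lintegral_mono hle).trans_lt ?_
  rw [lintegral_const]
  exact ENNReal.mul_lt_top ENNReal.ofReal_lt_top hcyl.fin

/-! ### the cut-off function -/

/-- `χ(z) ℓ(z)`. -/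
def Phi {a : ℂ} (χ : ContDiffBump a) (l : ℂ →L[ℝ] ℝ) (x : ℂ × ℂ) : ℝ := χ x.2 * l x.2

theorem Phi_cd {a : ℂ} (χ : ContDiffBump a) (l : ℂ →L[ℝ] ℝ) : ContDiff ℝ ∞ (Phi χ l) :=
  (χ.contDiff.comp contDiff_snd).mul (l.contDiff.comp contDiff_snd)

theorem Phi_in {a : ℂ} (χ : ContDiffBump a) (l : ℂ →L[ℝ] ℝ) {t z : ℂ} (hz : dist z a < χ.rIn) :
    Phi χ l (t, z) = l z ∧ ∀ u : ℂ × ℂ, fderiv ℝ (Phi χ l) (t, z) u = l u.2 := by
  have h1 : ∀ x : ℂ × ℂ, dist x.2 a < χ.rIn → Phi χ l x = l x.2 := by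
    intro x hx
    simp only [Phi]
    rw [χ.one_of_mem_closedBall (mem_closedBall.2 hx.le), one_mul]
  refine ⟨h1 _ hz, ?_⟩
  have h2 : Phi χ l =ᶠ[𝓝 (t, z)] fun x => l x.2 := by
    have ho : IsOpen {x : ℂ × ℂ | dist x.2 a < χ.rIn} :=
      isOpen_lt (continuous_snd.dist continuous_const) continuous_const
    filter_upwards [ho.mem_nhds (show (t, z) ∈ {x : ℂ × ℂ | dist x.2 a < χ.rIn} from hz)] with x hx
    exact h1 x hx
  intro u
  have h3 : HasFDerivAt (fun x : ℂ × ℂ => l x.2) (l.comp (ContinuousLinearMap.snd ℝ ℂ ℂ)) (t, z) :=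
    (l.comp (ContinuousLinearMap.snd ℝ ℂ ℂ)).hasFDerivAt
  rw [h2.fderiv_eq, h3.fderiv]
  rfl

theorem Phi_out {a : ℂ} (χ : ContDiffBump a) (l : ℂ →L[ℝ] ℝ) {t z : ℂ} (hz : χ.rOut < dist z a) :
    Phi χ l (t, z) = 0 ∧ ∀ u : ℂ × ℂ, fderiv ℝ (Phi χ l) (t, z) u = 0 := by
  have h1 : ∀ x : ℂ × ℂ, χ.rOut < dist x.2 a → Phi χ l x = 0 := by
    intro x hx
    simp only [Phi]
    rw [χ.zero_of_le_dist hx.le, zero_mul]
  refine ⟨h1 _ hz, ?_⟩
  have h2 : Phi χ l =ᶠ[𝓝 (t, z)] fun _ => (0 : ℝ) := by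
    have ho : IsOpen {x : ℂ × ℂ | χ.rOut < dist x.2 a} :=
      isOpen_lt continuous_const (continuous_snd.dist continuous_const)
    filter_upwards [ho.mem_nhds (show (t, z) ∈ {x : ℂ × ℂ | χ.rOut < dist x.2 a} from hz)] with x hx
    exact h1 x hx
  intro u
  rw [h2.fderiv_eq]
  simp

/-- **C13** -/
theorem sheet (h8 : WEAKF) (hR1 : Reg1Stmt) (hR2 : Reg2Stmt) : SHEET := by
  intro μ β κ L hco R m A C c hcyl k T hF C' b S hE V w hV hS
  have hR4 : ball (0 : ℂ) (R / 4) ⊆ ball 0 R := by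
    apply ball_subset_ball
    have := hcyl.R0
    linarith
  set p : ℂ → ℂ := fun t => sp A (t, w t) with hp
  set q : ℂ → ℂ := fun t => sp A (t, w t) * μ (t, w t) - β (t, w t) with hq
  have hTV : ∀ᵐ t : ℂ, t ∈ V → S t = (T t).val := hE.ae.mono fun t ht htV => ht (hV htV)
  have hen := energy hco hcyl hF
  -- measurability on `V`
  have hwm : AEMeasurable (fun t => (t, w t)) (volume.restrict V) :=
    aemeasurable_id.prodMk (hS.cont.aemeasurable hS.isOpen.measurableSet)
  have hpm : AEStronglyMeasurable p (volume.restrict V) :=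
    ((sp_meas hcyl.meas).comp_aemeasurable hwm).aestronglyMeasurable
  have hμm : AEStronglyMeasurable (fun t => μ (t, w t)) (volume.restrict V) :=
    (hco.smμ.continuous.measurable.comp_aemeasurable hwm).aestronglyMeasurable
  have hβm : AEStronglyMeasurable (fun t => β (t, w t)) (volume.restrict V) :=
    (hco.smβ.continuous.measurable.comp_aemeasurable hwm).aestronglyMeasurable
  have main := SheetCore_848.global hR1 hR2 hco.smμ hco.smβ hco.κ1 hco.bμ (w := w) (p := p) (q := q)
    hS.isOpen ?_ ?_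
  · exact ⟨main.1, main.2.1, main.2.2.mono fun z hz hzV => (hz hzV).1⟩
  · intro a ha
    obtain ⟨δ, hδ, hδ1, r, hr, hr1, hrV, hiso, hhol⟩ := isolate hS hE.C0 hE.b0 hV hE.hold ha
    have hmr : volume.restrict (ball a r) ≤ volume.restrict V := Measure.restrict_mono hrV le_rfl
    have hfin : IsFiniteMeasure (volume.restrict (ball a r)) :=
      ⟨by rw [Measure.restrict_apply_univ]; exact measure_ball_lt_top⟩
    have hmemp : MemLp p 2 (volume.restrict (ball a r)) := by
      refine (memLp_two_iff_integrable_sq_norm (hpm.mono_measure hmr)).2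
        ⟨(hpm.mono_measure hmr).norm.pow 2, ?_⟩
      have hle : ∫⁻ t in ball a r, ‖‖p t‖ ^ 2‖ₑ ≤
          ∫⁻ t in ball a r, ∑ z ∈ T t, ENNReal.ofReal (1 + ‖sp A (t, z)‖ ^ 2) := by
        refine lintegral_mono_ae ((ae_restrict_iff' measurableSet_ball).2 ?_)
        filter_upwards [hTV] with t ht htb
        have hw : w t ∈ T t := by
          have := (hiso t htb).2.1
          rw [ht (hrV htb)] at this
          exact this
        refine le_trans ?_ (Finset.single_le_sum
          (f := fun z => ENNReal.ofReal (1 + ‖sp A (t, z)‖ ^ 2)) (fun _ _ => zero_le) hw)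
        rw [Real.enorm_of_nonneg (by positivity)]
        apply ENNReal.ofReal_le_ofReal
        simp only [hp]
        linarith
      refine hle.trans_lt (lt_of_le_of_lt ?_ hen)
      exact lintegral_mono_set (hrV.trans (hV.trans hR4))
    have hmemq : MemLp q 2 (volume.restrict (ball a r)) := by
      refine MemLp.sub ?_ ?_
      · refine hmemp.mono ((hpm.mono_measure hmr).mul (hμm.mono_measure hmr)) ?_
        refine Eventually.of_forall fun t => ?_
        rw [norm_mul]
        have := (hco.bμ (t, w t)).trans hco.κ1.le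
        exact mul_le_of_le_one_right (norm_nonneg _) this
      · refine MemLp.of_bound (hβm.mono_measure hmr) (‖β (a, w a)‖ + L) ?_
        refine (ae_restrict_iff' measurableSet_ball).2 (Eventually.of_forall fun t ht => ?_)
        have h1 := hco.lipβ (t, w t) (a, w a)
        have h2 : ‖((t, w t) : ℂ × ℂ) - (a, w a)‖ ≤ 1 := by
          rw [← dist_eq_norm, Prod.dist_eq]
          exact max_le ((mem_ball.1 ht).le.trans hr1) ((hiso t ht).1.le.trans hδ1)
        have h3 := norm_le_norm_add_norm_sub' (β (t, w t)) (β (a, w a))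
        have h4 : L * ‖((t, w t) : ℂ × ℂ) - (a, w a)‖ ≤ L := mul_le_of_le_one_right hco.L0 h2
        linarith
    refine ⟨r, b, C', hr, hE.b0, hE.b1, hrV, ⟨hS.cont.mono hrV, hmemp, hmemq, ?_⟩, hhol⟩
    intro η h1 h2 h3 v
    have hlint : ∀ l : ℂ →L[ℝ] ℝ, ∫ t, l (w t) * fderiv ℝ η t v =
        - ∫ t, η t * l (p t * v + q t * conj v) := by
      intro l
      set χ : ContDiffBump (w a) := ⟨δ, 2 * δ, hδ, by linarith⟩ with hχ
      have hk := h8 μ β κ L hco R m A C c hcyl k T hF (Phi χ l) (Phi_cd χ l) η h1 h2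
        (h3.trans (hrV.trans (hV.trans hR4))) v
      have e1 : ∫ t, (∑ z ∈ T t, Phi χ l (t, z)) * fderiv ℝ η t v =
          ∫ t, l (w t) * fderiv ℝ η t v := by
        refine integral_congr_ae ?_
        filter_upwards [hTV] with t ht
        by_cases htb : t ∈ ball a r
        · obtain ⟨i1, i2, i3⟩ := hiso t htb
          rw [ht (hrV htb)] at i2 i3
          congr 1
          rw [Finset.sum_eq_single (w t)]
          · exact (Phi_in χ l i1).1
          · intro z hz hne
            refine (Phi_out χ l ?_).1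
            have := i3 z hz hne
            show 2 * δ < dist z (w a)
            linarith
          · intro hn
            exact absurd i2 hn
        · rw [tsupp_fderiv_zero v t fun h => htb (h3 h), mul_zero, mul_zero]
      have e2 : ∫ t, η t * ∑ z ∈ T t, fderiv ℝ (Phi χ l) (t, z) (v, sl μ β A (t, z) v) =
          ∫ t, η t * l (p t * v + q t * conj v) := by
        refine integral_congr_ae ?_
        filter_upwards [hTV] with t ht
        by_cases htb : t ∈ ball a r
        · obtain ⟨i1, i2, i3⟩ := hiso t htb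
          rw [ht (hrV htb)] at i2 i3
          congr 1
          rw [Finset.sum_eq_single (w t)]
          · exact (Phi_in χ l i1).2 _
          · intro z hz hne
            refine (Phi_out χ l ?_).2 _
            have := i3 z hz hne
            show 2 * δ < dist z (w a)
            linarith
          · intro hn
            exact absurd i2 hn
        · rw [tsupp_zero t fun h => htb (h3 h), zero_mul, zero_mul]
      rw [← e1, hk, e2]
    have hcw := hS.cont.mono (h3.trans hrV)
    have i1 : Integrable (fun t => fderiv ℝ η t v • w t) :=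
      int_aux ((h1.continuous_fderiv (by simp)).clm_apply continuous_const) h2.isCompact
        (tsupp_fderiv_zero v) (hcw.integrableOn_compact h2.isCompact)
    have i2 : Integrable (fun t => η t • (p t * v + q t * conj v)) := by
      refine int_aux h1.continuous h2.isCompact tsupp_zero ?_
      exact ((SheetCore_848.int_L2 hmemp h3).mul_const v).add
        ((SheetCore_848.int_L2 hmemq h3).mul_const (conj v))
    have hre := hlint reCLM
    have him := hlint imCLM
    apply Complex.ext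
    · have a1 : (∫ t, fderiv ℝ η t v • w t).re = ∫ t, reCLM (w t) * fderiv ℝ η t v := by
        have := reCLM.integral_comp_comm i1
        rw [show (∫ t, fderiv ℝ η t v • w t).re = reCLM (∫ t, fderiv ℝ η t v • w t) from rfl,
          ← this]
        refine integral_congr_ae (Eventually.of_forall fun t => ?_)
        simp only [map_smul, smul_eq_mul]
        ring
      have a2 : (∫ t, η t • (p t * v + q t * conj v)).re =
          ∫ t, η t * reCLM (p t * v + q t * conj v) := by
        have := reCLM.integral_comp_comm i2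
        rw [show (∫ t, η t • (p t * v + q t * conj v)).re =
          reCLM (∫ t, η t • (p t * v + q t * conj v)) from rfl, ← this]
        refine integral_congr_ae (Eventually.of_forall fun t => ?_)
        simp only [map_smul, smul_eq_mul]
      rw [neg_re, a1, a2, hre]
    · have a1 : (∫ t, fderiv ℝ η t v • w t).im = ∫ t, imCLM (w t) * fderiv ℝ η t v := by
        have := imCLM.integral_comp_comm i1
        rw [show (∫ t, fderiv ℝ η t v • w t).im = imCLM (∫ t, fderiv ℝ η t v • w t) from rfl,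
          ← this]
        refine integral_congr_ae (Eventually.of_forall fun t => ?_)
        simp only [map_smul, smul_eq_mul]
        ring
      have a2 : (∫ t, η t • (p t * v + q t * conj v)).im =
          ∫ t, η t * imCLM (p t * v + q t * conj v) := by
        have := imCLM.integral_comp_comm i2
        rw [show (∫ t, η t • (p t * v + q t * conj v)).im =
          imCLM (∫ t, η t • (p t * v + q t * conj v)) from rfl, ← this]
        refine integral_congr_ae (Eventually.of_forall fun t => ?_)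
        simp only [map_smul, smul_eq_mul]
      rw [neg_im, a1, a2, him]
  · refine Eventually.of_forall fun z _ => ?_
    simp only [hq, hp]
    ring

end

end Crest.Agent.R235.CylSHEET_848
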