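import Crest.Agent.R235.CylDef_607
import Crest.Agent.R235.Cyl_SHEET_848

/-!
Row 235 (S0364), REG-CYL C16 (helper848): `sheets : ALG0 → GOODZ → WEAK → Reg1Stmt → Reg2Stmt →
SHEETS` (definitions of CylDef_607).
-/

set_option autoImplicit false

open MeasureTheory Metric Set Filter Complex
open scoped ContDiff Topology ComplexConjugate

namespace Crest.Agent.R235.CylSheets_848

open Crest.Agent.R235.Loc Crest.Agent.R235.Cyl
open Crest.Agent.R235.NWIface_334 (Reg1Stmt Reg2Stmt)
open Crest.Agent.R235.SheetCore_848 (RW int_aux tsupp_zero tsupp_fderiv_zero lz_val)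
open Crest.Agent.R235.CylSHEET_848 (isolateV Phi Phi_cd Phi_in Phi_out)

noncomputable section

theorem slo_one (X Y : CC) : slo X Y 1 = ((hh X Y)⁻¹ : ℝ) • (V1 X Y).2 := by
  simp [slo]

theorem slo_I (X Y : CC) : slo X Y I = ((hh X Y)⁻¹ : ℝ) • (VI X Y).2 := by
  simp [slo]

theorem hh_meas {X Y : CC → CC} (hX : Measurable X) (hY : Measurable Y) :
    Measurable fun p => hh (X p) (Y p) := by
  unfold hh
  exact ((measurable_re.comp (measurable_fst.comp hX)).mul
    (measurable_im.comp (measurable_fst.comp hY))).sub
    ((measurable_re.comp (measurable_fst.comp hY)).mul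
    (measurable_im.comp (measurable_fst.comp hX)))

theorem slo1_meas {X Y : CC → CC} (hX : Measurable X) (hY : Measurable Y) :
    Measurable fun p => slo (X p) (Y p) 1 := by
  simp only [slo_one, V1, Prod.snd_sub, Prod.smul_snd]
  exact (hh_meas hX hY).inv.smul
    (((measurable_im.comp (measurable_fst.comp hY)).smul (measurable_snd.comp hX)).sub
      ((measurable_im.comp (measurable_fst.comp hX)).smul (measurable_snd.comp hY)))

theorem sloI_meas {X Y : CC → CC} (hX : Measurable X) (hY : Measurable Y) :
    Measurable fun p => slo (X p) (Y p) I := by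
  simp only [slo_I, VI, Prod.snd_sub, Prod.smul_snd]
  exact (hh_meas hX hY).inv.smul
    (((measurable_re.comp (measurable_fst.comp hX)).smul (measurable_snd.comp hY)).sub
      ((measurable_re.comp (measurable_fst.comp hY)).smul (measurable_snd.comp hX)))

theorem lz_le (L : ℂ →L[ℝ] ℂ) : ‖lz L‖ ≤ ‖L‖ := by
  have h1 := L.le_opNorm 1
  have h2 := L.le_opNorm I
  rw [norm_one, mul_one] at h1
  rw [norm_I, mul_one] at h2
  rw [lz, norm_div]
  have h3 := norm_sub_le (L 1) (I * L I)
  rw [norm_mul, norm_I, one_mul] at h3
  have : ‖(2 : ℂ)‖ = 2 := by norm_num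
  rw [this]
  linarith

theorem lzb_le (L : ℂ →L[ℝ] ℂ) : ‖lzb L‖ ≤ ‖L‖ := by
  have h1 := L.le_opNorm 1
  have h2 := L.le_opNorm I
  rw [norm_one, mul_one] at h1
  rw [norm_I, mul_one] at h2
  rw [lzb, norm_div]
  have h3 := norm_add_le (L 1) (I * L I)
  rw [norm_mul, norm_I, one_mul] at h3
  have : ‖(2 : ℂ)‖ = 2 := by norm_num
  rw [this]
  linarith

theorem FS_eq {m : Measure CC} {z : ℂ} {s : Finset ℂ} (h : ∀ w, w ∈ s ↔ w ∈ fib m z)
    (Φ : CC → ℝ) : FS m Φ z = ∑ w ∈ s, Φ (z, w) := by
  have e : fib m z = (s : Set ℂ) := by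
    ext w; rw [Finset.mem_coe]; exact (h w).symm
  rw [FS, e, finsum_mem_coe_finset]

/-- **C16** -/
theorem sheets (h0 : ALG0) (hG : GOODZ) (hW : WEAK) (hR1 : Reg1Stmt) (hR2 : Reg2Stmt) :
    SHEETS := by
  classical
  intro μ β κ L hbox c R ρ K m X Y hB hR k S hcard hhold hae V w hV hS
  obtain ⟨C₀, c₀, _, _, halg⟩ := h0 κ L K hbox.box.κ0 hbox.box.κ1 hbox.box.L0
  have hgood := hG μ β κ L hbox c R ρ K m X Y hB
  obtain ⟨henI, hweak⟩ := hW μ β κ L hbox c R ρ K m X Y hB
  set Λ : ℂ → (ℂ →L[ℝ] ℂ) := fun t => slo (X (t, w t)) (Y (t, w t)) with hΛ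
  set p : ℂ → ℂ := fun t => lz (Λ t) with hp
  set q : ℂ → ℂ := fun t => lzb (Λ t) with hq
  have hval : ∀ t v, p t * v + q t * conj v = Λ t v := fun t v => (lz_val (Λ t) v).symm
  have hTV : ∀ᵐ t : ℂ, t ∈ V → (S t).Nodup ∧ ∀ z, z ∈ S t ↔ z ∈ fib m t :=
    hae.mono fun t ht htV => ht (hV htV)
  have hwmem : ∀ t ∈ V, w t ∈ S t := fun t ht =>
    Multiset.one_le_count_iff_mem.1 (hS.simple t ht).ge
  have hwm : AEMeasurable (fun t => (t, w t)) (volume.restrict V) :=
    aemeasurable_id.prodMk (hS.cont.aemeasurable hS.isOpen.measurableSet)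
  have m1 : AEMeasurable (fun t => Λ t 1) (volume.restrict V) :=
    (slo1_meas hB.mX hB.mY).comp_aemeasurable hwm
  have mI : AEMeasurable (fun t => Λ t I) (volume.restrict V) :=
    (sloI_meas hB.mX hB.mY).comp_aemeasurable hwm
  have hpm : AEStronglyMeasurable p (volume.restrict V) := by
    simp only [hp, lz]
    exact ((m1.sub (mI.const_mul I)).div_const 2).aestronglyMeasurable
  have hqm : AEStronglyMeasurable q (volume.restrict V) := by
    simp only [hq, lzb]
    exact ((m1.add (mI.const_mul I)).div_const 2).aestronglyMeasurable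
  have main := SheetCore_848.global hR1 hR2 hbox.smμ hbox.smβ hbox.box.κ1 hbox.box.bμ
    (w := w) (p := p) (q := q) hS.isOpen ?_ ?_
  · refine ⟨main.1, main.2.1, main.2.2.mono fun z hz hzV => ?_⟩
    obtain ⟨h1, h2⟩ := hz hzV
    apply ContinuousLinearMap.ext
    intro v
    rw [lz_val (fderiv ℝ w z) v, h1, h2, hval]
  · intro a ha
    have hac : dist a c < R := mem_ball.1 (hV ha)
    obtain ⟨R', hR'1, hR'2⟩ := exists_between hac
    obtain ⟨C1, b1, hC1, hb1, hcl⟩ := hhold R' hR'2
    set V' : Set ℂ := V ∩ ball c R' with hV'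
    have hS' : Sheet S V' w :=
      ⟨hS.isOpen.inter isOpen_ball, hS.cont.mono inter_subset_left, fun z hz => hS.simple z hz.1⟩
    have ha' : a ∈ V' := ⟨ha, mem_ball.2 hR'1⟩
    obtain ⟨δ, hδ, hδ1, r, hr, hr1, hrV', hiso, hhol⟩ := isolateV hS' (C' := C1 + 1) (b := b1)
      (by linarith) hb1 (fun t ht t' ht' => by
        refine Multiset.Rel.mono (hcl t ht.2 t' ht'.2) ?_
        intro x _ y _ hxy
        refine le_trans hxy ?_
        have : 0 ≤ dist t t' ^ b1 := by positivity
        nlinarith) ha'
    have hrV : ball a r ⊆ V := hrV'.trans inter_subset_left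
    have hmr : volume.restrict (ball a r) ≤ volume.restrict V := Measure.restrict_mono hrV le_rfl
    have hint : IntegrableOn (en m X Y) (ball a r) := henI.mono_set (hrV.trans hV)
    -- fibre sums near `a`
    have hfs : ∀ᵐ t : ℂ, t ∈ ball a r → ∀ Φ : CC → ℝ,
        FS m Φ t = ∑ z ∈ (S t).toFinset, Φ (t, z) := by
      filter_upwards [hTV] with t ht htb Φ
      exact FS_eq (fun z => by rw [Multiset.mem_toFinset]; exact (ht (hrV htb)).2 z) Φ
    have hΛle : ∀ᵐ t : ℂ, t ∈ ball a r → ‖Λ t‖ ^ 2 ≤ en m X Y t := by
      filter_upwards [hfs] with t ht htb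
      rw [en, ht htb]
      have hw : w t ∈ (S t).toFinset := Multiset.mem_toFinset.2 (hwmem t (hrV htb))
      exact Finset.single_le_sum (f := fun z => ‖slo (X (t, z)) (Y (t, z))‖ ^ 2)
        (fun _ _ => by positivity) hw
    have hmem : ∀ g : ℂ → ℂ, AEStronglyMeasurable g (volume.restrict V) →
        (∀ t, ‖g t‖ ≤ ‖Λ t‖) → MemLp g 2 (volume.restrict (ball a r)) := by
      intro g hg hgle
      refine (memLp_two_iff_integrable_sq_norm (hg.mono_measure hmr)).2 ?_
      refine Integrable.mono' hint ((hg.mono_measure hmr).norm.pow 2) ?_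
      refine (ae_restrict_iff' measurableSet_ball).2 ?_
      filter_upwards [hΛle] with t ht htb
      rw [Real.norm_of_nonneg (by positivity)]
      exact (pow_le_pow_left₀ (norm_nonneg _) (hgle t) 2).trans (ht htb)
    have hmemp : MemLp p 2 (volume.restrict (ball a r)) := hmem p hpm fun t => lz_le _
    have hmemq : MemLp q 2 (volume.restrict (ball a r)) := hmem q hqm fun t => lzb_le _
    refine ⟨r / 2, min b1 (1 / 2), C1 + 1, by positivity, by positivity,
      (min_le_right _ _).trans_lt (by norm_num), (ball_subset_ball (by linarith)).trans hrV,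
      RW.mono (c := a) (r := r) ⟨hS.cont.mono hrV, hmemp, hmemq, ?_⟩
        (ball_subset_ball (by linarith)), ?_⟩
    · intro η h1 h2 h3 v
      have hlint : ∀ l : ℂ →L[ℝ] ℝ, ∫ t, l (w t) * fderiv ℝ η t v =
          - ∫ t, η t * l (Λ t v) := by
        intro l
        set χ : ContDiffBump (w a) := ⟨δ, 2 * δ, hδ, by linarith⟩ with hχ
        have hk := (hweak (Phi χ l) ((Phi_cd χ l).of_le (by norm_cast)) η (h1.of_le (by norm_cast))
          h2 (h3.trans (hrV.trans hV)) v).2
        have e1 : ∫ z in ball c R, fderiv ℝ η z v * FS m (Phi χ l) z =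
            ∫ t, l (w t) * fderiv ℝ η t v := by
          rw [setIntegral_eq_integral_of_forall_compl_eq_zero]
          · refine integral_congr_ae ?_
            filter_upwards [hfs] with t ht
            by_cases htb : t ∈ ball a r
            · obtain ⟨i1, i2, i3⟩ := hiso t htb
              rw [ht htb, mul_comm]
              congr 1
              rw [Finset.sum_eq_single (w t)]
              · exact (Phi_in χ l i1).1
              · intro z hz hne
                refine (Phi_out χ l ?_).1
                have := i3 z (Multiset.mem_toFinset.1 hz) hne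
                show 2 * δ < dist z (w a)
                linarith
              · intro hn
                exact absurd (Multiset.mem_toFinset.2 i2) hn
            · rw [tsupp_fderiv_zero v t fun h => htb (h3 h), mul_zero, zero_mul]
          · intro x hx
            rw [tsupp_fderiv_zero v x fun h => hx (hV (hrV (h3 h))), zero_mul]
        have e2 : ∫ z in ball c R, η z * FS m
            (fun p => fderiv ℝ (Phi χ l) p (v, slo (X p) (Y p) v)) z =
            ∫ t, η t * l (Λ t v) := by
          rw [setIntegral_eq_integral_of_forall_compl_eq_zero]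
          · refine integral_congr_ae ?_
            filter_upwards [hfs] with t ht
            by_cases htb : t ∈ ball a r
            · obtain ⟨i1, i2, i3⟩ := hiso t htb
              rw [ht htb]
              congr 1
              rw [Finset.sum_eq_single (w t)]
              · exact (Phi_in χ l i1).2 _
              · intro z hz hne
                refine (Phi_out χ l ?_).2 _
                have := i3 z (Multiset.mem_toFinset.1 hz) hne
                show 2 * δ < dist z (w a)
                linarith
              · intro hn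
                exact absurd (Multiset.mem_toFinset.2 i2) hn
            · rw [tsupp_zero t fun h => htb (h3 h), zero_mul, zero_mul]
          · intro x hx
            rw [tsupp_zero x fun h => hx (hV (hrV (h3 h))), zero_mul]
        rw [← e1, hk, e2]
      simp only [hval]
      have hcw := hS.cont.mono (h3.trans hrV)
      have i1 : Integrable (fun t => fderiv ℝ η t v • w t) :=
        int_aux ((h1.continuous_fderiv (by simp)).clm_apply continuous_const) h2.isCompact
          (tsupp_fderiv_zero v) (hcw.integrableOn_compact h2.isCompact)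
      have i2 : Integrable (fun t => η t • Λ t v) := by
        simp only [← hval]
        refine int_aux h1.continuous h2.isCompact tsupp_zero ?_
        exact ((SheetCore_848.int_L2 hmemp h3).mul_const v).add
          ((SheetCore_848.int_L2 hmemq h3).mul_const (conj v))
      have hre := hlint reCLM
      have him := hlint imCLM
      apply Complex.ext
      · have a1 : (∫ t, fderiv ℝ η t v • w t).re = ∫ t, reCLM (w t) * fderiv ℝ η t v := by
          have := reCLM.integral_comp_comm i1
          rw [show (∫ t, fderiv ℝ η t v • w t).re = reCLM (∫ t, fderiv ℝ η t v • w t) from rfl,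
            ← this]
          refine integral_congr_ae (Eventually.of_forall fun t => ?_)
          simp only [map_smul, smul_eq_mul]
          ring
        have a2 : (∫ t, η t • Λ t v).re = ∫ t, η t * reCLM (Λ t v) := by
          have := reCLM.integral_comp_comm i2
          rw [show (∫ t, η t • Λ t v).re = reCLM (∫ t, η t • Λ t v) from rfl, ← this]
          refine integral_congr_ae (Eventually.of_forall fun t => ?_)
          simp only [map_smul, smul_eq_mul]
        rw [neg_re, a1, a2, hre]
      · have a1 : (∫ t, fderiv ℝ η t v • w t).im = ∫ t, imCLM (w t) * fderiv ℝ η t v := by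
          have := imCLM.integral_comp_comm i1
          rw [show (∫ t, fderiv ℝ η t v • w t).im = imCLM (∫ t, fderiv ℝ η t v • w t) from rfl,
            ← this]
          refine integral_congr_ae (Eventually.of_forall fun t => ?_)
          simp only [map_smul, smul_eq_mul]
          ring
        have a2 : (∫ t, η t • Λ t v).im = ∫ t, η t * imCLM (Λ t v) := by
          have := imCLM.integral_comp_comm i2
          rw [show (∫ t, η t • Λ t v).im = imCLM (∫ t, η t • Λ t v) from rfl, ← this]
          refine integral_congr_ae (Eventually.of_forall fun t => ?_)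
          simp only [map_smul, smul_eq_mul]
        rw [neg_im, a1, a2, him]
    · intro x hx y hy
      have hd1 : dist x y ≤ 1 := by
        have h1 := mem_ball.1 hx
        have h2 := mem_ball'.1 hy
        have h3 := dist_triangle x a y
        linarith
      have h4 := hhol x (ball_subset_ball (by linarith) hx) y (ball_subset_ball (by linarith) hy)
      refine h4.trans (mul_le_mul_of_nonneg_left ?_ (by linarith))
      rcases eq_or_lt_of_le (dist_nonneg (x := x) (y := y)) with h5 | h5
      · rw [← h5, Real.zero_rpow hb1.ne', Real.zero_rpow (by positivity)]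
      · exact Real.rpow_le_rpow_of_exponent_ge h5 hd1 (min_le_left _ _)
  · filter_upwards [hTV, hgood] with t h1 h2 htV
    have hwf : w t ∈ fib m t := ((h1 htV).2 _).1 (hwmem t htV)
    have hpos := ((h2 (hV htV)).2 _ hwf).2.2
    exact ((halg μ β hbox (t, w t) (X (t, w t)) (Y (t, w t)) (hB.nX _) (hB.nY _) (hB.jz _)
      (hB.jw _)).2.2.2.2.2.2.2.2.2.2 hpos).1

end

end Crest.Agent.R235.CylSheets_848
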