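import Crest.Agent.R235.LocDef_607

/-!
Row 235 (S0364), PACKAGE REG, LOC-4 (task 217): the pointwise algebra of a pair of sheets.
Main result `jalg : JALG`.  Exports: `apply_eq` (`A u = lz A * u + lzb A * conj u`), linearity of
`lz`, `lzb` (`lz_add`, `lz_sub`, `lz_smul`, ...), norms (`norm_lz_le`, `norm_lzb_le`, `norm_le`),
the formula `pJ_eq`, and the bound `abs_wth_le`.
-/

set_option autoImplicit false

open Complex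
open Crest.Agent.R235.Loc

namespace Crest.Agent.R235.LocAlg_895

/-- `A u = lz A * u + lzb A * conj u`. -/
theorem apply_eq (A : ℂ →L[ℝ] ℂ) (u : ℂ) :
    A u = lz A * u + lzb A * (starRingEnd ℂ) u := by
  have h1 : A u = (u.re : ℂ) * A 1 + (u.im : ℂ) * A I := by
    have hu : u = u.re • (1 : ℂ) + u.im • I := by
      simp [Complex.real_smul, Complex.re_add_im]
    conv_lhs => rw [hu]
    rw [map_add, map_smul, map_smul]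
    simp [Complex.real_smul]
  have h2 : u = (u.re : ℂ) + (u.im : ℂ) * I := (Complex.re_add_im u).symm
  have h3 : (starRingEnd ℂ) u = (u.re : ℂ) - (u.im : ℂ) * I := by
    apply Complex.ext <;> simp
  rw [h1, h3]
  conv_rhs => rw [show lz A * u = lz A * ((u.re : ℂ) + (u.im : ℂ) * I) by rw [← h2]]
  unfold lz lzb
  have hI : I * I = -1 := Complex.I_mul_I
  linear_combination ((u.im : ℂ) * A I) * hI

theorem lz_add (A B : ℂ →L[ℝ] ℂ) : lz (A + B) = lz A + lz B := by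
  unfold lz; simp only [add_apply]; ring

theorem lzb_add (A B : ℂ →L[ℝ] ℂ) : lzb (A + B) = lzb A + lzb B := by
  unfold lzb; simp only [add_apply]; ring

theorem lz_sub (A B : ℂ →L[ℝ] ℂ) : lz (A - B) = lz A - lz B := by
  unfold lz; simp only [sub_apply]; ring

theorem lzb_sub (A B : ℂ →L[ℝ] ℂ) : lzb (A - B) = lzb A - lzb B := by
  unfold lzb; simp only [sub_apply]; ring

theorem lz_smul (s : ℂ) (A : ℂ →L[ℝ] ℂ) : lz (s • A) = s * lz A := by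
  unfold lz; simp only [smul_apply, smul_eq_mul]; ring

theorem lzb_smul (s : ℂ) (A : ℂ →L[ℝ] ℂ) : lzb (s • A) = s * lzb A := by
  unfold lzb; simp only [smul_apply, smul_eq_mul]; ring

theorem lz_zero : lz 0 = 0 := by simp [lz]

theorem lzb_zero : lzb 0 = 0 := by simp [lzb]

theorem norm_apply_one_le (A : ℂ →L[ℝ] ℂ) : ‖A 1‖ ≤ ‖A‖ := by
  simpa using A.le_opNorm 1

theorem norm_apply_I_le (A : ℂ →L[ℝ] ℂ) : ‖A I‖ ≤ ‖A‖ := by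
  simpa using A.le_opNorm I

theorem norm_lz_le (A : ℂ →L[ℝ] ℂ) : ‖lz A‖ ≤ ‖A‖ := by
  unfold lz
  rw [norm_div, Complex.norm_two]
  have h := norm_sub_le (A 1) (I * A I)
  rw [norm_mul, Complex.norm_I, one_mul] at h
  have h1 := norm_apply_one_le A
  have h2 := norm_apply_I_le A
  linarith

theorem norm_lzb_le (A : ℂ →L[ℝ] ℂ) : ‖lzb A‖ ≤ ‖A‖ := by
  unfold lzb
  rw [norm_div, Complex.norm_two]
  have h := norm_add_le (A 1) (I * A I)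
  rw [norm_mul, Complex.norm_I, one_mul] at h
  have h1 := norm_apply_one_le A
  have h2 := norm_apply_I_le A
  linarith

theorem norm_le (A : ℂ →L[ℝ] ℂ) : ‖A‖ ≤ ‖lz A‖ + ‖lzb A‖ := by
  refine A.opNorm_le_bound (by positivity) (fun u => ?_)
  rw [apply_eq A u]
  refine (norm_add_le _ _).trans ?_
  rw [norm_mul, norm_mul, Complex.norm_conj]
  apply le_of_eq
  ring

theorem norm_sq_le (A : ℂ →L[ℝ] ℂ) : ‖A‖ ^ 2 ≤ 2 * ‖lz A‖ ^ 2 + 2 * ‖lzb A‖ ^ 2 := by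
  have h := norm_le A
  have h0 := norm_nonneg A
  have h1 : ‖A‖ ^ 2 ≤ (‖lz A‖ + ‖lzb A‖) ^ 2 := by gcongr
  nlinarith [sq_nonneg (‖lz A‖ - ‖lzb A‖)]

theorem lz_pdL (a b : ℂ) (A B : ℂ →L[ℝ] ℂ) :
    lz (pdL a b A B) = (a - b)⁻¹ * (lz A - lz B) := by
  rw [pdL, lz_smul, lz_sub]

theorem lzb_pdL (a b : ℂ) (A B : ℂ →L[ℝ] ℂ) :
    lzb (pdL a b A B) = (a - b)⁻¹ * (lzb A - lzb B) := by
  rw [pdL, lzb_smul, lzb_sub]

theorem norm_pdL (a b : ℂ) (A B : ℂ →L[ℝ] ℂ) :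
    ‖pdL a b A B‖ = ‖a - b‖⁻¹ * ‖A - B‖ := by
  rw [pdL, norm_smul, norm_inv]

/-- `|J| ≤ |dL|²`. -/
theorem abs_pJ_le (a b : ℂ) (A B : ℂ →L[ℝ] ℂ) : |pJ a b A B| ≤ ‖pdL a b A B‖ ^ 2 := by
  unfold pJ
  have h1 : ‖lz (pdL a b A B)‖ ^ 2 ≤ ‖pdL a b A B‖ ^ 2 := by
    have := norm_lz_le (pdL a b A B); gcongr
  have h2 : ‖lzb (pdL a b A B)‖ ^ 2 ≤ ‖pdL a b A B‖ ^ 2 := by
    have := norm_lzb_le (pdL a b A B); gcongr
  rw [abs_le]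
  constructor
  · nlinarith [sq_nonneg ‖lz (pdL a b A B)‖]
  · nlinarith [sq_nonneg ‖lzb (pdL a b A B)‖]

/-- `|α ∧ dθ (1, i)| ≤ 2 |α| |dL|`. -/
theorem abs_wth_le (α : ℂ →L[ℝ] ℝ) (a b : ℂ) (A B : ℂ →L[ℝ] ℂ) :
    |wth α a b A B| ≤ 2 * ‖α‖ * ‖pdL a b A B‖ := by
  unfold wth
  have hα1 : |α 1| ≤ ‖α‖ := by simpa using α.le_opNorm 1
  have hαI : |α I| ≤ ‖α‖ := by simpa using α.le_opNorm I
  have h1 : |(pdL a b A B 1).im| ≤ ‖pdL a b A B‖ :=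
    (Complex.abs_im_le_norm _).trans (norm_apply_one_le _)
  have h2 : |(pdL a b A B I).im| ≤ ‖pdL a b A B‖ :=
    (Complex.abs_im_le_norm _).trans (norm_apply_I_le _)
  have hn := norm_nonneg α
  calc |α 1 * (pdL a b A B I).im - α I * (pdL a b A B 1).im|
      ≤ |α 1 * (pdL a b A B I).im| + |α I * (pdL a b A B 1).im| := abs_sub _ _
    _ = |α 1| * |(pdL a b A B I).im| + |α I| * |(pdL a b A B 1).im| := by
        rw [abs_mul, abs_mul]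
    _ ≤ ‖α‖ * ‖pdL a b A B‖ + ‖α‖ * ‖pdL a b A B‖ := by gcongr
    _ = 2 * ‖α‖ * ‖pdL a b A B‖ := by ring

/-- the perturbed Beltrami equation of a logarithmic difference. -/
theorem norm_beltrami_le {μ β : ℂ × ℂ → ℂ} {κ L : ℝ} (hD : BoxD μ β κ L) (z : ℂ) {a b : ℂ}
    {A B : ℂ →L[ℝ] ℂ} (hab : a ≠ b)
    (hA : lzb A = μ (z, a) * lz A - β (z, a)) (hB : lzb B = μ (z, b) * lz B - β (z, b)) :
    ‖lzb (pdL a b A B) - μ (z, a) * lz (pdL a b A B)‖ ≤ L * (1 + ‖B‖) := by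
  have hab' : a - b ≠ 0 := sub_ne_zero.mpr hab
  have hn : 0 < ‖a - b‖ := norm_pos_iff.mpr hab'
  have hz : ‖((z, a) : ℂ × ℂ) - (z, b)‖ = ‖a - b‖ := by
    simp [Prod.norm_def]
  have key : lzb (pdL a b A B) - μ (z, a) * lz (pdL a b A B)
      = (a - b)⁻¹ * ((μ (z, a) - μ (z, b)) * lz B - (β (z, a) - β (z, b))) := by
    rw [lz_pdL, lzb_pdL, hA, hB]; ring
  rw [key, norm_mul, norm_inv]
  have h1 : ‖(μ (z, a) - μ (z, b)) * lz B - (β (z, a) - β (z, b))‖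
      ≤ L * ‖a - b‖ * ‖B‖ + L * ‖a - b‖ := by
    refine (norm_sub_le _ _).trans ?_
    rw [norm_mul]
    have hm := hD.lipμ (z, a) (z, b)
    have hb := hD.lipβ (z, a) (z, b)
    rw [hz] at hm hb
    have hl := norm_lz_le B
    have hL := hD.L0
    gcongr
  calc ‖a - b‖⁻¹ * ‖(μ (z, a) - μ (z, b)) * lz B - (β (z, a) - β (z, b))‖
      ≤ ‖a - b‖⁻¹ * (L * ‖a - b‖ * ‖B‖ + L * ‖a - b‖) := by gcongr
    _ = L * (1 + ‖B‖) := by field_simp; ring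

/-- LOC-4: the pointwise inequality for `J`. -/
theorem jalg : JALG := by
  intro κ L hκ0 hκ1 hL
  have hκ2 : 0 < 1 - κ ^ 2 := by nlinarith
  set δ : ℝ := 1 - κ ^ 2 with hδ
  set C₁ : ℝ := 2 * κ ^ 2 / δ + 1 with hC₁
  have hC₁pos : 1 ≤ C₁ := by
    have : 0 ≤ 2 * κ ^ 2 / δ := by positivity
    linarith
  refine ⟨δ / 8, 1 + L + 5 / 2 * C₁ * L ^ 2, by positivity, by positivity, ?_⟩
  intro μ β hD z a b A B hab hA hB
  have hg := norm_beltrami_le hD z hab hA hB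
  set p := lz (pdL a b A B) with hp
  set q := lzb (pdL a b A B) with hq
  set g := q - μ (z, a) * p with hgdef
  have hB0 := norm_nonneg B
  have hCL : 0 ≤ C₁ * L ^ 2 := by positivity
  refine ⟨?_, ?_, ?_⟩
  · have hqle : ‖q‖ ≤ κ * ‖p‖ + ‖g‖ := by
      have : q = μ (z, a) * p + g := by rw [hgdef]; ring
      calc ‖q‖ = ‖μ (z, a) * p + g‖ := by rw [← this]
        _ ≤ ‖μ (z, a)‖ * ‖p‖ + ‖g‖ := by
            refine (norm_add_le _ _).trans ?_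
            rw [norm_mul]
        _ ≤ κ * ‖p‖ + ‖g‖ := by
            have := hD.bμ (z, a)
            gcongr
    have hq2 : ‖q‖ ^ 2 ≤ (1 + κ ^ 2) / 2 * ‖p‖ ^ 2 + C₁ * ‖g‖ ^ 2 := by
      have h1 : ‖q‖ ^ 2 ≤ (κ * ‖p‖ + ‖g‖) ^ 2 := by gcongr
      have h2 : 2 * κ * ‖p‖ * ‖g‖ ≤ δ / 2 * ‖p‖ ^ 2 + 2 * κ ^ 2 / δ * ‖g‖ ^ 2 := by
        have h3 : 0 ≤ (δ * ‖p‖ - 2 * κ * ‖g‖) ^ 2 / (2 * δ) := by positivity
        have h4 : (δ * ‖p‖ - 2 * κ * ‖g‖) ^ 2 / (2 * δ)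
            = δ / 2 * ‖p‖ ^ 2 + 2 * κ ^ 2 / δ * ‖g‖ ^ 2 - 2 * κ * ‖p‖ * ‖g‖ := by
          field_simp; ring
        linarith
      have h5 : (1 + κ ^ 2) / 2 = κ ^ 2 + δ / 2 := by rw [hδ]; ring
      rw [h5, hC₁]
      nlinarith
    have hn2 := norm_sq_le (pdL a b A B)
    rw [← hp, ← hq] at hn2
    have hg2 : ‖g‖ ^ 2 ≤ L ^ 2 * (2 * (1 + ‖B‖ ^ 2)) := by
      have h1 : ‖g‖ ^ 2 ≤ (L * (1 + ‖B‖)) ^ 2 := by gcongr
      have h2 : (1 + ‖B‖) ^ 2 ≤ 2 * (1 + ‖B‖ ^ 2) := by nlinarith [sq_nonneg (1 - ‖B‖)]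
      calc ‖g‖ ^ 2 ≤ (L * (1 + ‖B‖)) ^ 2 := h1
        _ = L ^ 2 * (1 + ‖B‖) ^ 2 := by ring
        _ ≤ L ^ 2 * (2 * (1 + ‖B‖ ^ 2)) := by gcongr
    have hδ1 : δ ≤ 1 := by rw [hδ]; nlinarith [sq_nonneg κ]
    have hpJ : pJ a b A B = ‖p‖ ^ 2 - ‖q‖ ^ 2 := rfl
    rw [hpJ]
    have hp2 : 0 ≤ ‖p‖ ^ 2 := by positivity
    have hgg : 0 ≤ C₁ * ‖g‖ ^ 2 := by positivity
    -- `‖dL‖² ≤ 4 |p|² + 2 C₁ |g|²`
    have hdL : ‖pdL a b A B‖ ^ 2 ≤ 4 * ‖p‖ ^ 2 + 2 * (C₁ * ‖g‖ ^ 2) := by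
      have hk : (1 + κ ^ 2) / 2 * ‖p‖ ^ 2 ≤ ‖p‖ ^ 2 := by
        have : (1 + κ ^ 2) / 2 ≤ 1 := by nlinarith
        nlinarith
      linarith
    have hstep : δ / 8 * ‖pdL a b A B‖ ^ 2 ≤ δ / 2 * ‖p‖ ^ 2 + 1 / 4 * (C₁ * ‖g‖ ^ 2) := by
      have h1 : δ / 8 * ‖pdL a b A B‖ ^ 2 ≤ δ / 8 * (4 * ‖p‖ ^ 2 + 2 * (C₁ * ‖g‖ ^ 2)) := by
        gcongr
      have h2 : δ * (C₁ * ‖g‖ ^ 2) ≤ C₁ * ‖g‖ ^ 2 := by nlinarith
      nlinarith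
    have hδeq : ‖p‖ ^ 2 - (1 + κ ^ 2) / 2 * ‖p‖ ^ 2 = δ / 2 * ‖p‖ ^ 2 := by rw [hδ]; ring
    have hfin : 5 / 4 * (C₁ * ‖g‖ ^ 2) ≤ 5 / 2 * C₁ * L ^ 2 * (1 + ‖B‖ ^ 2) := by
      have : C₁ * ‖g‖ ^ 2 ≤ C₁ * (L ^ 2 * (2 * (1 + ‖B‖ ^ 2))) := by gcongr
      nlinarith
    have hrest : 0 ≤ (1 + L) * (1 + ‖B‖ ^ 2) := by positivity
    nlinarith
  · refine (abs_pJ_le a b A B).trans ?_
    have h1 : 1 ≤ 1 + L + 5 / 2 * C₁ * L ^ 2 := by nlinarith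
    nlinarith [sq_nonneg ‖pdL a b A B‖]
  · refine hg.trans ?_
    have h1 : L ≤ 1 + L + 5 / 2 * C₁ * L ^ 2 := by nlinarith
    gcongr

end Crest.Agent.R235.LocAlg_895
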