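import Crest.Agent.R235.LocDef_607

/-!
Row 235 (S0364), PACKAGE REG, LOC-8 (CIRC): almost every circle avoids the non-simple points.
-/

set_option autoImplicit false

open MeasureTheory Metric Set Filter Complex
open scoped ContDiff Topology ENNReal

namespace Crest.Agent.R235.LocCirc_891

open Crest.Agent.R235.Loc

noncomputable section

/-- a pair sum in terms of a selection. -/
theorem psum_sel {k : ℕ} {S : ℂ → Multiset ℂ} {z : ℂ} (w : Fin k → ℂ)
    (hinj : Function.Injective w) (hS : S z = Multiset.map w Finset.univ.val)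
    (A : Fin k → (ℂ →L[ℝ] ℂ)) (hA : ∀ i, slope S z (w i) = A i)
    (G : ℂ → ℂ → ℂ → (ℂ →L[ℝ] ℂ) → (ℂ →L[ℝ] ℂ) → ℝ) :
    psum S G z = ∑ q ∈ (Finset.univ : Finset (Fin k)).offDiag,
      G z (w q.1) (w q.2) (A q.1) (A q.2) := by
  classical
  have hnd : (S z).Nodup := by rw [hS]; exact Multiset.Nodup.map hinj Finset.univ.nodup
  unfold psum
  rw [if_pos hnd]
  symm
  refine Finset.sum_nbij (fun q => (w q.1, w q.2)) ?_ ?_ ?_ ?_
  · intro q hq
    simp only [Finset.mem_offDiag, Finset.mem_univ, true_and] at hq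
    simp only [Finset.mem_offDiag, Multiset.mem_toFinset, hS, Multiset.mem_map]
    exact ⟨⟨q.1, Finset.mem_univ_val _, rfl⟩, ⟨q.2, Finset.mem_univ_val _, rfl⟩,
      fun h => hq (hinj h)⟩
  · rintro ⟨a, b⟩ _ ⟨a', b'⟩ _ h
    simp only [Prod.mk.injEq] at h
    exact Prod.ext (hinj h.1) (hinj h.2)
  · rintro ⟨a, b⟩ h
    simp only [Finset.mem_coe, Finset.mem_offDiag, Multiset.mem_toFinset, hS,
      Multiset.mem_map] at h
    obtain ⟨⟨i, _, hi⟩, ⟨j, _, hj⟩, hab⟩ := h
    refine ⟨(i, j), ?_, ?_⟩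
    · simp only [Finset.mem_coe, Finset.mem_offDiag, Finset.mem_univ, true_and]
      rintro rfl
      exact hab (hi.symm.trans hj)
    · simp only [hi, hj]
  · intro q _
    simp only [hA]

theorem exists_deriv_logpv {u : ℝ → ℂ} {u' : ℂ} {t : ℝ} (hu : HasDerivAt u u' t) (h0 : u t ≠ 0)
    (hv : 0 < -Real.log ‖u t‖) :
    ∃ d : ℝ, HasDerivAt (fun s => Real.log (-Real.log ‖u s‖)) d t ∧
      d ≤ (‖u'‖ / ‖u t‖) / (-Real.log ‖u t‖) := by
  have hn : 0 < ‖u t‖ := norm_pos_iff.mpr h0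
  have h1 : HasDerivAt (fun s => ‖u s‖ ^ 2) (2 * inner ℝ (u t) u') t := hu.norm_sq
  have h2 := (h1.log (by positivity)).const_mul (1/2 : ℝ)
  have h3 : HasDerivAt (fun s => -Real.log ‖u s‖)
      (-(1/2 * (2 * inner ℝ (u t) u' / ‖u t‖ ^ 2))) t := by
    refine h2.neg.congr_of_eventuallyEq (Eventually.of_forall fun s => ?_)
    simp [Real.log_pow]
  refine ⟨_, h3.log hv.ne', ?_⟩
  refine div_le_div_of_nonneg_right ?_ hv.le
  have h4 : -inner ℝ (u t) u' ≤ ‖u t‖ * ‖u'‖ :=
    (neg_le_abs _).trans (abs_real_inner_le_norm _ _)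
  have h5 : -(1/2 * (2 * inner ℝ (u t) u' / ‖u t‖ ^ 2)) = (-inner ℝ (u t) u') / ‖u t‖ ^ 2 := by
    ring
  rw [h5, div_le_div_iff₀ (by positivity) hn]
  nlinarith [mul_le_mul_of_nonneg_right h4 hn.le]

/-- the derivative of `Σ log v` along a curve. -/
theorem deriv_h {k : ℕ} {S : ℂ → Multiset ℂ} {γ : ℝ → ℂ} {g' : ℂ} {t ρ : ℝ}
    (hγ : HasDerivAt γ g' t) (hρ : ‖g'‖ ≤ ρ)
    (hsel : ∃ (r : ℝ) (w : Fin k → ℂ → ℂ), 0 < r ∧
      (∀ i, ContDiffOn ℝ ∞ (w i) (ball (γ t) r)) ∧
      (∀ z ∈ ball (γ t) r, Function.Injective (fun i => w i z)) ∧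
      (∀ z ∈ ball (γ t) r, S z = Multiset.map (fun i => w i z) Finset.univ.val) ∧
      (∀ z ∈ ball (γ t) r, ∀ i, slope S z (w i z) = fderiv ℝ (w i) z))
    (hbd : ∀ a ∈ S (γ t), ∀ b ∈ S (γ t), ‖a - b‖ ≤ Real.exp (-1)) :
    ∃ d : ℝ, HasDerivAt (fun s => psum S (fun _ a b _ _ => Real.log (pv a b)) (γ s)) d t ∧
      d ≤ ρ * ((k : ℝ) ^ 2 + psum S (fun _ a b A B => ‖pdL a b A B‖ ^ 2 / pv a b ^ 2) (γ t)) := by
  classical
  obtain ⟨r, w, hr, hcd, hinj, hS, hsl⟩ := hsel
  have hc : γ t ∈ ball (γ t) r := mem_ball_self hr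
  have hρ0 : 0 ≤ ρ := (norm_nonneg _).trans hρ
  have hd : ∀ i, HasDerivAt (fun s => w i (γ s)) (fderiv ℝ (w i) (γ t) g') t := by
    intro i
    have h1 : DifferentiableAt ℝ (w i) (γ t) :=
      ((hcd i).contDiffAt (isOpen_ball.mem_nhds hc)).differentiableAt (by simp)
    exact h1.hasFDerivAt.comp_hasDerivAt t hγ
  have hmem : ∀ i, w i (γ t) ∈ S (γ t) := by
    intro i
    rw [hS _ hc]
    exact Multiset.mem_map.mpr ⟨i, Finset.mem_univ_val _, rfl⟩
  have hne : ∀ q ∈ (Finset.univ : Finset (Fin k)).offDiag, w q.1 (γ t) - w q.2 (γ t) ≠ 0 := by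
    intro q hq h
    simp only [Finset.mem_offDiag, Finset.mem_univ, true_and] at hq
    exact hq (hinj _ hc (sub_eq_zero.mp h))
  have hpv : ∀ q ∈ (Finset.univ : Finset (Fin k)).offDiag,
      1 ≤ -Real.log ‖w q.1 (γ t) - w q.2 (γ t)‖ := by
    intro q hq
    have h1 := hbd _ (hmem q.1) _ (hmem q.2)
    have h2 : 0 < ‖w q.1 (γ t) - w q.2 (γ t)‖ := norm_pos_iff.mpr (hne q hq)
    have h3 := Real.log_le_log h2 h1
    rw [Real.log_exp] at h3
    linarith
  have key : ∀ q ∈ (Finset.univ : Finset (Fin k)).offDiag, ∃ d : ℝ,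
      HasDerivAt (fun s => Real.log (-Real.log ‖w q.1 (γ s) - w q.2 (γ s)‖)) d t ∧
      d ≤ (‖fderiv ℝ (w q.1) (γ t) g' - fderiv ℝ (w q.2) (γ t) g'‖ /
        ‖w q.1 (γ t) - w q.2 (γ t)‖) / (-Real.log ‖w q.1 (γ t) - w q.2 (γ t)‖) := by
    intro q hq
    exact exists_deriv_logpv ((hd q.1).fun_sub (hd q.2)) (hne q hq)
      (lt_of_lt_of_le one_pos (hpv q hq))
  choose! d hd1 hd2 using key
  refine ⟨∑ q ∈ (Finset.univ : Finset (Fin k)).offDiag, d q, ?_, ?_⟩
  · have h1 : HasDerivAt (fun s => ∑ q ∈ (Finset.univ : Finset (Fin k)).offDiag,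
        Real.log (-Real.log ‖w q.1 (γ s) - w q.2 (γ s)‖))
        (∑ q ∈ (Finset.univ : Finset (Fin k)).offDiag, d q) t :=
      HasDerivAt.fun_sum fun q hq => hd1 q hq
    refine h1.congr_of_eventuallyEq ?_
    have h2 : ∀ᶠ s in 𝓝 t, γ s ∈ ball (γ t) r :=
      hγ.continuousAt (isOpen_ball.mem_nhds hc)
    filter_upwards [h2] with s hs
    exact psum_sel (fun i => w i (γ s)) (hinj _ hs) (hS _ hs) _ (hsl _ hs) _
  · rw [psum_sel (fun i => w i (γ t)) (hinj _ hc) (hS _ hc) _ (hsl _ hc) _]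
    have h1 : ∀ q ∈ (Finset.univ : Finset (Fin k)).offDiag, d q ≤ ρ * (1 +
        ‖pdL (w q.1 (γ t)) (w q.2 (γ t)) (fderiv ℝ (w q.1) (γ t)) (fderiv ℝ (w q.2) (γ t))‖ ^ 2 /
          pv (w q.1 (γ t)) (w q.2 (γ t)) ^ 2) := by
      intro q hq
      refine (hd2 q hq).trans ?_
      have h2 := hpv q hq
      have h3 : 0 < ‖w q.1 (γ t) - w q.2 (γ t)‖ := norm_pos_iff.mpr (hne q hq)
      have h4 : ‖fderiv ℝ (w q.1) (γ t) g' - fderiv ℝ (w q.2) (γ t) g'‖ /
          ‖w q.1 (γ t) - w q.2 (γ t)‖ ≤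
          ‖pdL (w q.1 (γ t)) (w q.2 (γ t)) (fderiv ℝ (w q.1) (γ t))
            (fderiv ℝ (w q.2) (γ t))‖ * ρ := by
        unfold pdL
        rw [norm_smul, norm_inv, div_eq_inv_mul, mul_assoc]
        refine mul_le_mul_of_nonneg_left ?_ (by positivity)
        rw [← sub_apply]
        refine (ContinuousLinearMap.le_opNorm _ _).trans ?_
        exact mul_le_mul_of_nonneg_left hρ (norm_nonneg _)
      set P := ‖pdL (w q.1 (γ t)) (w q.2 (γ t)) (fderiv ℝ (w q.1) (γ t))
            (fderiv ℝ (w q.2) (γ t))‖ with hP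
      have hP0 : 0 ≤ P := norm_nonneg _
      have h5 : -Real.log ‖w q.1 (γ t) - w q.2 (γ t)‖ = pv (w q.1 (γ t)) (w q.2 (γ t)) := rfl
      rw [h5] at h2 ⊢
      set V := pv (w q.1 (γ t)) (w q.2 (γ t))
      have hV : 0 < V := lt_of_lt_of_le one_pos h2
      calc _ ≤ (P * ρ) / V := div_le_div_of_nonneg_right h4 hV.le
        _ = ρ * (P / V) := by ring
        _ ≤ ρ * (1 + P ^ 2 / V ^ 2) := by
          refine mul_le_mul_of_nonneg_left ?_ hρ0
          rw [← div_pow]
          nlinarith [sq_nonneg (P / V - 1), sq_nonneg (P / V)]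
    calc ∑ q ∈ (Finset.univ : Finset (Fin k)).offDiag, d q
        ≤ _ := Finset.sum_le_sum h1
      _ = ρ * (((Finset.univ : Finset (Fin k)).offDiag.card : ℝ) + _) := by
          rw [← Finset.mul_sum, Finset.sum_add_distrib, Finset.sum_const, nsmul_eq_mul, mul_one]
      _ ≤ _ := by
          refine mul_le_mul_of_nonneg_left ?_ hρ0
          refine add_le_add_left ?_ _
          rw [Finset.offDiag_card, Finset.card_univ, Fintype.card_fin]
          have : k * k - k ≤ k ^ 2 := by rw [sq]; exact Nat.sub_le _ _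
          exact_mod_cast this

/-- polar coordinates: almost every circle has finite integral. -/
theorem polar_ae (c : ℂ) (f : ℂ → ℝ≥0∞) (hf : Measurable f) (hfin : ∫⁻ z, f z ≠ ⊤) :
    ∀ᵐ r : ℝ, 0 < r → ∫⁻ θ in Ioo (-Real.pi) Real.pi, f (circleMap c r θ) < ⊤ := by
  have h1 : ∫⁻ z, f (c + z) = ∫⁻ z, f z := lintegral_add_left_eq_self f c
  have h2 := Complex.lintegral_comp_polarCoord_symm (fun z => f (c + z))
  have hcm : ∀ p : ℝ × ℝ, c + Complex.polarCoord.symm p = circleMap c p.1 p.2 := by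
    intro p
    rw [Complex.polarCoord_symm_apply, circleMap, Complex.exp_mul_I]
    push_cast
    rfl
  simp only [hcm] at h2
  have hm : Measurable (fun p : ℝ × ℝ => f (circleMap c p.1 p.2)) := by
    refine hf.comp (Continuous.measurable ?_)
    unfold circleMap
    fun_prop
  have hm2 : Measurable (fun p : ℝ × ℝ =>
      ENNReal.ofReal p.1 • f (circleMap c p.1 p.2)) :=
    (measurable_fst.ennreal_ofReal).smul hm
  rw [polarCoord_target, Measure.volume_eq_prod, ← Measure.prod_restrict,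
    lintegral_prod _ hm2.aemeasurable] at h2
  have h3 := ae_lt_top' (μ := volume.restrict (Ioi (0:ℝ)))
    (hm2.lintegral_prod_right' (ν := volume.restrict (Ioo (-Real.pi) Real.pi))).aemeasurable
    (by rw [h2, h1]; exact hfin)
  rw [ae_restrict_iff' measurableSet_Ioi] at h3
  filter_upwards [h3] with r hr h0
  have h4 := hr h0
  simp only [smul_eq_mul] at h4
  rw [lintegral_const_mul' _ _ ENNReal.ofReal_ne_top] at h4
  have h5 : ENNReal.ofReal r ≠ 0 := by simpa using h0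
  by_contra hcon
  rw [not_lt, top_le_iff] at hcon
  rw [hcon, ENNReal.mul_top h5] at h4
  exact lt_irrefl _ h4

/-- the one-dimensional argument on a fixed circle. -/
theorem circle_arg {c : ℂ} {R : ℝ} {k : ℕ} {S : ℂ → Multiset ℂ} (hk : 2 ≤ k)
    (card : ∀ z ∈ ball c R, (S z).card = k)
    (cont : ∀ z ∈ ball c R, ∀ ε > 0, ∀ᶠ z' in 𝓝 z, Near ε (S z) (S z'))
    (hopen : IsOpen (Usimp c R S))
    (hsel : ∀ z₀ ∈ Usimp c R S, ∃ (r : ℝ) (w : Fin k → ℂ → ℂ), 0 < r ∧
      (∀ i, ContDiffOn ℝ ∞ (w i) (ball z₀ r)) ∧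
      (∀ z ∈ ball z₀ r, Function.Injective (fun i => w i z)) ∧
      (∀ z ∈ ball z₀ r, S z = Multiset.map (fun i => w i z) Finset.univ.val) ∧
      (∀ z ∈ ball z₀ r, ∀ i, slope S z (w i z) = fderiv ℝ (w i) z))
    (hbd : ∀ z ∈ ball c R, ∀ a ∈ S z, ∀ b ∈ S z, ‖a - b‖ ≤ Real.exp (-1))
    (r : ℝ) (hr0 : 0 < r) (hrR : r < R)
    (hZ : ∀ z, dist z c = r → ¬ (S z).Nodup → AllEq S z)
    (hint : IntervalIntegrable (fun t => psum S (fun _ a b A B => ‖pdL a b A B‖ ^ 2 / pv a b ^ 2)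
      (circleMap c r t)) volume (-Real.pi) Real.pi)
    (hone : ∃ t, (S (circleMap c r t)).Nodup) :
    ∀ z, dist z c = r → (S z).Nodup := by
  classical
  intro z₁ hz₁
  by_contra hnd
  have hdist : ∀ t, dist (circleMap c r t) c = r := by
    intro t
    rw [dist_eq_norm]
    simp [circleMap, abs_of_pos hr0]
  have hball : ∀ t, circleMap c r t ∈ ball c R := by
    intro t
    rw [mem_ball, hdist]
    exact hrR
  let T : Set ℝ := {t | circleMap c r t ∉ Usimp c R S}
  have hTc : IsClosed T := (hopen.preimage (continuous_circleMap c r)).isClosed_compl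
  obtain ⟨t1, ht1⟩ := hone
  have ht1T : t1 ∉ T := fun h => h ⟨hball t1, ht1⟩
  obtain ⟨θ, hθ⟩ : ∃ θ, circleMap c r θ = z₁ := by
    have : z₁ ∈ range (circleMap c r) := by
      rw [range_circleMap, abs_of_pos hr0]
      exact hz₁
    exact this
  have hπ : 0 < 2 * Real.pi := by positivity
  obtain ⟨θ', hθ', hge⟩ : ∃ θ', circleMap c r θ' = z₁ ∧ t1 ≤ θ' := by
    obtain ⟨n, hn⟩ := exists_nat_ge ((t1 - θ) / (2 * Real.pi))
    refine ⟨θ + n * (2 * Real.pi), ?_, ?_⟩
    · rw [(periodic_circleMap c r).nat_mul n θ]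
      exact hθ
    · rw [div_le_iff₀ hπ] at hn
      linarith
  have hne : (T ∩ Ici t1).Nonempty := by
    refine ⟨θ', ?_, hge⟩
    intro h
    rw [hθ'] at h
    exact hnd h.2
  have hbdd : BddBelow (T ∩ Ici t1) := ⟨t1, fun x hx => hx.2⟩
  set t2 := sInf (T ∩ Ici t1) with ht2def
  have ht2 : t2 ∈ T ∩ Ici t1 := (hTc.inter isClosed_Ici).csInf_mem hne hbdd
  have h12 : t1 < t2 := lt_of_le_of_ne ht2.2 (fun h => ht1T (h ▸ ht2.1))
  have hno : ∀ t ∈ Ico t1 t2, circleMap c r t ∈ Usimp c R S := by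
    intro t ht
    by_contra hT
    exact absurd (csInf_le hbdd ⟨hT, ht.1⟩) (not_le.mpr ht.2)
  set φ : ℝ → ℝ := fun s => r * ((k : ℝ) ^ 2 +
    psum S (fun _ a b A B => ‖pdL a b A B‖ ^ 2 / pv a b ^ 2) (circleMap c r s)) with hφ
  set h : ℝ → ℝ := fun s => psum S (fun _ a b _ _ => Real.log (pv a b)) (circleMap c r s) with hh
  have hψint : ∀ a b : ℝ, IntervalIntegrable (fun t => psum S
      (fun _ a b A B => ‖pdL a b A B‖ ^ 2 / pv a b ^ 2) (circleMap c r t)) volume a b := by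
    intro a b
    have hper : Function.Periodic (fun t => psum S
      (fun _ a b A B => ‖pdL a b A B‖ ^ 2 / pv a b ^ 2) (circleMap c r t)) (2 * Real.pi) := by
      intro t
      simp only [(periodic_circleMap c r) t]
    refine hper.intervalIntegrable hπ.ne' (t := -Real.pi) ?_ a b
    have : -Real.pi + 2 * Real.pi = Real.pi := by ring
    rw [this]
    exact hint
  have hφint : ∀ a b : ℝ, IntervalIntegrable φ volume a b := fun a b =>
    (intervalIntegrable_const.add (hψint a b)).const_mul r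
  have hψ0 : ∀ z, 0 ≤ psum S (fun _ a b A B => ‖pdL a b A B‖ ^ 2 / pv a b ^ 2) z := by
    intro z
    unfold psum
    split_ifs
    · exact Finset.sum_nonneg fun q _ => by positivity
    · exact le_rfl
  have hφ0 : ∀ s, 0 ≤ φ s := by
    intro s
    have := hψ0 (circleMap c r s)
    simp only [hφ]
    positivity
  have hder : ∀ x ∈ Ico t1 t2, ∃ d, HasDerivAt h d x ∧ d ≤ φ x := by
    intro x hx
    refine deriv_h (hasDerivAt_circleMap c r x) ?_ (hsel _ (hno x hx)) (hbd _ (hball x))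
    simp [abs_of_pos hr0]
  choose! d hd1 hd2 using hder
  have hbound : ∀ t ∈ Ioo t1 t2, h t ≤ h t1 + ∫ s in t1..t2, φ s := by
    intro t ht
    have h1 := intervalIntegral.sub_le_integral_of_hasDeriv_right_of_le (g := h) (g' := d) (φ := φ)
      ht.1.le
      (fun x hx => (hd1 x ⟨hx.1, hx.2.trans_lt ht.2⟩).continuousAt.continuousWithinAt)
      (fun x hx => (hd1 x ⟨hx.1.le, hx.2.trans ht.2⟩).hasDerivWithinAt)
      ((intervalIntegrable_iff_integrableOn_Icc_of_le ht.1.le).mp (hφint _ _))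
      (fun x hx => hd2 x ⟨hx.1.le, hx.2.trans ht.2⟩)
    have h2 : ∫ s in t1..t, φ s ≤ ∫ s in t1..t2, φ s := by
      refine intervalIntegral.integral_mono_interval le_rfl ht.1.le ht.2.le ?_ (hφint _ _)
      exact Eventually.of_forall hφ0
    linarith
  set M := h t1 + ∫ s in t1..t2, φ s with hM
  -- all sheets merge at `t2`
  have hall : AllEq S (circleMap c r t2) := by
    refine hZ _ (hdist t2) fun hn => ht2.1 ⟨hball t2, hn⟩
  have hev : ∀ᶠ t in 𝓝 t2, Near (Real.exp (-Real.exp M) / 2) (S (circleMap c r t2))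
      (S (circleMap c r t)) :=
    (continuous_circleMap c r).continuousAt.eventually
      (cont _ (hball t2) (Real.exp (-Real.exp M) / 2) (by positivity))
  obtain ⟨t, ht, hnear⟩ := ((eventually_of_mem (Ioo_mem_nhdsLT h12) fun _ h => h).and
    (hev.filter_mono nhdsWithin_le_nhds)).exists
  have hUt : circleMap c r t ∈ Usimp c R S := hno t ⟨ht.1.le, ht.2⟩
  have hclose : ∀ b ∈ S (circleMap c r t), ∀ b' ∈ S (circleMap c r t),
      ‖b - b'‖ < Real.exp (-Real.exp M) := by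
    intro b hb b' hb'
    have hfl := Multiset.rel_flip.mpr hnear
    obtain ⟨a, ha, hab⟩ := Multiset.exists_mem_of_rel_of_mem hfl hb
    obtain ⟨a', ha', hab'⟩ := Multiset.exists_mem_of_rel_of_mem hfl hb'
    have : a = a' := hall a ha a' ha'
    subst this
    simp only [flip] at hab hab'
    rw [← dist_eq_norm]
    calc dist b b' ≤ dist a b + dist a b' := dist_triangle_left _ _ _
      _ < _ := by linarith
  have hcard := card _ (hball t)
  have hcard2 : 1 < (S (circleMap c r t)).toFinset.card := by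
    rw [Multiset.toFinset_card_of_nodup hUt.2, hcard]
    exact hk
  obtain ⟨b, hb, b', hb', hbb⟩ := Finset.one_lt_card.mp hcard2
  have hlog : ∀ q ∈ (S (circleMap c r t)).toFinset.offDiag, M < Real.log (pv q.1 q.2) := by
    intro q hq
    simp only [Finset.mem_offDiag, Multiset.mem_toFinset] at hq
    have h1 := hclose _ hq.1 _ hq.2.1
    have h2 : 0 < ‖q.1 - q.2‖ := norm_pos_iff.mpr (sub_ne_zero.mpr hq.2.2)
    have h3 := Real.log_lt_log h2 h1
    rw [Real.log_exp] at h3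
    have h4 : Real.exp M < pv q.1 q.2 := by
      unfold pv
      linarith
    exact (Real.lt_log_iff_exp_lt ((Real.exp_pos M).trans h4)).mpr h4
  have hlog0 : ∀ q ∈ (S (circleMap c r t)).toFinset.offDiag, 0 ≤ Real.log (pv q.1 q.2) := by
    intro q hq
    simp only [Finset.mem_offDiag, Multiset.mem_toFinset] at hq
    have h1 := hbd _ (hball t) _ hq.1 _ hq.2.1
    have h2 : 0 < ‖q.1 - q.2‖ := norm_pos_iff.mpr (sub_ne_zero.mpr hq.2.2)
    have h3 := Real.log_le_log h2 h1
    rw [Real.log_exp] at h3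
    refine Real.log_nonneg ?_
    unfold pv
    linarith
  have hfin : M < h t := by
    have h1 : h t = ∑ q ∈ (S (circleMap c r t)).toFinset.offDiag, Real.log (pv q.1 q.2) := by
      simp only [hh, psum]
      rw [if_pos hUt.2]
    rw [h1]
    have hmem : (b, b') ∈ (S (circleMap c r t)).toFinset.offDiag :=
      Finset.mem_offDiag.mpr ⟨hb, hb', hbb⟩
    exact (hlog _ hmem).trans_le (Finset.single_le_sum
      (f := fun q : ℂ × ℂ => Real.log (pv q.1 q.2)) hlog0 hmem)
  exact absurd (hbound t ht) (not_le.mpr hfin)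

/-- `psum` of the energy density is continuous on the simple points. -/
theorem psum_cont (h6 : PSC) {μ β : ℂ × ℂ → ℂ} {κ L : ℝ} (hB : BoxD μ β κ L)
    {c : ℂ} {R : ℝ} {k : ℕ} {S : ℂ → Multiset ℂ} {e : ℂ → ℝ} (hK : KG μ β c R k S e)
    (hbd : ∀ z ∈ ball c R, ∀ a ∈ S z, ∀ b ∈ S z, ‖a - b‖ ≤ Real.exp (-1)) :
    ContinuousOn (psum S (fun _ a b A B => ‖pdL a b A B‖ ^ 2 / pv a b ^ 2)) (Usimp c R S) := by
  have h1 := h6 μ β κ L hB c R k S e hK
    (fun _ a b A B => ‖pdL a b A B‖ ^ 2 / (max (pv a b) 1) ^ 2) ?_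
  · refine h1.congr fun z hz => ?_
    unfold psum
    rw [if_pos hz.2, if_pos hz.2]
    refine Finset.sum_congr rfl fun q hq => ?_
    simp only [Finset.mem_offDiag, Multiset.mem_toFinset] at hq
    have h1 := hbd _ hz.1 _ hq.1 _ hq.2.1
    have h2 : 0 < ‖q.1 - q.2‖ := norm_pos_iff.mpr (sub_ne_zero.mpr hq.2.2)
    have h3 := Real.log_le_log h2 h1
    rw [Real.log_exp] at h3
    have h4 : 1 ≤ pv q.1 q.2 := by
      unfold pv
      linarith
    simp only [max_eq_left h4]
  · unfold pdL pv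
    intro q hq
    have hq' : q.2.1 - q.2.2.1 ≠ 0 := sub_ne_zero.mpr hq.2
    refine ContinuousAt.continuousWithinAt ?_
    have ha : ContinuousAt (fun q : ℂ × ℂ × ℂ × (ℂ →L[ℝ] ℂ) × (ℂ →L[ℝ] ℂ) => q.2.1 - q.2.2.1) q := by
      fun_prop
    have hA : ContinuousAt (fun q : ℂ × ℂ × ℂ × (ℂ →L[ℝ] ℂ) × (ℂ →L[ℝ] ℂ) =>
        q.2.2.2.1 - q.2.2.2.2) q := by
      fun_prop
    refine ContinuousAt.div (((ha.inv₀ hq').smul hA).norm.pow 2) ?_ ?_
    · exact (((ha.norm.log (norm_ne_zero_iff.mpr hq')).neg).max continuousAt_const).pow 2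
    · have : (0:ℝ) < max (-Real.log ‖q.2.1 - q.2.2.1‖) 1 := lt_max_of_lt_right one_pos
      positivity

/-- **LOC-8.** -/
theorem circ_of (h : LOGV) (h1 : SEL) (h6 : PSC) : CIRC := by
  classical
  intro μ β κ L hB c R k S e hK hD hbd
  rcases Nat.lt_or_ge k 2 with hk | hk
  · refine Eventually.of_forall fun r _ hrR z hz => ?_
    have hz' : z ∈ ball c R := by
      rw [mem_ball, hz]
      exact hrR
    have hc := hK.card z hz'
    have : (S z).card ≤ 1 := by omega
    rcases Nat.le_one_iff_eq_zero_or_eq_one.mp this with h0 | h0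
    · rw [Multiset.card_eq_zero.mp h0]
      exact Multiset.nodup_zero
    · obtain ⟨a, ha⟩ := Multiset.card_eq_one.mp h0
      rw [ha]
      exact Multiset.nodup_singleton a
  obtain ⟨hopen, hsel⟩ := h1 μ β κ L hB c R k S e hK
  -- the countable part
  let D : Set ℂ := {z | z ∈ ball c R ∧ ¬ (S z).Nodup ∧ ¬ AllEq S z}
  have hDc : D.Countable := by
    have hdisc : DiscreteTopology D := by
      rw [discreteTopology_subtype_iff]
      intro x hx
      have h2 : ∀ᶠ z in 𝓝[≠] x, (S z).Nodup := hD x hx.1 hx.2.2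
      rw [← Filter.empty_mem_iff_bot]
      have h3 : {z | (S z).Nodup} ∩ D ∈ 𝓝[≠] x ⊓ 𝓟 D :=
        inter_mem_inf h2 (mem_principal_self D)
      have h4 : {z | (S z).Nodup} ∩ D = ∅ := by
        ext z
        simp only [mem_inter_iff, mem_ofPred_eq, mem_empty_iff_false, iff_false]
        rintro ⟨h5, h6⟩
        exact h6.2.1 h5
      rwa [h4] at h3
    exact Set.countable_coe_iff.mp (TopologicalSpace.separableSpace_iff_countable.mp inferInstance)
  have ae1 : ∀ᵐ r : ℝ, r ∉ (fun z => dist z c) '' D := (hDc.image _).ae_notMem volume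
  -- the energy
  set ψ : ℂ → ℝ := psum S (fun _ a b A B => ‖pdL a b A B‖ ^ 2 / pv a b ^ 2) with hψ
  have hψc : ContinuousOn ψ (Usimp c R S) := psum_cont h6 hB hK hbd
  have hψm : Measurable ((Usimp c R S).indicator ψ) := by
    rw [← Set.piecewise_eq_indicator]
    exact hψc.measurable_piecewise continuousOn_const hopen.measurableSet
  have hψe : ∀ z ∈ ball c R, (Usimp c R S).indicator ψ z = ψ z := by
    intro z hz
    by_cases hn : (S z).Nodup
    · exact indicator_of_mem (show z ∈ Usimp c R S from ⟨hz, hn⟩) _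
    · rw [indicator_of_notMem (fun h => hn h.2)]
      simp only [hψ, psum, if_neg hn]
  have ae2 : ∀ᵐ r : ℝ, ∀ n : ℕ, 0 < r → ∫⁻ θ in Ioo (-Real.pi) Real.pi,
      (ball c (R - 1 / ((n:ℝ) + 1))).indicator (fun z => ‖(Usimp c R S).indicator ψ z‖ₑ)
        (circleMap c r θ) < ⊤ := by
    rw [ae_all_iff]
    intro n
    refine polar_ae c _ (hψm.enorm.indicator measurableSet_ball) ?_
    rw [lintegral_indicator measurableSet_ball]
    have hlt : R - 1 / ((n:ℝ) + 1) < R := by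
      have : 0 < 1 / ((n:ℝ) + 1) := by positivity
      linarith
    have hi := h μ β κ L hB c R k S e hK hD hbd _ hlt
    have h2 := hi.hasFiniteIntegral
    refine ne_of_lt (lt_of_le_of_lt (le_of_eq ?_) h2)
    refine setLIntegral_congr_fun measurableSet_ball fun z hz => ?_
    rw [hψe z (ball_subset_ball hlt.le hz)]
  -- simple points on almost every circle
  have hDm : MeasurableSet (Del c R S) := by
    have : Del c R S = ball c R \ Usimp c R S := by
      ext z
      simp only [Del, Usimp, Set.mem_sdiff, mem_ofPred_eq]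
      tauto
    rw [this]
    exact measurableSet_ball.diff hopen.measurableSet
  have ae3 : ∀ᵐ r : ℝ, 0 < r → ∫⁻ θ in Ioo (-Real.pi) Real.pi,
      (Del c R S).indicator (fun _ => (⊤ : ℝ≥0∞)) (circleMap c r θ) < ⊤ := by
    refine polar_ae c _ (measurable_const.indicator hDm) ?_
    rw [lintegral_indicator hDm, setLIntegral_const]
    have : volume (Del c R S) = 0 := hK.null
    rw [this]
    simp
  filter_upwards [ae1, ae2, ae3] with r hr1 hr2 hr3 hr0 hrR
  have hdist : ∀ t, dist (circleMap c r t) c = r := by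
    intro t
    rw [dist_eq_norm]
    simp [circleMap, abs_of_pos hr0]
  have hball : ∀ t, circleMap c r t ∈ ball c R := by
    intro t
    rw [mem_ball, hdist]
    exact hrR
  refine circle_arg hk hK.card hK.cont hopen ?_ hbd r hr0 hrR ?_ ?_ ?_
  · intro z₀ hz₀
    obtain ⟨ρ, w, hρ, _, _, h2, h3, h4, h5⟩ := hsel z₀ hz₀
    exact ⟨ρ, w, hρ, h2, h3, h4, h5⟩
  · intro z hz hn
    by_contra hall
    refine hr1 ⟨z, ⟨?_, hn, hall⟩, hz⟩
    rw [mem_ball, hz]
    exact hrR
  · obtain ⟨n, hn⟩ := exists_nat_one_div_lt (sub_pos.mpr hrR)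
    have hlt : r < R - 1 / ((n:ℝ) + 1) := by linarith
    have h2 := hr2 n hr0
    rw [intervalIntegrable_iff_integrableOn_Ioo_of_le (by linarith [Real.pi_pos])]
    have h3 : (fun t => ψ (circleMap c r t)) =
        fun t => (Usimp c R S).indicator ψ (circleMap c r t) := by
      funext t
      exact (hψe _ (hball t)).symm
    refine ⟨?_, ?_⟩
    · rw [h3]
      exact (hψm.comp (continuous_circleMap c r).measurable).aestronglyMeasurable
    · refine lt_of_le_of_lt (le_of_eq ?_) h2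
      refine lintegral_congr fun θ => ?_
      rw [indicator_of_mem (by rw [mem_ball, hdist]; exact hlt), hψe _ (hball θ)]
  · by_contra hno
    push Not at hno
    have h2 := hr3 hr0
    have h3 : ∀ θ, (Del c R S).indicator (fun _ => (⊤ : ℝ≥0∞)) (circleMap c r θ) = ⊤ :=
      fun θ => indicator_of_mem (show circleMap c r θ ∈ Del c R S from ⟨hball θ, hno θ⟩) _
    simp only [h3] at h2
    rw [setLIntegral_const, Real.volume_Ioo] at h2
    have h4 : ENNReal.ofReal (Real.pi - -Real.pi) ≠ 0 := by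
      simp only [ne_eq, ENNReal.ofReal_eq_zero, not_le]
      linarith [Real.pi_pos]
    rw [ENNReal.top_mul h4] at h2
    exact lt_irrefl _ h2

end

end Crest.Agent.R235.LocCirc_891
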