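import Crest.Agent.R235.LocDef_607

/-!
Row 235 (S0364), package REG-LOC, leaf 2a (`CLUS`): a cluster of a `k`-valued graph is again a
`k`-valued graph.
-/

set_option autoImplicit false

open MeasureTheory Metric Set Filter Complex
open scoped ContDiff Topology

namespace Crest.Agent.R235.LocClus_305

open Crest.Agent.R235.Loc

noncomputable section

/-! ### multisets -/

/-- a matching restricts to the elements satisfying a predicate which is compatible with it. -/
theorem rel_filter {D : ℂ → ℂ → Prop} {P : ℂ → Prop} [DecidablePred P] {s t : Multiset ℂ}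
    (h : Multiset.Rel D s t) (hP : ∀ x ∈ s, ∀ y ∈ t, D x y → (P x ↔ P y)) :
    Multiset.Rel D (s.filter P) (t.filter P) := by
  induction h with
  | zero => simp
  | @cons a b as bs hab hs ih =>
    have ih' := ih (fun x hx y hy => hP x (Multiset.mem_cons_of_mem hx) y
      (Multiset.mem_cons_of_mem hy))
    have hiff := hP a (Multiset.mem_cons_self _ _) b (Multiset.mem_cons_self _ _) hab
    by_cases ha : P a
    · have hb : P b := hiff.1 ha
      rw [Multiset.filter_cons_of_pos _ ha, Multiset.filter_cons_of_pos _ hb]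
      exact Multiset.Rel.cons hab ih'
    · have hb : ¬ P b := fun hb => ha (hiff.2 hb)
      rw [Multiset.filter_cons_of_neg _ ha, Multiset.filter_cons_of_neg _ hb]
      exact ih'

theorem exists_gap (a : ℂ) (s : Multiset ℂ) :
    ∃ δ : ℝ, 0 < δ ∧ ∀ b ∈ s, b ≠ a → δ < dist b a := by
  induction s using Multiset.induction_on with
  | empty => exact ⟨1, one_pos, by simp⟩
  | cons x s ih =>
    obtain ⟨δ, hδ, h⟩ := ih
    by_cases hx : x = a
    · refine ⟨δ, hδ, ?_⟩
      intro b hb hba
      rcases Multiset.mem_cons.1 hb with rfl | hb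
      · exact absurd hx hba
      · exact h b hb hba
    · have hd : 0 < dist x a := dist_pos.2 hx
      refine ⟨min δ (dist x a / 2), lt_min hδ (by positivity), ?_⟩
      intro b hb hba
      rcases Multiset.mem_cons.1 hb with rfl | hb
      · exact lt_of_le_of_lt (min_le_right _ _) (by linarith)
      · exact lt_of_le_of_lt (min_le_left _ _) (h b hb hba)

/-! ### sheets of clusters -/

theorem sheet_of_filter {S : ℂ → Multiset ℂ} {V : Set ℂ} {w : ℂ → ℂ} {P : ℂ → Prop}
    [DecidablePred P] (h : Sheet (fun z => (S z).filter P) V w) : Sheet S V w := by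
  refine ⟨h.isOpen, h.cont, ?_⟩
  intro z hz
  have h1 := h.simple z hz
  simp only [Multiset.count_filter] at h1
  by_cases hp : P (w z)
  · rwa [if_pos hp] at h1
  · rw [if_neg hp] at h1
    exact absurd h1 (by norm_num)

theorem isSlope_filter {S : ℂ → Multiset ℂ} {z a b : ℂ} {ε : ℝ} (hb : dist b a < ε)
    (A : ℂ →L[ℝ] ℂ) :
    IsSlope (fun z => (S z).filter (fun b => dist b a < ε)) z b A ↔ IsSlope S z b A := by
  constructor
  · rintro ⟨V, w, hz, hs, hw, hA⟩
    exact ⟨V, w, hz, sheet_of_filter hs, hw, hA⟩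
  · rintro ⟨V, w, hz, hs, hw, hA⟩
    refine ⟨V ∩ w ⁻¹' (ball a ε), w, ⟨hz, ?_⟩, ⟨?_, ?_, ?_⟩, hw, hA⟩
    · simpa [hw] using hb
    · exact hs.cont.isOpen_inter_preimage hs.isOpen isOpen_ball
    · exact hs.cont.mono inter_subset_left
    · rintro z' ⟨hz', hz2⟩
      have h1 := hs.simple z' hz'
      have h2 : dist (w z') a < ε := by simpa using hz2
      simp only [Multiset.count_filter]
      rwa [if_pos h2]

theorem slope_congr {S S' : ℂ → Multiset ℂ} {z b : ℂ}
    (h : ∀ A, IsSlope S' z b A ↔ IsSlope S z b A) : Loc.slope S' z b = Loc.slope S z b := by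
  have key : IsSlope S' z b = IsSlope S z b := funext fun A => propext (h A)
  unfold Loc.slope
  rw [key]

/-! ### balls -/

theorem exists_ball_sub {p q : ℂ} {r : ℝ} (hq : q ∈ ball p r) :
    ∃ r₁ : ℝ, 0 < r₁ ∧ ball q r₁ ⊆ ball p r := by
  refine ⟨r - dist q p, by have := mem_ball.1 hq; linarith, ?_⟩
  intro z hz
  have h1 := mem_ball.1 hz
  have h2 := dist_triangle z q p
  exact mem_ball.2 (by linarith)

theorem exists_rpow_small {C α ε : ℝ} (hC : 0 ≤ C) (hα : 0 < α) (hε : 0 < ε) :
    ∃ r : ℝ, 0 < r ∧ ∀ t : ℝ, 0 ≤ t → t ≤ r → C * t ^ α ≤ ε := by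
  have hq : 0 < ε / (C + 1) := by positivity
  refine ⟨(ε / (C + 1)) ^ (α⁻¹), Real.rpow_pos_of_pos hq _, ?_⟩
  intro t ht0 ht
  have h1 : t ^ α ≤ ε / (C + 1) := by
    calc t ^ α ≤ ((ε / (C + 1)) ^ (α⁻¹)) ^ α := Real.rpow_le_rpow ht0 ht hα.le
      _ = ε / (C + 1) := Real.rpow_inv_rpow hq.le hα.ne'
  calc C * t ^ α ≤ C * (ε / (C + 1)) := mul_le_mul_of_nonneg_left h1 hC
    _ ≤ ε := by
      rw [mul_div_assoc', div_le_iff₀ (by positivity)]
      nlinarith

/-! ### the theorem -/

theorem clus : CLUS := by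
  intro μ β κ L hB c R k S e hK p hp a ha ε₀ hε₀
  obtain ⟨δ, hδ, hgap⟩ := exists_gap a (S p)
  set ε : ℝ := min ε₀ (δ / 4) with hεdef
  have hε : 0 < ε := lt_min hε₀ (by positivity)
  have hεε₀ : ε ≤ ε₀ := min_le_left _ _
  have hεδ : 4 * ε ≤ δ := by
    have : ε ≤ δ / 4 := min_le_right _ _
    linarith
  have hev : ∀ᶠ z in 𝓝 p, Near (ε / 2) (S p) (S z) ∧ z ∈ ball c R :=
    (hK.cont p hp (ε / 2) (by positivity)).and (isOpen_ball.mem_nhds hp)
  obtain ⟨r, hr, hball⟩ := Metric.eventually_nhds_iff_ball.1 hev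
  have hsub : ball p r ⊆ ball c R := fun z hz => (hball z hz).2
  -- the gap
  have hdich : ∀ z ∈ ball p r, ∀ b ∈ S z, dist b a < ε / 2 ∨ 3 * ε < dist b a := by
    intro z hz b hb
    have hN : Multiset.Rel (fun x y => dist x y < ε / 2) (S p) (S z) := (hball z hz).1
    obtain ⟨b', hb', hbb'⟩ := Multiset.exists_mem_of_rel_of_mem (Multiset.rel_flip.2 hN) hb
    have hbb : dist b' b < ε / 2 := hbb'
    by_cases h : b' = a
    · left
      rw [h, dist_comm] at hbb
      exact hbb
    · right
      have h1 := hgap b' hb' h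
      have h2 := dist_triangle b' b a
      linarith
  -- compatibility of the cluster predicate with matchings of distance `≤ ε`
  have hcomp : ∀ z ∈ ball p r, ∀ z' ∈ ball p r, ∀ x ∈ S z, ∀ y ∈ S z', dist x y ≤ ε →
      (dist x a < ε ↔ dist y a < ε) := by
    intro z hz z' hz' x hx y hy hxy
    have h1 := dist_triangle x y a
    have h2 := dist_triangle y x a
    rw [dist_comm y x] at h2
    rcases hdich z hz x hx with hx1 | hx1 <;> rcases hdich z' hz' y hy with hy1 | hy1
    · constructor <;> intro _ <;> linarith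
    · exfalso; linarith
    · exfalso; linarith
    · constructor <;> intro h <;> exfalso <;> linarith
  have hpp : p ∈ ball p r := mem_ball_self hr
  have hrep : (S p).filter (fun b => dist b a < ε) = Multiset.replicate ((S p).count a) a := by
    rw [← Multiset.filter_eq']
    refine Multiset.filter_congr ?_
    intro b hb
    constructor
    · intro h
      by_contra hne
      have := hgap b hb hne
      linarith
    · rintro rfl
      simpa using hε
  have hcard : ∀ z ∈ ball p r,
      ((S z).filter (fun b => dist b a < ε)).card = (S p).count a := by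
    intro z hz
    have hN : Multiset.Rel (fun x y => dist x y < ε / 2) (S p) (S z) := (hball z hz).1
    have h1 := rel_filter (P := fun b => dist b a < ε) hN (fun x hx y hy hxy =>
      hcomp p hpp z hz x hx y hy (by linarith))
    have h2 := Multiset.card_eq_card_of_rel h1
    rw [← h2, hrep, Multiset.card_replicate]
  refine ⟨ε, r, hε, hεε₀, hr, hsub, ?_, hrep, ?_, ?_, ?_⟩
  · refine
      { card := hcard
        cont := ?_
        null := ?_
        smooth := fun V w hV hs => hK.smooth V w (hV.trans hsub) (sheet_of_filter hs)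
        pde := fun V w hV hs => hK.pde V w (hV.trans hsub) (sheet_of_filter hs)
        e0 := hK.e0
        eint := hK.eint.mono_set hsub
        ebd := fun V w hV hs => hK.ebd V w (hV.trans hsub) (sheet_of_filter hs)
        morrey := ?_
        hold := ?_ }
    · intro z hz ε' hε'
      have h1 := hK.cont z (hsub hz) (min ε' ε) (lt_min hε' hε)
      filter_upwards [h1, isOpen_ball.mem_nhds hz] with z' hN hz'
      have h2 := rel_filter (P := fun b => dist b a < ε) hN (fun x hx y hy hxy =>
        hcomp z hz z' hz' x hx y hy (le_of_lt (lt_of_lt_of_le hxy (min_le_right _ _))))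
      refine h2.mono ?_
      intro x _ y _ hxy
      exact lt_of_lt_of_le hxy (min_le_left _ _)
    · refine measure_mono_null ?_ hK.null
      rintro z ⟨hz, hnd⟩
      exact ⟨hsub hz, fun h => hnd (h.filter _)⟩
    · intro q hq
      obtain ⟨C, α, r₀, hC, hα, hr₀, hb₀, hM⟩ := hK.morrey q (hsub hq)
      obtain ⟨r₁, hr₁, hb₁⟩ := exists_ball_sub hq
      refine ⟨C, α, min r₀ r₁, hC, hα, lt_min hr₀ hr₁,
        (ball_subset_ball (min_le_right _ _)).trans hb₁, ?_⟩
      intro s hs hs'
      exact hM s hs (hs'.trans (min_le_left _ _))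
    · intro q hq
      obtain ⟨C, α, r₀, hC, hα, hr₀, hb₀, hH⟩ := hK.hold q (hsub hq)
      obtain ⟨r₁, hr₁, hb₁⟩ := exists_ball_sub hq
      obtain ⟨r₂, hr₂, hb₂⟩ := exists_rpow_small hC hα hε
      refine ⟨C, α, min r₀ (min r₁ r₂), hC, hα, lt_min hr₀ (lt_min hr₁ hr₂),
        (ball_subset_ball ((min_le_right _ _).trans (min_le_left _ _))).trans hb₁, ?_⟩
      intro z hz
      have hz0 : z ∈ ball q r₀ := ball_subset_ball (min_le_left _ _) hz
      have hz1 : z ∈ ball p r :=
        hb₁ (ball_subset_ball ((min_le_right _ _).trans (min_le_left _ _)) hz)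
      have hz2 : dist z q ≤ r₂ :=
        (mem_ball.1 hz).le.trans ((min_le_right _ _).trans (min_le_right _ _))
      have hle := hb₂ (dist z q) dist_nonneg hz2
      exact rel_filter (P := fun b => dist b a < ε) (hH z hz0) (fun x hx y hy hxy =>
        hcomp q hq z hz1 x hx y hy (le_trans hxy hle))
  · intro z hz b hb
    rcases hdich z hz b hb with h | h
    · left; linarith
    · right; linarith
  · intro z hz _ b hb
    have hb2 : dist b a < ε := (Multiset.mem_filter.1 hb).2
    exact slope_congr (fun A => isSlope_filter hb2 A)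
  · intro hk z hz
    refine Multiset.eq_of_le_of_card_le (Multiset.filter_le _ _) ?_
    rw [hcard z hz, hk, hK.card z (hsub hz)]

end

end Crest.Agent.R235.LocClus_305
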