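import Crest.Agent.R235.LocDef_607

/-!
Row 235 (S0364), PACKAGE REG, LOC-9a: radial cut-offs with a simple annulus at every scale
(`cut_of : CIRC → CUT`), and existence of a smooth truncation `Chi`.
-/

set_option autoImplicit false

open MeasureTheory Metric Set Filter Complex
open scoped ContDiff Topology

namespace Crest.Agent.R235.Loc

/-- a smooth truncation exists. -/
theorem exists_chi : ∃ χ : ℝ → ℝ, Chi χ := by
  refine ⟨fun t => Real.smoothTransition (2 - t), ?_, ?_, ?_, ?_⟩
  · exact Real.smoothTransition.contDiff.comp (contDiff_const.sub contDiff_id)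
  · intro t ht
    exact Real.smoothTransition.one_of_one_le (by linarith)
  · intro t ht
    exact Real.smoothTransition.zero_of_nonpos (by linarith)
  · intro s t hst
    exact Real.smoothTransition.monotone (by linarith)

/-- multisets near a simple multiset are simple. -/
theorem nodup_of_near {ε : ℝ} {s t : Multiset ℂ} (h : Near ε s t) (hs : s.Nodup)
    (hε : ∀ a ∈ s, ∀ b ∈ s, a ≠ b → 2 * ε ≤ dist a b) : t.Nodup := by
  unfold Near at h
  induction h with
  | zero => exact Multiset.nodup_zero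
  | @cons a b as bs hab hrel ih =>
    rw [Multiset.nodup_cons] at hs ⊢
    refine ⟨?_, ih hs.2 (fun x hx y hy hxy => hε x (Multiset.mem_cons_of_mem hx) y
      (Multiset.mem_cons_of_mem hy) hxy)⟩
    intro hb
    obtain ⟨a', ha', hr⟩ := Multiset.exists_mem_of_rel_of_mem (Multiset.rel_flip.2 hrel) hb
    have hr' : dist a' b < ε := hr
    have hne : a ≠ a' := by
      rintro rfl
      exact hs.1 ha'
    have h1 := hε a (Multiset.mem_cons_self a as) a' (Multiset.mem_cons_of_mem ha') hne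
    have h2 : dist a a' ≤ dist a b + dist a' b := dist_triangle_right a a' b
    linarith

/-- the distinct elements of a multiset are uniformly separated. -/
theorem exists_sep (s : Multiset ℂ) :
    ∃ ε : ℝ, 0 < ε ∧ ∀ a ∈ s, ∀ b ∈ s, a ≠ b → 2 * ε ≤ dist a b := by
  classical
  rcases (s.toFinset.offDiag).eq_empty_or_nonempty with h0 | h0
  · refine ⟨1, one_pos, fun a ha b hb hab => ?_⟩
    have : (a, b) ∈ s.toFinset.offDiag := by simp [ha, hb, hab]
    rw [h0] at this
    simp at this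
  · obtain ⟨q, hq, hmin⟩ := Finset.exists_min_image s.toFinset.offDiag
      (fun q => dist q.1 q.2) h0
    have hq' : q.1 ≠ q.2 := (Finset.mem_offDiag.1 hq).2.2
    refine ⟨dist q.1 q.2 / 2, half_pos (dist_pos.2 hq'), fun a ha b hb hab => ?_⟩
    have h1 := hmin (a, b) (by simp [ha, hb, hab])
    simp only at h1
    linarith

/-- the simple points are open. -/
theorem isOpen_Usimp {c : ℂ} {R : ℝ} {S : ℂ → Multiset ℂ}
    (hc : ∀ z ∈ ball c R, ∀ ε > 0, ∀ᶠ z' in 𝓝 z, Near ε (S z) (S z')) :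
    IsOpen (Usimp c R S) := by
  rw [isOpen_iff_mem_nhds]
  rintro z ⟨hz, hn⟩
  obtain ⟨ε, hε, hsep⟩ := exists_sep (S z)
  filter_upwards [isOpen_ball.mem_nhds hz, hc z hz ε hε] with z' h1 h2
  exact ⟨h1, nodup_of_near h2 hn hsep⟩

/-- **LOC-9a.** -/
theorem cut_of (h : CIRC) : CUT := by
  intro μ β κ L hB c R k S e hKG hD hexp r hr hrR
  have hopen : IsOpen (Usimp c R S) := isOpen_Usimp hKG.cont
  -- a good radius
  obtain ⟨ρ, hρ, hgood⟩ : ∃ ρ ∈ Ioo (0:ℝ) r, 0 < ρ → ρ < R → ∀ z, dist z c = ρ → (S z).Nodup := by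
    have hae := h μ β κ L hB c R k S e hKG hD hexp
    by_contra hcon
    push Not at hcon
    have hsub : Ioo (0:ℝ) r ⊆ {ρ : ℝ | ¬ (0 < ρ → ρ < R → ∀ z, dist z c = ρ → (S z).Nodup)} := by
      intro ρ hρ
      simp only [mem_ofPred_eq]
      push Not
      exact hcon ρ hρ
    have h0 : volume (Ioo (0:ℝ) r) = 0 :=
      measure_mono_null hsub (ae_iff.1 hae)
    rw [Real.volume_Ioo] at h0
    simp at h0
    linarith
  have hρR : ρ < R := lt_of_lt_of_le hρ.2 hrR
  have hsph : sphere c ρ ⊆ Usimp c R S := by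
    intro z hz
    have hz' : dist z c = ρ := hz
    exact ⟨by rw [mem_ball, hz']; exact hρR, hgood hρ.1 hρR z hz'⟩
  obtain ⟨δ, hδ, hth⟩ := (isCompact_sphere c ρ).exists_thickening_subset_open hopen hsph
  -- the half-width of the annulus
  set d : ℝ := min (δ / 2) (min (ρ / 2) ((r - ρ) / 2)) with hd
  have hrρ : 0 < r - ρ := by linarith [hρ.2]
  have hd0 : 0 < d := by
    simp only [hd, lt_min_iff]
    refine ⟨by linarith, by linarith [hρ.1], by linarith⟩
  have hd1 : d ≤ δ / 2 := min_le_left _ _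
  have hd2 : d ≤ ρ / 2 := (min_le_right _ _).trans (min_le_left _ _)
  have hd3 : d ≤ (r - ρ) / 2 := (min_le_right _ _).trans (min_le_right _ _)
  have hR1 : 0 < ρ - d := by linarith [hρ.1]
  have hlt : ρ - d < ρ + d := by linarith
  have hsq : 0 < (ρ + d) ^ 2 - (ρ - d) ^ 2 := by nlinarith [hρ.1]
  have hsimple : ∀ z, ρ - d ≤ dist z c → dist z c ≤ ρ + d → (S z).Nodup := by
    intro z h1 h2
    have hn : 0 < dist z c := lt_of_lt_of_le hR1 h1
    have hn' : 0 < ‖z - c‖ := by rwa [← dist_eq_norm]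
    refine (hth ?_ : z ∈ Usimp c R S).2
    rw [mem_thickening_iff]
    refine ⟨c + ((ρ / ‖z - c‖ : ℝ) : ℂ) * (z - c), ?_, ?_⟩
    · rw [mem_sphere, dist_eq_norm, add_sub_cancel_left, norm_mul, Complex.norm_real,
        Real.norm_of_nonneg (div_nonneg hρ.1.le hn'.le), div_mul_cancel₀ _ hn'.ne']
    · have e1 : z - (c + ((ρ / ‖z - c‖ : ℝ) : ℂ) * (z - c))
          = ((1 - ρ / ‖z - c‖ : ℝ) : ℂ) * (z - c) := by
        push_cast
        ring
      rw [dist_eq_norm, e1, norm_mul, Complex.norm_real, Real.norm_eq_abs]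
      have e2 : |1 - ρ / ‖z - c‖| * ‖z - c‖ = |‖z - c‖ - ρ| := by
        rw [← abs_of_pos hn', ← abs_mul, abs_of_pos hn']
        congr 1
        field_simp
      rw [e2, ← dist_eq_norm, abs_lt]
      constructor <;> linarith
  refine ⟨ρ - d, ρ + d, fun z => Real.smoothTransition (((ρ + d) ^ 2 - ‖z - c‖ ^ 2) /
    ((ρ + d) ^ 2 - (ρ - d) ^ 2)), by linarith, ?_⟩
  refine ⟨hR1, hlt, by linarith, ?_, ?_, ?_, ?_, ?_, ?_, hsimple⟩
  · have h1 : ContDiff ℝ ∞ (fun z : ℂ => ‖z - c‖ ^ 2) :=
      (contDiff_id.sub contDiff_const).norm_sq ℝ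
    exact Real.smoothTransition.contDiff.comp ((contDiff_const.sub h1).div_const _)
  · intro z hz
    have hz' : ‖z - c‖ ≤ ρ - d := by rwa [mem_closedBall, dist_eq_norm] at hz
    apply Real.smoothTransition.one_of_one_le
    rw [le_div_iff₀ hsq]
    nlinarith [norm_nonneg (z - c)]
  · intro z hz
    have hz' : ρ + d ≤ ‖z - c‖ := by
      rw [mem_ball, dist_eq_norm, not_lt] at hz
      exact hz
    apply Real.smoothTransition.zero_of_nonpos
    apply div_nonpos_of_nonpos_of_nonneg _ hsq.le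
    nlinarith [norm_nonneg (z - c), hρ.1]
  · intro z
    exact Real.smoothTransition.nonneg _
  · intro z
    exact Real.smoothTransition.le_one _
  · refine ⟨fun t => Real.smoothTransition (((ρ + d) ^ 2 - t) /
      ((ρ + d) ^ 2 - (ρ - d) ^ 2)), ?_, fun z => rfl⟩
    exact Real.smoothTransition.contDiff.comp ((contDiff_const.sub contDiff_id).div_const _)

end Crest.Agent.R235.Loc
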