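import Crest.Agent.R235.LocDef_607

/-!
Row 235 (S0364), REG-LOC, task 223: LOC-9b (B), the flux identities.
-/

set_option autoImplicit false

open MeasureTheory Metric Set Filter Complex
open scoped ContDiff Topology

namespace Crest.Agent.R235.LocFlux

open Crest.Agent.R235.Loc

noncomputable section

section psum

variable {S : ℂ → Multiset ℂ}
variable {G H : ℂ → ℂ → ℂ → (ℂ →L[ℝ] ℂ) → (ℂ →L[ℝ] ℂ) → ℝ} {z : ℂ}

theorem psum_neg : psum S (fun z a b A B => - G z a b A B) z = - psum S G z := by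
  unfold psum
  split_ifs
  · rw [Finset.sum_neg_distrib]
  · simp

theorem psum_sub : psum S (fun z a b A B => G z a b A B - H z a b A B) z =
    psum S G z - psum S H z := by
  unfold psum
  split_ifs
  · rw [Finset.sum_sub_distrib]
  · simp

theorem psum_mul (r : ℝ) : psum S (fun z a b A B => r * G z a b A B) z = r * psum S G z := by
  unfold psum
  split_ifs
  · rw [Finset.mul_sum]
  · simp

/-- two pair functions which agree on the distinct pairs of sheets have the same sums. -/
theorem psum_congr (h : (S z).Nodup → ∀ a ∈ S z, ∀ b ∈ S z, a ≠ b →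
      G z a b (slope S z a) (slope S z b) = H z a b (slope S z a) (slope S z b)) :
    psum S G z = psum S H z := by
  classical
  unfold psum
  split_ifs with hN
  · refine Finset.sum_congr rfl fun q hq => ?_
    rw [Finset.mem_offDiag] at hq
    exact h hN _ (Multiset.mem_toFinset.1 hq.1) _ (Multiset.mem_toFinset.1 hq.2.1) hq.2.2
  · rfl

theorem psum_eq_zero (h : ∀ a b A B, G z a b A B = 0) : psum S G z = 0 := by
  unfold psum
  split_ifs
  · exact Finset.sum_eq_zero fun q _ => h _ _ _ _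
  · rfl

/-- one term is bounded by the pair sum. -/
theorem le_psum (h0 : ∀ a b A B, 0 ≤ G z a b A B) (hN : (S z).Nodup) {a b : ℂ} (ha : a ∈ S z)
    (hb : b ∈ S z) (hab : a ≠ b) : G z a b (slope S z a) (slope S z b) ≤ psum S G z := by
  classical
  unfold psum
  rw [if_pos hN]
  have hq : (a, b) ∈ (S z).toFinset.offDiag :=
    Finset.mem_offDiag.2 ⟨Multiset.mem_toFinset.2 ha, Multiset.mem_toFinset.2 hb, hab⟩
  exact Finset.single_le_sum
    (f := fun q : ℂ × ℂ => G z q.1 q.2 (slope S z q.1) (slope S z q.2))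
    (fun q _ => h0 _ _ _ _) hq

/-- lower bound of a pair sum. -/
theorem psum_ge {k : ℕ} {C : ℝ} (hC : 0 ≤ C) (hk : (S z).card = k)
    (h : (S z).Nodup → ∀ a ∈ S z, ∀ b ∈ S z, a ≠ b →
      - C ≤ G z a b (slope S z a) (slope S z b)) : - (C * (k : ℝ) ^ 2) ≤ psum S G z := by
  classical
  unfold psum
  split_ifs with hN
  · have h1 : ∑ _q ∈ (S z).toFinset.offDiag, (- C) ≤
        ∑ q ∈ (S z).toFinset.offDiag, G z q.1 q.2 (slope S z q.1) (slope S z q.2) := by
      refine Finset.sum_le_sum fun q hq => ?_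
      rw [Finset.mem_offDiag] at hq
      exact h hN _ (Multiset.mem_toFinset.1 hq.1) _ (Multiset.mem_toFinset.1 hq.2.1) hq.2.2
    refine le_trans ?_ h1
    rw [Finset.sum_const, nsmul_eq_mul]
    have h2 : ((S z).toFinset.offDiag.card : ℝ) ≤ (k : ℝ) ^ 2 := by
      have h3 : (S z).toFinset.card = k := by
        rw [Multiset.toFinset_card_of_nodup hN, hk]
      have h4 : (S z).toFinset.offDiag.card ≤ k ^ 2 := by
        rw [Finset.offDiag_card, h3, sq]
        exact Nat.sub_le _ _
      exact_mod_cast h4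
    nlinarith
  · have : 0 ≤ C * (k : ℝ) ^ 2 := mul_nonneg hC (sq_nonneg _)
    linarith

end psum

section cut

variable {c : ℂ} {R R₁ R₂ : ℝ} {S : ℂ → Multiset ℂ} {η : ℂ → ℝ}

/-- the closed annulus -/
def ann (c : ℂ) (R₁ R₂ : ℝ) : Set ℂ := {z | R₁ ≤ dist z c ∧ dist z c ≤ R₂}

theorem isCompact_ann : IsCompact (ann c R₁ R₂) := by
  refine (isCompact_closedBall c R₂).of_isClosed_subset ?_ fun z hz => ?_
  · exact (isClosed_le continuous_const (continuous_id.dist continuous_const)).inter
      (isClosed_le (continuous_id.dist continuous_const) continuous_const)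
  · exact mem_closedBall.2 hz.2

theorem ann_subset (h : Cut c R S R₁ R₂ η) : ann c R₁ R₂ ⊆ Usimp c R S := fun z hz =>
  ⟨mem_ball.2 (hz.2.trans_lt h.lt'), h.simple z hz.1 hz.2⟩

theorem fderiv_eq_zero (h : Cut c R S R₁ R₂ η) {z : ℂ} (hz : z ∉ ann c R₁ R₂) :
    fderiv ℝ η z = 0 := by
  by_cases h1 : dist z c < R₁
  · have h2 : η =ᶠ[𝓝 z] fun _ => (1 : ℝ) := by
      filter_upwards [isOpen_ball.mem_nhds (mem_ball.2 h1)] with y hy
      exact h.one y (ball_subset_closedBall hy)
    rw [h2.fderiv_eq]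
    simp
  · have h3 : R₂ < dist z c := by
      by_contra h4
      exact hz ⟨not_lt.1 h1, not_lt.1 h4⟩
    have h2 : η =ᶠ[𝓝 z] fun _ => (0 : ℝ) := by
      have h5 : IsOpen {y : ℂ | R₂ < dist y c} :=
        isOpen_lt continuous_const (continuous_id.dist continuous_const)
      filter_upwards [h5.mem_nhds h3] with y hy
      exact h.zero y fun hy' => absurd (mem_ball.1 hy') (not_lt.2 (le_of_lt hy))
    rw [h2.fderiv_eq]
    simp

theorem tsupport_subset (h : Cut c R S R₁ R₂ η) : tsupport η ⊆ closedBall c R₂ := by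
  refine closure_minimal (fun z hz => ?_) isClosed_closedBall
  by_contra h1
  exact hz (h.zero z fun h2 => h1 (ball_subset_closedBall h2))

theorem hasCompactSupport (h : Cut c R S R₁ R₂ η) : HasCompactSupport η :=
  (isCompact_closedBall c R₂).of_isClosed_subset (isClosed_tsupport η) (tsupport_subset h)

/-- a function which is continuous on the open set of simple points and vanishes off the compact
simple annulus is integrable. -/
theorem integrable_of_ann (h : Cut c R S R₁ R₂ η) (ho : IsOpen (Usimp c R S)) {f : ℂ → ℝ}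
    (hf : ContinuousOn f (Usimp c R S)) (h0 : ∀ z ∉ ann c R₁ R₂, f z = 0) : Integrable f := by
  have hc : Continuous f := by
    rw [continuous_iff_continuousAt]
    intro z
    by_cases hz : z ∈ ann c R₁ R₂
    · exact hf.continuousAt (ho.mem_nhds (ann_subset h hz))
    · have h1 : f =ᶠ[𝓝 z] fun _ => (0 : ℝ) := by
        filter_upwards [isCompact_ann.isClosed.isOpen_compl.mem_nhds hz] with y hy
        exact h0 y hy
      exact (continuousAt_const (y := (0 : ℝ))).congr h1.symm
  refine hc.integrable_of_hasCompactSupport ?_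
  refine (isCompact_ann (c := c) (R₁ := R₁) (R₂ := R₂)).of_isClosed_subset (isClosed_tsupport f)
    (closure_minimal (fun z hz => ?_) (isCompact_ann (c := c) (R₁ := R₁) (R₂ := R₂)).isClosed)
  by_contra h1
  exact hz (h0 z h1)

end cut

section chi

variable {χ : ℝ → ℝ}

theorem chi_nonneg (h : Chi χ) (t : ℝ) : 0 ≤ χ t := by
  rcases le_total t 2 with h1 | h1
  · calc (0 : ℝ) = χ 2 := (h.zero 2 le_rfl).symm
      _ ≤ χ t := h.anti h1
  · rw [h.zero t h1]

theorem chi_le_one (h : Chi χ) (t : ℝ) : χ t ≤ 1 := by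
  rcases le_total t 1 with h1 | h1
  · rw [h.one t h1]
  · calc χ t ≤ χ 1 := h.anti h1
      _ = 1 := h.one 1 le_rfl

theorem chi_integral (h : Chi χ) : 1 ≤ ∫ t in (0:ℝ)..2, χ t := by
  have hc : Continuous χ := h.smooth.continuous
  have h1 : ∫ t in (0:ℝ)..2, χ t = (∫ t in (0:ℝ)..1, χ t) + ∫ t in (1:ℝ)..2, χ t :=
    (intervalIntegral.integral_add_adjacent_intervals (hc.intervalIntegrable _ _)
      (hc.intervalIntegrable _ _)).symm
  have h2 : ∫ t in (0:ℝ)..1, χ t = 1 := by
    have : ∫ t in (0:ℝ)..1, χ t = ∫ _t in (0:ℝ)..1, (1 : ℝ) := by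
      refine intervalIntegral.integral_congr fun t ht => ?_
      rw [uIcc_of_le zero_le_one] at ht
      exact h.one t ht.2
    rw [this]
    simp
  have h3 : 0 ≤ ∫ t in (1:ℝ)..2, χ t :=
    intervalIntegral.integral_nonneg (by norm_num) fun t _ => chi_nonneg h t
  linarith

/-- the primitive -/
def prim (χ : ℝ → ℝ) (n : ℝ) (t : ℝ) : ℝ := ∫ s in (2 * n)..t, χ (s / n)

theorem prim_hasDerivAt (h : Chi χ) (n t : ℝ) : HasDerivAt (prim χ n) (χ (t / n)) t := by
  have hc : Continuous fun s : ℝ => χ (s / n) := h.smooth.continuous.comp (continuous_id.div_const n)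
  exact intervalIntegral.integral_hasDerivAt_right (hc.intervalIntegrable _ _)
    hc.aestronglyMeasurable.stronglyMeasurableAtFilter hc.continuousAt

theorem prim_deriv (h : Chi χ) (n : ℝ) : deriv (prim χ n) = fun t => χ (t / n) :=
  funext fun t => (prim_hasDerivAt h n t).deriv

theorem prim_contDiff (h : Chi χ) (n : ℝ) : ContDiff ℝ 1 (prim χ n) := by
  rw [contDiff_one_iff_deriv]
  refine ⟨fun t => (prim_hasDerivAt h n t).differentiableAt, ?_⟩
  rw [prim_deriv h]
  exact h.smooth.continuous.comp (continuous_id.div_const n)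

theorem prim_zero (h : Chi χ) {n : ℝ} (hn : 0 < n) {t : ℝ} (ht : 2 * n ≤ t) : prim χ n t = 0 := by
  unfold prim
  have : ∫ s in (2 * n)..t, χ (s / n) = ∫ _s in (2 * n)..t, (0 : ℝ) := by
    refine intervalIntegral.integral_congr fun s hs => ?_
    rw [uIcc_of_le ht] at hs
    refine h.zero _ ?_
    rw [le_div_iff₀ hn]
    exact hs.1
  rw [this]
  simp

theorem prim_eq (h : Chi χ) {n : ℝ} (hn : 0 < n) {t : ℝ} (ht : t ≤ n) :
    prim χ n t = t - n * ∫ s in (0:ℝ)..2, χ s := by
  have hc : Continuous fun s : ℝ => χ (s / n) := h.smooth.continuous.comp (continuous_id.div_const n)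
  have h1 : prim χ n t = (∫ s in (0:ℝ)..t, χ (s / n)) - ∫ s in (0:ℝ)..(2 * n), χ (s / n) := by
    unfold prim
    rw [intervalIntegral.integral_interval_sub_left (hc.intervalIntegrable _ _)
      (hc.intervalIntegrable _ _)]
  have h2 : ∫ s in (0:ℝ)..t, χ (s / n) = t := by
    have h3 : ∫ s in (0:ℝ)..t, χ (s / n) = ∫ _s in (0:ℝ)..t, (1 : ℝ) := by
      refine intervalIntegral.integral_congr fun s hs => ?_
      refine h.one _ ?_
      rw [div_le_one hn]
      rcases le_total 0 t with h4 | h4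
      · rw [uIcc_of_le h4] at hs
        exact hs.2.trans ht
      · rw [uIcc_of_ge h4] at hs
        exact hs.2.trans hn.le
    rw [h3]
    simp
  have h5 : ∫ s in (0:ℝ)..(2 * n), χ (s / n) = n * ∫ s in (0:ℝ)..2, χ s := by
    rw [intervalIntegral.integral_comp_div (fun s => χ s) hn.ne']
    rw [zero_div, mul_div_assoc, div_self hn.ne', mul_one, smul_eq_mul]
  rw [h1, h2, h5]

end chi

section cont

/-- the domain of the pair functions -/
abbrev Dom (c : ℂ) (R : ℝ) : Set (ℂ × ℂ × ℂ × (ℂ →L[ℝ] ℂ) × (ℂ →L[ℝ] ℂ)) :=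
  {q | q.1 ∈ ball c R ∧ q.2.1 ≠ q.2.2.1}

theorem pv_cont {c : ℂ} {R : ℝ} : ContinuousOn
    (fun q : ℂ × ℂ × ℂ × (ℂ →L[ℝ] ℂ) × (ℂ →L[ℝ] ℂ) => pv q.2.1 q.2.2.1) (Dom c R) := by
  unfold pv
  refine ContinuousOn.neg (ContinuousOn.log (Continuous.continuousOn (by fun_prop)) ?_)
  intro q hq
  exact norm_ne_zero_iff.2 (sub_ne_zero.2 hq.2)

theorem pdL_cont {c : ℂ} {R : ℝ} : ContinuousOn
    (fun q : ℂ × ℂ × ℂ × (ℂ →L[ℝ] ℂ) × (ℂ →L[ℝ] ℂ) => pdL q.2.1 q.2.2.1 q.2.2.2.1 q.2.2.2.2)
    (Dom c R) := by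
  unfold pdL
  have h1 : Continuous (fun q : ℂ × ℂ × ℂ × (ℂ →L[ℝ] ℂ) × (ℂ →L[ℝ] ℂ) => q.2.1 - q.2.2.1) := by
    fun_prop
  have h2 : Continuous
      (fun q : ℂ × ℂ × ℂ × (ℂ →L[ℝ] ℂ) × (ℂ →L[ℝ] ℂ) => q.2.2.2.1 - q.2.2.2.2) := by
    fun_prop
  exact (h1.continuousOn.inv₀ fun q hq => sub_ne_zero.2 hq.2).smul h2.continuousOn

theorem wth_cont {c : ℂ} {R : ℝ} {α : ℂ → (ℂ →L[ℝ] ℝ)} (hα : Continuous α) : ContinuousOn
    (fun q : ℂ × ℂ × ℂ × (ℂ →L[ℝ] ℂ) × (ℂ →L[ℝ] ℂ) =>
      wth (α q.1) q.2.1 q.2.2.1 q.2.2.2.1 q.2.2.2.2) (Dom c R) := by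
  unfold wth
  have h1 : ∀ v : ℂ, Continuous
      (fun q : ℂ × ℂ × ℂ × (ℂ →L[ℝ] ℂ) × (ℂ →L[ℝ] ℂ) => α q.1 v) := fun v =>
    (hα.comp continuous_fst).clm_apply continuous_const
  have h2 : ∀ v : ℂ, ContinuousOn
      (fun q : ℂ × ℂ × ℂ × (ℂ →L[ℝ] ℂ) × (ℂ →L[ℝ] ℂ) =>
        (pdL q.2.1 q.2.2.1 q.2.2.2.1 q.2.2.2.2 v).im) (Dom c R) := fun v =>
    continuous_im.comp_continuousOn (pdL_cont.clm_apply continuousOn_const)
  exact ((h1 1).continuousOn.mul (h2 I)).sub ((h1 I).continuousOn.mul (h2 1))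

end cont

theorem wth_zero (a b : ℂ) (A B : ℂ →L[ℝ] ℂ) : wth 0 a b A B = 0 := by
  simp [wth]

/-- the identity behind the second and third clause of `FLUX`, with the integral sign closed
before the subtraction: `∫ η Σ χ(v/n) J - n (∫χ) flux` does not depend on `n ≥ max m 1`. -/
theorem energy (hS : STAR) (h1 : SEL) (h6 : PSC) {χ : ℝ → ℝ} (hχ : Chi χ)
    {μ β : ℂ × ℂ → ℂ} {κ L : ℝ} (hB : BoxD μ β κ L) {c : ℂ} {R : ℝ} {k : ℕ}
    {S : ℂ → Multiset ℂ} {e : ℂ → ℝ} (hK : KG μ β c R k S e) (hD : DiscOff c R S)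
    {R₁ R₂ : ℝ} {η : ℂ → ℝ} (hC : Cut c R S R₁ R₂ η) :
    ∃ m : ℝ, (∀ z ∈ ann c R₁ R₂, ∀ a ∈ S z, ∀ b ∈ S z, a ≠ b → pv a b ≤ m) ∧
      ∀ n : ℝ, max m 1 ≤ n →
      Integrable (fun z => η z * psum S (fun _ a b A B => χ (pv a b / n) * pJ a b A B) z) ∧
      (∫ z, η z * psum S (fun _ a b A B => χ (pv a b / n) * pJ a b A B) z)
        - n * (∫ t in (0:ℝ)..2, χ t) * flux S η =
      ∫ z, psum S (fun z a b A B => pv a b * wth (fderiv ℝ η z) a b A B) z := by
  obtain ⟨ho, -⟩ := h1 μ β κ L hB c R k S e hK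
  have hη1 : ContDiff ℝ 1 η := hC.smooth.of_le (by exact_mod_cast le_top)
  have hdη : Continuous (fderiv ℝ η) := hη1.continuous_fderiv one_ne_zero
  have hsup : tsupport η ⊆ ball c R :=
    (tsupport_subset hC).trans (closedBall_subset_ball hC.lt')
  have hcs := hasCompactSupport hC
  -- bound for `v` on the annulus
  obtain ⟨m, hm⟩ : ∃ m : ℝ, ∀ z ∈ ann c R₁ R₂, ∀ a ∈ S z, ∀ b ∈ S z, a ≠ b → pv a b ≤ m := by
    have h5 : ContinuousOn (psum S fun _ a b _ _ => |pv a b|) (ann c R₁ R₂) :=
      (h6 μ β κ L hB c R k S e hK _ pv_cont.abs).mono (ann_subset hC)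
    obtain ⟨m, hm⟩ := (isCompact_ann.image_of_continuousOn h5).bddAbove
    refine ⟨m, fun z hz a ha b hb hab => (le_abs_self _).trans ?_⟩
    refine le_trans ?_ (hm (mem_image_of_mem _ hz))
    exact le_psum (G := fun _ a b _ _ => |pv a b|) (fun _ _ _ _ => abs_nonneg _)
      (ann_subset hC hz).2 ha hb hab
  -- integrability on the annulus
  have hI1 : Integrable (fun z => psum S (fun z a b A B => wth (fderiv ℝ η z) a b A B) z) := by
    refine integrable_of_ann hC ho (h6 μ β κ L hB c R k S e hK _ (wth_cont hdη)) fun z hz => ?_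
    refine psum_eq_zero fun a b A B => ?_
    rw [fderiv_eq_zero hC hz, wth_zero]
  have hI2 : Integrable
      (fun z => psum S (fun z a b A B => pv a b * wth (fderiv ℝ η z) a b A B) z) := by
    refine integrable_of_ann hC ho
      (h6 μ β κ L hB c R k S e hK _ (pv_cont.mul (wth_cont hdη))) fun z hz => ?_
    refine psum_eq_zero fun a b A B => ?_
    rw [fderiv_eq_zero hC hz, wth_zero, mul_zero]
  -- the second identity
  refine ⟨m, hm, ?_⟩
  intro n hn
  have hn0 : 0 < n := lt_of_lt_of_le one_pos ((le_max_right _ _).trans hn)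
  have hnm : m ≤ n := (le_max_left _ _).trans hn
  obtain ⟨i1, -, i3⟩ := hS μ β κ L hB c R k S e hK hD (prim χ n) (2 * n) (prim_contDiff hχ n)
    (fun t ht => prim_zero hχ hn0 ht) η hη1 hcs hsup
  rw [prim_deriv hχ] at i1 i3
  beta_reduce at i1 i3
  refine ⟨i1, ?_⟩
  rw [i3]
  have h7 : ∀ z, psum S (fun z a b A B => prim χ n (pv a b) * wth (fderiv ℝ η z) a b A B) z =
      psum S (fun z a b A B => pv a b * wth (fderiv ℝ η z) a b A B) z
        - (n * ∫ t in (0:ℝ)..2, χ t) *
          psum S (fun z a b A B => wth (fderiv ℝ η z) a b A B) z := by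
    intro z
    rw [← psum_mul, ← psum_sub]
    refine psum_congr fun _ a ha b hb hab => ?_
    by_cases hz : z ∈ ann c R₁ R₂
    · rw [prim_eq hχ hn0 ((hm z hz a ha b hb hab).trans hnm)]
      ring
    · simp only [fderiv_eq_zero hC hz, wth_zero]
      ring
  rw [integral_congr_ae (Eventually.of_forall h7), integral_sub hI2 (hI1.const_mul _),
    integral_const_mul]
  unfold flux
  ring

/-- **LOC-9b.** -/
theorem flux_of (hS : STAR) (h1 : SEL) (h4 : JALG) (h6 : PSC) : FLUX := by
  intro χ hχ μ β κ L hB c R k S e hK hD R₁ R₂ η hC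
  obtain ⟨m, hm, key2⟩ := energy hS h1 h6 hχ hB hK hD hC
  obtain ⟨ho, hsel⟩ := h1 μ β κ L hB c R k S e hK
  have hη1 : ContDiff ℝ 1 η := hC.smooth.of_le (by exact_mod_cast le_top)
  have hdη : Continuous (fderiv ℝ η) := hη1.continuous_fderiv one_ne_zero
  have hsup : tsupport η ⊆ ball c R :=
    (tsupport_subset hC).trans (closedBall_subset_ball hC.lt')
  have hcs := hasCompactSupport hC
  refine ⟨⟨max m 1, fun n hn => ?_⟩, ⟨max m 1,
    |∫ z, psum S (fun z a b A B => pv a b * wth (fderiv ℝ η z) a b A B) z|, fun n hn => ?_⟩, ?_⟩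
  · -- first identity
    have hn0 : 0 < n := lt_of_lt_of_le one_pos ((le_max_right _ _).trans hn)
    have hnm : m ≤ n := (le_max_left _ _).trans hn
    have hφ : ContDiff ℝ 1 fun t : ℝ => χ (t / n) :=
      (hχ.smooth.comp (contDiff_id.div_const n)).of_le (by exact_mod_cast le_top)
    obtain ⟨-, -, i3⟩ := hS μ β κ L hB c R k S e hK hD (fun t => χ (t / n)) (2 * n) hφ
      (fun t ht => hχ.zero _ (by rw [le_div_iff₀ hn0]; exact ht)) η hη1 hcs hsup
    have hd : deriv (fun t : ℝ => χ (t / n)) = fun t => deriv χ (t / n) / n := by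
      funext t
      have h8 : HasDerivAt χ (deriv χ (t / n)) (t / n) :=
        (hχ.smooth.differentiable (by simp) _).hasDerivAt
      have h9 : HasDerivAt (fun t : ℝ => t / n) (1 / n) t := (hasDerivAt_id t).div_const n
      have h10 := h8.comp t h9
      rw [mul_one_div] at h10
      exact h10.deriv
    rw [hd] at i3
    have h7 : ∀ z, η z * psum S (fun _ a b A B => (- deriv χ (pv a b / n) / n) * pJ a b A B) z =
        - (η z * psum S (fun _ a b A B => (deriv χ (pv a b / n) / n) * pJ a b A B) z) := by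
      intro z
      rw [← mul_neg, ← psum_neg]
      congr 2
      funext z a b A B
      ring
    rw [integral_congr_ae (Eventually.of_forall h7), integral_neg, i3]
    unfold flux
    congr 1
    refine integral_congr_ae (Eventually.of_forall fun z => ?_)
    refine psum_congr fun _ a ha b hb hab => ?_
    by_cases hz : z ∈ ann c R₁ R₂
    · have h11 : pv a b / n ≤ 1 := by
        rw [div_le_one hn0]
        exact (hm z hz a ha b hb hab).trans hnm
      rw [hχ.one _ h11, one_mul]
    · simp only [fderiv_eq_zero hC hz, wth_zero, mul_zero]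
  · -- second identity: NB the integral sign of `FLUX` extends over the subtracted constant
    have hn0 : 0 < n := lt_of_lt_of_le one_pos ((le_max_right _ _).trans hn)
    by_cases hfl : flux S η = 0
    · have h33 := (key2 n hn).2
      rw [hfl, mul_zero, sub_zero] at h33
      simp only [hfl, mul_zero, sub_zero]
      rw [h33]
    · have h34 : ¬ Integrable (fun z => η z *
          psum S (fun _ a b A B => χ (pv a b / n) * pJ a b A B) z
          - n * (∫ t in (0:ℝ)..2, χ t) * flux S η) := by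
        intro h35
        have h36 := (key2 n hn).1.sub h35
        have h37 : Integrable (fun _ : ℂ => n * (∫ t in (0:ℝ)..2, χ t) * flux S η) := by
          refine h36.congr (Eventually.of_forall fun z => ?_)
          simp
        rw [integrable_const_iff] at h37
        rcases h37 with h38 | h38
        · have h39 : 0 < ∫ t in (0:ℝ)..2, χ t := lt_of_lt_of_le one_pos (chi_integral hχ)
          exact mul_ne_zero (mul_ne_zero hn0.ne' h39.ne') hfl h38
        · have h40 : (volume : Measure ℂ) univ = ⊤ :=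
            measure_univ_of_isAddLeftInvariant _
          exact (measure_ne_top (volume : Measure ℂ) univ) h40
      rw [integral_undef h34, abs_zero]
      exact abs_nonneg _
  · -- positivity
    obtain ⟨c₀, C₀, hc₀, hC₀, hJ⟩ := h4 κ L hB.κ0 hB.κ1 hB.L0
    -- the slopes
    have hsl : ∀ z ∈ Usimp c R S, ∀ a ∈ S z,
        lzb (slope S z a) = μ (z, a) * lz (slope S z a) - β (z, a) ∧
        ‖slope S z a‖ ^ 2 ≤ e z := by
      intro z hz a ha
      obtain ⟨r, w, hr, hsub, hsh, -, -, hmap, hslope⟩ := hsel z hz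
      have hzr : z ∈ ball z r := mem_ball_self hr
      rw [hmap z hzr] at ha
      obtain ⟨i, -, rfl⟩ := Multiset.mem_map.1 ha
      have hsub' : ball z r ⊆ ball c R := hsub.trans fun y hy => hy.1
      have h12 := hslope z hzr i
      rw [h12]
      exact ⟨hK.pde _ _ hsub' (hsh i) z hzr, hK.ebd _ _ hsub' (hsh i) z hzr⟩
    let g : ℂ → ℝ := (ball c R).indicator fun z => - (C₀ * (1 + e z) * (k : ℝ) ^ 2)
    have hg : Integrable g := by
      rw [integrable_indicator_iff measurableSet_ball]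
      refine Integrable.neg (Integrable.mul_const (Integrable.const_mul ?_ _) _)
      exact Integrable.add (integrableOn_const (by
        exact measure_ball_lt_top.ne)) hK.eint
    have hlow : ∀ n : ℝ, max m 1 ≤ n →
        ∫ z, g z ≤ ∫ z, η z * psum S (fun _ a b A B => χ (pv a b / n) * pJ a b A B) z := by
      intro n hn
      refine integral_mono hg (key2 n hn).1 fun z => ?_
      by_cases hz : z ∈ ball c R
      · have hgz : g z = - (C₀ * (1 + e z) * (k : ℝ) ^ 2) := indicator_of_mem hz _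
        rw [hgz]
        have hCe : 0 ≤ C₀ * (1 + e z) := mul_nonneg hC₀ (by linarith [hK.e0 z])
        have h13 : - (C₀ * (1 + e z) * (k : ℝ) ^ 2) ≤
            psum S (fun _ a b A B => χ (pv a b / n) * pJ a b A B) z := by
          refine psum_ge hCe (hK.card z hz) fun hN a ha b hb hab => ?_
          have h14 := hsl z ⟨hz, hN⟩ a ha
          have h15 := hsl z ⟨hz, hN⟩ b hb
          have h16 := (hJ μ β hB z a b _ _ hab h14.1 h15.1).1
          have h17 : - (C₀ * (1 + e z)) ≤ pJ a b (slope S z a) (slope S z b) := by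
            have h18 : C₀ * (1 + ‖slope S z b‖ ^ 2) ≤ C₀ * (1 + e z) :=
              mul_le_mul_of_nonneg_left (by linarith [h15.2]) hC₀
            have h19 : 0 ≤ c₀ * ‖pdL a b (slope S z a) (slope S z b)‖ ^ 2 := by positivity
            linarith
          have h20 := chi_nonneg hχ (pv a b / n)
          have h21 := chi_le_one hχ (pv a b / n)
          rcases le_total 0 (pJ a b (slope S z a) (slope S z b)) with h22 | h22
          · have : 0 ≤ χ (pv a b / n) * pJ a b (slope S z a) (slope S z b) := mul_nonneg h20 h22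
            linarith
          · nlinarith
        have h23 := hC.nonneg z
        have h24 := hC.le_one z
        have h25 : 0 ≤ C₀ * (1 + e z) * (k : ℝ) ^ 2 := mul_nonneg hCe (sq_nonneg _)
        rcases le_total 0 (psum S (fun _ a b A B => χ (pv a b / n) * pJ a b A B) z) with h26 | h26
        · have : 0 ≤ η z * psum S (fun _ a b A B => χ (pv a b / n) * pJ a b A B) z :=
            mul_nonneg h23 h26
          linarith
        · nlinarith
      · have hgz : g z = 0 := indicator_of_notMem hz _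
        have hez : η z = 0 := hC.zero z fun h' => hz (ball_subset_ball hC.lt'.le h')
        rw [hgz, hez, zero_mul]
    -- let `n → ∞`
    by_contra hneg
    rw [not_le] at hneg
    set C2 := ∫ z, g z
    set C1 := ∫ z, psum S (fun z a b A B => pv a b * wth (fderiv ℝ η z) a b A B) z
    have hmain : ∀ n : ℝ, max m 1 ≤ n → C2 - C1 ≤ n * flux S η := by
      intro n hn
      have h27 := hlow n hn
      have h28 := (key2 n hn).2
      have hn0 : 0 < n := lt_of_lt_of_le one_pos ((le_max_right _ _).trans hn)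
      have h29 := chi_integral hχ
      have h30 : n * (∫ t in (0:ℝ)..2, χ t) * flux S η ≤ n * flux S η := by
        have : n * 1 ≤ n * ∫ t in (0:ℝ)..2, χ t := mul_le_mul_of_nonneg_left h29 hn0.le
        nlinarith
      linarith
    obtain ⟨n, hn⟩ : ∃ n : ℝ, max m 1 ≤ n ∧ n * flux S η < C2 - C1 := by
      refine ⟨max (max m 1) ((C2 - C1 - 1) / flux S η), le_max_left _ _, ?_⟩
      have h31 : (C2 - C1 - 1) / flux S η ≤ max (max m 1) ((C2 - C1 - 1) / flux S η) :=
        le_max_right _ _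
      have h32 : max (max m 1) ((C2 - C1 - 1) / flux S η) * flux S η ≤
          (C2 - C1 - 1) / flux S η * flux S η := mul_le_mul_of_nonpos_right h31 hneg.le
      rw [div_mul_cancel₀ _ hneg.ne] at h32
      linarith
    exact absurd (hmain n hn.1) (not_le.2 hn.2)

end

end Crest.Agent.R235.LocFlux
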