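import Crest.Agent.R235.LocDef_607

/-!
Row 235 (S0364), REG-LOC 7 (LOGV): the energy of `log v` is finite.
Truncation: `w n t = (1/t² - 1/n²)₊`, `φ n t = ∫_t^n w n = (n-t)₊²/(n² t)` for `t ≥ 1`, so
`φ² ≤ w ≤ 1/t²`, and `STAR` with the cut-off `η²` gives a bound of `∫ η² psum (w |dL|²)` which
does not depend on `n`.
-/

set_option autoImplicit false

open MeasureTheory Metric Set Filter Complex
open scoped ContDiff Topology

namespace Crest.Agent.R235.LocLogv_800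

open Crest.Agent.R235.Loc

noncomputable section

/-- the truncated weight. -/
def wt (n t : ℝ) : ℝ := max 0 (1 / (max t 1) ^ 2 - 1 / n ^ 2)

/-- its primitive. -/
def ph (n t : ℝ) : ℝ := ∫ s in t..n, wt n s

lemma max_pos (t : ℝ) : 0 < max t 1 := lt_of_lt_of_le one_pos (le_max_right _ _)

lemma continuous_inv_max : Continuous fun t : ℝ => 1 / (max t 1) ^ 2 := by
  refine continuous_const.div ((continuous_id.max continuous_const).pow 2) fun t => ?_
  exact (pow_pos (max_pos t) 2).ne'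

lemma wt_continuous (n : ℝ) : Continuous (wt n) :=
  continuous_const.max (continuous_inv_max.sub continuous_const)

lemma wt_nonneg (n t : ℝ) : 0 ≤ wt n t := le_max_left _ _

lemma wt_le (n t : ℝ) : wt n t ≤ 1 / (max t 1) ^ 2 := by
  refine max_le (by positivity) ?_
  have : 0 ≤ 1 / n ^ 2 := by positivity
  linarith

lemma inv_max_le_one (t : ℝ) : 1 / (max t 1) ^ 2 ≤ 1 := by
  have h : 1 ≤ max t 1 := le_max_right _ _
  rw [div_le_one (by positivity)]
  nlinarith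

lemma wt_le_one (n t : ℝ) : wt n t ≤ 1 := (wt_le n t).trans (inv_max_le_one t)

lemma wt_zero {n t : ℝ} (hn : 1 ≤ n) (h : n ≤ t) : wt n t = 0 := by
  have h1 : max t 1 = t := max_eq_left (hn.trans h)
  unfold wt
  rw [h1]
  refine max_eq_left ?_
  have : 1 / t ^ 2 ≤ 1 / n ^ 2 := by
    apply one_div_le_one_div_of_le (by positivity)
    exact pow_le_pow_left₀ (by linarith) h 2
  linarith

lemma hasDerivAt_ph (n t : ℝ) : HasDerivAt (ph n) (-(wt n t)) t := by
  have : ph n = fun t => -(∫ s in n..t, wt n s) := by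
    funext t
    unfold ph
    rw [intervalIntegral.integral_symm]
  rw [this]
  exact ((wt_continuous n).integral_hasStrictDerivAt n t).hasDerivAt.neg

lemma deriv_ph (n : ℝ) : deriv (ph n) = fun t => -(wt n t) := by
  funext t
  exact (hasDerivAt_ph n t).deriv

lemma contDiff_ph (n : ℝ) : ContDiff ℝ 1 (ph n) := by
  rw [contDiff_one_iff_deriv]
  refine ⟨fun t => (hasDerivAt_ph n t).differentiableAt, ?_⟩
  rw [deriv_ph]
  exact (wt_continuous n).neg

lemma ph_zero {n : ℝ} (hn : 1 ≤ n) (t : ℝ) (h : n ≤ t) : ph n t = 0 := by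
  unfold ph
  rw [intervalIntegral.integral_symm, neg_eq_zero]
  have : ∀ s ∈ uIcc n t, wt n s = (fun _ => (0 : ℝ)) s := by
    intro s hs
    rw [uIcc_of_le h] at hs
    exact wt_zero hn hs.1
  rw [intervalIntegral.integral_congr this]
  simp

lemma ph_formula {n t : ℝ} (ht : 1 ≤ t) (h : t ≤ n) : ph n t = (n - t) ^ 2 / (n ^ 2 * t) := by
  have hn0 : 0 < n := by linarith
  have ht0 : 0 < t := by linarith
  unfold ph
  have h1 : ∀ s ∈ uIcc t n, wt n s = (fun s => 1 / s ^ 2 - 1 / n ^ 2) s := by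
    intro s hs
    rw [uIcc_of_le h] at hs
    have hs1 : 1 ≤ s := ht.trans hs.1
    have : max s 1 = s := max_eq_left hs1
    simp only [wt, this]
    refine max_eq_right ?_
    have : 1 / n ^ 2 ≤ 1 / s ^ 2 := by
      apply one_div_le_one_div_of_le (by positivity)
      exact pow_le_pow_left₀ (by linarith) hs.2 2
    linarith
  rw [intervalIntegral.integral_congr h1]
  have hd : ∀ s ∈ uIcc t n, HasDerivAt (fun s : ℝ => -s⁻¹ - s / n ^ 2) (1 / s ^ 2 - 1 / n ^ 2) s := by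
    intro s hs
    rw [uIcc_of_le h] at hs
    have hs0 : s ≠ 0 := (lt_of_lt_of_le ht0 hs.1).ne'
    have h2 := (hasDerivAt_inv hs0).neg.sub ((hasDerivAt_id s).div_const (n ^ 2))
    have e : 1 / s ^ 2 - 1 / n ^ 2 = - -(s ^ 2)⁻¹ - 1 / n ^ 2 := by rw [neg_neg, one_div, one_div]
    rw [e]
    exact h2
  have hc : IntervalIntegrable (fun s : ℝ => 1 / s ^ 2 - 1 / n ^ 2) volume t n := by
    apply ContinuousOn.intervalIntegrable
    rw [uIcc_of_le h]
    intro s hs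
    have hs0 : s ≠ 0 := (lt_of_lt_of_le ht0 hs.1).ne'
    apply ContinuousAt.continuousWithinAt
    fun_prop (disch := exact pow_ne_zero 2 hs0)
  rw [intervalIntegral.integral_eq_sub_of_hasDerivAt hd hc]
  field_simp
  ring

lemma ph_nonneg {n t : ℝ} (hn : 1 ≤ n) (ht : 1 ≤ t) : 0 ≤ ph n t := by
  rcases le_total t n with h | h
  · rw [ph_formula ht h]
    have : 0 < t := by linarith
    positivity
  · rw [ph_zero hn t h]

lemma ph_sq_le {n t : ℝ} (hn : 1 ≤ n) (ht : 1 ≤ t) : ph n t ^ 2 ≤ wt n t := by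
  rcases le_total t n with h | h
  · rw [ph_formula ht h]
    have ht0 : 0 < t := by linarith
    have hn0 : 0 < n := by linarith
    have h1 : max t 1 = t := max_eq_left ht
    refine le_trans ?_ (le_max_right _ _)
    rw [h1]
    have e1 : 1 / t ^ 2 - 1 / n ^ 2 = (n ^ 2 * (n ^ 2 - t ^ 2)) / (n ^ 2 * t) ^ 2 := by
      field_simp
    rw [e1, div_pow]
    apply div_le_div_of_nonneg_right _ (by positivity)
    have h2 : 0 ≤ n - t := by linarith
    have h3 : (n - t) ^ 2 ≤ n ^ 2 := pow_le_pow_left₀ h2 (by linarith) 2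
    have h4 : (n - t) ^ 2 ≤ n ^ 2 - t ^ 2 := by nlinarith
    calc ((n - t) ^ 2) ^ 2 = (n - t) ^ 2 * (n - t) ^ 2 := by ring
      _ ≤ n ^ 2 * (n ^ 2 - t ^ 2) := mul_le_mul h3 h4 (by positivity) (by positivity)
  · rw [ph_zero hn t h]
    simpa using wt_nonneg n t

lemma wt_tendsto (t : ℝ) :
    Tendsto (fun m : ℕ => wt ((m : ℝ) + 1) t) atTop (𝓝 (1 / (max t 1) ^ 2)) := by
  have h1 : Tendsto (fun m : ℕ => 1 / ((m : ℝ) + 1) ^ 2) atTop (𝓝 0) := by
    have h := (tendsto_one_div_add_atTop_nhds_zero_nat (𝕜 := ℝ)).pow 2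
    simpa [div_pow] using h
  have h2 : Tendsto (fun m : ℕ => 1 / (max t 1) ^ 2 - 1 / ((m : ℝ) + 1) ^ 2) atTop
      (𝓝 (1 / (max t 1) ^ 2 - 0)) := tendsto_const_nhds.sub h1
  rw [sub_zero] at h2
  have h3 := (tendsto_const_nhds (x := (0 : ℝ)) (f := (atTop : Filter ℕ))).max h2
  have h4 : max 0 (1 / (max t 1) ^ 2) = 1 / (max t 1) ^ 2 := max_eq_right (by positivity)
  rw [h4] at h3
  exact h3

/-! ### pair sums -/

lemma psum_of_not {S : ℂ → Multiset ℂ} {G : ℂ → ℂ → ℂ → (ℂ →L[ℝ] ℂ) → (ℂ →L[ℝ] ℂ) → ℝ} {z : ℂ}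
    (h : ¬ (S z).Nodup) : psum S G z = 0 := by
  unfold psum
  rw [if_neg h]

lemma psum_neg {S : ℂ → Multiset ℂ} {G : ℂ → ℂ → ℂ → (ℂ →L[ℝ] ℂ) → (ℂ →L[ℝ] ℂ) → ℝ} {z : ℂ} :
    psum S (fun z a b A B => - G z a b A B) z = - psum S G z := by
  unfold psum
  split_ifs <;> simp

lemma psum_nonneg {S : ℂ → Multiset ℂ} {G : ℂ → ℂ → ℂ → (ℂ →L[ℝ] ℂ) → (ℂ →L[ℝ] ℂ) → ℝ} {z : ℂ}
    (h : ∀ a b A B, 0 ≤ G z a b A B) : 0 ≤ psum S G z := by
  unfold psum
  split_ifs
  · exact Finset.sum_nonneg fun q _ => h _ _ _ _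
  · exact le_rfl

lemma abs_wth_le (α : ℂ →L[ℝ] ℝ) (a b : ℂ) (A B : ℂ →L[ℝ] ℂ) :
    |wth α a b A B| ≤ 2 * ‖α‖ * ‖pdL a b A B‖ := by
  unfold wth
  have h1 : |α 1| ≤ ‖α‖ := by
    have := α.le_opNorm 1
    simpa using this
  have h2 : |α I| ≤ ‖α‖ := by
    have := α.le_opNorm I
    simpa using this
  have h3 : |(pdL a b A B I).im| ≤ ‖pdL a b A B‖ := by
    refine (Complex.abs_im_le_norm _).trans ?_
    have := (pdL a b A B).le_opNorm I
    simpa using this
  have h4 : |(pdL a b A B 1).im| ≤ ‖pdL a b A B‖ := by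
    refine (Complex.abs_im_le_norm _).trans ?_
    have := (pdL a b A B).le_opNorm 1
    simpa using this
  calc |α 1 * (pdL a b A B I).im - α I * (pdL a b A B 1).im|
      ≤ |α 1 * (pdL a b A B I).im| + |α I * (pdL a b A B 1).im| := abs_sub _ _
    _ = |α 1| * |(pdL a b A B I).im| + |α I| * |(pdL a b A B 1).im| := by rw [abs_mul, abs_mul]
    _ ≤ ‖α‖ * ‖pdL a b A B‖ + ‖α‖ * ‖pdL a b A B‖ := by gcongr
    _ = 2 * ‖α‖ * ‖pdL a b A B‖ := by ring

lemma wth_smul (t : ℝ) (α : ℂ →L[ℝ] ℝ) (a b : ℂ) (A B : ℂ →L[ℝ] ℂ) :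
    wth (t • α) a b A B = t * wth α a b A B := by
  unfold wth
  simp only [smul_apply, smul_eq_mul]
  ring

/-- the data of a simple point. -/
lemma slopes (h1 : SEL) {μ β : ℂ × ℂ → ℂ} {κ L : ℝ} (hB : BoxD μ β κ L) {c : ℂ} {R : ℝ} {k : ℕ}
    {S : ℂ → Multiset ℂ} {e : ℂ → ℝ} (hS : KG μ β c R k S e) {z : ℂ} (hz : z ∈ Usimp c R S)
    {a : ℂ} (ha : a ∈ S z) :
    lzb (slope S z a) = μ (z, a) * lz (slope S z a) - β (z, a) ∧ ‖slope S z a‖ ^ 2 ≤ e z := by
  obtain ⟨_, hloc⟩ := h1 μ β κ L hB c R k S e hS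
  obtain ⟨r, w, hr, hball, hsheet, _, _, hmap, hslope⟩ := hloc z hz
  have hzr : z ∈ ball z r := mem_ball_self hr
  have hsub : ball z r ⊆ ball c R := fun x hx => (hball hx).1
  rw [hmap z hzr, Multiset.mem_map] at ha
  obtain ⟨i, _, hi⟩ := ha
  rw [← hi, hslope z hzr i]
  exact ⟨hS.pde _ _ hsub (hsheet i) z hzr, hS.ebd _ _ hsub (hsheet i) z hzr⟩

lemma card_offDiag_le {s : Multiset ℂ} {k : ℕ} (h : s.card = k) :
    (s.toFinset.offDiag.card : ℝ) ≤ (k : ℝ) ^ 2 := by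
  have h1 : s.toFinset.card ≤ k := h ▸ Multiset.toFinset_card_le s
  have h2 : s.toFinset.offDiag.card ≤ k * k := by
    rw [Finset.offDiag_card]
    exact (Nat.sub_le _ _).trans (Nat.mul_le_mul h1 h1)
  calc (s.toFinset.offDiag.card : ℝ) ≤ ((k * k : ℕ) : ℝ) := by exact_mod_cast h2
    _ = (k : ℝ) ^ 2 := by push_cast; ring

lemma one_le_pv {a b : ℂ} (hab : a ≠ b) (h : ‖a - b‖ ≤ Real.exp (-1)) : 1 ≤ pv a b := by
  unfold pv
  have h0 : 0 < ‖a - b‖ := norm_pos_iff.2 (sub_ne_zero.2 hab)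
  have := (Real.log_le_iff_le_exp h0).2 h
  linarith

/-- pointwise inequality (a). -/
lemma ineqA (h1 : SEL) {μ β : ℂ × ℂ → ℂ} {κ L : ℝ} (hB : BoxD μ β κ L) {c : ℂ} {R : ℝ} {k : ℕ}
    {S : ℂ → Multiset ℂ} {e : ℂ → ℝ} (hS : KG μ β c R k S e) {c₀ C₀ : ℝ} (hC₀ : 0 ≤ C₀)
    (hJ : ∀ (z a b : ℂ) (A B : ℂ →L[ℝ] ℂ), a ≠ b →
      lzb A = μ (z, a) * lz A - β (z, a) → lzb B = μ (z, b) * lz B - β (z, b) →
      c₀ * ‖pdL a b A B‖ ^ 2 - C₀ * (1 + ‖B‖ ^ 2) ≤ pJ a b A B)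
    {z : ℂ} (hz : z ∈ Usimp c R S) (n : ℝ) :
    c₀ * psum S (fun _ a b A B => wt n (pv a b) * ‖pdL a b A B‖ ^ 2) z ≤
      psum S (fun _ a b A B => wt n (pv a b) * pJ a b A B) z + C₀ * ((k : ℝ) ^ 2 * (1 + e z)) := by
  classical
  have hN := hz.2
  have he : 0 ≤ e z := hS.e0 z
  unfold psum
  rw [if_pos hN, if_pos hN, Finset.mul_sum]
  have hc : C₀ * ((S z).toFinset.offDiag.card * (1 + e z)) ≤ C₀ * ((k : ℝ) ^ 2 * (1 + e z)) := by
    have := card_offDiag_le (hS.card z hz.1)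
    gcongr
  refine le_trans ?_ (add_le_add le_rfl hc)
  have e1 : C₀ * ((S z).toFinset.offDiag.card * (1 + e z)) =
      ∑ _q ∈ (S z).toFinset.offDiag, C₀ * (1 + e z) := by
    rw [Finset.sum_const, nsmul_eq_mul]
    ring
  rw [e1, ← Finset.sum_add_distrib]
  refine Finset.sum_le_sum fun q hq => ?_
  rw [Finset.mem_offDiag] at hq
  obtain ⟨hq1, hq2, hq3⟩ := hq
  obtain ⟨hA1, hA2⟩ := slopes h1 hB hS hz (Multiset.mem_toFinset.1 hq1)
  obtain ⟨hB1, hB2⟩ := slopes h1 hB hS hz (Multiset.mem_toFinset.1 hq2)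
  have hj := hJ z q.1 q.2 _ _ hq3 hA1 hB1
  have hw := wt_nonneg n (pv q.1 q.2)
  have hw1 := wt_le_one n (pv q.1 q.2)
  have h3 : wt n (pv q.1 q.2) * (c₀ * ‖pdL q.1 q.2 (slope S z q.1) (slope S z q.2)‖ ^ 2 -
      C₀ * (1 + ‖slope S z q.2‖ ^ 2)) ≤
      wt n (pv q.1 q.2) * pJ q.1 q.2 (slope S z q.1) (slope S z q.2) :=
    mul_le_mul_of_nonneg_left hj hw
  have h4 : wt n (pv q.1 q.2) * (C₀ * (1 + ‖slope S z q.2‖ ^ 2)) ≤ 1 * (C₀ * (1 + e z)) := by
    apply mul_le_mul hw1 _ (by positivity) one_pos.le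
    gcongr
  nlinarith [h3, h4]

/-- pointwise inequality (b). -/
lemma ineqB {c : ℂ} {R : ℝ} {k : ℕ} {S : ℂ → Multiset ℂ} (hcard : ∀ z ∈ ball c R, (S z).card = k)
    (hsm : ∀ z ∈ ball c R, ∀ a ∈ S z, ∀ b ∈ S z, ‖a - b‖ ≤ Real.exp (-1))
    {c₀ : ℝ} (hc₀ : 0 < c₀) {z : ℂ} (hz : z ∈ Usimp c R S) {n : ℝ} (hn : 1 ≤ n) (t : ℝ)
    (α : ℂ →L[ℝ] ℝ) :
    - psum S (fun _ a b A B => ph n (pv a b) * wth ((2 * t) • α) a b A B) z ≤
      c₀ / 2 * (t ^ 2 * psum S (fun _ a b A B => wt n (pv a b) * ‖pdL a b A B‖ ^ 2) z) +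
        8 / c₀ * ((k : ℝ) ^ 2 * ‖α‖ ^ 2) := by
  classical
  have hN := hz.2
  unfold psum
  rw [if_pos hN, if_pos hN, ← Finset.sum_neg_distrib, Finset.mul_sum, Finset.mul_sum]
  have hc : 8 / c₀ * ((S z).toFinset.offDiag.card * ‖α‖ ^ 2) ≤ 8 / c₀ * ((k : ℝ) ^ 2 * ‖α‖ ^ 2) := by
    have := card_offDiag_le (hcard z hz.1)
    gcongr
  refine le_trans ?_ (add_le_add le_rfl hc)
  have e1 : 8 / c₀ * ((S z).toFinset.offDiag.card * ‖α‖ ^ 2) =
      ∑ _q ∈ (S z).toFinset.offDiag, 8 / c₀ * ‖α‖ ^ 2 := by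
    rw [Finset.sum_const, nsmul_eq_mul]
    ring
  rw [e1, ← Finset.sum_add_distrib]
  refine Finset.sum_le_sum fun q hq => ?_
  rw [Finset.mem_offDiag] at hq
  obtain ⟨hq1, hq2, hq3⟩ := hq
  beta_reduce
  have hv : 1 ≤ pv q.1 q.2 := one_le_pv hq3
    (hsm z hz.1 _ (Multiset.mem_toFinset.1 hq1) _ (Multiset.mem_toFinset.1 hq2))
  set X := ‖pdL q.1 q.2 (slope S z q.1) (slope S z q.2)‖ with hX
  have hX0 : 0 ≤ X := norm_nonneg _
  have hp0 := ph_nonneg hn hv
  have hp2 := ph_sq_le hn hv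
  set p := ph n (pv q.1 q.2) with hp
  set w := wt n (pv q.1 q.2) with hw
  have hwth := abs_wth_le α q.1 q.2 (slope S z q.1) (slope S z q.2)
  rw [wth_smul]
  have h1 : -(p * (2 * t * wth α q.1 q.2 (slope S z q.1) (slope S z q.2))) ≤
      4 * (|t| * p * X) * ‖α‖ := by
    have h2 : -(p * (2 * t * wth α q.1 q.2 (slope S z q.1) (slope S z q.2))) ≤
        |p * (2 * t * wth α q.1 q.2 (slope S z q.1) (slope S z q.2))| := neg_le_abs _
    refine h2.trans ?_
    rw [abs_mul, abs_mul, abs_mul, abs_of_nonneg hp0, abs_two]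
    calc p * (2 * |t| * |wth α q.1 q.2 (slope S z q.1) (slope S z q.2)|)
        ≤ p * (2 * |t| * (2 * ‖α‖ * X)) := by gcongr
      _ = 4 * (|t| * p * X) * ‖α‖ := by ring
  refine h1.trans ?_
  have h3 : (|t| * p * X) ^ 2 ≤ t ^ 2 * (w * X ^ 2) := by
    have : (|t| * p * X) ^ 2 = t ^ 2 * (p ^ 2 * X ^ 2) := by
      rw [mul_pow, mul_pow, sq_abs]
      ring
    rw [this]
    gcongr
  have h4 : 4 * (|t| * p * X) * ‖α‖ ≤ c₀ / 2 * (|t| * p * X) ^ 2 + 8 / c₀ * ‖α‖ ^ 2 := by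
    have h5 : 0 ≤ (c₀ / 2) * ((|t| * p * X) - 4 / c₀ * ‖α‖) ^ 2 := by positivity
    have h6 : (c₀ / 2) * ((|t| * p * X) - 4 / c₀ * ‖α‖) ^ 2 =
        c₀ / 2 * (|t| * p * X) ^ 2 - 4 * (|t| * p * X) * ‖α‖ + 8 / c₀ * ‖α‖ ^ 2 := by
      field_simp
      ring
    linarith
  refine h4.trans ?_
  have h7 : c₀ / 2 * (|t| * p * X) ^ 2 ≤ c₀ / 2 * (t ^ 2 * (w * X ^ 2)) :=
    mul_le_mul_of_nonneg_left h3 (by positivity)
  linarith

lemma fderiv_sq {η : ℂ → ℝ} (hη : ContDiff ℝ 1 η) (z : ℂ) :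
    fderiv ℝ (fun z => η z ^ 2) z = (2 * η z) • fderiv ℝ η z := by
  have h := (hη.differentiable (by norm_num) z).hasFDerivAt.pow 2
  rw [h.fderiv]
  simp

lemma continuousOn_term (f : ℝ → ℝ) (hf : Continuous f) (c : ℂ) (R : ℝ) :
    ContinuousOn (fun q : ℂ × ℂ × ℂ × (ℂ →L[ℝ] ℂ) × (ℂ →L[ℝ] ℂ) =>
      f (pv q.2.1 q.2.2.1) * ‖pdL q.2.1 q.2.2.1 q.2.2.2.1 q.2.2.2.2‖ ^ 2)
      {q | q.1 ∈ ball c R ∧ q.2.1 ≠ q.2.2.1} := by
  intro q hq
  apply ContinuousAt.continuousWithinAt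
  have h0 : q.2.1 - q.2.2.1 ≠ 0 := sub_ne_zero.2 hq.2
  have h1 : ContinuousAt (fun q : ℂ × ℂ × ℂ × (ℂ →L[ℝ] ℂ) × (ℂ →L[ℝ] ℂ) => q.2.1 - q.2.2.1) q := by
    fun_prop
  have h2 : ContinuousAt (fun q : ℂ × ℂ × ℂ × (ℂ →L[ℝ] ℂ) × (ℂ →L[ℝ] ℂ) =>
      pv q.2.1 q.2.2.1) q := by
    unfold pv
    exact (h1.norm.log (norm_ne_zero_iff.2 h0)).neg
  have h3 : ContinuousAt (fun q : ℂ × ℂ × ℂ × (ℂ →L[ℝ] ℂ) × (ℂ →L[ℝ] ℂ) =>
      pdL q.2.1 q.2.2.1 q.2.2.2.1 q.2.2.2.2) q := by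
    unfold pdL
    refine (h1.inv₀ h0).smul ?_
    fun_prop
  exact (hf.continuousAt.comp h2).mul (h3.norm.pow 2)

theorem logv_of (h : STAR) (h4 : JALG) (h6 : PSC) (h1 : SEL) : LOGV := by
  classical
  intro μ β κ L hB c R k S e hS hD hsm R' hR'
  rcases le_or_gt R' 0 with hR0 | hR0
  · rw [ball_eq_empty.2 hR0]
    exact integrableOn_empty
  obtain ⟨c₀, C₀, hc₀, hC₀, hJ'⟩ := h4 κ L hB.κ0 hB.κ1 hB.L0
  have hJ : ∀ (z a b : ℂ) (A B : ℂ →L[ℝ] ℂ), a ≠ b →
      lzb A = μ (z, a) * lz A - β (z, a) → lzb B = μ (z, b) * lz B - β (z, b) →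
      c₀ * ‖pdL a b A B‖ ^ 2 - C₀ * (1 + ‖B‖ ^ 2) ≤ pJ a b A B :=
    fun z a b A B hab hA hBB => (hJ' μ β hB z a b A B hab hA hBB).1
  -- the cut-off
  obtain ⟨η, hη, hη0, hη1, hηc, hηs, hηone⟩ : ∃ η : ℂ → ℝ, ContDiff ℝ 1 η ∧ (∀ z, 0 ≤ η z) ∧
      (∀ z, η z ≤ 1) ∧ HasCompactSupport η ∧ tsupport η ⊆ ball c R ∧
      (∀ z ∈ ball c R', η z = 1) := by
    let bmp : ContDiffBump c := ⟨R', (R' + R) / 2, hR0, by linarith⟩
    refine ⟨bmp, bmp.contDiff, fun z => bmp.nonneg, fun z => bmp.le_one, bmp.hasCompactSupport,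
      ?_, fun z hz => bmp.one_of_mem_closedBall (ball_subset_closedBall hz)⟩
    rw [bmp.tsupport_eq]
    exact closedBall_subset_ball (show (R' + R) / 2 < R by linarith)
  have hηz : ∀ z ∉ ball c R, η z = 0 := fun z hz =>
    image_eq_zero_of_notMem_tsupport (fun h => hz (hηs h))
  obtain ⟨hopen, _⟩ := h1 μ β κ L hB c R k S e hS
  have hUm : MeasurableSet (Usimp c R S) := hopen.measurableSet
  have hmeas : ∀ f : ℝ → ℝ, Continuous f → AEStronglyMeasurable
      (fun z => η z ^ 2 * psum S (fun _ a b A B => f (pv a b) * ‖pdL a b A B‖ ^ 2) z) volume := by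
    intro f hf
    have hcont : ContinuousOn (fun z => η z ^ 2 *
        psum S (fun _ a b A B => f (pv a b) * ‖pdL a b A B‖ ^ 2) z) (Usimp c R S) :=
      (hη.continuous.pow 2).continuousOn.mul
        (h6 μ β κ L hB c R k S e hS (fun _ a b A B => f (pv a b) * ‖pdL a b A B‖ ^ 2)
          (continuousOn_term f hf c R))
    have e1 : (fun z => η z ^ 2 * psum S (fun _ a b A B => f (pv a b) * ‖pdL a b A B‖ ^ 2) z) =
        (Usimp c R S).indicator (fun z => η z ^ 2 *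
          psum S (fun _ a b A B => f (pv a b) * ‖pdL a b A B‖ ^ 2) z) := by
      funext z
      by_cases hz : z ∈ Usimp c R S
      · rw [indicator_of_mem hz]
      · rw [indicator_of_notMem hz]
        by_cases hz' : z ∈ ball c R
        · rw [psum_of_not (fun hN => hz ⟨hz', hN⟩), mul_zero]
        · rw [hηz z hz']
          simp
    rw [e1, aestronglyMeasurable_indicator_iff hUm]
    exact hcont.aestronglyMeasurable hUm
  -- the comparison functions
  set E : ℂ → ℝ := (ball c R).indicator (fun z => (k : ℝ) ^ 2 * (1 + e z)) with hE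
  have hEint : Integrable E volume := by
    rw [hE, integrable_indicator_iff measurableSet_ball]
    refine Integrable.const_mul ?_ _
    exact (integrableOn_const (measure_ball_lt_top).ne).add hS.eint
  have hE0 : ∀ z, 0 ≤ E z := by
    intro z
    rw [hE]
    refine indicator_nonneg (fun x _ => ?_) z
    have := hS.e0 x
    positivity
  set D : ℂ → ℝ := fun z => (k : ℝ) ^ 2 * ‖fderiv ℝ η z‖ ^ 2 with hDdef
  have hDint : Integrable D volume := by
    have hc1 : Continuous D := continuous_const.mul ((hη.continuous_fderiv one_ne_zero).norm.pow 2)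
    refine hc1.integrable_of_hasCompactSupport ?_
    have h2 : HasCompactSupport (fderiv ℝ η) := hηc.fderiv (𝕜 := ℝ)
    exact h2.comp_left (g := fun A : ℂ →L[ℝ] ℝ => (k : ℝ) ^ 2 * ‖A‖ ^ 2) (by simp)
  set M : ℝ := 2 / c₀ * (8 / c₀ * (∫ z, D z) + C₀ * ∫ z, E z) with hM
  -- the uniform bound
  have key : ∀ n : ℝ, 1 ≤ n →
      Integrable (fun z => η z ^ 2 *
        psum S (fun _ a b A B => wt n (pv a b) * ‖pdL a b A B‖ ^ 2) z) volume ∧
      ∫ z, η z ^ 2 * psum S (fun _ a b A B => wt n (pv a b) * ‖pdL a b A B‖ ^ 2) z ≤ M := by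
    intro n hn
    have hcs : HasCompactSupport (fun z => η z ^ 2) :=
      hηc.comp_left (g := fun x : ℝ => x ^ 2) (by simp)
    have hts : tsupport (fun z => η z ^ 2) ⊆ ball c R := by
      refine (closure_mono ?_).trans hηs
      intro z hz hz'
      exact hz (by simp only [hz']; norm_num)
    obtain ⟨hX, hY, hXY⟩ := h μ β κ L hB c R k S e hS hD (ph n) n (contDiff_ph n) (ph_zero hn)
      (fun z => η z ^ 2) (hη.pow 2) hcs hts
    set P : ℂ → ℝ := fun z => η z ^ 2 *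
        psum S (fun _ a b A B => wt n (pv a b) * ‖pdL a b A B‖ ^ 2) z with hP
    set X : ℂ → ℝ := fun z => η z ^ 2 *
      psum S (fun _ a b A B => deriv (ph n) (pv a b) * pJ a b A B) z with hXdef
    set Y : ℂ → ℝ := fun z => psum S (fun z a b A B => ph n (pv a b) *
      wth (fderiv ℝ (fun z => η z ^ 2) z) a b A B) z with hYdef
    have hP0 : ∀ z, 0 ≤ P z := fun z => mul_nonneg (sq_nonneg _)
      (psum_nonneg fun a b A B => mul_nonneg (wt_nonneg _ _) (sq_nonneg _))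
    have hXeq : ∀ z, X z = - (η z ^ 2 * psum S (fun _ a b A B => wt n (pv a b) * pJ a b A B) z) := by
      intro z
      rw [hXdef]
      simp only [deriv_ph]
      have : (fun (_ : ℂ) a b A B => -wt n (pv a b) * pJ a b A B) =
          fun (_ : ℂ) a b A B => -(wt n (pv a b) * pJ a b A B) := by
        funext _ a b A B
        ring
      rw [this, psum_neg (G := fun (_ : ℂ) a b A B => wt n (pv a b) * pJ a b A B)]
      ring
    have hA : ∀ z, c₀ * P z ≤ - X z + C₀ * E z := by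
      intro z
      by_cases hz : z ∈ Usimp c R S
      · have h2 := ineqA h1 hB hS hC₀ hJ hz n
        have h3 : E z = (k : ℝ) ^ 2 * (1 + e z) := by rw [hE, indicator_of_mem hz.1]
        rw [hXeq, h3, hP, neg_neg]
        have h4 := mul_le_mul_of_nonneg_left h2 (sq_nonneg (η z))
        have h5 : η z ^ 2 ≤ 1 := pow_le_one₀ (hη0 z) (hη1 z)
        have h6 : 0 ≤ C₀ * ((k : ℝ) ^ 2 * (1 + e z)) := by
          have := hS.e0 z
          positivity
        have h7 := mul_le_mul_of_nonneg_right h5 h6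
        simp only
        nlinarith [h4, h7]
      · have h2 : P z = 0 ∧ X z = 0 := by
          by_cases hz' : z ∈ ball c R
          · have hN : ¬ (S z).Nodup := fun hN => hz ⟨hz', hN⟩
            simp only [hP, hXdef]
            rw [psum_of_not hN, psum_of_not hN]
            simp
          · simp only [hP, hXdef]
            rw [hηz z hz']
            simp
        rw [h2.1, h2.2]
        have := mul_nonneg hC₀ (hE0 z)
        linarith
    have hBp : ∀ z, - Y z ≤ c₀ / 2 * P z + 8 / c₀ * D z := by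
      intro z
      have hD0 : 0 ≤ 8 / c₀ * D z := by rw [hDdef]; positivity
      have hPz := hP0 z
      by_cases hz : z ∈ Usimp c R S
      · have h2 := ineqB hS.card hsm hc₀ hz hn (η z) (fderiv ℝ η z)
        rw [← fderiv_sq hη z] at h2
        exact h2
      · have h2 : Y z = 0 := by
          by_cases hz' : z ∈ ball c R
          · exact psum_of_not (fun hN => hz ⟨hz', hN⟩)
          · simp only [hYdef]
            unfold psum
            simp only [fderiv_sq hη z, hηz z hz', wth_smul]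
            simp
        rw [h2]
        have : 0 ≤ c₀ / 2 * P z := by positivity
        linarith
    have hPm : AEStronglyMeasurable P volume := hmeas (wt n) (wt_continuous n)
    have hXn : Integrable (fun z => - X z) volume := hX.neg
    have hYn : Integrable (fun z => - Y z) volume := hY.neg
    have hint1 : Integrable (fun z => - X z + C₀ * E z) volume := hXn.add (hEint.const_mul C₀)
    have hPint : Integrable P volume := by
      refine Integrable.mono' (hint1.const_mul (1 / c₀)) hPm (Eventually.of_forall fun z => ?_)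
      rw [Real.norm_eq_abs, abs_of_nonneg (hP0 z)]
      have := hA z
      rw [one_div, ← div_eq_inv_mul, le_div_iff₀ hc₀]
      linarith
    refine ⟨hPint, ?_⟩
    have i1 : ∫ z, c₀ * P z ≤ ∫ z, (- X z + C₀ * E z) :=
      integral_mono (hPint.const_mul c₀) hint1 hA
    have i2 : ∫ z, - Y z ≤ ∫ z, (c₀ / 2 * P z + 8 / c₀ * D z) :=
      integral_mono hYn ((hPint.const_mul _).add (hDint.const_mul _)) hBp
    have i3 : ∫ z, (- X z + C₀ * E z) = - (∫ z, X z) + C₀ * ∫ z, E z := by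
      rw [integral_add hXn (hEint.const_mul C₀), integral_neg, integral_const_mul]
    have i4 : ∫ z, (c₀ / 2 * P z + 8 / c₀ * D z) = c₀ / 2 * (∫ z, P z) + 8 / c₀ * ∫ z, D z := by
      rw [integral_add (hPint.const_mul _) (hDint.const_mul _), integral_const_mul,
        integral_const_mul]
    rw [integral_const_mul, i3] at i1
    rw [integral_neg, i4] at i2
    have i5 : ∫ z, X z = ∫ z, Y z := hXY
    rw [i5] at i1
    have i6 : c₀ / 2 * (∫ z, P z) ≤ 8 / c₀ * (∫ z, D z) + C₀ * ∫ z, E z := by linarith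
    rw [hM]
    have i7 : ∫ z, P z = 2 / c₀ * (c₀ / 2 * ∫ z, P z) := by
      field_simp
    rw [i7]
    exact mul_le_mul_of_nonneg_left i6 (by positivity)
  -- the limit
  set Q : ℂ → ℝ := fun z => η z ^ 2 *
    psum S (fun _ a b A B => 1 / (max (pv a b) 1) ^ 2 * ‖pdL a b A B‖ ^ 2) z with hQ
  have hQm : AEStronglyMeasurable Q volume :=
    hmeas (fun t => 1 / (max t 1) ^ 2) continuous_inv_max
  have hQint : Integrable Q volume := by
    refine ⟨hQm, ?_⟩
    set Pn : ℕ → ℂ → ℝ := fun m z => η z ^ 2 *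
      psum S (fun _ a b A B => wt ((m : ℝ) + 1) (pv a b) * ‖pdL a b A B‖ ^ 2) z with hPn
    have hPn0 : ∀ m z, 0 ≤ Pn m z := fun m z => mul_nonneg (sq_nonneg _)
      (psum_nonneg fun a b A B => mul_nonneg (wt_nonneg _ _) (sq_nonneg _))
    have hlim : ∀ z, Tendsto (fun m => Pn m z) atTop (𝓝 (Q z)) := by
      intro z
      refine Tendsto.const_mul _ ?_
      unfold psum
      split_ifs
      · refine tendsto_finsetSum _ fun q _ => ?_
        exact (wt_tendsto _).mul_const _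
      · exact tendsto_const_nhds
    have hb : ∀ m, ∫⁻ z, ‖Pn m z‖ₑ ≤ ENNReal.ofReal M := by
      intro m
      have hk := key ((m : ℝ) + 1) (by have : (0 : ℝ) ≤ m := Nat.cast_nonneg m; linarith)
      have h2 : ∫⁻ z, ‖Pn m z‖ₑ = ENNReal.ofReal (∫ z, Pn m z) := by
        rw [ofReal_integral_eq_lintegral_ofReal hk.1 (Eventually.of_forall (hPn0 m))]
        refine lintegral_congr fun z => ?_
        rw [Real.enorm_eq_ofReal (hPn0 m z)]
      rw [h2]
      exact ENNReal.ofReal_le_ofReal hk.2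
    have h3 : ∫⁻ z, ‖Q z‖ₑ ≤ ENNReal.ofReal M := by
      have e1 : ∀ z, ‖Q z‖ₑ = liminf (fun m => ‖Pn m z‖ₑ) atTop := fun z =>
        ((hlim z).enorm.liminf_eq).symm
      calc ∫⁻ z, ‖Q z‖ₑ = ∫⁻ z, liminf (fun m => ‖Pn m z‖ₑ) atTop :=
            lintegral_congr e1
        _ ≤ liminf (fun m => ∫⁻ z, ‖Pn m z‖ₑ) atTop := by
            refine lintegral_liminf_le' fun m => ?_
            exact (hmeas _ (wt_continuous _)).enorm
        _ ≤ ENNReal.ofReal M := by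
            refine liminf_le_of_le (by isBoundedDefault) ?_
            intro b hbb
            obtain ⟨m, hm⟩ := hbb.exists
            exact hm.trans (hb m)
    exact lt_of_le_of_lt h3 ENNReal.ofReal_lt_top
  refine hQint.integrableOn.congr_fun (fun z hz => ?_) measurableSet_ball
  have hzR : z ∈ ball c R := ball_subset_ball hR'.le hz
  simp only [hQ]
  rw [hηone z hz, one_pow, one_mul]
  unfold psum
  split_ifs with hN
  · refine Finset.sum_congr rfl fun q hq => ?_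
    rw [Finset.mem_offDiag] at hq
    have hv : 1 ≤ pv q.1 q.2 := one_le_pv hq.2.2
      (hsm z hzR _ (Multiset.mem_toFinset.1 hq.1) _ (Multiset.mem_toFinset.1 hq.2.1))
    beta_reduce
    rw [max_eq_left hv]
    ring
  · rfl

end

end Crest.Agent.R235.LocLogv_800
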