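import Crest.Agent.R235.LocDef_607

/-!
Row 235 (S0364), PACKAGE REG, sub-block LOC, leaf 6 (helper792):
`PSC` : pair sums of continuous functions are continuous on the simple points, plus the elementary
calculus of `psum` (local formula, additivity, monotonicity, bounds, measurability).
-/

set_option autoImplicit false

open MeasureTheory Metric Set Filter Complex
open scoped ContDiff Topology

namespace Crest.Agent.R235.Loc.Psc792

noncomputable section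

/-! ### elementary calculus of `psum` -/

section elem

variable {S : ℂ → Multiset ℂ}

theorem psum_of_nodup {G : ℂ → ℂ → ℂ → (ℂ →L[ℝ] ℂ) → (ℂ →L[ℝ] ℂ) → ℝ} {z : ℂ}
    (h : (S z).Nodup) :
    psum S G z = ∑ q ∈ (S z).toFinset.offDiag,
      G z q.1 q.2 (slope S z q.1) (slope S z q.2) := by
  unfold psum
  rw [if_pos h]

theorem psum_of_not_nodup {G : ℂ → ℂ → ℂ → (ℂ →L[ℝ] ℂ) → (ℂ →L[ℝ] ℂ) → ℝ} {z : ℂ}
    (h : ¬ (S z).Nodup) : psum S G z = 0 := by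
  unfold psum
  rw [if_neg h]

theorem mem_offDiag_iff {z : ℂ} {q : ℂ × ℂ} :
    q ∈ (S z).toFinset.offDiag ↔ q.1 ∈ S z ∧ q.2 ∈ S z ∧ q.1 ≠ q.2 := by
  simp [Finset.mem_offDiag]

/-- pointwise congruence -/
theorem psum_congr {G H : ℂ → ℂ → ℂ → (ℂ →L[ℝ] ℂ) → (ℂ →L[ℝ] ℂ) → ℝ} {z : ℂ}
    (h : (S z).Nodup → ∀ a ∈ S z, ∀ b ∈ S z, a ≠ b →
      G z a b (slope S z a) (slope S z b) = H z a b (slope S z a) (slope S z b)) :
    psum S G z = psum S H z := by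
  by_cases hn : (S z).Nodup
  · rw [psum_of_nodup hn, psum_of_nodup hn]
    refine Finset.sum_congr rfl fun q hq => ?_
    obtain ⟨h1, h2, h3⟩ := mem_offDiag_iff.1 hq
    exact h hn _ h1 _ h2 h3
  · rw [psum_of_not_nodup hn, psum_of_not_nodup hn]

theorem psum_add {G H : ℂ → ℂ → ℂ → (ℂ →L[ℝ] ℂ) → (ℂ →L[ℝ] ℂ) → ℝ} {z : ℂ} :
    psum S (fun z a b A B => G z a b A B + H z a b A B) z = psum S G z + psum S H z := by
  by_cases hn : (S z).Nodup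
  · rw [psum_of_nodup hn, psum_of_nodup hn, psum_of_nodup hn, Finset.sum_add_distrib]
  · rw [psum_of_not_nodup hn, psum_of_not_nodup hn, psum_of_not_nodup hn, add_zero]

theorem psum_sub {G H : ℂ → ℂ → ℂ → (ℂ →L[ℝ] ℂ) → (ℂ →L[ℝ] ℂ) → ℝ} {z : ℂ} :
    psum S (fun z a b A B => G z a b A B - H z a b A B) z = psum S G z - psum S H z := by
  by_cases hn : (S z).Nodup
  · rw [psum_of_nodup hn, psum_of_nodup hn, psum_of_nodup hn, Finset.sum_sub_distrib]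
  · rw [psum_of_not_nodup hn, psum_of_not_nodup hn, psum_of_not_nodup hn, sub_zero]

theorem psum_neg {G : ℂ → ℂ → ℂ → (ℂ →L[ℝ] ℂ) → (ℂ →L[ℝ] ℂ) → ℝ} {z : ℂ} :
    psum S (fun z a b A B => - G z a b A B) z = - psum S G z := by
  by_cases hn : (S z).Nodup
  · rw [psum_of_nodup hn, psum_of_nodup hn, Finset.sum_neg_distrib]
  · rw [psum_of_not_nodup hn, psum_of_not_nodup hn, neg_zero]

theorem psum_mul_left {G : ℂ → ℂ → ℂ → (ℂ →L[ℝ] ℂ) → (ℂ →L[ℝ] ℂ) → ℝ} {f : ℂ → ℝ} {z : ℂ} :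
    psum S (fun z a b A B => f z * G z a b A B) z = f z * psum S G z := by
  by_cases hn : (S z).Nodup
  · rw [psum_of_nodup hn, psum_of_nodup hn, Finset.mul_sum]
  · rw [psum_of_not_nodup hn, psum_of_not_nodup hn, mul_zero]

theorem psum_mul_right {G : ℂ → ℂ → ℂ → (ℂ →L[ℝ] ℂ) → (ℂ →L[ℝ] ℂ) → ℝ} {f : ℂ → ℝ} {z : ℂ} :
    psum S (fun z a b A B => G z a b A B * f z) z = psum S G z * f z := by
  by_cases hn : (S z).Nodup
  · rw [psum_of_nodup hn, psum_of_nodup hn, Finset.sum_mul]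
  · rw [psum_of_not_nodup hn, psum_of_not_nodup hn, zero_mul]

theorem psum_const_mul {G : ℂ → ℂ → ℂ → (ℂ →L[ℝ] ℂ) → (ℂ →L[ℝ] ℂ) → ℝ} {t : ℝ} {z : ℂ} :
    psum S (fun z a b A B => t * G z a b A B) z = t * psum S G z :=
  psum_mul_left (f := fun _ => t)

theorem psum_zero {z : ℂ} : psum S (fun _ _ _ _ _ => 0) z = 0 := by
  by_cases hn : (S z).Nodup
  · rw [psum_of_nodup hn, Finset.sum_const_zero]
  · rw [psum_of_not_nodup hn]

theorem psum_finset_sum {ι : Type*} (s : Finset ι)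
    {G : ι → ℂ → ℂ → ℂ → (ℂ →L[ℝ] ℂ) → (ℂ →L[ℝ] ℂ) → ℝ} {z : ℂ} :
    psum S (fun z a b A B => ∑ i ∈ s, G i z a b A B) z = ∑ i ∈ s, psum S (G i) z := by
  by_cases hn : (S z).Nodup
  · simp only [psum_of_nodup hn]
    exact Finset.sum_comm
  · simp only [psum_of_not_nodup hn, Finset.sum_const_zero]

theorem psum_nonneg {G : ℂ → ℂ → ℂ → (ℂ →L[ℝ] ℂ) → (ℂ →L[ℝ] ℂ) → ℝ} {z : ℂ}
    (h : (S z).Nodup → ∀ a ∈ S z, ∀ b ∈ S z, a ≠ b →
      0 ≤ G z a b (slope S z a) (slope S z b)) :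
    0 ≤ psum S G z := by
  by_cases hn : (S z).Nodup
  · rw [psum_of_nodup hn]
    refine Finset.sum_nonneg fun q hq => ?_
    obtain ⟨h1, h2, h3⟩ := mem_offDiag_iff.1 hq
    exact h hn _ h1 _ h2 h3
  · rw [psum_of_not_nodup hn]

theorem psum_le {G H : ℂ → ℂ → ℂ → (ℂ →L[ℝ] ℂ) → (ℂ →L[ℝ] ℂ) → ℝ} {z : ℂ}
    (h : (S z).Nodup → ∀ a ∈ S z, ∀ b ∈ S z, a ≠ b →
      G z a b (slope S z a) (slope S z b) ≤ H z a b (slope S z a) (slope S z b)) :
    psum S G z ≤ psum S H z := by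
  by_cases hn : (S z).Nodup
  · rw [psum_of_nodup hn, psum_of_nodup hn]
    refine Finset.sum_le_sum fun q hq => ?_
    obtain ⟨h1, h2, h3⟩ := mem_offDiag_iff.1 hq
    exact h hn _ h1 _ h2 h3
  · rw [psum_of_not_nodup hn, psum_of_not_nodup hn]

theorem abs_psum_le {G H : ℂ → ℂ → ℂ → (ℂ →L[ℝ] ℂ) → (ℂ →L[ℝ] ℂ) → ℝ} {z : ℂ}
    (h : (S z).Nodup → ∀ a ∈ S z, ∀ b ∈ S z, a ≠ b →
      |G z a b (slope S z a) (slope S z b)| ≤ H z a b (slope S z a) (slope S z b)) :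
    |psum S G z| ≤ psum S H z := by
  rw [abs_le]
  refine ⟨?_, psum_le fun hn a ha b hb hab => (abs_le.1 (h hn a ha b hb hab)).2⟩
  rw [← psum_neg]
  exact psum_le fun hn a ha b hb hab => (abs_le.1 (h hn a ha b hb hab)).1

/-- each single pair is bounded by the pair sum of a nonnegative function -/
theorem single_le_psum {G : ℂ → ℂ → ℂ → (ℂ →L[ℝ] ℂ) → (ℂ →L[ℝ] ℂ) → ℝ} {z : ℂ}
    (hn : (S z).Nodup)
    (h : ∀ a ∈ S z, ∀ b ∈ S z, a ≠ b → 0 ≤ G z a b (slope S z a) (slope S z b))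
    {a b : ℂ} (ha : a ∈ S z) (hb : b ∈ S z) (hab : a ≠ b) :
    G z a b (slope S z a) (slope S z b) ≤ psum S G z := by
  rw [psum_of_nodup hn]
  have := Finset.single_le_sum (s := (S z).toFinset.offDiag)
    (f := fun q : ℂ × ℂ => G z q.1 q.2 (slope S z q.1) (slope S z q.2))
    (fun q hq => by
      obtain ⟨h1, h2, h3⟩ := mem_offDiag_iff.1 hq
      exact h _ h1 _ h2 h3) (mem_offDiag_iff (S := S) (z := z) (q := (a, b)) |>.2 ⟨ha, hb, hab⟩)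
  exact this

/-- the pair sum of a constant -/
theorem psum_const_le {C : ℝ} (hC : 0 ≤ C) {k : ℕ} {z : ℂ} (hk : (S z).card = k) :
    psum S (fun _ _ _ _ _ => C) z ≤ (k : ℝ) ^ 2 * C := by
  by_cases hn : (S z).Nodup
  · rw [psum_of_nodup hn, Finset.sum_const, nsmul_eq_mul]
    refine mul_le_mul_of_nonneg_right ?_ hC
    have h1 : (S z).toFinset.card = k := by
      rw [Multiset.toFinset_card_of_nodup hn, hk]
    have h2 : (S z).toFinset.offDiag.card ≤ k ^ 2 := by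
      rw [Finset.offDiag_card, h1, sq]
      exact Nat.sub_le _ _
    exact_mod_cast h2
  · rw [psum_of_not_nodup hn]
    positivity

/-- a uniform bound on the pairs gives a bound on the pair sum -/
theorem psum_le_of_le {G : ℂ → ℂ → ℂ → (ℂ →L[ℝ] ℂ) → (ℂ →L[ℝ] ℂ) → ℝ} {C : ℝ} (hC : 0 ≤ C)
    {k : ℕ} {z : ℂ} (hk : (S z).card = k)
    (h : (S z).Nodup → ∀ a ∈ S z, ∀ b ∈ S z, a ≠ b →
      G z a b (slope S z a) (slope S z b) ≤ C) :
    psum S G z ≤ (k : ℝ) ^ 2 * C :=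
  (psum_le (H := fun _ _ _ _ _ => C) h).trans (psum_const_le hC hk)

theorem abs_psum_le_of_le {G : ℂ → ℂ → ℂ → (ℂ →L[ℝ] ℂ) → (ℂ →L[ℝ] ℂ) → ℝ} {C : ℝ}
    (hC : 0 ≤ C) {k : ℕ} {z : ℂ} (hk : (S z).card = k)
    (h : (S z).Nodup → ∀ a ∈ S z, ∀ b ∈ S z, a ≠ b →
      |G z a b (slope S z a) (slope S z b)| ≤ C) :
    |psum S G z| ≤ (k : ℝ) ^ 2 * C :=
  (abs_psum_le (H := fun _ _ _ _ _ => C) h).trans (psum_const_le hC hk)

end elem

/-! ### the local formula -/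

/-- the local formula for the pair sum at a point with a simple enumeration of the sheets -/
theorem psum_enum {S : ℂ → Multiset ℂ}
    (G : ℂ → ℂ → ℂ → (ℂ →L[ℝ] ℂ) → (ℂ →L[ℝ] ℂ) → ℝ) {k : ℕ} {z : ℂ}
    (w : Fin k → ℂ → ℂ) (hn : (S z).Nodup)
    (hinj : Function.Injective (fun i => w i z))
    (hS : S z = Multiset.map (fun i => w i z) Finset.univ.val)
    (hsl : ∀ i, slope S z (w i z) = fderiv ℝ (w i) z) :
    psum S G z = ∑ p ∈ (Finset.univ : Finset (Fin k)).offDiag,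
      G z (w p.1 z) (w p.2 z) (fderiv ℝ (w p.1) z) (fderiv ℝ (w p.2) z) := by
  classical
  rw [psum_of_nodup hn]
  symm
  refine Finset.sum_bij (fun p _ => (w p.1 z, w p.2 z)) ?_ ?_ ?_ ?_
  · intro p hp
    rw [Finset.mem_offDiag] at hp
    rw [mem_offDiag_iff]
    refine ⟨?_, ?_, fun h => hp.2.2 (hinj h)⟩
    · rw [hS]; exact Multiset.mem_map.2 ⟨p.1, Finset.mem_univ_val _, rfl⟩
    · rw [hS]; exact Multiset.mem_map.2 ⟨p.2, Finset.mem_univ_val _, rfl⟩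
  · intro p _ q _ h
    rw [Prod.mk.injEq] at h
    exact Prod.ext (hinj h.1) (hinj h.2)
  · intro q hq
    obtain ⟨h1, h2, h3⟩ := mem_offDiag_iff.1 hq
    rw [hS] at h1 h2
    obtain ⟨i, -, hi⟩ := Multiset.mem_map.1 h1
    obtain ⟨j, -, hj⟩ := Multiset.mem_map.1 h2
    refine ⟨(i, j), ?_, ?_⟩
    · rw [Finset.mem_offDiag]
      refine ⟨Finset.mem_univ _, Finset.mem_univ _, ?_⟩
      intro hij
      have hij' : i = j := hij
      subst hij'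
      exact h3 (hi.symm.trans hj)
    · exact Prod.ext hi hj
  · intro p _
    rw [hsl, hsl]

/-- near a simple point the pair sum is a fixed finite sum over the local sheets -/
theorem psum_local (h1 : SEL) {μ β : ℂ × ℂ → ℂ} {κ L : ℝ} (hB : BoxD μ β κ L)
    {c : ℂ} {R : ℝ} {k : ℕ} {S : ℂ → Multiset ℂ} {e : ℂ → ℝ} (hK : KG μ β c R k S e)
    {z₀ : ℂ} (hz : z₀ ∈ Usimp c R S) :
    ∃ (r : ℝ) (w : Fin k → ℂ → ℂ), 0 < r ∧ ball z₀ r ⊆ Usimp c R S ∧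
      (∀ i, Sheet S (ball z₀ r) (w i)) ∧ (∀ i, ContDiffOn ℝ ∞ (w i) (ball z₀ r)) ∧
      (∀ z ∈ ball z₀ r, Function.Injective (fun i => w i z)) ∧
      (∀ z ∈ ball z₀ r, S z = Multiset.map (fun i => w i z) Finset.univ.val) ∧
      (∀ z ∈ ball z₀ r, ∀ i, slope S z (w i z) = fderiv ℝ (w i) z) ∧
      ∀ G : ℂ → ℂ → ℂ → (ℂ →L[ℝ] ℂ) → (ℂ →L[ℝ] ℂ) → ℝ, ∀ z ∈ ball z₀ r,
        psum S G z = ∑ p ∈ (Finset.univ : Finset (Fin k)).offDiag,
          G z (w p.1 z) (w p.2 z) (fderiv ℝ (w p.1) z) (fderiv ℝ (w p.2) z) := by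
  obtain ⟨r, w, hr, hsub, hsh, hcd, hinj, hS, hsl⟩ := (h1 μ β κ L hB c R k S e hK).2 z₀ hz
  exact ⟨r, w, hr, hsub, hsh, hcd, hinj, hS, hsl, fun G z hz =>
    psum_enum G w (hsub hz).2 (hinj z hz) (hS z hz) (hsl z hz)⟩

/-- the derivative of a sheet is continuous -/
theorem contOn_fderiv {w : ℂ → ℂ} {V : Set ℂ} (hV : IsOpen V) (h : ContDiffOn ℝ ∞ w V) :
    ContinuousOn (fun z => fderiv ℝ w z) V :=
  h.continuousOn_fderiv_of_isOpen hV (by simp)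

/-- **LOC-6.** -/
theorem psc_of (h1 : SEL) : PSC := by
  intro μ β κ L hB c R k S e hK G hG z₀ hz₀
  obtain ⟨r, w, hr, hsub, hsh, hcd, hinj, hS, hsl, hloc⟩ := psum_local h1 hB hK hz₀
  refine ContinuousAt.continuousWithinAt ?_
  have hev : (fun z => ∑ p ∈ (Finset.univ : Finset (Fin k)).offDiag,
      G z (w p.1 z) (w p.2 z) (fderiv ℝ (w p.1) z) (fderiv ℝ (w p.2) z)) =ᶠ[𝓝 z₀] psum S G := by
    filter_upwards [ball_mem_nhds z₀ hr] with z hz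
    exact (hloc G z hz).symm
  refine ContinuousAt.congr ?_ hev
  refine ContinuousOn.continuousAt ?_ (ball_mem_nhds z₀ hr)
  refine continuousOn_finsetSum _ fun p hp => ?_
  rw [Finset.mem_offDiag] at hp
  have hc1 := (hcd p.1).continuousOn
  have hc2 := (hcd p.2).continuousOn
  have hd1 := contOn_fderiv isOpen_ball (hcd p.1)
  have hd2 := contOn_fderiv isOpen_ball (hcd p.2)
  have hmap : ContinuousOn (fun z : ℂ =>
      ((z, w p.1 z, w p.2 z, fderiv ℝ (w p.1) z, fderiv ℝ (w p.2) z) :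
        ℂ × ℂ × ℂ × (ℂ →L[ℝ] ℂ) × (ℂ →L[ℝ] ℂ))) (ball z₀ r) :=
    continuousOn_id.prodMk (hc1.prodMk (hc2.prodMk (hd1.prodMk hd2)))
  refine (hG.comp hmap ?_ : _)
  intro z hz
  exact ⟨(hsub hz).1, fun h => hp.2.2 (hinj z hz h)⟩

/-- the non-simple points are negligible: `Usimp` is almost all of the disc -/
theorem volume_diff_Usimp {μ β : ℂ × ℂ → ℂ} {c : ℂ} {R : ℝ} {k : ℕ} {S : ℂ → Multiset ℂ}
    {e : ℂ → ℝ} (hK : KG μ β c R k S e) : volume (ball c R \ Usimp c R S) = 0 := by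
  refine measure_mono_null ?_ hK.null
  intro z hz
  exact ⟨hz.1, fun h => hz.2 ⟨hz.1, h⟩⟩

theorem restrict_Usimp {μ β : ℂ × ℂ → ℂ} {c : ℂ} {R : ℝ} {k : ℕ} {S : ℂ → Multiset ℂ}
    {e : ℂ → ℝ} (hK : KG μ β c R k S e) :
    (volume : Measure ℂ).restrict (Usimp c R S) = volume.restrict (ball c R) := by
  refine Measure.restrict_congr_set ?_
  rw [ae_eq_set]
  refine ⟨?_, volume_diff_Usimp hK⟩
  have : Usimp c R S \ ball c R = ∅ := by
    rw [Set.sdiff_eq_empty]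
    exact fun z hz => hz.1
  rw [this, measure_empty]

/-- pair sums of continuous functions are measurable on the disc -/
theorem psum_aesm (h1 : SEL) {μ β : ℂ × ℂ → ℂ} {κ L : ℝ} (hB : BoxD μ β κ L)
    {c : ℂ} {R : ℝ} {k : ℕ} {S : ℂ → Multiset ℂ} {e : ℂ → ℝ} (hK : KG μ β c R k S e)
    {G : ℂ → ℂ → ℂ → (ℂ →L[ℝ] ℂ) → (ℂ →L[ℝ] ℂ) → ℝ}
    (hG : ContinuousOn (fun q : ℂ × ℂ × ℂ × (ℂ →L[ℝ] ℂ) × (ℂ →L[ℝ] ℂ) =>
      G q.1 q.2.1 q.2.2.1 q.2.2.2.1 q.2.2.2.2)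
      {q | q.1 ∈ ball c R ∧ q.2.1 ≠ q.2.2.1}) :
    AEStronglyMeasurable (psum S G) (volume.restrict (ball c R)) := by
  rw [← restrict_Usimp hK]
  exact (psc_of h1 μ β κ L hB c R k S e hK G hG).aestronglyMeasurable
    (h1 μ β κ L hB c R k S e hK).1.measurableSet

end

end Crest.Agent.R235.Loc.Psc792
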