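import Crest.Agent.R235.KG_460

/-!
# Row 235, package REG-B, leaf L1 (helper168): Stokes in the plane, `L²` one-forms do not see points
-/

set_option autoImplicit false

namespace Crest.Agent.R235.KGL1_168

open Complex Metric Set MeasureTheory Filter Topology
open Crest.Agent.R235.KG_460

noncomputable section

/-! ### one cut-off -/

/-- the fixed bump -/
def et : ContDiffBump (0 : ℂ) := ⟨1, 2, one_pos, one_lt_two⟩

/-- the bump at `b`, scale `1/n` -/
def rh (b : ℂ) (n : ℝ) (z : ℂ) : ℝ := et (n • (z - b))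

theorem rh_cd (b : ℂ) (n : ℝ) : ContDiff ℝ 1 (rh b n) := by
  have h : ContDiff ℝ 1 (fun z : ℂ => (et z : ℝ)) := et.contDiff
  exact h.comp (by fun_prop : ContDiff ℝ 1 fun z : ℂ => n • (z - b))

theorem rh_nonneg (b : ℂ) (n : ℝ) (z : ℂ) : 0 ≤ rh b n z := et.nonneg
theorem rh_le (b : ℂ) (n : ℝ) (z : ℂ) : rh b n z ≤ 1 := et.le_one

theorem rh_one {b : ℂ} {n : ℝ} (hn : 0 < n) {z : ℂ} (hz : ‖z - b‖ ≤ 1 / n) : rh b n z = 1 := by
  refine et.one_of_mem_closedBall ?_
  rw [mem_closedBall_zero_iff, norm_smul, Real.norm_of_nonneg hn.le]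
  show n * ‖z - b‖ ≤ 1
  rwa [le_div_iff₀ hn, mul_comm] at hz

theorem rh_zero {b : ℂ} {n : ℝ} (hn : 0 < n) {z : ℂ} (hz : 2 / n ≤ ‖z - b‖) : rh b n z = 0 := by
  refine et.zero_of_le_dist ?_
  rw [dist_zero_right, norm_smul, Real.norm_of_nonneg hn.le]
  show 2 ≤ n * ‖z - b‖
  rwa [div_le_iff₀ hn, mul_comm] at hz

theorem rh_near {b : ℂ} {n : ℝ} (hn : 0 < n) : ∀ᶠ z in 𝓝 b, rh b n z = 1 := by
  have h : ∀ᶠ z in 𝓝 b, z ∈ ball b (1 / n) := ball_mem_nhds _ (by positivity)
  filter_upwards [h] with z hz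
  rw [mem_ball, dist_eq_norm] at hz
  exact rh_one hn hz.le

theorem exists_C : ∃ C : ℝ, 0 < C ∧ ∀ z : ℂ, ‖fderiv ℝ (fun w : ℂ => (et w : ℝ)) z‖ ≤ C := by
  have hc : HasCompactSupport (fderiv ℝ (fun w : ℂ => (et w : ℝ))) :=
    et.hasCompactSupport.fderiv ℝ
  have h1 : ContDiff ℝ 1 (fun w : ℂ => (et w : ℝ)) := et.contDiff
  have h2 : Continuous (fderiv ℝ (fun w : ℂ => (et w : ℝ))) := h1.continuous_fderiv one_ne_zero
  obtain ⟨C, hC⟩ := hc.exists_bound_of_continuous h2
  exact ⟨max C 1, by positivity, fun z => (hC z).trans (le_max_left _ _)⟩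

theorem rh_fd {C : ℝ} (hC : ∀ z : ℂ, ‖fderiv ℝ (fun w : ℂ => (et w : ℝ)) z‖ ≤ C) (b : ℂ) {n : ℝ}
    (hn : 0 < n) (z : ℂ) : ‖fderiv ℝ (rh b n) z‖ ≤ C * n := by
  have h : ContDiff ℝ 1 (fun z : ℂ => (et z : ℝ)) := et.contDiff
  have h1 : HasFDerivAt (rh b n) ((fderiv ℝ (fun w : ℂ => (et w : ℝ)) (n • (z - b))).comp
      (n • ContinuousLinearMap.id ℝ ℂ)) z := by
    have h2 : HasFDerivAt (fun z : ℂ => n • (z - b)) (n • ContinuousLinearMap.id ℝ ℂ) z :=
      ((hasFDerivAt_id z).sub_const b).const_smul n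
    exact ((h.differentiable one_ne_zero (n • (z - b))).hasFDerivAt).comp z h2
  rw [h1.fderiv, ContinuousLinearMap.comp_smul, ContinuousLinearMap.comp_id, norm_smul,
    Real.norm_of_nonneg hn.le, mul_comm]
  exact mul_le_mul_of_nonneg_right (hC _) hn.le

theorem rh_fd_zero {b : ℂ} {n : ℝ} (hn : 0 < n) {z : ℂ} (hz : z ∉ closedBall b (2 / n)) :
    fderiv ℝ (rh b n) z = 0 := by
  have h : (rh b n) =ᶠ[𝓝 z] fun _ => 0 := by
    filter_upwards [isClosed_closedBall.isOpen_compl.mem_nhds hz] with w hw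
    have : w ∉ closedBall b (2 / n) := hw
    rw [mem_closedBall, dist_eq_norm, not_le] at this
    exact rh_zero hn this.le
  rw [h.fderiv_eq]
  simp

/-! ### base case -/

theorem int_fd_zero {P : ℂ → ℝ} (hc : HasCompactSupport P) (h : ContDiff ℝ 1 P) (v : ℂ) :
    Integrable (fun z => fderiv ℝ P z v) ∧ ∫ z, fderiv ℝ P z v = 0 := by
  have hfc : Continuous fun z => fderiv ℝ P z v := by
    have := h.continuous_fderiv one_ne_zero
    fun_prop
  have hcs : HasCompactSupport fun z => fderiv ℝ P z v := hc.fderiv_apply ℝ v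
  have hi : Integrable (fun z => fderiv ℝ P z v) := hfc.integrable_of_hasCompactSupport hcs
  refine ⟨hi, ?_⟩
  have h1 := integral_mul_fderiv_eq_neg_fderiv_mul_of_integrable (μ := (volume : Measure ℂ))
    (f := fun _ : ℂ => (1 : ℝ)) (g := P) (v := v) (by simp) (by simpa using hi)
    (by simpa using h.continuous.integrable_of_hasCompactSupport hc)
    (fun x _ => differentiableAt_const _) (fun x _ => (h.differentiable one_ne_zero) x)
  simpa using h1

/-! ### measurability -/

theorem ae_notMem (B : Finset ℂ) : ∀ᵐ z : ℂ, z ∉ B := by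
  have h : volume (B : Set ℂ) = 0 := B.finite_toSet.measure_zero _
  filter_upwards [measure_eq_zero_iff_ae_notMem.1 h] with z hz
  simpa using hz

theorem aesm {B : Finset ℂ} {P : ℂ → ℝ} (h : ∀ z ∉ B, ContDiffAt ℝ 1 P z) :
    AEStronglyMeasurable P volume := by
  have h1 : ContinuousOn P (B : Set ℂ)ᶜ := fun z hz =>
    (h z (by simpa using hz)).continuousAt.continuousWithinAt
  have h2 := h1.aestronglyMeasurable (μ := volume) B.finite_toSet.measurableSet.compl
  rwa [Measure.restrict_eq_self_of_ae_mem] at h2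
  filter_upwards [ae_notMem B] with z hz
  simpa using hz

/-- `g P` is integrable for `g` continuous of compact support -/
theorem int_mul {B : Finset ℂ} {P : ℂ → ℝ} (h : ∀ z ∉ B, ContDiffAt ℝ 1 P z) {g S : ℂ → ℝ}
    (hS : Integrable S) (hPS : ∀ z, P z ^ 2 ≤ S z) (hg : Continuous g) (hgc : HasCompactSupport g) :
    Integrable (fun z => g z * P z) := by
  obtain ⟨C, hC⟩ := hgc.exists_bound_of_continuous hg
  have hgi : Integrable g := hg.integrable_of_hasCompactSupport hgc
  refine (hgi.norm.add (hS.const_mul C)).mono' (hg.aestronglyMeasurable.mul (aesm h))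
    (ae_of_all _ fun z => ?_)
  rw [norm_mul, Pi.add_apply]
  have h1 : ‖P z‖ ≤ 1 + P z ^ 2 := by
    rw [Real.norm_eq_abs, ← sq_abs]
    nlinarith [sq_nonneg (|P z| - 1), abs_nonneg (P z)]
  have h2 := hPS z
  have h3 := norm_nonneg (g z)
  have h4 := hC z
  have h5 : ‖g z‖ * ‖P z‖ ≤ ‖g z‖ * (1 + P z ^ 2) := mul_le_mul_of_nonneg_left h1 h3
  have h6 : ‖g z‖ * P z ^ 2 ≤ C * S z :=
    mul_le_mul h4 h2 (sq_nonneg _) (h3.trans h4)
  nlinarith

/-! ### one point -/

theorem step {B : Finset ℂ} {b : ℂ}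
    (ih : ∀ (P Q : ℂ → ℝ), HasCompactSupport P → HasCompactSupport Q →
      (∀ z ∉ B, ContDiffAt ℝ 1 P z) → (∀ z ∉ B, ContDiffAt ℝ 1 Q z) →
      Integrable (fun z => P z ^ 2 + Q z ^ 2) →
      Integrable (fun z => fderiv ℝ Q z 1 - fderiv ℝ P z I) →
      ∫ z, (fderiv ℝ Q z 1 - fderiv ℝ P z I) = 0) (P Q : ℂ → ℝ)
    (hPc : HasCompactSupport P) (hQc : HasCompactSupport Q)
    (hP : ∀ z ∉ insert b B, ContDiffAt ℝ 1 P z) (hQ : ∀ z ∉ insert b B, ContDiffAt ℝ 1 Q z)
    (hS : Integrable (fun z => P z ^ 2 + Q z ^ 2))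
    (hW : Integrable (fun z => fderiv ℝ Q z 1 - fderiv ℝ P z I)) :
    ∫ z, (fderiv ℝ Q z 1 - fderiv ℝ P z I) = 0 := by
  classical
  obtain ⟨C, hC0, hC⟩ := exists_C
  set S : ℂ → ℝ := fun z => P z ^ 2 + Q z ^ 2 with hSd
  set W : ℂ → ℝ := fun z => fderiv ℝ Q z 1 - fderiv ℝ P z I with hWd
  -- the error term
  set T : ℝ → ℂ → ℝ := fun n z =>
    fderiv ℝ (rh b n) z I * P z - fderiv ℝ (rh b n) z 1 * Q z with hT
  have hfc : ∀ (n : ℝ) (v : ℂ), Continuous fun z => fderiv ℝ (rh b n) z v := fun n v => by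
    have := (rh_cd b n).continuous_fderiv one_ne_zero
    fun_prop
  have hfs : ∀ (n : ℝ), 0 < n → ∀ (v : ℂ), HasCompactSupport fun z => fderiv ℝ (rh b n) z v := by
    intro n hn v
    refine HasCompactSupport.intro (isCompact_closedBall b (2 / n)) fun z hz => ?_
    rw [rh_fd_zero hn hz]; rfl
  have hTi : ∀ n : ℝ, 0 < n → Integrable (T n) := fun n hn =>
    (int_mul hP hS (fun z => by simp only [hSd]; nlinarith [sq_nonneg (Q z)]) (hfc n I)
      (hfs n hn I)).sub
    (int_mul hQ hS (fun z => by simp only [hSd]; nlinarith [sq_nonneg (P z)]) (hfc n 1)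
      (hfs n hn 1))
  have hχW : ∀ n : ℝ, Integrable (fun z => (1 - rh b n z) * W z) := fun n => by
    refine hW.bdd_mul (c := 1) ((continuous_const.sub
      (rh_cd b n).continuous).aestronglyMeasurable) (ae_of_all _ fun z => ?_)
    rw [Real.norm_eq_abs, abs_le]
    have := rh_nonneg b n z
    have := rh_le b n z
    constructor <;> linarith
  -- the identity for each scale
  have key : ∀ n : ℝ, 0 < n → (∫ z, (1 - rh b n z) * W z) + ∫ z, T n z = 0 := by
    intro n hn
    have hcd : ContDiff ℝ 1 fun z => 1 - rh b n z := contDiff_const.sub (rh_cd b n)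
    have hae : (fun z => fderiv ℝ (fun z => (1 - rh b n z) * Q z) z 1 -
        fderiv ℝ (fun z => (1 - rh b n z) * P z) z I) =ᵐ[volume]
        fun z => (1 - rh b n z) * W z + T n z := by
      filter_upwards [ae_notMem (insert b B)] with z hz
      have h1 : HasFDerivAt (fun z => 1 - rh b n z) (-fderiv ℝ (rh b n) z) z :=
        (((rh_cd b n).differentiable one_ne_zero) z).hasFDerivAt.const_sub 1
      have h2 := h1.mul ((hP z hz).differentiableAt one_ne_zero).hasFDerivAt
      have h3 := h1.mul ((hQ z hz).differentiableAt one_ne_zero).hasFDerivAt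
      have e2 := h2.fderiv
      have e3 := h3.fderiv
      have e2' : fderiv ℝ (fun z => (1 - rh b n z) * P z) z = _ := e2
      have e3' : fderiv ℝ (fun z => (1 - rh b n z) * Q z) z = _ := e3
      rw [e2', e3']
      simp only [hWd, hT, _root_.add_apply, _root_.smul_apply, _root_.neg_apply, smul_eq_mul]
      ring
    have hcont : ∀ {R : ℂ → ℝ}, (∀ z ∉ insert b B, ContDiffAt ℝ 1 R z) →
        ∀ z ∉ B, ContDiffAt ℝ 1 (fun z => (1 - rh b n z) * R z) z := by
      intro R hR z hz
      by_cases hzb : z = b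
      · subst hzb
        have h1 : (fun w => (1 - rh z n w) * R w) =ᶠ[𝓝 z] fun _ => 0 := by
          filter_upwards [rh_near hn] with w hw
          rw [hw]; ring
        exact contDiffAt_const.congr_of_eventuallyEq h1
      · exact hcd.contDiffAt.mul (hR z (by simp [hzb, hz]))
    have hi : Integrable (fun z => (1 - rh b n z) * W z + T n z) := (hχW n).add (hTi n hn)
    have h1 := ih (fun z => (1 - rh b n z) * P z) (fun z => (1 - rh b n z) * Q z)
      hPc.mul_left hQc.mul_left (hcont hP) (hcont hQ) ?_ (hi.congr hae.symm)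
    · rw [integral_congr_ae hae, integral_add (hχW n) (hTi n hn)] at h1
      exact h1
    · have h2 : Integrable (fun z => (1 - rh b n z) ^ 2 * S z) := by
        refine hS.bdd_mul (c := 1) (((continuous_const.sub
          (rh_cd b n).continuous).pow 2).aestronglyMeasurable) (ae_of_all _ fun z => ?_)
        rw [Real.norm_eq_abs, abs_le]
        have := rh_nonneg b n z
        have := rh_le b n z
        constructor <;> nlinarith
      refine h2.congr (ae_of_all _ fun z => ?_)
      simp only [hSd]; ring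
  -- first limit
  have lim1 : Tendsto (fun n : ℕ => ∫ z, (1 - rh b (n + 1) z) * W z) atTop (𝓝 (∫ z, W z)) := by
    refine tendsto_integral_of_dominated_convergence (fun z => ‖W z‖)
      (fun n => (hχW _).aestronglyMeasurable) hW.norm (fun n => ae_of_all _ fun z => ?_) ?_
    · rw [norm_mul]
      have h1 : ‖1 - rh b (n + 1) z‖ ≤ 1 := by
        rw [Real.norm_eq_abs, abs_le]
        have := rh_nonneg b (n + 1) z
        have := rh_le b (n + 1) z
        constructor <;> linarith
      have := mul_le_mul_of_nonneg_right h1 (norm_nonneg (W z))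
      linarith
    · filter_upwards [ae_notMem (insert b B)] with z hz
      have hzb : 0 < ‖z - b‖ := norm_pos_iff.2 (sub_ne_zero.2 fun h => hz (by simp [h]))
      refine tendsto_const_nhds.congr' ?_
      obtain ⟨N, hN⟩ := exists_nat_gt (2 / ‖z - b‖)
      filter_upwards [eventually_ge_atTop N] with n hn
      have hn1 : (0 : ℝ) < n + 1 := by positivity
      rw [rh_zero hn1, sub_zero, one_mul]
      rw [div_le_iff₀ hn1]
      rw [div_lt_iff₀ hzb] at hN
      have h2 : (N : ℝ) ≤ n := by exact_mod_cast hn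
      nlinarith
  -- second limit
  have lim2 : Tendsto (fun n : ℕ => ∫ z, T (n + 1) z) atTop (𝓝 0) := by
    have hvol : ∀ n : ℕ, volume.real (closedBall b (2 / ((n : ℝ) + 1))) =
        4 * Real.pi / ((n : ℝ) + 1) ^ 2 := by
      intro n
      have hn1 : (0 : ℝ) < n + 1 := by positivity
      rw [Measure.real, Complex.volume_closedBall, ENNReal.toReal_mul, ENNReal.toReal_pow,
        ENNReal.toReal_ofReal (by positivity)]
      simp only [ENNReal.coe_toReal, NNReal.coe_real_pi]
      field_simp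
      norm_num
    have hvt : Tendsto (fun n : ℕ => volume (closedBall b (2 / ((n : ℝ) + 1)))) atTop (𝓝 0) := by
      have e : ∀ n : ℕ, volume (closedBall b (2 / ((n : ℝ) + 1))) =
          ENNReal.ofReal (4 * Real.pi / ((n : ℝ) + 1) ^ 2) := fun n => by
        rw [← hvol n, Measure.real, ENNReal.ofReal_toReal]
        exact measure_closedBall_lt_top.ne
      simp only [e]
      rw [← ENNReal.ofReal_zero]
      refine ENNReal.tendsto_ofReal ?_
      have h1 : Tendsto (fun n : ℕ => ((n : ℝ) + 1) ^ 2) atTop atTop := by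
        refine (tendsto_pow_atTop two_ne_zero).comp ?_
        exact tendsto_atTop_add_const_right _ _ tendsto_natCast_atTop_atTop
      exact h1.const_div_atTop _
    have hS0 : Tendsto (fun n : ℕ => ∫ z in closedBall b (2 / ((n : ℝ) + 1)), S z) atTop (𝓝 0) :=
      hS.tendsto_setIntegral_nhds_zero hvt
    -- the bound
    have bound : ∀ δ : ℝ, 0 < δ → ∀ n : ℕ, |∫ z, T (n + 1) z| ≤
        δ * (4 * Real.pi * C ^ 2) + δ⁻¹ * ∫ z in closedBall b (2 / ((n : ℝ) + 1)), S z := by
      intro δ hδ n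
      have hn1 : (0 : ℝ) < n + 1 := by positivity
      set K := closedBall b (2 / ((n : ℝ) + 1)) with hK
      have e1 : ∫ z, T (n + 1) z = ∫ z in K, T (n + 1) z := by
        refine (setIntegral_eq_integral_of_forall_compl_eq_zero fun z hz => ?_).symm
        simp only [hT, rh_fd_zero hn1 hz]
        simp
      rw [e1]
      have hKf : volume K ≠ ⊤ := measure_closedBall_lt_top.ne
      refine abs_integral_le_integral_abs.trans ?_
      have hb : ∀ z, |T (n + 1) z| ≤ δ * (C * (n + 1)) ^ 2 + δ⁻¹ * S z := by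
        intro z
        have h1 : |fderiv ℝ (rh b (n + 1)) z I| ≤ C * (n + 1) := by
          have := (fderiv ℝ (rh b (n + 1)) z).le_opNorm I
          rw [Complex.norm_I, mul_one] at this
          exact this.trans (rh_fd hC b hn1 z)
        have h2 : |fderiv ℝ (rh b (n + 1)) z 1| ≤ C * (n + 1) := by
          have := (fderiv ℝ (rh b (n + 1)) z).le_opNorm 1
          rw [norm_one, mul_one] at this
          exact this.trans (rh_fd hC b hn1 z)
        set g := C * ((n : ℝ) + 1)
        have h3 : |T (n + 1) z| ≤ g * |P z| + g * |Q z| := by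
          simp only [hT]
          refine (abs_sub _ _).trans ?_
          rw [abs_mul, abs_mul]
          exact add_le_add (mul_le_mul_of_nonneg_right h1 (abs_nonneg _))
            (mul_le_mul_of_nonneg_right h2 (abs_nonneg _))
        have amgm : ∀ p : ℝ, g * |p| ≤ δ / 2 * g ^ 2 + δ⁻¹ / 2 * p ^ 2 := by
          intro p
          have h4 : 0 ≤ (δ * g - |p|) ^ 2 := sq_nonneg _
          have h5 : δ / 2 * g ^ 2 + δ⁻¹ / 2 * p ^ 2 - g * |p| = (δ * g - |p|) ^ 2 / (2 * δ) := by
            rw [← sq_abs p]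
            field_simp
            ring
          have h6 : 0 ≤ (δ * g - |p|) ^ 2 / (2 * δ) := by positivity
          linarith
        have h7 := amgm (P z)
        have h8 := amgm (Q z)
        simp only [hSd]
        have h9 : δ⁻¹ * (P z ^ 2 + Q z ^ 2) = δ⁻¹ / 2 * P z ^ 2 + δ⁻¹ / 2 * Q z ^ 2 +
            (δ⁻¹ / 2 * P z ^ 2 + δ⁻¹ / 2 * Q z ^ 2) := by ring
        have h10 : 0 ≤ δ⁻¹ / 2 * P z ^ 2 + δ⁻¹ / 2 * Q z ^ 2 := by positivity
        linarith
      have hcK : Integrable (fun _ : ℂ => δ * (C * ((n : ℝ) + 1)) ^ 2) (volume.restrict K) :=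
        integrableOn_const hKf
      have hSK : Integrable (fun z => δ⁻¹ * S z) (volume.restrict K) :=
        (hS.integrableOn (s := K)).const_mul _
      refine (integral_mono ((hTi (n + 1) hn1).integrableOn (s := K)).abs (hcK.add hSK)
        fun z => hb z).trans ?_
      show ∫ z in K, (δ * (C * ((n : ℝ) + 1)) ^ 2 + δ⁻¹ * S z) ≤ _
      rw [integral_add hcK hSK, integral_const_mul δ⁻¹, setIntegral_const, hvol n]
      refine add_le_add (le_of_eq ?_) (le_refl _)
      rw [smul_eq_mul]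
      field_simp
    rw [Metric.tendsto_atTop]
    intro ε hε
    set M := 4 * Real.pi * C ^ 2 with hM
    have hM0 : 0 < M := by positivity
    set δ := ε / (2 * (M + 1)) with hδd
    have hδ : 0 < δ := by positivity
    obtain ⟨N, hN⟩ := (Metric.tendsto_atTop.1 hS0) (δ ^ 2) (by positivity)
    refine ⟨N, fun n hn => ?_⟩
    have h1 := bound δ hδ n
    have h2 := hN n hn
    rw [Real.dist_eq, sub_zero] at h2 ⊢
    have h3 := (le_abs_self _).trans h2.le
    have h4 : δ⁻¹ * ∫ z in closedBall b (2 / ((n : ℝ) + 1)), S z ≤ δ⁻¹ * δ ^ 2 :=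
      mul_le_mul_of_nonneg_left h3 (inv_nonneg.2 hδ.le)
    have h5 : δ⁻¹ * δ ^ 2 = δ := by field_simp
    have h6 : δ * (M + 1) = ε / 2 := by rw [hδd]; field_simp
    nlinarith
  have lim3 := lim1.add lim2
  rw [add_zero] at lim3
  refine (tendsto_nhds_unique (tendsto_const_nhds.congr fun n => ?_) lim3).symm
  have hn1 : (0 : ℝ) < (n : ℝ) + 1 := by positivity
  exact (key _ hn1).symm

/-- **L1** -/
theorem l1 : L1 := by
  intro B
  induction B using Finset.induction_on with
  | empty =>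
    intro P Q hPc hQc hP hQ _ _
    have h1 := int_fd_zero hPc (contDiff_iff_contDiffAt.2 fun z => hP z (by simp)) I
    have h2 := int_fd_zero hQc (contDiff_iff_contDiffAt.2 fun z => hQ z (by simp)) 1
    rw [integral_sub h2.1 h1.1, h1.2, h2.2, sub_zero]
  | insert b B _ ih =>
    intro P Q hPc hQc hP hQ hS hW
    exact step ih P Q hPc hQc hP hQ hS hW

end

end Crest.Agent.R235.KGL1_168
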