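import Crest.Agent.R235.LocDef_607
import Crest.Agent.R235.KGL1_168

/-!
Row 235, REG-LOC leaf 3 (task 215): planar Stokes for a one-form which is `C¹` off a finite set and
square integrable; from helper168's `KGL1_168.l1`.
-/

set_option autoImplicit false

open MeasureTheory Metric Set Filter Complex
open scoped ContDiff Topology

namespace Crest.Agent.R235.LocStokes_326

open Crest.Agent.R235.Loc

noncomputable section

theorem stokes : STOKES := by
  intro b F g hb hC hL hg hgb
  have happ : ∀ v : ℂ, ∀ z ∉ F, DifferentiableAt ℝ b z ∧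
      fderiv ℝ (fun y => b y v) z = (ContinuousLinearMap.apply ℝ ℝ v).comp (fderiv ℝ b z) := by
    intro v z hz
    have hz' : z ∈ ((F : Set ℂ)ᶜ) := by simpa using hz
    have hop : IsOpen ((F : Set ℂ)ᶜ) := F.finite_toSet.isClosed.isOpen_compl
    have hd : DifferentiableAt ℝ b z :=
      ((hC.contDiffAt (hop.mem_nhds hz')).differentiableAt (by norm_num))
    refine ⟨hd, ?_⟩
    exact ((ContinuousLinearMap.apply ℝ ℝ v).hasFDerivAt.comp z hd.hasFDerivAt).fderiv
  have hCv : ∀ v : ℂ, ∀ z ∉ F, ContDiffAt ℝ 1 (fun y => b y v) z := by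
    intro v z hz
    have hz' : z ∈ ((F : Set ℂ)ᶜ) := by simpa using hz
    have hop : IsOpen ((F : Set ℂ)ᶜ) := F.finite_toSet.isClosed.isOpen_compl
    have h1 := hC.contDiffAt (hop.mem_nhds hz')
    exact h1.clm_apply contDiffAt_const
  have hae : ∀ᵐ z : ℂ, z ∉ F := by
    have : volume (F : Set ℂ) = 0 := F.finite_toSet.measure_zero _
    have h2 := measure_eq_zero_iff_ae_notMem.1 this
    filter_upwards [h2] with z hz using by simpa using hz
  have key : ∀ z ∉ F, g z = fderiv ℝ (fun y => b y I) z 1 - fderiv ℝ (fun y => b y 1) z I := by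
    intro z hz
    rw [hgb z hz, (happ I z hz).2, (happ 1 z hz).2]
    simp
  have hsup : ∀ v : ℂ, HasCompactSupport (fun y => b y v) := by
    intro v
    refine hb.comp_left (g := fun L : ℂ →L[ℝ] ℝ => L v) ?_
    simp
  have hint2 : Integrable (fun z => (b z 1) ^ 2 + (b z I) ^ 2) := by
    have hn : Integrable (fun z => ‖b z‖ ^ 2) := hL.integrable_norm_pow (by norm_num)
    refine Integrable.mono' (hn.const_mul 2) ?_ ?_
    · have h0 : AEStronglyMeasurable b volume := hL.aestronglyMeasurable
      have h1 : AEStronglyMeasurable (fun z => b z 1) volume :=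
        (ContinuousLinearMap.apply ℝ ℝ (1 : ℂ)).continuous.comp_aestronglyMeasurable h0
      have h2 : AEStronglyMeasurable (fun z => b z I) volume :=
        (ContinuousLinearMap.apply ℝ ℝ (I : ℂ)).continuous.comp_aestronglyMeasurable h0
      exact (h1.pow 2).add (h2.pow 2)
    · filter_upwards with z
      have e1 : |b z 1| ≤ ‖b z‖ := by
        have := (b z).le_opNorm 1
        simpa using this
      have e2 : |b z I| ≤ ‖b z‖ := by
        have := (b z).le_opNorm I
        simpa using this
      have e3 : (b z 1) ^ 2 ≤ ‖b z‖ ^ 2 := by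
        rw [← sq_abs]; exact pow_le_pow_left₀ (abs_nonneg _) e1 2
      have e4 : (b z I) ^ 2 ≤ ‖b z‖ ^ 2 := by
        rw [← sq_abs]; exact pow_le_pow_left₀ (abs_nonneg _) e2 2
      rw [Real.norm_eq_abs, abs_of_nonneg (by positivity)]
      linarith
  have hg2 : Integrable (fun z => fderiv ℝ (fun y => b y I) z 1 - fderiv ℝ (fun y => b y 1) z I) :=
    hg.congr (by filter_upwards [hae] with z hz using key z hz)
  have := KGL1_168.l1 F (fun z => b z 1) (fun z => b z I) (hsup 1) (hsup I) (hCv 1) (hCv I)
    hint2 hg2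
  rw [← this]
  refine integral_congr_ae ?_
  filter_upwards [hae] with z hz using key z hz

end

end Crest.Agent.R235.LocStokes_326
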