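import Crest.Agent.R235.LocDef_607

/-!
Row 235 (S0364), PACKAGE REG, sub-block LOC, leaf LOC-12 (task 226, helper347):
finiteness of the non-simple points from superadditivity of the flux.
-/

set_option autoImplicit false

open MeasureTheory Metric Set Filter Complex
open scoped ContDiff Topology

namespace Crest.Agent.R235.LocSuper_347

open Crest.Agent.R235.Loc

noncomputable section

/-! ### the truncation -/

lemma chi_deriv_bound {χ : ℝ → ℝ} (h : Chi χ) :
    ∃ C : ℝ, 0 ≤ C ∧ ∀ t, 0 ≤ - deriv χ t ∧ - deriv χ t ≤ C := by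
  have hd : Continuous (deriv χ) := h.smooth.continuous_deriv (by simp)
  obtain ⟨C, hC⟩ := (isCompact_Icc (a := (1:ℝ)) (b := 2)).exists_bound_of_continuousOn
    hd.continuousOn
  have hC0 : 0 ≤ C := le_trans (norm_nonneg _) (hC 1 (by constructor <;> norm_num))
  refine ⟨C, hC0, fun t => ⟨?_, ?_⟩⟩
  · have := h.anti.deriv_nonpos (x := t)
    linarith
  · by_cases h1 : t < 1
    · have h3 : χ =ᶠ[𝓝 t] fun _ => 1 := by
        filter_upwards [Iio_mem_nhds h1] with s hs using h.one s (le_of_lt hs)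
      rw [h3.deriv_eq]
      simpa using hC0
    · by_cases h2 : 2 < t
      · have h3 : χ =ᶠ[𝓝 t] fun _ => 0 := by
          filter_upwards [Ioi_mem_nhds h2] with s hs using h.zero s (le_of_lt hs)
        rw [h3.deriv_eq]
        simpa using hC0
      · exact le_trans (neg_le_abs _) (hC t ⟨not_lt.mp h1, not_lt.mp h2⟩)

lemma deriv_chi_div (χ : ℝ → ℝ) (n t : ℝ) :
    deriv (fun s => χ (s / n)) t = deriv χ (t / n) / n := by
  have h := deriv_comp_mul_left n⁻¹ χ t
  have e1 : (fun s => χ (s / n)) = fun s => χ (n⁻¹ * s) := by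
    funext s
    rw [div_eq_inv_mul]
  rw [e1, h, smul_eq_mul, div_eq_inv_mul, div_eq_inv_mul]

/-! ### pair sums -/

lemma psum_neg (S : ℂ → Multiset ℂ) (G : ℂ → ℂ → ℂ → (ℂ →L[ℝ] ℂ) → (ℂ →L[ℝ] ℂ) → ℝ) (z : ℂ) :
    psum S (fun z a b A B => - G z a b A B) z = - psum S G z := by
  unfold psum
  split_ifs <;> simp

/-- the slopes of a `k`-valued graph at a simple point solve the equation and are bounded by the
energy density. -/
lemma slope_facts (h1 : SEL) {μ β : ℂ × ℂ → ℂ} {κ L : ℝ} (hbd : BoxD μ β κ L) {c : ℂ} {R : ℝ}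
    {k : ℕ} {S : ℂ → Multiset ℂ} {e : ℂ → ℝ} (hK : KG μ β c R k S e) {z : ℂ}
    (hz : z ∈ ball c R) (hn : (S z).Nodup) {a : ℂ} (ha : a ∈ S z) :
    lzb (slope S z a) = μ (z, a) * lz (slope S z a) - β (z, a) ∧ ‖slope S z a‖ ^ 2 ≤ e z := by
  obtain ⟨-, h⟩ := h1 μ β κ L hbd c R k S e hK
  obtain ⟨r, w, hr, hsub, hsh, -, -, hS, hsl⟩ := h z ⟨hz, hn⟩
  have hzb : z ∈ ball z r := mem_ball_self hr
  rw [hS z hzb] at ha
  obtain ⟨i, -, hi⟩ := Multiset.mem_map.mp ha
  have hV : ball z r ⊆ ball c R := fun x hx => (hsub hx).1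
  rw [← hi]
  rw [hsl z hzb i]
  exact ⟨hK.pde _ _ hV (hsh i) z hzb, hK.ebd _ _ hV (hsh i) z hzb⟩

/-- comparison of the pair sums of a cluster and of the whole graph at a simple point. -/
lemma psum_cluster {S T : ℂ → Multiset ℂ} {z : ℂ} (hn : (S z).Nodup) (hsub : T z ≤ S z)
    (hsl : ∀ b ∈ T z, slope T z b = slope S z b)
    (G : ℂ → ℂ → ℂ → (ℂ →L[ℝ] ℂ) → (ℂ →L[ℝ] ℂ) → ℝ) {δ : ℝ} (hδ : 0 ≤ δ)
    (hG : ∀ a ∈ S z, ∀ b ∈ S z, a ≠ b → -δ ≤ G z a b (slope S z a) (slope S z b))
    {η : ℝ} (h0 : 0 ≤ η) (h1 : η ≤ 1) :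
    η * psum T G z - ((S z).card : ℝ) ^ 2 * δ ≤ psum S G z := by
  classical
  have hnT : (T z).Nodup := Multiset.nodup_of_le hsub hn
  set P := (S z).toFinset.offDiag with hP
  set P' := (T z).toFinset.offDiag with hP'
  have hPP : P' ⊆ P := by
    apply Finset.offDiag_mono
    intro x hx
    rw [Multiset.mem_toFinset] at hx ⊢
    exact Multiset.mem_of_le hsub hx
  set x : ℂ × ℂ → ℝ := fun q => G z q.1 q.2 (slope S z q.1) (slope S z q.2) with hx
  have eS : psum S G z = ∑ q ∈ P, x q := by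
    unfold psum
    rw [if_pos hn]
  have eT : psum T G z = ∑ q ∈ P', x q := by
    unfold psum
    rw [if_pos hnT]
    refine Finset.sum_congr (by rw [hP']) fun q hq => ?_
    have hq' := Finset.mem_offDiag.mp hq
    rw [Multiset.mem_toFinset, Multiset.mem_toFinset] at hq'
    simp only [hx]
    rw [hsl _ hq'.1, hsl _ hq'.2.1]
  have hxδ : ∀ q ∈ P, 0 ≤ x q + δ := by
    intro q hq
    have hq' := Finset.mem_offDiag.mp hq
    rw [Multiset.mem_toFinset, Multiset.mem_toFinset] at hq'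
    have := hG q.1 hq'.1 q.2 hq'.2.1 hq'.2.2
    linarith
  have e1 : ∑ q ∈ P', (x q + δ) ≤ ∑ q ∈ P, (x q + δ) :=
    Finset.sum_le_sum_of_subset_of_nonneg hPP fun q hq _ => hxδ q hq
  have e2 : 0 ≤ ∑ q ∈ P', (x q + δ) := Finset.sum_nonneg fun q hq => hxδ q (hPP hq)
  have e3 : η * ∑ q ∈ P', (x q + δ) ≤ ∑ q ∈ P', (x q + δ) := by
    nlinarith
  rw [Finset.sum_add_distrib, Finset.sum_const, nsmul_eq_mul] at e1 e3
  rw [Finset.sum_add_distrib, Finset.sum_const, nsmul_eq_mul] at e1
  have e4 : (P.card : ℝ) ≤ ((S z).card : ℝ) ^ 2 := by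
    have h5 : P.card ≤ (S z).card ^ 2 := by
      rw [hP, Finset.offDiag_card]
      have h6 : (S z).toFinset.card ≤ (S z).card := Multiset.toFinset_card_le _
      calc (S z).toFinset.card * (S z).toFinset.card - (S z).toFinset.card
          ≤ (S z).toFinset.card * (S z).toFinset.card := Nat.sub_le _ _
        _ ≤ (S z).card * (S z).card := Nat.mul_le_mul h6 h6
        _ = (S z).card ^ 2 := (sq _).symm
    exact_mod_cast h5
  have e5 : (P.card : ℝ) * δ ≤ ((S z).card : ℝ) ^ 2 * δ := mul_le_mul_of_nonneg_right e4 hδ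
  have e6 : 0 ≤ (P'.card : ℝ) * δ := by positivity
  have e7 : 0 ≤ η * ((P'.card : ℝ) * δ) := mul_nonneg h0 e6
  rw [eS, eT]
  nlinarith

/-- the lower bound for one term. -/
lemma term_lb (h1 : SEL) {μ β : ℂ × ℂ → ℂ} {κ L : ℝ} (hbd : BoxD μ β κ L) {c : ℂ} {R : ℝ}
    {k : ℕ} {S : ℂ → Multiset ℂ} {e : ℂ → ℝ} (hK : KG μ β c R k S e)
    {c₀ C₀ : ℝ} (hc₀ : 0 < c₀) (hC₀ : 0 ≤ C₀)
    (hJ : ∀ (z a b : ℂ) (A B : ℂ →L[ℝ] ℂ), a ≠ b →
      lzb A = μ (z, a) * lz A - β (z, a) → lzb B = μ (z, b) * lz B - β (z, b) →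
      c₀ * ‖pdL a b A B‖ ^ 2 - C₀ * (1 + ‖B‖ ^ 2) ≤ pJ a b A B)
    {z : ℂ} (hz : z ∈ ball c R) (hn : (S z).Nodup) {C t : ℝ} (ht0 : 0 ≤ t)
    (htC : t ≤ C) {a b : ℂ} (ha : a ∈ S z) (hb : b ∈ S z) (hab : a ≠ b) :
    -(C * C₀ * (1 + e z)) ≤ t * pJ a b (slope S z a) (slope S z b) := by
  obtain ⟨pa, -⟩ := slope_facts h1 hbd hK hz hn ha
  obtain ⟨pb, eb⟩ := slope_facts h1 hbd hK hz hn hb
  have h := hJ z a b _ _ hab pa pb
  have he := hK.e0 z
  have h2 : -(C₀ * (1 + e z)) ≤ pJ a b (slope S z a) (slope S z b) := by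
    have h3 : 0 ≤ c₀ * ‖pdL a b (slope S z a) (slope S z b)‖ ^ 2 := by positivity
    have h4 : C₀ * (1 + ‖slope S z b‖ ^ 2) ≤ C₀ * (1 + e z) :=
      mul_le_mul_of_nonneg_left (by linarith) hC₀
    linarith
  have h5 : t * (-(C₀ * (1 + e z))) ≤ t * pJ a b (slope S z a) (slope S z b) :=
    mul_le_mul_of_nonneg_left h2 ht0
  have h6 : t * (C₀ * (1 + e z)) ≤ C * (C₀ * (1 + e z)) :=
    mul_le_mul_of_nonneg_right htC (by positivity)
  nlinarith

/-! ### small disjoint discs -/

lemma exists_radius {c : ℂ} {R₁ : ℝ} (F : Finset ℂ) (hF : ∀ q ∈ F, q ∈ ball c R₁) :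
    ∃ r : ℝ, 0 < r ∧ (∀ q ∈ F, ball q r ⊆ ball c R₁) ∧
      ∀ q ∈ F, ∀ q' ∈ F, q ≠ q' → Disjoint (ball q r) (ball q' r) := by
  have e1 : ∀ q ∈ F, ∀ᶠ r : ℝ in 𝓝[>] 0, ball q r ⊆ ball c R₁ := by
    intro q hq
    have h : 0 < R₁ - dist q c := by
      have := mem_ball.mp (hF q hq)
      linarith
    filter_upwards [Ioo_mem_nhdsGT h] with r hr
    exact ball_subset_ball' (by linarith [hr.2])
  have e2 : ∀ q ∈ F, ∀ q' ∈ F, ∀ᶠ r : ℝ in 𝓝[>] 0,
      (q ≠ q' → Disjoint (ball q r) (ball q' r)) := by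
    intro q _ q' _
    by_cases hqq : q = q'
    · exact Eventually.of_forall fun r hne => absurd hqq hne
    · have h : 0 < dist q q' / 2 := by
        have := dist_pos.mpr hqq
        linarith
      filter_upwards [Ioo_mem_nhdsGT h] with r hr _
      exact ball_disjoint_ball (by linarith [hr.2])
  have e3 : ∀ᶠ r : ℝ in 𝓝[>] 0, ∀ q ∈ F, ball q r ⊆ ball c R₁ :=
    (Finset.eventually_all F).mpr e1
  have e4 : ∀ᶠ r : ℝ in 𝓝[>] 0, ∀ q ∈ F, ∀ q' ∈ F, (q ≠ q' → Disjoint (ball q r) (ball q' r)) :=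
    (Finset.eventually_all F).mpr fun q hq => (Finset.eventually_all F).mpr fun q' hq' =>
      e2 q hq q' hq'
  obtain ⟨r, ⟨h3, h4⟩, h5⟩ := ((e3.and e4).and self_mem_nhdsWithin).exists
  exact ⟨r, h5, h3, h4⟩

/-! ### integrability of the flux density -/

lemma cut_tsupport {c : ℂ} {R : ℝ} {S : ℂ → Multiset ℂ} {R₁ R₂ : ℝ} {η : ℂ → ℝ}
    (h : Cut c R S R₁ R₂ η) : tsupport η ⊆ closedBall c R₂ := by
  apply closure_minimal _ isClosed_closedBall
  intro z hz
  by_contra hz'
  exact hz (h.zero z fun h' => hz' (ball_subset_closedBall h'))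

lemma flux_integrable (hS : STAR) {χ : ℝ → ℝ} (hχ : Chi χ) {μ β : ℂ × ℂ → ℂ} {κ L : ℝ}
    (hbd : BoxD μ β κ L) {c : ℂ} {R : ℝ} {k : ℕ} {S : ℂ → Multiset ℂ} {e : ℂ → ℝ}
    (hK : KG μ β c R k S e) (hD : DiscOff c R S) {R₁ R₂ : ℝ} {η : ℂ → ℝ}
    (hc : Cut c R S R₁ R₂ η) {n : ℝ} (hn : 0 < n) :
    Integrable (fun z => η z *
      psum S (fun _ a b A B => (- deriv χ (pv a b / n) / n) * pJ a b A B) z) := by
  have h := hS μ β κ L hbd c R k S e hK hD (fun s => χ (s / n)) (2 * n)
    ((hχ.smooth.of_le (by simp)).comp (contDiff_id.div_const n)) (fun t ht => by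
      apply hχ.zero
      rw [le_div_iff₀ hn]
      exact ht) η (hc.smooth.of_le (by simp))
    (HasCompactSupport.of_support_subset_isCompact (isCompact_closedBall c R₂)
      ((subset_tsupport η).trans (cut_tsupport hc)))
    ((cut_tsupport hc).trans (closedBall_subset_ball hc.lt'))
  have h2 := h.1.neg
  refine h2.congr (Eventually.of_forall fun z => ?_)
  simp only [Pi.neg_apply]
  have e1 : (fun (_ : ℂ) (a b : ℂ) (A B : ℂ →L[ℝ] ℂ) =>
      (- deriv χ (pv a b / n) / n) * pJ a b A B) =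
      fun (z : ℂ) (a b : ℂ) (A B : ℂ →L[ℝ] ℂ) =>
        - ((fun (_ : ℂ) (a b : ℂ) (A B : ℂ →L[ℝ] ℂ) =>
          deriv (fun s => χ (s / n)) (pv a b) * pJ a b A B) z a b A B) := by
    funext _ a b A B
    simp only [deriv_chi_div]
    ring
  rw [e1, psum_neg]
  ring

/-! ### LOC-12 -/

theorem super_of (hS : STAR) (hF : FLUX) (h1 : SEL) (h4 : JALG) (hχ' : ∃ χ, Chi χ) : SUPER := by
  intro μ β κ L hbd c R k S e hK hD R₁ R₂ η hcut hdat
  obtain ⟨χ, hχ⟩ := hχ'
  obtain ⟨C, hC0, hC⟩ := chi_deriv_bound hχ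
  obtain ⟨c₀, C₀, hc₀, hC₀, hJ'⟩ := h4 κ L hbd.κ0 hbd.κ1 hbd.L0
  have hJ := fun z a b A B hab h h' => (hJ' μ β hbd z a b A B hab h h').1
  -- the error
  set E : ℂ → ℝ := fun z => (k : ℝ) ^ 2 * (C * C₀ * (1 + e z)) with hE
  have hEint : IntegrableOn E (ball c R) := by
    have h2 : IntegrableOn (fun z => 1 + e z) (ball c R) :=
      (integrableOn_const (measure_ball_lt_top.ne)).add hK.eint
    exact (h2.const_mul _).const_mul _
  have hbR : ball c R₂ ⊆ ball c R := ball_subset_ball hcut.lt'.le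
  have h12 : ball c R₁ ⊆ ball c R := ball_subset_ball (hcut.lt.le.trans hcut.lt'.le)
  have claim : ∀ F : Finset ℂ, (F : Set ℂ) ⊆ Del c R S ∩ ball c R₁ →
      2 * Real.pi * F.card ≤ flux S η := by
    intro F hFs
    obtain ⟨r, hr, hrb, hrd⟩ := exists_radius (c := c) (R₁ := R₁) F fun q hq => (hFs hq).2
    have hdat' := fun (q : ℂ) (hq : q ∈ F) => hdat q (hFs hq).1 (hFs hq).2 r hr
    choose! a ε r' R₁' R₂' k' η' hε hr' hr'r hball hKq hDq hsl hcq hfl using hdat'
    -- densities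
    set f : ℝ → ℂ → ℝ := fun n z => η z *
      psum S (fun _ a b A B => (- deriv χ (pv a b / n) / n) * pJ a b A B) z with hf
    set g : ℂ → ℝ → ℂ → ℝ := fun q n z => η' q z *
      psum (fun z => (S z).filter (fun b => dist b (a q) < ε q))
        (fun _ a b A B => (- deriv χ (pv a b / n) / n) * pJ a b A B) z with hg
    have hfint : ∀ n : ℝ, 0 < n → Integrable (f n) := fun n hn =>
      flux_integrable hS hχ hbd hK hD hcut hn
    have hgint : ∀ q ∈ F, ∀ n : ℝ, 0 < n → Integrable (g q n) := fun q hq n hn =>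
      flux_integrable hS hχ hbd (hKq q hq) (hDq q hq) (hcq q hq) hn
    have hfe : ∀ᶠ n : ℝ in atTop, ∫ z, f n z = flux S η := by
      obtain ⟨⟨n₀, hn₀⟩, -, -⟩ := hF χ hχ μ β κ L hbd c R k S e hK hD R₁ R₂ η hcut
      filter_upwards [eventually_ge_atTop n₀] with n hn using hn₀ n hn
    have hge : ∀ᶠ n : ℝ in atTop, ∀ q ∈ F, 2 * Real.pi ≤ ∫ z, g q n z := by
      refine (Finset.eventually_all F).mpr fun q hq => ?_
      obtain ⟨⟨n₀, hn₀⟩, -, -⟩ := hF χ hχ μ β κ L hbd q (r' q) (k' q) _ e (hKq q hq)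
        (hDq q hq) (R₁' q) (R₂' q) (η' q) (hcq q hq)
      filter_upwards [eventually_ge_atTop n₀] with n hn
      rw [hg]
      simp only
      rw [hn₀ n hn]
      exact hfl q hq
    -- supports
    have hη'0 : ∀ q ∈ F, ∀ z, z ∉ ball q (r' q) → η' q z = 0 := by
      intro q hq z hz
      exact (hcq q hq).zero z fun h => hz (ball_subset_ball (hcq q hq).lt'.le h)
    -- pointwise comparison
    have hpt : ∀ n : ℝ, 0 < n → ∀ᵐ z, ∑ q ∈ F, g q n z - (ball c R).indicator (fun z => n⁻¹ * E z) z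
        ≤ f n z := by
      intro n hn
      have hnull : ∀ᵐ z, z ∈ ball c R → (S z).Nodup := by
        rw [ae_iff]
        convert hK.null using 2
        ext z
        simp
      filter_upwards [hnull] with z hz
      by_cases hzR : z ∈ ball c R
      · have hn' := hz hzR
        rw [indicator_of_mem hzR]
        have hcard := hK.card z hzR
        set δ : ℝ := n⁻¹ * (C * C₀ * (1 + e z)) with hδ
        have he := hK.e0 z
        have hδ0 : 0 ≤ δ := by positivity
        have hEδ : n⁻¹ * E z = ((S z).card : ℝ) ^ 2 * δ := by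
          rw [hcard, hδ, hE]
          ring
        rw [hEδ]
        have hG : ∀ a ∈ S z, ∀ b ∈ S z, a ≠ b → -δ ≤
            (fun (_ : ℂ) (a b : ℂ) (A B : ℂ →L[ℝ] ℂ) =>
              (- deriv χ (pv a b / n) / n) * pJ a b A B) z a b (slope S z a) (slope S z b) := by
          intro a ha b hb hab
          obtain ⟨t1, t2⟩ := hC (pv a b / n)
          have h3 := term_lb h1 hbd hK hc₀ hC₀ hJ hzR hn' (C := C / n)
            (t := - deriv χ (pv a b / n) / n) (by positivity)
            (by gcongr) ha hb hab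
          simp only
          refine le_trans (le_of_eq ?_) h3
          rw [hδ]
          field_simp
        by_cases hq : ∃ q ∈ F, z ∈ ball q (r' q)
        · obtain ⟨q, hqF, hzq⟩ := hq
          have hsum : ∑ q ∈ F, g q n z = g q n z := by
            apply Finset.sum_eq_single_of_mem q hqF
            intro q' hq' hne
            have h5 : z ∉ ball q' (r' q') := by
              intro h6
              have hd := hrd q' hq' q hqF hne
              exact (Set.disjoint_left.mp hd) (ball_subset_ball (hr'r q' hq').le h6)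
                (ball_subset_ball (hr'r q hqF).le hzq)
            rw [hg]
            simp only
            rw [hη'0 q' hq' z h5, zero_mul]
          rw [hsum]
          have hη1 : η z = 1 := by
            apply hcut.one
            exact ball_subset_closedBall (hrb q hqF (ball_subset_ball (hr'r q hqF).le hzq))
          have h6 := psum_cluster (S := S)
            (T := fun z => (S z).filter (fun b => dist b (a q) < ε q)) (z := z) hn'
            (Multiset.filter_le _ _) (hsl q hqF z hzq hn')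
            (fun _ a b A B => (- deriv χ (pv a b / n) / n) * pJ a b A B) hδ0 hG
            ((hcq q hqF).nonneg z) ((hcq q hqF).le_one z)
          simp only [hf, hg, hη1, one_mul]
          exact h6
        · push Not at hq
          have hsum : ∑ q ∈ F, g q n z = 0 := by
            apply Finset.sum_eq_zero
            intro q hqF
            rw [hg]
            simp only
            rw [hη'0 q hqF z (hq q hqF), zero_mul]
          rw [hsum]
          have h6 := psum_cluster (S := S) (T := S) (z := z) hn' le_rfl (fun _ _ => rfl)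
            (fun _ a b A B => (- deriv χ (pv a b / n) / n) * pJ a b A B) hδ0 hG
            (η := 0) le_rfl zero_le_one
          rw [zero_mul, zero_sub] at h6
          have h7 := hcut.nonneg z
          have h8 := hcut.le_one z
          have h9 : 0 ≤ ((S z).card : ℝ) ^ 2 * δ := by positivity
          simp only [hf]
          nlinarith
      · rw [indicator_of_notMem hzR]
        have hsum : ∑ q ∈ F, g q n z = 0 := by
          apply Finset.sum_eq_zero
          intro q hqF
          rw [hg]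
          simp only
          rw [hη'0 q hqF z (fun h => hzR (hball q hqF h)), zero_mul]
        rw [hsum]
        have hη0 : η z = 0 := hcut.zero z fun h => hzR (hbR h)
        simp only [hf, hη0, zero_mul]
        simp
    -- integrate
    set K : ℝ := ∫ z in ball c R, E z with hKdef
    have hfin : ∀ᶠ n : ℝ in atTop, 2 * Real.pi * F.card - n⁻¹ * K ≤ flux S η := by
      filter_upwards [hfe, hge, eventually_gt_atTop 0] with n h5 h6 hn
      have hindint : Integrable ((ball c R).indicator (fun z => n⁻¹ * E z)) :=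
        (integrable_indicator_iff measurableSet_ball).mpr (hEint.const_mul _)
      have hsumint : Integrable (fun z => ∑ q ∈ F, g q n z) :=
        integrable_finsetSum F fun q hq => hgint q hq n hn
      have h7 : ∫ z, (∑ q ∈ F, g q n z - (ball c R).indicator (fun z => n⁻¹ * E z) z)
          ≤ ∫ z, f n z :=
        integral_mono_ae (hsumint.sub hindint) (hfint n hn) (hpt n hn)
      rw [integral_sub hsumint hindint, integral_finsetSum F fun q hq => hgint q hq n hn,
        integral_indicator measurableSet_ball, integral_const_mul, h5] at h7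
      have h8 : ∑ q ∈ F, 2 * Real.pi ≤ ∑ q ∈ F, ∫ z, g q n z :=
        Finset.sum_le_sum fun q hq => h6 q hq
      rw [Finset.sum_const, nsmul_eq_mul] at h8
      linarith
    have hlim : Tendsto (fun n : ℝ => 2 * Real.pi * F.card - n⁻¹ * K) atTop
        (𝓝 (2 * Real.pi * F.card - 0 * K)) :=
      tendsto_const_nhds.sub (tendsto_inv_atTop_zero.mul_const K)
    have := le_of_tendsto hlim hfin
    simpa using this
  by_contra hinf
  obtain ⟨N, hN⟩ := exists_nat_gt (flux S η / (2 * Real.pi))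
  obtain ⟨F, hFs, hFc⟩ := Set.Infinite.exists_subset_card_eq hinf N
  have h2 := claim F hFs
  rw [hFc] at h2
  have h3 := (div_lt_iff₀ Real.two_pi_pos).mp hN
  linarith

end

end Crest.Agent.R235.LocSuper_347
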