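import Crest.Agent.R235.LocDef_607

/-!
Row 235 (S0364), PACKAGE REG, REG-LOC 10 (helper601): the flux through a simple annulus is `2π`
times an integer.
-/

set_option autoImplicit false

open MeasureTheory Metric Set Filter Complex
open scoped ContDiff Topology

namespace Crest.Agent.R235.LocWind_601

open Crest.Agent.R235.Loc

noncomputable section

/-! ### pair sums and pair products through an embedding -/

@[to_additive]
theorem prod_offDiag_map {ι α β : Type*} [CommMonoid β] (s : Finset ι) (f : ι ↪ α)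
    (φ : α × α → β) :
    ∏ q ∈ (s.map f).offDiag, φ q = ∏ p ∈ s.offDiag, φ (f p.1, f p.2) := by
  classical
  have h : (s.map f).offDiag = s.offDiag.map ⟨Prod.map f f, f.injective.prodMap f.injective⟩ := by
    ext q
    simp only [Finset.mem_offDiag, Finset.mem_map, Function.Embedding.coeFn_mk, Prod.exists,
      Prod.map_apply]
    constructor
    · rintro ⟨⟨a, ha, h1⟩, ⟨b, hb, h2⟩, h3⟩
      refine ⟨a, b, ⟨ha, hb, ?_⟩, Prod.ext h1 h2⟩
      rintro rfl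
      exact h3 (h1.symm.trans h2)
    · rintro ⟨a, b, ⟨ha, hb, hab⟩, rfl⟩
      exact ⟨⟨a, ha, rfl⟩, ⟨b, hb, rfl⟩, fun h => hab (f.injective h)⟩
  rw [h, Finset.prod_map]
  rfl

open Classical in
/-- the discriminant: product over ordered pairs of distinct sheets. -/
def Dsc (S : ℂ → Multiset ℂ) (z : ℂ) : ℂ := ∏ q ∈ (S z).toFinset.offDiag, (q.1 - q.2)

open Classical in
/-- logarithmic differential of the discriminant. -/
def Lam (S : ℂ → Multiset ℂ) (z : ℂ) : ℂ →L[ℝ] ℂ :=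
  ∑ q ∈ (S z).toFinset.offDiag, pdL q.1 q.2 (slope S z q.1) (slope S z q.2)

theorem Dsc_ne_zero (S : ℂ → Multiset ℂ) (z : ℂ) : Dsc S z ≠ 0 := by
  classical
  refine Finset.prod_ne_zero_iff.2 fun q hq => ?_
  rw [Finset.mem_offDiag] at hq
  exact sub_ne_zero.2 hq.2.2

theorem psum_wth (S : ℂ → Multiset ℂ) (α : ℂ → ℂ →L[ℝ] ℝ) {z : ℂ} (hz : (S z).Nodup) :
    psum S (fun z a b A B => wth (α z) a b A B) z =
      α z 1 * (Lam S z I).im - α z I * (Lam S z 1).im := by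
  classical
  unfold psum
  rw [if_pos hz]
  simp only [wth, Lam, _root_.sum_apply, Complex.im_sum, Finset.mul_sum,
    ← Finset.sum_sub_distrib]

section Local

variable {μ β : ℂ × ℂ → ℂ} {κ L : ℝ} {c : ℂ} {R : ℝ} {k : ℕ} {S : ℂ → Multiset ℂ} {e : ℂ → ℝ}

theorem hasFDerivAt_prod_sub {w : Fin k → ℂ → ℂ} {z : ℂ}
    (hw : ∀ i, HasFDerivAt (w i) (fderiv ℝ (w i) z) z)
    (hi : Function.Injective (fun i => w i z)) :
    HasFDerivAt (fun y => ∏ p ∈ (Finset.univ : Finset (Fin k)).offDiag, (w p.1 y - w p.2 y))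
      ((∏ p ∈ (Finset.univ : Finset (Fin k)).offDiag, (w p.1 z - w p.2 z)) •
        ∑ p ∈ (Finset.univ : Finset (Fin k)).offDiag,
          pdL (w p.1 z) (w p.2 z) (fderiv ℝ (w p.1) z) (fderiv ℝ (w p.2) z)) z := by
  classical
  have h := HasFDerivAt.finsetProd (𝕜 := ℝ) (u := (Finset.univ : Finset (Fin k)).offDiag)
    (g := fun (p : Fin k × Fin k) y => w p.1 y - w p.2 y)
    (g' := fun p => fderiv ℝ (w p.1) z - fderiv ℝ (w p.2) z) (x := z)
    (fun p _ => (hw p.1).sub (hw p.2))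
  refine h.congr_fderiv ?_
  rw [Finset.smul_sum]
  refine Finset.sum_congr rfl fun p hp => ?_
  have hne : w p.1 z - w p.2 z ≠ 0 := by
    rw [Finset.mem_offDiag] at hp
    exact sub_ne_zero.2 fun h' => hp.2.2 (hi h')
  rw [pdL, smul_smul, ← Finset.mul_prod_erase _ _ hp]
  congr 1
  field_simp

theorem local_form (hB : BoxD μ β κ L) (hK : KG μ β c R k S e) (h1 : SEL) {z₀ : ℂ}
    (hz₀ : z₀ ∈ Usimp c R S) :
    ∃ (r : ℝ) (w : Fin k → ℂ → ℂ), 0 < r ∧ (∀ i, ContDiffOn ℝ ∞ (w i) (ball z₀ r)) ∧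
      (∀ z ∈ ball z₀ r, Function.Injective (fun i => w i z)) ∧
      (∀ z ∈ ball z₀ r, Dsc S z =
        ∏ p ∈ (Finset.univ : Finset (Fin k)).offDiag, (w p.1 z - w p.2 z)) ∧
      (∀ z ∈ ball z₀ r, Lam S z = ∑ p ∈ (Finset.univ : Finset (Fin k)).offDiag,
          pdL (w p.1 z) (w p.2 z) (fderiv ℝ (w p.1) z) (fderiv ℝ (w p.2) z)) := by
  classical
  obtain ⟨-, h2⟩ := h1 μ β κ L hB c R k S e hK
  obtain ⟨r, w, hr, -, -, hs, hi, hS, hsl⟩ := h2 z₀ hz₀
  have hfs : ∀ z (hz : z ∈ ball z₀ r), (S z).toFinset =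
      Finset.univ.map ⟨fun i => w i z, hi z hz⟩ := by
    intro z hz
    rw [Finset.map_eq_image]
    ext a
    simp [hS z hz]
  refine ⟨r, w, hr, hs, hi, fun z hz => ?_, fun z hz => ?_⟩
  · unfold Dsc
    have := hfs z hz
    rw [show (S z).toFinset = Finset.univ.map ⟨fun i => w i z, hi z hz⟩ from this,
      prod_offDiag_map]
    rfl
  · unfold Lam
    rw [show (S z).toFinset = Finset.univ.map ⟨fun i => w i z, hi z hz⟩ from hfs z hz,
      sum_offDiag_map]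
    refine Finset.sum_congr rfl fun p _ => ?_
    simp only [Function.Embedding.coeFn_mk, hsl z hz]

theorem hasFDerivAt_Dsc (hB : BoxD μ β κ L) (hK : KG μ β c R k S e) (h1 : SEL) {z₀ : ℂ}
    (hz₀ : z₀ ∈ Usimp c R S) : HasFDerivAt (Dsc S) (Dsc S z₀ • Lam S z₀) z₀ := by
  obtain ⟨r, w, hr, hs, hi, hD, hL⟩ := local_form hB hK h1 hz₀
  have hm : z₀ ∈ ball z₀ r := mem_ball_self hr
  have hn : ball z₀ r ∈ 𝓝 z₀ := ball_mem_nhds z₀ hr
  have h := hasFDerivAt_prod_sub (w := w) (z := z₀)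
    (fun i => (((hs i).contDiffAt hn).differentiableAt (by simp)).hasFDerivAt) (hi z₀ hm)
  rw [← hD z₀ hm, ← hL z₀ hm] at h
  refine h.congr_of_eventuallyEq ?_
  filter_upwards [hn] with z hz
  exact hD z hz

theorem continuousAt_Lam (hB : BoxD μ β κ L) (hK : KG μ β c R k S e) (h1 : SEL) {z₀ : ℂ}
    (hz₀ : z₀ ∈ Usimp c R S) : ContinuousAt (Lam S) z₀ := by
  obtain ⟨r, w, hr, hs, hi, hD, hL⟩ := local_form hB hK h1 hz₀
  have hm : z₀ ∈ ball z₀ r := mem_ball_self hr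
  have hn : ball z₀ r ∈ 𝓝 z₀ := ball_mem_nhds z₀ hr
  have hc : ∀ i, ContinuousAt (w i) z₀ := fun i => ((hs i).continuousOn).continuousAt hn
  have hc' : ∀ i, ContinuousAt (fun z => fderiv ℝ (w i) z) z₀ := fun i =>
    ((hs i).continuousOn_fderiv_of_isOpen isOpen_ball (by simp)).continuousAt hn
  have h : ContinuousAt (fun z => ∑ p ∈ (Finset.univ : Finset (Fin k)).offDiag,
      pdL (w p.1 z) (w p.2 z) (fderiv ℝ (w p.1) z) (fderiv ℝ (w p.2) z)) z₀ := by
    refine tendsto_finsetSum _ fun p hp => ?_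
    unfold pdL
    have hne : w p.1 z₀ - w p.2 z₀ ≠ 0 := by
      rw [Finset.mem_offDiag] at hp
      exact sub_ne_zero.2 fun h' => hp.2.2 (hi z₀ hm h')
    exact (((hc p.1).sub (hc p.2)).inv₀ hne).smul ((hc' p.1).sub (hc' p.2))
  refine h.congr ?_
  filter_upwards [hn] with z hz
  exact (hL z hz).symm

end Local

/-! ### the winding number of a loop -/

theorem exp_integral {g φ : ℝ → ℂ} (hφ : Continuous φ) (hg : ∀ t, HasDerivAt g (g t * φ t) t)
    (a b : ℝ) : g b = g a * exp (∫ t in a..b, φ t) := by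
  have hΦ : ∀ t, HasDerivAt (fun u => ∫ s in a..u, φ s) (φ t) t := fun t =>
    intervalIntegral.integral_hasDerivAt_right (hφ.intervalIntegrable _ _)
      (hφ.stronglyMeasurableAtFilter _ _) hφ.continuousAt
  have hF : ∀ t, HasDerivAt (fun u => g u * exp (-∫ s in a..u, φ s)) 0 t := by
    intro t
    have h := (hg t).mul ((hΦ t).neg.cexp)
    refine h.congr_deriv ?_
    ring
  have hc := is_const_of_deriv_eq_zero (fun t => (hF t).differentiableAt) (fun t => (hF t).deriv)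
    b a
  simp only [intervalIntegral.integral_same, neg_zero, exp_zero, mul_one] at hc
  rw [← hc, mul_assoc, ← Complex.exp_add]
  simp

/-- points in polar coordinates around `c`. -/
def pt (c : ℂ) (ρ t : ℝ) : ℂ := c + ρ * (Real.cos t + Real.sin t * I)

theorem norm_pt_sub (c : ℂ) (ρ t : ℝ) : ‖pt c ρ t - c‖ = |ρ| := by
  have h : (Real.cos t + Real.sin t * I : ℂ) = exp (t * I) := by
    rw [Complex.exp_mul_I]
    push_cast
    rfl
  rw [pt, add_sub_cancel_left, h, norm_mul, Complex.norm_exp_ofReal_mul_I, mul_one,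
    Complex.norm_real, Real.norm_eq_abs]

theorem continuous_pt (c : ℂ) : Continuous fun p : ℝ × ℝ => pt c p.1 p.2 := by
  unfold pt
  fun_prop

theorem hasDerivAt_pt (c : ℂ) (ρ t : ℝ) : HasDerivAt (pt c ρ) (I * (pt c ρ t - c)) t := by
  unfold pt
  have h1 : HasDerivAt (fun t : ℝ => ((Real.cos t : ℝ) : ℂ)) ((-Real.sin t : ℝ) : ℂ) t :=
    (Real.hasDerivAt_cos t).ofReal_comp
  have h2 : HasDerivAt (fun t : ℝ => ((Real.sin t : ℝ) : ℂ)) ((Real.cos t : ℝ) : ℂ) t :=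
    (Real.hasDerivAt_sin t).ofReal_comp
  refine (((h1.add (h2.mul_const I)).const_mul (ρ : ℂ)).const_add c).congr_deriv ?_
  rw [add_sub_cancel_left]
  push_cast
  linear_combination (-(ρ : ℂ) * Complex.sin t) * Complex.I_mul_I

/-- clamp to `[R₁,R₂]`. -/
def cl (R₁ R₂ ρ : ℝ) : ℝ := max R₁ (min R₂ ρ)

theorem continuous_cl (R₁ R₂ : ℝ) : Continuous (cl R₁ R₂) := by
  unfold cl
  fun_prop

theorem cl_mem {R₁ R₂ : ℝ} (h : R₁ ≤ R₂) (ρ : ℝ) : R₁ ≤ cl R₁ R₂ ρ ∧ cl R₁ R₂ ρ ≤ R₂ :=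
  ⟨le_max_left _ _, max_le h (min_le_left _ _)⟩

theorem cl_of_mem {R₁ R₂ ρ : ℝ} (h1 : R₁ ≤ ρ) (h2 : ρ ≤ R₂) : cl R₁ R₂ ρ = ρ := by
  rw [cl, min_eq_right h2, max_eq_right h1]

/-- the logarithmic derivative of the discriminant along circles. -/
def Psi (S : ℂ → Multiset ℂ) (c : ℂ) (ρ t : ℝ) : ℂ := Lam S (pt c ρ t) (I * (pt c ρ t - c))

section Main

variable {μ β : ℂ × ℂ → ℂ} {κ L : ℝ} {c : ℂ} {R : ℝ} {k : ℕ} {S : ℂ → Multiset ℂ} {e : ℂ → ℝ}
  {R₁ R₂ : ℝ} {η : ℂ → ℝ}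

theorem pt_mem (hC : Cut c R S R₁ R₂ η) {ρ : ℝ} (h : R₁ ≤ ρ ∧ ρ ≤ R₂) (t : ℝ) :
    pt c ρ t ∈ Usimp c R S := by
  have h0 : 0 ≤ ρ := hC.pos.le.trans h.1
  have hd : dist (pt c ρ t) c = ρ := by
    rw [dist_eq_norm, norm_pt_sub, abs_of_nonneg h0]
  exact ⟨by rw [mem_ball, hd]; exact h.2.trans_lt hC.lt', hC.simple _ (by rw [hd]; exact h.1)
    (by rw [hd]; exact h.2)⟩

theorem continuous_Psi (hB : BoxD μ β κ L) (hK : KG μ β c R k S e) (h1 : SEL)
    (hC : Cut c R S R₁ R₂ η) : Continuous fun p : ℝ × ℝ => Psi S c (cl R₁ R₂ p.1) p.2 := by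
  have hcl : Continuous fun p : ℝ × ℝ => pt c (cl R₁ R₂ p.1) p.2 :=
    (continuous_pt c).comp (((continuous_cl R₁ R₂).comp continuous_fst).prodMk continuous_snd)
  rw [continuous_iff_continuousAt]
  intro p
  have h2 : ContinuousAt (fun p : ℝ × ℝ => Lam S (pt c (cl R₁ R₂ p.1) p.2)) p :=
    ContinuousAt.comp (g := Lam S) (f := fun p : ℝ × ℝ => pt c (cl R₁ R₂ p.1) p.2)
      (continuousAt_Lam hB hK h1 (pt_mem hC (cl_mem hC.lt.le p.1) p.2)) hcl.continuousAt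
  exact h2.clm_apply ((continuous_const.mul (hcl.sub continuous_const)).continuousAt)

theorem exists_int (hB : BoxD μ β κ L) (hK : KG μ β c R k S e) (h1 : SEL)
    (hC : Cut c R S R₁ R₂ η) {ρ : ℝ} (h : R₁ ≤ ρ ∧ ρ ≤ R₂) :
    ∃ N : ℤ, ∫ t in (-Real.pi)..Real.pi, (Psi S c ρ t).im = 2 * Real.pi * N := by
  have hφ : Continuous fun t => Psi S c ρ t := by
    have := (continuous_Psi hB hK h1 hC).comp (continuous_const.prodMk continuous_id :
      Continuous fun t : ℝ => (ρ, t))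
    refine this.congr fun t => ?_
    simp only [Function.comp_apply, cl_of_mem h.1 h.2]
  have hg : ∀ t, HasDerivAt (fun t => Dsc S (pt c ρ t)) (Dsc S (pt c ρ t) * Psi S c ρ t) t := by
    intro t
    have h2 := (hasFDerivAt_Dsc hB hK h1 (pt_mem hC h t)).comp_hasDerivAt t (hasDerivAt_pt c ρ t)
    exact h2
  have h2 := exp_integral hφ hg (-Real.pi) Real.pi
  have h3 : pt c ρ Real.pi = pt c ρ (-Real.pi) := by
    simp [pt]
  rw [h3] at h2
  have h4 : exp (∫ t in (-Real.pi)..Real.pi, Psi S c ρ t) = 1 :=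
    (mul_right_eq_self₀.1 h2.symm).resolve_right (Dsc_ne_zero S _)
  obtain ⟨N, hN⟩ := Complex.exp_eq_one_iff.1 h4
  refine ⟨N, ?_⟩
  have h5 := Complex.imCLM.intervalIntegral_comp_comm (μ := volume)
    (hφ.intervalIntegrable (-Real.pi) Real.pi)
  simp only [Complex.imCLM_apply] at h5
  rw [h5, hN]
  simp
  ring

theorem exists_int_const (hB : BoxD μ β κ L) (hK : KG μ β c R k S e) (h1 : SEL)
    (hC : Cut c R S R₁ R₂ η) :
    ∃ N : ℤ, ∀ ρ, ∫ t in (-Real.pi)..Real.pi, (Psi S c (cl R₁ R₂ ρ) t).im =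
      2 * Real.pi * N := by
  have h2 : ∀ ρ, ∃ N : ℤ, ∫ t in (-Real.pi)..Real.pi, (Psi S c (cl R₁ R₂ ρ) t).im =
      2 * Real.pi * N := fun ρ => exists_int hB hK h1 hC (cl_mem hC.lt.le ρ)
  choose N hN using h2
  have h3 : Continuous fun ρ => ∫ t in (-Real.pi)..Real.pi, (Psi S c (cl R₁ R₂ ρ) t).im :=
    intervalIntegral.continuous_parametric_intervalIntegral_of_continuous'
      (f := fun ρ t => (Psi S c (cl R₁ R₂ ρ) t).im)
      (Complex.continuous_im.comp (continuous_Psi hB hK h1 hC)) _ _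
  have h4 : Continuous fun ρ => ((N ρ : ℤ) : ℝ) := by
    have h5 : (fun ρ => ((N ρ : ℤ) : ℝ)) = fun ρ =>
        (∫ t in (-Real.pi)..Real.pi, (Psi S c (cl R₁ R₂ ρ) t).im) / (2 * Real.pi) := by
      funext ρ
      rw [hN ρ]
      field_simp
    rw [h5]
    exact h3.div_const _
  have h5 : Continuous N := Int.isClosedEmbedding_coe_real.isInducing.continuous_iff.2 h4
  refine ⟨N 0, fun ρ => ?_⟩
  rw [hN ρ, PreconnectedSpace.constant (inferInstance : PreconnectedSpace ℝ) h5 (x := ρ) (y := 0)]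

/-- derivative of `ρ ↦ h(ρ²)`. -/
def Hr (h : ℝ → ℝ) (ρ : ℝ) : ℝ := deriv h (ρ ^ 2) * (2 * ρ)

theorem fderiv_radial {h : ℝ → ℝ} (hh : ContDiff ℝ ∞ h) (hη : ∀ z, η z = h (‖z - c‖ ^ 2))
    (z u : ℂ) : fderiv ℝ η z u =
      deriv h (‖z - c‖ ^ 2) * (2 * ((z - c).re * u.re + (z - c).im * u.im)) := by
  have h1 : HasFDerivAt (fun z : ℂ => ‖z - c‖ ^ 2)
      (2 • (innerSL ℝ (z - c)).comp (ContinuousLinearMap.id ℝ ℂ)) z :=
    ((hasFDerivAt_id z).sub_const c).norm_sq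
  have h2 : HasDerivAt h (deriv h (‖z - c‖ ^ 2)) (‖z - c‖ ^ 2) :=
    (hh.differentiable (by simp) _).hasDerivAt
  have h3 : HasFDerivAt η (deriv h (‖z - c‖ ^ 2) •
      (2 • (innerSL ℝ (z - c)).comp (ContinuousLinearMap.id ℝ ℂ))) z := by
    have h4 := h2.comp_hasFDerivAt z h1
    refine h4.congr_of_eventuallyEq (Eventually.of_forall fun y => ?_)
    rw [hη y]
    rfl
  rw [h3.fderiv]
  simp only [ContinuousLinearMap.comp_id, _root_.smul_apply, coe_innerSL_apply,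
    Complex.inner, nsmul_eq_mul, smul_eq_mul]
  simp
  left
  ring

theorem integrand_eq {h : ℝ → ℝ} (hh : ContDiff ℝ ∞ h) (hη : ∀ z, η z = h (‖z - c‖ ^ 2))
    {z : ℂ} (hz : (S z).Nodup) :
    psum S (fun z a b A B => wth (fderiv ℝ η z) a b A B) z =
      2 * deriv h (‖z - c‖ ^ 2) * (Lam S z (I * (z - c))).im := by
  rw [psum_wth S _ hz, fderiv_radial hh hη, fderiv_radial hh hη]
  have h1 : I * (z - c) = (-(z - c).im : ℝ) • (1 : ℂ) + ((z - c).re : ℝ) • I := by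
    apply Complex.ext <;> simp
  rw [h1, map_add, map_smul, map_smul]
  simp
  ring

theorem integrand_zero {h : ℝ → ℝ} (hh : ContDiff ℝ ∞ h) (hη : ∀ z, η z = h (‖z - c‖ ^ 2))
    {z : ℂ} (hz : deriv h (‖z - c‖ ^ 2) = 0) :
    psum S (fun z a b A B => wth (fderiv ℝ η z) a b A B) z = 0 := by
  classical
  by_cases hn : (S z).Nodup
  · rw [integrand_eq hh hη hn, hz]
    ring
  · exact if_neg hn

theorem deriv_zero {h : ℝ → ℝ} (hC : Cut c R S R₁ R₂ η) (hη : ∀ z, η z = h (‖z - c‖ ^ 2))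
    {ρ : ℝ} (hρ : 0 < ρ) (hm : ¬ (R₁ ≤ ρ ∧ ρ ≤ R₂)) : deriv h (ρ ^ 2) = 0 := by
  have hval : ∀ s : ℝ, 0 ≤ s → h s = η (c + Real.sqrt s) := by
    intro s hs
    rw [hη, add_sub_cancel_left, Complex.norm_real, Real.norm_eq_abs,
      abs_of_nonneg (Real.sqrt_nonneg s), Real.sq_sqrt hs]
  have hd : ∀ s : ℝ, dist (c + Real.sqrt s) c = Real.sqrt s := by
    intro s
    rw [dist_eq_norm, add_sub_cancel_left, Complex.norm_real, Real.norm_eq_abs,
      abs_of_nonneg (Real.sqrt_nonneg s)]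
  have hR1 := hC.pos
  rcases lt_or_ge ρ R₁ with h1 | h1
  · have h2 : h =ᶠ[𝓝 (ρ ^ 2)] fun _ => 1 := by
      have h3 : Ioo (0 : ℝ) (R₁ ^ 2) ∈ 𝓝 (ρ ^ 2) :=
        Ioo_mem_nhds (by positivity) (by nlinarith)
      filter_upwards [h3] with s hs
      rw [hval s hs.1.le]
      refine hC.one _ ?_
      rw [mem_closedBall, hd]
      exact Real.sqrt_le_iff.2 ⟨hR1.le, hs.2.le⟩
    rw [h2.deriv_eq]
    simp
  · have h2 : R₂ < ρ := not_le.1 fun h' => hm ⟨h1, h'⟩
    have hR2 : 0 < R₂ := hC.pos.trans hC.lt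
    have h3 : h =ᶠ[𝓝 (ρ ^ 2)] fun _ => 0 := by
      have h4 : Ioi (R₂ ^ 2) ∈ 𝓝 (ρ ^ 2) := Ioi_mem_nhds (by nlinarith)
      filter_upwards [h4] with s hs
      have hs' : R₂ ^ 2 < s := hs
      rw [hval s ((sq_nonneg _).trans hs'.le)]
      refine hC.zero _ ?_
      rw [mem_ball, hd, not_lt]
      exact Real.le_sqrt_of_sq_le hs'.le
    rw [h3.deriv_eq]
    simp

theorem h_ends {h : ℝ → ℝ} (hC : Cut c R S R₁ R₂ η) (hη : ∀ z, η z = h (‖z - c‖ ^ 2)) :
    h (R₁ ^ 2) = 1 ∧ h (R₂ ^ 2) = 0 := by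
  have hR1 := hC.pos
  have hR2 : 0 < R₂ := hC.pos.trans hC.lt
  have hd : ∀ s : ℝ, 0 < s → ‖(c + (s : ℂ)) - c‖ = s := by
    intro s hs
    rw [add_sub_cancel_left, Complex.norm_real, Real.norm_eq_abs, abs_of_pos hs]
  constructor
  · rw [← hC.one (c + (R₁ : ℂ)) (by rw [mem_closedBall, dist_eq_norm, hd _ hR1]), hη, hd _ hR1]
  · rw [← hC.zero (c + (R₂ : ℂ)) (by rw [mem_ball, dist_eq_norm, hd _ hR2]; exact lt_irrefl _),
      hη, hd _ hR2]

theorem wind_of (h1 : SEL) (_h6 : PSC) : WIND := by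
  intro μ β κ L hB c R k S e hK R₁ R₂ η hC
  obtain ⟨h, hh, hη⟩ := hC.radial
  obtain ⟨N, hN⟩ := exists_int_const hB hK h1 hC
  refine ⟨N, ?_⟩
  set f : ℂ → ℝ := fun z => psum S (fun z a b A B => wth (fderiv ℝ η z) a b A B) z with hf
  -- the integrand in polar coordinates
  let F : ℝ × ℝ → ℝ := fun p => Hr h p.1 * (Psi S c (cl R₁ R₂ p.1) p.2).im
  have hFc : Continuous F := by
    have h2 : Continuous fun ρ => Hr h ρ := by
      have h3 : Continuous (deriv h) := hh.continuous_deriv (by simp)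
      exact (h3.comp (continuous_id.pow 2)).mul (continuous_const.mul continuous_id)
    exact (h2.comp continuous_fst).mul (Complex.continuous_im.comp (continuous_Psi hB hK h1 hC))
  have hH0 : ∀ ρ : ℝ, 0 < ρ → ¬ (R₁ ≤ ρ ∧ ρ ≤ R₂) → Hr h ρ = 0 := by
    intro ρ hρ hm
    rw [Hr, deriv_zero hC hη hρ hm, zero_mul]
  have hpol : ∀ p ∈ polarCoord.target, p.1 • f (c + Complex.polarCoord.symm p) = F p := by
    rintro ⟨ρ, t⟩ hp
    have hρ : 0 < ρ := hp.1
    have h2 : c + Complex.polarCoord.symm (ρ, t) = pt c ρ t := by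
      rw [Complex.polarCoord_symm_apply, pt]
    have h3 : ‖pt c ρ t - c‖ ^ 2 = ρ ^ 2 := by
      rw [norm_pt_sub, abs_of_pos hρ]
    rw [h2]
    by_cases hm : R₁ ≤ ρ ∧ ρ ≤ R₂
    · have h4 : f (pt c ρ t) = 2 * deriv h (ρ ^ 2) * (Psi S c ρ t).im := by
        rw [hf]
        have h5 := integrand_eq (η := η) hh hη (pt_mem hC hm t).2
        rw [h3] at h5
        exact h5
      simp only [F, h4, cl_of_mem hm.1 hm.2, Hr, smul_eq_mul]
      ring
    · have h4 : f (pt c ρ t) = 0 := by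
        rw [hf]
        refine integrand_zero hh hη ?_
        rw [h3]
        exact deriv_zero hC hη hρ hm
      simp only [F, h4, hH0 ρ hρ hm, smul_zero, zero_mul]
  have hint : ∫ z, f z = ∫ p in polarCoord.target, F p := by
    rw [← integral_add_left_eq_self f c, ← Complex.integral_comp_polarCoord_symm]
    exact setIntegral_congr_fun polarCoord.open_target.measurableSet hpol
  have hsub : Icc R₁ R₂ ×ˢ Ioo (-Real.pi) Real.pi ⊆ polarCoord.target := by
    rintro ⟨ρ, t⟩ ⟨hρ, ht⟩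
    exact ⟨hC.pos.trans_le hρ.1, ht⟩
  have hint2 : ∫ p in polarCoord.target, F p =
      ∫ p in Icc R₁ R₂ ×ˢ Ioo (-Real.pi) Real.pi, F p := by
    refine setIntegral_eq_of_subset_of_forall_sdiff_eq_zero
      polarCoord.open_target.measurableSet hsub ?_
    rintro ⟨ρ, t⟩ ⟨hp, hp'⟩
    have hρ : 0 < ρ := hp.1
    have hm : ¬ (R₁ ≤ ρ ∧ ρ ≤ R₂) := fun hm => hp' ⟨hm, hp.2⟩
    simp only [F, hH0 ρ hρ hm, zero_mul]
  have hio : IntegrableOn F (Icc R₁ R₂ ×ˢ Ioo (-Real.pi) Real.pi) := by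
    refine IntegrableOn.mono_set (t := Icc R₁ R₂ ×ˢ Icc (-Real.pi) Real.pi) ?_
      (prod_mono le_rfl Ioo_subset_Icc_self)
    exact hFc.continuousOn.integrableOn_compact (isCompact_Icc.prod isCompact_Icc)
  have hint3 : ∫ p in Icc R₁ R₂ ×ˢ Ioo (-Real.pi) Real.pi, F p =
      ∫ ρ in Icc R₁ R₂, Hr h ρ * (2 * Real.pi * N) := by
    rw [Measure.volume_eq_prod] at hio ⊢
    rw [setIntegral_prod F hio]
    refine setIntegral_congr_fun measurableSet_Icc fun ρ _ => ?_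
    simp only [F]
    rw [integral_const_mul, ← hN ρ, intervalIntegral.integral_of_le (by linarith [Real.pi_pos]),
      integral_Ioc_eq_integral_Ioo]
  have hint4 : ∫ ρ in Icc R₁ R₂, Hr h ρ * (2 * Real.pi * N) = - (2 * Real.pi * N) := by
    rw [integral_mul_const, integral_Icc_eq_integral_Ioc,
      ← intervalIntegral.integral_of_le hC.lt.le]
    have h2 : ∀ ρ : ℝ, HasDerivAt (fun ρ : ℝ => h (ρ ^ 2)) (Hr h ρ) ρ := by
      intro ρ
      have h3 : HasDerivAt (fun ρ : ℝ => ρ ^ 2) (2 * ρ) ρ := by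
        simpa using hasDerivAt_pow 2 ρ
      exact ((hh.differentiable (by simp) (ρ ^ 2)).hasDerivAt).comp ρ h3
    have h3 : Continuous fun ρ => Hr h ρ := by
      have h4 : Continuous (deriv h) := hh.continuous_deriv (by simp)
      exact (h4.comp (continuous_id.pow 2)).mul (continuous_const.mul continuous_id)
    rw [intervalIntegral.integral_eq_sub_of_hasDerivAt (fun ρ _ => h2 ρ)
      (h3.intervalIntegrable _ _), (h_ends hC hη).1, (h_ends hC hη).2]
    ring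
  have hfl : flux S η = - ∫ z, f z := rfl
  rw [hfl, hint, hint2, hint3, hint4, neg_neg]

end Main

end

end Crest.Agent.R235.LocWind_601
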