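import Crest.Agent.R235.LocAsm_437
import Crest.Agent.R235.LocStokes_326
import Crest.Agent.R235.LocSel_483
import Crest.Agent.R235.LocClus_305
import Crest.Agent.R235.LocAlg_895
import Crest.Agent.R235.LocStar_936
import Crest.Agent.R235.LocPsc_792
import Crest.Agent.R235.LocLogv_800
import Crest.Agent.R235.LocCirc_891
import Crest.Agent.R235.LocCut_872
import Crest.Agent.R235.LocFlux_366
import Crest.Agent.R235.LocWind_601
import Crest.Agent.R235.LocSuper_347

/-!
Row 235, package REG, REG-LOC: final assembly. All leaves except `NONZ`.
-/

set_option autoImplicit false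

namespace Crest.Agent.R235.LocFin_607

open Crest.Agent.R235.Loc

theorem sel : SEL := LocSel_483.sel
theorem stokes : STOKES := LocStokes_326.stokes
theorem jalg : JALG := LocAlg_895.jalg
theorem psc : PSC := Loc.Psc792.psc_of sel
theorem star : STAR := LocStar_936.star sel stokes psc
theorem logv : LOGV := LocLogv_800.logv_of star jalg psc sel
theorem circ : CIRC := LocCirc_891.circ_of logv sel psc
theorem cut : CUT := cut_of circ
theorem flux : FLUX := LocFlux.flux_of star sel jalg psc
theorem wind : WIND := LocWind_601.wind_of sel psc
theorem clus : CLUS := LocClus_305.clus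
theorem offz : OFFZ := LocAsm_437.offz clus
theorem super : SUPER := LocSuper_347.super_of star flux sel jalg exists_chi

theorem loc_of_nonz (h : NONZ) : LOC :=
  LocAsm_437.loc_of clus offz cut flux wind h super exists_chi

end Crest.Agent.R235.LocFin_607
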