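import Crest.Agent.R235.WKFin_460
import Crest.Agent.R235.CylSheets_848
import Crest.Agent.R235.CylAsm_437
import Crest.Agent.R235.CylF_437
import Crest.Agent.R235.LocFin_607

/-! # REG-CYL, assembly: `CYL` and `CYLF` from the planar regularity leaves and `NONZ`. -/

set_option autoImplicit false

namespace Crest.Agent.R235.CylFin_460

open Crest.Agent.R235.Loc Crest.Agent.R235.Cyl Crest.Agent.R235.WKFin_460
open Crest.Agent.R235.NWIface_334 (Reg1Stmt Reg2Stmt)

theorem sheets (hR1 : Reg1Stmt) (hR2 : Reg2Stmt) : SHEETS :=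
  CylSheets_848.sheets alg0 goodz weak hR1 hR2

theorem cyl (hR1 : Reg1Stmt) (hR2 : Reg2Stmt) : CYL :=
  CylAsm_437.cyl_of weak decay repr supps (sheets hR1 hR2)

theorem cylf (hR1 : Reg1Stmt) (hR2 : Reg2Stmt) (hN : NONZ) : CYLF :=
  CylF_437.cylf_of (cyl hR1 hR2) (LocFin_607.loc_of_nonz hN) alg0 cone decay disi
    (sheets hR1 hR2)

end Crest.Agent.R235.CylFin_460
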