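import Mathlib

/-!
Row 235, REG-CYL (A2), helper326: generic measure theory on `ℂ × ℂ` (sup metric) for a closed set
`S` which has quadratic lower mass bounds for a finite measure `σ`.

* `proj_le`    : Vitali estimate for the volume of the projection
* `null_proj`  : (V1) `σ`-null subsets of `S` have null projections
* `flat_proj`  : (V2) points of `S` which are vertical at arbitrarily small scales
* `ae_finite`  : (V3) almost every fibre of `S` is finite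
* `near_fibre` : (V4) compactness of the fibres
-/

set_option autoImplicit false

open MeasureTheory Metric Set Filter
open scoped Topology ENNReal NNReal

namespace Crest.Agent.R235.CylVit_326

noncomputable section

/-- quadratic lower mass bound at the points of `S`. -/
def Low (σ : Measure (ℂ × ℂ)) (S : Set (ℂ × ℂ)) (c r0 : ℝ) : Prop :=
  ∀ x ∈ S, ∀ r : ℝ, 0 < r → r ≤ r0 → ENNReal.ofReal (c * r ^ 2) ≤ σ (closedBall x r)

theorem vol_closedBall_le (z : ℂ) (ρ : ℝ) (hρ : 0 ≤ ρ) :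
    volume (closedBall z ρ) = ENNReal.ofReal (Real.pi * ρ ^ 2) := by
  rw [Complex.volume_closedBall, mul_comm, ENNReal.ofReal_mul Real.pi_pos.le,
    ENNReal.ofReal_pow hρ]
  congr 1
  rw [← NNReal.coe_real_pi, ENNReal.ofReal_coe_nnreal]

/-- Vitali estimate. -/
theorem proj_le {σ : Measure (ℂ × ℂ)} {S V U : Set (ℂ × ℂ)} {c r0 K : ℝ} (hc : 0 < c)
    (hr0 : 0 < r0) (hK : 0 ≤ K) (low : Low σ S c r0) (hVS : V ⊆ S) (hU : IsOpen U) (hVU : V ⊆ U)
    (h : ∀ x ∈ V, ∀ d : ℝ, 0 < d → ∃ r : ℝ, 0 < r ∧ r < d ∧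
      ∀ y ∈ V, dist y x ≤ 5 * r → dist y.1 x.1 ≤ K * r) :
    volume (Prod.fst '' V) ≤ ENNReal.ofReal (Real.pi * K ^ 2 / c) * σ U := by
  classical
  set t : Set ((ℂ × ℂ) × ℝ) := {a | a.1 ∈ V ∧ 0 < a.2 ∧ a.2 ≤ r0 ∧ closedBall a.1 a.2 ⊆ U ∧
    ∀ y ∈ V, dist y a.1 ≤ 5 * a.2 → dist y.1 a.1.1 ≤ K * a.2} with ht
  obtain ⟨u, hut, hdis, hcov⟩ :=
    Vitali.exists_disjoint_subfamily_covering_enlargement_closedBall t (fun a => a.1)
      (fun a => a.2) r0 (fun a ha => ha.2.2.1) 5 (by norm_num)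
  have hcount : u.Countable := by
    refine Set.PairwiseDisjoint.countable_of_nonempty_interior hdis ?_
    intro a ha
    have hpos : 0 < a.2 := (hut ha).2.1
    exact ⟨a.1, ball_subset_interior_closedBall (mem_ball_self hpos)⟩
  have hsub : Prod.fst '' V ⊆ ⋃ a ∈ u, closedBall (a.1.1 : ℂ) (K * a.2) := by
    rintro _ ⟨y, hy, rfl⟩
    obtain ⟨ε, hε, hεU⟩ := Metric.isOpen_iff.1 hU y (hVU hy)
    obtain ⟨r, hr, hrd, hflat⟩ := h y hy (min r0 ε) (lt_min hr0 hε)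
    have hyt : (y, r) ∈ t := by
      refine ⟨hy, hr, (hrd.trans_le (min_le_left _ _)).le, ?_, hflat⟩
      exact (closedBall_subset_ball (hrd.trans_le (min_le_right _ _))).trans hεU
    obtain ⟨b, hb, hsubb⟩ := hcov (y, r) hyt
    have hyb : dist y b.1 ≤ 5 * b.2 := by
      have := hsubb (mem_closedBall_self hr.le)
      simpa [mem_closedBall] using this
    refine mem_iUnion₂.2 ⟨b, hb, ?_⟩
    exact mem_closedBall.2 ((hut hb).2.2.2.2 y hy hyb)
  have hσ : ∑' a : u, σ (closedBall (a : (ℂ × ℂ) × ℝ).1 (a : (ℂ × ℂ) × ℝ).2) ≤ σ U := by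
    have h1 : σ (⋃ a ∈ u, closedBall (a : (ℂ × ℂ) × ℝ).1 a.2) =
        ∑' a : u, σ (closedBall (a : (ℂ × ℂ) × ℝ).1 (a : (ℂ × ℂ) × ℝ).2) :=
      measure_biUnion hcount hdis (fun a _ => measurableSet_closedBall)
    rw [← h1]
    refine measure_mono ?_
    exact iUnion₂_subset fun a ha => (hut ha).2.2.2.1
  calc volume (Prod.fst '' V) ≤ volume (⋃ a ∈ u, closedBall (a.1.1 : ℂ) (K * a.2)) :=
        measure_mono hsub
    _ ≤ ∑' a : u, volume (closedBall (a : (ℂ × ℂ) × ℝ).1.1 (K * (a : (ℂ × ℂ) × ℝ).2)) :=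
        measure_biUnion_le volume hcount _
    _ ≤ ∑' a : u, ENNReal.ofReal (Real.pi * K ^ 2 / c) *
          σ (closedBall (a : (ℂ × ℂ) × ℝ).1 (a : (ℂ × ℂ) × ℝ).2) := by
        refine ENNReal.tsum_le_tsum fun a => ?_
        have ha := hut a.2
        have hpos : 0 < (a : (ℂ × ℂ) × ℝ).2 := ha.2.1
        rw [vol_closedBall_le _ _ (by positivity)]
        have hl := low _ (hVS ha.1) _ hpos ha.2.2.1
        calc ENNReal.ofReal (Real.pi * (K * (a : (ℂ × ℂ) × ℝ).2) ^ 2)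
            = ENNReal.ofReal (Real.pi * K ^ 2 / c) *
              ENNReal.ofReal (c * (a : (ℂ × ℂ) × ℝ).2 ^ 2) := by
              rw [← ENNReal.ofReal_mul (by positivity)]
              congr 1
              field_simp
          _ ≤ _ := by gcongr
    _ = ENNReal.ofReal (Real.pi * K ^ 2 / c) *
          ∑' a : u, σ (closedBall (a : (ℂ × ℂ) × ℝ).1 (a : (ℂ × ℂ) × ℝ).2) :=
        ENNReal.tsum_mul_left
    _ ≤ _ := by gcongr

/-- **(V1)** null subsets of `S` have null projections. -/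
theorem null_proj {σ : Measure (ℂ × ℂ)} [IsFiniteMeasure σ] {S E : Set (ℂ × ℂ)} {c r0 : ℝ}
    (hc : 0 < c) (hr0 : 0 < r0) (low : Low σ S c r0) (hES : E ⊆ S) (hE : σ E = 0) :
    volume (Prod.fst '' E) = 0 := by
  have key : ∀ ε : ℝ≥0, 0 < ε → volume (Prod.fst '' E) ≤ ENNReal.ofReal (Real.pi * 5 ^ 2 / c) * ε := by
    intro ε hε
    obtain ⟨U, hEU, hU, hσU⟩ := Set.exists_isOpen_lt_of_lt E (ε : ℝ≥0∞)
      (by rw [hE]; exact_mod_cast hε) (μ := σ)
    refine (proj_le hc hr0 (by norm_num : (0 : ℝ) ≤ 5) low hES hU hEU ?_).trans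
      (by gcongr)
    intro x _ d hd
    refine ⟨d / 2, by positivity, by linarith, fun y _ hy => ?_⟩
    refine le_trans ?_ hy
    rw [Prod.dist_eq]
    exact le_max_left _ _
  by_contra hne
  have hfin : ENNReal.ofReal (Real.pi * 5 ^ 2 / c) ≠ ⊤ := ENNReal.ofReal_ne_top
  have h1 : Tendsto (fun ε : ℝ≥0 => ENNReal.ofReal (Real.pi * 5 ^ 2 / c) * (ε : ℝ≥0∞))
      (𝓝[>] 0) (𝓝 (ENNReal.ofReal (Real.pi * 5 ^ 2 / c) * ((0 : ℝ≥0) : ℝ≥0∞))) := by
    refine Tendsto.mono_left ?_ nhdsWithin_le_nhds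
    exact ENNReal.Tendsto.const_mul (ENNReal.continuous_coe.tendsto 0) (Or.inr hfin)
  have h2 := ge_of_tendsto h1 (eventually_nhdsWithin_of_forall fun ε (hε : ε ∈ Ioi 0) => key ε hε)
  simp at h2
  exact hne h2

/-- **(V2)** points of `S` at which `S` is vertical at arbitrarily small scales. -/
theorem flat_proj {σ : Measure (ℂ × ℂ)} [IsFiniteMeasure σ] {S V : Set (ℂ × ℂ)} {c r0 : ℝ}
    (hc : 0 < c) (hr0 : 0 < r0) (low : Low σ S c r0) (hVS : V ⊆ S)
    (h : ∀ x ∈ V, ∀ ε : ℝ, 0 < ε → ∀ d : ℝ, 0 < d → ∃ r : ℝ, 0 < r ∧ r < d ∧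
      ∀ y ∈ S, dist y x ≤ 5 * r → dist y.1 x.1 ≤ ε * r) :
    volume (Prod.fst '' V) = 0 := by
  have key : ∀ ε : ℝ, 0 < ε → volume (Prod.fst '' V) ≤
      ENNReal.ofReal (Real.pi * ε ^ 2 / c) * σ univ := by
    intro ε hε
    refine proj_le hc hr0 hε.le low hVS isOpen_univ (subset_univ _) ?_
    intro x hx d hd
    obtain ⟨r, h1, h2, h3⟩ := h x hx ε hε d hd
    exact ⟨r, h1, h2, fun y hy => h3 y (hVS hy)⟩
  by_contra hne
  have hfin : σ univ ≠ ⊤ := measure_ne_top _ _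
  have h1 : Tendsto (fun ε : ℝ => ENNReal.ofReal (Real.pi * ε ^ 2 / c) * σ univ)
      (𝓝[>] 0) (𝓝 (ENNReal.ofReal (Real.pi * 0 ^ 2 / c) * σ univ)) := by
    refine Tendsto.mono_left ?_ nhdsWithin_le_nhds
    refine ENNReal.Tendsto.mul_const ?_ (Or.inr hfin)
    refine (ENNReal.continuous_ofReal.tendsto _).comp ?_
    exact (Continuous.tendsto (by fun_prop) 0)
  have h2 := ge_of_tendsto h1 (eventually_nhdsWithin_of_forall fun ε (hε : ε ∈ Ioi 0) => key ε hε)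
  simp at h2
  exact hne h2

/-- for almost every `t` the mass over the disc of radius `r` is `O(r²)`. -/
theorem ae_density (σ : Measure (ℂ × ℂ)) [IsFiniteMeasure σ] :
    ∀ᵐ t : ℂ, ∃ C d : ℝ, 0 ≤ C ∧ 0 < d ∧ ∀ r : ℝ, 0 < r → r < d →
      σ (Prod.fst ⁻¹' closedBall t r) ≤ ENNReal.ofReal (C * r ^ 2) := by
  set m : Measure ℂ := σ.map Prod.fst with hm
  haveI : IsFiniteMeasure m := by rw [hm]; infer_instance
  have h1 := Besicovitch.ae_tendsto_rnDeriv m (volume : Measure ℂ)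
  have h2 := Measure.rnDeriv_lt_top m (volume : Measure ℂ)
  filter_upwards [h1, h2] with t ht1 ht2
  obtain ⟨A, hA1, hA2⟩ := exists_between ht2
  have hA : A ≠ ⊤ := hA2.ne
  have hev := ht1.eventually (gt_mem_nhds hA1)
  rw [eventually_nhdsWithin_iff, Metric.eventually_nhds_iff] at hev
  obtain ⟨d, hd, hdd⟩ := hev
  refine ⟨A.toReal * Real.pi, d, by positivity, hd, fun r hr hrd => ?_⟩
  have h3 := hdd (y := r) (by simp [abs_of_pos hr, hrd]) hr
  have hvol : volume (closedBall t r) = ENNReal.ofReal (Real.pi * r ^ 2) :=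
    vol_closedBall_le t r hr.le
  have hvne : volume (closedBall t r) ≠ 0 := by
    rw [hvol]
    have : 0 < Real.pi * r ^ 2 := by positivity
    simpa using this
  have hvt : volume (closedBall t r) ≠ ⊤ := by rw [hvol]; exact ENNReal.ofReal_ne_top
  have h4 : m (closedBall t r) ≤ A * volume (closedBall t r) := by
    have := (ENNReal.div_le_iff hvne hvt).1 h3.le
    exact this
  have h5 : m (closedBall t r) = σ (Prod.fst ⁻¹' closedBall t r) := by
    rw [hm, Measure.map_apply measurable_fst measurableSet_closedBall]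
  rw [← h5]
  refine h4.trans (le_of_eq ?_)
  rw [hvol, show A.toReal * Real.pi * r ^ 2 = A.toReal * (Real.pi * r ^ 2) by ring,
    ENNReal.ofReal_mul ENNReal.toReal_nonneg, ENNReal.ofReal_toReal hA]

/-- **(V3)** almost every fibre of `S` is finite. -/
theorem ae_finite {σ : Measure (ℂ × ℂ)} [IsFiniteMeasure σ] {S : Set (ℂ × ℂ)} {c r0 : ℝ}
    (hc : 0 < c) (hr0 : 0 < r0) (low : Low σ S c r0) :
    ∀ᵐ t : ℂ, {z : ℂ | (t, z) ∈ S}.Finite := by
  filter_upwards [ae_density σ] with t ht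
  obtain ⟨C, d, hC, hd, hmass⟩ := ht
  by_contra hinf
  obtain ⟨N, hN⟩ := exists_nat_gt (C / c)
  obtain ⟨F, hFS, hFc⟩ := Set.Infinite.exists_subset_card_eq hinf N
  -- a separation constant
  have hsep : ∃ s : ℝ, 0 < s ∧ ∀ z ∈ F, ∀ w ∈ F, z ≠ w → s ≤ dist z w := by
    classical
    by_cases hne : (F.offDiag).Nonempty
    · obtain ⟨q, hq, hmin⟩ := Finset.exists_min_image F.offDiag (fun q => dist q.1 q.2) hne
      refine ⟨dist q.1 q.2, dist_pos.2 (Finset.mem_offDiag.1 hq).2.2, ?_⟩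
      intro z hz w hw hzw
      exact hmin (z, w) (Finset.mem_offDiag.2 ⟨hz, hw, hzw⟩)
    · refine ⟨1, one_pos, ?_⟩
      intro z hz w hw hzw
      exact absurd ⟨(z, w), Finset.mem_offDiag.2 ⟨hz, hw, hzw⟩⟩ hne
  obtain ⟨s, hs, hsF⟩ := hsep
  set r : ℝ := min (min (d / 2) r0) (s / 3) with hr
  have hrpos : 0 < r := by positivity
  have hrd : r < d := lt_of_le_of_lt ((min_le_left _ _).trans (min_le_left _ _)) (by linarith)
  have hrr0 : r ≤ r0 := (min_le_left _ _).trans (min_le_right _ _)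
  have hrs : r ≤ s / 3 := min_le_right _ _
  have hdisj : (F : Set ℂ).PairwiseDisjoint fun z => closedBall ((t, z) : ℂ × ℂ) r := by
    intro z hz w hw hzw
    refine closedBall_disjoint_closedBall ?_
    have : dist z w ≤ dist ((t, z) : ℂ × ℂ) (t, w) := by
      rw [Prod.dist_eq]; exact le_max_right _ _
    have h2 := hsF z hz w hw hzw
    linarith
  have h1 : σ (⋃ z ∈ F, closedBall ((t, z) : ℂ × ℂ) r) =
      ∑ z ∈ F, σ (closedBall ((t, z) : ℂ × ℂ) r) :=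
    measure_biUnion_finset hdisj (fun z _ => measurableSet_closedBall)
  have h2 : ∑ z ∈ F, σ (closedBall ((t, z) : ℂ × ℂ) r) ≥
      ∑ _z ∈ F, ENNReal.ofReal (c * r ^ 2) :=
    Finset.sum_le_sum fun z hz => low _ (hFS hz) r hrpos hrr0
  have h3 : (⋃ z ∈ F, closedBall ((t, z) : ℂ × ℂ) r) ⊆ Prod.fst ⁻¹' closedBall t r := by
    refine iUnion₂_subset fun z _ y hy => ?_
    rw [mem_closedBall, Prod.dist_eq] at hy
    exact mem_closedBall.2 ((le_max_left _ _).trans hy)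
  have h4 : (N : ℝ≥0∞) * ENNReal.ofReal (c * r ^ 2) ≤ ENNReal.ofReal (C * r ^ 2) := by
    calc (N : ℝ≥0∞) * ENNReal.ofReal (c * r ^ 2) = ∑ _z ∈ F, ENNReal.ofReal (c * r ^ 2) := by
          rw [Finset.sum_const, hFc, nsmul_eq_mul]
      _ ≤ ∑ z ∈ F, σ (closedBall ((t, z) : ℂ × ℂ) r) := h2
      _ = σ (⋃ z ∈ F, closedBall ((t, z) : ℂ × ℂ) r) := h1.symm
      _ ≤ σ (Prod.fst ⁻¹' closedBall t r) := measure_mono h3
      _ ≤ _ := hmass r hrpos hrd
  have h5 : (N : ℝ≥0∞) = ENNReal.ofReal (N : ℝ) := by simp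
  rw [h5, ← ENNReal.ofReal_mul (by positivity), ENNReal.ofReal_le_ofReal_iff (by positivity)] at h4
  have h6 : (N : ℝ) * c ≤ C := by
    have hr2 : 0 < r ^ 2 := by positivity
    have : ((N : ℝ) * c) * r ^ 2 ≤ C * r ^ 2 := by linarith
    exact le_of_mul_le_mul_right this hr2
  have h7 : C < (N : ℝ) * c := (div_lt_iff₀ hc).1 hN
  linarith

/-- **(V4)** compactness of the fibres: the part of `S` over a small disc is close to the fibre. -/
theorem near_fibre {S : Set (ℂ × ℂ)} {t : ℂ} {r1 : ℝ} (hr1 : 0 < r1)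
    (hK : IsCompact (S ∩ Prod.fst ⁻¹' closedBall t r1)) {O : Set ℂ} (hO : IsOpen O)
    (hF : ∀ z, (t, z) ∈ S → z ∈ O) :
    ∃ r : ℝ, 0 < r ∧ r ≤ r1 ∧ ∀ y ∈ S, dist y.1 t ≤ r → y.2 ∈ O := by
  by_contra hcon
  push Not at hcon
  have hseq : ∀ n : ℕ, ∃ y ∈ S, dist y.1 t ≤ r1 / (n + 1) ∧ y.2 ∉ O := by
    intro n
    refine hcon (r1 / (n + 1)) (by positivity) ?_
    exact div_le_self hr1.le (by linarith [(Nat.cast_nonneg n : (0 : ℝ) ≤ n)])
  choose y hyS hyd hyO using hseq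
  have hyK : ∀ n, y n ∈ S ∩ Prod.fst ⁻¹' closedBall t r1 := by
    intro n
    refine ⟨hyS n, mem_closedBall.2 ((hyd n).trans ?_)⟩
    exact div_le_self hr1.le (by linarith [(Nat.cast_nonneg n : (0 : ℝ) ≤ n)])
  obtain ⟨a, ha, φ, hφ, hlim⟩ := hK.tendsto_subseq hyK
  have h1 : Tendsto (fun n => (y (φ n)).1) atTop (𝓝 a.1) :=
    (continuous_fst.tendsto a).comp hlim
  have h2 : Tendsto (fun n => (y (φ n)).2) atTop (𝓝 a.2) :=
    (continuous_snd.tendsto a).comp hlim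
  have h3 : Tendsto (fun n => dist (y (φ n)).1 t) atTop (𝓝 (dist a.1 t)) := h1.dist tendsto_const_nhds
  have h4 : Tendsto (fun n : ℕ => r1 / ((φ n : ℝ) + 1)) atTop (𝓝 0) := by
    have h5 : Tendsto (fun n : ℕ => r1 / ((n : ℝ) + 1)) atTop (𝓝 0) :=
      tendsto_const_div_atTop_nhds_zero_nat r1 |>.comp (tendsto_add_atTop_nat 1) |>.congr
        (fun n => by simp)
    exact h5.comp hφ.tendsto_atTop
  have h6 : dist a.1 t ≤ 0 := le_of_tendsto_of_tendsto' h3 h4 (fun n => hyd (φ n))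
  have h7 : a.1 = t := dist_le_zero.1 h6
  have h8 : a.2 ∈ O := hF a.2 (by rw [← h7]; exact ha.1)
  have h9 : ∀ᶠ n in atTop, (y (φ n)).2 ∈ O := h2.eventually (hO.mem_nhds h8)
  obtain ⟨n, hn⟩ := h9.exists
  exact hyO _ hn

end

end Crest.Agent.R235.CylVit_326
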