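import Crest.Agent.R235.CylDef_607
import Crest.Agent.R235.CylVit_326

/-!
Row 235 (S0364), REG-CYL C4 (`GOODZ`), helper235: for almost every `z` all the points of the
support over `z` are flat and non-vertical, and finitely many.
-/

set_option autoImplicit false

open MeasureTheory Metric Set Filter Complex
open scoped Topology ENNReal

namespace Crest.Agent.R235.CylGood_235

open Crest.Agent.R235.Loc Crest.Agent.R235.Cyl Crest.Agent.R235.CylVit_326

noncomputable section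

/-- the part of the support over `closedBall c R'`. -/
def SR (m : Measure CC) (c : ℂ) (R' : ℝ) : Set CC := {p | InSupp m p ∧ p.1 ∈ closedBall c R'}

theorem low_SR {μ β : CC → ℂ} {c : ℂ} {R ρ K : ℝ} {m : Measure CC} {X Y : CC → CC}
    (h : BoxCur μ β c R ρ K m X Y) {R' : ℝ} (hR' : R' < R) :
    ∃ c₀ > 0, ∃ r₀ > 0, Low m (SR m c R') c₀ r₀ := by
  have := h.fin
  obtain ⟨c₀, hc₀, r₀, hr₀, hl⟩ := h.low R' hR'
  refine ⟨c₀, hc₀, r₀, hr₀, ?_⟩
  intro x hx r hr hrr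
  have h1 := hl x hx.2 hx.1 r hr hrr
  calc ENNReal.ofReal (c₀ * r ^ 2) ≤ ENNReal.ofReal (m.real (ball x r)) :=
        ENNReal.ofReal_le_ofReal h1
    _ = m (ball x r) := by rw [Measure.real, ENNReal.ofReal_toReal (measure_ne_top _ _)]
    _ ≤ m (closedBall x r) := measure_mono ball_subset_closedBall

/-- points of the support over the box have `‖p.2‖ ≤ ρ`. -/
theorem snd_le {μ β : CC → ℂ} {c : ℂ} {R ρ K : ℝ} {m : Measure CC} {X Y : CC → CC}
    (h : BoxCur μ β c R ρ K m X Y) {p : CC} (hp : InSupp m p) : ‖p.2‖ ≤ ρ := by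
  by_contra hcon
  push Not at hcon
  have h1 := hp (‖p.2‖ - ρ) (by linarith)
  have h2 : m (ball p (‖p.2‖ - ρ)) = 0 := by
    refine measure_mono_null ?_ (ae_iff.1 h.supp)
    intro q hq hq2
    have h3 : dist q.2 p.2 < ‖p.2‖ - ρ := by
      refine lt_of_le_of_lt ?_ (mem_ball.1 hq)
      rw [Prod.dist_eq]
      exact le_max_right _ _
    have h4 : ‖p.2‖ ≤ ‖q.2‖ + dist q.2 p.2 := by
      rw [dist_comm, dist_eq_norm]
      have := norm_add_le q.2 (p.2 - q.2)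
      simpa using this
    linarith [hq2.2]
  rw [h2] at h1
  exact lt_irrefl _ h1

/-- over almost every point of the disc of radius `R'` all points of the support are flat. -/
theorem ae_flat {μ β : CC → ℂ} {c : ℂ} {R ρ K : ℝ} {m : Measure CC} {X Y : CC → CC}
    (h : BoxCur μ β c R ρ K m X Y) {R' : ℝ} (hR' : R' < R) :
    ∀ᵐ z : ℂ, ∀ w, (z, w) ∈ SR m c R' → FlatAt m X Y (z, w) := by
  have := h.fin
  obtain ⟨c₀, hc₀, r₀, hr₀, hl⟩ := low_SR h hR'
  have h1 : volume (Prod.fst '' {p | p ∈ SR m c R' ∧ ¬ FlatAt m X Y p}) = 0 := by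
    refine null_proj hc₀ hr₀ hl (fun p hp => hp.1) ?_
    exact measure_mono_null (fun p hp => hp.2) (ae_iff.1 h.flat)
  rw [← compl_mem_ae_iff] at h1
  filter_upwards [h1] with z hz w hw
  by_contra hn
  exact hz ⟨(z, w), ⟨hw, hn⟩, rfl⟩

/-- over almost every point of the disc of radius `R'` all flat points of the support are
non-vertical. -/
theorem ae_nonvert (h0 : ALG0) (h1 : CONE) {μ β : CC → ℂ} {κ L : ℝ} (hb : SBox μ β κ L)
    {c : ℂ} {R ρ K : ℝ} {m : Measure CC} {X Y : CC → CC}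
    (h : BoxCur μ β c R ρ K m X Y) {R' : ℝ} (hR' : R' < R) :
    ∀ᵐ z : ℂ, ∀ w, (z, w) ∈ SR m c R' → FlatAt m X Y (z, w) → 0 < hh (X (z, w)) (Y (z, w)) := by
  have := h.fin
  obtain ⟨c₀, hc₀, r₀, hr₀, hl⟩ := low_SR h hR'
  obtain ⟨C₀, c₁, hc₁, hC₀, halg⟩ := h0 κ L K hb.box.κ0 hb.box.κ1 hb.box.L0
  have h2 : volume (Prod.fst ''
      {p | p ∈ SR m c R' ∧ FlatAt m X Y p ∧ hh (X p) (Y p) = 0}) = 0 := by
    refine flat_proj hc₀ hr₀ hl (fun p hp => hp.1) ?_
    rintro p ⟨hpS, hpF, hp0⟩ ε hε d hd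
    obtain ⟨-, -, -, -, -, -, -, -, hX1, hY1, -⟩ :=
      halg μ β hb p (X p) (Y p) (h.nX p) (h.nY p) (h.jz p) (h.jw p)
    rw [hp0, mul_zero] at hX1 hY1
    have hX : (X p).1 = 0 := by
      have : ‖(X p).1‖ ^ 2 = 0 := le_antisymm hX1 (by positivity)
      simpa using this
    have hY : (Y p).1 = 0 := by
      have : ‖(Y p).1‖ ^ 2 = 0 := le_antisymm hY1 (by positivity)
      simpa using this
    have hpb : p.1 ∈ ball c R := closedBall_subset_ball hR' hpS.2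
    obtain ⟨r₁, hr₁, hcone⟩ := h1 μ β κ L hb c R ρ K m X Y h p hpb hpS.1 hpF (ε / 5) (by positivity)
    refine ⟨min (d / 2) (r₁ / 10), by positivity,
      lt_of_le_of_lt (min_le_left _ _) (by linarith), ?_⟩
    intro y hy hyd
    set r : ℝ := min (d / 2) (r₁ / 10) with hr
    have hrr : r ≤ r₁ / 10 := min_le_right _ _
    obtain ⟨ζ, hζ⟩ := hcone y hy.1 (by linarith)
    have h3 : dist y.1 p.1 ≤ ‖y - p - (ζ.re • X p + ζ.im • Y p)‖ := by
      have h4 : (y - p - (ζ.re • X p + ζ.im • Y p)).1 = y.1 - p.1 := by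
        simp [hX, hY]
      rw [dist_eq_norm, ← h4]
      exact norm_fst_le _
    have h5 : ‖y - p‖ ≤ 5 * r := by rw [← dist_eq_norm]; exact hyd
    calc dist y.1 p.1 ≤ ε / 5 * ‖y - p‖ := h3.trans hζ
      _ ≤ ε / 5 * (5 * r) := by gcongr
      _ = ε * r := by ring
  rw [← compl_mem_ae_iff] at h2
  filter_upwards [h2] with z hz w hw hF
  obtain ⟨hh0, -⟩ := halg μ β hb (z, w) (X (z, w)) (Y (z, w)) (h.nX _) (h.nY _) (h.jz _) (h.jw _)
  rcases hh0.lt_or_eq with h3 | h3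
  · exact h3
  · exact absurd ⟨(z, w), ⟨hw, hF, h3.symm⟩, rfl⟩ hz

theorem goodz_of (h0 : ALG0) (h1 : CONE) : GOODZ := by
  intro μ β κ L hb c R ρ K m X Y h
  have := h.fin
  have key : ∀ n : ℕ, ∀ᵐ z : ℂ, z ∈ closedBall c (R - 1 / (n + 1)) → (fib m z).Finite ∧
      ∀ w ∈ fib m z, ‖w‖ ≤ ρ ∧ FlatAt m X Y (z, w) ∧ 0 < hh (X (z, w)) (Y (z, w)) := by
    intro n
    have hR' : R - 1 / ((n : ℝ) + 1) < R := by
      have : (0 : ℝ) < 1 / ((n : ℝ) + 1) := by positivity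
      linarith
    obtain ⟨c₀, hc₀, r₀, hr₀, hl⟩ := low_SR h hR'
    filter_upwards [ae_finite hc₀ hr₀ hl, ae_flat h hR', ae_nonvert h0 h1 hb h hR'] with z z1 z2 z3 hz
    have hmem : ∀ w ∈ fib m z, (z, w) ∈ SR m c (R - 1 / ((n : ℝ) + 1)) := fun w hw => ⟨hw, hz⟩
    refine ⟨z1.subset fun w hw => hmem w hw, fun w hw => ?_⟩
    have hw2 := hmem w hw
    exact ⟨snd_le h hw, z2 w hw2, z3 w hw2 (z2 w hw2)⟩
  filter_upwards [ae_all_iff.2 key] with z hz hzR
  have h3 : 0 < R - dist z c := by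
    have := mem_ball.1 hzR
    linarith
  obtain ⟨n, hn⟩ := exists_nat_one_div_lt h3
  refine hz n (mem_closedBall.2 ?_)
  linarith

end

end Crest.Agent.R235.CylGood_235
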