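import Mathlib

/-!
Row 235 (S0364), REG-CYL, leaf C9 (helper734): Hall matching of two `k`-point configurations from
the Kantorovich (1-Lipschitz) bound.  Pure, imports Mathlib only.

* `hall_fin` : `s t : Fin k → X`, `|∑ φ (s i) - ∑ φ (t i)| ≤ d` for every 1-Lipschitz `φ`
  `⟹ ∃ σ : Perm (Fin k), ∀ i, dist (s i) (t (σ i)) ≤ d`.
* `hall_multiset` : the same for multisets, `Multiset.Rel (fun a b => dist a b ≤ d) s t`
  (`= Loc.Close d s t` for `X = ℂ`).
-/

set_option autoImplicit false

open Finset

namespace Crest.Agent.R235.CylHall_734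

/-- the test function of a Hall violator. -/
noncomputable def tf {X : Type*} [PseudoMetricSpace X] (e : ℝ) (A : Set X) (x : X) : ℝ :=
  max (e - Metric.infDist x A) 0

lemma lip_tf {X : Type*} [PseudoMetricSpace X] (e : ℝ) (A : Set X) :
    LipschitzWith 1 (tf e A) := by
  have h1 : LipschitzWith 1 (fun x : X => Metric.infDist x A) := Metric.lipschitz_infDist_pt A
  refine LipschitzWith.of_dist_le_mul fun x y => ?_
  have h2 : dist (Metric.infDist x A) (Metric.infDist y A) ≤ dist x y := by
    simpa using h1.dist_le_mul x y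
  unfold tf
  rw [Real.dist_eq] at h2 ⊢
  have h3 : |max (e - Metric.infDist x A) 0 - max (e - Metric.infDist y A) 0| ≤
      |(e - Metric.infDist x A) - (e - Metric.infDist y A)| := by
    have := abs_max_sub_max_le_max (e - Metric.infDist x A) 0 (e - Metric.infDist y A) 0
    simpa using this
  have h4 : (e - Metric.infDist x A) - (e - Metric.infDist y A) =
      -(Metric.infDist x A - Metric.infDist y A) := by ring
  rw [h4, abs_neg] at h3
  simpa using h3.trans h2

/-- strict version. -/
theorem hall_lt {X : Type*} [PseudoMetricSpace X] {k : ℕ} {s t : Fin k → X} {d e : ℝ}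
    (hd : 0 ≤ d) (hde : d < e)
    (h : ∀ φ : X → ℝ, LipschitzWith 1 φ → |∑ i, φ (s i) - ∑ i, φ (t i)| ≤ d) :
    ∃ σ : Equiv.Perm (Fin k), ∀ i, dist (s i) (t (σ i)) < e := by
  classical
  have he : 0 < e := hd.trans_lt hde
  set N : Fin k → Finset (Fin k) := fun i => univ.filter fun j => dist (s i) (t j) < e with hN
  have key : ∀ A : Finset (Fin k), A.card ≤ (A.biUnion N).card := by
    intro A
    by_contra hA
    push Not at hA
    have hAne : A.Nonempty := by
      rw [Finset.nonempty_iff_ne_empty]
      rintro rfl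
      simp at hA
    set S : Set X := s '' (A : Set (Fin k)) with hS
    have hSne : S.Nonempty := by
      obtain ⟨i, hi⟩ := hAne
      exact ⟨s i, i, by simpa using hi, rfl⟩
    have hpos : ∀ x, 0 ≤ tf e S x := fun x => le_max_right _ _
    have hle : ∀ x, tf e S x ≤ e := fun x => by
      unfold tf
      refine max_le ?_ he.le
      have := Metric.infDist_nonneg (x := x) (s := S)
      linarith
    have h1 : (A.card : ℝ) * e ≤ ∑ i, tf e S (s i) := by
      calc (A.card : ℝ) * e = ∑ i ∈ A, e := by simp
        _ ≤ ∑ i ∈ A, tf e S (s i) := by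
            refine Finset.sum_le_sum fun i hi => ?_
            have : Metric.infDist (s i) S = 0 :=
              Metric.infDist_zero_of_mem ⟨i, by simpa using hi, rfl⟩
            simp [tf, this]
        _ ≤ ∑ i, tf e S (s i) :=
            Finset.sum_le_sum_of_subset_of_nonneg (Finset.subset_univ _) fun _ _ _ => hpos _
    have h2 : ∑ j, tf e S (t j) ≤ ((A.biUnion N).card : ℝ) * e := by
      calc ∑ j, tf e S (t j) = ∑ j ∈ A.biUnion N, tf e S (t j) := by
            symm
            refine Finset.sum_subset (Finset.subset_univ _) fun j _ hj => ?_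
            have hfar : ∀ x ∈ S, e ≤ dist (t j) x := by
              rintro x ⟨i, hi, rfl⟩
              by_contra hlt
              push Not at hlt
              apply hj
              rw [Finset.mem_biUnion]
              refine ⟨i, by simpa using hi, ?_⟩
              rw [hN, Finset.mem_filter]
              exact ⟨Finset.mem_univ _, by rw [dist_comm]; exact hlt⟩
            have : e ≤ Metric.infDist (t j) S := (Metric.le_infDist hSne).2 fun {x} hx => hfar x hx
            unfold tf
            exact max_eq_right (by linarith)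
        _ ≤ ∑ _j ∈ A.biUnion N, e := Finset.sum_le_sum fun _ _ => hle _
        _ = ((A.biUnion N).card : ℝ) * e := by simp
    have h3 := (abs_le.1 (h (tf e S) (lip_tf e S))).2
    have h4 : (((A.biUnion N).card : ℝ) + 1) ≤ A.card := by exact_mod_cast hA
    nlinarith
  obtain ⟨f, hf, hfN⟩ := (Finset.all_card_le_biUnion_card_iff_exists_injective N).1 key
  have hfb : Function.Bijective f := Finite.injective_iff_bijective.1 hf
  refine ⟨Equiv.ofBijective f hfb, fun i => ?_⟩
  have := hfN i
  simpa [hN] using this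

/-- **C9**: Hall matching. -/
theorem hall_fin {X : Type*} [PseudoMetricSpace X] {k : ℕ} {s t : Fin k → X} {d : ℝ}
    (hd : 0 ≤ d) (h : ∀ φ : X → ℝ, LipschitzWith 1 φ → |∑ i, φ (s i) - ∑ i, φ (t i)| ≤ d) :
    ∃ σ : Equiv.Perm (Fin k), ∀ i, dist (s i) (t (σ i)) ≤ d := by
  classical
  by_contra hcon
  push Not at hcon
  choose i hi using hcon
  obtain ⟨σ₀, -, hσ₀⟩ := Finset.exists_min_image (Finset.univ : Finset (Equiv.Perm (Fin k)))
    (fun σ => dist (s (i σ)) (t (σ (i σ)))) ⟨1, Finset.mem_univ _⟩
  obtain ⟨σ, hσ⟩ := hall_lt hd (hi σ₀) h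
  exact absurd (hσ (i σ)) (not_lt.2 (hσ₀ σ (Finset.mem_univ _)))

lemma exists_fin {X : Type*} (s : Multiset X) {k : ℕ} (hk : s.card = k) :
    ∃ a : Fin k → X, s = Multiset.map a Finset.univ.val := by
  induction s using Quot.inductionOn with
  | h l =>
    subst hk
    refine ⟨l.get, ?_⟩
    change (l : Multiset X) = Multiset.map l.get Finset.univ.val
    rw [Fin.univ_val_map, List.ofFn_get]

/-- **C9** for multisets (`= Close d s t` of `LocDef_607`). -/
theorem hall_multiset {X : Type*} [PseudoMetricSpace X] {s t : Multiset X} {d : ℝ}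
    (hcard : s.card = t.card) (hd : 0 ≤ d)
    (h : ∀ φ : X → ℝ, LipschitzWith 1 φ → |(s.map φ).sum - (t.map φ).sum| ≤ d) :
    Multiset.Rel (fun a b => dist a b ≤ d) s t := by
  obtain ⟨a, ha⟩ := exists_fin s rfl
  obtain ⟨b, hb⟩ := exists_fin t hcard.symm
  have h' : ∀ φ : X → ℝ, LipschitzWith 1 φ → |∑ i, φ (a i) - ∑ i, φ (b i)| ≤ d := by
    intro φ hφ
    have h2 := h φ hφ
    have e1 : (s.map φ).sum = ∑ i, φ (a i) := by
      conv_lhs => rw [ha]
      rw [Multiset.map_map]
      rfl
    have e2 : (t.map φ).sum = ∑ i, φ (b i) := by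
      conv_lhs => rw [hb]
      rw [Multiset.map_map]
      rfl
    rwa [e1, e2] at h2
  obtain ⟨σ, hσ⟩ := hall_fin hd h'
  have hb' : t = Multiset.map (fun i => b (σ i)) Finset.univ.val := by
    conv_lhs => rw [hb]
    have : (Finset.univ : Finset (Fin s.card)).val.map σ = Finset.univ.val := by
      simp
    conv_lhs => rw [← this]
    rw [Multiset.map_map]
    rfl
  rw [hb']
  have ha' : Multiset.Rel (fun a b => dist a b ≤ d)
      (Multiset.map a Finset.univ.val) (Multiset.map (fun i => b (σ i)) Finset.univ.val) := by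
    rw [Multiset.rel_map]
    exact Multiset.rel_refl_of_refl_on fun i _ => hσ i
  rw [← ha] at ha'
  exact ha'

end Crest.Agent.R235.CylHall_734
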