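import Mathlib

/-!
Row 235 (S0364), REG-CYL, leaf C13 (helper734): Morrey's lemma for a function with a weak gradient.
Pure, imports Mathlib only.
-/

set_option autoImplicit false

open MeasureTheory Metric Set Filter Complex
open scoped ContDiff Topology Convolution Pointwise

namespace Crest.Agent.R235.CylMor_734

noncomputable section

/-! ### smooth functions -/

/-- change of variables in a ball, centre `0`. -/
lemma int_scale (g : ℂ → ℝ) {t r : ℝ} (ht : 0 < t) :
    ∫ y in ball (0 : ℂ) r, g (t • y) = (t ^ 2)⁻¹ * ∫ u in ball (0 : ℂ) (t * r), g u := by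
  rw [Measure.setIntegral_comp_smul_of_pos volume g _ ht]
  have h1 : t • ball (0 : ℂ) r = ball (0 : ℂ) (t * r) := by
    rw [_root_.smul_ball ht.ne', smul_zero, Real.norm_eq_abs, abs_of_pos ht]
  rw [h1, Complex.finrank_real_complex, smul_eq_mul]

/-- change of variables: translation. -/
lemma int_trans (g : ℂ → ℝ) (z : ℂ) (r : ℝ) :
    ∫ y in ball (0 : ℂ) r, g (z + y) = ∫ u in ball z r, g u := by
  have h := (measurePreserving_add_left (volume : Measure ℂ) z).setIntegral_preimage_emb
    (MeasurableEquiv.addLeft z).measurableEmbedding g (ball z r)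
  rw [← h]
  congr 1
  congr 1
  ext y
  simp [mem_ball, dist_eq_norm]

/-- **Poincare on a ball with a fixed centre value**, centre `0`. -/
lemma osc_zero {f g : ℂ → ℝ} {r C b : ℝ} (hr : 0 < r) (hb : 0 < b) (hf : ContDiff ℝ 1 f)
    (hg : Continuous g) (g0 : ∀ u, 0 ≤ g u) (hfg : ∀ u ∈ ball (0 : ℂ) r, ‖fderiv ℝ f u‖ ≤ 2 * g u)
    (dec : ∀ t, 0 < t → t ≤ r → ∫ u in ball (0 : ℂ) t, g u ≤ C * t ^ (1 + b)) :
    ∫ y in ball (0 : ℂ) r, |f y - f 0| ≤ 2 * C / b * r ^ (2 + b) := by
  have hfin : volume (ball (0 : ℂ) r) < ⊤ := measure_ball_lt_top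
  -- pointwise
  have hpt : ∀ y ∈ ball (0 : ℂ) r, |f y - f 0| ≤ ∫ t in (0 : ℝ)..1, 2 * r * g (t • y) := by
    intro y hy
    have hy' : ‖y‖ < r := by simpa using hy
    have hd : ∀ t ∈ uIcc (0 : ℝ) 1, HasDerivAt (fun t : ℝ => f (t • y))
        (fderiv ℝ f (t • y) y) t := by
      intro t _
      have h1 : HasDerivAt (fun t : ℝ => t • y) ((1 : ℝ) • y) t :=
        (hasDerivAt_id t).smul_const y
      have h2 := (hf.differentiable one_ne_zero (t • y)).hasFDerivAt.comp_hasDerivAt t h1
      rw [one_smul] at h2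
      exact h2
    have hcont : Continuous fun t : ℝ => fderiv ℝ f (t • y) y :=
      ((hf.continuous_fderiv one_ne_zero).comp (continuous_id.smul continuous_const)).clm_apply
        continuous_const
    have hint := intervalIntegral.integral_eq_sub_of_hasDerivAt hd (hcont.intervalIntegrable 0 1)
    have h0 : f y - f 0 = ∫ t in (0 : ℝ)..1, fderiv ℝ f (t • y) y := by
      rw [hint]; simp
    rw [h0]
    have h01 : (0 : ℝ) ≤ 1 := zero_le_one
    have h3 : |∫ t in (0 : ℝ)..1, fderiv ℝ f (t • y) y| ≤ ∫ t in (0 : ℝ)..1, 2 * r * g (t • y) := by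
      rw [← Real.norm_eq_abs]
      refine intervalIntegral.norm_integral_le_of_norm_le h01 ?_
        ((continuous_const.mul (hg.comp (continuous_id.smul continuous_const))).intervalIntegrable
          0 1)
      refine ae_of_all _ fun t ht => ?_
      have hmem : t • y ∈ ball (0 : ℂ) r := by
        rw [mem_ball_zero_iff, norm_smul, Real.norm_eq_abs, abs_of_pos ht.1]
        nlinarith [ht.1, ht.2, norm_nonneg y]
      calc ‖fderiv ℝ f (t • y) y‖ ≤ ‖fderiv ℝ f (t • y)‖ * ‖y‖ := ContinuousLinearMap.le_opNorm _ _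
        _ ≤ (2 * g (t • y)) * r :=
            mul_le_mul (hfg _ hmem) hy'.le (norm_nonneg _) (by have := g0 (t • y); positivity)
        _ = 2 * r * g (t • y) := by ring
    exact h3
  -- joint integrability
  have hjc : Continuous fun p : ℂ × ℝ => 2 * r * g (p.2 • p.1) :=
    continuous_const.mul (hg.comp (continuous_snd.smul continuous_fst))
  have hjint : Integrable (fun p : ℂ × ℝ => 2 * r * g (p.2 • p.1))
      ((volume.restrict (ball (0 : ℂ) r)).prod (volume.restrict (Ioc (0 : ℝ) 1))) := by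
    rw [Measure.prod_restrict]
    have hK : IsCompact (closedBall (0 : ℂ) r ×ˢ Icc (0 : ℝ) 1) :=
      (isCompact_closedBall _ _).prod isCompact_Icc
    exact (hjc.continuousOn.integrableOn_compact hK).mono_set
      (prod_mono ball_subset_closedBall Ioc_subset_Icc_self)
  have hleft : ∫ y in ball (0 : ℂ) r, |f y - f 0| ≤
      ∫ y in ball (0 : ℂ) r, ∫ t in Ioc (0 : ℝ) 1, 2 * r * g (t • y) := by
    refine setIntegral_mono_on ?_ hjint.integral_prod_left measurableSet_ball ?_
    · have : Continuous fun y => |f y - f 0| := (hf.continuous.sub continuous_const).abs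
      exact (this.continuousOn.integrableOn_compact (isCompact_closedBall (0 : ℂ) r)).mono_set
        ball_subset_closedBall
    · intro y hy
      have := hpt y hy
      rwa [intervalIntegral.integral_of_le zero_le_one] at this
  rw [integral_integral_swap (f := fun y t => 2 * r * g (t • y)) hjint] at hleft
  refine hleft.trans ?_
  have hIint : IntervalIntegrable (fun t : ℝ => 2 * r * C * r ^ (1 + b) * t ^ (b - 1)) volume 0 1 :=
    (intervalIntegral.intervalIntegrable_rpow' (by linarith)).const_mul _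
  have hright : ∫ t in Ioc (0 : ℝ) 1, ∫ y in ball (0 : ℂ) r, 2 * r * g (t • y) ≤
      ∫ t in Ioc (0 : ℝ) 1, 2 * r * C * r ^ (1 + b) * t ^ (b - 1) := by
    refine setIntegral_mono_on hjint.integral_prod_right ?_ measurableSet_Ioc ?_
    · exact (intervalIntegrable_iff_integrableOn_Ioc_of_le zero_le_one).1 hIint
    · intro t ht
      have ht0 : 0 < t := ht.1
      rw [integral_const_mul, int_scale g ht0]
      have hd := dec (t * r) (by positivity) (by nlinarith [ht.2])
      have e1 : (t * r) ^ (1 + b) = t ^ (1 + b) * r ^ (1 + b) :=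
        Real.mul_rpow ht0.le hr.le
      have e2 : (t ^ 2)⁻¹ * t ^ (1 + b) = t ^ (b - 1) := by
        rw [← Real.rpow_natCast, ← Real.rpow_neg ht0.le, ← Real.rpow_add ht0]
        congr 1
        push_cast
        ring
      calc 2 * r * ((t ^ 2)⁻¹ * ∫ u in ball (0 : ℂ) (t * r), g u)
          ≤ 2 * r * ((t ^ 2)⁻¹ * (C * (t * r) ^ (1 + b))) := by
            refine mul_le_mul_of_nonneg_left ?_ (by positivity)
            exact mul_le_mul_of_nonneg_left hd (by positivity)
        _ = 2 * r * C * r ^ (1 + b) * ((t ^ 2)⁻¹ * t ^ (1 + b)) := by rw [e1]; ring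
        _ = 2 * r * C * r ^ (1 + b) * t ^ (b - 1) := by rw [e2]
  refine hright.trans (le_of_eq ?_)
  rw [← intervalIntegral.integral_of_le zero_le_one, intervalIntegral.integral_const_mul,
    integral_rpow (Or.inl (by linarith))]
  have e3 : (1 : ℝ) ^ (b - 1 + 1) = 1 := Real.one_rpow _
  have e4 : (0 : ℝ) ^ (b - 1 + 1) = 0 := Real.zero_rpow (by linarith)
  rw [e3, e4]
  have e5 : r ^ (2 + b) = r * r ^ (1 + b) := by
    rw [show (2 + b) = 1 + (1 + b) by ring, Real.rpow_add hr, Real.rpow_one]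
  rw [e5]
  have hb' : b - 1 + 1 = b := by ring
  rw [hb']
  ring

/-- the same with centre `z`. -/
lemma osc {f g : ℂ → ℝ} {z : ℂ} {r C b : ℝ} (hr : 0 < r) (hb : 0 < b) (hf : ContDiff ℝ 1 f)
    (hg : Continuous g) (g0 : ∀ u, 0 ≤ g u) (hfg : ∀ u ∈ ball z r, ‖fderiv ℝ f u‖ ≤ 2 * g u)
    (dec : ∀ t, 0 < t → t ≤ r → ∫ u in ball z t, g u ≤ C * t ^ (1 + b)) :
    ∫ y in ball z r, |f y - f z| ≤ 2 * C / b * r ^ (2 + b) := by
  have h := osc_zero (f := fun y => f (z + y)) (g := fun y => g (z + y)) (C := C) hr hb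
    (hf.comp (contDiff_const.add contDiff_id)) (hg.comp (continuous_const.add continuous_id))
    (fun u => g0 _) ?_ ?_
  · have e := int_trans (fun y => |f y - f z|) z r
    simp only [add_zero] at h
    rw [← e]
    exact h
  · intro u hu
    have e1 : fderiv ℝ (fun y => f (z + y)) u = fderiv ℝ f (z + u) := by
      rw [fderiv_comp_add_left]
    rw [e1]
    refine hfg _ ?_
    simpa [mem_ball, dist_eq_norm] using hu
  · intro t ht htr
    rw [int_trans g z t]
    exact dec t ht htr

/-- area of a ball. -/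
lemma vol_ball (m : ℂ) {s : ℝ} (hs : 0 ≤ s) : (volume : Measure ℂ).real (ball m s) = Real.pi * s ^ 2 := by
  rw [Measure.real, Complex.volume_ball]
  simp [ENNReal.toReal_mul, ENNReal.toReal_ofReal hs, NNReal.coe_real_pi]
  ring

/-- **Morrey for smooth functions, two points.** -/
lemma two_points {f g : ℂ → ℝ} {z z' : ℂ} {C b : ℝ} (hb : 0 < b) (hz : z ≠ z')
    (hf : ContDiff ℝ 1 f) (hg : Continuous g) (g0 : ∀ u, 0 ≤ g u)
    (hfg : ∀ u ∈ ball z (dist z z'), ‖fderiv ℝ f u‖ ≤ 2 * g u)
    (hfg' : ∀ u ∈ ball z' (dist z z'), ‖fderiv ℝ f u‖ ≤ 2 * g u)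
    (dec : ∀ t, 0 < t → t ≤ dist z z' → ∫ u in ball z t, g u ≤ C * t ^ (1 + b))
    (dec' : ∀ t, 0 < t → t ≤ dist z z' → ∫ u in ball z' t, g u ≤ C * t ^ (1 + b)) :
    |f z - f z'| ≤ 16 / Real.pi * (C / b) * dist z z' ^ b := by
  set r := dist z z' with hrdef
  have hr : 0 < r := dist_pos.2 hz
  have h1 := osc hr hb hf hg g0 hfg dec
  have h2 := osc hr hb hf hg g0 hfg' dec'
  set m : ℂ := midpoint ℝ z z' with hm
  have hd1 : dist m z = r / 2 := by
    rw [hm, dist_midpoint_left]; simp [hrdef]; ring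
  have hd2 : dist m z' = r / 2 := by
    rw [hm, dist_midpoint_right]; simp [hrdef]; ring
  have hs1 : ball m (r / 2) ⊆ ball z r := ball_subset_ball' (by rw [hd1]; linarith)
  have hs2 : ball m (r / 2) ⊆ ball z' r := ball_subset_ball' (by rw [hd2]; linarith)
  have hc1 : Continuous fun y => |f y - f z| := (hf.continuous.sub continuous_const).abs
  have hc2 : Continuous fun y => |f y - f z'| := (hf.continuous.sub continuous_const).abs
  have i1 : ∀ (c : ℂ) (s : ℝ), IntegrableOn (fun y => |f y - f z|) (ball c s) := fun c s =>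
    (hc1.continuousOn.integrableOn_compact (isCompact_closedBall c s)).mono_set
      ball_subset_closedBall
  have i2 : ∀ (c : ℂ) (s : ℝ), IntegrableOn (fun y => |f y - f z'|) (ball c s) := fun c s =>
    (hc2.continuousOn.integrableOn_compact (isCompact_closedBall c s)).mono_set
      ball_subset_closedBall
  have h3 : ∫ y in ball m (r / 2), |f y - f z| ≤ 2 * C / b * r ^ (2 + b) :=
    (setIntegral_mono_set (i1 z r) (ae_of_all _ fun _ => abs_nonneg _)
      (ae_of_all _ fun _ hx => hs1 hx)).trans h1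
  have h4 : ∫ y in ball m (r / 2), |f y - f z'| ≤ 2 * C / b * r ^ (2 + b) :=
    (setIntegral_mono_set (i2 z' r) (ae_of_all _ fun _ => abs_nonneg _)
      (ae_of_all _ fun _ hx => hs2 hx)).trans h2
  have h5 : |f z - f z'| * (Real.pi * (r / 2) ^ 2) ≤ 2 * (2 * C / b * r ^ (2 + b)) := by
    have e : |f z - f z'| * (Real.pi * (r / 2) ^ 2) = ∫ _y in ball m (r / 2), |f z - f z'| := by
      rw [setIntegral_const, vol_ball m (by positivity), smul_eq_mul, mul_comm]
    rw [e]
    calc ∫ _y in ball m (r / 2), |f z - f z'|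
        ≤ ∫ y in ball m (r / 2), (|f y - f z| + |f y - f z'|) := by
          refine setIntegral_mono_on (integrableOn_const measure_ball_lt_top.ne)
            ((i1 _ _).add (i2 _ _)) measurableSet_ball ?_
          intro y _
          have := abs_sub_le (f z) (f y) (f z')
          rw [abs_sub_comm (f z) (f y)] at this
          exact this
      _ = (∫ y in ball m (r / 2), |f y - f z|) + ∫ y in ball m (r / 2), |f y - f z'| :=
          integral_add (i1 _ _) (i2 _ _)
      _ ≤ 2 * (2 * C / b * r ^ (2 + b)) := by linarith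
  have e5 : r ^ (2 + b) = r ^ 2 * r ^ b := by
    rw [Real.rpow_add hr]; norm_num
  rw [e5] at h5
  have hpi := Real.pi_pos
  have h6 : |f z - f z'| * (Real.pi * r ^ 2) ≤ (16 / Real.pi * (C / b) * r ^ b) * (Real.pi * r ^ 2) := by
    have e6 : (16 / Real.pi * (C / b) * r ^ b) * (Real.pi * r ^ 2) =
        4 * (2 * (2 * C / b * (r ^ 2 * r ^ b))) := by
      field_simp
      ring
    rw [e6]
    nlinarith
  exact le_of_mul_le_mul_right h6 (by positivity)

/-! ### mollification -/

/-- `G` cut off to the ball. -/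
def ct (c : ℂ) (R : ℝ) (G : ℂ → ℝ) : ℂ → ℝ := (ball c R).indicator G

lemma int_ct {c : ℂ} {R : ℝ} {G : ℂ → ℝ} (hG : IntegrableOn G (ball c R)) :
    Integrable (ct c R G) := (integrable_indicator_iff measurableSet_ball).2 hG

/-- the mollified function. -/
def ml (φ : ContDiffBump (0 : ℂ)) (c : ℂ) (R : ℝ) (G : ℂ → ℝ) : ℂ → ℝ :=
  (φ.normed volume ⋆[ContinuousLinearMap.lsmul ℝ ℝ, volume] ct c R G)

lemma ml_contDiff (φ : ContDiffBump (0 : ℂ)) {c : ℂ} {R : ℝ} {G : ℂ → ℝ}
    (hG : IntegrableOn G (ball c R)) : ContDiff ℝ 1 (ml φ c R G) :=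
  HasCompactSupport.contDiff_convolution_left (n := 1) _ φ.hasCompactSupport_normed
    (φ.contDiff_normed (n := 1)) (int_ct hG).locallyIntegrable

lemma ml_eq (φ : ContDiffBump (0 : ℂ)) (c : ℂ) (R : ℝ) (G : ℂ → ℝ) (z : ℂ) :
    ml φ c R G z = ∫ y, φ.normed volume (z - y) * ct c R G y := by
  unfold ml
  rw [convolution_eq_swap]
  rfl

lemma ml_eq' (φ : ContDiffBump (0 : ℂ)) (c : ℂ) (R : ℝ) (G : ℂ → ℝ) (z : ℂ) :
    ml φ c R G z = ∫ w, φ.normed volume w * ct c R G (z - w) := rfl

lemma ml_nonneg (φ : ContDiffBump (0 : ℂ)) (c : ℂ) (R : ℝ) {G : ℂ → ℝ} (h : ∀ z, 0 ≤ G z) (z : ℂ) :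
    0 ≤ ml φ c R G z := by
  rw [ml_eq]
  refine integral_nonneg fun y => mul_nonneg (φ.nonneg_normed _) ?_
  exact indicator_nonneg (fun _ _ => h _) _

/-- the derivative of the mollified function. -/
lemma fderiv_ml (φ : ContDiffBump (0 : ℂ)) {c : ℂ} {R : ℝ} {F : ℂ → ℝ}
    (hF : IntegrableOn F (ball c R)) (z e : ℂ) :
    fderiv ℝ (ml φ c R F) z e =
      - ∫ y in ball c R, F y * fderiv ℝ (fun y => φ.normed volume (z - y)) y e := by
  have hφs : ContDiff ℝ 1 (φ.normed (volume : Measure ℂ)) := φ.contDiff_normed (n := 1)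
  have h1 := HasCompactSupport.hasFDerivAt_convolution_left (μ := (volume : Measure ℂ))
    (ContinuousLinearMap.lsmul ℝ ℝ) φ.hasCompactSupport_normed hφs
    (int_ct hF).locallyIntegrable z
  have h2 : fderiv ℝ (ml φ c R F) z = _ := h1.fderiv
  rw [h2, convolution_eq_swap]
  have hex : Integrable (fun t => ((ContinuousLinearMap.lsmul ℝ ℝ).precompL ℂ)
      (fderiv ℝ (φ.normed (volume : Measure ℂ)) (z - t)) (ct c R F t)) := by
    have := (HasCompactSupport.convolutionExists_left (μ := (volume : Measure ℂ))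
      ((ContinuousLinearMap.lsmul ℝ ℝ).precompL ℂ)
      ((φ.hasCompactSupport_normed (μ := (volume : Measure ℂ))).fderiv ℝ)
      (hφs.continuous_fderiv one_ne_zero) (int_ct hF).locallyIntegrable z)
    exact this.integrable_swap
  rw [ContinuousLinearMap.integral_apply hex]
  rw [← integral_neg, ← integral_indicator measurableSet_ball]
  congr 1
  ext t
  have hcomp : fderiv ℝ (fun y => φ.normed (volume : Measure ℂ) (z - y)) t e =
      - fderiv ℝ (φ.normed (volume : Measure ℂ)) (z - t) e := by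
    have hd : HasFDerivAt (fun y : ℂ => z - y) (-ContinuousLinearMap.id ℝ ℂ) t :=
      (hasFDerivAt_id t).const_sub z
    have := ((hφs.differentiable one_ne_zero (z - t)).hasFDerivAt.comp t hd).fderiv
    have e2 : (φ.normed (volume : Measure ℂ) ∘ fun y : ℂ => z - y) =
      fun y => φ.normed (volume : Measure ℂ) (z - y) := rfl
    rw [e2] at this
    rw [this]
    simp
  by_cases ht : t ∈ ball c R
  · rw [indicator_of_mem ht, hcomp]
    simp [ct, indicator_of_mem ht, ContinuousLinearMap.precompL_apply]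
    ring
  · rw [indicator_of_notMem ht]
    simp [ct, indicator_of_notMem ht]

/-- the function `F` on `ball c R` has a weak gradient bounded by `G`. -/
def WB (c : ℂ) (R : ℝ) (F G : ℂ → ℝ) : Prop :=
  ∀ η : ℂ → ℝ, ContDiff ℝ ∞ η → HasCompactSupport η → tsupport η ⊆ ball c R →
    ∀ e : ℂ, (e = 1 ∨ e = I) →
      |∫ y in ball c R, F y * fderiv ℝ η y e| ≤ ∫ y in ball c R, |η y| * G y

/-- a real linear functional is bounded by its values at `1` and `I`. -/
lemma norm_le_two (L : ℂ →L[ℝ] ℝ) {a : ℝ} (h1 : |L 1| ≤ a) (h2 : |L I| ≤ a) : ‖L‖ ≤ 2 * a := by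
  have ha : 0 ≤ a := (abs_nonneg _).trans h1
  refine L.opNorm_le_bound (by positivity) fun w => ?_
  have hw : w = w.re • (1 : ℂ) + w.im • I := by
    apply Complex.ext <;> simp
  have e : L w = w.re * L 1 + w.im * L I := by
    conv_lhs => rw [hw]
    rw [map_add, map_smul, map_smul, smul_eq_mul, smul_eq_mul]
  rw [e, Real.norm_eq_abs]
  have h3 : |w.re| ≤ ‖w‖ := Complex.abs_re_le_norm w
  have h4 : |w.im| ≤ ‖w‖ := Complex.abs_im_le_norm w
  calc |w.re * L 1 + w.im * L I| ≤ |w.re * L 1| + |w.im * L I| := abs_add_le _ _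
    _ = |w.re| * |L 1| + |w.im| * |L I| := by rw [abs_mul, abs_mul]
    _ ≤ ‖w‖ * a + ‖w‖ * a := by
        gcongr
    _ = 2 * a * ‖w‖ := by ring

/-- the gradient of the mollified function is bounded by the mollified bound. -/
lemma fderiv_ml_le (φ : ContDiffBump (0 : ℂ)) {c : ℂ} {R : ℝ} {F G : ℂ → ℝ}
    (hF : IntegrableOn F (ball c R)) (hw : WB c R F G) {z : ℂ} (hz : dist z c + φ.rOut < R) :
    ‖fderiv ℝ (ml φ c R F) z‖ ≤ 2 * ml φ c R G z := by
  set η : ℂ → ℝ := fun y => φ.normed (volume : Measure ℂ) (z - y) with hη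
  have hs : ContDiff ℝ ∞ η := (φ.contDiff_normed (n := (⊤ : ℕ∞))).comp (contDiff_const.sub contDiff_id)
  have h0 : ∀ y, y ∉ closedBall z φ.rOut → η y = 0 := by
    intro y hy
    have : z - y ∉ Function.support (φ.normed (volume : Measure ℂ)) := by
      rw [φ.support_normed_eq, mem_ball_zero_iff]
      rw [mem_closedBall, dist_comm, dist_eq_norm] at hy
      linarith
    simpa [Function.mem_support] using this
  have hc : HasCompactSupport η := HasCompactSupport.intro (isCompact_closedBall z φ.rOut) h0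
  have hsup : tsupport η ⊆ ball c R := by
    have h1 : tsupport η ⊆ closedBall z φ.rOut := by
      refine closure_minimal ?_ isClosed_closedBall
      intro y hy
      by_contra h
      exact hy (h0 y h)
    exact h1.trans (closedBall_subset_ball' (by linarith))
  have hml : ∫ y in ball c R, |η y| * G y = ml φ c R G z := by
    rw [ml_eq, ← integral_indicator measurableSet_ball]
    congr 1
    ext y
    by_cases hy : y ∈ ball c R
    · rw [indicator_of_mem hy, ct, indicator_of_mem hy, abs_of_nonneg (φ.nonneg_normed _)]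
    · rw [indicator_of_notMem hy, ct, indicator_of_notMem hy, mul_zero]
  have hb : ∀ e : ℂ, (e = 1 ∨ e = I) → |fderiv ℝ (ml φ c R F) z e| ≤ ml φ c R G z := by
    intro e he
    rw [fderiv_ml φ hF z e, abs_neg, ← hml]
    exact hw η hs hc hsup e he
  exact norm_le_two _ (hb 1 (Or.inl rfl)) (hb I (Or.inr rfl))

/-- the decay is kept by mollification. -/
lemma ml_decay (φ : ContDiffBump (0 : ℂ)) {c : ℂ} {R R₁ r₀ C b : ℝ} {G : ℂ → ℝ}
    (hG : IntegrableOn G (ball c R)) (hR : R₁ + r₀ ≤ R)
    (dec : ∀ p ∈ ball c R₁, ∀ t, 0 < t → t ≤ r₀ → ∫ u in ball p t, G u ≤ C * t ^ (1 + b))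
    {z : ℂ} (hz : dist z c + φ.rOut < R₁) {t : ℝ} (ht : 0 < t) (htr : t ≤ r₀) :
    ∫ u in ball z t, ml φ c R G u ≤ C * t ^ (1 + b) := by
  have hint : Integrable (fun p : ℂ × ℂ => φ.normed (volume : Measure ℂ) p.2 * ct c R G (p.1 - p.2))
      ((volume : Measure ℂ).prod (volume : Measure ℂ)) :=
    Integrable.convolution_integrand (ContinuousLinearMap.lsmul ℝ ℝ)
      (μ := (volume : Measure ℂ)) (ν := (volume : Measure ℂ))
      (φ.continuous_normed.integrable_of_hasCompactSupport φ.hasCompactSupport_normed) (int_ct hG)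
  have hint' : Integrable (fun p : ℂ × ℂ => φ.normed (volume : Measure ℂ) p.2 *
      ct c R G (p.1 - p.2)) ((volume.restrict (ball z t)).prod (volume : Measure ℂ)) := by
    have h1 : (volume.restrict (ball z t)).prod (volume : Measure ℂ) =
        ((volume : Measure ℂ).prod (volume : Measure ℂ)).restrict (ball z t ×ˢ univ) := by
      rw [← Measure.prod_restrict, Measure.restrict_univ]
    rw [h1]
    exact hint.integrableOn
  have e1 : ∫ u in ball z t, ml φ c R G u =
      ∫ w, ∫ u in ball z t, φ.normed (volume : Measure ℂ) w * ct c R G (u - w) := by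
    simp_rw [ml_eq']
    exact integral_integral_swap (f := fun u w => φ.normed (volume : Measure ℂ) w *
      ct c R G (u - w)) hint'
  rw [e1]
  have e2 : ∫ w, φ.normed (volume : Measure ℂ) w * (C * t ^ (1 + b)) = C * t ^ (1 + b) := by
    rw [integral_mul_const, φ.integral_normed, one_mul]
  rw [← e2]
  refine integral_mono hint'.integral_prod_right
    ((φ.continuous_normed.integrable_of_hasCompactSupport φ.hasCompactSupport_normed).mul_const _)
    ?_
  intro w
  simp only
  rw [integral_const_mul]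
  by_cases hw : w ∈ Function.support (φ.normed (volume : Measure ℂ))
  · refine mul_le_mul_of_nonneg_left ?_ (φ.nonneg_normed _)
    rw [φ.support_normed_eq, mem_ball_zero_iff] at hw
    have hp : z - w ∈ ball c R₁ := by
      rw [mem_ball, dist_eq_norm]
      rw [dist_eq_norm] at hz
      calc ‖z - w - c‖ = ‖(z - c) - w‖ := by congr 1; ring
        _ ≤ ‖z - c‖ + ‖w‖ := norm_sub_le _ _
        _ < R₁ := by linarith
    have e3 : ∫ u in ball z t, ct c R G (u - w) = ∫ v in ball (z - w) t, ct c R G v := by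
      have h := (measurePreserving_sub_right (volume : Measure ℂ) w).setIntegral_preimage_emb
        (MeasurableEquiv.subRight w).measurableEmbedding (ct c R G) (ball (z - w) t)
      rw [← h]
      congr 2
      ext y
      simp [mem_ball, dist_eq_norm]
    rw [e3]
    have e4 : ∫ v in ball (z - w) t, ct c R G v = ∫ v in ball (z - w) t, G v := by
      refine setIntegral_congr_fun measurableSet_ball fun v hv => ?_
      have : v ∈ ball c R := by
        rw [mem_ball] at hp hv ⊢
        calc dist v c ≤ dist v (z - w) + dist (z - w) c := dist_triangle _ _ _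
          _ < R := by linarith
      simp [ct, indicator_of_mem this]
    rw [e4]
    exact dec _ hp t ht htr
  · have : φ.normed (volume : Measure ℂ) w = 0 := by simpa [Function.mem_support] using hw
    rw [this]
    simp

/-- the mollifiers. -/
def bp (n : ℕ) : ContDiffBump (0 : ℂ) where
  rIn := 1 / (n + 1)
  rOut := 2 / (n + 1)
  rIn_pos := by positivity
  rIn_lt_rOut := by gcongr; norm_num

lemma bp_out : Tendsto (fun n => (bp n).rOut) atTop (𝓝 0) := by
  have h := (tendsto_one_div_add_atTop_nhds_zero_nat (𝕜 := ℝ)).const_mul 2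
  rw [mul_zero] at h
  refine h.congr fun n => ?_
  simp only [bp]
  ring

lemma ml_tendsto {c : ℂ} {R : ℝ} {F : ℂ → ℝ} (hF : IntegrableOn F (ball c R)) :
    ∀ᵐ z : ℂ, z ∈ ball c R → Tendsto (fun n => ml (bp n) c R F z) atTop (𝓝 (F z)) := by
  have h := ContDiffBump.ae_convolution_tendsto_right_of_locallyIntegrable
    (μ := (volume : Measure ℂ)) (φ := bp) (l := atTop) (K := 2) bp_out
    (Eventually.of_forall fun n => by simp only [bp]; apply le_of_eq; ring)
    (int_ct hF).locallyIntegrable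
  filter_upwards [h] with z hz hzb
  have e : ct c R F z = F z := by simp [ct, indicator_of_mem hzb]
  rw [← e]
  exact hz

/-- **Morrey's lemma** (weak gradient bounded by `G`, the integrals of `G` over small balls decay). -/
theorem morrey {c : ℂ} {R R₁ r₀ C b : ℝ} {F G : ℂ → ℝ} (hr₀ : 0 < r₀) (hR : R₁ + r₀ ≤ R)
    (hb : 0 < b) (hF : IntegrableOn F (ball c R)) (hG : IntegrableOn G (ball c R))
    (G0 : ∀ z, 0 ≤ G z) (hw : WB c R F G)
    (dec : ∀ p ∈ ball c R₁, ∀ t, 0 < t → t ≤ r₀ → ∫ u in ball p t, G u ≤ C * t ^ (1 + b)) :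
    ∃ T : Set ℂ, (∀ᵐ z : ℂ, z ∈ ball c R₁ → z ∈ T) ∧ ∀ z ∈ T, ∀ z' ∈ T, z ∈ ball c R₁ →
      z' ∈ ball c R₁ → dist z z' ≤ r₀ →
      |F z - F z'| ≤ 16 / Real.pi * (C / b) * dist z z' ^ b := by
  refine ⟨{z | z ∈ ball c R → Tendsto (fun n => ml (bp n) c R F z) atTop (𝓝 (F z))}, ?_, ?_⟩
  · filter_upwards [ml_tendsto hF] with z hz _ using hz
  intro z hz z' hz' hzb hzb' hd
  by_cases hne : z = z'
  · subst hne
    simp [Real.zero_rpow hb.ne']
  have hsub : ball c R₁ ⊆ ball c R := ball_subset_ball (by linarith)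
  have t1 := hz (hsub hzb)
  have t2 := hz' (hsub hzb')
  have t3 : Tendsto (fun n => |ml (bp n) c R F z - ml (bp n) c R F z'|) atTop
      (𝓝 |F z - F z'|) := (t1.sub t2).abs
  refine le_of_tendsto t3 ?_
  rw [mem_ball] at hzb hzb'
  have h1 : ∀ᶠ n in atTop, (bp n).rOut < R₁ - dist z c :=
    (tendsto_order.1 bp_out).2 _ (by linarith)
  have h2 : ∀ᶠ n in atTop, (bp n).rOut < R₁ - dist z' c :=
    (tendsto_order.1 bp_out).2 _ (by linarith)
  filter_upwards [h1, h2] with n hn1 hn2
  have hmc : Continuous (ml (bp n) c R G) := (ml_contDiff (bp n) hG).continuous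
  refine two_points hb hne (ml_contDiff (bp n) hF) hmc (ml_nonneg _ _ _ G0) ?_ ?_ ?_ ?_
  · intro u hu
    rw [mem_ball] at hu
    refine fderiv_ml_le (bp n) hF hw ?_
    have := dist_triangle u z c
    linarith
  · intro u hu
    rw [mem_ball] at hu
    refine fderiv_ml_le (bp n) hF hw ?_
    have := dist_triangle u z' c
    linarith
  · intro t ht htr
    exact ml_decay (bp n) hG hR dec (by linarith) ht (htr.trans hd)
  · intro t ht htr
    exact ml_decay (bp n) hG hR dec (by linarith) ht (htr.trans hd)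

/-- Cauchy-Schwarz on a ball. -/
lemma cs {p : ℂ} {t b M : ℝ} {g : ℂ → ℝ} (ht : 0 < t) (hM : 0 ≤ M) (g0 : ∀ z, 0 ≤ g z)
    (hg : AEStronglyMeasurable g (volume.restrict (ball p t)))
    (hg2 : IntegrableOn (fun z => g z ^ 2) (ball p t))
    (h : ∫ z in ball p t, g z ^ 2 ≤ M ^ 2 * t ^ (2 * b)) :
    IntegrableOn g (ball p t) ∧ ∫ z in ball p t, g z ≤ 3 * M * t ^ (1 + b) := by
  have hfin : (volume : Measure ℂ) (ball p t) ≠ ⊤ := measure_ball_lt_top.ne
  have hc : IntegrableOn (fun _ : ℂ => (1 : ℝ)) (ball p t) := integrableOn_const hfin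
  have hgi : IntegrableOn g (ball p t) := by
    refine Integrable.mono' (hc.add hg2) hg (ae_of_all _ fun z => ?_)
    rw [Real.norm_eq_abs, abs_of_nonneg (g0 z)]
    simp only [Pi.add_apply]
    nlinarith [sq_nonneg (g z - 1), g0 z]
  refine ⟨hgi, ?_⟩
  have key : ∀ M' : ℝ, M < M' → ∫ z in ball p t, g z ≤ 3 * M' * t ^ (1 + b) := by
    intro M' hM'
    have hM'0 : 0 < M' := by linarith
    set l : ℝ := M' * t ^ (b - 1) with hl
    have hl0 : 0 < l := by positivity
    have h1 : ∫ z in ball p t, g z ≤ ∫ z in ball p t, (l / 2 + 1 / (2 * l) * g z ^ 2) := by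
      refine setIntegral_mono_on hgi ((integrableOn_const hfin).add (hg2.const_mul _))
        measurableSet_ball fun z _ => ?_
      have h2 : 0 ≤ (g z - l) ^ 2 / (2 * l) := by positivity
      have e : (g z - l) ^ 2 / (2 * l) = l / 2 + 1 / (2 * l) * g z ^ 2 - g z := by
        field_simp
        ring
      linarith
    have hcl : IntegrableOn (fun _ : ℂ => l / 2) (ball p t) := integrableOn_const hfin
    have e1 : ∫ z in ball p t, (l / 2 + 1 / (2 * l) * g z ^ 2) =
        (Real.pi * t ^ 2) * (l / 2) + 1 / (2 * l) * ∫ z in ball p t, g z ^ 2 := by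
      rw [integral_add hcl (hg2.const_mul _), setIntegral_const,
        integral_const_mul, vol_ball p ht.le, smul_eq_mul]
    rw [e1] at h1
    have h2 : 1 / (2 * l) * ∫ z in ball p t, g z ^ 2 ≤ 1 / (2 * l) * (M' ^ 2 * t ^ (2 * b)) := by
      refine mul_le_mul_of_nonneg_left (h.trans ?_) (by positivity)
      have : M ^ 2 ≤ M' ^ 2 := by nlinarith
      gcongr
    have e2 : 1 / (2 * l) * (M' ^ 2 * t ^ (2 * b)) = M' / 2 * t ^ (1 + b) := by
      have e3 : t ^ (2 * b) = t ^ (b - 1) * t ^ (1 + b) := by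
        rw [← Real.rpow_add ht]; congr 1; ring
      have h4 : t ^ (b - 1) ≠ 0 := (Real.rpow_pos_of_pos ht _).ne'
      rw [e3, hl]
      field_simp
    have e4 : (Real.pi * t ^ 2) * (l / 2) = Real.pi / 2 * M' * t ^ (1 + b) := by
      have e5 : t ^ (1 + b) = t ^ 2 * t ^ (b - 1) := by
        rw [← Real.rpow_natCast, ← Real.rpow_add ht]; congr 1; push_cast; ring
      rw [e5, hl]
      ring
    rw [e4] at h1
    rw [e2] at h2
    have hpi : Real.pi < 4 := by linarith [Real.pi_lt_d2]
    have htb : 0 < t ^ (1 + b) := Real.rpow_pos_of_pos ht _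
    have h5 : 0 < M' * t ^ (1 + b) := by positivity
    nlinarith [mul_pos h5 (sub_pos.2 hpi)]
  have htend : Tendsto (fun M' : ℝ => 3 * M' * t ^ (1 + b)) (𝓝[>] M) (𝓝 (3 * M * t ^ (1 + b))) := by
    have hcont : Continuous fun M' : ℝ => 3 * M' * t ^ (1 + b) := by fun_prop
    exact (hcont.tendsto M).mono_left nhdsWithin_le_nhds
  refine ge_of_tendsto htend ?_
  filter_upwards [self_mem_nhdsWithin] with M' hM'
  exact key M' hM'

/-- **Morrey's lemma with an energy.** -/
theorem morrey_energy {c : ℂ} {R R₁ r₀ M b : ℝ} {F G : ℂ → ℝ} (hr₀ : 0 < r₀) (hR : R₁ + r₀ ≤ R)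
    (hb : 0 < b) (hM : 0 ≤ M) (hF : IntegrableOn F (ball c R))
    (hG : AEStronglyMeasurable G (volume.restrict (ball c R)))
    (hG2 : IntegrableOn (fun z => G z ^ 2) (ball c R))
    (G0 : ∀ z, 0 ≤ G z) (hw : WB c R F G)
    (dec : ∀ p ∈ ball c R₁, ∀ t, 0 < t → t ≤ r₀ →
      ∫ u in ball p t, G u ^ 2 ≤ M ^ 2 * t ^ (2 * b)) :
    ∃ T : Set ℂ, (∀ᵐ z : ℂ, z ∈ ball c R₁ → z ∈ T) ∧ ∀ z ∈ T, ∀ z' ∈ T, z ∈ ball c R₁ →
      z' ∈ ball c R₁ → dist z z' ≤ r₀ →
      |F z - F z'| ≤ 16 / b * M * dist z z' ^ b := by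
  have hfin : (volume : Measure ℂ) (ball c R) ≠ ⊤ := measure_ball_lt_top.ne
  have hc : IntegrableOn (fun _ : ℂ => (1 : ℝ)) (ball c R) := integrableOn_const hfin
  have hgi : IntegrableOn G (ball c R) := by
    refine Integrable.mono' (hc.add hG2) hG (ae_of_all _ fun z => ?_)
    rw [Real.norm_eq_abs, abs_of_nonneg (G0 z)]
    simp only [Pi.add_apply]
    nlinarith [sq_nonneg (G z - 1), G0 z]
  obtain ⟨T, hT, h⟩ := morrey (C := 3 * M) hr₀ hR hb hF hgi G0 hw (by
    intro p hp t ht htr
    have hsub : ball p t ⊆ ball c R := by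
      refine ball_subset_ball' ?_
      rw [mem_ball] at hp
      linarith
    exact (cs ht hM G0 (hG.mono_measure (Measure.restrict_mono hsub le_rfl)) (hG2.mono_set hsub)
      (dec p hp t ht htr)).2)
  refine ⟨T, hT, fun z hz z' hz' hzb hzb' hd => (h z hz z' hz' hzb hzb' hd).trans ?_⟩
  have hpi : 3 ≤ Real.pi := Real.pi_gt_three.le
  refine mul_le_mul_of_nonneg_right ?_ (by positivity)
  have e : 16 / Real.pi * (3 * M / b) = (16 / b * M) * (3 / Real.pi) := by ring
  rw [e]
  have h1 : 3 / Real.pi ≤ 1 := by rw [div_le_one Real.pi_pos]; exact hpi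
  have h2 : 0 ≤ 16 / b * M := by positivity
  nlinarith

end

end Crest.Agent.R235.CylMor_734
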