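import Mathlib
import Crest.Agent.R096.Osc1_802

/-!
Row 235, PACKAGE REG, block CYL, leaf C10 (helper125), part 1: the Morrey (Dirichlet growth) lemma
for bounded functions of the plane with a weak gradient of Morrey class.
-/

set_option autoImplicit false

open MeasureTheory Metric Set Filter
open scoped ContDiff Topology ENNReal Convolution

namespace Crest.Agent.R235.CylMorrey_125

open Crest.Agent.R096.Osc_802

/-- contraction to the centre of a disc. -/
lemma contract_ball {h : ℂ → ℝ≥0∞} (hh : Measurable h) {x : ℂ} {ρ t : ℝ} (ht0 : 0 < t) :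
    ∫⁻ y in ball x ρ, h (x + t • (y - x)) ≤
      ENNReal.ofReal (t ^ 2)⁻¹ * ∫⁻ z in ball x (t * ρ), h z := by
  have e1 : ∀ y, x + t • (y - x) = (x - t • x) + t • y := by
    intro y; rw [smul_sub]; abel
  have hm : Measurable ((ball x (t * ρ)).indicator h) := hh.indicator measurableSet_ball
  calc ∫⁻ y in ball x ρ, h (x + t • (y - x))
      ≤ ∫⁻ y, (ball x (t * ρ)).indicator h ((x - t • x) + t • y) := by
        rw [← lintegral_indicator measurableSet_ball]
        apply lintegral_mono; intro y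
        by_cases hy : y ∈ ball x ρ
        · have : x + t • (y - x) ∈ ball x (t * ρ) := by
            rw [mem_ball, dist_eq_norm, add_sub_cancel_left, norm_smul, Real.norm_eq_abs,
              abs_of_pos ht0]
            rw [mem_ball, dist_eq_norm] at hy
            exact mul_lt_mul_of_pos_left hy ht0
          simp only [indicator_of_mem hy]
          rw [← e1, indicator_of_mem this]
        · simp [indicator_of_notMem hy]
    _ = ∫⁻ z, (ball x (t * ρ)).indicator h ((x - t • x) + z) ∂(Measure.map (t • ·) volume) := by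
        have hm2 : Measurable fun z => (ball x (t * ρ)).indicator h ((x - t • x) + z) :=
          hm.comp (measurable_const_add _)
        exact (lintegral_map hm2 (measurable_const_smul t)).symm
    _ = ENNReal.ofReal (t ^ 2)⁻¹ *
          ∫⁻ z, (ball x (t * ρ)).indicator h ((x - t • x) + z) := by
        rw [Measure.map_addHaar_smul volume ht0.ne', lintegral_smul_measure,
          abs_of_pos (by positivity), smul_eq_mul, Complex.finrank_real_complex]
    _ = _ := by
        rw [lintegral_add_left_eq_self (μ := volume) ((ball x (t * ρ)).indicator h),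
          lintegral_indicator measurableSet_ball]

/-- mean form. -/
lemma mean_ball {u : ℂ → ℝ} (hu : ContDiff ℝ 1 u) {x : ℂ} {ρ C b : ℝ} (hρ : 0 < ρ) (hb : 0 < b)
    (hC : 0 ≤ C)
    (h : ∀ s, 0 < s → s ≤ ρ → ∫⁻ z in ball x s, ‖fderiv ℝ u z‖ₑ ≤ ENNReal.ofReal (C * s ^ (1 + b))) :
    ∫⁻ y in ball x ρ, ‖u y - u x‖ₑ ≤ ENNReal.ofReal (C * ρ ^ (2 + b) / b) := by
  set H : ℂ → ℝ≥0∞ := fun z => ‖fderiv ℝ u z‖ₑ with hH
  have hHc : Continuous H := (hu.continuous_fderiv one_ne_zero).enorm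
  have step1 : ∀ y ∈ ball x ρ, ‖u y - u x‖ₑ ≤ ENNReal.ofReal ρ *
      ∫⁻ t in Ioc (0 : ℝ) 1, H (x + t • (y - x)) := by
    intro y hy
    refine (enorm_sub_le_lintegral hu x y).trans ?_
    gcongr
    rw [← ofReal_norm]
    apply ENNReal.ofReal_le_ofReal
    rw [← dist_eq_norm]
    exact (mem_ball.1 hy).le
  calc ∫⁻ y in ball x ρ, ‖u y - u x‖ₑ
      ≤ ∫⁻ y in ball x ρ, (ENNReal.ofReal ρ *
          (∫⁻ t in Ioc (0 : ℝ) 1, H (x + t • (y - x)))) :=
        setLIntegral_mono' measurableSet_ball step1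
    _ = ENNReal.ofReal ρ * ∫⁻ y in ball x ρ, (∫⁻ t in Ioc (0 : ℝ) 1, H (x + t • (y - x))) :=
        lintegral_const_mul' _ _ ENNReal.ofReal_ne_top
    _ = ENNReal.ofReal ρ * ∫⁻ t in Ioc (0 : ℝ) 1, (∫⁻ y in ball x ρ, H (x + t • (y - x))) := by
        rw [lintegral_lintegral_swap]
        exact (hHc.comp (by fun_prop :
          Continuous fun q : ℂ × ℝ => x + q.2 • (q.1 - x))).measurable.aemeasurable
    _ ≤ ENNReal.ofReal ρ * ∫⁻ t in Ioc (0 : ℝ) 1,
          ENNReal.ofReal (C * ρ ^ (1 + b)) * ENNReal.ofReal (t ^ (-(1 - b))) := by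
        gcongr ENNReal.ofReal ρ * ?_
        refine setLIntegral_mono' measurableSet_Ioc fun t ht => ?_
        refine (contract_ball hHc.measurable ht.1).trans ?_
        have h1 := h (t * ρ) (mul_pos ht.1 hρ) (by nlinarith [ht.1, ht.2])
        refine (mul_le_mul_right h1 _).trans ?_
        rw [← ENNReal.ofReal_mul (by have := ht.1; positivity),
          ← ENNReal.ofReal_mul (by positivity)]
        apply ENNReal.ofReal_le_ofReal
        rw [Real.mul_rpow ht.1.le hρ.le]
        have e2 : (t ^ 2)⁻¹ * t ^ (1 + b) = t ^ (-(1 - b)) := by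
          rw [← Real.rpow_natCast, ← Real.rpow_neg ht.1.le, ← Real.rpow_add ht.1]
          congr 1; push_cast; ring
        rw [← e2]
        apply le_of_eq; ring
    _ = _ := by
        rw [lintegral_const_mul' _ _ ENNReal.ofReal_ne_top, lintegral_rpow_Ioc (by linarith),
          ← ENNReal.ofReal_mul (by positivity), ← ENNReal.ofReal_mul hρ.le]
        congr 1
        rw [show (2 + b) = 1 + (1 + b) by ring, Real.rpow_add hρ 1 (1 + b), Real.rpow_one,
          sub_sub_cancel]
        field_simp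

/-- the Dirichlet growth lemma for `C¹` functions. -/
theorem morrey_c1 {u : ℂ → ℝ} (hu : ContDiff ℝ 1 u) {x y : ℂ} {C b : ℝ} (hb : 0 < b) (hC : 0 ≤ C)
    (hx : ∀ s, 0 < s → s ≤ dist x y →
      ∫⁻ z in ball x s, ‖fderiv ℝ u z‖ₑ ≤ ENNReal.ofReal (C * s ^ (1 + b)))
    (hy : ∀ s, 0 < s → s ≤ dist x y →
      ∫⁻ z in ball y s, ‖fderiv ℝ u z‖ₑ ≤ ENNReal.ofReal (C * s ^ (1 + b))) :
    |u x - u y| ≤ 8 / (Real.pi * b) * C * dist x y ^ b := by
  rcases eq_or_ne x y with rfl | hxy
  · simp only [sub_self, abs_zero]; positivity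
  set ρ := dist x y with hρd
  have hρ : 0 < ρ := dist_pos.2 hxy
  set m : ℂ := midpoint ℝ x y with hm
  have hmx : ball m (ρ / 2) ⊆ ball x ρ := by
    refine ball_subset_ball' ?_
    rw [hm, dist_midpoint_left]
    simp only [Real.norm_ofNat]
    rw [← hρd]; linarith
  have hmy : ball m (ρ / 2) ⊆ ball y ρ := by
    refine ball_subset_ball' ?_
    rw [hm, dist_midpoint_right]
    simp only [Real.norm_ofNat]
    rw [← hρd]; linarith
  have h1 := mean_ball hu hρ hb hC hx
  have h2 := mean_ball hu hρ hb hC hy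
  have h3 : ‖u x - u y‖ₑ * volume (ball m (ρ / 2)) ≤
      ENNReal.ofReal (2 * (C * ρ ^ (2 + b) / b)) := by
    calc ‖u x - u y‖ₑ * volume (ball m (ρ / 2))
        = ∫⁻ z in ball m (ρ / 2), ‖u x - u y‖ₑ := by
          rw [lintegral_const, Measure.restrict_apply MeasurableSet.univ, univ_inter]
      _ ≤ ∫⁻ z in ball m (ρ / 2), (‖u z - u x‖ₑ + ‖u z - u y‖ₑ) := by
          refine lintegral_mono fun z => ?_
          calc ‖u x - u y‖ₑ = ‖(u z - u y) - (u z - u x)‖ₑ := by congr 1; ring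
            _ ≤ ‖u z - u y‖ₑ + ‖u z - u x‖ₑ := enorm_sub_le
            _ = _ := add_comm _ _
      _ = (∫⁻ z in ball m (ρ / 2), ‖u z - u x‖ₑ) + ∫⁻ z in ball m (ρ / 2), ‖u z - u y‖ₑ :=
          lintegral_add_left (by
            have := hu.continuous
            fun_prop) _
      _ ≤ (∫⁻ z in ball x ρ, ‖u z - u x‖ₑ) + ∫⁻ z in ball y ρ, ‖u z - u y‖ₑ :=
          add_le_add (lintegral_mono_set hmx) (lintegral_mono_set hmy)
      _ ≤ _ := add_le_add h1 h2
      _ = _ := by
          rw [← ENNReal.ofReal_add (by positivity) (by positivity)]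
          congr 1; ring
  have hvol : volume (ball m (ρ / 2)) = ENNReal.ofReal (Real.pi * (ρ / 2) ^ 2) := by
    rw [Complex.volume_ball, ENNReal.ofReal_mul Real.pi_pos.le, mul_comm,
      ENNReal.ofReal_pow (by positivity)]
    congr 1
    rw [← NNReal.coe_real_pi, ENNReal.ofReal_coe_nnreal]
  rw [hvol, ← ofReal_norm, ← ENNReal.ofReal_mul (norm_nonneg _),
    ENNReal.ofReal_le_ofReal_iff (by positivity), Real.norm_eq_abs] at h3
  have h4 : ρ ^ (2 + b) = ρ ^ 2 * ρ ^ b := by
    rw [Real.rpow_add hρ]; norm_num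
  rw [h4] at h3
  have h5 : 0 < Real.pi * (ρ / 2) ^ 2 := by positivity
  have h6 : |u x - u y| ≤ 2 * (C * (ρ ^ 2 * ρ ^ b) / b) / (Real.pi * (ρ / 2) ^ 2) := by
    rw [le_div_iff₀ h5]; exact h3
  refine h6.trans (le_of_eq ?_)
  field_simp
  ring

/-! ### mollification -/

/-- the mollifier. -/
noncomputable def bmp (R : ℝ) (hR : 0 < R) (i : ℕ) : ContDiffBump (0 : ℂ) where
  rIn := R / 8 / (i + 1) / 2
  rOut := R / 8 / (i + 1)
  rIn_pos := by positivity
  rIn_lt_rOut := by
    have : 0 < R / 8 / (i + 1) := by positivity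
    linarith

lemma bmp_rOut_le (R : ℝ) (hR : 0 < R) (i : ℕ) : (bmp R hR i).rOut ≤ R / 8 := by
  show R / 8 / (i + 1) ≤ R / 8
  apply div_le_self (by positivity)
  have : (0 : ℝ) ≤ i := Nat.cast_nonneg i
  linarith

/-- the derivative of the mollified function, tested. -/
lemma fderiv_moll {f F : ℂ → ℝ} (hf : ContDiff ℝ ∞ f) (hfc : HasCompactSupport f)
    (hF : LocallyIntegrable F volume) (z v : ℂ) :
    fderiv ℝ (f ⋆[ContinuousLinearMap.lsmul ℝ ℝ, volume] F) z v =
      - ∫ s, F s * fderiv ℝ (fun s => f (z - s)) s v := by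
  have hf1 : ContDiff ℝ 1 f := hf.of_le (by exact_mod_cast le_top)
  have h := HasCompactSupport.hasFDerivAt_convolution_left
    (ContinuousLinearMap.lsmul ℝ ℝ) hfc hf1 hF z
  rw [h.fderiv, convolution_eq_swap]
  have hfd : ∀ s, fderiv ℝ (fun s => f (z - s)) s v = - fderiv ℝ f (z - s) v := by
    intro s
    have h1 : HasFDerivAt (fun s : ℂ => z - s) (-(ContinuousLinearMap.id ℝ ℂ)) s := by
      simpa using (hasFDerivAt_id (𝕜 := ℝ) s).const_sub z
    have h2 : HasFDerivAt f (fderiv ℝ f (z - s)) (z - s) :=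
      (hf1.differentiable one_ne_zero).differentiableAt.hasFDerivAt
    have h3 := h2.comp s h1
    have h4 : fderiv ℝ (fun s => f (z - s)) s = (fderiv ℝ f (z - s)).comp
      (-(ContinuousLinearMap.id ℝ ℂ)) := h3.fderiv
    rw [h4]; simp
  simp only [hfd, mul_neg, integral_neg, neg_neg]
  have hint : Integrable (fun s => ((ContinuousLinearMap.lsmul ℝ ℝ).precompL ℂ)
      (fderiv ℝ f (z - s)) (F s)) volume := by
    have := (hfc.fderiv (𝕜 := ℝ)).convolutionExists_left
      ((ContinuousLinearMap.lsmul ℝ ℝ).precompL ℂ) (hf1.continuous_fderiv one_ne_zero) hF z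
    rw [ConvolutionExistsAt, ← integrable_comp_sub_left _ z] at this
    simpa using this
  rw [ContinuousLinearMap.integral_apply hint]
  refine integral_congr_ae (Eventually.of_forall fun s => ?_)
  simp [ContinuousLinearMap.precompL_apply, mul_comm]

/-- the gradient of the mollified function is bounded by the mollified bound. -/
lemma enorm_fderiv_moll_le {F g : ℂ → ℝ} {R : ℝ} (hR : 0 < R)
    (hF : Integrable F) (hg : Measurable g)
    (hw : ∀ η : ℂ → ℝ, ContDiff ℝ ∞ η → HasCompactSupport η → tsupport η ⊆ ball 0 R →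
      (∀ t, 0 ≤ η t) → ∀ v : ℂ, |∫ t, F t * fderiv ℝ η t v| ≤ ‖v‖ * ∫ t, η t * g t)
    (hg0 : ∀ t, 0 ≤ g t) (i : ℕ) {z : ℂ} (hz : z ∈ ball (0 : ℂ) (3 * R / 4)) :
    ‖fderiv ℝ (((bmp R hR i).normed volume) ⋆[ContinuousLinearMap.lsmul ℝ ℝ, volume] F) z‖ₑ ≤
      ∫⁻ t, ENNReal.ofReal ((bmp R hR i).normed volume t) * ENNReal.ofReal (g (z - t)) := by
  set φ := bmp R hR i with hφ
  set f := φ.normed volume with hf
  have hfs : ContDiff ℝ ∞ f := φ.contDiff_normed
  have hfc : HasCompactSupport f := φ.hasCompactSupport_normed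
  have hf0 : ∀ t, 0 ≤ f t := fun t => φ.nonneg_normed t
  set η : ℂ → ℝ := fun s => f (z - s) with hη
  have hηs : ContDiff ℝ ∞ η := hfs.comp (contDiff_const.sub contDiff_id)
  have hηt : tsupport η ⊆ closedBall z φ.rOut := by
    refine closure_minimal ?_ isClosed_closedBall
    intro s hs
    have h1 : z - s ∈ Function.support f := hs
    rw [hf, φ.support_normed_eq] at h1
    rw [mem_closedBall, dist_comm, dist_eq_norm]
    rw [mem_ball_zero_iff] at h1
    exact h1.le
  have hηc : HasCompactSupport η :=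
    HasCompactSupport.of_support_subset_isCompact (isCompact_closedBall z φ.rOut)
      (subset_closure.trans hηt)
  have hηR : tsupport η ⊆ ball 0 R := by
    refine hηt.trans ?_
    intro s hs
    rw [mem_closedBall, dist_eq_norm] at hs
    rw [mem_ball_zero_iff] at hz ⊢
    have h2 := bmp_rOut_le R hR i
    calc ‖s‖ = ‖(s - z) + z‖ := by congr 1; ring
      _ ≤ ‖s - z‖ + ‖z‖ := norm_add_le _ _
      _ < R := by linarith
  have hkey : ∀ v : ℂ, ‖fderiv ℝ (f ⋆[ContinuousLinearMap.lsmul ℝ ℝ, volume] F) z v‖ ≤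
      (∫ t, η t * g t) * ‖v‖ := by
    intro v
    rw [fderiv_moll hfs hfc hF.locallyIntegrable z v, norm_neg, Real.norm_eq_abs]
    rw [mul_comm]
    exact hw η hηs hηc hηR (fun t => hf0 _) v
  have hI0 : 0 ≤ ∫ t, η t * g t := integral_nonneg fun t => mul_nonneg (hf0 _) (hg0 t)
  have h1 := ContinuousLinearMap.opNorm_le_bound _ hI0 hkey
  have hηm : Measurable η := hηs.continuous.measurable
  calc ‖fderiv ℝ (f ⋆[ContinuousLinearMap.lsmul ℝ ℝ, volume] F) z‖ₑ
      ≤ ENNReal.ofReal (∫ t, η t * g t) := by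
        rw [← ofReal_norm]; exact ENNReal.ofReal_le_ofReal h1
    _ ≤ ∫⁻ t, ENNReal.ofReal (η t * g t) := by
        rw [integral_eq_lintegral_of_nonneg_ae
          (Eventually.of_forall fun t => mul_nonneg (hf0 _) (hg0 t))
          (hηm.mul hg).aestronglyMeasurable]
        exact ENNReal.ofReal_toReal_le
    _ = ∫⁻ t, ENNReal.ofReal (f (z - (z - t))) * ENNReal.ofReal (g (z - t)) := by
        rw [← lintegral_sub_left_eq_self (μ := volume) (fun t => ENNReal.ofReal (η t * g t)) z]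
        refine lintegral_congr fun t => ?_
        rw [← ENNReal.ofReal_mul (hf0 _)]
    _ = _ := by simp only [sub_sub_cancel]

/-- the Morrey bound passes to the mollified function. -/
lemma moll_morrey {F g : ℂ → ℝ} {R C b : ℝ} (hR : 0 < R)
    (hF : Integrable F) (hg : Measurable g)
    (hw : ∀ η : ℂ → ℝ, ContDiff ℝ ∞ η → HasCompactSupport η → tsupport η ⊆ ball 0 R →
      (∀ t, 0 ≤ η t) → ∀ v : ℂ, |∫ t, F t * fderiv ℝ η t v| ≤ ‖v‖ * ∫ t, η t * g t)
    (hg0 : ∀ t, 0 ≤ g t)
    (hgC : ∀ t₀ ∈ ball (0 : ℂ) (R / 2), ∀ ρ : ℝ, 0 < ρ → ρ ≤ R / 2 →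
      ∫⁻ t in ball t₀ ρ, ENNReal.ofReal (g t) ≤ ENNReal.ofReal (C * ρ ^ (1 + b)))
    (i : ℕ) {x : ℂ} (hx : x ∈ ball (0 : ℂ) (R / 4)) {s : ℝ} (hs : 0 < s) (hs' : s ≤ R / 2) :
    ∫⁻ z in ball x s,
      ‖fderiv ℝ (((bmp R hR i).normed volume) ⋆[ContinuousLinearMap.lsmul ℝ ℝ, volume] F) z‖ₑ ≤
      ENNReal.ofReal (C * s ^ (1 + b)) := by
  set φ := bmp R hR i with hφ
  set f := φ.normed volume with hf
  have hfm : Measurable f := (φ.contDiff_normed (n := 0)).continuous.measurable
  have hf0 : ∀ t, 0 ≤ f t := fun t => φ.nonneg_normed t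
  rw [mem_ball_zero_iff] at hx
  calc ∫⁻ z in ball x s,
        ‖fderiv ℝ (f ⋆[ContinuousLinearMap.lsmul ℝ ℝ, volume] F) z‖ₑ
      ≤ ∫⁻ z in ball x s, ∫⁻ t, ENNReal.ofReal (f t) * ENNReal.ofReal (g (z - t)) := by
        refine setLIntegral_mono' measurableSet_ball fun z hz => ?_
        refine enorm_fderiv_moll_le hR hF hg hw hg0 i ?_
        rw [mem_ball_zero_iff]
        rw [mem_ball, dist_eq_norm] at hz
        calc ‖z‖ = ‖(z - x) + x‖ := by congr 1; ring
          _ ≤ ‖z - x‖ + ‖x‖ := norm_add_le _ _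
          _ < 3 * R / 4 := by linarith
    _ = ∫⁻ t, ∫⁻ z in ball x s, ENNReal.ofReal (f t) * ENNReal.ofReal (g (z - t)) := by
        rw [lintegral_lintegral_swap]
        refine Measurable.aemeasurable ?_
        exact ((hfm.comp measurable_snd).ennreal_ofReal).mul
          ((hg.comp (measurable_fst.sub measurable_snd)).ennreal_ofReal)
    _ = ∫⁻ t, ENNReal.ofReal (f t) * ∫⁻ z in ball x s, ENNReal.ofReal (g (z - t)) := by
        refine lintegral_congr fun t => ?_
        rw [lintegral_const_mul' _ _ ENNReal.ofReal_ne_top]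
    _ ≤ ∫⁻ t, ENNReal.ofReal (f t) * ENNReal.ofReal (C * s ^ (1 + b)) := by
        refine lintegral_mono fun t => ?_
        by_cases ht : t ∈ ball (0 : ℂ) φ.rOut
        · refine mul_le_mul_right ?_ _
          have e : ∫⁻ z in ball x s, ENNReal.ofReal (g (z - t)) =
              ∫⁻ z in ball (x - t) s, ENNReal.ofReal (g z) := by
            rw [← lintegral_indicator measurableSet_ball, ← lintegral_indicator measurableSet_ball,
              ← lintegral_sub_right_eq_self
                ((ball (x - t) s).indicator fun z => ENNReal.ofReal (g z)) t]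
            refine lintegral_congr fun z => ?_
            have : (z ∈ ball x s) ↔ (z - t ∈ ball (x - t) s) := by
              rw [mem_ball, mem_ball, dist_sub_right]
            by_cases hz : z ∈ ball x s
            · rw [indicator_of_mem hz, indicator_of_mem (this.1 hz)]
            · rw [indicator_of_notMem hz, indicator_of_notMem (fun h => hz (this.2 h))]
          rw [e]
          refine hgC _ ?_ s hs hs'
          rw [mem_ball_zero_iff] at ht ⊢
          have h2 := bmp_rOut_le R hR i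
          calc ‖x - t‖ ≤ ‖x‖ + ‖t‖ := norm_sub_le _ _
            _ < R / 2 := by linarith
        · have : f t = 0 := by
            rw [← Function.notMem_support, hf, φ.support_normed_eq]; exact ht
          rw [this]; simp
    _ = _ := by
        rw [lintegral_mul_const' _ _ ENNReal.ofReal_ne_top,
          ← ofReal_integral_eq_lintegral_ofReal φ.integrable_normed
            (Eventually.of_forall hf0), φ.integral_normed]
        simp

/-- **the Morrey lemma**, almost everywhere form. -/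
theorem morrey_ae {F g : ℂ → ℝ} {R C b : ℝ} (hR : 0 < R) (hb : 0 < b) (hC : 0 ≤ C)
    (hF : IntegrableOn F (ball 0 R)) (hg : AEMeasurable g (volume.restrict (ball 0 R)))
    (hg0 : ∀ t, 0 ≤ g t)
    (hw : ∀ η : ℂ → ℝ, ContDiff ℝ ∞ η → HasCompactSupport η → tsupport η ⊆ ball 0 R →
      (∀ t, 0 ≤ η t) → ∀ v : ℂ, |∫ t, F t * fderiv ℝ η t v| ≤ ‖v‖ * ∫ t, η t * g t)
    (hgC : ∀ t₀ ∈ ball (0 : ℂ) (R / 2), ∀ ρ : ℝ, 0 < ρ → ρ ≤ R / 2 →
      ∫⁻ t in ball t₀ ρ, ENNReal.ofReal (g t) ≤ ENNReal.ofReal (C * ρ ^ (1 + b))) :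
    ∃ N : Set ℂ, volume N = 0 ∧ ∀ t ∈ ball (0 : ℂ) (R / 4) \ N,
      ∀ t' ∈ ball (0 : ℂ) (R / 4) \ N,
      |F t - F t'| ≤ 8 / (Real.pi * b) * C * dist t t' ^ b := by
  set F' : ℂ → ℝ := (ball (0 : ℂ) R).indicator F with hF'
  have hF'i : Integrable F' := (integrable_indicator_iff measurableSet_ball).2 hF
  obtain ⟨g', hg'm, hg'e⟩ := hg
  set g1 : ℂ → ℝ := fun t => |g' t| with hg1
  have hg1m : Measurable g1 := hg'm.abs
  have hg1e : ∀ᵐ t : ℂ, t ∈ ball (0 : ℂ) R → g t = g1 t := by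
    rw [Filter.EventuallyEq, ae_restrict_iff' measurableSet_ball] at hg'e
    filter_upwards [hg'e] with t ht h
    rw [hg1]; dsimp only
    rw [← ht h, abs_of_nonneg (hg0 t)]
  have hw' : ∀ η : ℂ → ℝ, ContDiff ℝ ∞ η → HasCompactSupport η → tsupport η ⊆ ball 0 R →
      (∀ t, 0 ≤ η t) → ∀ v : ℂ, |∫ t, F' t * fderiv ℝ η t v| ≤ ‖v‖ * ∫ t, η t * g1 t := by
    intro η h1 h2 h3 h4 v
    have e1 : ∫ t, F' t * fderiv ℝ η t v = ∫ t, F t * fderiv ℝ η t v := by
      refine integral_congr_ae (Eventually.of_forall fun t => ?_)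
      by_cases ht : t ∈ ball (0 : ℂ) R
      · simp only [hF', indicator_of_mem ht]
      · have : fderiv ℝ η t = 0 := by
          by_contra hne
          exact ht (h3 (support_fderiv_subset ℝ hne))
        simp only [this, ContinuousLinearMap.zero_apply, mul_zero]
    have e2 : ∫ t, η t * g1 t = ∫ t, η t * g t := by
      refine integral_congr_ae ?_
      filter_upwards [hg1e] with t ht
      by_cases ht' : t ∈ ball (0 : ℂ) R
      · rw [ht ht']
      · have : η t = 0 := by
          by_contra hne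
          exact ht' (h3 (subset_closure hne))
        simp only [this, zero_mul]
    rw [e1, e2]
    exact hw η h1 h2 h3 h4 v
  have hgC' : ∀ t₀ ∈ ball (0 : ℂ) (R / 2), ∀ ρ : ℝ, 0 < ρ → ρ ≤ R / 2 →
      ∫⁻ t in ball t₀ ρ, ENNReal.ofReal (g1 t) ≤ ENNReal.ofReal (C * ρ ^ (1 + b)) := by
    intro t₀ ht₀ ρ hρ hρ'
    refine le_trans (le_of_eq ?_) (hgC t₀ ht₀ ρ hρ hρ')
    refine setLIntegral_congr_fun_ae measurableSet_ball ?_
    filter_upwards [hg1e] with t ht h
    rw [ht]
    rw [mem_ball_zero_iff] at ht₀ ⊢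
    rw [mem_ball, dist_eq_norm] at h
    calc ‖t‖ = ‖(t - t₀) + t₀‖ := by congr 1; ring
      _ ≤ ‖t - t₀‖ + ‖t₀‖ := norm_add_le _ _
      _ < R := by linarith
  set u : ℕ → ℂ → ℝ := fun i =>
    ((bmp R hR i).normed volume) ⋆[ContinuousLinearMap.lsmul ℝ ℝ, volume] F' with hu
  have hφ0 : Tendsto (fun i => (bmp R hR i).rOut) atTop (𝓝 0) := by
    show Tendsto (fun i : ℕ => R / 8 / ((i : ℝ) + 1)) atTop (𝓝 0)
    exact tendsto_const_div_atTop_nhds_zero_nat (R / 8) |>.comp (tendsto_add_atTop_nat 1)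
      |>.congr (fun i => by simp)
  have hlim : ∀ᵐ x : ℂ, Tendsto (fun i => u i x) atTop (𝓝 (F' x)) := by
    refine ContDiffBump.ae_convolution_tendsto_right_of_locallyIntegrable (K := 2) hφ0 ?_
      hF'i.locallyIntegrable
    refine Eventually.of_forall fun i => ?_
    show R / 8 / ((i : ℝ) + 1) ≤ 2 * (R / 8 / ((i : ℝ) + 1) / 2)
    apply le_of_eq; ring
  refine ⟨{x | ¬ Tendsto (fun i => u i x) atTop (𝓝 (F' x))}, hlim, ?_⟩
  rintro t ⟨ht, htN⟩ t' ⟨ht', htN'⟩
  rw [mem_setOf_eq, not_not] at htN htN'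
  have hd : dist t t' ≤ R / 2 := by
    rw [mem_ball_zero_iff] at ht ht'
    rw [dist_eq_norm]
    calc ‖t - t'‖ ≤ ‖t‖ + ‖t'‖ := norm_sub_le _ _
      _ ≤ R / 2 := by linarith
  have hi : ∀ i, |u i t - u i t'| ≤ 8 / (Real.pi * b) * C * dist t t' ^ b := by
    intro i
    refine morrey_c1 ?_ hb hC ?_ ?_
    · refine HasCompactSupport.contDiff_convolution_left _ ?_ ?_ hF'i.locallyIntegrable
      · exact (bmp R hR i).hasCompactSupport_normed
      · exact (bmp R hR i).contDiff_normed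
    · intro s hs hs'
      exact moll_morrey hR hF'i hg1m hw' (fun t => abs_nonneg _) hgC' i ht hs (hs'.trans hd)
    · intro s hs hs'
      exact moll_morrey hR hF'i hg1m hw' (fun t => abs_nonneg _) hgC' i ht' hs (hs'.trans hd)
  have hFt : F' t = F t := indicator_of_mem (ball_subset_ball (by linarith) ht) _
  have hFt' : F' t' = F t' := indicator_of_mem (ball_subset_ball (by linarith) ht') _
  rw [← hFt, ← hFt']
  exact le_of_tendsto (htN.sub htN').abs (Eventually.of_forall hi)

end Crest.Agent.R235.CylMorrey_125
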