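import Crest.Agent.R235.CylDef_607
import Crest.Agent.R235.CylVit_326

/-!
Row 235 (S0364), REG-CYL C6 (SPLIT): over a small ball around almost every `z` the support of a
box current splits into `k` cylinders of degree one, `k` a constant.
-/

set_option autoImplicit false

open MeasureTheory Metric Set Filter Complex
open scoped ContDiff Topology

namespace Crest.Agent.R235.CylSplit_800

open Crest.Agent.R235.Loc Crest.Agent.R235.Cyl

noncomputable section

/-- the complement of the support is a null set. -/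
theorem measure_not_supp (m : Measure CC) : m {q | ¬ InSupp m q} = 0 := by
  refine measure_null_of_locally_null _ fun x hx => ?_
  have h : ¬ ∀ r > 0, 0 < m (ball x r) := hx
  push Not at h
  obtain ⟨r, hr, h0⟩ := h
  exact ⟨ball x r, mem_nhdsWithin_of_mem_nhds (ball_mem_nhds x hr), le_antisymm h0 zero_le⟩

/-- the support is closed. -/
theorem isClosed_supp (m : Measure CC) : IsClosed {q | InSupp m q} := by
  rw [← isOpen_compl_iff, Metric.isOpen_iff]
  intro x hx
  have h : ¬ ∀ r > 0, 0 < m (ball x r) := hx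
  push Not at h
  obtain ⟨r, hr, h0⟩ := h
  refine ⟨r, hr, fun y hy hy' => ?_⟩
  have h1 : 0 < r - dist y x := by
    rw [mem_ball] at hy
    linarith
  have h2 := hy' (r - dist y x) h1
  have h3 : ball y (r - dist y x) ⊆ ball x r := ball_subset_ball' (by linarith)
  exact absurd (lt_of_lt_of_le h2 ((measure_mono h3).trans h0)) (lt_irrefl _)

/-- the support is vertically bounded. -/
theorem supp_norm_le {μ β : CC → ℂ} {c : ℂ} {R ρ K : ℝ} {m : Measure CC} {X Y : CC → CC}
    (h : BoxCur μ β c R ρ K m X Y) {q : CC} (hq : InSupp m q) : ‖q.2‖ ≤ ρ := by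
  by_contra hcon
  push Not at hcon
  have h1 := hq (‖q.2‖ - ρ) (by linarith)
  have h2 : m (ball q (‖q.2‖ - ρ)) = 0 := by
    refine measure_mono_null ?_ (ae_iff.1 h.supp)
    intro p hp hp'
    have h3 : dist p.2 q.2 < ‖q.2‖ - ρ := by
      rw [mem_ball, Prod.dist_eq] at hp
      exact (le_max_right _ _).trans_lt hp
    have h4 : ‖q.2‖ ≤ ‖p.2‖ + dist p.2 q.2 := by
      rw [dist_eq_norm]
      have := norm_sub_norm_le q.2 p.2
      rw [norm_sub_rev] at this
      linarith
    linarith [hp'.2]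
  exact absurd h1 (by rw [h2]; exact lt_irrefl _)

/-- the support is horizontally bounded. -/
theorem supp_fst {μ β : CC → ℂ} {c : ℂ} {R ρ K : ℝ} {m : Measure CC} {X Y : CC → CC}
    (h : BoxCur μ β c R ρ K m X Y) {q : CC} (hq : InSupp m q) : q.1 ∈ closedBall c R := by
  by_contra hcon
  rw [mem_closedBall, not_le] at hcon
  have h1 := hq (dist q.1 c - R) (by linarith)
  have h2 : m (ball q (dist q.1 c - R)) = 0 := by
    refine measure_mono_null ?_ (ae_iff.1 h.supp)
    intro p hp hp'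
    have h3 : dist p.1 q.1 < dist q.1 c - R := by
      rw [mem_ball, Prod.dist_eq] at hp
      exact (le_max_left _ _).trans_lt hp
    have h4 : dist q.1 c ≤ dist p.1 q.1 + dist p.1 c := by
      rw [dist_comm p.1 q.1]
      exact dist_triangle _ _ _
    have h5 := hp'.1
    rw [mem_ball] at h5
    linarith
  exact absurd h1 (by rw [h2]; exact lt_irrefl _)

/-- the support is compact. -/
theorem isCompact_supp {μ β : CC → ℂ} {c : ℂ} {R ρ K : ℝ} {m : Measure CC} {X Y : CC → CC}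
    (h : BoxCur μ β c R ρ K m X Y) : IsCompact {q | InSupp m q} := by
  refine IsCompact.of_isClosed_subset
    ((isCompact_closedBall c R).prod (isCompact_closedBall (0 : ℂ) ρ)) (isClosed_supp m) ?_
  intro q hq
  refine ⟨supp_fst h hq, ?_⟩
  rw [mem_closedBall, dist_zero_right]
  exact supp_norm_le h hq

/-- the horizontal density is measurable. -/
theorem measurable_hh {X Y : CC → CC} (hX : Measurable X) (hY : Measurable Y) :
    Measurable fun q => hh (X q) (Y q) := by
  unfold hh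
  have h1 : Measurable fun q => (X q).1.re := measurable_re.comp hX.fst
  have h2 : Measurable fun q => (Y q).1.im := measurable_im.comp hY.fst
  have h3 : Measurable fun q => (Y q).1.re := measurable_re.comp hY.fst
  have h4 : Measurable fun q => (X q).1.im := measurable_im.comp hX.fst
  exact (h1.mul h2).sub (h3.mul h4)

/-- the horizontal density is bounded. -/
theorem abs_hh_le (X Y : CC) : |hh X Y| ≤ 2 * (‖X‖ * ‖Y‖) := by
  unfold hh
  have h1 : |X.1.re| ≤ ‖X‖ := (abs_re_le_norm _).trans (norm_fst_le X)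
  have h2 : |Y.1.im| ≤ ‖Y‖ := (abs_im_le_norm _).trans (norm_fst_le Y)
  have h3 : |Y.1.re| ≤ ‖Y‖ := (abs_re_le_norm _).trans (norm_fst_le Y)
  have h4 : |X.1.im| ≤ ‖X‖ := (abs_im_le_norm _).trans (norm_fst_le X)
  calc |X.1.re * Y.1.im - Y.1.re * X.1.im| ≤ |X.1.re * Y.1.im| + |Y.1.re * X.1.im| := abs_sub _ _
    _ = |X.1.re| * |Y.1.im| + |Y.1.re| * |X.1.im| := by rw [abs_mul, abs_mul]
    _ ≤ ‖X‖ * ‖Y‖ + ‖Y‖ * ‖X‖ := by gcongr
    _ = 2 * (‖X‖ * ‖Y‖) := by ring

/-- the horizontal density is integrable. -/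
theorem integrable_hh {μ β : CC → ℂ} {c : ℂ} {R ρ K : ℝ} {m : Measure CC} {X Y : CC → CC}
    (h : BoxCur μ β c R ρ K m X Y) : Integrable (fun q => hh (X q) (Y q)) m := by
  have := h.fin
  refine Integrable.of_bound (measurable_hh h.mX h.mY).aestronglyMeasurable (2 * (1 * K))
    (Eventually.of_forall fun q => ?_)
  rw [Real.norm_eq_abs]
  refine (abs_hh_le _ _).trans ?_
  rw [h.nX q]
  have := h.nY q
  gcongr

theorem DegOne.mono {m : Measure CC} {X Y : CC → CC} {z w : ℂ} {r r' δ : ℝ}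
    (h : DegOne m X Y z r w δ) (hr : 0 < r') (hrr : r' ≤ r) : DegOne m X Y z r' w δ where
  pos := hr
  posδ := h.posδ
  gap := fun q hq hq1 hq2 => h.gap q hq (closedBall_subset_closedBall hrr hq1) hq2
  deg := fun A hA hAr => h.deg A hA (hAr.trans (ball_subset_ball hrr))

/-- **local splitting at a good point** -/
theorem local_split {μ β : CC → ℂ} {c : ℂ} {R ρ K : ℝ} {m : Measure CC} {X Y : CC → CC}
    (h : BoxCur μ β c R ρ K m X Y) {z : ℂ} (hz : z ∈ ball c R) (hfin : (fib m z).Finite)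
    (hdeg : ∀ w ∈ fib m z, ∀ ε > 0, ∃ r δ : ℝ, δ < ε ∧ r < ε ∧ DegOne m X Y z r w δ) {ε : ℝ}
    (hε : 0 < ε) :
    ∃ (r : ℝ) (δ : ℂ → ℝ), 0 < r ∧ closedBall z r ⊆ ball c R ∧
      (∀ w ∈ fib m z, δ w < ε ∧ DegOne m X Y z r w (δ w)) ∧
      ((fib m z).PairwiseDisjoint fun w => ball w (δ w)) ∧
      ∀ q : CC, InSupp m q → q.1 ∈ closedBall z r → ∃ w ∈ fib m z, q.2 ∈ ball w (δ w) := by
  classical
  -- separation
  obtain ⟨s, hs, hsep⟩ : ∃ s : ℝ, 0 < s ∧ ∀ w ∈ fib m z, ∀ w' ∈ fib m z, w ≠ w' →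
      s ≤ dist w w' := by
    set F := hfin.toFinset with hF
    by_cases hne : F.offDiag.Nonempty
    · obtain ⟨q, hq, hmin⟩ := Finset.exists_min_image F.offDiag (fun q => dist q.1 q.2) hne
      refine ⟨dist q.1 q.2, dist_pos.2 (Finset.mem_offDiag.1 hq).2.2, ?_⟩
      intro w hw w' hw' hww
      exact hmin (w, w') (Finset.mem_offDiag.2 ⟨hfin.mem_toFinset.2 hw,
        hfin.mem_toFinset.2 hw', hww⟩)
    · refine ⟨1, one_pos, ?_⟩
      intro w hw w' hw' hww
      exact absurd ⟨(w, w'), Finset.mem_offDiag.2 ⟨hfin.mem_toFinset.2 hw,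
        hfin.mem_toFinset.2 hw', hww⟩⟩ hne
  have hdeg' : ∀ w : ℂ, ∃ r δ : ℝ, w ∈ fib m z → δ < min ε (s / 2) ∧ 0 < r ∧
      DegOne m X Y z r w δ := by
    intro w
    by_cases hw : w ∈ fib m z
    · obtain ⟨r, δ, h1, _, h3⟩ := hdeg w hw (min ε (s / 2)) (lt_min hε (by positivity))
      exact ⟨r, δ, fun _ => ⟨h1, h3.pos, h3⟩⟩
    · exact ⟨0, 0, fun h => absurd h hw⟩
  choose rr δ hrδ using hdeg'
  -- compactness
  obtain ⟨r1, hr1, hr1c⟩ : ∃ r1 : ℝ, 0 < r1 ∧ closedBall z r1 ⊆ ball c R := by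
    have h1 : 0 < R - dist z c := by
      rw [mem_ball] at hz
      linarith
    refine ⟨(R - dist z c) / 2, by positivity, closedBall_subset_ball' ?_⟩
    linarith
  have hcomp : IsCompact ({q | InSupp m q} ∩ Prod.fst ⁻¹' closedBall z r1) :=
    (isCompact_supp h).inter_right (isClosed_closedBall.preimage continuous_fst)
  have hOo : IsOpen (⋃ w ∈ fib m z, ball w (δ w)) := isOpen_biUnion fun w _ => isOpen_ball
  obtain ⟨r2, hr2, hr21, hnear⟩ := CylVit_326.near_fibre hr1 hcomp hOo (fun w hw => by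
    refine mem_iUnion₂.2 ⟨w, hw, mem_ball_self ?_⟩
    exact (hrδ w hw).2.2.posδ)
  -- common radius
  obtain ⟨r3, hr3, hr3w⟩ : ∃ r3 : ℝ, 0 < r3 ∧ ∀ w ∈ fib m z, r3 ≤ rr w := by
    rcases (hfin.toFinset).eq_empty_or_nonempty with he | hne
    · refine ⟨1, one_pos, fun w hw => ?_⟩
      rw [← hfin.mem_toFinset, he] at hw
      simp at hw
    · obtain ⟨w0, hw0, hmin⟩ := Finset.exists_min_image hfin.toFinset rr hne
      exact ⟨rr w0, (hrδ w0 (hfin.mem_toFinset.1 hw0)).2.1,
        fun w hw => hmin w (hfin.mem_toFinset.2 hw)⟩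
  refine ⟨min r2 r3, δ, lt_min hr2 hr3, ?_, ?_, ?_, ?_⟩
  · exact (closedBall_subset_closedBall ((min_le_left _ _).trans hr21)).trans hr1c
  · intro w hw
    refine ⟨(hrδ w hw).1.trans_le (min_le_left _ _), ?_⟩
    exact DegOne.mono (hrδ w hw).2.2 (lt_min hr2 hr3) ((min_le_right _ _).trans (hr3w w hw))
  · intro w hw w' hw' hww
    refine ball_disjoint_ball ?_
    have h1 := (hrδ w hw).1.trans_le (min_le_right _ _)
    have h2 := (hrδ w' hw').1.trans_le (min_le_right _ _)
    have h3 := hsep w hw w' hw' hww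
    linarith
  · intro q hq hq1
    have h1 := hnear q hq ((mem_closedBall.1 hq1).trans (min_le_left _ _))
    obtain ⟨w, hw, hwq⟩ := mem_iUnion₂.1 h1
    exact ⟨w, hw, hwq⟩

/-- the degree over a small ball around a good point is the number of points of the fibre. -/
theorem deg_eq_ncard {μ β : CC → ℂ} {c : ℂ} {R ρ K : ℝ} {m : Measure CC} {X Y : CC → CC}
    (h : BoxCur μ β c R ρ K m X Y) {z : ℂ} (hfin : (fib m z).Finite) {r : ℝ} {δ : ℂ → ℝ}
    (hdeg : ∀ w ∈ fib m z, DegOne m X Y z r w (δ w))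
    (hdisj : (fib m z).PairwiseDisjoint fun w => ball w (δ w))
    (hsupp : ∀ q : CC, InSupp m q → q.1 ∈ closedBall z r → ∃ w ∈ fib m z, q.2 ∈ ball w (δ w))
    {A : Set ℂ} (hA : MeasurableSet A) (hAr : A ⊆ ball z r) :
    ∫ q in A ×ˢ univ, hh (X q) (Y q) ∂m = (fib m z).ncard * volume.real A := by
  classical
  have := h.fin
  have hint := integrable_hh h
  have e1 : ∫ q in A ×ˢ (univ : Set ℂ), hh (X q) (Y q) ∂m =
      ∫ q in ⋃ w ∈ hfin.toFinset, A ×ˢ ball w (δ w), hh (X q) (Y q) ∂m := by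
    refine setIntegral_congr_set ?_
    have hnull : ∀ᵐ q ∂m, InSupp m q := by
      rw [ae_iff]
      exact measure_not_supp m
    filter_upwards [hnull] with q hq
    refine propext ⟨fun hqA => ?_, fun hqA => ?_⟩
    · have hqA' : q.1 ∈ A := hqA.1
      obtain ⟨w, hw, hqw⟩ := hsupp q hq (ball_subset_closedBall (hAr hqA'))
      exact mem_iUnion₂.2 ⟨w, hfin.mem_toFinset.2 hw, hqA', hqw⟩
    · obtain ⟨w, _, hqw⟩ := mem_iUnion₂.1 hqA
      exact ⟨hqw.1, mem_univ _⟩
  rw [e1, integral_biUnion_finset]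
  · have e2 : ∀ w ∈ hfin.toFinset, ∫ q in A ×ˢ ball w (δ w), hh (X q) (Y q) ∂m = volume.real A :=
      fun w hw => (hdeg w (hfin.mem_toFinset.1 hw)).deg A hA hAr
    rw [Finset.sum_congr rfl e2, Finset.sum_const, nsmul_eq_mul, ncard_eq_toFinset_card _ hfin]
  · exact fun w _ => hA.prod measurableSet_ball
  · intro w hw w' hw' hww
    refine Disjoint.set_prod_right ?_ _ _
    exact hdisj (hfin.mem_toFinset.1 hw) (hfin.mem_toFinset.1 hw') hww
  · exact fun w _ => hint.integrableOn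

/-- **C6 SPLIT.** -/
theorem split_of (h2 : CONST) (h3 : DEG1) (h4 : GOODZ) : SPLIT := by
  intro μ β κ L hbox c R ρ K m X Y h hR
  have := h.fin
  -- the global degree
  have hconst : ∀ r : ℝ, 0 < r → r < R → ∃ d : ℝ, 0 ≤ d ∧ ∀ A : Set ℂ, MeasurableSet A →
      A ⊆ ball c r → ∫ q in A ×ˢ (univ : Set ℂ), hh (X q) (Y q) ∂m = d * volume.real A := by
    intro r hr hrR
    refine h2 μ β κ L hbox c R ρ K m X Y h c r univ hr (closedBall_subset_ball hrR) isOpen_univ ?_
    intro q _ _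
    simp
  obtain ⟨d, hd0, hd⟩ := hconst (R / 2) (by positivity) (by linarith)
  have hglob : ∀ r : ℝ, R / 2 ≤ r → r < R → ∀ A : Set ℂ, MeasurableSet A →
      A ⊆ ball c r → ∫ q in A ×ˢ (univ : Set ℂ), hh (X q) (Y q) ∂m = d * volume.real A := by
    intro r hr hrR A hA hAr
    obtain ⟨d', _, hd'⟩ := hconst r (by linarith) hrR
    have hv : 0 < volume.real (ball c (R / 2)) := by
      refine ENNReal.toReal_pos ?_ measure_ball_lt_top.ne
      exact (measure_ball_pos volume c (by positivity)).ne'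
    have e : d' = d := by
      have h5 := hd (ball c (R / 2)) measurableSet_ball subset_rfl
      have h6 := hd' (ball c (R / 2)) measurableSet_ball (ball_subset_ball hr)
      rw [h5] at h6
      exact (mul_right_cancel₀ hv.ne' h6).symm
    rw [← e]
    exact hd' A hA hAr
  refine ⟨⌊d⌋₊, ?_⟩
  filter_upwards [h4 μ β κ L hbox c R ρ K m X Y h] with z hgood hz
  obtain ⟨hfin, hgw⟩ := hgood hz
  have hdeg : ∀ w ∈ fib m z, ∀ ε > 0, ∃ r δ : ℝ, δ < ε ∧ r < ε ∧ DegOne m X Y z r w δ := by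
    intro w hw ε hε
    obtain ⟨r, δ, h5, h6, h7, _⟩ := h3 μ β κ L hbox c R ρ K m X Y h (z, w) hz hw (hgw w hw).2.1
      (hgw w hw).2.2 ε hε
    exact ⟨r, δ, h5, h6, h7⟩
  refine ⟨?_, hfin, ?_⟩
  · obtain ⟨r, δ, hr, hrc, h5, h6, h7⟩ := local_split h hz hfin hdeg one_pos
    -- a small ball inside `ball c r'`, `r' < R`
    rw [mem_ball] at hz
    set r' : ℝ := max (R / 2) ((dist z c + R) / 2) with hr'
    have hr'1 : R / 2 ≤ r' := le_max_left _ _
    have hr'2 : r' < R := max_lt (by linarith) (by linarith)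
    have hr'3 : dist z c < r' := lt_of_lt_of_le (by linarith) (le_max_right _ _)
    set s : ℝ := min r (r' - dist z c) with hs
    have hs0 : 0 < s := lt_min hr (by linarith)
    have hA1 : ball z s ⊆ ball z r := ball_subset_ball (min_le_left _ _)
    have hA2 : ball z s ⊆ ball c r' := by
      refine ball_subset_ball' ?_
      have := min_le_right r (r' - dist z c)
      linarith
    have e1 := deg_eq_ncard h hfin (fun w hw => (h5 w hw).2) h6 h7 measurableSet_ball hA1
    have e2 := hglob r' hr'1 hr'2 (ball z s) measurableSet_ball hA2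
    rw [e1] at e2
    have hv : 0 < volume.real (ball z s) := by
      refine ENNReal.toReal_pos ?_ measure_ball_lt_top.ne
      exact (measure_ball_pos volume z hs0).ne'
    have e3 : ((fib m z).ncard : ℝ) = d := mul_right_cancel₀ hv.ne' e2
    rw [← e3, Nat.floor_natCast]
  · intro ε hε
    obtain ⟨r, δ, hr, hrc, h5, _, h7⟩ := local_split h hz hfin hdeg hε
    refine ⟨r, hr, hrc, fun w hw => ⟨δ w, (h5 w hw).1, (h5 w hw).2⟩, fun q hq hq1 => ?_⟩
    obtain ⟨w, hw, hqw⟩ := h7 q hq hq1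
    exact ⟨w, hw, (mem_ball.1 hqw).trans (h5 w hw).1⟩

end

end Crest.Agent.R235.CylSplit_800
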