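import Crest.Agent.R235.CylDef_522
import Crest.Agent.R235.LocClus_305

/-!
Row 235 (S0364), package REG-CYL, leaf C12 (`SUPP`): the support of the current over the small disc
is the graph of the extended fibres `S`.
-/

set_option autoImplicit false

open MeasureTheory Metric Set Filter Complex
open scoped ContDiff Topology ComplexConjugate

namespace Crest.Agent.R235.CylSupp_305

open Crest.Agent.R235.Loc Crest.Agent.R235.Cyl_522 Crest.Agent.R235.LocClus_305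

noncomputable section

/-! ### the vertical test form -/

def dxz : ℂ × ℂ →L[ℝ] ℝ := reCLM.comp (ContinuousLinearMap.snd ℝ ℂ ℂ)

def dyz : ℂ × ℂ →L[ℝ] ℝ := imCLM.comp (ContinuousLinearMap.snd ℝ ℂ ℂ)

/-- `h ↦ h.2.re dy - h.2.im dx`. -/
def Ml : ℂ × ℂ →L[ℝ] (ℂ × ℂ →L[ℝ] ℝ) := dxz.smulRight dyz - dyz.smulRight dxz

theorem Ml_apply (h k : ℂ × ℂ) : Ml h k = h.2.re * k.2.im - h.2.im * k.2.re := by
  simp [Ml, dxz, dyz]

def Mf (z : ℂ) (x : ℂ × ℂ) : ℂ × ℂ →L[ℝ] ℝ := Ml x - Ml (0, z)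

theorem Mf_apply (z : ℂ) (x k : ℂ × ℂ) :
    Mf z x k = (x.2 - z).re * k.2.im - (x.2 - z).im * k.2.re := by
  simp only [Mf, sub_apply, Ml_apply, sub_re, sub_im]
  ring

theorem hasFDerivAt_Mf (z : ℂ) (x : ℂ × ℂ) : HasFDerivAt (Mf z) Ml x :=
  (Ml.hasFDerivAt (x := x)).sub_const _

theorem contDiff_Mf (z : ℂ) : ContDiff ℝ ∞ (Mf z) := Ml.contDiff.sub contDiff_const

theorem fderiv_form {g : ℂ × ℂ → ℝ} {z : ℂ} {x : ℂ × ℂ} (hg : DifferentiableAt ℝ g x)
    (h k : ℂ × ℂ) : fderiv ℝ (fun y => g y • Mf z y) x h k =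
      g x * Ml h k + fderiv ℝ g x h * Mf z x k := by
  have e : HasFDerivAt (fun y => g y • Mf z y)
      (g x • Ml + (fderiv ℝ g x).smulRight (Mf z x)) x :=
    hg.hasFDerivAt.smul (hasFDerivAt_Mf z x)
  rw [e.fderiv]
  simp

theorem vec_zero {μ β : ℂ} {A : ℂ × ℂ} (h : A.1 = 0) : vec μ β A = (0, A.2) := by
  simp [vec, h]

/-- on a vertical plane `ds` is a divergence. -/
theorem dS_vert {μ β : ℂ × ℂ → ℂ} {A : ℂ × ℂ → ℂ × ℂ} {g : ℂ × ℂ → ℝ} {z : ℂ} {x : ℂ × ℂ}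
    (hg : DifferentiableAt ℝ g x) (h1 : (A x).1 = 0) (h2 : ‖(A x).2‖ ^ 2 = 1) :
    dS μ β A (fun y => g y • Mf z y) x = fderiv ℝ g x (0, x.2 - z) + 2 * g x := by
  have h1' : (I • A x).1 = 0 := by simp [h1]
  have hI : (I • A x).2 = I * (A x).2 := by simp
  have lin : ∀ a : ℂ, fderiv ℝ g x (0, a) =
      a.re * fderiv ℝ g x (0, 1) + a.im * fderiv ℝ g x (0, I) := by
    intro a
    have : ((0 : ℂ), a) = a.re • ((0 : ℂ), (1 : ℂ)) + a.im • ((0 : ℂ), I) := by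
      ext <;> simp
    rw [this, map_add, map_smul, map_smul]
    simp
  have hn : (A x).2.re ^ 2 + (A x).2.im ^ 2 = 1 := by
    rw [← h2, ← Complex.normSq_eq_norm_sq, Complex.normSq_apply]
    ring
  unfold dS
  rw [vec_zero h1, vec_zero h1', hI, fderiv_form hg, fderiv_form hg]
  rw [lin ((A x).2), lin (I * (A x).2), lin (x.2 - z)]
  simp only [Ml_apply, Mf_apply, mul_re, mul_im, I_re, I_im]
  linear_combination
    (((x.2 - z).re * fderiv ℝ g x (0, 1) + (x.2 - z).im * fderiv ℝ g x (0, I)) + 2 * g x) * hn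

theorem dS_zero {μ β : ℂ × ℂ → ℂ} {A : ℂ × ℂ → ℂ × ℂ} {g : ℂ × ℂ → ℝ} {z : ℂ} {x : ℂ × ℂ}
    (hg : DifferentiableAt ℝ g x) (h1 : g x = 0) (h2 : fderiv ℝ g x = 0) :
    dS μ β A (fun y => g y • Mf z y) x = 0 := by
  unfold dS
  rw [fderiv_form hg, fderiv_form hg, h1, h2]
  simp

/-! ### the function -/

/-- the weight. -/
def gf (φ : ℂ → ℝ) (χ : ℝ → ℝ) (z : ℂ) (r : ℝ) (x : ℂ × ℂ) : ℝ :=
  φ x.1 * (χ (‖x.2 - z‖ ^ 2) * (‖x.2 - z‖ ^ 2 + r ^ 2)⁻¹)

theorem contDiff_gf {φ : ℂ → ℝ} {χ : ℝ → ℝ} {z : ℂ} {r : ℝ} (hφ : ContDiff ℝ ∞ φ)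
    (hχ : ContDiff ℝ ∞ χ) (hr : 0 < r) : ContDiff ℝ ∞ (gf φ χ z r) := by
  have hn : ContDiff ℝ ∞ (fun x : ℂ × ℂ => ‖x.2 - z‖ ^ 2) :=
    (contDiff_norm_sq ℝ).comp (contDiff_snd.sub contDiff_const)
  unfold gf
  refine (hφ.comp contDiff_fst).mul ((hχ.comp hn).mul (ContDiff.inv (hn.add contDiff_const) ?_))
  intro x
  positivity

theorem fderiv_gf {φ : ℂ → ℝ} {χ : ℝ → ℝ} {z : ℂ} {r : ℝ} (hφ : ContDiff ℝ ∞ φ)
    (hχ : ContDiff ℝ ∞ χ) (hr : 0 < r) (x : ℂ × ℂ) :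
    fderiv ℝ (gf φ χ z r) x (0, x.2 - z) =
      φ x.1 * ((deriv χ (‖x.2 - z‖ ^ 2) * (2 * ‖x.2 - z‖ ^ 2)) * (‖x.2 - z‖ ^ 2 + r ^ 2)⁻¹ +
        χ (‖x.2 - z‖ ^ 2) * (-(2 * ‖x.2 - z‖ ^ 2) / (‖x.2 - z‖ ^ 2 + r ^ 2) ^ 2)) := by
  have hd : DifferentiableAt ℝ (gf φ χ z r) x :=
    (contDiff_gf hφ hχ hr).differentiable (by simp) x
  have h1 : HasDerivAt (fun τ : ℝ => gf φ χ z r (x + τ • ((0 : ℂ), x.2 - z)))
      (fderiv ℝ (gf φ χ z r) x (0, x.2 - z)) 0 := hd.hasFDerivAt.hasLineDerivAt _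
  have h2 : (fun τ : ℝ => gf φ χ z r (x + τ • ((0 : ℂ), x.2 - z))) = fun τ : ℝ =>
      φ x.1 * (χ ((1 + τ) ^ 2 * ‖x.2 - z‖ ^ 2) * ((1 + τ) ^ 2 * ‖x.2 - z‖ ^ 2 + r ^ 2)⁻¹) := by
    funext τ
    have e1 : (x + τ • ((0 : ℂ), x.2 - z)).1 = x.1 := by simp
    have e2 : (x + τ • ((0 : ℂ), x.2 - z)).2 - z = ((1 + τ : ℝ) : ℂ) * (x.2 - z) := by
      simp
      ring
    have e3 : ‖(x + τ • ((0 : ℂ), x.2 - z)).2 - z‖ ^ 2 = (1 + τ) ^ 2 * ‖x.2 - z‖ ^ 2 := by
      rw [e2, norm_mul, mul_pow, Complex.norm_real, Real.norm_eq_abs, sq_abs]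
    unfold gf
    rw [e1, e3]
  rw [h2] at h1
  have hp : HasDerivAt (fun τ : ℝ => (1 + τ) ^ 2 * ‖x.2 - z‖ ^ 2) (2 * ‖x.2 - z‖ ^ 2) 0 := by
    have := ((((hasDerivAt_id (0 : ℝ)).const_add 1).pow 2).mul_const (‖x.2 - z‖ ^ 2))
    simpa using this
  have hχd : HasDerivAt χ (deriv χ (‖x.2 - z‖ ^ 2)) ((1 + 0 : ℝ) ^ 2 * ‖x.2 - z‖ ^ 2) := by
    have : ((1 + 0 : ℝ) ^ 2 * ‖x.2 - z‖ ^ 2) = ‖x.2 - z‖ ^ 2 := by ring
    rw [this]
    exact (hχ.differentiable (by simp) _).hasDerivAt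
  have hA := hχd.comp (0 : ℝ) hp
  have hB := (hp.add_const (r ^ 2)).inv (by positivity)
  have h3 := (hA.mul hB).const_mul (φ x.1)
  have := h1.unique h3
  rw [this]
  simp

/-- the divergence of the test form on vertical planes. -/
theorem G_eq {φ : ℂ → ℝ} {χ : ℝ → ℝ} {z : ℂ} {r : ℝ} (hφ : ContDiff ℝ ∞ φ)
    (hχ : ContDiff ℝ ∞ χ) (hr : 0 < r) (x : ℂ × ℂ) :
    fderiv ℝ (gf φ χ z r) x (0, x.2 - z) + 2 * gf φ χ z r x =
      2 * φ x.1 * (χ (‖x.2 - z‖ ^ 2) * (r ^ 2 / (‖x.2 - z‖ ^ 2 + r ^ 2) ^ 2) +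
        deriv χ (‖x.2 - z‖ ^ 2) * (‖x.2 - z‖ ^ 2 / (‖x.2 - z‖ ^ 2 + r ^ 2))) := by
  rw [fderiv_gf hφ hχ hr]
  unfold gf
  have : ‖x.2 - z‖ ^ 2 + r ^ 2 ≠ 0 := by positivity
  field_simp
  ring

/-- outside the product of the discs the weight vanishes to first order. -/
theorem gf_out {φ : ℂ → ℝ} {χ : ℝ → ℝ} {t z : ℂ} {r d : ℝ} 
    (h1 : ∀ t', 2 * r < dist t' t → φ t' = 0) (h2 : ∀ s, d ^ 2 < s → χ s = 0) (hd : 0 ≤ d)
    {x : ℂ × ℂ} (hx : x ∉ closedBall t (2 * r) ×ˢ closedBall z d) :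
    gf φ χ z r x = 0 ∧ fderiv ℝ (gf φ χ z r) x = 0 := by
  have key : ∀ y ∈ (closedBall t (2 * r) ×ˢ closedBall z d)ᶜ, gf φ χ z r y = 0 := by
    intro y hy
    unfold gf
    by_cases h : y.1 ∈ closedBall t (2 * r)
    · have h' : y.2 ∉ closedBall z d := fun h' => hy ⟨h, h'⟩
      rw [mem_closedBall, not_le, dist_eq_norm] at h'
      rw [h2 _ (by gcongr)]
      ring
    · rw [mem_closedBall, not_le] at h
      rw [h1 _ h]
      ring
  have hop : IsOpen (closedBall t (2 * r) ×ˢ closedBall z d)ᶜ :=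
    (isClosed_closedBall.prod isClosed_closedBall).isOpen_compl
  refine ⟨key x hx, ?_⟩
  have : gf φ χ z r =ᶠ[𝓝 x] fun _ => 0 := by
    filter_upwards [hop.mem_nhds hx] with y hy using key y hy
  rw [this.fderiv_eq]
  simp

/-! ### the measure -/

theorem vert_of_hor {μ β : ℂ × ℂ → ℂ} {κ L : ℝ} (hco : Coef μ β κ L) {R : ℝ}
    {m : Measure (ℂ × ℂ)} {A : ℂ × ℂ → ℂ × ℂ} {C c : ℝ} (hc : Cyl μ β R m A C c)
    {Q : Set (ℂ × ℂ)} (hQ : MeasurableSet Q) (h0 : hor μ m A Q = 0) :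
    ∀ᵐ x ∂m, x ∈ Q → (A x).1 = 0 := by
  have hm : Measurable fun x => ENNReal.ofReal (‖(A x).1‖ ^ 2 / (1 - ‖μ x‖ ^ 2)) := by
    refine ENNReal.measurable_ofReal.comp ((hc.meas.fst.norm.pow_const 2).div
      (measurable_const.sub (hco.smμ.continuous.measurable.norm.pow_const 2)))
  rw [hor, withDensity_apply _ hQ, lintegral_eq_zero_iff hm] at h0
  have h1 := (ae_restrict_iff' hQ).1 h0
  filter_upwards [h1] with x hx hxQ
  have h2 := hx hxQ
  simp only [Pi.zero_apply, ENNReal.ofReal_eq_zero] at h2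
  have h3 : 0 < 1 - ‖μ x‖ ^ 2 := by
    have h4 := hco.bμ x
    have h5 := hco.κ1
    have h6 := norm_nonneg (μ x)
    nlinarith
  have h4 : ‖(A x).1‖ ^ 2 ≤ 0 := by
    by_contra h
    have := div_pos (not_le.1 h) h3
    linarith
  have h5 : ‖(A x).1‖ = 0 := by
    have := sq_nonneg ‖(A x).1‖
    exact pow_eq_zero_iff (two_ne_zero) |>.1 (le_antisymm h4 this)
  exact norm_eq_zero.1 h5

/-- the test form estimates the mass of a small ball by the mass over the disc. -/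
theorem key_ineq {μ β : ℂ × ℂ → ℂ} {R : ℝ}
    {m : Measure (ℂ × ℂ)} {A : ℂ × ℂ → ℂ × ℂ} {C c : ℝ} (hc : Cyl μ β R m A C c)
    {t z : ℂ} {ρ δ : ℝ} (hδ : 0 < δ) (hρ : ball t ρ ⊆ ball (0 : ℂ) (R / 4))
    (hv : ∀ᵐ x ∂m, x ∈ ball t ρ ×ˢ ball z δ → (A x).1 = 0) :
    ∃ B : ℝ, 0 ≤ B ∧ ∀ r : ℝ, 0 < r → 2 * r < ρ → r ≤ δ / 4 →
      m.real (ball t r ×ˢ ball z r) / (4 * r ^ 2) ≤
        B * m.real (ball t (2 * r) ×ˢ univ) := by
  have : IsFiniteMeasure m := ⟨hc.fin⟩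
  let χ : ContDiffBump (0 : ℝ) := ⟨δ ^ 2 / 16, δ ^ 2 / 4, by positivity, by nlinarith⟩
  have hχ : ContDiff ℝ ∞ (χ : ℝ → ℝ) := χ.contDiff
  obtain ⟨B, hB⟩ := (χ.hasCompactSupport.deriv).exists_bound_of_continuous
    (hχ.continuous_deriv (by simp))
  have hB0 : 0 ≤ B := (norm_nonneg _).trans (hB 0)
  refine ⟨B, hB0, ?_⟩
  intro r hr hrρ hrδ
  let φ : ContDiffBump t := ⟨r, 2 * r, hr, by linarith⟩
  have hφ : ContDiff ℝ ∞ (φ : ℂ → ℝ) := φ.contDiff
  have hφ0 : ∀ t', 2 * r < dist t' t → φ t' = 0 := fun t' h => φ.zero_of_le_dist h.le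
  have hχ0 : ∀ s, (δ / 2) ^ 2 < s → χ s = 0 := by
    intro s hs
    refine χ.zero_of_le_dist ?_
    have : (0 : ℝ) ≤ s := le_trans (sq_nonneg _) hs.le
    rw [Real.dist_eq, sub_zero, abs_of_nonneg this]
    change δ ^ 2 / 4 ≤ s
    nlinarith
  have hdiff : Differentiable ℝ (gf φ χ z r) :=
    (contDiff_gf hφ hχ hr).differentiable (by simp)
  have hout : ∀ x ∉ closedBall t (2 * r) ×ˢ closedBall z (δ / 2),
      gf φ χ z r x = 0 ∧ fderiv ℝ (gf φ χ z r) x = 0 :=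
    fun x hx => gf_out hφ0 hχ0 (by positivity) hx
  set G : ℂ × ℂ → ℝ := fun x =>
    fderiv ℝ (gf φ χ z r) x (0, x.2 - z) + 2 * gf φ χ z r x with hG
  have hGc : Continuous G :=
    (((contDiff_gf hφ hχ hr).continuous_fderiv (by simp)).clm_apply
      (continuous_const.prodMk (continuous_snd.sub continuous_const))).add
      (continuous_const.mul (contDiff_gf hφ hχ hr).continuous)
  have hGs : HasCompactSupport G := by
    refine HasCompactSupport.intro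
      ((isCompact_closedBall t (2 * r)).prod (isCompact_closedBall z (δ / 2))) ?_
    intro x hx
    simp [hG, (hout x hx).1, (hout x hx).2]
  have hGi : Integrable G m := hGc.integrable_of_hasCompactSupport hGs
  have hG0 : ∫ x, G x ∂m = 0 := by
    have hR := hc.R0
    have hcl := hc.closed (fun y => gf φ χ z r y • Mf z y)
      ((contDiff_gf hφ hχ hr).smul (contDiff_Mf z)) ⟨R / 4, by linarith, ?_⟩
    · rw [← hcl]
      refine integral_congr_ae ?_
      filter_upwards [hv] with x hx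
      by_cases hxK : x ∈ closedBall t (2 * r) ×ˢ closedBall z (δ / 2)
      · have hxQ : x ∈ ball t ρ ×ˢ ball z δ :=
          ⟨closedBall_subset_ball hrρ hxK.1, closedBall_subset_ball (by linarith) hxK.2⟩
        have h1 := hx hxQ
        have h2 := hc.unit x
        rw [h1] at h2
        simp only [norm_zero, ne_eq, OfNat.ofNat_ne_zero, not_false_eq_true, zero_pow,
          zero_add] at h2
        rw [dS_vert (hdiff x) h1 h2]
      · rw [dS_zero (hdiff x) (hout x hxK).1 (hout x hxK).2]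
        simp [hG, (hout x hxK).1, (hout x hxK).2]
    · intro x hx
      have h1 : x.1 ∉ closedBall t (2 * r) := by
        intro h
        have := hρ (closedBall_subset_ball hrρ h)
        rw [mem_ball, dist_zero_right] at this
        linarith
      have h2 : x ∉ closedBall t (2 * r) ×ˢ closedBall z (δ / 2) := fun h => h1 h.1
      simp [(hout x h2).1]
  have hlow : ∀ x, (1 / (2 * r ^ 2)) * (ball t r ×ˢ ball z r).indicator (fun _ => (1 : ℝ)) x -
      2 * B * (ball t (2 * r) ×ˢ univ).indicator (fun _ => (1 : ℝ)) x ≤ G x := by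
    intro x
    rw [hG]
    simp only
    rw [G_eq hφ hχ hr x]
    set s : ℝ := ‖x.2 - z‖ ^ 2 with hs
    have hs0 : 0 ≤ s := by positivity
    have hr2 : 0 < r ^ 2 := by positivity
    have hN : 0 < s + r ^ 2 := by positivity
    have e1 : 0 ≤ s / (s + r ^ 2) := by positivity
    have e2 : s / (s + r ^ 2) ≤ 1 := by
      rw [div_le_one hN]
      linarith
    have e3 : -B ≤ deriv χ s := by
      have := hB s
      rw [Real.norm_eq_abs] at this
      exact (abs_le.1 this).1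
    have e4 : -B ≤ deriv χ s * (s / (s + r ^ 2)) := by
      have : -B * 1 ≤ -B * (s / (s + r ^ 2)) :=
        mul_le_mul_of_nonpos_left e2 (by linarith)
      have h' : -B * (s / (s + r ^ 2)) ≤ deriv χ s * (s / (s + r ^ 2)) :=
        mul_le_mul_of_nonneg_right e3 e1
      linarith
    have e5 : 0 ≤ χ s * (r ^ 2 / (s + r ^ 2) ^ 2) := mul_nonneg χ.nonneg (by positivity)
    have e6 : 0 ≤ φ x.1 := φ.nonneg
    have e7 : φ x.1 ≤ 1 := φ.le_one
    by_cases hx1 : x.1 ∈ ball t (2 * r)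
    · have i2 : (ball t (2 * r) ×ˢ (univ : Set ℂ)).indicator (fun _ => (1 : ℝ)) x = 1 :=
        indicator_of_mem (show x ∈ ball t (2 * r) ×ˢ (univ : Set ℂ) from ⟨hx1, mem_univ _⟩) _
      rw [i2]
      by_cases hx2 : x ∈ ball t r ×ˢ ball z r
      · rw [indicator_of_mem hx2]
        have f1 : φ x.1 = 1 := φ.one_of_mem_closedBall (ball_subset_closedBall hx2.1)
        have f2 : s < r ^ 2 := by
          have := mem_ball.1 hx2.2
          rw [dist_eq_norm] at this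
          rw [hs]
          gcongr
        have f3 : χ s = 1 := by
          refine χ.one_of_mem_closedBall ?_
          rw [mem_closedBall, Real.dist_eq, sub_zero, abs_of_nonneg hs0]
          change s ≤ δ ^ 2 / 16
          have : r ^ 2 ≤ (δ / 4) ^ 2 := by gcongr
          nlinarith
        have f4 : 1 / (4 * r ^ 2) ≤ r ^ 2 / (s + r ^ 2) ^ 2 := by
          rw [div_le_div_iff₀ (by positivity) (by positivity)]
          have : (s + r ^ 2) ^ 2 ≤ (2 * r ^ 2) ^ 2 := by gcongr; linarith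
          nlinarith
        rw [f1, f3]
        have f5 : 1 / (2 * r ^ 2) = 2 * (1 / (4 * r ^ 2)) := by
          field_simp
          norm_num
        rw [f5]
        nlinarith
      · rw [indicator_of_notMem hx2]
        have : -B * 1 ≤ φ x.1 * (χ s * (r ^ 2 / (s + r ^ 2) ^ 2) +
            deriv χ s * (s / (s + r ^ 2))) := by
          have g1 : -B ≤ χ s * (r ^ 2 / (s + r ^ 2) ^ 2) + deriv χ s * (s / (s + r ^ 2)) := by
            linarith
          have g2 := mul_le_mul_of_nonneg_left g1 e6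
          have g3 : -B * 1 ≤ φ x.1 * -B := by nlinarith
          linarith
        linarith
    · have i1 : x ∉ ball t r ×ˢ ball z r := by
        intro h
        exact hx1 (ball_subset_ball (by linarith) h.1)
      have i2 : x ∉ ball t (2 * r) ×ˢ (univ : Set ℂ) := fun h => hx1 h.1
      have i3 : φ x.1 = 0 := φ.zero_of_le_dist (by simpa using hx1)
      rw [indicator_of_notMem i1, indicator_of_notMem i2, i3]
      simp
  have hm1 : MeasurableSet (ball t r ×ˢ ball z r) := measurableSet_ball.prod measurableSet_ball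
  have hm2 : MeasurableSet (ball t (2 * r) ×ˢ (univ : Set ℂ)) :=
    measurableSet_ball.prod MeasurableSet.univ
  have hint1 : Integrable (fun x => (1 / (2 * r ^ 2)) *
      (ball t r ×ˢ ball z r).indicator (fun _ => (1 : ℝ)) x) m :=
    ((integrable_const (1 : ℝ)).indicator hm1).const_mul _
  have hint2 : Integrable (fun x => 2 * B *
      (ball t (2 * r) ×ˢ (univ : Set ℂ)).indicator (fun _ => (1 : ℝ)) x) m :=
    ((integrable_const (1 : ℝ)).indicator hm2).const_mul _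
  have hmono := integral_mono (hint1.sub hint2) hGi hlow
  have hlhs : ∫ x, ((1 / (2 * r ^ 2)) *
      (ball t r ×ˢ ball z r).indicator (fun _ => (1 : ℝ)) x -
      2 * B * (ball t (2 * r) ×ˢ univ).indicator (fun _ => (1 : ℝ)) x) ∂m =
      (1 / (2 * r ^ 2)) * m.real (ball t r ×ˢ ball z r) -
        2 * B * m.real (ball t (2 * r) ×ˢ univ) := by
    rw [integral_sub hint1 hint2, integral_const_mul, integral_const_mul,
      integral_indicator hm1, integral_indicator hm2]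
    simp
  have hfin : (1 / (2 * r ^ 2)) * m.real (ball t r ×ˢ ball z r) -
        2 * B * m.real (ball t (2 * r) ×ˢ univ) ≤ 0 := by
    rw [← hlhs, ← hG0]
    exact hmono
  have : m.real (ball t r ×ˢ ball z r) / (4 * r ^ 2) =
      (1 / (2 * r ^ 2)) * m.real (ball t r ×ˢ ball z r) / 2 := by
    field_simp
    norm_num
  rw [this]
  linarith

/-- `hor` vanishes over a box which is missed by `S`. -/
theorem hor_zero {μ β : ℂ × ℂ → ℂ} {R : ℝ} {m : Measure (ℂ × ℂ)} {A : ℂ × ℂ → ℂ × ℂ} {k : ℕ}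
    {T : ℂ → Finset ℂ} (hF : Fib μ β R m A k T) {C' b : ℝ} {S : ℂ → Multiset ℂ}
    (hS : ExtF μ β R m A k T C' b S) {t z : ℂ} {ρ δ : ℝ} (hρ : ball t ρ ⊆ ball (0 : ℂ) (R / 4))
    (hfar : ∀ t' ∈ ball t ρ, ∀ b' ∈ S t', b' ∉ ball z δ) :
    hor μ m A (ball t ρ ×ˢ ball z δ) = 0 := by
  have hm : MeasurableSet (ball t ρ ×ˢ ball z δ) := measurableSet_ball.prod measurableSet_ball
  have h1 := (hF.dis ((ball t ρ ×ˢ ball z δ).indicator 1)
    (measurable_one.indicator hm)).2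
  rw [lintegral_indicator_one hm] at h1
  rw [h1]
  have h2 : ∀ᵐ t' ∂(volume.restrict (ball (0 : ℂ) R)),
      ∑ z' ∈ T t', (ball t ρ ×ˢ ball z δ).indicator (1 : ℂ × ℂ → ENNReal) (t', z') = 0 := by
    refine ae_restrict_of_ae ?_
    filter_upwards [hS.ae] with t' ht'
    refine Finset.sum_eq_zero ?_
    intro z' hz'
    refine indicator_of_notMem ?_ _
    rintro ⟨h3, h4⟩
    have h5 := ht' (hρ h3)
    refine hfar t' h3 z' ?_ h4
    rw [h5]
    exact hz'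
  rw [lintegral_congr_ae h2]
  simp

theorem mem_of_supp {μ β : ℂ × ℂ → ℂ} {κ L : ℝ} (hco : Coef μ β κ L) {R : ℝ}
    {m : Measure (ℂ × ℂ)} {A : ℂ × ℂ → ℂ × ℂ} {C c : ℝ} (hc : Cyl μ β R m A C c) {k : ℕ}
    {T : ℂ → Finset ℂ} (hF : Fib μ β R m A k T) {C' b : ℝ} {S : ℂ → Multiset ℂ}
    (hS : ExtF μ β R m A k T C' b S) {t : ℂ} (ht : t ∈ ball (0 : ℂ) (R / 4)) {z : ℂ}
    (hmem : (t, z) ∈ msupp m) : z ∈ S t := by
  by_contra hz
  have : IsFiniteMeasure m := ⟨hc.fin⟩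
  have hR := hc.R0
  obtain ⟨δ', hδ', hgap⟩ := exists_gap z (S t)
  obtain ⟨ρ₁, hρ₁, hb₁⟩ := exists_ball_sub ht
  obtain ⟨ρ₂, hρ₂, hb₂⟩ := exists_rpow_small hS.C0.le hS.b0 (half_pos hδ')
  have hρsub : ball t (min ρ₁ ρ₂) ⊆ ball (0 : ℂ) (R / 4) :=
    (ball_subset_ball (min_le_left _ _)).trans hb₁
  have hfar : ∀ t' ∈ ball t (min ρ₁ ρ₂), ∀ b' ∈ S t', b' ∉ ball z (δ' / 2) := by
    intro t' ht' b' hb' hbz
    have hcl : Multiset.Rel (fun x y => dist x y ≤ C' * dist t t' ^ b) (S t) (S t') :=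
      hS.hold t ht t' (hρsub ht')
    obtain ⟨b₀, hb₀, hbb⟩ := Multiset.exists_mem_of_rel_of_mem (Multiset.rel_flip.2 hcl) hb'
    have hbb' : dist b₀ b' ≤ C' * dist t t' ^ b := hbb
    have h1 : C' * dist t t' ^ b ≤ δ' / 2 := by
      refine hb₂ _ dist_nonneg ?_
      rw [dist_comm]
      exact (mem_ball.1 ht').le.trans (min_le_right _ _)
    have h2 : b₀ ≠ z := fun h => hz (h ▸ hb₀)
    have h3 := hgap b₀ hb₀ h2
    have h4 := dist_triangle b₀ b' z
    have h5 := mem_ball.1 hbz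
    linarith
  have hor0 := hor_zero hF hS hρsub hfar
  have hv := vert_of_hor hco hc (measurableSet_ball.prod measurableSet_ball) hor0
  obtain ⟨B, hB0, hB⟩ := key_ineq hc (half_pos hδ') hρsub hv
  have hb0 := hS.b0
  have hc0 := hc.c0
  obtain ⟨ρ₃, hρ₃, hb₃⟩ := exists_rpow_small (C := B * C') (α := 2 * b) (ε := c / 8)
    (mul_nonneg hB0 hS.C0.le) (by positivity) (by positivity)
  -- the radius
  obtain ⟨r, hr, hr1, hr2, hr3, hr4⟩ : ∃ r : ℝ, 0 < r ∧ 2 * r < min ρ₁ ρ₂ ∧ r ≤ δ' / 2 / 4 ∧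
      2 * r ≤ ρ₃ ∧ r ≤ R / 4 := by
    have h0 : 0 < min (min ρ₁ ρ₂ / 4) (min (δ' / 2 / 4) (min (ρ₃ / 2) (R / 4))) :=
      lt_min (by have := lt_min hρ₁ hρ₂; positivity)
        (lt_min (by positivity) (lt_min (by positivity) (by positivity)))
    refine ⟨_, h0, ?_, ?_, ?_, ?_⟩
    · have h1 := min_le_left (min ρ₁ ρ₂ / 4) (min (δ' / 2 / 4) (min (ρ₃ / 2) (R / 4)))
      have h2 := lt_min hρ₁ hρ₂
      linarith
    · exact (min_le_right _ _).trans (min_le_left _ _)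
    · have h1 := (min_le_right (min ρ₁ ρ₂ / 4) (min (δ' / 2 / 4) (min (ρ₃ / 2) (R / 4)))).trans
        ((min_le_right _ _).trans (min_le_left _ _))
      linarith
    · exact (min_le_right _ _).trans ((min_le_right _ _).trans (min_le_right _ _))
  have htR : ‖t‖ < R / 4 := by simpa using ht
  have hlow := hc.low (t, z) hmem r hr (by simp only; linarith)
  have hlow' : c * r ^ 2 ≤ m.real (ball t r ×ˢ ball z r) := by
    rw [ball_prod_same, measureReal_def]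
    exact (ENNReal.ofReal_le_iff_le_toReal (measure_ne_top _ _)).1 hlow
  have hdec := hS.decay t (ball_subset_ball (by linarith) ht) (2 * r) (by positivity)
    (by linarith)
  have hkey := hB r hr hr1 hr2
  have h8 := hb₃ (2 * r) (by positivity) hr3
  have h9 : m.real (ball t (2 * r) ×ˢ univ) ≤ C' * (2 * r) ^ (2 * b) := hdec
  have h10 : c / 4 ≤ m.real (ball t r ×ˢ ball z r) / (4 * r ^ 2) := by
    rw [div_le_div_iff₀ (by norm_num) (by positivity)]
    nlinarith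
  have h11 : B * m.real (ball t (2 * r) ×ˢ univ) ≤ B * (C' * (2 * r) ^ (2 * b)) :=
    mul_le_mul_of_nonneg_left h9 hB0
  have h12 : B * C' * (2 * r) ^ (2 * b) = B * (C' * (2 * r) ^ (2 * b)) := by ring
  rw [h12] at h8
  linarith

theorem supp_of_mem {μ β : ℂ × ℂ → ℂ} {R : ℝ}
    {m : Measure (ℂ × ℂ)} {A : ℂ × ℂ → ℂ × ℂ} {C c : ℝ} (hc : Cyl μ β R m A C c) {k : ℕ}
    {T : ℂ → Finset ℂ} (hF : Fib μ β R m A k T) {C' b : ℝ} {S : ℂ → Multiset ℂ}
    (hS : ExtF μ β R m A k T C' b S) {t : ℂ} (ht : t ∈ ball (0 : ℂ) (R / 4)) {z : ℂ}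
    (hz : z ∈ S t) : (t, z) ∈ msupp m := by
  intro ρ hρ
  have hR := hc.R0
  have hae : ∀ᵐ t' : ℂ, t' ∈ ball (0 : ℂ) (R / 4) →
      S t' = (T t').val ∧ (T t' : Set ℂ) = Kf m t' := by
    filter_upwards [hS.ae, hF.good] with t' h1 h2 ht'
    exact ⟨h1 ht', (h2 (ball_subset_ball (by linarith) ht')).2.1⟩
  obtain ⟨ρ₁, hρ₁, hb₁⟩ := exists_ball_sub ht
  obtain ⟨ρ₂, hρ₂, hb₂⟩ := exists_rpow_small hS.C0.le hS.b0
    (show (0 : ℝ) < ρ / 4 by positivity)
  obtain ⟨t', hgood, ht'⟩ := (Measure.dense_of_ae hae).exists_mem_open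
    (isOpen_ball (x := t) (ε := min (ρ / 2) (min ρ₁ ρ₂)))
    ⟨t, mem_ball_self (lt_min (by positivity) (lt_min hρ₁ hρ₂))⟩
  have hgood' : t' ∈ ball (0 : ℂ) (R / 4) → S t' = (T t').val ∧ (T t' : Set ℂ) = Kf m t' := hgood
  have hd := mem_ball.1 ht'
  have h1 : dist t' t < ρ / 2 := hd.trans_le (min_le_left _ _)
  have h2 : dist t' t < ρ₁ := hd.trans_le ((min_le_right _ _).trans (min_le_left _ _))
  have h3 : dist t' t < ρ₂ := hd.trans_le ((min_le_right _ _).trans (min_le_right _ _))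
  have ht'R : t' ∈ ball (0 : ℂ) (R / 4) := hb₁ (mem_ball.2 h2)
  obtain ⟨h4, h5⟩ := hgood' ht'R
  have hcl : Multiset.Rel (fun x y => dist x y ≤ C' * dist t t' ^ b) (S t) (S t') :=
    hS.hold t ht t' ht'R
  obtain ⟨z', hz', hzz⟩ := Multiset.exists_mem_of_rel_of_mem hcl hz
  have hzz' : dist z z' ≤ ρ / 4 := by
    refine le_trans hzz (hb₂ _ dist_nonneg ?_)
    rw [dist_comm]
    exact h3.le
  have h6 : (t', z') ∈ msupp m := by
    have h7 : z' ∈ (T t' : Set ℂ) := by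
      rw [h4] at hz'
      exact hz'
    rw [h5] at h7
    exact h7
  refine lt_of_lt_of_le (h6 (ρ / 2) (by positivity)) (measure_mono ?_)
  intro y hy
  have h8 := mem_ball.1 hy
  rw [mem_ball, Prod.dist_eq] at *
  rw [max_lt_iff] at h8 ⊢
  have h9 := dist_triangle y.1 t' t
  have h10 := dist_triangle y.2 z' z
  rw [dist_comm z' z] at h10
  simp only at h8 ⊢
  constructor
  · linarith [h8.1]
  · linarith [h8.2]

/-- **C12.** The support over the small disc is the graph of `S`. -/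
theorem supp : SUPP := by
  intro μ β κ L hco R m A C c hc k T hF C' b S hS t ht z
  exact ⟨fun h => mem_of_supp hco hc hF hS ht h, fun h => supp_of_mem hc hF hS ht h⟩

end

end Crest.Agent.R235.CylSupp_305
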