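import Crest.Agent.R235.CylDef_607
import Crest.Agent.R235.CylSupp_305

/-!
Row 235 (S0364), package REG-CYL, leaf C15 (`SUPPS` of `CylDef_607`): the support of a box current
is the graph of the continuous representative `S`. (The scalar estimates are those of
`CylSupp_305`.)
-/

set_option autoImplicit false

open MeasureTheory Metric Set Filter Complex
open scoped ContDiff Topology ComplexConjugate

namespace Crest.Agent.R235.CylSupp_876

open Crest.Agent.R235.Loc Crest.Agent.R235.Cyl Crest.Agent.R235.LocClus_305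
open Crest.Agent.R235.CylSupp_305 (Ml Mf Ml_apply Mf_apply contDiff_Mf fderiv_form gf contDiff_gf
  G_eq gf_out)

noncomputable section

/-- on a vertical plane `d (g M)` is a divergence. -/
theorem dv {g : ℂ × ℂ → ℝ} {z : ℂ} {x X Y : ℂ × ℂ} (hg : DifferentiableAt ℝ g x)
    (h1 : X.1 = 0) (h2 : Y.1 = 0) (h3 : Y.2 = I * X.2) (h4 : ‖X.2‖ = 1) :
    fderiv ℝ (fun y => g y • Mf z y) x X Y - fderiv ℝ (fun y => g y • Mf z y) x Y X =
      fderiv ℝ g x (0, x.2 - z) + 2 * g x := by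
  have eX : X = (0, X.2) := Prod.ext h1 rfl
  have eY : Y = (0, I * X.2) := Prod.ext h2 h3
  have lin : ∀ a : ℂ, fderiv ℝ g x (0, a) =
      a.re * fderiv ℝ g x (0, 1) + a.im * fderiv ℝ g x (0, I) := by
    intro a
    have : ((0 : ℂ), a) = a.re • ((0 : ℂ), (1 : ℂ)) + a.im • ((0 : ℂ), I) := by
      ext <;> simp
    rw [this, map_add, map_smul, map_smul]
    simp
  have hn : X.2.re ^ 2 + X.2.im ^ 2 = 1 := by
    have h5 : ‖X.2‖ ^ 2 = 1 := by rw [h4]; norm_num
    rw [← h5, ← Complex.normSq_eq_norm_sq, Complex.normSq_apply]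
    ring
  generalize X.2 = a at eX eY hn
  subst eX eY
  rw [fderiv_form hg, fderiv_form hg]
  rw [lin a, lin (I * a), lin (x.2 - z)]
  simp only [Ml_apply, Mf_apply, mul_re, mul_im, I_re, I_im]
  linear_combination
    (((x.2 - z).re * fderiv ℝ g x (0, 1) + (x.2 - z).im * fderiv ℝ g x (0, I)) + 2 * g x) * hn

theorem dv_zero {g : ℂ × ℂ → ℝ} {z : ℂ} {x X Y : ℂ × ℂ} (hg : DifferentiableAt ℝ g x)
    (h1 : g x = 0) (h2 : fderiv ℝ g x = 0) :
    fderiv ℝ (fun y => g y • Mf z y) x X Y - fderiv ℝ (fun y => g y • Mf z y) x Y X = 0 := by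
  rw [fderiv_form hg, fderiv_form hg, h1, h2]
  simp

/-- the tangent plane at `p` is vertical. -/
def Vert (X Y : ℂ × ℂ) : Prop := X.1 = 0 ∧ Y.1 = 0 ∧ Y.2 = I * X.2 ∧ ‖X.2‖ = 1

/-- the test form estimates the mass of a small ball by the mass over the disc. -/
theorem key_ineq {μ β : CC → ℂ} {c : ℂ} {R ρ₀ K : ℝ} {m : Measure CC} {X Y : CC → CC}
    (hc : BoxCur μ β c R ρ₀ K m X Y)
    {t z : ℂ} {ρ δ : ℝ} (hδ : 0 < δ) (hρ : ball t ρ ⊆ ball c R)
    (hv : ∀ᵐ x ∂m, x ∈ ball t ρ ×ˢ ball z δ → Vert (X x) (Y x)) :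
    ∃ B : ℝ, 0 ≤ B ∧ ∀ r : ℝ, 0 < r → 2 * r < ρ → r ≤ δ / 4 →
      m.real (ball t r ×ˢ ball z r) / (4 * r ^ 2) ≤
        B * m.real (ball t (2 * r) ×ˢ univ) := by
  have : IsFiniteMeasure m := hc.fin
  let χ : ContDiffBump (0 : ℝ) := ⟨δ ^ 2 / 16, δ ^ 2 / 4, by positivity, by nlinarith⟩
  have hχ : ContDiff ℝ ∞ (χ : ℝ → ℝ) := χ.contDiff
  obtain ⟨B, hB⟩ := (χ.hasCompactSupport.deriv).exists_bound_of_continuous
    (hχ.continuous_deriv (by simp))
  have hB0 : 0 ≤ B := (norm_nonneg _).trans (hB 0)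
  refine ⟨B, hB0, ?_⟩
  intro r hr hrρ hrδ
  let φ : ContDiffBump t := ⟨r, 2 * r, hr, by linarith⟩
  have hφ : ContDiff ℝ ∞ (φ : ℂ → ℝ) := φ.contDiff
  have hφ0 : ∀ t', 2 * r < dist t' t → φ t' = 0 := fun t' h => φ.zero_of_le_dist h.le
  have hχ0 : ∀ s, (δ / 2) ^ 2 < s → χ s = 0 := by
    intro s hs
    refine χ.zero_of_le_dist ?_
    have : (0 : ℝ) ≤ s := le_trans (sq_nonneg _) hs.le
    rw [Real.dist_eq, sub_zero, abs_of_nonneg this]
    change δ ^ 2 / 4 ≤ s
    nlinarith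
  have hdiff : Differentiable ℝ (gf φ χ z r) :=
    (contDiff_gf hφ hχ hr).differentiable (by simp)
  have hout : ∀ x ∉ closedBall t (2 * r) ×ˢ closedBall z (δ / 2),
      gf φ χ z r x = 0 ∧ fderiv ℝ (gf φ χ z r) x = 0 :=
    fun x hx => gf_out hφ0 hχ0 (by positivity) hx
  set G : ℂ × ℂ → ℝ := fun x =>
    fderiv ℝ (gf φ χ z r) x (0, x.2 - z) + 2 * gf φ χ z r x with hG
  have hGc : Continuous G :=
    (((contDiff_gf hφ hχ hr).continuous_fderiv (by simp)).clm_apply
      (continuous_const.prodMk (continuous_snd.sub continuous_const))).add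
      (continuous_const.mul (contDiff_gf hφ hχ hr).continuous)
  have hcpt : IsCompact (closedBall t (2 * r) ×ˢ closedBall z (δ / 2)) :=
    (isCompact_closedBall t (2 * r)).prod (isCompact_closedBall z (δ / 2))
  have hGs : HasCompactSupport G := by
    refine HasCompactSupport.intro hcpt ?_
    intro x hx
    simp [hG, (hout x hx).1, (hout x hx).2]
  have hGi : Integrable G m := hGc.integrable_of_hasCompactSupport hGs
  have hG0 : ∫ x, G x ∂m = 0 := by
    have hz : ∀ x ∉ closedBall t (2 * r) ×ˢ closedBall z (δ / 2),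
        (fun y => gf φ χ z r y • Mf z y) x = 0 := by
      intro x hx
      simp [(hout x hx).1]
    have hcl := hc.closed (fun y => gf φ χ z r y • Mf z y)
      ((contDiff_gf hφ hχ hr).smul (contDiff_Mf z)) (HasCompactSupport.intro hcpt hz) ?_
    · rw [← hcl]
      refine integral_congr_ae ?_
      filter_upwards [hv] with x hx
      by_cases hxK : x ∈ closedBall t (2 * r) ×ˢ closedBall z (δ / 2)
      · have hxQ : x ∈ ball t ρ ×ˢ ball z δ :=
          ⟨closedBall_subset_ball hrρ hxK.1, closedBall_subset_ball (by linarith) hxK.2⟩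
        obtain ⟨h1, h2, h3, h4⟩ := hx hxQ
        rw [dv (hdiff x) h1 h2 h3 h4]
      · rw [dv_zero (hdiff x) (hout x hxK).1 (hout x hxK).2]
        simp [hG, (hout x hxK).1, (hout x hxK).2]
    · have h1 : tsupport (fun y => gf φ χ z r y • Mf z y) ⊆
          closedBall t (2 * r) ×ˢ closedBall z (δ / 2) := by
        refine closure_minimal ?_ hcpt.isClosed
        intro x hx
        by_contra h
        exact hx (hz x h)
      intro x hx
      have h2 := h1 hx
      exact ⟨hρ (closedBall_subset_ball hrρ h2.1), mem_univ _⟩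
  have hlow : ∀ x, (1 / (2 * r ^ 2)) * (ball t r ×ˢ ball z r).indicator (fun _ => (1 : ℝ)) x -
      2 * B * (ball t (2 * r) ×ˢ univ).indicator (fun _ => (1 : ℝ)) x ≤ G x := by
    intro x
    rw [hG]
    simp only
    rw [G_eq hφ hχ hr x]
    set s : ℝ := ‖x.2 - z‖ ^ 2 with hs
    have hs0 : 0 ≤ s := by positivity
    have hr2 : 0 < r ^ 2 := by positivity
    have hN : 0 < s + r ^ 2 := by positivity
    have e1 : 0 ≤ s / (s + r ^ 2) := by positivity
    have e2 : s / (s + r ^ 2) ≤ 1 := by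
      rw [div_le_one hN]
      linarith
    have e3 : -B ≤ deriv χ s := by
      have := hB s
      rw [Real.norm_eq_abs] at this
      exact (abs_le.1 this).1
    have e4 : -B ≤ deriv χ s * (s / (s + r ^ 2)) := by
      have : -B * 1 ≤ -B * (s / (s + r ^ 2)) :=
        mul_le_mul_of_nonpos_left e2 (by linarith)
      have h' : -B * (s / (s + r ^ 2)) ≤ deriv χ s * (s / (s + r ^ 2)) :=
        mul_le_mul_of_nonneg_right e3 e1
      linarith
    have e5 : 0 ≤ χ s * (r ^ 2 / (s + r ^ 2) ^ 2) := mul_nonneg χ.nonneg (by positivity)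
    have e6 : 0 ≤ φ x.1 := φ.nonneg
    have e7 : φ x.1 ≤ 1 := φ.le_one
    by_cases hx1 : x.1 ∈ ball t (2 * r)
    · have i2 : (ball t (2 * r) ×ˢ (univ : Set ℂ)).indicator (fun _ => (1 : ℝ)) x = 1 :=
        indicator_of_mem (show x ∈ ball t (2 * r) ×ˢ (univ : Set ℂ) from ⟨hx1, mem_univ _⟩) _
      rw [i2]
      by_cases hx2 : x ∈ ball t r ×ˢ ball z r
      · rw [indicator_of_mem hx2]
        have f1 : φ x.1 = 1 := φ.one_of_mem_closedBall (ball_subset_closedBall hx2.1)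
        have f2 : s < r ^ 2 := by
          have := mem_ball.1 hx2.2
          rw [dist_eq_norm] at this
          rw [hs]
          gcongr
        have f3 : χ s = 1 := by
          refine χ.one_of_mem_closedBall ?_
          rw [mem_closedBall, Real.dist_eq, sub_zero, abs_of_nonneg hs0]
          change s ≤ δ ^ 2 / 16
          have : r ^ 2 ≤ (δ / 4) ^ 2 := by gcongr
          nlinarith
        have f4 : 1 / (4 * r ^ 2) ≤ r ^ 2 / (s + r ^ 2) ^ 2 := by
          rw [div_le_div_iff₀ (by positivity) (by positivity)]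
          have : (s + r ^ 2) ^ 2 ≤ (2 * r ^ 2) ^ 2 := by gcongr; linarith
          nlinarith
        rw [f1, f3]
        have f5 : 1 / (2 * r ^ 2) = 2 * (1 / (4 * r ^ 2)) := by
          field_simp
          norm_num
        rw [f5]
        nlinarith
      · rw [indicator_of_notMem hx2]
        have : -B * 1 ≤ φ x.1 * (χ s * (r ^ 2 / (s + r ^ 2) ^ 2) +
            deriv χ s * (s / (s + r ^ 2))) := by
          have g1 : -B ≤ χ s * (r ^ 2 / (s + r ^ 2) ^ 2) + deriv χ s * (s / (s + r ^ 2)) := by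
            linarith
          have g2 := mul_le_mul_of_nonneg_left g1 e6
          have g3 : -B * 1 ≤ φ x.1 * -B := by nlinarith
          linarith
        linarith
    · have i1 : x ∉ ball t r ×ˢ ball z r := by
        intro h
        exact hx1 (ball_subset_ball (by linarith) h.1)
      have i2 : x ∉ ball t (2 * r) ×ˢ (univ : Set ℂ) := fun h => hx1 h.1
      have i3 : φ x.1 = 0 := φ.zero_of_le_dist (by simpa using hx1)
      rw [indicator_of_notMem i1, indicator_of_notMem i2, i3]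
      simp
  have hm1 : MeasurableSet (ball t r ×ˢ ball z r) := measurableSet_ball.prod measurableSet_ball
  have hm2 : MeasurableSet (ball t (2 * r) ×ˢ (univ : Set ℂ)) :=
    measurableSet_ball.prod MeasurableSet.univ
  have hint1 : Integrable (fun x => (1 / (2 * r ^ 2)) *
      (ball t r ×ˢ ball z r).indicator (fun _ => (1 : ℝ)) x) m :=
    ((integrable_const (1 : ℝ)).indicator hm1).const_mul _
  have hint2 : Integrable (fun x => 2 * B *
      (ball t (2 * r) ×ˢ (univ : Set ℂ)).indicator (fun _ => (1 : ℝ)) x) m :=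
    ((integrable_const (1 : ℝ)).indicator hm2).const_mul _
  have hmono := integral_mono (hint1.sub hint2) hGi hlow
  have hlhs : ∫ x, ((1 / (2 * r ^ 2)) *
      (ball t r ×ˢ ball z r).indicator (fun _ => (1 : ℝ)) x -
      2 * B * (ball t (2 * r) ×ˢ univ).indicator (fun _ => (1 : ℝ)) x) ∂m =
      (1 / (2 * r ^ 2)) * m.real (ball t r ×ˢ ball z r) -
        2 * B * m.real (ball t (2 * r) ×ˢ univ) := by
    rw [integral_sub hint1 hint2, integral_const_mul, integral_const_mul,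
      integral_indicator hm1, integral_indicator hm2]
    simp
  have hfin : (1 / (2 * r ^ 2)) * m.real (ball t r ×ˢ ball z r) -
        2 * B * m.real (ball t (2 * r) ×ˢ univ) ≤ 0 := by
    rw [← hlhs, ← hG0]
    exact hmono
  have : m.real (ball t r ×ˢ ball z r) / (4 * r ^ 2) =
      (1 / (2 * r ^ 2)) * m.real (ball t r ×ˢ ball z r) / 2 := by
    field_simp
    norm_num
  rw [this]
  linarith

theorem measurable_hh {X Y : CC → CC} (hX : Measurable X) (hY : Measurable Y) :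
    Measurable fun p => hh (X p) (Y p) := by
  unfold hh
  exact ((measurable_re.comp hX.fst).mul (measurable_im.comp hY.fst)).sub
    ((measurable_re.comp hY.fst).mul (measurable_im.comp hX.fst))

/-- over an open box missed by the graph the tangent planes are vertical. -/
theorem vert_of_miss (h0 : ALG0) (hd : DISI) {μ β : CC → ℂ} {κ L : ℝ} (hco : SBox μ β κ L)
    {c : ℂ} {R ρ₀ K : ℝ} {m : Measure CC} {X Y : CC → CC} (hc : BoxCur μ β c R ρ₀ K m X Y)
    {S : ℂ → Multiset ℂ}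
    (hS : ∀ᵐ z : ℂ, z ∈ ball c R → (S z).Nodup ∧ ∀ w, w ∈ S z ↔ w ∈ fib m z)
    {t z : ℂ} {ρ δ : ℝ}
    (hfar : ∀ t' ∈ ball t ρ, ∀ b' ∈ S t', b' ∉ ball z δ) :
    ∀ᵐ x ∂m, x ∈ ball t ρ ×ˢ ball z δ → Vert (X x) (Y x) := by
  have : IsFiniteMeasure m := hc.fin
  obtain ⟨C₀, c₀, hc₀, hC₀, hA⟩ := h0 κ L K hco.box.κ0 hco.box.κ1 hco.box.L0
  have hAp := fun p => hA μ β hco p (X p) (Y p) (hc.nX p) (hc.nY p) (hc.jz p) (hc.jw p)
  set Q : Set CC := ball t ρ ×ˢ ball z δ with hQ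
  have hm : MeasurableSet Q := measurableSet_ball.prod measurableSet_ball
  have hmh := measurable_hh hc.mX hc.mY
  have hint : Integrable (fun p => Q.indicator (fun _ => (1 : ℝ)) p * hh (X p) (Y p)) m := by
    refine Integrable.of_bound (((measurable_const.indicator hm).mul hmh).aestronglyMeasurable)
      C₀ ?_
    refine Eventually.of_forall fun p => ?_
    obtain ⟨a1, a2, -⟩ := hAp p
    rw [norm_mul, Real.norm_eq_abs, Real.norm_eq_abs, abs_of_nonneg a1]
    by_cases hp : p ∈ Q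
    · rw [indicator_of_mem hp]
      simpa using a2
    · rw [indicator_of_notMem hp]
      simpa using hC₀.le
  have h1 := (hd μ β κ L hco c R ρ₀ K m X Y hc (Q.indicator fun _ => (1 : ℝ))
    (measurable_const.indicator hm) hint).2
  have h2 : ∫ z in ball c R, FS m (Q.indicator fun _ => (1 : ℝ)) z = 0 := by
    refine (integral_congr_ae ?_).trans (integral_zero _ _)
    have h3 : ∀ᵐ z' ∂(volume.restrict (ball c R)), z' ∈ ball c R := ae_restrict_mem
      measurableSet_ball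
    filter_upwards [h3, ae_restrict_of_ae hS] with z' hz' hSz
    obtain ⟨-, h4⟩ := hSz hz'
    unfold FS
    refine (finsum_mem_congr rfl fun w hw => ?_).trans (finsum_mem_zero _)
    refine indicator_of_notMem ?_ _
    rintro ⟨h5, h6⟩
    exact hfar z' h5 w ((h4 w).2 hw) h6
  rw [h2] at h1
  have h3 : (fun p => Q.indicator (fun _ => (1 : ℝ)) p * hh (X p) (Y p)) =ᵐ[m] 0 := by
    refine (integral_eq_zero_iff_of_nonneg (fun p => ?_) hint).1 h1
    exact mul_nonneg (indicator_nonneg (fun _ _ => zero_le_one) _) (hAp p).1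
  filter_upwards [h3] with p hp hpQ
  rw [indicator_of_mem hpQ] at hp
  have hp0 : hh (X p) (Y p) = 0 := by simpa using hp
  obtain ⟨-, -, -, -, -, -, -, -, a9, a10, -⟩ := hAp p
  rw [hp0, mul_zero] at a9 a10
  have e1 : (X p).1 = 0 := by
    have := pow_eq_zero_iff (two_ne_zero) |>.1 (le_antisymm a9 (sq_nonneg _))
    exact norm_eq_zero.1 this
  have e2 : (Y p).1 = 0 := by
    have := pow_eq_zero_iff (two_ne_zero) |>.1 (le_antisymm a10 (sq_nonneg _))
    exact norm_eq_zero.1 this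
  have e3 := hc.jw p
  unfold thw at e3
  rw [e1, e2] at e3
  simp only [map_zero, mul_zero, add_zero] at e3
  refine ⟨e1, e2, e3, ?_⟩
  have e4 := hc.nX p
  rw [Prod.norm_def, e1, norm_zero, max_eq_right (norm_nonneg _)] at e4
  exact e4

theorem mem_of_supp (h0 : ALG0) (hd : DISI) (hD : DECAY)
    {μ β : CC → ℂ} {κ L : ℝ} (hco : SBox μ β κ L)
    {c : ℂ} {R ρ₀ K : ℝ} {m : Measure CC} {X Y : CC → CC} (hc : BoxCur μ β c R ρ₀ K m X Y)
    {S : ℂ → Multiset ℂ}
    (hH : ∀ R' < R, ∃ C b : ℝ, 0 ≤ C ∧ 0 < b ∧ ∀ z ∈ ball c R', ∀ z' ∈ ball c R',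
      Close (C * dist z z' ^ b) (S z) (S z'))
    (hS : ∀ᵐ z : ℂ, z ∈ ball c R → (S z).Nodup ∧ ∀ w, w ∈ S z ↔ w ∈ fib m z)
    {t : ℂ} (ht : t ∈ ball c R) {z : ℂ} (hmem : InSupp m (t, z)) : z ∈ S t := by
  by_contra hz
  have : IsFiniteMeasure m := hc.fin
  -- a radius between
  obtain ⟨R', hR'1, hR'2⟩ := exists_between (mem_ball.1 ht)
  have htR' : t ∈ ball c R' := mem_ball.2 hR'1
  obtain ⟨C₁, b₁, hC₁, hb₁0, hhold⟩ := hH R' hR'2
  obtain ⟨C₂, b₂, r₂, hC₂, hb₂0, -, hr₂, -, hdec⟩ :=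
    hD μ β κ L hco c R ρ₀ K m X Y hc R' hR'2
  obtain ⟨c₃, hc₃, r₃, hr₃, hlow⟩ := hc.low R' hR'2
  obtain ⟨δ', hδ', hgap⟩ := exists_gap z (S t)
  obtain ⟨ρ₁, hρ₁, hb₁⟩ := exists_ball_sub htR'
  obtain ⟨ρ₂, hρ₂, hb₂⟩ := exists_rpow_small hC₁ hb₁0 (half_pos hδ')
  have hρsub' : ball t (min ρ₁ ρ₂) ⊆ ball c R' :=
    (ball_subset_ball (min_le_left _ _)).trans hb₁
  have hρsub : ball t (min ρ₁ ρ₂) ⊆ ball c R := hρsub'.trans (ball_subset_ball hR'2.le)
  have hfar : ∀ t' ∈ ball t (min ρ₁ ρ₂), ∀ b' ∈ S t', b' ∉ ball z (δ' / 2) := by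
    intro t' ht' b' hb' hbz
    have hcl : Multiset.Rel (fun x y => dist x y ≤ C₁ * dist t t' ^ b₁) (S t) (S t') :=
      hhold t htR' t' (hρsub' ht')
    obtain ⟨b₀, hb₀, hbb⟩ := Multiset.exists_mem_of_rel_of_mem (Multiset.rel_flip.2 hcl) hb'
    have hbb' : dist b₀ b' ≤ C₁ * dist t t' ^ b₁ := hbb
    have h1 : C₁ * dist t t' ^ b₁ ≤ δ' / 2 := by
      refine hb₂ _ dist_nonneg ?_
      rw [dist_comm]
      exact (mem_ball.1 ht').le.trans (min_le_right _ _)
    have h2 : b₀ ≠ z := fun h => hz (h ▸ hb₀)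
    have h3 := hgap b₀ hb₀ h2
    have h4 := dist_triangle b₀ b' z
    have h5 := mem_ball.1 hbz
    linarith
  have hv := vert_of_miss h0 hd hco hc hS hfar
  obtain ⟨B, hB0, hB⟩ := key_ineq hc (half_pos hδ') hρsub hv
  obtain ⟨ρ₃, hρ₃, hb₃⟩ := exists_rpow_small (C := B * C₂) (α := 2 * b₂) (ε := c₃ / 8)
    (mul_nonneg hB0 hC₂) (by positivity) (by positivity)
  -- the radius
  obtain ⟨r, hr, hr1, hr2, hr3, hr4, hr5⟩ : ∃ r : ℝ, 0 < r ∧ 2 * r < min ρ₁ ρ₂ ∧
      r ≤ δ' / 2 / 4 ∧ 2 * r ≤ ρ₃ ∧ 2 * r ≤ r₂ ∧ r ≤ r₃ := by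
    have h1 := lt_min hρ₁ hρ₂
    have h2 : 0 < min (min ρ₁ ρ₂ / 4) (min (δ' / 2 / 4) (min (ρ₃ / 2) (min (r₂ / 2) r₃))) :=
      lt_min (by positivity) (lt_min (by positivity) (lt_min (by positivity)
        (lt_min (by positivity) hr₃)))
    refine ⟨_, h2, ?_, ?_, ?_, ?_, ?_⟩
    · have h3 := min_le_left (min ρ₁ ρ₂ / 4)
        (min (δ' / 2 / 4) (min (ρ₃ / 2) (min (r₂ / 2) r₃)))
      linarith
    · exact (min_le_right _ _).trans (min_le_left _ _)
    · have h3 := (min_le_right (min ρ₁ ρ₂ / 4)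
        (min (δ' / 2 / 4) (min (ρ₃ / 2) (min (r₂ / 2) r₃)))).trans
        ((min_le_right _ _).trans (min_le_left _ _))
      linarith
    · have h3 := (min_le_right (min ρ₁ ρ₂ / 4)
        (min (δ' / 2 / 4) (min (ρ₃ / 2) (min (r₂ / 2) r₃)))).trans
        ((min_le_right _ _).trans ((min_le_right _ _).trans (min_le_left _ _)))
      linarith
    · exact (min_le_right _ _).trans
        ((min_le_right _ _).trans ((min_le_right _ _).trans (min_le_right _ _)))
  have htc : t ∈ closedBall c R' := ball_subset_closedBall htR'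
  have hlow' : c₃ * r ^ 2 ≤ m.real (ball t r ×ˢ ball z r) := by
    rw [ball_prod_same]
    exact hlow (t, z) htc hmem r hr hr5
  have h9 : m.real (ball t (2 * r) ×ˢ univ) ≤ C₂ * (2 * r) ^ (2 * b₂) := by
    refine le_trans ?_ (hdec t htc (2 * r) (by positivity) hr4).1
    exact measureReal_mono (prod_mono ball_subset_closedBall subset_rfl)
  have hkey := hB r hr hr1 hr2
  have h8 := hb₃ (2 * r) (by positivity) hr3
  have h10 : c₃ / 4 ≤ m.real (ball t r ×ˢ ball z r) / (4 * r ^ 2) := by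
    rw [div_le_div_iff₀ (by norm_num) (by positivity)]
    nlinarith
  have h11 : B * m.real (ball t (2 * r) ×ˢ univ) ≤ B * (C₂ * (2 * r) ^ (2 * b₂)) :=
    mul_le_mul_of_nonneg_left h9 hB0
  have h12 : B * C₂ * (2 * r) ^ (2 * b₂) = B * (C₂ * (2 * r) ^ (2 * b₂)) := by ring
  rw [h12] at h8
  linarith

theorem supp_of_mem
    {c : ℂ} {R : ℝ} {m : Measure CC} {S : ℂ → Multiset ℂ}
    (hH : ∀ R' < R, ∃ C b : ℝ, 0 ≤ C ∧ 0 < b ∧ ∀ z ∈ ball c R', ∀ z' ∈ ball c R',
      Close (C * dist z z' ^ b) (S z) (S z'))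
    (hS : ∀ᵐ z : ℂ, z ∈ ball c R → (S z).Nodup ∧ ∀ w, w ∈ S z ↔ w ∈ fib m z)
    {t : ℂ} (ht : t ∈ ball c R) {z : ℂ} (hz : z ∈ S t) : InSupp m (t, z) := by
  intro ρ hρ
  obtain ⟨R', hR'1, hR'2⟩ := exists_between (mem_ball.1 ht)
  have htR' : t ∈ ball c R' := mem_ball.2 hR'1
  obtain ⟨C₁, b₁, hC₁, hb₁0, hhold⟩ := hH R' hR'2
  obtain ⟨ρ₁, hρ₁, hb₁⟩ := exists_ball_sub htR'
  obtain ⟨ρ₂, hρ₂, hb₂⟩ := exists_rpow_small hC₁ hb₁0 (show (0 : ℝ) < ρ / 4 by positivity)
  obtain ⟨t', hgood, ht'⟩ := (Measure.dense_of_ae hS).exists_mem_open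
    (isOpen_ball (x := t) (ε := min (ρ / 2) (min ρ₁ ρ₂)))
    ⟨t, mem_ball_self (lt_min (by positivity) (lt_min hρ₁ hρ₂))⟩
  have hgood' : t' ∈ ball c R → (S t').Nodup ∧ ∀ w, w ∈ S t' ↔ w ∈ fib m t' := hgood
  have hd := mem_ball.1 ht'
  have h1 : dist t' t < ρ / 2 := hd.trans_le (min_le_left _ _)
  have h2 : dist t' t < ρ₁ := hd.trans_le ((min_le_right _ _).trans (min_le_left _ _))
  have h3 : dist t' t < ρ₂ := hd.trans_le ((min_le_right _ _).trans (min_le_right _ _))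
  have ht'R : t' ∈ ball c R' := hb₁ (mem_ball.2 h2)
  obtain ⟨-, h5⟩ := hgood' (ball_subset_ball hR'2.le ht'R)
  have hcl : Multiset.Rel (fun x y => dist x y ≤ C₁ * dist t t' ^ b₁) (S t) (S t') :=
    hhold t htR' t' ht'R
  obtain ⟨z', hz', hzz⟩ := Multiset.exists_mem_of_rel_of_mem hcl hz
  have hzz' : dist z z' ≤ ρ / 4 := by
    refine le_trans hzz (hb₂ _ dist_nonneg ?_)
    rw [dist_comm]
    exact h3.le
  have h6 : InSupp m (t', z') := (h5 z').1 hz'
  refine lt_of_lt_of_le (h6 (ρ / 2) (by positivity)) (measure_mono ?_)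
  intro y hy
  have h8 := mem_ball.1 hy
  rw [mem_ball, Prod.dist_eq] at *
  rw [max_lt_iff] at h8 ⊢
  have h9 := dist_triangle y.1 t' t
  have h10 := dist_triangle y.2 z' z
  rw [dist_comm z' z] at h10
  simp only at h8 ⊢
  constructor
  · linarith [h8.1]
  · linarith [h8.2]

/-- **C15.** The support is the graph of the continuous representative. -/
theorem supps_of (h0 : ALG0) (_hc : CLO) (hd : DISI) (hD : DECAY) : SUPPS := by
  intro μ β κ L hco c R ρ₀ K m X Y hc _ k S _ hH hS z hz w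
  exact ⟨fun h => supp_of_mem hH hS hz h, fun h => mem_of_supp h0 hd hD hco hc hH hS hz h⟩

end

end Crest.Agent.R235.CylSupp_876
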