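import Crest.Agent.R235.CylDef_522
import Crest.Agent.R235.CylVit_326

/-!
Row 235 (S0364), PACKAGE REG, block CYL, leaf C03 VERT (task 261, helper347):
the flat vertical points have null projection.
-/

set_option autoImplicit false

open MeasureTheory Metric Set Filter Complex
open scoped Topology ComplexConjugate

namespace Crest.Agent.R235.CylVert_347

open Crest.Agent.R235.Cyl_522

noncomputable section

lemma vec_vertical (μ β : ℂ) (A : ℂ × ℂ) (h : A.1 = 0) (c : ℂ) :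
    (vec μ β (c • A)).1 = 0 := by
  simp [vec, h]

/-- near a flat vertical point the mass away from the vertical line is small. -/
lemma mass_small {μ β : ℂ × ℂ → ℂ} {m : Measure (ℂ × ℂ)} {A : ℂ × ℂ → ℂ × ℂ} {x : ℂ × ℂ}
    (hF : Flat μ β m A x) (hA : (A x).1 = 0) {ε : ℝ} (hε : 0 < ε) :
    ∀ᶠ s in 𝓝[>] (0 : ℝ),
      m {y | y ∈ ball x s ∧ ε * s < dist y.1 x.1} ≤ ENNReal.ofReal (ε * s ^ 2) := by
  filter_upwards [hF.plane ε hε] with s hs
  refine le_trans (measure_mono ?_) hs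
  rintro y ⟨hy1, hy2⟩
  refine ⟨hy1, fun c => lt_of_lt_of_le hy2 ?_⟩
  have h1 : (y - x - vec (μ x) (β x) (c • A x)).1 = y.1 - x.1 := by
    simp [vec_vertical _ _ _ hA c]
  rw [dist_eq_norm, ← h1]
  exact norm_fst_le _

theorem vert : VERT := by
  intro μ β κ L hco R m A C c hcyl
  have : IsFiniteMeasure m := ⟨hcyl.fin⟩
  -- exhaustion
  set S : ℕ → Set (ℂ × ℂ) := fun n => {x | x ∈ msupp m ∧ ‖x.1‖ ≤ R - 1 / ((n : ℝ) + 1)} with hS
  set V : ℕ → Set (ℂ × ℂ) := fun n => {x | x ∈ S n ∧ (A x).1 = 0 ∧ Flat μ β m A x} with hV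
  have hlow : ∀ n : ℕ, CylVit_326.Low m (S n) c (1 / (2 * ((n : ℝ) + 1))) := by
    intro n x hx r hr hrn
    have hn : (0 : ℝ) < (n : ℝ) + 1 := by positivity
    have h1 : ‖x.1‖ + r < R := by
      have h2 : 1 / (2 * ((n : ℝ) + 1)) < 1 / ((n : ℝ) + 1) := by
        apply one_div_lt_one_div_of_lt hn
        linarith
      have h3 := hx.2
      linarith
    exact (hcyl.low x hx.1 r hr h1).trans (measure_mono ball_subset_closedBall)
  have hnull : ∀ n : ℕ, volume (Prod.fst '' (V n)) = 0 := by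
    intro n
    have hn : (0 : ℝ) < (n : ℝ) + 1 := by positivity
    refine CylVit_326.flat_proj (σ := m) (S := S n) (V := V n) hcyl.c0 (by positivity) (hlow n)
      (fun x hx => hx.1) ?_
    rintro x ⟨hxS, hxA, hxF⟩ ε hε d hd
    set ε₁ : ℝ := min ε 1 with hε₁
    have hε₁0 : 0 < ε₁ := lt_min hε one_pos
    have hε₁1 : ε₁ ≤ 1 := min_le_right _ _
    have hε₁ε : ε₁ ≤ ε := min_le_left _ _
    set ε' : ℝ := min (ε₁ / 20) (c * ε₁ ^ 2 / 800) with hε'
    have hc0 := hcyl.c0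
    have hε'0 : 0 < ε' := by
      apply lt_min
      · positivity
      · positivity
    have hε'1 : ε' ≤ ε₁ / 20 := min_le_left _ _
    have hε'2 : ε' ≤ c * ε₁ ^ 2 / 800 := min_le_right _ _
    have hev := mass_small hxF hxA hε'0
    have hev2 : ∀ᶠ s : ℝ in 𝓝[>] 0, s < 10 * min d (1 / ((n : ℝ) + 1)) := by
      have : 0 < 10 * min d (1 / ((n : ℝ) + 1)) := by positivity
      exact (Iio_mem_nhds this |> mem_nhdsWithin_of_mem_nhds)
    obtain ⟨s, ⟨hs1, hs2⟩, hs0⟩ := ((hev.and hev2).and self_mem_nhdsWithin).exists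
    have hs0' : 0 < s := hs0
    have hsd : s < 10 * d := lt_of_lt_of_le hs2 (by
      have := min_le_left d (1 / ((n : ℝ) + 1)); linarith)
    have hsn : s < 10 * (1 / ((n : ℝ) + 1)) := lt_of_lt_of_le hs2 (by
      have := min_le_right d (1 / ((n : ℝ) + 1)); linarith)
    refine ⟨s / 10, by positivity, by linarith, ?_⟩
    intro y hy hyx
    by_contra hcon
    push Not at hcon
    set ρ : ℝ := ε₁ * (s / 10) / 2 with hρ
    have hρ0 : 0 < ρ := by positivity
    have hρs : ρ ≤ s / 20 := by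
      rw [hρ]
      nlinarith
    have hyR : ‖y.1‖ + ρ < R := by
      have h2 := hy.2
      have h3 : ρ < 1 / ((n : ℝ) + 1) := by linarith
      linarith
    have hm1 := hcyl.low y hy.1 ρ hρ0 hyR
    have hsub : ball y ρ ⊆ {y | y ∈ ball x s ∧ ε' * s < dist y.1 x.1} := by
      intro w hw
      have hwy : dist w y < ρ := hw
      refine ⟨?_, ?_⟩
      · have : dist w x ≤ dist w y + dist y x := dist_triangle _ _ _
        rw [mem_ball]
        linarith
      · have h1 : dist y.1 x.1 ≤ dist y.1 w.1 + dist w.1 x.1 := dist_triangle _ _ _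
        have h2 : dist y.1 w.1 ≤ dist y w := by
          rw [Prod.dist_eq]
          exact le_max_left _ _
        rw [dist_comm y w] at h2
        have h3 : ε₁ * (s / 10) ≤ ε * (s / 10) :=
          mul_le_mul_of_nonneg_right hε₁ε (by positivity)
        have h4 : ε' * s ≤ ε₁ / 20 * s := mul_le_mul_of_nonneg_right hε'1 hs0'.le
        have h5 : ε₁ / 20 * s = ρ := by rw [hρ]; ring
        have h6 : ε₁ * (s / 10) = 2 * ρ := by rw [hρ]; ring
        linarith
    have hm2 := hm1.trans ((measure_mono hsub).trans hs1)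
    have h7 : c * ρ ^ 2 ≤ ε' * s ^ 2 := (ENNReal.ofReal_le_ofReal_iff (by positivity)).mp hm2
    have h8 : ε' * s ^ 2 ≤ c * ε₁ ^ 2 / 800 * s ^ 2 :=
      mul_le_mul_of_nonneg_right hε'2 (by positivity)
    have h9 : c * ρ ^ 2 = c * ε₁ ^ 2 * s ^ 2 / 400 := by rw [hρ]; ring
    have h10 : 0 < c * ε₁ ^ 2 * s ^ 2 := by positivity
    linarith
  have hsub : {t : ℂ | t ∈ ball (0 : ℂ) R ∧ ∃ z, (t, z) ∈ msupp m ∧ (A (t, z)).1 = 0 ∧
      Flat μ β m A (t, z)} ⊆ ⋃ n : ℕ, Prod.fst '' (V n) := by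
    rintro t ⟨ht, z, hz1, hz2, hz3⟩
    rw [mem_ball_zero_iff] at ht
    obtain ⟨n, hn⟩ := exists_nat_one_div_lt (sub_pos.mpr ht)
    refine mem_iUnion.mpr ⟨n, (t, z), ⟨⟨hz1, ?_⟩, hz2, hz3⟩, rfl⟩
    simp only
    linarith
  exact measure_mono_null hsub (measure_iUnion_null hnull)

end

end Crest.Agent.R235.CylVert_347
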