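import Crest.Agent.R235.LocDef_607
import Crest.Agent.R235.NWIface_334

/-!
# Row 235, REG-CYL-2: weak k-valued graphs (planar, no currents) => `Loc.KG` + uniform decay
-/

set_option autoImplicit false

open MeasureTheory Metric Set Filter Complex
open scoped ContDiff Topology ComplexConjugate

namespace Crest.Agent.R235.WKG_460

open Crest.Agent.R235.Loc

noncomputable section

/-- `Φ` is a smooth test function over `B`. -/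
structure Test (B : Set ℂ) (Φ : ℂ × ℂ → ℝ) : Prop where
  smooth : ContDiff ℝ ∞ Φ
  supp : ∃ K ⊆ B, IsCompact K ∧ ∀ t ∉ K, ∀ w, Φ (t, w) = 0

/-- **weak k-valued graph** over `ball c R` (output of CYL-1). `s t i` are the values, `A t i` the
slopes, `ma` the calibrated mass of the current pushed to the base. -/
structure WKG (μ β : ℂ × ℂ → ℂ) (c : ℂ) (R : ℝ) (k : ℕ) (s : ℂ → Fin k → ℂ)
    (A : ℂ → Fin k → (ℂ →L[ℝ] ℂ)) (ma : Measure ℂ) (K c0 Mb : ℝ) : Prop where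
  K0 : 0 ≤ K
  c0pos : 0 < c0
  smeas : ∀ i, Measurable (fun t => s t i)
  Ameas : ∀ i, Measurable (fun t => A t i)
  bdd : ∀ t i, ‖s t i‖ ≤ Mb
  inj : ∀ᵐ t ∂(volume.restrict (ball c R)), Function.Injective (s t)
  eint : IntegrableOn (fun t => ∑ i, ‖A t i‖ ^ 2) (ball c R)
  weak : ∀ Φ : ℂ × ℂ → ℝ, Test (ball c R) Φ → ∀ u : ℂ, (u = 1 ∨ u = I) →
    ∫ t in ball c R, ∑ i, fderiv ℝ Φ (t, s t i) (u, A t i u) = 0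
  pde : ∀ᵐ t ∂(volume.restrict (ball c R)), ∀ i,
    lzb (A t i) = μ (t, s t i) * lz (A t i) - β (t, s t i)
  mfin : ma (ball c R) ≠ ⊤
  e1 : ∀ V ⊆ ball c R, MeasurableSet V →
    c0 * ∫ t in V, (1 + ∑ i, ‖A t i‖ ^ 2) ≤ (ma V).toReal
  e2 : ∀ χ : ℂ → ℝ, ContDiff ℝ ∞ χ → HasCompactSupport χ → tsupport χ ⊆ ball c R →
    ∫ t, χ t ∂ma = (k * K * ∫ t, χ t) -
      1 / 2 * ∫ t in ball c R, ∑ i, (fderiv ℝ χ t 1 * (conj (s t i) * A t i I).im -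
        fderiv ℝ χ t I * (conj (s t i) * A t i 1).im)

/-- uniform decay on smaller balls. -/
def DecayU (c : ℂ) (R : ℝ) (S : ℂ → Multiset ℂ) (e : ℂ → ℝ) : Prop :=
  ∀ R' < R, ∃ C a r₀ : ℝ, 0 ≤ C ∧ 0 < a ∧ 0 < r₀ ∧ ∀ p ∈ ball c R', ball p r₀ ⊆ ball c R ∧
    (∀ r : ℝ, 0 < r → r ≤ r₀ → ∫ z in ball p r, e z ≤ C * r ^ (2 * a)) ∧
    (∀ z ∈ ball p r₀, Close (C * dist z p ^ a) (S p) (S z))

/-- **OUTPUT of CYL-2.** -/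
def CYL2 : Prop :=
  ∀ (μ β : ℂ × ℂ → ℂ) (κ L : ℝ), BoxD μ β κ L → ContDiff ℝ ∞ μ → ContDiff ℝ ∞ β →
  ∀ (c : ℂ) (R : ℝ) (k : ℕ) (s : ℂ → Fin k → ℂ) (A : ℂ → Fin k → (ℂ →L[ℝ] ℂ)) (ma : Measure ℂ)
    (K c0 Mb : ℝ), WKG μ β c R k s A ma K c0 Mb → ∀ R' < R,
  ∃ (S : ℂ → Multiset ℂ) (e : ℂ → ℝ), KG μ β c R' k S e ∧ DecayU c R' S e ∧
    (∀ᵐ t ∂(volume.restrict (ball c R')), S t = Multiset.map (s t) Finset.univ.val)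

/-! ### pure leaves -/

/-- C3: matching from test functions (Hall). -/
def HALL : Prop := ∀ k : ℕ, ∃ Ck : ℝ, 0 < Ck ∧ ∀ (a b : Fin k → ℂ) (ε : ℝ), 0 < ε →
  (∀ Ψ : ℂ → ℝ, ContDiff ℝ ∞ Ψ → (∀ w, ‖fderiv ℝ Ψ w‖ ≤ 1) →
    |∑ i, Ψ (a i) - ∑ i, Ψ (b i)| ≤ ε) →
  ∃ τ : Equiv.Perm (Fin k), ∀ i, ‖a i - b (τ i)‖ ≤ Ck * ε

/-- countable `C¹`-dense family of smooth functions on a disc. -/
def SEP : Prop := ∀ Mb : ℝ, ∃ Ψ : ℕ → ℂ → ℝ, (∀ n, ContDiff ℝ ∞ (Ψ n)) ∧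
  ∀ Φ : ℂ → ℝ, ContDiff ℝ ∞ Φ → ∀ ε > 0, ∃ n, ∀ w ∈ closedBall (0 : ℂ) Mb,
    |Φ w - Ψ n w| ≤ ε ∧ ‖fderiv ℝ Φ w - fderiv ℝ (Ψ n) w‖ ≤ ε

/-- weak gradient. -/
def Weak1 (B : Set ℂ) (F : ℂ → ℝ) (G : ℂ → (ℂ →L[ℝ] ℝ)) : Prop :=
  ∀ f : ℂ → ℝ, ContDiff ℝ ∞ f → HasCompactSupport f → tsupport f ⊆ B → ∀ u : ℂ,
    (u = 1 ∨ u = I) → ∫ t in B, fderiv ℝ f t u * F t = - ∫ t in B, f t * G t u

/-- C2: absolute continuity on almost every circle. -/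
def POLAR : Prop := ∀ (p : ℂ) (R M : ℝ) (F : ℂ → ℝ) (G : ℂ → (ℂ →L[ℝ] ℝ)), 0 < R →
  Measurable F → Measurable G → (∀ t, |F t| ≤ M) → IntegrableOn (fun t => ‖G t‖ ^ 2) (ball p R) →
  Weak1 (ball p R) F G →
  ∀ᵐ r : ℝ ∂(volume.restrict (Ioo 0 R)),
    IntegrableOn (fun φ : ℝ => ‖G (p + r * exp (φ * I))‖) (Ioc (-Real.pi) Real.pi) ∧
    ∀ᵐ φ₁ : ℝ ∂(volume.restrict (Ioc (-Real.pi) Real.pi)),
      ∀ᵐ φ₂ : ℝ ∂(volume.restrict (Ioc (-Real.pi) Real.pi)),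
      F (p + r * exp (φ₂ * I)) - F (p + r * exp (φ₁ * I)) =
        ∫ φ in φ₁..φ₂, G (p + r * exp (φ * I)) (I * (r * exp (φ * I)))

/-- C2 (periodicity): the integral over the whole circle vanishes. -/
def POLAR0 : Prop := ∀ (p : ℂ) (R M : ℝ) (F : ℂ → ℝ) (G : ℂ → (ℂ →L[ℝ] ℝ)), 0 < R →
  Measurable F → Measurable G → (∀ t, |F t| ≤ M) → IntegrableOn (fun t => ‖G t‖ ^ 2) (ball p R) →
  Weak1 (ball p R) F G →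
  ∀ᵐ r : ℝ ∂(volume.restrict (Ioo 0 R)),
    ∫ φ in (-Real.pi)..Real.pi, G (p + r * exp (φ * I)) (I * (r * exp (φ * I))) = 0

/-- a weak k-valued curve over the circle (parameter `(-π, π]`). -/
structure WCur (k : ℕ) (x y : ℝ → Fin k → ℂ) : Prop where
  xmeas : ∀ i, Measurable (fun φ => x φ i)
  ymeas : ∀ i, Measurable (fun φ => y φ i)
  xbdd : ∃ M, ∀ φ i, ‖x φ i‖ ≤ M
  yint : ∀ i, IntegrableOn (fun φ => ‖y φ i‖) (Ioc (-Real.pi) Real.pi)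
  ac : ∀ᵐ φ₁ : ℝ ∂(volume.restrict (Ioc (-Real.pi) Real.pi)),
      ∀ᵐ φ₂ : ℝ ∂(volume.restrict (Ioc (-Real.pi) Real.pi)),
      ∀ Ψ : ℂ → ℝ, ContDiff ℝ ∞ Ψ →
      ∑ i, Ψ (x φ₂ i) - ∑ i, Ψ (x φ₁ i) = ∫ φ in φ₁..φ₂, ∑ i, fderiv ℝ Ψ (x φ i) (y φ i)
  per : ∀ Ψ : ℂ → ℝ, ContDiff ℝ ∞ Ψ →
    ∫ φ in (-Real.pi)..Real.pi, ∑ i, fderiv ℝ Ψ (x φ i) (y φ i) = 0

/-- C4: isoperimetric inequality for weak closed k-valued curves. -/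
def ISOP : Prop := ∀ k : ℕ, ∃ C : ℝ, 0 ≤ C ∧ ∀ x y : ℝ → Fin k → ℂ, WCur k x y →
  |∫ φ in (-Real.pi)..Real.pi, ∑ i, (conj (x φ i) * y φ i).im| ≤
    C * (∫ φ in (-Real.pi)..Real.pi, ∑ i, ‖y φ i‖) ^ 2

/-- C5: the differential inequality. -/
def ODEL : Prop := ∀ (c0 C1 C2 : ℝ), 0 < c0 → 0 ≤ C1 → 0 < C2 → ∃ b C : ℝ, 0 < b ∧ b < 1 ∧ 0 ≤ C ∧
  ∀ (p : ℂ) (r0 : ℝ) (e : ℂ → ℝ), 0 < r0 → r0 ≤ 1 → (∀ z, 0 ≤ e z) → IntegrableOn e (ball p r0) →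
  (∀ᵐ r : ℝ ∂(volume.restrict (Ioo 0 r0)), c0 * ∫ z in ball p r, e z ≤
    C1 * r ^ 2 + C2 * r * (r * ∫ φ in (-Real.pi)..Real.pi, e (p + r * exp (φ * I)))) →
  ∀ r : ℝ, 0 < r → r ≤ r0 →
    ∫ z in ball p r, e z ≤ C * (r / r0) ^ (2 * b) * ((∫ z in ball p r0, e z) + r0)

/-- C6: Morrey's lemma. -/
def MORREY : Prop := ∀ b : ℝ, 0 < b → b < 1 → ∃ C : ℝ, 0 ≤ C ∧
  ∀ (c : ℂ) (R R' r0 M Mf : ℝ) (F : ℂ → ℝ) (G : ℂ → (ℂ →L[ℝ] ℝ)), 0 < R' → 0 < r0 → R' + r0 ≤ R →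
  0 ≤ M → Measurable F → Measurable G → (∀ t, |F t| ≤ Mf) →
  IntegrableOn (fun t => ‖G t‖ ^ 2) (ball c R) → Weak1 (ball c R) F G →
  (∀ p ∈ ball c R', ∀ r : ℝ, 0 < r → r ≤ r0 → ∫ z in ball p r, ‖G z‖ ^ 2 ≤ M ^ 2 * r ^ (2 * b)) →
  ∀ᵐ x : ℂ ∂(volume.restrict (ball c R')), ∀ᵐ y : ℂ ∂(volume.restrict (ball c R')),
    dist x y < r0 / 4 → |F x - F y| ≤ C * M * dist x y ^ b

/-- extension of a Hoelder k-valued function from a set of full measure. -/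
def EXT : Prop := ∀ (k : ℕ) (c : ℂ) (R r0 C b : ℝ) (s : ℂ → Fin k → ℂ), 0 < R → 0 < r0 → 0 ≤ C →
  0 < b → b ≤ 1 →
  (∀ᵐ x : ℂ ∂(volume.restrict (ball c R)), ∀ᵐ y : ℂ ∂(volume.restrict (ball c R)),
    dist x y < r0 → ∃ τ : Equiv.Perm (Fin k), ∀ i, ‖s x i - s y (τ i)‖ ≤ C * dist x y ^ b) →
  ∃ s' : ℂ → Fin k → ℂ, (∀ᵐ x : ℂ ∂(volume.restrict (ball c R)),
      ∃ τ : Equiv.Perm (Fin k), ∀ i, s' x i = s x (τ i)) ∧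
    ∀ x ∈ ball c R, ∀ y ∈ ball c R, dist x y < r0 →
      ∃ τ : Equiv.Perm (Fin k), ∀ i, ‖s' x i - s' y (τ i)‖ ≤ C * dist x y ^ b

/-! ### leaves about WKG -/

section
variable (μ β : ℂ × ℂ → ℂ) (c : ℂ) (R : ℝ) (k : ℕ) (s : ℂ → Fin k → ℂ)
    (A : ℂ → Fin k → (ℂ →L[ℝ] ℂ)) (ma : Measure ℂ) (K c0 Mb : ℝ)

/-- C1: mass of a ball against the circle integral. -/
def BALL : Prop := WKG μ β c R k s A ma K c0 Mb → ∀ (p : ℂ) (r0 : ℝ), ball p r0 ⊆ ball c R →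
  ∀ᵐ r : ℝ ∂(volume.restrict (Ioo 0 r0)), (ma (ball p r)).toReal ≤ k * K * Real.pi * r ^ 2 +
    1 / 2 * |∫ φ in (-Real.pi)..Real.pi,
      ∑ i, (conj (s (p + r * exp (φ * I)) i) *
        A (p + r * exp (φ * I)) i (I * (r * exp (φ * I)))).im|

/-- C2: almost every circle carries a weak k-valued curve. -/
def SLICE : Prop := WKG μ β c R k s A ma K c0 Mb → ∀ (p : ℂ) (r0 : ℝ), ball p r0 ⊆ ball c R →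
  ∀ᵐ r : ℝ ∂(volume.restrict (Ioo 0 r0)),
    WCur k (fun φ => s (p + r * exp (φ * I)))
      (fun φ i => A (p + r * exp (φ * I)) i (I * (r * exp (φ * I))))

/-- C1-C5: uniform Morrey decay of the calibrated mass and of the energy. -/
def DEC : Prop := WKG μ β c R k s A ma K c0 Mb → ∀ R' < R, ∃ C b r0 : ℝ, 0 ≤ C ∧ 0 < b ∧ b < 1 ∧
  0 < r0 ∧ R' + r0 < R ∧ ∀ p ∈ closedBall c R', ∀ r : ℝ, 0 < r → r ≤ r0 →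
    (ma (closedBall p r)).toReal ≤ C * r ^ (2 * b) ∧
    ∫ z in ball p r, ∑ i, ‖A z i‖ ^ 2 ≤ C * r ^ (2 * b)

/-- C6: Hoelder representative. -/
def HREP : Prop := WKG μ β c R k s A ma K c0 Mb → ∀ R' < R, ∃ (C b r0 : ℝ) (s' : ℂ → Fin k → ℂ),
  0 ≤ C ∧ 0 < b ∧ b < 1 ∧ 0 < r0 ∧
  (∀ᵐ x : ℂ ∂(volume.restrict (ball c R')), ∃ τ : Equiv.Perm (Fin k), ∀ i, s' x i = s x (τ i)) ∧
  ∀ x ∈ ball c R', ∀ y ∈ ball c R', dist x y < r0 →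
    ∃ τ : Equiv.Perm (Fin k), ∀ i, ‖s' x i - s' y (τ i)‖ ≤ C * dist x y ^ b

/-- C7: multiplicity one sheets are smooth solutions, with derivative `A` almost everywhere. -/
def SHEETS : Prop := WKG μ β c R k s A ma K c0 Mb → ContDiff ℝ ∞ μ → ContDiff ℝ ∞ β →
  (∀ p, ‖μ p‖ < 1) →
  ∀ (R' C b r0 : ℝ) (s' : ℂ → Fin k → ℂ), R' < R → 0 ≤ C → 0 < b → b < 1 → 0 < r0 →
  (∀ᵐ x : ℂ ∂(volume.restrict (ball c R')), ∃ τ : Equiv.Perm (Fin k), ∀ i, s' x i = s x (τ i)) →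
  (∀ x ∈ ball c R', ∀ y ∈ ball c R', dist x y < r0 →
    ∃ τ : Equiv.Perm (Fin k), ∀ i, ‖s' x i - s' y (τ i)‖ ≤ C * dist x y ^ b) →
  ∀ (V : Set ℂ) (w : ℂ → ℂ), V ⊆ ball c R' →
    Sheet (fun t => Multiset.map (s' t) Finset.univ.val) V w →
    ContDiffOn ℝ ∞ w V ∧
    (∀ z ∈ V, lzb (fderiv ℝ w z) = μ (z, w z) * lz (fderiv ℝ w z) - β (z, w z)) ∧
    ∀ᵐ z ∂(volume.restrict V), ∃ i, s z i = w z ∧ A z i = fderiv ℝ w z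

end

end

end Crest.Agent.R235.WKG_460
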