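import Crest.Agent.R235.CylDef_607
import Crest.Agent.R235.WKG_460

/-!
# Row 235, REG-CYL-2: from a box current to a weak k-valued graph (interface with CylDef_607)
-/

set_option autoImplicit false

open MeasureTheory Metric Set Filter Complex
open scoped ContDiff Topology ComplexConjugate

namespace Crest.Agent.R235.CylW_460

open Crest.Agent.R235.Loc Crest.Agent.R235.Cyl Crest.Agent.R235.WKG_460

noncomputable section

/-- BOXW: a box current gives a weak k-valued graph (measurable enumeration of the fibres, slopes,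
calibrated mass `ma = π_* ((kk + C₀ hh) m)`). -/
def BOXW : Prop :=
  ∀ (μ β : CC → ℂ) (κ L : ℝ), SBox μ β κ L →
  ∀ (c : ℂ) (R ρ K : ℝ) (m : Measure CC) (X Y : CC → CC), BoxCur μ β c R ρ K m X Y → 0 < R →
  ∃ (k : ℕ) (s : ℂ → Fin k → ℂ) (A : ℂ → Fin k → (ℂ →L[ℝ] ℂ)) (ma : Measure ℂ) (K' c0 Mb C : ℝ),
    WKG μ β c R k s A ma K' c0 Mb ∧
    (∀ᵐ z : ℂ, z ∈ ball c R → (fib m z).Finite ∧ Function.Injective (s z) ∧
      (∀ w, w ∈ fib m z ↔ ∃ i, s z i = w) ∧
      ∀ i, A z i = slo (X (z, s z i)) (Y (z, s z i))) ∧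
    (∀ E : Set ℂ, MeasurableSet E → E ⊆ ball c R → m.real (E ×ˢ univ) ≤ C * (ma E).toReal)

end

end Crest.Agent.R235.CylW_460
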