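import Crest.Agent.R235.CylDef_607

/-!
Row 235 (S0364), PACKAGE REG, REG-CYL C7 (helper601): weak derivatives of the fibre sums and
integrability of the energy.
-/

set_option autoImplicit false

open MeasureTheory Metric Set Filter Complex
open scoped ContDiff Topology

namespace Crest.Agent.R235.CylWeak_601

open Crest.Agent.R235.Loc Crest.Agent.R235.Cyl

noncomputable section

/-- fibre sums commute with multiplication by a function of the base point. -/
theorem FS_mul (m : Measure CC) (g : ℂ → ℝ) (Φ : CC → ℝ) (z : ℂ) :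
    FS m (fun p => g p.1 * Φ p) z = g z * FS m Φ z := by
  unfold FS
  have h := smul_finsum (g z) fun w => ∑ᶠ (_ : w ∈ fib m z), Φ (z, w)
  simp only [smul_eq_mul] at h
  rw [h]
  refine finsum_congr fun w => ?_
  have h2 := smul_finsum (g z) fun (_ : w ∈ fib m z) => Φ (z, w)
  simp only [smul_eq_mul] at h2
  exact h2.symm

theorem slo_apply (X Y : CC) (e : ℂ) :
    slo X Y e = (hh X Y)⁻¹ • (e.re • (V1 X Y).2 + e.im • (VI X Y).2) := by
  simp [slo]

section

variable {μ β : CC → ℂ} {κ L : ℝ} {c : ℂ} {R ρ K : ℝ} {m : Measure CC} {X Y : CC → CC}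

theorem measurable_hh (hB : BoxCur μ β c R ρ K m X Y) : Measurable fun p => hh (X p) (Y p) := by
  have hX := hB.mX
  have hY := hB.mY
  unfold hh
  fun_prop

theorem measurable_V1 (hB : BoxCur μ β c R ρ K m X Y) :
    Measurable fun p => V1 (X p) (Y p) := by
  have hX := hB.mX
  have hY := hB.mY
  unfold V1
  fun_prop

theorem measurable_VI (hB : BoxCur μ β c R ρ K m X Y) :
    Measurable fun p => VI (X p) (Y p) := by
  have hX := hB.mX
  have hY := hB.mY
  unfold VI
  fun_prop

theorem measurable_slo_apply (hB : BoxCur μ β c R ρ K m X Y) (e : ℂ) :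
    Measurable fun p => slo (X p) (Y p) e := by
  simp only [slo_apply]
  exact (measurable_hh hB).inv.smul
    (((measurable_V1 hB).snd.const_smul e.re).add ((measurable_VI hB).snd.const_smul e.im))

/-- auxiliary norm function -/
def nu (q : ℂ × ℂ) : ℝ := ‖(reCLM.smulRight q.1 + imCLM.smulRight q.2 : ℂ →L[ℝ] ℂ)‖

theorem measurable_nu : Measurable nu := by
  have h : Continuous nu := by
    unfold nu
    refine Continuous.norm (Continuous.add ?_ ?_)
    · exact (ContinuousLinearMap.smulRightL ℝ ℂ ℂ reCLM).continuous.comp continuous_fst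
    · exact (ContinuousLinearMap.smulRightL ℝ ℂ ℂ imCLM).continuous.comp continuous_snd
  exact h.measurable

theorem measurable_slo_norm (hB : BoxCur μ β c R ρ K m X Y) :
    Measurable fun p => ‖slo (X p) (Y p)‖ := by
  have h2 : (fun p => ‖slo (X p) (Y p)‖) = fun p => ‖(hh (X p) (Y p))⁻¹‖ *
      nu ((V1 (X p) (Y p)).2, (VI (X p) (Y p)).2) := by
    funext p
    rw [slo, norm_smul]
    rfl
  rw [h2]
  have h3 : Measurable fun p => ((V1 (X p) (Y p)).2, (VI (X p) (Y p)).2) :=
    (measurable_V1 hB).snd.prodMk (measurable_VI hB).snd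
  exact (measurable_hh hB).inv.norm.mul (measurable_nu.comp h3)

/-- pointwise facts from `ALG0`. -/
theorem alg (h0 : ALG0) (hS : SBox μ β κ L) (hB : BoxCur μ β c R ρ K m X Y) :
    ∃ C : ℝ, 0 < C ∧ ∀ p, 0 ≤ hh (X p) (Y p) ∧ hh (X p) (Y p) ≤ C ∧
      ‖slo (X p) (Y p)‖ ^ 2 * hh (X p) (Y p) ≤ C ∧
      ∀ e : ℂ, e.re • V1 (X p) (Y p) + e.im • VI (X p) (Y p) =
        hh (X p) (Y p) • (e, slo (X p) (Y p) e) := by
  obtain ⟨C₀, c₀, -, hC, h⟩ := h0 κ L K hS.box.κ0 hS.box.κ1 hS.box.L0
  refine ⟨C₀, hC, fun p => ?_⟩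
  obtain ⟨h1, h2, -, -, h3, h4, h5, h6, -, -, h7⟩ :=
    h μ β hS p (X p) (Y p) (hB.nX p) (hB.nY p) (hB.jz p) (hB.jw p)
  refine ⟨h1, h2, ?_, fun e => ?_⟩
  · rcases h1.eq_or_lt with h8 | h8
    · rw [← h8, mul_zero]
      exact hC.le
    · exact (h7 h8).2
  · rw [slo_apply]
    have hfst : (e.re • V1 (X p) (Y p) + e.im • VI (X p) (Y p)).1 = hh (X p) (Y p) • e := by
      rw [h3, h4]
      simp only [Prod.fst_add, Prod.smul_fst]
      apply Complex.ext <;> simp <;> ring
    refine Prod.ext hfst ?_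
    simp only [Prod.snd_add, Prod.smul_snd]
    rcases h1.eq_or_lt with h8 | h8
    · have h9 : (V1 (X p) (Y p)).2 = 0 := by
        rw [← h8, mul_zero] at h5
        exact norm_eq_zero.1 (pow_eq_zero_iff two_ne_zero |>.1 (le_antisymm h5 (sq_nonneg _)))
      have h10 : (VI (X p) (Y p)).2 = 0 := by
        rw [← h8, mul_zero] at h6
        exact norm_eq_zero.1 (pow_eq_zero_iff two_ne_zero |>.1 (le_antisymm h6 (sq_nonneg _)))
      rw [← h8, h9, h10]
      simp
    · rw [smul_smul, mul_inv_cancel₀ h8.ne', one_smul]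

/-- functions which are continuous in `p`, times bounded measurable weights, are integrable. -/
theorem integrable_of_bound (hB : BoxCur μ β c R ρ K m X Y) {F : CC → ℝ} (hF : Measurable F)
    {G : CC → ℝ} (hG : Continuous G) {C : ℝ} (h : ∀ p, |F p| ≤ G p * C) : Integrable F m := by
  have := hB.fin
  have hK : IsCompact (closedBall c R ×ˢ closedBall (0 : ℂ) ρ) :=
    (isCompact_closedBall c R).prod (isCompact_closedBall 0 ρ)
  obtain ⟨A, hA⟩ := hK.exists_bound_of_continuousOn (hG.mul continuous_const : Continuous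
    fun p => G p * C).continuousOn
  refine Integrable.of_bound hF.aestronglyMeasurable A ?_
  filter_upwards [hB.supp] with p hp
  have h1 : p ∈ closedBall c R ×ˢ closedBall (0 : ℂ) ρ :=
    ⟨ball_subset_closedBall hp.1, by rw [mem_closedBall, dist_zero_right]; exact hp.2⟩
  rw [Real.norm_eq_abs]
  exact (h p).trans ((le_abs_self _).trans (hA p h1))

end

theorem weak_of (h0 : ALG0) (hc : CLO) (hd : DISI) : WEAK := by
  intro μ β κ L hS c R ρ K m X Y hB
  obtain ⟨C, hC, hA⟩ := alg h0 hS hB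
  have hsn := measurable_slo_norm hB
  have hmh := measurable_hh hB
  refine ⟨?_, ?_⟩
  · refine (hd μ β κ L hS c R ρ K m X Y hB (fun p => ‖slo (X p) (Y p)‖ ^ 2) (hsn.pow_const 2)
      ?_).1
    refine integrable_of_bound hB ((hsn.pow_const 2).mul hmh) (G := fun _ => 1) continuous_const
      (C := C) fun p => ?_
    rw [abs_of_nonneg (mul_nonneg (sq_nonneg _) (hA p).1), one_mul]
    exact (hA p).2.2.1
  intro Φ hΦ f hf hfc hfs e
  have hdf : Continuous (fderiv ℝ f) := hf.continuous_fderiv one_ne_zero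
  have hdΦ : Continuous (fderiv ℝ Φ) := hΦ.continuous_fderiv one_ne_zero
  have hfd : Differentiable ℝ f := hf.differentiable one_ne_zero
  have hΦd : Differentiable ℝ Φ := hΦ.differentiable one_ne_zero
  let Φ1 : CC → ℝ := fun p => fderiv ℝ f p.1 e * Φ p
  let Ψ : CC → ℝ := fun p => fderiv ℝ Φ p (e, slo (X p) (Y p) e)
  let Φ2 : CC → ℝ := fun p => f p.1 * Ψ p
  have hΨm : Measurable Ψ := by
    have h1 : Ψ = fun p => fderiv ℝ Φ p (e, 0) + ((slo (X p) (Y p) e).re * fderiv ℝ Φ p (0, 1)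
        + (slo (X p) (Y p) e).im * fderiv ℝ Φ p (0, I)) := by
      funext p
      have h2 : ((e, slo (X p) (Y p) e) : CC) = (e, 0) + ((slo (X p) (Y p) e).re • (0, 1)
          + (slo (X p) (Y p) e).im • (0, I)) := by
        refine Prod.ext ?_ ?_
        · simp
        · apply Complex.ext <;> simp
      change fderiv ℝ Φ p (e, slo (X p) (Y p) e) = _
      rw [h2, map_add, map_add, map_smul, map_smul]
      simp only [smul_eq_mul]
    rw [h1]
    have h3 := measurable_slo_apply hB e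
    have h4 : ∀ v : CC, Measurable fun p => fderiv ℝ Φ p v := fun v =>
      (hdΦ.clm_apply continuous_const).measurable
    exact (h4 _).add (((Complex.measurable_re.comp h3).mul (h4 _)).add
      ((Complex.measurable_im.comp h3).mul (h4 _)))
  have hc1 : Continuous Φ1 :=
    ((hdf.comp continuous_fst).clm_apply continuous_const).mul hΦ.continuous
  have hm2 : Measurable Φ2 := (hf.continuous.comp continuous_fst).measurable.mul hΨm
  have hi1 : Integrable (fun p => Φ1 p * hh (X p) (Y p)) m := by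
    refine integrable_of_bound hB (hc1.measurable.mul hmh) (G := fun p => |Φ1 p|) hc1.abs
      (C := C) fun p => ?_
    rw [abs_mul, abs_of_nonneg (hA p).1]
    exact mul_le_mul_of_nonneg_left (hA p).2.1 (abs_nonneg _)
  have hi2 : Integrable (fun p => Φ2 p * hh (X p) (Y p)) m := by
    refine integrable_of_bound hB (hm2.mul hmh)
      (G := fun p => |f p.1| * (‖fderiv ℝ Φ p‖ * ‖e‖))
      (((hf.continuous.comp continuous_fst).abs).mul (hdΦ.norm.mul continuous_const))
      (C := 2 * C) fun p => ?_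
    have h1 : |Ψ p| ≤ ‖fderiv ℝ Φ p‖ * (‖e‖ * (1 + ‖slo (X p) (Y p)‖)) := by
      refine ((fderiv ℝ Φ p).le_opNorm _).trans (mul_le_mul_of_nonneg_left ?_ (norm_nonneg _))
      rw [Prod.norm_mk]
      have h2 := (slo (X p) (Y p)).le_opNorm e
      have h3 := norm_nonneg e
      have h4 := norm_nonneg (slo (X p) (Y p))
      refine max_le (by nlinarith) (by nlinarith)
    have h2 : (1 + ‖slo (X p) (Y p)‖) * hh (X p) (Y p) ≤ 2 * C := by
      obtain ⟨h3, h4, h5, -⟩ := hA p
      nlinarith [sq_nonneg (‖slo (X p) (Y p)‖ - 1), mul_nonneg (sq_nonneg (‖slo (X p) (Y p)‖ - 1)) h3]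
    rw [abs_mul, abs_of_nonneg (hA p).1, abs_mul]
    calc |f p.1| * |Ψ p| * hh (X p) (Y p)
        ≤ |f p.1| * (‖fderiv ℝ Φ p‖ * (‖e‖ * (1 + ‖slo (X p) (Y p)‖))) * hh (X p) (Y p) :=
          mul_le_mul_of_nonneg_right (mul_le_mul_of_nonneg_left h1 (abs_nonneg _)) (hA p).1
      _ = |f p.1| * (‖fderiv ℝ Φ p‖ * ‖e‖) * ((1 + ‖slo (X p) (Y p)‖) * hh (X p) (Y p)) := by
          ring
      _ ≤ |f p.1| * (‖fderiv ℝ Φ p‖ * ‖e‖) * (2 * C) :=
          mul_le_mul_of_nonneg_left h2 (by positivity)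
  -- the two closedness identities
  let G : CC → ℝ := fun p => f p.1 * Φ p
  have hG : ContDiff ℝ 1 G := (hf.comp contDiff_fst).mul hΦ
  have hGs : ∃ T ⊆ ball c R, IsCompact T ∧ ∀ p : CC, p.1 ∉ T → G p = 0 := by
    refine ⟨tsupport f, hfs, hfc, fun p hp => ?_⟩
    change f p.1 * Φ p = 0
    rw [image_eq_zero_of_notMem_tsupport hp, zero_mul]
  obtain ⟨hc1', hcI', -, -⟩ := hc μ β κ L hS c R ρ K m X Y hB G hG hGs
  have hfG : ∀ (p v : CC), fderiv ℝ G p v = fderiv ℝ f p.1 v.1 * Φ p + f p.1 * fderiv ℝ Φ p v := by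
    intro p v
    have h1 : HasFDerivAt (fun p : CC => f p.1)
        ((fderiv ℝ f p.1).comp (ContinuousLinearMap.fst ℝ ℂ ℂ)) p :=
      (hfd p.1).hasFDerivAt.comp p hasFDerivAt_fst
    have h2 := h1.mul (hΦd p).hasFDerivAt
    have h3 : fderiv ℝ G p = _ := h2.fderiv
    rw [h3]
    simp
    ring
  have hkey : ∀ p, e.re * fderiv ℝ G p (V1 (X p) (Y p)) + e.im * fderiv ℝ G p (VI (X p) (Y p)) =
      Φ1 p * hh (X p) (Y p) + Φ2 p * hh (X p) (Y p) := by
    intro p
    have h1 : e.re * fderiv ℝ G p (V1 (X p) (Y p)) + e.im * fderiv ℝ G p (VI (X p) (Y p)) =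
        fderiv ℝ G p (e.re • V1 (X p) (Y p) + e.im • VI (X p) (Y p)) := by
      rw [map_add, map_smul, map_smul, smul_eq_mul, smul_eq_mul]
    rw [h1, (hA p).2.2.2 e, map_smul, hfG, smul_eq_mul]
    simp only [Φ1, Φ2, Ψ]
    ring
  have hiV : ∀ V : CC → CC, (Measurable V) → (∀ p, ‖V p‖ ≤ (‖X p‖ * ‖Y p‖) * 2) →
      Integrable (fun p => fderiv ℝ G p (V p)) m := by
    intro V hV hVb
    have hdG : Continuous (fderiv ℝ G) := hG.continuous_fderiv one_ne_zero
    have hmes : Measurable fun p => fderiv ℝ G p (V p) := by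
      have h1 : (fun p => fderiv ℝ G p (V p)) = fun p =>
          ((V p).1.re * fderiv ℝ G p (1, 0) + (V p).1.im * fderiv ℝ G p (I, 0))
          + ((V p).2.re * fderiv ℝ G p (0, 1) + (V p).2.im * fderiv ℝ G p (0, I)) := by
        funext p
        have h2 : V p = ((V p).1.re • ((1, 0) : CC) + (V p).1.im • ((I, 0) : CC)) +
            ((V p).2.re • ((0, 1) : CC) + (V p).2.im • ((0, I) : CC)) := by
          refine Prod.ext ?_ ?_
          · apply Complex.ext <;> simp
          · apply Complex.ext <;> simp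
        conv_lhs => rw [h2]
        rw [map_add, map_add, map_add, map_smul, map_smul, map_smul, map_smul]
        simp only [smul_eq_mul]
      rw [h1]
      have h4 : ∀ v : CC, Measurable fun p => fderiv ℝ G p v := fun v =>
        (hdG.clm_apply continuous_const).measurable
      exact (((Complex.measurable_re.comp hV.fst).mul (h4 _)).add
        ((Complex.measurable_im.comp hV.fst).mul (h4 _))).add
        (((Complex.measurable_re.comp hV.snd).mul (h4 _)).add
        ((Complex.measurable_im.comp hV.snd).mul (h4 _)))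
    refine integrable_of_bound hB hmes (G := fun p => ‖fderiv ℝ G p‖) hdG.norm
      (C := |K| * 2) fun p => ?_
    refine ((fderiv ℝ G p).le_opNorm _).trans (mul_le_mul_of_nonneg_left ?_ (norm_nonneg _))
    refine (hVb p).trans ?_
    rw [hB.nX p, one_mul]
    have := (hB.nY p).trans (le_abs_self K)
    linarith
  have hnorm : ∀ (a b : ℝ) (U W : CC), |a| ≤ ‖W‖ → |b| ≤ ‖U‖ → ‖a • U - b • W‖ ≤ ‖U‖ * ‖W‖ * 2 := by
    intro a b U W ha hb
    refine (norm_sub_le _ _).trans ?_
    rw [norm_smul, norm_smul, Real.norm_eq_abs, Real.norm_eq_abs]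
    nlinarith [norm_nonneg U, norm_nonneg W, mul_le_mul_of_nonneg_right ha (norm_nonneg U),
      mul_le_mul_of_nonneg_right hb (norm_nonneg W)]
  have hre : ∀ U : CC, |U.1.re| ≤ ‖U‖ := fun U =>
    (Complex.abs_re_le_norm _).trans (norm_fst_le U)
  have him : ∀ U : CC, |U.1.im| ≤ ‖U‖ := fun U =>
    (Complex.abs_im_le_norm _).trans (norm_fst_le U)
  have hI1 := hiV _ (measurable_V1 hB) fun p => hnorm _ _ _ _ (him _) (him _)
  have hII := hiV _ (measurable_VI hB) fun p => by
    have := hnorm (X p).1.re (Y p).1.re (Y p) (X p) (hre _) (hre _)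
    rwa [mul_comm ‖Y p‖] at this
  have hsum : ∫ p, Φ1 p * hh (X p) (Y p) ∂m + ∫ p, Φ2 p * hh (X p) (Y p) ∂m = 0 := by
    rw [← integral_add hi1 hi2]
    rw [← integral_congr_ae (Eventually.of_forall hkey)]
    rw [integral_add (hI1.const_mul _) (hII.const_mul _), integral_const_mul, integral_const_mul,
      hc1', hcI']
    ring
  obtain ⟨-, hd1⟩ := hd μ β κ L hS c R ρ K m X Y hB Φ1 hc1.measurable hi1
  obtain ⟨hd2, hd3⟩ := hd μ β κ L hS c R ρ K m X Y hB Φ2 hm2 hi2
  rw [hd1, hd3] at hsum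
  have hF1 : ∀ z, FS m Φ1 z = fderiv ℝ f z e * FS m Φ z := fun z =>
    FS_mul m (fun z => fderiv ℝ f z e) Φ z
  have hF2 : ∀ z, FS m Φ2 z = f z * FS m Ψ z := fun z => FS_mul m f Ψ z
  have hF2' : FS m Φ2 = fun z => f z * FS m Ψ z := funext hF2
  refine ⟨?_, ?_⟩
  · rw [hF2'] at hd2
    exact hd2
  · rw [← setIntegral_congr_fun measurableSet_ball fun z _ => hF1 z, eq_neg_iff_add_eq_zero]
    rw [hF2'] at hsum
    exact hsum

end

end Crest.Agent.R235.CylWeak_601
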