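import Mathlib
import Crest.Agent.R235.CylDef_522
import Crest.Agent.R235.ConstMeas_842

/-!
Row 235, PACKAGE REG, block CYL, leaf C01 (helper842): constancy of the degree over a base disc.
-/

set_option autoImplicit false

open MeasureTheory Metric Set Filter Complex
open scoped ContDiff Topology ComplexConjugate Manifold

namespace Crest.Agent.R235.Cyl_CONST_842

open Crest.Agent.R235.Loc Crest.Agent.R235.Cyl_522 Crest.Agent.R235.ConstMeas_842

noncomputable section

theorem one_sub_pos {μ : ℂ} (h : ‖μ‖ < 1) : 0 < 1 - ‖μ‖ ^ 2 := by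
  have := norm_nonneg μ
  nlinarith

/-- `(dx ∧ dy)(vec A, vec (iA)) = |A₁|² / (1 - |μ|²)`. -/
theorem det_vec {μ : ℂ} (h : ‖μ‖ < 1) (β : ℂ) (A : ℂ × ℂ) :
    (vec μ β A).1.re * (vec μ β (I • A)).1.im - (vec μ β A).1.im * (vec μ β (I • A)).1.re =
      ‖A.1‖ ^ 2 / (1 - ‖μ‖ ^ 2) := by
  have hD := one_sub_pos h
  have e1 : ‖A.1‖ ^ 2 = A.1.re ^ 2 + A.1.im ^ 2 := by rw [Complex.sq_norm, Complex.normSq_apply]; ring
  have e2 : 1 - ‖μ‖ ^ 2 = 1 - (μ.re ^ 2 + μ.im ^ 2) := by
    rw [Complex.sq_norm, Complex.normSq_apply]; ring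
  simp only [vec, Prod.smul_fst, smul_eq_mul, Complex.div_ofReal_re, Complex.div_ofReal_im]
  simp only [sub_re, sub_im, mul_re, mul_im, map_mul, conj_I, neg_re, neg_im, I_re, I_im, conj_re,
    conj_im]
  rw [e1]
  rw [eq_div_iff hD.ne', div_mul_div_comm, div_mul_div_comm, ← sub_div, div_mul_eq_mul_div,
    div_eq_iff (by positivity)]
  rw [e2]
  ring

theorem isClosed_msupp (m : Measure (ℂ × ℂ)) : IsClosed (msupp m) := by
  rw [← isOpen_compl_iff, Metric.isOpen_iff]
  intro x hx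
  simp only [msupp, mem_compl_iff, mem_ofPred_eq, not_forall, not_lt, nonpos_iff_eq_zero] at hx
  obtain ⟨ρ, hρ, h0⟩ := hx
  refine ⟨ρ / 2, by positivity, fun y hy => ?_⟩
  simp only [msupp, mem_compl_iff, mem_ofPred_eq, not_forall, not_lt, nonpos_iff_eq_zero]
  refine ⟨ρ / 2, by positivity, measure_mono_null (ball_subset_ball' ?_) h0⟩
  rw [mem_ball] at hy; linarith

theorem measure_compl_msupp (m : Measure (ℂ × ℂ)) : m (msupp m)ᶜ = 0 := by
  refine measure_null_of_locally_null _ fun x hx => ?_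
  simp only [msupp, mem_compl_iff, mem_ofPred_eq, not_forall, not_lt, nonpos_iff_eq_zero] at hx
  obtain ⟨ρ, hρ, h0⟩ := hx
  exact ⟨ball x ρ, mem_nhdsWithin_of_mem_nhds (ball_mem_nhds _ hρ), h0⟩

theorem msupp_snd {μ β : ℂ × ℂ → ℂ} {R : ℝ} {m : Measure (ℂ × ℂ)} {A : ℂ × ℂ → ℂ × ℂ} {C c : ℝ}
    (h : Cyl μ β R m A C c) {x : ℂ × ℂ} (hx : x ∈ msupp m) : ‖x.2‖ ≤ 1 / 2 := by
  by_contra hc
  rw [not_le] at hc
  have h1 := hx (‖x.2‖ - 1 / 2) (by linarith)
  have h2 : m (ball x (‖x.2‖ - 1 / 2)) = 0 := by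
    refine measure_mono_null ?_ (ae_iff.1 h.carr)
    intro y hy
    simp only [mem_ofPred_eq, not_and, not_le]
    intro _
    have h3 : dist y.2 x.2 < ‖x.2‖ - 1 / 2 := lt_of_le_of_lt (le_max_right _ _) (mem_ball.1 hy)
    rw [dist_eq_norm] at h3
    have h4 : ‖x.2‖ ≤ ‖y.2‖ + ‖y.2 - x.2‖ := by
      have := norm_sub_le y.2 (y.2 - x.2)
      simpa using this
    linarith
  exact h1.ne' h2

/-- smooth separation. -/
theorem exists_sep {s t : Set (ℂ × ℂ)} (hs : IsCompact s) (ht : IsClosed t) (hd : Disjoint s t) :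
    ∃ χ : ℂ × ℂ → ℝ, ContDiff ℝ ∞ χ ∧ (∀ x ∈ s, ∀ᶠ y in 𝓝 x, χ y = 1) ∧
      ∀ x ∈ t, ∀ᶠ y in 𝓝 x, χ y = 0 := by
  obtain ⟨δ, hδ, hdis⟩ := hd.exists_cthickenings hs ht
  obtain ⟨f, f0, f1, -⟩ := exists_contMDiffMap_zero_one_of_isClosed (n := (⊤ : ℕ∞)) 𝓘(ℝ, ℂ × ℂ)
    (s := cthickening δ t) (t := cthickening δ s) isClosed_cthickening isClosed_cthickening hdis.symm
  refine ⟨f, f.contMDiff.contDiff, fun x hx => ?_, fun x hx => ?_⟩
  · filter_upwards [ball_mem_nhds x hδ] with y hy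
    exact f1 (thickening_subset_cthickening _ _ (mem_thickening_iff.2 ⟨x, hx, hy⟩))
  · filter_upwards [ball_mem_nhds x hδ] with y hy
    exact f0 (thickening_subset_cthickening _ _ (mem_thickening_iff.2 ⟨x, hx, hy⟩))

theorem clm_expand (f : ℂ →L[ℝ] ℝ) (z : ℂ) : f z = z.re * f 1 + z.im * f I := by
  conv_lhs => rw [show z = z.re • (1 : ℂ) + z.im • I by
    apply Complex.ext <;> simp]
  rw [map_add, map_smul, map_smul, smul_eq_mul, smul_eq_mul]

/-- the derivative of the localised test function on the support. -/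
theorem fderiv_loc {m : Measure (ℂ × ℂ)} {W : Set ℂ} {η : ℂ → ℝ} {χ : ℂ × ℂ → ℝ}
    (η1 : ContDiff ℝ ∞ η)
    (c1 : ∀ x ∈ msupp m, x.1 ∈ tsupport η → x.2 ∈ W → ∀ᶠ y in 𝓝 x, χ y = 1)
    (c0 : ∀ x ∈ msupp m, x.1 ∈ tsupport η → x.2 ∉ W → ∀ᶠ y in 𝓝 x, χ y = 0)
    {x : ℂ × ℂ} (hx : x ∈ msupp m) (u : ℂ × ℂ) :
    fderiv ℝ (fun y : ℂ × ℂ => η y.1 * χ y) x u =
      (Prod.snd ⁻¹' W).indicator (fun _ => (1 : ℝ)) x * fderiv ℝ η x.1 u.1 := by
  by_cases h1 : x.1 ∈ tsupport η
  · by_cases h2 : x.2 ∈ W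
    · have e : (fun y : ℂ × ℂ => η y.1 * χ y) =ᶠ[𝓝 x] fun y => η y.1 := by
        filter_upwards [c1 x hx h1 h2] with y hy
        rw [hy, mul_one]
      rw [e.fderiv_eq, indicator_of_mem (show x ∈ Prod.snd ⁻¹' W from h2), one_mul]
      have hd : HasFDerivAt (fun y : ℂ × ℂ => η y.1)
          ((fderiv ℝ η x.1).comp (ContinuousLinearMap.fst ℝ ℂ ℂ)) x :=
        ((η1.differentiable (by simp)) x.1).hasFDerivAt.comp x hasFDerivAt_fst
      rw [hd.fderiv]; rfl
    · have e : (fun y : ℂ × ℂ => η y.1 * χ y) =ᶠ[𝓝 x] fun _ => 0 := by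
        filter_upwards [c0 x hx h1 h2] with y hy
        rw [hy, mul_zero]
      rw [e.fderiv_eq, indicator_of_notMem (show x ∉ Prod.snd ⁻¹' W from h2)]
      simp
  · have e : (fun y : ℂ × ℂ => η y.1 * χ y) =ᶠ[𝓝 x] fun _ => 0 := by
      have : ∀ᶠ t in 𝓝 x.1, t ∉ tsupport η := (isClosed_tsupport η).isOpen_compl.mem_nhds h1
      filter_upwards [continuous_fst.continuousAt.eventually this] with y hy
      rw [image_eq_zero_of_notMem_tsupport hy, zero_mul]
    have e2 : fderiv ℝ η x.1 = 0 := by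
      have : η =ᶠ[𝓝 x.1] fun _ => 0 := by
        filter_upwards [(isClosed_tsupport η).isOpen_compl.mem_nhds h1] with y hy
        exact image_eq_zero_of_notMem_tsupport hy
      rw [this.fderiv_eq]; simp
    rw [e.fderiv_eq, e2]
    simp

/-- the density of `hor`. -/
def gd (μ : ℂ × ℂ → ℂ) (A : ℂ × ℂ → ℂ × ℂ) (x : ℂ × ℂ) : ℝ := ‖(A x).1‖ ^ 2 / (1 - ‖μ x‖ ^ 2)

theorem const : CONST := by
  intro μ β κ L hc R m A C c hA t₀ ρ W hρ hball hW hfr
  have hμ1 : ∀ x, ‖μ x‖ < 1 := fun x => lt_of_le_of_lt (hc.bμ x) hc.κ1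
  have gm : Measurable (gd μ A) := by
    have h1 : Measurable (fun x => ‖(A x).1‖ ^ 2) := (hA.meas.fst.norm).pow_const 2
    have h2 : Measurable (fun x => 1 - ‖μ x‖ ^ 2) :=
      (measurable_const.sub ((hc.smμ.continuous.measurable.norm).pow_const 2))
    exact h1.div h2
  have g0 : ∀ x, 0 ≤ gd μ A x := fun x => div_nonneg (by positivity) (one_sub_pos (hμ1 x)).le
  have hκ : 0 < 1 - κ ^ 2 := by nlinarith [hc.κ0, hc.κ1]
  have g1 : ∀ x, gd μ A x ≤ 1 / (1 - κ ^ 2) := by
    intro x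
    refine div_le_div₀ zero_le_one ?_ hκ ?_
    · have := hA.unit x
      nlinarith [sq_nonneg ‖(A x).2‖]
    · have := hc.bμ x
      nlinarith [norm_nonneg (μ x), hc.κ0]
  have hfinm : IsFiniteMeasure m := ⟨hA.fin⟩
  have hmW : MeasurableSet (Prod.snd ⁻¹' W : Set (ℂ × ℂ)) := measurable_snd hW.measurableSet
  set H := hor μ m A with hH
  have hH' : H = m.withDensity fun x => ENNReal.ofReal (gd μ A x) := rfl
  have hHfin : IsFiniteMeasure H := by
    refine ⟨?_⟩
    rw [hH', withDensity_apply _ MeasurableSet.univ]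
    refine lt_of_le_of_lt (lintegral_mono (g := fun _ => ENNReal.ofReal (1 / (1 - κ ^ 2)))
      fun x => ENNReal.ofReal_le_ofReal (g1 x)) ?_
    rw [lintegral_const]
    exact ENNReal.mul_lt_top ENNReal.ofReal_lt_top (measure_lt_top _ _)
  set ν : Measure ℂ := (H.restrict (Prod.snd ⁻¹' W)).map Prod.fst with hν
  have hνfin : IsFiniteMeasure ν := by
    refine ⟨?_⟩
    rw [hν, Measure.map_apply measurable_fst MeasurableSet.univ]
    exact measure_lt_top _ _
  have hint : ∀ F : ℂ → ℝ, Continuous F →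
      ∫ t, F t ∂ν = ∫ x in Prod.snd ⁻¹' W, gd μ A x * F x.1 ∂m := by
    intro F hF
    rw [hν, integral_map measurable_fst.aemeasurable hF.aestronglyMeasurable, hH',
      restrict_withDensity hmW, integral_withDensity_eq_integral_toReal_smul
        (f := fun x => ENNReal.ofReal (gd μ A x))
        gm.ennreal_ofReal (Eventually.of_forall fun _ => ENNReal.ofReal_lt_top)]
    refine integral_congr_ae (Eventually.of_forall fun x => ?_)
    simp only [ENNReal.toReal_ofReal (g0 x), smul_eq_mul]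
  have hgrad : GradZero ν (ball t₀ ρ) := by
    intro η η1 η2 η3 v
    -- separation
    set K := tsupport η with hK
    have hKc : IsCompact K := η2
    have hS1 : IsCompact (msupp m ∩ (Prod.fst ⁻¹' K ∩ Prod.snd ⁻¹' W)) := by
      have e : msupp m ∩ (Prod.fst ⁻¹' K ∩ Prod.snd ⁻¹' W) =
          msupp m ∩ (Prod.fst ⁻¹' K ∩ Prod.snd ⁻¹' (closure W)) := by
        ext x
        simp only [mem_inter_iff, mem_preimage]
        refine ⟨fun h => ⟨h.1, h.2.1, subset_closure h.2.2⟩, fun h => ⟨h.1, h.2.1, ?_⟩⟩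
        by_contra hx
        refine hfr x h.1 (η3 h.2.1) ?_
        rw [hW.frontier_eq]
        exact ⟨h.2.2, hx⟩
      have hcl : IsClosed (msupp m ∩ (Prod.fst ⁻¹' K ∩ Prod.snd ⁻¹' W)) := by
        rw [e]
        exact (isClosed_msupp m).inter (((isClosed_tsupport η).preimage continuous_fst).inter
          (isClosed_closure.preimage continuous_snd))
      refine (hKc.prod (isCompact_closedBall (0 : ℂ) (1 / 2))).of_isClosed_subset hcl ?_
      rintro x ⟨h1, h2, -⟩
      exact ⟨h2, by simpa using msupp_snd hA h1⟩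
    have hS2 : IsClosed (msupp m ∩ (Prod.fst ⁻¹' K ∩ Prod.snd ⁻¹' Wᶜ)) :=
      (isClosed_msupp m).inter (((isClosed_tsupport η).preimage continuous_fst).inter
          (hW.isClosed_compl.preimage continuous_snd))
    obtain ⟨χ, χ1, χ2, χ3⟩ := exists_sep hS1 hS2 (by
      rw [Set.disjoint_left]
      rintro x ⟨-, -, h1⟩ ⟨-, -, h2⟩
      exact h2 h1)
    have c1 : ∀ x ∈ msupp m, x.1 ∈ tsupport η → x.2 ∈ W → ∀ᶠ y in 𝓝 x, χ y = 1 :=
      fun x h1 h2 h3 => χ2 x ⟨h1, h2, h3⟩
    have c0 : ∀ x ∈ msupp m, x.1 ∈ tsupport η → x.2 ∉ W → ∀ᶠ y in 𝓝 x, χ y = 0 :=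
      fun x h1 h2 h3 => χ3 x ⟨h1, h2, h3⟩
    obtain ⟨R', hR', hKR⟩ := exists_lt_subset_ball (isClosed_tsupport η) (η3.trans hball)
    -- the identity for a linear form
    have main : ∀ ℓ : ℂ →L[ℝ] ℝ, ∫ x, (Prod.snd ⁻¹' W).indicator (fun _ => (1 : ℝ)) x *
        (fderiv ℝ η x.1 (vec (μ x) (β x) (A x)).1 * ℓ (vec (μ x) (β x) (I • A x)).1 -
          fderiv ℝ η x.1 (vec (μ x) (β x) (I • A x)).1 * ℓ (vec (μ x) (β x) (A x)).1) ∂m = 0 := by
      intro ℓ
      have hP : ContDiff ℝ ∞ (fun y : ℂ × ℂ => η y.1 * χ y) := (η1.comp contDiff_fst).mul χ1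
      have := hA.closed (fun y => (η y.1 * χ y) • ℓ.comp (ContinuousLinearMap.fst ℝ ℂ ℂ))
        (hP.smul contDiff_const) ⟨R', hR', fun x hx => by
          have : η x.1 = 0 := by
            by_contra hne
            have := hKR (subset_tsupport _ hne)
            rw [mem_ball, dist_zero_right] at this
            linarith
          rw [this]; simp⟩
      rw [← this]
      refine integral_congr_ae ?_
      filter_upwards [compl_mem_ae_iff.2 (measure_compl_msupp m)] with x hx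
      rw [compl_compl] at hx
      have hs : ∀ u w : ℂ × ℂ, fderiv ℝ (fun y : ℂ × ℂ => (η y.1 * χ y) •
          ℓ.comp (ContinuousLinearMap.fst ℝ ℂ ℂ)) x u w =
            fderiv ℝ (fun y : ℂ × ℂ => η y.1 * χ y) x u * ℓ w.1 := by
        intro u w
        rw [((hP.differentiable (by simp) x).hasFDerivAt.smul_const
          (ℓ.comp (ContinuousLinearMap.fst ℝ ℂ ℂ))).fderiv]
        simp
      simp only [dS, hs, fderiv_loc η1 c1 c0 hx]
      ring
    have hI : ∫ t, fderiv ℝ η t I ∂ν = 0 := by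
      rw [hint _ ((η1.continuous_fderiv (by simp)).clm_apply continuous_const)]
      have := main reCLM
      rw [← neg_eq_zero, ← integral_neg, ← integral_indicator hmW, ← this]
      refine integral_congr_ae (Eventually.of_forall fun x => ?_)
      have hd := det_vec (hμ1 x) (β x) (A x)
      by_cases hxW : x ∈ (Prod.snd ⁻¹' W : Set (ℂ × ℂ))
      · rw [indicator_of_mem hxW]
        beta_reduce
        rw [indicator_of_mem hxW]
        rw [clm_expand (fderiv ℝ η x.1) (vec (μ x) (β x) (A x)).1,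
          clm_expand (fderiv ℝ η x.1) (vec (μ x) (β x) (I • A x)).1]
        simp only [gd, reCLM_apply, ← hd]
        ring
      · rw [indicator_of_notMem hxW]
        beta_reduce
        rw [indicator_of_notMem hxW, zero_mul]
    have h1 : ∫ t, fderiv ℝ η t 1 ∂ν = 0 := by
      rw [hint _ ((η1.continuous_fderiv (by simp)).clm_apply continuous_const)]
      have := main imCLM
      rw [← integral_indicator hmW, ← this]
      refine integral_congr_ae (Eventually.of_forall fun x => ?_)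
      have hd := det_vec (hμ1 x) (β x) (A x)
      by_cases hxW : x ∈ (Prod.snd ⁻¹' W : Set (ℂ × ℂ))
      · rw [indicator_of_mem hxW]
        beta_reduce
        rw [indicator_of_mem hxW]
        rw [clm_expand (fderiv ℝ η x.1) (vec (μ x) (β x) (A x)).1,
          clm_expand (fderiv ℝ η x.1) (vec (μ x) (β x) (I • A x)).1]
        simp only [gd, imCLM_apply, ← hd]
        ring
      · rw [indicator_of_notMem hxW]
        beta_reduce
        rw [indicator_of_notMem hxW, zero_mul]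
    have hi : ∀ w : ℂ, Integrable (fun t => fderiv ℝ η t w) ν := fun w => by
      have hcc : Continuous (fun t => fderiv ℝ η t w) :=
        (η1.continuous_fderiv (by simp)).clm_apply continuous_const
      obtain ⟨B, hB⟩ := (η1.continuous_fderiv (by simp)).bounded_above_of_compact_support
        (η2.fderiv (𝕜 := ℝ))
      refine Integrable.of_bound (C := B * ‖w‖) hcc.aestronglyMeasurable
        (Eventually.of_forall fun t => ?_)
      exact (ContinuousLinearMap.le_opNorm _ _).trans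
        (mul_le_mul_of_nonneg_right (hB _) (norm_nonneg _))
    have e : ∀ t, fderiv ℝ η t v = v.re * fderiv ℝ η t 1 + v.im * fderiv ℝ η t I :=
      fun t => clm_expand _ _
    simp_rw [e]
    rw [integral_add ((hi 1).const_mul _) ((hi I).const_mul _), integral_const_mul,
      integral_const_mul, hI, h1]
    simp
  obtain ⟨d, hd, hE⟩ := const_of_grad hgrad
  refine ⟨d, hd, fun E hEm hEb => ?_⟩
  rw [← hE E hEm hEb, hν, Measure.map_apply measurable_fst hEm,
    Measure.restrict_apply (measurable_fst hEm)]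
  rfl

end

end Crest.Agent.R235.Cyl_CONST_842
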