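import Mathlib
import Crest.Agent.R235.CylDef_522

/-!
Row 235 (S0364), PACKAGE REG, block CYL, node C06 (GOOD): the good fibres and the disintegration
of the horizontal measure.  (helper435)
-/

set_option autoImplicit false

open MeasureTheory Metric Set Filter Complex
open scoped ContDiff Topology ComplexConjugate ENNReal

namespace Crest.Agent.R235.CylGood_435

open Crest.Agent.R235.Loc Crest.Agent.R235.Cyl_522

/-! ### the support -/

theorem msupp_eq (m : Measure (ℂ × ℂ)) : msupp m = m.support := by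
  ext x
  exact (nhds_basis_ball.mem_measureSupport).symm

theorem isClosed_msupp (m : Measure (ℂ × ℂ)) : IsClosed (msupp m) :=
  msupp_eq m ▸ m.isClosed_support

theorem measure_compl_msupp (m : Measure (ℂ × ℂ)) : m (msupp m)ᶜ = 0 := by
  rw [msupp_eq m]
  exact Measure.support_mem_ae

variable {μ β : ℂ × ℂ → ℂ} {κ L R : ℝ} {m : Measure (ℂ × ℂ)} {A : ℂ × ℂ → ℂ × ℂ} {C c : ℝ}

theorem msupp_sub (h : Cyl μ β R m A C c) : ∀ x ∈ msupp m, ‖x.2‖ ≤ 1 / 2 := by
  have hcl : IsClosed {x : ℂ × ℂ | ‖x.2‖ ≤ 1 / 2} :=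
    isClosed_le (by fun_prop) continuous_const
  have hae : {x : ℂ × ℂ | ‖x.2‖ ≤ 1 / 2} ∈ ae m := by
    filter_upwards [h.carr] with x hx using hx.2
  intro x hx
  rw [msupp_eq] at hx
  exact Measure.support_subset_of_isClosed hcl hae hx

/-- compactness: a closed set avoided by the fibre is avoided by the nearby fibres. -/
theorem tube (hz : ∀ x ∈ msupp m, ‖x.2‖ ≤ 1 / 2) {t : ℂ} {F : Set ℂ} (hF : IsClosed F)
    (hK : ∀ z ∈ Kf m t, z ∉ F) :
    ∃ ρ > 0, ∀ x ∈ msupp m, x.1 ∈ ball t ρ → x.2 ∉ F := by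
  have hc : IsCompact (F ∩ closedBall (0 : ℂ) (1 / 2)) :=
    (isCompact_closedBall _ _).inter_left hF
  have hs : ({t} : Set ℂ) ×ˢ (F ∩ closedBall (0 : ℂ) (1 / 2)) ⊆ (msupp m)ᶜ := by
    rintro ⟨a, b⟩ ⟨ha, hb⟩ hm
    simp only [mem_singleton_iff] at ha
    subst ha
    exact hK b hm hb.1
  obtain ⟨U, V, hU, _, hKU, hFV, hUV⟩ :=
    generalized_tube_lemma (isCompact_singleton (x := t)) hc (isClosed_msupp m).isOpen_compl hs
  obtain ⟨ρ, hρ, hb⟩ := Metric.isOpen_iff.1 hU t (hKU rfl)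
  refine ⟨ρ, hρ, fun x hx hx1 hxF => ?_⟩
  have hx2 : x.2 ∈ closedBall (0 : ℂ) (1 / 2) := by
    simpa using hz x hx
  exact hUV (show x ∈ U ×ˢ V from ⟨hb hx1, hFV ⟨hxF, hx2⟩⟩) hx

/-! ### the horizontal measure -/

theorem hor_ac : hor μ m A ≪ m := withDensity_absolutelyContinuous _ _

theorem hor_fin (hc : Coef μ β κ L) (h : Cyl μ β R m A C c) : IsFiniteMeasure (hor μ m A) := by
  have hm : IsFiniteMeasure m := ⟨h.fin⟩
  have hb : ∀ x, ENNReal.ofReal (‖(A x).1‖ ^ 2 / (1 - ‖μ x‖ ^ 2)) ≤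
      ENNReal.ofReal (1 / (1 - κ ^ 2)) := by
    intro x
    apply ENNReal.ofReal_le_ofReal
    have h1 := hc.κ0
    have h2 := hc.κ1
    have h3 := hc.bμ x
    have h4 := h.unit x
    have h5 : 0 < 1 - κ ^ 2 := by nlinarith
    have h6 : 1 - κ ^ 2 ≤ 1 - ‖μ x‖ ^ 2 := by nlinarith [norm_nonneg (μ x)]
    have h7 : ‖(A x).1‖ ^ 2 ≤ 1 := by nlinarith [sq_nonneg ‖(A x).2‖]
    gcongr
  refine isFiniteMeasure_withDensity (ne_of_lt ?_)
  calc ∫⁻ x, ENNReal.ofReal (‖(A x).1‖ ^ 2 / (1 - ‖μ x‖ ^ 2)) ∂m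
      ≤ ∫⁻ _, ENNReal.ofReal (1 / (1 - κ ^ 2)) ∂m := lintegral_mono hb
    _ = ENNReal.ofReal (1 / (1 - κ ^ 2)) * m univ := lintegral_const _
    _ < ⊤ := ENNReal.mul_lt_top ENNReal.ofReal_lt_top h.fin

theorem hor_null {S : Set (ℂ × ℂ)} (hS : ∀ x ∈ S, x ∉ msupp m) : hor μ m A S = 0 :=
  hor_ac (measure_mono_null (fun x hx => hS x hx) (measure_compl_msupp m))

theorem hor_out (h : Cyl μ β R m A C c) {S : Set (ℂ × ℂ)} (hS : ∀ x ∈ S, x.1 ∉ ball (0 : ℂ) R) :
    hor μ m A S = 0 := by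
  refine hor_ac (measure_mono_null (fun x hx => ?_) h.carr)
  intro hx'
  exact hS x hx (by simpa using hx'.1)

/-! ### finite sets of points -/

theorem exists_delta {K : Set ℂ} (hK : K.Finite) {W : Set ℂ} (hW : IsOpen W) :
    ∃ δ > 0, (∀ z ∈ K ∩ W, ball z δ ⊆ W) ∧
      ∀ z ∈ K, ∀ z' ∈ K, z ≠ z' → 2 * δ < dist z z' := by
  have h1 : ∀ᶠ δ in 𝓝[>] (0 : ℝ), ∀ z ∈ K ∩ W, ball z δ ⊆ W := by
    rw [eventually_all_finite (hK.inter_of_left W)]
    intro z hz
    obtain ⟨ε, hε, hb⟩ := Metric.isOpen_iff.1 hW z hz.2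
    filter_upwards [Ioo_mem_nhdsGT hε] with δ hδ
    exact (ball_subset_ball hδ.2.le).trans hb
  have h2 : ∀ᶠ δ in 𝓝[>] (0 : ℝ), ∀ z ∈ K, ∀ z' ∈ K, z ≠ z' → 2 * δ < dist z z' := by
    rw [eventually_all_finite hK]
    intro z hz
    rw [eventually_all_finite hK]
    intro z' hz'
    by_cases hzz : z = z'
    · exact Eventually.of_forall fun δ hne => absurd hzz hne
    · have hd : 0 < dist z z' / 2 := by have := dist_pos.2 hzz; positivity
      filter_upwards [Ioo_mem_nhdsGT hd] with δ hδ _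
      linarith [hδ.2]
  obtain ⟨δ, ⟨h1, h2⟩, h3⟩ := ((h1.and h2).and self_mem_nhdsWithin).exists
  exact ⟨δ, h3, h1, h2⟩

/-! ### the degree at a good point is the number of points of the fibre -/

theorem deg_eq (h1 : CONST) (h5 : DEG1) (hc : Coef μ β κ L) (h : Cyl μ β R m A C c)
    {t : ℂ} (hfin : (Kf m t).Finite)
    (hgood : ∀ z ∈ Kf m t, (A (t, z)).1 ≠ 0 ∧ Flat μ β m A (t, z))
    {t₀ : ℂ} {ρ : ℝ} {W : Set ℂ} {d : ℝ} (hb : ball t₀ ρ ⊆ ball 0 R)
    (hW : IsOpen W) (hfr : ∀ x ∈ msupp m, x.1 ∈ ball t₀ ρ → x.2 ∉ frontier W)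
    (hd : IsDeg μ m A t₀ ρ W d) (ht : t ∈ ball t₀ ρ) :
    d = ((Kf m t ∩ W).ncard : ℝ) := by
  have hs : (Kf m t ∩ W).Finite := hfin.inter_of_left W
  obtain ⟨s, hsW⟩ : ∃ s : Finset ℂ, (s : Set ℂ) = Kf m t ∩ W := ⟨hs.toFinset, by simp⟩
  have hsm : ∀ z, z ∈ s ↔ z ∈ Kf m t ∩ W := fun z => by rw [← hsW]; simp
  obtain ⟨δ, hδ, hδW, hδd⟩ := exists_delta hfin hW
  set F : Set ℂ := (closure W \ ⋃ z ∈ s, ball z δ) ∪ ⋃ z ∈ s, sphere z δ with hF
  have hFc : IsClosed F := by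
    refine IsClosed.union ?_ ?_
    · exact isClosed_closure.sdiff (isOpen_biUnion fun z _ => isOpen_ball)
    · exact s.finite_toSet.isClosed_biUnion fun z _ => isClosed_sphere
  have hKF : ∀ z ∈ Kf m t, z ∉ F := by
    rintro z hz (⟨hz1, hz2⟩ | hz1)
    · have hzf : z ∉ frontier W := hfr (t, z) hz ht
      have hzW : z ∈ W := by
        rw [hW.frontier_eq] at hzf
        by_contra hzW
        exact hzf ⟨hz1, hzW⟩
      apply hz2
      simp only [mem_iUnion]
      exact ⟨z, (hsm z).2 ⟨hz, hzW⟩, mem_ball_self hδ⟩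
    · simp only [mem_iUnion] at hz1
      obtain ⟨z', hz', hzz⟩ := hz1
      have hne : z ≠ z' := by
        rintro rfl
        simp at hzz
        exact hδ.ne hzz
      have := hδd z hz z' ((hsm z').1 hz').1 hne
      rw [mem_sphere] at hzz
      linarith
  obtain ⟨ρ₁, hρ₁, hav⟩ := tube (msupp_sub h) hFc hKF
  have hdist : 0 < ρ - dist t t₀ := by
    rw [mem_ball] at ht
    linarith
  set ρ₂ := min ρ₁ (ρ - dist t t₀) with hρ₂
  have hρ₂0 : 0 < ρ₂ := lt_min hρ₁ hdist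
  have hsub : ball t ρ₂ ⊆ ball t₀ ρ :=
    (ball_subset_ball (min_le_right _ _)).trans (ball_subset (by simp))
  have hav' : ∀ x ∈ msupp m, x.1 ∈ ball t ρ₂ → x.2 ∉ F := fun x hx hx1 =>
    hav x hx (ball_subset_ball (min_le_left _ _) hx1)
  have hone : ∀ z ∈ s, hor μ m A (ball t ρ₂ ×ˢ ball z δ) = volume (ball t ρ₂) := by
    intro z hz
    have hfz : ∀ x ∈ msupp m, x.1 ∈ ball t ρ₂ → x.2 ∉ frontier (ball z δ) := by
      intro x hx hx1 hx2
      refine hav' x hx hx1 (Or.inr ?_)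
      simp only [mem_iUnion]
      exact ⟨z, hz, frontier_ball_subset_sphere hx2⟩
    obtain ⟨d', hd'⟩ := h1 μ β κ L hc R m A C c h t ρ₂ (ball z δ) hρ₂0 (hsub.trans hb)
      isOpen_ball hfz
    have hzK := ((hsm z).1 hz).1
    have hsing : Kf m t ∩ ball z δ = {z} := by
      ext z'
      simp only [mem_inter_iff, mem_singleton_iff]
      constructor
      · rintro ⟨hz', hzb⟩
        by_contra hne
        have := hδd z' hz' z hzK hne
        rw [mem_ball] at hzb
        linarith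
      · rintro rfl
        exact ⟨hzK, mem_ball_self hδ⟩
    have hd1 := h5 μ β κ L hc R m A C c h t z ρ₂ (ball z δ) d' hρ₂0 (hsub.trans hb)
      isOpen_ball hfz hd' hsing (hgood z hzK).1 (hgood z hzK).2
    rw [hd'.eq _ measurableSet_ball subset_rfl, hd1]
    simp
  have hunion : hor μ m A (⋃ z ∈ s, ball t ρ₂ ×ˢ ball z δ) = (s.card : ℝ≥0∞) * volume (ball t ρ₂) := by
    rw [measure_biUnion_finset]
    · rw [Finset.sum_congr rfl hone, Finset.sum_const, nsmul_eq_mul]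
    · intro z hz z' hz' hne
      refine Set.disjoint_left.2 ?_
      rintro x ⟨_, hx1⟩ ⟨_, hx2⟩
      have := hδd z ((hsm z).1 hz).1 z' ((hsm z').1 hz').1 hne
      rw [mem_ball] at hx1 hx2
      have h3 := dist_triangle z x.2 z'
      rw [dist_comm z x.2] at h3
      linarith
    · intro z _
      exact measurableSet_ball.prod measurableSet_ball
  have hrest : hor μ m A (ball t ρ₂ ×ˢ (W \ ⋃ z ∈ s, ball z δ)) = 0 := by
    refine hor_null fun x hx hxm => ?_
    exact hav' x hxm hx.1 (Or.inl ⟨subset_closure hx.2.1, hx.2.2⟩)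
  have hall : hor μ m A (ball t ρ₂ ×ˢ W) = (s.card : ℝ≥0∞) * volume (ball t ρ₂) := by
    rw [← hunion]
    apply le_antisymm
    · calc hor μ m A (ball t ρ₂ ×ˢ W)
          ≤ hor μ m A ((⋃ z ∈ s, ball t ρ₂ ×ˢ ball z δ) ∪
              ball t ρ₂ ×ˢ (W \ ⋃ z ∈ s, ball z δ)) := by
            apply measure_mono
            rintro x ⟨hx1, hx2⟩
            by_cases hx : x.2 ∈ ⋃ z ∈ s, ball z δ
            · left
              simp only [mem_iUnion] at hx ⊢
              obtain ⟨z, hz, hxz⟩ := hx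
              exact ⟨z, hz, hx1, hxz⟩
            · right
              exact ⟨hx1, hx2, hx⟩
        _ ≤ _ := measure_union_le _ _
        _ = _ := by rw [hrest, add_zero]
    · apply measure_mono
      intro x hx
      simp only [mem_iUnion] at hx
      obtain ⟨z, hz, hx1, hx2⟩ := hx
      exact ⟨hx1, hδW z ((hsm z).1 hz) hx2⟩
  rw [hd.eq _ measurableSet_ball hsub] at hall
  have hv0 : volume (ball t ρ₂) ≠ 0 := (measure_ball_pos volume t hρ₂0).ne'
  have hv1 : volume (ball t ρ₂) ≠ ⊤ := measure_ball_lt_top.ne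
  have he : ENNReal.ofReal d = (s.card : ℝ≥0∞) := (ENNReal.mul_left_inj hv0 hv1).1 hall
  have he2 : d = s.card := by
    have := congrArg ENNReal.toReal he
    rwa [ENNReal.toReal_ofReal hd.nonneg, ENNReal.toReal_natCast] at this
  rw [he2, ← hsW, Set.ncard_coe_finset]

/-! ### the disintegration -/

/-- a finite measure of mass `card s` with mass one at the points of `s` is the counting measure
of `s`. -/
theorem lint_eq (ν : Measure ℂ) (s : Finset ℂ) (hu : ν univ = (s.card : ℝ≥0∞))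
    (h1 : ∀ z ∈ s, ν {z} = 1) (f : ℂ → ℝ≥0∞) : ∫⁻ x, f x ∂ν = ∑ z ∈ s, f z := by
  have hs : ν (s : Set ℂ) = (s.card : ℝ≥0∞) := by
    have hms := sum_measure_singleton (μ := ν) (s := s)
    rw [← hms, Finset.sum_congr rfl h1]
    simp
  have hfin : IsFiniteMeasure ν := ⟨by rw [hu]; exact ENNReal.natCast_lt_top _⟩
  have hc : ν (s : Set ℂ)ᶜ = 0 := by
    rw [measure_compl s.measurableSet (measure_ne_top _ _), hu, hs, tsub_self]
  have hr : ν.restrict (s : Set ℂ) = ν := Measure.restrict_eq_self_of_ae_mem (by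
    rw [ae_iff]
    exact hc)
  calc ∫⁻ x, f x ∂ν = ∫⁻ x in (s : Set ℂ), f x ∂ν := by rw [hr]
    _ = ∑ z ∈ s, f z * ν {z} := lintegral_finset s f
    _ = ∑ z ∈ s, f z := Finset.sum_congr rfl fun z hz => by rw [h1 z hz, mul_one]

theorem ball_zero_pos (h : Cyl μ β R m A C c) : volume (ball (0 : ℂ) R) ≠ 0 :=
  (measure_ball_pos volume 0 h.R0).ne'

/-- the good fibres. -/
theorem good_ae (h2 : NULLP) (h3 : VERT) (h4 : FINF) (hc : Coef μ β κ L)
    (h : Cyl μ β R m A C c) :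
    ∀ᵐ t : ℂ, t ∈ ball (0 : ℂ) R → (Kf m t).Finite ∧
      ∀ z ∈ Kf m t, (A (t, z)).1 ≠ 0 ∧ Flat μ β m A (t, z) := by
  have e2 := measure_eq_zero_iff_ae_notMem.1
    (h2 μ β κ L hc R m A C c h {x | ¬ Flat μ β m A x} (ae_iff.1 h.flat))
  have e3 := measure_eq_zero_iff_ae_notMem.1 (h3 μ β κ L hc R m A C c h)
  have e4 := h4 μ β κ L hc R m A C c h
  filter_upwards [e2, e3, e4] with t t2 t3 t4 ht
  refine ⟨t4 ht, fun z hz => ?_⟩
  have hfl : Flat μ β m A (t, z) := by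
    by_contra hn
    exact t2 ⟨ht, z, hn, hz⟩
  exact ⟨fun h0 => t3 ⟨ht, z, hz, h0, hfl⟩, hfl⟩

/-- the first marginal of `hor`. -/
theorem hor_fst (h : Cyl μ β R m A C c) {k : ℕ} (hk : IsDeg μ m A 0 R univ (k : ℝ)) :
    (hor μ m A).fst = (k : ℝ≥0∞) • volume.restrict (ball (0 : ℂ) R) := by
  ext E hE
  rw [Measure.fst_apply hE, Measure.smul_apply, Measure.restrict_apply hE, smul_eq_mul]
  have h1 := hk.eq (E ∩ ball 0 R) (hE.inter measurableSet_ball) inter_subset_right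
  rw [ENNReal.ofReal_natCast] at h1
  rw [← h1]
  apply le_antisymm
  · calc hor μ m A (Prod.fst ⁻¹' E)
        ≤ hor μ m A (((E ∩ ball 0 R) ×ˢ univ) ∪ (Prod.fst ⁻¹' (ball (0 : ℂ) R)ᶜ)) := by
          apply measure_mono
          intro x hx
          by_cases hx1 : x.1 ∈ ball (0 : ℂ) R
          · exact Or.inl ⟨⟨hx, hx1⟩, mem_univ _⟩
          · exact Or.inr hx1
      _ ≤ _ := measure_union_le _ _
      _ = _ := by
          rw [hor_out (A := A) h (S := Prod.fst ⁻¹' (ball (0 : ℂ) R)ᶜ) (fun x hx => hx), add_zero]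
  · apply measure_mono
    rintro x ⟨⟨hx, _⟩, _⟩
    exact hx

/-- the conditional measures see the degree. -/
theorem kernel_deg (h : Cyl μ β R m A C c) [IsFiniteMeasure (hor μ m A)] {k : ℕ}
    (hk : IsDeg μ m A 0 R univ (k : ℝ)) {t₀ : ℂ} {ρ d : ℝ} {W : Set ℂ}
    (hb : ball t₀ ρ ⊆ ball 0 R) (hW : IsOpen W) (hd : IsDeg μ m A t₀ ρ W d) :
    ∀ᵐ t : ℂ, t ∈ ball t₀ ρ → (k : ℝ≥0∞) * (hor μ m A).condKernel t W = ENNReal.ofReal d := by
  rw [← ae_restrict_iff' measurableSet_ball]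
  have hmk : Measurable fun t => (hor μ m A).condKernel t W :=
    ProbabilityTheory.Kernel.measurable_coe _ hW.measurableSet
  refine ae_eq_of_forall_setLIntegral_eq_of_sigmaFinite (hmk.const_mul _) measurable_const ?_
  intro E hE _
  rw [Measure.restrict_restrict hE, lintegral_const_mul _ hmk, setLIntegral_const]
  rw [← hd.eq (E ∩ ball t₀ ρ) (hE.inter measurableSet_ball) inter_subset_right]
  rw [← Measure.setLIntegral_condKernel_eq_measure_prod (hE.inter measurableSet_ball)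
    hW.measurableSet, hor_fst h hk, Measure.restrict_smul, lintegral_smul_measure,
    Measure.restrict_restrict (hE.inter measurableSet_ball)]
  rw [inter_eq_self_of_subset_left (inter_subset_right.trans hb)]
  rfl

/-- the conditional measures of open sets. -/
theorem kernel_open (h1 : CONST) (h2 : NULLP) (h3 : VERT) (h4 : FINF) (h5 : DEG1)
    (hc : Coef μ β κ L) (h : Cyl μ β R m A C c) [IsFiniteMeasure (hor μ m A)] {k : ℕ}
    (hk : IsDeg μ m A 0 R univ (k : ℝ)) {W : Set ℂ} (hW : IsOpen W) :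
    ∀ᵐ t : ℂ, t ∈ ball (0 : ℂ) R → (∀ z ∈ Kf m t, z ∉ frontier W) →
      (k : ℝ≥0∞) * (hor μ m A).condKernel t W = ((Kf m t ∩ W).ncard : ℝ≥0∞) := by
  rw [ae_iff]
  apply measure_null_of_locally_null
  intro t ht
  simp only [mem_ofPred_eq, Classical.not_imp] at ht
  obtain ⟨htR, htf, _⟩ := ht
  obtain ⟨ρ₁, hρ₁, hav⟩ := tube (msupp_sub h) isClosed_frontier htf
  obtain ⟨ρ₂, hρ₂, hb⟩ := Metric.isOpen_iff.1 (isOpen_ball (x := (0 : ℂ)) (ε := R)) t htR
  set ρ := min ρ₁ ρ₂ with hρ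
  have hρ0 : 0 < ρ := lt_min hρ₁ hρ₂
  have hbR : ball t ρ ⊆ ball 0 R := (ball_subset_ball (min_le_right _ _)).trans hb
  have hfr : ∀ x ∈ msupp m, x.1 ∈ ball t ρ → x.2 ∉ frontier W := fun x hx hx1 =>
    hav x hx (ball_subset_ball (min_le_left _ _) hx1)
  obtain ⟨d, hd⟩ := h1 μ β κ L hc R m A C c h t ρ W hρ0 hbR hW hfr
  refine ⟨_, inter_mem self_mem_nhdsWithin (mem_nhdsWithin_of_mem_nhds (ball_mem_nhds t hρ0)), ?_⟩
  rw [measure_eq_zero_iff_ae_notMem]
  filter_upwards [kernel_deg h hk hbR hW hd, good_ae h2 h3 h4 hc h] with t' k1 k2 hn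
  obtain ⟨hn1, hn2⟩ := hn
  simp only [mem_ofPred_eq, Classical.not_imp] at hn1
  obtain ⟨_, _, hn3⟩ := hn1
  obtain ⟨k3, k4⟩ := k2 (hbR hn2)
  apply hn3
  rw [k1 hn2, deg_eq h1 h5 hc h k3 k4 hbR hW hfr hd hn2, ENNReal.ofReal_natCast]

/-- (C06) **GOOD**. -/
theorem good (h1 : CONST) (h2 : NULLP) (h3 : VERT) (h4 : FINF) (h5 : DEG1) : GOOD := by
  intro μ β κ L hc R m A C c h
  have hG := good_ae h2 h3 h4 hc h
  have hhf : IsFiniteMeasure (hor μ m A) := hor_fin hc h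
  have hfru : ∀ x ∈ msupp m, x.1 ∈ ball (0 : ℂ) R → x.2 ∉ frontier (univ : Set ℂ) := by
    intro x _ _
    simp
  obtain ⟨k0, hk0⟩ := h1 μ β κ L hc R m A C c h 0 R univ h.R0 subset_rfl isOpen_univ hfru
  have hcard : ∀ t ∈ ball (0 : ℂ) R, (Kf m t).Finite →
      (∀ z ∈ Kf m t, (A (t, z)).1 ≠ 0 ∧ Flat μ β m A (t, z)) → k0 = ((Kf m t).ncard : ℝ) := by
    intro t ht hf hg
    have := deg_eq h1 h5 hc h hf hg subset_rfl isOpen_univ hfru hk0 ht
    rwa [inter_univ] at this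
  obtain ⟨k, hk⟩ : ∃ k : ℕ, k0 = k := by
    have : ∃ t ∈ ball (0 : ℂ) R, (Kf m t).Finite ∧
        ∀ z ∈ Kf m t, (A (t, z)).1 ≠ 0 ∧ Flat μ β m A (t, z) := by
      by_contra hno
      push Not at hno
      apply ball_zero_pos h
      rw [measure_eq_zero_iff_ae_notMem]
      filter_upwards [hG] with t ht htb
      obtain ⟨z, hz, hz'⟩ := hno t htb (ht htb).1
      exact hz' ((ht htb).2 z hz).1 ((ht htb).2 z hz).2
    obtain ⟨t, ht, hf, hg⟩ := this
    exact ⟨_, hcard t ht hf hg⟩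
  rw [hk] at hk0 hcard
  classical
  let T : ℂ → Finset ℂ := fun t => if ht : (Kf m t).Finite then ht.toFinset else ∅
  have hT : ∀ t, (Kf m t).Finite → (T t : Set ℂ) = Kf m t := by
    intro t ht
    simp only [T, dif_pos ht, Set.Finite.coe_toFinset]
  have hTc : ∀ᵐ t : ℂ, t ∈ ball (0 : ℂ) R → (T t).card = k ∧ (T t : Set ℂ) = Kf m t ∧
      ∀ z ∈ T t, (A (t, z)).1 ≠ 0 ∧ Flat μ β m A (t, z) := by
    filter_upwards [hG] with t ht htb
    obtain ⟨hf, hg⟩ := ht htb
    refine ⟨?_, hT t hf, fun z hz => hg z ?_⟩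
    · have h6 := hcard t htb hf hg
      rw [← hT t hf, Set.ncard_coe_finset] at h6
      exact_mod_cast h6.symm
    · rw [← hT t hf]
      exact hz
  refine ⟨k, T, hTc, ?_⟩
  -- the conditional measures
  have hker : ∀ᵐ t : ℂ, ∀ W ∈ TopologicalSpace.countableBasis ℂ, t ∈ ball (0 : ℂ) R →
      (∀ z ∈ Kf m t, z ∉ frontier W) →
      (k : ℝ≥0∞) * (hor μ m A).condKernel t W = ((Kf m t ∩ W).ncard : ℝ≥0∞) := by
    rw [ae_ball_iff (TopologicalSpace.countable_countableBasis ℂ)]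
    intro W hW
    exact kernel_open h1 h2 h3 h4 h5 hc h hk0
      (TopologicalSpace.isOpen_of_mem_countableBasis hW)
  have hsum : ∀ᵐ t : ℂ, t ∈ ball (0 : ℂ) R → ∀ f : ℂ → ℝ≥0∞,
      (k : ℝ≥0∞) * ∫⁻ z, f z ∂((hor μ m A).condKernel t) = ∑ z ∈ T t, f z := by
    filter_upwards [hker, hTc, hG] with t t1 t2 t3 htb f
    obtain ⟨c1, c2, _⟩ := t2 htb
    obtain ⟨hf, _⟩ := t3 htb
    have hν := lint_eq ((k : ℝ≥0∞) • (hor μ m A).condKernel t) (T t) ?_ ?_ f
    · rwa [lintegral_smul_measure] at hν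
    · rw [Measure.smul_apply, measure_univ, smul_eq_mul, mul_one, c1]
    · intro z hz
      have hzK : z ∈ Kf m t := by rw [← c2]; exact hz
      set ν : Measure ℂ := (k : ℝ≥0∞) • (hor μ m A).condKernel t with hνdef
      have hνf : IsFiniteMeasure ν := ⟨by
        rw [hνdef, Measure.smul_apply, measure_univ, smul_eq_mul, mul_one]
        exact ENNReal.natCast_lt_top _⟩
      -- small basic sets have mass one
      have hsmall : ∀ U : Set ℂ, IsOpen U → z ∈ U → ∃ W ⊆ U, z ∈ W ∧ ν W = 1 := by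
        intro U hU hzU
        obtain ⟨δ, hδ, _, hδd⟩ := exists_delta hf hU
        obtain ⟨W, hW, hzW, hWU⟩ :=
          (TopologicalSpace.isBasis_countableBasis ℂ).exists_subset_of_mem_open
            (show z ∈ U ∩ ball z δ from ⟨hzU, mem_ball_self hδ⟩) (hU.inter isOpen_ball)
        have hWo := TopologicalSpace.isOpen_of_mem_countableBasis hW
        have hiso : ∀ z' ∈ Kf m t, z' ∈ closure W → z' = z := by
          intro z' hz' hz'W
          by_contra hne
          have h7 := hδd z' hz' z hzK hne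
          have h8 : z' ∈ closedBall z δ :=
            closure_ball_subset_closedBall (closure_mono (hWU.trans inter_subset_right) hz'W)
          rw [mem_closedBall] at h8
          linarith
        have hfrW : ∀ z' ∈ Kf m t, z' ∉ frontier W := by
          intro z' hz' hz'W
          have := hiso z' hz' (frontier_subset_closure hz'W)
          subst this
          rw [hWo.frontier_eq] at hz'W
          exact hz'W.2 hzW
        have hs1 : Kf m t ∩ W = {z} := by
          ext z'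
          simp only [mem_inter_iff, mem_singleton_iff]
          constructor
          · rintro ⟨hz', hzb⟩
            exact hiso z' hz' (subset_closure hzb)
          · rintro rfl
            exact ⟨hzK, hzW⟩
        refine ⟨W, hWU.trans inter_subset_left, hzW, ?_⟩
        rw [hνdef, Measure.smul_apply, smul_eq_mul, t1 W hW htb hfrW, hs1]
        simp
      apply le_antisymm
      · obtain ⟨W, _, hzW, hW1⟩ := hsmall univ isOpen_univ (mem_univ z)
        rw [← hW1]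
        exact measure_mono (singleton_subset_iff.2 hzW)
      · by_contra hlt
        push Not at hlt
        obtain ⟨U, hU1, hU2, hU3⟩ := Set.exists_isOpen_lt_of_lt {z} (1 : ℝ≥0∞) hlt
        obtain ⟨W, hWU, _, hW1⟩ := hsmall U hU2 (hU1 rfl)
        have := (measure_mono hWU : ν W ≤ ν U)
        rw [hW1] at this
        exact absurd hU3 (not_lt.2 this)
  intro Φ hΦ
  have hsum' : ∀ᵐ t ∂(volume.restrict (ball (0 : ℂ) R)),
      (k : ℝ≥0∞) * ∫⁻ z, Φ (t, z) ∂((hor μ m A).condKernel t) = ∑ z ∈ T t, Φ (t, z) := by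
    rw [ae_restrict_iff' measurableSet_ball]
    filter_upwards [hsum] with t ht htb using ht htb fun z => Φ (t, z)
  have hmeas : Measurable fun t => ∫⁻ z, Φ (t, z) ∂((hor μ m A).condKernel t) :=
    hΦ.lintegral_kernel_prod_right'
  refine ⟨(hmeas.const_mul _).aemeasurable.congr hsum', ?_⟩
  rw [← Measure.lintegral_condKernel hΦ, hor_fst h hk0, lintegral_smul_measure,
    ← lintegral_congr_ae hsum', lintegral_const_mul _ hmeas]
  rfl

end Crest.Agent.R235.CylGood_435
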