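import Mathlib
import Crest.Agent.R235.CylDef_522
import Crest.Agent.R235.Cyl_GOOD_435

/-!
Row 235 (S0364), PACKAGE REG, block CYL, node C05 (DEG1): the degree at an isolated flat
non-vertical point of the fibre is one.  (helper369)
-/

set_option autoImplicit false

open MeasureTheory Metric Set Filter Complex
open scoped ContDiff Topology ComplexConjugate ENNReal

namespace Crest.Agent.R235.Cyl_DEG1_369

open Crest.Agent.R235.Loc Crest.Agent.R235.Cyl_522 Crest.Agent.R235.CylGood_435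

/-! ### the tangent plane as a graph -/

/-- `v + μ v̄ = a` for `v = (a - μ ā) / (1 - |μ|²)`. -/
theorem inv_mu {μ : ℂ} (h : ‖μ‖ < 1) (a : ℂ) :
    (a - μ * conj a) / ((1 - ‖μ‖ ^ 2 : ℝ) : ℂ) +
      μ * conj ((a - μ * conj a) / ((1 - ‖μ‖ ^ 2 : ℝ) : ℂ)) = a := by
  have h0 : (0 : ℝ) < 1 - ‖μ‖ ^ 2 := by nlinarith [norm_nonneg μ]
  have h1 : ((1 - ‖μ‖ ^ 2 : ℝ) : ℂ) ≠ 0 := by exact_mod_cast h0.ne'
  have h2 : μ * conj μ = ((‖μ‖ ^ 2 : ℝ) : ℂ) := by
    rw [Complex.mul_conj, Complex.normSq_eq_norm_sq]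
  rw [map_div₀, conj_ofReal, map_sub, map_mul, conj_conj, mul_div_assoc', ← add_div,
    div_eq_iff h1]
  have h3 : a - μ * conj a + μ * (conj a - conj μ * a) = a * (1 - μ * conj μ) := by ring
  rw [h3, h2]
  push_cast
  ring

/-- the tangent plane is the graph of `v ↦ p v + (p μ - β) v̄`. -/
theorem vec_graph {μ : ℂ} (h : ‖μ‖ < 1) (β : ℂ) {A : ℂ × ℂ} (hA : A.1 ≠ 0) (c : ℂ) :
    (vec μ β (c • A)).2 = A.2 / A.1 * (vec μ β (c • A)).1 +
      (A.2 / A.1 * μ - β) * conj (vec μ β (c • A)).1 := by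
  set v := (vec μ β (c • A)).1 with hv
  have h1 : v + μ * conj v = c * A.1 := by
    have := inv_mu h (c * A.1)
    simpa [hv, vec] using this
  have h2 : (vec μ β (c • A)).2 = c * A.2 - β * conj v := by
    simp [hv, vec]
  have h3 : A.2 / A.1 * (c * A.1) = c * A.2 := by
    field_simp
  calc (vec μ β (c • A)).2 = A.2 / A.1 * (c * A.1) - β * conj v := by rw [h2, h3]
    _ = A.2 / A.1 * (v + μ * conj v) - β * conj v := by rw [h1]
    _ = _ := by ring

theorem vec_le {μ : ℂ} (h : ‖μ‖ < 1) (β : ℂ) {A : ℂ × ℂ} (hA : A.1 ≠ 0) (c : ℂ) :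
    ‖(vec μ β (c • A)).2‖ ≤
      (‖A.2 / A.1‖ + ‖A.2 / A.1 * μ - β‖) * ‖(vec μ β (c • A)).1‖ := by
  rw [vec_graph h β hA c]
  refine (norm_add_le _ _).trans ?_
  rw [norm_mul, norm_mul, Complex.norm_conj, add_mul]

variable {μ β : ℂ × ℂ → ℂ} {κ L R : ℝ} {m : Measure (ℂ × ℂ)} {A : ℂ × ℂ → ℂ × ℂ} {C c : ℝ}

/-! ### the points of the support near a flat point are near the plane -/

theorem near_plane (h : Cyl μ β R m A C c) {x : ℂ × ℂ} (hxR : ‖x.1‖ < R)
    (hF : Flat μ β m A x) {ε : ℝ} (hε : 0 < ε) (hε1 : ε ≤ 1) :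
    ∀ᶠ s in 𝓝[>] (0 : ℝ), ∀ y ∈ msupp m, dist y x < 2 * s →
      ∃ a : ℂ, ‖y - x - vec (μ x) (β x) (a • A x)‖ ≤ 2 * ε * s := by
  have hc0 := h.c0
  set ε' : ℝ := min (ε / 8) (c * ε ^ 2 / 32) with hε'
  have hε'0 : 0 < ε' := lt_min (by positivity) (by positivity)
  have hε'1 : ε' ≤ ε / 8 := min_le_left _ _
  have hε'2 : ε' ≤ c * ε ^ 2 / 32 := min_le_right _ _
  have htend : Tendsto (fun s : ℝ => 4 * s) (𝓝[>] 0) (𝓝[>] 0) := by
    refine tendsto_nhdsWithin_iff.2 ⟨?_, ?_⟩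
    · have : Tendsto (fun s : ℝ => 4 * s) (𝓝 0) (𝓝 (4 * 0)) :=
        (continuous_const.mul continuous_id).tendsto 0
      rw [mul_zero] at this
      exact this.mono_left nhdsWithin_le_nhds
    · filter_upwards [self_mem_nhdsWithin] with s hs
      have hs' : (0 : ℝ) < s := hs
      show (0 : ℝ) < 4 * s
      positivity
  have hev := htend.eventually (hF.plane ε' hε'0)
  have hev2 : ∀ᶠ s : ℝ in 𝓝[>] 0, s < (R - ‖x.1‖) / 4 := by
    have : 0 < (R - ‖x.1‖) / 4 := by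
      have := sub_pos.2 hxR
      positivity
    exact mem_nhdsWithin_of_mem_nhds (Iio_mem_nhds this)
  filter_upwards [hev, hev2, self_mem_nhdsWithin] with s hs1 hs2 hs0 y hy hyx
  have hs0' : (0 : ℝ) < s := hs0
  by_contra hcon
  push Not at hcon
  have hεs : 0 < ε * s := by positivity
  have hεs1 : ε * s ≤ s := by nlinarith
  have hy1 : ‖y.1‖ + ε * s < R := by
    have h1 : dist y.1 x.1 ≤ dist y x := by rw [Prod.dist_eq]; exact le_max_left _ _
    have h2 : ‖y.1‖ ≤ ‖x.1‖ + dist y.1 x.1 := by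
      rw [dist_eq_norm]
      have := norm_add_le x.1 (y.1 - x.1)
      simpa using this
    linarith
  have hm1 := h.low y hy (ε * s) hεs hy1
  have hsub : ball y (ε * s) ⊆
      {w | w ∈ ball x (4 * s) ∧ ∀ a : ℂ, ε' * (4 * s) < ‖w - x - vec (μ x) (β x) (a • A x)‖} := by
    intro w hw
    have hwy : dist w y < ε * s := hw
    refine ⟨?_, fun a => ?_⟩
    · have : dist w x ≤ dist w y + dist y x := dist_triangle _ _ _
      rw [mem_ball]
      linarith
    · have h1 := hcon a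
      have h2 : ‖y - x - vec (μ x) (β x) (a • A x)‖ ≤
          ‖w - x - vec (μ x) (β x) (a • A x)‖ + ‖w - y‖ := by
        have h3 : y - x - vec (μ x) (β x) (a • A x) =
            (w - x - vec (μ x) (β x) (a • A x)) - (w - y) := by abel
        rw [h3]
        exact norm_sub_le _ _
      rw [dist_eq_norm] at hwy
      have h4 : ε' * (4 * s) ≤ ε / 8 * (4 * s) := mul_le_mul_of_nonneg_right hε'1 (by positivity)
      nlinarith
  have hm2 := hm1.trans ((measure_mono hsub).trans hs1)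
  have h7 : c * (ε * s) ^ 2 ≤ ε' * (4 * s) ^ 2 :=
    (ENNReal.ofReal_le_ofReal_iff (by positivity)).mp hm2
  have h8 : ε' * (4 * s) ^ 2 ≤ c * ε ^ 2 / 32 * (4 * s) ^ 2 :=
    mul_le_mul_of_nonneg_right hε'2 (by positivity)
  have h10 : 0 < c * ε ^ 2 * s ^ 2 := by positivity
  nlinarith

/-- a non-vertical flat point: the nearby points of the support are in the cone `|z| < K |t|`. -/
theorem near_cone (hco : Coef μ β κ L) (h : Cyl μ β R m A C c) {x : ℂ × ℂ} (hxR : ‖x.1‖ < R)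
    (hA : (A x).1 ≠ 0) (hF : Flat μ β m A x) :
    ∃ δ > 0, ∀ y ∈ msupp m, dist y.2 x.2 < δ → ∀ s : ℝ, dist y.1 x.1 < s →
      dist y.2 x.2 < (‖sp A x‖ + ‖sp A x * μ x - β x‖ + 1) * s := by
  set K₀ := ‖sp A x‖ + ‖sp A x * μ x - β x‖ with hK₀
  have hK0 : 0 ≤ K₀ := by positivity
  set K := K₀ + 1 with hK
  have hK1 : 1 ≤ K := by linarith
  set ε : ℝ := 1 / (4 * K ^ 2) with hε
  have hε0 : 0 < ε := by positivity
  have hε1 : ε ≤ 1 := by
    rw [hε, div_le_one (by positivity)]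
    nlinarith
  have hev := near_plane h hxR hF hε0 hε1
  obtain ⟨δ, hδ, hδs⟩ := mem_nhdsGT_iff_exists_Ioo_subset.1 hev
  refine ⟨δ, hδ, fun y hy hyδ s hys => ?_⟩
  by_contra hcon
  rw [not_lt] at hcon
  set s' := dist y.2 x.2 with hs'
  have hs0 : 0 < s := dist_nonneg.trans_lt hys
  have hs'0 : 0 < s' := lt_of_lt_of_le (by positivity) hcon
  have hss : s ≤ s' := by nlinarith
  have hdist : dist y x < 2 * s' := by
    rw [Prod.dist_eq, max_lt_iff]
    constructor <;> linarith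
  obtain ⟨a, ha⟩ := hδs ⟨hs'0, hyδ⟩ y hy hdist
  have hμ : ‖μ x‖ < 1 := (hco.bμ x).trans_lt hco.κ1
  set V := vec (μ x) (β x) (a • A x) with hV
  have hΛ : ‖V.2‖ ≤ K₀ * ‖V.1‖ := vec_le hμ (β x) hA a
  have h1 : ‖y.1 - x.1 - V.1‖ ≤ 2 * ε * s' := (norm_fst_le (y - x - V)).trans ha
  have h2 : ‖y.2 - x.2 - V.2‖ ≤ 2 * ε * s' := (norm_snd_le (y - x - V)).trans ha
  have h3 : ‖V.1‖ ≤ s + 2 * ε * s' := by
    have h4 : ‖V.1‖ ≤ ‖y.1 - x.1‖ + ‖y.1 - x.1 - V.1‖ := by
      have := norm_sub_le (y.1 - x.1) (y.1 - x.1 - V.1)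
      simpa using this
    rw [dist_eq_norm] at hys
    linarith
  have h5 : s' ≤ ‖V.2‖ + 2 * ε * s' := by
    have h6 : ‖y.2 - x.2‖ ≤ ‖V.2‖ + ‖y.2 - x.2 - V.2‖ := by
      have := norm_add_le V.2 (y.2 - x.2 - V.2)
      simpa using this
    rw [hs', dist_eq_norm]
    rw [hs', dist_eq_norm] at h2
    linarith
  have h7 : s' ≤ K₀ * (s + 2 * ε * s') + 2 * ε * s' := by
    have := mul_le_mul_of_nonneg_left h3 hK0
    linarith
  have h8 : K * s' ≤ K₀ * s' + 2 * ε * K * K * s' := by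
    have h9 : K * s' ≤ K * (K₀ * (s + 2 * ε * s') + 2 * ε * s') :=
      mul_le_mul_of_nonneg_left h7 (by positivity)
    have h10 : K * (K₀ * (s + 2 * ε * s') + 2 * ε * s') =
        K₀ * (K * s) + 2 * ε * K * K * s' := by
      rw [hK]; ring
    have h11 : K₀ * (K * s) ≤ K₀ * s' := mul_le_mul_of_nonneg_left hcon hK0
    linarith
  have h12 : 2 * ε * K * K = 1 / 2 := by
    rw [hε]
    have : K ≠ 0 := by positivity
    field_simp
    norm_num
  rw [h12, hK] at h8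
  linarith

theorem deg1 : DEG1 := by
  intro μ β κ L hco R m A C c h t₀ z₀ ρ W d hρ hb hW hfr hd hK hA hF
  have ht₀ : t₀ ∈ ball t₀ ρ := mem_ball_self hρ
  have hx : z₀ ∈ Kf m t₀ ∩ W := by rw [hK]; exact rfl
  have hxR : ‖((t₀, z₀) : ℂ × ℂ).1‖ < R := by simpa using hb ht₀
  obtain ⟨δ, hδ, hcone⟩ := near_cone hco h hxR hA hF
  simp only at hcone
  set K₀ := ‖sp A (t₀, z₀)‖ + ‖sp A (t₀, z₀) * μ (t₀, z₀) - β (t₀, z₀)‖ with hK₀
  have hK0 : 0 ≤ K₀ := by positivity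
  -- the support over a small disc inside `W` is near `z₀`
  have hav : ∀ z ∈ Kf m t₀, z ∉ closure W \ ball z₀ δ := by
    rintro z hz ⟨hz1, hz2⟩
    have hzf : z ∉ frontier W := hfr (t₀, z) hz ht₀
    have hzW : z ∈ W := by
      rw [hW.frontier_eq] at hzf
      by_contra hzW
      exact hzf ⟨hz1, hzW⟩
    have hzz : z ∈ Kf m t₀ ∩ W := ⟨hz, hzW⟩
    rw [hK, mem_singleton_iff] at hzz
    apply hz2
    rw [hzz]
    exact mem_ball_self hδ
  obtain ⟨ρ₁, hρ₁, hav'⟩ := tube (msupp_sub h) (isClosed_closure.sdiff isOpen_ball) hav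
  obtain ⟨ε, hε, hεW⟩ := Metric.isOpen_iff.1 hW z₀ hx.2
  have hlim := hF.one hA (K₀ + 1) (by linarith)
  have hconst : (fun s : ℝ => (hor μ m A (ball ((t₀, z₀) : ℂ × ℂ).1 s ×ˢ
      ball ((t₀, z₀) : ℂ × ℂ).2 ((K₀ + 1) * s))).toReal / (Real.pi * s ^ 2)) =ᶠ[𝓝[>] 0]
      fun _ => d := by
    have hmin : 0 < min (min ρ ρ₁) (ε / (K₀ + 1)) :=
      lt_min (lt_min hρ hρ₁) (div_pos hε (by linarith))
    filter_upwards [Ioo_mem_nhdsGT hmin] with s hs
    have hs0 : 0 < s := hs.1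
    have hs1 : s < ρ := hs.2.trans_le ((min_le_left _ _).trans (min_le_left _ _))
    have hs2 : s < ρ₁ := hs.2.trans_le ((min_le_left _ _).trans (min_le_right _ _))
    have hs3 : (K₀ + 1) * s < ε := by
      have := hs.2.trans_le (min_le_right _ _)
      rw [lt_div_iff₀ (by linarith)] at this
      linarith
    have hsubW : ball z₀ ((K₀ + 1) * s) ⊆ W := (ball_subset_ball hs3.le).trans hεW
    have hrest : hor μ m A (ball t₀ s ×ˢ (W \ ball z₀ ((K₀ + 1) * s))) = 0 := by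
      refine hor_null fun y hy hym => ?_
      have hyδ : dist y.2 z₀ < δ := by
        by_contra hcon
        refine hav' y hym (ball_subset_ball hs2.le hy.1) ⟨subset_closure hy.2.1, ?_⟩
        rw [mem_ball]
        exact hcon
      exact hy.2.2 (mem_ball.2 (hcone y hym hyδ s hy.1))
    have hall : hor μ m A (ball t₀ s ×ˢ ball z₀ ((K₀ + 1) * s)) = hor μ m A (ball t₀ s ×ˢ W) := by
      apply le_antisymm
      · exact measure_mono (prod_mono subset_rfl hsubW)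
      · calc hor μ m A (ball t₀ s ×ˢ W)
            ≤ hor μ m A ((ball t₀ s ×ˢ ball z₀ ((K₀ + 1) * s)) ∪
                ball t₀ s ×ˢ (W \ ball z₀ ((K₀ + 1) * s))) := by
              apply measure_mono
              rintro y ⟨hy1, hy2⟩
              by_cases hy : y.2 ∈ ball z₀ ((K₀ + 1) * s)
              · exact Or.inl ⟨hy1, hy⟩
              · exact Or.inr ⟨hy1, hy2, hy⟩
          _ ≤ _ := measure_union_le _ _
          _ = _ := by rw [hrest, add_zero]
    rw [hall, hd.eq _ measurableSet_ball (ball_subset_ball hs1.le), Complex.volume_ball,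
      ENNReal.toReal_mul, ENNReal.toReal_ofReal hd.nonneg, ENNReal.toReal_mul, ENNReal.toReal_pow,
      ENNReal.toReal_ofReal hs0.le]
    simp only [ENNReal.coe_toReal, NNReal.coe_real_pi]
    have hpi := Real.pi_pos
    field_simp
  have hlim' := hlim.congr' hconst
  exact tendsto_nhds_unique tendsto_const_nhds hlim'

end Crest.Agent.R235.Cyl_DEG1_369
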