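import Mathlib
import Crest.Agent.R235.CylDef_522

/-!
Row 235, PACKAGE REG, block CYL, leaf C07 (ENER): the energy of the sheets is controlled by the mass.
-/

set_option autoImplicit false

open MeasureTheory Metric Set Filter Complex
open scoped ContDiff Topology ComplexConjugate

namespace Crest.Agent.R235.Cyl_ENER_199

open Crest.Agent.R235.Loc Crest.Agent.R235.Cyl_522

theorem ener : Crest.Agent.R235.Cyl_522.ENER := by
  intro μ β κ L hco
  have hκ : 0 < 1 - κ ^ 2 := by nlinarith [hco.κ0, hco.κ1]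
  have hK : 0 < 1 / (1 - κ ^ 2) := by positivity
  refine ⟨1 / (1 - κ ^ 2), hK, ?_⟩
  intro R m A C c hC k T hT
  have hsp : Measurable (sp A) := hC.meas.snd.div hC.meas.fst
  have hfin : IsFiniteMeasure m := ⟨hC.fin⟩
  have hμm : Measurable μ := hco.smμ.continuous.measurable
  have hdm : Measurable fun x => ENNReal.ofReal (‖(A x).1‖ ^ 2 / (1 - ‖μ x‖ ^ 2)) := by
    refine ENNReal.measurable_ofReal.comp ?_
    exact (hC.meas.fst.norm.pow_const 2).div (measurable_const.sub (hμm.norm.pow_const 2))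
  have hf0 : ∀ x, 0 ≤ 1 + ‖sp A x‖ ^ 2 := fun x => by positivity
  have hfm : Measurable fun x => ENNReal.ofReal (1 + ‖sp A x‖ ^ 2) :=
    ENNReal.measurable_ofReal.comp (measurable_const.add (hsp.norm.pow_const 2))
  have hsum : ∀ t, ENNReal.ofReal (en A T t) =
      ∑ z ∈ T t, ENNReal.ofReal (1 + ‖sp A (t, z)‖ ^ 2) := by
    intro t
    unfold en
    exact ENNReal.ofReal_sum_of_nonneg fun z _ => hf0 _
  have hen0 : ∀ t, 0 ≤ en A T t := fun t => Finset.sum_nonneg fun z _ => hf0 _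
  have hpt : ∀ x, ENNReal.ofReal (‖(A x).1‖ ^ 2 / (1 - ‖μ x‖ ^ 2)) *
      ENNReal.ofReal (1 + ‖sp A x‖ ^ 2) ≤ ENNReal.ofReal (1 / (1 - κ ^ 2)) := by
    intro x
    have hb : ‖μ x‖ ≤ κ := hco.bμ x
    have hden : 1 - κ ^ 2 ≤ 1 - ‖μ x‖ ^ 2 := by nlinarith [norm_nonneg (μ x), hco.κ0]
    have hden' : 0 < 1 - ‖μ x‖ ^ 2 := lt_of_lt_of_le hκ hden
    have hu := hC.unit x
    rw [← ENNReal.ofReal_mul (by positivity)]
    refine ENNReal.ofReal_le_ofReal ?_
    have h1 : ‖(A x).1‖ ^ 2 * (1 + ‖sp A x‖ ^ 2) ≤ 1 := by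
      by_cases h : (A x).1 = 0
      · simp [h]
      · have hn : ‖(A x).1‖ ≠ 0 := norm_ne_zero_iff.mpr h
        have : ‖sp A x‖ = ‖(A x).2‖ / ‖(A x).1‖ := by unfold sp; exact norm_div _ _
        rw [this]
        have h2 : ‖(A x).1‖ ^ 2 * (1 + (‖(A x).2‖ / ‖(A x).1‖) ^ 2) =
            ‖(A x).1‖ ^ 2 + ‖(A x).2‖ ^ 2 := by field_simp
        rw [h2, hu]
    calc ‖(A x).1‖ ^ 2 / (1 - ‖μ x‖ ^ 2) * (1 + ‖sp A x‖ ^ 2)
        = ‖(A x).1‖ ^ 2 * (1 + ‖sp A x‖ ^ 2) / (1 - ‖μ x‖ ^ 2) := by ring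
      _ ≤ 1 / (1 - ‖μ x‖ ^ 2) := by gcongr
      _ ≤ 1 / (1 - κ ^ 2) := by gcongr
  -- the key inequality
  have key : ∀ E : Set ℂ, MeasurableSet E → E ⊆ ball 0 R →
      ∫⁻ t in E, ENNReal.ofReal (en A T t) ≤
        ENNReal.ofReal (1 / (1 - κ ^ 2)) * m (E ×ˢ univ) := by
    intro E hE hER
    have hEm : MeasurableSet (E ×ˢ (univ : Set ℂ)) := hE.prod MeasurableSet.univ
    have hΦ : Measurable ((E ×ˢ (univ : Set ℂ)).indicator
        fun x => ENNReal.ofReal (1 + ‖sp A x‖ ^ 2)) := hfm.indicator hEm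
    have h1 := (hT.dis _ hΦ).2
    have h2 : ∫⁻ t in ball (0 : ℂ) R, ∑ z ∈ T t, (E ×ˢ (univ : Set ℂ)).indicator
        (fun x => ENNReal.ofReal (1 + ‖sp A x‖ ^ 2)) (t, z) =
        ∫⁻ t in E, ENNReal.ofReal (en A T t) := by
      have h3 : ∀ t, ∑ z ∈ T t, (E ×ˢ (univ : Set ℂ)).indicator
          (fun x => ENNReal.ofReal (1 + ‖sp A x‖ ^ 2)) (t, z) =
          E.indicator (fun t => ENNReal.ofReal (en A T t)) t := by
        intro t
        by_cases ht : t ∈ E
        · rw [Set.indicator_of_mem ht, hsum]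
          refine Finset.sum_congr rfl fun z _ => ?_
          rw [Set.indicator_of_mem]
          exact ⟨ht, mem_univ _⟩
        · rw [Set.indicator_of_notMem ht]
          refine Finset.sum_eq_zero fun z _ => ?_
          rw [Set.indicator_of_notMem]
          exact fun h => ht h.1
      rw [lintegral_congr h3, lintegral_indicator hE, Measure.restrict_restrict hE,
        inter_eq_self_of_subset_left hER]
    rw [← h2, ← h1]
    unfold hor
    rw [lintegral_withDensity_eq_lintegral_mul _ hdm hΦ]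
    calc ∫⁻ x, ((fun x => ENNReal.ofReal (‖(A x).1‖ ^ 2 / (1 - ‖μ x‖ ^ 2))) *
          (E ×ˢ (univ : Set ℂ)).indicator fun x => ENNReal.ofReal (1 + ‖sp A x‖ ^ 2)) x ∂m
        ≤ ∫⁻ x, (E ×ˢ (univ : Set ℂ)).indicator
            (fun _ => ENNReal.ofReal (1 / (1 - κ ^ 2))) x ∂m := by
          refine lintegral_mono fun x => ?_
          by_cases hx : x ∈ E ×ˢ (univ : Set ℂ)
          · simp only [Pi.mul_apply, Set.indicator_of_mem hx]
            exact hpt x
          · simp [Pi.mul_apply, Set.indicator_of_notMem hx]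
      _ = ENNReal.ofReal (1 / (1 - κ ^ 2)) * m (E ×ˢ univ) := by
          rw [lintegral_indicator hEm, setLIntegral_const]
  -- a.e. measurability
  have hae : AEStronglyMeasurable (en A T) (volume.restrict (ball (0 : ℂ) R)) := by
    have h := (hT.dis _ hfm).1
    have h' : AEMeasurable (fun t => (∑ z ∈ T t, ENNReal.ofReal (1 + ‖sp A (t, z)‖ ^ 2)).toReal)
        (volume.restrict (ball (0 : ℂ) R)) := h.ennreal_toReal
    refine h'.aestronglyMeasurable.congr (Eventually.of_forall fun t => ?_)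
    simp only []
    rw [← hsum, ENNReal.toReal_ofReal (hen0 t)]
  have hint : IntegrableOn (en A T) (ball 0 R) := by
    refine ⟨hae, ?_⟩
    rw [hasFiniteIntegral_iff_ofReal (Eventually.of_forall hen0)]
    refine lt_of_le_of_lt (key _ measurableSet_ball subset_rfl) ?_
    exact ENNReal.mul_lt_top ENNReal.ofReal_lt_top (measure_lt_top m _)
  refine ⟨hint, fun E hE hER => ?_⟩
  rw [integral_eq_lintegral_of_nonneg_ae (Eventually.of_forall hen0)
    (hint.mono_set hER).aestronglyMeasurable]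
  have h1 := ENNReal.toReal_mono (ENNReal.mul_lt_top ENNReal.ofReal_lt_top
    (measure_lt_top m _)).ne (key E hE hER)
  rwa [ENNReal.toReal_mul, ENNReal.toReal_ofReal hK.le] at h1

end Crest.Agent.R235.Cyl_ENER_199
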