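import Crest.Agent.R235.CylDef_522

/-!
Row 235, PACKAGE REG, block CYL, leaf C11 (helper792): extension of an almost everywhere defined
Hölder multiset function.
-/

set_option autoImplicit false

open MeasureTheory Metric Set Filter
open scoped Topology

namespace Crest.Agent.R235.CylExt792

open Crest.Agent.R235.Loc Crest.Agent.R235.Cyl_522

/-! ### enumerations -/

/-- the multiset with enumeration `f`. -/
def ms {k : ℕ} {α : Type*} (f : Fin k → α) : Multiset α := Multiset.map f Finset.univ.val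

theorem card_ms {k : ℕ} {α : Type*} (f : Fin k → α) : (ms f).card = k := by
  simp [ms]

theorem exists_ms {α : Type*} {k : ℕ} {s : Multiset α} (h : s.card = k) :
    ∃ f : Fin k → α, s = ms f := by
  have hl : s.toList.length = k := by rw [Multiset.length_toList, h]
  subst hl
  refine ⟨fun i => s.toList.get i, ?_⟩
  unfold ms
  rw [Fin.univ_val_map]
  have h2 : List.ofFn (fun i => s.toList.get i) = s.toList := List.ofFn_get _
  rw [h2, Multiset.coe_toList]

/-- a matching of a multiset without repetitions is given by a function. -/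
theorem rel_fun {ι β : Type*} [Nonempty β] [DecidableEq ι] {R : ι → β → Prop} :
    ∀ (s : Multiset ι), s.Nodup → ∀ t : Multiset β, Multiset.Rel R s t →
      ∃ g : ι → β, t = s.map g ∧ ∀ i ∈ s, R i (g i) := by
  intro s
  induction s using Multiset.induction_on with
  | empty =>
    intro _ t h
    rw [Multiset.rel_zero_left] at h
    exact ⟨fun _ => Classical.arbitrary β, by simp [h], by simp⟩
  | cons a s ih =>
    intro hs t h
    rw [Multiset.nodup_cons] at hs
    rw [Multiset.rel_cons_left] at h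
    obtain ⟨b, t', hab, hrel, rfl⟩ := h
    obtain ⟨g, hg, hR⟩ := ih hs.2 t' hrel
    refine ⟨Function.update g a b, ?_, ?_⟩
    · rw [Multiset.map_cons, Function.update_self, hg]
      congr 1
      refine Multiset.map_congr rfl fun x hx => ?_
      rw [Function.update_of_ne]
      rintro rfl
      exact hs.1 hx
    · intro i hi
      rw [Multiset.mem_cons] at hi
      rcases hi with rfl | hi
      · rwa [Function.update_self]
      · rw [Function.update_of_ne]
        · exact hR i hi
        · rintro rfl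
          exact hs.1 hi

/-- matching with an enumerated multiset. -/
theorem close_ms_left {k : ℕ} {f : Fin k → ℂ} {t : Multiset ℂ} {ε : ℝ} (h : Close ε (ms f) t) :
    ∃ g : Fin k → ℂ, t = ms g ∧ ∀ i, dist (f i) (g i) ≤ ε := by
  unfold Close ms at h
  rw [Multiset.rel_map_left] at h
  obtain ⟨g, hg, hR⟩ := rel_fun _ (Finset.univ.nodup) t h
  exact ⟨g, hg, fun i => hR i (Finset.mem_univ_val i)⟩

theorem close_of_enum {k : ℕ} {f g : Fin k → ℂ} {ε : ℝ} (h : ∀ i, dist (f i) (g i) ≤ ε) :
    Close ε (ms f) (ms g) := by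
  unfold Close ms
  rw [Multiset.rel_map_left, Multiset.rel_map_right]
  exact Multiset.rel_refl_of_refl_on fun i _ => h i

theorem close_ms_iff {k : ℕ} {f g : Fin k → ℂ} {ε : ℝ} :
    Close ε (ms f) (ms g) ↔ ∃ σ : Fin k → Fin k, (Finset.univ.val : Multiset (Fin k)) = ms σ ∧
      ∀ i, dist (f i) (g (σ i)) ≤ ε := by
  constructor
  · intro h
    unfold Close ms at h
    rw [Multiset.rel_map_left, Multiset.rel_map_right] at h
    by_cases hk : Nonempty (Fin k)
    · obtain ⟨σ, hσ, hR⟩ := rel_fun _ (Finset.univ.nodup) _ h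
      exact ⟨σ, hσ, fun i => hR i (Finset.mem_univ_val i)⟩
    · refine ⟨id, ?_, fun i => (hk ⟨i⟩).elim⟩
      simp [ms]
  · rintro ⟨σ, hσ, h⟩
    have h1 : ms g = ms (fun i => g (σ i)) := by
      unfold ms
      conv_lhs => rw [hσ]
      unfold ms
      rw [Multiset.map_map]
      rfl
    rw [h1]
    exact close_of_enum h

theorem close_symm {s t : Multiset ℂ} {ε : ℝ} (h : Close ε s t) : Close ε t s := by
  unfold Close at *
  rw [← Multiset.rel_flip] at h
  refine h.mono fun a _ b _ hab => ?_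
  rw [dist_comm]
  exact hab

/-- `Close` is a closed condition on enumerations. -/
theorem isClosed_close (k : ℕ) :
    IsClosed {p : ℝ × (Fin k → ℂ) × (Fin k → ℂ) | Close p.1 (ms p.2.1) (ms p.2.2)} := by
  have h : {p : ℝ × (Fin k → ℂ) × (Fin k → ℂ) | Close p.1 (ms p.2.1) (ms p.2.2)} =
      ⋃ σ ∈ {σ : Fin k → Fin k | (Finset.univ.val : Multiset (Fin k)) = ms σ},
        ⋂ i, {p : ℝ × (Fin k → ℂ) × (Fin k → ℂ) | dist (p.2.1 i) (p.2.2 (σ i)) ≤ p.1} := by
    ext p
    simp only [mem_ofPred_eq, mem_iUnion, mem_iInter, exists_prop]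
    exact close_ms_iff
  rw [h]
  refine Set.Finite.isClosed_biUnion (Set.toFinite _) fun σ _ => ?_
  refine isClosed_iInter fun i => ?_
  refine isClosed_le ?_ continuous_fst
  exact ((continuous_apply i).comp (continuous_fst.comp continuous_snd)).dist
    ((continuous_apply (σ i)).comp (continuous_snd.comp continuous_snd))

theorem close_lim {k : ℕ} {ε : ℕ → ℝ} {f g : ℕ → Fin k → ℂ} {ε' : ℝ} {f' g' : Fin k → ℂ}
    (hε : Tendsto ε atTop (𝓝 ε')) (hf : Tendsto f atTop (𝓝 f')) (hg : Tendsto g atTop (𝓝 g'))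
    (h : ∀ n, Close (ε n) (ms (f n)) (ms (g n))) : Close ε' (ms f') (ms g') := by
  have := (isClosed_close k).mem_of_tendsto (hε.prodMk_nhds (hf.prodMk_nhds hg))
    (Filter.Eventually.of_forall fun n => h n)
  exact this

/-- the Hölder modulus is continuous. -/
theorem tendsto_mod {C b : ℝ} (hb : 0 < b) {t : ℂ} {u : ℕ → ℂ} {t' : ℂ}
    (hu : Tendsto u atTop (𝓝 t')) :
    Tendsto (fun n => C * dist t (u n) ^ b) atTop (𝓝 (C * dist t t' ^ b)) := by
  refine Tendsto.const_mul C ?_
  exact ((Real.continuousAt_rpow_const _ _ (Or.inr hb.le)).tendsto.comp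
    (tendsto_const_nhds.dist hu) : _)

/-- **C11.** -/
theorem ext : EXT := by
  intro k ρ C b T N hρ hC hb hN hcard hT
  set G : Set ℂ := ball (0 : ℂ) ρ \ N with hG
  have hdense : ball (0 : ℂ) ρ ⊆ closure G := by
    have h1 : Dense {x : ℂ | x ∉ N} :=
      Measure.dense_of_ae (measure_eq_zero_iff_ae_notMem.1 hN)
    have h2 := h1.open_subset_closure_inter (isOpen_ball (x := (0 : ℂ)) (ε := ρ))
    exact h2
  have hseq : ∀ t ∈ ball (0 : ℂ) ρ, ∃ u : ℕ → ℂ, (∀ n, u n ∈ G) ∧ Tendsto u atTop (𝓝 t) :=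
    fun t ht => mem_closure_iff_seq_limit.1 (hdense ht)
  -- existence of limits
  have hex : ∀ t ∈ ball (0 : ℂ) ρ, ∃ s : Multiset ℂ, s.card = k ∧ (t ∈ G → s = T t) ∧
      ∀ t' ∈ G, Close (C * dist t t' ^ b) s (T t') := by
    intro t ht
    by_cases htG : t ∈ G
    · exact ⟨T t, hcard t htG, fun _ => rfl, fun t' ht' => hT t htG t' ht'⟩
    obtain ⟨u, huG, hu⟩ := hseq t ht
    obtain ⟨f₀, hf₀⟩ := exists_ms (hcard (u 0) (huG 0))
    have h1 : ∀ n, ∃ g : Fin k → ℂ, T (u n) = ms g ∧
        ∀ i, dist (f₀ i) (g i) ≤ C * dist (u 0) (u n) ^ b := by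
      intro n
      have := hT (u 0) (huG 0) (u n) (huG n)
      rw [hf₀] at this
      exact close_ms_left this
    choose g hg hgd using h1
    have hM : ∀ n, g n ∈ closedBall f₀ (C * (2 * ρ) ^ b) := by
      intro n
      rw [mem_closedBall, dist_comm, dist_pi_le_iff (by positivity)]
      intro i
      refine (hgd n i).trans ?_
      refine mul_le_mul_of_nonneg_left ?_ hC.le
      refine Real.rpow_le_rpow dist_nonneg ?_ hb.le
      have h3 := mem_ball.1 (huG 0).1
      have h4 := mem_ball.1 (huG n).1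
      calc dist (u 0) (u n) ≤ dist (u 0) 0 + dist 0 (u n) := dist_triangle _ _ _
        _ ≤ ρ + ρ := by rw [dist_comm 0 (u n)]; exact add_le_add h3.le h4.le
        _ = 2 * ρ := by ring
    obtain ⟨f, -, φ, hφ, hlim⟩ := (isCompact_closedBall f₀ (C * (2 * ρ) ^ b)).tendsto_subseq hM
    refine ⟨ms f, card_ms f, fun h => (htG h).elim, fun t' ht' => ?_⟩
    obtain ⟨g', hg'⟩ := exists_ms (hcard t' ht')
    rw [hg', dist_comm]
    refine close_lim (f := fun n => g (φ n)) (g := fun _ => g')
      (tendsto_mod (t := t') hb (hu.comp hφ.tendsto_atTop)) hlim tendsto_const_nhds fun n => ?_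
    rw [← hg', ← hg (φ n), Function.comp_apply, dist_comm]
    exact hT _ (huG _) _ ht'
  choose! S hScard hSG hS using hex
  refine ⟨S, hScard, fun t ht => hSG t ht.1 ht, ?_⟩
  intro t ht t' ht'
  obtain ⟨u, huG, hu⟩ := hseq t' ht'
  obtain ⟨f, hf⟩ := exists_ms (hScard t ht)
  obtain ⟨g', hg'⟩ := exists_ms (hScard t' ht')
  have h1 : ∀ n, ∃ g : Fin k → ℂ, T (u n) = ms g ∧
      ∀ i, dist (g' i) (g i) ≤ C * dist t' (u n) ^ b := by
    intro n
    have := hS t' ht' (u n) (huG n)
    rw [hg'] at this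
    exact close_ms_left this
  choose g hg hgd using h1
  have hlim : Tendsto g atTop (𝓝 g') := by
    rw [tendsto_pi_nhds]
    intro i
    rw [tendsto_iff_dist_tendsto_zero]
    have h0 : Tendsto (fun n => C * dist t' (u n) ^ b) atTop (𝓝 0) := by
      have := tendsto_mod (C := C) (t := t') hb hu
      rwa [dist_self, Real.zero_rpow hb.ne', mul_zero] at this
    refine squeeze_zero (fun _ => dist_nonneg) (fun n => ?_) h0
    rw [dist_comm]
    exact hgd n i
  rw [hf, hg']
  refine close_lim (f := fun _ => f) (g := g) (tendsto_mod (t := t) hb hu) tendsto_const_nhds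
    hlim fun n => ?_
  rw [← hf, ← hg n]
  exact hS t ht _ (huG n)

end Crest.Agent.R235.CylExt792
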