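import Crest.Agent.R235.CylDef_522

/-!
Row 235, REG-CYL (C04): almost every fibre of the support is finite.
-/

set_option autoImplicit false

open MeasureTheory Metric Set Filter Complex
open scoped ContDiff Topology ENNReal

namespace Crest.Agent.R235.Cyl_FINF_659

open Crest.Agent.R235.Cyl_522

theorem finf : FINF := by
  intro μ β κ L _ R m A C c hc
  have hfin : IsFiniteMeasure m := ⟨hc.fin⟩
  set τ : Measure ℂ := m.map Prod.fst with hτ
  have h1 := Besicovitch.ae_tendsto_rnDeriv τ (volume : Measure ℂ)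
  have h2 := τ.rnDeriv_lt_top (volume : Measure ℂ)
  filter_upwards [h1, h2] with t h1 h2 ht
  by_contra hinf
  have hinf' : (Kf m t).Infinite := hinf
  set D := τ.rnDeriv volume t with hD
  have hD1 : D < D + 1 := ENNReal.lt_add_right h2.ne one_ne_zero
  have h3 : ∀ᶠ r in 𝓝[>] (0 : ℝ), τ (closedBall t r) / volume (closedBall t r) < D + 1 :=
    h1.eventually_lt_const hD1
  have hK : (D + 1) * (NNReal.pi : ℝ≥0∞) ≠ ⊤ :=
    ENNReal.mul_ne_top (ENNReal.add_ne_top.2 ⟨h2.ne, ENNReal.one_ne_top⟩) ENNReal.coe_ne_top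
  have hc0 : ENNReal.ofReal c ≠ 0 := (ENNReal.ofReal_pos.2 hc.c0).ne'
  obtain ⟨n, hn⟩ := ENNReal.exists_nat_mul_gt hc0 hK
  obtain ⟨s, hs1, hs2⟩ := hinf'.exists_subset_card_eq n
  have h4 : ∀ᶠ r in 𝓝[>] (0 : ℝ), ∀ x ∈ s, ∀ y ∈ s, x ≠ y → 2 * r < dist x y := by
    rw [Filter.eventually_all_finset]
    intro x _
    rw [Filter.eventually_all_finset]
    intro y _
    by_cases hxy : x = y
    · exact Eventually.of_forall fun r h => absurd hxy h
    · have h5 : 0 < dist x y := dist_pos.2 hxy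
      filter_upwards [Ioo_mem_nhdsGT (show (0 : ℝ) < dist x y / 2 by positivity)] with r hr _
      linarith [hr.2]
  have h5 : ∀ᶠ r in 𝓝[>] (0 : ℝ), ‖t‖ + r < R := by
    have h6 : (0 : ℝ) < R - ‖t‖ := by
      have := mem_ball_zero_iff.1 ht
      linarith
    filter_upwards [Ioo_mem_nhdsGT h6] with r hr
    linarith [hr.2]
  obtain ⟨r, ⟨⟨h6, h7⟩, h8⟩, h9⟩ := (((h3.and h4).and h5).and self_mem_nhdsWithin).exists
  have hr : 0 < r := h9
  -- upper bound
  have hr0 : ENNReal.ofReal r ^ 2 ≠ 0 := pow_ne_zero _ (ENNReal.ofReal_pos.2 hr).ne'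
  have hr1 : ENNReal.ofReal r ^ 2 ≠ ⊤ := ENNReal.pow_ne_top ENNReal.ofReal_ne_top
  have h10 : τ (closedBall t r) ≤ (D + 1) * (ENNReal.ofReal r ^ 2 * NNReal.pi) := by
    rw [Complex.volume_closedBall] at h6
    refine (ENNReal.div_le_iff ?_ ?_).1 h6.le
    · exact mul_ne_zero hr0 (by simp [NNReal.pi_pos.ne'])
    · exact ENNReal.mul_ne_top hr1 ENNReal.coe_ne_top
  -- lower bound
  have h11 : (n : ℝ≥0∞) * ENNReal.ofReal (c * r ^ 2) ≤ τ (closedBall t r) := by
    rw [hτ, Measure.map_apply measurable_fst measurableSet_closedBall]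
    calc (n : ℝ≥0∞) * ENNReal.ofReal (c * r ^ 2)
        = ∑ z ∈ s, ENNReal.ofReal (c * r ^ 2) := by
          rw [Finset.sum_const, hs2, nsmul_eq_mul]
      _ ≤ ∑ z ∈ s, m (ball (t, z) r) := by
          refine Finset.sum_le_sum fun z hz => ?_
          exact hc.low (t, z) (hs1 hz) r hr h8
      _ = m (⋃ z ∈ s, ball (t, z) r) := by
          refine (measure_biUnion_finset ?_ fun z _ => measurableSet_ball).symm
          intro x hx y hy hxy
          refine ball_disjoint_ball ?_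
          have := h7 x hx y hy hxy
          have h12 : dist ((t, x) : ℂ × ℂ) (t, y) = dist x y := by
            rw [Prod.dist_eq, dist_self, max_eq_right dist_nonneg]
          rw [h12]
          linarith
      _ ≤ m (Prod.fst ⁻¹' closedBall t r) := by
          refine measure_mono (iUnion₂_subset fun z _ x hx => ?_)
          rw [mem_ball, Prod.dist_eq] at hx
          exact ((le_max_left _ _).trans_lt hx).le
  have h12 : (n : ℝ≥0∞) * ENNReal.ofReal c * ENNReal.ofReal r ^ 2 ≤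
      (D + 1) * NNReal.pi * ENNReal.ofReal r ^ 2 := by
    calc (n : ℝ≥0∞) * ENNReal.ofReal c * ENNReal.ofReal r ^ 2
        = n * ENNReal.ofReal (c * r ^ 2) := by
          rw [ENNReal.ofReal_mul hc.c0.le, ENNReal.ofReal_pow hr.le, mul_assoc]
      _ ≤ (D + 1) * (ENNReal.ofReal r ^ 2 * NNReal.pi) := h11.trans h10
      _ = (D + 1) * NNReal.pi * ENNReal.ofReal r ^ 2 := by ring
  have h13 := (ENNReal.mul_le_mul_iff_left hr0 hr1).1 h12
  exact absurd h13 (not_le.2 hn)

end Crest.Agent.R235.Cyl_FINF_659
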