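import Mathlib
import Crest.Agent.R235.CylDef_522
import Crest.Agent.R235.CylMorrey_125

/-!
Row 235, PACKAGE REG, block CYL, leaf C10 HOLDA (helper125): Hölder continuity of the good fibres
(Morrey lemma for the symmetric functions + Hall matching).
-/

set_option autoImplicit false

open MeasureTheory Metric Set Filter Complex
open scoped ContDiff Topology ComplexConjugate ENNReal

namespace Crest.Agent.R235.Cyl_HOLDA_125

open Crest.Agent.R235.Loc Crest.Agent.R235.Cyl_522 Crest.Agent.R235.CylMorrey_125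

/-! ### Hall -/

lemma close_of_hall {s s' : Finset ℂ} (hs : s.card = s'.card) {δ : ℝ}
    (h : ∀ X : Finset ℂ, X ⊆ s →
      X.card ≤ (s'.filter (fun z' => ∃ x ∈ X, dist x z' ≤ δ)).card) :
    Close δ s.val s'.val := by
  classical
  have hall : ∀ Y : Finset {x // x ∈ s},
      Y.card ≤ (Y.biUnion fun x => s'.filter (fun z' => dist (x : ℂ) z' ≤ δ)).card := by
    intro Y
    have h1 := h (Y.map (Function.Embedding.subtype _)) (by
      intro x hx
      rw [Finset.mem_map] at hx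
      obtain ⟨y, _, rfl⟩ := hx
      exact y.2)
    rw [Finset.card_map] at h1
    refine h1.trans (Finset.card_le_card ?_)
    intro z' hz'
    rw [Finset.mem_filter] at hz'
    obtain ⟨hz', x, hx, hd⟩ := hz'
    rw [Finset.mem_map] at hx
    obtain ⟨y, hy, rfl⟩ := hx
    rw [Finset.mem_biUnion]
    exact ⟨y, hy, Finset.mem_filter.2 ⟨hz', hd⟩⟩
  obtain ⟨f, hf, hf'⟩ := (Finset.all_card_le_biUnion_card_iff_exists_injective _).1 hall
  have e1 : s.attach.map ⟨f, hf⟩ = s' := by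
    refine Finset.eq_of_subset_of_card_le ?_ ?_
    · intro z hz
      rw [Finset.mem_map] at hz
      obtain ⟨x, _, rfl⟩ := hz
      exact (Finset.mem_filter.1 (hf' x)).1
    · rw [Finset.card_map, Finset.card_attach, hs]
  have e2 : s'.val = Multiset.map f s.attach.val := by
    rw [← e1]; rfl
  have e3 : s.val = Multiset.map Subtype.val s.attach.val := by
    exact (Multiset.attach_map_val s.val).symm
  rw [Close, e2, e3, Multiset.rel_map]
  refine Multiset.rel_refl_of_refl_on fun x _ => ?_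
  exact (Finset.mem_filter.1 (hf' x)).2

/-! ### the test functions -/

/-- a fixed bump. -/
noncomputable def b1 : ContDiffBump (0 : ℂ) where
  rIn := 1 / 2
  rOut := 1
  rIn_pos := by norm_num
  rIn_lt_rOut := by norm_num

lemma exists_lip : ∃ L : NNReal, LipschitzWith L (fun z : ℂ => b1 z) := by
  have h1 : ContDiff ℝ 1 (fun z : ℂ => b1 z) := b1.contDiff
  exact ContDiff.lipschitzWith_of_hasCompactSupport b1.hasCompactSupport h1 one_ne_zero

/-- the test function of a finite set of points of the dense sequence at scale `2^{-n}`. -/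
noncomputable def tf (X : Finset ℕ) (n : ℕ) (z : ℂ) : ℝ :=
  1 - ∏ j ∈ X, (1 - b1 ((2 : ℝ) ^ n • (z - TopologicalSpace.denseSeq ℂ j)))

lemma tf_smooth (X : Finset ℕ) (n : ℕ) : ContDiff ℝ ∞ (tf X n) := by
  unfold tf
  refine contDiff_const.sub (contDiff_prod fun j _ => contDiff_const.sub ?_)
  have h : ContDiff ℝ ∞ fun z : ℂ => (2 : ℝ) ^ n • (z - TopologicalSpace.denseSeq ℂ j) :=
    (contDiff_id.sub contDiff_const).const_smul _
  exact b1.contDiff.comp h

lemma prod_nonneg (X : Finset ℕ) (n : ℕ) (z : ℂ) :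
    0 ≤ ∏ j ∈ X, (1 - b1 ((2 : ℝ) ^ n • (z - TopologicalSpace.denseSeq ℂ j))) :=
  Finset.prod_nonneg fun _ _ => sub_nonneg.2 b1.le_one

lemma prod_le_one (X : Finset ℕ) (n : ℕ) (z : ℂ) :
    ∏ j ∈ X, (1 - b1 ((2 : ℝ) ^ n • (z - TopologicalSpace.denseSeq ℂ j))) ≤ 1 :=
  Finset.prod_le_one (fun _ _ => sub_nonneg.2 b1.le_one)
    (fun _ _ => sub_le_self _ b1.nonneg)

lemma tf_nonneg (X : Finset ℕ) (n : ℕ) (z : ℂ) : 0 ≤ tf X n z :=
  sub_nonneg.2 (prod_le_one X n z)

lemma tf_le_one (X : Finset ℕ) (n : ℕ) (z : ℂ) : tf X n z ≤ 1 :=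
  sub_le_self _ (prod_nonneg X n z)

lemma tf_eq_one {X : Finset ℕ} {n : ℕ} {z : ℂ} {j : ℕ} (hj : j ∈ X)
    (h : dist z (TopologicalSpace.denseSeq ℂ j) ≤ (1 / 2) / 2 ^ n) : tf X n z = 1 := by
  unfold tf
  rw [Finset.prod_eq_zero hj, sub_zero]
  rw [sub_eq_zero]
  refine (b1.one_of_mem_closedBall ?_).symm
  rw [mem_closedBall_zero_iff, norm_smul, ← dist_eq_norm]
  show ‖(2 : ℝ) ^ n‖ * _ ≤ 1 / 2
  rw [Real.norm_eq_abs, abs_of_pos (by positivity)]
  rw [le_div_iff₀ (by positivity)] at h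
  linarith

lemma tf_eq_zero {X : Finset ℕ} {n : ℕ} {z : ℂ}
    (h : ∀ j ∈ X, 1 / 2 ^ n ≤ dist z (TopologicalSpace.denseSeq ℂ j)) : tf X n z = 0 := by
  unfold tf
  rw [Finset.prod_eq_one, sub_self]
  intro j hj
  rw [b1.zero_of_le_dist, sub_zero]
  rw [dist_zero_right, norm_smul, ← dist_eq_norm]
  show (1 : ℝ) ≤ ‖(2 : ℝ) ^ n‖ * _
  rw [Real.norm_eq_abs, abs_of_pos (by positivity)]
  have := h j hj
  rw [div_le_iff₀ (by positivity)] at this
  linarith

lemma prod_lip {L : NNReal} (hL : LipschitzWith L (fun z : ℂ => b1 z)) (X : Finset ℕ) (n : ℕ)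
    (z z' : ℂ) :
    |∏ j ∈ X, (1 - b1 ((2 : ℝ) ^ n • (z - TopologicalSpace.denseSeq ℂ j))) -
      ∏ j ∈ X, (1 - b1 ((2 : ℝ) ^ n • (z' - TopologicalSpace.denseSeq ℂ j)))| ≤
      X.card * (L * 2 ^ n) * dist z z' := by
  classical
  induction X using Finset.induction_on with
  | empty => simp
  | insert a X ha ih =>
    rw [Finset.prod_insert ha, Finset.prod_insert ha, Finset.card_insert_of_notMem ha]
    set p := ∏ j ∈ X, (1 - b1 ((2 : ℝ) ^ n • (z - TopologicalSpace.denseSeq ℂ j))) with hp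
    set p' := ∏ j ∈ X, (1 - b1 ((2 : ℝ) ^ n • (z' - TopologicalSpace.denseSeq ℂ j))) with hp'
    set q := b1 ((2 : ℝ) ^ n • (z - TopologicalSpace.denseSeq ℂ a)) with hq
    set q' := b1 ((2 : ℝ) ^ n • (z' - TopologicalSpace.denseSeq ℂ a)) with hq'
    have h1 : |q - q'| ≤ L * 2 ^ n * dist z z' := by
      have := hL.dist_le_mul ((2 : ℝ) ^ n • (z - TopologicalSpace.denseSeq ℂ a))
        ((2 : ℝ) ^ n • (z' - TopologicalSpace.denseSeq ℂ a))
      rw [Real.dist_eq, dist_smul₀, dist_sub_right, Real.norm_eq_abs,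
        abs_of_pos (by positivity : (0 : ℝ) < 2 ^ n)] at this
      rw [mul_assoc]; exact this
    have h2 : 0 ≤ 1 - q := sub_nonneg.2 b1.le_one
    have h3 : 1 - q ≤ 1 := sub_le_self _ b1.nonneg
    have h4 : 0 ≤ p' := prod_nonneg X n z'
    have h5 : p' ≤ 1 := prod_le_one X n z'
    have e : (1 - q) * p - (1 - q') * p' = (1 - q) * (p - p') + (q' - q) * p' := by ring
    rw [e]
    calc |(1 - q) * (p - p') + (q' - q) * p'| ≤ |(1 - q) * (p - p')| + |(q' - q) * p'| :=
          abs_add_le _ _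
      _ = (1 - q) * |p - p'| + |q - q'| * p' := by
          rw [abs_mul, abs_mul, abs_of_nonneg h2, abs_of_nonneg h4, abs_sub_comm q' q]
      _ ≤ 1 * |p - p'| + |q - q'| * 1 := by
          gcongr
      _ ≤ X.card * (L * 2 ^ n) * dist z z' + L * 2 ^ n * dist z z' := by
          rw [one_mul, mul_one]; exact add_le_add ih h1
      _ = _ := by push_cast; ring

lemma tf_fderiv {L : NNReal} (hL : LipschitzWith L (fun z : ℂ => b1 z)) (X : Finset ℕ) (n : ℕ)
    (z : ℂ) : ‖fderiv ℝ (tf X n) z‖ ≤ X.card * (L * 2 ^ n) := by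
  have h : LipschitzWith (X.card * (L * 2 ^ n)) (tf X n) := by
    refine LipschitzWith.of_dist_le_mul fun z z' => ?_
    unfold tf
    rw [Real.dist_eq, sub_sub_sub_cancel_left, abs_sub_comm]
    exact_mod_cast prod_lip hL X n z z'
  have := norm_fderiv_le_of_lipschitz ℝ h (x₀ := z)
  exact_mod_cast this

/-! ### elementary facts on the current -/

section facts

variable {μ β : ℂ × ℂ → ℂ} {κ L R C c : ℝ} {m : Measure (ℂ × ℂ)} {A : ℂ × ℂ → ℂ × ℂ}

lemma norm_le_half (hC : Cyl μ β R m A C c) {x : ℂ × ℂ} (hx : x ∈ msupp m) :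
    ‖x.2‖ ≤ 1 / 2 := by
  by_contra h
  push Not at h
  have h1 := hx (‖x.2‖ - 1 / 2) (by linarith)
  have h2 : m (ball x (‖x.2‖ - 1 / 2)) = 0 := by
    rw [← nonpos_iff_eq_zero, ← (ae_iff.1 hC.carr)]
    refine measure_mono fun y hy => ?_
    rw [mem_setOf_eq]
    rintro ⟨-, h3⟩
    rw [mem_ball, Prod.dist_eq, max_lt_iff] at hy
    have h4 : ‖x.2‖ ≤ ‖y.2‖ + dist y.2 x.2 := by
      rw [dist_eq_norm]
      calc ‖x.2‖ = ‖y.2 - (y.2 - x.2)‖ := by congr 1; ring
        _ ≤ _ := norm_sub_le _ _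
    linarith [hy.2]
  exact h1.ne' h2

lemma norm_beta_le (hD : Coef μ β κ L) {x : ℂ × ℂ} (hx : ‖x‖ ≤ 1) : ‖β x‖ ≤ ‖β 0‖ + L := by
  have h := hD.lipβ x 0
  rw [sub_zero] at h
  calc ‖β x‖ = ‖(β x - β 0) + β 0‖ := by congr 1; ring
    _ ≤ ‖β x - β 0‖ + ‖β 0‖ := norm_add_le _ _
    _ ≤ L * ‖x‖ + ‖β 0‖ := by gcongr
    _ ≤ L * 1 + ‖β 0‖ := by have := hD.L0; gcongr
    _ = _ := by ring

lemma norm_sl_le (hD : Coef μ β κ L) {x : ℂ × ℂ} (hx : ‖x‖ ≤ 1) (v : ℂ) :
    ‖sl μ β A x v‖ ≤ (2 + (‖β 0‖ + L)) * (1 + ‖sp A x‖) * ‖v‖ := by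
  have h1 := norm_beta_le hD hx
  have h2 : ‖μ x‖ ≤ 1 := (hD.bμ x).trans hD.κ1.le
  have h3 := hD.L0
  unfold sl
  calc ‖sp A x * v + (sp A x * μ x - β x) * conj v‖
      ≤ ‖sp A x‖ * ‖v‖ + (‖sp A x‖ * ‖μ x‖ + ‖β x‖) * ‖v‖ := by
        refine (norm_add_le _ _).trans ?_
        rw [norm_mul, norm_mul, RCLike.norm_conj]
        gcongr
        refine (norm_sub_le _ _).trans ?_
        rw [norm_mul]
    _ ≤ ‖sp A x‖ * ‖v‖ + (‖sp A x‖ * 1 + (‖β 0‖ + L)) * ‖v‖ := by gcongr
    _ ≤ _ := by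
        have h4 : 0 ≤ ‖v‖ := norm_nonneg v
        have h5 : 0 ≤ ‖sp A x‖ := norm_nonneg _
        have h6 : 0 ≤ ‖β 0‖ + L := by positivity
        nlinarith [mul_nonneg h5 h4, mul_nonneg (mul_nonneg h6 h5) h4]

lemma ae_fib (hC : Cyl μ β R m A C c) {k : ℕ} {T : ℂ → Finset ℂ} (hT : Fib μ β R m A k T) :
    ∀ᵐ t : ℂ, t ∈ ball (0 : ℂ) R → (T t).card = k ∧ ∀ z ∈ T t, ‖z‖ ≤ 1 / 2 := by
  filter_upwards [hT.good] with t ht h
  obtain ⟨h1, h2, -⟩ := ht h
  refine ⟨h1, fun z hz => ?_⟩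
  have h3 : z ∈ Kf m t := by
    rw [← h2]; exact hz
  exact norm_le_half hC h3

lemma aem_sum {k : ℕ} {T : ℂ → Finset ℂ} (hT : Fib μ β R m A k T) {φ : ℂ → ℝ}
    (hφ : Continuous φ) (h0 : ∀ z, 0 ≤ φ z) :
    AEMeasurable (fun t => ∑ z ∈ T t, φ z) (volume.restrict (ball 0 R)) := by
  have h1 := (hT.dis (fun x => ENNReal.ofReal (φ x.2))
    (hφ.measurable.comp measurable_snd).ennreal_ofReal).1
  have h2 : (fun t => ∑ z ∈ T t, φ z) = fun t => (∑ z ∈ T t, ENNReal.ofReal (φ z)).toReal := by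
    funext t
    rw [← ENNReal.ofReal_sum_of_nonneg (fun z _ => h0 z), ENNReal.toReal_ofReal]
    exact Finset.sum_nonneg fun z _ => h0 z
  rw [h2]
  exact h1.ennreal_toReal

end facts

/-! ### the Morrey estimate for the symmetric functions -/

theorem sym_holder (h7 : ENER) (h8 : WEAKF) {μ β : ℂ × ℂ → ℂ} {κ L : ℝ} (hD : Coef μ β κ L) :
    ∃ G : ℝ → ℝ → ℕ → ℝ, (∀ C' b k, 0 < C' → 0 < b → 0 ≤ G C' b k) ∧
    ∀ (R : ℝ) (m : Measure (ℂ × ℂ)) (A : ℂ × ℂ → ℂ × ℂ) (C c : ℝ), Cyl μ β R m A C c →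
    ∀ (k : ℕ) (T : ℂ → Finset ℂ), Fib μ β R m A k T →
    ∀ C' b : ℝ, 0 < C' → 0 < b → b < 1 → (∀ t₀ ∈ ball (0 : ℂ) (R / 2), ∀ ρ : ℝ, 0 < ρ →
      ρ ≤ R / 2 → (m (ball t₀ ρ ×ˢ univ)).toReal ≤ C' * ρ ^ (2 * b)) →
    ∀ (φ : ℂ → ℝ) (D : ℝ), 0 ≤ D → ContDiff ℝ ∞ φ → (∀ z, 0 ≤ φ z) → (∀ z, φ z ≤ 1) →
      (∀ z, ‖fderiv ℝ φ z‖ ≤ D) →
    ∃ N : Set ℂ, volume N = 0 ∧ ∀ t ∈ ball (0 : ℂ) (R / 4) \ N,
      ∀ t' ∈ ball (0 : ℂ) (R / 4) \ N,
      |∑ z ∈ T t, φ z - ∑ z ∈ T t', φ z| ≤ G C' b k * D * dist t t' ^ b := by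
  obtain ⟨K, hK, h7⟩ := h7 μ β κ L hD
  set B : ℝ := 2 + (‖β 0‖ + L) with hB
  have hL0 := hD.L0
  have hB0 : 0 < B := by positivity
  refine ⟨fun C' b k => 8 / (Real.pi * b) * (B * k * (K * C' + Real.pi / 2)), ?_, ?_⟩
  · intro C' b k hC' hb
    positivity
  intro R m A C c hC k T hT C' b hC' hb hb1 hdec φ D hD0 hφ hφ0 hφ1 hφD
  obtain ⟨hen, henE⟩ := h7 R m A C c hC k T hT
  have hfib := ae_fib hC hT
  have hR := hC.R0
  have hen0 : ∀ t, 0 ≤ en A T t := fun t => Finset.sum_nonneg fun z _ => by positivity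
  set F : ℂ → ℝ := fun t => ∑ z ∈ T t, φ z with hFdef
  set g : ℂ → ℝ := fun t => D * B * k * Real.sqrt (2 * en A T t) with hgdef
  have hFm : AEMeasurable F (volume.restrict (ball 0 R)) := aem_sum hT hφ.continuous hφ0
  have hFi : IntegrableOn F (ball 0 R) := by
    have : IsFiniteMeasure ((volume : Measure ℂ).restrict (ball 0 R)) :=
      ⟨by rw [Measure.restrict_apply_univ]; exact measure_ball_lt_top⟩
    refine Integrable.of_bound hFm.aestronglyMeasurable (k : ℝ) ?_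
    rw [ae_restrict_iff' measurableSet_ball]
    filter_upwards [hfib] with t ht h
    rw [Real.norm_eq_abs, abs_of_nonneg (Finset.sum_nonneg fun z _ => hφ0 z)]
    calc ∑ z ∈ T t, φ z ≤ ∑ z ∈ T t, (1 : ℝ) := Finset.sum_le_sum fun z _ => hφ1 z
      _ = k := by rw [Finset.sum_const, (ht h).1]; simp
  have hgm : AEMeasurable g (volume.restrict (ball 0 R)) :=
    ((hen.aemeasurable.const_mul 2).sqrt).const_mul _
  have hg0 : ∀ t, 0 ≤ g t := fun t => by positivity
  -- pointwise bound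
  have hpt : ∀ᵐ t : ℂ, t ∈ ball (0 : ℂ) R → ∀ v : ℂ,
      |∑ z ∈ T t, fderiv ℝ φ z (sl μ β A (t, z) v)| ≤ ‖v‖ * g t := by
    filter_upwards [hfib] with t ht h v
    obtain ⟨h1, h2⟩ := ht h
    have hterm : ∀ z ∈ T t, |fderiv ℝ φ z (sl μ β A (t, z) v)| ≤
        D * B * Real.sqrt (2 * en A T t) * ‖v‖ := by
      intro z hz
      have hx : ‖((t, z) : ℂ × ℂ)‖ ≤ 1 := by
        rw [Prod.norm_def, max_le_iff]
        rw [mem_ball_zero_iff] at h
        exact ⟨h.le.trans hC.R1, (h2 z hz).trans (by norm_num)⟩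
      have h3 := norm_sl_le (A := A) hD hx v
      have h4 : 1 + ‖sp A (t, z)‖ ≤ Real.sqrt (2 * en A T t) := by
        apply Real.le_sqrt_of_sq_le
        have h5 : 1 + ‖sp A (t, z)‖ ^ 2 ≤ en A T t :=
          Finset.single_le_sum (f := fun z => 1 + ‖sp A (t, z)‖ ^ 2)
            (fun z _ => by positivity) hz
        nlinarith [sq_nonneg (1 - ‖sp A (t, z)‖)]
      calc |fderiv ℝ φ z (sl μ β A (t, z) v)| ≤ ‖fderiv ℝ φ z‖ * ‖sl μ β A (t, z) v‖ := by
            rw [← Real.norm_eq_abs]; exact ContinuousLinearMap.le_opNorm _ _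
        _ ≤ D * (B * (1 + ‖sp A (t, z)‖) * ‖v‖) := by
            gcongr
            exact hφD z
        _ ≤ D * (B * Real.sqrt (2 * en A T t) * ‖v‖) := by gcongr
        _ = _ := by ring
    calc |∑ z ∈ T t, fderiv ℝ φ z (sl μ β A (t, z) v)|
        ≤ ∑ z ∈ T t, |fderiv ℝ φ z (sl μ β A (t, z) v)| := Finset.abs_sum_le_sum_abs _ _
      _ ≤ ∑ z ∈ T t, D * B * Real.sqrt (2 * en A T t) * ‖v‖ := Finset.sum_le_sum hterm
      _ = ‖v‖ * g t := by
          rw [Finset.sum_const, h1, nsmul_eq_mul, hgdef]; ring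
  -- the weak gradient
  have hw : ∀ η : ℂ → ℝ, ContDiff ℝ ∞ η → HasCompactSupport η → tsupport η ⊆ ball 0 R →
      (∀ t, 0 ≤ η t) → ∀ v : ℂ, |∫ t, F t * fderiv ℝ η t v| ≤ ‖v‖ * ∫ t, η t * g t := by
    intro η h1 h2 h3 h4 v
    have hΦ : ContDiff ℝ ∞ (fun x : ℂ × ℂ => φ x.2) := hφ.comp contDiff_snd
    have h5 := h8 μ β κ L hD R m A C c hC k T hT (fun x => φ x.2) hΦ η h1 h2 h3 v
    have h6 : ∀ t z w : ℂ, fderiv ℝ (fun x : ℂ × ℂ => φ x.2) (t, z) (v, w) =
        fderiv ℝ φ z w := by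
      intro t z w
      have e1 : HasFDerivAt φ (fderiv ℝ φ z) z :=
        (hφ.differentiable (by simp)).differentiableAt.hasFDerivAt
      have e2 : HasFDerivAt (fun x : ℂ × ℂ => φ x.2)
          ((fderiv ℝ φ z).comp (ContinuousLinearMap.snd ℝ ℂ ℂ)) (t, z) :=
        HasFDerivAt.comp (t, z) (f := Prod.snd) e1 hasFDerivAt_snd
      rw [e2.fderiv]; rfl
    simp only [h6] at h5
    rw [h5, abs_neg]
    have hηgi : Integrable (fun t => ‖v‖ * (η t * g t)) := by
      have hgi : IntegrableOn g (ball 0 R) := by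
        have : IntegrableOn (fun t => D * B * k * (1 + 2 * en A T t)) (ball 0 R) := by
          refine Integrable.const_mul ?_ _
          exact (integrableOn_const measure_ball_lt_top.ne).add (hen.const_mul 2)
        refine Integrable.mono' this hgm.aestronglyMeasurable ?_
        refine Eventually.of_forall fun t => ?_
        rw [Real.norm_eq_abs, abs_of_nonneg (hg0 t)]
        have h7 : Real.sqrt (2 * en A T t) ≤ 1 + 2 * en A T t := by
          apply Real.sqrt_le_iff.2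
          have := hen0 t
          constructor
          · linarith
          · nlinarith
        exact mul_le_mul_of_nonneg_left h7 (by positivity)
      have h8 : Integrable (fun t => η t * g t) := by
        have e : (fun t => η t * g t) = (ball (0 : ℂ) R).indicator (fun t => η t * g t) := by
          funext t
          by_cases ht : t ∈ ball (0 : ℂ) R
          · rw [indicator_of_mem ht]
          · rw [indicator_of_notMem ht]
            have : η t = 0 := by
              by_contra hne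
              exact ht (h3 (subset_closure hne))
            rw [this, zero_mul]
        rw [e, integrable_indicator_iff measurableSet_ball]
        obtain ⟨M, hM⟩ := h2.exists_bound_of_continuous h1.continuous
        exact Integrable.bdd_mul hgi h1.continuous.aestronglyMeasurable
          (Eventually.of_forall hM)
      exact h8.const_mul _
    rw [← integral_const_mul]
    rw [← Real.norm_eq_abs]
    refine (norm_integral_le_integral_norm _).trans ?_
    refine integral_mono_of_nonneg (Eventually.of_forall fun t => norm_nonneg _) hηgi ?_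
    filter_upwards [hpt] with t ht
    by_cases hb' : t ∈ ball (0 : ℂ) R
    · rw [norm_mul, Real.norm_eq_abs, abs_of_nonneg (h4 t), Real.norm_eq_abs]
      calc η t * |∑ z ∈ T t, fderiv ℝ φ z (sl μ β A (t, z) v)| ≤ η t * (‖v‖ * g t) :=
            mul_le_mul_of_nonneg_left (ht hb' v) (h4 t)
        _ = _ := by ring
    · have : η t = 0 := by
        by_contra hne
        exact hb' (h3 (subset_closure hne))
      simp [this]
  -- the Morrey bound
  have hgC : ∀ t₀ ∈ ball (0 : ℂ) (R / 2), ∀ ρ : ℝ, 0 < ρ → ρ ≤ R / 2 →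
      ∫⁻ t in ball t₀ ρ, ENNReal.ofReal (g t) ≤
        ENNReal.ofReal (D * B * k * (K * C' + Real.pi / 2) * ρ ^ (1 + b)) := by
    intro t₀ ht₀ ρ hρ hρ'
    have hsub : ball t₀ ρ ⊆ ball (0 : ℂ) R := by
      intro t ht
      rw [mem_ball_zero_iff] at ht₀ ⊢
      rw [mem_ball, dist_eq_norm] at ht
      calc ‖t‖ = ‖(t - t₀) + t₀‖ := by congr 1; ring
        _ ≤ ‖t - t₀‖ + ‖t₀‖ := norm_add_le _ _
        _ < R := by linarith
    have h1 := henE (ball t₀ ρ) measurableSet_ball hsub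
    have h2 := hdec t₀ ht₀ ρ hρ hρ'
    have hlam : 0 < ρ ^ (1 - b) := Real.rpow_pos_of_pos hρ _
    have hi : IntegrableOn (fun t => D * B * k * (ρ ^ (1 - b) * en A T t +
        (1 / 2) * (ρ ^ (1 - b))⁻¹)) (ball t₀ ρ) := by
      refine Integrable.const_mul ?_ _
      exact ((hen.mono_set hsub).const_mul _).add (integrableOn_const measure_ball_lt_top.ne)
    calc ∫⁻ t in ball t₀ ρ, ENNReal.ofReal (g t)
        ≤ ∫⁻ t in ball t₀ ρ, ENNReal.ofReal (D * B * k * (ρ ^ (1 - b) * en A T t +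
            (1 / 2) * (ρ ^ (1 - b))⁻¹)) := by
          refine lintegral_mono fun t => ENNReal.ofReal_le_ofReal ?_
          refine mul_le_mul_of_nonneg_left ?_ (by positivity)
          apply Real.sqrt_le_iff.2
          have h3 := hen0 t
          constructor
          · positivity
          · have h4 : ρ ^ (1 - b) * (ρ ^ (1 - b))⁻¹ = 1 := mul_inv_cancel₀ hlam.ne'
            nlinarith [sq_nonneg (ρ ^ (1 - b) * en A T t - (1 / 2) * (ρ ^ (1 - b))⁻¹)]
      _ = ENNReal.ofReal (∫ t in ball t₀ ρ, D * B * k * (ρ ^ (1 - b) * en A T t +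
            (1 / 2) * (ρ ^ (1 - b))⁻¹)) := by
          rw [ofReal_integral_eq_lintegral_ofReal hi]
          refine Eventually.of_forall fun t => ?_
          have h3 := hen0 t
          show 0 ≤ D * B * k * (ρ ^ (1 - b) * en A T t + (1 / 2) * (ρ ^ (1 - b))⁻¹)
          positivity
      _ ≤ _ := by
          apply ENNReal.ofReal_le_ofReal
          rw [integral_const_mul, mul_assoc _ _ (ρ ^ (1 + b))]
          refine mul_le_mul_of_nonneg_left ?_ (by positivity)
          rw [integral_add ((hen.mono_set hsub).const_mul _)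
            (integrableOn_const measure_ball_lt_top.ne), integral_const_mul, setIntegral_const]
          have hvol : (volume.real (ball t₀ ρ)) = Real.pi * ρ ^ 2 := by
            rw [Measure.real, Complex.volume_ball]
            simp [ENNReal.toReal_mul, ENNReal.toReal_pow, ENNReal.toReal_ofReal hρ.le, mul_comm]
          rw [hvol, smul_eq_mul]
          have e1 : ρ ^ (1 - b) * ρ ^ (2 * b) = ρ ^ (1 + b) := by
            rw [← Real.rpow_add hρ]; congr 1; ring
          have e2 : ρ ^ 2 * (ρ ^ (1 - b))⁻¹ = ρ ^ (1 + b) := by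
            rw [← Real.rpow_neg hρ.le, ← Real.rpow_natCast, ← Real.rpow_add hρ]
            congr 1; push_cast; ring
          calc ρ ^ (1 - b) * (∫ t in ball t₀ ρ, en A T t) +
                Real.pi * ρ ^ 2 * (1 / 2 * (ρ ^ (1 - b))⁻¹)
              ≤ ρ ^ (1 - b) * (K * (C' * ρ ^ (2 * b))) +
                Real.pi * ρ ^ 2 * (1 / 2 * (ρ ^ (1 - b))⁻¹) := by
                gcongr
                exact h1.trans (by gcongr)
            _ = K * C' * (ρ ^ (1 - b) * ρ ^ (2 * b)) +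
                Real.pi / 2 * (ρ ^ 2 * (ρ ^ (1 - b))⁻¹) := by ring
            _ = _ := by rw [e1, e2]; ring
  obtain ⟨N, hN, hN'⟩ := morrey_ae hR hb (by positivity) hFi hgm hg0 hw hgC
  refine ⟨N, hN, fun t ht t' ht' => (hN' t ht t' ht').trans (le_of_eq ?_)⟩
  ring

/-! ### the theorem -/

theorem holda (h7 : ENER) (h8 : WEAKF) : HOLDA := by
  intro μ β κ L hD R m A C c hC k T hT C' b hC' hb hb1 hdec
  obtain ⟨G, hG0, hG⟩ := sym_holder h7 h8 hD
  obtain ⟨Lb, hLb⟩ := exists_lip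
  have hfib := ae_fib hC hT
  have hG1 := hG0 C' b k hC' hb
  -- the exceptional set
  have hN : ∀ q : Finset ℕ × ℕ, ∃ N : Set ℂ, volume N = 0 ∧
      ∀ t ∈ ball (0 : ℂ) (R / 4) \ N, ∀ t' ∈ ball (0 : ℂ) (R / 4) \ N,
      |∑ z ∈ T t, tf q.1 q.2 z - ∑ z ∈ T t', tf q.1 q.2 z| ≤
        G C' b k * (q.1.card * (Lb * 2 ^ q.2)) * dist t t' ^ b := by
    intro q
    exact hG R m A C c hC k T hT C' b hC' hb hb1 hdec (tf q.1 q.2) (q.1.card * (Lb * 2 ^ q.2))
      (by positivity) (tf_smooth _ _) (tf_nonneg _ _) (tf_le_one _ _) (tf_fderiv hLb _ _)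
  choose N hN0 hN using hN
  set N₀ : Set ℂ := (⋃ q, N q) ∪ {t | ¬ (t ∈ ball (0 : ℂ) R → (T t).card = k ∧
    ∀ z ∈ T t, ‖z‖ ≤ 1 / 2)} with hN₀
  have hN₀0 : volume N₀ = 0 := by
    rw [hN₀, measure_union_null_iff]
    exact ⟨measure_iUnion_null hN0, hfib⟩
  set K : ℝ := G C' b k * (k * Lb) + 1 with hK
  have hK0 : 0 < K := by positivity
  refine ⟨4 * K, by positivity, N₀, hN₀0, ?_⟩
  rintro t ⟨ht, htN⟩ t' ⟨ht', htN'⟩
  have hR := hC.R0
  have hgt : (T t).card = k ∧ ∀ z ∈ T t, ‖z‖ ≤ 1 / 2 := by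
    by_contra h
    exact htN (Or.inr fun h' => h (h' (ball_subset_ball (by linarith) ht)))
  have hgt' : (T t').card = k ∧ ∀ z ∈ T t', ‖z‖ ≤ 1 / 2 := by
    by_contra h
    exact htN' (Or.inr fun h' => h (h' (ball_subset_ball (by linarith) ht')))
  rcases eq_or_ne t t' with rfl | hne
  · rw [dist_self, Real.zero_rpow hb.ne', mul_zero]
    exact Multiset.rel_refl_of_refl_on fun x _ => (dist_self x).le
  set r := dist t t' with hr
  have hr0 : 0 < r := dist_pos.2 hne
  have hrb : 0 < r ^ b := Real.rpow_pos_of_pos hr0 b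
  rcases le_or_gt 1 (K * r ^ b) with hbig | hsmall
  · -- trivial case
    refine close_of_hall (hgt.1.trans hgt'.1.symm) fun X hX => ?_
    rcases X.eq_empty_or_nonempty with rfl | ⟨x, hx⟩
    · simp
    have : (T t').filter (fun z' => ∃ x ∈ X, dist x z' ≤ 4 * K * r ^ b) = T t' := by
      refine Finset.filter_true_of_mem fun z' hz' => ⟨x, hx, ?_⟩
      have h1 := hgt.2 x (hX hx)
      have h2 := hgt'.2 z' hz'
      calc dist x z' ≤ ‖x‖ + ‖z'‖ := by rw [dist_eq_norm]; exact norm_sub_le _ _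
        _ ≤ 1 := by linarith
        _ ≤ 4 * K * r ^ b := by linarith
    rw [this, hgt'.1, ← hgt.1]
    exact Finset.card_le_card hX
  · -- the scale
    have hx1 : 1 ≤ (K * r ^ b)⁻¹ := (one_le_inv₀ (by positivity)).2 hsmall.le
    obtain ⟨n, hn1, hn2⟩ := exists_nat_pow_near hx1 (by norm_num : (1 : ℝ) < 2)
    have hn1' : K * r ^ b * 2 ^ n ≤ 1 := by
      rw [← mul_inv_cancel₀ (by positivity : K * r ^ b ≠ 0)]
      exact mul_le_mul_of_nonneg_left hn1 (by positivity)
    have hn2' : 1 < K * r ^ b * 2 ^ (n + 1) := by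
      rw [← mul_inv_cancel₀ (by positivity : K * r ^ b ≠ 0)]
      exact mul_lt_mul_of_pos_left hn2 (by positivity)
    have hscale : (3 / 2) / 2 ^ n ≤ 4 * K * r ^ b := by
      rw [div_le_iff₀ (by positivity)]
      rw [pow_succ] at hn2'
      linarith
    refine close_of_hall (hgt.1.trans hgt'.1.symm) fun X hX => ?_
    -- the approximating points
    have hap : ∀ x : ℂ, ∃ j : ℕ, dist x (TopologicalSpace.denseSeq ℂ j) < (1 / 2) / 2 ^ n := by
      intro x
      have hd := TopologicalSpace.denseRange_denseSeq ℂ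
      obtain ⟨j, hj⟩ := hd.exists_dist_lt x (ε := (1 / 2) / 2 ^ n) (by positivity)
      exact ⟨j, hj⟩
    choose i hi using hap
    set X' : Finset ℕ := X.image i with hX'
    have hcard : X'.card ≤ k := by
      refine Finset.card_image_le.trans ?_
      rw [← hgt.1]; exact Finset.card_le_card hX
    have hF := hN (X', n) t ⟨ht, fun h => htN (Or.inl (mem_iUnion.2 ⟨_, h⟩))⟩ t'
      ⟨ht', fun h => htN' (Or.inl (mem_iUnion.2 ⟨_, h⟩))⟩
    simp only at hF
    have hlt : |∑ z ∈ T t, tf X' n z - ∑ z ∈ T t', tf X' n z| < 1 := by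
      refine hF.trans_lt ?_
      have h1 : G C' b k * (X'.card * (Lb * 2 ^ n)) * dist t t' ^ b ≤
          G C' b k * (k * (Lb * 2 ^ n)) * dist t t' ^ b := by
        have : (X'.card : ℝ) ≤ k := by exact_mod_cast hcard
        gcongr
      refine h1.trans_lt ?_
      have h2 : G C' b k * (k * (Lb * 2 ^ n)) * dist t t' ^ b =
          (K - 1) * r ^ b * 2 ^ n := by rw [hK, hr]; ring
      rw [h2]
      have h3 : 0 < r ^ b * 2 ^ n := by positivity
      nlinarith
    have h1 : (X.card : ℝ) ≤ ∑ z ∈ T t, tf X' n z := by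
      calc (X.card : ℝ) = ∑ z ∈ X, (1 : ℝ) := by simp
        _ = ∑ z ∈ X, tf X' n z := by
            refine Finset.sum_congr rfl fun x hx => ?_
            exact (tf_eq_one (Finset.mem_image_of_mem i hx) (hi x).le).symm
        _ ≤ _ := Finset.sum_le_sum_of_subset_of_nonneg hX fun z _ _ => tf_nonneg _ _ _
    have h2 : ∑ z ∈ T t', tf X' n z ≤
        (((T t').filter (fun z' => ∃ x ∈ X, dist x z' ≤ 4 * K * r ^ b)).card : ℝ) := by
      rw [Finset.card_filter]
      push_cast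
      refine Finset.sum_le_sum fun z' hz' => ?_
      split_ifs with h
      · exact tf_le_one _ _ _
      · refine le_of_eq (tf_eq_zero ?_)
        intro j hj
        by_contra hlt'
        push Not at hlt' h
        rw [hX', Finset.mem_image] at hj
        obtain ⟨x, hx, rfl⟩ := hj
        have h3 := h x hx
        have h4 : dist x z' ≤ (3 / 2) / 2 ^ n := by
          calc dist x z' ≤ dist x (TopologicalSpace.denseSeq ℂ (i x)) +
                dist z' (TopologicalSpace.denseSeq ℂ (i x)) := dist_triangle_right _ _ _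
            _ ≤ (1 / 2) / 2 ^ n + 1 / 2 ^ n := add_le_add (hi x).le hlt'.le
            _ = _ := by ring
        linarith
    have h3 : (X.card : ℝ) <
        (((T t').filter (fun z' => ∃ x ∈ X, dist x z' ≤ 4 * K * r ^ b)).card : ℝ) + 1 := by
      have := (abs_lt.1 hlt).2
      linarith
    have h4 : X.card < ((T t').filter (fun z' => ∃ x ∈ X, dist x z' ≤ 4 * K * r ^ b)).card + 1 := by
      exact_mod_cast h3
    omega

end Crest.Agent.R235.Cyl_HOLDA_125
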