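import Crest.Agent.R235.HoleD_859

/-!
Row 235, REG-CYL C09 (HOLE), helper859: the circle inequality on almost every circle and its
integrated form for radial weights.
-/

set_option autoImplicit false

open MeasureTheory Metric Set Filter Complex
open scoped ContDiff Topology ComplexConjugate

namespace Crest.Agent.R235.HoleE_859

open HoleR_128 HoleD_859

noncomputable section

/-- finite sets of rational points. -/
def Yq (s : Finset (ℚ × ℚ)) : Finset ℂ := s.image fun a => (⟨(a.1 : ℝ), (a.2 : ℝ)⟩ : ℂ)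

theorem exists_rat (z : ℂ) (ε : ℝ) (hε : 0 < ε) :
    ∃ a : ℚ × ℚ, dist z (⟨(a.1 : ℝ), (a.2 : ℝ)⟩ : ℂ) ≤ ε := by
  obtain ⟨a, ha1, ha2⟩ := exists_rat_btwn (show z.re - ε / 2 < z.re by linarith)
  obtain ⟨b, hb1, hb2⟩ := exists_rat_btwn (show z.im - ε / 2 < z.im by linarith)
  refine ⟨(a, b), ?_⟩
  rw [dist_eq_norm]
  refine (Complex.norm_le_abs_re_add_abs_im _).trans ?_
  simp only [Complex.sub_re, Complex.sub_im]
  rw [abs_of_nonneg (by linarith), abs_of_nonneg (by linarith)]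
  linarith

/-- Cauchy-Schwarz. -/
theorem cs {ν : Measure ℝ} [IsFiniteMeasure ν] {V : ℝ} (hV : 0 < V) (hν : ν.real univ = V)
    {f : ℝ → ℝ} (hf : Integrable f ν) (hf2 : Integrable (fun x => f x ^ 2) ν) :
    (∫ x, f x ∂ν) ^ 2 ≤ V * ∫ x, f x ^ 2 ∂ν := by
  set c : ℝ := (∫ x, f x ∂ν) / V with hc
  have h1 : 0 ≤ ∫ x, (f x - c) ^ 2 ∂ν := integral_nonneg fun x => sq_nonneg _
  have h2 : ∫ x, (f x - c) ^ 2 ∂ν = (∫ x, f x ^ 2 ∂ν) - 2 * c * (∫ x, f x ∂ν) + c ^ 2 * V := by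
    have e : ∀ x, (f x - c) ^ 2 = f x ^ 2 - 2 * c * f x + c ^ 2 := fun x => by ring
    simp only [e]
    have i1 : Integrable (fun x => f x ^ 2 - 2 * c * f x) ν := hf2.sub (hf.const_mul _)
    rw [integral_add i1 (integrable_const _),
      integral_sub hf2 (hf.const_mul _), integral_const_mul, integral_const, hν, smul_eq_mul]
    ring
  rw [h2] at h1
  have h3 : c * V = ∫ x, f x ∂ν := by
    rw [hc]
    field_simp
  have h4 := mul_nonneg hV.le h1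
  have h5 : V * ((∫ x, f x ^ 2 ∂ν) - 2 * c * (∫ x, f x ∂ν) + c ^ 2 * V) =
      V * (∫ x, f x ^ 2 ∂ν) - 2 * (c * V) * (∫ x, f x ∂ν) + (c * V) ^ 2 := by ring
  rw [h5, h3] at h4
  nlinarith

section

variable {t₀ : ℂ} {P : ℝ} {k : ℕ} {T : ℂ → Finset ℂ} {p q : ℂ × ℂ → ℂ}

/-- the circle inequality on almost every circle. -/
theorem circ_ae {C : ℝ} (hC0 : 0 ≤ C)
    (hC : ∀ Y : Finset ℂ, Y.Nonempty → Y.card ≤ k → ∃ Ψ : ℂ → ℝ, ContDiff ℝ ∞ Ψ ∧
      ∀ z w : ℂ, |(conj z * w).im - fderiv ℝ Ψ z w| ≤ C * infDist z (Y : Set ℂ) * ‖w‖)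
    (D : PD t₀ P k T p q) :
    ∀ᵐ t ∂(volume.restrict (ball t₀ P)),
      |∫ τ in Ioc (0 : ℝ) (2 * Real.pi), FS T (bb t₀ p q) (rot t₀ τ t)| ≤
        C * √k * (∫ τ in Ioc (0 : ℝ) (2 * Real.pi), FS T (nn t₀ p q) (rot t₀ τ t)) ^ 2 := by
  classical
  rcases Nat.eq_zero_or_pos k with hk | hk
  · filter_upwards [ae_rot D.card] with t ht
    have : ∫ τ in Ioc (0 : ℝ) (2 * Real.pi), FS T (bb t₀ p q) (rot t₀ τ t) = 0 := by
      rw [integral_eq_zero_of_ae]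
      filter_upwards [ht] with τ hτ
      have h1 : T (rot t₀ τ t) = ∅ := by
        rw [← Finset.card_eq_zero, hτ.1, hk]
      simp [FS, h1]
    rw [this, abs_zero]
    positivity
  have hΦ : ∀ (s : Finset (ℚ × ℚ)) (m : ℕ), ∃ Φ : ℂ → ℝ, (Yq s).Nonempty →
      ContDiff ℝ ∞ Φ ∧ (∀ z, 0 ≤ Φ z) ∧ (∀ z w, |fderiv ℝ Φ z w| ≤ ‖w‖) ∧
      (∀ z, infDist z (Yq s : Set ℂ) ≤ √((Yq s).card) * Φ z) ∧
      ∀ z, ∀ y ∈ Yq s, Φ z ≤ 1 / ((m : ℝ) + 1) + dist z y := by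
    intro s m
    by_cases h : (Yq s).Nonempty
    · obtain ⟨Φ, h1⟩ := HoleB_859.exists_dist (Yq s) h (1 / ((m : ℝ) + 1)) (by positivity)
      exact ⟨Φ, fun _ => h1⟩
    · exact ⟨fun _ => 0, fun h' => absurd h' h⟩
  choose Φ hΦ using hΦ
  have hΨ : ∀ s : Finset (ℚ × ℚ), ∃ Ψ : ℂ → ℝ, ((Yq s).Nonempty ∧ (Yq s).card ≤ k) →
      ContDiff ℝ ∞ Ψ ∧ ∀ z w : ℂ, |(conj z * w).im - fderiv ℝ Ψ z w| ≤
        C * infDist z (Yq s : Set ℂ) * ‖w‖ := by
    intro s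
    by_cases h : (Yq s).Nonempty ∧ (Yq s).card ≤ k
    · obtain ⟨Ψ, h1⟩ := hC (Yq s) h.1 h.2
      exact ⟨Ψ, fun _ => h1⟩
    · exact ⟨fun _ => 0, fun h' => absurd h' h⟩
  choose Ψ hΨ using hΨ
  have A1 : ∀ᵐ t ∂(volume.restrict (ball t₀ P)), ∀ s m, (Yq s).Nonempty →
      IntegrableOn (fun σ : ℝ => FS T (gg t₀ p q (Φ s m)) (rot t₀ σ t)) (Ioc 0 (2 * Real.pi)) ∧
      ∀ᵐ τ ∂(volume.restrict (Ioc (0 : ℝ) (2 * Real.pi))),
        FS T (fun x => Φ s m x.2) (rot t₀ τ t) - FS T (fun x => Φ s m x.2) t =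
          ∫ σ in Ioc (0 : ℝ) τ, FS T (gg t₀ p q (Φ s m)) (rot t₀ σ t) := by
    rw [ae_all_iff]
    intro s
    rw [ae_all_iff]
    intro m
    by_cases h : (Yq s).Nonempty
    · have h1 := (hΦ s m h).1
      filter_upwards [rot_weak (int_phi D h1) (int_gg D h1) (weak_rot D h1)] with t ht _
      exact ⟨ht.1, ht.2.2⟩
    · exact ae_of_all _ fun t h' => absurd h' h
  have A2 : ∀ᵐ t ∂(volume.restrict (ball t₀ P)), ∀ s, ((Yq s).Nonempty ∧ (Yq s).card ≤ k) →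
      IntegrableOn (fun σ : ℝ => FS T (gg t₀ p q (Ψ s)) (rot t₀ σ t)) (Ioc 0 (2 * Real.pi)) ∧
      ∫ σ in Ioc (0 : ℝ) (2 * Real.pi), FS T (gg t₀ p q (Ψ s)) (rot t₀ σ t) = 0 := by
    rw [ae_all_iff]
    intro s
    by_cases h : (Yq s).Nonempty ∧ (Yq s).card ≤ k
    · have h1 := (hΨ s h).1
      filter_upwards [rot_weak (int_phi D h1) (int_gg D h1) (weak_rot D h1)] with t ht _
      exact ⟨ht.1, ht.2.1⟩
    · exact ae_of_all _ fun t h' => absurd h' h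
  filter_upwards [A1, A2, (int_rot (int_nn D)).1, D.card] with t h1 h2 h3 h4
  refine HoleC_859.circle_ineq (k := k) hC0 (fun τ => T (rot t₀ τ t))
    (fun τ z => sv p q (rot t₀ τ t, z) (X t₀ (rot t₀ τ t))) (T t) h4.1 h3 ?_
  intro ε hε
  choose a ha using fun z => exists_rat z ε hε
  set s : Finset (ℚ × ℚ) := (T t).image a with hs
  obtain ⟨m, hm⟩ := exists_nat_one_div_lt hε
  have hTne : (T t).Nonempty := by
    rw [← Finset.card_pos, h4.1]
    exact hk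
  have hne : (Yq s).Nonempty := (hTne.image a).image _
  have hcard : (Yq s).card ≤ k := by
    calc (Yq s).card ≤ s.card := Finset.card_image_le
      _ ≤ (T t).card := Finset.card_image_le
      _ = k := h4.1
  obtain ⟨hφ1, hφ2, hφ3, hφ4, hφ5⟩ := hΦ s m hne
  refine ⟨Yq s, Φ s m, Ψ s, ?_, hφ2, ?_, ?_, (hΨ s ⟨hne, hcard⟩).2, ?_, (h2 s ⟨hne, hcard⟩).1,
    (h2 s ⟨hne, hcard⟩).2⟩
  · intro z hz
    exact ⟨_, Finset.mem_image_of_mem _ (Finset.mem_image_of_mem a hz), ha z⟩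
  · intro z
    refine (hφ4 z).trans (mul_le_mul_of_nonneg_right ?_ (hφ2 z))
    exact Real.sqrt_le_sqrt (by exact_mod_cast hcard)
  · intro z y hy
    exact (hφ5 z y hy).trans (by linarith)
  · obtain ⟨h5, h6⟩ := h1 s m hne
    filter_upwards [h6, ae_restrict_mem measurableSet_Ioc] with τ h7 h8
    have h9 : ∫ σ in Ioc (0 : ℝ) τ, FS T (gg t₀ p q (Φ s m)) (rot t₀ σ t) ≤
        ∫ σ in Ioc (0 : ℝ) τ, FS T (nn t₀ p q) (rot t₀ σ t) := by
      have hsub : Ioc (0 : ℝ) τ ⊆ Ioc 0 (2 * Real.pi) := Ioc_subset_Ioc_right h8.2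
      refine integral_mono (h5.mono_set hsub) (h3.mono_set hsub) fun σ => ?_
      unfold FS
      refine Finset.sum_le_sum fun z _ => ?_
      exact (le_abs_self _).trans (hφ3 z _)
    have h10 : ∫ σ in Ioc (0 : ℝ) τ, FS T (nn t₀ p q) (rot t₀ σ t) ≤
        ∫ σ in Ioc (0 : ℝ) (2 * Real.pi), FS T (nn t₀ p q) (rot t₀ σ t) := by
      refine setIntegral_mono_set h3 (ae_of_all _ fun σ => ?_)
        (Ioc_subset_Ioc_right h8.2).eventuallyLE
      exact Finset.sum_nonneg fun z _ => norm_nonneg _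
    have h11 : FS T (fun x => Φ s m x.2) (rot t₀ τ t) ≤ FS T (fun x => Φ s m x.2) t +
        ∫ σ in Ioc (0 : ℝ) (2 * Real.pi), FS T (nn t₀ p q) (rot t₀ σ t) := by
      linarith
    exact h11

theorem nn_sq_le (D : PD t₀ P k T p q) : ∀ᵐ t ∂(volume.restrict (ball t₀ P)),
    FS T (nn t₀ p q) t ^ 2 ≤ k * (‖t - t₀‖ ^ 2 * FS T (ee p q) t) := by
  filter_upwards [D.card] with t ht
  unfold FS
  calc (∑ z ∈ T t, nn t₀ p q (t, z)) ^ 2
      ≤ (T t).card * ∑ z ∈ T t, nn t₀ p q (t, z) ^ 2 := sq_sum_le_card_mul_sum_sq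
    _ ≤ k * ∑ z ∈ T t, ‖t - t₀‖ ^ 2 * ee p q (t, z) := by
        rw [ht.1]
        gcongr with z hz
        unfold nn
        refine (sv_sq_le _ _ _ _).trans ?_
        have h1 : ‖X t₀ t‖ = ‖t - t₀‖ := by
          unfold X
          rw [norm_mul, Complex.norm_I, one_mul]
        rw [h1]
        unfold ee
        refine mul_le_mul_of_nonneg_left ?_ (by positivity)
        linarith
    _ = k * (‖t - t₀‖ ^ 2 * ∑ z ∈ T t, ee p q (t, z)) := by
        congr 1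
        rw [Finset.mul_sum]

/-- **the planar inequality**. -/
theorem main_ineq {C : ℝ} (hC0 : 0 ≤ C)
    (hC : ∀ Y : Finset ℂ, Y.Nonempty → Y.card ≤ k → ∃ Ψ : ℂ → ℝ, ContDiff ℝ ∞ Ψ ∧
      ∀ z w : ℂ, |(conj z * w).im - fderiv ℝ Ψ z w| ≤ C * infDist z (Y : Set ℂ) * ‖w‖)
    (D : PD t₀ P k T p q) (h : ℂ → ℝ) (hc : Continuous h) (M : ℝ) (hM : ∀ t, |h t| ≤ M)
    (hrad : ∀ τ t, h (rot t₀ τ t) = h t) :
    |∫ t in ball t₀ P, h t * FS T (bb t₀ p q) t| ≤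
      2 * Real.pi * C * √k * k * ∫ t in ball t₀ P, |h t| * (‖t - t₀‖ ^ 2 * FS T (ee p q) t) := by
  set E2 : ℂ → ℝ := fun t => ‖t - t₀‖ ^ 2 * FS T (ee p q) t with hE2
  have hpi := Real.pi_pos
  have hE2i : IntegrableOn E2 (ball t₀ P) := by
    refine Integrable.bdd_mul (c := P ^ 2) D.en ?_ ?_
    · exact (by fun_prop : Continuous fun t : ℂ => ‖t - t₀‖ ^ 2).aestronglyMeasurable
    · filter_upwards [ae_restrict_mem measurableSet_ball] with t ht
      rw [norm_pow, norm_norm]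
      rw [mem_ball, dist_eq_norm] at ht
      exact pow_le_pow_left₀ (norm_nonneg _) ht.le 2
  have hm : IntegrableOn (fun t => |h t| * E2 t) (ball t₀ P) := by
    refine Integrable.bdd_mul (c := M) hE2i hc.abs.aestronglyMeasurable (ae_of_all _ fun t => ?_)
    rw [Real.norm_eq_abs, abs_abs]
    exact hM t
  have hhb : IntegrableOn (fun t => h t * FS T (bb t₀ p q) t) (ball t₀ P) := by
    refine Integrable.bdd_mul (c := M) (int_bb D) hc.aestronglyMeasurable (ae_of_all _ fun t => ?_)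
    rw [Real.norm_eq_abs]
    exact hM t
  obtain ⟨a1, a2, a3⟩ := int_rot hhb
  obtain ⟨b1, b2, b3⟩ := int_rot hm
  have hnorm : ∀ τ t, ‖rot t₀ τ t - t₀‖ = ‖t - t₀‖ := by
    intro τ t
    unfold rot
    rw [add_sub_cancel_left, norm_mul, Complex.norm_exp_ofReal_mul_I, one_mul]
  -- the bound on almost every circle
  have key : ∀ᵐ t ∂(volume.restrict (ball t₀ P)),
      ‖∫ τ in Ioc (0 : ℝ) (2 * Real.pi), h (rot t₀ τ t) * FS T (bb t₀ p q) (rot t₀ τ t)‖ ≤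
        (2 * Real.pi * C * √k * k) *
          ∫ τ in Ioc (0 : ℝ) (2 * Real.pi), |h (rot t₀ τ t)| * E2 (rot t₀ τ t) := by
    filter_upwards [circ_ae hC0 hC D, (int_rot (int_nn D)).1, (int_rot hE2i).1,
      ae_rot (nn_sq_le D)] with t h1 h2 h3 h4
    simp only [hrad]
    rw [integral_const_mul, integral_const_mul, norm_mul, Real.norm_eq_abs, Real.norm_eq_abs]
    have hn2 : Integrable (fun τ => FS T (nn t₀ p q) (rot t₀ τ t) ^ 2)
        (volume.restrict (Ioc (0 : ℝ) (2 * Real.pi))) := by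
      refine Integrable.mono' (h3.const_mul (k : ℝ)) (h2.aestronglyMeasurable.pow 2) ?_
      filter_upwards [h4] with τ hτ
      rw [Real.norm_eq_abs, abs_of_nonneg (sq_nonneg _)]
      exact hτ
    have hvol : (volume.restrict (Ioc (0 : ℝ) (2 * Real.pi))).real univ = 2 * Real.pi := by
      rw [measureReal_restrict_apply_univ, Real.volume_real_Ioc_of_le (by positivity)]
      ring
    have h5 := cs (by positivity) hvol h2 hn2
    have h6 : ∫ τ in Ioc (0 : ℝ) (2 * Real.pi), FS T (nn t₀ p q) (rot t₀ τ t) ^ 2 ≤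
        k * ∫ τ in Ioc (0 : ℝ) (2 * Real.pi), E2 (rot t₀ τ t) := by
      rw [← integral_const_mul]
      exact integral_mono_ae hn2 (h3.const_mul (k : ℝ)) h4
    have h7 : |∫ τ in Ioc (0 : ℝ) (2 * Real.pi), FS T (bb t₀ p q) (rot t₀ τ t)| ≤
        C * √k * (2 * Real.pi * (k * ∫ τ in Ioc (0 : ℝ) (2 * Real.pi), E2 (rot t₀ τ t))) := by
      refine h1.trans (mul_le_mul_of_nonneg_left ?_ (by positivity))
      exact h5.trans (mul_le_mul_of_nonneg_left h6 (by positivity))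
    calc |h t| * |∫ τ in Ioc (0 : ℝ) (2 * Real.pi), FS T (bb t₀ p q) (rot t₀ τ t)|
        ≤ |h t| * (C * √k * (2 * Real.pi *
            (k * ∫ τ in Ioc (0 : ℝ) (2 * Real.pi), E2 (rot t₀ τ t)))) :=
          mul_le_mul_of_nonneg_left h7 (abs_nonneg _)
      _ = _ := by ring
  have h8 := norm_integral_le_of_norm_le (b2.const_mul (2 * Real.pi * C * √k * k)) key
  rw [a3, integral_const_mul, b3, norm_mul, Real.norm_eq_abs, Real.norm_eq_abs,
    abs_of_pos (by positivity : 0 < 2 * Real.pi)] at h8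
  have h9 : 2 * Real.pi * |∫ t in ball t₀ P, h t * FS T (bb t₀ p q) t| ≤
      2 * Real.pi * (2 * Real.pi * C * √k * k * ∫ t in ball t₀ P, |h t| * E2 t) := by
    calc _ ≤ _ := h8
      _ = _ := by ring
  exact le_of_mul_le_mul_left h9 (by positivity)

end

end

end Crest.Agent.R235.HoleE_859
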