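import Crest.Agent.R235.CylDef_522
import Crest.Agent.R235.HoleE_859

/-!
Row 235, REG-CYL C09 (helper859): hole filling, `ENER → WEAKF → STK → HOLE`.
-/

set_option autoImplicit false

open MeasureTheory Metric Set Filter Complex
open scoped ContDiff Topology ComplexConjugate

namespace Crest.Agent.R235.CylHole_859

open Crest.Agent.R235.Cyl_522 HoleD_859 HoleE_859 HoleR_128

noncomputable section

/-! ### the cut-off -/

/-- derivative of the smooth transition is bounded and vanishes outside `(0,1)`. -/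
theorem exists_st : ∃ M : ℝ, 0 < M ∧ (∀ x, |deriv Real.smoothTransition x| ≤ M) ∧
    ∀ x, x ≤ 0 ∨ 1 ≤ x → deriv Real.smoothTransition x = 0 := by
  have h0 : ∀ x, x ≤ 0 ∨ 1 ≤ x → deriv Real.smoothTransition x = 0 := by
    rintro x (hx | hx)
    · have : IsLocalMin Real.smoothTransition x := by
        refine Eventually.of_forall fun y => ?_
        rw [Real.smoothTransition.zero_of_nonpos hx]
        exact Real.smoothTransition.nonneg y
      exact this.deriv_eq_zero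
    · have : IsLocalMax Real.smoothTransition x := by
        refine Eventually.of_forall fun y => ?_
        rw [Real.smoothTransition.one_of_one_le hx]
        exact Real.smoothTransition.le_one y
      exact this.deriv_eq_zero
  have hc : Continuous (deriv Real.smoothTransition) :=
    (Real.smoothTransition.contDiff (n := 1)).continuous_deriv le_rfl
  obtain ⟨M, hM⟩ := (isCompact_Icc (a := (0 : ℝ)) (b := 1)).exists_bound_of_continuousOn
    hc.continuousOn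
  refine ⟨max 1 M, lt_of_lt_of_le one_pos (le_max_left _ _), fun x => ?_, h0⟩
  by_cases hx : x ≤ 0 ∨ 1 ≤ x
  · rw [h0 x hx, abs_zero]
    exact zero_le_one.trans (le_max_left _ _)
  · push Not at hx
    exact (hM x ⟨hx.1.le, hx.2.le⟩).trans (le_max_right _ _)

/-- the argument. -/
def arg (t₀ : ℂ) (ρ : ℝ) (t : ℂ) : ℝ := (‖t - t₀‖ ^ 2 - ρ ^ 2) / (3 * ρ ^ 2)

/-- the radial cut-off. -/
def eta (t₀ : ℂ) (ρ : ℝ) (t : ℂ) : ℝ := 1 - Real.smoothTransition (arg t₀ ρ t)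

/-- the radial weight. -/
def hw (t₀ : ℂ) (ρ : ℝ) (t : ℂ) : ℝ :=
  -(2 * deriv Real.smoothTransition (arg t₀ ρ t) / (3 * ρ ^ 2))

theorem arg_contDiff (t₀ : ℂ) (ρ : ℝ) : ContDiff ℝ ∞ (arg t₀ ρ) :=
  (((contDiff_id.sub contDiff_const).norm_sq ℝ).sub contDiff_const).div_const _

theorem eta_contDiff (t₀ : ℂ) (ρ : ℝ) : ContDiff ℝ ∞ (eta t₀ ρ) :=
  contDiff_const.sub (Real.smoothTransition.contDiff.comp (arg_contDiff t₀ ρ))

theorem arg_hasFDerivAt (t₀ : ℂ) (ρ : ℝ) (t : ℂ) :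
    HasFDerivAt (arg t₀ ρ) ((3 * ρ ^ 2)⁻¹ • ((2 : ℕ) • (innerSL ℝ (t - t₀)))) t := by
  have h := (((hasFDerivAt_id (𝕜 := ℝ) t).sub_const t₀).norm_sq).sub_const (ρ ^ 2)
  have h2 := h.const_mul ((3 * ρ ^ 2)⁻¹)
  have e : (fun y : ℂ => (3 * ρ ^ 2)⁻¹ * (‖id y - t₀‖ ^ 2 - ρ ^ 2)) = arg t₀ ρ := by
    funext y
    unfold arg
    simp only [id]
    ring
  rw [e] at h2
  refine h2.congr_fderiv ?_
  ext v
  simp

theorem eta_fderiv (t₀ : ℂ) (ρ : ℝ) (t v : ℂ) :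
    fderiv ℝ (eta t₀ ρ) t v = hw t₀ ρ t * ((t - t₀).re * v.re + (t - t₀).im * v.im) := by
  have h1 : HasDerivAt Real.smoothTransition (deriv Real.smoothTransition (arg t₀ ρ t))
      (arg t₀ ρ t) :=
    (((Real.smoothTransition.contDiff (n := 1)).differentiable (by simp)) _).hasDerivAt
  have h2 := (h1.comp_hasFDerivAt t (arg_hasFDerivAt t₀ ρ t)).const_sub 1
  have h3 : fderiv ℝ (eta t₀ ρ) t = _ := h2.fderiv
  rw [h3]
  have h4 : inner ℝ (t - t₀) v = (t - t₀).re * v.re + (t - t₀).im * v.im := by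
    rw [Complex.inner]
    simp [Complex.mul_re]
    ring
  simp only [neg_apply, smul_apply, innerSL_apply_apply, smul_eq_mul, nsmul_eq_mul]
  rw [h4]
  unfold hw
  push_cast
  ring

section

variable {t₀ : ℂ} {ρ : ℝ}

theorem arg_nonpos {t : ℂ} (h : ‖t - t₀‖ ≤ ρ) : arg t₀ ρ t ≤ 0 := by
  unfold arg
  have : ‖t - t₀‖ ^ 2 ≤ ρ ^ 2 := pow_le_pow_left₀ (norm_nonneg _) h 2
  exact div_nonpos_of_nonpos_of_nonneg (by linarith) (by positivity)

theorem one_le_arg (hρ : 0 < ρ) {t : ℂ} (h : 2 * ρ ≤ ‖t - t₀‖) : 1 ≤ arg t₀ ρ t := by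
  unfold arg
  rw [one_le_div (by positivity)]
  have : (2 * ρ) ^ 2 ≤ ‖t - t₀‖ ^ 2 := pow_le_pow_left₀ (by positivity) h 2
  nlinarith

theorem eta_one {t : ℂ} (h : ‖t - t₀‖ ≤ ρ) : eta t₀ ρ t = 1 := by
  unfold eta
  rw [Real.smoothTransition.zero_of_nonpos (arg_nonpos h), sub_zero]

theorem eta_zero (hρ : 0 < ρ) {t : ℂ} (h : 2 * ρ ≤ ‖t - t₀‖) : eta t₀ ρ t = 0 := by
  unfold eta
  rw [Real.smoothTransition.one_of_one_le (one_le_arg hρ h), sub_self]

theorem eta_nonneg (t : ℂ) : 0 ≤ eta t₀ ρ t := sub_nonneg.2 (Real.smoothTransition.le_one _)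

theorem eta_le_one (t : ℂ) : eta t₀ ρ t ≤ 1 := by
  unfold eta
  linarith [Real.smoothTransition.nonneg (arg t₀ ρ t)]

theorem tsupport_eta (hρ : 0 < ρ) : tsupport (eta t₀ ρ) ⊆ closedBall t₀ (2 * ρ) := by
  refine closure_minimal (fun t ht => ?_) isClosed_closedBall
  rw [mem_closedBall, dist_eq_norm]
  by_contra h
  push Not at h
  exact ht (eta_zero hρ h.le)

theorem compact_eta (hρ : 0 < ρ) : HasCompactSupport (eta t₀ ρ) :=
  HasCompactSupport.of_support_subset_isCompact (isCompact_closedBall t₀ (2 * ρ))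
    ((subset_tsupport _).trans (tsupport_eta hρ))

end

/-! ### the slope -/

variable {μ β : ℂ × ℂ → ℂ} {A : ℂ × ℂ → ℂ × ℂ}

/-- value of the slope at `1`. -/
def pp (μ β : ℂ × ℂ → ℂ) (A : ℂ × ℂ → ℂ × ℂ) (x : ℂ × ℂ) : ℂ := sl μ β A x 1

/-- value of the slope at `i`. -/
def qq (μ β : ℂ × ℂ → ℂ) (A : ℂ × ℂ → ℂ × ℂ) (x : ℂ × ℂ) : ℂ := sl μ β A x I

theorem meas_sl {κ L : ℝ} (hco : Coef μ β κ L) (hA : Measurable A) (v : ℂ) :
    Measurable fun x => sl μ β A x v := by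
  have h1 : Measurable (sp A) := hA.snd.div hA.fst
  have h2 : Measurable μ := hco.smμ.continuous.measurable
  have h3 : Measurable β := hco.smβ.continuous.measurable
  unfold sl
  exact (h1.mul_const _).add (((h1.mul h2).sub h3).mul_const _)

theorem norm_sl_le {κ L : ℝ} (hco : Coef μ β κ L) {x : ℂ × ℂ} (hx : ‖x‖ ≤ 1) {v : ℂ}
    (hv : ‖v‖ = 1) : ‖sl μ β A x v‖ ≤ 2 * ‖sp A x‖ + (‖β 0‖ + L) := by
  have h1 : ‖μ x‖ ≤ 1 := (hco.bμ x).trans hco.κ1.le
  have h2 : ‖β x‖ ≤ ‖β 0‖ + L := by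
    have h3 := hco.lipβ x 0
    have h4 : ‖β x‖ ≤ ‖β x - β 0‖ + ‖β 0‖ := by
      simpa using norm_add_le (β x - β 0) (β 0)
    have h5 : L * ‖x - 0‖ ≤ L := by
      rw [sub_zero]
      exact mul_le_of_le_one_right hco.L0 hx
    linarith
  unfold sl
  calc ‖sp A x * v + (sp A x * μ x - β x) * conj v‖
      ≤ ‖sp A x * v‖ + ‖(sp A x * μ x - β x) * conj v‖ := norm_add_le _ _
    _ = ‖sp A x‖ + ‖sp A x * μ x - β x‖ := by
        rw [norm_mul, norm_mul, Complex.norm_conj, hv, mul_one, mul_one]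
    _ ≤ ‖sp A x‖ + (‖sp A x‖ * ‖μ x‖ + ‖β x‖) := by
        gcongr
        refine (norm_sub_le _ _).trans ?_
        rw [norm_mul]
    _ ≤ ‖sp A x‖ + (‖sp A x‖ * 1 + (‖β 0‖ + L)) := by gcongr
    _ = _ := by ring

theorem ee_le {κ L : ℝ} (hco : Coef μ β κ L) {x : ℂ × ℂ} (hx : ‖x‖ ≤ 1) :
    ee (pp μ β A) (qq μ β A) x ≤ (17 + 4 * (‖β 0‖ + L) ^ 2) * (1 + ‖sp A x‖ ^ 2) := by
  have h1 := norm_sl_le (A := A) hco hx (v := 1) (by simp)
  have h2 := norm_sl_le (A := A) hco hx (v := I) (by simp)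
  have h3 : ‖pp μ β A x‖ ^ 2 ≤ (2 * ‖sp A x‖ + (‖β 0‖ + L)) ^ 2 :=
    pow_le_pow_left₀ (norm_nonneg _) h1 2
  have h4 : ‖qq μ β A x‖ ^ 2 ≤ (2 * ‖sp A x‖ + (‖β 0‖ + L)) ^ 2 :=
    pow_le_pow_left₀ (norm_nonneg _) h2 2
  have h5 : 0 ≤ ‖β 0‖ + L := add_nonneg (norm_nonneg _) hco.L0
  unfold ee
  set s := ‖sp A x‖
  set B := ‖β 0‖ + L
  nlinarith [sq_nonneg (2 * s - B), sq_nonneg (B * s), sq_nonneg s]

theorem sv_eq (x : ℂ × ℂ) (v : ℂ) : sv (pp μ β A) (qq μ β A) x v = sl μ β A x v := by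
  unfold sv pp qq sl
  simp only [map_one, Complex.conj_I, Complex.real_smul, mul_one]
  conv_rhs => rw [← Complex.re_add_im v]
  simp only [map_add, map_mul, Complex.conj_ofReal, Complex.conj_I]
  ring

section Main

variable {κ L R C c : ℝ} {m : Measure (ℂ × ℂ)} {k : ℕ} {T : ℂ → Finset ℂ}

theorem norm_le_half (hcyl : Cyl μ β R m A C c) {t z : ℂ} (h : (t, z) ∈ msupp m) : ‖z‖ ≤ 1 / 2 := by
  by_contra hz
  push Not at hz
  have h1 : m (ball (t, z) (‖z‖ - 1 / 2)) = 0 := by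
    have h2 : ∀ᵐ x ∂m, x ∉ ball (t, z) (‖z‖ - 1 / 2) := by
      filter_upwards [hcyl.carr] with x hx hxb
      rw [mem_ball, Prod.dist_eq, max_lt_iff] at hxb
      have h3 : dist x.2 z < ‖z‖ - 1 / 2 := hxb.2
      rw [dist_eq_norm, norm_sub_rev] at h3
      have h4 := norm_sub_norm_le z x.2
      linarith [hx.2]
    have := ae_iff.1 h2
    simp only [not_not, ofPred_mem_eq] at this
    exact this
  have h5 := h (‖z‖ - 1 / 2) (by linarith)
  rw [h1] at h5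
  exact lt_irrefl _ h5

theorem mk_PD (hco : Coef μ β κ L) (hcyl : Cyl μ β R m A C c) (hfib : Fib μ β R m A k T)
    (hen : IntegrableOn (en A T) (ball 0 R))
    (hw8 : ∀ (Φ : ℂ × ℂ → ℝ), ContDiff ℝ ∞ Φ → ∀ (η : ℂ → ℝ), ContDiff ℝ ∞ η →
      HasCompactSupport η → tsupport η ⊆ ball 0 R → ∀ v : ℂ,
      ∫ t, (∑ z ∈ T t, Φ (t, z)) * fderiv ℝ η t v =
      - ∫ t, η t * ∑ z ∈ T t, fderiv ℝ Φ (t, z) (v, sl μ β A (t, z) v))
    {t₀ : ℂ} (ht₀ : t₀ ∈ ball (0 : ℂ) (R / 2)) :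
    PD t₀ (R / 2) k T (pp μ β A) (qq μ β A) ∧
      ∀ᵐ t ∂(volume.restrict (ball t₀ (R / 2))),
        FS T (ee (pp μ β A) (qq μ β A)) t ≤ (17 + 4 * (‖β 0‖ + L) ^ 2) * en A T t := by
  have hsub : ball t₀ (R / 2) ⊆ ball (0 : ℂ) R := by
    refine ball_subset_ball' ?_
    rw [mem_ball] at ht₀
    linarith
  have hcard : ∀ᵐ t ∂(volume.restrict (ball t₀ (R / 2))),
      (T t).card = k ∧ ∀ z ∈ T t, ‖z‖ ≤ 1 / 2 := by
    filter_upwards [ae_restrict_of_ae hfib.good, ae_restrict_mem measurableSet_ball] with t h1 h2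
    obtain ⟨h3, h4, _⟩ := h1 (hsub h2)
    refine ⟨h3, fun z hz => norm_le_half (t := t) hcyl ?_⟩
    have : z ∈ (T t : Set ℂ) := hz
    rw [h4] at this
    exact this
  have hmeas : ∀ Φ : ℂ × ℂ → ENNReal, Measurable Φ →
      AEMeasurable (fun t => ∑ z ∈ T t, Φ (t, z)) (volume.restrict (ball t₀ (R / 2))) :=
    fun Φ hΦ => (hfib.dis Φ hΦ).1.mono_measure (Measure.restrict_mono hsub le_rfl)
  have hbd : ∀ᵐ t ∂(volume.restrict (ball t₀ (R / 2))),
      FS T (ee (pp μ β A) (qq μ β A)) t ≤ (17 + 4 * (‖β 0‖ + L) ^ 2) * en A T t := by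
    filter_upwards [hcard, ae_restrict_mem measurableSet_ball] with t h1 h2
    unfold FS en
    rw [Finset.mul_sum]
    refine Finset.sum_le_sum fun z hz => ee_le hco ?_
    rw [Prod.norm_def, max_le_iff]
    have h3 := hsub h2
    rw [mem_ball_zero_iff] at h3
    exact ⟨h3.le.trans hcyl.R1, (h1.2 z hz).trans (by norm_num)⟩
  have hmp := meas_sl hco hcyl.meas 1
  have hmq := meas_sl hco hcyl.meas I
  have hme : Measurable (ee (pp μ β A) (qq μ β A)) := by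
    unfold ee
    exact ((hmp.norm.pow_const 2).const_add 1).add (hmq.norm.pow_const 2)
  have hw : ∀ v : ℂ, ∀ φ : ℂ → ℝ, ContDiff ℝ ∞ φ → ∀ η : ℂ → ℝ, ContDiff ℝ ∞ η →
      HasCompactSupport η → tsupport η ⊆ ball t₀ (R / 2) →
      ∫ t, (∑ z ∈ T t, φ z) * fderiv ℝ η t v =
      - ∫ t, η t * ∑ z ∈ T t, fderiv ℝ φ z (sl μ β A (t, z) v) := by
    intro v φ hφ η hη hηc hηs
    have h1 := hw8 (fun x => φ x.2) (hφ.comp contDiff_snd) η hη hηc (hηs.trans hsub) v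
    have h2 : ∀ t z w, fderiv ℝ (fun x : ℂ × ℂ => φ x.2) (t, z) (v, w) = fderiv ℝ φ z w := by
      intro t z w
      have h3 : HasFDerivAt φ (fderiv ℝ φ z) ((t, z) : ℂ × ℂ).2 :=
        ((hφ.differentiable (by simp)) z).hasFDerivAt
      have h4 := h3.comp (t, z) (hasFDerivAt_snd (𝕜 := ℝ) (E := ℂ) (F := ℂ) (p := (t, z)))
      have h5 : fderiv ℝ (fun x : ℂ × ℂ => φ x.2) (t, z) =
          (fderiv ℝ φ z).comp (ContinuousLinearMap.snd ℝ ℂ ℂ) := h4.fderiv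
      rw [h5]
      rfl
    simp only [h2] at h1
    exact h1
  refine ⟨⟨hcard, hmp, hmq, hmeas, ?_, hw 1, hw I⟩, hbd⟩
  refine Integrable.mono' ((hen.mono_set hsub).const_mul (17 + 4 * (‖β 0‖ + L) ^ 2))
    (meas_FS' hmeas hme).aestronglyMeasurable ?_
  filter_upwards [hbd] with t ht
  rw [Real.norm_eq_abs, abs_of_nonneg]
  · exact ht
  · exact Finset.sum_nonneg fun z _ => zero_le_one.trans (ee_pos _ _ _)

/-- the hole filling inequality. -/
theorem step (hco : Coef μ β κ L) (hcyl : Cyl μ β R m A C c) (hfib : Fib μ β R m A k T)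
    (hen : IntegrableOn (en A T) (ball 0 R))
    (hw8 : ∀ (Φ : ℂ × ℂ → ℝ), ContDiff ℝ ∞ Φ → ∀ (η : ℂ → ℝ), ContDiff ℝ ∞ η →
      HasCompactSupport η → tsupport η ⊆ ball 0 R → ∀ v : ℂ,
      ∫ t, (∑ z ∈ T t, Φ (t, z)) * fderiv ℝ η t v =
      - ∫ t, η t * ∑ z ∈ T t, fderiv ℝ Φ (t, z) (v, sl μ β A (t, z) v))
    {K7 : ℝ} (h7 : ∀ E : Set ℂ, MeasurableSet E → E ⊆ ball 0 R →
      ∫ t in E, en A T t ≤ K7 * (m (E ×ˢ univ)).toReal)
    {K8 : ℝ} (hK8 : 0 < K8) (h8b : ∀ (η : ℂ → ℝ), ContDiff ℝ ∞ η → HasCompactSupport η →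
      tsupport η ⊆ ball 0 R → (∀ t, 0 ≤ η t) →
      ∫ x, η x.1 ∂m ≤ K8 * (k * ∫ t, η t) + K8 *
      |∫ t, ∑ z ∈ T t, (fderiv ℝ η t 1 * (conj z * sl μ β A (t, z) I).im -
        fderiv ℝ η t I * (conj z * sl μ β A (t, z) 1).im)|)
    {CA : ℝ} (hCA0 : 0 ≤ CA)
    (hCA : ∀ Y : Finset ℂ, Y.Nonempty → Y.card ≤ k → ∃ Ψ : ℂ → ℝ, ContDiff ℝ ∞ Ψ ∧
      ∀ z w : ℂ, |(conj z * w).im - fderiv ℝ Ψ z w| ≤ CA * infDist z (Y : Set ℂ) * ‖w‖)
    {M : ℝ} (hM0 : 0 < M) (hM : ∀ x, |deriv Real.smoothTransition x| ≤ M)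
    (hM' : ∀ x, x ≤ 0 ∨ 1 ≤ x → deriv Real.smoothTransition x = 0)
    {t₀ : ℂ} (ht₀ : t₀ ∈ ball (0 : ℂ) (R / 2)) {ρ : ℝ} (hρ : 0 < ρ) (hρR : ρ ≤ R / 2 / 2) :
    (m (ball t₀ ρ ×ˢ univ)).toReal ≤ (K8 * k * 4 * Real.pi) * ρ ^ 2 +
      (K8 * (2 * Real.pi * CA * √k * k) * (8 * M / 3) * (17 + 4 * (‖β 0‖ + L) ^ 2) * K7) *
        ((m (ball t₀ (2 * ρ) ×ˢ univ)).toReal - (m (ball t₀ ρ ×ˢ univ)).toReal) := by
  have hpi := Real.pi_pos
  have : IsFiniteMeasure m := ⟨hcyl.fin⟩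
  obtain ⟨D, hbd⟩ := mk_PD hco hcyl hfib hen hw8 ht₀
  have hR0 := hcyl.R0
  have hsub : ball t₀ (R / 2) ⊆ ball (0 : ℂ) R := by
    refine ball_subset_ball' ?_
    rw [mem_ball] at ht₀
    linarith
  have hclsub : closedBall t₀ (2 * ρ) ⊆ ball (0 : ℂ) R := by
    intro t ht
    rw [mem_closedBall] at ht
    rw [mem_ball] at ht₀ ⊢
    have := dist_triangle t t₀ 0
    linarith
  have h1 := h8b (eta t₀ ρ) (eta_contDiff t₀ ρ) (compact_eta hρ) ((tsupport_eta hρ).trans hclsub)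
    eta_nonneg
  -- the left side
  have hL : (m (ball t₀ ρ ×ˢ univ)).toReal ≤ ∫ x, eta t₀ ρ x.1 ∂m := by
    have hms : MeasurableSet (ball t₀ ρ ×ˢ (univ : Set ℂ)) := measurableSet_ball.prod .univ
    have hi : Integrable (fun x : ℂ × ℂ => eta t₀ ρ x.1) m := by
      refine Integrable.mono' (integrable_const (1 : ℝ))
        (((eta_contDiff t₀ ρ).continuous.comp continuous_fst).aestronglyMeasurable)
        (ae_of_all _ fun x => ?_)
      rw [Real.norm_eq_abs, abs_of_nonneg (eta_nonneg _)]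
      exact eta_le_one _
    calc (m (ball t₀ ρ ×ˢ univ)).toReal = ∫ x in ball t₀ ρ ×ˢ (univ : Set ℂ), (1 : ℝ) ∂m := by
          rw [setIntegral_const, smul_eq_mul, mul_one]
          rfl
      _ ≤ ∫ x in ball t₀ ρ ×ˢ (univ : Set ℂ), eta t₀ ρ x.1 ∂m := by
          refine setIntegral_mono_on (integrable_const _).integrableOn hi.integrableOn hms
            fun x hx => ?_
          have h2 := hx.1
          rw [mem_ball, dist_eq_norm] at h2
          rw [eta_one h2.le]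
      _ ≤ _ := setIntegral_le_integral hi (ae_of_all _ fun x => eta_nonneg _)
  -- the volume term
  have hV : ∫ t, eta t₀ ρ t ≤ 4 * Real.pi * ρ ^ 2 := by
    have h2 : ∫ t, eta t₀ ρ t = ∫ t in closedBall t₀ (2 * ρ), eta t₀ ρ t := by
      refine (setIntegral_eq_integral_of_forall_compl_eq_zero fun t ht => ?_).symm
      rw [mem_closedBall, dist_eq_norm] at ht
      push Not at ht
      exact eta_zero hρ ht.le
    rw [h2]
    have hfin : volume (closedBall t₀ (2 * ρ)) ≠ ⊤ := measure_closedBall_lt_top.ne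
    calc ∫ t in closedBall t₀ (2 * ρ), eta t₀ ρ t ≤ ∫ t in closedBall t₀ (2 * ρ), (1 : ℝ) := by
          refine setIntegral_mono ?_ ?_ eta_le_one
          · exact ((eta_contDiff t₀ ρ).continuous.integrable_of_hasCompactSupport
              (compact_eta hρ)).integrableOn
          · exact integrableOn_const hfin
      _ = volume.real (closedBall t₀ (2 * ρ)) := by
          rw [setIntegral_const, smul_eq_mul, mul_one]
      _ = 4 * Real.pi * ρ ^ 2 := by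
          rw [measureReal_def, Complex.volume_closedBall]
          simp only [ENNReal.toReal_mul, ENNReal.toReal_pow, ENNReal.coe_toReal,
            NNReal.coe_real_pi, ENNReal.toReal_ofReal (by positivity : (0 : ℝ) ≤ 2 * ρ)]
          ring
      _ ≤ _ := le_rfl
  -- the weight
  have hhc : Continuous (hw t₀ ρ) := by
    have hc : Continuous (deriv Real.smoothTransition) :=
      (Real.smoothTransition.contDiff (n := 1)).continuous_deriv le_rfl
    unfold hw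
    exact (((continuous_const.mul (hc.comp (arg_contDiff t₀ ρ).continuous)).div_const _)).neg
  have hhM : ∀ t, |hw t₀ ρ t| ≤ 2 * M / (3 * ρ ^ 2) := by
    intro t
    unfold hw
    rw [abs_neg, abs_div, abs_mul, abs_of_pos (by norm_num : (0 : ℝ) < 2),
      abs_of_pos (by positivity : 0 < 3 * ρ ^ 2)]
    gcongr
    exact hM _
  have hh0 : ∀ t, ‖t - t₀‖ ≤ ρ ∨ 2 * ρ ≤ ‖t - t₀‖ → hw t₀ ρ t = 0 := by
    intro t ht
    unfold hw
    rw [hM' _ (ht.imp arg_nonpos (one_le_arg hρ))]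
    simp
  have hhrad : ∀ τ t, hw t₀ ρ (rot t₀ τ t) = hw t₀ ρ t := by
    intro τ t
    unfold hw arg
    rw [norm_rot_sub]
  -- the boundary term
  have hB : ∫ t, ∑ z ∈ T t, (fderiv ℝ (eta t₀ ρ) t 1 * (conj z * sl μ β A (t, z) I).im -
        fderiv ℝ (eta t₀ ρ) t I * (conj z * sl μ β A (t, z) 1).im) =
      ∫ t in ball t₀ (R / 2), hw t₀ ρ t * FS T (bb t₀ (pp μ β A) (qq μ β A)) t := by
    have e1 : ∀ t, ∑ z ∈ T t, (fderiv ℝ (eta t₀ ρ) t 1 * (conj z * sl μ β A (t, z) I).im -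
        fderiv ℝ (eta t₀ ρ) t I * (conj z * sl μ β A (t, z) 1).im) =
        hw t₀ ρ t * FS T (bb t₀ (pp μ β A) (qq μ β A)) t := by
      intro t
      unfold FS
      rw [Finset.mul_sum]
      refine Finset.sum_congr rfl fun z _ => ?_
      rw [eta_fderiv, eta_fderiv]
      unfold bb sv X pp qq
      simp only [Complex.one_re, Complex.one_im, Complex.I_re, Complex.I_im, Complex.mul_re,
        Complex.mul_im, Complex.add_re, Complex.add_im, Complex.real_smul, Complex.ofReal_re,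
        Complex.ofReal_im, Complex.conj_re, Complex.conj_im, Complex.sub_re, Complex.sub_im]
      ring
    simp only [e1]
    refine (setIntegral_eq_integral_of_forall_compl_eq_zero fun t ht => ?_).symm
    rw [mem_ball, dist_eq_norm] at ht
    push Not at ht
    rw [hh0 t (Or.inr (by linarith)), zero_mul]
  have h2 := main_ineq hCA0 hCA D (hw t₀ ρ) hhc _ hhM hhrad
  rw [← hB] at h2
  -- the annulus
  set An : Set ℂ := ball t₀ (2 * ρ) \ ball t₀ ρ with hAn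
  have hAm : MeasurableSet An := measurableSet_ball.diff measurableSet_ball
  have hAsub : An ⊆ ball t₀ (R / 2) := sdiff_subset.trans (ball_subset_ball (by linarith))
  have h3 : ∫ t in ball t₀ (R / 2), |hw t₀ ρ t| *
        (‖t - t₀‖ ^ 2 * FS T (ee (pp μ β A) (qq μ β A)) t) ≤
      (8 * M / 3) * (17 + 4 * (‖β 0‖ + L) ^ 2) * (K7 * (m (An ×ˢ univ)).toReal) := by
    have e1 : ∫ t in ball t₀ (R / 2), |hw t₀ ρ t| *
        (‖t - t₀‖ ^ 2 * FS T (ee (pp μ β A) (qq μ β A)) t) =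
        ∫ t in An, |hw t₀ ρ t| * (‖t - t₀‖ ^ 2 * FS T (ee (pp μ β A) (qq μ β A)) t) := by
      refine (setIntegral_eq_of_subset_of_forall_sdiff_eq_zero measurableSet_ball hAsub
        fun t ht => ?_)
      have h4 : ‖t - t₀‖ ≤ ρ ∨ 2 * ρ ≤ ‖t - t₀‖ := by
        by_contra h5
        push Not at h5
        refine ht.2 ⟨?_, ?_⟩
        · rw [mem_ball, dist_eq_norm]; exact h5.2
        · rw [mem_ball, dist_eq_norm]; exact not_lt.2 h5.1.le
      rw [hh0 t h4, abs_zero, zero_mul]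
    rw [e1]
    have e2 : ∫ t in An, |hw t₀ ρ t| * (‖t - t₀‖ ^ 2 * FS T (ee (pp μ β A) (qq μ β A)) t) ≤
        ∫ t in An, (8 * M / 3) * ((17 + 4 * (‖β 0‖ + L) ^ 2) * en A T t) := by
      refine integral_mono_of_nonneg (ae_of_all _ fun t => ?_)
        (((hen.mono_set (hAsub.trans hsub)).const_mul _).const_mul _) ?_
      · have : 0 ≤ FS T (ee (pp μ β A) (qq μ β A)) t :=
          Finset.sum_nonneg fun z _ => zero_le_one.trans (ee_pos _ _ _)
        positivity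
      · filter_upwards [ae_restrict_of_ae_restrict_of_subset hAsub hbd,
          ae_restrict_mem hAm] with t h4 h5
        have h6 : 0 ≤ FS T (ee (pp μ β A) (qq μ β A)) t :=
          Finset.sum_nonneg fun z _ => zero_le_one.trans (ee_pos _ _ _)
        have h7 : ‖t - t₀‖ ≤ 2 * ρ := by
          have := h5.1
          rw [mem_ball, dist_eq_norm] at this
          exact this.le
        have h8 : |hw t₀ ρ t| * ‖t - t₀‖ ^ 2 ≤ 8 * M / 3 := by
          calc |hw t₀ ρ t| * ‖t - t₀‖ ^ 2 ≤ (2 * M / (3 * ρ ^ 2)) * (2 * ρ) ^ 2 := by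
                gcongr
                exact hhM t
            _ = 8 * M / 3 := by field_simp; ring
        calc |hw t₀ ρ t| * (‖t - t₀‖ ^ 2 * FS T (ee (pp μ β A) (qq μ β A)) t)
            = |hw t₀ ρ t| * ‖t - t₀‖ ^ 2 * FS T (ee (pp μ β A) (qq μ β A)) t := by ring
          _ ≤ (8 * M / 3) * ((17 + 4 * (‖β 0‖ + L) ^ 2) * en A T t) :=
            mul_le_mul h8 h4 h6 (by positivity)
    refine e2.trans ?_
    rw [integral_const_mul, integral_const_mul, ← mul_assoc]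
    exact mul_le_mul_of_nonneg_left (h7 An hAm (hAsub.trans hsub)) (by positivity)
  have hmA : (m (An ×ˢ univ)).toReal =
      (m (ball t₀ (2 * ρ) ×ˢ univ)).toReal - (m (ball t₀ ρ ×ˢ univ)).toReal := by
    have h4 : An ×ˢ (univ : Set ℂ) = (ball t₀ (2 * ρ) ×ˢ univ) \ (ball t₀ ρ ×ˢ univ) := by
      ext x
      simp [hAn]
    have h5 : ball t₀ ρ ×ˢ (univ : Set ℂ) ⊆ ball t₀ (2 * ρ) ×ˢ univ :=
      prod_mono (ball_subset_ball (by linarith)) le_rfl
    rw [h4]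
    exact measureReal_sdiff h5 (measurableSet_ball.prod .univ)
  rw [← hmA]
  have h4 : K8 * |∫ t, ∑ z ∈ T t, (fderiv ℝ (eta t₀ ρ) t 1 * (conj z * sl μ β A (t, z) I).im -
        fderiv ℝ (eta t₀ ρ) t I * (conj z * sl μ β A (t, z) 1).im)| ≤
      (K8 * (2 * Real.pi * CA * √k * k) * (8 * M / 3) * (17 + 4 * (‖β 0‖ + L) ^ 2) * K7) *
        (m (An ×ˢ univ)).toReal := by
    calc _ ≤ K8 * (2 * Real.pi * CA * √k * k * ((8 * M / 3) * (17 + 4 * (‖β 0‖ + L) ^ 2) *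
          (K7 * (m (An ×ˢ univ)).toReal))) := by
          refine mul_le_mul_of_nonneg_left (h2.trans ?_) hK8.le
          exact mul_le_mul_of_nonneg_left h3 (by positivity)
      _ = _ := by ring
  have h5 : K8 * (k * ∫ t, eta t₀ ρ t) ≤ (K8 * k * 4 * Real.pi) * ρ ^ 2 := by
    calc K8 * (k * ∫ t, eta t₀ ρ t) ≤ K8 * (k * (4 * Real.pi * ρ ^ 2)) := by gcongr
      _ = _ := by ring
  linarith

end Main

/-- **C09**: hole filling. -/
theorem hole (h7 : ENER) (h8 : WEAKF) (h8b : STK) : HOLE := by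
  intro μ β κ L hco R m A C c hcyl k T hfib
  obtain ⟨K7, hK7, h7'⟩ := h7 μ β κ L hco
  obtain ⟨hen, h7''⟩ := h7' R m A C c hcyl k T hfib
  have h8' := h8 μ β κ L hco R m A C c hcyl k T hfib
  obtain ⟨K8, hK8, h8b'⟩ := h8b μ β κ L hco
  have h8b'' := h8b' R m A C c hcyl k T hfib
  obtain ⟨CA, hCA0, hCA⟩ := HoleA_800.exists_prim k
  obtain ⟨M, hM0, hM, hM'⟩ := exists_st
  have hL0 := hco.L0
  have hpi := Real.pi_pos
  have : IsFiniteMeasure m := ⟨hcyl.fin⟩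
  obtain ⟨C', b, hC', hb0, hb1, hit⟩ := HoleB_859.iter (R / 2) (m univ).toReal
    (K8 * k * 4 * Real.pi)
    (K8 * (2 * Real.pi * CA * √k * k) * (8 * M / 3) * (17 + 4 * (‖β 0‖ + L) ^ 2) * K7)
    (half_pos hcyl.R0) (by positivity) (by positivity)
  refine ⟨C', b, hC', hb0, hb1, fun t₀ ht₀ ρ hρ hρR => ?_⟩
  refine hit (fun ρ => (m (ball t₀ ρ ×ˢ univ)).toReal) (fun ρ _ _ => ?_) (fun ρ h0 h1 => ?_)
    ρ hρ hρR
  · exact ENNReal.toReal_mono (measure_ne_top _ _) (measure_mono (subset_univ _))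
  · exact step hco hcyl hfib hen h8' h7'' hK8 h8b'' hCA0 hCA hM0 hM hM' ht₀ h0 h1

end

end Crest.Agent.R235.CylHole_859
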