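import Crest.Agent.R235.CylDef_522
import Crest.Agent.R235.LocSel_483
import Crest.Agent.R235.LocStokes_326

/-!
Row 235, REG-CYL leaf C15 (task 274): after `LOC`: no vertical part, the current is the sum over
the sheets.  `novert : SHEET → NOVERT`.
-/

set_option autoImplicit false

open MeasureTheory Metric Set Filter Complex
open scoped ContDiff Topology ComplexConjugate ENNReal

namespace Crest.Agent.R235.Cyl_NOVERT_712

open Crest.Agent.R235.Loc Crest.Agent.R235.Cyl_522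

noncomputable section

/-! ### algebra -/

/-- the value of the two-form `b` on the tangent plane spanned by `vec A`, `vec (iA)`. -/
def Q (μ β : ℂ × ℂ → ℂ) (b : ℂ × ℂ → (ℂ × ℂ →L[ℝ] ℂ × ℂ →L[ℝ] ℝ)) (x a : ℂ × ℂ) : ℝ :=
  b x (vec (μ x) (β x) a) (vec (μ x) (β x) (I • a)) -
    b x (vec (μ x) (β x) (I • a)) (vec (μ x) (β x) a)

/-- the value of the two-form `b` on the graph of a map `f`. -/
def G2 (b : ℂ × ℂ →L[ℝ] ℂ × ℂ →L[ℝ] ℝ) (f : ℂ → ℂ) : ℝ :=
  b (1, f 1) (I, f I) - b (I, f I) (1, f 1)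

theorem vec_graph (μ β a1 a2 : ℂ) (hμ : ‖μ‖ < 1) (ha : a1 ≠ 0) (a1' a2' : ℂ)
    (h : a2' * a1 = a2 * a1') :
    let v : ℂ := (a1' - μ * conj a1') / ((1 - ‖μ‖ ^ 2 : ℝ) : ℂ)
    vec μ β (a1', a2') = v.re • ((1 : ℂ), a2 / a1 * 1 + (a2 / a1 * μ - β) * conj 1) +
      v.im • (I, a2 / a1 * I + (a2 / a1 * μ - β) * conj I) := by
  intro v
  have hD : (1 - ‖μ‖ ^ 2 : ℝ) ≠ 0 := by
    have : ‖μ‖ ^ 2 < 1 := by nlinarith [norm_nonneg μ]
    linarith
  have hDc : ((1 - ‖μ‖ ^ 2 : ℝ) : ℂ) ≠ 0 := by exact_mod_cast hD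
  have hμ2 : μ * conj μ = ((‖μ‖ ^ 2 : ℝ) : ℂ) := by
    rw [Complex.mul_conj, Complex.normSq_eq_norm_sq]
  have hv : v + μ * conj v = a1' := by
    have e1 : conj v = (conj a1' - conj μ * a1') / ((1 - ‖μ‖ ^ 2 : ℝ) : ℂ) := by
      simp only [v, map_div₀, map_sub, map_mul, Complex.conj_conj, Complex.conj_ofReal]
    rw [e1]
    simp only [v]
    rw [← mul_div_assoc, ← add_div, div_eq_iff hDc]
    have : a1' - μ * conj a1' + μ * (conj a1' - conj μ * a1') = a1' - (μ * conj μ) * a1' := by ring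
    rw [this, hμ2]
    push_cast
    ring
  have hvv : ((v.re : ℝ) : ℂ) + ((v.im : ℝ) : ℂ) * I = v := Complex.re_add_im v
  have hcv : conj v = ((v.re : ℝ) : ℂ) - ((v.im : ℝ) : ℂ) * I := by
    apply Complex.ext <;> simp
  have ha2 : a2' = a2 / a1 * (v + μ * conj v) := by
    rw [hv]
    field_simp
    linear_combination h
  refine Prod.ext ?_ ?_
  · show v = _
    simp only [Prod.fst_add, Prod.smul_fst, Complex.real_smul]
    rw [mul_one]
    exact hvv.symm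
  · show a2' - β * conj v = _
    simp only [Prod.snd_add, Prod.smul_snd, Complex.real_smul, map_one, Complex.conj_I]
    rw [ha2, hcv]
    linear_combination (a2 / a1) * (-hvv)

theorem Q_eq (μ β : ℂ × ℂ → ℂ) (A : ℂ × ℂ → ℂ × ℂ)
    (b : ℂ × ℂ → (ℂ × ℂ →L[ℝ] ℂ × ℂ →L[ℝ] ℝ)) (x : ℂ × ℂ) (hμ : ‖μ x‖ < 1)
    (ha : (A x).1 ≠ 0) :
    Q μ β b x (A x) = ‖(A x).1‖ ^ 2 / (1 - ‖μ x‖ ^ 2) * G2 (b x) (sl μ β A x) := by
  have hD : (1 - ‖μ x‖ ^ 2 : ℝ) ≠ 0 := by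
    have : ‖μ x‖ ^ 2 < 1 := by nlinarith [norm_nonneg (μ x)]
    linarith
  set a1 := (A x).1 with ha1
  set a2 := (A x).2 with ha2
  have hA : A x = (a1, a2) := rfl
  have hIA : I • A x = (I * a1, I * a2) := by rw [hA]; rfl
  have e1 := vec_graph (μ x) (β x) a1 a2 hμ ha a1 a2 rfl
  have e2 := vec_graph (μ x) (β x) a1 a2 hμ ha (I * a1) (I * a2) (by ring)
  simp only at e1 e2
  set v : ℂ := (a1 - μ x * conj a1) / ((1 - ‖μ x‖ ^ 2 : ℝ) : ℂ) with hv
  set v' : ℂ := (I * a1 - μ x * conj (I * a1)) / ((1 - ‖μ x‖ ^ 2 : ℝ) : ℂ) with hv'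
  have hdet : v.re * v'.im - v.im * v'.re = ‖a1‖ ^ 2 / (1 - ‖μ x‖ ^ 2) := by
    have h1 : v.re = (a1 - μ x * conj a1).re / (1 - ‖μ x‖ ^ 2) := by
      rw [hv, Complex.div_ofReal_re]
    have h2 : v.im = (a1 - μ x * conj a1).im / (1 - ‖μ x‖ ^ 2) := by
      rw [hv, Complex.div_ofReal_im]
    have h3 : v'.re = (I * a1 - μ x * conj (I * a1)).re / (1 - ‖μ x‖ ^ 2) := by
      rw [hv', Complex.div_ofReal_re]
    have h4 : v'.im = (I * a1 - μ x * conj (I * a1)).im / (1 - ‖μ x‖ ^ 2) := by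
      rw [hv', Complex.div_ofReal_im]
    rw [h1, h2, h3, h4]
    have n1 : ‖a1‖ ^ 2 = a1.re * a1.re + a1.im * a1.im := by
      rw [← Complex.normSq_eq_norm_sq, Complex.normSq_apply]
    have n2 : ‖μ x‖ ^ 2 = (μ x).re * (μ x).re + (μ x).im * (μ x).im := by
      rw [← Complex.normSq_eq_norm_sq, Complex.normSq_apply]
    rw [div_mul_div_comm, div_mul_div_comm, ← sub_div, div_eq_div_iff (mul_ne_zero hD hD) hD]
    rw [n1, n2]
    simp only [Complex.sub_re, Complex.sub_im, Complex.mul_re, Complex.mul_im, Complex.conj_re,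
      Complex.conj_im, Complex.I_re, Complex.I_im, map_mul, Complex.conj_I, Complex.neg_re,
      Complex.neg_im]
    ring
  unfold Q
  rw [hIA, hA, e1, e2]
  have hs : ∀ u : ℂ, sl μ β A x u = a2 / a1 * u + (a2 / a1 * μ x - β x) * conj u := fun u => rfl
  unfold G2
  rw [hs 1, hs I, ← hdet]
  set E1 : ℂ × ℂ := (1, a2 / a1 * 1 + (a2 / a1 * μ x - β x) * conj 1)
  set E2 : ℂ × ℂ := (I, a2 / a1 * I + (a2 / a1 * μ x - β x) * conj I)
  simp only [map_add, map_smul, add_apply, smul_apply, smul_eq_mul]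
  ring

/-! ### measurability, integrability -/

theorem bil_cont {b : ℂ × ℂ → (ℂ × ℂ →L[ℝ] ℂ × ℂ →L[ℝ] ℝ)} (hb : Continuous b) :
    Continuous (fun q : (ℂ × ℂ) × (ℂ × ℂ) × (ℂ × ℂ) => b q.1 q.2.1 q.2.2) :=
  ((hb.comp continuous_fst).clm_apply (continuous_fst.comp continuous_snd)).clm_apply
    (continuous_snd.comp continuous_snd)

theorem meas_G2 {μ β : ℂ × ℂ → ℂ} {A : ℂ × ℂ → ℂ × ℂ} (hμ : Measurable μ) (hβ : Measurable β)
    (hA : Measurable A) {b : ℂ × ℂ → (ℂ × ℂ →L[ℝ] ℂ × ℂ →L[ℝ] ℝ)} (hb : Continuous b) :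
    Measurable (fun x => G2 (b x) (sl μ β A x)) := by
  have hsp : Measurable (sp A) := hA.snd.div hA.fst
  have hsl : ∀ v : ℂ, Measurable (fun x => sl μ β A x v) := fun v =>
    (hsp.mul_const v).add (((hsp.mul hμ).sub hβ).mul_const _)
  have h1 : Measurable (fun x => ((1 : ℂ), sl μ β A x 1)) := measurable_const.prodMk (hsl 1)
  have h2 : Measurable (fun x => (I, sl μ β A x I)) := measurable_const.prodMk (hsl I)
  exact ((bil_cont hb).measurable.comp (measurable_id.prodMk (h1.prodMk h2))).sub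
    ((bil_cont hb).measurable.comp (measurable_id.prodMk (h2.prodMk h1)))

theorem vec_cont {μ β : ℂ × ℂ → ℂ} (hμ : Continuous μ) (hβ : Continuous β)
    (hμ1 : ∀ x, ‖μ x‖ < 1) :
    Continuous (fun q : (ℂ × ℂ) × (ℂ × ℂ) => vec (μ q.1) (β q.1) q.2) := by
  have hc : Continuous fun q : (ℂ × ℂ) × (ℂ × ℂ) =>
      (q.2.1 - μ q.1 * conj q.2.1) / ((1 - ‖μ q.1‖ ^ 2 : ℝ) : ℂ) := by
    refine Continuous.div ?_ ?_ ?_
    · exact (continuous_fst.comp continuous_snd).sub ((hμ.comp continuous_fst).mul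
        (Complex.continuous_conj.comp (continuous_fst.comp continuous_snd)))
    · exact Complex.continuous_ofReal.comp
        (continuous_const.sub ((hμ.comp continuous_fst).norm.pow 2))
    · intro q
      have : ‖μ q.1‖ ^ 2 < 1 := by nlinarith [norm_nonneg (μ q.1), hμ1 q.1]
      have h2 : (1 - ‖μ q.1‖ ^ 2 : ℝ) ≠ 0 := by linarith
      exact_mod_cast h2
  exact hc.prodMk ((continuous_snd.comp continuous_snd).sub
    ((hβ.comp continuous_fst).mul (Complex.continuous_conj.comp hc)))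

theorem Q_cont {μ β : ℂ × ℂ → ℂ} (hμ : Continuous μ) (hβ : Continuous β)
    (hμ1 : ∀ x, ‖μ x‖ < 1) {b : ℂ × ℂ → (ℂ × ℂ →L[ℝ] ℂ × ℂ →L[ℝ] ℝ)} (hb : Continuous b) :
    Continuous (fun q : (ℂ × ℂ) × (ℂ × ℂ) => Q μ β b q.1 q.2) := by
  have h1 := vec_cont hμ hβ hμ1
  have h2 : Continuous (fun q : (ℂ × ℂ) × (ℂ × ℂ) => vec (μ q.1) (β q.1) (I • q.2)) :=
    h1.comp (continuous_fst.prodMk (continuous_snd.const_smul I))
  exact ((bil_cont hb).comp (continuous_fst.prodMk (h1.prodMk h2))).sub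
    ((bil_cont hb).comp (continuous_fst.prodMk (h2.prodMk h1)))

theorem norm_A_le {a : ℂ × ℂ} (h : ‖a.1‖ ^ 2 + ‖a.2‖ ^ 2 = 1) : ‖a‖ ≤ 1 := by
  rw [Prod.norm_def]
  refine max_le ?_ ?_
  · nlinarith [norm_nonneg a.1, sq_nonneg ‖a.2‖]
  · nlinarith [norm_nonneg a.2, sq_nonneg ‖a.1‖]

theorem Q_int {μ β : ℂ × ℂ → ℂ} {κ L R C c : ℝ} (hc : Coef μ β κ L) {m : Measure (ℂ × ℂ)}
    {A : ℂ × ℂ → ℂ × ℂ} (hm : Cyl μ β R m A C c)
    {b : ℂ × ℂ → (ℂ × ℂ →L[ℝ] ℂ × ℂ →L[ℝ] ℝ)} (hb : Continuous b) :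
    Integrable (fun x => Q μ β b x (A x)) m := by
  have hμ1 : ∀ x, ‖μ x‖ < 1 := fun x => lt_of_le_of_lt (hc.bμ x) hc.κ1
  have hQ := Q_cont hc.smμ.continuous hc.smβ.continuous hμ1 hb
  have : IsFiniteMeasure m := ⟨hm.fin⟩
  obtain ⟨M, hM⟩ := ((isCompact_closedBall (0 : ℂ × ℂ) (R + 1)).prod
    (isCompact_closedBall (0 : ℂ × ℂ) 1)).exists_bound_of_continuousOn hQ.continuousOn
  refine Integrable.of_bound
    ((hQ.measurable.comp (measurable_id.prodMk hm.meas)).aestronglyMeasurable) M ?_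
  filter_upwards [hm.carr] with x hx
  refine hM (x, A x) ⟨?_, ?_⟩
  · simp only [mem_closedBall, dist_zero_right]
    rw [Prod.norm_def]
    have := hm.R0
    exact max_le (by linarith [hx.1]) (by linarith [hx.2])
  · simp only [mem_closedBall, dist_zero_right]
    exact norm_A_le (hm.unit x)

/-! ### the horizontal measure -/

/-- the density of `hor`. -/
def dn (μ : ℂ × ℂ → ℂ) (A : ℂ × ℂ → ℂ × ℂ) (x : ℂ × ℂ) : ℝ := ‖(A x).1‖ ^ 2 / (1 - ‖μ x‖ ^ 2)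

theorem dn_nonneg {μ : ℂ × ℂ → ℂ} {A : ℂ × ℂ → ℂ × ℂ} (hμ1 : ∀ x, ‖μ x‖ < 1) (x : ℂ × ℂ) :
    0 ≤ dn μ A x := by
  have : ‖μ x‖ ^ 2 < 1 := by nlinarith [norm_nonneg (μ x), hμ1 x]
  exact div_nonneg (by positivity) (by linarith)

theorem meas_dn {μ : ℂ × ℂ → ℂ} {A : ℂ × ℂ → ℂ × ℂ} (hμ : Measurable μ) (hA : Measurable A) :
    Measurable (dn μ A) := (hA.fst.norm.pow_const 2).div (measurable_const.sub (hμ.norm.pow_const 2))

theorem hor_int {μ : ℂ × ℂ → ℂ} {A : ℂ × ℂ → ℂ × ℂ} {m : Measure (ℂ × ℂ)} (hμ : Measurable μ)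
    (hA : Measurable A) (hμ1 : ∀ x, ‖μ x‖ < 1) (Φ : ℂ × ℂ → ℝ) :
    ∫ x, Φ x ∂(hor μ m A) = ∫ x, dn μ A x * Φ x ∂m := by
  show ∫ x, Φ x ∂(m.withDensity fun x => ENNReal.ofReal (dn μ A x)) = _
  rw [integral_withDensity_eq_integral_toReal_smul (meas_dn hμ hA).ennreal_ofReal
    (Eventually.of_forall fun x => ENNReal.ofReal_lt_top)]
  refine integral_congr_ae (Eventually.of_forall fun x => ?_)
  show (ENNReal.ofReal (dn μ A x)).toReal • Φ x = _
  rw [ENNReal.toReal_ofReal (dn_nonneg hμ1 x), smul_eq_mul]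

theorem hor_integrable {μ : ℂ × ℂ → ℂ} {A : ℂ × ℂ → ℂ × ℂ} {m : Measure (ℂ × ℂ)}
    (hμ : Measurable μ) (hA : Measurable A) (hμ1 : ∀ x, ‖μ x‖ < 1) (Φ : ℂ × ℂ → ℝ) :
    Integrable Φ (hor μ m A) ↔ Integrable (fun x => dn μ A x * Φ x) m := by
  show Integrable Φ (m.withDensity fun x => ENNReal.ofReal (dn μ A x)) ↔ _
  rw [integrable_withDensity_iff_integrable_smul' (meas_dn hμ hA).ennreal_ofReal
    (Eventually.of_forall fun x => ENNReal.ofReal_lt_top)]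
  refine integrable_congr (Eventually.of_forall fun x => ?_)
  show (ENNReal.ofReal (dn μ A x)).toReal • Φ x = _
  rw [ENNReal.toReal_ofReal (dn_nonneg hμ1 x), smul_eq_mul]

theorem dis_real {μ β : ℂ × ℂ → ℂ} {R : ℝ} {m : Measure (ℂ × ℂ)} {A : ℂ × ℂ → ℂ × ℂ} {k : ℕ}
    {T : ℂ → Finset ℂ} (hF : Fib μ β R m A k T) (Φ : ℂ × ℂ → ℝ) (hm : Measurable Φ)
    (hi : Integrable Φ (hor μ m A)) :
    IntegrableOn (fun t => ∑ z ∈ T t, Φ (t, z)) (ball 0 R) ∧
      ∫ x, Φ x ∂(hor μ m A) = ∫ t in ball (0 : ℂ) R, ∑ z ∈ T t, Φ (t, z) := by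
  have hp := hF.dis (fun x => ENNReal.ofReal (Φ x)) hm.ennreal_ofReal
  have hn := hF.dis (fun x => ENNReal.ofReal (-Φ x)) hm.neg.ennreal_ofReal
  have hsum : (fun t => ∑ z ∈ T t, Φ (t, z)) = fun t =>
      (∑ z ∈ T t, ENNReal.ofReal (Φ (t, z))).toReal -
        (∑ z ∈ T t, ENNReal.ofReal (-Φ (t, z))).toReal := by
    funext t
    rw [ENNReal.toReal_sum (fun _ _ => ENNReal.ofReal_ne_top),
      ENNReal.toReal_sum (fun _ _ => ENNReal.ofReal_ne_top), ← Finset.sum_sub_distrib]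
    refine Finset.sum_congr rfl fun z _ => ?_
    rw [ENNReal.toReal_ofReal', ENNReal.toReal_ofReal']
    rcases le_total 0 (Φ (t, z)) with h | h
    · rw [max_eq_left h, max_eq_right (by linarith), sub_zero]
    · rw [max_eq_right h, max_eq_left (by linarith)]; ring
  have fp : ∫⁻ t in ball (0 : ℂ) R, ∑ z ∈ T t, ENNReal.ofReal (Φ (t, z)) ≠ ⊤ := by
    rw [← hp.2]
    exact hi.lintegral_lt_top.ne
  have fn : ∫⁻ t in ball (0 : ℂ) R, ∑ z ∈ T t, ENNReal.ofReal (-Φ (t, z)) ≠ ⊤ := by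
    rw [← hn.2]
    exact hi.neg.lintegral_lt_top.ne
  have ip := integrable_toReal_of_lintegral_ne_top hp.1 fp
  have iN := integrable_toReal_of_lintegral_ne_top hn.1 fn
  have ltp : ∀ᵐ t ∂(volume.restrict (ball (0 : ℂ) R)),
      ∑ z ∈ T t, ENNReal.ofReal (Φ (t, z)) < ⊤ :=
    Eventually.of_forall fun t => ENNReal.sum_lt_top.2 fun _ _ => ENNReal.ofReal_lt_top
  have ltn : ∀ᵐ t ∂(volume.restrict (ball (0 : ℂ) R)),
      ∑ z ∈ T t, ENNReal.ofReal (-Φ (t, z)) < ⊤ :=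
    Eventually.of_forall fun t => ENNReal.sum_lt_top.2 fun _ _ => ENNReal.ofReal_lt_top
  refine ⟨?_, ?_⟩
  · rw [hsum]
    exact ip.sub iN
  · rw [hsum, integral_sub ip iN, integral_toReal hp.1 ltp, integral_toReal hn.1 ltn, ← hp.2,
      ← hn.2]
    exact integral_eq_lintegral_pos_part_sub_lintegral_neg_part hi

/-! ### slopes of the sheets -/

theorem clm_eq (D : ℂ →L[ℝ] ℂ) (v : ℂ) : D v = lz D * v + lzb D * conj v := by
  have hv : v = v.re • (1 : ℂ) + v.im • I := by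
    simp only [Complex.real_smul, mul_one]
    exact (Complex.re_add_im v).symm
  have h1 : D v = v.re • D 1 + v.im • D I := by
    conv_lhs => rw [hv]
    rw [map_add, map_smul, map_smul]
  have hc : conj v = ((v.re : ℝ) : ℂ) - ((v.im : ℝ) : ℂ) * I := by
    apply Complex.ext <;> simp
  have hv2 : v = ((v.re : ℝ) : ℂ) + ((v.im : ℝ) : ℂ) * I := (Complex.re_add_im v).symm
  rw [h1, hc]
  conv_rhs => rw [hv2]
  simp only [lz, lzb, Complex.real_smul]
  simp only [Complex.add_re, Complex.ofReal_re, Complex.mul_re, Complex.I_re, mul_zero,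
    Complex.ofReal_im, Complex.I_im, mul_one, sub_self, add_zero, Complex.add_im, Complex.mul_im,
    zero_add]
  linear_combination ((v.im : ℂ) * D I) * Complex.I_mul_I

theorem slope_ae {μ β : ℂ × ℂ → ℂ} {κ L : ℝ} (hc : Coef μ β κ L) {R : ℝ} {m : Measure (ℂ × ℂ)}
    {A : ℂ × ℂ → ℂ × ℂ} {C c : ℝ} (hm : Cyl μ β R m A C c) {k : ℕ} {T : ℂ → Finset ℂ}
    (hF : Fib μ β R m A k T) {C' b : ℝ} {S : ℂ → Multiset ℂ} {e : ℂ → ℝ}
    (hE : ExtF μ β R m A k T C' b S) (hK : KG μ β 0 (R / 4) k S e) (hsh : SHEET) :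
    ∀ᵐ t : ℂ, t ∈ ball (0 : ℂ) (R / 4) → ∀ z ∈ S t, ∀ v, slope S t z v = sl μ β A (t, z) v := by
  have hsel := LocSel_483.sel μ β κ L hc.toBoxD 0 (R / 4) k S e hK
  have h1 : volume {t : ℂ | t ∈ Usimp 0 (R / 4) S ∧
      ¬ ∀ z ∈ S t, ∀ v, slope S t z v = sl μ β A (t, z) v} = 0 := by
    refine measure_null_of_locally_null _ fun z₀ hz₀ => ?_
    obtain ⟨r, w, hr, hsub, hshe, -, -, hS, hsl⟩ := hsel.2 z₀ hz₀.1
    refine ⟨ball z₀ r ∩ {t : ℂ | ¬ ∀ z ∈ S t, ∀ v, slope S t z v = sl μ β A (t, z) v}, ?_, ?_⟩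
    · rw [mem_nhdsWithin]
      exact ⟨ball z₀ r, isOpen_ball, mem_ball_self hr, fun y hy => ⟨hy.1, hy.2.2⟩⟩
    · have hi : ∀ i : Fin k, ∀ᵐ z : ℂ, z ∈ ball z₀ r →
          lz (fderiv ℝ (w i) z) = sp A (z, w i z) := fun i =>
        (hsh μ β κ L hc R m A C c hm k T hF C' b S hE (ball z₀ r) (w i)
          (fun y hy => (hsub hy).1) (hshe i)).2.2
      have hi2 : ∀ i : Fin k, ∀ z ∈ ball z₀ r,
          lzb (fderiv ℝ (w i) z) = μ (z, w i z) * lz (fderiv ℝ (w i) z) - β (z, w i z) := fun i =>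
        (hsh μ β κ L hc R m A C c hm k T hF C' b S hE (ball z₀ r) (w i)
          (fun y hy => (hsub hy).1) (hshe i)).2.1
      have hall : ∀ᵐ z : ℂ, ∀ i : Fin k, z ∈ ball z₀ r →
          lz (fderiv ℝ (w i) z) = sp A (z, w i z) := ae_all_iff.2 hi
      rw [measure_eq_zero_iff_ae_notMem]
      filter_upwards [hall] with z hz hmem
      refine hmem.2 fun a ha v => ?_
      have hzb : z ∈ ball z₀ r := hmem.1
      rw [hS z hzb, Multiset.mem_map] at ha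
      obtain ⟨i, -, rfl⟩ := ha
      rw [hsl z hzb i, clm_eq, hi2 i z hzb, hz i hzb]
      unfold sl
      ring
  have h2 := hK.null
  rw [measure_eq_zero_iff_ae_notMem] at h1 h2
  filter_upwards [h1, h2] with t ht1 ht2 htb
  by_contra hcon
  by_cases hnd : (S t).Nodup
  · exact ht1 ⟨⟨htb, hnd⟩, hcon⟩
  · exact ht2 ⟨htb, hnd⟩

/-! ### pull back of a one-form to a sheet -/

/-- pull back of `s` by the graph of `w`. -/
def pb (s : ℂ × ℂ → (ℂ × ℂ →L[ℝ] ℝ)) (w : ℂ → ℂ) (z : ℂ) : ℂ →L[ℝ] ℝ :=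
  (s (z, w z)).comp ((ContinuousLinearMap.id ℝ ℂ).prod (fderiv ℝ w z))

theorem pb_cd {s : ℂ × ℂ → (ℂ × ℂ →L[ℝ] ℝ)} (hs : ContDiff ℝ ∞ s) {w : ℂ → ℂ} {z : ℂ}
    (hw : ContDiffAt ℝ ∞ w z) : ContDiffAt ℝ ∞ (pb s w) z := by
  have h1 : ContDiffAt ℝ ∞ (fun z => s (z, w z)) z :=
    hs.contDiffAt.comp z (contDiffAt_id.prodMk hw)
  have h2 : ContDiffAt ℝ ∞ (fderiv ℝ w) z := hw.fderiv_right (m := ∞) (by norm_cast)
  have h3 : ContDiffAt ℝ ∞ (fun z => (ContinuousLinearMap.id ℝ ℂ).prod (fderiv ℝ w z)) z := by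
    have h4 : ContDiffAt ℝ ∞ (fun z => (ContinuousLinearMap.prodMapL ℝ ℂ ℂ ℂ ℂ)
        (ContinuousLinearMap.id ℝ ℂ, fderiv ℝ w z)) z :=
      (ContinuousLinearMap.contDiff _).contDiffAt.comp z (contDiffAt_const.prodMk h2)
    have h5 := h4.clm_comp (contDiffAt_const (c := (ContinuousLinearMap.id ℝ ℂ).prod
      (ContinuousLinearMap.id ℝ ℂ)))
    exact h5
  exact h1.clm_comp h3

theorem pb_fd {s : ℂ × ℂ → (ℂ × ℂ →L[ℝ] ℝ)} (hs : ContDiff ℝ ∞ s) {w : ℂ → ℂ} {z : ℂ}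
    (hw : ContDiffAt ℝ ∞ w z) :
    fderiv ℝ (pb s w) z 1 I - fderiv ℝ (pb s w) z I 1 =
      G2 (fderiv ℝ s (z, w z)) (fun v => fderiv ℝ w z v) := by
  have hpd : DifferentiableAt ℝ (pb s w) z := (pb_cd hs hw).differentiableAt (by norm_num)
  have hwd : DifferentiableAt ℝ w z := hw.differentiableAt (by norm_num)
  have h2 : DifferentiableAt ℝ (fderiv ℝ w) z :=
    (hw.fderiv_right (m := ∞) (by norm_cast)).differentiableAt (by norm_num)
  have h1 : HasFDerivAt (fun z => s (z, w z))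
      ((fderiv ℝ s (z, w z)).comp ((ContinuousLinearMap.id ℝ ℂ).prod (fderiv ℝ w z))) z := by
    have hsd : HasFDerivAt s (fderiv ℝ s (z, w z)) (z, w z) :=
      ((hs.differentiable (by norm_num)) (z, w z)).hasFDerivAt
    exact HasFDerivAt.comp z hsd ((hasFDerivAt_id z).prodMk hwd.hasFDerivAt)
  have key : ∀ u u' : ℂ, fderiv ℝ (pb s w) z u u' =
      fderiv ℝ s (z, w z) (u, fderiv ℝ w z u) (u', fderiv ℝ w z u') +
        s (z, w z) (0, fderiv ℝ (fderiv ℝ w) z u u') := by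
    intro u u'
    have e1 : fderiv ℝ (fun y => pb s w y u') z u = fderiv ℝ (pb s w) z u u' := by
      have := ((ContinuousLinearMap.apply ℝ ℝ u').hasFDerivAt.comp z hpd.hasFDerivAt).fderiv
      rw [show (fun y => pb s w y u') = (ContinuousLinearMap.apply ℝ ℝ u') ∘ (pb s w) from rfl,
        this]
      rfl
    rw [← e1]
    have h3 : HasFDerivAt (fun y => ((u' : ℂ), fderiv ℝ w y u'))
        ((0 : ℂ →L[ℝ] ℂ).prod ((ContinuousLinearMap.apply ℝ ℂ u').comp (fderiv ℝ (fderiv ℝ w) z)))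
        z := by
      refine (hasFDerivAt_const u' z).prodMk ?_
      exact (ContinuousLinearMap.apply ℝ ℂ u').hasFDerivAt.comp z h2.hasFDerivAt
    have h4 := (h1.clm_apply h3).fderiv
    have h5 : (fun y => pb s w y u') = fun y => (s (y, w y)) ((u' : ℂ), fderiv ℝ w y u') := rfl
    rw [h5, h4]
    simp only [add_apply, ContinuousLinearMap.comp_apply, ContinuousLinearMap.prod_apply,
      ContinuousLinearMap.flip_apply, ContinuousLinearMap.apply_apply,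
      ContinuousLinearMap.id_apply]
    rw [add_comm]
    rfl
  have hsym : fderiv ℝ (fderiv ℝ w) z 1 I = fderiv ℝ (fderiv ℝ w) z I 1 :=
    (hw.isSymmSndFDerivAt (by
      rw [minSmoothness_of_isRCLikeNormedField]
      norm_cast)).eq 1 I
  rw [key, key, hsym]
  unfold G2
  ring

/-! ### the sum over the sheets is closed -/

/-- sum over the fibre of the pull backs of `s`. -/
def th (S : ℂ → Multiset ℂ) (s : ℂ × ℂ → (ℂ × ℂ →L[ℝ] ℝ)) (t : ℂ) : ℂ →L[ℝ] ℝ :=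
  ((S t).map fun a => (s (t, a)).comp ((ContinuousLinearMap.id ℝ ℂ).prod (slope S t a))).sum

/-- sum over the fibre of the values of `ds` on the tangent planes. -/
def gg (S : ℂ → Multiset ℂ) (b : ℂ × ℂ → (ℂ × ℂ →L[ℝ] ℂ × ℂ →L[ℝ] ℝ)) (t : ℂ) : ℝ :=
  ((S t).map fun a => G2 (b (t, a)) (fun v => slope S t a v)).sum

theorem sum_map_le {α : Type*} (s : Multiset α) (f : α → ℝ) (M : ℝ) (h : ∀ a ∈ s, f a ≤ M) :
    (s.map f).sum ≤ s.card * M := by
  have := Multiset.sum_le_card_nsmul (s.map f) M (by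
    intro x hx
    obtain ⟨a, ha, rfl⟩ := Multiset.mem_map.1 hx
    exact h a ha)
  rwa [Multiset.card_map, nsmul_eq_mul] at this

theorem local_form {μ β : ℂ × ℂ → ℂ} {κ L : ℝ} (hc : BoxD μ β κ L) {c : ℂ} {R : ℝ} {k : ℕ}
    {S : ℂ → Multiset ℂ} {e : ℂ → ℝ} (hK : KG μ β c R k S e)
    {s : ℂ × ℂ → (ℂ × ℂ →L[ℝ] ℝ)} (hs : ContDiff ℝ ∞ s) {z₀ : ℂ} (hz : z₀ ∈ Usimp c R S) :
    ContDiffAt ℝ ∞ (th S s) z₀ ∧
    gg S (fderiv ℝ s) z₀ = fderiv ℝ (th S s) z₀ 1 I - fderiv ℝ (th S s) z₀ I 1 ∧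
    ∀ a ∈ S z₀, ‖slope S z₀ a‖ ^ 2 ≤ e z₀ := by
  obtain ⟨r, w, hr, hsub, hshe, hsm, -, hS, hsl⟩ :=
    (LocSel_483.sel μ β κ L hc c R k S e hK).2 z₀ hz
  have hz0 : z₀ ∈ ball z₀ r := mem_ball_self hr
  have hwc : ∀ i, ContDiffAt ℝ ∞ (w i) z₀ := fun i =>
    (hsm i).contDiffAt (isOpen_ball.mem_nhds hz0)
  have hth : ∀ z ∈ ball z₀ r, th S s z = ∑ i, pb s (w i) z := by
    intro z hzb
    unfold th
    conv_lhs => rw [hS z hzb]
    rw [Multiset.map_map]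
    refine Finset.sum_congr rfl fun i _ => ?_
    show (s (z, w i z)).comp ((ContinuousLinearMap.id ℝ ℂ).prod (slope S z (w i z))) = _
    rw [hsl z hzb i]
    rfl
  have hev : th S s =ᶠ[𝓝 z₀] fun z => ∑ i, pb s (w i) z := by
    filter_upwards [isOpen_ball.mem_nhds hz0] with z hzb using hth z hzb
  have hcd : ∀ i ∈ (Finset.univ : Finset (Fin k)), ContDiffAt ℝ ∞ (pb s (w i)) z₀ :=
    fun i _ => pb_cd hs (hwc i)
  refine ⟨(ContDiffAt.sum hcd).congr_of_eventuallyEq hev, ?_, ?_⟩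
  · rw [hev.fderiv_eq, fderiv_fun_sum fun i hi => (hcd i hi).differentiableAt (by norm_num)]
    simp only [sum_apply]
    rw [← Finset.sum_sub_distrib]
    unfold gg
    conv_lhs => rw [hS z₀ hz0]
    rw [Multiset.map_map]
    refine Finset.sum_congr rfl fun i _ => ?_
    rw [pb_fd hs (hwc i)]
    show G2 (fderiv ℝ s (z₀, w i z₀)) (fun v => slope S z₀ (w i z₀) v) = _
    rw [hsl z₀ hz0 i]
  · intro a ha
    rw [hS z₀ hz0, Multiset.mem_map] at ha
    obtain ⟨i, -, rfl⟩ := ha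
    rw [hsl z₀ hz0 i]
    exact hK.ebd (ball z₀ r) (w i) (fun y hy => (hsub hy).1) (hshe i) z₀ hz0

theorem finite_bad {c : ℂ} {R R' : ℝ} (hR : R' < R) {S : ℂ → Multiset ℂ}
    (h : ∀ p ∈ ball c R, ∀ᶠ z in 𝓝[≠] p, (S z).Nodup) :
    {t : ℂ | t ∈ closedBall c R' ∧ ¬ (S t).Nodup}.Finite := by
  have key : ∃ U : Set ℂ, closedBall c R' ⊆ U ∧ (U ∩ {t | ¬ (S t).Nodup}).Finite := by
    refine (isCompact_closedBall c R').induction_on
      (p := fun K => ∃ U : Set ℂ, K ⊆ U ∧ (U ∩ {t | ¬ (S t).Nodup}).Finite) ?_ ?_ ?_ ?_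
    · exact ⟨∅, subset_rfl, by simp⟩
    · rintro s t hst ⟨U, h1, h2⟩
      exact ⟨U, hst.trans h1, h2⟩
    · rintro s t ⟨U, h1, h2⟩ ⟨V, h3, h4⟩
      refine ⟨U ∪ V, union_subset_union h1 h3, ?_⟩
      rw [union_inter_distrib_right]
      exact h2.union h4
    · intro x hx
      have hxb : x ∈ ball c R := by
        simp only [mem_closedBall, mem_ball] at *
        linarith
      have h1 := h x hxb
      rw [eventually_nhdsWithin_iff] at h1
      obtain ⟨V, hV, hVo, hxV⟩ := _root_.eventually_nhds_iff.1 h1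
      refine ⟨V, mem_nhdsWithin_of_mem_nhds (hVo.mem_nhds hxV), V, subset_rfl, ?_⟩
      refine (finite_singleton x).subset ?_
      rintro y ⟨hy1, hy2⟩
      by_contra hne
      exact hy2 (hV y hy1 hne)
  obtain ⟨U, h1, h2⟩ := key
  exact h2.subset fun t ht => ⟨h1 ht.1, ht.2⟩

theorem fd_zero {s : ℂ × ℂ → (ℂ × ℂ →L[ℝ] ℝ)} {R' : ℝ}
    (h0 : ∀ x : ℂ × ℂ, R' ≤ ‖x.1‖ → s x = 0) {x : ℂ × ℂ} (hx : R' < ‖x.1‖) :
    fderiv ℝ s x = 0 := by
  have : s =ᶠ[𝓝 x] fun _ => 0 := by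
    filter_upwards [(isOpen_lt continuous_const continuous_fst.norm).mem_nhds hx] with y hy
      using h0 y (le_of_lt hy)
  rw [this.fderiv_eq]
  simp

theorem th_zero {S : ℂ → Multiset ℂ} {s : ℂ × ℂ → (ℂ × ℂ →L[ℝ] ℝ)} {R' : ℝ}
    (h0 : ∀ x : ℂ × ℂ, R' ≤ ‖x.1‖ → s x = 0) {t : ℂ} (ht : R' ≤ ‖t‖) : th S s t = 0 := by
  refine Multiset.sum_eq_zero fun x hx => ?_
  obtain ⟨a, -, rfl⟩ := Multiset.mem_map.1 hx
  rw [h0 (t, a) ht]
  simp

theorem gg_zero {S : ℂ → Multiset ℂ} {b : ℂ × ℂ → (ℂ × ℂ →L[ℝ] ℂ × ℂ →L[ℝ] ℝ)} {t : ℂ}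
    (h : ∀ a, b (t, a) = 0) : gg S b t = 0 := by
  refine Multiset.sum_eq_zero fun x hx => ?_
  obtain ⟨a, -, rfl⟩ := Multiset.mem_map.1 hx
  simp [h a, G2]

theorem th_bound {S : ℂ → Multiset ℂ} {s : ℂ × ℂ → (ℂ × ℂ →L[ℝ] ℝ)} {t : ℂ} {M E : ℝ} {k : ℕ}
    (hk : (S t).card = k) (hM : ∀ a ∈ S t, ‖s (t, a)‖ ≤ M)
    (hE : ∀ a ∈ S t, ‖slope S t a‖ ^ 2 ≤ E) : ‖th S s t‖ ≤ k * (M * (1 + Real.sqrt E)) := by
  unfold th
  refine (norm_multiset_sum_le _).trans ?_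
  rw [Multiset.map_map]
  refine (sum_map_le (S t) _ (M * (1 + Real.sqrt E)) fun a ha => ?_).trans (by rw [hk])
  simp only [Function.comp]
  have h1 : ‖(ContinuousLinearMap.id ℝ ℂ).prod (slope S t a)‖ ≤ 1 + Real.sqrt E := by
    rw [ContinuousLinearMap.opNorm_prod, Prod.norm_def]
    have h2 : ‖slope S t a‖ ≤ Real.sqrt E := Real.le_sqrt_of_sq_le (hE a ha)
    have h3 : ‖ContinuousLinearMap.id ℝ ℂ‖ ≤ 1 := ContinuousLinearMap.norm_id_le
    exact max_le (by linarith [Real.sqrt_nonneg E]) (by linarith)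
  calc ‖(s (t, a)).comp ((ContinuousLinearMap.id ℝ ℂ).prod (slope S t a))‖
      ≤ ‖s (t, a)‖ * ‖(ContinuousLinearMap.id ℝ ℂ).prod (slope S t a)‖ :=
        ContinuousLinearMap.opNorm_comp_le _ _
    _ ≤ M * (1 + Real.sqrt E) := mul_le_mul (hM a ha) h1 (norm_nonneg _)
        ((norm_nonneg _).trans (hM a ha))

theorem G2_bound {B : ℂ × ℂ →L[ℝ] ℂ × ℂ →L[ℝ] ℝ} {D : ℂ →L[ℝ] ℂ} {M r : ℝ} (hM : ‖B‖ ≤ M)
    (hD : ‖D‖ ≤ r) : |G2 B (fun v => D v)| ≤ 2 * M * (1 + r) ^ 2 := by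
  have hr : 0 ≤ r := (norm_nonneg _).trans hD
  have hM0 : 0 ≤ M := (norm_nonneg B).trans hM
  have e1 : ‖((1 : ℂ), D 1)‖ ≤ 1 + r := by
    rw [Prod.norm_def]
    have : ‖D 1‖ ≤ ‖D‖ := by simpa using D.le_opNorm 1
    refine max_le ?_ ?_
    · simp only [norm_one]; linarith
    · simp only; linarith
  have e2 : ‖(I, D I)‖ ≤ 1 + r := by
    rw [Prod.norm_def]
    have : ‖D I‖ ≤ ‖D‖ := by simpa using D.le_opNorm I
    refine max_le ?_ ?_
    · simp only [Complex.norm_I]; linarith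
    · simp only; linarith
  have gen : ∀ u u' : ℂ × ℂ, ‖u‖ ≤ 1 + r → ‖u'‖ ≤ 1 + r → |B u u'| ≤ M * (1 + r) ^ 2 := by
    intro u u' hu hu'
    have h1 : ‖B u u'‖ ≤ ‖B‖ * ‖u‖ * ‖u'‖ := B.le_opNorm₂ u u'
    rw [← Real.norm_eq_abs]
    refine h1.trans ?_
    have h2 : ‖B‖ * ‖u‖ ≤ M * (1 + r) := mul_le_mul hM hu (norm_nonneg _) hM0
    calc ‖B‖ * ‖u‖ * ‖u'‖ ≤ (M * (1 + r)) * (1 + r) :=
          mul_le_mul h2 hu' (norm_nonneg _) (by positivity)
      _ = M * (1 + r) ^ 2 := by ring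
  unfold G2
  have h3 := gen _ _ e1 e2
  have h4 := gen _ _ e2 e1
  rw [abs_le] at *
  constructor <;> linarith [h3.1, h3.2, h4.1, h4.2]

theorem gg_bound {S : ℂ → Multiset ℂ} {b : ℂ × ℂ → (ℂ × ℂ →L[ℝ] ℂ × ℂ →L[ℝ] ℝ)} {t : ℂ}
    {M E : ℝ} {k : ℕ} (hk : (S t).card = k) (hM : ∀ a ∈ S t, ‖b (t, a)‖ ≤ M)
    (hE : ∀ a ∈ S t, ‖slope S t a‖ ^ 2 ≤ E) :
    ‖gg S b t‖ ≤ k * (2 * M * (1 + Real.sqrt E) ^ 2) := by
  unfold gg
  refine (norm_multiset_sum_le _).trans ?_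
  rw [Multiset.map_map]
  refine (sum_map_le (S t) _ (2 * M * (1 + Real.sqrt E) ^ 2) fun a ha => ?_).trans (by rw [hk])
  simp only [Function.comp]
  rw [Real.norm_eq_abs]
  exact G2_bound (hM a ha) (Real.le_sqrt_of_sq_le (hE a ha))

theorem closed_G {μ β : ℂ × ℂ → ℂ} {κ L : ℝ} (hc : BoxD μ β κ L) {ρ : ℝ} {k : ℕ}
    {S : ℂ → Multiset ℂ} {e : ℂ → ℝ} (hK : KG μ β 0 ρ k S e)
    (hdisc : ∀ p ∈ ball (0 : ℂ) ρ, ∀ᶠ z in 𝓝[≠] p, (S z).Nodup)
    (hbd : ∀ᵐ t : ℂ, t ∈ ball (0 : ℂ) ρ → ∀ a ∈ S t, ‖a‖ ≤ 1)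
    {s : ℂ × ℂ → (ℂ × ℂ →L[ℝ] ℝ)} (hs : ContDiff ℝ ∞ s) {R' : ℝ} (hR' : R' < ρ)
    (h0 : ∀ x : ℂ × ℂ, R' ≤ ‖x.1‖ → s x = 0) :
    ∫ t in ball (0 : ℂ) ρ, gg S (fderiv ℝ s) t = 0 := by
  have hcomp : IsCompact (closedBall (0 : ℂ) ρ ×ˢ closedBall (0 : ℂ) 1) :=
    (isCompact_closedBall _ _).prod (isCompact_closedBall _ _)
  obtain ⟨M₁, hM₁⟩ := hcomp.exists_bound_of_continuousOn hs.continuous.continuousOn
  obtain ⟨M₂, hM₂⟩ := hcomp.exists_bound_of_continuousOn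
    (hs.continuous_fderiv (by norm_num)).continuousOn
  have hzero : ∀ t : ℂ, R' < ‖t‖ → gg S (fderiv ℝ s) t = 0 := fun t ht =>
    gg_zero fun a => fd_zero h0 (x := (t, a)) ht
  have hint : ∫ t in ball (0 : ℂ) ρ, gg S (fderiv ℝ s) t = ∫ t, gg S (fderiv ℝ s) t := by
    refine setIntegral_eq_integral_of_forall_compl_eq_zero fun t ht => hzero t ?_
    simp only [mem_ball, dist_zero_right, not_lt] at ht
    linarith
  rw [hint]
  have hfin := finite_bad hR' hdisc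
  set F : Finset ℂ := hfin.toFinset with hFdef
  have hF : ∀ t, t ∉ F → ¬ (t ∈ closedBall (0 : ℂ) R' ∧ ¬ (S t).Nodup) := by
    intro t ht h
    exact ht ((Set.Finite.mem_toFinset hfin).2 h)
  have hcs : HasCompactSupport (th S s) := by
    refine HasCompactSupport.intro (isCompact_closedBall (0 : ℂ) R') fun t ht => ?_
    refine th_zero h0 (le_of_lt ?_)
    simpa only [mem_closedBall, dist_zero_right, not_le] using ht
  have hcd : ∀ t, t ∉ F → ContDiffAt ℝ ∞ (th S s) t ∧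
      gg S (fderiv ℝ s) t = fderiv ℝ (th S s) t 1 I - fderiv ℝ (th S s) t I 1 := by
    intro t ht
    rcases lt_or_ge R' ‖t‖ with h | h
    · have hev : th S s =ᶠ[𝓝 t] fun _ => 0 := by
        filter_upwards [(isOpen_lt continuous_const continuous_norm).mem_nhds h] with y hy
          using th_zero h0 (le_of_lt hy)
      refine ⟨contDiffAt_const.congr_of_eventuallyEq hev, ?_⟩
      rw [hzero t h, hev.fderiv_eq]
      simp
    · have h1 := hF t ht
      have h2 : t ∈ closedBall (0 : ℂ) R' := by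
        simpa only [mem_closedBall, dist_zero_right] using h
      have h3 : (S t).Nodup := by
        by_contra hcon
        exact h1 ⟨h2, hcon⟩
      have h4 : t ∈ Usimp 0 ρ S := ⟨by
        simp only [mem_ball, dist_zero_right]; linarith, h3⟩
      have h5 := local_form hc hK hs h4
      exact ⟨h5.1, h5.2.1⟩
  have hFae : ∀ᵐ t : ℂ, t ∉ F := by
    have h2 := measure_eq_zero_iff_ae_notMem.1 (F.finite_toSet.measure_zero volume)
    filter_upwards [h2] with z hz using by simpa using hz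
  have hop : IsOpen ((F : Set ℂ)ᶜ) := F.finite_toSet.isClosed.isOpen_compl
  have hcdon : ContDiffOn ℝ 1 (th S s) ((F : Set ℂ)ᶜ) := by
    intro t ht
    exact ((hcd t (by simpa using ht)).1.of_le (by norm_cast)).contDiffWithinAt
  -- almost everywhere bounds
  have hnull := measure_eq_zero_iff_ae_notMem.1 hK.null
  have hloc : ∀ᵐ t : ℂ, t ∈ ball (0 : ℂ) ρ → (S t).card = k ∧ (∀ a ∈ S t, ‖s (t, a)‖ ≤ M₁) ∧
      (∀ a ∈ S t, ‖fderiv ℝ s (t, a)‖ ≤ M₂) ∧ ∀ a ∈ S t, ‖slope S t a‖ ^ 2 ≤ e t := by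
    filter_upwards [hbd, hnull] with t h1 h2 htb
    have h3 : (S t).Nodup := by
      by_contra hcon
      exact h2 ⟨htb, hcon⟩
    have h4 := (local_form hc hK hs (z₀ := t) ⟨htb, h3⟩).2.2
    have h5 : ∀ a ∈ S t, ((t, a) : ℂ × ℂ) ∈ closedBall (0 : ℂ) ρ ×ˢ closedBall (0 : ℂ) 1 := by
      intro a ha
      refine ⟨ball_subset_closedBall htb, ?_⟩
      simp only [mem_closedBall, dist_zero_right]
      exact h1 htb a ha
    exact ⟨hK.card t htb, fun a ha => hM₁ _ (h5 a ha), fun a ha => hM₂ _ (h5 a ha), h4⟩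
  set H : ℂ → ℝ := (ball (0 : ℂ) ρ).indicator fun t => 1 + e t with hHdef
  have hH : Integrable H := by
    refine IntegrableOn.integrable_indicator ?_ measurableSet_ball
    exact (integrableOn_const measure_ball_lt_top.ne).add hK.eint
  have hsq : ∀ t, (1 + Real.sqrt (e t)) ^ 2 ≤ 2 * (1 + e t) := by
    intro t
    have h1 := Real.sq_sqrt (hK.e0 t)
    nlinarith [sq_nonneg (1 - Real.sqrt (e t))]
  have haesm : AEStronglyMeasurable (th S s) volume := by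
    have h1 : AEStronglyMeasurable (th S s) (volume.restrict ((F : Set ℂ)ᶜ)) :=
      hcdon.continuousOn.aestronglyMeasurable hop.measurableSet
    have h2 : volume.restrict ((F : Set ℂ)ᶜ) = volume := by
      rw [Measure.restrict_eq_self_of_ae_mem]
      filter_upwards [hFae] with t ht
      simpa using ht
    rwa [h2] at h1
  have hL2 : MemLp (th S s) 2 volume := by
    rw [memLp_two_iff_integrable_sq_norm haesm]
    refine Integrable.mono' (hH.const_mul (2 * ((k : ℝ) * M₁) ^ 2)) (haesm.norm.pow 2) ?_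
    filter_upwards [hloc] with t ht
    rw [Real.norm_eq_abs, abs_of_nonneg (by positivity)]
    by_cases htb : t ∈ ball (0 : ℂ) ρ
    · obtain ⟨h1, h2, -, h4⟩ := ht htb
      have h5 := th_bound h1 h2 h4
      have h6 : ‖th S s t‖ ^ 2 ≤ ((k : ℝ) * (M₁ * (1 + Real.sqrt (e t)))) ^ 2 :=
        pow_le_pow_left₀ (norm_nonneg _) h5 2
      have h7 : H t = 1 + e t := indicator_of_mem htb _
      rw [h7]
      nlinarith [hsq t, sq_nonneg ((k : ℝ) * M₁)]
    · have h7 : H t = 0 := indicator_of_notMem htb _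
      have h8 : th S s t = 0 := by
        refine th_zero h0 ?_
        simp only [mem_ball, dist_zero_right, not_lt] at htb
        linarith
      rw [h7, h8]
      simp
  have hgi : Integrable (gg S (fderiv ℝ s)) volume := by
    have hgm : AEStronglyMeasurable (gg S (fderiv ℝ s)) volume := by
      have h1 : Measurable (fun t => fderiv ℝ (th S s) t 1 I - fderiv ℝ (th S s) t I 1) := by
        have e1 := (measurable_fderiv_apply_const ℝ (th S s) (1 : ℂ)).apply_continuousLinearMap I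
        have e2 := (measurable_fderiv_apply_const ℝ (th S s) I).apply_continuousLinearMap (1 : ℂ)
        exact e1.sub e2
      refine h1.aestronglyMeasurable.congr ?_
      filter_upwards [hFae] with t ht using (hcd t ht).2.symm
    refine Integrable.mono' (hH.const_mul (4 * (k : ℝ) * |M₂|)) hgm ?_
    filter_upwards [hloc] with t ht
    by_cases htb : t ∈ ball (0 : ℂ) ρ
    · obtain ⟨h1, -, h2, h4⟩ := ht htb
      have h5 := gg_bound h1 (fun a ha => (h2 a ha).trans (le_abs_self _)) h4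
      have h7 : H t = 1 + e t := indicator_of_mem htb _
      rw [h7]
      refine h5.trans ?_
      have h8 : 0 ≤ (k : ℝ) * |M₂| := by positivity
      nlinarith [hsq t]
    · have h7 : H t = 0 := indicator_of_notMem htb _
      have h8 : gg S (fderiv ℝ s) t = 0 := by
        refine hzero t ?_
        simp only [mem_ball, dist_zero_right, not_lt] at htb
        linarith
      rw [h7, h8]
      simp
  exact LocStokes_326.stokes (th S s) F (gg S (fderiv ℝ s)) hcs hcdon hL2 hgi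
    fun t ht => (hcd t ht).2

/-! ### the main formula -/

theorem msupp_snd {μ β : ℂ × ℂ → ℂ} {R : ℝ} {m : Measure (ℂ × ℂ)}
    {A : ℂ × ℂ → ℂ × ℂ} {C c : ℝ} (hm : Cyl μ β R m A C c) {x : ℂ × ℂ} (hx : x ∈ msupp m) :
    ‖x.2‖ ≤ 1 / 2 := by
  by_contra hcon
  push Not at hcon
  have h1 := hx (‖x.2‖ - 1 / 2) (by linarith)
  refine absurd ?_ h1.ne'
  rw [measure_eq_zero_iff_ae_notMem]
  filter_upwards [hm.carr] with y hy hyb
  rw [mem_ball, Prod.dist_eq, max_lt_iff] at hyb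
  have h2 := hyb.2
  rw [dist_eq_norm] at h2
  have h3 : ‖x.2‖ - ‖y.2‖ ≤ ‖y.2 - x.2‖ := by
    rw [norm_sub_rev]
    exact norm_sub_norm_le _ _
  linarith [hy.2]

theorem main {μ β : ℂ × ℂ → ℂ} {κ L : ℝ} (hc : Coef μ β κ L) {R : ℝ} {m : Measure (ℂ × ℂ)}
    {A : ℂ × ℂ → ℂ × ℂ} {C c : ℝ} (hm : Cyl μ β R m A C c) {k : ℕ} {T : ℂ → Finset ℂ}
    (hF : Fib μ β R m A k T) {C' b' : ℝ} {S : ℂ → Multiset ℂ}
    (hE : ExtF μ β R m A k T C' b' S)
    (hsl : ∀ᵐ t : ℂ, t ∈ ball (0 : ℂ) (R / 4) →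
      ∀ z ∈ S t, ∀ v, Loc.slope S t z v = sl μ β A (t, z) v)
    {b : ℂ × ℂ → (ℂ × ℂ →L[ℝ] ℂ × ℂ →L[ℝ] ℝ)} (hb : Continuous b) {R' : ℝ} (hR' : R' < R / 4)
    (h0 : ∀ x : ℂ × ℂ, R' ≤ ‖x.1‖ → b x = 0) :
    ∫ x, Q μ β b x (A x) ∂m =
      (∫ x in {x | (A x).1 = 0}, Q μ β b x (A x) ∂m) + ∫ t in ball (0 : ℂ) (R / 4), gg S b t := by
  have hμ1 : ∀ x, ‖μ x‖ < 1 := fun x => lt_of_le_of_lt (hc.bμ x) hc.κ1
  have hμm : Measurable μ := hc.smμ.continuous.measurable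
  have hβm : Measurable β := hc.smβ.continuous.measurable
  have hQi := Q_int hc hm hb
  have hZ : MeasurableSet {x | (A x).1 = 0} := hm.meas.fst (measurableSet_singleton 0)
  have hpt : ({x | (A x).1 = 0}ᶜ : Set (ℂ × ℂ)).indicator (fun x => Q μ β b x (A x)) =
      fun x => dn μ A x * G2 (b x) (sl μ β A x) := by
    funext x
    by_cases h : (A x).1 = 0
    · rw [indicator_of_notMem (by simpa using h)]
      simp [dn, h]
    · rw [indicator_of_mem (by simpa using h)]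
      exact Q_eq μ β A b x (hμ1 x) h
  have hci : Integrable (fun x => dn μ A x * G2 (b x) (sl μ β A x)) m := by
    rw [← hpt]
    exact hQi.indicator hZ.compl
  have hGi : Integrable (fun x => G2 (b x) (sl μ β A x)) (hor μ m A) :=
    (hor_integrable hμm hm.meas hμ1 _).2 hci
  rw [← integral_add_compl hZ hQi]
  congr 1
  rw [← integral_indicator hZ.compl, hpt, ← hor_int hμm hm.meas hμ1,
    (dis_real hF _ (meas_G2 hμm hβm hm.meas hb) hGi).2]
  have hRR : ball (0 : ℂ) (R / 4) ⊆ ball (0 : ℂ) R := ball_subset_ball (by linarith [hm.R0])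
  rw [setIntegral_eq_of_subset_of_forall_sdiff_eq_zero measurableSet_ball hRR]
  · refine setIntegral_congr_ae measurableSet_ball ?_
    filter_upwards [hsl, hE.ae] with t h1 h2 htb
    have h3 := h2 htb
    unfold gg
    rw [h3]
    refine (Finset.sum_congr rfl fun z hz => ?_)
    have h4 : z ∈ S t := by rw [h3]; exact hz
    have h5 : (fun v => Loc.slope S t z v) = sl μ β A (t, z) := funext fun v => h1 htb z h4 v
    show G2 (b (t, z)) (sl μ β A (t, z)) = G2 (b (t, z)) (fun v => Loc.slope S t z v)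
    rw [h5]
  · intro t ht
    refine Finset.sum_eq_zero fun z _ => ?_
    have h1 : R' ≤ ‖((t, z) : ℂ × ℂ).1‖ := by
      have := ht.2
      simp only [mem_ball, dist_zero_right, not_lt] at this
      show R' ≤ ‖t‖
      linarith
    rw [h0 (t, z) h1]
    simp [G2]

/-! ### the test form -/

/-- `L z = (v, w) ↦ (1/2) Im (conj z · w)`. -/
def Lf : ℂ →L[ℝ] (ℂ × ℂ →L[ℝ] ℝ) :=
  (reCLM.smulRight ((1 / 2 : ℝ) • imCLM.comp (ContinuousLinearMap.snd ℝ ℂ ℂ))) -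
    (imCLM.smulRight ((1 / 2 : ℝ) • reCLM.comp (ContinuousLinearMap.snd ℝ ℂ ℂ)))

theorem Lf_apply (z : ℂ) (x : ℂ × ℂ) : Lf z x = (z.re * x.2.im - z.im * x.2.re) / 2 := by
  simp only [Lf, sub_apply, ContinuousLinearMap.smulRight_apply, smul_apply,
    ContinuousLinearMap.comp_apply, reCLM_apply, imCLM_apply, ContinuousLinearMap.coe_snd',
    smul_eq_mul]
  ring

/-- the test form. -/
def sf (η : ℂ → ℝ) (x : ℂ × ℂ) : ℂ × ℂ →L[ℝ] ℝ := η x.1 • Lf x.2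

theorem sf_cd {η : ℂ → ℝ} (hη : ContDiff ℝ ∞ η) : ContDiff ℝ ∞ (sf η) :=
  (hη.comp contDiff_fst).smul (Lf.contDiff.comp contDiff_snd)

theorem sf_fd {η : ℂ → ℝ} (hη : ContDiff ℝ ∞ η) (x : ℂ × ℂ) (a c : ℂ) :
    fderiv ℝ (sf η) x (0, a) (0, c) = η x.1 * ((a.re * c.im - a.im * c.re) / 2) := by
  have h1 : HasFDerivAt (fun x : ℂ × ℂ => η x.1)
      ((fderiv ℝ η x.1).comp (ContinuousLinearMap.fst ℝ ℂ ℂ)) x :=
    ((hη.differentiable (by norm_num)) x.1).hasFDerivAt.comp x hasFDerivAt_fst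
  have h2 : HasFDerivAt (fun x : ℂ × ℂ => Lf x.2)
      (Lf.comp (ContinuousLinearMap.snd ℝ ℂ ℂ)) x :=
    Lf.hasFDerivAt.comp x hasFDerivAt_snd
  have h3 := (h1.smul h2).fderiv
  have h4 : sf η = (fun x : ℂ × ℂ => η x.1) • fun x : ℂ × ℂ => Lf x.2 := rfl
  rw [h4, h3]
  simp only [add_apply, smul_apply, ContinuousLinearMap.comp_apply,
    ContinuousLinearMap.coe_snd', ContinuousLinearMap.smulRight_apply,
    ContinuousLinearMap.coe_fst', map_zero, zero_smul, add_zero]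
  rw [Lf_apply, smul_eq_mul]

theorem Q_vert {μ β : ℂ × ℂ → ℂ} {A : ℂ × ℂ → ℂ × ℂ} {η : ℂ → ℝ} (hη : ContDiff ℝ ∞ η)
    {x : ℂ × ℂ} (hA : ‖(A x).1‖ ^ 2 + ‖(A x).2‖ ^ 2 = 1) (h : (A x).1 = 0) :
    Q μ β (fderiv ℝ (sf η)) x (A x) = η x.1 := by
  have e1 : vec (μ x) (β x) (A x) = (0, (A x).2) := by
    unfold vec
    rw [h]
    simp
  have e2 : vec (μ x) (β x) (I • A x) = (0, I * (A x).2) := by
    unfold vec
    have : (I • A x).1 = 0 := by
      show I * (A x).1 = 0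
      rw [h, mul_zero]
    rw [this]
    simp
  unfold Q
  rw [e1, e2, sf_fd hη, sf_fd hη]
  have h1 : ‖(A x).2‖ ^ 2 = 1 := by
    rw [h] at hA
    simpa using hA
  rw [← Complex.normSq_eq_norm_sq, Complex.normSq_apply] at h1
  simp only [Complex.mul_re, Complex.mul_im, Complex.I_re, Complex.I_im]
  linear_combination (η x.1) * h1

/-- (C15). -/
theorem novert (hsh : SHEET) : NOVERT := by
  intro μ β κ L hc R m A C c hm k T hF C' b' S e hE hK hdisc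
  have : IsFiniteMeasure m := ⟨hm.fin⟩
  have hsl := slope_ae hc hm hF hE hK hsh
  have hbd : ∀ᵐ t : ℂ, t ∈ ball (0 : ℂ) (R / 4) → ∀ a ∈ S t, ‖a‖ ≤ 1 := by
    filter_upwards [hE.ae, hF.good] with t h1 h2 htb a ha
    have htR : t ∈ ball (0 : ℂ) R := ball_subset_ball (by linarith [hm.R0]) htb
    have h3 : a ∈ (T t : Set ℂ) := by
      rw [h1 htb] at ha
      exact ha
    rw [(h2 htR).2.1] at h3
    have h4 := msupp_snd hm (x := (t, a)) h3
    simp only at h4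
    linarith
  have hZ : MeasurableSet {x | (A x).1 = 0} := hm.meas.fst (measurableSet_singleton 0)
  -- the vertical part is closed
  have hvz : ∀ η : ℂ → ℝ, ContDiff ℝ ∞ η → ∀ R' < R / 4, (∀ t, R' ≤ ‖t‖ → η t = 0) →
      ∫ x in {x | (A x).1 = 0}, η x.1 ∂m = 0 := by
    intro η hη R' hR' h0
    have hs := sf_cd hη
    have hs0 : ∀ x : ℂ × ℂ, R' ≤ ‖x.1‖ → sf η x = 0 := by
      intro x hx
      unfold sf
      rw [h0 x.1 hx, zero_smul]
    obtain ⟨R₁, h1, h2⟩ := exists_between hR'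
    have hfd0 : ∀ x : ℂ × ℂ, R₁ ≤ ‖x.1‖ → fderiv ℝ (sf η) x = 0 := fun x hx =>
      fd_zero hs0 (lt_of_lt_of_le h1 hx)
    have e1 := main hc hm hF hE hsl (hs.continuous_fderiv (by norm_num)) h2 hfd0
    have e2 := closed_G hc.toBoxD hK hdisc hbd hs hR' hs0
    have e3 := hm.closed (sf η) hs ⟨R', by linarith [hm.R0], hs0⟩
    have e4 : ∫ x, Q μ β (fderiv ℝ (sf η)) x (A x) ∂m = 0 := e3
    rw [e2, add_zero, e4] at e1
    rw [e1]
    refine setIntegral_congr_fun hZ fun x hx => ?_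
    exact (Q_vert hη (hm.unit x) hx).symm
  have hnull : m {x | x.1 ∈ ball (0 : ℂ) (R / 4) ∧ (A x).1 = 0} = 0 := by
    have hr : ∀ r : ℝ, 0 < r → r < R / 4 →
        m ({x | x.1 ∈ closedBall (0 : ℂ) r} ∩ {x | (A x).1 = 0}) = 0 := by
      intro r hr0 hr
      obtain ⟨R', h1, h2⟩ := exists_between hr
      let f : ContDiffBump (0 : ℂ) := ⟨r, R', hr0, h1⟩
      have h3 := hvz f f.contDiff R' h2 (fun t ht => f.zero_of_le_dist (by
        rw [dist_zero_right]; exact ht))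
      have hfi : Integrable (fun x : ℂ × ℂ => f x.1) (m.restrict {x | (A x).1 = 0}) := by
        refine Integrable.of_bound
          (f.continuous.comp continuous_fst).measurable.aestronglyMeasurable 1 ?_
        filter_upwards with x
        rw [Real.norm_eq_abs, abs_of_nonneg f.nonneg]
        exact f.le_one
      rw [integral_eq_zero_iff_of_nonneg (fun x => f.nonneg) hfi] at h3
      have h4 : ∀ᵐ x ∂(m.restrict {x | (A x).1 = 0}), x ∉ {x : ℂ × ℂ | x.1 ∈ closedBall (0 : ℂ) r} := by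
        filter_upwards [h3] with x hx hxr
        have : f x.1 = 1 := f.one_of_mem_closedBall hxr
        simp only [Pi.zero_apply] at hx
        rw [this] at hx
        exact one_ne_zero hx
      have h5 := measure_eq_zero_iff_ae_notMem.2 h4
      rwa [Measure.restrict_apply' hZ] at h5
    have hcov : {x | x.1 ∈ ball (0 : ℂ) (R / 4) ∧ (A x).1 = 0} ⊆
        ⋃ n : ℕ, ({x : ℂ × ℂ | x.1 ∈ closedBall (0 : ℂ) (R / 4 * (1 - 1 / ((n : ℝ) + 2)))} ∩
          {x | (A x).1 = 0}) := by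
      rintro x ⟨hx1, hx2⟩
      have hR0 := hm.R0
      simp only [mem_ball, dist_zero_right] at hx1
      obtain ⟨n, hn⟩ := exists_nat_gt (R / 4 / (R / 4 - ‖x.1‖))
      refine mem_iUnion.2 ⟨n, ?_, hx2⟩
      simp only [mem_ofPred_eq, mem_closedBall, dist_zero_right]
      have hd : 0 < R / 4 - ‖x.1‖ := by linarith
      rw [div_lt_iff₀ hd] at hn
      have h6 : R / 4 / ((n : ℝ) + 2) ≤ R / 4 - ‖x.1‖ := by
        rw [div_le_iff₀ (by positivity)]
        nlinarith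
      have h7 : R / 4 * (1 - 1 / ((n : ℝ) + 2)) = R / 4 - R / 4 / ((n : ℝ) + 2) := by ring
      rw [h7]
      linarith
    refine measure_mono_null hcov (measure_iUnion_null fun n => hr _ ?_ ?_)
    · have hR0 := hm.R0
      have h1 : 1 / ((n : ℝ) + 2) < 1 := by
        rw [div_lt_one (by positivity)]
        have : (0 : ℝ) ≤ n := Nat.cast_nonneg n
        linarith
      exact mul_pos (by linarith) (by linarith)
    · have hR0 := hm.R0
      have h1 : 0 < 1 / ((n : ℝ) + 2) := by positivity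
      nlinarith
  refine ⟨hnull, ?_⟩
  rintro b hb ⟨R', hR', h0⟩
  have e1 := main hc hm hF hE hsl hb hR' h0
  have e2 : ∫ x in {x | (A x).1 = 0}, Q μ β b x (A x) ∂m = 0 := by
    refine setIntegral_eq_zero_of_ae_eq_zero ?_
    have h3 := measure_eq_zero_iff_ae_notMem.1 hnull
    filter_upwards [h3] with x hx hxZ
    have h4 : R' ≤ ‖x.1‖ := by
      by_contra hcon
      push Not at hcon
      refine hx ⟨?_, hxZ⟩
      simp only [mem_ball, dist_zero_right]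
      linarith
    unfold Q
    rw [h0 x h4]
    simp
  rw [e2, zero_add] at e1
  exact e1

end

end Crest.Agent.R235.Cyl_NOVERT_712

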