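import Crest.Agent.R235.CylDef_522

/-!
Row 235, REG-CYL C02 NULLP (helper504): null sets have null projection (Vitali covering).
-/

set_option autoImplicit false

open MeasureTheory Metric Set Filter Complex
open scoped ContDiff Topology ComplexConjugate ENNReal

namespace Crest.Agent.R235.Cyl_NULLP_504

open Crest.Agent.R235.Loc Crest.Agent.R235.Cyl_522

noncomputable section

/-- Vitali: a null set `N` of a finite Borel measure with a quadratic lower bound has null
projection. -/
theorem nullp_core {m : Measure (ℂ × ℂ)} (hfin : m univ < ⊤) {R c : ℝ} (hc : 0 < c)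
    {G : Set (ℂ × ℂ)}
    (low : ∀ x ∈ G, ∀ ρ : ℝ, 0 < ρ → ‖x.1‖ + ρ < R → ENNReal.ofReal (c * ρ ^ 2) ≤ m (ball x ρ))
    {N : Set (ℂ × ℂ)} (hN : m N = 0) :
    volume {t : ℂ | t ∈ ball (0 : ℂ) R ∧ ∃ z, (t, z) ∈ N ∧ (t, z) ∈ G} = 0 := by
  have : IsFiniteMeasure m := ⟨hfin⟩
  set P : ℝ → Set ℂ := fun δ => {t : ℂ | ‖t‖ < R - δ ∧ ∃ z, (t, z) ∈ N ∧ (t, z) ∈ G} with hP
  have key : ∀ δ : ℝ, 0 < δ → volume (P δ) = 0 := by
    intro δ hδ
    have hbound : ∀ η : ℝ, 0 < η → volume (P δ) ≤ ENNReal.ofReal (25 * Real.pi / c * η) := by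
      intro η hη
      obtain ⟨O, hNO, hO, hmO⟩ := N.exists_isOpen_lt_of_lt (μ := m) (ENNReal.ofReal η)
        (by rw [hN]; exact ENNReal.ofReal_pos.2 hη)
      set t : Set (ℂ × ℂ) := {x | ‖x.1‖ < R - δ ∧ x ∈ N ∧ x ∈ G} with ht
      have hr : ∀ x : ℂ × ℂ, ∃ r : ℝ, x ∈ t → 0 < r ∧ r ≤ δ ∧ closedBall x r ⊆ O := by
        intro x
        by_cases hx : x ∈ t
        · obtain ⟨r, hr, hr'⟩ := Metric.nhds_basis_closedBall.mem_iff.1
            (hO.mem_nhds (hNO hx.2.1))
          exact ⟨min r δ, fun _ => ⟨lt_min hr hδ, min_le_right _ _,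
            (closedBall_subset_closedBall (min_le_left _ _)).trans hr'⟩⟩
        · exact ⟨0, fun h => absurd h hx⟩
      choose r hr using hr
      obtain ⟨u, hut, hdisj, hcov⟩ := Vitali.exists_disjoint_subfamily_covering_enlargement_closedBall
        t id r δ (fun a ha => (hr a ha).2.1) 5 (by norm_num)
      have hcount : u.Countable := by
        refine hdisj.countable_of_nonempty_interior fun a ha => ?_
        exact ⟨a, interior_mono ball_subset_closedBall
          (by rw [isOpen_ball.interior_eq]; exact mem_ball_self (hr a (hut ha)).1)⟩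
      have hsub : P δ ⊆ ⋃ a ∈ u, closedBall (a.1) (5 * r a) := by
        rintro s ⟨hs, z, hz, hz'⟩
        obtain ⟨b, hb, hsb⟩ := hcov (s, z) ⟨hs, hz, hz'⟩
        refine mem_iUnion₂.2 ⟨b, hb, ?_⟩
        have h1 : ((s, z) : ℂ × ℂ) ∈ closedBall (id b) (5 * r b) :=
          hsb (mem_closedBall_self (hr (s, z) ⟨hs, hz, hz'⟩).1.le)
        rw [mem_closedBall, Prod.dist_eq] at h1
        exact (le_max_left _ _).trans h1
      calc volume (P δ) ≤ volume (⋃ a ∈ u, closedBall (a.1) (5 * r a)) := measure_mono hsub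
        _ ≤ ∑' a : u, volume (closedBall (a : ℂ × ℂ).1 (5 * r a)) :=
            measure_biUnion_le volume hcount _
        _ ≤ ∑' a : u, ENNReal.ofReal (25 * Real.pi / c) * m (closedBall (a : ℂ × ℂ) (r a)) := by
            refine ENNReal.tsum_le_tsum fun a => ?_
            obtain ⟨h0, h1, h2⟩ := hr a (hut a.2)
            have h3 := low a (hut a.2).2.2 (r a) h0 (by have := (hut a.2).1; linarith)
            have h4 : volume (closedBall (a : ℂ × ℂ).1 (5 * r a)) =
                ENNReal.ofReal (25 * Real.pi / c) * ENNReal.ofReal (c * r a ^ 2) := by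
              rw [Complex.volume_closedBall, ← ENNReal.ofReal_mul (by positivity),
                ← ENNReal.ofReal_pow (by positivity)]
              have : (NNReal.pi : ℝ≥0∞) = ENNReal.ofReal Real.pi := by
                rw [ENNReal.ofReal, ← NNReal.coe_real_pi, Real.toNNReal_coe]
              rw [this, ← ENNReal.ofReal_mul (by positivity)]
              congr 1
              field_simp
              ring
            rw [h4]
            gcongr
            exact h3.trans (measure_mono ball_subset_closedBall)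
        _ = ENNReal.ofReal (25 * Real.pi / c) * ∑' a : u, m (closedBall (a : ℂ × ℂ) (r a)) :=
            ENNReal.tsum_mul_left
        _ = ENNReal.ofReal (25 * Real.pi / c) * m (⋃ a ∈ u, closedBall a (r a)) := by
            have hd : u.PairwiseDisjoint fun a => closedBall a (r a) := hdisj
            rw [measure_biUnion hcount hd fun _ _ => isClosed_closedBall.measurableSet]
        _ ≤ ENNReal.ofReal (25 * Real.pi / c) * m O := by
            gcongr
            exact iUnion₂_subset fun a ha => (hr a (hut ha)).2.2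
        _ ≤ ENNReal.ofReal (25 * Real.pi / c) * ENNReal.ofReal η := by gcongr
        _ = ENNReal.ofReal (25 * Real.pi / c * η) :=
            (ENNReal.ofReal_mul (by positivity)).symm
    by_contra hne
    have hlt : volume (P δ) < ⊤ := (hbound 1 one_pos).trans_lt ENNReal.ofReal_lt_top
    have hpos : 0 < (volume (P δ)).toReal := ENNReal.toReal_pos hne hlt.ne
    have h := hbound ((volume (P δ)).toReal / 2 / (25 * Real.pi / c)) (by positivity)
    rw [mul_div_cancel₀ _ (by positivity : (25 * Real.pi / c : ℝ) ≠ 0)] at h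
    have h2 := ENNReal.toReal_mono ENNReal.ofReal_ne_top h
    rw [ENNReal.toReal_ofReal (by positivity)] at h2
    linarith
  have hU : {t : ℂ | t ∈ ball (0 : ℂ) R ∧ ∃ z, (t, z) ∈ N ∧ (t, z) ∈ G} ⊆
      ⋃ n : ℕ, P (1 / (n + 1)) := by
    rintro t ⟨h1, h2⟩
    rw [mem_ball_zero_iff] at h1
    obtain ⟨n, hn⟩ := exists_nat_one_div_lt (sub_pos.2 h1)
    exact mem_iUnion.2 ⟨n, by show ‖t‖ < R - _; linarith, h2⟩
  exact measure_mono_null hU (measure_iUnion_null fun n => key _ (by positivity))

theorem nullp : NULLP := by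
  intro μ β κ L _ R m A C c hCyl N hN
  exact nullp_core hCyl.fin hCyl.c0 hCyl.low hN

end

end Crest.Agent.R235.Cyl_NULLP_504
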