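import Mathlib
import Crest.Agent.R235.CylDef_522

/-!
Row 235, PACKAGE REG, block CYL, leaf C08b (STK), helper303: Stokes in the vertical direction.

Reusable: `vec_rel`, `vec_det` (area of the projection), `E_eq` (an alternating base-fibre form on
the tangent plane), `fib_integral` (Bochner version of `Fib.dis`), `hor_integral`.
-/

set_option autoImplicit false

open MeasureTheory Metric Set Filter Complex
open scoped ContDiff Topology ComplexConjugate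

namespace Crest.Agent.R235.Cyl_STK_303

open Crest.Agent.R235.Loc Crest.Agent.R235.Cyl_522

noncomputable section

/-! ### pointwise algebra -/

theorem one_sub_pos {μ : ℂ} {κ : ℝ} (hκ : κ < 1) (hμ : ‖μ‖ ≤ κ) : 0 < 1 - ‖μ‖ ^ 2 := by
  have h0 : 0 ≤ ‖μ‖ := norm_nonneg μ
  nlinarith

theorem vec_rel (μ β : ℂ) (A : ℂ × ℂ) (h : 0 < 1 - ‖μ‖ ^ 2) :
    (vec μ β A).1 + μ * conj (vec μ β A).1 = A.1 := by
  have hD : ((1 - ‖μ‖ ^ 2 : ℝ) : ℂ) ≠ 0 := by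
    exact_mod_cast h.ne'
  have hm : μ * conj μ = ((‖μ‖ ^ 2 : ℝ) : ℂ) := by
    rw [Complex.mul_conj', Complex.ofReal_pow]
  simp only [vec, map_div₀, map_sub, map_mul, Complex.conj_conj, Complex.conj_ofReal]
  rw [← sub_eq_zero]
  have : (A.1 - μ * conj A.1) / ((1 - ‖μ‖ ^ 2 : ℝ) : ℂ) +
      μ * ((conj A.1 - conj μ * A.1) / ((1 - ‖μ‖ ^ 2 : ℝ) : ℂ)) - A.1 =
      (A.1 * ((1 - μ * conj μ) - ((1 - ‖μ‖ ^ 2 : ℝ) : ℂ))) / ((1 - ‖μ‖ ^ 2 : ℝ) : ℂ) := by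
    field_simp
    ring
  rw [this, hm]
  simp

theorem vec_snd (μ β : ℂ) (A : ℂ × ℂ) : (vec μ β A).2 = A.2 - β * conj (vec μ β A).1 := rfl

theorem det_aux (a b m n D : ℝ) (hD : D = 1 - (m ^ 2 + n ^ 2)) (hD0 : D ≠ 0) :
    (conj (((⟨a, b⟩ : ℂ) - ⟨m, n⟩ * conj (⟨a, b⟩ : ℂ)) / ((D : ℝ) : ℂ)) *
      ((I * ⟨a, b⟩ - ⟨m, n⟩ * conj (I * (⟨a, b⟩ : ℂ))) / ((D : ℝ) : ℂ))).im =
      (a ^ 2 + b ^ 2) / D := by
  rw [map_div₀, Complex.conj_ofReal, div_mul_div_comm]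
  rw [show (((D : ℝ) : ℂ) * ((D : ℝ) : ℂ)) = ((D * D : ℝ) : ℂ) by push_cast; ring,
    Complex.div_ofReal_im]
  rw [div_eq_div_iff (mul_ne_zero hD0 hD0) hD0]
  simp only [map_sub, map_mul, Complex.conj_conj, Complex.mul_im, Complex.mul_re, Complex.sub_re,
    Complex.sub_im, Complex.conj_re, Complex.conj_im, Complex.I_re, Complex.I_im]
  rw [hD]
  ring

theorem vec_det (μ β : ℂ) (A : ℂ × ℂ) (h : 0 < 1 - ‖μ‖ ^ 2) :
    (conj (vec μ β A).1 * (vec μ β (I • A)).1).im = ‖A.1‖ ^ 2 / (1 - ‖μ‖ ^ 2) := by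
  obtain ⟨⟨a, b⟩, B⟩ := A
  obtain ⟨m, n⟩ := μ
  have h1 : ‖(⟨m, n⟩ : ℂ)‖ ^ 2 = m ^ 2 + n ^ 2 := by
    rw [Complex.sq_norm, Complex.normSq_mk]; ring
  have h2 : ‖(⟨a, b⟩ : ℂ)‖ ^ 2 = a ^ 2 + b ^ 2 := by
    rw [Complex.sq_norm, Complex.normSq_mk]; ring
  have h3 := det_aux a b m n (1 - ‖(⟨m, n⟩ : ℂ)‖ ^ 2) (by rw [h1]) h.ne'
  simp only [vec, Prod.smul_mk, smul_eq_mul]
  rw [h3, h2]

/-- the graph map. -/
def Sg (μ β : ℂ) (A : ℂ × ℂ) (v : ℂ) : ℂ :=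
  A.2 / A.1 * v + (A.2 / A.1 * μ - β) * conj v

theorem vec_snd_eq (μ β : ℂ) (A : ℂ × ℂ) (h : 0 < 1 - ‖μ‖ ^ 2) (hA : A.1 ≠ 0) :
    (vec μ β A).2 = Sg μ β A (vec μ β A).1 := by
  have h1 := vec_rel μ β A h
  rw [vec_snd, Sg]
  have : A.2 = A.2 / A.1 * A.1 := by field_simp
  calc A.2 - β * conj (vec μ β A).1 = A.2 / A.1 * A.1 - β * conj (vec μ β A).1 := by rw [← this]
    _ = A.2 / A.1 * ((vec μ β A).1 + μ * conj (vec μ β A).1) - β * conj (vec μ β A).1 := by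
        rw [h1]
    _ = _ := by ring

theorem vec_snd_eq' (μ β : ℂ) (A : ℂ × ℂ) (h : 0 < 1 - ‖μ‖ ^ 2) (hA : A.1 ≠ 0) :
    (vec μ β (I • A)).2 = Sg μ β A (vec μ β (I • A)).1 := by
  have h2 : (I • A).1 ≠ 0 := by
    simp [hA]
  rw [vec_snd_eq μ β (I • A) h h2]
  have : (I • A).2 / (I • A).1 = A.2 / A.1 := by
    simp only [Prod.smul_fst, Prod.smul_snd, smul_eq_mul]
    rw [mul_div_mul_left _ _ Complex.I_ne_zero]
  simp only [Sg, this]

theorem Sg_eq (μ β : ℂ) (A : ℂ × ℂ) (v : ℂ) :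
    Sg μ β A v = (v.re : ℂ) * Sg μ β A 1 + (v.im : ℂ) * Sg μ β A I := by
  have hv : v = (v.re : ℂ) + (v.im : ℂ) * I := (Complex.re_add_im v).symm
  have hc : conj v = (v.re : ℂ) - (v.im : ℂ) * I := by
    apply Complex.ext <;> simp
  simp only [Sg, map_one, Complex.conj_I, hc]
  conv_lhs => rw [hv]
  simp only [Complex.add_re, Complex.ofReal_re, Complex.mul_re, Complex.I_re, mul_zero,
    Complex.ofReal_im, Complex.I_im, mul_one, sub_self, add_zero, Complex.add_im, Complex.mul_im,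
    zero_add]
  ring

theorem lin_eq (a : ℂ →L[ℝ] ℝ) (v : ℂ) : a v = v.re * a 1 + v.im * a I := by
  have hv : v = v.re • (1 : ℂ) + v.im • I := by
    apply Complex.ext <;> simp
  conv_lhs => rw [hv]
  rw [map_add, map_smul, map_smul, smul_eq_mul, smul_eq_mul]

/-- the base-fibre form on the tangent plane. -/
theorem E_eq (μ β : ℂ) (A : ℂ × ℂ) (h : 0 < 1 - ‖μ‖ ^ 2) (a : ℂ →L[ℝ] ℝ) (z : ℂ) :
    a (vec μ β A).1 * (conj z * (vec μ β (I • A)).2).im -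
      a (vec μ β (I • A)).1 * (conj z * (vec μ β A).2).im =
    ‖A.1‖ ^ 2 / (1 - ‖μ‖ ^ 2) *
      (a 1 * (conj z * Sg μ β A I).im - a I * (conj z * Sg μ β A 1).im) := by
  by_cases hA : A.1 = 0
  · have h1 : (vec μ β A).1 = 0 := by simp [vec, hA]
    have h2 : (vec μ β (I • A)).1 = 0 := by simp [vec, hA]
    rw [h1, h2, hA]
    simp
  · rw [← vec_det μ β A h, vec_snd_eq μ β A h hA, vec_snd_eq' μ β A h hA]
    set v := (vec μ β A).1 with hv
    set v' := (vec μ β (I • A)).1 with hv'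
    have h1 : ∀ u : ℂ, (conj z * Sg μ β A u).im =
        u.re * (conj z * Sg μ β A 1).im + u.im * (conj z * Sg μ β A I).im := by
      intro u
      rw [Sg_eq μ β A u]
      rw [show conj z * ((u.re : ℂ) * Sg μ β A 1 + (u.im : ℂ) * Sg μ β A I) =
        (u.re : ℂ) * (conj z * Sg μ β A 1) + (u.im : ℂ) * (conj z * Sg μ β A I) by ring]
      rw [Complex.add_im, Complex.im_ofReal_mul, Complex.im_ofReal_mul]
    rw [h1 v, h1 v', lin_eq a v, lin_eq a v']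
    rw [show (conj v * v').im = v.re * v'.im - v.im * v'.re by
      rw [Complex.mul_im, Complex.conj_re, Complex.conj_im]; ring]
    ring

theorem norm_vec_fst (μ β : ℂ) (A : ℂ × ℂ) {κ : ℝ} (hκ : κ < 1) (hμ : ‖μ‖ ≤ κ) :
    ‖(vec μ β A).1‖ ≤ ‖A.1‖ / (1 - κ) := by
  have h := one_sub_pos hκ hμ
  have h0 : 0 ≤ ‖μ‖ := norm_nonneg μ
  have h1 : ‖(vec μ β A).1‖ ≤ ‖A.1‖ + ‖μ‖ * ‖(vec μ β A).1‖ := by
    have e : (vec μ β A).1 = A.1 - μ * conj (vec μ β A).1 := by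
      linear_combination vec_rel μ β A h
    calc ‖(vec μ β A).1‖ = ‖A.1 - μ * conj (vec μ β A).1‖ := by rw [← e]
      _ ≤ ‖A.1‖ + ‖μ * conj (vec μ β A).1‖ := norm_sub_le _ _
      _ = _ := by rw [norm_mul, Complex.norm_conj]
  rw [le_div_iff₀ (by linarith)]
  have h2 : ‖μ‖ * ‖(vec μ β A).1‖ ≤ κ * ‖(vec μ β A).1‖ :=
    mul_le_mul_of_nonneg_right hμ (norm_nonneg _)
  nlinarith

theorem om_eq (μ β : ℂ) (A : ℂ × ℂ) :
    (conj (vec μ β A).2 * (vec μ β (I • A)).2).im =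
      ‖A.2‖ ^ 2 - (conj A.2 * (β * conj (vec μ β (I • A)).1)).im
        - (conj (β * conj (vec μ β A).1) * (I * A.2)).im
        + (conj (β * conj (vec μ β A).1) * (β * conj (vec μ β (I • A)).1)).im := by
  have e : (conj A.2 * (I * A.2)).im = ‖A.2‖ ^ 2 := by
    rw [Complex.sq_norm, Complex.normSq_apply]
    simp only [Complex.mul_im, Complex.mul_re, Complex.conj_re, Complex.conj_im, Complex.I_re,
      Complex.I_im]
    ring
  rw [vec_snd, vec_snd, ← e]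
  simp only [map_sub, Prod.smul_snd, smul_eq_mul]
  rw [show (conj A.2 - conj (β * conj (vec μ β A).1)) *
      (I * A.2 - β * conj (vec μ β (I • A)).1) =
      conj A.2 * (I * A.2) - conj A.2 * (β * conj (vec μ β (I • A)).1)
        - conj (β * conj (vec μ β A).1) * (I * A.2)
        + conj (β * conj (vec μ β A).1) * (β * conj (vec μ β (I • A)).1) by ring]
  simp only [Complex.add_im, Complex.sub_im]

theorem om_lower (μ β : ℂ) (A : ℂ × ℂ) {κ B : ℝ} (hκ : κ < 1) (hμ : ‖μ‖ ≤ κ) (hβ : ‖β‖ ≤ B) :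
    ‖A.2‖ ^ 2 / 2 - 3 * B ^ 2 * (‖A.1‖ / (1 - κ)) ^ 2 ≤
      (conj (vec μ β A).2 * (vec μ β (I • A)).2).im := by
  set q := ‖A.1‖ / (1 - κ) with hq
  have hq0 : 0 ≤ q := div_nonneg (norm_nonneg _) (by linarith)
  have h1 : ‖(vec μ β A).1‖ ≤ q := norm_vec_fst μ β A hκ hμ
  have h2 : ‖(vec μ β (I • A)).1‖ ≤ q := by
    have := norm_vec_fst μ β (I • A) hκ hμ
    simpa [norm_mul] using this
  have hB0 : 0 ≤ B := le_trans (norm_nonneg _) hβ
  have b1 : ‖β * conj (vec μ β A).1‖ ≤ B * q := by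
    rw [norm_mul, Complex.norm_conj]
    exact mul_le_mul hβ h1 (norm_nonneg _) hB0
  have b2 : ‖β * conj (vec μ β (I • A)).1‖ ≤ B * q := by
    rw [norm_mul, Complex.norm_conj]
    exact mul_le_mul hβ h2 (norm_nonneg _) hB0
  have t1 : (conj A.2 * (β * conj (vec μ β (I • A)).1)).im ≤ ‖A.2‖ * (B * q) := by
    refine (le_trans (le_abs_self _) (Complex.abs_im_le_norm _)).trans ?_
    rw [norm_mul, Complex.norm_conj]
    exact mul_le_mul_of_nonneg_left b2 (norm_nonneg _)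
  have t2 : (conj (β * conj (vec μ β A).1) * (I * A.2)).im ≤ ‖A.2‖ * (B * q) := by
    refine (le_trans (le_abs_self _) (Complex.abs_im_le_norm _)).trans ?_
    have hp : ∀ p : ℂ, ‖conj p * (I * A.2)‖ = ‖A.2‖ * ‖p‖ := fun p => by
      rw [norm_mul, Complex.norm_conj, norm_mul, Complex.norm_I, one_mul, mul_comm]
    rw [hp]
    exact mul_le_mul_of_nonneg_left b1 (norm_nonneg _)
  have t3 : -((B * q) * (B * q)) ≤
      (conj (β * conj (vec μ β A).1) * (β * conj (vec μ β (I • A)).1)).im := by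
    have : |(conj (β * conj (vec μ β A).1) * (β * conj (vec μ β (I • A)).1)).im| ≤
        (B * q) * (B * q) := by
      refine (Complex.abs_im_le_norm _).trans ?_
      rw [norm_mul, Complex.norm_conj]
      exact mul_le_mul b1 b2 (norm_nonneg _) (mul_nonneg hB0 hq0)
    exact (abs_le.1 this).1
  rw [om_eq]
  nlinarith [sq_nonneg (‖A.2‖ / 2 - B * q * 1), sq_nonneg (‖A.2‖ - 2 * (B * q)),
    norm_nonneg A.2, mul_nonneg hB0 hq0]

/-- the pointwise inequality. -/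
theorem unit_le (μ β : ℂ) (A : ℂ × ℂ) {κ B : ℝ} (hκ : κ < 1) (hμ : ‖μ‖ ≤ κ) (hβ : ‖β‖ ≤ B)
    (hA : ‖A.1‖ ^ 2 + ‖A.2‖ ^ 2 = 1) :
    1 ≤ 2 * (conj (vec μ β A).2 * (vec μ β (I • A)).2).im +
      (1 + 6 * B ^ 2 / (1 - κ) ^ 2) * (‖A.1‖ ^ 2 / (1 - ‖μ‖ ^ 2)) := by
  have h := one_sub_pos hκ hμ
  have h1 := om_lower μ β A hκ hμ hβ
  have h2 : ‖A.1‖ ^ 2 ≤ ‖A.1‖ ^ 2 / (1 - ‖μ‖ ^ 2) := by
    rw [le_div_iff₀ h]
    nlinarith [sq_nonneg ‖A.1‖, sq_nonneg ‖μ‖, mul_nonneg (sq_nonneg ‖A.1‖) (sq_nonneg ‖μ‖)]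
  have h3 : (1 + 6 * B ^ 2 / (1 - κ) ^ 2) * ‖A.1‖ ^ 2 ≤
      (1 + 6 * B ^ 2 / (1 - κ) ^ 2) * (‖A.1‖ ^ 2 / (1 - ‖μ‖ ^ 2)) :=
    mul_le_mul_of_nonneg_left h2 (by positivity)
  have h4 : 3 * B ^ 2 * (‖A.1‖ / (1 - κ)) ^ 2 = 3 * B ^ 2 / (1 - κ) ^ 2 * ‖A.1‖ ^ 2 := by
    rw [div_pow]; ring
  have h5 : (1 + 6 * B ^ 2 / (1 - κ) ^ 2) * ‖A.1‖ ^ 2 =
      ‖A.1‖ ^ 2 + 2 * (3 * B ^ 2 / (1 - κ) ^ 2 * ‖A.1‖ ^ 2) := by ring
  nlinarith

/-! ### the one-form -/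

/-- `z ↦ (u ↦ Im (z̄ u₂))`. -/
def Lam : ℂ →L[ℝ] (ℂ × ℂ →L[ℝ] ℝ) :=
  (ContinuousLinearMap.compL ℝ (ℂ × ℂ) ℂ ℝ Complex.imCLM).comp
    (((ContinuousLinearMap.compL ℝ (ℂ × ℂ) ℂ ℂ).flip (ContinuousLinearMap.snd ℝ ℂ ℂ)).comp
      ((ContinuousLinearMap.mul ℝ ℂ).comp (Complex.conjCLE : ℂ →L[ℝ] ℂ)))

@[simp] theorem Lam_apply (z : ℂ) (u : ℂ × ℂ) : Lam z u = (conj z * u.2).im := by
  simp [Lam]

/-- the one-form `η(t) (1/2) Im (z̄ dz)`. -/
def form (η : ℂ → ℝ) (x : ℂ × ℂ) : ℂ × ℂ →L[ℝ] ℝ := (η x.1 / 2) • Lam x.2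

theorem form_contDiff {η : ℂ → ℝ} (hη : ContDiff ℝ ∞ η) : ContDiff ℝ ∞ (form η) := by
  unfold form
  exact ((hη.comp contDiff_fst).div_const 2).smul (Lam.contDiff.comp contDiff_snd)

theorem form_fderiv {η : ℂ → ℝ} (hη : ContDiff ℝ ∞ η) (x V u : ℂ × ℂ) :
    fderiv ℝ (form η) x V u = (fderiv ℝ η x.1 V.1) / 2 * (conj x.2 * u.2).im +
      η x.1 / 2 * (conj V.2 * u.2).im := by
  have h1 : HasFDerivAt (fun x : ℂ × ℂ => η x.1 / 2)
      ((2 : ℝ)⁻¹ • (fderiv ℝ η x.1).comp (ContinuousLinearMap.fst ℝ ℂ ℂ)) x := by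
    have := ((hη.differentiable (by simp)) x.1).hasFDerivAt.comp x
      (hasFDerivAt_fst (𝕜 := ℝ) (p := x))
    have h := this.const_mul (2 : ℝ)⁻¹
    refine h.congr_of_eventuallyEq (Filter.Eventually.of_forall fun y => ?_)
    simp [div_eq_inv_mul]
  have h2 : HasFDerivAt (fun x : ℂ × ℂ => Lam x.2)
      (Lam.comp (ContinuousLinearMap.snd ℝ ℂ ℂ)) x :=
    Lam.hasFDerivAt.comp x (hasFDerivAt_snd (𝕜 := ℝ) (p := x))
  have h3 := h1.smul h2
  have h4 : fderiv ℝ (form η) x = _ := h3.fderiv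
  rw [h4]
  simp
  ring

theorem dS_form (μ β : ℂ × ℂ → ℂ) (A : ℂ × ℂ → ℂ × ℂ) {η : ℂ → ℝ} (hη : ContDiff ℝ ∞ η)
    (x : ℂ × ℂ) (h : 0 < 1 - ‖μ x‖ ^ 2) :
    dS μ β A (form η) x = (1 / 2) * (‖(A x).1‖ ^ 2 / (1 - ‖μ x‖ ^ 2) *
        (fderiv ℝ η x.1 1 * (conj x.2 * Sg (μ x) (β x) (A x) I).im -
          fderiv ℝ η x.1 I * (conj x.2 * Sg (μ x) (β x) (A x) 1).im)) +
      η x.1 * (conj (vec (μ x) (β x) (A x)).2 * (vec (μ x) (β x) (I • A x)).2).im := by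
  rw [dS, form_fderiv hη, form_fderiv hη, ← E_eq (μ x) (β x) (A x) h]
  have : (conj (vec (μ x) (β x) (I • A x)).2 * (vec (μ x) (β x) (A x)).2).im =
      -(conj (vec (μ x) (β x) (A x)).2 * (vec (μ x) (β x) (I • A x)).2).im := by
    simp only [Complex.mul_im, Complex.conj_re, Complex.conj_im]; ring
  rw [this]
  ring

/-! ### integration over the fibres -/

theorem fib_integral {μ β : ℂ × ℂ → ℂ} {R : ℝ} {m : Measure (ℂ × ℂ)} {A : ℂ × ℂ → ℂ × ℂ} {k : ℕ}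
    {T : ℂ → Finset ℂ} (hF : Fib μ β R m A k T) (G : ℂ × ℂ → ℝ) (hG : Measurable G)
    (hi : Integrable G (hor μ m A)) :
    IntegrableOn (fun t => ∑ z ∈ T t, G (t, z)) (ball 0 R) ∧
    ∫ x, G x ∂(hor μ m A) = ∫ t in ball (0 : ℂ) R, ∑ z ∈ T t, G (t, z) := by
  have key : ∀ g : ℂ × ℂ → ℝ, Measurable g → Integrable g (hor μ m A) →
      IntegrableOn (fun t => ∑ z ∈ T t, max (g (t, z)) 0) (ball 0 R) ∧
      (∫⁻ x, ENNReal.ofReal (g x) ∂(hor μ m A)).toReal =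
        ∫ t in ball (0 : ℂ) R, ∑ z ∈ T t, max (g (t, z)) 0 := by
    intro g hg hgi
    obtain ⟨h1, h2⟩ := hF.dis (fun x => ENNReal.ofReal (g x)) (ENNReal.measurable_ofReal.comp hg)
    have hfin : ∫⁻ t in ball (0 : ℂ) R, ∑ z ∈ T t, ENNReal.ofReal (g (t, z)) ≠ ⊤ := by
      rw [← h2]
      exact (hgi.lintegral_lt_top).ne
    have he : ∀ t, (∑ z ∈ T t, ENNReal.ofReal (g (t, z))).toReal =
        ∑ z ∈ T t, max (g (t, z)) 0 := by
      intro t
      rw [ENNReal.toReal_sum (fun z _ => ENNReal.ofReal_ne_top)]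
      exact Finset.sum_congr rfl fun z _ => ENNReal.toReal_ofReal'
    have h3 := integrable_toReal_of_lintegral_ne_top h1 hfin
    have h4 := integral_toReal h1 (ae_lt_top' h1 hfin)
    simp only [he] at h3 h4
    refine ⟨h3, ?_⟩
    rw [h4, h2]
  obtain ⟨p1, p2⟩ := key G hG hi
  obtain ⟨n1, n2⟩ := key (fun x => - G x) hG.neg hi.neg
  have hs : ∀ t, ∑ z ∈ T t, G (t, z) =
      (∑ z ∈ T t, max (G (t, z)) 0) - ∑ z ∈ T t, max (- G (t, z)) 0 := by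
    intro t
    rw [← Finset.sum_sub_distrib]
    refine Finset.sum_congr rfl fun z _ => ?_
    rw [max_comm, max_comm (- G (t, z))]
    rcases le_total 0 (G (t, z)) with h | h
    · rw [max_eq_right h, max_eq_left (by linarith)]; ring
    · rw [max_eq_left h, max_eq_right (by linarith)]; ring
  simp only [hs]
  refine ⟨p1.sub n1, ?_⟩
  rw [integral_sub p1 n1, ← p2, ← n2]
  exact integral_eq_lintegral_pos_part_sub_lintegral_neg_part hi

theorem hor_integral {μ : ℂ × ℂ → ℂ} {m : Measure (ℂ × ℂ)} {A : ℂ × ℂ → ℂ × ℂ}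
    (hμ : Measurable μ) (hA : Measurable A) (h : ∀ x, 0 < 1 - ‖μ x‖ ^ 2) (G : ℂ × ℂ → ℝ) :
    (Integrable G (hor μ m A) ↔
      Integrable (fun x => ‖(A x).1‖ ^ 2 / (1 - ‖μ x‖ ^ 2) * G x) m) ∧
    ∫ x, G x ∂(hor μ m A) = ∫ x, ‖(A x).1‖ ^ 2 / (1 - ‖μ x‖ ^ 2) * G x ∂m := by
  have hρ : Measurable fun x => ENNReal.ofReal (‖(A x).1‖ ^ 2 / (1 - ‖μ x‖ ^ 2)) :=
    ENNReal.measurable_ofReal.comp
      ((hA.fst.norm.pow_const 2).div (measurable_const.sub (hμ.norm.pow_const 2)))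
  have hfin : ∀ᵐ x ∂m, ENNReal.ofReal (‖(A x).1‖ ^ 2 / (1 - ‖μ x‖ ^ 2)) < ⊤ :=
    Filter.Eventually.of_forall fun x => ENNReal.ofReal_lt_top
  have e : ∀ x, (ENNReal.ofReal (‖(A x).1‖ ^ 2 / (1 - ‖μ x‖ ^ 2))).toReal • G x =
      ‖(A x).1‖ ^ 2 / (1 - ‖μ x‖ ^ 2) * G x := fun x => by
    rw [ENNReal.toReal_ofReal (div_nonneg (sq_nonneg _) (h x).le), smul_eq_mul]
  constructor
  · rw [hor, integrable_withDensity_iff_integrable_smul' hρ hfin]
    simp only [e]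
  · rw [hor, integral_withDensity_eq_integral_toReal_smul hρ hfin]
    simp only [e]

theorem Sg_meas {μ β : ℂ × ℂ → ℂ} {A : ℂ × ℂ → ℂ × ℂ} (hμ : Measurable μ) (hβ : Measurable β)
    (hA : Measurable A) (v : ℂ) : Measurable fun x => Sg (μ x) (β x) (A x) v := by
  unfold Sg
  exact ((hA.snd.div hA.fst).mul_const v).add
    ((((hA.snd.div hA.fst).mul hμ).sub hβ).mul_const (conj v))

theorem vec_meas {μ β : ℂ × ℂ → ℂ} {A : ℂ × ℂ → ℂ × ℂ} (hμ : Measurable μ) (hβ : Measurable β)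
    (hA : Measurable A) : Measurable fun x => vec (μ x) (β x) (A x) := by
  have hc : Measurable (fun z : ℂ => conj z) := Complex.continuous_conj.measurable
  have h1 : Measurable fun x : ℂ × ℂ => ((A x).1 - μ x * conj (A x).1) /
      ((1 - ‖μ x‖ ^ 2 : ℝ) : ℂ) :=
    (hA.fst.sub (hμ.mul (hc.comp hA.fst))).div
      (Complex.measurable_ofReal.comp (measurable_const.sub (hμ.norm.pow_const 2)))
  exact h1.prodMk (hA.snd.sub (hβ.mul (hc.comp h1)))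

theorem norm_vec_snd (μ β : ℂ) (A : ℂ × ℂ) {κ B : ℝ} (hκ : κ < 1) (hμ : ‖μ‖ ≤ κ) (hβ : ‖β‖ ≤ B) :
    ‖(vec μ β A).2‖ ≤ ‖A.2‖ + B * (‖A.1‖ / (1 - κ)) := by
  have hB0 : 0 ≤ B := le_trans (norm_nonneg _) hβ
  rw [vec_snd]
  refine (norm_sub_le _ _).trans ?_
  rw [norm_mul, Complex.norm_conj]
  exact add_le_add le_rfl (mul_le_mul hβ (norm_vec_fst μ β A hκ hμ) (norm_nonneg _) hB0)

/-- **(C08') Stokes in the vertical direction.** -/
theorem stk : STK := by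
  intro μ β κ L hcoef
  have hκ := hcoef.κ1
  have hμκ := hcoef.bμ
  have hpos : ∀ x, 0 < 1 - ‖μ x‖ ^ 2 := fun x => one_sub_pos hκ (hμκ x)
  have hμm : Measurable μ := hcoef.smμ.continuous.measurable
  have hβm : Measurable β := hcoef.smβ.continuous.measurable
  set B : ℝ := ‖β 0‖ + L with hB
  have hL := hcoef.L0
  set K : ℝ := 1 + 6 * B ^ 2 / (1 - κ) ^ 2 with hK
  have hK1 : 1 ≤ K := by
    have : 0 ≤ 6 * B ^ 2 / (1 - κ) ^ 2 := by positivity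
    linarith
  refine ⟨K, by linarith, ?_⟩
  intro R m A C c hC k T hF η hη hηc hηs hη0
  have : IsFiniteMeasure m := ⟨hC.fin⟩
  have hAm := hC.meas
  -- bounds on the cylinder
  have hβB : ∀ᵐ x ∂m, ‖β x‖ ≤ B := by
    filter_upwards [hC.carr] with x hx
    have h1 : ‖β x - β 0‖ ≤ L * ‖x - 0‖ := hcoef.lipβ x 0
    have h2 : ‖x - 0‖ ≤ 1 := by
      rw [sub_zero, Prod.norm_def]
      exact max_le (hx.1.le.trans hC.R1) (hx.2.trans (by norm_num))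
    have h3 : ‖β x‖ ≤ ‖β 0‖ + ‖β x - β 0‖ := by
      calc ‖β x‖ = ‖β 0 + (β x - β 0)‖ := by ring_nf
        _ ≤ _ := norm_add_le _ _
    have h4 : L * ‖x - 0‖ ≤ L * 1 := mul_le_mul_of_nonneg_left h2 hL
    linarith
  have hA1 : ∀ x, ‖(A x).1‖ ≤ 1 := fun x => by
    have := hC.unit x
    nlinarith [sq_nonneg ‖(A x).2‖, norm_nonneg (A x).1]
  have hA2 : ∀ x, ‖(A x).2‖ ≤ 1 := fun x => by
    have := hC.unit x
    nlinarith [sq_nonneg ‖(A x).1‖, norm_nonneg (A x).2]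
  -- bounds on `η`
  obtain ⟨M0, hM0⟩ : ∃ M, ∀ t, ‖η t‖ ≤ M := hη.continuous.bounded_above_of_compact_support hηc
  have hdc : Continuous (fderiv ℝ η) := hη.continuous_fderiv (by simp)
  obtain ⟨M1, hM1⟩ : ∃ M, ∀ t, ‖fderiv ℝ η t‖ ≤ M :=
    hdc.bounded_above_of_compact_support (hηc.fderiv (𝕜 := ℝ))
  have hM1' : 0 ≤ M1 := le_trans (norm_nonneg _) (hM1 0)
  -- the functions
  set ρ : ℂ × ℂ → ℝ := fun x => ‖(A x).1‖ ^ 2 / (1 - ‖μ x‖ ^ 2) with hρ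
  set G : ℂ × ℂ → ℝ := fun x => fderiv ℝ η x.1 1 * (conj x.2 * Sg (μ x) (β x) (A x) I).im -
          fderiv ℝ η x.1 I * (conj x.2 * Sg (μ x) (β x) (A x) 1).im with hG
  set om : ℂ × ℂ → ℝ := fun x =>
    (conj (vec (μ x) (β x) (A x)).2 * (vec (μ x) (β x) (I • A x)).2).im with hom
  have hc : Measurable (fun z : ℂ => conj z) := Complex.continuous_conj.measurable
  have hIA : Measurable fun x => I • A x := hAm.const_smul I
  have homm : Measurable om :=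
    Complex.measurable_im.comp ((hc.comp (vec_meas hμm hβm hAm).snd).mul
      (vec_meas hμm hβm hIA).snd)
  have hηm : Measurable fun x : ℂ × ℂ => η x.1 := hη.continuous.measurable.comp measurable_fst
  have hdm : ∀ v : ℂ, Measurable fun x : ℂ × ℂ => fderiv ℝ η x.1 v := fun v =>
    ((hdc.clm_apply continuous_const).measurable).comp measurable_fst
  have hGm : Measurable G :=
    ((hdm 1).mul (Complex.measurable_im.comp ((hc.comp measurable_snd).mul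
      (Sg_meas hμm hβm hAm I)))).sub
    ((hdm I).mul (Complex.measurable_im.comp ((hc.comp measurable_snd).mul
      (Sg_meas hμm hβm hAm 1))))
  have hρm : Measurable ρ :=
    (hAm.fst.norm.pow_const 2).div (measurable_const.sub (hμm.norm.pow_const 2))
  have hρ0 : ∀ x, 0 ≤ ρ x := fun x => div_nonneg (sq_nonneg _) (hpos x).le
  have hρ1 : ∀ x, ρ x ≤ 1 / (1 - κ ^ 2) := fun x => by
    have h0 : 0 ≤ ‖μ x‖ := norm_nonneg _
    have h1 : ‖μ x‖ ^ 2 ≤ κ ^ 2 := pow_le_pow_left₀ h0 (hμκ x) 2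
    have h2 : 0 < 1 - κ ^ 2 := by nlinarith [hcoef.κ0]
    have h3 : ‖(A x).1‖ ^ 2 ≤ 1 := pow_le_one₀ (norm_nonneg _) (hA1 x)
    exact div_le_div₀ zero_le_one h3 h2 (by linarith)
  -- `ρ G` is bounded
  have hEb : ∀ᵐ x ∂m, ‖ρ x * G x‖ ≤ 2 * (M1 * (1 / (1 - κ)) * (1 * (1 + B * (1 / (1 - κ))))) := by
    filter_upwards [hC.carr, hβB] with x hx hb
    have hB0 : 0 ≤ B := le_trans (norm_nonneg _) hb
    have h1κ : 0 < 1 - κ := by linarith
    have e := E_eq (μ x) (β x) (A x) (hpos x) (fderiv ℝ η x.1) x.2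
    have e' : ρ x * G x = _ := e.symm
    rw [e', Real.norm_eq_abs]
    have hz : ‖x.2‖ ≤ 1 := hx.2.trans (by norm_num)
    have key : ∀ a b : ℂ × ℂ, ‖a.1‖ ≤ 1 → ‖b.1‖ ≤ 1 → ‖b.2‖ ≤ 1 →
        |fderiv ℝ η x.1 (vec (μ x) (β x) a).1 * (conj x.2 * (vec (μ x) (β x) b).2).im| ≤
          M1 * (1 / (1 - κ)) * (1 * (1 + B * (1 / (1 - κ)))) := by
      intro a b ha hb1 hb2
      rw [abs_mul]
      refine mul_le_mul ?_ ?_ (abs_nonneg _) (by positivity)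
      · have h5 := (fderiv ℝ η x.1).le_opNorm (vec (μ x) (β x) a).1
        rw [Real.norm_eq_abs] at h5
        refine h5.trans (mul_le_mul (hM1 _) ?_ (norm_nonneg _) hM1')
        refine (norm_vec_fst (μ x) (β x) a hκ (hμκ x)).trans ?_
        exact div_le_div_of_nonneg_right ha h1κ.le
      · refine (Complex.abs_im_le_norm _).trans ?_
        rw [norm_mul, Complex.norm_conj]
        refine mul_le_mul hz ?_ (norm_nonneg _) zero_le_one
        refine (norm_vec_snd (μ x) (β x) b hκ (hμκ x) hb).trans ?_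
        exact add_le_add hb2 (mul_le_mul_of_nonneg_left
          (div_le_div_of_nonneg_right hb1 h1κ.le) hB0)
    have hi1 : ‖(I • A x).1‖ ≤ 1 := by simpa [norm_mul] using hA1 x
    have hi2 : ‖(I • A x).2‖ ≤ 1 := by simpa [norm_mul] using hA2 x
    have k1 := key (A x) (I • A x) (hA1 x) hi1 hi2
    have k2 := key (I • A x) (A x) hi1 (hA1 x) (hA2 x)
    rw [abs_le] at k1 k2 ⊢
    constructor <;> linarith [k1.1, k1.2, k2.1, k2.2]
  have hEi : Integrable (fun x => ρ x * G x) m :=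
    Integrable.of_bound (hρm.mul hGm).aestronglyMeasurable _ hEb
  have hηi : Integrable (fun x : ℂ × ℂ => η x.1) m :=
    Integrable.of_bound hηm.aestronglyMeasurable M0 (Filter.Eventually.of_forall fun x => hM0 x.1)
  have hρηi : Integrable (fun x : ℂ × ℂ => ρ x * η x.1) m := by
    refine Integrable.of_bound (hρm.mul hηm).aestronglyMeasurable (1 / (1 - κ ^ 2) * M0)
      (Filter.Eventually.of_forall fun x => ?_)
    rw [norm_mul, Real.norm_of_nonneg (hρ0 x)]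
    exact mul_le_mul (hρ1 x) (hM0 x.1) (norm_nonneg _) ((hρ0 x).trans (hρ1 x))
  have homi : Integrable (fun x : ℂ × ℂ => η x.1 * om x) m := by
    refine Integrable.of_bound (hηm.mul homm).aestronglyMeasurable
      (M0 * ((1 + B * (1 / (1 - κ))) * (1 + B * (1 / (1 - κ))))) ?_
    filter_upwards [hβB] with x hb
    have hB0 : 0 ≤ B := le_trans (norm_nonneg _) hb
    have h1κ : 0 < 1 - κ := by linarith
    have hv : ∀ b : ℂ × ℂ, ‖b.1‖ ≤ 1 → ‖b.2‖ ≤ 1 →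
        ‖(vec (μ x) (β x) b).2‖ ≤ 1 + B * (1 / (1 - κ)) := by
      intro b hb1 hb2
      refine (norm_vec_snd (μ x) (β x) b hκ (hμκ x) hb).trans ?_
      exact add_le_add hb2 (mul_le_mul_of_nonneg_left
          (div_le_div_of_nonneg_right hb1 h1κ.le) hB0)
    have hi1 : ‖(I • A x).1‖ ≤ 1 := by simpa [norm_mul] using hA1 x
    have hi2 : ‖(I • A x).2‖ ≤ 1 := by simpa [norm_mul] using hA2 x
    rw [norm_mul]
    refine mul_le_mul (hM0 x.1) ?_ (norm_nonneg _) (le_trans (norm_nonneg _) (hM0 x.1))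
    rw [Real.norm_eq_abs]
    refine (Complex.abs_im_le_norm _).trans ?_
    rw [norm_mul, Complex.norm_conj]
    exact mul_le_mul (hv _ (hA1 x) (hA2 x)) (hv _ hi1 hi2) (norm_nonneg _) (by positivity)
  -- closedness
  obtain ⟨R', hR', hsub⟩ := exists_lt_subset_ball (isClosed_tsupport η) hηs
  have hcl : ∫ x, dS μ β A (form η) x ∂m = 0 := by
    refine hC.closed (form η) (form_contDiff hη) ⟨R', hR', fun x hx => ?_⟩
    have : η x.1 = 0 := by
      refine image_eq_zero_of_notMem_tsupport fun h => ?_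
      have := hsub h
      rw [mem_ball_zero_iff] at this
      linarith
    simp [form, this]
  have hcl2 : ∫ x, dS μ β A (form η) x ∂m =
      (1 / 2) * ∫ x, ρ x * G x ∂m + ∫ x, η x.1 * om x ∂m := by
    rw [← integral_const_mul, ← integral_add (hEi.const_mul _) homi]
    exact integral_congr_ae (Filter.Eventually.of_forall fun x => dS_form μ β A hη x (hpos x))
  -- horizontal integrals
  obtain ⟨g1, g2⟩ := hor_integral (m := m) hμm hAm hpos G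
  obtain ⟨e1, e2⟩ := hor_integral (m := m) hμm hAm hpos (fun x => η x.1)
  obtain ⟨-, f2⟩ := fib_integral hF G hGm (g1.2 hEi)
  obtain ⟨-, f4⟩ := fib_integral hF (fun x => η x.1) hηm (e1.2 hρηi)
  have f5 : ∫ t in ball (0 : ℂ) R, ∑ z ∈ T t, η ((t, z) : ℂ × ℂ).1 = k * ∫ t, η t := by
    have h1 : ∫ t in ball (0 : ℂ) R, ∑ z ∈ T t, η ((t, z) : ℂ × ℂ).1 =
        ∫ t in ball (0 : ℂ) R, (k : ℝ) * η t := by
      refine setIntegral_congr_ae measurableSet_ball ?_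
      filter_upwards [hF.good] with t ht hb
      rw [Finset.sum_const, (ht hb).1, nsmul_eq_mul]
    rw [h1, integral_const_mul]
    congr 1
    refine setIntegral_eq_integral_of_forall_compl_eq_zero fun t ht => ?_
    exact image_eq_zero_of_notMem_tsupport fun h => ht (hηs h)
  have f6 : ∫ t in ball (0 : ℂ) R, ∑ z ∈ T t, G (t, z) =
      ∫ t, ∑ z ∈ T t, (fderiv ℝ η t 1 * (conj z * sl μ β A (t, z) I).im -
        fderiv ℝ η t I * (conj z * sl μ β A (t, z) 1).im) := by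
    have h1 : ∀ t, ∑ z ∈ T t, G (t, z) =
        ∑ z ∈ T t, (fderiv ℝ η t 1 * (conj z * sl μ β A (t, z) I).im -
        fderiv ℝ η t I * (conj z * sl μ β A (t, z) 1).im) := fun t => rfl
    simp only [h1]
    refine setIntegral_eq_integral_of_forall_compl_eq_zero fun t ht => ?_
    have : fderiv ℝ η t = 0 := by
      have h2 : t ∉ tsupport (fderiv ℝ η) := fun h =>
        ht (hηs (tsupport_fderiv_subset ℝ h))
      exact image_eq_zero_of_notMem_tsupport h2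
    rw [this]
    simp
  have hle : ∫ x, η x.1 ∂m ≤ 2 * ∫ x, η x.1 * om x ∂m + K * ∫ x, ρ x * η x.1 ∂m := by
    rw [← integral_const_mul, ← integral_const_mul,
      ← integral_add (homi.const_mul _) (hρηi.const_mul _)]
    refine integral_mono_ae hηi ((homi.const_mul _).add (hρηi.const_mul _)) ?_
    filter_upwards [hβB] with x hb
    have h1 := unit_le (μ x) (β x) (A x) hκ (hμκ x) hb (hC.unit x)
    have h2 := mul_le_mul_of_nonneg_left h1 (hη0 x.1)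
    have h3 : η x.1 * (2 * (conj (vec (μ x) (β x) (A x)).2 *
        (vec (μ x) (β x) (I • A x)).2).im +
        (1 + 6 * B ^ 2 / (1 - κ) ^ 2) * (‖(A x).1‖ ^ 2 / (1 - ‖μ x‖ ^ 2))) =
        2 * (η x.1 * om x) + K * (ρ x * η x.1) := by
      simp only [hom, hρ, hK]; ring
    rw [← h3]
    linarith
  have hfin1 : ∫ x, ρ x * G x ∂m = ∫ t, ∑ z ∈ T t, (fderiv ℝ η t 1 *
      (conj z * sl μ β A (t, z) I).im - fderiv ℝ η t I * (conj z * sl μ β A (t, z) 1).im) := by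
    rw [← g2, f2, f6]
  have hfin2 : ∫ x, ρ x * η x.1 ∂m = k * ∫ t, η t := by
    rw [← e2, f4, f5]
  rw [hfin2] at hle
  rw [hcl2, hfin1] at hcl
  have habs := neg_abs_le (∫ t, ∑ z ∈ T t, (fderiv ℝ η t 1 *
      (conj z * sl μ β A (t, z) I).im - fderiv ℝ η t I * (conj z * sl μ β A (t, z) 1).im))
  have habs0 := abs_nonneg (∫ t, ∑ z ∈ T t, (fderiv ℝ η t 1 *
      (conj z * sl μ β A (t, z) I).im - fderiv ℝ η t I * (conj z * sl μ β A (t, z) 1).im))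
  nlinarith

end

end Crest.Agent.R235.Cyl_STK_303
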