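import Crest.Agent.R235.CylDef_522
import Crest.Agent.R235.LocSel_483
import Crest.Agent.R235.LocAlg_895

/-!
Row 235, PACKAGE REG, block CYL (C14) TOKG (helper856): assembly to `Loc.KG`.
-/

set_option autoImplicit false

open MeasureTheory Metric Set Filter Complex
open scoped ContDiff Topology ComplexConjugate

namespace Crest.Agent.R235.Cyl_TOKG_856

open Crest.Agent.R235.Loc Crest.Agent.R235.LocSel_483 Crest.Agent.R235.Cyl_522

noncomputable section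

/-! ### monotonicity of matchings -/

lemma Close.mono {ε ε' : ℝ} {s t : Multiset ℂ} (h : Close ε s t) (h' : ε ≤ ε') : Close ε' s t :=
  Multiset.Rel.mono h fun _ _ _ _ hd => le_trans hd h'

lemma Close.near {ε ε' : ℝ} {s t : Multiset ℂ} (h : Close ε s t) (h' : ε < ε') : Near ε' s t :=
  Multiset.Rel.mono h fun _ _ _ _ hd => lt_of_le_of_lt hd h'

/-! ### local selections without `KG` -/

/-- **LOC-1** with weaker hypotheses. -/
theorem sel' {c : ℂ} {R : ℝ} {k : ℕ} {S : ℂ → Multiset ℂ}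
    (hcard : ∀ z ∈ ball c R, (S z).card = k) (hcont : ∀ z ∈ ball c R, SCont S z)
    (hsm : ∀ (V : Set ℂ) (w : ℂ → ℂ), V ⊆ ball c R → Sheet S V w → ContDiffOn ℝ ∞ w V) :
    IsOpen (Usimp c R S) ∧
    ∀ z₀ ∈ Usimp c R S, ∃ (r : ℝ) (w : Fin k → ℂ → ℂ), 0 < r ∧ ball z₀ r ⊆ Usimp c R S ∧
      (∀ i, Sheet S (ball z₀ r) (w i)) ∧ (∀ i, ContDiffOn ℝ ∞ (w i) (ball z₀ r)) ∧
      (∀ z ∈ ball z₀ r, Function.Injective (fun i => w i z)) ∧
      (∀ z ∈ ball z₀ r, S z = Multiset.map (fun i => w i z) Finset.univ.val) ∧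
      (∀ z ∈ ball z₀ r, ∀ i, Loc.slope S z (w i z) = fderiv ℝ (w i) z) := by
  have main : ∀ z₀ ∈ Usimp c R S, ∃ (r : ℝ) (w : Fin k → ℂ → ℂ), 0 < r ∧
      ball z₀ r ⊆ Usimp c R S ∧
      (∀ i, Sheet S (ball z₀ r) (w i)) ∧ (∀ i, ContDiffOn ℝ ∞ (w i) (ball z₀ r)) ∧
      (∀ z ∈ ball z₀ r, Function.Injective (fun i => w i z)) ∧
      (∀ z ∈ ball z₀ r, S z = Multiset.map (fun i => w i z) Finset.univ.val) ∧
      (∀ z ∈ ball z₀ r, ∀ i, Loc.slope S z (w i z) = fderiv ℝ (w i) z) := by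
    intro z₀ hz₀
    obtain ⟨a, d, hd, hsep, hSa, hev⟩ := exists_local (hcont z₀ hz₀.1)
      (hcard z₀ hz₀.1) hz₀.2
    obtain ⟨r₁, hr₁, hball⟩ := Metric.eventually_nhds_iff_ball.1 hev
    obtain ⟨r₂, hr₂, hball₂⟩ := Metric.isOpen_ball.mem_nhds hz₀.1 |> Metric.mem_nhds_iff.1
    set r := min r₁ r₂ with hr
    have hr0 : 0 < r := lt_min hr₁ hr₂
    have hsub : ball z₀ r ⊆ ball c R :=
      (ball_subset_ball (min_le_right _ _)).trans hball₂
    choose! b hbS hbd using hball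
    have hbS' : ∀ z ∈ ball z₀ r, S z = Multiset.map (b z) Finset.univ.val := fun z hz =>
      hbS z (ball_subset_ball (min_le_left _ _) hz)
    have hbd' : ∀ z ∈ ball z₀ r, ∀ i, dist (a i) (b z i) < d := fun z hz =>
      hbd z (ball_subset_ball (min_le_left _ _) hz)
    have hinj : ∀ z ∈ ball z₀ r, Function.Injective (b z) := fun z hz =>
      inj_of_near hsep (hbd' z hz)
    have hnd : ∀ z ∈ ball z₀ r, (S z).Nodup := fun z hz => by
      rw [hbS' z hz]; exact nodup_of_inj (hinj z hz)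
    have hcont' : ∀ i, ContinuousOn (fun z => b z i) (ball z₀ r) := by
      intro i z hz
      refine ContinuousAt.continuousWithinAt ?_
      rw [Metric.continuousAt_iff']
      intro ε hε
      have hSz : SCont S z := hcont z (hsub hz)
      filter_upwards [hSz (min ε d) (lt_min hε hd), Metric.isOpen_ball.mem_nhds hz] with z' h1 h2
      unfold Near at h1
      rw [hbS' z hz] at h1
      obtain ⟨c', hc', hcd⟩ := rel_fun h1
      have h3 : c' i = b z' i := by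
        refine eq_of_near hsep (hbd' z' h2) (i := i) ?_ ?_
        · rw [← hbS' z' h2, hc']
          exact Multiset.mem_map_of_mem _ (Finset.mem_univ i)
        · have h4 := dist_triangle (a i) (b z i) (c' i)
          have h5 := hbd' z hz i
          have h6 := hcd i
          have h7 := min_le_right ε d
          linarith
      rw [← h3, dist_comm]
      exact lt_of_lt_of_le (hcd i) (min_le_left _ _)
    have hsheet : ∀ i, Sheet S (ball z₀ r) (fun z => b z i) := by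
      intro i
      refine ⟨Metric.isOpen_ball, hcont' i, fun z hz => ?_⟩
      refine Multiset.count_eq_one_of_mem (hnd z hz) ?_
      rw [hbS' z hz]
      exact Multiset.mem_map_of_mem _ (Finset.mem_univ i)
    refine ⟨r, fun i z => b z i, hr0, fun z hz => ⟨hsub hz, hnd z hz⟩, hsheet,
      fun i => hsm _ _ hsub (hsheet i), hinj, hbS', fun z hz i => ?_⟩
    exact slope_eq (hcont z (hsub hz)) (hsheet i) hz
  refine ⟨?_, main⟩
  rw [Metric.isOpen_iff]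
  intro z hz
  obtain ⟨r, _, hr, hsub, _⟩ := main z hz
  exact ⟨r, hr, hsub⟩

/-! ### the energy density -/

/-- the sum of the squares of the slopes of the simple sheets. -/
def eS (S : ℂ → Multiset ℂ) (z : ℂ) : ℝ :=
  ∑ a ∈ (S z).toFinset.filter (fun a => (S z).count a = 1), ‖Loc.slope S z a‖ ^ 2

lemma eS_nonneg (S : ℂ → Multiset ℂ) (z : ℂ) : 0 ≤ eS S z :=
  Finset.sum_nonneg fun _ _ => by positivity

lemma le_eS {S : ℂ → Multiset ℂ} {z a : ℂ} (h : (S z).count a = 1) :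
    ‖Loc.slope S z a‖ ^ 2 ≤ eS S z := by
  refine Finset.single_le_sum (f := fun a => ‖Loc.slope S z a‖ ^ 2)
    (fun _ _ => by positivity) ?_
  rw [Finset.mem_filter, Multiset.mem_toFinset]
  exact ⟨Multiset.count_pos.1 (by omega), h⟩

lemma eS_eq {S : ℂ → Multiset ℂ} {k : ℕ} {z : ℂ} {w : Fin k → ℂ}
    (hw : Function.Injective w) (hS : S z = Multiset.map w Finset.univ.val) :
    eS S z = ∑ i, ‖Loc.slope S z (w i)‖ ^ 2 := by
  have hnd : (S z).Nodup := by rw [hS]; exact nodup_of_inj hw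
  have h1 : (S z).toFinset.filter (fun a => (S z).count a = 1) = Finset.univ.image w := by
    ext a
    rw [Finset.mem_filter, Multiset.mem_toFinset, Finset.mem_image]
    constructor
    · rintro ⟨ha, _⟩
      rw [hS] at ha
      obtain ⟨i, _, hi⟩ := Multiset.mem_map.1 ha
      exact ⟨i, Finset.mem_univ i, hi⟩
    · rintro ⟨i, _, hi⟩
      have ha : a ∈ S z := by
        rw [hS, ← hi]; exact Multiset.mem_map_of_mem _ (Finset.mem_univ i)
      exact ⟨ha, Multiset.count_eq_one_of_mem hnd ha⟩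
  rw [eS, h1, Finset.sum_image fun i _ j _ h => hw h]


lemma continuousOn_eS {c : ℂ} {R : ℝ} {k : ℕ} {S : ℂ → Multiset ℂ}
    (hsel : ∀ z₀ ∈ Usimp c R S, ∃ (r : ℝ) (w : Fin k → ℂ → ℂ), 0 < r ∧ ball z₀ r ⊆ Usimp c R S ∧
      (∀ i, Sheet S (ball z₀ r) (w i)) ∧ (∀ i, ContDiffOn ℝ ∞ (w i) (ball z₀ r)) ∧
      (∀ z ∈ ball z₀ r, Function.Injective (fun i => w i z)) ∧
      (∀ z ∈ ball z₀ r, S z = Multiset.map (fun i => w i z) Finset.univ.val) ∧
      (∀ z ∈ ball z₀ r, ∀ i, Loc.slope S z (w i z) = fderiv ℝ (w i) z)) :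
    ContinuousOn (eS S) (Usimp c R S) := by
  intro z₀ hz₀
  obtain ⟨r, w, hr, _, _, hsm, hinj, hS, hsl⟩ := hsel z₀ hz₀
  refine ContinuousAt.continuousWithinAt ?_
  have h1 : eS S =ᶠ[𝓝 z₀] fun z => ∑ i, ‖fderiv ℝ (w i) z‖ ^ 2 := by
    filter_upwards [isOpen_ball.mem_nhds (mem_ball_self hr)] with z hz
    rw [eS_eq (hinj z hz) (hS z hz)]
    refine Finset.sum_congr rfl fun i _ => ?_
    rw [hsl z hz i]
  refine ContinuousAt.congr ?_ h1.symm
  refine tendsto_finsetSum _ fun i _ => ?_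
  have h2 : ContinuousAt (fderiv ℝ (w i)) z₀ :=
    ((hsm i).continuousOn_fderiv_of_isOpen isOpen_ball (by simp)).continuousAt
      (isOpen_ball.mem_nhds (mem_ball_self hr))
  exact (h2.norm.pow 2)

/-- the points of `S z` lie in the disc of radius `1/2`. -/
lemma msupp_le {μ β : ℂ × ℂ → ℂ} {R : ℝ} {m : Measure (ℂ × ℂ)} {A : ℂ × ℂ → ℂ × ℂ} {C c : ℝ}
    (h : Cyl μ β R m A C c) {x : ℂ × ℂ} (hx : x ∈ msupp m) : ‖x.2‖ ≤ 1 / 2 := by
  by_contra hlt
  rw [not_le] at hlt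
  have h1 := hx (‖x.2‖ - 1 / 2) (by linarith)
  refine absurd h1 (not_lt.2 (le_of_eq ?_))
  refine measure_mono_null ?_ h.carr
  intro y hy hyc
  have hy2 : ‖y.2‖ ≤ 1 / 2 := hyc.2
  have h2 : dist y.2 x.2 < ‖x.2‖ - 1 / 2 := lt_of_le_of_lt (le_max_right _ _) hy
  have h3 := norm_sub_norm_le x.2 y.2
  rw [dist_comm, dist_eq_norm] at h2
  linarith


/-- the extended fibres exist. -/
lemma exists_ext (hX : EXT) {μ β : ℂ × ℂ → ℂ} {R : ℝ} {m : Measure (ℂ × ℂ)}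
    {A : ℂ × ℂ → ℂ × ℂ} {k : ℕ} {T : ℂ → Finset ℂ} (hR : 0 < R) (hT : Fib μ β R m A k T)
    {C₁ b : ℝ} (h1 : 0 < C₁) (hb0 : 0 < b) (hb1 : b < 1)
    (hdec : ∀ t₀ ∈ ball (0 : ℂ) (R / 2), ∀ ρ : ℝ, 0 < ρ → ρ ≤ R / 2 →
      (m (ball t₀ ρ ×ˢ univ)).toReal ≤ C₁ * ρ ^ (2 * b))
    {C₂ : ℝ} (h2 : 0 < C₂) {N : Set ℂ} (hN : volume N = 0)
    (hcl : ∀ t ∈ ball (0 : ℂ) (R / 4) \ N, ∀ t' ∈ ball (0 : ℂ) (R / 4) \ N,
      Close (C₂ * dist t t' ^ b) (T t).val (T t').val) :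
    ∃ (C' : ℝ) (S : ℂ → Multiset ℂ), ExtF μ β R m A k T C' b S := by
  set G : Set ℂ := {t | ¬ (t ∈ ball (0 : ℂ) R → (T t).card = k ∧ (T t : Set ℂ) = Kf m t ∧
      ∀ z ∈ T t, (A (t, z)).1 ≠ 0 ∧ Flat μ β m A (t, z))} with hG
  have hG0 : volume G = 0 := hT.good
  have hN' : volume (N ∪ G) = 0 := measure_union_null hN hG0
  have hsub : ball (0 : ℂ) (R / 4) ⊆ ball 0 R := ball_subset_ball (by linarith)
  obtain ⟨S, hS1, hS2, hS3⟩ := hX k (R / 4) C₂ b (fun t => (T t).val) (N ∪ G) (by linarith) h2 hb0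
    hN' (fun t ht => by
      have h3 : t ∉ G := fun h => ht.2 (Or.inr h)
      rw [hG] at h3
      have h4 : t ∈ ball (0 : ℂ) R → (T t).card = k ∧ (T t : Set ℂ) = Kf m t ∧
          ∀ z ∈ T t, (A (t, z)).1 ≠ 0 ∧ Flat μ β m A (t, z) := by
        by_contra h5
        exact h3 h5
      exact (h4 (hsub ht.1)).1)
    (fun t ht t' ht' => hcl t ⟨ht.1, fun h => ht.2 (Or.inl h)⟩ t' ⟨ht'.1, fun h => ht'.2 (Or.inl h)⟩)
  refine ⟨max C₁ C₂, S, ?_⟩
  constructor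
  · exact lt_max_of_lt_left h1
  · exact hb0
  · exact hb1
  · intro t₀ ht₀ ρ hρ hρ'
    refine (hdec t₀ ht₀ ρ hρ hρ').trans ?_
    exact mul_le_mul_of_nonneg_right (le_max_left _ _) (Real.rpow_nonneg hρ.le _)
  · exact hS1
  · have h6 : ∀ᵐ t : ℂ, t ∉ N ∪ G := measure_eq_zero_iff_ae_notMem.1 hN'
    filter_upwards [h6] with t ht htb
    exact hS2 t ⟨htb, ht⟩
  · intro t ht t' ht'
    refine Close.mono (hS3 t ht t' ht') ?_
    exact mul_le_mul_of_nonneg_right (le_max_right _ _) (Real.rpow_nonneg dist_nonneg _)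

section KGpart

variable {μ β : ℂ × ℂ → ℂ} {κ L : ℝ} {R : ℝ} {m : Measure (ℂ × ℂ)}
  {A : ℂ × ℂ → ℂ × ℂ} {C c : ℝ} {k : ℕ} {T : ℂ → Finset ℂ} {C' b : ℝ} {S : ℂ → Multiset ℂ}

lemma sCont_of_ext (hE : ExtF μ β R m A k T C' b S) {z : ℂ} (hz : z ∈ ball (0 : ℂ) (R / 4)) :
    SCont S z := by
  intro ε hε
  have h1 : Tendsto (fun z' : ℂ => C' * dist z z' ^ b) (𝓝 z) (𝓝 (C' * dist z z ^ b)) := by
    refine Tendsto.const_mul _ ?_
    refine Tendsto.rpow_const ?_ (Or.inr hE.b0.le)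
    exact (continuous_const.dist continuous_id).continuousAt
  rw [dist_self, Real.zero_rpow hE.b0.ne', mul_zero] at h1
  filter_upwards [h1.eventually (gt_mem_nhds hε), isOpen_ball.mem_nhds hz] with z' h2 h3
  exact Close.near (hE.hold z hz z' h3) h2

lemma ae_nodup (hE : ExtF μ β R m A k T C' b S) :
    ∀ᵐ t : ℂ, t ∈ ball (0 : ℂ) (R / 4) → (S t).Nodup := by
  filter_upwards [hE.ae] with t ht htb
  rw [ht htb]
  exact (T t).nodup

/-- the energy of the sheets is controlled by `en`. -/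
lemma ae_eS_le (hC : Coef μ β κ L) (hY : Cyl μ β R m A C c) (hE : ExtF μ β R m A k T C' b S)
    (hS : ∀ t ∈ ball (0 : ℂ) (R / 4), ∀ z, (t, z) ∈ msupp m ↔ z ∈ S t)
    (hSh : ∀ (V : Set ℂ) (w : ℂ → ℂ), V ⊆ ball 0 (R / 4) → Sheet S V w →
      ContDiffOn ℝ ∞ w V ∧
      (∀ z ∈ V, lzb (fderiv ℝ w z) = μ (z, w z) * lz (fderiv ℝ w z) - β (z, w z)) ∧
      ∀ᵐ z : ℂ, z ∈ V → lz (fderiv ℝ w z) = sp A (z, w z))
    (hsel : ∀ z₀ ∈ Usimp 0 (R / 4) S, ∃ (r : ℝ) (w : Fin k → ℂ → ℂ), 0 < r ∧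
      ball z₀ r ⊆ Usimp 0 (R / 4) S ∧
      (∀ i, Sheet S (ball z₀ r) (w i)) ∧ (∀ i, ContDiffOn ℝ ∞ (w i) (ball z₀ r)) ∧
      (∀ z ∈ ball z₀ r, Function.Injective (fun i => w i z)) ∧
      (∀ z ∈ ball z₀ r, S z = Multiset.map (fun i => w i z) Finset.univ.val) ∧
      (∀ z ∈ ball z₀ r, ∀ i, Loc.slope S z (w i z) = fderiv ℝ (w i) z)) :
    ∀ᵐ z : ℂ, z ∈ ball (0 : ℂ) (R / 4) →
      eS S z ≤ (8 + 2 * (‖β 0‖ + L) ^ 2) * en A T z := by
  choose! r w hr hsub hsh hsm hinj hSw hsl using hsel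
  obtain ⟨D, hDU, hDc, hcov⟩ := TopologicalSpace.countable_cover_nhdsWithin
    (f := fun z => ball z (r z)) (s := Usimp 0 (R / 4) S)
    (fun z hz => mem_nhdsWithin_of_mem_nhds (isOpen_ball.mem_nhds (mem_ball_self (hr z hz))))
  have hsubR : ∀ z₀ ∈ D, ball z₀ (r z₀) ⊆ ball (0 : ℂ) (R / 4) := fun z₀ hz₀ z hz =>
    (hsub z₀ (hDU hz₀) hz).1
  have hae : ∀ᵐ z : ℂ, ∀ z₀ ∈ D, ∀ i : Fin k, z ∈ ball z₀ (r z₀) →
      lz (fderiv ℝ (w z₀ i) z) = sp A (z, w z₀ i z) := by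
    rw [ae_ball_iff hDc]
    intro z₀ hz₀
    rw [ae_all_iff]
    intro i
    exact (hSh _ _ (hsubR z₀ hz₀) (hsh z₀ (hDU hz₀) i)).2.2
  filter_upwards [hae, hE.ae, ae_nodup hE] with z h1 h2 h3 hz
  have hzU : z ∈ Usimp 0 (R / 4) S := ⟨hz, h3 hz⟩
  obtain ⟨z₀, hz₀, hzb⟩ := mem_iUnion₂.1 (hcov hzU)
  have hU := hDU hz₀
  have hi := hinj z₀ hU z hzb
  have hs := hSw z₀ hU z hzb
  rw [eS_eq hi hs]
  have hen : en A T z = ∑ i : Fin k, (1 + ‖sp A (z, w z₀ i z)‖ ^ 2) := by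
    have h4 : (T z).val = Multiset.map (fun i => w z₀ i z) Finset.univ.val := by
      rw [← h2 hz]; exact hs
    have h5 : T z = Finset.univ.image (fun i => w z₀ i z) := by
      refine Finset.ext fun a => ?_
      rw [← Finset.mem_val, h4, Finset.mem_image]
      constructor
      · intro ha
        obtain ⟨i, _, hi⟩ := Multiset.mem_map.1 ha
        exact ⟨i, Finset.mem_univ i, hi⟩
      · rintro ⟨i, _, hi⟩
        rw [← hi]; exact Multiset.mem_map_of_mem _ (Finset.mem_univ i)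
    rw [en, h5, Finset.sum_image fun i _ j _ h => hi h]
  rw [hen, Finset.mul_sum]
  refine Finset.sum_le_sum fun i _ => ?_
  rw [hsl z₀ hU z hzb i]
  have hlz := h1 z₀ hz₀ i hzb
  have hlzb := (hSh _ _ (hsubR z₀ hz₀) (hsh z₀ hU i)).2.1 z hzb
  have hmem : w z₀ i z ∈ S z := by rw [hs]; exact Multiset.mem_map_of_mem _ (Finset.mem_univ i)
  have hw : ‖w z₀ i z‖ ≤ 1 / 2 := msupp_le hY ((hS z hz _).2 hmem)
  have hzn : ‖z‖ ≤ 1 / 4 := by
    have h6 : dist z 0 < R / 4 := hz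
    rw [dist_zero_right] at h6
    have := hY.R1
    linarith
  have hβ : ‖β (z, w z₀ i z)‖ ≤ ‖β 0‖ + L := by
    have h7 := hC.lipβ (z, w z₀ i z) 0
    have h8 : ‖((z, w z₀ i z) : ℂ × ℂ) - 0‖ ≤ 1 := by
      rw [sub_zero, Prod.norm_def]
      exact max_le (by simpa using hzn.trans (by norm_num)) (by simpa using hw.trans (by norm_num))
    have h9 : L * ‖((z, w z₀ i z) : ℂ × ℂ) - 0‖ ≤ L * 1 :=
      mul_le_mul_of_nonneg_left h8 hC.L0
    have h10 := norm_sub_norm_le (β (z, w z₀ i z)) (β 0)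
    linarith
  have hb1 : ‖lzb (fderiv ℝ (w z₀ i) z)‖ ≤ ‖sp A (z, w z₀ i z)‖ + (‖β 0‖ + L) := by
    rw [hlzb, hlz]
    refine (norm_sub_le _ _).trans (add_le_add ?_ hβ)
    rw [norm_mul]
    have h11 : ‖μ (z, w z₀ i z)‖ ≤ 1 := (hC.bμ _).trans hC.κ1.le
    calc ‖μ (z, w z₀ i z)‖ * ‖sp A (z, w z₀ i z)‖ ≤ 1 * ‖sp A (z, w z₀ i z)‖ :=
          mul_le_mul_of_nonneg_right h11 (norm_nonneg _)
      _ = _ := one_mul _
  have hn := LocAlg_895.norm_le (fderiv ℝ (w z₀ i) z)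
  rw [hlz] at hn
  have hB0 : 0 ≤ ‖β 0‖ + L := add_nonneg (norm_nonneg _) hC.L0
  have hfin : ‖fderiv ℝ (w z₀ i) z‖ ≤ 2 * ‖sp A (z, w z₀ i z)‖ + (‖β 0‖ + L) := by linarith
  have h0 := norm_nonneg (fderiv ℝ (w z₀ i) z)
  have h0' := norm_nonneg (sp A (z, w z₀ i z))
  have hsq : ‖fderiv ℝ (w z₀ i) z‖ ^ 2 ≤ (2 * ‖sp A (z, w z₀ i z)‖ + (‖β 0‖ + L)) ^ 2 := by
    gcongr
  nlinarith [sq_nonneg (2 * ‖sp A (z, w z₀ i z)‖ - (‖β 0‖ + L)),
    mul_nonneg (sq_nonneg (‖β 0‖ + L)) (sq_nonneg ‖sp A (z, w z₀ i z)‖)]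

end KGpart

/-- **(C14).** -/
theorem tokg (hG : GOOD) (hE : ENER) (hH : HOLE) (hA : HOLDA) (hX : EXT) (hS : SUPP)
    (hSh : SHEET) : TOKG := by
  intro μ β κ L hC R m A C c hY
  obtain ⟨k, T, g1, g2⟩ := hG μ β κ L hC R m A C c hY
  have hT : Fib μ β R m A k T := ⟨g1, g2⟩
  obtain ⟨C₁, b, hC₁, hb0, hb1, hdec⟩ := hH μ β κ L hC R m A C c hY k T hT
  obtain ⟨C₂, hC₂, N, hN, hcl⟩ := hA μ β κ L hC R m A C c hY k T hT C₁ b hC₁ hb0 hb1 hdec
  obtain ⟨C', S, hF⟩ := exists_ext hX hY.R0 hT hC₁ hb0 hb1 hdec hC₂ hN hcl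
  have hsupp := hS μ β κ L hC R m A C c hY k T hT C' b S hF
  have hsheet := hSh μ β κ L hC R m A C c hY k T hT C' b S hF
  obtain ⟨K, hK, hen⟩ := hE μ β κ L hC
  obtain ⟨hen1, hen2⟩ := hen R m A C c hY k T hT
  have hR := hY.R0
  have hsub4 : ball (0 : ℂ) (R / 4) ⊆ ball 0 R := ball_subset_ball (by linarith)
  obtain ⟨hopen, hsel⟩ := sel' (k := k) hF.card (fun z hz => sCont_of_ext hF hz)
    (fun V w hV hw => (hsheet V w hV hw).1)
  have hle := ae_eS_le hC hY hF hsupp hsheet hsel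
  set K' : ℝ := 8 + 2 * (‖β 0‖ + L) ^ 2 with hK'
  have hK'0 : 0 < K' := by positivity
  have hnull : volume {z ∈ ball (0 : ℂ) (R / 4) | ¬ (S z).Nodup} = 0 := by
    refine measure_mono_null ?_ (ae_nodup hF)
    rintro z ⟨hz1, hz2⟩ h
    exact hz2 (h hz1)
  have hmeas : AEStronglyMeasurable (eS S) (volume.restrict (ball (0 : ℂ) (R / 4))) := by
    have h1 : AEStronglyMeasurable (eS S) (volume.restrict (Usimp 0 (R / 4) S)) :=
      (continuousOn_eS hsel).aestronglyMeasurable hopen.measurableSet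
    have h2 : volume.restrict (Usimp 0 (R / 4) S) = volume.restrict (ball (0 : ℂ) (R / 4)) := by
      refine Measure.restrict_congr_set ?_
      filter_upwards [ae_nodup hF] with z hz
      refine propext ⟨fun h => h.1, fun h => ⟨h, hz h⟩⟩
    rwa [h2] at h1
  have hint : IntegrableOn (eS S) (ball (0 : ℂ) (R / 4)) := by
    refine Integrable.mono' ((hen1.mono_set hsub4).const_mul K') hmeas ?_
    rw [ae_restrict_iff' measurableSet_ball]
    filter_upwards [hle] with z hz hzb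
    rw [Real.norm_of_nonneg (eS_nonneg S z)]
    exact hz hzb
  refine ⟨k, T, C', b, S, eS S, hT, hF, ?_, hsupp⟩
  constructor
  · exact hF.card
  · exact fun z hz => sCont_of_ext hF hz
  · exact hnull
  · exact fun V w hV hw => (hsheet V w hV hw).1
  · exact fun V w hV hw => (hsheet V w hV hw).2.1
  · exact eS_nonneg S
  · exact hint
  · intro V w hV hw z hz
    rw [← slope_eq (sCont_of_ext hF (hV hz)) hw hz]
    exact le_eS (hw.simple z hz)
  · intro p hp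
    obtain ⟨r₀, hr₀, hr₀sub⟩ := Metric.isOpen_iff.1 isOpen_ball p hp
    refine ⟨K' * (K * C'), b, min r₀ (R / 2), by have := hF.C0; positivity, hF.b0,
      lt_min hr₀ (by linarith), (ball_subset_ball (min_le_left _ _)).trans hr₀sub, ?_⟩
    intro r hr hrr
    have hsubr : ball p r ⊆ ball (0 : ℂ) (R / 4) :=
      (ball_subset_ball (hrr.trans (min_le_left _ _))).trans hr₀sub
    have h1 : ∫ z in ball p r, eS S z ≤ ∫ z in ball p r, K' * en A T z := by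
      refine integral_mono_ae (hint.mono_set hsubr)
        ((hen1.mono_set (hsubr.trans hsub4)).const_mul K') ?_
      rw [EventuallyLE, ae_restrict_iff' measurableSet_ball]
      filter_upwards [hle] with z hz hzb
      exact hz (hsubr hzb)
    have h2 := hen2 (ball p r) measurableSet_ball (hsubr.trans hsub4)
    have h3 := hF.decay p (ball_subset_ball (by linarith) hp) r hr (hrr.trans (min_le_right _ _))
    rw [integral_const_mul] at h1
    calc ∫ z in ball p r, eS S z ≤ K' * ∫ z in ball p r, en A T z := h1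
      _ ≤ K' * (K * (C' * r ^ (2 * b))) := by
          refine mul_le_mul_of_nonneg_left (h2.trans ?_) hK'0.le
          exact mul_le_mul_of_nonneg_left h3 hK.le
      _ = K' * (K * C') * r ^ (2 * b) := by ring
  · intro p hp
    obtain ⟨r₀, hr₀, hr₀sub⟩ := Metric.isOpen_iff.1 isOpen_ball p hp
    refine ⟨C', b, r₀, hF.C0.le, hF.b0, hr₀, hr₀sub, fun z hz => ?_⟩
    rw [dist_comm]
    exact hF.hold p hp z (hr₀sub hz)

end

end Crest.Agent.R235.Cyl_TOKG_856
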