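import Crest.Agent.R235.CylDef_522

/-!
Row 235, PACKAGE REG, block CYL, leaf C08 (`WEAKF`): weak derivative of a symmetric function of the
fibre (helper915).
-/

set_option autoImplicit false

open MeasureTheory Metric Set Filter Complex
open scoped ContDiff Topology ComplexConjugate

namespace Crest.Agent.R235.WeakF_915

open Crest.Agent.R235.Loc Crest.Agent.R235.Cyl_522

noncomputable section

/-- the density of `hor`. -/
def dn (μ : ℂ × ℂ → ℂ) (A : ℂ × ℂ → ℂ × ℂ) (x : ℂ × ℂ) : ℝ := ‖(A x).1‖ ^ 2 / (1 - ‖μ x‖ ^ 2)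

/-- the one-form `u ↦ Im (v̄ u.1)`. -/
def Lv (v : ℂ) : ℂ × ℂ →L[ℝ] ℝ :=
  Complex.imCLM.comp ((ContinuousLinearMap.mul ℝ ℂ (conj v)).comp (ContinuousLinearMap.fst ℝ ℂ ℂ))

theorem Lv_apply (v : ℂ) (u : ℂ × ℂ) : Lv v u = v.re * u.1.im - v.im * u.1.re := by
  simp [Lv, Complex.mul_im]
  ring

theorem det_vec (μ A : ℂ) (h : ‖μ‖ < 1) :
    ((A - μ * conj A) / ((1 - ‖μ‖ ^ 2 : ℝ) : ℂ)).re *
        ((I * A - μ * conj (I * A)) / ((1 - ‖μ‖ ^ 2 : ℝ) : ℂ)).im -
      ((A - μ * conj A) / ((1 - ‖μ‖ ^ 2 : ℝ) : ℂ)).im *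
        ((I * A - μ * conj (I * A)) / ((1 - ‖μ‖ ^ 2 : ℝ) : ℂ)).re = ‖A‖ ^ 2 / (1 - ‖μ‖ ^ 2) := by
  have hN : (0 : ℝ) < 1 - ‖μ‖ ^ 2 := by
    have := norm_nonneg μ
    nlinarith
  have h1 : ‖A‖ ^ 2 = A.re ^ 2 + A.im ^ 2 := by
    rw [← Complex.normSq_eq_norm_sq, Complex.normSq_apply]; ring
  have h2 : ‖μ‖ ^ 2 = μ.re ^ 2 + μ.im ^ 2 := by
    rw [← Complex.normSq_eq_norm_sq, Complex.normSq_apply]; ring
  simp only [Complex.div_ofReal_re, Complex.div_ofReal_im, Complex.sub_re, Complex.sub_im,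
    Complex.mul_re, Complex.mul_im, Complex.conj_re, Complex.conj_im, Complex.I_re, Complex.I_im]
  rw [div_mul_div_comm, div_mul_div_comm, ← sub_div, div_eq_div_iff (by positivity) hN.ne']
  rw [h1, h2]
  ring

/-- `v + μ v̄ = A` -/
theorem vec_inv (μ A : ℂ) (h : ‖μ‖ < 1) :
    (A - μ * conj A) / ((1 - ‖μ‖ ^ 2 : ℝ) : ℂ) +
      μ * conj ((A - μ * conj A) / ((1 - ‖μ‖ ^ 2 : ℝ) : ℂ)) = A := by
  have hN : (0 : ℝ) < 1 - ‖μ‖ ^ 2 := by
    have := norm_nonneg μ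
    nlinarith
  have hN' : ((1 - ‖μ‖ ^ 2 : ℝ) : ℂ) ≠ 0 := by
    exact_mod_cast hN.ne'
  have h3 : μ * conj μ = ((‖μ‖ ^ 2 : ℝ) : ℂ) := by
    rw [Complex.mul_conj, Complex.normSq_eq_norm_sq]
  rw [map_div₀, Complex.conj_ofReal, ← mul_div_assoc, ← add_div, div_eq_iff hN', map_sub, map_mul,
    Complex.conj_conj]
  push_cast at h3 ⊢
  linear_combination (-A) * h3

theorem sl_lin (μ β : ℂ × ℂ → ℂ) (A : ℂ × ℂ → ℂ × ℂ) (x : ℂ × ℂ) (v : ℂ) :
    sl μ β A x v = (v.re : ℂ) * sl μ β A x 1 + (v.im : ℂ) * sl μ β A x I := by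
  unfold sl
  have h1 : v = v.re + v.im * I := (Complex.re_add_im v).symm
  have h2 : conj v = v.re - v.im * I := by
    apply Complex.ext <;> simp
  rw [h2]
  simp only [Complex.conj_I, map_one]
  linear_combination (sp A x) * h1

/-- the value of `d(f Lv)` on the tangent plane. -/
theorem dS_eq (μ β : ℂ × ℂ → ℂ) (A : ℂ × ℂ → ℂ × ℂ) (f : ℂ × ℂ → ℝ) (hf : Differentiable ℝ f)
    (v : ℂ) (x : ℂ × ℂ) (hμ : ‖μ x‖ < 1) :
    dS μ β A (fun y => f y • Lv v) x =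
      dn μ A x * fderiv ℝ f x (v, sl μ β A x v) := by
  have hfd : ∀ u : ℂ × ℂ, fderiv ℝ (fun y => f y • Lv v) x u = (fderiv ℝ f x u) • Lv v := by
    intro u
    have h1 := (hf x).hasFDerivAt.smul_const (Lv v)
    rw [h1.fderiv]
    rfl
  unfold dS
  rw [hfd, hfd]
  simp only [FunLike.coe_smul, Pi.smul_apply, smul_eq_mul, Lv_apply]
  set D := fderiv ℝ f x with hD
  by_cases hA : (A x).1 = 0
  · simp [vec, hA, dn]
  · -- the tangent plane is a graph
    set a := (A x).1 with ha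
    set N : ℂ := ((1 - ‖μ x‖ ^ 2 : ℝ) : ℂ) with hN
    have hg : ∀ (c : ℂ) (w : ℂ), w + μ x * conj w = c * a →
        c * (A x).2 - β x * conj w = sl μ β A x w := by
      intro c w hw
      unfold sl sp
      rw [← ha]
      have h1 : (A x).2 / a * w + ((A x).2 / a * μ x - β x) * conj w =
          (A x).2 / a * (w + μ x * conj w) - β x * conj w := by ring
      rw [h1, hw]
      field_simp
    have hv1 : vec (μ x) (β x) (A x) = ((a - μ x * conj a) / N,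
        sl μ β A x ((a - μ x * conj a) / N)) := by
      unfold vec
      rw [Prod.mk.injEq]
      refine ⟨rfl, ?_⟩
      have := hg 1 ((a - μ x * conj a) / N) (by rw [one_mul]; exact vec_inv _ _ hμ)
      rw [one_mul] at this
      exact this
    have hv2 : vec (μ x) (β x) (I • A x) = ((I * a - μ x * conj (I * a)) / N,
        sl μ β A x ((I * a - μ x * conj (I * a)) / N)) := by
      unfold vec
      rw [Prod.mk.injEq]
      refine ⟨rfl, ?_⟩
      exact hg I ((I * a - μ x * conj (I * a)) / N) (vec_inv _ _ hμ)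
    have hE : ∀ w : ℂ, D (w, sl μ β A x w) =
        w.re * D (1, sl μ β A x 1) + w.im * D (I, sl μ β A x I) := by
      intro w
      have h1 : (w, sl μ β A x w) = w.re • ((1 : ℂ), sl μ β A x 1) +
          w.im • (I, sl μ β A x I) := by
        rw [sl_lin]
        refine Prod.ext ?_ ?_
        · simp only [Prod.fst_add, Prod.smul_fst, Complex.real_smul, mul_one]
          exact (Complex.re_add_im w).symm
        · simp only [Prod.snd_add, Prod.smul_snd, Complex.real_smul]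
      rw [h1, map_add, map_smul, map_smul, smul_eq_mul, smul_eq_mul]
    rw [hv1, hv2]
    simp only
    rw [hE ((a - μ x * conj a) / N), hE ((I * a - μ x * conj (I * a)) / N), hE v]
    have hdet := det_vec (μ x) a hμ
    rw [← hN] at hdet
    unfold dn
    rw [← ha, ← hdet]
    ring

/-! ### real disintegration -/

theorem dis_real {μ β : ℂ × ℂ → ℂ} {R : ℝ} {m : Measure (ℂ × ℂ)} {A : ℂ × ℂ → ℂ × ℂ} {k : ℕ}
    {T : ℂ → Finset ℂ} (hT : Fib μ β R m A k T) {g : ℂ × ℂ → ℝ} (hg : Measurable g)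
    (hi : Integrable g (hor μ m A)) :
    IntegrableOn (fun t => ∑ z ∈ T t, g (t, z)) (ball 0 R) ∧
      ∫ x, g x ∂(hor μ m A) = ∫ t in ball (0 : ℂ) R, ∑ z ∈ T t, g (t, z) := by
  obtain ⟨m1, e1⟩ := hT.dis (fun x => ENNReal.ofReal (g x)) hg.ennreal_ofReal
  obtain ⟨m2, e2⟩ := hT.dis (fun x => ENNReal.ofReal (- g x)) hg.neg.ennreal_ofReal
  have f1 : ∫⁻ x, ENNReal.ofReal (g x) ∂(hor μ m A) ≠ ⊤ := by
    refine ((lintegral_mono fun x => ?_).trans_lt hi.2).ne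
    rw [← ofReal_norm]
    exact ENNReal.ofReal_le_ofReal (le_abs_self _)
  have f2 : ∫⁻ x, ENNReal.ofReal (- g x) ∂(hor μ m A) ≠ ⊤ := by
    refine ((lintegral_mono fun x => ?_).trans_lt hi.2).ne
    rw [← ofReal_norm]
    exact ENNReal.ofReal_le_ofReal (neg_le_abs _)
  have key : ∀ t, ∑ z ∈ T t, g (t, z) = (∑ z ∈ T t, ENNReal.ofReal (g (t, z))).toReal -
      (∑ z ∈ T t, ENNReal.ofReal (- g (t, z))).toReal := by
    intro t
    rw [ENNReal.toReal_sum (fun z _ => ENNReal.ofReal_ne_top),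
      ENNReal.toReal_sum (fun z _ => ENNReal.ofReal_ne_top), ← Finset.sum_sub_distrib]
    refine Finset.sum_congr rfl fun z _ => ?_
    rw [ENNReal.toReal_ofReal', ENNReal.toReal_ofReal']
    rcases le_total 0 (g (t, z)) with h | h
    · rw [max_eq_left h, max_eq_right (by linarith)]; ring
    · rw [max_eq_right h, max_eq_left (by linarith)]; ring
  have i1 : Integrable (fun t => (∑ z ∈ T t, ENNReal.ofReal (g (t, z))).toReal)
      (volume.restrict (ball 0 R)) := integrable_toReal_of_lintegral_ne_top m1 (by rw [← e1]; exact f1)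
  have i2 : Integrable (fun t => (∑ z ∈ T t, ENNReal.ofReal (- g (t, z))).toReal)
      (volume.restrict (ball 0 R)) := integrable_toReal_of_lintegral_ne_top m2 (by rw [← e2]; exact f2)
  have a1 : ∫ t in ball (0 : ℂ) R, (∑ z ∈ T t, ENNReal.ofReal (g (t, z))).toReal =
      (∫⁻ x, ENNReal.ofReal (g x) ∂(hor μ m A)).toReal := by
    rw [integral_toReal m1 (ae_of_all _ fun t => ENNReal.sum_lt_top.2 fun z _ =>
      ENNReal.ofReal_lt_top), e1]
  have a2 : ∫ t in ball (0 : ℂ) R, (∑ z ∈ T t, ENNReal.ofReal (- g (t, z))).toReal =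
      (∫⁻ x, ENNReal.ofReal (- g x) ∂(hor μ m A)).toReal := by
    rw [integral_toReal m2 (ae_of_all _ fun t => ENNReal.sum_lt_top.2 fun z _ =>
      ENNReal.ofReal_lt_top), e2]
  refine ⟨?_, ?_⟩
  · have : (fun t => ∑ z ∈ T t, g (t, z)) = fun t =>
        (∑ z ∈ T t, ENNReal.ofReal (g (t, z))).toReal -
          (∑ z ∈ T t, ENNReal.ofReal (- g (t, z))).toReal := funext key
    rw [IntegrableOn, this]
    exact i1.sub i2
  · rw [integral_eq_lintegral_pos_part_sub_lintegral_neg_part hi]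
    simp_rw [key]
    rw [integral_sub i1 i2, a1, a2]

/-! ### integrability -/

theorem dn_nonneg {μ : ℂ × ℂ → ℂ} {A : ℂ × ℂ → ℂ × ℂ} {x : ℂ × ℂ} (h : ‖μ x‖ < 1) :
    0 ≤ dn μ A x := by
  unfold dn
  have := norm_nonneg (μ x)
  have : (0 : ℝ) < 1 - ‖μ x‖ ^ 2 := by nlinarith
  positivity

theorem measurable_dn {μ : ℂ × ℂ → ℂ} {A : ℂ × ℂ → ℂ × ℂ} (hμ : Continuous μ)
    (hA : Measurable A) : Measurable (dn μ A) := by
  unfold dn
  exact ((hA.fst.norm).pow_const 2).div (measurable_const.sub ((hμ.measurable.norm).pow_const 2))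

theorem measurable_sp {A : ℂ × ℂ → ℂ × ℂ} (hA : Measurable A) : Measurable (sp A) :=
  hA.snd.div hA.fst

theorem measurable_sl {μ β : ℂ × ℂ → ℂ} {A : ℂ × ℂ → ℂ × ℂ} (hμ : Continuous μ)
    (hβ : Continuous β) (hA : Measurable A) (v : ℂ) : Measurable fun x => sl μ β A x v := by
  unfold sl
  have h := measurable_sp hA
  exact (h.mul_const v).add (((h.mul hμ.measurable).sub hβ.measurable).mul_const _)

/-- integrability with respect to `hor` is integrability of the product with the density. -/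
theorem integrable_hor {μ : ℂ × ℂ → ℂ} {m : Measure (ℂ × ℂ)} {A : ℂ × ℂ → ℂ × ℂ}
    (hd : Measurable (dn μ A)) (h0 : ∀ x, 0 ≤ dn μ A x) (g : ℂ × ℂ → ℝ) :
    Integrable g (hor μ m A) ↔ Integrable (fun x => dn μ A x * g x) m := by
  have h1 : hor μ m A = m.withDensity fun x => ((Real.toNNReal (dn μ A x) : NNReal) : ENNReal) :=
    rfl
  rw [h1, integrable_withDensity_iff_integrable_smul hd.real_toNNReal]
  refine integrable_congr (ae_of_all _ fun x => ?_)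
  simp only [NNReal.smul_def, Real.coe_toNNReal _ (h0 x), smul_eq_mul]

theorem integral_hor {μ : ℂ × ℂ → ℂ} {m : Measure (ℂ × ℂ)} {A : ℂ × ℂ → ℂ × ℂ}
    (hd : Measurable (dn μ A)) (h0 : ∀ x, 0 ≤ dn μ A x) (g : ℂ × ℂ → ℝ) :
    ∫ x, g x ∂(hor μ m A) = ∫ x, dn μ A x * g x ∂m := by
  have h1 : hor μ m A = m.withDensity fun x => ((Real.toNNReal (dn μ A x) : NNReal) : ENNReal) :=
    rfl
  rw [h1, integral_withDensity_eq_integral_smul hd.real_toNNReal]
  refine integral_congr_ae (ae_of_all _ fun x => ?_)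
  simp only [NNReal.smul_def, Real.coe_toNNReal _ (h0 x), smul_eq_mul]

section

variable {μ β : ℂ × ℂ → ℂ} {κ L : ℝ} {R : ℝ} {m : Measure (ℂ × ℂ)} {A : ℂ × ℂ → ℂ × ℂ} {C c : ℝ}

/-- the energy bound in the weak form needed here -/
theorem dn_sp_le (hc : Coef μ β κ L) (hC : Cyl μ β R m A C c) (x : ℂ × ℂ) :
    dn μ A x ≤ 1 / (1 - κ ^ 2) ∧ dn μ A x * ‖sp A x‖ ≤ 1 / (1 - κ ^ 2) := by
  have hκ : (0 : ℝ) < 1 - κ ^ 2 := by nlinarith [hc.κ0, hc.κ1]
  have hμ : ‖μ x‖ ≤ κ := hc.bμ x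
  have h1 : 1 - κ ^ 2 ≤ 1 - ‖μ x‖ ^ 2 := by nlinarith [norm_nonneg (μ x), hc.κ0]
  have hu := hC.unit x
  have ha : ‖(A x).1‖ ^ 2 ≤ 1 := by nlinarith [sq_nonneg ‖(A x).2‖]
  refine ⟨?_, ?_⟩
  · unfold dn
    exact div_le_div₀ zero_le_one ha hκ h1
  · unfold dn sp
    rw [norm_div, div_mul_eq_mul_div]
    refine div_le_div₀ zero_le_one ?_ hκ h1
    by_cases h0 : ‖(A x).1‖ = 0
    · simp [h0]
    · have : ‖(A x).1‖ ^ 2 * (‖(A x).2‖ / ‖(A x).1‖) = ‖(A x).1‖ * ‖(A x).2‖ := by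
        field_simp
      rw [this]
      nlinarith [sq_nonneg (‖(A x).1‖ - ‖(A x).2‖), norm_nonneg (A x).1, norm_nonneg (A x).2]

/-- a function bounded by `K (1 + |p|)` on the carrier is integrable for `hor`. -/
theorem integrable_of_bound (hc : Coef μ β κ L) (hC : Cyl μ β R m A C c) {g : ℂ × ℂ → ℝ}
    (hg : Measurable g) {K : ℝ} (hK : 0 ≤ K)
    (hb : ∀ x : ℂ × ℂ, ‖x.1‖ < R → ‖x.2‖ ≤ 1 / 2 → |g x| ≤ K * (1 + ‖sp A x‖)) :
    Integrable g (hor μ m A) := by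
  have hμ1 : ∀ x, ‖μ x‖ < 1 := fun x => (hc.bμ x).trans_lt hc.κ1
  have hd := measurable_dn (A := A) hc.smμ.continuous hC.meas
  have hfin : IsFiniteMeasure m := ⟨hC.fin⟩
  rw [integrable_hor hd fun x => dn_nonneg (hμ1 x)]
  refine Integrable.mono' (g := fun _ => K * (2 / (1 - κ ^ 2))) (integrable_const _)
    (hd.mul hg).aestronglyMeasurable ?_
  filter_upwards [hC.carr] with x hx
  have h1 := dn_sp_le hc hC x
  have h2 := dn_nonneg (A := A) (hμ1 x)
  have h3 := hb x hx.1 hx.2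
  rw [Real.norm_eq_abs, abs_mul, abs_of_nonneg h2]
  calc dn μ A x * |g x| ≤ dn μ A x * (K * (1 + ‖sp A x‖)) := mul_le_mul_of_nonneg_left h3 h2
    _ = K * (dn μ A x + dn μ A x * ‖sp A x‖) := by ring
    _ ≤ K * (1 / (1 - κ ^ 2) + 1 / (1 - κ ^ 2)) :=
        mul_le_mul_of_nonneg_left (add_le_add h1.1 h1.2) hK
    _ = K * (2 / (1 - κ ^ 2)) := by ring

/-- compactness -/
theorem exists_bound {g : ℂ × ℂ → ℝ} (hg : Continuous g) (R : ℝ) :
    ∃ K : ℝ, 0 ≤ K ∧ ∀ x : ℂ × ℂ, ‖x.1‖ < R → ‖x.2‖ ≤ 1 / 2 → |g x| ≤ K := by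
  have hcp : IsCompact (closedBall (0 : ℂ) R ×ˢ closedBall (0 : ℂ) (1 / 2)) :=
    (isCompact_closedBall _ _).prod (isCompact_closedBall _ _)
  obtain ⟨K, hK⟩ := hcp.exists_bound_of_continuousOn hg.continuousOn
  refine ⟨max K 0, le_max_right _ _, fun x h1 h2 => ?_⟩
  refine (hK x ⟨?_, ?_⟩).trans (le_max_left _ _)
  · rw [mem_closedBall, dist_zero_right]; exact h1.le
  · rw [mem_closedBall, dist_zero_right]; exact h2

theorem sl_bound (hc : Coef μ β κ L) (v : ℂ) (R : ℝ) :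
    ∃ K : ℝ, 0 ≤ K ∧ ∀ x : ℂ × ℂ, ‖x.1‖ < R → ‖x.2‖ ≤ 1 / 2 →
      ‖sl μ β A x v‖ ≤ K * (1 + ‖sp A x‖) := by
  obtain ⟨B, hB0, hB⟩ := exists_bound (g := fun x => ‖β x‖) hc.smβ.continuous.norm R
  refine ⟨(2 + B) * ‖v‖, by positivity, fun x h1 h2 => ?_⟩
  have h3 : ‖β x‖ ≤ B := (le_abs_self _).trans (hB x h1 h2)
  have h4 : ‖μ x‖ ≤ 1 := (hc.bμ x).trans hc.κ1.le
  have h5 : ‖sp A x * μ x‖ ≤ ‖sp A x‖ := by
    rw [norm_mul]
    exact mul_le_of_le_one_right (norm_nonneg _) h4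
  unfold sl
  calc ‖sp A x * v + (sp A x * μ x - β x) * conj v‖
      ≤ ‖sp A x‖ * ‖v‖ + (‖sp A x * μ x‖ + ‖β x‖) * ‖v‖ := by
        refine (norm_add_le _ _).trans (add_le_add (norm_mul_le _ _) ?_)
        rw [norm_mul, RCLike.norm_conj]
        exact mul_le_mul_of_nonneg_right (norm_sub_le _ _) (norm_nonneg _)
    _ ≤ ‖sp A x‖ * ‖v‖ + (‖sp A x‖ + B) * ‖v‖ := by gcongr
    _ ≤ (2 + B) * ‖v‖ * (1 + ‖sp A x‖) := by
        nlinarith [mul_nonneg (norm_nonneg (sp A x)) (norm_nonneg v), norm_nonneg v,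
          mul_nonneg hB0 (mul_nonneg (norm_nonneg (sp A x)) (norm_nonneg v))]

/-- `D g (v, sl v)` for a smooth `g`: measurable and integrable. -/
theorem good_fderiv (hc : Coef μ β κ L) (hC : Cyl μ β R m A C c) {g : ℂ × ℂ → ℝ}
    (hg : ContDiff ℝ ∞ g) {h : ℂ × ℂ → ℝ} (hh : Continuous h) (v : ℂ) :
    Measurable (fun x => h x * fderiv ℝ g x (v, sl μ β A x v)) ∧
      Integrable (fun x => h x * fderiv ℝ g x (v, sl μ β A x v)) (hor μ m A) := by
  have hμ := hc.smμ.continuous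
  have hβ := hc.smβ.continuous
  have hcont : Continuous (fderiv ℝ g) := hg.continuous_fderiv (by simp)
  have hsl := measurable_sl hμ hβ hC.meas v
  have hexp : ∀ x, fderiv ℝ g x (v, sl μ β A x v) = fderiv ℝ g x (v, 0) +
      (sl μ β A x v).re * fderiv ℝ g x (0, 1) + (sl μ β A x v).im * fderiv ℝ g x (0, I) := by
    intro x
    have h1 : (v, sl μ β A x v) = (v, (0 : ℂ)) + ((sl μ β A x v).re • ((0 : ℂ), (1 : ℂ)) +
        (sl μ β A x v).im • ((0 : ℂ), I)) := by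
      refine Prod.ext ?_ ?_
      · simp
      · simp only [Prod.snd_add, Prod.smul_snd, Complex.real_smul, mul_one, zero_add]
        exact (Complex.re_add_im _).symm
    rw [h1, map_add, map_add, map_smul, map_smul, smul_eq_mul, smul_eq_mul, add_assoc]
  have hm0 : ∀ u : ℂ × ℂ, Measurable fun x => fderiv ℝ g x u := fun u =>
    (hcont.clm_apply continuous_const).measurable
  have hm : Measurable (fun x => h x * fderiv ℝ g x (v, sl μ β A x v)) := by
    simp_rw [hexp]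
    exact hh.measurable.mul (((hm0 _).add ((Complex.measurable_re.comp hsl).mul (hm0 _))).add
      ((Complex.measurable_im.comp hsl).mul (hm0 _)))
  refine ⟨hm, ?_⟩
  obtain ⟨K1, hK1, hb1⟩ := exists_bound (g := fun x => ‖fderiv ℝ g x‖) hcont.norm R
  obtain ⟨K2, hK2, hb2⟩ := exists_bound hh R
  obtain ⟨K3, hK3, hb3⟩ := sl_bound (A := A) hc v R
  refine integrable_of_bound hc hC hm (K := K2 * (K1 * (‖v‖ + K3))) (by positivity) ?_
  intro x h1 h2
  have e1 : ‖fderiv ℝ g x‖ ≤ K1 := (le_abs_self _).trans (hb1 x h1 h2)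
  have e2 := hb2 x h1 h2
  have e3 := hb3 x h1 h2
  have e4 : ‖(v, sl μ β A x v)‖ ≤ (‖v‖ + K3) * (1 + ‖sp A x‖) := by
    rw [Prod.norm_def]
    refine max_le ?_ ?_
    · nlinarith [norm_nonneg v, norm_nonneg (sp A x), mul_nonneg (norm_nonneg v)
        (norm_nonneg (sp A x)), mul_nonneg hK3 (norm_nonneg (sp A x))]
    · refine e3.trans ?_
      nlinarith [norm_nonneg v, norm_nonneg (sp A x), mul_nonneg (norm_nonneg v)
        (norm_nonneg (sp A x))]
  have e5 : |fderiv ℝ g x (v, sl μ β A x v)| ≤ K1 * ((‖v‖ + K3) * (1 + ‖sp A x‖)) := by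
    refine ((fderiv ℝ g x).le_opNorm _).trans ?_
    exact mul_le_mul e1 e4 (norm_nonneg _) hK1
  rw [abs_mul]
  calc |h x| * |fderiv ℝ g x (v, sl μ β A x v)|
      ≤ K2 * (K1 * ((‖v‖ + K3) * (1 + ‖sp A x‖))) := mul_le_mul e2 e5 (abs_nonneg _) hK2
    _ = K2 * (K1 * (‖v‖ + K3)) * (1 + ‖sp A x‖) := by ring

theorem good_cont (hc : Coef μ β κ L) (hC : Cyl μ β R m A C c) {g : ℂ × ℂ → ℝ}
    (hg : Continuous g) : Integrable g (hor μ m A) := by
  obtain ⟨K1, hK1, hb1⟩ := exists_bound hg R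
  refine integrable_of_bound hc hC hg.measurable hK1 ?_
  intro x h1 h2
  refine (hb1 x h1 h2).trans ?_
  nlinarith [norm_nonneg (sp A x)]

end

/-- (C08) -/
theorem weakf : WEAKF := by
  intro μ β κ L hc R m A C c hC k T hT Φ hΦ η hη hηc hηs v
  have hμ1 : ∀ x, ‖μ x‖ < 1 := fun x => (hc.bμ x).trans_lt hc.κ1
  have hd := measurable_dn (A := A) hc.smμ.continuous hC.meas
  -- the radius
  obtain ⟨R', hR'R, hR'⟩ : ∃ R' < R, ∀ t : ℂ, R' ≤ ‖t‖ → t ∉ tsupport η := by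
    have h1 : ContinuousOn (fun t : ℂ => ‖t‖) (tsupport η) := continuous_norm.continuousOn
    rcases (tsupport η).eq_empty_or_nonempty with he | hne
    · exact ⟨0, hC.R0, fun t _ ht => by rw [he] at ht; exact ht⟩
    · obtain ⟨t₀, ht₀, hmax⟩ := IsCompact.exists_isMaxOn hηc hne h1
      have h2 : ‖t₀‖ < R := by
        have := hηs ht₀
        rwa [mem_ball, dist_zero_right] at this
      refine ⟨(‖t₀‖ + R) / 2, by linarith, fun t ht htt => ?_⟩
      have : ‖t‖ ≤ ‖t₀‖ := hmax htt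
      linarith
  have hη0 : ∀ t : ℂ, R' ≤ ‖t‖ → η t = 0 := fun t ht => image_eq_zero_of_notMem_tsupport (hR' t ht)
  have hη1 : ∀ t : ℂ, R' ≤ ‖t‖ → fderiv ℝ η t = 0 := fun t ht => by
    have h1 : t ∉ tsupport (fderiv ℝ η) := fun h => hR' t ht (tsupport_fderiv_subset ℝ h)
    exact image_eq_zero_of_notMem_tsupport h1
  -- the function
  let e : ℂ × ℂ → ℝ := fun x => η x.1
  have he : ContDiff ℝ ∞ e := hη.comp contDiff_fst
  let f : ℂ × ℂ → ℝ := fun x => e x * Φ x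
  have hf : ContDiff ℝ ∞ f := he.mul hΦ
  have hfd : Differentiable ℝ f := hf.differentiable (by simp)
  have hde : ∀ (x : ℂ × ℂ) (u : ℂ × ℂ), fderiv ℝ e x u = fderiv ℝ η x.1 u.1 := by
    intro x u
    have h1 : HasFDerivAt e ((fderiv ℝ η x.1).comp (ContinuousLinearMap.fst ℝ ℂ ℂ)) x :=
      ((hη.differentiable (by simp)) x.1).hasFDerivAt.comp x hasFDerivAt_fst
    rw [h1.fderiv]
    rfl
  have hdf : ∀ (x : ℂ × ℂ) (u : ℂ × ℂ), fderiv ℝ f x u =
      e x * fderiv ℝ Φ x u + Φ x * fderiv ℝ η x.1 u.1 := by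
    intro x u
    have h1 : fderiv ℝ f x = e x • fderiv ℝ Φ x + Φ x • fderiv ℝ e x :=
      fderiv_mul ((he.differentiable (by simp)) x) ((hΦ.differentiable (by simp)) x)
    rw [h1]
    change e x * fderiv ℝ Φ x u + Φ x * fderiv ℝ e x u = _
    rw [hde]
  -- closedness
  have hcl := hC.closed (fun y => f y • Lv v) (hf.smul contDiff_const) ⟨R', hR'R, fun x hx => by
    change (η x.1 * Φ x) • Lv v = 0
    rw [hη0 x.1 hx, zero_mul, zero_smul]⟩
  have h0 : ∫ x, dn μ A x * fderiv ℝ f x (v, sl μ β A x v) ∂m = 0 := by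
    rw [← hcl]
    exact integral_congr_ae (ae_of_all _ fun x => (dS_eq μ β A f hfd v x (hμ1 x)).symm)
  rw [← integral_hor hd fun x => dn_nonneg (hμ1 x)] at h0
  -- the two pieces
  obtain ⟨mg1, ig1⟩ := good_fderiv hc hC hΦ he.continuous v
  have hcont : Continuous fun x : ℂ × ℂ => Φ x * fderiv ℝ η x.1 v :=
    hΦ.continuous.mul (((hη.continuous_fderiv (by simp)).comp continuous_fst).clm_apply
      continuous_const)
  have ig2 := good_cont hc hC hcont
  have hsplit : ∫ x, fderiv ℝ f x (v, sl μ β A x v) ∂(hor μ m A) =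
      ∫ x, e x * fderiv ℝ Φ x (v, sl μ β A x v) ∂(hor μ m A) +
        ∫ x, Φ x * fderiv ℝ η x.1 v ∂(hor μ m A) := by
    rw [← integral_add ig1 ig2]
    exact integral_congr_ae (ae_of_all _ fun x => hdf x _)
  obtain ⟨-, d1⟩ := dis_real hT mg1 ig1
  obtain ⟨-, d2⟩ := dis_real hT hcont.measurable ig2
  rw [h0, d1, d2] at hsplit
  have c1 : ∫ t in ball (0 : ℂ) R, ∑ z ∈ T t, e (t, z) *
      fderiv ℝ Φ (t, z) (v, sl μ β A (t, z) v) =
      ∫ t, η t * ∑ z ∈ T t, fderiv ℝ Φ (t, z) (v, sl μ β A (t, z) v) := by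
    have h1 := setIntegral_eq_integral_of_forall_compl_eq_zero (μ := volume) (s := ball (0 : ℂ) R)
      (f := fun t => η t * ∑ z ∈ T t, fderiv ℝ Φ (t, z) (v, sl μ β A (t, z) v)) (fun t ht => by
        rw [mem_ball, dist_zero_right, not_lt] at ht
        rw [hη0 t (hR'R.le.trans ht), zero_mul])
    rw [← h1]
    refine integral_congr_ae (ae_of_all _ fun t => ?_)
    simp only [Finset.mul_sum]
    rfl
  have c2 : ∫ t in ball (0 : ℂ) R, ∑ z ∈ T t, Φ (t, z) * fderiv ℝ η (t, z).1 v =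
      ∫ t, (∑ z ∈ T t, Φ (t, z)) * fderiv ℝ η t v := by
    have h1 := setIntegral_eq_integral_of_forall_compl_eq_zero (μ := volume) (s := ball (0 : ℂ) R)
      (f := fun t => (∑ z ∈ T t, Φ (t, z)) * fderiv ℝ η t v) (fun t ht => by
        rw [mem_ball, dist_zero_right, not_lt] at ht
        rw [hη1 t (hR'R.le.trans ht), zero_apply, mul_zero])
    rw [← h1]
    refine integral_congr_ae (ae_of_all _ fun t => ?_)
    simp only [Finset.sum_mul]
  rw [c1, c2] at hsplit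
  linarith

end

end Crest.Agent.R235.WeakF_915
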