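import Mathlib
import Crest.Agent.R240.Lin1
import Crest.Agent.R240.Ch4

/-!
Row 235 (S0364), SWC-AN positivity (helper358): LOCAL DIV-CURL LEMMA on `ℝ⁴` by the Fourier
transform.  `A n`, `B n` smooth compactly supported two-forms, bounded in `L²` together with their
exterior derivatives, `B n → 0` weakly; then `∫ A n ∧ B n → 0`.
Main result: `local_divcurl`.
-/

set_option autoImplicit false
set_option maxSynthPendingDepth 3

open MeasureTheory Set Filter Topology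
open scoped ContDiff SchwartzMap FourierTransform ComplexInnerProductSpace LineDeriv

namespace Crest.Agent.R235.DCFour_358

open Crest.Agent.R240 Crest.Agent.R240.Ch

noncomputable section

/-- the complex wedge coefficient. -/
def cW (A B : Fin 4 → Fin 4 → ℂ) : ℂ :=
  A 0 1 * B 2 3 - A 0 2 * B 1 3 + A 0 3 * B 1 2 + A 1 2 * B 0 3 - A 1 3 * B 0 2 + A 2 3 * B 0 1

/-- the complex wedge with a covector. -/
def cD (x : Fin 4 → ℂ) (A : Fin 4 → Fin 4 → ℂ) (i j k : Fin 4) : ℂ :=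
  x i * A j k - x j * A i k + x k * A i j

theorem key_identity (x : Fin 4 → ℂ) (A B : Fin 4 → Fin 4 → ℂ)
    (hA : ∀ i j, A j i = - A i j) :
    (∑ i, x i ^ 2) * cW A B =
      cW (fun j k => ∑ i, x i * cD x A i j k) B
      - ((∑ i, x i * A i 0) * cD x B 1 2 3 - (∑ i, x i * A i 1) * cD x B 0 2 3
        + (∑ i, x i * A i 2) * cD x B 0 1 3 - (∑ i, x i * A i 3) * cD x B 0 1 2) := by
  have e : ∀ (C : Fin 4 → Fin 4 → ℂ), (∀ i j, C j i = - C i j) → ∀ i, C i i = 0 := by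
    intro C hC i
    have := hC i i
    have h2 : (2:ℂ) * C i i = 0 := by linear_combination this
    simpa using h2
  simp only [cW, cD, Fin.sum_univ_four]
  rw [hA 0 1, hA 0 2, hA 0 3, hA 1 2, hA 1 3, hA 2 3, e A hA 0, e A hA 1, e A hA 2, e A hA 3]
  ring

/-- squared length of a two-index array. -/
def N2 (A : Fin 4 → Fin 4 → ℂ) : ℝ := ∑ i, ∑ j, ‖A i j‖ ^ 2

/-- squared length of a three-index array. -/
def N3 (A : Fin 4 → Fin 4 → Fin 4 → ℂ) : ℝ := ∑ i, ∑ j, ∑ k, ‖A i j k‖ ^ 2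

theorem N2_nonneg (A : Fin 4 → Fin 4 → ℂ) : 0 ≤ N2 A := by unfold N2; positivity

theorem N3_nonneg (A : Fin 4 → Fin 4 → Fin 4 → ℂ) : 0 ≤ N3 A := by unfold N3; positivity

theorem sq_le_N2 (A : Fin 4 → Fin 4 → ℂ) (i j : Fin 4) : ‖A i j‖ ^ 2 ≤ N2 A := by
  unfold N2
  refine le_trans ?_ (Finset.single_le_sum (f := fun i => ∑ j, ‖A i j‖ ^ 2)
    (fun i _ => by positivity) (Finset.mem_univ i))
  exact Finset.single_le_sum (f := fun j => ‖A i j‖ ^ 2) (fun j _ => by positivity)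
    (Finset.mem_univ j)

theorem sq_le_N3 (A : Fin 4 → Fin 4 → Fin 4 → ℂ) (i j k : Fin 4) : ‖A i j k‖ ^ 2 ≤ N3 A := by
  unfold N3
  refine le_trans ?_ (Finset.single_le_sum (f := fun i => ∑ j, ∑ k, ‖A i j k‖ ^ 2)
    (fun i _ => by positivity) (Finset.mem_univ i))
  refine le_trans ?_ (Finset.single_le_sum (f := fun j => ∑ k, ‖A i j k‖ ^ 2)
    (fun j _ => by positivity) (Finset.mem_univ j))
  exact Finset.single_le_sum (f := fun k => ‖A i j k‖ ^ 2) (fun k _ => by positivity)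
    (Finset.mem_univ k)

theorem norm_le_N2 (A : Fin 4 → Fin 4 → ℂ) (i j : Fin 4) : ‖A i j‖ ≤ √(N2 A) :=
  Real.le_sqrt_of_sq_le (sq_le_N2 A i j)

theorem norm_le_N3 (A : Fin 4 → Fin 4 → Fin 4 → ℂ) (i j k : Fin 4) : ‖A i j k‖ ≤ √(N3 A) :=
  Real.le_sqrt_of_sq_le (sq_le_N3 A i j k)

theorem norm_cW_le {A B : Fin 4 → Fin 4 → ℂ} {a b : ℝ} (ha : ∀ i j, ‖A i j‖ ≤ a)
    (hb : ∀ i j, ‖B i j‖ ≤ b) : ‖cW A B‖ ≤ 6 * (a * b) := by
  have ha0 : 0 ≤ a := (norm_nonneg _).trans (ha 0 0)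
  have h : ∀ i j k l, ‖A i j * B k l‖ ≤ a * b := fun i j k l => by
    rw [norm_mul]; exact mul_le_mul (ha i j) (hb k l) (norm_nonneg _) ha0
  unfold cW
  have t : ∀ u v : ℂ, ‖u + v‖ ≤ ‖u‖ + ‖v‖ := norm_add_le
  have t' : ∀ u v : ℂ, ‖u - v‖ ≤ ‖u‖ + ‖v‖ := norm_sub_le
  have h1 := t (A 0 1 * B 2 3 - A 0 2 * B 1 3 + A 0 3 * B 1 2 + A 1 2 * B 0 3 - A 1 3 * B 0 2)
    (A 2 3 * B 0 1)
  have h2 := t' (A 0 1 * B 2 3 - A 0 2 * B 1 3 + A 0 3 * B 1 2 + A 1 2 * B 0 3) (A 1 3 * B 0 2)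
  have h3 := t (A 0 1 * B 2 3 - A 0 2 * B 1 3 + A 0 3 * B 1 2) (A 1 2 * B 0 3)
  have h4 := t (A 0 1 * B 2 3 - A 0 2 * B 1 3) (A 0 3 * B 1 2)
  have h5 := t' (A 0 1 * B 2 3) (A 0 2 * B 1 3)
  have g1 := h 0 1 2 3
  have g2 := h 0 2 1 3
  have g3 := h 0 3 1 2
  have g4 := h 1 2 0 3
  have g5 := h 1 3 0 2
  have g6 := h 2 3 0 1
  linarith

/-- low frequencies. -/
theorem cW_low (A B : Fin 4 → Fin 4 → ℂ) {s : ℝ} (hs : 0 < s) :
    ‖cW A B‖ ≤ 3 * (s * N2 A + s⁻¹ * N2 B) := by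
  have h := norm_cW_le (norm_le_N2 A) (norm_le_N2 B)
  have hA := N2_nonneg A
  have hB := N2_nonneg B
  have h1 : 2 * (√(N2 A) * √(N2 B)) ≤ s * N2 A + s⁻¹ * N2 B := by
    have e1 := Real.sq_sqrt hA
    have e2 := Real.sq_sqrt hB
    have h2 : 0 ≤ s * (√(N2 A) - s⁻¹ * √(N2 B)) ^ 2 := by positivity
    have h3 : s * (√(N2 A) - s⁻¹ * √(N2 B)) ^ 2 =
        s * √(N2 A) ^ 2 + s⁻¹ * √(N2 B) ^ 2 - 2 * (√(N2 A) * √(N2 B)) := by
      field_simp
      ring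
    rw [h3, e1, e2] at h2
    linarith
  linarith

/-- high frequencies. -/
theorem cW_high (x : Fin 4 → ℂ) (A B : Fin 4 → Fin 4 → ℂ) (hA : ∀ i j, A j i = - A i j)
    {X : ℝ} (hX : 0 < X) (hx : ∀ i, ‖x i‖ ≤ X) (hs : ‖∑ i, x i ^ 2‖ = X ^ 2) :
    ‖cW A B‖ ≤ 12 / X * (N2 A + N2 B + N3 (cD x A) + N3 (cD x B)) := by
  have hid := key_identity x A B hA
  set a := √(N2 A) with ha
  set b := √(N2 B) with hb
  set a3 := √(N3 (cD x A)) with ha3
  set b3 := √(N3 (cD x B)) with hb3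
  have a0 : 0 ≤ a := Real.sqrt_nonneg _
  have b0 : 0 ≤ b := Real.sqrt_nonneg _
  have a30 : 0 ≤ a3 := Real.sqrt_nonneg _
  have b30 : 0 ≤ b3 := Real.sqrt_nonneg _
  have h1 : ∀ j k, ‖∑ i, x i * cD x A i j k‖ ≤ 4 * (X * a3) := by
    intro j k
    refine (norm_sum_le _ _).trans ?_
    have : ∑ i : Fin 4, ‖x i * cD x A i j k‖ ≤ ∑ i : Fin 4, X * a3 := by
      refine Finset.sum_le_sum fun i _ => ?_
      rw [norm_mul]
      exact mul_le_mul (hx i) (norm_le_N3 (cD x A) i j k) (norm_nonneg _) hX.le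
    refine this.trans (le_of_eq ?_)
    simp
  have h2 : ∀ k, ‖∑ i, x i * A i k‖ ≤ 4 * (X * a) := by
    intro k
    refine (norm_sum_le _ _).trans ?_
    have : ∑ i : Fin 4, ‖x i * A i k‖ ≤ ∑ i : Fin 4, X * a := by
      refine Finset.sum_le_sum fun i _ => ?_
      rw [norm_mul]
      exact mul_le_mul (hx i) (norm_le_N2 A i k) (norm_nonneg _) hX.le
    refine this.trans (le_of_eq ?_)
    simp
  have h3 := norm_cW_le (A := fun j k => ∑ i, x i * cD x A i j k) (B := B) h1 (norm_le_N2 B)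
  have h4 : ∀ k l m n, ‖(∑ i, x i * A i k) * cD x B l m n‖ ≤ 4 * (X * a) * b3 := by
    intro k l m n
    rw [norm_mul]
    exact mul_le_mul (h2 k) (norm_le_N3 (cD x B) l m n) (norm_nonneg _) (by positivity)
  have h5 : ‖(∑ i, x i * A i 0) * cD x B 1 2 3 - (∑ i, x i * A i 1) * cD x B 0 2 3
        + (∑ i, x i * A i 2) * cD x B 0 1 3 - (∑ i, x i * A i 3) * cD x B 0 1 2‖
        ≤ 16 * (X * a) * b3 := by
    have g1 := h4 0 1 2 3
    have g2 := h4 1 0 2 3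
    have g3 := h4 2 0 1 3
    have g4 := h4 3 0 1 2
    have t : ∀ u v : ℂ, ‖u + v‖ ≤ ‖u‖ + ‖v‖ := norm_add_le
    have t' : ∀ u v : ℂ, ‖u - v‖ ≤ ‖u‖ + ‖v‖ := norm_sub_le
    have k1 := t' ((∑ i, x i * A i 0) * cD x B 1 2 3 - (∑ i, x i * A i 1) * cD x B 0 2 3
        + (∑ i, x i * A i 2) * cD x B 0 1 3) ((∑ i, x i * A i 3) * cD x B 0 1 2)
    have k2 := t ((∑ i, x i * A i 0) * cD x B 1 2 3 - (∑ i, x i * A i 1) * cD x B 0 2 3)
        ((∑ i, x i * A i 2) * cD x B 0 1 3)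
    have k3 := t' ((∑ i, x i * A i 0) * cD x B 1 2 3) ((∑ i, x i * A i 1) * cD x B 0 2 3)
    linarith
  have h6 : X ^ 2 * ‖cW A B‖ ≤ 24 * X * (a3 * b + a * b3) := by
    rw [← hs, ← norm_mul, hid]
    refine (norm_sub_le _ _).trans ?_
    have e : 24 * X * (a3 * b + a * b3) = 6 * (4 * (X * a3) * b) + 24 * (X * a) * b3 := by ring
    rw [e]
    have : 16 * (X * a) * b3 ≤ 24 * (X * a) * b3 := by
      have : 0 ≤ (X * a) * b3 := by positivity
      nlinarith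
    linarith
  have h7 : 2 * (a3 * b + a * b3) ≤ N2 A + N2 B + N3 (cD x A) + N3 (cD x B) := by
    have e1 : a ^ 2 = N2 A := Real.sq_sqrt (N2_nonneg A)
    have e2 : b ^ 2 = N2 B := Real.sq_sqrt (N2_nonneg B)
    have e3 : a3 ^ 2 = N3 (cD x A) := Real.sq_sqrt (N3_nonneg _)
    have e4 : b3 ^ 2 = N3 (cD x B) := Real.sq_sqrt (N3_nonneg _)
    nlinarith [sq_nonneg (a3 - b), sq_nonneg (a - b3)]
  rw [div_mul_eq_mul_div, le_div_iff₀ hX]
  have h8 : X * (‖cW A B‖ * X) ≤ X * (12 * (N2 A + N2 B + N3 (cD x A) + N3 (cD x B))) := by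
    calc X * (‖cW A B‖ * X) = X ^ 2 * ‖cW A B‖ := by ring
      _ ≤ 24 * X * (a3 * b + a * b3) := h6
      _ = X * (12 * (2 * (a3 * b + a * b3))) := by ring
      _ ≤ _ := by gcongr
  exact le_of_mul_le_mul_left h8 hX


/-- a real smooth compactly supported function as a complex Schwartz function. -/
def toS (f : E4 → ℝ) (hc : HasCompactSupport f) (hf : ContDiff ℝ ∞ f) : 𝓢(E4, ℂ) :=
  HasCompactSupport.toSchwartzMap (f := fun y => (f y : ℂ))
    (hc.comp_left (g := ((↑) : ℝ → ℂ)) Complex.ofReal_zero) (Complex.ofRealCLM.contDiff.comp hf)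

@[simp] theorem toS_apply (f : E4 → ℝ) (hc : HasCompactSupport f) (hf : ContDiff ℝ ∞ f) (y : E4) :
    toS f hc hf y = (f y : ℂ) := rfl

theorem fourier_deriv (F : 𝓢(E4, ℂ)) (m ξ : E4) :
    (𝓕 (∂_{m} F)) ξ = (2 * Real.pi * Complex.I) * ((inner ℝ ξ m : ℝ) : ℂ) * (𝓕 F) ξ := by
  rw [SchwartzMap.fourier_lineDerivOp_eq]
  have : (fun x : E4 => (inner ℝ x m : ℝ)).HasTemperateGrowth :=
    ((innerSL ℝ).flip m).hasTemperateGrowth
  simp [this, SchwartzMap.smulLeftCLM_apply_apply]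
  ring

theorem planch (F G : 𝓢(E4, ℂ)) :
    ∫ ξ, (starRingEnd ℂ) ((𝓕 F) ξ) * (𝓕 G) ξ = ∫ x, (starRingEnd ℂ) (F x) * G x := by
  have h := SchwartzMap.integral_inner_fourier_fourier F G
  simpa [RCLike.inner_apply, mul_comm] using h

theorem planch_norm (F : 𝓢(E4, ℂ)) : ∫ ξ, ‖(𝓕 F) ξ‖ ^ 2 = ∫ x, ‖F x‖ ^ 2 :=
  SchwartzMap.integral_norm_sq_fourier F

theorem int_sq (F : 𝓢(E4, ℂ)) : Integrable (fun ξ => ‖F ξ‖ ^ 2) :=
  (memLp_two_iff_integrable_sq_norm F.continuous.aestronglyMeasurable).1 (F.memLp 2 volume)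

theorem int_mul (F G : 𝓢(E4, ℂ)) : Integrable (fun ξ => (starRingEnd ℂ) (F ξ) * G ξ) := by
  refine Integrable.mono' (g := fun ξ => ‖F ξ‖ ^ 2 + ‖G ξ‖ ^ 2) ((int_sq F).add (int_sq G)) ?_ ?_
  · exact ((Complex.continuous_conj.comp F.continuous).mul G.continuous).aestronglyMeasurable
  · refine Eventually.of_forall fun ξ => ?_
    rw [norm_mul, RCLike.norm_conj]
    nlinarith [sq_nonneg (‖F ξ‖ - ‖G ξ‖), sq_nonneg (‖F ξ‖), sq_nonneg (‖G ξ‖)]

/-- real form of Plancherel. -/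
theorem planch_real {f g : E4 → ℝ} (hfc : HasCompactSupport f) (hf : ContDiff ℝ ∞ f)
    (hgc : HasCompactSupport g) (hg : ContDiff ℝ ∞ g) :
    ((∫ y, f y * g y : ℝ) : ℂ) =
      ∫ ξ, (starRingEnd ℂ) ((𝓕 (toS f hfc hf)) ξ) * (𝓕 (toS g hgc hg)) ξ := by
  rw [planch, ← integral_complex_ofReal]
  simp

/-- the Fourier transform as an integral against cosine and sine. -/
theorem fourier_eq (f : E4 → ℝ) (hc : HasCompactSupport f) (hf : ContDiff ℝ ∞ f) (ξ : E4) :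
    (𝓕 (toS f hc hf)) ξ =
      ((∫ v, Real.cos (2 * Real.pi * inner ℝ v ξ) * f v : ℝ) : ℂ)
      - ((∫ v, Real.sin (2 * Real.pi * inner ℝ v ξ) * f v : ℝ) : ℂ) * Complex.I := by
  have hi : Integrable f := hf.continuous.integrable_of_hasCompactSupport hc
  have h1 : Integrable (fun v : E4 => Real.cos (2 * Real.pi * inner ℝ v ξ) * f v) := by
    refine (Continuous.integrable_of_hasCompactSupport ?_ hc.mul_left)
    exact (by fun_prop : Continuous fun v : E4 => Real.cos (2 * Real.pi * inner ℝ v ξ)).mul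
      hf.continuous
  have h2 : Integrable (fun v : E4 => Real.sin (2 * Real.pi * inner ℝ v ξ) * f v) := by
    refine (Continuous.integrable_of_hasCompactSupport ?_ hc.mul_left)
    exact (by fun_prop : Continuous fun v : E4 => Real.sin (2 * Real.pi * inner ℝ v ξ)).mul
      hf.continuous
  rw [SchwartzMap.fourier_coe, Real.fourier_eq', ← integral_complex_ofReal,
    ← integral_complex_ofReal, ← integral_mul_const, ← integral_sub h1.ofReal
      (h2.ofReal.mul_const _)]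
  congr 1
  funext v
  rw [toS_apply, smul_eq_mul]
  have e : (((-2 * Real.pi * inner ℝ v ξ : ℝ) : ℂ) * Complex.I)
      = ((-(2 * Real.pi * inner ℝ v ξ) : ℝ) : ℂ) * Complex.I := by
    push_cast; ring
  rw [e, Complex.exp_mul_I, ← Complex.ofReal_cos, ← Complex.ofReal_sin, Real.cos_neg,
    Real.sin_neg]
  push_cast
  ring

theorem norm_fourier_le (f : E4 → ℝ) (hc : HasCompactSupport f) (hf : ContDiff ℝ ∞ f) (ξ : E4) :
    ‖(𝓕 (toS f hc hf)) ξ‖ ≤ ∫ v, |f v| := by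
  rw [SchwartzMap.fourier_coe, Real.fourier_eq']
  refine (norm_integral_le_integral_norm _).trans (le_of_eq ?_)
  congr 1
  funext v
  rw [norm_smul, toS_apply, Complex.norm_real, Real.norm_eq_abs, Complex.norm_exp_ofReal_mul_I,
    one_mul]

/-! ### smooth compactly supported two-forms -/

/-- smooth compactly supported two-forms on `ℝ⁴`. -/
structure Cp (A : E4 → Bil) : Prop where
  smooth : ContDiff ℝ ∞ A
  cpt : HasCompactSupport A
  alt : ∀ y, Alt (A y)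

theorem Cp.entS {A : E4 → Bil} (h : Cp A) (i j : Fin 4) :
    ContDiff ℝ ∞ (fun y => ent (A y) i j) :=
  (h.smooth.clm_apply contDiff_const).clm_apply contDiff_const

theorem Cp.entC {A : E4 → Bil} (h : Cp A) (i j : Fin 4) :
    HasCompactSupport (fun y => ent (A y) i j) := by
  refine h.cpt.comp_left (g := fun b : Bil => ent b i j) ?_
  exact ent_zero i j

/-- the components as Schwartz functions. -/
def Sc {A : E4 → Bil} (h : Cp A) (i j : Fin 4) : 𝓢(E4, ℂ) := toS _ (h.entC i j) (h.entS i j)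

theorem Sc_apply {A : E4 → Bil} (h : Cp A) (i j : Fin 4) (y : E4) :
    Sc h i j y = (ent (A y) i j : ℂ) := rfl

/-- the Fourier transform. -/
def hat {A : E4 → Bil} (h : Cp A) (ξ : E4) : Fin 4 → Fin 4 → ℂ := fun i j => (𝓕 (Sc h i j)) ξ

theorem Sc_swap {A : E4 → Bil} (h : Cp A) (i j : Fin 4) : Sc h j i = - Sc h i j := by
  ext y
  rw [neg_apply, Sc_apply, Sc_apply, (h.alt y).ent_swap j i]
  push_cast
  ring

theorem hat_swap {A : E4 → Bil} (h : Cp A) (ξ : E4) (i j : Fin 4) :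
    hat h ξ j i = - hat h ξ i j := by
  unfold hat
  rw [Sc_swap h i j, FourierTransform.fourier_neg]
  rfl

/-- the components of the exterior derivative as Schwartz functions. -/
def D3 {A : E4 → Bil} (h : Cp A) (i j k : Fin 4) : 𝓢(E4, ℂ) :=
  ∂_{ee i} (Sc h j k) - ∂_{ee j} (Sc h i k) + ∂_{ee k} (Sc h i j)

theorem deriv_Sc {A : E4 → Bil} (h : Cp A) (m : E4) (i j : Fin 4) (y : E4) :
    (∂_{m} (Sc h i j)) y = ((fderiv ℝ A y m (ee i) (ee j) : ℝ) : ℂ) := by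
  rw [SchwartzMap.lineDerivOp_apply_eq_fderiv]
  have hA : DifferentiableAt ℝ A y := h.smooth.differentiable (by simp) y
  have h1 : HasFDerivAt (fun z => A z (ee i) (ee j))
      (((ContinuousLinearMap.apply ℝ ℝ (ee j)).comp
        ((ContinuousLinearMap.apply ℝ (E4 →L[ℝ] ℝ) (ee i)).comp (fderiv ℝ A y)))) y :=
    (ContinuousLinearMap.apply ℝ ℝ (ee j)).hasFDerivAt.comp y
      ((ContinuousLinearMap.apply ℝ (E4 →L[ℝ] ℝ) (ee i)).hasFDerivAt.comp y hA.hasFDerivAt)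
  have h2 : HasFDerivAt (fun z => ((ent (A z) i j : ℝ) : ℂ)) (Complex.ofRealCLM.comp
      (((ContinuousLinearMap.apply ℝ ℝ (ee j)).comp
        ((ContinuousLinearMap.apply ℝ (E4 →L[ℝ] ℝ) (ee i)).comp (fderiv ℝ A y))))) y :=
    Complex.ofRealCLM.hasFDerivAt.comp y h1
  have h3 : fderiv ℝ (Sc h i j) y = _ := h2.fderiv
  rw [h3]
  rfl

theorem D3_apply {A : E4 → Bil} (h : Cp A) (i j k : Fin 4) (y : E4) :
    D3 h i j k y = ((dd A y (ee i) (ee j) (ee k) : ℝ) : ℂ) := by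
  unfold D3 dd
  rw [add_apply, sub_apply, deriv_Sc, deriv_Sc, deriv_Sc]
  push_cast
  rfl

/-- the symbol. -/
def xi (ξ : E4) (i : Fin 4) : ℂ := 2 * Real.pi * Complex.I * ((ξ i : ℝ) : ℂ)

theorem fourier_D3 {A : E4 → Bil} (h : Cp A) (ξ : E4) (i j k : Fin 4) :
    (𝓕 (D3 h i j k)) ξ = cD (xi ξ) (hat h ξ) i j k := by
  have e : ∀ m : Fin 4, inner ℝ ξ (ee m) = ξ m := by
    intro m
    unfold ee
    rw [EuclideanSpace.inner_single_right]
    simp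
  have h1 : 𝓕 (D3 h i j k) = 𝓕 (∂_{ee i} (Sc h j k)) - 𝓕 (∂_{ee j} (Sc h i k))
      + 𝓕 (∂_{ee k} (Sc h i j)) := by
    unfold D3
    rw [FourierTransform.fourier_add, sub_eq_add_neg, FourierTransform.fourier_add,
      FourierTransform.fourier_neg, ← sub_eq_add_neg]
  rw [h1, add_apply, sub_apply, fourier_deriv, fourier_deriv,
    fourier_deriv, e, e, e]
  rfl

theorem norm_xi_le (ξ : E4) (i : Fin 4) : ‖xi ξ i‖ ≤ 2 * Real.pi * ‖ξ‖ := by
  unfold xi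
  rw [norm_mul, norm_mul, norm_mul, Complex.norm_I, Complex.norm_real, Complex.norm_real]
  have h1 : ‖ξ i‖ ≤ ‖ξ‖ := PiLp.norm_apply_le ξ i
  have h2 : ‖(Real.pi : ℝ)‖ = Real.pi := Real.norm_of_nonneg Real.pi_pos.le
  rw [h2]
  have h3 : ‖(2 : ℂ)‖ = 2 := by simp
  rw [h3, mul_one]
  gcongr

theorem sum_xi (ξ : E4) : ‖∑ i, xi ξ i ^ 2‖ = (2 * Real.pi * ‖ξ‖) ^ 2 := by
  have h1 : ∑ i, xi ξ i ^ 2 = ((-(2 * Real.pi * ‖ξ‖) ^ 2 : ℝ) : ℂ) := by
    have h2 : ‖ξ‖ ^ 2 = ∑ i, (ξ i) ^ 2 := by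
      rw [EuclideanSpace.norm_sq_eq]
      simp
    rw [mul_pow, h2]
    unfold xi
    push_cast
    rw [Fin.sum_univ_four, Fin.sum_univ_four]
    linear_combination (4 * (Real.pi : ℂ) ^ 2 * ((ξ 0 : ℂ) ^ 2 + (ξ 1 : ℂ) ^ 2 + (ξ 2 : ℂ) ^ 2
      + (ξ 3 : ℂ) ^ 2)) * Complex.I_sq
  rw [h1, Complex.norm_real, norm_neg, Real.norm_of_nonneg (by positivity)]

theorem N2_conj (A : Fin 4 → Fin 4 → ℂ) :
    N2 (fun i j => (starRingEnd ℂ) (A i j)) = N2 A := by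
  unfold N2
  simp

theorem N3_conj (ξ : E4) (A : Fin 4 → Fin 4 → ℂ) :
    N3 (cD (xi ξ) (fun i j => (starRingEnd ℂ) (A i j))) = N3 (cD (xi ξ) A) := by
  have hx : ∀ i, (starRingEnd ℂ) (xi ξ i) = - xi ξ i := by
    intro i
    unfold xi
    rw [map_mul, map_mul, map_mul, Complex.conj_I, Complex.conj_ofReal, Complex.conj_ofReal,
      map_ofNat]
    ring
  have h : ∀ i j k, cD (xi ξ) (fun i j => (starRingEnd ℂ) (A i j)) i j k =
      - (starRingEnd ℂ) (cD (xi ξ) A i j k) := by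
    intro i j k
    unfold cD
    rw [map_add, map_sub, map_mul, map_mul, map_mul, hx, hx, hx]
    ring
  unfold N3
  simp only [h, norm_neg, RCLike.norm_conj]

/-! ### the wedge product as a sum over a table -/

def p1 : Fin 6 → Fin 4 := ![0, 0, 0, 1, 1, 2]
def p2 : Fin 6 → Fin 4 := ![1, 2, 3, 2, 3, 3]
def q1 : Fin 6 → Fin 4 := ![2, 1, 1, 0, 0, 0]
def q2 : Fin 6 → Fin 4 := ![3, 3, 2, 3, 2, 1]
def sgn : Fin 6 → ℝ := ![1, -1, 1, 1, -1, 1]

theorem W_sum (a b : Bil) :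
    W a b = ∑ t, sgn t * (ent a (p1 t) (p2 t) * ent b (q1 t) (q2 t)) := by
  simp [W, Fin.sum_univ_succ, sgn, p1, p2, q1, q2]
  ring

theorem cW_sum (A B : Fin 4 → Fin 4 → ℂ) :
    cW A B = ∑ t, (sgn t : ℂ) * (A (p1 t) (p2 t) * B (q1 t) (q2 t)) := by
  simp [cW, Fin.sum_univ_succ, sgn, p1, p2, q1, q2]
  ring

theorem int_W {A B : E4 → Bil} (hA : Cp A) (hB : Cp B) :
    ((∫ y, W (A y) (B y) : ℝ) : ℂ) =
      ∫ ξ, cW (fun i j => (starRingEnd ℂ) (hat hA ξ i j)) (hat hB ξ) := by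
  have i1 : ∀ t : Fin 6, Integrable (fun y => sgn t *
      (ent (A y) (p1 t) (p2 t) * ent (B y) (q1 t) (q2 t))) := by
    intro t
    refine Integrable.const_mul ?_ _
    exact Continuous.integrable_of_hasCompactSupport
      ((hA.entS _ _).continuous.mul (hB.entS _ _).continuous) (hB.entC _ _).mul_left
  have i2 : ∀ t : Fin 6, Integrable (fun ξ => (sgn t : ℂ) *
      ((starRingEnd ℂ) (hat hA ξ (p1 t) (p2 t)) * hat hB ξ (q1 t) (q2 t))) := by
    intro t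
    exact (int_mul (𝓕 (Sc hA (p1 t) (p2 t))) (𝓕 (Sc hB (q1 t) (q2 t)))).const_mul _
  simp only [W_sum, cW_sum]
  rw [integral_finsetSum _ (fun t _ => i1 t), integral_finsetSum _ (fun t _ => i2 t)]
  push_cast
  refine Finset.sum_congr rfl fun t _ => ?_
  rw [integral_const_mul, integral_const_mul]
  push_cast
  congr 1
  exact planch_real (hA.entC _ _) (hA.entS _ _) (hB.entC _ _) (hB.entS _ _)

theorem norm_ee' (i : Fin 4) : ‖ee i‖ = 1 := by simp [ee]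

theorem abs_ent_le (b : Bil) (i j : Fin 4) : |ent b i j| ≤ ‖b‖ := by
  have := b.le_opNorm₂ (ee i) (ee j)
  rw [norm_ee', norm_ee', mul_one, mul_one] at this
  exact this

/-- exchange of sum and integral. -/
theorem sum2 (f : Fin 4 → Fin 4 → 𝓢(E4, ℂ)) : Integrable (fun ξ => ∑ i, ∑ j, ‖f i j ξ‖ ^ 2) ∧
    ∫ ξ, ∑ i, ∑ j, ‖f i j ξ‖ ^ 2 = ∑ i, ∑ j, ∫ ξ, ‖f i j ξ‖ ^ 2 := by
  have h1 : ∀ i, Integrable (fun ξ => ∑ j, ‖f i j ξ‖ ^ 2) := fun i =>
    integrable_finsetSum _ fun j _ => int_sq (f i j)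
  refine ⟨integrable_finsetSum _ fun i _ => h1 i, ?_⟩
  rw [integral_finsetSum _ fun i _ => h1 i]
  exact Finset.sum_congr rfl fun i _ => integral_finsetSum _ fun j _ => int_sq (f i j)

/-- exchange of sum and integral. -/
theorem sum3 (f : Fin 4 → Fin 4 → Fin 4 → 𝓢(E4, ℂ)) :
    Integrable (fun ξ => ∑ i, ∑ j, ∑ k, ‖f i j k ξ‖ ^ 2) ∧
    ∫ ξ, ∑ i, ∑ j, ∑ k, ‖f i j k ξ‖ ^ 2 = ∑ i, ∑ j, ∑ k, ∫ ξ, ‖f i j k ξ‖ ^ 2 := by
  have h1 : ∀ i, Integrable (fun ξ => ∑ j, ∑ k, ‖f i j k ξ‖ ^ 2) := fun i => (sum2 (f i)).1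
  refine ⟨integrable_finsetSum _ fun i _ => h1 i, ?_⟩
  rw [integral_finsetSum _ fun i _ => h1 i]
  exact Finset.sum_congr rfl fun i _ => (sum2 (f i)).2

theorem sum_bd2 {g : Fin 4 → Fin 4 → ℝ} {c : ℝ} (h : ∀ i j, g i j ≤ c) :
    ∑ i, ∑ j, g i j ≤ 16 * c := by
  have h1 : ∑ i : Fin 4, ∑ j : Fin 4, g i j ≤ ∑ i : Fin 4, ∑ j : Fin 4, c :=
    Finset.sum_le_sum fun i _ => Finset.sum_le_sum fun j _ => h i j
  refine h1.trans (le_of_eq ?_)
  rw [Finset.sum_const, Finset.sum_const, Finset.card_univ, Fintype.card_fin]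
  ring

theorem sum_bd3 {g : Fin 4 → Fin 4 → Fin 4 → ℝ} {c : ℝ} (h : ∀ i j k, g i j k ≤ c) :
    ∑ i, ∑ j, ∑ k, g i j k ≤ 64 * c := by
  have h1 : ∑ i : Fin 4, ∑ j : Fin 4, ∑ k : Fin 4, g i j k ≤
      ∑ i : Fin 4, ∑ j : Fin 4, ∑ k : Fin 4, c :=
    Finset.sum_le_sum fun i _ => Finset.sum_le_sum fun j _ => Finset.sum_le_sum fun k _ => h i j k
  refine h1.trans (le_of_eq ?_)
  rw [Finset.sum_const, Finset.sum_const, Finset.sum_const, Finset.card_univ, Fintype.card_fin]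
  ring

theorem sq_four_le (f : 𝓢(E4, ℂ)) {h : E4 → ℝ} (hi : Integrable (fun y => h y ^ 2))
    (h1 : ∀ y, ‖f y‖ ≤ h y) : ∫ ξ, ‖(𝓕 f) ξ‖ ^ 2 ≤ ∫ y, h y ^ 2 := by
  rw [planch_norm f]
  refine integral_mono (int_sq _) hi fun y => ?_
  show ‖f y‖ ^ 2 ≤ h y ^ 2
  have := h1 y
  gcongr

theorem int_N2 {A : E4 → Bil} (hA : Cp A) : Integrable (fun ξ => N2 (hat hA ξ)) :=
  (sum2 fun i j => 𝓕 (Sc hA i j)).1

theorem N3_eq {A : E4 → Bil} (hA : Cp A) (ξ : E4) :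
    N3 (cD (xi ξ) (hat hA ξ)) = ∑ i, ∑ j, ∑ k, ‖(𝓕 (D3 hA i j k)) ξ‖ ^ 2 := by
  unfold N3
  simp only [fourier_D3 hA]

theorem int_N3 {A : E4 → Bil} (hA : Cp A) : Integrable (fun ξ => N3 (cD (xi ξ) (hat hA ξ))) := by
  simp only [N3_eq hA]
  exact (sum3 fun i j k => 𝓕 (D3 hA i j k)).1

theorem N2_le {A : E4 → Bil} (hA : Cp A) {h : E4 → ℝ} (hi : Integrable (fun y => h y ^ 2))
    (h1 : ∀ y, ‖A y‖ ≤ h y) : ∫ ξ, N2 (hat hA ξ) ≤ 16 * ∫ y, h y ^ 2 := by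
  have h2 : ∫ ξ, N2 (hat hA ξ) = ∑ i, ∑ j, ∫ ξ, ‖(𝓕 (Sc hA i j)) ξ‖ ^ 2 :=
    (sum2 fun i j => 𝓕 (Sc hA i j)).2
  rw [h2]
  refine sum_bd2 fun i j => sq_four_le _ hi fun y => ?_
  rw [Sc_apply, Complex.norm_real, Real.norm_eq_abs]
  exact (abs_ent_le (A y) i j).trans (h1 y)

theorem N3_le {A : E4 → Bil} (hA : Cp A) {h : E4 → ℝ} (hi : Integrable (fun y => h y ^ 2))
    (h1 : ∀ y i j k, |dd A y (ee i) (ee j) (ee k)| ≤ h y) :
    ∫ ξ, N3 (cD (xi ξ) (hat hA ξ)) ≤ 64 * ∫ y, h y ^ 2 := by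
  have h2 : ∫ ξ, N3 (cD (xi ξ) (hat hA ξ)) =
      ∑ i, ∑ j, ∑ k, ∫ ξ, ‖(𝓕 (D3 hA i j k)) ξ‖ ^ 2 := by
    simp only [N3_eq hA]
    exact (sum3 fun i j k => 𝓕 (D3 hA i j k)).2
  rw [h2]
  refine sum_bd3 fun i j k => sq_four_le _ hi fun y => ?_
  rw [D3_apply, Complex.norm_real, Real.norm_eq_abs]
  exact h1 y i j k

/-- the pointwise majorant. -/
theorem cW_hat_low {A B : E4 → Bil} (hA : Cp A) (hB : Cp B) (ξ : E4) {s : ℝ} (hs : 0 < s) :
    ‖cW (fun i j => (starRingEnd ℂ) (hat hA ξ i j)) (hat hB ξ)‖ ≤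
      3 * s * N2 (hat hA ξ) + 3 * s⁻¹ * N2 (hat hB ξ) := by
  have h1 := cW_low (fun i j => (starRingEnd ℂ) (hat hA ξ i j)) (hat hB ξ) hs
  rw [N2_conj] at h1
  refine h1.trans (le_of_eq ?_)
  ring

theorem cW_hat_high {A B : E4 → Bil} (hA : Cp A) (hB : Cp B) (ξ : E4) {R : ℝ} (hR : 0 < R)
    (hn : R < ‖ξ‖) :
    ‖cW (fun i j => (starRingEnd ℂ) (hat hA ξ i j)) (hat hB ξ)‖ ≤
      2 / R * (N2 (hat hA ξ) + N2 (hat hB ξ) + N3 (cD (xi ξ) (hat hA ξ)) +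
        N3 (cD (xi ξ) (hat hB ξ))) := by
  have hX : 0 < 2 * Real.pi * ‖ξ‖ := by
    have := Real.pi_pos
    have : 0 < ‖ξ‖ := hR.trans hn
    positivity
  have h1 := cW_high (xi ξ) (fun i j => (starRingEnd ℂ) (hat hA ξ i j)) (hat hB ξ)
    (fun i j => by rw [hat_swap hA ξ i j, map_neg]) hX (norm_xi_le ξ) (sum_xi ξ)
  rw [N2_conj, N3_conj] at h1
  have h2 : 12 / (2 * Real.pi * ‖ξ‖) ≤ 2 / R := by
    rw [div_le_div_iff₀ hX hR]
    have h3 := Real.pi_gt_three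
    nlinarith
  refine h1.trans (mul_le_mul_of_nonneg_right h2 ?_)
  have hNA := N2_nonneg (hat hA ξ)
  have hNB := N2_nonneg (hat hB ξ)
  have h3A := N3_nonneg (cD (xi ξ) (hat hA ξ))
  have h3B := N3_nonneg (cD (xi ξ) (hat hB ξ))
  exact add_nonneg (add_nonneg (add_nonneg hNA hNB) h3A) h3B

theorem cW_hat_le {A B : E4 → Bil} (hA : Cp A) (hB : Cp B) (ξ : E4) {s R : ℝ} (hs : 0 < s)
    (hR : 0 < R) :
    ‖cW (fun i j => (starRingEnd ℂ) (hat hA ξ i j)) (hat hB ξ)‖ ≤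
      3 * s * N2 (hat hA ξ) +
      3 * s⁻¹ * (Metric.closedBall (0 : E4) R).indicator (fun ξ => N2 (hat hB ξ)) ξ +
      2 / R * (N2 (hat hA ξ) + N2 (hat hB ξ) + N3 (cD (xi ξ) (hat hA ξ)) +
        N3 (cD (xi ξ) (hat hB ξ))) := by
  have hNA := N2_nonneg (hat hA ξ)
  have hsum : 0 ≤ N2 (hat hA ξ) + N2 (hat hB ξ) + N3 (cD (xi ξ) (hat hA ξ)) +
        N3 (cD (xi ξ) (hat hB ξ)) :=
    add_nonneg (add_nonneg (add_nonneg hNA (N2_nonneg _)) (N3_nonneg _)) (N3_nonneg _)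
  have h2 : 0 ≤ 2 / R * (N2 (hat hA ξ) + N2 (hat hB ξ) + N3 (cD (xi ξ) (hat hA ξ)) +
        N3 (cD (xi ξ) (hat hB ξ))) := mul_nonneg (by positivity) hsum
  by_cases hξ : ξ ∈ Metric.closedBall (0 : E4) R
  · rw [indicator_of_mem hξ]
    exact (cW_hat_low hA hB ξ hs).trans (le_add_of_nonneg_right h2)
  · rw [indicator_of_notMem hξ]
    have hn : R < ‖ξ‖ := by
      simpa [Metric.mem_closedBall, dist_zero_right] using hξ
    refine (cW_hat_high hA hB ξ hR hn).trans (le_add_of_nonneg_left ?_)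
    rw [mul_zero, add_zero]
    exact mul_nonneg (by positivity) hNA

/-- bound for `∫ W(A,B)`. -/
theorem abs_int_W_le {A B : E4 → Bil} (hA : Cp A) (hB : Cp B) {h : E4 → ℝ}
    (hi : Integrable (fun y => h y ^ 2)) (h1 : ∀ y, ‖A y‖ ≤ h y) (h2 : ∀ y, ‖B y‖ ≤ h y)
    (h3 : ∀ y i j k, |dd A y (ee i) (ee j) (ee k)| ≤ h y)
    (h4 : ∀ y i j k, |dd B y (ee i) (ee j) (ee k)| ≤ h y) {s R : ℝ} (hs : 0 < s) (hR : 0 < R) :
    |∫ y, W (A y) (B y)| ≤ 48 * s * (∫ y, h y ^ 2) + 320 / R * (∫ y, h y ^ 2) +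
      3 * s⁻¹ * ∫ ξ in Metric.closedBall (0 : E4) R, N2 (hat hB ξ) := by
  have e0 : |∫ y, W (A y) (B y)| = ‖((∫ y, W (A y) (B y) : ℝ) : ℂ)‖ := by
    rw [Complex.norm_real, Real.norm_eq_abs]
  rw [e0, int_W hA hB]
  have iA := int_N2 hA
  have iB := int_N2 hB
  have iA3 := int_N3 hA
  have iB3 := int_N3 hB
  have iI : Integrable ((Metric.closedBall (0 : E4) R).indicator (fun ξ => N2 (hat hB ξ))) :=
    iB.indicator measurableSet_closedBall
  have i1 : Integrable (fun ξ => 3 * s * N2 (hat hA ξ)) := iA.const_mul _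
  have i2 : Integrable (fun ξ => 3 * s⁻¹ * (Metric.closedBall (0 : E4) R).indicator
    (fun ξ => N2 (hat hB ξ)) ξ) := iI.const_mul _
  have i3 : Integrable (fun ξ => N2 (hat hA ξ) + N2 (hat hB ξ) + N3 (cD (xi ξ) (hat hA ξ)) +
        N3 (cD (xi ξ) (hat hB ξ))) := ((iA.add iB).add iA3).add iB3
  have i4 := i3.const_mul (2 / R)
  refine (norm_integral_le_integral_norm _).trans ?_
  have h5 : ∫ ξ, ‖cW (fun i j => (starRingEnd ℂ) (hat hA ξ i j)) (hat hB ξ)‖ ≤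
      ∫ ξ, (3 * s * N2 (hat hA ξ) +
      3 * s⁻¹ * (Metric.closedBall (0 : E4) R).indicator (fun ξ => N2 (hat hB ξ)) ξ +
      2 / R * (N2 (hat hA ξ) + N2 (hat hB ξ) + N3 (cD (xi ξ) (hat hA ξ)) +
        N3 (cD (xi ξ) (hat hB ξ)))) := by
    refine integral_mono_of_nonneg (Eventually.of_forall fun ξ => norm_nonneg _)
      ((i1.add i2).add i4) (Eventually.of_forall fun ξ => cW_hat_le hA hB ξ hs hR)
  refine h5.trans ?_
  have e1 : ∫ ξ, (3 * s * N2 (hat hA ξ) +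
      3 * s⁻¹ * (Metric.closedBall (0 : E4) R).indicator (fun ξ => N2 (hat hB ξ)) ξ +
      2 / R * (N2 (hat hA ξ) + N2 (hat hB ξ) + N3 (cD (xi ξ) (hat hA ξ)) +
        N3 (cD (xi ξ) (hat hB ξ)))) =
      3 * s * (∫ ξ, N2 (hat hA ξ)) +
      3 * s⁻¹ * (∫ ξ in Metric.closedBall (0 : E4) R, N2 (hat hB ξ)) +
      2 / R * ((∫ ξ, N2 (hat hA ξ)) + (∫ ξ, N2 (hat hB ξ)) +
        (∫ ξ, N3 (cD (xi ξ) (hat hA ξ))) + (∫ ξ, N3 (cD (xi ξ) (hat hB ξ)))) := by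
    have i12 : Integrable (fun ξ => 3 * s * N2 (hat hA ξ) +
      3 * s⁻¹ * (Metric.closedBall (0 : E4) R).indicator (fun ξ => N2 (hat hB ξ)) ξ) := i1.add i2
    have j1 : Integrable (fun ξ => N2 (hat hA ξ) + N2 (hat hB ξ)) := iA.add iB
    have j2 : Integrable (fun ξ => N2 (hat hA ξ) + N2 (hat hB ξ) +
      N3 (cD (xi ξ) (hat hA ξ))) := j1.add iA3
    rw [integral_add i12 i4, integral_add i1 i2, integral_const_mul, integral_const_mul,
      integral_const_mul, integral_indicator measurableSet_closedBall,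
      integral_add j2 iB3, integral_add j1 iA3, integral_add iA iB]
  rw [e1]
  have b1 := N2_le hA hi h1
  have b2 := N2_le hB hi h2
  have b3 := N3_le hA hi h3
  have b4 := N3_le hB hi h4
  have c1 : 3 * s * (∫ ξ, N2 (hat hA ξ)) ≤ 3 * s * (16 * ∫ y, h y ^ 2) := by gcongr
  have c2 : 2 / R * ((∫ ξ, N2 (hat hA ξ)) + (∫ ξ, N2 (hat hB ξ)) +
        (∫ ξ, N3 (cD (xi ξ) (hat hA ξ))) + (∫ ξ, N3 (cD (xi ξ) (hat hB ξ)))) ≤
      2 / R * (16 * (∫ y, h y ^ 2) + 16 * (∫ y, h y ^ 2) + 64 * (∫ y, h y ^ 2) +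
        64 * (∫ y, h y ^ 2)) := by gcongr
  have c3 : 2 / R * (16 * (∫ y, h y ^ 2) + 16 * (∫ y, h y ^ 2) + 64 * (∫ y, h y ^ 2) +
        64 * (∫ y, h y ^ 2)) = 320 / R * (∫ y, h y ^ 2) := by ring
  linarith

/-- low frequencies tend to zero. -/
theorem low_tendsto {B : ℕ → E4 → Bil} (hB : ∀ n, Cp (B n)) {K : Set E4} (hK : IsCompact K)
    (hBK : ∀ n y, y ∉ K → B n y = 0) {h : ℕ → E4 → ℝ}
    (hi : ∀ n, Integrable (fun y => h n y ^ 2)) {C : ℝ} (hC : ∀ n, ∫ y, h n y ^ 2 ≤ C)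
    (h2 : ∀ n y, ‖B n y‖ ≤ h n y)
    (hw : ∀ φ : E4 → ℝ, ContDiff ℝ ∞ φ → ∀ i j,
      Tendsto (fun n => ∫ y, φ y * ent (B n y) i j) atTop (𝓝 0)) (R : ℝ) :
    Tendsto (fun n => ∫ ξ in Metric.closedBall (0 : E4) R, N2 (hat (hB n) ξ)) atTop (𝓝 0) := by
  set D : ℝ := (volume K).toReal + C with hD
  have hKf : volume K ≠ ⊤ := hK.measure_lt_top.ne
  have b1 : ∀ n ξ i j, ‖hat (hB n) ξ i j‖ ≤ D := by
    intro n ξ i j
    refine (norm_fourier_le _ ((hB n).entC i j) ((hB n).entS i j) ξ).trans ?_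
    have e1 : Integrable (K.indicator (fun _ => (1:ℝ))) :=
      (integrable_indicator_iff hK.measurableSet).2 (integrableOn_const hKf)
    have e2 : ∫ v, |ent (B n v) i j| ≤ ∫ v, (K.indicator (fun _ => (1:ℝ)) v + h n v ^ 2) := by
      refine integral_mono_of_nonneg (Eventually.of_forall fun v => abs_nonneg _)
        (e1.add (hi n)) (Eventually.of_forall fun v => ?_)
      show |ent (B n v) i j| ≤ K.indicator (fun _ => (1:ℝ)) v + h n v ^ 2
      by_cases hv : v ∈ K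
      · rw [indicator_of_mem hv]
        have := (abs_ent_le (B n v) i j).trans (h2 n v)
        nlinarith [sq_nonneg (h n v - 1), sq_nonneg (h n v)]
      · rw [indicator_of_notMem hv, hBK n v hv, ent_zero]
        simp only [abs_zero, zero_add]
        positivity
    refine e2.trans ?_
    rw [integral_add e1 (hi n), integral_indicator hK.measurableSet]
    have e3 : ∫ v in K, (1:ℝ) = (volume K).toReal := by simp [Measure.real]
    rw [e3]
    have := hC n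
    linarith
  have hD0 : 0 ≤ D := (norm_nonneg _).trans (b1 0 0 0 0)
  have b2 : ∀ n ξ, N2 (hat (hB n) ξ) ≤ 16 * D ^ 2 := by
    intro n ξ
    refine sum_bd2 fun i j => ?_
    have := b1 n ξ i j
    gcongr
  have p1 : ∀ ξ i j, Tendsto (fun n => hat (hB n) ξ i j) atTop (𝓝 0) := by
    intro ξ i j
    have c0 : ContDiff ℝ ∞ (fun v : E4 => 2 * Real.pi * inner ℝ v ξ) :=
      contDiff_const.mul (contDiff_id.inner ℝ contDiff_const)
    have c1 := hw (fun v => Real.cos (2 * Real.pi * inner ℝ v ξ)) (Real.contDiff_cos.comp c0) i j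
    have c2 := hw (fun v => Real.sin (2 * Real.pi * inner ℝ v ξ)) (Real.contDiff_sin.comp c0) i j
    have c3 : Tendsto (fun n => ((∫ y, Real.cos (2 * Real.pi * inner ℝ y ξ) *
        ent (B n y) i j : ℝ) : ℂ)) atTop (𝓝 0) :=
      (Complex.continuous_ofReal.tendsto' 0 0 (by simp)).comp c1
    have c4 : Tendsto (fun n => ((∫ y, Real.sin (2 * Real.pi * inner ℝ y ξ) *
        ent (B n y) i j : ℝ) : ℂ)) atTop (𝓝 0) :=
      (Complex.continuous_ofReal.tendsto' 0 0 (by simp)).comp c2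
    have c5 := c3.sub (c4.mul_const Complex.I)
    rw [zero_mul, sub_zero] at c5
    refine c5.congr fun n => ?_
    exact (fourier_eq _ ((hB n).entC i j) ((hB n).entS i j) ξ).symm
  have p2 : ∀ ξ, Tendsto (fun n => N2 (hat (hB n) ξ)) atTop (𝓝 0) := by
    intro ξ
    unfold N2
    have : Tendsto (fun n => ∑ i : Fin 4, ∑ j : Fin 4, ‖hat (hB n) ξ i j‖ ^ 2) atTop
        (𝓝 (∑ i : Fin 4, ∑ j : Fin 4, (0:ℝ))) := by
      refine tendsto_finsetSum _ fun i _ => tendsto_finsetSum _ fun j _ => ?_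
      have := ((p1 ξ i j).norm).pow 2
      simpa using this
    simpa using this
  have hfin : IsFiniteMeasure (volume.restrict (Metric.closedBall (0 : E4) R)) :=
    ⟨by rw [Measure.restrict_apply_univ]; exact (isCompact_closedBall _ _).measure_lt_top⟩
  have := tendsto_integral_of_dominated_convergence (μ := volume.restrict (Metric.closedBall (0 : E4) R))
    (F := fun n ξ => N2 (hat (hB n) ξ)) (f := fun _ => 0) (fun _ => 16 * D ^ 2)
    (fun n => (int_N2 (hB n)).aestronglyMeasurable.restrict) (integrable_const _)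
    (fun n => Eventually.of_forall fun ξ => by
      rw [Real.norm_of_nonneg (N2_nonneg _)]; exact b2 n ξ)
    (Eventually.of_forall fun ξ => p2 ξ)
  simpa using this

/-- **local div-curl lemma** for two sequences of compactly supported two-forms. -/
theorem local_divcurl {A B : ℕ → E4 → Bil} (hA : ∀ n, Cp (A n)) (hB : ∀ n, Cp (B n))
    {K : Set E4} (hK : IsCompact K) (hBK : ∀ n y, y ∉ K → B n y = 0) {h : ℕ → E4 → ℝ}
    (hi : ∀ n, Integrable (fun y => h n y ^ 2)) {C : ℝ} (hC : ∀ n, ∫ y, h n y ^ 2 ≤ C)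
    (h1 : ∀ n y, ‖A n y‖ ≤ h n y) (h2 : ∀ n y, ‖B n y‖ ≤ h n y)
    (h3 : ∀ n y i j k, |dd (A n) y (ee i) (ee j) (ee k)| ≤ h n y)
    (h4 : ∀ n y i j k, |dd (B n) y (ee i) (ee j) (ee k)| ≤ h n y)
    (hw : ∀ φ : E4 → ℝ, ContDiff ℝ ∞ φ → ∀ i j,
      Tendsto (fun n => ∫ y, φ y * ent (B n y) i j) atTop (𝓝 0)) :
    Tendsto (fun n => ∫ y, W (A n y) (B n y)) atTop (𝓝 0) := by
  have hC0 : 0 ≤ C := (integral_nonneg fun y => sq_nonneg (h 0 y)).trans (hC 0)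
  rw [Metric.tendsto_nhds]
  intro ε hε
  set s : ℝ := ε / (4 * (48 * C + 1)) with hs
  set R : ℝ := 4 * (320 * C + 1) / ε with hR
  have hs0 : 0 < s := by positivity
  have hR0 : 0 < R := by positivity
  have hlow := low_tendsto hB hK hBK hi hC h2 hw R
  have hlow2 : ∀ᶠ n in atTop, 3 * s⁻¹ * ∫ ξ in Metric.closedBall (0 : E4) R,
      N2 (hat (hB n) ξ) < ε / 4 := by
    have := hlow.const_mul (3 * s⁻¹)
    rw [mul_zero] at this
    exact this.eventually (gt_mem_nhds (by positivity))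
  filter_upwards [hlow2] with n hn
  rw [Real.dist_0_eq_abs]
  have hb := abs_int_W_le (hA n) (hB n) (hi n) (h1 n) (h2 n) (h3 n) (h4 n) hs0 hR0
  have hI : 0 ≤ ∫ y, h n y ^ 2 := integral_nonneg fun y => sq_nonneg (h n y)
  have c1 : 48 * s * (∫ y, h n y ^ 2) ≤ ε / 4 := by
    have : 48 * s * (∫ y, h n y ^ 2) ≤ 48 * s * C := by
      have := hC n
      gcongr
    refine this.trans ?_
    rw [hs]
    rw [mul_div_assoc', div_mul_eq_mul_div, div_le_div_iff₀ (by positivity) (by norm_num)]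
    nlinarith
  have c2 : 320 / R * (∫ y, h n y ^ 2) ≤ ε / 4 := by
    have : 320 / R * (∫ y, h n y ^ 2) ≤ 320 / R * C := by
      have := hC n
      gcongr
    refine this.trans ?_
    rw [hR]
    rw [div_div_eq_mul_div, div_mul_eq_mul_div, div_le_div_iff₀ (by positivity) (by norm_num)]
    nlinarith
  linarith

end

end Crest.Agent.R235.DCFour_358
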