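import Mathlib
import Crest.Agent.R235.Defs_837

/-!
Row 235 (S0364), SWC-AN positivity (helper358): INTERFACE.
`VSeq J F lam r Φ a j P`: the vorticity sequence (`a = 1 - |α|²`, `j = Im⟨dα,α⟩`, `F_A = -iΦ`,
`Φ + dj = aΦ + P`), smooth, with the energy bounds of `#1924`, all measured with a FIXED pair
`(J, F)` (the limit pair; `F` smooth, `J`-invariant, positive, not necessarily closed).
-/

set_option autoImplicit false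
set_option maxSynthPendingDepth 3

open Set Function Filter MeasureTheory
open scoped Manifold ContDiff Topology

namespace Crest.Agent.R235.PosDefs_358

open Crest.Agent.R240 Crest.Agent.R240.Ch

noncomputable section

variable {M : Type*} [TopologicalSpace M] [T2Space M] [CompactSpace M] [ChartedSpace E4 M]
  [IsManifold 𝓘(ℝ, E4) ∞ M] [MeasurableSpace M] [BorelSpace M]

/-- the pair `(J, F)`: smooth, `J² = -1`, `F` smooth, `J`-invariant and positive. -/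
structure Pair (J : EndF E4 M) (F : F2 E4 M) : Prop where
  smJ : SmoothJ J
  sq : ∀ x v, atJ J x (atJ J x v) = -v
  smF : Smooth2 F
  pos : SPosG J F

/-- a vorticity sequence with Taubes' energy bounds. -/
structure VSeq (J : EndF E4 M) (F : F2 E4 M) (lam : ℝ) (r : ℕ → ℝ) (Φ : ℕ → F2 E4 M)
    (a : ℕ → M → ℝ) (j : ℕ → F1 E4 M) (P : ℕ → F2 E4 M) : Prop where
  lam_pos : 0 < lam
  r_pos : ∀ n, 0 < r n
  r_lim : Tendsto r atTop atTop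
  smΦ : ∀ n, Smooth2 (Φ n)
  clΦ : ∀ n, Closed2 (Φ n)
  sma : ∀ n, SmoothF E4 (a n)
  smj : ∀ n, Smooth1 (j n)
  smP : ∀ n, Smooth2 (P n)
  /-- the vorticity form: `Φ + dj = aΦ + P` -/
  vort : ∀ n, Φ n + dG (j n) = fmul (a n) (Φ n) + P n
  /-- `∫ Φ∧Φ ≥ - C r` (it is a topological constant) -/
  top : ∃ C, ∀ n, - C * r n ≤ Int.I F (Φ n) (Φ n)
  /-- the `F`-component of `Φ` is `lam r a` up to `o(√r)` in `L²` -/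
  e1 : Tendsto (fun n => (r n)⁻¹ * ∫ x, (qG F (Φ n) F x - lam * r n * a n x) ^ 2 ∂(Int.mu F))
    atTop (𝓝 0)
  /-- the anti-invariant part of `Φ` is `o(√r)` in `L²` -/
  e2 : Tendsto (fun n => (r n)⁻¹ * ∫ x, nsqG J F (bpp J (Φ n)) x ∂(Int.mu F)) atTop (𝓝 0)
  /-- `r ∫ a² ≤ C` -/
  e3 : ∃ C, ∀ n, r n * ∫ x, (a n x) ^ 2 ∂(Int.mu F) ≤ C
  /-- `∫ |j|² ≤ C` -/
  e4 : ∃ C, ∀ n, ∃ m : M → ℝ, Integrable m (Int.mu F) ∧ ∫ x, m x ∂(Int.mu F) ≤ C ∧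
    ∀ x v, (at1 (j n) x v) ^ 2 ≤ m x * at2 F x v (atJ J x v)
  /-- `∫ |P| ≤ C` -/
  e5 : ∃ C, ∀ n, ∫ x, nrG J F (P n) x ∂(Int.mu F) ≤ C
  /-- `P` is semi-positive up to an error which tends to `0` in `L¹` -/
  e6 : ∃ e : ℕ → M → ℝ, (∀ n, Integrable (e n) (Int.mu F)) ∧
    Tendsto (fun n => ∫ x, e n x ∂(Int.mu F)) atTop (𝓝 0) ∧
    (∀ n x, Pos (atJ J x) (invp (atJ J x) (at2 (P n) x) + e n x • at2 F x)) ∧
    (∀ n x, nrG J F (bpp J (P n)) x ≤ e n x)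

/-- the vorticity forms `T = aΦ + P`. -/
def TT (Φ : ℕ → F2 E4 M) (a : ℕ → M → ℝ) (P : ℕ → F2 E4 M) (n : ℕ) : F2 E4 M :=
  fmul (a n) (Φ n) + P n

/-- DIV-CURL on `M`: closed forms bounded in `L²` and tending to `0` weakly (tested only with
`g du∧dv`) satisfy `∫ τ Ψ∧Ψ → 0`. -/
def DIVCURL (J : EndF E4 M) (F : F2 E4 M) : Prop :=
  ∀ Ψ : ℕ → F2 E4 M, (∀ n, Smooth2 (Ψ n)) → (∀ n, Closed2 (Ψ n)) →
    (∃ C, ∀ n, ∫ x, nsqG J F (Ψ n) x ∂(Int.mu F) ≤ C) →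
    (∀ g u v : M → ℝ, SmoothF E4 g → SmoothF E4 u → SmoothF E4 v →
      Tendsto (fun n => Int.I F (Ψ n) (fmul g (wedG (dF u) (dF v)))) atTop (𝓝 0)) →
    ∀ τ : M → ℝ, SmoothF E4 τ →
      Tendsto (fun n => Int.I F (Ψ n) (fmul τ (Ψ n))) atTop (𝓝 0)

/-- mass bound. -/
def MASS (J : EndF E4 M) (F : F2 E4 M) : Prop :=
  ∀ (lam : ℝ) (r : ℕ → ℝ) (Φ : ℕ → F2 E4 M) (a : ℕ → M → ℝ) (j : ℕ → F1 E4 M) (P : ℕ → F2 E4 M),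
    VSeq J F lam r Φ a j P → ∃ C, ∀ n, ∫ x, nrG J F (TT Φ a P n) x ∂(Int.mu F) ≤ C

/-- positivity of the limit. -/
def POSL (J : EndF E4 M) (F : F2 E4 M) : Prop :=
  ∀ (lam : ℝ) (r : ℕ → ℝ) (Φ : ℕ → F2 E4 M) (a : ℕ → M → ℝ) (j : ℕ → F1 E4 M) (P : ℕ → F2 E4 M),
    VSeq J F lam r Φ a j P → ∀ b : F2 E4 M, Smooth2 b → PosG J b →
      ∀ ε > 0, ∀ᶠ n in atTop, - ε ≤ Int.I F (TT Φ a P n) b

/-- the limit kills the anti-invariant forms. -/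
def ANTIL (J : EndF E4 M) (F : F2 E4 M) : Prop :=
  ∀ (lam : ℝ) (r : ℕ → ℝ) (Φ : ℕ → F2 E4 M) (a : ℕ → M → ℝ) (j : ℕ → F1 E4 M) (P : ℕ → F2 E4 M),
    VSeq J F lam r Φ a j P → ∀ b : F2 E4 M, Smooth2 b → (∀ x, invp (atJ J x) (at2 b x) = 0) →
      Tendsto (fun n => Int.I F (TT Φ a P n) b) atTop (𝓝 0)

/-- the limit current. -/
def CURL (J : EndF E4 M) (F : F2 E4 M) : Prop :=
  ∀ (lam : ℝ) (r : ℕ → ℝ) (Φ : ℕ → F2 E4 M) (a : ℕ → M → ℝ) (j : ℕ → F1 E4 M) (P : ℕ → F2 E4 M),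
    VSeq J F lam r Φ a j P → ∀ (E : F2 E4 M), Closed2 E → Smooth2 E →
      (∀ n, IsEx (Φ n - E)) → ∀ 𝒰 : Filter ℕ, 𝒰 ≤ atTop → 𝒰.NeBot →
      ∃ S : X2 M →ₗ[ℝ] ℝ, PCur J S ∧ (∀ b : Z2 M, S b.1 = Int.I F E (b.1.1 : F2 E4 M)) ∧
        (∃ C, ∀ b : X2 M, ∀ B : ℝ, (∀ x, nrG J F (b.1 : F2 E4 M) x ≤ B) → |S b| ≤ C * B) ∧
        ∃ 𝒱 : Filter ℕ, 𝒱 ≤ 𝒰 ∧ 𝒱.NeBot ∧
          ∀ b : X2 M, Tendsto (fun n => Int.I F (TT Φ a P n) (b.1 : F2 E4 M)) 𝒱 (𝓝 (S b))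

end

end Crest.Agent.R235.PosDefs_358
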