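import Mathlib
import Crest.Agent.R235.PosDefs_358
import Crest.Agent.R240.Nsq
import Crest.Agent.R240.NrmM
import Crest.Agent.R240.SmAdj

/-!
Row 235 (S0364), SWC-AN positivity (helper358): the Hodge norm of a pair `(J, F)` on `M`, chart
formulas for `L²` bounds.
-/

set_option autoImplicit false
set_option maxSynthPendingDepth 3
set_option linter.unusedSectionVars false

open Set Function Filter MeasureTheory
open scoped Manifold ContDiff Topology ENNReal

namespace Crest.Agent.R235.PosDefs_358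

open Crest.Agent.R240 Crest.Agent.R240.Ch

noncomputable section

section NoMeas

variable {M : Type*} [TopologicalSpace M] [ChartedSpace E4 M] [IsManifold 𝓘(ℝ, E4) ∞ M]

variable {J : EndF E4 M} {F : F2 E4 M}

theorem Pair.sposx (h : Pair J F) (x : M) : SPos (atJ J x) (at2 F x) := h.pos x

theorem Pair.vol (h : Pair J F) : Int.Vol F := Int.vol_of_SPosG h.sq h.smF h.pos

theorem alt_at {b : F2 E4 M} (hb : Smooth2 b) (x : M) : Alt (at2 b x) := fun v => hb.1 x v

theorem alt_rep {b : F2 E4 M} (hb : Smooth2 b) (p : M) (y : E4) : Alt (rep p b y) :=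
  Int.rep_alt (fun x => alt_at hb x) p y

theorem smoothF_qG (h : Pair J F) {b c : F2 E4 M} (hb : Smooth2 b) (hc : Smooth2 c) :
    SmoothF E4 (qG F b c) := by
  intro p
  have h1 := NM.contDiffOn_q (h.smF.2 p) (fun y hy => h.vol.rep_ne hy) (hb.2 p) (hc.2 p)
  refine h1.congr fun y hy => ?_
  exact Int.qG_chart h.vol (fun x => alt_at hb x) (fun x => alt_at hc x) hy

theorem continuous_qG (h : Pair J F) {b c : F2 E4 M} (hb : Smooth2 b) (hc : Smooth2 c) :
    Continuous (qG F b c) :=
  Int.continuous_qG h.vol (Int.Smooth2.cont2 hb) (Int.Smooth2.cont2 hc)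

theorem nsqG_eq (b : F2 E4 M) (x : M) : nsqG J F b x =
    2 * qG F b F x * qG F b F x - qG F (bp J b) (bp J b) x
      + qG F (bpp J b) (bpp J b) x := rfl

theorem continuous_nsq (h : Pair J F) {b : F2 E4 M} (hb : Smooth2 b) :
    Continuous (nsqG J F b) := by
  have h1 := continuous_qG h hb h.smF
  have h2 := continuous_qG h (Smooth2.bp h.smJ hb) (Smooth2.bp h.smJ hb)
  have h3 := continuous_qG h (Smooth2.bpp h.smJ hb) (Smooth2.bpp h.smJ hb)
  exact (((continuous_const.mul h1).mul h1).sub h2).add h3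

theorem continuous_nr (h : Pair J F) {b : F2 E4 M} (hb : Smooth2 b) : Continuous (nrG J F b) :=
  Real.continuous_sqrt.comp (continuous_nsq h hb)

theorem nr_nonneg (b : F2 E4 M) (x : M) : 0 ≤ nrG J F b x := Real.sqrt_nonneg _

theorem nsq_nonneg (h : Pair J F) {b : F2 E4 M} (hb : Smooth2 b) (x : M) : 0 ≤ nsqG J F b x :=
  Ns.nsq_nonneg (h.sq x) (h.sposx x) (alt_at hb x)

theorem nr_sq (h : Pair J F) {b : F2 E4 M} (hb : Smooth2 b) (x : M) :
    nrG J F b x ^ 2 = nsqG J F b x := Real.sq_sqrt (nsq_nonneg h hb x)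

theorem abs_qG_le (h : Pair J F) {b c : F2 E4 M} (hb : Smooth2 b) (hc : Smooth2 c) (x : M) :
    |qG F b c x| ≤ nrG J F b x * nrG J F c x :=
  Ns.abs_q_le' (h.sq x) (h.sposx x) (alt_at hb x) (alt_at hc x)

theorem nr_add_le (h : Pair J F) {b c : F2 E4 M} (hb : Smooth2 b) (hc : Smooth2 c) (x : M) :
    nrG J F (b + c) x ≤ nrG J F b x + nrG J F c x :=
  Ns.pn_add_le (h.sq x) (h.sposx x) (alt_at hb x) (alt_at hc x)

theorem nr_fmul (f : M → ℝ) (b : F2 E4 M) (x : M) :
    nrG J F (fmul f b) x = |f x| * nrG J F b x := Ns.pn_smul (atJ J x) (at2 F x) (f x) (at2 b x)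

/-- the norm in the chart. -/
theorem nsqG_chart (h : Pair J F) {b : F2 E4 M} (hb : Smooth2 b) {p : M} {y : E4}
    (hy : y ∈ (chartAt E4 p).target) :
    nsqG J F b ((chartAt E4 p).symm y) = nsq (repJ p J y) (rep p F y) (rep p b y) := by
  rw [nsqG_eq, Int.qG_chart h.vol (fun x => alt_at hb x) (fun x => alt_at h.smF x) hy,
    Int.qG_chart h.vol (fun x => alt_at (Smooth2.bp h.smJ hb) x)
      (fun x => alt_at (Smooth2.bp h.smJ hb) x) hy,
    Int.qG_chart h.vol (fun x => alt_at (Smooth2.bpp h.smJ hb) x)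
      (fun x => alt_at (Smooth2.bpp h.smJ hb) x) hy, rep_bp hy, rep_bpp hy]
  rfl

/-- uniform comparison of the norms on a compact piece of a chart. -/
theorem exists_norm_le (h : Pair J F) (p : M) {K : Set E4} (hK : IsCompact K)
    (hKt : K ⊆ (chartAt E4 p).target) :
    ∃ C : ℝ, 0 < C ∧ (∀ b : F2 E4 M, Smooth2 b → ∀ y ∈ K,
      ‖rep p b y‖ ^ 2 ≤ C * nsqG J F b ((chartAt E4 p).symm y)) ∧
      (∀ (s : F1 E4 M) (m : M → ℝ), (∀ x v, (at1 s x v) ^ 2 ≤ m x * at2 F x v (atJ J x v)) →
        ∀ y ∈ K, ‖rep1 p s y‖ ^ 2 ≤ C * m ((chartAt E4 p).symm y)) := by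
  obtain ⟨m, m', hm, hm', hB⟩ := SmAdj.exists_Bd h.smJ h.sq h.smF h.pos p hK hKt
  refine ⟨2 * m' ^ 2 + m', by positivity, fun b hb y hy => ?_, fun s k hk y hy => ?_⟩
  · rw [nsqG_chart h hb (hKt hy)]
    have h1 := (hB y hy).norm_sq_le_nsq (alt_rep hb p y)
    have h2 := (hB y hy).nsq_nonneg (alt_rep hb p y)
    nlinarith
  · have hk0 : 0 ≤ k ((chartAt E4 p).symm y) := by
      have h1 := hk ((chartAt E4 p).symm y) (ee 0)
      have h2 := (h.sposx ((chartAt E4 p).symm y)).pos (ee 0) (by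
        intro h0
        have := norm_ee 0
        rw [h0, norm_zero] at this
        norm_num at this)
      by_contra hneg
      push Not at hneg
      nlinarith [sq_nonneg (at1 s ((chartAt E4 p).symm y) (ee 0))]
    have h3 : ‖rep1 p s y‖ ≤ √(m' * k ((chartAt E4 p).symm y)) := by
      refine ContinuousLinearMap.opNorm_le_bound _ (Real.sqrt_nonneg _) fun v => ?_
      have h1 := hk ((chartAt E4 p).symm y) (tcc p ((chartAt E4 p).symm y)
        ((chartAt E4 p).symm y) v)
      rw [← rep_J_eq_apply (hKt hy), ← rep1_apply] at h1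
      have h2 := (hB y hy).hi v
      rw [Real.norm_eq_abs]
      refine abs_le_of_sq_le_sq ?_ (by positivity)
      rw [mul_pow, Real.sq_sqrt (by positivity)]
      calc (rep1 p s y v) ^ 2 ≤ k ((chartAt E4 p).symm y) * rep p F y v (repJ p J y v) := h1
        _ ≤ k ((chartAt E4 p).symm y) * (m' * ‖v‖ ^ 2) := by gcongr
        _ = _ := by ring
    have h4 : ‖rep1 p s y‖ ^ 2 ≤ m' * k ((chartAt E4 p).symm y) := by
      calc ‖rep1 p s y‖ ^ 2 ≤ √(m' * k ((chartAt E4 p).symm y)) ^ 2 := by gcongr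
        _ = _ := Real.sq_sqrt (by positivity)
    have h5 : 0 ≤ 2 * m' ^ 2 * k ((chartAt E4 p).symm y) := by positivity
    linarith

end NoMeas

section Meas

variable {M : Type*} [TopologicalSpace M] [T2Space M] [CompactSpace M] [ChartedSpace E4 M]
  [IsManifold 𝓘(ℝ, E4) ∞ M] [MeasurableSpace M] [BorelSpace M]

/-- chart formula for lower integrals, almost everywhere measurable version. -/
theorem lint_chart {F : F2 E4 M} (hF : Int.Vol F) (p : M) {f : M → ℝ≥0∞}
    (hf : AEMeasurable f (Int.mu F)) :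
    ∫⁻ x in (chartAt E4 p).source, f x ∂(Int.mu F) =
      ∫⁻ y in (chartAt E4 p).target, ENNReal.ofReal (Int.dens F p y) *
        f ((chartAt E4 p).symm y) := by
  have h1 : AEMeasurable f (Int.muc F p) := by
    rw [← Int.mu_restrict hF p]; exact hf.restrict
  rw [Int.mu_restrict hF p]
  unfold Int.muc at h1 ⊢
  rw [lintegral_map' h1 (Int.aemeas_symm F p)]
  have h2 : AEMeasurable (fun y => f ((chartAt E4 p).symm y)) (Int.nuc F p) :=
    h1.comp_aemeasurable (Int.aemeas_symm F p)
  unfold Int.nuc at h2 ⊢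
  rw [lintegral_withDensity_eq_lintegral_mul₀' (Int.aemeas_dens hF p) h2]
  rfl

/-- integrals over compact pieces of a chart. -/
theorem exists_int_le {F : F2 E4 M} (hF : Int.Vol F) (p : M) {K : Set E4} (hK : IsCompact K)
    (hKt : K ⊆ (chartAt E4 p).target) :
    ∃ c : ℝ, 0 < c ∧ ∀ (f : M → ℝ), Integrable f (Int.mu F) → (∀ x, 0 ≤ f x) →
      ∀ (A : ℝ), 0 ≤ A → ∀ g : E4 → ℝ, ContinuousOn g K → (∀ y ∈ K, 0 ≤ g y) →
        (∀ y ∈ K, g y ≤ A * f ((chartAt E4 p).symm y)) →
        ∫ y in K, g y ≤ c * A * ∫ x, f x ∂(Int.mu F) := by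
  have hpos : ∀ y ∈ K, 0 < Int.dens F p y := fun y hy => hF.dens_pos (hKt hy)
  have hcont : ContinuousOn (fun y => (Int.dens F p y)⁻¹) K :=
    ((hF.continuousOn_dens p).mono hKt).inv₀ fun y hy => (hpos y hy).ne'
  obtain ⟨c, hc⟩ := hK.exists_bound_of_continuousOn hcont
  refine ⟨|c| + 1, by positivity, fun f hf hf0 A hA g hg hg0 hgf => ?_⟩
  have hcy : ∀ y ∈ K, 1 ≤ (|c| + 1) * Int.dens F p y := by
    intro y hy
    have h1 := hc y hy
    have h2 := hpos y hy
    rw [Real.norm_eq_abs, abs_of_pos (inv_pos.2 h2)] at h1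
    have h3 : (Int.dens F p y)⁻¹ ≤ |c| + 1 := by linarith [le_abs_self c]
    calc (1:ℝ) = (Int.dens F p y)⁻¹ * Int.dens F p y := (inv_mul_cancel₀ h2.ne').symm
      _ ≤ _ := by gcongr
  have hgi : IntegrableOn g K := hg.integrableOn_compact hK
  have hI : 0 ≤ ∫ x, f x ∂(Int.mu F) := integral_nonneg hf0
  have h1 : ENNReal.ofReal (∫ y in K, g y) ≤
      ENNReal.ofReal ((|c| + 1) * A * ∫ x, f x ∂(Int.mu F)) := by
    rw [ofReal_integral_eq_lintegral_ofReal hgi
      ((ae_restrict_iff' hK.measurableSet).2 (Eventually.of_forall hg0))]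
    calc ∫⁻ y in K, ENNReal.ofReal (g y)
        ≤ ∫⁻ y in K, ENNReal.ofReal ((|c| + 1) * A) * (ENNReal.ofReal (Int.dens F p y) *
            ENNReal.ofReal (f ((chartAt E4 p).symm y))) := by
          refine setLIntegral_mono' hK.measurableSet fun y hy => ?_
          have h2 := hpos y hy
          rw [← ENNReal.ofReal_mul h2.le, ← ENNReal.ofReal_mul (by positivity)]
          refine ENNReal.ofReal_le_ofReal ?_
          calc g y ≤ 1 * (A * f ((chartAt E4 p).symm y)) := by rw [one_mul]; exact hgf y hy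
            _ ≤ ((|c| + 1) * Int.dens F p y) * (A * f ((chartAt E4 p).symm y)) := by
              have := hf0 ((chartAt E4 p).symm y)
              have := hcy y hy
              gcongr
            _ = _ := by ring
      _ ≤ ∫⁻ y in (chartAt E4 p).target, ENNReal.ofReal ((|c| + 1) * A) *
            (ENNReal.ofReal (Int.dens F p y) *
            ENNReal.ofReal (f ((chartAt E4 p).symm y))) := lintegral_mono_set hKt
      _ = ENNReal.ofReal ((|c| + 1) * A) * ∫⁻ x in (chartAt E4 p).source,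
            ENNReal.ofReal (f x) ∂(Int.mu F) := by
          rw [lintegral_const_mul' _ _ ENNReal.ofReal_ne_top,
            lint_chart hF p hf.aestronglyMeasurable.aemeasurable.ennreal_ofReal]
      _ ≤ ENNReal.ofReal ((|c| + 1) * A) * ∫⁻ x, ENNReal.ofReal (f x) ∂(Int.mu F) := by
          gcongr
          exact Measure.restrict_le_self
      _ = _ := by
          rw [← ofReal_integral_eq_lintegral_ofReal hf (Eventually.of_forall hf0),
            ← ENNReal.ofReal_mul (by positivity)]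
  exact (ENNReal.ofReal_le_ofReal_iff (by positivity)).1 h1

end Meas

end

end Crest.Agent.R235.PosDefs_358
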