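import Mathlib
import Crest.Agent.R235.PosAlg_358
import Crest.Agent.R235.DCFour_358

/-!
Row 235 (S0364), SWC-AN positivity (helper358): DIV-CURL LEMMA on the compact manifold `M`.
Main result: `divcurl : Pair J F → DIVCURL J F`.
-/

set_option autoImplicit false
set_option maxSynthPendingDepth 3
set_option linter.unusedSectionVars false

open Set Function Filter MeasureTheory
open scoped Manifold ContDiff Topology ENNReal

namespace Crest.Agent.R235.DCMan_358

open Crest.Agent.R240 Crest.Agent.R240.Ch Crest.Agent.R235.PosDefs_358 Crest.Agent.R235.DCFour_358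

noncomputable section

variable {M : Type*} [TopologicalSpace M] [ChartedSpace E4 M] [IsManifold 𝓘(ℝ, E4) ∞ M]

open Classical in
/-- a two-form cut off in a chart. -/
def cut (p : M) (g : E4 → ℝ) (b : F2 E4 M) (y : E4) : Bil :=
  if y ∈ (chartAt E4 p).target then g y • rep p b y else 0

/-- admissible cut-off functions. -/
structure Sup (p : M) (K : Set E4) (g : E4 → ℝ) : Prop where
  cpt : IsCompact K
  sub : K ⊆ (chartAt E4 p).target
  smooth : ContDiffOn ℝ ∞ g (chartAt E4 p).target
  zero : ∀ y ∈ (chartAt E4 p).target, y ∉ K → g y = 0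

variable {p : M} {K : Set E4} {g : E4 → ℝ} {b : F2 E4 M}

theorem cut_of_mem {y : E4} (hy : y ∈ (chartAt E4 p).target) : cut p g b y = g y • rep p b y :=
  if_pos hy

theorem cut_zero (hs : Sup p K g) {y : E4} (hy : y ∉ K) : cut p g b y = 0 := by
  by_cases h : y ∈ (chartAt E4 p).target
  · rw [cut_of_mem h, hs.zero y h hy, zero_smul]
  · exact if_neg h

theorem cut_ev {y : E4} (hy : y ∈ (chartAt E4 p).target) :
    cut p g b =ᶠ[𝓝 y] fun z => g z • rep p b z := by
  filter_upwards [(chartAt E4 p).open_target.mem_nhds hy] with z hz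
  exact cut_of_mem hz

theorem cut_ev0 (hs : Sup p K g) {y : E4} (hy : y ∉ K) :
    cut p g b =ᶠ[𝓝 y] fun _ => 0 := by
  filter_upwards [hs.cpt.isClosed.isOpen_compl.mem_nhds hy] with z hz
  exact cut_zero hs hz

theorem cut_cp (hs : Sup p K g) (hb : Smooth2 b) : Cp (cut p g b) where
  smooth := by
    rw [contDiff_iff_contDiffAt]
    intro y
    by_cases hy : y ∈ K
    · have hyt := hs.sub hy
      have hn := (chartAt E4 p).open_target.mem_nhds hyt
      exact ((hs.smooth.contDiffAt hn).smul ((hb.2 p).contDiffAt hn)).congr_of_eventuallyEq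
        (cut_ev hyt)
    · exact contDiffAt_const.congr_of_eventuallyEq (cut_ev0 hs hy)
  cpt := HasCompactSupport.intro hs.cpt fun y hy => cut_zero hs hy
  alt := by
    intro y
    by_cases hy : y ∈ (chartAt E4 p).target
    · rw [cut_of_mem hy]
      exact (alt_rep hb p y).smul _
    · have : cut p g b y = 0 := if_neg hy
      rw [this]
      exact Alt.zero

/-- bounds for the cut-off form and its exterior derivative. -/
theorem exists_cut_bound (hs : Sup p K g) : ∃ G : ℝ, 0 ≤ G ∧ ∀ b : F2 E4 M, Smooth2 b → Closed2 b →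
    (∀ y, ‖cut p g b y‖ ≤ G * K.indicator (fun y => ‖rep p b y‖) y) ∧
    (∀ y i j k, |dd (cut p g b) y (ee i) (ee j) (ee k)| ≤
      G * K.indicator (fun y => ‖rep p b y‖) y) := by
  have ho := (chartAt E4 p).open_target
  obtain ⟨G1, hG1⟩ := hs.cpt.exists_bound_of_continuousOn (hs.smooth.continuousOn.mono hs.sub)
  have hc2 : ContinuousOn (fderiv ℝ g) (chartAt E4 p).target :=
    hs.smooth.continuousOn_fderiv_of_isOpen ho (by simp)
  obtain ⟨G2, hG2⟩ := hs.cpt.exists_bound_of_continuousOn (hc2.mono hs.sub)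
  refine ⟨|G1| + 3 * |G2|, by positivity, fun b hb hcl => ⟨fun y => ?_, fun y i j k => ?_⟩⟩
  · by_cases hy : y ∈ K
    · rw [indicator_of_mem hy, cut_of_mem (hs.sub hy), norm_smul]
      have h1 : ‖g y‖ ≤ |G1| + 3 * |G2| := by
        have := hG1 y hy
        have := le_abs_self G1
        have := abs_nonneg G2
        linarith
      gcongr
    · rw [indicator_of_notMem hy, cut_zero hs hy, norm_zero, mul_zero]
  · by_cases hy : y ∈ K
    · have hyt := hs.sub hy
      have hn := ho.mem_nhds hyt
      have hg : DifferentiableAt ℝ g y := (hs.smooth.contDiffAt hn).differentiableAt (by simp)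
      have hbd : DifferentiableAt ℝ (rep p b) y :=
        ((hb.2 p).contDiffAt hn).differentiableAt (by simp)
      have hc := hcl p y hyt (ee i) (ee j) (ee k)
      rw [indicator_of_mem hy, dd_congr (cut_ev hyt)]
      have e1 : dd (fun z => g z • rep p b z) y (ee i) (ee j) (ee k) =
          fderiv ℝ g y (ee i) * rep p b y (ee j) (ee k) -
          fderiv ℝ g y (ee j) * rep p b y (ee i) (ee k) +
          fderiv ℝ g y (ee k) * rep p b y (ee i) (ee j) := by
        unfold dd
        unfold dd at hc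
        rw [fderiv_fun_smul hg hbd]
        simp only [add_apply, smul_apply, ContinuousLinearMap.smulRight_apply, smul_eq_mul]
        linear_combination (g y) * hc
      rw [e1]
      have h2 : ∀ u v w : Fin 4, |fderiv ℝ g y (ee u) * rep p b y (ee v) (ee w)| ≤
          |G2| * ‖rep p b y‖ := by
        intro u v w
        rw [abs_mul]
        have h3 : |fderiv ℝ g y (ee u)| ≤ |G2| := by
          have h4 := (fderiv ℝ g y).le_opNorm (ee u)
          rw [norm_ee', mul_one] at h4
          exact h4.trans ((hG2 y hy).trans (le_abs_self _))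
        have h5 : |rep p b y (ee v) (ee w)| ≤ ‖rep p b y‖ := DCFour_358.abs_ent_le (rep p b y) v w
        gcongr
      have t1 := h2 i j k
      have t2 := h2 j i k
      have t3 := h2 k i j
      have t4 := abs_add_le (fderiv ℝ g y (ee i) * rep p b y (ee j) (ee k) -
          fderiv ℝ g y (ee j) * rep p b y (ee i) (ee k))
          (fderiv ℝ g y (ee k) * rep p b y (ee i) (ee j))
      have t5 := abs_sub (fderiv ℝ g y (ee i) * rep p b y (ee j) (ee k))
          (fderiv ℝ g y (ee j) * rep p b y (ee i) (ee k))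
      have t6 : 0 ≤ |G1| * ‖rep p b y‖ := by positivity
      linarith
    · rw [indicator_of_notMem hy, mul_zero, dd_congr (cut_ev0 hs hy)]
      unfold dd
      simp

/-! ### the sign of the chart -/

variable [T2Space M] [CompactSpace M] [MeasurableSpace M] [BorelSpace M]

theorem sg_smooth {F : F2 E4 M} (hF : Int.Vol F) (p : M) :
    ContDiffOn ℝ ∞ (Int.sg F p) (chartAt E4 p).target := by
  intro y hy
  refine ContDiffAt.contDiffWithinAt ?_
  exact (contDiffAt_const (c := Int.sg F p y)).congr_of_eventuallyEq (Int.sg_locally_const hF hy)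

theorem sg_sq {F : F2 E4 M} (hF : Int.Vol F) {p : M} {y : E4} (hy : y ∈ (chartAt E4 p).target) :
    Int.sg F p y * Int.sg F p y = 1 := by
  unfold Int.sg
  rcases lt_or_gt_of_ne (hF.rep_ne hy) with h1 | h1
  · rw [sign_neg h1]; simp
  · rw [sign_pos h1]; simp

open Classical in
/-- a function on the chart target extended by zero to the model space. -/
def ez (p : M) (g : E4 → ℝ) (y : E4) : ℝ := if y ∈ (chartAt E4 p).target then g y else 0

theorem ez_smooth (hs : Sup p K g) : ContDiff ℝ ∞ (ez p g) := by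
  rw [contDiff_iff_contDiffAt]
  intro y
  by_cases hy : y ∈ K
  · have hyt := hs.sub hy
    have hn := (chartAt E4 p).open_target.mem_nhds hyt
    refine (hs.smooth.contDiffAt hn).congr_of_eventuallyEq ?_
    filter_upwards [hn] with z hz
    exact if_pos hz
  · refine contDiffAt_const (c := (0:ℝ)) |>.congr_of_eventuallyEq ?_
    filter_upwards [hs.cpt.isClosed.isOpen_compl.mem_nhds hy] with z hz
    by_cases h : z ∈ (chartAt E4 p).target
    · rw [ez, if_pos h, hs.zero z h hz]
    · exact if_neg h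

theorem ez_zero (hs : Sup p K g) {y : E4} (hy : y ∉ K) : ez p g y = 0 := by
  by_cases h : y ∈ (chartAt E4 p).target
  · rw [ez, if_pos h, hs.zero y h hy]
  · exact if_neg h

/-! ### covectors -/

/-- coordinate covectors. -/
abbrev pr (k : Fin 4) : E4 →L[ℝ] ℝ := EuclideanSpace.proj k

theorem ent_wed_pr (k l i j : Fin 4) : ent (wed (pr k) (pr l)) i j =
    (if k = i then 1 else 0) * (if l = j then 1 else 0) -
    (if l = i then 1 else 0) * (if k = j then 1 else 0) := by
  unfold ent
  rw [wed_apply]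
  simp [pr]

theorem ent_eq (i j : Fin 4) : ∃ (k l : Fin 4) (s : ℝ), ∀ b : Bil, Alt b →
    ent b i j = s * W b (wed (pr k) (pr l)) := by
  have e01 : ∀ b : Bil, W b (wed (pr 2) (pr 3)) = ent b 0 1 := by
    intro b; simp [W, ent_wed_pr]
  have e02 : ∀ b : Bil, W b (wed (pr 1) (pr 3)) = - ent b 0 2 := by
    intro b; simp [W, ent_wed_pr]
  have e03 : ∀ b : Bil, W b (wed (pr 1) (pr 2)) = ent b 0 3 := by
    intro b; simp [W, ent_wed_pr]
  have e12 : ∀ b : Bil, W b (wed (pr 0) (pr 3)) = ent b 1 2 := by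
    intro b; simp [W, ent_wed_pr]
  have e13 : ∀ b : Bil, W b (wed (pr 0) (pr 2)) = - ent b 1 3 := by
    intro b; simp [W, ent_wed_pr]
  have e23 : ∀ b : Bil, W b (wed (pr 0) (pr 1)) = ent b 2 3 := by
    intro b; simp [W, ent_wed_pr]
  have key : ∀ i j : Fin 4, i < j → ∃ (k l : Fin 4) (s : ℝ), ∀ b : Bil,
      ent b i j = s * W b (wed (pr k) (pr l)) := by
    intro i j hij
    fin_cases i <;> fin_cases j <;> first | (exfalso; revert hij; decide) | skip
    · exact ⟨2, 3, 1, fun b => by rw [e01]; simp⟩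
    · exact ⟨1, 3, -1, fun b => by rw [e02]; simp⟩
    · exact ⟨1, 2, 1, fun b => by rw [e03]; simp⟩
    · exact ⟨0, 3, 1, fun b => by rw [e12]; simp⟩
    · exact ⟨0, 2, -1, fun b => by rw [e13]; simp⟩
    · exact ⟨0, 1, 1, fun b => by rw [e23]; simp⟩
  rcases lt_trichotomy i j with h | h | h
  · obtain ⟨k, l, s, hs⟩ := key i j h
    exact ⟨k, l, s, fun b _ => hs b⟩
  · subst h
    exact ⟨0, 0, 0, fun b hb => by rw [hb.ent_self, zero_mul]⟩
  · obtain ⟨k, l, s, hs⟩ := key j i h
    exact ⟨k, l, -s, fun b hb => by rw [hb.ent_swap, hs]; ring⟩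

/-! ### the chart formula -/

variable {J : EndF E4 M} {F : F2 E4 M}

theorem sup_A (A : FA E4 M) (i : Fin A.n) {F : F2 E4 M} (hF : Int.Vol F) {τ : M → ℝ}
    (hτ : SmoothF E4 τ) : Sup (A.c i) (A.K i)
      (fun y => Int.sg F (A.c i) y * (repF (A.c i) (A.χ i) y * repF (A.c i) τ y)) where
  cpt := A.isCompact_K i
  sub := A.K_sub i
  smooth := (sg_smooth hF _).mul (((smoothF_iff (A.χ i)).1 (A.χ_smooth i) (A.c i)).mul (hτ (A.c i)))
  zero := by
    intro y hy hyK
    have h1 : A.χ i ((chartAt E4 (A.c i)).symm y) = 0 := by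
      by_contra hne
      have h2 := A.χ_supp i (subset_tsupport _ hne)
      rw [(chartAt E4 (A.c i)).right_inv hy] at h2
      exact hyK (interior_subset h2.2)
    simp only [repF, h1, zero_mul, mul_zero]

theorem sup_B (A : FA E4 M) (i : Fin A.n) : Sup (A.c i) (A.K i) (repF (A.c i) (A.χt i)) where
  cpt := A.isCompact_K i
  sub := A.K_sub i
  smooth := (smoothF_iff (A.χt i)).1 (A.χt_smooth i) (A.c i)
  zero := by
    intro y hy hyK
    show A.χt i ((chartAt E4 (A.c i)).symm y) = 0
    by_contra hne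
    have h2 := A.χt_supp i _ (subset_tsupport _ hne)
    rw [(chartAt E4 (A.c i)).right_inv hy] at h2
    exact hyK (interior_subset h2.2)

/-- the localised integral in the chart. -/
theorem chart_formula (h : Pair J F) (A : FA E4 M) (i : Fin A.n) {τ : M → ℝ}
    (hτ : SmoothF E4 τ) {b : F2 E4 M} (hb : Smooth2 b) :
    ∫ x, A.χ i x * (τ x * qG F b b x) ∂(Int.mu F) =
      ∫ y, W (cut (A.c i) (fun y => Int.sg F (A.c i) y *
        (repF (A.c i) (A.χ i) y * repF (A.c i) τ y)) b y)
        (cut (A.c i) (repF (A.c i) (A.χt i)) b y) := by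
  set p := A.c i with hp
  have hcont : Continuous (fun x => A.χ i x * (τ x * qG F b b x)) :=
    (A.χ_smooth i).continuous.mul ((Int.SmoothF.cont hτ).mul (continuous_qG h hb hb))
  rw [Int.integral_mu_of_supp h.vol p hcont.aestronglyMeasurable]
  · have ht : MeasurableSet (chartAt E4 p).target := (chartAt E4 p).open_target.measurableSet
    rw [setIntegral_congr_fun ht (g := fun y => W (cut p (fun y => Int.sg F p y *
        (repF p (A.χ i) y * repF p τ y)) b y) (cut p (repF p (A.χt i)) b y))]
    · refine setIntegral_eq_integral_of_forall_compl_eq_zero fun y hy => ?_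
      have h0 : cut p (repF p (A.χt i)) b y = 0 := if_neg hy
      rw [h0, W_comm]
      simp [W, ent_zero]
    · intro y hy
      simp only
      rw [cut_of_mem hy, cut_of_mem hy, W_smul_left, W_smul_right, smul_eq_mul,
        Int.qG_chart h.vol (fun x => alt_at hb x) (fun x => alt_at hb x) hy]
      have h1 := Int.dens_mul_q h.vol hy (rep p b y) (rep p b y)
      have h2 : repF p (A.χ i) y * repF p (A.χt i) y = repF p (A.χ i) y := by
        rw [mul_comm]; exact A.χt_mul_χ i _
      have h3 : A.χ i ((chartAt E4 p).symm y) = repF p (A.χ i) y := rfl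
      have h4 : τ ((chartAt E4 p).symm y) = repF p τ y := rfl
      rw [h3, h4]
      linear_combination (repF p (A.χ i) y * repF p τ y) * h1 -
        (Int.sg F p y * repF p τ y * W (rep p b y) (rep p b y)) * h2
  · intro x hx
    have : A.χ i x = 0 := by
      by_contra hne
      exact hx (A.χ_supp i (subset_tsupport _ hne)).1
    rw [this, zero_mul]

/-- test forms: the localised components as pairings with `g du∧dv`. -/
theorem exists_test (h : Pair J F) {p : M} {K : Set E4} {g : E4 → ℝ} (hs : Sup p K g)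
    {φ : E4 → ℝ} (hφ : ContDiff ℝ ∞ φ) (i j : Fin 4) :
    ∃ G u v : M → ℝ, SmoothF E4 G ∧ SmoothF E4 u ∧ SmoothF E4 v ∧
      ∀ b : F2 E4 M, Smooth2 b → ∫ y, φ y * ent (cut p g b y) i j =
        Int.I F b (fmul G (wedG (dF u) (dF v))) := by
  obtain ⟨k, l, s, hent⟩ := ent_eq i j
  -- cut-off equal to one near `K`
  obtain ⟨K1, hK1, hKK1, hK1t⟩ := exists_compact_between hs.cpt (chartAt E4 p).open_target hs.sub
  obtain ⟨K2, hK2, hK12, hK2t⟩ := exists_compact_between hK1 (chartAt E4 p).open_target hK1t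
  obtain ⟨f, hf1, hf0, -⟩ := exists_contMDiffMap_one_nhds_of_subset_interior (n := ⊤)
    𝓘(ℝ, E4) hK1.isClosed hK12
  have hθ : ContDiff ℝ ∞ (f : E4 → ℝ) := f.contMDiff.contDiff
  have hθ1 : ∀ y ∈ K1, f y = 1 := fun y hy => (Filter.Eventually.self_of_nhdsSet hf1) y hy
  have hcoord : ∀ k : Fin 4, ContDiff ℝ ∞ (fun y : E4 => f y * y k) := fun k =>
    hθ.mul (pr k).contDiff
  have hcoord0 : ∀ k : Fin 4, ∀ y, y ∉ K2 → f y * y k = 0 := fun k y hy => by
    rw [hf0 y hy, zero_mul]
  set U : Fin 4 → M → ℝ := fun k => extF p (fun y => f y * y k) with hU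
  have hUs : ∀ k, SmoothF E4 (U k) := fun k => smoothF_extF hK2 hK2t (hcoord k) (hcoord0 k)
  have hUd : ∀ k, ∀ y ∈ K, rep1 p (dF (U k)) y = pr k := by
    intro k y hy
    have hyt := hs.sub hy
    rw [rep1_dF (hUs k) hyt]
    have hev : repF p (U k) =ᶠ[𝓝 y] fun z => pr k z := by
      filter_upwards [(chartAt E4 p).open_target.mem_nhds hyt,
        mem_interior_iff_mem_nhds.1 (hKK1 hy)] with z hz hz1
      rw [hU]
      simp only
      rw [repF_extF_self hz, hθ1 z hz1, one_mul]
      rfl
    rw [hev.fderiv_eq]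
    exact (pr k).fderiv
  have hs' : Sup p K (fun y => s * (Int.sg F p y * (φ y * g y))) :=
    ⟨hs.cpt, hs.sub, contDiffOn_const.mul ((sg_smooth h.vol p).mul (hφ.contDiffOn.mul hs.smooth)),
      fun y hy hyK => by rw [hs.zero y hy hyK]; ring⟩
  refine ⟨extF p (ez p (fun y => s * (Int.sg F p y * (φ y * g y)))), U k, U l,
    smoothF_extF hs.cpt hs.sub (ez_smooth hs') (fun y hy => ez_zero hs' hy), hUs k, hUs l,
    fun b hb => ?_⟩
  set G := extF p (ez p (fun y => s * (Int.sg F p y * (φ y * g y)))) with hG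
  have hGs : SmoothF E4 G := smoothF_extF hs.cpt hs.sub (ez_smooth hs') (fun y hy => ez_zero hs' hy)
  have hws : Smooth2 (wedG (dF (U k)) (dF (U l))) := Smooth2.wed (Smooth1.dF (hUs k)) (Smooth1.dF (hUs l))
  have hcs : Smooth2 (fmul G (wedG (dF (U k)) (dF (U l)))) := Smooth2.fmul hGs hws
  unfold Int.I
  rw [Int.integral_mu_of_supp h.vol p (continuous_qG h hb hcs).aestronglyMeasurable]
  · have ht : MeasurableSet (chartAt E4 p).target := (chartAt E4 p).open_target.measurableSet
    rw [← setIntegral_eq_integral_of_forall_compl_eq_zero (s := (chartAt E4 p).target)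
      (f := fun y => φ y * ent (cut p g b y) i j)]
    · refine setIntegral_congr_fun ht fun y hy => ?_
      rw [cut_of_mem hy, ent_smul, Int.qG_comm, Int.qG_fmul_left, smul_eq_mul,
        Int.qG_chart h.vol (fun x => alt_at hws x) (fun x => alt_at hb x) hy]
      have e1 : G ((chartAt E4 p).symm y) = s * (Int.sg F p y * (φ y * g y)) := by
        rw [hG]
        have := repF_extF_self hy (ez p (fun y => s * (Int.sg F p y * (φ y * g y))))
        rw [repF] at this
        rw [this, ez, if_pos hy]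
      rw [e1]
      by_cases hyK : y ∈ K
      · have h1 := Int.dens_mul_q h.vol hy (rep p (wedG (dF (U k)) (dF (U l))) y) (rep p b y)
        rw [Int.rep_wedG_eq, hUd k y hyK, hUd l y hyK] at h1 ⊢
        have h2 := hent (rep p b y) (alt_rep hb p y)
        have h3 := sg_sq h.vol hy (F := F)
        rw [W_comm] at h1
        rw [h2]
        linear_combination (-(s * (Int.sg F p y * (φ y * g y)))) * h1 -
          (s * φ y * g y * W (rep p b y) (wed (pr k) (pr l))) * h3
      · rw [hs.zero y hy hyK]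
        ring
    · intro y hy
      have h0 : cut p g b y = 0 := if_neg hy
      rw [h0, ent_zero, mul_zero]
  · intro x hx
    have : G x = 0 := extF_of_notMem hx _
    rw [Int.qG_comm, Int.qG_fmul_left, this, zero_mul]

/-- **DIV-CURL on `M`.** -/
theorem divcurl (h : Pair J F) : DIVCURL J F := by
  intro Ψ hΨ hcl hC hw τ hτ
  obtain ⟨C, hC⟩ := hC
  obtain ⟨A⟩ := exists_FA (E := E4) (M := M)
  have hloc : ∀ i : Fin A.n, Tendsto (fun n => ∫ x, A.χ i x * (τ x * qG F (Ψ n) (Ψ n) x)
      ∂(Int.mu F)) atTop (𝓝 0) := by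
    intro i
    have sA := sup_A A i h.vol hτ
    have sB := sup_B A i
    obtain ⟨G1, hG1, hb1⟩ := exists_cut_bound sA
    obtain ⟨G2, hG2, hb2⟩ := exists_cut_bound sB
    obtain ⟨c1, hc1, hn, -⟩ := exists_norm_le h (A.c i) (A.isCompact_K i) (A.K_sub i)
    obtain ⟨c2, hc2, hI⟩ := exists_int_le h.vol (A.c i) (A.isCompact_K i) (A.K_sub i)
    set H : ℝ := G1 + G2 with hH
    have hH0 : 0 ≤ H := by positivity
    have ind_nonneg : ∀ n y, 0 ≤ (A.K i).indicator (fun y => ‖rep (A.c i) (Ψ n) y‖) y :=
      fun n y => indicator_nonneg (fun _ _ => norm_nonneg _) y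
    have hsq : ∀ n y, (H * (A.K i).indicator (fun y => ‖rep (A.c i) (Ψ n) y‖) y) ^ 2 =
        (A.K i).indicator (fun y => H ^ 2 * ‖rep (A.c i) (Ψ n) y‖ ^ 2) y := by
      intro n y
      by_cases hy : y ∈ A.K i
      · rw [indicator_of_mem hy, indicator_of_mem hy, mul_pow]
      · rw [indicator_of_notMem hy, indicator_of_notMem hy]
        simp
    have hcr : ∀ n, ContinuousOn (fun y => ‖rep (A.c i) (Ψ n) y‖ ^ 2) (A.K i) := fun n =>
      (((hΨ n).2 (A.c i)).continuousOn.mono (A.K_sub i)).norm.pow 2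
    have hint : ∀ n, Integrable (fun y =>
        (H * (A.K i).indicator (fun y => ‖rep (A.c i) (Ψ n) y‖) y) ^ 2) := by
      intro n
      simp only [hsq]
      rw [integrable_indicator_iff (A.isCompact_K i).measurableSet]
      exact (((hcr n).integrableOn_compact (A.isCompact_K i)).const_mul (H ^ 2))
    have hbd : ∀ n, ∫ y, (H * (A.K i).indicator (fun y => ‖rep (A.c i) (Ψ n) y‖) y) ^ 2 ≤
        H ^ 2 * (c2 * c1 * |C|) := by
      intro n
      simp only [hsq]
      rw [integral_indicator (A.isCompact_K i).measurableSet, integral_const_mul]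
      have h1 := hI (nsqG J F (Ψ n)) (Int.integrable_of_cont h.vol (continuous_nsq h (hΨ n)))
        (fun x => nsq_nonneg h (hΨ n) x) c1 hc1.le (fun y => ‖rep (A.c i) (Ψ n) y‖ ^ 2) (hcr n)
        (fun y _ => by positivity) (fun y hy => hn (Ψ n) (hΨ n) y hy)
      have h2 : ∫ x, nsqG J F (Ψ n) x ∂(Int.mu F) ≤ |C| := (hC n).trans (le_abs_self C)
      have h3 : c2 * c1 * ∫ x, nsqG J F (Ψ n) x ∂(Int.mu F) ≤ c2 * c1 * |C| := by gcongr
      have h4 := h1.trans h3
      gcongr
    have hmain := local_divcurl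
      (A := fun n => cut (A.c i) (fun y => Int.sg F (A.c i) y *
        (repF (A.c i) (A.χ i) y * repF (A.c i) τ y)) (Ψ n))
      (B := fun n => cut (A.c i) (repF (A.c i) (A.χt i)) (Ψ n))
      (fun n => cut_cp sA (hΨ n)) (fun n => cut_cp sB (hΨ n)) (A.isCompact_K i)
      (fun n y hy => cut_zero sB hy)
      (h := fun n y => H * (A.K i).indicator (fun y => ‖rep (A.c i) (Ψ n) y‖) y) hint hbd
      (fun n y => ((hb1 (Ψ n) (hΨ n) (hcl n)).1 y).trans (by
        have := ind_nonneg n y
        have : G1 ≤ H := by linarith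
        gcongr))
      (fun n y => ((hb2 (Ψ n) (hΨ n) (hcl n)).1 y).trans (by
        have := ind_nonneg n y
        have : G2 ≤ H := by linarith
        gcongr))
      (fun n y k l m => ((hb1 (Ψ n) (hΨ n) (hcl n)).2 y k l m).trans (by
        have := ind_nonneg n y
        have : G1 ≤ H := by linarith
        gcongr))
      (fun n y k l m => ((hb2 (Ψ n) (hΨ n) (hcl n)).2 y k l m).trans (by
        have := ind_nonneg n y
        have : G2 ≤ H := by linarith
        gcongr))
      (by
        intro φ hφ k l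
        obtain ⟨G, u, v, hG, hu, hv, he⟩ := exists_test h sB hφ k l
        simp only [fun n => he (Ψ n) (hΨ n)]
        exact hw G u v hG hu hv)
    refine hmain.congr fun n => ?_
    exact (chart_formula h A i hτ (hΨ n)).symm
  have hsum : ∀ n, Int.I F (Ψ n) (fmul τ (Ψ n)) =
      ∑ i, ∫ x, A.χ i x * (τ x * qG F (Ψ n) (Ψ n) x) ∂(Int.mu F) := by
    intro n
    have hc : ∀ i : Fin A.n, Continuous (fun x => A.χ i x * (τ x * qG F (Ψ n) (Ψ n) x)) := fun i =>
      (A.χ_smooth i).continuous.mul ((Int.SmoothF.cont hτ).mul (continuous_qG h (hΨ n) (hΨ n)))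
    rw [← integral_finsetSum _ fun i _ => Int.integrable_of_cont h.vol (hc i)]
    unfold Int.I
    congr 1
    funext x
    rw [← Finset.sum_mul, A.χ_sum, one_mul, Int.qG_comm, Int.qG_fmul_left]
  simp only [hsum]
  have := tendsto_finsetSum (s := Finset.univ) (f := fun (i : Fin A.n) n =>
    ∫ x, A.χ i x * (τ x * qG F (Ψ n) (Ψ n) x) ∂(Int.mu F)) (a := fun _ => (0:ℝ))
    fun i _ => hloc i
  simpa using this

end

end Crest.Agent.R235.DCMan_358
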