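import Mathlib

/-!
# Row 235, SW (helper109): De Giorgi / Stampacchia sup bound, abstract part (dimension 4)

`sup_bound` : `u ≥ 0` on a finite measure space, `u ∈ L⁴`, and for all `k ≥ k0`
`∫ ((u-k)⁺)⁴ ≤ (C ∫_{u>k} (1+u²))²`.  Then `u ≤ 2 max (max k0 1) (384 C √(∫u²))` a.e.
-/

set_option autoImplicit false
set_option linter.unusedSectionVars false

noncomputable section

open MeasureTheory Set Filter Topology

namespace Crest.Agent.R235.DG_109

variable {X : Type*} [MeasurableSpace X] {μ : Measure X} [IsFiniteMeasure μ]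

/-- the truncation `(u - k)⁺` -/
def tr (u : X → ℝ) (k : ℝ) (x : X) : ℝ := max (u x - k) 0

theorem tr_nonneg (u : X → ℝ) (k : ℝ) (x : X) : 0 ≤ tr u k x := le_max_right _ _

theorem tr_of_le {u : X → ℝ} {k : ℝ} {x : X} (h : u x ≤ k) : tr u k x = 0 :=
  max_eq_right (by linarith)

theorem tr_of_lt {u : X → ℝ} {k : ℝ} {x : X} (h : k < u x) : tr u k x = u x - k :=
  max_eq_left (by linarith)

theorem tr_le {u : X → ℝ} {k : ℝ} (hk : 0 ≤ k) {x : X} (hx : 0 ≤ u x) : tr u k x ≤ u x :=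
  max_le (by linarith) hx

theorem tr_meas {u : X → ℝ} (hm : AEStronglyMeasurable u μ) (k : ℝ) :
    AEStronglyMeasurable (tr u k) μ :=
  (hm.sub aestronglyMeasurable_const).sup aestronglyMeasurable_const

theorem tr_int4 {u : X → ℝ} (hm : AEStronglyMeasurable u μ) (h0 : ∀ x, 0 ≤ u x)
    (h4 : Integrable (fun x => u x ^ 4) μ) {k : ℝ} (hk : 0 ≤ k) :
    Integrable (fun x => tr u k x ^ 4) μ := by
  refine h4.mono' ((tr_meas hm k).pow 4) (ae_of_all _ fun x => ?_)
  have h1 := tr_nonneg u k x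
  rw [Real.norm_eq_abs, abs_of_nonneg (by positivity)]
  exact pow_le_pow_left₀ h1 (tr_le hk (h0 x)) 4

theorem int2_of_int4 {v : X → ℝ} (hm : AEStronglyMeasurable v μ)
    (h4 : Integrable (fun x => v x ^ 4) μ) : Integrable (fun x => v x ^ 2) μ := by
  refine (h4.add (integrable_const (1 : ℝ))).mono' (hm.pow 2) (ae_of_all _ fun x => ?_)
  rw [Real.norm_eq_abs, abs_of_nonneg (by positivity)]
  simp only [Pi.add_apply]
  nlinarith [sq_nonneg (v x ^ 2 - 1), sq_nonneg (v x)]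

theorem le_of_sq_le_sq {a b : ℝ} (h : a ^ 2 ≤ b ^ 2) (hb : 0 ≤ b) : a ≤ b :=
  le_of_not_gt fun hlt => absurd h (not_le.2 (pow_lt_pow_left₀ hlt hb two_ne_zero))

/-- Cauchy–Schwarz: `∫ w² ≤ √(∫ w⁴) √(μ {w ≠ 0})` -/
theorem cs {w : X → ℝ} (hm : AEStronglyMeasurable w μ) (h4 : Integrable (fun x => w x ^ 4) μ)
    {s : Set X} (hs : NullMeasurableSet s μ) (h0 : ∀ x, x ∉ s → w x = 0) :
    ∫ x, w x ^ 2 ∂μ ≤ √(∫ x, w x ^ 4 ∂μ) * √(μ.real s) := by
  have h2 := int2_of_int4 hm h4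
  set a := ∫ x, w x ^ 2 ∂μ with ha
  set W := ∫ x, w x ^ 4 ∂μ with hW
  have ha0 : 0 ≤ a := integral_nonneg fun x => by positivity
  have hW0 : 0 ≤ W := integral_nonneg fun x => by positivity
  have hind : Integrable (s.indicator fun _ => (1 : ℝ)) μ :=
    (integrable_const (1 : ℝ)).indicator₀ hs
  have hq : ∀ l : ℝ, 0 ≤ W - 2 * l * a + l ^ 2 * μ.real s := by
    intro l
    have e : ∫ x, (w x ^ 4 - 2 * l * w x ^ 2 + l ^ 2 * s.indicator (fun _ => (1 : ℝ)) x) ∂μ =
        W - 2 * l * a + l ^ 2 * μ.real s := by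
      have i1 : Integrable (fun x => 2 * l * w x ^ 2) μ := h2.const_mul _
      have i2 : Integrable (fun x => l ^ 2 * s.indicator (fun _ => (1 : ℝ)) x) μ :=
        hind.const_mul _
      have i3 : Integrable (fun x => w x ^ 4 - 2 * l * w x ^ 2) μ := h4.sub i1
      rw [integral_add i3 i2, integral_sub h4 i1, integral_const_mul, integral_const_mul,
        integral_indicator₀ hs, setIntegral_const, smul_eq_mul, mul_one]
    rw [← e]
    refine integral_nonneg fun x => ?_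
    by_cases hx : x ∈ s
    · simp only [indicator_of_mem hx, Pi.zero_apply]
      nlinarith [sq_nonneg (w x ^ 2 - l)]
    · simp only [indicator_of_notMem hx, Pi.zero_apply, h0 x hx]
      simp
  have hS0 : 0 ≤ μ.real s := measureReal_nonneg
  have key : a ^ 2 ≤ W * μ.real s := by
    rcases eq_or_lt_of_le hS0 with hs0 | hs0
    · have h3 : ∀ l : ℝ, 0 ≤ W - 2 * l * a := fun l => by
        have := hq l
        rw [← hs0, mul_zero, add_zero] at this
        exact this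
      have h4 : a = 0 := by
        by_contra hne
        have hpos : 0 < a := lt_of_le_of_ne ha0 (Ne.symm hne)
        have h5 := h3 ((W + 1) / (2 * a))
        have e : 2 * ((W + 1) / (2 * a)) * a = W + 1 := by field_simp
        rw [e] at h5
        linarith
      rw [h4, ← hs0]
      simp
    · have h3 := hq (a / μ.real s)
      have e : W - 2 * (a / μ.real s) * a + (a / μ.real s) ^ 2 * μ.real s =
          W - a ^ 2 / μ.real s := by
        field_simp
        ring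
      rw [e, sub_nonneg, div_le_iff₀ hs0] at h3
      exact h3
  calc a = √(a ^ 2) := (Real.sqrt_sq ha0).symm
    _ ≤ √(W * μ.real s) := Real.sqrt_le_sqrt key
    _ = √W * √(μ.real s) := Real.sqrt_mul hW0 _

/-- the level set inequality -/
theorem level {u : X → ℝ} (hm : AEStronglyMeasurable u μ) (h0 : ∀ x, 0 ≤ u x)
    (h4 : Integrable (fun x => u x ^ 4) μ) {C k : ℝ} (hC : 0 < C) (hk : 1 ≤ k)
    (hS : ∫ x, tr u k x ^ 4 ∂μ ≤ (C * ∫ x in {x | k < u x}, (1 + u x ^ 2) ∂μ) ^ 2)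
    (hA : 16 * C ^ 2 * μ.real {x | k < u x} ≤ 1) :
    ∫ x, tr u k x ^ 4 ∂μ ≤ 36 * C ^ 2 * k ^ 4 * μ.real {x | k < u x} ^ 2 := by
  have hk0 : 0 ≤ k := by linarith
  set s : Set X := {x | k < u x} with hs
  have hsm : NullMeasurableSet s μ :=
    nullMeasurableSet_lt aemeasurable_const hm.aemeasurable
  have hm' := tr_meas (μ := μ) hm k
  have i4 := tr_int4 (μ := μ) hm h0 h4 hk0
  have i2 := int2_of_int4 hm' i4
  have hu2 := int2_of_int4 hm h4
  set W := ∫ x, tr u k x ^ 4 ∂μ with hW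
  set A := μ.real s with hAd
  have hW0 : 0 ≤ W := integral_nonneg fun x => by positivity
  have hA0 : 0 ≤ A := measureReal_nonneg
  have h1 : ∫ x in s, (1 + u x ^ 2) ∂μ ≤ 3 * k ^ 2 * A + 2 * ∫ x, tr u k x ^ 2 ∂μ := by
    have e1 : ∫ x in s, (3 * k ^ 2 + 2 * tr u k x ^ 2) ∂μ ≤
        3 * k ^ 2 * A + 2 * ∫ x, tr u k x ^ 2 ∂μ := by
      rw [integral_add (integrable_const _) ((i2.const_mul 2).integrableOn),
        integral_const_mul (2 : ℝ)]
      have e2 : ∫ x in s, (3 * k ^ 2) ∂μ = 3 * k ^ 2 * A := by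
        rw [setIntegral_const, smul_eq_mul, mul_comm]
      rw [e2]
      have e3 : ∫ x in s, tr u k x ^ 2 ∂μ ≤ ∫ x, tr u k x ^ 2 ∂μ :=
        setIntegral_le_integral i2 (ae_of_all _ fun x => by positivity)
      linarith
    refine le_trans ?_ e1
    refine setIntegral_mono_on₀ (((integrable_const (1 : ℝ)).add hu2).integrableOn)
      (((integrable_const _).add (i2.const_mul 2)).integrableOn) hsm ?_
    intro x hx
    have hx' : k < u x := hx
    rw [tr_of_lt hx']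
    nlinarith [sq_nonneg (u x - 2 * k)]
  have h2 := cs hm' i4 hsm (fun x hx => tr_of_le (not_lt.1 hx))
  have hR0 : 0 ≤ ∫ x in s, (1 + u x ^ 2) ∂μ := integral_nonneg fun x => by positivity
  have h3 : √W ≤ C * ∫ x in s, (1 + u x ^ 2) ∂μ := by
    rw [← Real.sqrt_sq (by positivity : 0 ≤ C * ∫ x in s, (1 + u x ^ 2) ∂μ)]
    exact Real.sqrt_le_sqrt hS
  have h4' : 4 * C * √A ≤ 1 := by
    have : (4 * C * √A) ^ 2 ≤ 1 ^ 2 := by
      rw [mul_pow, Real.sq_sqrt hA0]
      nlinarith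
    exact le_of_sq_le_sq this (by norm_num)
  have hsW : 0 ≤ √W := Real.sqrt_nonneg _
  have h5 : √W ≤ 6 * C * k ^ 2 * A := by
    have e1 : C * ∫ x in s, (1 + u x ^ 2) ∂μ ≤ C * (3 * k ^ 2 * A + 2 * (√W * √A)) :=
      mul_le_mul_of_nonneg_left (by linarith) hC.le
    have e2 : 4 * C * √A * √W ≤ 1 * √W := mul_le_mul_of_nonneg_right h4' hsW
    nlinarith
  calc W = √W ^ 2 := (Real.sq_sqrt hW0).symm
    _ ≤ (6 * C * k ^ 2 * A) ^ 2 := pow_le_pow_left₀ hsW h5 2
    _ = 36 * C ^ 2 * k ^ 4 * A ^ 2 := by ring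

/-- Markov for the truncation -/
theorem markov {u : X → ℝ} (hm : AEStronglyMeasurable u μ) (h0 : ∀ x, 0 ≤ u x)
    (h4 : Integrable (fun x => u x ^ 4) μ) {k h : ℝ} (hk : 0 ≤ k) (hkh : k < h) :
    (h - k) ^ 4 * μ.real {x | h < u x} ≤ ∫ x, tr u k x ^ 4 ∂μ := by
  have i4 := tr_int4 (μ := μ) hm h0 h4 hk
  have hsm : NullMeasurableSet {x | h < u x} μ :=
    nullMeasurableSet_lt aemeasurable_const hm.aemeasurable
  have e : (h - k) ^ 4 * μ.real {x | h < u x} = ∫ x in {x | h < u x}, (h - k) ^ 4 ∂μ := by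
    rw [setIntegral_const, smul_eq_mul, mul_comm]
  rw [e]
  refine le_trans ?_ (setIntegral_le_integral (s := {x | h < u x}) i4
    (ae_of_all _ fun x => by positivity))
  refine setIntegral_mono_on₀ (integrable_const _).integrableOn i4.integrableOn hsm ?_
  intro x hx
  have hx' : h < u x := hx
  rw [tr_of_lt (hkh.trans hx')]
  exact pow_le_pow_left₀ (by linarith) (by linarith) 4

/-- **De Giorgi sup bound** -/
theorem sup_bound {u : X → ℝ} (hm : AEStronglyMeasurable u μ) (h0 : ∀ x, 0 ≤ u x)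
    (h4 : Integrable (fun x => u x ^ 4) μ) {C k0 K : ℝ} (hC : 0 < C)
    (hS : ∀ k, k0 ≤ k → ∫ x, tr u k x ^ 4 ∂μ ≤
      (C * ∫ x in {x | k < u x}, (1 + u x ^ 2) ∂μ) ^ 2)
    (hK0 : k0 ≤ K) (hK1 : 1 ≤ K) (hK : 384 * C * √(∫ x, u x ^ 2 ∂μ) ≤ K) :
    ∀ᵐ x ∂μ, u x ≤ 2 * K := by
  set A : ℝ → ℝ := fun k => μ.real {x | k < u x} with hA
  have hAnn : ∀ k, 0 ≤ A k := fun k => measureReal_nonneg
  have hAmono : ∀ k h, k ≤ h → A h ≤ A k := fun k h hkh =>
    measureReal_mono (fun x (hx : h < u x) => lt_of_le_of_lt hkh hx)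
  have hKpos : 0 < K := by linarith
  -- initial smallness
  have hI0 : 0 ≤ ∫ x, u x ^ 2 ∂μ := integral_nonneg fun x => by positivity
  have hA0 : 147456 * C ^ 2 * A K ≤ 1 := by
    have hu2 := int2_of_int4 hm h4
    have hsm : NullMeasurableSet {x | K < u x} μ :=
      nullMeasurableSet_lt aemeasurable_const hm.aemeasurable
    have e : K ^ 2 * A K = ∫ x in {x | K < u x}, K ^ 2 ∂μ := by
      rw [setIntegral_const, smul_eq_mul, mul_comm]
    have h1 : K ^ 2 * A K ≤ ∫ x, u x ^ 2 ∂μ := by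
      rw [e]
      refine le_trans ?_ (setIntegral_le_integral (s := {x | K < u x}) hu2
        (ae_of_all _ fun x => by positivity))
      refine setIntegral_mono_on₀ (integrable_const _).integrableOn hu2.integrableOn hsm ?_
      intro x hx
      exact pow_le_pow_left₀ hKpos.le (le_of_lt hx) 2
    have h2 : (384 * C) ^ 2 * ∫ x, u x ^ 2 ∂μ ≤ K ^ 2 := by
      have := pow_le_pow_left₀ (by positivity) hK 2
      rwa [mul_pow, Real.sq_sqrt hI0] at this
    have h3 : (384 * C) ^ 2 * (K ^ 2 * A K) ≤ K ^ 2 * 1 := by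
      rw [mul_one]
      exact (mul_le_mul_of_nonneg_left h1 (by positivity)).trans h2
    have h4 : K ^ 2 * ((384 * C) ^ 2 * A K) ≤ K ^ 2 * 1 := by linarith
    have h5 := le_of_mul_le_mul_left h4 (by positivity)
    nlinarith
  -- the levels
  set L : ℕ → ℝ := fun j => K * (2 - (1 / 2) ^ j) with hL
  have hLK : ∀ j, K ≤ L j := fun j => by
    have : ((1 : ℝ) / 2) ^ j ≤ 1 := pow_le_one₀ (by norm_num) (by norm_num)
    simp only [hL]
    nlinarith
  have hL2 : ∀ j, L j ≤ 2 * K := fun j => by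
    have : 0 < ((1 : ℝ) / 2) ^ j := by positivity
    simp only [hL]
    nlinarith
  have hstep : ∀ j, L (j + 1) - L j = K * (1 / 2) ^ (j + 1) := fun j => by
    simp only [hL]
    rw [pow_succ]
    ring
  have hrec : ∀ j, A (L (j + 1)) ≤ 9216 * C ^ 2 * 16 ^ j * A (L j) ^ 2 := by
    intro j
    have hk1 : 1 ≤ L j := hK1.trans (hLK j)
    have hsm : 16 * C ^ 2 * A (L j) ≤ 1 := by
      have h1 := hAmono K (L j) (hLK j)
      have h2 : C ^ 2 * A (L j) ≤ C ^ 2 * A K := mul_le_mul_of_nonneg_left h1 (by positivity)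
      have h3 : 0 ≤ C ^ 2 * A K := mul_nonneg (by positivity) (hAnn K)
      linarith
    have h1 := level hm h0 h4 hC hk1 (hS _ (hK0.trans (hLK j))) hsm
    have hlt : L j < L (j + 1) := by
      have := hstep j
      have h2 : 0 < K * (1 / 2 : ℝ) ^ (j + 1) := by positivity
      linarith
    have h2 := markov hm h0 h4 (by linarith : 0 ≤ L j) hlt
    rw [hstep j] at h2
    have h3 : (K * (1 / 2 : ℝ) ^ (j + 1)) ^ 4 * A (L (j + 1)) ≤
        36 * C ^ 2 * (2 * K) ^ 4 * A (L j) ^ 2 := by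
      refine h2.trans (h1.trans ?_)
      refine mul_le_mul_of_nonneg_right ?_ (sq_nonneg _)
      refine mul_le_mul_of_nonneg_left ?_ (by positivity)
      exact pow_le_pow_left₀ (by linarith) (hL2 j) 4
    have e1 : (K * (1 / 2 : ℝ) ^ (j + 1)) ^ 4 = K ^ 4 * (1 / 16 * (1 / 16) ^ j) := by
      have e0 : ((1 / 2 : ℝ) ^ (j + 1)) ^ 4 = 1 / 16 * (1 / 16) ^ j := by
        rw [← pow_mul, mul_comm (j + 1) 4, pow_mul, pow_succ]
        norm_num
        ring
      rw [mul_pow, e0]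
    have e2 : (16 : ℝ) ^ j * (1 / 16) ^ j = 1 := by
      rw [← mul_pow]
      norm_num
    rw [e1] at h3
    have h4 : K ^ 4 * (1 / 16 * (1 / 16) ^ j * A (L (j + 1))) ≤
        K ^ 4 * (576 * C ^ 2 * A (L j) ^ 2) := by
      calc K ^ 4 * (1 / 16 * (1 / 16) ^ j * A (L (j + 1))) =
          K ^ 4 * (1 / 16 * (1 / 16) ^ j) * A (L (j + 1)) := by ring
        _ ≤ 36 * C ^ 2 * (2 * K) ^ 4 * A (L j) ^ 2 := h3
        _ = K ^ 4 * (576 * C ^ 2 * A (L j) ^ 2) := by ring
    have h5 := le_of_mul_le_mul_left h4 (by positivity)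
    have h6 := mul_le_mul_of_nonneg_left h5 (by positivity : (0 : ℝ) ≤ 16 * 16 ^ j)
    calc A (L (j + 1)) = 16 * 16 ^ j * (1 / 16 * (1 / 16) ^ j * A (L (j + 1))) := by
          have : 16 * (16 : ℝ) ^ j * (1 / 16 * (1 / 16) ^ j * A (L (j + 1))) =
            ((16 : ℝ) ^ j * (1 / 16) ^ j) * A (L (j + 1)) := by ring
          rw [this, e2, one_mul]
      _ ≤ 16 * 16 ^ j * (576 * C ^ 2 * A (L j) ^ 2) := h6
      _ = 9216 * C ^ 2 * 16 ^ j * A (L j) ^ 2 := by ring
  have hL0 : L 0 = K := by simp [hL]; ring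
  have hdec : ∀ j, A (L j) ≤ A K * (1 / 16) ^ j := by
    intro j
    induction j with
    | zero => rw [hL0]; simp
    | succ j ih =>
      have e2 : (16 : ℝ) ^ j * (1 / 16) ^ j = 1 := by
        rw [← mul_pow]
        norm_num
      have h1 : A (L j) ^ 2 ≤ (A K * (1 / 16) ^ j) ^ 2 := pow_le_pow_left₀ (hAnn _) ih 2
      calc A (L (j + 1)) ≤ 9216 * C ^ 2 * 16 ^ j * A (L j) ^ 2 := hrec j
        _ ≤ 9216 * C ^ 2 * 16 ^ j * (A K * (1 / 16) ^ j) ^ 2 :=
            mul_le_mul_of_nonneg_left h1 (by positivity)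
        _ = 9216 * C ^ 2 * A K * (A K * ((16 : ℝ) ^ j * (1 / 16) ^ j) * (1 / 16) ^ j) := by ring
        _ = 147456 * C ^ 2 * A K * (A K * (1 / 16) ^ j * (1 / 16)) := by rw [e2]; ring
        _ ≤ 1 * (A K * (1 / 16) ^ j * (1 / 16)) := by
            refine mul_le_mul_of_nonneg_right hA0 ?_
            have := hAnn K
            positivity
        _ = A K * (1 / 16) ^ (j + 1) := by rw [pow_succ]; ring
  have hlim : Tendsto (fun j : ℕ => A K * (1 / 16 : ℝ) ^ j) atTop (𝓝 0) := by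
    have := (tendsto_pow_atTop_nhds_zero_of_lt_one (by norm_num : (0 : ℝ) ≤ 1 / 16)
      (by norm_num)).const_mul (A K)
    rwa [mul_zero] at this
  have hzero : A (2 * K) ≤ 0 :=
    ge_of_tendsto' hlim fun j => (hAmono _ _ (hL2 j)).trans (hdec j)
  have hz : μ {x | 2 * K < u x} = 0 := by
    have h1 : A (2 * K) = 0 := le_antisymm hzero (hAnn _)
    exact (measureReal_eq_zero_iff (measure_ne_top _ _)).1 h1
  rw [ae_iff]
  simpa only [not_le] using hz

end Crest.Agent.R235.DG_109
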