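import Crest.Agent.R235.STFProps_861
import Crest.Agent.R240.Main
import Crest.Agent.R240.Cmp

/-!
Row 235, package STF: leaf DOM (helper560).  A compatible form in the class, from the Kaehler current
`KC`, the approximation `APX` and the Lemma A inside the exact forms `N3E`.
-/

set_option autoImplicit false
set_option maxSynthPendingDepth 3

open Set Function Filter MeasureTheory Metric
open scoped Manifold ContDiff Topology ENNReal

universe u

namespace Crest.Agent.R235.DOM_560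

open Crest.Agent.R240 Crest.Agent.R240.Ch STF_861

noncomputable section

set_option linter.unusedSectionVars false

theorem aux1 {n A B C : ℝ} (h1 : -(2 * n) * A ≤ -C) (h4 : 0 ≤ B - A) (h7 : n * A ≤ 1 / 4 * A) :
    1 / 2 * A ≤ B - C := by nlinarith

theorem aux2 {A B : ℝ} (h1 : 0 < A) (h2 : 1 / 2 * A ≤ B) : 0 < B := by linarith

section A

variable {M : Type u} [MetricSpace M] [CompactSpace M] [ChartedSpace E4 M]
    [IsManifold 𝓘(ℝ, E4) ∞ M] [MeasurableSpace M] [BorelSpace M]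

/-- exact forms: sums. -/
theorem ex_add {a b : X2 M} (ha : IsEx (a : F2 E4 M)) (hb : IsEx (b : F2 E4 M)) :
    IsEx ((a + b : X2 M) : F2 E4 M) := (EX2 M).add_mem (x := a) (y := b) ha hb

theorem ex_sub {a b : X2 M} (ha : IsEx (a : F2 E4 M)) (hb : IsEx (b : F2 E4 M)) :
    IsEx ((a - b : X2 M) : F2 E4 M) := (EX2 M).sub_mem (x := a) (y := b) ha hb

theorem ex_smul (r : ℝ) {a : X2 M} (ha : IsEx (a : F2 E4 M)) :
    IsEx ((r • a : X2 M) : F2 E4 M) := (EX2 M).smul_mem r (x := a) ha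

/-- `b(v,Jv) = b'(v,Jv)`. -/
theorem inv_JJ (D : Dat M) (b : X2 M) (x : M) (v : E4) :
    invp (atJ D.J x) (at2 (b : F2 E4 M) x) v (atJ D.J x v) =
      at2 (b : F2 E4 M) x v (atJ D.J x v) := by
  rw [invp_apply, D.sq, map_neg]
  have := (Dat.alt b x).swap v (atJ D.J x v)
  linarith

/-- a form with `b'' = 0` is invariant. -/
theorem inv_of_pi'' (D : Dat M) {b : X2 M} (h : D.pi'' b = 0) (x : M) (u v : E4) :
    at2 (b : F2 E4 M) x (atJ D.J x u) (atJ D.J x v) = at2 (b : F2 E4 M) x u v := by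
  have h1 : at2 ((D.pi'' b : X2 M) : F2 E4 M) x u v = 0 := by rw [h]; rfl
  rw [Dat.at2_pi'', antip_apply] at h1
  linarith

end A

/-- **LEAF DOM.** -/
theorem dom (kc : KC.{u}) (n3e : N3E.{u}) (apx : APX.{u}) : DOM.{u} := by
  intro M i1 i2 i3 i4 i5 i6 D v a a0 hC hPD hZD ha0 hex hpi
  obtain ⟨δ, Φ, hK⟩ := kc M D v a hC
  obtain ⟨𝒰, m, C, h3⟩ := n3e M D
  obtain ⟨b, hbZ, t, hbt, hbP, hbρ⟩ := apx M D a δ Φ hC.clF hC.cla hK hPD hZD 𝒰 m
    (1 / (4 * (|C| + 1))) (by positivity)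
  -- `b - t a0` is exact
  have hex2 : IsEx ((b - t • a0 : X2 M) : F2 E4 M) := by
    have h1 := ex_add hbt (ex_smul t hex)
    have h2 : (b - t • a) + t • (a - a0) = b - t • a0 := by
      rw [smul_sub]; abel
    rwa [h2] at h1
  obtain ⟨c, hcex, hc, hcn⟩ := h3 _ hex2
  have hpb : D.pi'' (b - t • a0) = D.pi'' b := by
    rw [map_sub, map_smul, hpi, smul_zero, sub_zero]
  rw [hpb] at hc
  simp only [hpb] at hcn
  have hcZ : c ∈ Z2 M := St1.ex_closed hcex
  -- the form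
  set b1 : X2 M := b - c with hb1
  have hb1Z : b1 ∈ Z2 M := (Z2 M).sub_mem hbZ hcZ
  have hb1'' : D.pi'' b1 = 0 := by rw [hb1, map_sub, hc, sub_self]
  have hb1ex : IsEx ((b1 - t • a : X2 M) : F2 E4 M) := by
    have h1 := ex_sub hbt hcex
    have h2 : (b - t • a) - c = b1 - t • a := by rw [hb1]; abel
    rwa [h2] at h1
  -- the lower bound
  have hge : ∀ x v, 1 / 2 * at2 D.F x v (atJ D.J x v) ≤
      at2 (b1 : F2 E4 M) x v (atJ D.J x v) := by
    intro x v
    have hsmall : D.nr (c : F2 E4 M) x ≤ 1 / 4 := by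
      have h0 := cm_nonneg 𝒰 m ((D.pi'' b : X2 M) : F2 E4 M)
      calc D.nr (c : F2 E4 M) x ≤ C * 𝒰.cm m ((D.pi'' b : X2 M) : F2 E4 M) := hcn x
        _ ≤ (|C| + 1) * 𝒰.cm m ((D.pi'' b : X2 M) : F2 E4 M) := by
            apply mul_le_mul_of_nonneg_right _ h0
            linarith [le_abs_self C]
        _ ≤ (|C| + 1) * (1 / (4 * (|C| + 1))) := by
            apply mul_le_mul_of_nonneg_left hbρ.le
            positivity
        _ = 1 / 4 := by
            have : |C| + 1 ≠ 0 := by positivity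
            field_simp
    have hF0 : 0 ≤ at2 D.F x v (atJ D.J x v) := by
      rcases eq_or_ne v 0 with h | h
      · rw [h]; simp
      · exact ((D.spos x).pos v h).le
    have h1 := D.neg_nr_le (-c) x v
    rw [Dat.nr_neg] at h1
    have h2 : at2 ((-c : X2 M) : F2 E4 M) x v (atJ D.J x v) =
      - at2 (c : F2 E4 M) x v (atJ D.J x v) := rfl
    rw [h2] at h1
    have h3 : at2 (b1 : F2 E4 M) x v (atJ D.J x v) =
      at2 (b : F2 E4 M) x v (atJ D.J x v) - at2 (c : F2 E4 M) x v (atJ D.J x v) := rfl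
    have h4 : 0 ≤ at2 ((D.pi' b - D.FX : X2 M) : F2 E4 M) x v (atJ D.J x v) := (hbP x).nonneg v
    have h5 : at2 ((D.pi' b - D.FX : X2 M) : F2 E4 M) x v (atJ D.J x v) =
      invp (atJ D.J x) (at2 (b : F2 E4 M) x) v (atJ D.J x v) - at2 D.F x v (atJ D.J x v) := rfl
    rw [h5, inv_JJ] at h4
    rw [h3]
    have h7 : D.nr (c : F2 E4 M) x * at2 D.F x v (atJ D.J x v) ≤
      1 / 4 * at2 D.F x v (atJ D.J x v) := mul_le_mul_of_nonneg_right hsmall hF0
    exact aux1 h1 h4 h7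
  have hpos : ∀ x v, v ≠ 0 → 0 < at2 (b1 : F2 E4 M) x v (atJ D.J x v) := by
    intro x v hv
    exact aux2 ((D.spos x).pos v hv) (hge x v)
  -- `b1 - F/2` is in the cone
  have hcone : b1 - (1 / 2 : ℝ) • D.FX ∈ D.Pp := by
    intro x
    refine ⟨Dat.alt _ x, fun u v => ?_, fun v => ?_⟩
    · have h1 := inv_of_pi'' D hb1'' x u v
      have h2 := (D.spos x).inv u v
      have h3 : ∀ u v, at2 ((b1 - (1 / 2 : ℝ) • D.FX : X2 M) : F2 E4 M) x u v =
          at2 (b1 : F2 E4 M) x u v - 1 / 2 * at2 D.F x u v := fun u v => rfl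
      rw [h3, h3, h1, h2]
    · have h3 : at2 ((b1 - (1 / 2 : ℝ) • D.FX : X2 M) : F2 E4 M) x v (atJ D.J x v) =
          at2 (b1 : F2 E4 M) x v (atJ D.J x v) - 1 / 2 * at2 D.F x v (atJ D.J x v) := rfl
      rw [h3]
      exact sub_nonneg.2 (hge x v)
  -- `t > 0`
  have hIb1 : 0 < St1.IX D b1 D.FX := by
    have h1 : 0 ≤ St1.IX D (b1 - (1 / 2 : ℝ) • D.FX) D.FX := St1.I_PF_nonneg hcone
    rw [map_sub, map_smul, LinearMap.sub_apply, LinearMap.smul_apply, smul_eq_mul] at h1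
    have h2 : 0 < St1.IX D D.FX D.FX := hC.posF
    linarith
  have hIa : 0 < St1.IX D a D.FX := hC.posaF
  have hIt : St1.IX D b1 D.FX = t * St1.IX D a D.FX := by
    have h1 : St1.IX D (b1 - t • a) D.FX = 0 := by
      have h2 := St1.stokes D D.FX hC.clF _ hb1ex
      have h3 := St1.I_comm (D := D) ((b1 - t • a : X2 M) : F2 E4 M) ((D.FX : X2 M) : F2 E4 M)
      exact h3.trans h2
    rw [map_sub, map_smul, LinearMap.sub_apply, LinearMap.smul_apply, smul_eq_mul] at h1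
    linarith
  have ht : 0 < t := by
    rw [hIt] at hIb1
    by_contra h
    exact absurd hIb1 (not_lt.2 (mul_nonpos_of_nonpos_of_nonneg (not_lt.1 h) hIa.le))
  refine ⟨t⁻¹ • b1, (Z2 M).smul_mem _ hb1Z, ?_, ?_, fun x v hv => ?_⟩
  · have h1 := ex_smul t⁻¹ hb1ex
    have h2 : t⁻¹ • (b1 - t • a) = t⁻¹ • b1 - a := by
      rw [smul_sub, smul_smul, inv_mul_cancel₀ ht.ne', one_smul]
    rwa [h2] at h1
  · rw [map_smul, hb1'', smul_zero]
  · have h3 : at2 ((t⁻¹ • b1 : X2 M) : F2 E4 M) x v (atJ D.J x v) =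
      t⁻¹ * at2 (b1 : F2 E4 M) x v (atJ D.J x v) := rfl
    rw [h3]
    exact mul_pos (inv_pos.2 ht) (hpos x v hv)

end

end Crest.Agent.R235.DOM_560
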