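import Mathlib

/-!
# R235, SWC-AN: clearing lemma (leaf C, DENS)

A locally finite measure on a space of dimension at most four whose ball masses
satisfy the quadratic inequality
`m (B x t) ≤ C * (t⁻² * m (B x (L t)) ^ 2 + t * m (B x (L t)) + t ^ 6)`
has a universal lower quadratic density at every point of its support.
-/

open MeasureTheory Metric Set Filter Topology Module

namespace Crest.Agent.R235.Dens4_181

/-- the universal small constant -/
noncomputable def del (C L : ℝ) : ℝ := 1 / (2 * L ^ 6 * (C + 1) * (L ^ 2 + 1))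

/-- the density threshold -/
noncomputable def eps0 (C L : ℝ) : ℝ := del C L / 4

/-- the scale threshold -/
noncomputable def s1 (C L : ℝ) : ℝ := min 1 (del C L / (2 * (C + 1)))

section const

variable {C L : ℝ} (hC : 0 ≤ C) (hL : 1 < L)
include hC hL

theorem del_pos : 0 < del C L := by
  unfold del
  positivity

theorem eps0_pos : 0 < eps0 C L := by
  have := del_pos hC hL
  unfold eps0
  positivity

theorem s1_pos : 0 < s1 C L := by
  have := del_pos hC hL
  unfold s1
  positivity

theorem s1_le_del : s1 C L ≤ del C L := by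
  have h := del_pos hC hL
  refine (min_le_right _ _).trans ?_
  rw [div_le_iff₀ (by positivity)]
  nlinarith

theorem mul_s1_le : C * s1 C L ≤ del C L / 2 := by
  have h := del_pos hC hL
  have h1 : s1 C L ≤ del C L / (2 * (C + 1)) := min_le_right _ _
  calc C * s1 C L ≤ (C + 1) * (del C L / (2 * (C + 1))) := by
        have := s1_pos hC hL
        gcongr
        linarith
    _ = del C L / 2 := by field_simp

/-- `κ = C δ (L² + 1) ≤ 1 / (2 L⁶)` -/
theorem kap_le : C * del C L * (L ^ 2 + 1) ≤ 1 / (2 * L ^ 6) := by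
  have hL0 : 0 < L := by linarith
  unfold del
  rw [div_eq_mul_inv, one_mul, div_eq_mul_inv, one_mul]
  have h1 : C * (2 * L ^ 6 * (C + 1) * (L ^ 2 + 1))⁻¹ * (L ^ 2 + 1)
      = (C * (C + 1)⁻¹) * (2 * L ^ 6)⁻¹ := by
    field_simp
  rw [h1]
  have h2 : C * (C + 1)⁻¹ ≤ 1 := by
    rw [← div_eq_mul_inv, div_le_one (by positivity)]
    linarith
  have h3 : 0 ≤ (2 * L ^ 6)⁻¹ := by positivity
  nlinarith

end const

/-- One step of the iteration: quadratic smallness and fifth power decay. -/
theorem step {C L : ℝ} (hC : 0 ≤ C) (hL : 1 < L) {t A A' M : ℝ} (ht : 0 < t)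
    (hts : t ≤ s1 C L) (hA0 : 0 ≤ A)
    (hrec : A' ≤ C * (t⁻¹ ^ 2 * A ^ 2 + t * A + t ^ 6))
    (hA : A ≤ del C L * (L * t) ^ 2) (hM : A ≤ M * (L * t) ^ 5) (hM' : 2 * C * t ≤ M) :
    A' ≤ del C L * t ^ 2 ∧ A' ≤ M * t ^ 5 := by
  have hd := del_pos hC hL
  have hk := kap_le hC hL
  have hs := mul_s1_le hC hL
  have ht1 : t ≤ 1 := hts.trans (min_le_left _ _)
  have htd : t ≤ del C L := hts.trans (s1_le_del hC hL)
  have hL0 : 0 < L := by linarith
  set δ := del C L with hδ
  -- linearise
  have h1 : t⁻¹ ^ 2 * A ^ 2 ≤ δ * L ^ 2 * A := by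
    have : t⁻¹ ^ 2 * A ^ 2 = (t⁻¹ ^ 2 * A) * A := by ring
    rw [this]
    refine mul_le_mul_of_nonneg_right ?_ hA0
    calc t⁻¹ ^ 2 * A ≤ t⁻¹ ^ 2 * (δ * (L * t) ^ 2) := by gcongr
      _ = δ * L ^ 2 := by field_simp
  have h2 : A' ≤ C * δ * (L ^ 2 + 1) * A + C * t ^ 6 := by
    refine hrec.trans ?_
    have h3 : t * A ≤ δ * A := by gcongr
    have h4 : t⁻¹ ^ 2 * A ^ 2 + t * A + t ^ 6 ≤ δ * L ^ 2 * A + δ * A + t ^ 6 := by linarith
    calc C * (t⁻¹ ^ 2 * A ^ 2 + t * A + t ^ 6) ≤ C * (δ * L ^ 2 * A + δ * A + t ^ 6) := by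
          gcongr
      _ = C * δ * (L ^ 2 + 1) * A + C * t ^ 6 := by ring
  have h5 : A' ≤ 1 / (2 * L ^ 6) * A + C * t ^ 6 := by
    have : C * δ * (L ^ 2 + 1) * A ≤ 1 / (2 * L ^ 6) * A := by gcongr
    linarith
  have hL6 : (0 : ℝ) < L ^ 6 := by positivity
  have hL1 : (1 : ℝ) ≤ L := hL.le
  constructor
  · have h6 : 1 / (2 * L ^ 6) * A ≤ δ * t ^ 2 / 2 := by
      calc 1 / (2 * L ^ 6) * A ≤ 1 / (2 * L ^ 6) * (δ * (L * t) ^ 2) := by gcongr
        _ = (1 / L ^ 4) * (δ * t ^ 2 / 2) := by field_simp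
        _ ≤ 1 * (δ * t ^ 2 / 2) := by
            gcongr
            rw [div_le_one (by positivity)]
            exact one_le_pow₀ hL1
        _ = δ * t ^ 2 / 2 := one_mul _
    have h7 : C * t ^ 6 ≤ δ * t ^ 2 / 2 := by
      have h8 : C * t ≤ δ / 2 := (mul_le_mul_of_nonneg_left hts hC).trans hs
      have h9 : t ^ 3 ≤ 1 := pow_le_one₀ ht.le ht1
      calc C * t ^ 6 = (C * t) * t ^ 3 * t ^ 2 := by ring
        _ ≤ (δ / 2) * 1 * t ^ 2 := by gcongr
        _ = δ * t ^ 2 / 2 := by ring
    linarith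
  · have hM0 : 0 ≤ M := by
      have : 0 ≤ 2 * C * t := by positivity
      linarith
    have h6 : 1 / (2 * L ^ 6) * A ≤ M * t ^ 5 / 2 := by
      calc 1 / (2 * L ^ 6) * A ≤ 1 / (2 * L ^ 6) * (M * (L * t) ^ 5) := by gcongr
        _ = (1 / L) * (M * t ^ 5 / 2) := by field_simp
        _ ≤ 1 * (M * t ^ 5 / 2) := by
            gcongr
            rw [div_le_one (by positivity)]
            exact hL1
        _ = M * t ^ 5 / 2 := one_mul _
    have h7 : C * t ^ 6 ≤ M * t ^ 5 / 2 := by
      calc C * t ^ 6 = (2 * C * t) * t ^ 5 / 2 := by ring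
        _ ≤ M * t ^ 5 / 2 := by gcongr
    linarith

variable {E : Type*} [NormedAddCommGroup E] [NormedSpace ℝ E] [FiniteDimensional ℝ E]
  [MeasurableSpace E] [BorelSpace E]

omit [NormedSpace ℝ E] [FiniteDimensional ℝ E] [BorelSpace E] in
/-- Decay of the ball masses along a geometric sequence of radii. -/
theorem decay (μ : Measure E) [IsLocallyFiniteMeasure μ] {C L : ℝ} (hC : 0 ≤ C) (hL : 1 < L)
    {x : E} {t0 : ℝ} (ht0 : 0 < t0) (hts : t0 ≤ s1 C L)
    (H : ∀ t, 0 < t → L * t ≤ t0 → μ.real (closedBall x t) ≤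
      C * (t⁻¹ ^ 2 * μ.real (closedBall x (L * t)) ^ 2 + t * μ.real (closedBall x (L * t)) + t ^ 6))
    (h0 : μ.real (closedBall x t0) ≤ del C L * t0 ^ 2) (k : ℕ) :
    μ.real (closedBall x (t0 / L ^ k)) ≤ del C L * (t0 / L ^ k) ^ 2 ∧
    μ.real (closedBall x (t0 / L ^ k)) ≤ (del C L / t0 ^ 3 + 2 * C * t0) * (t0 / L ^ k) ^ 5 := by
  have hL0 : 0 < L := by linarith
  have hd := del_pos hC hL
  induction k with
  | zero =>
    simp only [pow_zero, div_one]
    refine ⟨h0, h0.trans ?_⟩
    have : del C L * t0 ^ 2 = del C L / t0 ^ 3 * t0 ^ 5 := by field_simp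
    rw [this]
    have : 0 ≤ 2 * C * t0 := by positivity
    gcongr
    linarith
  | succ k ih =>
    have hLk : L * (t0 / L ^ (k + 1)) = t0 / L ^ k := by
      rw [pow_succ]
      field_simp
    have hle : t0 / L ^ k ≤ t0 := div_le_self ht0.le (one_le_pow₀ hL.le)
    have hle' : t0 / L ^ (k + 1) ≤ t0 := div_le_self ht0.le (one_le_pow₀ hL.le)
    have hpos : 0 < t0 / L ^ (k + 1) := by positivity
    refine step hC hL hpos (hle'.trans hts) (A := μ.real (closedBall x (t0 / L ^ k)))
      measureReal_nonneg ?_ ?_ ?_ ?_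
    · have := H _ hpos (by rw [hLk]; exact hle)
      rwa [hLk] at this
    · rw [hLk]; exact ih.1
    · rw [hLk]; exact ih.2
    · have h1 : 0 ≤ del C L / t0 ^ 3 := by positivity
      have h2 : 2 * C * (t0 / L ^ (k + 1)) ≤ 2 * C * t0 := by gcongr
      linarith

/-- Fubini: the average of the ball masses. -/
theorem fub (μ : Measure E) [IsLocallyFiniteMeasure μ] (ν : Measure E) [ν.IsAddHaarMeasure]
    (x0 : E) (R r : ℝ) :
    μ (ball x0 (R - r)) * ν (closedBall 0 r) ≤
      ∫⁻ x in closedBall x0 R, μ (closedBall x r) ∂ν := by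
  have : ProperSpace E := FiniteDimensional.proper ℝ E
  set S : Set (E × E) := {p | dist p.1 p.2 ≤ r} with hS
  have hSm : MeasurableSet S := (isClosed_le continuous_dist continuous_const).measurableSet
  have e1 : ((ν.restrict (closedBall x0 R)).prod μ) S =
      ∫⁻ x in closedBall x0 R, μ (closedBall x r) ∂ν := by
    rw [Measure.prod_apply hSm]
    refine lintegral_congr fun x => ?_
    congr 1
    ext y
    simp [hS, mem_closedBall, dist_comm]
  rw [← e1, Measure.prod_apply_symm hSm]
  calc μ (ball x0 (R - r)) * ν (closedBall 0 r)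
      = ∫⁻ _ in ball x0 (R - r), ν (closedBall 0 r) ∂μ := by
        rw [setLIntegral_const, mul_comm]
    _ ≤ ∫⁻ y in ball x0 (R - r), (ν.restrict (closedBall x0 R)) ((fun x => (x, y)) ⁻¹' S) ∂μ := by
        refine setLIntegral_mono' measurableSet_ball fun y hy => ?_
        have hpre : (fun x => (x, y)) ⁻¹' S = closedBall y r := by
          ext x
          simp [hS, mem_closedBall]
        rw [hpre, Measure.restrict_apply measurableSet_closedBall]
        have hsub : closedBall y r ⊆ closedBall x0 R := by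
          refine closedBall_subset_closedBall' ?_
          rw [mem_ball] at hy
          linarith
        rw [inter_eq_left.2 hsub]
        exact (Measure.addHaar_closedBall_center ν y r).ge
    _ ≤ ∫⁻ y, (ν.restrict (closedBall x0 R)) ((fun x => (x, y)) ⁻¹' S) ∂μ :=
        setLIntegral_le_lintegral _ _

/-- **Clearing lemma.** In dimension at most four the quadratic inequality on all small balls
centred in `closedBall x0 (s/2)` and smallness of the quadratic density at scale `s` give
`μ = 0` on `ball x0 (s/2)`. The constants depend on `C`, `L` only. -/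
theorem clear (μ : Measure E) [IsLocallyFiniteMeasure μ] (hd : finrank ℝ E ≤ 4)
    {C L : ℝ} (hC : 0 ≤ C) (hL : 1 < L) {x0 : E} {s : ℝ} (hs : 0 < s) (hss : s ≤ s1 C L)
    (H : ∀ x ∈ closedBall x0 (s / 2), ∀ t, 0 < t → L * t ≤ s / 2 →
      μ.real (closedBall x t) ≤ C * (t⁻¹ ^ 2 * μ.real (closedBall x (L * t)) ^ 2 +
        t * μ.real (closedBall x (L * t)) + t ^ 6))
    (h0 : μ.real (closedBall x0 s) ≤ eps0 C L * s ^ 2) :
    μ (ball x0 (s / 2)) = 0 := by
  have : ProperSpace E := FiniteDimensional.proper ℝ E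
  have hL0 : 0 < L := by linarith
  have hδ := del_pos hC hL
  set M : ℝ := del C L / (s / 2) ^ 3 + 2 * C * (s / 2) with hMdef
  have hM0 : 0 ≤ M := by positivity
  set ν : Measure E := Measure.addHaar with hν
  -- decay at all points of the half ball
  have hdec : ∀ x ∈ closedBall x0 (s / 2), ∀ k : ℕ,
      μ.real (closedBall x (s / 2 / L ^ k)) ≤ M * (s / 2 / L ^ k) ^ 5 := by
    intro x hx k
    refine (decay μ hC hL (half_pos hs) (by linarith) (H x hx) ?_ k).2
    calc μ.real (closedBall x (s / 2)) ≤ μ.real (closedBall x0 s) := by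
          refine measureReal_mono (closedBall_subset_closedBall' ?_)
            (isCompact_closedBall _ _).measure_lt_top.ne
          rw [mem_closedBall] at hx
          linarith
      _ ≤ eps0 C L * s ^ 2 := h0
      _ = del C L * (s / 2) ^ 2 := by unfold eps0; ring
  -- radii
  set r : ℕ → ℝ := fun k => s / 2 / L ^ k with hr
  have hrpos : ∀ k, 0 < r k := fun k => by simp only [hr]; positivity
  have hrle : ∀ k, r k ≤ 1 := fun k => by
    have h1 : r k ≤ s / 2 := div_le_self (by positivity) (one_le_pow₀ hL.le)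
    have h2 : s ≤ 1 := hss.trans (min_le_left _ _)
    linarith
  have hrlim : Tendsto r atTop (𝓝 0) := by
    have : Tendsto (fun k : ℕ => L ^ k) atTop atTop := tendsto_pow_atTop_atTop_of_one_lt hL
    exact this.const_div_atTop _
  have hanti : Antitone r := by
    intro a b hab
    simp only [hr]
    gcongr
    exact hL.le
  -- main inequality
  have hkey : ∀ k, μ (ball x0 (s / 2 - r k)) ≤
      ENNReal.ofReal (M * r k) * ν (closedBall x0 (s / 2)) / ν (ball 0 1) := by
    intro k
    have h1 := fub μ ν x0 (s / 2) (r k)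
    have h2 : ∫⁻ x in closedBall x0 (s / 2), μ (closedBall x (r k)) ∂ν ≤
        ENNReal.ofReal (M * r k ^ 5) * ν (closedBall x0 (s / 2)) := by
      rw [← setLIntegral_const]
      refine setLIntegral_mono' measurableSet_closedBall fun x hx => ?_
      have h3 := hdec x hx k
      rw [← ofReal_measureReal (isCompact_closedBall _ _).measure_lt_top.ne]
      exact ENNReal.ofReal_le_ofReal h3
    have h3 : ν (closedBall (0 : E) (r k)) = ENNReal.ofReal (r k ^ finrank ℝ E) * ν (ball 0 1) :=
      Measure.addHaar_closedBall ν 0 (hrpos k).le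
    have h4 : ENNReal.ofReal (r k ^ 4) ≤ ENNReal.ofReal (r k ^ finrank ℝ E) :=
      ENNReal.ofReal_le_ofReal (pow_le_pow_of_le_one (hrpos k).le (hrle k) hd)
    have h5 : μ (ball x0 (s / 2 - r k)) * (ENNReal.ofReal (r k ^ 4) * ν (ball 0 1)) ≤
        ENNReal.ofReal (M * r k ^ 5) * ν (closedBall x0 (s / 2)) := by
      refine le_trans ?_ (h1.trans h2)
      rw [h3]
      gcongr
    have hb0 : ν (ball (0 : E) 1) ≠ 0 := (measure_ball_pos ν _ one_pos).ne'
    have hbt : ν (ball (0 : E) 1) ≠ ⊤ := measure_ball_lt_top.ne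
    have h6 : ENNReal.ofReal (M * r k ^ 5) = ENNReal.ofReal (r k ^ 4) * ENNReal.ofReal (M * r k) := by
      rw [← ENNReal.ofReal_mul (by have := hrpos k; positivity)]
      congr 1
      ring
    have h7 : ENNReal.ofReal (r k ^ 4) ≠ 0 := by
      have := hrpos k
      simp only [ne_eq, ENNReal.ofReal_eq_zero, not_le]
      positivity
    rw [ENNReal.le_div_iff_mul_le (Or.inl hb0) (Or.inl hbt)]
    rw [h6] at h5
    have h8 : ENNReal.ofReal (r k ^ 4) * (μ (ball x0 (s / 2 - r k)) * ν (ball 0 1)) ≤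
        ENNReal.ofReal (r k ^ 4) * (ENNReal.ofReal (M * r k) * ν (closedBall x0 (s / 2))) := by
      calc _ = μ (ball x0 (s / 2 - r k)) * (ENNReal.ofReal (r k ^ 4) * ν (ball 0 1)) := by ring
        _ ≤ _ := h5
        _ = _ := by ring
    exact (ENNReal.mul_le_mul_iff_right h7 ENNReal.ofReal_ne_top).1 h8
  -- each smaller ball is null
  have hnull : ∀ j, μ (ball x0 (s / 2 - r j)) = 0 := by
    intro j
    have hlim : Tendsto (fun k => ENNReal.ofReal (M * r k) * ν (closedBall x0 (s / 2)) /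
        ν (ball 0 1)) atTop (𝓝 0) := by
      have h1 : Tendsto (fun k => ENNReal.ofReal (M * r k)) atTop (𝓝 0) := by
        have : Tendsto (fun k => M * r k) atTop (𝓝 (M * 0)) := hrlim.const_mul M
        rw [mul_zero] at this
        simpa using ENNReal.tendsto_ofReal this
      have hc : ν (closedBall x0 (s / 2)) / ν (ball (0 : E) 1) ≠ ⊤ :=
        ENNReal.div_ne_top (isCompact_closedBall _ _).measure_lt_top.ne
          (measure_ball_pos ν _ one_pos).ne'
      have h2 := ENNReal.Tendsto.mul_const h1 (Or.inr hc)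
      simpa [mul_div_assoc] using h2
    refine le_antisymm (ge_of_tendsto hlim ?_) bot_le
    filter_upwards [eventually_ge_atTop j] with k hk
    refine le_trans (measure_mono (ball_subset_ball ?_)) (hkey k)
    have := hanti hk
    linarith
  have hU : ball x0 (s / 2) = ⋃ j, ball x0 (s / 2 - r j) := by
    ext y
    simp only [mem_ball, mem_iUnion]
    constructor
    · intro hy
      have : ∀ᶠ k in atTop, r k < s / 2 - dist y x0 :=
        hrlim.eventually (gt_mem_nhds (by linarith))
      obtain ⟨k, hk⟩ := this.exists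
      exact ⟨k, by linarith⟩
    · rintro ⟨k, hk⟩
      have := hrpos k
      linarith
  rw [hU]
  exact measure_iUnion_null hnull

/-- **Lower density at every point of the support.** -/
theorem dens (μ : Measure E) [IsLocallyFiniteMeasure μ] (hd : finrank ℝ E ≤ 4)
    {C L : ℝ} (hC : 0 ≤ C) (hL : 1 < L) {x0 : E} {s : ℝ} (hs : 0 < s) (hss : s ≤ s1 C L)
    (H : ∀ x ∈ closedBall x0 (s / 2), ∀ t, 0 < t → L * t ≤ s / 2 →
      μ.real (closedBall x t) ≤ C * (t⁻¹ ^ 2 * μ.real (closedBall x (L * t)) ^ 2 +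
        t * μ.real (closedBall x (L * t)) + t ^ 6))
    (hx : ∀ ρ > 0, 0 < μ (ball x0 ρ)) :
    eps0 C L * s ^ 2 < μ.real (closedBall x0 s) := by
  by_contra hcon
  have := clear μ hd hC hL hs hss H (not_lt.1 hcon)
  exact (hx (s / 2) (half_pos hs)).ne' this

end Crest.Agent.R235.Dens4_181
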