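import Mathlib

/-!
Row 235 (S0364), PACKAGE SWC-AN (leader helper34), part 1: EXACT STATEMENTS OF THE LOCAL LEAVES
(integer slices => quadratic box inequality).  No proofs here.

`α : V → ℂ`, `A : V → V →L[ℝ] ℝ` (connection `d - i A`), `eta = dα - i A α`, `jf = Im (conj α · eta)`,
`psi = (1 - |α|²) dA + 2 Im (conj eta ∧ eta) = d (A + jf)`.
-/

set_option autoImplicit false

open Set MeasureTheory Filter Topology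
open scoped ContDiff

namespace Crest.Agent.R235.SwcDefs_34

noncomputable section

section fields

variable {V : Type} [NormedAddCommGroup V] [NormedSpace ℝ V]

/-- the wedge product of covectors: `(a ∧ b) u v = a u * b v - b u * a v`. -/
def wdg (a b : V →L[ℝ] ℝ) : V →L[ℝ] V →L[ℝ] ℝ := a.smulRight b - b.smulRight a

/-- the exterior derivative of a 1-form: `(dB)(u,v) = (D_u B) v - (D_v B) u`. -/
def dd (B : V → V →L[ℝ] ℝ) (p : V) : V →L[ℝ] V →L[ℝ] ℝ := fderiv ℝ B p - (fderiv ℝ B p).flip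

/-- the covariant derivative `dα - i A α`. -/
def eta (α : V → ℂ) (A : V → V →L[ℝ] ℝ) (p : V) : V →L[ℝ] ℂ :=
  fderiv ℝ α p - (A p).smulRight (Complex.I * α p)

/-- the current `j = Im (conj α · eta)`. -/
def jf (α : V → ℂ) (A : V → V →L[ℝ] ℝ) (p : V) : V →L[ℝ] ℝ :=
  (α p).re • (Complex.imCLM.comp (eta α A p)) - (α p).im • (Complex.reCLM.comp (eta α A p))

/-- `psi = (1 - |α|²) dA + 2 Im (conj eta ∧ eta)`. -/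
def psi (α : V → ℂ) (A : V → V →L[ℝ] ℝ) (p : V) : V →L[ℝ] V →L[ℝ] ℝ :=
  (1 - ‖α p‖ ^ 2) • dd A p +
    (2 : ℝ) • wdg (Complex.reCLM.comp (eta α A p)) (Complex.imCLM.comp (eta α A p))

/-- the energy density. -/
def en (r : ℝ) (α : V → ℂ) (A : V → V →L[ℝ] ℝ) (p : V) : ℝ :=
  ‖eta α A p‖ ^ 2 + r * (1 - ‖α p‖ ^ 2) ^ 2

end fields

/-- **PSID**: `psi = d (A + jf)`. -/
def PSID : Prop := ∀ (V : Type) [NormedAddCommGroup V] [NormedSpace ℝ V] (α : V → ℂ)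
  (A : V → V →L[ℝ] ℝ), ContDiff ℝ ∞ α → ContDiff ℝ ∞ A →
  ContDiff ℝ ∞ (fun p => A p + jf α A p) ∧ ∀ p, psi α A p = dd (fun p => A p + jf α A p) p

/-- the boundary integral of a 1-form over the (positively oriented) boundary of
`[a1,b1] × [a2,b2]`. -/
def bdI (B : ℝ × ℝ → ℝ × ℝ →L[ℝ] ℝ) (a1 b1 a2 b2 : ℝ) : ℝ :=
  (∫ x in a1..b1, (B (x, a2) (1, 0) - B (x, b2) (1, 0))) +
    ∫ y in a2..b2, (B (b1, y) (0, 1) - B (a1, y) (0, 1))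

/-- the boundary integral of a function over the boundary of `[a1,b1] × [a2,b2]`. -/
def bdF (f : ℝ × ℝ → ℝ) (a1 b1 a2 b2 : ℝ) : ℝ :=
  (∫ x in a1..b1, (f (x, a2) + f (x, b2))) + ∫ y in a2..b2, (f (b1, y) + f (a1, y))

/-- **GREEN**: Green's formula in a rectangle. -/
def GREEN : Prop := ∀ (B : ℝ × ℝ → ℝ × ℝ →L[ℝ] ℝ), ContDiff ℝ ∞ B → ∀ a1 b1 a2 b2 : ℝ,
  a1 ≤ b1 → a2 ≤ b2 →
  ∫ x in a1..b1, ∫ y in a2..b2, dd B (x, y) (1, 0) (0, 1) = bdI B a1 b1 a2 b2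

/-- **WIND**: the winding number. -/
def WIND : Prop := ∀ (α : ℝ × ℝ → ℂ), ContDiff ℝ ∞ α → ∀ a1 b1 a2 b2 : ℝ,
  a1 ≤ b1 → a2 ≤ b2 → (∀ x ∈ Icc a1 b1, α (x, a2) ≠ 0 ∧ α (x, b2) ≠ 0) →
  (∀ y ∈ Icc a2 b2, α (a1, y) ≠ 0 ∧ α (b1, y) ≠ 0) →
  ∃ N : ℤ, bdI (fun p => (‖α p‖ ^ 2)⁻¹ • ((α p).re • (Complex.imCLM.comp (fderiv ℝ α p)) -
    (α p).im • (Complex.reCLM.comp (fderiv ℝ α p)))) a1 b1 a2 b2 = 2 * Real.pi * N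

/-- **SLICE**: the flux of `psi` through a rectangle (from PSID, GREEN, WIND). -/
def SLICE : Prop := ∀ (α : ℝ × ℝ → ℂ) (A : ℝ × ℝ → ℝ × ℝ →L[ℝ] ℝ), ContDiff ℝ ∞ α →
  ContDiff ℝ ∞ A → ∀ a1 b1 a2 b2 : ℝ, a1 ≤ b1 → a2 ≤ b2 →
  (∀ x ∈ Icc a1 b1, α (x, a2) ≠ 0 ∧ α (x, b2) ≠ 0) →
  (∀ y ∈ Icc a2 b2, α (a1, y) ≠ 0 ∧ α (b1, y) ≠ 0) →
  ∃ N : ℤ, ∫ x in a1..b1, ∫ y in a2..b2, psi α A (x, y) (1, 0) (0, 1) =
    2 * Real.pi * N - bdI (fun p => ((1 - ‖α p‖ ^ 2) / ‖α p‖ ^ 2) • jf α A p) a1 b1 a2 b2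

/-- **NEARINT**: fluxes are near integers, in the form `|F| ≤ C (F² + E/√r)`.
No sup bound of `α`: use `f = a²/(1+u)²`, `u = |α|²`, `a = 1 - u`: `f ≤ a²`,
`|∂f| = 4|a||∂u|/(1+u)³ ≤ 4|a||eta|` (`|∂u| ≤ 2√u|eta|`), so `f ≤ 3E/√r` on every side; if
`E ≤ √r/75` then `f ≤ 1/25`, `2/3 ≤ u ≤ 3/2`. -/
def NEARINT : Prop := ∃ C : ℝ, 0 < C ∧ ∀ (α : ℝ × ℝ → ℂ) (A : ℝ × ℝ → ℝ × ℝ →L[ℝ] ℝ) (r : ℝ),
  ContDiff ℝ ∞ α → ContDiff ℝ ∞ A → 0 < r → ∀ a1 b1 a2 b2 : ℝ, a1 < b1 → a2 < b2 →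
  1 ≤ r * (b1 - a1) ^ 2 → 1 ≤ r * (b2 - a2) ^ 2 →
  |∫ x in a1..b1, ∫ y in a2..b2, psi α A (x, y) (1, 0) (0, 1)| ≤
    C * ((∫ x in a1..b1, ∫ y in a2..b2, psi α A (x, y) (1, 0) (0, 1)) ^ 2 +
      bdF (en r α A) a1 b1 a2 b2 / √r)

/-- **GNS2**: the plane Gagliardo-Nirenberg-Sobolev inequality. -/
def GNS2 : Prop := ∃ C : ℝ, 0 < C ∧ ∀ g : ℝ × ℝ → ℝ, ContDiff ℝ 1 g → HasCompactSupport g →
  ∫ p, g p ^ 2 ≤ C * (∫ p, ‖fderiv ℝ g p‖) ^ 2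

/-- `ℝ² × ℝ²`. -/
abbrev V4 : Type := (ℝ × ℝ) × (ℝ × ℝ)

/-- first coordinate vector -/
def b0 : V4 := ((1, 0), (0, 0))
/-- second coordinate vector -/
def b1 : V4 := ((0, 1), (0, 0))

/-- the flux of `psi` through `[-ρ1,ρ1] × [-ρ2,ρ2] × {τ}`. -/
def flux (B : V4 → V4 →L[ℝ] V4 →L[ℝ] ℝ) (ρ1 ρ2 : ℝ) (τ : ℝ × ℝ) : ℝ :=
  ∫ x in (-ρ1)..ρ1, ∫ y in (-ρ2)..ρ2, B ((x, y), τ) b0 b1

/-- **GRADF**: the `τ`-gradient of the flux is controlled by the boundary mass. -/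
def GRADF : Prop := ∀ (B : V4 → V4 →L[ℝ] ℝ), ContDiff ℝ ∞ B → ∀ ρ1 ρ2 : ℝ, 0 < ρ1 → 0 < ρ2 →
  ContDiff ℝ 1 (flux (dd B) ρ1 ρ2) ∧ ∀ τ : ℝ × ℝ,
    ‖fderiv ℝ (flux (dd B) ρ1 ρ2) τ‖ ≤
      2 * bdF (fun p => ‖dd B (p, τ)‖) (-ρ1) ρ1 (-ρ2) ρ2

/-- the cut-off: even, smooth, `1` on `[-1,1]`, `0` outside `(-2,2)`. -/
def hh (x : ℝ) : ℝ := Real.smoothTransition (2 - x) * Real.smoothTransition (2 + x)

/-- the test function at scale `s`. -/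
def tf (s : ℝ) (p : V4) : ℝ :=
  (hh (p.1.1 / s) * hh (p.1.2 / s) * hh (p.2.1 / s) * hh (p.2.2 / s)) ^ 2

/-- **BOX**: the quadratic box inequality (from PSID, NEARINT, GNS2, GRADF). -/
def BOX : Prop := ∃ C : ℝ, 0 < C ∧ ∀ (α : V4 → ℂ) (A : V4 → V4 →L[ℝ] ℝ) (r s K : ℝ),
  ContDiff ℝ ∞ α → ContDiff ℝ ∞ A → 0 < r → 0 < s → 1 ≤ K → 1 ≤ r * s ^ 2 →
  |∫ p, tf s p * psi α A p b0 b1| ≤
    C * (K ^ 2 / s ^ 2 * (∫ p in Metric.closedBall (0 : V4) (2 * s), ‖psi α A p‖) ^ 2 +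
      (∫ p in Metric.closedBall (0 : V4) (2 * s), ‖psi α A p‖) / K) +
    C / (s * √r) * ∫ p in Metric.closedBall (0 : V4) (2 * s), en r α A p

/-- **DENS**: a locally finite measure with the box inequality has positive density at every point
of its support (`d`-dimensional space, `d < k`). -/
def DENS : Prop := ∀ (E : Type) [NormedAddCommGroup E] [NormedSpace ℝ E] [FiniteDimensional ℝ E]
  [MeasurableSpace E] [BorelSpace E] (μ : Measure E) [IsLocallyFiniteMeasure μ] (L C : ℝ) (x0 : E)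
  (R : ℝ), 1 ≤ L → 0 < C → 0 < R →
  (∀ K : ℝ, 1 ≤ K → ∃ s0 : ℝ, 0 < s0 ∧ ∀ x ∈ Metric.ball x0 R, ∀ s : ℝ, 0 < s → s ≤ s0 →
    Metric.closedBall x (L * s) ⊆ Metric.ball x0 R →
    μ.real (Metric.closedBall x s) ≤
      C * (K ^ 2 / s ^ 2 * μ.real (Metric.closedBall x (L * s)) ^ 2 +
        μ.real (Metric.closedBall x (L * s)) / K)) →
  ∃ ε s1 : ℝ, 0 < ε ∧ 0 < s1 ∧ ∀ x ∈ Metric.ball x0 (R / 2), x ∈ μ.support → ∀ s : ℝ,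
    0 < s → s ≤ s1 → ε * s ^ 2 ≤ μ.real (Metric.closedBall x s)

end

end Crest.Agent.R235.SwcDefs_34
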