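import Crest.Agent.R235.Dens4_181
import Crest.Agent.R235.SwcDefs_34

/-!
# R235, SWC-AN: leaf L5 (`SwcDefs_34.DENS`)

Iteration of the quadratic box inequality with free parameter `K`, in any dimension `d`.
-/

set_option autoImplicit false

open MeasureTheory Metric Set Filter Topology Module

namespace Crest.Agent.R235.Dens5_181

/-- One step. -/
theorem step {C K L θ δ : ℝ} (hC : 0 < C) (hK : 0 < K) (hL : 0 < L) (hθ : 0 < θ)
    (hKθ : C / K ≤ θ / 2) (hδ : C * K ^ 2 * δ * L ^ 2 ≤ θ / 2) (hθL : θ * L ^ 2 ≤ 1)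
    (hδ0 : 0 < δ) {t A A' : ℝ} (ht : 0 < t) (hA0 : 0 ≤ A)
    (hrec : A' ≤ C * (K ^ 2 / t ^ 2 * A ^ 2 + A / K)) (hA : A ≤ δ * (L * t) ^ 2) :
    A' ≤ δ * t ^ 2 ∧ A' ≤ θ * A := by
  have h1 : C * (K ^ 2 / t ^ 2 * A ^ 2) ≤ θ / 2 * A := by
    have e : C * (K ^ 2 / t ^ 2 * A ^ 2) = (C * K ^ 2 / t ^ 2 * A) * A := by ring
    rw [e]
    refine mul_le_mul_of_nonneg_right ?_ hA0
    calc C * K ^ 2 / t ^ 2 * A ≤ C * K ^ 2 / t ^ 2 * (δ * (L * t) ^ 2) := by gcongr
      _ = C * K ^ 2 * δ * L ^ 2 := by field_simp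
      _ ≤ θ / 2 := hδ
  have h2 : C * (A / K) ≤ θ / 2 * A := by
    have e : C * (A / K) = C / K * A := by ring
    rw [e]
    exact mul_le_mul_of_nonneg_right hKθ hA0
  have h3 : A' ≤ θ * A := by
    have : C * (K ^ 2 / t ^ 2 * A ^ 2 + A / K) = C * (K ^ 2 / t ^ 2 * A ^ 2) + C * (A / K) := by
      ring
    linarith
  refine ⟨h3.trans ?_, h3⟩
  calc θ * A ≤ θ * (δ * (L * t) ^ 2) := by gcongr
    _ = (θ * L ^ 2) * (δ * t ^ 2) := by ring
    _ ≤ 1 * (δ * t ^ 2) := by gcongr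
    _ = δ * t ^ 2 := one_mul _

section

variable {E : Type*} [NormedAddCommGroup E] [MeasurableSpace E]

/-- Decay of the masses along `t0 / L ^ k`. -/
theorem decay (μ : Measure E) {C K L θ δ : ℝ} (hC : 0 < C) (hK : 0 < K) (hL : 1 < L) (hθ : 0 < θ)
    (hKθ : C / K ≤ θ / 2) (hδ : C * K ^ 2 * δ * L ^ 2 ≤ θ / 2) (hθL : θ * L ^ 2 ≤ 1)
    (hδ0 : 0 < δ) {x : E} {t0 : ℝ} (ht0 : 0 < t0)
    (H : ∀ t, 0 < t → L * t ≤ t0 → μ.real (closedBall x t) ≤
      C * (K ^ 2 / t ^ 2 * μ.real (closedBall x (L * t)) ^ 2 + μ.real (closedBall x (L * t)) / K))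
    (h0 : μ.real (closedBall x t0) ≤ δ * t0 ^ 2) (k : ℕ) :
    μ.real (closedBall x (t0 / L ^ k)) ≤ δ * (t0 / L ^ k) ^ 2 ∧
    μ.real (closedBall x (t0 / L ^ k)) ≤ θ ^ k * (δ * t0 ^ 2) := by
  have hL0 : 0 < L := by linarith
  induction k with
  | zero => simpa using h0
  | succ k ih =>
    have hLk : L * (t0 / L ^ (k + 1)) = t0 / L ^ k := by
      rw [pow_succ]
      field_simp
    have hle : t0 / L ^ k ≤ t0 := div_le_self ht0.le (one_le_pow₀ hL.le)
    have hpos : 0 < t0 / L ^ (k + 1) := by positivity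
    have h := step hC hK hL0 hθ hKθ hδ hθL hδ0 hpos
      (A := μ.real (closedBall x (t0 / L ^ k))) (A' := μ.real (closedBall x (t0 / L ^ (k + 1))))
      measureReal_nonneg
      (by have := H _ hpos (by rw [hLk]; exact hle)
          rwa [hLk] at this)
      (by rw [hLk]; exact ih.1)
    refine ⟨h.1, h.2.trans ?_⟩
    calc θ * μ.real (closedBall x (t0 / L ^ k)) ≤ θ * (θ ^ k * (δ * t0 ^ 2)) := by
          gcongr
          exact ih.2
      _ = θ ^ (k + 1) * (δ * t0 ^ 2) := by ring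

end

variable {E : Type*} [NormedAddCommGroup E] [NormedSpace ℝ E] [FiniteDimensional ℝ E]
  [MeasurableSpace E] [BorelSpace E]

/-- Clearing lemma in dimension `d`, `θ = L⁻¹ ^ (d + 2)`. -/
theorem clear (μ : Measure E) [IsLocallyFiniteMeasure μ] {C K L δ : ℝ} (hC : 0 < C) (hK : 0 < K)
    (hL : 1 < L) (hKθ : C / K ≤ L⁻¹ ^ (finrank ℝ E + 2) / 2)
    (hδ : C * K ^ 2 * δ * L ^ 2 ≤ L⁻¹ ^ (finrank ℝ E + 2) / 2) (hδ0 : 0 < δ)
    {x0 : E} {s : ℝ} (hs : 0 < s)
    (H : ∀ x ∈ closedBall x0 (s / 2), ∀ t, 0 < t → L * t ≤ s / 2 →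
      μ.real (closedBall x t) ≤ C * (K ^ 2 / t ^ 2 * μ.real (closedBall x (L * t)) ^ 2 +
        μ.real (closedBall x (L * t)) / K))
    (h0 : μ.real (closedBall x0 s) ≤ δ / 4 * s ^ 2) :
    μ (ball x0 (s / 2)) = 0 := by
  have : ProperSpace E := FiniteDimensional.proper ℝ E
  have hL0 : 0 < L := by linarith
  set d := finrank ℝ E with hd
  set θ : ℝ := L⁻¹ ^ (d + 2) with hθdef
  have hθ : 0 < θ := by positivity
  have hθL : θ * L ^ 2 ≤ 1 := by
    have : θ * L ^ 2 = L⁻¹ ^ d := by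
      rw [hθdef, pow_add, mul_assoc, ← mul_pow, inv_mul_cancel₀ hL0.ne']
      simp
    rw [this]
    exact pow_le_one₀ (by positivity) (inv_le_one_of_one_le₀ hL.le)
  set ν : Measure E := Measure.addHaar with hν
  set M : ℝ := δ * (s / 2) ^ 2 with hM
  have hM0 : 0 ≤ M := by positivity
  have hdec : ∀ x ∈ closedBall x0 (s / 2), ∀ k : ℕ,
      μ.real (closedBall x (s / 2 / L ^ k)) ≤ θ ^ k * M := by
    intro x hx k
    refine (decay μ hC hK hL hθ hKθ hδ hθL hδ0 (half_pos hs) (H x hx) ?_ k).2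
    calc μ.real (closedBall x (s / 2)) ≤ μ.real (closedBall x0 s) := by
          refine measureReal_mono (closedBall_subset_closedBall' ?_)
            (isCompact_closedBall _ _).measure_lt_top.ne
          rw [mem_closedBall] at hx
          linarith
      _ ≤ δ / 4 * s ^ 2 := h0
      _ = δ * (s / 2) ^ 2 := by ring
  set r : ℕ → ℝ := fun k => s / 2 / L ^ k with hr
  have hrpos : ∀ k, 0 < r k := fun k => by simp only [hr]; positivity
  have hrlim : Tendsto r atTop (𝓝 0) := by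
    have : Tendsto (fun k : ℕ => L ^ k) atTop atTop := tendsto_pow_atTop_atTop_of_one_lt hL
    exact this.const_div_atTop _
  have hanti : Antitone r := by
    intro a b hab
    simp only [hr]
    gcongr
    exact hL.le
  have hb0 : ν (ball (0 : E) 1) ≠ 0 := (measure_ball_pos ν _ one_pos).ne'
  have hbt : ν (ball (0 : E) 1) ≠ ⊤ := measure_ball_lt_top.ne
  have hkey : ∀ k, μ (ball x0 (s / 2 - r k)) ≤
      ENNReal.ofReal (L⁻¹ ^ k * (M / (s / 2) ^ d)) * ν (closedBall x0 (s / 2)) / ν (ball 0 1) := by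
    intro k
    have h1 := Dens4_181.fub μ ν x0 (s / 2) (r k)
    have h2 : ∫⁻ x in closedBall x0 (s / 2), μ (closedBall x (r k)) ∂ν ≤
        ENNReal.ofReal (θ ^ k * M) * ν (closedBall x0 (s / 2)) := by
      rw [← setLIntegral_const]
      refine setLIntegral_mono' measurableSet_closedBall fun x hx => ?_
      rw [← ofReal_measureReal (isCompact_closedBall _ _).measure_lt_top.ne]
      exact ENNReal.ofReal_le_ofReal (hdec x hx k)
    have h3 : ν (closedBall (0 : E) (r k)) = ENNReal.ofReal (r k ^ d) * ν (ball 0 1) :=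
      Measure.addHaar_closedBall ν 0 (hrpos k).le
    have h5 : μ (ball x0 (s / 2 - r k)) * (ENNReal.ofReal (r k ^ d) * ν (ball 0 1)) ≤
        ENNReal.ofReal (θ ^ k * M) * ν (closedBall x0 (s / 2)) := by
      rw [← h3]
      exact h1.trans h2
    have h7 : ENNReal.ofReal (r k ^ d) ≠ 0 := by
      have := hrpos k
      simp only [ne_eq, ENNReal.ofReal_eq_zero, not_le]
      positivity
    have h6 : ENNReal.ofReal (θ ^ k * M) ≤
        ENNReal.ofReal (r k ^ d) * ENNReal.ofReal (L⁻¹ ^ k * (M / (s / 2) ^ d)) := by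
      rw [← ENNReal.ofReal_mul (by have := hrpos k; positivity)]
      refine ENNReal.ofReal_le_ofReal ?_
      have e : r k ^ d * (L⁻¹ ^ k * (M / (s / 2) ^ d)) = (L⁻¹ ^ k) ^ d * L⁻¹ ^ k * M := by
        have e1 : r k = (s / 2) * L⁻¹ ^ k := by
          simp only [hr]
          rw [inv_pow, div_eq_mul_inv]
        rw [e1, mul_pow]
        have : (s / 2) ^ d ≠ 0 := by positivity
        field_simp
      rw [e]
      have e2 : θ ^ k = (L⁻¹ ^ k) ^ d * L⁻¹ ^ k * L⁻¹ ^ k := by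
        rw [hθdef, ← pow_mul, ← pow_mul, ← pow_add, ← pow_add]
        congr 1
        ring
      rw [e2]
      have h8 : L⁻¹ ^ k ≤ 1 := pow_le_one₀ (by positivity) (inv_le_one_of_one_le₀ hL.le)
      have h9 : 0 ≤ (L⁻¹ ^ k) ^ d * L⁻¹ ^ k := by positivity
      calc (L⁻¹ ^ k) ^ d * L⁻¹ ^ k * L⁻¹ ^ k * M ≤ (L⁻¹ ^ k) ^ d * L⁻¹ ^ k * 1 * M := by gcongr
        _ = (L⁻¹ ^ k) ^ d * L⁻¹ ^ k * M := by ring
    rw [ENNReal.le_div_iff_mul_le (Or.inl hb0) (Or.inl hbt)]
    have h8 : ENNReal.ofReal (r k ^ d) * (μ (ball x0 (s / 2 - r k)) * ν (ball 0 1)) ≤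
        ENNReal.ofReal (r k ^ d) *
          (ENNReal.ofReal (L⁻¹ ^ k * (M / (s / 2) ^ d)) * ν (closedBall x0 (s / 2))) := by
      calc _ = μ (ball x0 (s / 2 - r k)) * (ENNReal.ofReal (r k ^ d) * ν (ball 0 1)) := by ring
        _ ≤ _ := h5
        _ ≤ (ENNReal.ofReal (r k ^ d) * ENNReal.ofReal (L⁻¹ ^ k * (M / (s / 2) ^ d))) *
            ν (closedBall x0 (s / 2)) := by gcongr
        _ = _ := by ring
    exact (ENNReal.mul_le_mul_iff_right h7 ENNReal.ofReal_ne_top).1 h8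
  have hnull : ∀ j, μ (ball x0 (s / 2 - r j)) = 0 := by
    intro j
    have hlim : Tendsto (fun k : ℕ => ENNReal.ofReal (L⁻¹ ^ k * (M / (s / 2) ^ d)) *
        ν (closedBall x0 (s / 2)) / ν (ball 0 1)) atTop (𝓝 0) := by
      have h1 : Tendsto (fun k : ℕ => ENNReal.ofReal (L⁻¹ ^ k * (M / (s / 2) ^ d)))
          atTop (𝓝 0) := by
        have h0 : Tendsto (fun k : ℕ => L⁻¹ ^ k) atTop (𝓝 0) :=
          tendsto_pow_atTop_nhds_zero_of_lt_one (by positivity) (inv_lt_one_of_one_lt₀ hL)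
        have := h0.mul_const (M / (s / 2) ^ d)
        rw [zero_mul] at this
        simpa using ENNReal.tendsto_ofReal this
      have hc : ν (closedBall x0 (s / 2)) / ν (ball (0 : E) 1) ≠ ⊤ :=
        ENNReal.div_ne_top (isCompact_closedBall _ _).measure_lt_top.ne hb0
      have h2 := ENNReal.Tendsto.mul_const h1 (Or.inr hc)
      simpa [mul_div_assoc] using h2
    refine le_antisymm (ge_of_tendsto hlim ?_) bot_le
    filter_upwards [eventually_ge_atTop j] with k hk
    refine le_trans (measure_mono (ball_subset_ball ?_)) (hkey k)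
    have := hanti hk
    linarith
  have hU : ball x0 (s / 2) = ⋃ j, ball x0 (s / 2 - r j) := by
    ext y
    simp only [mem_ball, mem_iUnion]
    constructor
    · intro hy
      have : ∀ᶠ k in atTop, r k < s / 2 - dist y x0 :=
        hrlim.eventually (gt_mem_nhds (by linarith))
      obtain ⟨k, hk⟩ := this.exists
      exact ⟨k, by linarith⟩
    · rintro ⟨k, hk⟩
      have := hrpos k
      linarith
  rw [hU]
  exact measure_iUnion_null hnull

/-- **L5.** -/
theorem dens : SwcDefs_34.DENS := by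
  intro E _ _ _ _ _ μ _ L C x0 R hL hC hR H
  have : ProperSpace E := FiniteDimensional.proper ℝ E
  set L' : ℝ := L + 1 with hL'
  have hL1 : 1 < L' := by linarith
  have hL0 : 0 < L' := by linarith
  set θ : ℝ := L'⁻¹ ^ (finrank ℝ E + 2) with hθdef
  have hθ : 0 < θ := by positivity
  set K : ℝ := max 1 (2 * C / θ) with hK
  have hK1 : 1 ≤ K := le_max_left _ _
  have hK0 : 0 < K := by linarith
  have hKθ : C / K ≤ θ / 2 := by
    have : 2 * C / θ ≤ K := le_max_right _ _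
    rw [div_le_iff₀ hθ] at this
    rw [div_le_iff₀ hK0]
    linarith
  set δ : ℝ := θ / (2 * C * K ^ 2 * L' ^ 2) with hδdef
  have hδ0 : 0 < δ := by positivity
  have hδ : C * K ^ 2 * δ * L' ^ 2 ≤ θ / 2 := by
    rw [hδdef]
    apply le_of_eq
    field_simp
  obtain ⟨s0, hs0, h0⟩ := H K hK1
  refine ⟨δ / 4, min s0 (R / 4), by positivity, by positivity, ?_⟩
  intro x hx hsupp s hs hss
  by_contra hcon
  push Not at hcon
  have hs1 : s ≤ s0 := hss.trans (min_le_left _ _)
  have hs2 : s ≤ R / 4 := hss.trans (min_le_right _ _)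
  rw [mem_ball] at hx
  have hnull := clear μ hC hK0 hL1 hKθ hδ hδ0 (x0 := x) hs ?_ hcon.le
  · exact absurd hnull ((Measure.mem_support_iff_forall x).1 hsupp _ (ball_mem_nhds x (half_pos hs))).ne'
  · intro y hy t ht hLt
    rw [mem_closedBall] at hy
    have hts : t ≤ L' * t := by nlinarith
    have hsub : closedBall y (L' * t) ⊆ ball x0 R := by
      intro z hz
      rw [mem_closedBall] at hz
      rw [mem_ball]
      have := dist_triangle z y x0
      have := dist_triangle y x x0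
      linarith
    have hsubL : closedBall y (L * t) ⊆ closedBall y (L' * t) := by
      apply closedBall_subset_closedBall
      have : L ≤ L' := by linarith
      gcongr
    have hy0 : y ∈ ball x0 R := hsub (mem_closedBall_self (by positivity))
    have h1 := h0 y hy0 t ht (by linarith) (hsubL.trans hsub)
    have h2 : μ.real (closedBall y (L * t)) ≤ μ.real (closedBall y (L' * t)) :=
      measureReal_mono hsubL (isCompact_closedBall _ _).measure_lt_top.ne
    refine h1.trans ?_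
    have h3 : 0 ≤ μ.real (closedBall y (L * t)) := measureReal_nonneg
    gcongr

end Crest.Agent.R235.Dens5_181
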