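import Mathlib
import Crest.Agent.R235.SwcDefs_34
import Crest.Agent.R235.Dens4_181

/-!
Row 235 (S0364), SWC-AN leaf L5 (helper253): the exact Prop `SwcDefs_34.DENS`.
-/

set_option autoImplicit false

open MeasureTheory Metric Set Filter Topology Module

namespace Crest.Agent.R235.Dens_253

open Crest.Agent.R235.SwcDefs_34

variable {E : Type} [NormedAddCommGroup E] [NormedSpace ℝ E] [FiniteDimensional ℝ E]
  [MeasurableSpace E] [BorelSpace E]

/-- decay of ball masses at one centre. -/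
theorem decay {L C K θ ε s : ℝ} (m : ℝ → ℝ) (hm : ∀ t, 0 ≤ m t) (hL : 1 ≤ L) (hC : 0 < C)
    (hK : 0 < K) (hs : 0 < s) (hε : 0 ≤ ε) (hθ : 0 < θ) (hθL : θ * L ^ 2 ≤ 1)
    (hK1 : C / K ≤ θ / 2) (hε1 : 4 * C * K ^ 2 * L ^ 2 * ε ≤ θ / 2)
    (H : ∀ k : ℕ, m (s / 2 / L ^ (k + 1)) ≤ C * (K ^ 2 / (s / 2 / L ^ (k + 1)) ^ 2 *
      m (s / 2 / L ^ k) ^ 2 + m (s / 2 / L ^ k) / K))
    (h0 : m (s / 2) ≤ ε * s ^ 2) (k : ℕ) : m (s / 2 / L ^ k) ≤ θ ^ k * (ε * s ^ 2) := by
  have hL0 : 0 < L := by linarith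
  induction k with
  | zero => simpa using h0
  | succ k ih =>
    have h1 := H k
    set a := m (s / 2 / L ^ k) with ha
    have ha0 : 0 ≤ a := hm _
    have h2 : K ^ 2 / (s / 2 / L ^ (k + 1)) ^ 2 * a ≤ 4 * K ^ 2 * L ^ 2 * ε := by
      have e1 : K ^ 2 / (s / 2 / L ^ (k + 1)) ^ 2 * a
          ≤ K ^ 2 / (s / 2 / L ^ (k + 1)) ^ 2 * (θ ^ k * (ε * s ^ 2)) := by
        gcongr
      have e2 : K ^ 2 / (s / 2 / L ^ (k + 1)) ^ 2 * (θ ^ k * (ε * s ^ 2))
          = 4 * K ^ 2 * L ^ 2 * ε * (θ * L ^ 2) ^ k := by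
        rw [mul_pow, ← pow_mul, pow_succ]
        field_simp
        ring
      have e3 : (θ * L ^ 2) ^ k ≤ 1 := pow_le_one₀ (by positivity) hθL
      rw [e2] at e1
      refine e1.trans ?_
      have : 0 ≤ 4 * K ^ 2 * L ^ 2 * ε := by positivity
      nlinarith
    have h3 : m (s / 2 / L ^ (k + 1)) ≤ θ * a := by
      refine h1.trans ?_
      have e : C * (K ^ 2 / (s / 2 / L ^ (k + 1)) ^ 2 * a ^ 2 + a / K)
          = (C * (K ^ 2 / (s / 2 / L ^ (k + 1)) ^ 2 * a) + C / K) * a := by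
        field_simp
      rw [e]
      refine mul_le_mul_of_nonneg_right ?_ ha0
      have : C * (K ^ 2 / (s / 2 / L ^ (k + 1)) ^ 2 * a) ≤ C * (4 * K ^ 2 * L ^ 2 * ε) := by
        gcongr
      linarith
    calc m (s / 2 / L ^ (k + 1)) ≤ θ * a := h3
      _ ≤ θ * (θ ^ k * (ε * s ^ 2)) := by gcongr
      _ = θ ^ (k + 1) * (ε * s ^ 2) := by ring

/-- uniform decay faster than `L^{-d}` clears the half ball. -/
theorem clear (μ : Measure E) [IsLocallyFiniteMeasure μ] {L θ B s : ℝ} {x0 : E} (hL : 2 ≤ L)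
    (hs : 0 < s) (hB : 0 ≤ B) (hθ : 0 < θ) (hθL : θ * L ^ finrank ℝ E ≤ 1 / 2)
    (H : ∀ x ∈ closedBall x0 (s / 2), ∀ k : ℕ, μ.real (closedBall x (s / 2 / L ^ k)) ≤ θ ^ k * B) :
    μ (ball x0 (s / 4)) = 0 := by
  have : ProperSpace E := FiniteDimensional.proper ℝ E
  have hL0 : 0 < L := by linarith
  set ν : Measure E := Measure.addHaar with hν
  set r : ℕ → ℝ := fun k => s / 2 / L ^ k with hr
  have hrpos : ∀ k, 0 < r k := fun k => by simp only [hr]; positivity
  set d := finrank ℝ E with hd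
  have hb0 : ν (ball (0 : E) 1) ≠ 0 := (measure_ball_pos ν _ one_pos).ne'
  have hbt : ν (ball (0 : E) 1) ≠ ⊤ := measure_ball_lt_top.ne
  have hrk : ∀ k, 1 ≤ k → r k ≤ s / 4 := by
    intro k hk
    simp only [hr]
    rw [div_le_iff₀ (by positivity)]
    have : L ≤ L ^ k := le_self_pow₀ (by linarith) (by omega)
    nlinarith
  have hkey : ∀ k, 1 ≤ k → μ (ball x0 (s / 4)) ≤ ENNReal.ofReal (B * (1 / 2) ^ k) := by
    intro k hk
    have h1 := Dens4_181.fub μ ν x0 (s / 2) (r k)
    have h2 : ∫⁻ x in closedBall x0 (s / 2), μ (closedBall x (r k)) ∂ν ≤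
        ENNReal.ofReal (θ ^ k * B) * ν (closedBall x0 (s / 2)) := by
      rw [← setLIntegral_const]
      refine setLIntegral_mono' measurableSet_closedBall fun x hx => ?_
      have h3 := H x hx k
      rw [← ofReal_measureReal (isCompact_closedBall _ _).measure_lt_top.ne]
      exact ENNReal.ofReal_le_ofReal h3
    have h3 : ν (closedBall (0 : E) (r k)) = ENNReal.ofReal (r k ^ d) * ν (ball 0 1) :=
      Measure.addHaar_closedBall ν 0 (hrpos k).le
    have h4 : ν (closedBall x0 (s / 2)) = ENNReal.ofReal ((s / 2) ^ d) * ν (ball 0 1) :=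
      Measure.addHaar_closedBall ν x0 (by positivity)
    have h5 : μ (ball x0 (s / 4)) * (ENNReal.ofReal (r k ^ d) * ν (ball 0 1)) ≤
        ENNReal.ofReal (θ ^ k * B) * (ENNReal.ofReal ((s / 2) ^ d) * ν (ball 0 1)) := by
      rw [← h3, ← h4]
      refine le_trans ?_ (h1.trans h2)
      have : ball x0 (s / 4) ⊆ ball x0 (s / 2 - r k) := by
        refine ball_subset_ball ?_
        have := hrk k hk
        linarith
      gcongr
    have h6 : θ ^ k * B * (s / 2) ^ d ≤ r k ^ d * (B * (1 / 2) ^ k) := by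
      have e1 : (s / 2) ^ d = r k ^ d * (L ^ d) ^ k := by
        simp only [hr]
        rw [div_pow (s / 2), ← pow_mul, ← pow_mul, mul_comm k d]
        field_simp
      rw [e1]
      have e2 : (θ * L ^ d) ^ k ≤ (1 / 2) ^ k := pow_le_pow_left₀ (by positivity) hθL k
      calc θ ^ k * B * (r k ^ d * (L ^ d) ^ k) = r k ^ d * (B * (θ * L ^ d) ^ k) := by
            rw [mul_pow]; ring
        _ ≤ r k ^ d * (B * (1 / 2) ^ k) := by
            have := hrpos k
            gcongr
    have h7 : ENNReal.ofReal (r k ^ d) ≠ 0 := by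
      have := hrpos k
      simp only [ne_eq, ENNReal.ofReal_eq_zero, not_le]
      positivity
    have h8 : (ENNReal.ofReal (r k ^ d) * ν (ball (0 : E) 1)) * μ (ball x0 (s / 4)) ≤
        (ENNReal.ofReal (r k ^ d) * ν (ball (0 : E) 1)) * ENNReal.ofReal (B * (1 / 2) ^ k) := by
      calc (ENNReal.ofReal (r k ^ d) * ν (ball (0 : E) 1)) * μ (ball x0 (s / 4))
          = μ (ball x0 (s / 4)) * (ENNReal.ofReal (r k ^ d) * ν (ball 0 1)) := by ring
        _ ≤ _ := h5
        _ = (ENNReal.ofReal (θ ^ k * B) * ENNReal.ofReal ((s / 2) ^ d)) * ν (ball (0 : E) 1) := by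
            ring
        _ = ENNReal.ofReal (θ ^ k * B * (s / 2) ^ d) * ν (ball (0 : E) 1) := by
            rw [← ENNReal.ofReal_mul (by positivity)]
        _ ≤ ENNReal.ofReal (r k ^ d * (B * (1 / 2) ^ k)) * ν (ball (0 : E) 1) := by gcongr
        _ = _ := by
            rw [ENNReal.ofReal_mul (by have := hrpos k; positivity)]
            ring
    exact (ENNReal.mul_le_mul_iff_right (mul_ne_zero h7 hb0)
      (ENNReal.mul_ne_top ENNReal.ofReal_ne_top hbt)).1 h8
  have hlim : Tendsto (fun k : ℕ => ENNReal.ofReal (B * (1 / 2) ^ k)) atTop (𝓝 0) := by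
    have h1 : Tendsto (fun k : ℕ => B * (1 / 2 : ℝ) ^ k) atTop (𝓝 (B * 0)) :=
      (tendsto_pow_atTop_nhds_zero_of_lt_one (by norm_num) (by norm_num)).const_mul B
    rw [mul_zero] at h1
    simpa using ENNReal.tendsto_ofReal h1
  refine le_antisymm (ge_of_tendsto hlim ?_) bot_le
  filter_upwards [eventually_ge_atTop 1] with k hk
  exact hkey k hk

theorem dens : SwcDefs_34.DENS := by
  intro E _ _ _ _ _ μ _ L0 C x0 R hL0 hC hR H
  have hprop : ProperSpace E := FiniteDimensional.proper ℝ E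
  -- enlarge `L`
  set L : ℝ := max L0 2 with hLdef
  have hL2 : 2 ≤ L := le_max_right _ _
  have hL1 : 1 ≤ L := by linarith
  have hLp : 0 < L := by linarith
  have hLL : L0 ≤ L := le_max_left _ _
  have hfin : ∀ (x : E) (t : ℝ), μ (closedBall x t) ≠ ⊤ := fun x t =>
    (isCompact_closedBall _ _).measure_lt_top.ne
  set d := finrank ℝ E with hd
  set θ : ℝ := 1 / L ^ (d + 2) with hθdef
  have hθ : 0 < θ := by positivity
  have hθL2 : θ * L ^ 2 ≤ 1 := by
    rw [hθdef, pow_add]
    have : 1 ≤ L ^ d := one_le_pow₀ hL1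
    have h2 : 1 / (L ^ d * L ^ 2) * L ^ 2 = 1 / L ^ d := by field_simp
    rw [h2, div_le_one (by positivity)]
    exact this
  have hθLd : θ * L ^ d ≤ 1 / 2 := by
    rw [hθdef, pow_add]
    have h2 : 1 / (L ^ d * L ^ 2) * L ^ d = 1 / L ^ 2 := by field_simp
    rw [h2]
    have : (2 : ℝ) ≤ L ^ 2 := by nlinarith
    exact one_div_le_one_div_of_le (by norm_num) this
  set K : ℝ := max 1 (2 * C / θ) with hKdef
  have hK1 : 1 ≤ K := le_max_left _ _
  have hKp : 0 < K := by linarith
  have hCK : C / K ≤ θ / 2 := by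
    have h : 2 * C / θ ≤ K := le_max_right _ _
    rw [div_le_iff₀ hθ] at h
    rw [div_le_div_iff₀ hKp (by norm_num)]
    nlinarith
  obtain ⟨s0, hs0, H0⟩ := H K hK1
  set ε : ℝ := θ / (2 * (4 * C * K ^ 2 * L ^ 2)) with hεdef
  have hε : 0 < ε := by positivity
  have hε1 : 4 * C * K ^ 2 * L ^ 2 * ε ≤ θ / 2 := by
    rw [hεdef]
    apply le_of_eq
    field_simp
  refine ⟨ε, min (s0 / 2) (R / 2) , hε, by positivity, ?_⟩
  intro x hx hxs s hs hs1
  have hss0 : s ≤ s0 := by
    have := hs1.trans (min_le_left _ _)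
    linarith
  have hsR : s ≤ R / 2 := hs1.trans (min_le_right _ _)
  by_contra hcon
  push Not at hcon
  -- the decay at all points of the half ball
  have hdec : ∀ y ∈ closedBall x (s / 2), ∀ k : ℕ,
      μ.real (closedBall y (s / 2 / L ^ k)) ≤ θ ^ k * (ε * s ^ 2) := by
    intro y hy k
    rw [mem_closedBall] at hy
    rw [mem_ball] at hx
    refine decay (fun t => μ.real (closedBall y t)) (fun _ => measureReal_nonneg) hL1 hC hKp hs
      hε.le hθ hθL2 hCK hε1 ?_ ?_ k
    · intro j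
      have htpos : 0 < s / 2 / L ^ (j + 1) := by positivity
      have ht : L * (s / 2 / L ^ (j + 1)) = s / 2 / L ^ j := by
        rw [pow_succ]; field_simp
      have htle : s / 2 / L ^ j ≤ s / 2 := div_le_self (by positivity) (one_le_pow₀ hL1)
      have htle' : s / 2 / L ^ (j + 1) ≤ s / 2 := div_le_self (by positivity) (one_le_pow₀ hL1)
      have hL0t : L0 * (s / 2 / L ^ (j + 1)) ≤ s / 2 / L ^ j := by
        rw [← ht]; gcongr
      have hyR : y ∈ ball x0 R := by
        rw [mem_ball]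
        have := dist_triangle y x x0
        linarith
      have hsub : closedBall y (L0 * (s / 2 / L ^ (j + 1))) ⊆ ball x0 R := by
        intro z hz
        rw [mem_closedBall] at hz
        rw [mem_ball]
        have h1 := dist_triangle z y x0
        have h2 := dist_triangle y x x0
        linarith
      have h := H0 y hyR _ htpos (by linarith) hsub
      refine h.trans ?_
      have hmono : μ.real (closedBall y (L0 * (s / 2 / L ^ (j + 1)))) ≤
          μ.real (closedBall y (s / 2 / L ^ j)) :=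
        measureReal_mono (closedBall_subset_closedBall hL0t) (hfin _ _)
      have hnn : 0 ≤ μ.real (closedBall y (L0 * (s / 2 / L ^ (j + 1)))) := measureReal_nonneg
      gcongr
    · refine le_trans ?_ hcon.le
      refine measureReal_mono (closedBall_subset_closedBall' ?_) (hfin _ _)
      linarith
  have hz := clear μ hL2 hs (by positivity) hθ hθLd hdec
  rw [Measure.mem_support_iff_forall] at hxs
  exact (hxs (ball x (s / 4)) (ball_mem_nhds x (by positivity))).ne' hz

end Crest.Agent.R235.Dens_253
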