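import Crest.Agent.R249.Tv10_57
import Crest.Agent.R249.Grn6_324

/-!
# Row 235, SW-FS3: smooth sections, and finite sums of eigensections, are dense in `W^{1,2}(E)`

`D : Dat n M κ` (closed connected Riemannian manifold `M`).
* `secW D hu hs : D.toAD.WE` : the element of `W^{1,2}(E)` given by a smooth section `u`;
* `coe_secW`, `en_secW`, `inner_secW` : its components, energy and `L²` products;
* `dense_secW`, `exists_seq_secW` : smooth sections are dense in `W^{1,2}(E)` (NO hypothesis on `D`);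
* `S0.eW k = secW (S0.φ k)`, `Spec.eig_WE` : the eigen-equation against every `v ∈ W^{1,2}(E)`;
* `Spec.hasSum_WE` : `∑ ⟨φ_k, w⟩ φ_k = w` IN `W^{1,2}(E)` (unconditionally convergent), for every
  `S0 : Spec D`; `Spec.hasSum_form` : `∫ en w v = ∑ μ_k ⟨φ_k,w⟩⟨φ_k,v⟩`.
* `hasSum_abs` : the abstract Hilbert space lemma.
(helper433)
-/

set_option autoImplicit false
set_option linter.unusedSectionVars false
set_option maxSynthPendingDepth 3
open scoped ContDiff ENNReal NNReal Topology Manifold Bundle RealInnerProductSpace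
open MeasureTheory Set Filter Metric Bundle

noncomputable section
namespace Crest.Agent.R235.Dens_433

open Crest.Agent.R247.Dir593 Crest.Agent.R247.Ms322 Crest.Agent.R247.Frd657
open Crest.Agent.R249.Tv57

/-! ### the abstract lemma -/

section abs
variable {V H : Type*} [NormedAddCommGroup V] [InnerProductSpace ℝ V] [CompleteSpace V]
  [NormedAddCommGroup H] [InnerProductSpace ℝ H]

/-- **eigenvector expansion in the form domain.** -/
theorem hasSum_abs (B : V →L[ℝ] V →L[ℝ] ℝ) (hsymm : ∀ u v, B u v = B v u) {c : ℝ} (hc : 0 < c)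
    (hco : ∀ v, c * ‖v‖ ^ 2 ≤ B v v) (i : V →L[ℝ] H) (e : ℕ → V) (L : ℕ → ℝ)
    (heig : ∀ k v, B (e k) v = L k * ⟪i (e k), i v⟫)
    (hort : ∀ k l, ⟪i (e k), i (e l)⟫ = if k = l then (1:ℝ) else 0)
    (htot : ∀ v, (∀ k, ⟪i (e k), i v⟫ = 0) → v = 0) (w : V) :
    HasSum (fun k => ⟪i (e k), i w⟫ • e k) w := by
  classical
  have hL : ∀ k, L k = B (e k) (e k) := fun k => by rw [heig, hort, if_pos rfl, mul_one]
  have he0 : ∀ k, e k ≠ 0 := by
    intro k h
    have h1 := hort k k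
    rw [h, map_zero, inner_zero_left, if_pos rfl] at h1
    exact zero_ne_one h1
  have hLp : ∀ k, 0 < L k := by
    intro k
    rw [hL]
    have h1 : 0 < ‖e k‖ := norm_pos_iff.2 (he0 k)
    exact lt_of_lt_of_le (by positivity) (hco _)
  -- density of the span
  have hco' : IsCoercive B := ⟨c, hc, fun v => by
    have := hco v
    rwa [sq, ← mul_assoc] at this⟩
  have hdense : (Submodule.span ℝ (range e)).topologicalClosure = ⊤ := by
    rw [Submodule.topologicalClosure_eq_top_iff, Submodule.eq_bot_iff]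
    intro x hx
    set T := hco'.continuousLinearEquivOfBilin with hT
    obtain ⟨y, rfl⟩ := T.surjective x
    have hy : y = 0 := by
      refine htot y fun k => ?_
      have h1 : ⟪T y, e k⟫ = B y (e k) := hco'.continuousLinearEquivOfBilin_apply y (e k)
      have h2 : ⟪T y, e k⟫ = 0 :=
        Submodule.inner_left_of_mem_orthogonal (Submodule.subset_span (mem_range_self k)) hx
      rw [h2, hsymm, heig] at h1
      exact (mul_eq_zero.1 h1.symm).resolve_left (hLp k).ne'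
    rw [hy, map_zero]
  -- projections
  set ws : Finset ℕ → V := fun s => ∑ k ∈ s, ⟪i (e k), i w⟫ • e k with hws
  have horth : ∀ (s : Finset ℕ) (k : ℕ), k ∈ s → B (e k) (w - ws s) = 0 := by
    intro s k hk
    rw [heig, map_sub, inner_sub_right, hws]
    simp only [map_sum, map_smul, inner_sum, real_inner_smul_right, hort]
    rw [Finset.sum_congr rfl fun l _ => mul_ite _ _ _ _]
    simp [hk]
  have hbest : ∀ (s : Finset ℕ) (y : V), y ∈ Submodule.span ℝ (e '' (s : Set ℕ)) →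
      B (w - ws s) (w - ws s) ≤ B (w - y) (w - y) := by
    intro s y hy
    have hz : ∀ z ∈ Submodule.span ℝ (e '' (s : Set ℕ)), B z (w - ws s) = 0 := by
      intro z hz
      induction hz using Submodule.span_induction with
      | mem x hx =>
        obtain ⟨k, hk, rfl⟩ := hx
        exact horth s k (by simpa using hk)
      | zero => simp
      | add x y _ _ h1 h2 => rw [map_add, add_apply, h1, h2, add_zero]
      | smul a x _ h1 => rw [map_smul, smul_apply, h1, smul_zero]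
    have hwsm : ws s ∈ Submodule.span ℝ (e '' (s : Set ℕ)) :=
      Submodule.sum_mem _ fun k hk => Submodule.smul_mem _ _
        (Submodule.subset_span ⟨k, by simpa using hk, rfl⟩)
    have h1 := hz _ (Submodule.sub_mem _ hwsm hy)
    have h2 : w - y = (w - ws s) + (ws s - y) := by abel
    have h3 : B (w - y) (w - y) = B (w - ws s) (w - ws s) + 2 * B (ws s - y) (w - ws s) +
        B (ws s - y) (ws s - y) := by
      rw [h2]
      simp only [map_add, add_apply]
      rw [hsymm (w - ws s) (ws s - y)]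
      ring
    rw [h3, h1]
    have h4 : 0 ≤ B (ws s - y) (ws s - y) := le_trans (by positivity) (hco _)
    linarith
  rw [HasSum, Metric.tendsto_nhds]
  intro ε hε
  -- approximation
  have hB0 : 0 ≤ ‖B‖ := norm_nonneg _
  set δ : ℝ := √(c / (‖B‖ + 1)) * ε with hδ
  have hδ0 : 0 < δ := by positivity
  have hwc : w ∈ (Submodule.span ℝ (range e)).topologicalClosure := by rw [hdense]; trivial
  obtain ⟨y, hy, hyd⟩ := Metric.mem_closure_iff.1 (show w ∈ closure
    ((Submodule.span ℝ (range e) : Submodule ℝ V) : Set V) from hwc) δ hδ0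
  obtain ⟨t, ht⟩ := (Finsupp.mem_span_range_iff_exists_finsupp).1 hy
  refine Filter.eventually_atTop.2 ⟨t.support, fun s hs => ?_⟩
  have hys : y ∈ Submodule.span ℝ (e '' (s : Set ℕ)) := by
    rw [← ht]
    exact Submodule.sum_mem _ fun k hk => Submodule.smul_mem _ _
      (Submodule.subset_span ⟨k, by simpa using hs hk, rfl⟩)
  have h1 := hbest s y hys
  have h2 := hco (w - ws s)
  have h3 : B (w - y) (w - y) ≤ ‖B‖ * ‖w - y‖ ^ 2 := by
    have := (B (w - y)).le_opNorm (w - y)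
    have h4 := B.le_opNorm (w - y)
    have h5 : B (w - y) (w - y) ≤ ‖B (w - y) (w - y)‖ := le_abs_self _
    nlinarith [norm_nonneg (w - y)]
  have h6 : ‖w - y‖ < δ := by rwa [← dist_eq_norm]
  have h7 : ‖w - y‖ ^ 2 < δ ^ 2 := pow_lt_pow_left₀ h6 (norm_nonneg _) two_ne_zero
  have h8 : δ ^ 2 = c / (‖B‖ + 1) * ε ^ 2 := by
    rw [hδ, mul_pow, Real.sq_sqrt (by positivity)]
  have h9 : c * ‖w - ws s‖ ^ 2 < c * ε ^ 2 := by
    calc c * ‖w - ws s‖ ^ 2 ≤ ‖B‖ * ‖w - y‖ ^ 2 := h2.trans (h1.trans h3)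
      _ ≤ (‖B‖ + 1) * ‖w - y‖ ^ 2 := by nlinarith [sq_nonneg ‖w - y‖]
      _ < (‖B‖ + 1) * δ ^ 2 := by
        refine mul_lt_mul_of_pos_left h7 (by positivity)
      _ = c * ε ^ 2 := by rw [h8]; field_simp
  have h10 : ‖w - ws s‖ ^ 2 < ε ^ 2 := lt_of_mul_lt_mul_left h9 hc.le
  have h11 : ‖w - ws s‖ < ε := lt_of_pow_lt_pow_left₀ 2 hε.le h10
  rw [dist_comm, dist_eq_norm]
  exact h11

end abs

/-! ### the abstract graph space -/

section ad
variable {X : Type*} [MetricSpace X] [MeasurableSpace X] [BorelSpace X] {F : Type*}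
  [NormedAddCommGroup F] [InnerProductSpace ℝ F] {μ : Measure X} [IsFiniteMeasureOnCompacts μ]
  {S : GradS X F μ} {κ : Type} [Fintype κ] (A : AD S κ)

theorem i1_injective : Function.Injective A.i1 := fun _ _ h => A.jj_injective (Subtype.ext h)

/-- the quadratic form on `W^{1,2}(E)`, without shift -/
def frm (u v : A.WE) : ℝ := ⟪A.c1 u, A.c1 v⟫ + ⟪A.qL (A.i1 u), A.i1 v⟫

theorem frm_eq (u v : A.WE) : frm A u v = ∫ x, A.en (A.i1 u) (A.i1 v) x ∂μ := A.form_eq u v

theorem frm_form (u v : A.WE) : A.form.a u v = frm A u v + A.shift * ⟪A.i1 u, A.i1 v⟫ :=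
  A.form_apply u v

theorem frm_comm (u v : A.WE) : frm A u v = frm A v u := by
  have h1 := A.form.symm u v
  rw [frm_form, frm_form, real_inner_comm] at h1
  linarith

theorem continuous_frm (u : A.WE) : Continuous (frm A u) := by
  unfold frm
  fun_prop

theorem ad_hasSum [CompleteSpace F] (e : ℕ → A.WE) (lam : ℕ → ℝ)
    (heig : ∀ k (v : A.WE), frm A (e k) v = lam k * ⟪A.i1 (e k), A.i1 v⟫)
    (hort : ∀ k l, ⟪A.i1 (e k), A.i1 (e l)⟫ = if k = l then (1:ℝ) else 0)
    (htot : ∀ v, (∀ k, ⟪A.i1 (e k), A.i1 v⟫ = 0) → A.i1 v = 0) (w : A.WE) :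
    HasSum (fun k => ⟪A.i1 (e k), A.i1 w⟫ • e k) w := by
  refine hasSum_abs (A.form.a + gram2 A.i1 A.i1) ?_ A.form.c_pos ?_ A.i1 e
    (fun k => lam k + A.shift + 1) ?_ hort ?_ w
  · intro u v
    show A.form.a u v + ⟪A.i1 u, A.i1 v⟫ = A.form.a v u + ⟪A.i1 v, A.i1 u⟫
    rw [A.form.symm, real_inner_comm]
  · intro v
    show A.form.c * ‖v‖ ^ 2 ≤ A.form.a v v + ⟪A.i1 v, A.i1 v⟫
    rw [real_inner_self_eq_norm_sq]
    exact A.form.coer v
  · intro k v
    show A.form.a (e k) v + ⟪A.i1 (e k), A.i1 v⟫ = (lam k + A.shift + 1) * ⟪A.i1 (e k), A.i1 v⟫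
    rw [frm_form, heig]
    ring
  · intro v hv
    exact i1_injective A (by rw [htot v hv, map_zero])

theorem ad_hasSum_frm [CompleteSpace F] (e : ℕ → A.WE) (lam : ℕ → ℝ)
    (heig : ∀ k (v : A.WE), frm A (e k) v = lam k * ⟪A.i1 (e k), A.i1 v⟫)
    (hort : ∀ k l, ⟪A.i1 (e k), A.i1 (e l)⟫ = if k = l then (1:ℝ) else 0)
    (htot : ∀ v, (∀ k, ⟪A.i1 (e k), A.i1 v⟫ = 0) → A.i1 v = 0) (w v : A.WE) :
    HasSum (fun k => lam k * (⟪A.i1 (e k), A.i1 w⟫ * ⟪A.i1 (e k), A.i1 v⟫)) (frm A w v) := by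
  have h1 := ad_hasSum A e lam heig hort htot w
  -- apply the continuous functional `frm A v`
  set l : A.WE →L[ℝ] ℝ := A.form.a v - A.shift • gram2 A.i1 A.i1 v with hl
  have hlv : ∀ u, l u = frm A v u := by
    intro u
    show A.form.a v u - A.shift * ⟪A.i1 v, A.i1 u⟫ = _
    rw [frm_form]
    ring
  have h2 := h1.mapL l
  rw [hlv, frm_comm] at h2
  refine h2.congr_fun (fun k => ?_) |> fun h => h
  rw [map_smul, hlv, frm_comm, heig, smul_eq_mul]
  ring

end ad

/-! ### bundles over a closed manifold -/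

section dat
variable {n : ℕ} {M : Type*} [MetricSpace M] [CompactSpace M]
    [ChartedSpace (EuclideanSpace ℝ (Fin n)) M]
    [IsManifold (𝓡 n) ∞ M]
    [RiemannianBundle (fun p : M => TangentSpace (𝓡 n) p)]
    [IsContMDiffRiemannianBundle (𝓡 n) ∞ (EuclideanSpace ℝ (Fin n))
      (fun p : M => TangentSpace (𝓡 n) p)]
    [IsRiemannianManifold (𝓡 n) M]
    [MeasurableSpace M] [BorelSpace M] [SecondCountableTopology M] [Nonempty M]
    [IsFiniteMeasureOnCompacts (μHE[n] : Measure M)]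
    {κ : Type} [Fintype κ] (D : Dat n M κ)

local notation "𝔼" => EuclideanSpace ℝ (Fin n)

/-- the element of `L²` given by smooth functions -/
def sm2 {u : κ → M → ℝ} (hu : SmV (n := n) u) : HH (μHE[n] : Measure M) κ :=
  WithLp.toLp 2 fun a => GradS.tL (isT_smooth (hu a))

theorem coe_sm2 {u : κ → M → ℝ} (hu : SmV (n := n) u) :
    ∀ᵐ x ∂(μHE[n] : Measure M), ∀ a, (sm2 hu a : M → ℝ) x = u a x := by
  rw [ae_all_iff]
  intro a
  exact GradS.coe_tL (isT_smooth (hu a))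

theorem D_sm2 {u : κ → M → ℝ} (hu : SmV (n := n) u) :
    ∀ᵐ x ∂(μHE[n] : Measure M), ∀ a, ((gradS n M).D (sm2 hu a) : M → 𝔼) x = Gr (n := n) (u a) x := by
  rw [ae_all_iff]
  intro a
  exact (gradS n M).D_tL (isT_smooth (hu a))

theorem P_sm2 {u : κ → M → ℝ} (hu : SmV (n := n) u) (hs : D.Sec u) :
    D.toAD.P (sm2 hu) = sm2 hu := by
  ext a
  filter_upwards [D.toAD.coe_P (sm2 hu), coe_sm2 hu] with x e1 e2
  rw [e1 a, e2 a, ← hs a x]
  exact Finset.sum_congr rfl fun b _ => by rw [e2 b]; rfl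

/-- the element of `W^{1,2}(E)` given by a smooth section -/
def secW {u : κ → M → ℝ} (hu : SmV (n := n) u) (hs : D.Sec u) : D.toAD.WE :=
  D.toAD.mkW (sm2 hu) (fun a => (gradS n M).tL_mem (isT_smooth (hu a))) (P_sm2 D hu hs)

theorem i1_secW {u : κ → M → ℝ} (hu : SmV (n := n) u) (hs : D.Sec u) :
    D.toAD.i1 (secW D hu hs) = sm2 hu := rfl

/-- the components of `secW` -/
theorem coe_secW {u : κ → M → ℝ} (hu : SmV (n := n) u) (hs : D.Sec u) :
    ∀ᵐ x ∂(μHE[n] : Measure M), ∀ a, (D.toAD.i1 (secW D hu hs) a : M → ℝ) x = u a x := coe_sm2 hu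

/-- the covariant derivative of `secW` -/
theorem cvf_sm2 {u : κ → M → ℝ} (hu : SmV (n := n) u) :
    ∀ᵐ x ∂(μHE[n] : Measure M), ∀ a, D.toAD.cvf (sm2 hu) a x = D.cv u a x := by
  filter_upwards [coe_sm2 hu, D_sm2 hu] with x e1 e2 a
  rw [Dat.cv, AD.cvf, e2 a]
  congr 1
  exact Finset.sum_congr rfl fun b _ => by rw [e1 b]; rfl

theorem coe_c1_secW {u : κ → M → ℝ} (hu : SmV (n := n) u) (hs : D.Sec u) :
    ∀ᵐ x ∂(μHE[n] : Measure M), ∀ a, (D.toAD.c1 (secW D hu hs) a : M → 𝔼) x = D.cv u a x := by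
  filter_upwards [D.toAD.coe_c1 (secW D hu hs), cvf_sm2 D hu] with x e1 e2 a
  rw [e1 a, i1_secW, e2 a]

/-- the energy density of smooth sections -/
theorem en_sm2 {u v : κ → M → ℝ} (hu : SmV (n := n) u) (hv : SmV (n := n) v) :
    ∀ᵐ x ∂(μHE[n] : Measure M), D.toAD.en (sm2 hu) (sm2 hv) x = D.ed u v x := by
  filter_upwards [coe_sm2 hu, coe_sm2 hv, cvf_sm2 D hu, cvf_sm2 D hv] with x e1 e2 e3 e4
  rw [AD.en, Dat.ed]
  congr 1
  · refine Finset.sum_congr rfl fun a _ => ?_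
    rw [e3 a, e4 a]
  · refine Finset.sum_congr rfl fun a _ => Finset.sum_congr rfl fun b _ => ?_
    rw [e1 b, e2 a]
    rfl

theorem frm_secW {u v : κ → M → ℝ} (hu : SmV (n := n) u) (hs : D.Sec u) (hv : SmV (n := n) v)
    (hv' : D.Sec v) : frm D.toAD (secW D hu hs) (secW D hv hv') =
      ∫ z, D.ed u v z ∂(μHE[n] : Measure M) := by
  rw [frm_eq]
  exact integral_congr_ae (en_sm2 D hu hv)

theorem inner_sm2 {u : κ → M → ℝ} (hu : SmV (n := n) u) (w : HH (μHE[n] : Measure M) κ) :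
    ⟪sm2 hu, w⟫ = ∫ z, ∑ a, u a z * (w a : M → ℝ) z ∂(μHE[n] : Measure M) :=
  inner_HH (sm2 hu) w (coe_sm2 hu) (Eventually.of_forall fun _ _ => rfl)

theorem inner_sm2' {u v : κ → M → ℝ} (hu : SmV (n := n) u) (hv : SmV (n := n) v) :
    ⟪sm2 hu, sm2 hv⟫ = ∫ z, ∑ a, u a z * v a z ∂(μHE[n] : Measure M) :=
  inner_HH (sm2 hu) (sm2 hv) (coe_sm2 hu) (coe_sm2 hv)

/-- an a.e. smooth element of `W^{1,2}(E)` is a `secW` -/
theorem exists_secW {w : D.toAD.WE} {φ : κ → M → ℝ} (hφ : SmV (n := n) φ)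
    (h : ∀ᵐ z ∂(μHE[n] : Measure M), ∀ a, (D.toAD.i1 w a : M → ℝ) z = φ a z) :
    ∃ hs : D.Sec φ, secW D hφ hs = w := by
  have := isOpenPosMeasure n M
  have hs : D.Sec φ := by
    intro a
    have hc : Continuous fun z => ∑ b, D.p a b z * φ b z :=
      continuous_finsetSum _ fun b _ => (D.smp a b).continuous.mul (hφ b).continuous
    have h1 : (fun z => ∑ b, D.p a b z * φ b z) =ᵐ[(μHE[n] : Measure M)] φ a := by
      have h2 := D.toAD.coe_P (D.toAD.i1 w)
      rw [show D.toAD.P (D.toAD.i1 w) = D.toAD.i1 w from w.2.2] at h2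
      filter_upwards [h2, h] with z e1 e2
      rw [← e2 a, e1 a]
      refine Finset.sum_congr rfl fun b _ => ?_
      rw [e2 b]
      rfl
    intro z
    exact congrFun ((hc.ae_eq_iff_eq _ (hφ a).continuous).1 h1) z
  refine ⟨hs, i1_injective D.toAD ?_⟩
  rw [i1_secW]
  ext a
  filter_upwards [coe_sm2 hφ, h] with z e1 e2
  rw [e1 a, e2 a]

/-- smooth sections, as elements of `W^{1,2}(E)` -/
def smSet : Set D.toAD.WE := {w | ∃ (u : κ → M → ℝ) (hu : SmV (n := n) u) (hs : D.Sec u), secW D hu hs = w}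

theorem secW_add {u v : κ → M → ℝ} (hu : SmV (n := n) u) (hs : D.Sec u) (hv : SmV (n := n) v)
    (hs' : D.Sec v) : ∃ (h1 : SmV (n := n) fun a z => u a z + v a z)
      (h2 : D.Sec fun a z => u a z + v a z), secW D h1 h2 = secW D hu hs + secW D hv hs' := by
  have h1 : SmV (n := n) fun a z => u a z + v a z := fun a => (hu a).add (hv a)
  refine ⟨h1, exists_secW D h1 ?_⟩
  rw [map_add]
  have h2 : ∀ᵐ z ∂(μHE[n] : Measure M), ∀ a,
      ((D.toAD.i1 (secW D hu hs) + D.toAD.i1 (secW D hv hs')) a : M → ℝ) z =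
      (D.toAD.i1 (secW D hu hs) a : M → ℝ) z + (D.toAD.i1 (secW D hv hs') a : M → ℝ) z :=
    ae_all_iff.2 fun a => Lp.coeFn_add _ _
  filter_upwards [h2, coe_secW D hu hs, coe_secW D hv hs'] with z e0 e1 e2 a
  rw [e0 a, e1 a, e2 a]

theorem secW_smul {u : κ → M → ℝ} (hu : SmV (n := n) u) (hs : D.Sec u) (c : ℝ) :
    ∃ (h1 : SmV (n := n) fun a z => c * u a z)
      (h2 : D.Sec fun a z => c * u a z), secW D h1 h2 = c • secW D hu hs := by
  have h1 : SmV (n := n) fun a z => c * u a z := fun a => contMDiff_const.mul (hu a)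
  refine ⟨h1, exists_secW D h1 ?_⟩
  rw [map_smul]
  have h2 : ∀ᵐ z ∂(μHE[n] : Measure M), ∀ a,
      ((c • D.toAD.i1 (secW D hu hs)) a : M → ℝ) z =
      c * (D.toAD.i1 (secW D hu hs) a : M → ℝ) z :=
    ae_all_iff.2 fun a => Lp.coeFn_smul _ _
  filter_upwards [h2, coe_secW D hu hs] with z e0 e1 a
  rw [e0 a, e1 a]

theorem secW_sum {ι : Type*} (s : Finset ι) {u : ι → κ → M → ℝ} (hu : ∀ j, SmV (n := n) (u j))
    (hs : ∀ j, D.Sec (u j)) : ∃ (h1 : SmV (n := n) fun a z => ∑ j ∈ s, u j a z)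
      (h2 : D.Sec fun a z => ∑ j ∈ s, u j a z),
      secW D h1 h2 = ∑ j ∈ s, secW D (hu j) (hs j) := by
  classical
  induction s using Finset.induction_on with
  | empty =>
    have h1 : SmV (n := n) fun (_ : κ) (_ : M) => (0:ℝ) := fun a => contMDiff_const
    simp only [Finset.sum_empty]
    refine ⟨h1, exists_secW D h1 ?_⟩
    rw [map_zero]
    exact ae_all_iff.2 fun a => Lp.coeFn_zero _ _ _
  | insert j t hj ih =>
    obtain ⟨h1, h2, h3⟩ := ih
    obtain ⟨k1, k2, k3⟩ := secW_add D (hu j) (hs j) h1 h2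
    simp only [Finset.sum_insert hj]
    exact ⟨k1, k2, by rw [k3, h3]⟩

theorem smSet_sum {ι : Type*} (s : Finset ι) {w : ι → D.toAD.WE} (c : ι → ℝ)
    (hw : ∀ j, w j ∈ smSet D) : ∑ j ∈ s, c j • w j ∈ smSet D := by
  have h : ∀ j, ∃ (u : κ → M → ℝ) (hu : SmV (n := n) u) (hs : D.Sec u), secW D hu hs = c j • w j := by
    intro j
    obtain ⟨u, hu, hs, h⟩ := hw j
    obtain ⟨k1, k2, k3⟩ := secW_smul D hu hs (c j)
    exact ⟨_, k1, k2, by rw [k3, h]⟩
  choose u hu hs h using h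
  obtain ⟨h1, h2, h3⟩ := secW_sum D s hu hs
  exact ⟨_, h1, h2, by rw [h3]; exact Finset.sum_congr rfl fun j _ => h j⟩

variable [ConnectedSpace M]

/-- **smooth sections are dense in `W^{1,2}(E)`** -/
theorem dense_smSet (hn : 1 ≤ n) : Dense (smSet D) := by
  classical
  by_cases hp : ∀ a z, D.p a a z = 0
  · -- the zero bundle
    have hp' : ∀ a c z, D.p a c z = 0 := by
      intro a c z
      have h1 := D.toAD.p_self a z
      rw [show D.toAD.p a a z = D.p a a z from rfl, hp a z] at h1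
      have h2 := (Finset.sum_eq_zero_iff_of_nonneg fun c _ => sq_nonneg (D.toAD.p a c z)).1 h1.symm c
        (Finset.mem_univ c)
      exact pow_eq_zero_iff two_ne_zero |>.1 h2
    have h0 : ∀ w : D.toAD.WE, w = 0 := by
      intro w
      refine i1_injective D.toAD ?_
      rw [map_zero]
      have h1 : D.toAD.P (D.toAD.i1 w) = D.toAD.i1 w := w.2.2
      rw [← h1]
      ext a
      filter_upwards [D.toAD.coe_P (D.toAD.i1 w), Lp.coeFn_zero ℝ 2 (μHE[n] : Measure M)] with x e1 e2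
      rw [e1 a]
      have : ∀ b, D.toAD.p a b x = 0 := fun b => hp' a b x
      simp only [this, zero_mul, Finset.sum_const_zero]
      exact e2.symm
    intro w
    refine subset_closure ?_
    obtain ⟨h1, h2, h3⟩ := secW_sum D (∅ : Finset ℕ) (u := fun _ _ _ => (0:ℝ))
      (fun _ _ => contMDiff_const) (fun _ a z => by simp)
    exact ⟨_, h1, h2, by rw [h0 w]; exact h0 _⟩
  push Not at hp
  obtain ⟨a, z, hz⟩ := hp
  have := Crest.Agent.R247.HR216.properSpace_of_riemannian n M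
  have := isOpenPosMeasure n M
  have : IsFiniteMeasure (μHE[n] : Measure M) := ⟨isCompact_univ.measure_lt_top⟩
  obtain ⟨k, hk, hRic⟩ := Crest.Agent.R249.Grn324.exists_ricciLowerBound n M
  obtain ⟨u, lam, hV, hP, hmono, hlim, hortho, hpars, heig⟩ := D.toAD.exists_weak
    (fried_M hn hk hRic) (gradS n M).dense_V
    (D.toAD.not_finiteDimensional (fun x => Crest.Agent.R247.Mcp688.muHE_singleton n hn x)
      (a := a) (x0 := z) hz)
  choose φ hφs hφe using fun k => smooth_rep D (hV k) (heig k)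
  set e : ℕ → D.toAD.WE := fun k => D.toAD.mkW (u k) (hV k) (hP k) with he
  have hie : ∀ k, D.toAD.i1 (e k) = u k := fun k => rfl
  have hes : ∀ k, e k ∈ smSet D := by
    intro k
    obtain ⟨hs, h⟩ := exists_secW D (w := e k) (hφs k) (hφe k)
    exact ⟨_, _, hs, h⟩
  intro w
  have h1 := ad_hasSum D.toAD e lam (fun k v => by
    rw [frm_eq, hie]
    exact heig k _ fun a => (gradS n M).mem_V.2 ⟨_, v.2.1 a⟩) (fun k l => by
      rw [hie, hie]
      exact hortho k l) (fun v hv => by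
      have h2 := hpars (D.toAD.i1 v) v.2.2
      have h3 : (fun k => ⟪D.toAD.i1 v, u k⟫ ^ 2) = fun _ => (0:ℝ) := by
        funext k
        rw [real_inner_comm, ← hie, hv k]
        ring
      rw [h3] at h2
      have h4 := h2.unique hasSum_zero
      exact norm_eq_zero.1 (pow_eq_zero_iff two_ne_zero |>.1 h4)) w
  exact mem_closure_of_tendsto h1 (Eventually.of_forall fun s => smSet_sum D s _ hes)

/-- sequences of smooth sections -/
theorem exists_seq_secW (hn : 1 ≤ n) (w : D.toAD.WE) : ∃ (u : ℕ → κ → M → ℝ)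
    (hu : ∀ N, SmV (n := n) (u N)) (hs : ∀ N, D.Sec (u N)),
    Tendsto (fun N => secW D (hu N) (hs N)) atTop (𝓝 w) := by
  obtain ⟨x, hx, ht⟩ := mem_closure_iff_seq_limit.1 (dense_smSet D hn w)
  choose u hu hs h using hx
  exact ⟨u, hu, hs, ht.congr fun N => (h N).symm⟩

/-- two continuous functions on `W^{1,2}(E)` which agree on smooth sections are equal -/
theorem eq_of_smooth {Y : Type*} [TopologicalSpace Y] [T2Space Y] (hn : 1 ≤ n)
    {f g : D.toAD.WE → Y} (hf : Continuous f) (hg : Continuous g)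
    (h : ∀ (u : κ → M → ℝ) (hu : SmV (n := n) u) (hs : D.Sec u),
      f (secW D hu hs) = g (secW D hu hs)) (w : D.toAD.WE) : f w = g w := by
  refine congrFun (hf.ext_on (dense_smSet D hn) hg ?_) w
  rintro _ ⟨u, hu, hs, rfl⟩
  exact h u hu hs

/-! ### expansion for an arbitrary `Spec D` -/

variable {D} (S0 : Spec D)

/-- the eigensections in `W^{1,2}(E)` -/
def eW (k : ℕ) : D.toAD.WE := secW D (S0.smV k) (S0.sec k)

theorem inner_eW (k : ℕ) (w : D.toAD.WE) : ⟪D.toAD.i1 (eW S0 k), D.toAD.i1 w⟫ =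
    ∫ z, ∑ a, S0.φ k a z * (D.toAD.i1 w a : M → ℝ) z ∂(μHE[n] : Measure M) :=
  inner_sm2 (S0.smV k) _

/-- the eigen-equation against all of `W^{1,2}(E)` -/
theorem eig_WE (hn : 1 ≤ n) (k : ℕ) (v : D.toAD.WE) :
    frm D.toAD (eW S0 k) v = S0.μ k * ⟪D.toAD.i1 (eW S0 k), D.toAD.i1 v⟫ := by
  refine eq_of_smooth D hn (f := frm D.toAD (eW S0 k))
    (g := fun v => S0.μ k * ⟪D.toAD.i1 (eW S0 k), D.toAD.i1 v⟫) (continuous_frm _ _)
    (by fun_prop) (fun u hu hs => ?_) v
  rw [eW, frm_secW, S0.eig k u hu, i1_secW, i1_secW, inner_sm2']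

theorem ortho_eW (k l : ℕ) :
    ⟪D.toAD.i1 (eW S0 k), D.toAD.i1 (eW S0 l)⟫ = if k = l then (1:ℝ) else 0 := by
  rw [eW, eW, i1_secW, i1_secW, inner_sm2']
  exact S0.ortho k l

theorem pars_eW (w : D.toAD.WE) :
    HasSum (fun k => ⟪D.toAD.i1 (eW S0 k), D.toAD.i1 w⟫ ^ 2) (‖D.toAD.i1 w‖ ^ 2) := by
  have h1 := S0.pars (fun a => (D.toAD.i1 w a : M → ℝ)) (fun a => Lp.memLp _) (by
    have h2 := D.toAD.coe_P (D.toAD.i1 w)
    rw [show D.toAD.P (D.toAD.i1 w) = D.toAD.i1 w from w.2.2] at h2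
    filter_upwards [h2] with z e1 a
    exact (e1 a).symm)
  have h2 : ‖D.toAD.i1 w‖ ^ 2 = ∫ z, ∑ a, (D.toAD.i1 w a : M → ℝ) z ^ 2 ∂(μHE[n] : Measure M) := by
    rw [← real_inner_self_eq_norm_sq, inner_HH (D.toAD.i1 w) (D.toAD.i1 w)
      (Eventually.of_forall fun _ _ => rfl) (Eventually.of_forall fun _ _ => rfl)]
    refine integral_congr_ae (Eventually.of_forall fun x => ?_)
    exact Finset.sum_congr rfl fun a _ => by ring
  rw [h2]
  refine h1.congr_fun (fun k => ?_) |> fun h => h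
  rw [inner_eW]
  congr 1
  refine integral_congr_ae (Eventually.of_forall fun x => ?_)
  exact Finset.sum_congr rfl fun a _ => by ring

theorem tot_eW (v : D.toAD.WE) (hv : ∀ k, ⟪D.toAD.i1 (eW S0 k), D.toAD.i1 v⟫ = 0) :
    D.toAD.i1 v = 0 := by
  have h2 := pars_eW S0 v
  have h3 : (fun k => ⟪D.toAD.i1 (eW S0 k), D.toAD.i1 v⟫ ^ 2) = fun _ => (0:ℝ) := by
    funext k
    rw [hv k]
    ring
  rw [h3] at h2
  have h4 := h2.unique hasSum_zero
  exact norm_eq_zero.1 (pow_eq_zero_iff two_ne_zero |>.1 h4)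

/-- **finite sums of eigensections converge in `W^{1,2}(E)`** -/
theorem hasSum_WE (hn : 1 ≤ n) (w : D.toAD.WE) :
    HasSum (fun k => ⟪D.toAD.i1 (eW S0 k), D.toAD.i1 w⟫ • eW S0 k) w :=
  ad_hasSum D.toAD (eW S0) S0.μ (eig_WE S0 hn) (ortho_eW S0) (tot_eW S0) w

/-- the energy in terms of the coefficients -/
theorem hasSum_frm (hn : 1 ≤ n) (w v : D.toAD.WE) :
    HasSum (fun k => S0.μ k * (⟪D.toAD.i1 (eW S0 k), D.toAD.i1 w⟫ *
      ⟪D.toAD.i1 (eW S0 k), D.toAD.i1 v⟫)) (frm D.toAD w v) :=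
  ad_hasSum_frm D.toAD (eW S0) S0.μ (eig_WE S0 hn) (ortho_eW S0) (tot_eW S0) w v

end dat

end Crest.Agent.R235.Dens_433
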