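import Crest.Agent.R235.IndSolve_956

/-!
# R235, PACKAGE SW-FS, leaf FS3 (helper956): smooth sections are dense in `W^{1,2}(E)`; the form of
`D* D + Q` is diagonal in every eigenbasis `Spec D`.

* `SmSec D`     : smooth sections, a submodule of `κ → M → ℝ`;
* `toW D`       : `SmSec D →ₗ D.toAD.WE`;
* `dense_toW`   : its range is dense (closed connected `M`, `1 ≤ n`);
* `form_toW`    : `form (toW u) (toW v) = ∫ D.ed u v + shift ⟨u, v⟩`;
* `specSeq`     : for `S0 : Spec D` the `FormSeq D.toAD.form` with `ev k = toW (φ k)`,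
                  `lam k = μ k + shift`, `e k = jj (ev k)`;  so `FormSeq.tendsto_psum`, `hasSum_a`,
                  ... apply: partial sums of the expansion of `w : WE` converge in `WE`.
-/

set_option autoImplicit false
set_option linter.unusedSectionVars false
set_option maxSynthPendingDepth 3
open scoped ContDiff ENNReal NNReal Topology Manifold Bundle RealInnerProductSpace
open MeasureTheory Set Filter Metric Bundle

noncomputable section
namespace Crest.Agent.R235.Dens_956

open Crest.Agent.R247.Dir593 Crest.Agent.R247.Ms322 Crest.Agent.R247.Frd657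
open Crest.GeometryTopology.CoordMetric Crest.GeometryTopology.ChartCurvature
open Crest.GeometryTopology.PointedLimit Crest.Agent.R247.Mcp688
open Crest.Agent.R249.Tv57 Crest.Agent.R249.Tz805 Crest.Agent.R235.IndSolve_956
open Crest.Agent.R202.Sp

section basic
variable {n : ℕ} {M : Type*} [MetricSpace M] [ChartedSpace (EuclideanSpace ℝ (Fin n)) M]
  [IsManifold (𝓡 n) ∞ M]
  [RiemannianBundle (fun p : M => TangentSpace (𝓡 n) p)]
  [IsContMDiffRiemannianBundle (𝓡 n) ∞ (EuclideanSpace ℝ (Fin n)) (fun p : M => TangentSpace (𝓡 n) p)]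
  [IsRiemannianManifold (𝓡 n) M] [MeasurableSpace M] [BorelSpace M]
  [SecondCountableTopology M] [Nonempty M]
  {κ : Type} [Fintype κ]

local notation "𝔼" => EuclideanSpace ℝ (Fin n)

/-- smooth sections -/
def SmSec (D : Dat n M κ) : Submodule ℝ (κ → M → ℝ) where
  carrier := {u | SmV (n := n) u ∧ D.Sec u}
  zero_mem' := ⟨fun _ => contMDiff_const, fun a z => by simp⟩
  add_mem' := fun {u v} hu hv => ⟨fun a => (hu.1 a).add (hv.1 a), fun a z => by
    simp only [Pi.add_apply, mul_add, Finset.sum_add_distrib, hu.2 a z, hv.2 a z]⟩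
  smul_mem' := fun c u hu => ⟨fun a => contMDiff_const.mul (hu.1 a), fun a z => by
    simp only [Pi.smul_apply, smul_eq_mul]
    rw [← hu.2 a z, Finset.mul_sum]
    exact Finset.sum_congr rfl fun b _ => by ring⟩

theorem smS {D : Dat n M κ} (u : SmSec D) : SmV (n := n) (u : κ → M → ℝ) := u.2.1
theorem secS {D : Dat n M κ} (u : SmSec D) : D.Sec (u : κ → M → ℝ) := u.2.2

variable [CompactSpace M] [IsFiniteMeasureOnCompacts (μHE[n] : Measure M)]

theorem cls_add {u v : κ → M → ℝ} (hu : SmV (n := n) u) (hv : SmV (n := n) v)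
    (huv : SmV (n := n) (u + v)) : cls huv = cls hu + cls hv := by
  ext a
  have e : (cls hu + cls hv) a = cls hu a + cls hv a := rfl
  rw [e]
  filter_upwards [cls_ae hu, cls_ae hv, cls_ae huv, Lp.coeFn_add (cls hu a) (cls hv a)]
    with x e1 e2 e3 e4
  rw [e3 a, e4, Pi.add_apply, Pi.add_apply, Pi.add_apply, e1 a, e2 a]

theorem cls_smul (c : ℝ) {u : κ → M → ℝ} (hu : SmV (n := n) u) (hcu : SmV (n := n) (c • u)) :
    cls hcu = c • cls hu := by
  ext a
  have e : (c • cls hu) a = c • cls hu a := rfl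
  rw [e]
  filter_upwards [cls_ae hu, cls_ae hcu, Lp.coeFn_smul c (cls hu a)] with x e1 e2 e3
  rw [e2 a, e3, Pi.smul_apply, Pi.smul_apply, Pi.smul_apply, e1 a]

/-- the class in `L²(E)` -/
def toH (D : Dat n M κ) : SmSec D →ₗ[ℝ] D.toAD.HE where
  toFun u := ⟨cls (smS u), P_cls D (smS u) (secS u)⟩
  map_add' u v := Subtype.ext (cls_add (smS u) (smS v) (smS (u + v)))
  map_smul' c u := Subtype.ext (cls_smul c (smS u) (smS (c • u)))

theorem coe_toH (D : Dat n M κ) (u : SmSec D) : (toH D u : HH (μHE[n] : Measure M) κ) = cls (smS u) :=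
  rfl

/-- the class in `W^{1,2}(E)` -/
def toW (D : Dat n M κ) : SmSec D →ₗ[ℝ] D.toAD.WE where
  toFun u := D.toAD.mkW (cls (smS u)) (cls_mem (smS u)) (P_cls D (smS u) (secS u))
  map_add' u v := D.toAD.jj_injective (Subtype.ext (cls_add (smS u) (smS v) (smS (u + v))))
  map_smul' c u := D.toAD.jj_injective (Subtype.ext (cls_smul c (smS u) (smS (c • u))))

theorem jj_toW (D : Dat n M κ) (u : SmSec D) : D.toAD.jj (toW D u) = toH D u := rfl

theorem i1_toW (D : Dat n M κ) (u : SmSec D) : D.toAD.i1 (toW D u) = cls (smS u) := rfl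

/-- an element of `W^{1,2}(E)` with a smooth representative -/
theorem eq_toW (D : Dat n M κ) {w : D.toAD.WE} {φ : κ → M → ℝ} (hφ : SmV (n := n) φ)
    (he : ∀ᵐ x ∂(μHE[n] : Measure M), ∀ a, (D.toAD.i1 w a : M → ℝ) x = φ a x) :
    ∃ u : SmSec D, (u : κ → M → ℝ) = φ ∧ w = toW D u := by
  have h1 : D.toAD.i1 w = cls hφ := eq_cls hφ he
  have h2 : D.toAD.P (cls hφ) = cls hφ := by rw [← h1]; exact w.2.2
  refine ⟨⟨φ, hφ, sec_cls D hφ h2⟩, rfl, D.toAD.jj_injective (Subtype.ext ?_)⟩
  exact h1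

theorem inner_toH (D : Dat n M κ) (u v : SmSec D) :
    ⟪toH D u, toH D v⟫ = ip n (u : κ → M → ℝ) v := inner_cls (smS u) (smS v)

/-- the form on smooth sections -/
theorem form_toW (D : Dat n M κ) (u v : SmSec D) :
    D.toAD.form.a (toW D u) (toW D v) =
      ∫ z, D.ed (u : κ → M → ℝ) v z ∂(μHE[n] : Measure M) + D.toAD.shift * ip n (u : κ → M → ℝ) v := by
  rw [AD.form_apply, AD.form_eq, i1_toW, i1_toW, en_cls D (smS u) (smS v), inner_cls (smS u) (smS v)]

end basic

universe v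
variable {n : ℕ} {M : Type v} [MetricSpace M] [CompactSpace M] [ConnectedSpace M]
    [ChartedSpace (EuclideanSpace ℝ (Fin n)) M]
    [IsManifold (𝓡 n) ∞ M]
    [RiemannianBundle (fun p : M => TangentSpace (𝓡 n) p)]
    [IsContMDiffRiemannianBundle (𝓡 n) ∞ (EuclideanSpace ℝ (Fin n))
      (fun p : M => TangentSpace (𝓡 n) p)]
    [IsRiemannianManifold (𝓡 n) M]
    [MeasurableSpace M] [BorelSpace M] [SecondCountableTopology M] [Nonempty M]
    [IsFiniteMeasureOnCompacts (μHE[n] : Measure M)]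
variable {κ : Type} [Fintype κ]

local notation "𝔼" => EuclideanSpace ℝ (Fin n)

/-- rank zero -/
theorem eq_zero_of_rank {D : Dat n M κ} (hz : ∀ a z, D.p a a z = 0) (w : D.toAD.WE) : w = 0 := by
  have hp : ∀ a b z, D.p a b z = 0 := by
    intro a b z
    have h2 : ∑ c, D.p a c z ^ 2 = 0 := by
      rw [← hz a z, ← D.idem a a z]
      exact Finset.sum_congr rfl fun c _ => by rw [D.symmp c a z, sq]
    have h3 := (Finset.sum_eq_zero_iff_of_nonneg fun c _ => sq_nonneg (D.p a c z)).1 h2 b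
      (Finset.mem_univ b)
    exact pow_eq_zero_iff two_ne_zero |>.1 h3
  apply D.toAD.jj_injective
  apply Subtype.ext
  have h1 : D.toAD.P (w : D.toAD.Amb).fst = (w : D.toAD.Amb).fst := w.2.2
  have h2 : (w : D.toAD.Amb).fst = 0 := by
    rw [← h1]
    ext a
    filter_upwards [D.toAD.coe_P (w : D.toAD.Amb).fst, Lp.coeFn_zero ℝ 2 (μHE[n] : Measure M)]
      with x e1 e2
    rw [e1 a]
    have e3 : ∀ b, D.toAD.p a b x = 0 := fun b => hp a b x
    simp only [e3, zero_mul, Finset.sum_const_zero]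
    exact e2.symm
  rw [map_zero]
  exact h2

/-- the eigenvectors of a `FormSeq` are smooth -/
theorem ev_smooth {D : Dat n M κ} (Sq : FormSeq D.toAD.form) (k : ℕ) :
    ∃ u : SmSec D, Sq.ev k = toW D u := by
  have hV : ∀ a, D.toAD.i1 (Sq.ev k) a ∈ (gradS n M).V :=
    fun a => (gradS n M).mem_V.2 ⟨_, (Sq.ev k).2.1 a⟩
  have hP : D.toAD.P (D.toAD.i1 (Sq.ev k)) = D.toAD.i1 (Sq.ev k) := (Sq.ev k).2.2
  obtain ⟨φ, hφ, he⟩ := smooth_rep D hV (lam := Sq.lam k - D.toAD.shift) (by
    intro v hv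
    have hv' : ∀ a, D.toAD.P v a ∈ (gradS n M).V := fun a => (D.toAD.P_mem hv a).1
    have h1 := Sq.eig k (D.toAD.mkW (D.toAD.P v) hv' (D.toAD.P_P v))
    rw [AD.form_apply, AD.form_eq] at h1
    have h2 : D.toAD.i1 (D.toAD.mkW (D.toAD.P v) hv' (D.toAD.P_P v)) = D.toAD.P v := rfl
    have h4 : ⟪Sq.e k, D.toAD.jj (D.toAD.mkW (D.toAD.P v) hv' (D.toAD.P_P v))⟫ =
        ⟪D.toAD.i1 (Sq.ev k), v⟫ := by
      rw [← Sq.j_ev k]
      have h5 : ⟪D.toAD.jj (Sq.ev k), D.toAD.jj (D.toAD.mkW (D.toAD.P v) hv' (D.toAD.P_P v))⟫ =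
        ⟪D.toAD.i1 (Sq.ev k), D.toAD.P v⟫ := rfl
      rw [h5, ← D.toAD.inner_P, hP]
    rw [h2, h4, ← D.toAD.inner_P, hP, integral_congr_ae (D.toAD.en_P hV hv hP)] at h1
    linarith)
  obtain ⟨u, -, hu⟩ := eq_toW D (w := Sq.ev k) (φ := φ) hφ he
  exact ⟨u, hu⟩

theorem psum_mem {D : Dat n M κ} (Sq : FormSeq D.toAD.form) (w : D.toAD.WE) (N : ℕ) :
    Sq.psum w N ∈ Set.range (toW D) := by
  have h : Sq.psum w N ∈ LinearMap.range (toW D) := by
    rw [FormSeq.psum]
    refine Submodule.sum_mem _ fun k _ => Submodule.smul_mem _ _ ?_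
    obtain ⟨u, hu⟩ := ev_smooth Sq k
    exact ⟨u, hu.symm⟩
  exact h

/-- **smooth sections are dense in `W^{1,2}(E)`** -/
theorem dense_toW (hn : 1 ≤ n) (D : Dat n M κ) : DenseRange (toW D) := by
  have := Crest.Agent.R247.HR216.properSpace_of_riemannian n M
  have := isOpenPosMeasure n M
  have : IsFiniteMeasure (μHE[n] : Measure M) := ⟨isCompact_univ.measure_lt_top⟩
  obtain ⟨k, hk0, hRic⟩ := Crest.Agent.R249.Grn324.exists_ricciLowerBound n M
  intro w
  by_cases hz : ∀ a z, D.p a a z = 0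
  · rw [eq_zero_of_rank hz w, ← map_zero (toW D)]
    exact subset_closure ⟨0, rfl⟩
  · push Not at hz
    obtain ⟨a, z, hz⟩ := hz
    obtain ⟨Sq⟩ := D.toAD.form.exists_formSeq (D.toAD.compact_jj (fried_M hn hk0 hRic))
      (D.toAD.dense_jj (gradS n M).dense_V)
      (D.toAD.not_finiteDimensional (fun x => muHE_singleton n hn x) (a := a) (x0 := z) hz)
    exact mem_closure_of_tendsto (Sq.tendsto_psum D.toAD.jj_injective w)
      (Eventually.of_forall fun N => psum_mem Sq w N)

/-- smooth sections are dense in `L²(E)` -/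
theorem dense_toH (hn : 1 ≤ n) (D : Dat n M κ) : DenseRange (toH D) := by
  have h1 : DenseRange (fun u => D.toAD.jj (toW D u)) :=
    (D.toAD.dense_jj (gradS n M).dense_V).comp (dense_toW hn D) D.toAD.jj.continuous
  exact h1

/-- the eigensection, as a smooth section -/
def sph {D : Dat n M κ} (S0 : Spec D) (k : ℕ) : SmSec D := ⟨S0.φ k, S0.smV k, S0.sec k⟩

theorem inner_self_toH_eq_zero {D : Dat n M κ} (S0 : Spec D) {f : D.toAD.HE}
    (h : ∀ k, ⟪toH D (sph S0 k), f⟫ = 0) : f = 0 := by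
  have hf := S0.pars (fun a => ((f : HH (μHE[n] : Measure M) κ) a : M → ℝ))
    (fun a => Lp.memLp _) (by
      have h1 := D.toAD.coe_P (f : HH (μHE[n] : Measure M) κ)
      rw [show D.toAD.P (f : HH (μHE[n] : Measure M) κ) = f from f.2] at h1
      filter_upwards [h1] with z e1 a
      rw [e1 a]
      rfl)
  have h2 : ∀ k, ∫ z, ∑ a, ((f : HH (μHE[n] : Measure M) κ) a : M → ℝ) z * S0.φ k a z
      ∂(μHE[n] : Measure M) = 0 := by
    intro k
    rw [← h k, real_inner_comm]
    exact (inner_HH (f : HH (μHE[n] : Measure M) κ) (cls (S0.smV k))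
      (Eventually.of_forall fun _ _ => rfl) (cls_ae (S0.smV k))).symm
  simp only [h2] at hf
  have h3 : ‖f‖ ^ 2 = ∫ z, ∑ a, ((f : HH (μHE[n] : Measure M) κ) a : M → ℝ) z ^ 2
      ∂(μHE[n] : Measure M) := by
    rw [← real_inner_self_eq_norm_sq]
    have := inner_HH (f : HH (μHE[n] : Measure M) κ) (f : HH (μHE[n] : Measure M) κ)
      (Eventually.of_forall fun _ _ => rfl) (Eventually.of_forall fun _ _ => rfl)
    rw [show ⟪f, f⟫ = ⟪(f : HH (μHE[n] : Measure M) κ), (f : HH (μHE[n] : Measure M) κ)⟫ from rfl,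
      this]
    refine integral_congr_ae (Eventually.of_forall fun z => ?_)
    exact Finset.sum_congr rfl fun a _ => (sq _).symm
  have h4 : ‖f‖ ^ 2 = 0 := by
    rw [h3, ← hf.tsum_eq]
    simp
  exact norm_eq_zero.1 (pow_eq_zero_iff two_ne_zero |>.1 h4)

/-- **every eigenbasis `Spec D` diagonalises the form** -/
def specSeq (hn : 1 ≤ n) {D : Dat n M κ} (S0 : Spec D) : FormSeq D.toAD.form :=
  have hort : Orthonormal ℝ fun k => toH D (sph S0 k) := by
    rw [orthonormal_iff_ite]
    intro k l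
    rw [inner_toH]
    exact S0.ortho k l
  have heig : ∀ (k : ℕ) (w : D.toAD.WE), D.toAD.form.a (toW D (sph S0 k)) w =
      (S0.μ k + D.toAD.shift) * ⟪toH D (sph S0 k), D.toAD.jj w⟫ := by
    intro k w
    have hc1 : Continuous fun w : D.toAD.WE => D.toAD.form.a (toW D (sph S0 k)) w :=
      (D.toAD.form.a (toW D (sph S0 k))).continuous
    have hc2 : Continuous fun w : D.toAD.WE =>
        (S0.μ k + D.toAD.shift) * ⟪toH D (sph S0 k), D.toAD.jj w⟫ :=
      continuous_const.mul (continuous_const.inner D.toAD.jj.continuous)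
    refine congrFun ((dense_toW hn D).equalizer hc1 hc2 ?_) w
    funext u
    simp only [Function.comp_apply]
    rw [form_toW, jj_toW, inner_toH]
    have h1 := S0.eig k (u : κ → M → ℝ) (smS u)
    have h2 : ∫ z, D.ed ((sph S0 k : SmSec D) : κ → M → ℝ) u z ∂(μHE[n] : Measure M) =
        S0.μ k * ip n ((sph S0 k : SmSec D) : κ → M → ℝ) u := h1
    rw [h2]
    ring
  { lam := fun k => S0.μ k + D.toAD.shift
    mono := fun k l hkl => by
      have := S0.mono hkl
      simp only
      linarith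
    nonneg := fun k => by
      have h1 := D.toAD.form.nonneg (toW D (sph S0 k))
      rw [heig, jj_toW, inner_toH] at h1
      have h2 : ip n ((sph S0 k : SmSec D) : κ → M → ℝ) (sph S0 k : SmSec D) = 1 := by
        have := S0.ortho k k
        rw [if_pos rfl] at this
        exact this
      rwa [h2, mul_one] at h1
    lim := tendsto_atTop_add_const_right _ _ S0.lim
    e := HilbertBasis.mkOfOrthogonalEqBot hort (by
      rw [Submodule.eq_bot_iff]
      intro f hf
      refine inner_self_toH_eq_zero S0 fun k => ?_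
      exact (Submodule.mem_orthogonal _ _).1 hf _ (Submodule.subset_span ⟨k, rfl⟩))
    ev := fun k => toW D (sph S0 k)
    j_ev := fun k => by
      rw [HilbertBasis.coe_mkOfOrthogonalEqBot]
      rfl
    eig := fun k w => by
      rw [HilbertBasis.coe_mkOfOrthogonalEqBot]
      exact heig k w }

theorem specSeq_e (hn : 1 ≤ n) {D : Dat n M κ} (S0 : Spec D) (k : ℕ) :
    (specSeq hn S0).e k = toH D (sph S0 k) := by
  rw [← (specSeq hn S0).j_ev k]
  rfl

theorem specSeq_ev (hn : 1 ≤ n) {D : Dat n M κ} (S0 : Spec D) (k : ℕ) :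
    (specSeq hn S0).ev k = toW D (sph S0 k) := rfl

theorem specSeq_lam (hn : 1 ≤ n) {D : Dat n M κ} (S0 : Spec D) (k : ℕ) :
    (specSeq hn S0).lam k = S0.μ k + D.toAD.shift := rfl

/-- **FS3**: the partial sums of the eigenexpansion converge in `W^{1,2}(E)` -/
theorem tendsto_eigensum (hn : 1 ≤ n) {D : Dat n M κ} (S0 : Spec D) (w : D.toAD.WE) :
    Tendsto (fun N => toW D (∑ k ∈ Finset.range N,
      ⟪toH D (sph S0 k), D.toAD.jj w⟫ • sph S0 k)) atTop (𝓝 w) := by
  refine ((specSeq hn S0).tendsto_psum D.toAD.jj_injective w).congr fun N => ?_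
  rw [FormSeq.psum, map_sum]
  refine Finset.sum_congr rfl fun k _ => ?_
  rw [map_smul, specSeq_e]
  rfl

end Crest.Agent.R235.Dens_956
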