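import Crest.Agent.R235.DgTri_778

/-!
Row 235 (S0364), block FDJ (helper778): the torus gluing lemma.

`rho` is a smooth product cut-off on `Fin b → ℝ`, equal to one for `|θ j| ≤ 1/4`, zero if some
`|θ j| ≥ 3/4`, with `∂_i rho (θ) = a_i (θ + ε_i) - a_i (θ)`.

`glue` : if `F : R^b × Q → Y` satisfies `F (θ - ε_i, q) = F (θ, A_i(θ) q)` (fibre linear,
orientation preserving, only for `1/4 ≤ θ i`), and `ζ ∘ F` vanishes where `dχ ≠ 0`, then
`∫ rho χ (∂_v ζ)(F) Dt (dF) = 0`.
-/

set_option autoImplicit false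

open MeasureTheory Set Filter Topology Module
open scoped ContDiff

noncomputable section

namespace Crest.Agent.R235.DgInv_778

open DgStk_778 DgTri_778

/-- smooth step from `1/4` to `3/4` -/
def sg (x : ℝ) : ℝ := Real.smoothTransition (2 * x - 1 / 2)

theorem sg_zero {x : ℝ} (hx : x ≤ 1 / 4) : sg x = 0 :=
  Real.smoothTransition.zero_of_nonpos (by linarith)

theorem sg_one {x : ℝ} (hx : 3 / 4 ≤ x) : sg x = 1 :=
  Real.smoothTransition.one_of_one_le (by linarith)

theorem contDiff_sg : ContDiff ℝ ∞ sg :=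
  Real.smoothTransition.contDiff.comp ((contDiff_const.mul contDiff_id).sub contDiff_const)

/-- derivative of the step -/
def sd (x : ℝ) : ℝ := deriv sg x

theorem continuous_sd : Continuous sd :=
  contDiff_sg.continuous_deriv (by simp)

theorem hasDerivAt_sg (x : ℝ) : HasDerivAt sg (sd x) x :=
  (contDiff_sg.differentiable (by simp) x).hasDerivAt

theorem sd_ne {x : ℝ} (hx : sd x ≠ 0) : 1 / 4 ≤ x ∧ x ≤ 3 / 4 := by
  constructor
  · by_contra h
    push Not at h
    apply hx
    have h1 : sg =ᶠ[𝓝 x] fun _ => 0 := by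
      filter_upwards [Iio_mem_nhds h] with y hy using sg_zero (le_of_lt hy)
    exact (h1.deriv_eq).trans (deriv_const x 0)
  · by_contra h
    push Not at h
    apply hx
    have h1 : sg =ᶠ[𝓝 x] fun _ => 1 := by
      filter_upwards [Ioi_mem_nhds h] with y hy using sg_one (le_of_lt hy)
    exact (h1.deriv_eq).trans (deriv_const x 1)

/-- the one dimensional bump -/
def r1 (x : ℝ) : ℝ := sg (x + 1) - sg x

theorem contDiff_r1 : ContDiff ℝ ∞ r1 :=
  (contDiff_sg.comp (contDiff_id.add contDiff_const)).sub contDiff_sg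

theorem r1_one {x : ℝ} (hx : |x| ≤ 1 / 4) : r1 x = 1 := by
  rw [abs_le] at hx
  unfold r1
  rw [sg_one (by linarith), sg_zero (by linarith), sub_zero]

theorem r1_ne {x : ℝ} (hx : r1 x ≠ 0) : |x| ≤ 3 / 4 := by
  by_contra h
  push Not at h
  apply hx
  unfold r1
  rcases lt_abs.1 h with h | h
  · rw [sg_one (by linarith), sg_one (by linarith), sub_self]
  · rw [sg_zero (by linarith), sg_zero (by linarith), sub_self]

theorem hasDerivAt_r1 (x : ℝ) : HasDerivAt r1 (sd (x + 1) - sd x) x :=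
  ((hasDerivAt_sg (x + 1)).comp_add_const x 1).sub (hasDerivAt_sg x)

variable {b : ℕ}

/-- the product bump -/
def rho (θ : Fin b → ℝ) : ℝ := ∏ j, r1 (θ j)

theorem contDiff_rho : ContDiff ℝ ∞ (rho (b := b)) :=
  contDiff_prod fun j _ => contDiff_r1.comp (contDiff_apply ℝ ℝ j)

theorem rho_one {θ : Fin b → ℝ} (h : ∀ j, |θ j| ≤ 1 / 4) : rho θ = 1 :=
  Finset.prod_eq_one fun j _ => r1_one (h j)

theorem rho_ne {θ : Fin b → ℝ} (h : rho θ ≠ 0) : ∀ j, |θ j| ≤ 3 / 4 := fun j =>
  r1_ne fun h0 => h (Finset.prod_eq_zero (Finset.mem_univ j) h0)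

/-- half of the derivative of `rho` -/
def aa (i : Fin b) (θ : Fin b → ℝ) : ℝ := (∏ j ∈ Finset.univ.erase i, r1 (θ j)) * sd (θ i)

theorem continuous_aa (i : Fin b) : Continuous (aa i) := by
  refine Continuous.mul ?_ (continuous_sd.comp (continuous_apply i))
  exact continuous_finsetProd _ fun j _ => contDiff_r1.continuous.comp (continuous_apply j)

theorem aa_ne {i : Fin b} {θ : Fin b → ℝ} (h : aa i θ ≠ 0) :
    1 / 4 ≤ θ i ∧ ∀ j, |θ j| ≤ 3 / 4 := by
  unfold aa at h
  have h1 := sd_ne (right_ne_zero_of_mul h)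
  refine ⟨h1.1, fun j => ?_⟩
  by_cases hj : j = i
  · subst hj
    rw [abs_le]
    constructor <;> linarith [h1.1, h1.2]
  · exact r1_ne fun h0 => left_ne_zero_of_mul h
      (Finset.prod_eq_zero (Finset.mem_erase.2 ⟨hj, Finset.mem_univ j⟩) h0)

theorem hasFDerivAt_rho (θ : Fin b → ℝ) : HasFDerivAt rho
    (∑ i : Fin b, (aa i (θ + Pi.single i 1) - aa i θ) •
      (ContinuousLinearMap.proj i : (Fin b → ℝ) →L[ℝ] ℝ)) θ := by
  have h1 : ∀ i ∈ (Finset.univ : Finset (Fin b)), HasFDerivAt (fun θ : Fin b → ℝ => r1 (θ i))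
      ((sd (θ i + 1) - sd (θ i)) • (ContinuousLinearMap.proj i : (Fin b → ℝ) →L[ℝ] ℝ)) θ := by
    intro i _
    have h2 : HasFDerivAt (fun θ : Fin b → ℝ => θ i)
        (ContinuousLinearMap.proj i : (Fin b → ℝ) →L[ℝ] ℝ) θ :=
      (ContinuousLinearMap.proj i : (Fin b → ℝ) →L[ℝ] ℝ).hasFDerivAt
    exact (hasDerivAt_r1 (θ i)).comp_hasFDerivAt θ h2
  refine (HasFDerivAt.finsetProd h1).congr_fderiv ?_
  refine Finset.sum_congr rfl fun i _ => ?_
  rw [smul_smul]
  congr 1
  unfold aa
  have h3 : ∏ j ∈ Finset.univ.erase i, r1 ((θ + Pi.single i 1 : Fin b → ℝ) j)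
      = ∏ j ∈ Finset.univ.erase i, r1 (θ j) := by
    refine Finset.prod_congr rfl fun j hj => ?_
    rw [Pi.add_apply, Pi.single_eq_of_ne (Finset.ne_of_mem_erase hj), add_zero]
  rw [h3, Pi.add_apply, Pi.single_eq_same]
  ring

variable {n : ℕ} {Q Y : Type*} [NormedAddCommGroup Q] [NormedSpace ℝ Q]
  [NormedAddCommGroup Y] [NormedSpace ℝ Y]

theorem continuous_dt {Z X : Type*} [TopologicalSpace Z] [NormedAddCommGroup X] [NormedSpace ℝ X]
    (om : Y [⋀^Fin n]→L[ℝ] ℝ) (e : Fin n → X) {G : Z → X →L[ℝ] Y} (hG : Continuous G) :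
    Continuous fun z => Dt om e (G z) := by
  refine om.cont.comp (continuous_pi fun i => ?_)
  exact hG.clm_apply continuous_const

theorem continuous_cf {Z X : Type*} [TopologicalSpace Z] [NormedAddCommGroup X] [NormedSpace ℝ X]
    (om : Y [⋀^Fin (n + 1)]→L[ℝ] ℝ) (v : Y) (e : Fin (n + 1) → X) {G : Z → X →L[ℝ] Y}
    (hG : Continuous G) (l : X →L[ℝ] ℝ) :
    Continuous fun z => Cf om v e (G z) l := by
  unfold Cf
  simp only [cfF_apply]
  refine continuous_finsetSum _ fun i _ => ?_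
  refine continuous_const.mul (continuous_const.mul ?_)
  refine om.cont.comp (continuous_pi fun k => ?_)
  refine Fin.cases ?_ (fun j => ?_) k
  · exact continuous_const
  · exact hG.clm_apply continuous_const

/-- the projection to the `i`-th base coordinate -/
def pr (Q : Type*) [NormedAddCommGroup Q] [NormedSpace ℝ Q] (i : Fin b) :
    (Fin b → ℝ) × Q →L[ℝ] ℝ :=
  (ContinuousLinearMap.proj i : (Fin b → ℝ) →L[ℝ] ℝ).comp (ContinuousLinearMap.fst ℝ _ Q)

theorem glue [FiniteDimensional ℝ Q] [MeasurableSpace Q] [BorelSpace Q] (ν : Measure Q)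
    [ν.IsAddHaarMeasure] [FiniteDimensional ℝ Y] (hY : finrank ℝ Y = n + 1)
    (e : Basis (Fin (n + 1)) ℝ ((Fin b → ℝ) × Q)) (om : Y [⋀^Fin (n + 1)]→L[ℝ] ℝ) (v : Y)
    (F : (Fin b → ℝ) × Q → Y) (hF : ContDiff ℝ 2 F)
    (χ : (Fin b → ℝ) × Q → ℝ) (hχ : ContDiff ℝ 1 χ) (ζ : Y → ℝ) (hζ : ContDiff ℝ 1 ζ)
    (K : Set ((Fin b → ℝ) × Q)) (hK : IsCompact K)
    (hsupp : ∀ x, (∀ j, |x.1 j| ≤ 3 / 4) → χ x ≠ 0 → x ∈ K)
    (hshell : ∀ x, (∀ j, |x.1 j| ≤ 3 / 4) → ζ (F x) ≠ 0 → fderiv ℝ χ x = 0)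
    (hglue : ∀ (i : Fin b) (θ : Fin b → ℝ), 1 / 4 ≤ θ i → (∀ j, |θ j| ≤ 3 / 4) →
      ∃ A : (Fin b → ℝ) → Q →L[ℝ] Q, DifferentiableAt ℝ A θ ∧
        0 < LinearMap.det (A θ : Q →ₗ[ℝ] Q) ∧ ∀ᶠ θ' in 𝓝 θ, ∀ q,
          F (θ' - Pi.single i 1, q) = F (θ', A θ' q) ∧
          χ (θ' - Pi.single i 1, q) = χ (θ', A θ' q)) :
    ∫ x, rho x.1 * χ x * (fderiv ℝ ζ (F x) v * Dt om e (fderiv ℝ F x))
      ∂((volume : Measure (Fin b → ℝ)).prod ν) = 0 := by
  set μ : Measure ((Fin b → ℝ) × Q) := (volume : Measure (Fin b → ℝ)).prod ν with hμ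
  have hFc : Continuous F := hF.continuous
  have hdF : Continuous (fderiv ℝ F) := hF.continuous_fderiv two_ne_zero
  let g : (Fin b → ℝ) × Q → ℝ := fun x => rho x.1 * χ x
  have hrho : ContDiff ℝ 1 fun x : (Fin b → ℝ) × Q => rho x.1 :=
    (contDiff_rho.of_le (by simp)).comp contDiff_fst
  have hg : ContDiff ℝ 1 g := hrho.mul hχ
  have hgK : ∀ x, g x ≠ 0 → x ∈ K := fun x hx =>
    hsupp x (rho_ne (left_ne_zero_of_mul hx)) (right_ne_zero_of_mul hx)
  have hgc : HasCompactSupport fun x => g x * ζ (F x) :=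
    HasCompactSupport.intro hK fun x hx => by
      by_contra h
      exact hx (hgK x (left_ne_zero_of_mul h))
  have hP := piola μ hY om v e F hF g hg ζ hζ hgc
  -- the boundary functions
  let k : Fin b → (Fin b → ℝ) × Q → ℝ := fun i x =>
    χ x * (ζ (F x) * Cf om v e (fderiv ℝ F x) (pr Q i))
  have hk : ∀ i, Continuous (k i) := fun i =>
    hχ.continuous.mul ((hζ.continuous.comp hFc).mul (continuous_cf om v e hdF (pr Q i)))
  have hpt : ∀ x, ζ (F x) * Cf om v e (fderiv ℝ F x) (fderiv ℝ g x)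
      = ∑ i : Fin b, (aa i (x.1 + Pi.single i 1) - aa i x.1) * k i x := by
    intro x
    have h1 : fderiv ℝ g x = χ x • (∑ i : Fin b, (aa i (x.1 + Pi.single i 1) - aa i x.1) • pr Q i)
        + rho x.1 • fderiv ℝ χ x := by
      have h2 : HasFDerivAt (fun x : (Fin b → ℝ) × Q => rho x.1)
          ((∑ i : Fin b, (aa i (x.1 + Pi.single i 1) - aa i x.1) •
            (ContinuousLinearMap.proj i : (Fin b → ℝ) →L[ℝ] ℝ)).comp
              (ContinuousLinearMap.fst ℝ _ Q)) x :=
        (hasFDerivAt_rho x.1).comp x hasFDerivAt_fst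
      have h3 := (h2.mul (hχ.differentiable one_ne_zero x).hasFDerivAt).fderiv
      refine Eq.trans (b := _) h3 ?_
      rw [add_comm]
      congr 2
      ext y <;> simp [pr]
    have h4 : ζ (F x) * (rho x.1 * Cf om v e (fderiv ℝ F x) (fderiv ℝ χ x)) = 0 := by
      by_cases h5 : rho x.1 = 0
      · rw [h5, zero_mul, mul_zero]
      · by_cases h6 : ζ (F x) = 0
        · rw [h6, zero_mul]
        · rw [hshell x (rho_ne h5) h6]
          have : Cf om v e (fderiv ℝ F x) 0 = 0 := (CfL om v e (fderiv ℝ F x)).map_zero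
          rw [this, mul_zero, mul_zero]
    rw [h1, cf_add, cf_smul, cf_smul, mul_add, h4, add_zero]
    have h7 : Cf om v e (fderiv ℝ F x)
        (∑ i : Fin b, (aa i (x.1 + Pi.single i 1) - aa i x.1) • pr Q i)
        = ∑ i : Fin b, (aa i (x.1 + Pi.single i 1) - aa i x.1) *
          Cf om v e (fderiv ℝ F x) (pr Q i) := by
      have h8 := map_sum (CfL om v e (fderiv ℝ F x))
        (fun i : Fin b => (aa i (x.1 + Pi.single i 1) - aa i x.1) • pr Q i) Finset.univ
      simp only [map_smul, smul_eq_mul] at h8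
      exact h8
    rw [h7, Finset.mul_sum, Finset.mul_sum]
    refine Finset.sum_congr rfl fun i _ => ?_
    simp only [k]
    ring
  -- integrability
  have hint1 : Integrable (fun x => g x * (fderiv ℝ ζ (F x) v * Dt om e (fderiv ℝ F x))) μ := by
    refine Continuous.integrable_of_hasCompactSupport ?_ ?_
    · refine hg.continuous.mul (Continuous.mul ?_ (continuous_dt om e hdF))
      exact ((hζ.continuous_fderiv one_ne_zero).comp hFc).clm_apply continuous_const
    · exact HasCompactSupport.intro hK fun x hx => by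
        by_contra h
        exact hx (hgK x (left_ne_zero_of_mul h))
  have hint2 : ∀ i, Integrable (fun x : (Fin b → ℝ) × Q => aa i x.1 * k i x) μ := by
    intro i
    refine Continuous.integrable_of_hasCompactSupport
      (((continuous_aa i).comp continuous_fst).mul (hk i)) ?_
    refine HasCompactSupport.intro hK fun x hx => ?_
    by_contra h
    exact hx (hsupp x (aa_ne (left_ne_zero_of_mul h)).2
      (left_ne_zero_of_mul (right_ne_zero_of_mul h)))
  have hcube : ∀ (i : Fin b) (θ : Fin b → ℝ), aa i (θ + Pi.single i 1) ≠ 0 →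
      ∀ j, |θ j| ≤ 3 / 4 := by
    intro i θ h j
    have h1 := aa_ne h
    by_cases hj : j = i
    · subst hj
      have h2 := h1.1
      have h3 := h1.2 j
      rw [Pi.add_apply, Pi.single_eq_same] at h2 h3
      rw [abs_le] at h3 ⊢
      constructor <;> linarith [h3.1, h3.2]
    · have h3 := h1.2 j
      rwa [Pi.add_apply, Pi.single_eq_of_ne hj, add_zero] at h3
  have hint3 : ∀ i, Integrable
      (fun x : (Fin b → ℝ) × Q => aa i (x.1 + Pi.single i 1) * k i x) μ := by
    intro i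
    refine Continuous.integrable_of_hasCompactSupport
      (((continuous_aa i).comp (continuous_fst.add continuous_const)).mul (hk i)) ?_
    refine HasCompactSupport.intro hK fun x hx => ?_
    by_contra h
    exact hx (hsupp x (hcube i x.1 (left_ne_zero_of_mul h))
      (left_ne_zero_of_mul (right_ne_zero_of_mul h)))
  -- the shift
  have hshift : ∀ i, ∫ x, aa i (x.1 + Pi.single i 1) * k i x ∂μ = ∫ x, aa i x.1 * k i x ∂μ := by
    intro i
    have h1 : ∫ x, aa i (x.1 + Pi.single i 1) * k i x ∂μ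
        = ∫ x : (Fin b → ℝ) × Q, aa i x.1 * k i (x.1 - Pi.single i 1, x.2) ∂μ := by
      have h2 := integral_add_right_eq_self (μ := μ)
        (fun x : (Fin b → ℝ) × Q => aa i x.1 * k i (x.1 - Pi.single i 1, x.2))
        ((Pi.single i 1, 0) : (Fin b → ℝ) × Q)
      refine Eq.trans ?_ h2
      refine integral_congr_ae (Eventually.of_forall fun x => ?_)
      simp
    have hint4 : Integrable
        (fun x : (Fin b → ℝ) × Q => aa i x.1 * k i (x.1 - Pi.single i 1, x.2)) μ := by
      have h2 := (hint3 i).comp_add_right (-((Pi.single i 1, 0) : (Fin b → ℝ) × Q))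
      refine h2.congr (Eventually.of_forall fun x => ?_)
      have h3 : x + -((Pi.single i 1, 0) : (Fin b → ℝ) × Q) = (x.1 - Pi.single i 1, x.2) := by
        refine Prod.ext ?_ ?_ <;> simp [sub_eq_add_neg]
      show aa i ((x + -((Pi.single i 1, 0) : (Fin b → ℝ) × Q)).1 + Pi.single i 1)
        * k i (x + -((Pi.single i 1, 0) : (Fin b → ℝ) × Q)) = _
      rw [h3]
      simp
    rw [h1, hμ, integral_prod _ hint4, integral_prod _ (hint2 i)]
    refine integral_congr_ae (Eventually.of_forall fun θ => ?_)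
    show ∫ q, aa i θ * k i (θ - Pi.single i 1, q) ∂ν = ∫ q, aa i θ * k i (θ, q) ∂ν
    by_cases ha : aa i θ = 0
    · simp [ha]
    rw [integral_const_mul, integral_const_mul]
    congr 1
    obtain ⟨A, hA, hdet, hev⟩ := hglue i θ (aa_ne ha).1 (aa_ne ha).2
    rw [← integral_comp_lin ν (A θ) hdet (fun q => k i (θ, q))]
    refine integral_congr_ae (Eventually.of_forall fun q => ?_)
    show k i (θ - Pi.single i 1, q)
      = LinearMap.det (A θ : Q →ₗ[ℝ] Q) * k i (θ, A θ q)
    have hself := hev.self_of_nhds q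
    -- derivatives
    let M : (Fin b → ℝ) × Q →L[ℝ] (Fin b → ℝ) × Q :=
      tri (A θ) ((fderiv ℝ A θ).flip q)
    have hM : HasFDerivAt (fun x : (Fin b → ℝ) × Q => (x.1, A x.1 x.2)) M (θ, q) := by
      refine HasFDerivAt.prodMk hasFDerivAt_fst ?_
      have h5 : HasFDerivAt (fun x : (Fin b → ℝ) × Q => A x.1)
          ((fderiv ℝ A θ).comp (ContinuousLinearMap.fst ℝ _ Q)) (θ, q) :=
        HasFDerivAt.comp (θ, q) (hA.hasFDerivAt) hasFDerivAt_fst
      refine (h5.clm_apply hasFDerivAt_snd).congr_fderiv ?_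
      ext y <;> simp
    have hD : fderiv ℝ F (θ - Pi.single i 1, q) = (fderiv ℝ F (θ, A θ q)).comp M := by
      have h6 : HasFDerivAt (fun x : (Fin b → ℝ) × Q => F (x.1, A x.1 x.2))
          ((fderiv ℝ F (θ, A θ q)).comp M) (θ, q) :=
        HasFDerivAt.comp (θ, q) (g := F)
          ((hF.differentiable two_ne_zero (θ, A θ q)).hasFDerivAt) hM
      have h7 : HasFDerivAt (fun x : (Fin b → ℝ) × Q => F (x.1 - Pi.single i 1, x.2))
          (fderiv ℝ F (θ - Pi.single i 1, q)) (θ, q) := by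
        have h8 : HasFDerivAt (fun x : (Fin b → ℝ) × Q =>
            ((x.1 - Pi.single i 1, x.2) : (Fin b → ℝ) × Q))
            (ContinuousLinearMap.id ℝ _) (θ, q) := by
          have h9 : (fun x : (Fin b → ℝ) × Q =>
              ((x.1 - Pi.single i 1, x.2) : (Fin b → ℝ) × Q))
              = fun x => x - ((Pi.single i 1, 0) : (Fin b → ℝ) × Q) := by
            funext x
            ext <;> simp
          rw [h9]
          exact (hasFDerivAt_id (θ, q)).sub_const _
        have h10 := HasFDerivAt.comp (θ, q) (g := F)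
          (f := fun x : (Fin b → ℝ) × Q => ((x.1 - Pi.single i 1, x.2) : (Fin b → ℝ) × Q))
          ((hF.differentiable two_ne_zero (θ - Pi.single i 1, q)).hasFDerivAt) h8
        rw [ContinuousLinearMap.comp_id] at h10
        exact h10
      have h11 : (fun x : (Fin b → ℝ) × Q => F (x.1 - Pi.single i 1, x.2))
          =ᶠ[𝓝 (θ, q)] fun x => F (x.1, A x.1 x.2) := by
        have h12 : ∀ᶠ x : (Fin b → ℝ) × Q in 𝓝 (θ, q), ∀ q',
            F (x.1 - Pi.single i 1, q') = F (x.1, A x.1 q') ∧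
            χ (x.1 - Pi.single i 1, q') = χ (x.1, A x.1 q') :=
          (continuous_fst.tendsto (θ, q)).eventually hev
        filter_upwards [h12] with x hx using (hx x.2).1
      exact (h7.congr_of_eventuallyEq h11.symm).unique h6
    simp only [k]
    rw [hself.1, hself.2, hD]
    have h13 : (pr Q i : (Fin b → ℝ) × Q →L[ℝ] ℝ) = (pr Q i).comp M := by
      ext y <;> simp [pr, M, tri]
    have h14 : Cf om v e ((fderiv ℝ F (θ, A θ q)).comp M) (pr Q i)
        = LinearMap.det (A θ : Q →ₗ[ℝ] Q) * Cf om v e (fderiv ℝ F (θ, A θ q)) (pr Q i) := by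
      conv_lhs => rw [h13]
      rw [cf_comp, det_tri]
    rw [h14]
    ring
  -- conclusion
  have hsum : ∫ x, ζ (F x) * Cf om v e (fderiv ℝ F x) (fderiv ℝ g x) ∂μ = 0 := by
    simp only [hpt]
    rw [integral_finsetSum]
    · refine Finset.sum_eq_zero fun i _ => ?_
      simp only [sub_mul]
      rw [integral_sub (hint3 i) (hint2 i), hshift i, sub_self]
    · intro i _
      simp only [sub_mul]
      exact (hint3 i).sub (hint2 i)
  have hint5 : Integrable (fun x => ζ (F x) * Cf om v e (fderiv ℝ F x) (fderiv ℝ g x)) μ := by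
    simp only [hpt, sub_mul]
    exact integrable_finsetSum _ fun i _ => (hint3 i).sub (hint2 i)
  rw [integral_add hint1 hint5, hsum, add_zero] at hP
  exact hP

end Crest.Agent.R235.DgInv_778
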