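import Mathlib

/-!
# R235, block FDJ, leaf (C) (helper143): the local contribution of a nondegenerate zero

`local_ne` : `F₀` continuous with the only zero `p` in the compact set `K`, differentiable at `p` with
injective derivative `L`; every smooth `S` close to `F₀` on `K` can be changed near `p` (to
`L (x - p)`) such that the degree integral is nonzero.
-/

set_option autoImplicit false

open Set Filter Topology MeasureTheory Metric
open scoped ContDiff

noncomputable section

namespace Crest.Agent.R235.DgLoc_143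

variable {X Y : Type*} [NormedAddCommGroup X] [NormedSpace ℝ X] [FiniteDimensional ℝ X]
  [MeasurableSpace X] [BorelSpace X] [NormedAddCommGroup Y] [NormedSpace ℝ Y]

theorem local_ne (μ : Measure X) [μ.IsAddHaarMeasure] (F₀ : X → Y) (hc : Continuous F₀) (p : X)
    (L : X →L[ℝ] Y) (hL : HasFDerivAt F₀ L p) (h0 : F₀ p = 0) (hinj : Function.Injective L)
    (K : Set X) (hK : IsCompact K) (U : Set X) (hU : U ∈ 𝓝 p)
    (hne : ∀ x ∈ K, F₀ x = 0 → x = p) :
    ∃ δ > 0, ∀ S : X → Y, ContDiff ℝ ∞ S → (∀ x ∈ K, ‖S x - F₀ x‖ < δ) →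
      ∃ F : X → Y, ContDiff ℝ ∞ F ∧ (∀ x ∉ U, F x = S x) ∧
        ∀ (Dt : (X →L[ℝ] Y) → ℝ), Dt L ≠ 0 → ∀ η : Y → ℝ, Continuous η → (∀ y, 0 ≤ η y) →
          0 < η 0 → (∀ y, δ ≤ ‖y‖ → η y = 0) → ∀ g : X → ℝ, Continuous g → (∀ x ∈ U, g x = 1) →
          (∀ x ∉ K, g x = 0) → (∫ x, g x * (η (F x) * Dt (fderiv ℝ F x)) ∂μ) ≠ 0 := by
  -- lower bound of `L`
  obtain ⟨c, hc0, hcL⟩ : ∃ c : ℝ, 0 < c ∧ ∀ x, c * ‖x‖ ≤ ‖L x‖ := by
    obtain ⟨C, hC, hA⟩ := L.toLinearMap.exists_antilipschitzWith (LinearMap.ker_eq_bot.2 hinj)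
    refine ⟨(C : ℝ)⁻¹, by positivity, fun x => ?_⟩
    have h1 := hA.le_mul_dist x 0
    rw [dist_zero_right, map_zero, dist_zero_right] at h1
    have hC' : (0 : ℝ) < C := by exact_mod_cast hC
    rw [inv_mul_le_iff₀ hC']
    exact h1
  -- the radii
  have hlo := hL.isLittleO.def (c := c / 4) (by positivity)
  obtain ⟨r, hr, hball⟩ := Metric.eventually_nhds_iff.1 (hlo.and hU)
  set r₂ : ℝ := r / 2 with hr₂
  set r₁ : ℝ := r / 4 with hr₁
  have hr₂0 : 0 < r₂ := by positivity
  have hr₁0 : 0 < r₁ := by positivity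
  have hr12 : r₁ < r₂ := by rw [hr₁, hr₂]; linarith
  have hest : ∀ x, ‖x - p‖ ≤ r₂ → ‖F₀ x - L (x - p)‖ ≤ c / 4 * ‖x - p‖ ∧ x ∈ U := by
    intro x hx
    have h1 : dist x p < r := by rw [dist_eq_norm]; linarith
    have h2 := hball h1
    rw [h0, sub_zero] at h2
    exact h2
  -- lower bound of `F₀` far away
  obtain ⟨m, hm, hmK⟩ : ∃ m : ℝ, 0 < m ∧ ∀ x ∈ K, r₂ ≤ ‖x - p‖ → m ≤ ‖F₀ x‖ := by
    set K' : Set X := K ∩ {x | r₂ ≤ ‖x - p‖} with hK'
    have hK'c : IsCompact K' := hK.inter_right (isClosed_le continuous_const (by fun_prop))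
    rcases K'.eq_empty_or_nonempty with he | hn
    · refine ⟨1, one_pos, fun x hx hx2 => ?_⟩
      have : x ∈ K' := ⟨hx, hx2⟩
      rw [he] at this
      exact this.elim
    · obtain ⟨x₀, hx₀, hmin⟩ := hK'c.exists_isMinOn hn hc.norm.continuousOn
      refine ⟨‖F₀ x₀‖, norm_pos_iff.2 fun h => ?_, fun x hx hx2 => hmin ⟨hx, hx2⟩⟩
      have h1 := hne x₀ hx₀.1 h
      have h2 : r₂ ≤ ‖x₀ - p‖ := hx₀.2
      rw [h1, sub_self, norm_zero] at h2
      linarith
  refine ⟨min (3 * c / 8 * r₁) (m / 2), by positivity, fun S hS hSK => ?_⟩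
  set δ : ℝ := min (3 * c / 8 * r₁) (m / 2) with hδ
  have hδ1 : δ ≤ 3 * c / 8 * r₁ := min_le_left _ _
  have hδ2 : δ ≤ m / 2 := min_le_right _ _
  have hδ0 : 0 < δ := by positivity
  let lam : ContDiffBump p := ⟨r₁, r₂, hr₁0, hr12⟩
  let F : X → Y := fun x => (1 - lam x) • S x + lam x • L (x - p)
  have hF : ContDiff ℝ ∞ F :=
    ((contDiff_const.sub lam.contDiff).smul hS).add
      (lam.contDiff.smul (L.contDiff.comp (contDiff_id.sub contDiff_const)))
  have hFU : ∀ x ∉ U, F x = S x := by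
    intro x hx
    have h1 : lam x = 0 := by
      apply lam.zero_of_le_dist
      show r₂ ≤ dist x p
      by_contra hcon
      rw [not_le, dist_eq_norm] at hcon
      exact hx (hest x hcon.le).2
    simp [F, h1]
  have hFin : ∀ x, ‖x - p‖ ≤ r₁ → F x = L (x - p) := by
    intro x hx
    have h1 : lam x = 1 := lam.one_of_mem_closedBall (by
      show dist x p ≤ r₁
      rw [dist_eq_norm]; exact hx)
    simp [F, h1]
  have hFd : ∀ x, ‖x - p‖ < r₁ → fderiv ℝ F x = L := by
    intro x hx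
    have h1 : F =ᶠ[𝓝 x] fun y => L (y - p) := by
      have h2 : ball p r₁ ∈ 𝓝 x := isOpen_ball.mem_nhds (by rw [mem_ball, dist_eq_norm]; exact hx)
      filter_upwards [h2] with y hy
      rw [mem_ball, dist_eq_norm] at hy
      exact hFin y hy.le
    rw [h1.fderiv_eq]
    have h3 : HasFDerivAt (fun y => L (y - p)) L x := by
      exact L.hasFDerivAt.comp x ((hasFDerivAt_id x).sub_const p)
    exact h3.fderiv
  have hFlow : ∀ x ∈ K, r₁ ≤ ‖x - p‖ → δ ≤ ‖F x‖ := by
    intro x hx hx1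
    have hSx := hSK x hx
    by_cases hx2 : ‖x - p‖ ≤ r₂
    · have h1 := (hest x hx2).1
      have h2 := hcL (x - p)
      have h3 : F x = L (x - p) + (1 - lam x) • (S x - L (x - p)) := by
        simp only [F, smul_sub, sub_smul, one_smul]
        abel
      have h4 : ‖(1 - lam x) • (S x - L (x - p))‖ ≤ δ + c / 4 * ‖x - p‖ := by
        rw [norm_smul, Real.norm_of_nonneg (by linarith [lam.le_one (x := x)])]
        have h5 : ‖S x - L (x - p)‖ ≤ δ + c / 4 * ‖x - p‖ := by
          have h6 : S x - L (x - p) = (S x - F₀ x) + (F₀ x - L (x - p)) := by abel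
          rw [h6]
          exact (norm_add_le _ _).trans (add_le_add hSx.le h1)
        calc (1 - lam x) * ‖S x - L (x - p)‖ ≤ 1 * ‖S x - L (x - p)‖ := by
              gcongr
              linarith [lam.nonneg (x := x)]
          _ ≤ _ := by rw [one_mul]; exact h5
      have h7 : ‖L (x - p)‖ - ‖(1 - lam x) • (S x - L (x - p))‖ ≤ ‖F x‖ := by
        rw [h3]
        have := norm_sub_norm_le (L (x - p)) (-((1 - lam x) • (S x - L (x - p))))
        rwa [norm_neg, sub_neg_eq_add] at this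
      have h8 : 3 * c / 4 * r₁ ≤ 3 * c / 4 * ‖x - p‖ := by gcongr
      linarith
    · have hx3 : r₂ ≤ ‖x - p‖ := (not_le.1 hx2).le
      have h1 : lam x = 0 := lam.zero_of_le_dist (by
        show r₂ ≤ dist x p
        rw [dist_eq_norm]; exact hx3)
      have h2 : F x = S x := by simp [F, h1]
      have h3 := hmK x hx hx3
      rw [h2]
      have h4 : ‖F₀ x‖ - ‖S x‖ ≤ ‖S x - F₀ x‖ := by
        rw [norm_sub_rev]; exact norm_sub_norm_le _ _
      linarith
  refine ⟨F, hF, hFU, fun Dt hDt η hη hη0 hηp hηδ g hg hgU hgK => ?_⟩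
  have key : (fun x => g x * (η (F x) * Dt (fderiv ℝ F x))) = fun x => Dt L * η (L (x - p)) := by
    funext x
    by_cases hx : ‖x - p‖ < r₁
    · rw [hFin x hx.le, hFd x hx, hgU x (hest x (hx.le.trans hr12.le)).2]
      ring
    · rw [not_lt] at hx
      have h1 : η (L (x - p)) = 0 := by
        apply hηδ
        have h2 := hcL (x - p)
        have h3 : c * r₁ ≤ c * ‖x - p‖ := by gcongr
        have h4 : 3 * c / 8 * r₁ ≤ c * r₁ := by
          have : 0 < c * r₁ := by positivity
          linarith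
        linarith
      rw [h1, mul_zero]
      by_cases hxK : x ∈ K
      · rw [hηδ _ (hFlow x hxK hx)]
        ring
      · rw [hgK x hxK]
        ring
  rw [key, integral_const_mul]
  refine mul_ne_zero hDt (ne_of_gt ?_)
  have hcont : Continuous fun x => η (L (x - p)) := by fun_prop
  refine hcont.integral_pos_of_hasCompactSupport_nonneg_nonzero (x := p) ?_ (fun x => hη0 _) ?_
  · refine HasCompactSupport.of_support_subset_isCompact
      (isCompact_closedBall p r₁) fun x hx => ?_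
    by_contra hcon
    rw [mem_closedBall, dist_eq_norm, not_le] at hcon
    apply hx
    show η (L (x - p)) = 0
    apply hηδ
    have h2 := hcL (x - p)
    have h3 : c * r₁ ≤ c * ‖x - p‖ := by gcongr
    have h4 : 3 * c / 8 * r₁ ≤ c * r₁ := by
      have : 0 < c * r₁ := by positivity
      linarith
    linarith
  · show η (L (p - p)) ≠ 0
    rw [sub_self, map_zero]
    exact hηp.ne'

end Crest.Agent.R235.DgLoc_143
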