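import Mathlib

/-!
Row 235 (S0364), package SW/FDJ (helper778), leaf (B), helper936: smoothing of continuous maps by
convolution, preserving all the periods exactly.
-/

set_option autoImplicit false

open Set Function Filter MeasureTheory
open scoped ContDiff Topology Convolution

namespace Crest.Agent.R235.DgSmo_936

/-- smoothing by convolution; every period of `G` (with a linear multiplier `A` on the values) is a
period of the smoothed map. -/
theorem exists_smooth {E Y : Type*} [NormedAddCommGroup E] [NormedSpace ℝ E]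
    [FiniteDimensional ℝ E] [NormedAddCommGroup Y] [NormedSpace ℝ Y] [CompleteSpace Y]
    (G : E → Y) (hG : Continuous G) (K : Set E) (hK : IsCompact K) {ε : ℝ} (hε : 0 < ε) :
    ∃ S : E → Y, ContDiff ℝ ∞ S ∧
      (∀ (p : E) (A : Y →L[ℝ] Y), (∀ x, G (x + p) = A (G x)) → ∀ x, S (x + p) = A (S x)) ∧
      ∀ x ∈ K, ‖S x - G x‖ < ε := by
  let _ : MeasurableSpace E := borel E
  have _ : BorelSpace E := ⟨rfl⟩
  let μ : Measure E := MeasureTheory.Measure.addHaar
  -- uniform continuity near `K`
  have hu := hK.uniformContinuousAt_of_continuousAt G (fun a _ => hG.continuousAt)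
    (Metric.dist_mem_uniformity (half_pos hε))
  obtain ⟨δ, hδ, h⟩ := Metric.mem_uniformity_dist.1 hu
  let φ : ContDiffBump (0 : E) := ⟨δ / 2, δ, half_pos hδ, half_lt_self hδ⟩
  refine ⟨φ.normed μ ⋆[ContinuousLinearMap.lsmul ℝ ℝ, μ] G, ?_, ?_, ?_⟩
  · exact φ.hasCompactSupport_normed.contDiff_convolution_left _ φ.contDiff_normed
      hG.locallyIntegrable
  · intro p A hA x
    have hint : Integrable (fun t => (ContinuousLinearMap.lsmul ℝ ℝ (φ.normed μ t)) (G (x - t))) μ :=
      (φ.hasCompactSupport_normed.convolutionExists_left (ContinuousLinearMap.lsmul ℝ ℝ)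
        φ.continuous_normed hG.locallyIntegrable) x
    rw [convolution_def, convolution_def, ← A.integral_comp_comm hint]
    refine integral_congr_ae (Eventually.of_forall fun t => ?_)
    have e : x + p - t = x - t + p := by abel
    simp only [ContinuousLinearMap.lsmul_apply, map_smul]
    rw [e, hA]
  · intro x hx
    have h1 := φ.dist_normed_convolution_le (μ := μ) (g := G) (x₀ := x) (ε := ε / 2)
      hG.aestronglyMeasurable (fun y hy => by
        have h2 := h (a := x) (b := y) (by rw [dist_comm]; exact hy) hx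
        rw [dist_comm]
        exact le_of_lt h2)
    rw [← dist_eq_norm]
    linarith [half_lt_self hε]

/-- LEAF (B) of FDJ. -/
theorem exists_smooth_periodic {b : ℕ} {V Y : Type*} [NormedAddCommGroup V] [NormedSpace ℝ V]
    [FiniteDimensional ℝ V] [NormedAddCommGroup Y] [NormedSpace ℝ Y] [CompleteSpace Y]
    (G : (Fin b → ℝ) → V → Y) (hG : Continuous fun x : (Fin b → ℝ) × V => G x.1 x.2)
    (hper : ∀ (n : Fin b → ℤ) (h : Fin b → ℝ) (v : V), G (h + fun i => (n i : ℝ)) v = G h v)
    (K : Set ((Fin b → ℝ) × V)) (hK : IsCompact K) {ε : ℝ} (hε : 0 < ε) :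
    ∃ S : (Fin b → ℝ) → V → Y, ContDiff ℝ ∞ (fun x : (Fin b → ℝ) × V => S x.1 x.2) ∧
      (∀ (n : Fin b → ℤ) (h : Fin b → ℝ) (v : V), S (h + fun i => (n i : ℝ)) v = S h v) ∧
      ∀ x ∈ K, ‖S x.1 x.2 - G x.1 x.2‖ < ε := by
  obtain ⟨S, hS, hp, hSG⟩ := exists_smooth (fun x : (Fin b → ℝ) × V => G x.1 x.2) hG K hK hε
  refine ⟨fun h v => S (h, v), hS, fun n h v => ?_, hSG⟩
  have h1 := hp ((fun i => (n i : ℝ)), (0 : V)) (ContinuousLinearMap.id ℝ Y) (fun x => by
    show G (x.1 + fun i => (n i : ℝ)) (x.2 + 0) = G x.1 x.2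
    rw [add_zero]
    exact hper n x.1 x.2) (h, v)
  have e : ((h, v) + ((fun i => (n i : ℝ)), (0 : V)) : (Fin b → ℝ) × V) =
      (h + fun i => (n i : ℝ), v) := by
    rw [Prod.mk_add_mk, add_zero]
  rw [e] at h1
  exact h1

end Crest.Agent.R235.DgSmo_936
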