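import Mathlib

/-! Row 235 (helper356).  Stokes on a box for the pull back of a top degree form:
for `f : R^{n+1} → F`, `dim F = n`, of class `C²`, `φ : F → ℝ` of class `C¹`, `μ` a top degree
alternating form on `F`, the total flux of `f^* (φ μ)` through the faces of a box is zero. -/

set_option autoImplicit false

open Set MeasureTheory Filter Topology

namespace Crest.Agent.R235.DgStk_356

variable {n : ℕ}

/-- the face integral of a form of degree `n` on the face `x i = c` of the box `[a,b]` -/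
noncomputable def face (a b : Fin (n + 1) → ℝ)
    (ω : (Fin (n + 1) → ℝ) → (Fin (n + 1) → ℝ) [⋀^Fin n]→L[ℝ] ℝ) (i : Fin (n + 1)) (c : ℝ) : ℝ :=
  ∫ y in Icc (a ∘ i.succAbove) (b ∘ i.succAbove),
    ω (i.insertNth c y) (fun j => Pi.single (i.succAbove j) 1)

theorem stokes_box (a b : Fin (n + 1) → ℝ) (hle : a ≤ b)
    (ω : (Fin (n + 1) → ℝ) → (Fin (n + 1) → ℝ) [⋀^Fin n]→L[ℝ] ℝ)
    (hc : ContinuousOn ω (Icc a b))
    (hd : ∀ x ∈ pi univ (fun i => Ioo (a i) (b i)), DifferentiableAt ℝ ω x)
    (h0 : ∀ x ∈ pi univ (fun i => Ioo (a i) (b i)), extDeriv ω x = 0) :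
    ∑ i : Fin (n + 1), (-1 : ℝ) ^ (i : ℕ) * (face a b ω i (b i) - face a b ω i (a i)) = 0 := by
  classical
  let ev : Fin (n + 1) → ((Fin (n + 1) → ℝ) [⋀^Fin n]→L[ℝ] ℝ) →L[ℝ] ℝ := fun i =>
    ContinuousAlternatingMap.apply ℝ _ ℝ
      (fun j => (Pi.single (i.succAbove j) (1 : ℝ) : Fin (n + 1) → ℝ))
  let g : Fin (n + 1) → (Fin (n + 1) → ℝ) → ℝ := fun i x => (-1 : ℝ) ^ (i : ℕ) * ev i (ω x)
  have hev : ∀ i x, ev i (ω x) = ω x (fun j => Pi.single (i.succAbove j) 1) := fun i x => rfl
  let S : Set (Fin (n + 1) → ℝ) := pi univ (fun i => Ioo (a i) (b i))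
  let g' : Fin (n + 1) → (Fin (n + 1) → ℝ) → (Fin (n + 1) → ℝ) →L[ℝ] ℝ := fun i x =>
    if x ∈ S then fderiv ℝ (g i) x else 0
  have hgd : ∀ x ∈ S, ∀ i, DifferentiableAt ℝ (g i) x := by
    intro x hx i
    exact (((ev i).differentiableAt.comp x (hd x hx))).const_mul _
  have hsum : ∀ x, ∑ i, g' i x (Pi.single i 1) = 0 := by
    intro x
    by_cases hx : x ∈ S
    · have h1 := h0 x hx
      have h2 := congrArg (fun u => u (fun k => (Pi.single k (1 : ℝ) : Fin (n + 1) → ℝ))) h1
      rw [extDeriv_apply (hd x hx)] at h2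
      refine Eq.trans ?_ (h2.trans rfl)
      refine Finset.sum_congr rfl fun i _ => ?_
      simp only [g', if_pos hx, g]
      have h3 : DifferentiableAt ℝ (fun x => ev i (ω x)) x :=
        (ev i).differentiableAt.comp x (hd x hx)
      have e1 : (fun x => ev i (ω x))
          = fun x => ω x (i.removeNth fun k => (Pi.single k (1 : ℝ) : Fin (n + 1) → ℝ)) := by
        funext x; rfl
      rw [fderiv_const_mul h3, e1]
      simp [zsmul_eq_mul, smul_eq_mul]
    · simp [g', hx]
  have key := integral_divergence_of_hasFDerivAt_off_countable' a b hle g g' ∅ countable_empty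
    (fun i => by
      have := (ev i).continuous.comp_continuousOn hc
      exact continuousOn_const.mul this)
    (fun x hx i => by
      have hx' : x ∈ S := hx.1
      simp only [g', if_pos hx']
      exact (hgd x hx' i).hasFDerivAt)
    (by
      simp only [hsum]
      exact integrableOn_zero)
  simp only [hsum, integral_zero] at key
  rw [key]
  refine Finset.sum_congr rfl fun i _ => ?_
  simp only [face, mul_sub, g, integral_const_mul, hev]

/-- a form of degree larger than the dimension is zero -/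
theorem alt_eq_zero {F : Type*} [NormedAddCommGroup F] [NormedSpace ℝ F] [FiniteDimensional ℝ F]
    (hF : Module.finrank ℝ F < n) (μ : F [⋀^Fin n]→L[ℝ] ℝ) : μ = 0 := by
  ext v
  show μ v = 0
  have h1 : ¬ LinearIndependent ℝ v := by
    intro h
    have := h.fintype_card_le_finrank
    simp at this
    omega
  exact μ.toAlternatingMap.map_linearDependent v h1

theorem stokes_pull {F : Type*} [NormedAddCommGroup F] [NormedSpace ℝ F] [FiniteDimensional ℝ F]
    (hF : Module.finrank ℝ F = n) (a b : Fin (n + 1) → ℝ) (hle : a ≤ b)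
    (f : (Fin (n + 1) → ℝ) → F) (hf : ∀ x ∈ Icc a b, ContDiffAt ℝ 2 f x)
    (φ : F → ℝ) (hφ : ContDiff ℝ 1 φ) (μ : F [⋀^Fin n]→L[ℝ] ℝ) :
    ∑ i : Fin (n + 1), (-1 : ℝ) ^ (i : ℕ) *
      ((∫ y in Icc (a ∘ i.succAbove) (b ∘ i.succAbove), φ (f (i.insertNth (b i) y)) *
          μ (fun j => fderiv ℝ f (i.insertNth (b i) y) (Pi.single (i.succAbove j) 1)))
        - ∫ y in Icc (a ∘ i.succAbove) (b ∘ i.succAbove), φ (f (i.insertNth (a i) y)) *
          μ (fun j => fderiv ℝ f (i.insertNth (a i) y) (Pi.single (i.succAbove j) 1))) = 0 := by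
  let η : F → F [⋀^Fin n]→L[ℝ] ℝ := fun y => φ y • μ
  have hη : ContDiff ℝ 1 η := hφ.smul contDiff_const
  let ω : (Fin (n + 1) → ℝ) → (Fin (n + 1) → ℝ) [⋀^Fin n]→L[ℝ] ℝ := fun x =>
    (η (f x)).compContinuousLinearMap (fderiv ℝ f x)
  have hωd : ∀ x ∈ Icc a b, DifferentiableAt ℝ ω x := by
    intro x hx
    have h1 : DifferentiableAt ℝ (fun x => η (f x)) x :=
      (hη.differentiable one_ne_zero (f x)).comp x ((hf x hx).differentiableAt two_ne_zero)
    have h2 : DifferentiableAt ℝ (fderiv ℝ f) x :=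
      ((hf x hx).fderiv_right (m := 1) (by norm_num)).differentiableAt one_ne_zero
    exact h1.continuousAlternatingMapCompContinuousLinearMap h2
  have key := stokes_box a b hle ω (fun x hx => (hωd x hx).continuousAt.continuousWithinAt)
    (fun x hx => hωd x ⟨fun i => (hx i (mem_univ i)).1.le, fun i => (hx i (mem_univ i)).2.le⟩)
    (by
      intro x hx
      have hx' : x ∈ Icc a b :=
        ⟨fun i => (hx i (mem_univ i)).1.le, fun i => (hx i (mem_univ i)).2.le⟩
      rw [extDeriv_pullback (r := 2) (hη.differentiable one_ne_zero (f x)) (hf x hx')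
        (by simp)]
      rw [alt_eq_zero (F := F) (n := n + 1) (by omega) (extDeriv η (f x))]
      ext v; rfl)
  exact key

end Crest.Agent.R235.DgStk_356
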