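import Mathlib

/-!
Row 235 (S0364), block FDJ (helper778): Piola's identity in weak, coordinate free form.

`Dt om e D = om (D e₁, …, D e_N)` for `D : X → Y` linear, `om` a form of degree `N` on `Y`;
`Cf om v e D ℓ = Σ (-1)^i ℓ (e_i) om (v, D e₁, …(omit i)…, D e_N)` (the cofactor functional).

`piola` : `∫ g (∂_v ζ)(F) Dt (dF) + ζ(F) Cf (dF) (dg) = 0` for `F : X → Y` of class `C²`,
`dim Y = N`, if `g · ζ ∘ F` has compact support.
-/

set_option autoImplicit false

open MeasureTheory Set Filter Topology Module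
open scoped ContDiff

noncomputable section

namespace Crest.Agent.R235.DgStk_778

variable {X Y : Type*} [NormedAddCommGroup X] [NormedSpace ℝ X]
  [NormedAddCommGroup Y] [NormedSpace ℝ Y] {n : ℕ}

/-- the determinant of `D : X → Y` with respect to `om`, `e` -/
def Dt (om : Y [⋀^Fin n]→L[ℝ] ℝ) (e : Fin n → X) (D : X →L[ℝ] Y) : ℝ := om (fun i => D (e i))

/-- the cofactor form of `D : X → Y` -/
def CfF (om : Y [⋀^Fin (n + 1)]→L[ℝ] ℝ) (v : Y) (D : X →L[ℝ] Y) (l : X →L[ℝ] ℝ) :
    X [⋀^Fin (n + 1)]→L[ℝ] ℝ :=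
  ContinuousAlternatingMap.alternatizeUncurryFin
    (l.smulRight ((om.curryLeft v).compContinuousLinearMap D))

/-- the cofactor functional of `D : X → Y` -/
def Cf (om : Y [⋀^Fin (n + 1)]→L[ℝ] ℝ) (v : Y) (e : Fin (n + 1) → X) (D : X →L[ℝ] Y)
    (l : X →L[ℝ] ℝ) : ℝ := CfF om v D l e

theorem cfF_apply (om : Y [⋀^Fin (n + 1)]→L[ℝ] ℝ) (v : Y) (D : X →L[ℝ] Y) (l : X →L[ℝ] ℝ)
    (e : Fin (n + 1) → X) :
    CfF om v D l e = ∑ i : Fin (n + 1), (-1 : ℝ) ^ (i : ℕ) *
      (l (e i) * om (Matrix.vecCons v (fun j => D (i.removeNth e j)))) := by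
  unfold CfF
  rw [ContinuousAlternatingMap.alternatizeUncurryFin_apply]
  refine Finset.sum_congr rfl fun i _ => ?_
  simp only [ContinuousLinearMap.smulRight_apply, zsmul_eq_mul]
  push_cast
  rfl

theorem cf_add (om : Y [⋀^Fin (n + 1)]→L[ℝ] ℝ) (v : Y) (e : Fin (n + 1) → X) (D : X →L[ℝ] Y)
    (l l' : X →L[ℝ] ℝ) : Cf om v e D (l + l') = Cf om v e D l + Cf om v e D l' := by
  unfold Cf
  simp only [cfF_apply, ← Finset.sum_add_distrib]
  refine Finset.sum_congr rfl fun i _ => ?_
  simp only [_root_.add_apply]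
  ring

theorem cf_smul (om : Y [⋀^Fin (n + 1)]→L[ℝ] ℝ) (v : Y) (e : Fin (n + 1) → X) (D : X →L[ℝ] Y)
    (c : ℝ) (l : X →L[ℝ] ℝ) : Cf om v e D (c • l) = c * Cf om v e D l := by
  unfold Cf
  simp only [cfF_apply, Finset.mul_sum]
  refine Finset.sum_congr rfl fun i _ => ?_
  simp only [_root_.smul_apply, smul_eq_mul]
  ring

/-- `Cf` as a linear map of the covector -/
def CfL (om : Y [⋀^Fin (n + 1)]→L[ℝ] ℝ) (v : Y) (e : Fin (n + 1) → X) (D : X →L[ℝ] Y) :
    (X →L[ℝ] ℝ) →ₗ[ℝ] ℝ where
  toFun := Cf om v e D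
  map_add' := cf_add om v e D
  map_smul' c l := by simpa using cf_smul om v e D c l

theorem alt_eq_zero {m : ℕ} [FiniteDimensional ℝ Y] (hF : finrank ℝ Y < m)
    (μ : Y [⋀^Fin m]→L[ℝ] ℝ) : μ = 0 := by
  ext v
  show μ v = 0
  have h1 : ¬ LinearIndependent ℝ v := by
    intro h
    have := h.fintype_card_le_finrank
    simp at this
    omega
  exact μ.toAlternatingMap.map_linearDependent v h1

/-- the integral of an exact compactly supported form is zero -/
theorem int_extDeriv [MeasurableSpace X] [BorelSpace X] [FiniteDimensional ℝ X]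
    (μ : Measure X) [μ.IsAddHaarMeasure] (α : X → X [⋀^Fin n]→L[ℝ] ℝ) (hd : Differentiable ℝ α)
    (e : Fin (n + 1) → X) (hα : ∀ i : Fin (n + 1), ContDiff ℝ 1 fun x => α x (i.removeNth e))
    (hc : HasCompactSupport α) : ∫ x, extDeriv α x e ∂μ = 0 := by
  let ev : Fin (n + 1) → (X [⋀^Fin n]→L[ℝ] ℝ) →L[ℝ] ℝ := fun i =>
    ContinuousAlternatingMap.apply ℝ _ ℝ (i.removeNth e)
  have h1 : ∀ x, extDeriv α x e
      = ∑ i : Fin (n + 1), (-1 : ℝ) ^ (i : ℕ) * fderiv ℝ (fun x => ev i (α x)) x (e i) := by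
    intro x
    rw [extDeriv_apply (hd x)]
    refine Finset.sum_congr rfl fun i _ => ?_
    simp only [zsmul_eq_mul]
    push_cast
    rfl
  have h2 : ∀ i, ContDiff ℝ 1 (fun x => ev i (α x)) := fun i => hα i
  have h3 : ∀ i, HasCompactSupport (fun x => ev i (α x)) := fun i =>
    hc.comp_left (map_zero (ev i))
  have h4 : ∀ i, Integrable (fun x => fderiv ℝ (fun x => ev i (α x)) x (e i)) μ := by
    intro i
    refine Continuous.integrable_of_hasCompactSupport ?_ ?_
    · exact ((h2 i).continuous_fderiv one_ne_zero).clm_apply continuous_const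
    · exact (h3 i).fderiv_apply ℝ (e i)
  simp only [h1]
  rw [integral_finsetSum _ fun i _ => (h4 i).const_mul _]
  refine Finset.sum_eq_zero fun i _ => ?_
  rw [integral_const_mul]
  have h5 := integral_mul_fderiv_eq_neg_fderiv_mul_of_integrable (μ := μ) (𝕜 := ℝ)
    (f := fun _ : X => (1 : ℝ)) (g := fun x => ev i (α x)) (v := e i)
    (by simp) (by simpa using h4 i)
    (by
      simp only [one_mul]
      exact (h2 i).continuous.integrable_of_hasCompactSupport (h3 i))
    (fun x _ => differentiableAt_const _)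
    (fun x _ => (h2 i).differentiable one_ne_zero x)
  simp only [one_mul, fderiv_fun_const, Pi.zero_apply, _root_.zero_apply, zero_mul,
    integral_zero, neg_zero] at h5
  rw [h5, mul_zero]

theorem extDeriv_mul (g : X → ℝ) (B : X → X [⋀^Fin n]→L[ℝ] ℝ) (x : X)
    (hg : DifferentiableAt ℝ g x) (hB : DifferentiableAt ℝ B x) :
    extDeriv (fun x => g x • B x) x = g x • extDeriv B x
      + ContinuousAlternatingMap.alternatizeUncurryFin ((fderiv ℝ g x).smulRight (B x)) := by
  unfold extDeriv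
  rw [fderiv_fun_smul hg hB, ContinuousAlternatingMap.alternatizeUncurryFin_add,
    ContinuousAlternatingMap.alternatizeUncurryFin_smul]

/-- `dζ ∧ ι_v om = (∂_v ζ) om` in top degree -/
theorem ext_contr [FiniteDimensional ℝ Y] (hY : finrank ℝ Y = n + 1)
    (om : Y [⋀^Fin (n + 1)]→L[ℝ] ℝ) (v : Y) (l : Y →L[ℝ] ℝ) :
    ContinuousAlternatingMap.alternatizeUncurryFin (l.smulRight (om.curryLeft v)) = l v • om := by
  have h0 : ContinuousAlternatingMap.alternatizeUncurryFin (l.smulRight om) = 0 :=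
    alt_eq_zero (by omega) _
  ext y
  have h1 := congrArg (fun w => w (Matrix.vecCons v y)) h0
  have h5 : (0 : Y [⋀^Fin (n + 2)]→L[ℝ] ℝ) (Matrix.vecCons v y) = 0 := rfl
  simp only [ContinuousAlternatingMap.alternatizeUncurryFin_apply] at h1
  rw [h5, Fin.sum_univ_succ] at h1
  rw [ContinuousAlternatingMap.alternatizeUncurryFin_apply]
  simp only [ContinuousLinearMap.smulRight_apply, zsmul_eq_mul, Fin.val_zero, pow_zero,
    Int.cast_one, one_mul, Fin.val_succ, Matrix.cons_val_zero, Matrix.cons_val_succ,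
    ContinuousAlternatingMap.smul_apply, ContinuousAlternatingMap.curryLeft_apply_apply,
    smul_eq_mul, Fin.removeNth_zero] at h1 ⊢
  have h2 : ∀ i : Fin (n + 1), (i.succ.removeNth (Matrix.vecCons v y) : Fin (n + 1) → Y)
      = Matrix.vecCons v (i.removeNth y) := by
    intro i
    funext k
    refine Fin.cases ?_ (fun j => ?_) k
    · rfl
    · simp [Fin.removeNth]
  have h3 : (Fin.tail (Matrix.vecCons v y)) = y := rfl
  simp only [h2, h3] at h1
  have h4 : ∀ i : Fin (n + 1), (((-1 : ℤ) ^ ((i : ℕ) + 1) : ℤ) : ℝ)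
      = -(((-1 : ℤ) ^ (i : ℕ) : ℤ) : ℝ) := by
    intro i
    rw [pow_succ]
    push_cast
    ring
  simp only [h4, neg_mul, Finset.sum_neg_distrib] at h1
  linarith

/-- **Piola's identity**, weak form -/
theorem piola [MeasurableSpace X] [BorelSpace X] [FiniteDimensional ℝ X]
    (μ : Measure X) [μ.IsAddHaarMeasure] [FiniteDimensional ℝ Y] (hY : finrank ℝ Y = n + 1)
    (om : Y [⋀^Fin (n + 1)]→L[ℝ] ℝ) (v : Y) (e : Fin (n + 1) → X)
    (F : X → Y) (hF : ContDiff ℝ 2 F) (g : X → ℝ) (hg : ContDiff ℝ 1 g)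
    (ζ : Y → ℝ) (hζ : ContDiff ℝ 1 ζ) (hc : HasCompactSupport fun x => g x * ζ (F x)) :
    ∫ x, (g x * (fderiv ℝ ζ (F x) v * Dt om e (fderiv ℝ F x))
      + ζ (F x) * Cf om v e (fderiv ℝ F x) (fderiv ℝ g x)) ∂μ = 0 := by
  let β : Y → Y [⋀^Fin n]→L[ℝ] ℝ := fun y => ζ y • om.curryLeft v
  have hβ : ContDiff ℝ 1 β := hζ.smul contDiff_const
  let B : X → X [⋀^Fin n]→L[ℝ] ℝ := fun x => (β (F x)).compContinuousLinearMap (fderiv ℝ F x)
  have hF1 : ContDiff ℝ 1 (fderiv ℝ F) := hF.fderiv_right (by norm_num)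
  have hFd : Differentiable ℝ F := hF.differentiable two_ne_zero
  have hB : Differentiable ℝ B := by
    intro x
    have h1 : DifferentiableAt ℝ (fun x => β (F x)) x :=
      (hβ.differentiable one_ne_zero (F x)).comp x (hFd x)
    exact h1.continuousAlternatingMapCompContinuousLinearMap (hF1.differentiable one_ne_zero x)
  have hB1 : ∀ i : Fin (n + 1), ContDiff ℝ 1 fun x => B x (i.removeNth e) := by
    intro i
    have h1 : ∀ x, B x (i.removeNth e)
        = ζ (F x) * om (Matrix.vecCons v (fun j => fderiv ℝ F x (i.removeNth e j))) := fun x => rfl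
    simp only [h1]
    refine (hζ.comp (hF.of_le (by norm_num))).mul ?_
    have h2 : ContDiff ℝ 1 fun x : X =>
        (Matrix.vecCons v (fun j => fderiv ℝ F x (i.removeNth e j)) : Fin (n + 1) → Y) := by
      rw [contDiff_pi]
      intro k
      refine Fin.cases ?_ (fun j => ?_) k
      · exact contDiff_const
      · exact hF1.clm_apply contDiff_const
    exact om.toContinuousMultilinearMap.contDiff.comp h2
  let α : X → X [⋀^Fin n]→L[ℝ] ℝ := fun x => g x • B x
  have hα : Differentiable ℝ α := (hg.differentiable one_ne_zero).smul hB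
  have hα1 : ∀ i : Fin (n + 1), ContDiff ℝ 1 fun x => α x (i.removeNth e) := fun i =>
    hg.mul (hB1 i)
  have hαc : HasCompactSupport α := by
    refine hc.mono' ?_
    refine (Function.support_subset_iff'.2 ?_).trans (subset_tsupport _)
    intro x hx
    have h1 : g x * ζ (F x) = 0 := by
      by_contra h
      exact hx h
    show g x • B x = 0
    have h2 : B x = ζ (F x) • (om.curryLeft v).compContinuousLinearMap (fderiv ℝ F x) := by
      ext w; rfl
    rw [h2, smul_smul, h1, zero_smul]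
  rw [← int_extDeriv μ α hα e hα1 hαc]
  refine integral_congr_ae (Eventually.of_forall fun x => ?_)
  show _ = extDeriv (fun x => g x • B x) x e
  rw [extDeriv_mul g B x (hg.differentiable one_ne_zero x) (hB x)]
  have h3 : extDeriv B x = (extDeriv β (F x)).compContinuousLinearMap (fderiv ℝ F x) :=
    extDeriv_pullback (r := 2) (hβ.differentiable one_ne_zero (F x)) hF.contDiffAt (by simp)
  have h4 : extDeriv β (F x) = fderiv ℝ ζ (F x) v • om := by
    have h5 : fderiv ℝ β (F x) = (fderiv ℝ ζ (F x)).smulRight (om.curryLeft v) := by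
      show fderiv ℝ (fun y => ζ y • om.curryLeft v) (F x) = _
      exact ((hζ.differentiable one_ne_zero (F x)).hasFDerivAt.smul_const (om.curryLeft v)).fderiv
    unfold extDeriv
    rw [h5]
    exact ext_contr hY om v _
  have h6 : ContinuousAlternatingMap.alternatizeUncurryFin ((fderiv ℝ g x).smulRight (B x)) e
      = ζ (F x) * Cf om v e (fderiv ℝ F x) (fderiv ℝ g x) := by
    unfold Cf
    rw [cfF_apply, Finset.mul_sum, ContinuousAlternatingMap.alternatizeUncurryFin_apply]
    refine Finset.sum_congr rfl fun i _ => ?_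
    simp only [ContinuousLinearMap.smulRight_apply, zsmul_eq_mul]
    have h7 : B x (i.removeNth e)
        = ζ (F x) * om (Matrix.vecCons v (fun j => fderiv ℝ F x (i.removeNth e j))) := rfl
    rw [ContinuousAlternatingMap.smul_apply, h7]
    simp only [smul_eq_mul]
    push_cast
    ring
  rw [h3, h4, ContinuousAlternatingMap.add_apply, h6]
  congr 1

end Crest.Agent.R235.DgStk_778
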