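import Crest.Agent.R235.DgStk_778

/-!
Row 235 (S0364), block FDJ (helper778): top forms and triangular maps, linear change of variables.
-/

set_option autoImplicit false

open MeasureTheory Set Filter Topology Module
open scoped ContDiff

noncomputable section

namespace Crest.Agent.R235.DgTri_778

open DgStk_778

section alg

variable {X Y : Type*} [NormedAddCommGroup X] [NormedSpace ℝ X]
  [NormedAddCommGroup Y] [NormedSpace ℝ Y] {n : ℕ}

/-- a top form composed with a linear map -/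
theorem top_comp (e : Basis (Fin n) ℝ X) (w : X [⋀^Fin n]→L[ℝ] ℝ) (M : X →L[ℝ] X) :
    w (fun i => M (e i)) = LinearMap.det (M : X →ₗ[ℝ] X) * w e := by
  have h1 := AlternatingMap.eq_smul_basis_det e w.toAlternatingMap
  have h2 := congrArg (fun u : X [⋀^Fin n]→ₗ[ℝ] ℝ => u (fun i => M (e i))) h1
  have h3 := e.det_comp (M : X →ₗ[ℝ] X) e
  rw [e.det_self, mul_one] at h3
  have h4 : e.det (fun i => M (e i)) = LinearMap.det (M : X →ₗ[ℝ] X) := h3
  have h5 : (w.toAlternatingMap) (fun i => M (e i)) = w (fun i => M (e i)) := rfl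
  rw [← h5, h2]
  show (w.toAlternatingMap e • e.det) (fun i => M (e i)) = _
  rw [AlternatingMap.smul_apply, h4, smul_eq_mul, mul_comm]
  rfl

theorem dt_comp (e : Basis (Fin n) ℝ X) (om : Y [⋀^Fin n]→L[ℝ] ℝ) (D : X →L[ℝ] Y)
    (M : X →L[ℝ] X) :
    Dt om e (D.comp M) = LinearMap.det (M : X →ₗ[ℝ] X) * Dt om e D :=
  top_comp e (om.compContinuousLinearMap D) M

theorem cf_comp (e : Basis (Fin (n + 1)) ℝ X) (om : Y [⋀^Fin (n + 1)]→L[ℝ] ℝ) (v : Y)
    (D : X →L[ℝ] Y) (l : X →L[ℝ] ℝ) (M : X →L[ℝ] X) :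
    Cf om v e (D.comp M) (l.comp M) = LinearMap.det (M : X →ₗ[ℝ] X) * Cf om v e D l := by
  unfold Cf
  rw [← top_comp e (CfF om v D l) M, cfF_apply, cfF_apply]
  rfl

/-- nonvanishing of the determinant of an isomorphism -/
theorem dt_ne [FiniteDimensional ℝ Y] (e : Basis (Fin n) ℝ X) (om : Y [⋀^Fin n]→L[ℝ] ℝ)
    (hom : om ≠ 0) (hY : finrank ℝ Y = n) (D : X →L[ℝ] Y) (hD : Function.Injective D) :
    Dt om e D ≠ 0 := by
  have : FiniteDimensional ℝ X := e.finiteDimensional_of_finite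
  have hX : finrank ℝ X = n := by rw [finrank_eq_card_basis e]; simp
  let E : X ≃ₗ[ℝ] Y := LinearMap.linearEquivOfInjective (D : X →ₗ[ℝ] Y) hD (hX.trans hY.symm)
  have h1 : om.toAlternatingMap ≠ 0 := by
    intro h
    apply hom
    ext v
    exact congrArg (fun u : Y [⋀^Fin n]→ₗ[ℝ] ℝ => u v) h
  have h2 := (AlternatingMap.map_basis_ne_zero_iff (e.map E) om.toAlternatingMap).2 h1
  have h3 : (⇑(e.map E) : Fin n → Y) = fun i => D (e i) := by
    funext i
    simp [E]
  rw [h3] at h2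
  exact h2

/-- there is a nonzero top form -/
theorem exists_top [FiniteDimensional ℝ Y] (hY : finrank ℝ Y = n) :
    ∃ om : Y [⋀^Fin n]→L[ℝ] ℝ, om ≠ 0 := by
  let b : Basis (Fin n) ℝ Y := (Module.finBasis ℝ Y).reindex (finCongr hY)
  have hc : Continuous fun v : Fin n → Y => b.det v := by
    simp only [Basis.det_apply]
    refine Continuous.matrix_det ?_
    refine continuous_matrix fun i j => ?_
    simp only [Basis.toMatrix_apply]
    exact (LinearMap.continuous_of_finiteDimensional (b.coord i)).comp (continuous_apply j)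
  let om : Y [⋀^Fin n]→L[ℝ] ℝ := { b.det with cont := hc }
  refine ⟨om, fun h => ?_⟩
  have h1 : om b = 1 := b.det_self
  rw [h] at h1
  exact zero_ne_one h1

/-- the triangular map `(τ, κ) ↦ (τ, A κ + B τ)` -/
def tri {U V : Type*} [NormedAddCommGroup U] [NormedSpace ℝ U] [NormedAddCommGroup V]
    [NormedSpace ℝ V] (A : V →L[ℝ] V) (B : U →L[ℝ] V) : U × V →L[ℝ] U × V :=
  (ContinuousLinearMap.fst ℝ U V).prod
    (A.comp (ContinuousLinearMap.snd ℝ U V) + B.comp (ContinuousLinearMap.fst ℝ U V))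

variable {U V : Type*} [NormedAddCommGroup U] [NormedSpace ℝ U] [NormedAddCommGroup V]
  [NormedSpace ℝ V]

theorem det_tri [FiniteDimensional ℝ U] [FiniteDimensional ℝ V] (A : V →L[ℝ] V) (B : U →L[ℝ] V) :
    LinearMap.det (tri A B : U × V →ₗ[ℝ] U × V) = LinearMap.det (A : V →ₗ[ℝ] V) := by
  -- shears have determinant one
  have h1 : ∀ B : U →L[ℝ] V, LinearMap.det (tri (ContinuousLinearMap.id ℝ V) B : U × V →ₗ[ℝ] U × V)
      * LinearMap.det (tri (ContinuousLinearMap.id ℝ V) B : U × V →ₗ[ℝ] U × V)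
      = LinearMap.det (tri (ContinuousLinearMap.id ℝ V) ((2 : ℝ) • B) : U × V →ₗ[ℝ] U × V) := by
    intro B
    rw [← LinearMap.det_comp]
    congr 1
    ext x <;> simp [tri, two_smul]
  have h2 : ∀ B : U →L[ℝ] V,
      LinearMap.det (tri (ContinuousLinearMap.id ℝ V) ((2 : ℝ) • B) : U × V →ₗ[ℝ] U × V)
      = LinearMap.det (tri (ContinuousLinearMap.id ℝ V) B : U × V →ₗ[ℝ] U × V) := by
    intro B
    let s : (U × V) ≃ₗ[ℝ] (U × V) :=
      (LinearEquiv.refl ℝ U).prodCongr (LinearEquiv.smulOfNeZero ℝ V (2 : ℝ) two_ne_zero)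
    rw [← LinearMap.det_conj (tri (ContinuousLinearMap.id ℝ V) B : U × V →ₗ[ℝ] U × V) s]
    congr 1
    refine LinearMap.ext fun x => ?_
    have h3 : s.symm x = (x.1, (2 : ℝ)⁻¹ • x.2) := by
      rw [LinearEquiv.symm_apply_eq]
      simp [s]
    simp only [LinearMap.comp_apply, LinearEquiv.coe_coe, h3]
    simp [s, tri, smul_smul]
  have h3 : ∀ B : U →L[ℝ] V,
      LinearMap.det (tri (ContinuousLinearMap.id ℝ V) B : U × V →ₗ[ℝ] U × V) = 1 := by
    intro B
    have h4 : LinearMap.det (tri (ContinuousLinearMap.id ℝ V) B : U × V →ₗ[ℝ] U × V) ≠ 0 := by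
      intro h
      have h5 : LinearMap.det (tri (ContinuousLinearMap.id ℝ V) (-B) : U × V →ₗ[ℝ] U × V)
          * LinearMap.det (tri (ContinuousLinearMap.id ℝ V) B : U × V →ₗ[ℝ] U × V) = 1 := by
        rw [← LinearMap.det_comp]
        have : (tri (ContinuousLinearMap.id ℝ V) (-B) : U × V →ₗ[ℝ] U × V) ∘ₗ
            (tri (ContinuousLinearMap.id ℝ V) B : U × V →ₗ[ℝ] U × V) = LinearMap.id := by
          ext x <;> simp [tri]
        rw [this, LinearMap.det_id]
      rw [h, mul_zero] at h5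
      exact zero_ne_one h5
    have h6 := (h1 B).trans (h2 B)
    exact mul_left_cancel₀ h4 (by rw [h6, mul_one])
  have h7 : (tri A B : U × V →ₗ[ℝ] U × V)
      = (tri (ContinuousLinearMap.id ℝ V) B : U × V →ₗ[ℝ] U × V) ∘ₗ
        (LinearMap.prodMap (LinearMap.id : U →ₗ[ℝ] U) (A : V →ₗ[ℝ] V)) := by
    ext x <;> simp [tri]
  rw [h7, LinearMap.det_comp, h3, one_mul, LinearMap.det_prodMap, LinearMap.det_id, one_mul]

end alg

section cov

variable {V : Type*} [NormedAddCommGroup V] [NormedSpace ℝ V] [FiniteDimensional ℝ V]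
  [MeasurableSpace V] [BorelSpace V]

/-- linear change of variables -/
theorem integral_comp_lin (μ : Measure V) [μ.IsAddHaarMeasure] (A : V →L[ℝ] V)
    (hA : 0 < LinearMap.det (A : V →ₗ[ℝ] V)) (k : V → ℝ) :
    ∫ q, LinearMap.det (A : V →ₗ[ℝ] V) * k (A q) ∂μ = ∫ q, k q ∂μ := by
  have hemb : MeasurableEmbedding A := by
    let E : V ≃ₗ[ℝ] V := LinearEquiv.ofIsUnitDet (f := (A : V →ₗ[ℝ] V)) (v := Module.finBasis ℝ V)
      (v' := Module.finBasis ℝ V) (by
        rw [LinearMap.det_toMatrix]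
        exact hA.ne'.isUnit)
    exact E.toContinuousLinearEquiv.toHomeomorph.measurableEmbedding
  rw [integral_const_mul, ← hemb.integral_map]
  have h1 := Measure.map_linearMap_addHaar_eq_smul_addHaar μ hA.ne'
  have h2 : Measure.map (⇑A) μ
      = ENNReal.ofReal |(LinearMap.det (A : V →ₗ[ℝ] V))⁻¹| • μ := h1
  rw [h2, integral_smul_measure, ENNReal.toReal_ofReal (abs_nonneg _), abs_of_pos (inv_pos.2 hA),
    smul_eq_mul, ← mul_assoc, mul_inv_cancel₀ hA.ne', one_mul]

end cov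

end Crest.Agent.R235.DgTri_778
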