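import Crest.Agent.R235.Props_844

/-!
Row 235 (S0364), helper723: the EXACT inputs of the assembly `DICH` (file `Dich_723.lean`):

`HZLAT` (block HZ, 524/470/692/453), `H1BAS`, `CUPHZ` (524/692), `SIG235`, `EVEN235` (IND, 167),
`BPLUS` (SW, 53), `FAM4` (307), `EVENCLASS` (LAT, 283/785)  ⇒  `DICH`.
-/

set_option autoImplicit false
set_option maxSynthPendingDepth 3

open Set Function Filter MeasureTheory
open scoped Manifold ContDiff Topology

universe u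

namespace Crest.Agent.R235.DichProps_723

open Crest.Agent.R240 Crest.Agent.R240.Ch Crest.Agent.R240.Int

noncomputable section

section Defs

variable {M : Type u} [TopologicalSpace M] [T2Space M] [CompactSpace M]
  [ChartedSpace E4 M] [IsManifold 𝓘(ℝ, E4) ∞ M]

variable (M) in
/-- the first de Rham cohomology has dimension `b` (closed one-forms have a basis of length `b`
modulo the differentials of functions). -/
def HasB1 (b : ℕ) : Prop :=
  ∃ s : Fin b → F1 E4 M, (∀ i, Closed1 (s i)) ∧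
    (∀ r : F1 E4 M, Closed1 r → ∃ (c : Fin b → ℝ) (f : M → ℝ), SmoothF E4 f ∧
      r = (∑ i, c i • s i) + dF f) ∧
    ∀ (c : Fin b → ℝ) (f : M → ℝ), SmoothF E4 f → (∑ i, c i • s i) = dF f → c = 0

/-- `s` is an integral closed one-form: `2πi s = u⁻¹ du` for a smooth `u : M → U(1)`
(same text as in the statement (H1-1) of block HZ). -/
def IsInt1 (s : F1 E4 M) : Prop :=
  ∃ u : M → ℂ, ContMDiff 𝓘(ℝ, E4) 𝓘(ℝ, ℂ) ∞ u ∧ (∀ x, ‖u x‖ = 1) ∧
    ∀ (x : M) (v : E4), fderiv ℝ (fun y : E4 => u ((chartAt E4 x).symm y)) (chartAt E4 x x) v =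
      2 * Real.pi * Complex.I * ((at1 s x v : ℝ) : ℂ) * u x

/-- an integral basis of `H¹`. -/
structure H1Bas {b : ℕ} (s : Fin b → F1 E4 M) : Prop where
  closed : ∀ k, Closed1 (s k)
  int : ∀ k, IsInt1 (s k)
  span : ∀ r : F1 E4 M, Closed1 r → ∃ x : Fin b → ℝ,
    (∃ f : M → ℝ, SmoothF E4 f ∧ r = (∑ k, x k • s k) + dF f) ∧
      (IsInt1 r ↔ ∀ k, ∃ m : ℤ, x k = m)
  indep : ∀ (x : Fin b → ℝ) (f : M → ℝ), SmoothF E4 f → (∑ k, x k • s k) = dF f → x = 0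

end Defs

/-- H1BAS (block HZ, helper524/692): integral bases of `H¹` exist. -/
def H1BAS : Prop :=
  ∀ (M : Type u) [TopologicalSpace M] [T2Space M] [CompactSpace M] [ConnectedSpace M]
    [ChartedSpace E4 M] [IsManifold 𝓘(ℝ, E4) ∞ M], ∃ (b : ℕ) (s : Fin b → F1 E4 M), H1Bas s

/-- CUPHZ (block HZ, helper524): products of integral one-forms have integral classes. -/
def CUPHZ : Prop :=
  ∀ (M : Type u) [TopologicalSpace M] [T2Space M] [CompactSpace M] [ConnectedSpace M]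
    [ChartedSpace E4 M] [IsManifold 𝓘(ℝ, E4) ∞ M] (w : Trip M), Pos3 w →
    ∀ s t : F1 E4 M, Closed1 s → Closed1 t → IsInt1 s → IsInt1 t →
    ∀ a : Z2 M, (a.1.1 : F2 E4 M) = wedG s t → cls a ∈ HZ M

/-- SIG235 (package IND, helper167): Betti numbers, splitting of `H²`, `2χ + 3σ = 0` and parity. -/
def SIG235 : Prop :=
  ∀ (M : Type u) [TopologicalSpace M] [T2Space M] [CompactSpace M] [ConnectedSpace M]
    [ChartedSpace E4 M] [IsManifold 𝓘(ℝ, E4) ∞ M] (w : Trip M), Pos3 w →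
    ∃ (b1 bp bm : ℕ) (P N : Submodule ℝ (H2 M)), HasB1 M b1 ∧
      FiniteDimensional ℝ (H2 M) ∧ P ⊔ N = ⊤ ∧
      Module.finrank ℝ P = bp ∧ Module.finrank ℝ N = bm ∧
      (∀ x ∈ P, x ≠ 0 → 0 < ip (w 0) x x) ∧ (∀ x ∈ N, x ≠ 0 → ip (w 0) x x < 0) ∧
      (∀ x ∈ P, ∀ y ∈ N, ip (w 0) x y = 0) ∧
      5 * bp + 4 = 4 * b1 + bm ∧ (4 : ℤ) ∣ 1 - b1 + bp

/-- EVEN235 (package IND, helper167): the intersection form is even on integral classes. -/
def EVEN235 : Prop :=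
  ∀ (M : Type u) [TopologicalSpace M] [T2Space M] [CompactSpace M] [ConnectedSpace M]
    [ChartedSpace E4 M] [IsManifold 𝓘(ℝ, E4) ∞ M] (w : Trip M), Pos3 w →
    ∀ c ∈ HZ M, ∃ n : ℤ, ip (w 0) c c = 2 * n

/-- FAM4 (block FAM, helper307): for `b₁ = 4` an integral basis of `H¹` has product `± 1`. -/
def FAM4 : Prop :=
  ∀ (M : Type u) [TopologicalSpace M] [T2Space M] [CompactSpace M] [ConnectedSpace M]
    [ChartedSpace E4 M] [IsManifold 𝓘(ℝ, E4) ∞ M] (w : Trip M), Pos3 w →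
    ∀ s : Fin 4 → F1 E4 M, H1Bas s → ∀ a b : Z2 M, (a.1.1 : F2 E4 M) = wedG (s 0) (s 1) →
    (b.1.1 : F2 E4 M) = wedG (s 2) (s 3) → |pI (w 0) a b| = 1

/-- FAM4W (weak form of FAM4: enough for the real torus type `T4R`). -/
def FAM4W : Prop :=
  ∀ (M : Type u) [TopologicalSpace M] [T2Space M] [CompactSpace M] [ConnectedSpace M]
    [ChartedSpace E4 M] [IsManifold 𝓘(ℝ, E4) ∞ M] (w : Trip M), Pos3 w →
    ∀ s : Fin 4 → F1 E4 M, H1Bas s → ∀ a b : Z2 M, (a.1.1 : F2 E4 M) = wedG (s 0) (s 1) →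
    (b.1.1 : F2 E4 M) = wedG (s 2) (s 3) → pI (w 0) a b ≠ 0

/-- EVENCLASS (package LAT, helper283/785): even indefinite unimodular forms over `ℤ` are
determined by rank and signature. -/
def EVENCLASS : Prop :=
  ∀ (n : ℕ) (A B : Matrix (Fin n) (Fin n) ℤ), A.IsSymm → B.IsSymm → IsUnit A.det → IsUnit B.det →
    (∀ i, Even (A i i)) → (∀ i, Even (B i i)) →
    (∃ T : Matrix (Fin n) (Fin n) ℝ, IsUnit T.det ∧
      T.transpose * A.map (fun z : ℤ => (z : ℝ)) * T = B.map (fun z : ℤ => (z : ℝ))) →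
    (∃ x : Fin n → ℝ, 0 < x ⬝ᵥ (A.map (fun z : ℤ => (z : ℝ))).mulVec x) →
    (∃ x : Fin n → ℝ, x ⬝ᵥ (A.map (fun z : ℤ => (z : ℝ))).mulVec x < 0) →
    ∃ P : Matrix (Fin n) (Fin n) ℤ, IsUnit P.det ∧ P.transpose * A * P = B

section T4R

variable {M : Type u} [TopologicalSpace M] [T2Space M] [CompactSpace M]
  [ChartedSpace E4 M] [IsManifold 𝓘(ℝ, E4) ∞ M]

/-- real torus type: like `T4Type`, but the integral classes only form `3U` and the four one-forms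
are real with product `≠ 0`. -/
def T4R (F : Z2 M) : Prop :=
  (∃ s : Fin 4 → F1 E4 M, (∀ i, Closed1 (s i)) ∧
    (∀ r : F1 E4 M, Closed1 r → ∃ (c : Fin 4 → ℝ) (f : M → ℝ), SmoothF E4 f ∧
      r = (∑ i, c i • s i) + dF f) ∧
    ∃ a : Fin 4 → Fin 4 → Z2 M, (∀ i j, (a i j).1.1 = wedG (s i) (s j)) ∧
      (∀ i j k l, pI F (a i j) (a k l) =
        Matrix.det (fun m : Fin 4 => (Pi.single (![i, j, k, l] m) 1 : Fin 4 → ℝ)) *
          pI F (a 0 1) (a 2 3)) ∧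
      pI F (a 0 1) (a 2 3) ≠ 0 ∧
      (∀ c : H2 M, ∃ n : Fin 4 → Fin 4 → ℝ, c = ∑ i, ∑ j, n i j • cls (a i j))) ∧
  ∃ f g : Fin 3 → H2 M, (∀ i j, ip F (f i) (f j) = 0) ∧ (∀ i j, ip F (g i) (g j) = 0) ∧
    (∀ i j, ip F (f i) (g j) = if i = j then 1 else 0) ∧
    HZ M = {c | ∃ m n : Fin 3 → ℤ, c = ∑ i, (m i : ℝ) • f i + ∑ i, (n i : ℝ) • g i}

end T4R

end

end Crest.Agent.R235.DichProps_723
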