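import Mathlib
import Crest.Agent.R235.Cup1_524
import Crest.Agent.R235.SpanZ_311

/-!
Row 235 (S0364), block HZ, part H1 (helper692; statements helper524 #1825): closed one-forms.

* `CD1 B s f c` : local primitives `f i` of `s` on `B i`, `f i - f j = c i j` on overlaps;
* `exists_cd1`, `CD1.unique`, `CD1.exact`, `cd1_sig` : Čech-de Rham in degree one;
* `IsInt1 s` : `s = du / (2 π i u)` with `u : M → U(1)` smooth; `isInt1_iff`.
-/

set_option autoImplicit false
set_option maxSynthPendingDepth 3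
set_option linter.unusedSectionVars false

open Set Function Filter
open scoped Manifold ContDiff Topology

universe u

namespace Crest.Agent.R235.H1A_692

open Crest.Agent.R240 Crest.Agent.R240.Ch Tau_692 Loc_524

noncomputable section

/-! ### algebra -/

section Alg

variable {ι : Type*} [Fintype ι]

theorem alg_h1 {T : ι → Prop} {ψ p : ι → ℝ} {c : ι → ι → ℝ} (m : ι)
    (h0 : ∀ i, ¬ T i → ψ i = 0) (hp0 : ∀ i, ¬ T i → p i = 0)
    (hψ : ∑ i, ψ i = 1) (hp : ∑ i, p i = 0)
    (hc : ∀ i j, T i → T j → c i j = c m j - c m i) :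
    ∑ i, ∑ j, c i j * (ψ i * p j) = ∑ j, c m j * p j := by
  have h1 : ∀ i j, c i j * (ψ i * p j) = ψ i * (c m j * p j) - c m i * ψ i * p j := by
    intro i j
    by_cases hi : T i
    · by_cases hj : T j
      · rw [hc i j hi hj]; ring
      · rw [hp0 j hj]; ring
    · rw [h0 i hi]; ring
  simp only [h1, Finset.sum_sub_distrib]
  simp only [← Finset.mul_sum, ← Finset.sum_mul]
  rw [hψ, hp]
  simp

end Alg

/-! ### local data -/

section General

variable {E : Type} [NormedAddCommGroup E] [NormedSpace ℝ E]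
variable {M : Type*} [TopologicalSpace M] [ChartedSpace E M] [IsManifold 𝓘(ℝ, E) ∞ M]
variable {ι : Type*}

/-- local primitives of the one-form `s`, with constant differences. -/
structure CD1 (B : ι → Set M) (s : F1 E M) (f : ι → M → ℝ) (c : ι → ι → ℝ) : Prop where
  sm : ∀ i x, x ∈ B i → SmAtF E (f i) x
  d : ∀ i x, x ∈ B i → at1 (dF (E := E) (f i)) x = at1 s x
  c : ∀ i j x, x ∈ B i → x ∈ B j → f i x - f j x = c i j

/-- one-cocycles of the cover. -/
def Coc1 (B : ι → Set M) (c : ι → ι → ℝ) : Prop :=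
  ∀ i j k x, x ∈ B i → x ∈ B j → x ∈ B k → c j k - c i k + c i j = 0

/-- coboundaries. -/
def Cob1 (B : ι → Set M) (c : ι → ι → ℝ) : Prop :=
  ∃ b : ι → ℝ, ∀ i j x, x ∈ B i → x ∈ B j → c i j = b i - b j

omit [IsManifold 𝓘(ℝ, E) ∞ M] in
theorem smAtF_const (r : ℝ) (x : M) : SmAtF E (fun _ => r) x := contDiffAt_const

omit [IsManifold 𝓘(ℝ, E) ∞ M] in
theorem dF_const_at (r : ℝ) (x : M) : at1 (dF (E := E) (fun _ : M => r)) x = 0 := by
  show fderiv ℝ (fun _ => r) _ = 0
  simp

omit [IsManifold 𝓘(ℝ, E) ∞ M] in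
theorem dF_mul_at {f g : M → ℝ} {x : M} (hf : SmAtF E f x) (hg : SmAtF E g x) :
    at1 (dF (E := E) (fun y => f y * g y)) x =
      f x • at1 (dF (E := E) g) x + g x • at1 (dF (E := E) f) x := by
  have e1 : f x = repF (E := E) x f (chartAt E x x) := by
    rw [repF_chart (mem_chart_source E x)]
  have e2 : g x = repF (E := E) x g (chartAt E x x) := by
    rw [repF_chart (mem_chart_source E x)]
  show fderiv ℝ (fun y => repF x f y * repF x g y) _ = _
  rw [fderiv_fun_mul (ContDiffAt.differentiableAt hf infty_ne_zero)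
    (ContDiffAt.differentiableAt hg infty_ne_zero), ← e1, ← e2]
  rfl

omit [IsManifold 𝓘(ℝ, E) ∞ M] in
theorem dF_comp_at {f : M → ℝ} {x : M} (hf : SmAtF E f x) {h : ℝ → ℝ} (hh : ContDiff ℝ ∞ h) :
    at1 (dF (E := E) (fun y => h (f y))) x = deriv h (f x) • at1 (dF (E := E) f) x := by
  have e1 : f x = repF (E := E) x f (chartAt E x x) := by
    rw [repF_chart (mem_chart_source E x)]
  show fderiv ℝ (fun y => h (repF x f y)) _ = _
  have hd : HasDerivAt h (deriv h (repF (E := E) x f (chartAt E x x)))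
      (repF (E := E) x f (chartAt E x x)) :=
    ((hh.contDiffAt).differentiableAt infty_ne_zero).hasDerivAt
  have := hd.comp_hasFDerivAt (chartAt E x x)
    (ContDiffAt.differentiableAt hf infty_ne_zero).hasFDerivAt
  rw [e1]
  exact this.fderiv

omit [IsManifold 𝓘(ℝ, E) ∞ M] in
theorem SmAtF.comp' {f : M → ℝ} {x : M} (hf : SmAtF E f x) {h : ℝ → ℝ} (hh : ContDiff ℝ ∞ h) :
    SmAtF E (fun y => h (f y)) x :=
  ContDiffAt.comp (g := h) (chartAt E x x) hh.contDiffAt hf

omit [IsManifold 𝓘(ℝ, E) ∞ M] in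
theorem dF_const_mul_at' {f : M → ℝ} {x : M} (r : ℝ) (hf : SmAtF E f x) :
    at1 (dF (E := E) (fun y => r * f y)) x = r • at1 (dF (E := E) f) x := by
  show fderiv ℝ (fun y => r * repF x f y) _ = _
  rw [fderiv_const_mul (ContDiffAt.differentiableAt hf infty_ne_zero)]
  rfl

variable {B : ι → Set M}

theorem CD1.isCoc {s : F1 E M} {f : ι → M → ℝ} {c : ι → ι → ℝ} (h : CD1 B s f c) : Coc1 B c := by
  intro i j k x hi hj hk
  rw [← h.c j k x hj hk, ← h.c i k x hi hk, ← h.c i j x hi hj]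
  ring

theorem CD1.add {s t : F1 E M} {f g : ι → M → ℝ} {c d : ι → ι → ℝ} (h : CD1 B s f c)
    (h' : CD1 B t g d) : CD1 B (s + t) (fun i x => f i x + g i x) (fun i j => c i j + d i j) where
  sm i x hx := (h.sm i x hx).add (h'.sm i x hx)
  d i x hx := by
    rw [dF_add_at (h.sm i x hx) (h'.sm i x hx), h.d i x hx, h'.d i x hx]
    rfl
  c i j x hi hj := by
    rw [← h.c i j x hi hj, ← h'.c i j x hi hj]
    ring

theorem CD1.smul {s : F1 E M} {f : ι → M → ℝ} {c : ι → ι → ℝ} (r : ℝ) (h : CD1 B s f c) :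
    CD1 B (r • s) (fun i x => r * f i x) (fun i j => r * c i j) where
  sm i x hx := (smAtF_const r x).mul (h.sm i x hx)
  d i x hx := by
    rw [dF_const_mul_at' r (h.sm i x hx), h.d i x hx]
    rfl
  c i j x hi hj := by
    rw [← h.c i j x hi hj]
    ring

theorem CD1.sub {s t : F1 E M} {f g : ι → M → ℝ} {c d : ι → ι → ℝ} (h : CD1 B s f c)
    (h' : CD1 B t g d) : CD1 B (s - t) (fun i x => f i x - g i x) (fun i j => c i j - d i j) where
  sm i x hx := (h.sm i x hx).sub (h'.sm i x hx)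
  d i x hx := by
    rw [dF_sub_at (h.sm i x hx) (h'.sm i x hx), h.d i x hx, h'.d i x hx]
    rfl
  c i j x hi hj := by
    rw [← h.c i j x hi hj, ← h'.c i j x hi hj]
    ring

theorem cd1_zero : CD1 (E := E) B (0 : F1 E M) (fun _ _ => 0) (fun _ _ => 0) where
  sm _ x _ := smAtF_const 0 x
  d _ x _ := dF_const_at 0 x
  c _ _ _ _ _ := sub_self _

theorem CD1.sum {κ : Type*} (S : Finset κ) {s : κ → F1 E M} {f : κ → ι → M → ℝ}
    {c : κ → ι → ι → ℝ} (h : ∀ k ∈ S, CD1 B (s k) (f k) (c k)) :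
    CD1 B (∑ k ∈ S, s k) (fun i x => ∑ k ∈ S, f k i x) (fun i j => ∑ k ∈ S, c k i j) := by
  classical
  induction S using Finset.induction_on with
  | empty => simpa using cd1_zero (E := E) (B := B)
  | insert a S ha ih =>
    have h1 := (h a (Finset.mem_insert_self _ _)).add
      (ih fun j hj => h j (Finset.mem_insert_of_mem hj))
    simp only [Finset.sum_insert ha]
    exact h1

theorem cd1_dF {F : M → ℝ} (hF : SmoothF E F) :
    CD1 B (dF (E := E) F) (fun _ => F) (fun _ _ => 0) where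
  sm _ x _ := smAtF_of_smooth hF x
  d _ _ _ := rfl
  c _ _ _ _ _ := sub_self _

/-- **gluing**: a form with coboundary data is exact. -/
theorem CD1.exact (hB : ∀ i, IsOpen (B i)) (hcov : ∀ x, ∃ i, x ∈ B i) {s : F1 E M}
    {f : ι → M → ℝ} {c : ι → ι → ℝ} (h : CD1 B s f c) (hc : Cob1 B c) :
    ∃ F : M → ℝ, SmoothF E F ∧ s = dF F := by
  obtain ⟨b, hb⟩ := hc
  choose r hr using hcov
  have key : ∀ i x, x ∈ B i → f (r x) x - b (r x) = f i x - b i := by
    intro i x hx
    have e1 := h.c (r x) i x (hr x) hx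
    rw [hb (r x) i x (hr x) hx] at e1
    linarith
  have hev : ∀ x, (fun y => f (r y) y - b (r y)) =ᶠ[𝓝 x] fun y => f (r x) y - b (r x) := by
    intro x
    filter_upwards [(hB (r x)).mem_nhds (hr x)] with y hy
    exact key _ y hy
  have hsm : ∀ x, SmAtF E (fun y => f (r y) y - b (r y)) x := fun x =>
    ((h.sm _ x (hr x)).sub (smAtF_const _ x)).congr (hev x)
  refine ⟨fun y => f (r y) y - b (r y), smoothF_iff_smAt.2 hsm, ?_⟩
  funext x
  show at1 s x = at1 (dF (E := E) (fun y => f (r y) y - b (r y))) x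
  rw [Loc_524.dF_congr (hev x), dF_sub_at (h.sm _ x (hr x)) (smAtF_const _ x), dF_const_at,
    sub_zero, h.d _ x (hr x)]

/-- a form with local data is smooth and closed. -/
theorem CD1.ev (hB : ∀ i, IsOpen (B i)) {s : F1 E M} {f : ι → M → ℝ} {c : ι → ι → ℝ}
    (h : CD1 B s f c) {i : ι} {x : M} (hx : x ∈ B i) : s =ᶠ[𝓝 x] dF (E := E) (f i) := by
  filter_upwards [(hB i).mem_nhds hx] with y hy
  exact (h.d i y hy).symm

section Fin

variable [FiniteDimensional ℝ E] [T2Space M] [CompactSpace M]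

theorem CD1.smooth (hB : ∀ i, IsOpen (B i)) (hcov : ∀ x, ∃ i, x ∈ B i) {s : F1 E M}
    {f : ι → M → ℝ} {c : ι → ι → ℝ} (h : CD1 B s f c) : Smooth1 s ∧ dG s = 0 := by
  have key : ∀ x, SmAt1 s x ∧ at2 (dG s) x = 0 := by
    intro x
    obtain ⟨i, hi⟩ := hcov x
    obtain ⟨g, hg, hgf⟩ := exists_extF (E := E) (K := {x}) isClosed_singleton (hB i)
      (singleton_subset_iff.2 hi) (h.sm i)
    have h1 : g =ᶠ[𝓝 x] f i := hgf x rfl
    have h2 : s =ᶠ[𝓝 x] dF (E := E) g := by
      filter_upwards [h.ev hB hi, h1.eventually_nhds] with y hy hy'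
      rw [hy]
      exact (Loc_524.dF_congr (E := E) hy').symm
    refine ⟨(smAt1_of_smooth (Smooth1.dF hg) x).congr h2, ?_⟩
    rw [dG_congr h2, dG_dF hg]
    rfl
  refine ⟨smooth1_iff_smAt.2 fun x => (key x).1, ?_⟩
  funext x
  exact (key x).2

end Fin

/-! ### good covers -/

section Good

variable [FiniteDimensional ℝ E]
variable {p : ι → M} (hB : ∀ i, IsOpen (B i)) (hs : ∀ i, B i ⊆ (chartAt E (p i)).source)
  (hconv : ∀ i j, Convex ℝ (chartAt E (p i) '' (B i ∩ B j)))

include hB hs hconv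

/-- **existence** of local data. -/
theorem exists_cd1 {s : F1 E M} (hsm : Smooth1 s) (hcl : dG s = 0) :
    ∃ (f : ι → M → ℝ) (c : ι → ι → ℝ), CD1 B s f c := by
  have hconv1 : ∀ i, Convex ℝ (chartAt E (p i) '' (B i)) := fun i => by
    have := hconv i i
    rwa [inter_self] at this
  choose f hf1 hf2 using fun i => poincare1_loc (s := s) (hB i) (hs i) (hconv1 i)
    (fun x _ => smAt1_of_smooth hsm x) (fun x _ => by rw [hcl]; rfl)
  have hc : ∀ i j, ∃ r : ℝ, ∀ x ∈ B i ∩ B j, f i x - f j x = r := fun i j =>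
    const_loc ((hB i).inter (hB j)) (inter_subset_left.trans (hs i)) (hconv i j)
      (fun x hx => (hf1 i x hx.1).sub (hf1 j x hx.2)) (fun x hx => by
        rw [dF_sub_at (hf1 i x hx.1) (hf1 j x hx.2), hf2 i x hx.1, hf2 j x hx.2, sub_self])
  choose c hc using hc
  exact ⟨f, c, hf1, hf2, fun i j x hi hj => hc i j x ⟨hi, hj⟩⟩

/-- **uniqueness** of local data. -/
theorem CD1.unique {s : F1 E M} {f g : ι → M → ℝ} {c d : ι → ι → ℝ} (h : CD1 B s f c)
    (h' : CD1 B s g d) : Cob1 B (fun i j => c i j - d i j) := by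
  have hconv1 : ∀ i, Convex ℝ (chartAt E (p i) '' (B i)) := fun i => by
    have := hconv i i
    rwa [inter_self] at this
  have hc : ∀ i, ∃ r : ℝ, ∀ x ∈ B i, f i x - g i x = r := fun i =>
    const_loc (hB i) (hs i) (hconv1 i) (fun x hx => (h.sm i x hx).sub (h'.sm i x hx))
      (fun x hx => by
        rw [dF_sub_at (h.sm i x hx) (h'.sm i x hx), h.d i x hx, h'.d i x hx, sub_self])
  choose b hb using hc
  refine ⟨b, fun i j x hi hj => ?_⟩
  beta_reduce
  rw [← hb i x hi, ← hb j x hj, ← h.c i j x hi hj, ← h'.c i j x hi hj]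
  ring

end Good

/-! ### realisation of cocycles -/

section Sig

variable [Fintype ι] {ψ : ι → M → ℝ}

theorem sig_apply (b : ι → ι → ℝ) (x : M) (u : E) :
    at1 (sig (E := E) ψ b) x u = ∑ j, ∑ k, b j k * (ψ j x * dv (ψ k) x u) := by
  unfold sig
  rw [at1_sum]
  refine Finset.sum_congr rfl fun j _ => ?_
  rw [at1_sum]
  rfl

omit [IsManifold 𝓘(ℝ, E) ∞ M] in
theorem smoothF_sum {κ : Type*} (S : Finset κ) {f : κ → M → ℝ} (h : ∀ k ∈ S, SmoothF E (f k)) :
    SmoothF E (fun x => ∑ k ∈ S, f k x) := fun p => ContDiffOn.sum fun k hk => h k hk p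

omit [IsManifold 𝓘(ℝ, E) ∞ M] in
theorem dF_sum_mul (hψ : ∀ i, SmoothF E (ψ i)) (a : ι → ℝ) (x : M) (u : E) :
    at1 (dF (E := E) (fun y => ∑ j, a j * ψ j y)) x u = ∑ j, a j * dv (ψ j) x u := by
  have hd : ∀ i, DifferentiableAt ℝ (fun y => a i * repF (E := E) x (ψ i) y) (chartAt E x x) :=
    fun i => (((hψ i).at (mem_chart_target E x)).differentiableAt infty_ne_zero).const_mul _
  show fderiv ℝ (fun y => ∑ j, a j * repF x (ψ j) y) _ u = _
  rw [fderiv_fun_sum fun i _ => hd i, sum_apply]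
  refine Finset.sum_congr rfl fun j _ => ?_
  rw [fderiv_const_mul (((hψ j).at (mem_chart_target E x)).differentiableAt infty_ne_zero)]
  rfl

/-- every cocycle is realised by a closed form. -/
theorem cd1_sig (hP : PUn E B ψ) {c : ι → ι → ℝ} (hc : Coc1 B c) :
    CD1 B (sig (E := E) ψ c) (fun m x => ∑ j, c m j * ψ j x) c where
  sm m x _ := smAtF_of_smooth
    (smoothF_sum _ fun j _ => (smoothF_const (c m j)).mul (hP.sm j)) x
  d m x hx := by
    ext u
    rw [dF_sum_mul hP.sm, sig_apply]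
    have hz : ∀ i, ¬ x ∈ B i → x ∉ tsupport (ψ i) := fun i hi hx => hi (hP.supp i hx)
    symm
    exact alg_h1 (T := fun i => x ∈ B i) (ψ := fun i => ψ i x) (p := fun i => dv (ψ i) x u) m
      (fun i hi => image_eq_zero_of_notMem_tsupport (hz i hi)) (fun i hi => dv_zero (hz i hi) u)
      (hP.sum x) (sum_dv hP.sm hP.sum x u) (fun i j hi hj => by
        have := hc m i j x hx hi hj
        linarith)
  c i j x hi hj := by
    rw [← Finset.sum_sub_distrib]
    have h1 : ∀ k, c i k * ψ k x - c j k * ψ k x = c i j * ψ k x := by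
      intro k
      by_cases hk : x ∈ B k
      · have := hc i j k x hi hj hk
        have e : c i k = c j k + c i j := by linarith
        rw [e]; ring
      · rw [image_eq_zero_of_notMem_tsupport fun hx => hk (hP.supp k hx)]
        ring
    rw [Finset.sum_congr rfl fun k _ => h1 k, ← Finset.mul_sum, hP.sum x, mul_one]

end Sig

end General

end

end Crest.Agent.R235.H1A_692
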