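import Mathlib
import Crest.Agent.R235.H1A_692

/-!
Row 235 (S0364), block HZ, part H1 (helper692; statements helper524 #1825): closed one-forms.

* `IsInt1 s` : `s = du / (2 π i u)` with `u : M → U(1)` smooth; `isInt1_iff`, `isInt1_closed`;
* `exists_h1_basis` : a basis of the closed one-forms mod exact which is a `ℤ`-basis of the
  integral ones.
-/

set_option autoImplicit false
set_option maxSynthPendingDepth 3
set_option linter.unusedSectionVars false

open Set Function Filter
open scoped Manifold ContDiff Topology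

universe u

namespace Crest.Agent.R235.H1A_692

open Crest.Agent.R240 Crest.Agent.R240.Ch Tau_692 Loc_524

noncomputable section

/-! ### integral forms, real version -/

section General

variable {E : Type} [NormedAddCommGroup E] [NormedSpace ℝ E]
variable {M : Type*} [TopologicalSpace M] [ChartedSpace E M] [IsManifold 𝓘(ℝ, E) ∞ M]
variable {ι : Type*} {B : ι → Set M}

/-- `a + i b : M → U(1)` with logarithmic differential `2 π i s`. -/
structure UData (s : F1 E M) (a b : M → ℝ) : Prop where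
  sa : SmoothF E a
  sb : SmoothF E b
  n : ∀ x, a x ^ 2 + b x ^ 2 = 1
  da : ∀ x v, at1 (dF (E := E) a) x v = -(2 * Real.pi * at1 s x v * b x)
  db : ∀ x v, at1 (dF (E := E) b) x v = 2 * Real.pi * at1 s x v * a x

/-- an integral form is smooth and closed. -/
theorem UData.smooth {s : F1 E M} {a b : M → ℝ} (h : UData s a b) : Smooth1 s ∧ dG s = 0 := by
  have hpi : (2 * Real.pi) ≠ 0 := by positivity
  have e1 : s = (2 * Real.pi)⁻¹ • (fmul1 a (dF b) + (-1 : ℝ) • fmul1 b (dF a)) := by
    funext x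
    refine ContinuousLinearMap.ext fun v => ?_
    show at1 s x v = (2 * Real.pi)⁻¹ * (a x * at1 (dF (E := E) b) x v +
      (-1) * (b x * at1 (dF (E := E) a) x v))
    rw [h.da, h.db]
    have e2 : (2 * Real.pi)⁻¹ * (a x * (2 * Real.pi * at1 s x v * a x) +
      (-1) * (b x * (-(2 * Real.pi * at1 s x v * b x)))) =
      ((2 * Real.pi)⁻¹ * (2 * Real.pi)) * (a x ^ 2 + b x ^ 2) * at1 s x v := by ring
    rw [e2, h.n x, inv_mul_cancel₀ hpi]
    ring
  have h1 : Smooth1 (fmul1 a (dF (E := E) b)) := Smooth1.fmul h.sa (Smooth1.dF h.sb)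
  have h2 : Smooth1 (fmul1 b (dF (E := E) a)) := Smooth1.fmul h.sb (Smooth1.dF h.sa)
  have hsm : Smooth1 s := by
    rw [e1]
    exact (h1.add (h2.smul _)).smul _
  refine ⟨hsm, ?_⟩
  have e3 : dG s = (2 * Real.pi)⁻¹ • ((wedG (dF a) (dF b) + fmul a (dG (dF b))) +
      (-1 : ℝ) • (wedG (dF b) (dF a) + fmul b (dG (dF a)))) := by
    conv_lhs => rw [e1]
    rw [dG_smul _ (h1.add (h2.smul _)), dG_add h1 (h2.smul _), dG_smul _ h2,
      dG_fmul1 h.sa (Smooth1.dF h.sb), dG_fmul1 h.sb (Smooth1.dF h.sa)]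
  rw [e3, dG_dF h.sa, dG_dF h.sb]
  funext x
  refine ContinuousLinearMap.ext fun v => ContinuousLinearMap.ext fun w => ?_
  show (2 * Real.pi)⁻¹ * (((at1 (dF (E := E) a) x v * at1 (dF (E := E) b) x w -
      at1 (dF (E := E) b) x v * at1 (dF (E := E) a) x w) + a x * 0) +
      (-1) * ((at1 (dF (E := E) b) x v * at1 (dF (E := E) a) x w -
      at1 (dF (E := E) a) x v * at1 (dF (E := E) b) x w) + b x * 0)) = 0
  rw [h.da, h.db, h.da, h.db]
  ring

/-- the unit function of integral data. -/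
theorem udata_of_int (hB : ∀ i, IsOpen (B i)) (hcov : ∀ x, ∃ i, x ∈ B i) {s : F1 E M}
    {f : ι → M → ℝ} {m : ι → ι → ℤ} (h : CD1 B s f (fun i j => (m i j : ℝ))) :
    ∃ a b : M → ℝ, UData s a b ∧ ∀ i x, x ∈ B i →
      a x = Real.cos (2 * Real.pi * f i x) ∧ b x = Real.sin (2 * Real.pi * f i x) := by
  choose r hr using hcov
  have key : ∀ i x, x ∈ B i → Real.cos (2 * Real.pi * f (r x) x) = Real.cos (2 * Real.pi * f i x) ∧
      Real.sin (2 * Real.pi * f (r x) x) = Real.sin (2 * Real.pi * f i x) := by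
    intro i x hx
    have e1 := h.c (r x) i x (hr x) hx
    have e2 : 2 * Real.pi * f (r x) x = 2 * Real.pi * f i x + (m (r x) i : ℝ) * (2 * Real.pi) := by
      rw [← e1]; ring
    rw [e2, Real.cos_add_int_mul_two_pi, Real.sin_add_int_mul_two_pi]
    exact ⟨rfl, rfl⟩
  have hc : ContDiff ℝ ∞ (fun t : ℝ => Real.cos (2 * Real.pi * t)) :=
    Real.contDiff_cos.comp (contDiff_const.mul contDiff_id)
  have hs : ContDiff ℝ ∞ (fun t : ℝ => Real.sin (2 * Real.pi * t)) :=
    Real.contDiff_sin.comp (contDiff_const.mul contDiff_id)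
  have hdc : ∀ t : ℝ, deriv (fun t : ℝ => Real.cos (2 * Real.pi * t)) t =
      -(2 * Real.pi * Real.sin (2 * Real.pi * t)) := by
    intro t
    have h1 : HasDerivAt (fun t : ℝ => 2 * Real.pi * t) (2 * Real.pi) t := by
      simpa using (hasDerivAt_id t).const_mul (2 * Real.pi)
    rw [h1.cos.deriv]; ring
  have hds : ∀ t : ℝ, deriv (fun t : ℝ => Real.sin (2 * Real.pi * t)) t =
      2 * Real.pi * Real.cos (2 * Real.pi * t) := by
    intro t
    have h1 : HasDerivAt (fun t : ℝ => 2 * Real.pi * t) (2 * Real.pi) t := by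
      simpa using (hasDerivAt_id t).const_mul (2 * Real.pi)
    rw [h1.sin.deriv]; ring
  have hev1 : ∀ x, (fun y => Real.cos (2 * Real.pi * f (r y) y)) =ᶠ[𝓝 x]
      fun y => Real.cos (2 * Real.pi * f (r x) y) := by
    intro x
    filter_upwards [(hB (r x)).mem_nhds (hr x)] with y hy
    exact (key _ y hy).1
  have hev2 : ∀ x, (fun y => Real.sin (2 * Real.pi * f (r y) y)) =ᶠ[𝓝 x]
      fun y => Real.sin (2 * Real.pi * f (r x) y) := by
    intro x
    filter_upwards [(hB (r x)).mem_nhds (hr x)] with y hy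
    exact (key _ y hy).2
  refine ⟨fun y => Real.cos (2 * Real.pi * f (r y) y), fun y => Real.sin (2 * Real.pi * f (r y) y),
    ⟨?_, ?_, fun x => ?_, fun x v => ?_, fun x v => ?_⟩, fun i x hx => key i x hx⟩
  · exact smoothF_iff_smAt.2 fun x => (SmAtF.comp' (h.sm _ x (hr x)) hc).congr (hev1 x)
  · exact smoothF_iff_smAt.2 fun x => (SmAtF.comp' (h.sm _ x (hr x)) hs).congr (hev2 x)
  · rw [add_comm]; exact Real.sin_sq_add_cos_sq _
  · rw [Loc_524.dF_congr (hev1 x), dF_comp_at (h.sm _ x (hr x)) hc, hdc, h.d _ x (hr x)]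
    show -(2 * Real.pi * Real.sin (2 * Real.pi * f (r x) x)) * at1 s x v = _
    ring
  · rw [Loc_524.dF_congr (hev2 x), dF_comp_at (h.sm _ x (hr x)) hs, hds, h.d _ x (hr x)]
    show (2 * Real.pi * Real.cos (2 * Real.pi * f (r x) x)) * at1 s x v = _
    ring

section Good

variable [FiniteDimensional ℝ E]
variable {p : ι → M} (hB : ∀ i, IsOpen (B i)) (hs : ∀ i, B i ⊆ (chartAt E (p i)).source)
  (hconv : ∀ i j, Convex ℝ (chartAt E (p i) '' (B i ∩ B j)))

include hB hs hconv

/-- integral data from a unit function. -/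
theorem int_of_udata {s : F1 E M} {a b : M → ℝ} (h : UData s a b) :
    ∃ (f : ι → M → ℝ) (m : ι → ι → ℤ), CD1 B s f (fun i j => (m i j : ℝ)) ∧ ∀ i x, x ∈ B i →
      a x = Real.cos (2 * Real.pi * f i x) ∧ b x = Real.sin (2 * Real.pi * f i x) := by
  have hconv1 : ∀ i, Convex ℝ (chartAt E (p i) '' (B i)) := fun i => by
    have := hconv i i
    rwa [inter_self] at this
  obtain ⟨f, c, hf⟩ := exists_cd1 hB hs hconv h.smooth.1 h.smooth.2
  have hc : ContDiff ℝ ∞ (fun t : ℝ => Real.cos (2 * Real.pi * t)) :=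
    Real.contDiff_cos.comp (contDiff_const.mul contDiff_id)
  have hsn : ContDiff ℝ ∞ (fun t : ℝ => Real.sin (2 * Real.pi * t)) :=
    Real.contDiff_sin.comp (contDiff_const.mul contDiff_id)
  have hdc : ∀ t : ℝ, deriv (fun t : ℝ => Real.cos (2 * Real.pi * t)) t =
      -(2 * Real.pi * Real.sin (2 * Real.pi * t)) := by
    intro t
    have h1 : HasDerivAt (fun t : ℝ => 2 * Real.pi * t) (2 * Real.pi) t := by
      simpa using (hasDerivAt_id t).const_mul (2 * Real.pi)
    rw [h1.cos.deriv]; ring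
  have hds : ∀ t : ℝ, deriv (fun t : ℝ => Real.sin (2 * Real.pi * t)) t =
      2 * Real.pi * Real.cos (2 * Real.pi * t) := by
    intro t
    have h1 : HasDerivAt (fun t : ℝ => 2 * Real.pi * t) (2 * Real.pi) t := by
      simpa using (hasDerivAt_id t).const_mul (2 * Real.pi)
    rw [h1.sin.deriv]; ring
  have hθ : ∀ i, ∃ θ : ℝ, ∀ x ∈ B i, a x = Real.cos (2 * Real.pi * (f i x + θ)) ∧
      b x = Real.sin (2 * Real.pi * (f i x + θ)) := by
    intro i
    have sC : ∀ x ∈ B i, SmAtF E (fun y => Real.cos (2 * Real.pi * f i y)) x := fun x hx =>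
      SmAtF.comp' (hf.sm i x hx) hc
    have sS : ∀ x ∈ B i, SmAtF E (fun y => Real.sin (2 * Real.pi * f i y)) x := fun x hx =>
      SmAtF.comp' (hf.sm i x hx) hsn
    have dC : ∀ x ∈ B i, ∀ v, at1 (dF (E := E) (fun y => Real.cos (2 * Real.pi * f i y))) x v =
        -(2 * Real.pi * Real.sin (2 * Real.pi * f i x)) * at1 s x v := fun x hx v => by
      rw [dF_comp_at (hf.sm i x hx) hc, hdc, hf.d i x hx]; rfl
    have dS : ∀ x ∈ B i, ∀ v, at1 (dF (E := E) (fun y => Real.sin (2 * Real.pi * f i y))) x v =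
        (2 * Real.pi * Real.cos (2 * Real.pi * f i x)) * at1 s x v := fun x hx v => by
      rw [dF_comp_at (hf.sm i x hx) hsn, hds, hf.d i x hx]; rfl
    have sa : ∀ x, SmAtF E a x := smAtF_of_smooth h.sa
    have sb : ∀ x, SmAtF E b x := smAtF_of_smooth h.sb
    obtain ⟨α, hα⟩ := const_loc (f := fun y => a y * Real.cos (2 * Real.pi * f i y) +
        b y * Real.sin (2 * Real.pi * f i y)) (hB i) (hs i) (hconv1 i)
      (fun x hx => ((sa x).mul (sC x hx)).add ((sb x).mul (sS x hx))) (fun x hx => by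
        refine ContinuousLinearMap.ext fun v => ?_
        rw [dF_add_at ((sa x).mul (sC x hx)) ((sb x).mul (sS x hx)), dF_mul_at (sa x) (sC x hx),
          dF_mul_at (sb x) (sS x hx)]
        show (a x * at1 (dF (E := E) _) x v + Real.cos (2 * Real.pi * f i x) * at1 (dF (E := E) a) x v) +
          (b x * at1 (dF (E := E) _) x v + Real.sin (2 * Real.pi * f i x) * at1 (dF (E := E) b) x v) = 0
        rw [dC x hx v, dS x hx v, h.da, h.db]
        ring)
    obtain ⟨β, hβ⟩ := const_loc (f := fun y => b y * Real.cos (2 * Real.pi * f i y) -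
        a y * Real.sin (2 * Real.pi * f i y)) (hB i) (hs i) (hconv1 i)
      (fun x hx => ((sb x).mul (sC x hx)).sub ((sa x).mul (sS x hx))) (fun x hx => by
        refine ContinuousLinearMap.ext fun v => ?_
        rw [dF_sub_at ((sb x).mul (sC x hx)) ((sa x).mul (sS x hx)), dF_mul_at (sb x) (sC x hx),
          dF_mul_at (sa x) (sS x hx)]
        show (b x * at1 (dF (E := E) _) x v + Real.cos (2 * Real.pi * f i x) * at1 (dF (E := E) b) x v) -
          (a x * at1 (dF (E := E) _) x v + Real.sin (2 * Real.pi * f i x) * at1 (dF (E := E) a) x v) = 0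
        rw [dC x hx v, dS x hx v, h.da, h.db]
        ring)
    rcases (B i).eq_empty_or_nonempty with he | ⟨x0, hx0⟩
    · exact ⟨0, fun x hx => by rw [he] at hx; exact hx.elim⟩
    have hn : α ^ 2 + β ^ 2 = 1 := by
      have e1 := hα x0 hx0
      have e2 := hβ x0 hx0
      have e3 := h.n x0
      have e4 := Real.sin_sq_add_cos_sq (2 * Real.pi * f i x0)
      beta_reduce at e1 e2
      rw [← e1, ← e2]
      have : (a x0 * Real.cos (2 * Real.pi * f i x0) + b x0 * Real.sin (2 * Real.pi * f i x0)) ^ 2 +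
          (b x0 * Real.cos (2 * Real.pi * f i x0) - a x0 * Real.sin (2 * Real.pi * f i x0)) ^ 2 =
          (a x0 ^ 2 + b x0 ^ 2) * (Real.sin (2 * Real.pi * f i x0) ^ 2 +
            Real.cos (2 * Real.pi * f i x0) ^ 2) := by ring
      rw [this, e3, e4, one_mul]
    obtain ⟨θ, hθ1, hθ2⟩ : ∃ θ : ℝ, α = Real.cos θ ∧ β = Real.sin θ := by
      have hz : ‖(⟨α, β⟩ : ℂ)‖ = 1 := by
        rw [Complex.norm_def, Complex.normSq_mk]
        rw [show α * α + β * β = 1 by nlinarith [hn]]
        exact Real.sqrt_one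
      refine ⟨Complex.arg ⟨α, β⟩, ?_, ?_⟩
      · have := Complex.norm_mul_cos_arg (⟨α, β⟩ : ℂ)
        rw [hz, one_mul] at this
        exact this.symm
      · have := Complex.norm_mul_sin_arg (⟨α, β⟩ : ℂ)
        rw [hz, one_mul] at this
        exact this.symm
    refine ⟨θ / (2 * Real.pi), fun x hx => ?_⟩
    have e0 : 2 * Real.pi * (f i x + θ / (2 * Real.pi)) = 2 * Real.pi * f i x + θ := by
      have : (2 * Real.pi) ≠ 0 := by positivity
      field_simp
    have e1 := hα x hx
    have e2 := hβ x hx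
    have e4 := Real.sin_sq_add_cos_sq (2 * Real.pi * f i x)
    beta_reduce at e1 e2
    rw [e0, Real.cos_add, Real.sin_add, ← hθ1, ← hθ2, ← e1, ← e2]
    constructor
    · have : Real.cos (2 * Real.pi * f i x) *
          (a x * Real.cos (2 * Real.pi * f i x) + b x * Real.sin (2 * Real.pi * f i x)) -
          Real.sin (2 * Real.pi * f i x) *
          (b x * Real.cos (2 * Real.pi * f i x) - a x * Real.sin (2 * Real.pi * f i x)) =
          a x * (Real.sin (2 * Real.pi * f i x) ^ 2 + Real.cos (2 * Real.pi * f i x) ^ 2) := by ring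
      rw [this, e4, mul_one]
    · have : Real.sin (2 * Real.pi * f i x) *
          (a x * Real.cos (2 * Real.pi * f i x) + b x * Real.sin (2 * Real.pi * f i x)) +
          Real.cos (2 * Real.pi * f i x) *
          (b x * Real.cos (2 * Real.pi * f i x) - a x * Real.sin (2 * Real.pi * f i x)) =
          b x * (Real.sin (2 * Real.pi * f i x) ^ 2 + Real.cos (2 * Real.pi * f i x) ^ 2) := by ring
      rw [this, e4, mul_one]
  choose θ hθ using hθ
  have hm : ∀ i j, ∃ m : ℤ, ∀ x ∈ B i ∩ B j, (f i x + θ i) - (f j x + θ j) = m := by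
    intro i j
    rcases (B i ∩ B j).eq_empty_or_nonempty with he | ⟨x0, hx0⟩
    · exact ⟨0, fun x hx => by rw [he] at hx; exact hx.elim⟩
    have e1 := hθ i x0 hx0.1
    have e2 := hθ j x0 hx0.2
    have e3 : Real.cos (2 * Real.pi * (f i x0 + θ i) - 2 * Real.pi * (f j x0 + θ j)) = 1 := by
      rw [Real.cos_sub, ← e1.1, ← e1.2, ← e2.1, ← e2.2]
      have := h.n x0
      nlinarith
    obtain ⟨m, hm⟩ := (Real.cos_eq_one_iff _).1 e3
    refine ⟨m, fun x hx => ?_⟩
    have e4 := hf.c i j x hx.1 hx.2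
    have e5 := hf.c i j x0 hx0.1 hx0.2
    have hpi : Real.pi ≠ 0 := Real.pi_ne_zero
    have e6 : (f i x0 + θ i) - (f j x0 + θ j) = m := by
      have e7 : 2 * Real.pi * ((f i x0 + θ i) - (f j x0 + θ j)) = 2 * Real.pi * m := by
        linarith
      exact mul_left_cancel₀ (by positivity) e7
    linarith
  choose m hm using hm
  refine ⟨fun i x => f i x + θ i, m, ⟨fun i x hx => (hf.sm i x hx).add (smAtF_const _ x),
    fun i x hx => ?_, fun i j x hi hj => hm i j x ⟨hi, hj⟩⟩, hθ⟩
  rw [dF_add_at (hf.sm i x hx) (smAtF_const _ x), dF_const_at, add_zero, hf.d i x hx]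

end Good

end General

end

end Crest.Agent.R235.H1A_692
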