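import Mathlib
import Crest.Agent.R235.H1B_692

/-!
Row 235 (S0364), block HZ, part H1 (helper692; statements helper524 #1825): closed one-forms.

* `rel_basis` : abstract lattice lemma;
* `IsInt1 s` : `s = du / (2 π i u)` with `u : M → U(1)` smooth; `isInt1_iff`;
* `exists_h1_basis` : a basis of the closed one-forms mod exact which is a `ℤ`-basis of the
  integral ones.
-/

set_option autoImplicit false
set_option maxSynthPendingDepth 3
set_option linter.unusedSectionVars false

open Set Function Filter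
open scoped Manifold ContDiff Topology

universe u

namespace Crest.Agent.R235.H1A_692

open Crest.Agent.R240 Crest.Agent.R240.Ch Tau_692 Loc_524

noncomputable section

/-! ### lattices relative to a subspace -/

section Lat

open Module

theorem fg_map {W V : Type*} [AddCommGroup W] [AddCommGroup V] {K : AddSubgroup W} (h : K.FG)
    (g : W →+ V) : (K.map g).FG := by
  have h1 : AddGroup.FG K := (AddGroup.fg_iff_addSubgroup_fg K).2 h
  have h2 : AddGroup.FG (g.comp K.subtype).range := AddGroup.fg_range _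
  have e : K.map g = (g.comp K.subtype).range := by
    rw [← AddMonoidHom.map_range, AddSubgroup.range_subtype]
  rw [e]
  exact (AddGroup.fg_iff_addSubgroup_fg _).1 h2

theorem rel_basis {W : Type*} [AddCommGroup W] [Module ℝ W] (N : Submodule ℝ W)
    (K : AddSubgroup W) (hfg : K.FG)
    (hrat : ∀ (m : ℕ) (v : Fin m → W), (∀ i, v i ∈ K) → ∀ x : Fin m → ℝ, ∑ i, x i • v i ∈ N →
      x ∈ Submodule.span ℝ {w : Fin m → ℝ | ∃ u : Fin m → ℤ, ∑ i, (u i : ℝ) • v i ∈ N ∧
        w = fun i => (u i : ℝ)}) :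
    ∃ (m : ℕ) (e : Fin m → W), (∀ i, e i ∈ K) ∧
      (∀ w ∈ Submodule.span ℝ (K : Set W), ∃ x : Fin m → ℝ, w - ∑ i, x i • e i ∈ N) ∧
      (∀ x : Fin m → ℝ, ∑ i, x i • e i ∈ N → x = 0) ∧
      (∀ x : Fin m → ℝ, ∀ c ∈ K, (∑ i, x i • e i) - c ∈ N → ∀ i, ∃ k : ℤ, x i = k) := by
  classical
  let π : W →ₗ[ℝ] W ⧸ N := N.mkQ
  let K' : AddSubgroup (W ⧸ N) := K.map π.toAddMonoidHom
  have hfg' : K'.FG := fg_map hfg _
  have hfin : Module.Finite ℤ K' := by
    rw [Module.Finite.iff_addGroup_fg]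
    exact (AddGroup.fg_iff_addSubgroup_fg K').2 hfg'
  have : NoZeroSMulDivisors ℤ K' := by
    constructor
    intro n x hx
    by_cases hn : n = 0
    · exact Or.inl hn
    · right
      have h1 : (n : ℝ) • (x : W ⧸ N) = 0 := by
        have := congrArg (Subtype.val) hx
        simpa [← Int.cast_smul_eq_zsmul ℝ] using this
      rcases smul_eq_zero.1 h1 with h | h
      · exact absurd (by exact_mod_cast h) hn
      · exact Subtype.ext h
  have : Module.Free ℤ K' := inferInstance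
  let b : Module.Basis (Fin (finrank ℤ K')) ℤ K' := Module.finBasis ℤ K'
  set m := finrank ℤ K' with hm
  have hlift : ∀ i : Fin m, ∃ e ∈ K, π e = (b i : W ⧸ N) := fun i => (b i).2
  choose e heK he using hlift
  have hrepr : ∀ x : K', (x : W ⧸ N) = ∑ i, ((b.repr x i : ℤ) : ℝ) • (b i : W ⧸ N) := by
    intro x
    have h0 : (K'.subtype (∑ i, b.repr x i • b i) : W ⧸ N) = K'.subtype x := by rw [b.sum_repr x]
    rw [map_sum] at h0
    rw [AddSubgroup.subtype_apply] at h0
    rw [← h0]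
    refine Finset.sum_congr rfl fun i _ => ?_
    rw [map_zsmul, AddSubgroup.subtype_apply, Int.cast_smul_eq_zsmul]
  have hsum : ∀ x : Fin m → ℝ, π (∑ i, x i • e i) = ∑ i, x i • (b i : W ⧸ N) := by
    intro x
    rw [map_sum]
    refine Finset.sum_congr rfl fun i _ => ?_
    rw [map_smul, he]
  have hN : ∀ w : W, w ∈ N ↔ π w = 0 := fun w => (Submodule.Quotient.mk_eq_zero N).symm
  have hind : ∀ x : Fin m → ℝ, ∑ i, x i • e i ∈ N → x = 0 := by
    intro x hx
    have h1 := hrat m e heK x hx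
    have h2 : {w : Fin m → ℝ | ∃ u : Fin m → ℤ, ∑ i, (u i : ℝ) • e i ∈ N ∧
        w = fun i => (u i : ℝ)} ⊆ {0} := by
      rintro w ⟨u, hu, rfl⟩
      rw [hN, hsum] at hu
      have h3 : ∑ i, u i • b i = 0 := by
        apply Subtype.ext
        rw [AddSubgroup.coe_zero]
        have h4 : ((∑ i, u i • b i : K') : W ⧸ N) = ∑ i, (u i : ℝ) • (b i : W ⧸ N) := by
          have := map_sum K'.subtype (fun i => u i • b i) Finset.univ
          rw [AddSubgroup.subtype_apply] at this
          rw [this]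
          refine Finset.sum_congr rfl fun i _ => ?_
          rw [map_zsmul, AddSubgroup.subtype_apply, Int.cast_smul_eq_zsmul]
        rw [h4, hu]
      have h5 := Fintype.linearIndependent_iff.1 b.linearIndependent u h3
      rw [mem_singleton_iff]
      funext i
      simp [h5 i]
    have h3 := Submodule.span_mono (R := ℝ) h2 h1
    rwa [Submodule.span_zero_singleton, Submodule.mem_bot] at h3
  refine ⟨m, e, heK, fun w hw => ?_, hind, fun x c hc hx => ?_⟩
  · have h1 : π w ∈ Submodule.span ℝ (Set.range fun i : Fin m => (b i : W ⧸ N)) := by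
      have h2 : Submodule.span ℝ (K : Set W) ≤
          (Submodule.span ℝ (Set.range fun i : Fin m => (b i : W ⧸ N))).comap π := by
        rw [Submodule.span_le]
        intro c hc
        have h3 := hrepr ⟨π c, ⟨c, hc, rfl⟩⟩
        simp only at h3
        rw [SetLike.mem_coe, Submodule.mem_comap, h3]
        exact Submodule.sum_mem _ fun i _ => Submodule.smul_mem _ _ (Submodule.subset_span ⟨i, rfl⟩)
      exact h2 hw
    obtain ⟨x, hx⟩ := (Submodule.mem_span_range_iff_exists_fun ℝ).1 h1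
    refine ⟨x, ?_⟩
    rw [hN, map_sub, hsum, hx, sub_self]
  · have h3 := hrepr ⟨π c, ⟨c, hc, rfl⟩⟩
    simp only at h3
    set k : Fin m → ℤ := fun i => b.repr ⟨π c, ⟨c, hc, rfl⟩⟩ i with hk
    have h4 : ∑ i, (x i - k i) • e i ∈ N := by
      rw [hN, hsum]
      simp only [sub_smul, Finset.sum_sub_distrib]
      rw [← h3, ← hsum, ← map_sub]
      exact (hN _).1 hx
    have h5 := hind _ h4
    intro i
    refine ⟨k i, ?_⟩
    have := congrFun h5 i
    simp only [Pi.zero_apply] at this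
    linarith

end Lat

/-! ### integral forms -/

section Four

variable {M : Type u} [TopologicalSpace M] [ChartedSpace E4 M] [IsManifold 𝓘(ℝ, E4) ∞ M]

/-- `s = du / (2 π i u)` with `u : M → U(1)` smooth. -/
def IsInt1 (s : F1 E4 M) : Prop :=
  ∃ u : M → ℂ, ContMDiff 𝓘(ℝ, E4) 𝓘(ℝ, ℂ) ∞ u ∧ (∀ x, ‖u x‖ = 1) ∧
    ∀ (x : M) (v : E4), fderiv ℝ (fun y : E4 => u ((chartAt E4 x).symm y)) (chartAt E4 x x) v =
      2 * Real.pi * Complex.I * ((at1 s x v : ℝ) : ℂ) * u x

theorem isInt1_iff_udata {s : F1 E4 M} : IsInt1 s ↔ ∃ a b : M → ℝ, UData s a b := by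
  constructor
  · rintro ⟨u, hu, h1, h2⟩
    have sa : SmoothF E4 (fun x => (u x).re) := (smoothF_iff _).1
      (Complex.reCLM.contDiff.contMDiff.comp hu)
    have sb : SmoothF E4 (fun x => (u x).im) := (smoothF_iff _).1
      (Complex.imCLM.contDiff.contMDiff.comp hu)
    have hd : ∀ x, DifferentiableAt ℝ (fun y : E4 => u ((chartAt E4 x).symm y))
        (chartAt E4 x x) := by
      intro x
      have e1 := (sa.at (mem_chart_target E4 x)).differentiableAt infty_ne_zero
      have e2 := (sb.at (mem_chart_target E4 x)).differentiableAt infty_ne_zero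
      have e3 : (fun y : E4 => u ((chartAt E4 x).symm y)) = fun y : E4 =>
          Complex.equivRealProdCLM.symm (repF x (fun x => (u x).re) y,
            repF x (fun x => (u x).im) y) := by
        funext y
        apply Complex.ext <;> simp [repF]
      rw [e3]
      exact Complex.equivRealProdCLM.symm.differentiable.differentiableAt.comp _ (e1.prodMk e2)
    refine ⟨fun x => (u x).re, fun x => (u x).im, sa, sb, fun x => ?_, fun x v => ?_, fun x v => ?_⟩
    · have := h1 x
      rw [Complex.norm_def, Real.sqrt_eq_one, Complex.normSq_apply] at this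
      nlinarith
    · have e1 := congrArg Complex.re (h2 x v)
      have e2 : (Complex.reCLM.comp (fderiv ℝ (fun y : E4 => u ((chartAt E4 x).symm y))
          (chartAt E4 x x))) = fderiv ℝ (repF x fun x => (u x).re) (chartAt E4 x x) := by
        symm
        exact (Complex.reCLM.hasFDerivAt.comp _ (hd x).hasFDerivAt).fderiv
      have e3 := congrArg (fun L : E4 →L[ℝ] ℝ => L v) e2
      show fderiv ℝ (repF x fun x => (u x).re) (chartAt E4 x x) v = _
      rw [← e3]
      show (fderiv ℝ (fun y : E4 => u ((chartAt E4 x).symm y)) (chartAt E4 x x) v).re = _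
      rw [e1]
      simp
    · have e1 := congrArg Complex.im (h2 x v)
      have e2 : (Complex.imCLM.comp (fderiv ℝ (fun y : E4 => u ((chartAt E4 x).symm y))
          (chartAt E4 x x))) = fderiv ℝ (repF x fun x => (u x).im) (chartAt E4 x x) := by
        symm
        exact (Complex.imCLM.hasFDerivAt.comp _ (hd x).hasFDerivAt).fderiv
      have e3 := congrArg (fun L : E4 →L[ℝ] ℝ => L v) e2
      show fderiv ℝ (repF x fun x => (u x).im) (chartAt E4 x x) v = _
      rw [← e3]
      show (fderiv ℝ (fun y : E4 => u ((chartAt E4 x).symm y)) (chartAt E4 x x) v).im = _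
      rw [e1]
      simp
  · rintro ⟨a, b, h⟩
    have e1 := fun x => (h.sa.at (mem_chart_target E4 x)).differentiableAt infty_ne_zero
    have e2 := fun x => (h.sb.at (mem_chart_target E4 x)).differentiableAt infty_ne_zero
    refine ⟨fun x => Complex.equivRealProdCLM.symm (a x, b x), ?_, fun x => ?_, fun x v => ?_⟩
    · exact Complex.equivRealProdCLM.symm.contDiff.contMDiff.comp
        (((smoothF_iff _).2 h.sa).prodMk_space ((smoothF_iff _).2 h.sb))
    · rw [Complex.norm_def, Real.sqrt_eq_one, Complex.normSq_apply]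
      have := h.n x
      simp only [Complex.equivRealProdCLM_symm_apply]
      simp
      nlinarith
    · have e3 : fderiv ℝ (fun y : E4 => Complex.equivRealProdCLM.symm
          (a ((chartAt E4 x).symm y), b ((chartAt E4 x).symm y))) (chartAt E4 x x) =
          (Complex.equivRealProdCLM.symm : ℝ × ℝ →L[ℝ] ℂ).comp
            ((fderiv ℝ (repF x a) (chartAt E4 x x)).prod (fderiv ℝ (repF x b) (chartAt E4 x x))) :=
        (Complex.equivRealProdCLM.symm.hasFDerivAt.comp _
          ((e1 x).hasFDerivAt.prodMk (e2 x).hasFDerivAt)).fderiv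
      rw [e3]
      show Complex.equivRealProdCLM.symm (at1 (dF (E := E4) a) x v, at1 (dF (E := E4) b) x v) = _
      rw [h.da, h.db]
      apply Complex.ext
      · simp
      · simp

theorem closed1_iff {s : F1 E4 M} : Closed1 s ↔ Smooth1 s ∧ dG s = 0 := by
  constructor
  · rintro ⟨h1, h2⟩
    refine ⟨h1, ?_⟩
    funext x
    exact h2 x _ (mem_chart_target E4 x)
  · rintro ⟨h1, h2⟩
    refine ⟨h1, fun p y hy => ?_⟩
    rw [← rep_dG h1 hy, h2]
    rfl

theorem IsInt1.closed {s : F1 E4 M} (h : IsInt1 s) : Closed1 s := by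
  obtain ⟨a, b, h⟩ := isInt1_iff_udata.1 h
  exact closed1_iff.2 h.smooth

theorem closed1_dF {f : M → ℝ} (hf : SmoothF E4 f) : Closed1 (dF (E := E4) f) :=
  closed1_iff.2 ⟨Smooth1.dF hf, dG_dF hf⟩

variable [T2Space M] [CompactSpace M]

theorem int1_iff_cd1 {G : RGC M} {s : F1 E4 M} {f : Fin G.n → M → ℝ} {m : Fin G.n → Fin G.n → ℤ} :
    Cup1_524.Int1 G s f m ↔ CD1 G.B s f (fun i j => (m i j : ℝ)) :=
  ⟨fun h => ⟨h.sm, h.d, h.c⟩, fun h => ⟨h.sm, h.d, h.c⟩⟩

/-- **(H1-1)** the integral closed forms. -/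
theorem isInt1_iff (G : RGC M) {s : F1 E4 M} :
    IsInt1 s ↔ ∃ f m, Cup1_524.Int1 G s f m := by
  rw [isInt1_iff_udata]
  constructor
  · rintro ⟨a, b, h⟩
    obtain ⟨f, m, hf, -⟩ := int_of_udata G.isOpen G.sub G.conv h
    exact ⟨f, m, int1_iff_cd1.2 hf⟩
  · rintro ⟨f, m, h⟩
    obtain ⟨a, b, h, -⟩ := udata_of_int G.isOpen G.cover (int1_iff_cd1.1 h)
    exact ⟨a, b, h⟩

/-- **(H1-2)** Čech data of a closed form. -/
theorem exists_cd1_G (G : RGC M) {s : F1 E4 M} (hs : Closed1 s) :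
    ∃ (f : Fin G.n → M → ℝ) (c : Fin G.n → Fin G.n → ℝ), CD1 G.B s f c :=
  exists_cd1 G.isOpen G.sub G.conv (closed1_iff.1 hs).1 (closed1_iff.1 hs).2

theorem cd1_sig_G (G : RGC M) {c : Fin G.n → Fin G.n → ℝ} (hc : Coc1 G.B c) :
    CD1 G.B (sig (E := E4) G.ψ c) (fun m x => ∑ j, c m j * G.ψ j x) c :=
  cd1_sig (HZLat_524.pun G) hc

theorem exact_G (G : RGC M) {s : F1 E4 M} {f : Fin G.n → M → ℝ} {c : Fin G.n → Fin G.n → ℝ}
    (h : CD1 G.B s f c) (hc : Cob1 G.B c) : ∃ F : M → ℝ, SmoothF E4 F ∧ s = dF F :=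
  h.exact G.isOpen G.cover hc

/-- the coboundaries, as a subspace. -/
def cobS (G : RGC M) : Submodule ℝ (Fin G.n → Fin G.n → ℝ) where
  carrier := {c | Cob1 G.B c}
  add_mem' := by
    rintro a b ⟨α, hα⟩ ⟨β, hβ⟩
    refine ⟨fun i => α i + β i, fun i j x hi hj => ?_⟩
    show a i j + b i j = _
    rw [hα i j x hi hj, hβ i j x hi hj]
    ring
  zero_mem' := ⟨fun _ => 0, fun i j x _ _ => by simp⟩
  smul_mem' := by
    rintro r a ⟨α, hα⟩
    refine ⟨fun i => r * α i, fun i j x hi hj => ?_⟩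
    show r * a i j = _
    rw [hα i j x hi hj]
    ring

/-- integral cocycles. -/
def zz (G : RGC M) : AddSubgroup (Fin G.n → Fin G.n → ℤ) where
  carrier := {c | ∀ i j k, (G.B i ∩ G.B j ∩ G.B k).Nonempty → c j k - c i k + c i j = 0}
  add_mem' := by
    intro a b ha hb i j k h
    have h1 := ha i j k h
    have h2 := hb i j k h
    show a j k + b j k - (a i k + b i k) + (a i j + b i j) = 0
    linarith
  zero_mem' := fun i j k _ => by simp
  neg_mem' := by
    intro a ha i j k h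
    have h1 := ha i j k h
    show -a j k - -a i k + -a i j = 0
    linarith

/-- the inclusion of integral cochains in real cochains. -/
def castH (n : ℕ) : (Fin n → Fin n → ℤ) →+ (Fin n → Fin n → ℝ) where
  toFun c := fun i j => (c i j : ℝ)
  map_zero' := by funext i j; simp
  map_add' a b := by funext i j; simp

theorem fg_zz (G : RGC M) : ((zz G).map (castH G.n)).FG := by
  have h1 : Module.Finite ℤ (Fin G.n → Fin G.n → ℤ) := inferInstance
  have h2 : Module.Finite ℤ (zz G) :=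
    inferInstanceAs (Module.Finite ℤ (AddSubgroup.toIntSubmodule (zz G)))
  have h3 : AddGroup.FG (zz G) := Module.Finite.iff_addGroup_fg.1 h2
  exact fg_map ((AddGroup.fg_iff_addSubgroup_fg _).1 h3) _

theorem coc_of_zz {G : RGC M} {c : Fin G.n → Fin G.n → ℤ} (hc : c ∈ zz G) :
    Coc1 G.B (fun i j => (c i j : ℝ)) := by
  intro i j k x hi hj hk
  have := hc i j k ⟨x, ⟨hi, hj⟩, hk⟩
  beta_reduce
  exact_mod_cast this

theorem hrat_G (G : RGC M) (m : ℕ) (v : Fin m → Fin G.n → Fin G.n → ℝ)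
    (hv : ∀ i, v i ∈ (zz G).map (castH G.n)) (x : Fin m → ℝ) (hx : ∑ i, x i • v i ∈ cobS G) :
    x ∈ Submodule.span ℝ {w : Fin m → ℝ | ∃ u : Fin m → ℤ, ∑ i, (u i : ℝ) • v i ∈ cobS G ∧
      w = fun i => (u i : ℝ)} := by
  classical
  choose z hz hzv using hv
  obtain ⟨b, hb⟩ := hx
  let κ := {q : Fin G.n × Fin G.n // (G.B q.1 ∩ G.B q.2).Nonempty}
  let A : κ → (Fin m ⊕ Fin G.n) → ℤ := fun q => Sum.elim (fun k => z k q.1.1 q.1.2)
    (fun l => - (if l = q.1.1 then 1 else 0) + (if l = q.1.2 then 1 else 0))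
  have hsum : ∀ (y : Fin m → ℝ) (i j : Fin G.n), (∑ k, y k • v k) i j =
      ∑ k, (z k i j : ℝ) * y k := by
    intro y i j
    rw [Finset.sum_apply, Finset.sum_apply]
    refine Finset.sum_congr rfl fun k _ => ?_
    rw [← hzv k]
    show y k * (z k i j : ℝ) = _
    ring
  have hA : ∀ (q : κ) (y : Fin m → ℝ) (β : Fin G.n → ℝ),
      ∑ i, (A q i : ℝ) * (Sum.elim y β : Fin m ⊕ Fin G.n → ℝ) i =
        (∑ k, y k • v k) q.1.1 q.1.2 - (β q.1.1 - β q.1.2) := by
    intro q y β
    rw [Fintype.sum_sum_type, hsum]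
    simp only [A, Sum.elim_inl, Sum.elim_inr]
    have : ∑ l, ((-(if l = q.1.1 then 1 else 0) + (if l = q.1.2 then 1 else 0) : ℤ) : ℝ) * β l =
        - (β q.1.1 - β q.1.2) := by
      push_cast
      simp only [add_mul, neg_mul, ite_mul, one_mul, zero_mul, Finset.sum_add_distrib,
        Finset.sum_neg_distrib, Finset.sum_ite_eq', Finset.mem_univ, if_true]
      ring
    rw [this]
    ring
  have h := SpanZ_311.span_int_system A (Sum.elim x b) (fun q => by
    obtain ⟨p, hp⟩ := q.2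
    rw [hA, hb q.1.1 q.1.2 p hp.1 hp.2, sub_self])
  let F : (Fin m ⊕ Fin G.n → ℝ) →ₗ[ℝ] (Fin m → ℝ) := LinearMap.funLeft ℝ ℝ Sum.inl
  have h2 : x = F (Sum.elim x b) := by
    funext k; rfl
  rw [h2]
  have h3 := Submodule.mem_map_of_mem (f := F) h
  rw [Submodule.map_span] at h3
  refine Submodule.span_mono ?_ h3
  rintro w ⟨w', ⟨u, hu, rfl⟩, rfl⟩
  refine ⟨fun k => u (Sum.inl k), ⟨fun l => (u (Sum.inr l) : ℝ), fun i j p hi hj => ?_⟩, rfl⟩
  have h4 := hu ⟨(i, j), ⟨p, hi, hj⟩⟩
  have h5 := hA ⟨(i, j), ⟨p, hi, hj⟩⟩ (fun k => (u (Sum.inl k) : ℝ)) (fun l => (u (Sum.inr l) : ℝ))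
  have h6 : ∑ q, (A ⟨(i, j), ⟨p, hi, hj⟩⟩ q : ℝ) *
      (Sum.elim (fun k => (u (Sum.inl k) : ℝ)) (fun l => (u (Sum.inr l) : ℝ)) :
        Fin m ⊕ Fin G.n → ℝ) q = 0 := by
    have h7 : ∀ q, (Sum.elim (fun k => (u (Sum.inl k) : ℝ)) (fun l => (u (Sum.inr l) : ℝ)) :
        Fin m ⊕ Fin G.n → ℝ) q = (u q : ℝ) := by
      intro q
      cases q <;> rfl
    simp only [h7]
    exact_mod_cast h4
  rw [h6] at h5
  linarith

theorem coc_mem_span {G : RGC M} {c : Fin G.n → Fin G.n → ℝ} (hc : Coc1 G.B c) :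
    c ∈ Submodule.span ℝ (((zz G).map (castH G.n) : AddSubgroup _) :
      Set (Fin G.n → Fin G.n → ℝ)) := by
  have h := SpanZ_311.span_int_cocycle1 G.B c (fun i j k ⟨x, hx⟩ => hc i j k x hx.1.1 hx.1.2 hx.2)
  refine Submodule.span_mono ?_ h
  rintro w ⟨u, hu, rfl⟩
  exact ⟨u, hu, rfl⟩

/-- **(H1-3)** for one good cover. -/
theorem exists_h1_basis_G (G : RGC M) : ∃ (b : ℕ) (s : Fin b → F1 E4 M),
    (∀ k, Closed1 (s k) ∧ IsInt1 (s k)) ∧
    (∀ r, Closed1 r → ∃ x : Fin b → ℝ,
      (∃ f : M → ℝ, SmoothF E4 f ∧ r = (∑ k, x k • s k) + dF f) ∧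
      (IsInt1 r ↔ ∀ k, ∃ m : ℤ, x k = m)) ∧
    (∀ x : Fin b → ℝ, (∃ f : M → ℝ, SmoothF E4 f ∧ (∑ k, x k • s k) = dF f) → x = 0) := by
  obtain ⟨b, e, h1, h2, h3, h4⟩ := rel_basis (cobS G) ((zz G).map (castH G.n)) (fg_zz G) (hrat_G G)
  choose z hz hze using h1
  have hcoc : ∀ k, Coc1 G.B (e k) := fun k => by
    rw [← hze k]; exact coc_of_zz (hz k)
  have hcd : ∀ k, CD1 G.B (sig (E := E4) G.ψ (e k)) (fun m x => ∑ j, e k m j * G.ψ j x) (e k) :=
    fun k => cd1_sig_G G (hcoc k)
  have hint : ∀ k, IsInt1 (sig (E := E4) G.ψ (e k)) := by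
    intro k
    refine (isInt1_iff G).2 ⟨fun m x => ∑ j, e k m j * G.ψ j x, z k, int1_iff_cd1.2 ?_⟩
    have e0 : (fun i j => (z k i j : ℝ)) = e k := hze k
    rw [e0]
    exact hcd k
  have hsum : ∀ x : Fin b → ℝ, CD1 G.B (∑ k, x k • sig (E := E4) G.ψ (e k))
      (fun i y => ∑ k, x k * ∑ j, e k i j * G.ψ j y) (fun i j => ∑ k, x k * e k i j) := fun x =>
    CD1.sum Finset.univ fun k _ => (hcd k).smul (x k)
  have heq : ∀ x : Fin b → ℝ, (fun i j => ∑ k, x k * e k i j) = ∑ k, x k • e k := by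
    intro x
    funext i j
    rw [Finset.sum_apply, Finset.sum_apply]
    rfl
  refine ⟨b, fun k => sig (E := E4) G.ψ (e k), fun k => ⟨(hint k).closed, hint k⟩, fun r hr => ?_,
    fun x hx => ?_⟩
  · obtain ⟨g, c, hg⟩ := exists_cd1_G G hr
    obtain ⟨x, hx⟩ := h2 c (coc_mem_span hg.isCoc)
    have hd := hg.sub (hsum x)
    obtain ⟨f, hf, hrf⟩ := exact_G G hd (by
      have e1 : (fun i j => c i j - ∑ k, x k * e k i j) = c - ∑ k, x k • e k := by
        rw [← heq x]; rfl
      rw [e1]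
      exact hx)
    refine ⟨x, ⟨f, hf, ?_⟩, ?_⟩
    · rw [← hrf]; abel
    · constructor
      · intro hri
        obtain ⟨g', m', hg'⟩ := (isInt1_iff G).1 hri
        have hg'' := int1_iff_cd1.1 hg'
        have hu := CD1.unique G.isOpen G.sub G.conv hg hg''
        refine h4 x (fun i j => (m' i j : ℝ)) ⟨m', ?_, rfl⟩ ?_
        · rintro i j k ⟨y, ⟨hi, hj⟩, hk⟩
          have := hg''.isCoc i j k y hi hj hk
          beta_reduce at this
          exact_mod_cast this
        · have e2 : (∑ k, x k • e k) - (fun i j => (m' i j : ℝ)) =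
              (fun i j => c i j - (m' i j : ℝ)) - (c - ∑ k, x k • e k) := by
            funext i j
            show (∑ k, x k • e k) i j - (m' i j : ℝ) =
              (c i j - (m' i j : ℝ)) - (c i j - (∑ k, x k • e k) i j)
            ring
          rw [e2]
          exact (cobS G).sub_mem hu hx
      · intro hxm
        choose m hm using hxm
        refine (isInt1_iff G).2 ⟨fun i y => (∑ k, x k * ∑ j, e k i j * G.ψ j y) + f y,
          fun i j => ∑ k, m k * z k i j, int1_iff_cd1.2 ?_⟩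
        have h5 := (hsum x).add (cd1_dF (B := G.B) hf)
        have e3 : r = (∑ k, x k • sig (E := E4) G.ψ (e k)) + dF f := by
          rw [← hrf]; abel
        rw [e3]
        convert h5 using 3 with i j
        rw [add_zero]
        push_cast
        refine Finset.sum_congr rfl fun k _ => ?_
        rw [hm k, ← hze k]
        rfl
  · obtain ⟨f, hf, hxf⟩ := hx
    have h5 := hsum x
    rw [hxf] at h5
    have h6 := CD1.unique G.isOpen G.sub G.conv h5 (cd1_dF (B := G.B) hf)
    refine h3 x ?_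
    rw [← heq x]
    have e4 : (fun i j => ∑ k, x k * e k i j) = fun i j => (∑ k, x k * e k i j) - 0 := by
      funext i j; rw [sub_zero]
    rw [e4]
    exact h6

end Four

end

end Crest.Agent.R235.H1A_692
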