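import Crest.Agent.R235.LbH_453
import Crest.Agent.R235.UniF_470

/-!
Row 235, helper453: HZ is the lattice of integral classes (universe 0, from UNIALL).
-/

namespace Crest.Agent.R235.Lb453

theorem hzeq : HZLat_524.HZEQ.{0} := hzeq_of UniF_470.uniall

theorem hzlat : HZLat_524.HZLAT.{0} := hzlat_of_uniall UniF_470.uniall

end Crest.Agent.R235.Lb453
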