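import Crest.Agent.R235.Dich_723
import Crest.Agent.R235.HZ_453
import Crest.Agent.R235.H1Fin_692

/-!
Row 235 (S0364), helper723: `DICHR.{0}` with the landed inputs `HZLAT.{0}` (453/470/524/692) and
`H1BAS` (692) filled in.
-/

set_option autoImplicit false
set_option maxSynthPendingDepth 3

namespace Crest.Agent.R235

open DichProps_723

universe u

/-- **DICHR** (universe 0) from the open inputs of IND, SW, FAM and LAT. -/
theorem dichr0 (hS : SIG235.{0}) (hE : EVEN235.{0}) (hB : BPLUS.{0}) (hF4 : FAM4W.{0})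
    (hC : EVENCLASS) : DICHR.{0} :=
  dichr_of Lb453.hzlat H1Fin_692.h1bas hS hE hB hF4 hC

theorem fam4w_of (h : FAM4.{u}) : FAM4W.{u} := by
  intro M _ _ _ _ _ _ w hw s hs a b ha hb h0
  have h1 := h M w hw s hs a b ha hb
  rw [h0, abs_zero] at h1
  exact zero_ne_one h1

end Crest.Agent.R235
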