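import Crest.Agent.R235.TorDefs_225
import Crest.Agent.R235.Ip_288

/-!
Row 235 (S0364), package TOR, helper510: pull-back of forms by a smooth self-map
(chart formulas, smoothness, closedness, exactness, products).
-/

set_option autoImplicit false
set_option maxSynthPendingDepth 3
set_option linter.unusedSectionVars false

open Set Function Filter MeasureTheory
open scoped Manifold ContDiff Topology

universe u

namespace Crest.Agent.R235.TorMin_510

open Crest.Agent.R235 Crest.Agent.R240 Crest.Agent.R240.Ch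

noncomputable section

section Self

variable {M : Type u} [TopologicalSpace M] [ChartedSpace E4 M] [IsManifold 𝓘(ℝ, E4) ∞ M]

/-- `τ` in the charts at `p` and `q`. -/
def wr (τ : M → M) (p q : M) (y : E4) : E4 := chartAt E4 q (τ ((chartAt E4 p).symm y))

theorem wr_contDiffAt {τ : M → M} (hτ : ContMDiff 𝓘(ℝ, E4) 𝓘(ℝ, E4) ∞ τ) {p q : M} {y : E4}
    (hy : y ∈ (chartAt E4 p).target) (hq : τ ((chartAt E4 p).symm y) ∈ (chartAt E4 q).source) :
    ContDiffAt ℝ ∞ (wr τ p q) y := by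
  have hs : ContMDiffAt 𝓘(ℝ, E4) 𝓘(ℝ, E4) ∞ (chartAt E4 p).symm y :=
    (contMDiffOn_chart_symm (I := 𝓘(ℝ, E4)) (x := p)).contMDiffAt
      ((chartAt E4 p).open_target.mem_nhds hy)
  have hc : ContMDiffAt 𝓘(ℝ, E4) 𝓘(ℝ, E4) ∞ (chartAt E4 q) (τ ((chartAt E4 p).symm y)) :=
    (contMDiffOn_chart (I := 𝓘(ℝ, E4)) (x := q)).contMDiffAt
      ((chartAt E4 q).open_source.mem_nhds hq)
  exact (hc.comp y ((hτ _).comp y hs)).contDiffAt

/-- `dself` is the derivative in the preferred charts. -/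
theorem dself_eq {τ : M → M} (hτ : ContMDiff 𝓘(ℝ, E4) 𝓘(ℝ, E4) ∞ τ) (x : M) :
    dself τ x = fderiv ℝ (wr τ x (τ x)) (chartAt E4 x x) := by
  have h1 : dself τ x = (fderivWithin ℝ (writtenInExtChartAt 𝓘(ℝ, E4) 𝓘(ℝ, E4) x τ)
      (range 𝓘(ℝ, E4)) (extChartAt 𝓘(ℝ, E4) x x) : E4 →L[ℝ] E4) :=
    ((hτ x).mdifferentiableAt (by simp)).mfderiv
  rw [h1, modelWithCornersSelf_coe, range_id, fderivWithin_univ]
  rfl

/-- the derivative in arbitrary charts. -/
theorem fderiv_wr {τ : M → M} (hτ : ContMDiff 𝓘(ℝ, E4) 𝓘(ℝ, E4) ∞ τ) {p q : M} {y : E4}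
    (hy : y ∈ (chartAt E4 p).target) (hq : τ ((chartAt E4 p).symm y) ∈ (chartAt E4 q).source)
    (u : E4) :
    fderiv ℝ (wr τ p q) y u = tcc (τ ((chartAt E4 p).symm y)) q (τ ((chartAt E4 p).symm y))
      (dself τ ((chartAt E4 p).symm y)
        (tcc p ((chartAt E4 p).symm y) ((chartAt E4 p).symm y) u)) := by
  set x := (chartAt E4 p).symm y with hx
  have hxs : x ∈ (chartAt E4 p).source := symm_mem hy
  have hpx : chartAt E4 p x = y := (chartAt E4 p).right_inv hy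
  have h1 : tcc p x x u = fderiv ℝ (trans (E := E4) p x) y u := by
    rw [tcc_eq_fderiv_trans, hpx]
  have h2 : ∀ v, tcc (τ x) q (τ x) v =
      fderiv ℝ (trans (E := E4) (τ x) q) (chartAt E4 (τ x) (τ x)) v := by
    intro v; rw [tcc_eq_fderiv_trans]
  have htx : trans (E := E4) p x y = chartAt E4 x x := by
    simp only [Ch.trans, comp_apply, ← hx]
  have hcx : (chartAt E4 x).symm (chartAt E4 x x) = x := (chartAt E4 x).left_inv (mem_chart_source E4 x)
  have hw : wr τ x (τ x) (chartAt E4 x x) = chartAt E4 (τ x) (τ x) := by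
    simp only [wr, hcx]
  rw [h1, h2, dself_eq hτ]
  have d1' : DifferentiableAt ℝ (trans (E := E4) p x) y :=
    (trans_contDiffAt hy (by rw [← hx]; exact mem_chart_source E4 x)).differentiableAt infty_ne_zero
  have d2' : DifferentiableAt ℝ (wr τ x (τ x)) (chartAt E4 x x) :=
    (wr_contDiffAt hτ (mem_chart_target E4 x) (by rw [hcx]; exact mem_chart_source E4 _)).differentiableAt
      infty_ne_zero
  have d3' : DifferentiableAt ℝ (trans (E := E4) (τ x) q) (chartAt E4 (τ x) (τ x)) :=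
    (trans_contDiffAt (mem_chart_target E4 _) (by
      rw [(chartAt E4 (τ x)).left_inv (mem_chart_source E4 _)]; exact hq)).differentiableAt
      infty_ne_zero
  have hev : wr τ p q =ᶠ[𝓝 y] fun z => trans (E := E4) (τ x) q
      (wr τ x (τ x) (trans (E := E4) p x z)) := by
    have c1 : ContinuousAt (chartAt E4 p).symm y := (chartAt E4 p).continuousAt_symm hy
    have o1 : ∀ᶠ z in 𝓝 y, (chartAt E4 p).symm z ∈ (chartAt E4 x).source :=
      c1.eventually ((chartAt E4 x).open_source.mem_nhds (by rw [← hx]; exact mem_chart_source E4 x))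
    have c2 : ContinuousAt (fun z => τ ((chartAt E4 p).symm z)) y :=
      ContinuousAt.comp (hτ.continuous.continuousAt) c1
    have o2 : ∀ᶠ z in 𝓝 y, τ ((chartAt E4 p).symm z) ∈ (chartAt E4 (τ x)).source :=
      c2.eventually ((chartAt E4 (τ x)).open_source.mem_nhds (by
        simp only [← hx]; exact mem_chart_source E4 _))
    filter_upwards [o1, o2] with z hz1 hz2
    simp only [wr, Ch.trans, comp_apply]
    rw [(chartAt E4 x).left_inv hz1, (chartAt E4 (τ x)).left_inv hz2]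
  rw [hev.fderiv_eq]
  have e1 : HasFDerivAt (fun z => wr τ x (τ x) (trans (E := E4) p x z))
      ((fderiv ℝ (wr τ x (τ x)) (chartAt E4 x x)).comp (fderiv ℝ (trans (E := E4) p x) y)) y := by
    refine HasFDerivAt.comp (g := wr τ x (τ x)) y ?_ d1'.hasFDerivAt
    rw [htx]; exact d2'.hasFDerivAt
  have e2 := HasFDerivAt.comp (g := trans (E := E4) (τ x) q)
    (f := fun z => wr τ x (τ x) (trans (E := E4) p x z))
    (g' := fderiv ℝ (trans (E := E4) (τ x) q) (chartAt E4 (τ x) (τ x))) y (by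
      simp only [htx, hw]; exact d3'.hasFDerivAt) e1
  have e3 := e2.fderiv
  simp only [Function.comp_def] at e3
  rw [e3]
  rfl

/-! ### pull back -/

/-- pull back of one-forms. -/
def pb1 (τ : M → M) (s : F1 E4 M) : F1 E4 M := fun x => ((at1 s (τ x)).comp (dself τ x) : E4 →L[ℝ] ℝ)

/-- pull back of two-forms. -/
def pb2 (τ : M → M) (a : F2 E4 M) : F2 E4 M := fun x =>
  (ContinuousLinearMap.bilinearComp (at2 a (τ x)) (dself τ x) (dself τ x) : E4 →L[ℝ] E4 →L[ℝ] ℝ)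

theorem at1_pb1 (τ : M → M) (s : F1 E4 M) (x : M) (u : E4) :
    at1 (pb1 τ s) x u = at1 s (τ x) (dself τ x u) := rfl

theorem at2_pb2 (τ : M → M) (a : F2 E4 M) (x : M) (u v : E4) :
    at2 (pb2 τ a) x u v = at2 a (τ x) (dself τ x u) (dself τ x v) := rfl

theorem rep1_pb1 {τ : M → M} (hτ : ContMDiff 𝓘(ℝ, E4) 𝓘(ℝ, E4) ∞ τ) {p q : M} {y : E4}
    (hy : y ∈ (chartAt E4 p).target) (hq : τ ((chartAt E4 p).symm y) ∈ (chartAt E4 q).source)
    (s : F1 E4 M) :
    rep1 p (pb1 τ s) y = (rep1 q s (wr τ p q y)).comp (fderiv ℝ (wr τ p q) y) := by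
  ext u
  rw [ContinuousLinearMap.comp_apply, fderiv_wr hτ hy hq, rep1_apply, at1_pb1,
    apply_eq_rep1 hq s]
  rfl

theorem rep_pb2 {τ : M → M} (hτ : ContMDiff 𝓘(ℝ, E4) 𝓘(ℝ, E4) ∞ τ) {p q : M} {y : E4}
    (hy : y ∈ (chartAt E4 p).target) (hq : τ ((chartAt E4 p).symm y) ∈ (chartAt E4 q).source)
    (a : F2 E4 M) (u v : E4) :
    rep p (pb2 τ a) y u v =
      rep q a (wr τ p q y) (fderiv ℝ (wr τ p q) y u) (fderiv ℝ (wr τ p q) y v) := by
  rw [fderiv_wr hτ hy hq, fderiv_wr hτ hy hq, rep_apply, at2_pb2, apply_eq_rep hq a]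
  rfl

theorem ev_mem {τ : M → M} (hτ : ContMDiff 𝓘(ℝ, E4) 𝓘(ℝ, E4) ∞ τ) {p q : M} {y : E4}
    (hy : y ∈ (chartAt E4 p).target) (hq : τ ((chartAt E4 p).symm y) ∈ (chartAt E4 q).source) :
    ∀ᶠ z in 𝓝 y, z ∈ (chartAt E4 p).target ∧ τ ((chartAt E4 p).symm z) ∈ (chartAt E4 q).source := by
  have c1 : ContinuousAt (chartAt E4 p).symm y := (chartAt E4 p).continuousAt_symm hy
  have c2 : ContinuousAt (fun z => τ ((chartAt E4 p).symm z)) y :=
    ContinuousAt.comp (hτ.continuous.continuousAt) c1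
  filter_upwards [(chartAt E4 p).open_target.mem_nhds hy,
    c2.eventually ((chartAt E4 q).open_source.mem_nhds hq)] with z h1 h2 using ⟨h1, h2⟩

theorem Smooth1.pb {τ : M → M} (hτ : ContMDiff 𝓘(ℝ, E4) 𝓘(ℝ, E4) ∞ τ) {s : F1 E4 M}
    (hs : Smooth1 s) : Smooth1 (pb1 τ s) := by
  intro p
  refine contDiffOn_chart_iff.2 fun y hy => ?_
  have hq : τ ((chartAt E4 p).symm y) ∈ (chartAt E4 (τ ((chartAt E4 p).symm y))).source :=
    mem_chart_source E4 _
  have hw := wr_contDiffAt hτ hy hq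
  have hev : rep1 p (pb1 τ s) =ᶠ[𝓝 y] fun z =>
      (rep1 (τ ((chartAt E4 p).symm y)) s (wr τ p (τ ((chartAt E4 p).symm y)) z)).comp
        (fderiv ℝ (wr τ p (τ ((chartAt E4 p).symm y))) z) := by
    filter_upwards [ev_mem hτ hy hq] with z hz using rep1_pb1 hτ hz.1 hz.2 s
  refine ContDiffAt.congr_of_eventuallyEq ?_ hev
  have h1 : ContDiffAt ℝ ∞ (fun z => rep1 (τ ((chartAt E4 p).symm y)) s
      (wr τ p (τ ((chartAt E4 p).symm y)) z)) y :=
    ContDiffAt.comp (g := rep1 (τ ((chartAt E4 p).symm y)) s) y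
      (hs.at ((chartAt E4 _).map_source hq)) hw
  exact h1.clm_comp (hw.fderiv_right (m := ∞) (by simp))

theorem Smooth2.pb {τ : M → M} (hτ : ContMDiff 𝓘(ℝ, E4) 𝓘(ℝ, E4) ∞ τ) {a : F2 E4 M}
    (ha : Smooth2 a) : Smooth2 (pb2 τ a) := by
  refine ⟨fun x v => ha.1 _ _, fun p => contDiffOn_chart_iff.2 fun y hy => ?_⟩
  have hq : τ ((chartAt E4 p).symm y) ∈ (chartAt E4 (τ ((chartAt E4 p).symm y))).source :=
    mem_chart_source E4 _
  set q := τ ((chartAt E4 p).symm y) with hqdef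
  have hw := wr_contDiffAt hτ hy hq
  have hev : rep p (pb2 τ a) =ᶠ[𝓝 y] fun z =>
      ((ContinuousLinearMap.compL ℝ E4 E4 ℝ).flip (fderiv ℝ (wr τ p q) z)).comp
        ((rep q a (wr τ p q z)).comp (fderiv ℝ (wr τ p q) z)) := by
    filter_upwards [ev_mem hτ hy hq] with z hz
    ext u v
    rw [rep_pb2 hτ hz.1 hz.2 a]
    rfl
  refine ContDiffAt.congr_of_eventuallyEq ?_ hev
  have h1 : ContDiffAt ℝ ∞ (fun z => rep q a (wr τ p q z)) y :=
    ContDiffAt.comp (g := rep q a) y (ha.at ((chartAt E4 _).map_source hq)) hw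
  have h2 : ContDiffAt ℝ ∞ (fderiv ℝ (wr τ p q)) y := hw.fderiv_right (m := ∞) (by simp)
  have h3 : ContDiffAt ℝ ∞ (fun z => (ContinuousLinearMap.compL ℝ E4 E4 ℝ).flip
      (fderiv ℝ (wr τ p q) z)) y :=
    ((ContinuousLinearMap.compL ℝ E4 E4 ℝ).flip.contDiff.contDiffAt).comp y h2
  exact h3.clm_comp (h1.clm_comp h2)

theorem Closed2.pb {τ : M → M} (hτ : ContMDiff 𝓘(ℝ, E4) 𝓘(ℝ, E4) ∞ τ) {a : F2 E4 M}
    (ha : Smooth2 a) (hc : Closed2 a) : Closed2 (pb2 τ a) := by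
  intro p y hy u v w
  have hq : τ ((chartAt E4 p).symm y) ∈ (chartAt E4 (τ ((chartAt E4 p).symm y))).source :=
    mem_chart_source E4 _
  have hm := (chartAt E4 (τ ((chartAt E4 p).symm y))).map_source hq
  rw [dd_pullback (b := rep (τ ((chartAt E4 p).symm y)) a) (wr_contDiffAt hτ hy hq) (ha.diff hm)
    (fun u v => ha.antisymm_rep _ _ u v) ((Smooth2.pb hτ ha).diff hy) (by
      filter_upwards [ev_mem hτ hy hq] with z hz u v using rep_pb2 hτ hz.1 hz.2 a u v)]
  exact hc _ _ hm _ _ _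

theorem pb2_dG {τ : M → M} (hτ : ContMDiff 𝓘(ℝ, E4) 𝓘(ℝ, E4) ∞ τ) {s : F1 E4 M}
    (hs : Smooth1 s) : pb2 τ (dG s) = dG (pb1 τ s) := by
  funext x
  have hy := mem_chart_target E4 x
  have hcx : (chartAt E4 x).symm (chartAt E4 x x) = x :=
    (chartAt E4 x).left_inv (mem_chart_source E4 x)
  have hq : τ ((chartAt E4 x).symm (chartAt E4 x x)) ∈ (chartAt E4 (τ x)).source := by
    rw [hcx]; exact mem_chart_source E4 _
  have hm : wr τ x (τ x) (chartAt E4 x x) ∈ (chartAt E4 (τ x)).target :=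
    (chartAt E4 _).map_source hq
  have h2 : ∀ u v, at2 (pb2 τ (dG s)) x u v = at2 (dG (pb1 τ s)) x u v := by
    intro u v
    rw [← rep_self x (pb2 τ (dG s)), ← rep_self x (dG (pb1 τ s)), rep_dG (Smooth1.pb hτ hs) hy,
      rep_pb2 hτ hy hq, rep_dG hs hm,
      d1_pullback (s := rep1 (τ x) s) (wr_contDiffAt hτ hy hq)
        ((hs.at hm).differentiableAt infty_ne_zero) (by
        filter_upwards [ev_mem hτ hy hq] with z hz using rep1_pb1 hτ hz.1 hz.2 s)]
  exact ContinuousLinearMap.ext fun u => ContinuousLinearMap.ext fun v => h2 u v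

theorem SmoothF.pb {τ : M → M} (hτ : ContMDiff 𝓘(ℝ, E4) 𝓘(ℝ, E4) ∞ τ) {f : M → ℝ}
    (hf : SmoothF E4 f) : SmoothF E4 (fun x => f (τ x)) := by
  rw [← smoothF_iff] at hf ⊢
  exact hf.comp hτ

theorem pb1_dF {τ : M → M} (hτ : ContMDiff 𝓘(ℝ, E4) 𝓘(ℝ, E4) ∞ τ) {f : M → ℝ}
    (hf : SmoothF E4 f) : pb1 τ (dF f) = dF (fun x => f (τ x)) := by
  funext x
  have hy := mem_chart_target E4 x
  have hcx : (chartAt E4 x).symm (chartAt E4 x x) = x :=
    (chartAt E4 x).left_inv (mem_chart_source E4 x)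
  have hq : τ ((chartAt E4 x).symm (chartAt E4 x x)) ∈ (chartAt E4 (τ x)).source := by
    rw [hcx]; exact mem_chart_source E4 _
  have hm := (chartAt E4 (τ x)).map_source hq
  have hev : repF x (fun x => f (τ x)) =ᶠ[𝓝 (chartAt E4 x x)]
      fun z => repF (τ x) f (wr τ x (τ x) z) := by
    filter_upwards [ev_mem hτ hy hq] with z hz
    simp only [repF, wr]
    rw [(chartAt E4 (τ x)).left_inv hz.2]
  have h3 : fderiv ℝ (repF x (fun x => f (τ x))) (chartAt E4 x x) =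
      (fderiv ℝ (repF (τ x) f) (wr τ x (τ x) (chartAt E4 x x))).comp
        (fderiv ℝ (wr τ x (τ x)) (chartAt E4 x x)) := by
    rw [hev.fderiv_eq]
    exact fderiv_comp (g := repF (τ x) f) _ ((hf.at hm).differentiableAt infty_ne_zero)
      ((wr_contDiffAt hτ hy hq).differentiableAt infty_ne_zero)
  have hw : wr τ x (τ x) (chartAt E4 x x) = chartAt E4 (τ x) (τ x) := by
    simp only [wr, hcx]
  rw [hw, ← dself_eq hτ] at h3
  exact h3.symm

theorem pb2_wedG (τ : M → M) (s t : F1 E4 M) : pb2 τ (wedG s t) = wedG (pb1 τ s) (pb1 τ t) := rfl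

theorem Closed1.pb {τ : M → M} (hτ : ContMDiff 𝓘(ℝ, E4) 𝓘(ℝ, E4) ∞ τ) {s : F1 E4 M}
    (hs : Closed1 s) : Closed1 (pb1 τ s) := by
  refine ⟨Smooth1.pb hτ hs.1, fun p y hy => ?_⟩
  have hq : τ ((chartAt E4 p).symm y) ∈ (chartAt E4 (τ ((chartAt E4 p).symm y))).source :=
    mem_chart_source E4 _
  have hm := (chartAt E4 (τ ((chartAt E4 p).symm y))).map_source hq
  ext u v
  rw [d1_pullback (s := rep1 (τ ((chartAt E4 p).symm y)) s) (wr_contDiffAt hτ hy hq)
        ((hs.1.at hm).differentiableAt infty_ne_zero) (by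
        filter_upwards [ev_mem hτ hy hq] with z hz using rep1_pb1 hτ hz.1 hz.2 s), wr,
        hs.2 _ _ hm]
  rfl

/-! ### closed one-forms -/

theorem closed1_iff {s : F1 E4 M} : Closed1 s ↔ Smooth1 s ∧ dG s = 0 := by
  constructor
  · rintro ⟨h1, h2⟩
    refine ⟨h1, ?_⟩
    funext x
    exact h2 x _ (mem_chart_target E4 x)
  · rintro ⟨h1, h2⟩
    refine ⟨h1, fun p y hy => ?_⟩
    rw [← rep_dG h1 hy, h2]
    rfl

theorem closed1_dF {f : M → ℝ} (hf : SmoothF E4 f) : Closed1 (dF (E := E4) f) :=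
  closed1_iff.2 ⟨Smooth1.dF hf, dG_dF hf⟩

theorem Closed1.add {s t : F1 E4 M} (hs : Closed1 s) (ht : Closed1 t) : Closed1 (s + t) := by
  rw [closed1_iff] at hs ht ⊢
  exact ⟨hs.1.add ht.1, by rw [dG_add hs.1 ht.1, hs.2, ht.2, add_zero]⟩

theorem Closed1.smul (c : ℝ) {s : F1 E4 M} (hs : Closed1 s) : Closed1 (c • s) := by
  rw [closed1_iff] at hs ⊢
  exact ⟨hs.1.smul c, by rw [dG_smul c hs.1, hs.2, smul_zero]⟩

/-- the differential of a function, evaluated. -/
theorem dF_add {f g : M → ℝ} (hf : SmoothF E4 f) (hg : SmoothF E4 g) :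
    dF (E := E4) (fun x => f x + g x) = dF f + dF g := by
  funext x
  exact fderiv_fun_add ((hf.at (mem_chart_target E4 x)).differentiableAt infty_ne_zero)
    ((hg.at (mem_chart_target E4 x)).differentiableAt infty_ne_zero)

theorem dF_smul (c : ℝ) {f : M → ℝ} (hf : SmoothF E4 f) :
    dF (E := E4) (fun x => c * f x) = c • dF f := by
  funext x
  exact fderiv_const_mul ((hf.at (mem_chart_target E4 x)).differentiableAt infty_ne_zero) c

end Self

end

end Crest.Agent.R235.TorMin_510
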