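import Crest.Agent.R235.DichProps_723
import Crest.Agent.R235.TorMinA_510
import Crest.Agent.R235.OAD_470

/-!
Row 235 (S0364), helper723: `H¹` as a vector space, uniqueness of `b₁`, products of closed
one-forms as closed two-forms, their intersection numbers.
-/

set_option autoImplicit false
set_option maxSynthPendingDepth 3
set_option linter.unusedSectionVars false

open Set Function Filter MeasureTheory
open scoped Manifold ContDiff Topology

universe u

namespace Crest.Agent.R235.DichH1_723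

open Crest.Agent.R240 Crest.Agent.R240.Ch Crest.Agent.R240.Int
open DichProps_723 TorMin_510

noncomputable section

section H1

variable (M : Type u) [TopologicalSpace M] [ChartedSpace E4 M] [IsManifold 𝓘(ℝ, E4) ∞ M]

theorem dF_zero : dF (E := E4) (fun _ : M => (0 : ℝ)) = 0 := by
  funext x
  show fderiv ℝ (fun _ : E4 => (0 : ℝ)) _ = 0
  exact fderiv_const_apply _

/-- closed one-forms -/
def Z1s : Submodule ℝ (F1 E4 M) where
  carrier := {s | Closed1 s}
  zero_mem' := by
    have h := closed1_dF (M := M) (f := fun _ => (0 : ℝ)) (smoothF_const 0)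
    rw [dF_zero] at h
    exact h
  add_mem' := fun hs ht => Closed1.add hs ht
  smul_mem' := fun c _ hs => Closed1.smul c hs

/-- exact one-forms -/
def E1s : Submodule ℝ (F1 E4 M) where
  carrier := {s | ∃ f : M → ℝ, SmoothF E4 f ∧ s = dF f}
  zero_mem' := ⟨fun _ => 0, smoothF_const 0, (dF_zero M).symm⟩
  add_mem' := by
    rintro _ _ ⟨f, hf, rfl⟩ ⟨g, hg, rfl⟩
    exact ⟨_, hf.add hg, (dF_add hf hg).symm⟩
  smul_mem' := by
    rintro c _ ⟨f, hf, rfl⟩
    exact ⟨_, SmoothF.mul (smoothF_const c) hf, (dF_smul c hf).symm⟩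

/-- first de Rham cohomology -/
abbrev H1 : Type u := (Z1s M) ⧸ ((E1s M).comap (Z1s M).subtype)

variable {M}

theorem finrank_H1 {b : ℕ} (h : HasB1 M b) : Module.finrank ℝ (H1 M) = b := by
  obtain ⟨s, hs, hspan, hind⟩ := h
  let s' : Fin b → Z1s M := fun i => ⟨s i, hs i⟩
  have hcoe : ∀ c : Fin b → ℝ, ((∑ i, c i • s' i : Z1s M) : F1 E4 M) = ∑ i, c i • s i := by
    intro c
    rw [Submodule.coe_sum]
    rfl
  let L : (Fin b → ℝ) →ₗ[ℝ] H1 M :=
    ((E1s M).comap (Z1s M).subtype).mkQ ∘ₗ Fintype.linearCombination ℝ s'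
  have hL : ∀ c, L c = ((E1s M).comap (Z1s M).subtype).mkQ (∑ i, c i • s' i) := by
    intro c
    simp [L, Fintype.linearCombination_apply]
  have hinj : Function.Injective L := by
    rw [injective_iff_map_eq_zero]
    intro c hc
    rw [hL, Submodule.mkQ_apply, Submodule.Quotient.mk_eq_zero, Submodule.mem_comap] at hc
    obtain ⟨f, hf, hcf⟩ := hc
    refine hind c f hf ?_
    rw [← hcf]
    exact (hcoe c).symm
  have hsurj : Function.Surjective L := by
    intro x
    obtain ⟨⟨r, hr⟩, rfl⟩ := Submodule.mkQ_surjective _ x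
    obtain ⟨c, f, hf, hrf⟩ := hspan r hr
    refine ⟨c, ?_⟩
    rw [hL, ← sub_eq_zero, ← map_sub, Submodule.mkQ_apply, Submodule.Quotient.mk_eq_zero,
      Submodule.mem_comap]
    have h1 : (Z1s M).subtype ((∑ i, c i • s' i) - ⟨r, hr⟩) = (-1 : ℝ) • dF f := by
      rw [map_sub]
      show ((∑ i, c i • s' i : Z1s M) : F1 E4 M) - r = _
      rw [hcoe, hrf, neg_one_smul]
      abel
    rw [h1]
    exact (E1s M).smul_mem _ ⟨f, hf, rfl⟩
  have h2 := (LinearEquiv.ofBijective L ⟨hinj, hsurj⟩).finrank_eq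
  rw [Module.finrank_fin_fun] at h2
  exact h2.symm

theorem hasB1_unique {b b' : ℕ} (h : HasB1 M b) (h' : HasB1 M b') : b = b' := by
  rw [← finrank_H1 h, ← finrank_H1 h']

/-- `b₁ = 0`. -/
theorem b1Zero_of (h : HasB1 M 0) : B1Zero M := by
  obtain ⟨s, _, hspan, _⟩ := h
  intro r hr
  obtain ⟨c, f, hf, hrf⟩ := hspan r hr
  refine ⟨f, hf, ?_⟩
  rw [hrf, Finset.univ_eq_empty, Finset.sum_empty, zero_add]

end H1

section Wedge

/-! ### products of closed one-forms -/

theorem fd_eval {E F : Type*} [NormedAddCommGroup E] [NormedSpace ℝ E] [NormedAddCommGroup F]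
    [NormedSpace ℝ F] {A : E → E →L[ℝ] F} {y : E} (hA : DifferentiableAt ℝ A y) (u v : E) :
    fderiv ℝ (fun z => A z v) y u = fderiv ℝ A y u v := by
  have h := (hA.hasFDerivAt.clm_apply (hasFDerivAt_const v y)).fderiv
  rw [h]
  simp

theorem dd_wed {E : Type*} [NormedAddCommGroup E] [NormedSpace ℝ E] {α β : E → E →L[ℝ] ℝ} {y : E}
    (hα : DifferentiableAt ℝ α y) (hβ : DifferentiableAt ℝ β y)
    (hb : DifferentiableAt ℝ (fun z => (α z).smulRight (β z) - (β z).smulRight (α z)) y)
    (dα : ∀ u v, fderiv ℝ α y u v = fderiv ℝ α y v u)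
    (dβ : ∀ u v, fderiv ℝ β y u v = fderiv ℝ β y v u) (u v w : E) :
    dd (fun z => (α z).smulRight (β z) - (β z).smulRight (α z)) y u v w = 0 := by
  have key : ∀ u v w, fderiv ℝ (fun z => (α z).smulRight (β z) - (β z).smulRight (α z)) y u v w =
      fderiv ℝ α y u v * β y w + α y v * fderiv ℝ β y u w -
        (fderiv ℝ β y u v * α y w + β y v * fderiv ℝ α y u w) := by
    intro u v w
    have h1 : fderiv ℝ (fun z => (α z).smulRight (β z) - (β z).smulRight (α z)) y u v =
        fderiv ℝ (fun z => ((α z).smulRight (β z) - (β z).smulRight (α z)) v) y u :=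
      (fd_eval hb u v).symm
    have hb2 : DifferentiableAt ℝ
        (fun z => ((α z).smulRight (β z) - (β z).smulRight (α z)) v) y :=
      hb.clm_apply (differentiableAt_const v)
    rw [h1, ← fd_eval hb2 u w]
    have hf : (fun z => ((α z).smulRight (β z) - (β z).smulRight (α z)) v w) =
        fun z => α z v * β z w - β z v * α z w := rfl
    rw [hf]
    have a1 : ∀ x, DifferentiableAt ℝ (fun z => α z x) y := fun x =>
      hα.clm_apply (differentiableAt_const x)
    have b1 : ∀ x, DifferentiableAt ℝ (fun z => β z x) y := fun x =>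
      hβ.clm_apply (differentiableAt_const x)
    rw [fderiv_fun_sub ((a1 v).fun_mul (b1 w)) ((b1 v).fun_mul (a1 w)), fderiv_fun_mul (a1 v) (b1 w),
      fderiv_fun_mul (b1 v) (a1 w)]
    simp only [ContinuousLinearMap.sub_apply, ContinuousLinearMap.add_apply,
      ContinuousLinearMap.smul_apply, smul_eq_mul, fd_eval hα, fd_eval hβ]
    ring
  unfold dd
  rw [key, key, key, dα v u, dα w u, dα w v, dβ v u, dβ w u, dβ w v]
  ring

variable {M : Type u} [TopologicalSpace M] [ChartedSpace E4 M] [IsManifold 𝓘(ℝ, E4) ∞ M]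

theorem closed2_wedG {s t : F1 E4 M} (hs : Closed1 s) (ht : Closed1 t) :
    Closed2 (wedG s t : F2 E4 M) := by
  intro p y hy u v w
  have h : rep p (wedG s t) = fun y => (rep1 p s y).smulRight (rep1 p t y)
      - (rep1 p t y).smulRight (rep1 p s y) := by
    funext y
    ext u v
    rfl
  have hsym : ∀ {r : F1 E4 M}, Closed1 r → ∀ u v,
      fderiv ℝ (rep1 p r) y u v = fderiv ℝ (rep1 p r) y v u := by
    intro r hr u v
    have h1 : d1 (rep1 p r) y u v = 0 := by rw [hr.2 p y hy]; rfl
    rw [d1_apply] at h1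
    linarith
  rw [h]
  refine dd_wed ((hs.1.at hy).differentiableAt infty_ne_zero)
    ((ht.1.at hy).differentiableAt infty_ne_zero) ?_ (hsym hs) (hsym ht) u v w
  rw [← h]
  exact (Smooth2.wed hs.1 ht.1).diff hy

/-- the product of two closed one-forms, as a closed two-form. -/
def wedZ {s t : F1 E4 M} (hs : Closed1 s) (ht : Closed1 t) : Z2 M :=
  ⟨⟨wedG s t, Smooth2.wed hs.1 ht.1⟩, closed2_wedG hs ht⟩

theorem wedZ_coe {s t : F1 E4 M} (hs : Closed1 s) (ht : Closed1 t) :
    ((wedZ hs ht).1.1 : F2 E4 M) = wedG s t := rfl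

end Wedge

end

end Crest.Agent.R235.DichH1_723
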