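import Mathlib

/-!
Row 235 (S0364), helper723: linear algebra for the assembly of `DICH`: Sylvester bases, isometry of
real spaces of the same signature, uniqueness of even unimodular lattices in terms of bases.
-/

set_option autoImplicit false

open Module

namespace Crest.Agent.R235.DichLA_723

variable {V : Type*} [AddCommGroup V] [Module ℝ V] {V' : Type*} [AddCommGroup V'] [Module ℝ V']

/-- signature `(p, q)`: a maximal positive subspace of dimension `p`, codimension `q`. -/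
def Sig (B : LinearMap.BilinForm ℝ V) (p q : ℕ) : Prop :=
  ∃ P : Submodule ℝ V, finrank ℝ P = p ∧ (∀ x ∈ P, x ≠ 0 → 0 < B x x) ∧
    (∀ x, x ≠ 0 → (∀ y ∈ P, B y x = 0) → B x x < 0) ∧ finrank ℝ V = p + q

/-- orthonormal basis of a positive definite form. -/
theorem exists_onb [FiniteDimensional ℝ V] (B : LinearMap.BilinForm ℝ V)
    (hs : ∀ x y, B x y = B y x) (hpos : ∀ x, x ≠ 0 → 0 < B x x) {p : ℕ}
    (hp : finrank ℝ V = p) : ∃ e : Basis (Fin p) ℝ V, ∀ i j, B (e i) (e j) =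
      if i = j then 1 else 0 := by
  subst hp
  obtain ⟨v, hv⟩ := LinearMap.BilinForm.exists_orthogonal_basis (B := B) ⟨hs⟩
  rw [LinearMap.isOrthoᵢ_def] at hv
  have hvv : ∀ i, 0 < B (v i) (v i) := fun i => hpos _ (v.ne_zero i)
  have hsq : ∀ i, 0 < Real.sqrt (B (v i) (v i)) := fun i => Real.sqrt_pos.2 (hvv i)
  refine ⟨v.isUnitSMul (w := fun i => (Real.sqrt (B (v i) (v i)))⁻¹)
    (fun i => (isUnit_iff_ne_zero.2 (inv_ne_zero (hsq i).ne'))), ?_⟩
  intro i j
  rw [Basis.isUnitSMul_apply, Basis.isUnitSMul_apply, map_smul, map_smul, LinearMap.smul_apply,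
    smul_eq_mul, smul_eq_mul]
  split_ifs with h
  · subst h
    have h1 : Real.sqrt (B (v i) (v i)) * Real.sqrt (B (v i) (v i)) = B (v i) (v i) :=
      Real.mul_self_sqrt (hvv i).le
    have h2 := (hsq i).ne'
    field_simp
    rw [sq, h1]
  · rw [hv i j h, mul_zero, mul_zero]

theorem exists_sig_basis [FiniteDimensional ℝ V] (B : LinearMap.BilinForm ℝ V)
    (hs : ∀ x y, B x y = B y x) {p q : ℕ} (h : Sig B p q) :
    ∃ e : Basis (Fin p ⊕ Fin q) ℝ V, ∀ i j, B (e i) (e j) =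
      if i = j then (Sum.elim (fun _ => 1) (fun _ => -1) i : ℝ) else 0 := by
  obtain ⟨P, hP, hpos, hneg, hdim⟩ := h
  have hrefl : B.IsRefl := fun x y hxy => by rw [hs, hxy]
  have hN : ∀ x ∈ B.orthogonal P, x ≠ 0 → B x x < 0 := by
    intro x hx h0
    refine hneg x h0 fun y hy => ?_
    exact LinearMap.BilinForm.mem_orthogonal_iff.1 hx y hy
  have hdisj : Disjoint P (B.orthogonal P) := by
    rw [Submodule.disjoint_def]
    intro x hx hx'
    by_contra h0
    exact lt_asymm (hpos x hx h0) (hN x hx' h0)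
  have hcompl : IsCompl P (B.orthogonal P) :=
    (LinearMap.BilinForm.isCompl_orthogonal_iff_disjoint hrefl).2 hdisj
  have hq : finrank ℝ (B.orthogonal P) = q := by
    have := Submodule.finrank_add_eq_of_isCompl hcompl
    omega
  obtain ⟨eP, heP⟩ := exists_onb (B.restrict P) (fun x y => hs x y)
    (fun x hx => hpos x x.2 (fun h => hx (Subtype.ext h))) hP
  obtain ⟨eN, heN⟩ := exists_onb (-(B.restrict (B.orthogonal P)))
    (fun x y => by
      show -(B x y) = -(B y x)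
      rw [hs])
    (fun x hx => by
      show 0 < -(B x x)
      have := hN x x.2 (fun h => hx (Subtype.ext h))
      linarith) hq
  have heP' : ∀ i j, B (eP i) (eP j) = if i = j then 1 else 0 := heP
  have heN' : ∀ i j, B (eN i) (eN j) = if i = j then -1 else 0 := by
    intro i j
    have h1 : -(B (eN i) (eN j)) = if i = j then 1 else 0 := heN i j
    split_ifs with h2
    · rw [if_pos h2] at h1; linarith
    · rw [if_neg h2] at h1; linarith
  have hPN : ∀ i j, B (eP i) (eN j) = 0 := fun i j =>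
    LinearMap.BilinForm.mem_orthogonal_iff.1 (eN j).2 (eP i) (eP i).2
  refine ⟨(eP.prod eN).map (Submodule.prodEquivOfIsCompl _ _ hcompl), ?_⟩
  have hL : ∀ i, ((eP.prod eN).map (Submodule.prodEquivOfIsCompl _ _ hcompl)) (Sum.inl i) =
      (eP i : V) := by
    intro i
    simp
  have hR : ∀ i, ((eP.prod eN).map (Submodule.prodEquivOfIsCompl _ _ hcompl)) (Sum.inr i) =
      (eN i : V) := by
    intro i
    simp
  rintro (i | i) (j | j)
  · rw [hL, hL, heP']
    simp
  · rw [hL, hR, hPN]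
    simp
  · rw [hR, hL, hs, hPN]
    simp
  · rw [hR, hR, heN']
    simp

theorem exists_isometry [FiniteDimensional ℝ V] [FiniteDimensional ℝ V']
    (B : LinearMap.BilinForm ℝ V) (B' : LinearMap.BilinForm ℝ V') (hs : ∀ x y, B x y = B y x)
    (hs' : ∀ x y, B' x y = B' y x) {p q : ℕ} (h : Sig B p q) (h' : Sig B' p q) :
    ∃ ψ : V ≃ₗ[ℝ] V', ∀ x y, B' (ψ x) (ψ y) = B x y := by
  obtain ⟨e, he⟩ := exists_sig_basis B hs h
  obtain ⟨e', he'⟩ := exists_sig_basis B' hs' h'
  refine ⟨e.equiv e' (Equiv.refl _), ?_⟩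
  have h1 : B'.compl₁₂ (e.equiv e' (Equiv.refl _) : V →ₗ[ℝ] V')
      (e.equiv e' (Equiv.refl _) : V →ₗ[ℝ] V') = B := by
    refine LinearMap.BilinForm.ext_basis e fun i j => ?_
    show B' (e.equiv e' (Equiv.refl _) (e i)) (e.equiv e' (Equiv.refl _) (e j)) = B (e i) (e j)
    rw [Basis.equiv_apply, Basis.equiv_apply, he, Equiv.refl_apply, Equiv.refl_apply, he']
  intro x y
  exact congrFun (congrArg DFunLike.coe (congrFun (congrArg DFunLike.coe h1) x)) y

/-- the Gram matrix of combinations -/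
theorem gram_comb {m : ℕ} (B : LinearMap.BilinForm ℝ V) (e : Fin m → V)
    (Q : Matrix (Fin m) (Fin m) ℝ) (hQ : ∀ i j, B (e i) (e j) = Q i j)
    (T : Matrix (Fin m) (Fin m) ℝ) (j k : Fin m) :
    B (∑ i, T i j • e i) (∑ l, T l k • e l) = (T.transpose * Q * T) j k := by
  simp only [map_sum, LinearMap.sum_apply, map_smul, LinearMap.smul_apply, smul_eq_mul, hQ,
    Matrix.mul_apply, Matrix.transpose_apply, Finset.sum_mul]
  refine Finset.sum_congr rfl fun l _ => ?_
  rw [Finset.mul_sum]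
  refine Finset.sum_congr rfl fun i _ => ?_
  ring

/-- **uniqueness of even indefinite unimodular lattices**, basis form. -/
theorem lattice_unique [FiniteDimensional ℝ V]
    (hE : ∀ (n : ℕ) (A B : Matrix (Fin n) (Fin n) ℤ), A.IsSymm → B.IsSymm → IsUnit A.det →
      IsUnit B.det → (∀ i, Even (A i i)) → (∀ i, Even (B i i)) →
      (∃ T : Matrix (Fin n) (Fin n) ℝ, IsUnit T.det ∧
        T.transpose * A.map (fun z : ℤ => (z : ℝ)) * T = B.map (fun z : ℤ => (z : ℝ))) →
      (∃ x : Fin n → ℝ, 0 < x ⬝ᵥ (A.map (fun z : ℤ => (z : ℝ))).mulVec x) →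
      (∃ x : Fin n → ℝ, x ⬝ᵥ (A.map (fun z : ℤ => (z : ℝ))).mulVec x < 0) →
      ∃ P : Matrix (Fin n) (Fin n) ℤ, IsUnit P.det ∧ P.transpose * A * P = B)
    (B : LinearMap.BilinForm ℝ V) (hs : ∀ x y, B x y = B y x) {m : ℕ} (e : Basis (Fin m) ℝ V)
    (Q : Matrix (Fin m) (Fin m) ℤ) (hQ : ∀ i j, B (e i) (e j) = Q i j) (hQu : IsUnit Q.det)
    (hQe : ∀ i, Even (Q i i)) {p q : ℕ} (hp : 0 < p) (hq : 0 < q) (hB : Sig B p q)
    {κ : Type*} [Fintype κ] [DecidableEq κ] (G : Matrix κ κ ℤ) (hGs : G.IsSymm)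
    (hGu : IsUnit G.det) (hGe : ∀ i, Even (G i i)) (B' : LinearMap.BilinForm ℝ (κ → ℝ))
    (hG : ∀ i j, B' (Pi.single i 1) (Pi.single j 1) = G i j) (hs' : ∀ x y, B' x y = B' y x)
    (hB' : Sig B' p q) :
    ∃ e' : Basis κ ℝ V, (∀ i j, B (e' i) (e' j) = G i j) ∧
      {c : V | ∃ n : Fin m → ℤ, c = ∑ i, (n i : ℝ) • e i} =
        {c | ∃ n : κ → ℤ, c = ∑ i, (n i : ℝ) • e' i} := by
  have hm : finrank ℝ V = m := by rw [finrank_eq_card_basis e, Fintype.card_fin]
  have hdV : finrank ℝ V = p + q := by obtain ⟨_, _, _, _, h⟩ := hB; exact h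
  have hdK : Fintype.card κ = p + q := by
    obtain ⟨_, _, _, _, h⟩ := hB'
    rwa [finrank_fintype_fun_eq_card] at h
  have hcard : Fintype.card κ = Fintype.card (Fin m) := by
    rw [Fintype.card_fin]; omega
  let σ : κ ≃ Fin m := Fintype.equivOfCardEq hcard
  obtain ⟨ψ, hψ⟩ := exists_isometry B' B hs' hs hB' hB
  let G' : Matrix (Fin m) (Fin m) ℤ := G.submatrix σ.symm σ.symm
  have hG's : G'.IsSymm := by
    ext i j
    exact congrFun (congrFun hGs (σ.symm i)) (σ.symm j)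
  have hG'u : IsUnit G'.det := by
    rw [Matrix.det_submatrix_equiv_self]
    exact hGu
  have hQs : Q.IsSymm := by
    ext i j
    have h1 : (Q j i : ℝ) = Q i j := by rw [← hQ, ← hQ, hs]
    exact_mod_cast h1
  let T : Matrix (Fin m) (Fin m) ℝ := Matrix.of fun i j =>
    e.repr (ψ (Pi.single (σ.symm j) 1)) i
  have hu : ∀ j, ψ (Pi.single (σ.symm j) 1) = ∑ i, T i j • e i := fun j =>
    (e.sum_repr _).symm
  have hTQ : T.transpose * Q.map (fun z : ℤ => (z : ℝ)) * T = G'.map (fun z : ℤ => (z : ℝ)) := by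
    ext j k
    rw [← gram_comb B e (Q.map (fun z : ℤ => (z : ℝ))) hQ T j k, ← hu, ← hu, hψ, hG]
    rfl
  have hTu : IsUnit T.det := by
    have h1 := congrArg Matrix.det hTQ
    rw [Matrix.det_mul, Matrix.det_mul, Matrix.det_transpose] at h1
    have h2 : (G'.map (fun z : ℤ => (z : ℝ))).det ≠ 0 := by
      have h3 : (G'.map (fun z : ℤ => (z : ℝ))).det = ((G'.det : ℤ) : ℝ) :=
        (RingHom.map_det (Int.castRingHom ℝ) G').symm
      rw [h3]
      exact_mod_cast hG'u.ne_zero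
    rw [isUnit_iff_ne_zero]
    intro h0
    rw [h0] at h1
    apply h2
    rw [← h1]
    ring
  have hquad : ∀ v : V, ∃ x : Fin m → ℝ,
      x ⬝ᵥ (Q.map (fun z : ℤ => (z : ℝ))).mulVec x = B v v := by
    intro v
    refine ⟨fun i => e.repr v i, ?_⟩
    conv_rhs => rw [← e.sum_repr v]
    simp only [map_sum, LinearMap.sum_apply, map_smul, LinearMap.smul_apply, smul_eq_mul, hQ,
      dotProduct, Matrix.mulVec, Matrix.map_apply, Finset.mul_sum]
    rw [Finset.sum_comm]
    refine Finset.sum_congr rfl fun i _ => Finset.sum_congr rfl fun j _ => ?_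
    have h1 : (Q j i : ℝ) = Q i j := by rw [← hQ, ← hQ, hs]
    rw [h1]
    ring
  obtain ⟨f, hf⟩ := exists_sig_basis B hs hB
  have hx1 : ∃ x : Fin m → ℝ, 0 < x ⬝ᵥ (Q.map (fun z : ℤ => (z : ℝ))).mulVec x := by
    obtain ⟨x, hx⟩ := hquad (f (Sum.inl ⟨0, hp⟩))
    refine ⟨x, ?_⟩
    rw [hx, hf, if_pos rfl]
    simp
  have hx2 : ∃ x : Fin m → ℝ, x ⬝ᵥ (Q.map (fun z : ℤ => (z : ℝ))).mulVec x < 0 := by
    obtain ⟨x, hx⟩ := hquad (f (Sum.inr ⟨0, hq⟩))
    refine ⟨x, ?_⟩
    rw [hx, hf, if_pos rfl]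
    simp
  obtain ⟨P, hPu, hP⟩ := hE m Q G' hQs hG's hQu hG'u hQe (fun i => hGe _) ⟨T, hTu, hTQ⟩ hx1 hx2
  have hPr : IsUnit (P.map (fun z : ℤ => (z : ℝ))).det := by
    have h3 : (P.map (fun z : ℤ => (z : ℝ))).det = ((P.det : ℤ) : ℝ) :=
      (RingHom.map_det (Int.castRingHom ℝ) P).symm
    rw [h3]
    exact hPu.map (Int.castRingHom ℝ)
  let e1 : Basis (Fin m) ℝ V := e.map (Matrix.toLinearEquiv e _ hPr)
  have he1 : ∀ j, e1 j = ∑ i, (P i j : ℝ) • e i := by
    intro j
    simp only [e1, Basis.map_apply]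
    exact Matrix.toLin_self e e _ j
  refine ⟨e1.reindex σ.symm, ?_, ?_⟩
  · intro i j
    rw [Basis.reindex_apply, Basis.reindex_apply, Equiv.symm_symm, he1, he1]
    have h1 := gram_comb B e (Q.map (fun z : ℤ => (z : ℝ))) hQ (P.map (fun z : ℤ => (z : ℝ)))
      (σ i) (σ j)
    refine h1.trans ?_
    have h2 : (P.map (fun z : ℤ => (z : ℝ))).transpose * Q.map (fun z : ℤ => (z : ℝ)) *
        P.map (fun z : ℤ => (z : ℝ)) = (P.transpose * Q * P).map (fun z : ℤ => (z : ℝ)) := by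
      ext a b
      simp only [Matrix.mul_apply, Matrix.map_apply, Matrix.transpose_apply, Int.cast_sum,
        Int.cast_mul]
    rw [h2, hP]
    simp [G']
  · ext c
    constructor
    · rintro ⟨n, rfl⟩
      have hinv : P.mulVec (P⁻¹.mulVec n) = n := by
        rw [Matrix.mulVec_mulVec, Matrix.mul_nonsing_inv _ hPu, Matrix.one_mulVec]
      refine ⟨fun k => (P⁻¹.mulVec n) (σ k), ?_⟩
      have h1 : ∑ k, (((P⁻¹.mulVec n) (σ k) : ℤ) : ℝ) • (e1.reindex σ.symm) k =
          ∑ j, (((P⁻¹.mulVec n) j : ℤ) : ℝ) • e1 j := by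
        rw [← Equiv.sum_comp σ (fun j => (((P⁻¹.mulVec n) j : ℤ) : ℝ) • e1 j)]
        exact Finset.sum_congr rfl fun k _ => by
          rw [Basis.reindex_apply, Equiv.symm_symm]
      rw [h1]
      simp only [he1, Finset.smul_sum, smul_smul]
      rw [Finset.sum_comm]
      refine Finset.sum_congr rfl fun i _ => ?_
      rw [← Finset.sum_smul]
      congr 1
      have h2 := congrFun hinv i
      rw [← h2]
      simp only [Matrix.mulVec, dotProduct]
      push_cast
      exact Finset.sum_congr rfl fun j _ => by ring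
    · rintro ⟨n, rfl⟩
      refine ⟨P.mulVec (fun j => n (σ.symm j)), ?_⟩
      have h1 : ∑ k, (n k : ℝ) • (e1.reindex σ.symm) k = ∑ j, (n (σ.symm j) : ℝ) • e1 j := by
        rw [← Equiv.sum_comp σ (fun j => (n (σ.symm j) : ℝ) • e1 j)]
        exact Finset.sum_congr rfl fun k _ => by
          rw [Basis.reindex_apply, Equiv.symm_symm, Equiv.symm_apply_apply]
      rw [h1]
      simp only [he1, Finset.smul_sum, smul_smul]
      rw [Finset.sum_comm]
      refine Finset.sum_congr rfl fun i _ => ?_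
      rw [← Finset.sum_smul]
      congr 1
      simp only [Matrix.mulVec, dotProduct]
      push_cast
      exact Finset.sum_congr rfl fun j _ => by ring

end Crest.Agent.R235.DichLA_723
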