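import Crest.Agent.R235.BPlus_723

/-!
Row 235 (S0364), helper723: LATT (positive frames in elliptic position, torus type).
-/

set_option autoImplicit false
set_option maxSynthPendingDepth 3

open Set Function Filter MeasureTheory
open scoped Manifold ContDiff Topology

universe u

namespace Crest.Agent.R235

open Crest.Agent.R240 Crest.Agent.R240.Ch Crest.Agent.R240.Int

namespace LatT_723

noncomputable section

/-- a positive number without integer relation of degree `≤ 5`. -/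
theorem exists_generic : ∃ t : ℝ, 0 < t ∧ ∀ a b c d e r : ℤ,
    (a : ℝ) + b * t + c * t ^ 2 + d * t ^ 3 + e * t ^ 4 + r * t ^ 5 = 0 →
      a = 0 ∧ b = 0 ∧ c = 0 ∧ d = 0 ∧ e = 0 ∧ r = 0 := by
  have htr : Transcendental ℤ (liouvilleNumber (2 : ℕ)) := transcendental_liouvilleNumber le_rfl
  set x : ℝ := liouvilleNumber (2 : ℕ) with hxdef
  have hx0 : x ≠ 0 := by
    intro h
    rw [h] at htr
    exact htr isAlgebraic_zero
  refine ⟨x ^ 2, by positivity, ?_⟩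
  intro a b c d e r h
  let p : Polynomial ℤ := Polynomial.monomial 0 a + Polynomial.monomial 2 b +
    Polynomial.monomial 4 c + Polynomial.monomial 6 d + Polynomial.monomial 8 e +
    Polynomial.monomial 10 r
  have hp : Polynomial.aeval x p = 0 := by
    simp only [p, map_add, Polynomial.aeval_monomial]
    simp only [algebraMap_int_eq, eq_intCast]
    linear_combination h
  have hp0 : p = 0 := by
    by_contra hne
    exact htr ⟨p, hne, hp⟩
  have hc : ∀ n, p.coeff n = 0 := fun n => by rw [hp0]; simp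
  refine ⟨?_, ?_, ?_, ?_, ?_, ?_⟩
  · have h0 := hc 0
    simp only [p, Polynomial.coeff_add, Polynomial.coeff_monomial] at h0
    simpa using h0
  · have h2 := hc 2
    simp only [p, Polynomial.coeff_add, Polynomial.coeff_monomial] at h2
    simpa using h2
  · have h4 := hc 4
    simp only [p, Polynomial.coeff_add, Polynomial.coeff_monomial] at h4
    simpa using h4
  · have h6 := hc 6
    simp only [p, Polynomial.coeff_add, Polynomial.coeff_monomial] at h6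
    simpa using h6
  · have h8 := hc 8
    simp only [p, Polynomial.coeff_add, Polynomial.coeff_monomial] at h8
    simpa using h8
  · have h10 := hc 10
    simp only [p, Polynomial.coeff_add, Polynomial.coeff_monomial] at h10
    simpa using h10

theorem flip_sum {V : Type*} [AddCommGroup V] [Module ℝ V] (a : Fin 3 → ℝ) (b : Fin 3 → V) :
    ∑ i, a i • update b 0 (-b 0) i = ∑ i, (update a 0 (-a 0)) i • b i := by
  simp only [Fin.sum_univ_three, update_self, update_of_ne (show (1 : Fin 3) ≠ 0 by decide),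
    update_of_ne (show (2 : Fin 3) ≠ 0 by decide)]
  module

/-- linear combinations of vectors given in the coordinates `f, g` -/
theorem comb3 {V : Type*} [AddCommGroup V] [Module ℝ V] (f g : Fin 3 → V)
    (X Y : Fin 3 → Fin 3 → ℝ) (a : Fin 3 → ℝ) :
    ∑ k, a k • (∑ i, X k i • f i + ∑ i, Y k i • g i) =
      ∑ i, (∑ k, a k * X k i) • f i + ∑ i, (∑ k, a k * Y k i) • g i := by
  simp only [Fin.sum_univ_three]
  module

theorem det_flip (D D' : Matrix (Fin 3) (Fin 3) ℝ) (h0 : ∀ j, D' 0 j = - D 0 j)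
    (h1 : ∀ j, D' 1 j = D 1 j) (h2 : ∀ j, D' 2 j = D 2 j) : D'.det = - D.det := by
  rw [Matrix.det_fin_three, Matrix.det_fin_three]
  simp only [h0, h1, h2]
  ring

theorem latt_pos (t N : ℝ) (ht : 0 < t) (hN : 1 + 1 / (2 * (2 * t ^ 3 + 2 * t ^ 7)) < N * t ^ 5)
    (a : Fin 3 → ℝ) (ha : a ≠ 0) :
    0 < ∑ i, ((∑ k, a k * (![![N * t ^ 5, t, t ^ 3], ![1, t, t ^ 3], ![0, t ^ 5, -t ^ 3]] :
        Fin 3 → Fin 3 → ℝ) k i) *
      (∑ k, a k * (![![1, t ^ 2, t ^ 4], ![0, t ^ 2, t ^ 4], ![0, t ^ 6, -t ^ 4]] :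
        Fin 3 → Fin 3 → ℝ) k i) +
      (∑ k, a k * (![![1, t ^ 2, t ^ 4], ![0, t ^ 2, t ^ 4], ![0, t ^ 6, -t ^ 4]] :
        Fin 3 → Fin 3 → ℝ) k i) *
      (∑ k, a k * (![![N * t ^ 5, t, t ^ 3], ![1, t, t ^ 3], ![0, t ^ 5, -t ^ 3]] :
        Fin 3 → Fin 3 → ℝ) k i)) := by
  set β : ℝ := 2 * t ^ 3 + 2 * t ^ 7 with hβ
  have hβ0 : 0 < β := by positivity
  have h1 : ∑ i, ((∑ k, a k * (![![N * t ^ 5, t, t ^ 3], ![1, t, t ^ 3], ![0, t ^ 5, -t ^ 3]] :
        Fin 3 → Fin 3 → ℝ) k i) *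
      (∑ k, a k * (![![1, t ^ 2, t ^ 4], ![0, t ^ 2, t ^ 4], ![0, t ^ 6, -t ^ 4]] :
        Fin 3 → Fin 3 → ℝ) k i) +
      (∑ k, a k * (![![1, t ^ 2, t ^ 4], ![0, t ^ 2, t ^ 4], ![0, t ^ 6, -t ^ 4]] :
        Fin 3 → Fin 3 → ℝ) k i) *
      (∑ k, a k * (![![N * t ^ 5, t, t ^ 3], ![1, t, t ^ 3], ![0, t ^ 5, -t ^ 3]] :
        Fin 3 → Fin 3 → ℝ) k i)) =
      a 0 ^ 2 * (β + 2 * (N * t ^ 5)) + 2 * a 0 * a 1 * (β + 1) + a 1 ^ 2 * β +
        (2 * t ^ 11 + 2 * t ^ 7) * a 2 ^ 2 := by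
    simp only [Fin.sum_univ_three, Matrix.cons_val_zero, Matrix.cons_val_one,
      Matrix.cons_val_two, Matrix.head_cons, Matrix.tail_cons, hβ]
    ring
  have h2 : a 0 ^ 2 * (β + 2 * (N * t ^ 5)) + 2 * a 0 * a 1 * (β + 1) + a 1 ^ 2 * β +
        (2 * t ^ 11 + 2 * t ^ 7) * a 2 ^ 2 =
      β * (a 1 + (β + 1) / β * a 0) ^ 2 + 2 * (N * t ^ 5 - (1 + 1 / (2 * β))) * a 0 ^ 2 +
        (2 * t ^ 11 + 2 * t ^ 7) * a 2 ^ 2 := by
    field_simp
    ring
  rw [h1, h2]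
  have h3 : 0 < N * t ^ 5 - (1 + 1 / (2 * β)) := by linarith
  by_cases h4 : a 0 = 0
  · by_cases h5 : a 2 = 0
    · have h6 : a 1 ≠ 0 := by
        intro h6
        apply ha
        funext i
        fin_cases i
        · exact h4
        · exact h6
        · exact h5
      rw [h4, h5]
      have h7 : 0 < β * a 1 ^ 2 := by positivity
      simpa using h7
    · positivity
  · positivity

theorem f0_eq {V : Type*} [AddCommGroup V] [Module ℝ V] (f g : Fin 3 → V) :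
    f 0 = ∑ i, (![1, 0, 0] : Fin 3 → ℝ) i • f i + ∑ i, (0 : Fin 3 → ℝ) i • g i := by
  simp [Fin.sum_univ_three]

theorem f0_eq_int {V : Type*} [AddCommGroup V] [Module ℝ V] (f g : Fin 3 → V) :
    f 0 = ∑ i, (((![1, 0, 0] : Fin 3 → ℤ) i : ℤ) : ℝ) • f i +
      ∑ i, (((0 : Fin 3 → ℤ) i : ℤ) : ℝ) • g i := by
  simp [Fin.sum_univ_three]

theorem f0_neg_int {V : Type*} [AddCommGroup V] [Module ℝ V] (f g : Fin 3 → V) :
    -f 0 = ∑ i, (((![-1, 0, 0] : Fin 3 → ℤ) i : ℤ) : ℝ) • f i +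
      ∑ i, (((0 : Fin 3 → ℤ) i : ℤ) : ℝ) • g i := by
  simp [Fin.sum_univ_three]

theorem only_eq {V : Type*} [AddCommGroup V] [Module ℝ V] (f g : Fin 3 → V)
    (m n : Fin 3 → ℤ) (k1 : n 0 = 0) (k2 : n 1 = 0) (k3 : m 1 = 0) (k4 : n 2 = 0)
    (k5 : m 2 = 0) :
    ∑ i, (m i : ℝ) • f i + ∑ i, (n i : ℝ) • g i = (m 0 : ℝ) • f 0 := by
  simp [Fin.sum_univ_three, k1, k2, k3, k4, k5]

section Frames

variable {M : Type u} [TopologicalSpace M] [T2Space M] [CompactSpace M]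
  [ChartedSpace E4 M] [IsManifold 𝓘(ℝ, E4) ∞ M]

theorem posCls_flip {F : Z2 M} {b : Fin 3 → H2 M} (hb : PosCls F b) :
    PosCls F (update b 0 (-b 0)) := by
  intro a ha
  rw [flip_sum]
  refine hb _ fun h => ha ?_
  funext i
  have h2 := congrFun h i
  by_cases hi : i = 0
  · subst hi
    simpa using h2
  · simpa [hi] using h2

/-- up to the sign of `b 0`, a positive frame of classes is in the component of `w`. -/
theorem frame_or [Nonempty M] {w : Trip M} (hw : Pos3 w) (h : K3Type (w 0) ∨ T4Type (w 0))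
    (b : Fin 3 → H2 M) (hb : PosCls (w 0) b) :
    Frame w b ∨ Frame w (update b 0 (-b 0)) := by
  have hF := hw.vol 0
  have h1 := BPlus_723.frame_det_ne hw h b hb
  have h2 : (Matrix.of fun i j => ip (w 0) (update b 0 (-b 0) i) (cls (w j))).det =
      - (Matrix.of fun i j => ip (w 0) (b i) (cls (w j))).det := by
    refine det_flip _ _ (fun j => ?_) (fun j => ?_) (fun j => ?_)
    · rw [Matrix.of_apply, Matrix.of_apply, update_self, ip_neg_left hF]
    · rw [Matrix.of_apply, Matrix.of_apply, update_of_ne (show (1 : Fin 3) ≠ 0 by decide)]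
    · rw [Matrix.of_apply, Matrix.of_apply, update_of_ne (show (2 : Fin 3) ≠ 0 by decide)]
  rcases lt_or_gt_of_ne h1 with h3 | h3
  · right
    refine ⟨(BPlus_723.posCls_iff hF _).1 (posCls_flip hb), ?_⟩
    rw [h2]
    linarith
  · left
    exact ⟨(BPlus_723.posCls_iff hF _).1 hb, h3⟩

end Frames

end

end LatT_723

open LatT_723 BPlus_723 in
/-- **LATT**: frames in elliptic position exist. -/
theorem latt : LATT.{u} := by
  intro M _ _ _ _ _ _ w hw h
  have hF := hw.vol 0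
  obtain ⟨f, g, hff, hgg, hfg, hspan, hHZ⟩ := T4_hyp hF h
  obtain ⟨t, ht, hgen⟩ := exists_generic
  obtain ⟨N, hN⟩ := exists_nat_gt ((1 + 1 / (2 * (2 * t ^ 3 + 2 * t ^ 7))) / t ^ 5)
  have hN' : 1 + 1 / (2 * (2 * t ^ 3 + 2 * t ^ 7)) < N * t ^ 5 := by
    rwa [div_lt_iff₀ (by positivity)] at hN
  have hN0 : N ≠ 0 := by
    rintro rfl
    have : (0 : ℝ) < 1 + 1 / (2 * (2 * t ^ 3 + 2 * t ^ 7)) := by positivity
    rw [Nat.cast_zero, zero_mul] at hN'
    linarith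
  have hpair := fun x y x' y' => hyp_pair hF hff hgg hfg x y x' y'
  let X : Fin 3 → Fin 3 → ℝ := ![![N * t ^ 5, t, t ^ 3], ![1, t, t ^ 3], ![0, t ^ 5, -t ^ 3]]
  let Y : Fin 3 → Fin 3 → ℝ := ![![1, t ^ 2, t ^ 4], ![0, t ^ 2, t ^ 4], ![0, t ^ 6, -t ^ 4]]
  let b : Fin 3 → H2 M := fun k => ∑ i, X k i • f i + ∑ i, Y k i • g i
  have hb : PosCls (w 0) b := by
    intro a ha
    have h1 : ∑ k, a k • b k = ∑ i, (∑ k, a k * X k i) • f i + ∑ i, (∑ k, a k * Y k i) • g i :=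
      comb3 f g X Y a
    rw [h1, hpair]
    exact latt_pos t N ht hN' a ha
  have hdet := frame_or hw (Or.inr h) b hb
  have hb1 : ∀ m n : Fin 3 → ℝ, ip (w 0) (∑ i, m i • f i + ∑ i, n i • g i) (b 1) =
      n 0 + n 1 * t + m 1 * t ^ 2 + n 2 * t ^ 3 + m 2 * t ^ 4 := by
    intro m n
    show ip (w 0) _ (∑ i, X 1 i • f i + ∑ i, Y 1 i • g i) = _
    rw [hpair]
    simp [X, Y, Fin.sum_univ_three]
    ring
  have hb0 : ∀ m n : Fin 3 → ℝ, ip (w 0) (∑ i, m i • f i + ∑ i, n i • g i) (b 0) =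
      m 0 + n 1 * t + m 1 * t ^ 2 + n 2 * t ^ 3 + m 2 * t ^ 4 + (n 0 * N) * t ^ 5 := by
    intro m n
    show ip (w 0) _ (∑ i, X 0 i • f i + ∑ i, Y 0 i • g i) = _
    rw [hpair]
    simp [X, Y, Fin.sum_univ_three]
    ring
  have hf0 : f 0 = ∑ i, (![1, 0, 0] : Fin 3 → ℝ) i • f i + ∑ i, (0 : Fin 3 → ℝ) i • g i :=
    f0_eq f g
  have e0 : ip (w 0) (f 0) (b 0) = 1 := by
    rw [hf0, hb0]
    simp
  have e1 : ip (w 0) (f 0) (b 1) = 0 := by
    rw [hf0, hb1]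
    simp
  have e2 : ip (w 0) (f 0) (b 2) = 0 := by
    show ip (w 0) _ (∑ i, X 2 i • f i + ∑ i, Y 2 i • g i) = _
    rw [hf0, hpair]
    simp [X, Y, Fin.sum_univ_three]
  have honly : ∀ c ∈ HZ M, ip (w 0) c (b 1) = 0 → ∃ n : ℤ, c = (n : ℝ) • f 0 := by
    intro c hc hc1
    rw [hHZ] at hc
    obtain ⟨m, n, rfl⟩ := hc
    have h2 := hb1 (fun i => (m i : ℝ)) (fun i => (n i : ℝ))
    rw [h2] at hc1
    obtain ⟨k1, k2, k3, k4, k5, _⟩ := hgen (n 0) (n 1) (m 1) (n 2) (m 2) 0 (by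
      rw [Int.cast_zero, zero_mul, add_zero]; exact hc1)
    refine ⟨m 0, ?_⟩
    exact only_eq f g m n k1 k2 k3 k4 k5
  have hgen0 : ∀ c ∈ HZ M, c ≠ 0 → ip (w 0) c (b 0) ≠ 0 := by
    intro c hc hc0 hc1
    rw [hHZ] at hc
    obtain ⟨m, n, rfl⟩ := hc
    have h2 := hb0 (fun i => (m i : ℝ)) (fun i => (n i : ℝ))
    rw [h2] at hc1
    obtain ⟨k1, k2, k3, k4, k5, k6⟩ := hgen (m 0) (n 1) (m 1) (n 2) (m 2) (n 0 * N) (by
      rw [← hc1]
      push_cast
      ring)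
    have k7 : n 0 = 0 := by
      rcases mul_eq_zero.1 k6 with h | h
      · exact h
      · exact absurd (by exact_mod_cast h) hN0
    refine hc0 ?_
    rw [only_eq f g m n k7 k2 k3 k4 k5, k1, Int.cast_zero, zero_smul]
  have hmem : f 0 ∈ HZ M := by
    rw [hHZ]
    refine ⟨![1, 0, 0], 0, ?_⟩
    exact f0_eq_int f g
  have hmem' : -f 0 ∈ HZ M := by
    rw [hHZ]
    refine ⟨![-1, 0, 0], 0, ?_⟩
    exact f0_neg_int f g
  rcases hdet with hfr | hfr
  · refine ⟨f 0, b, hfr, hmem, hff 0 0, e1, e2, fun c hc hc1 _ => honly c hc hc1, ?_, hgen0⟩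
    rw [e0]
    exact one_pos
  · have u1 : update b 0 (-b 0) 1 = b 1 := update_of_ne (show (1 : Fin 3) ≠ 0 by decide) _ _
    have u2 : update b 0 (-b 0) 2 = b 2 := update_of_ne (show (2 : Fin 3) ≠ 0 by decide) _ _
    have u0 : update b 0 (-b 0) 0 = - b 0 := update_self _ _ _
    refine ⟨-f 0, update b 0 (-b 0), hfr, hmem', ?_, ?_, ?_, ?_, ?_, ?_⟩
    · rw [ip_neg_left hF, ip_neg_right hF, hff, neg_zero, neg_zero]
    · rw [u1, ip_neg_left hF, e1, neg_zero]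
    · rw [u2, ip_neg_left hF, e2, neg_zero]
    · intro c hc hc1 _
      rw [u1] at hc1
      obtain ⟨n, hn⟩ := honly c hc hc1
      refine ⟨-n, ?_⟩
      rw [hn, Int.cast_neg, neg_smul, smul_neg, neg_neg]
    · rw [u0, ip_neg_left hF, ip_neg_right hF, neg_neg, e0]
      exact one_pos
    · intro c hc hc0 hc1
      rw [u0, ip_neg_right hF, neg_eq_zero] at hc1
      exact hgen0 c hc hc0 hc1

end Crest.Agent.R235
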