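import Crest.Agent.R235.DichH1_723
import Crest.Agent.R235.LatTR_723

/-!
Row 235 (S0364), helper723: intersection numbers of products of four closed one-forms; the
products span `H²` if `b₂ = 6` and the quadruple product is `≠ 0`.
-/

set_option autoImplicit false
set_option maxSynthPendingDepth 3
set_option linter.unusedSectionVars false

open Set Function Filter MeasureTheory
open scoped Manifold ContDiff Topology

universe u

namespace Crest.Agent.R235.DichW_723

open Crest.Agent.R240 Crest.Agent.R240.Ch Crest.Agent.R240.Int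
open DichProps_723 BPlus_723 LatTR_723 DichH1_723

noncomputable section

theorem W_sel (α : Fin 4 → (E4 →L[ℝ] ℝ)) (i j k l : Fin 4) :
    W (wed (α i) (α j)) (wed (α k) (α l)) =
      Matrix.det (fun m : Fin 4 => (Pi.single (![i, j, k, l] m) 1 : Fin 4 → ℝ)) *
        W (wed (α 0) (α 1)) (wed (α 2) (α 3)) := by
  rw [W_wed4, W_wed4]
  refine Eq.trans (congrArg Matrix.det ?_) (Matrix.det_mul
    (Matrix.of fun m : Fin 4 => (Pi.single (![i, j, k, l] m) 1 : Fin 4 → ℝ))
    (Matrix.of fun i j => (![α 0, α 1, α 2, α 3] i) (ee j)))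
  ext m n
  rw [Matrix.mul_apply]
  have h1 : ∀ t : Fin 4, (![α 0, α 1, α 2, α 3] t) = α t := by
    intro t; fin_cases t <;> rfl
  have h2 : (![α i, α j, α k, α l] m) = α (![i, j, k, l] m) := by
    fin_cases m <;> rfl
  simp only [Matrix.of_apply, h1, h2]
  rw [Finset.sum_eq_single (![i, j, k, l] m)]
  · rw [Pi.single_eq_same, one_mul]
  · intro t _ ht
    rw [Pi.single_eq_of_ne ht, zero_mul]
  · intro h
    exact absurd (Finset.mem_univ _) h

theorem expand6 {V : Type*} [AddCommGroup V] [Module ℝ V] (A : Fin 4 → Fin 4 → V) (r : ℝ)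
    (x y : Fin 3 → ℝ) :
    ∑ i, x i • (![A 0 1, A 0 2, A 0 3] : Fin 3 → V) i +
      ∑ i, y i • (![r • A 2 3, (-r) • A 1 3, r • A 1 2] : Fin 3 → V) i =
    ∑ i, ∑ j, (![![0, x 0, x 1, x 2], ![0, 0, r * y 2, -(r * y 1)], ![0, 0, 0, r * y 0],
      ![0, 0, 0, 0]] : Fin 4 → Fin 4 → ℝ) i j • A i j := by
  simp only [Fin.sum_univ_four, Fin.sum_univ_three, Matrix.cons_val_zero, Matrix.cons_val_one,
    Matrix.cons_val_two, Matrix.cons_val_three, Matrix.head_cons, Matrix.tail_cons]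
  module

variable {M : Type u} [TopologicalSpace M] [T2Space M] [CompactSpace M]
  [ChartedSpace E4 M] [IsManifold 𝓘(ℝ, E4) ∞ M]

theorem pI_scale (F : Z2 M) {a b a' b' : Z2 M} {c : ℝ}
    (h : ∀ x, W (val a x) (val b x) = c * W (val a' x) (val b' x)) :
    pI F a b = c * pI F a' b' := by
  unfold pI Int.I
  rw [← integral_const_mul]
  congr 1
  funext x
  show W (val a x) (val b x) / _ = c * (W (val a' x) (val b' x) / _)
  rw [h, mul_div_assoc]

/-- the Gram formula of `T4Type` / `T4R`. -/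
theorem gram_wed (F : Z2 M) {s : Fin 4 → F1 E4 M} {a : Fin 4 → Fin 4 → Z2 M}
    (ha : ∀ i j, (a i j).1.1 = wedG (s i) (s j)) (i j k l : Fin 4) :
    pI F (a i j) (a k l) =
      Matrix.det (fun m : Fin 4 => (Pi.single (![i, j, k, l] m) 1 : Fin 4 → ℝ)) *
        pI F (a 0 1) (a 2 3) := by
  refine pI_scale F fun x => ?_
  have hval : ∀ i j, val (a i j) x = wed (at1 (s i) x) (at1 (s j) x) := by
    intro i j
    show at2 ((a i j).1.1 : F2 E4 M) x = _
    rw [ha]
    rfl
  rw [hval, hval, hval, hval]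
  exact W_sel (fun i => at1 (s i) x) i j k l

/-- hyperbolic-like vectors with constant `m ≠ 0` in dimension six span. -/
theorem span_products {F : Z2 M} (hF : Vol (F.1.1 : F2 E4 M)) [FiniteDimensional ℝ (H2 M)]
    (hdim : Module.finrank ℝ (H2 M) = 6) {s : Fin 4 → F1 E4 M} {a : Fin 4 → Fin 4 → Z2 M}
    (ha : ∀ i j, (a i j).1.1 = wedG (s i) (s j)) (hm : pI F (a 0 1) (a 2 3) ≠ 0) :
    ∀ c : H2 M, ∃ n : Fin 4 → Fin 4 → ℝ, c = ∑ i, ∑ j, n i j • cls (a i j) := by
  set A : Fin 4 → Fin 4 → H2 M := fun i j => cls (a i j) with hA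
  set m : ℝ := pI F (a 0 1) (a 2 3) with hmdef
  have hGA : ∀ i j k l, ip F (A i j) (A k l) = (DZ i j k l : ℝ) * m := by
    intro i j k l
    show ip F (cls (a i j)) (cls (a k l)) = _
    rw [ip_cls hF, gram_wed F ha, det_eq_DZ]
  obtain ⟨t1, t2, t3, t4, t5, t6, t7, t8, t9, t10, t11, t12, t13, t14, t15, t16, t17, t18⟩ :=
    DZ_tab
  let f : Fin 3 → H2 M := ![A 0 1, A 0 2, A 0 3]
  let g : Fin 3 → H2 M := ![m⁻¹ • A 2 3, (-m⁻¹) • A 1 3, m⁻¹ • A 1 2]
  have hff : ∀ i j, ip F (f i) (f j) = 0 := by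
    intro i j
    fin_cases i <;> fin_cases j <;> simp [f, hGA, DZ_ff]
  have hgg : ∀ i j, ip F (g i) (g j) = 0 := by
    intro i j
    fin_cases i <;> fin_cases j <;>
      simp [g, hGA, ip_smul_left hF, ip_smul_right hF, ip_neg_left hF, ip_neg_right hF, t10, t11,
        t12, t13, t14, t15, t16, t17, t18]
  have hfg : ∀ i j, ip F (f i) (g j) = if i = j then 1 else 0 := by
    intro i j
    fin_cases i <;> fin_cases j <;>
      simp [f, g, hGA, ip_smul_right hF, ip_neg_right hF, t1, t2, t3, t4, t5, t6, t7, t8, t9, hm]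
  have hinj := hyp_inj hF hff hgg hfg
  have heq : Module.finrank ℝ ((Fin 3 → ℝ) × (Fin 3 → ℝ)) = Module.finrank ℝ (H2 M) := by
    rw [Module.finrank_prod, Module.finrank_fin_fun, hdim]
  have hsurj := (LinearMap.injective_iff_surjective_of_finrank_eq_finrank heq).1 hinj
  intro c
  obtain ⟨⟨x, y⟩, hxy⟩ := hsurj c
  rw [Phi_apply] at hxy
  refine ⟨![![0, x 0, x 1, x 2], ![0, 0, m⁻¹ * y 2, -(m⁻¹ * y 1)], ![0, 0, 0, m⁻¹ * y 0],
    ![0, 0, 0, 0]], ?_⟩
  rw [← hxy]
  exact expand6 A m⁻¹ x y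

end

end Crest.Agent.R235.DichW_723
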