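import Crest.Agent.R235.BPlus_723
import Crest.Agent.R235.DichProps_723
import Crest.Agent.R235.DichLA_723
import Crest.Agent.R235.HZLat_524
import Crest.Agent.R235.DichW_723

/-!
Row 235 (S0364), helper723: ASSEMBLY OF `DICH`.
-/

set_option autoImplicit false
set_option maxSynthPendingDepth 3

open Set Function Filter MeasureTheory
open scoped Manifold ContDiff Topology

universe u

namespace Crest.Agent.R235.Dich_723

open Crest.Agent.R240 Crest.Agent.R240.Ch Crest.Agent.R240.Int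
open BPlus_723 DichLA_723 LatTR_723 DichH1_723 DichW_723
open DichProps_723 hiding T4R

noncomputable section

/-! ### linear algebra -/

section LA

variable {V : Type*} [AddCommGroup V] [Module ℝ V]

theorem linInd_of_pos (B : LinearMap.BilinForm ℝ V) {p : ℕ} (c : Fin p → V)
    (hpos : ∀ a : Fin p → ℝ, a ≠ 0 → 0 < B (∑ i, a i • c i) (∑ i, a i • c i)) :
    LinearIndependent ℝ c := by
  rw [Fintype.linearIndependent_iff]
  intro a ha i
  by_contra hi
  have h1 := hpos a (fun h => hi (congrFun h i))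
  rw [ha] at h1
  simp at h1

/-- signature from a positive frame with negative definite complement. -/
theorem sig_of_frame [FiniteDimensional ℝ V] (B : LinearMap.BilinForm ℝ V)
    (hs : ∀ x y, B x y = B y x) {p q : ℕ} (c : Fin p → V)
    (hpos : ∀ a : Fin p → ℝ, a ≠ 0 → 0 < B (∑ i, a i • c i) (∑ i, a i • c i))
    (hneg : ∀ x, x ≠ 0 → (∀ i, B x (c i) = 0) → B x x < 0)
    (hdim : Module.finrank ℝ V = p + q) : Sig B p q := by
  refine ⟨Submodule.span ℝ (range c), ?_, ?_, ?_, hdim⟩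
  · rw [finrank_span_eq_card (linInd_of_pos B c hpos), Fintype.card_fin]
  · intro x hx h0
    obtain ⟨a, rfl⟩ := (Submodule.mem_span_range_iff_exists_fun ℝ).1 hx
    refine hpos a fun h => h0 ?_
    simp [h]
  · intro x h0 hx
    refine hneg x h0 fun i => ?_
    rw [hs]
    exact hx _ (Submodule.subset_span ⟨i, rfl⟩)

/-- the dimension of the positive part -/
theorem bp_eq [FiniteDimensional ℝ V] (B : LinearMap.BilinForm ℝ V)
    {p : ℕ} (c : Fin p → V)
    (hpos : ∀ a : Fin p → ℝ, a ≠ 0 → 0 < B (∑ i, a i • c i) (∑ i, a i • c i))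
    (hneg : ∀ x, x ≠ 0 → (∀ i, B x (c i) = 0) → B x x < 0)
    (P N : Submodule ℝ V) (hP : ∀ x ∈ P, x ≠ 0 → 0 < B x x)
    (hN : ∀ x ∈ N, x ≠ 0 → B x x < 0) (hPN : P ⊔ N = ⊤) :
    Module.finrank ℝ P = p ∧ Module.finrank ℝ V = p + Module.finrank ℝ N := by
  have hdis : P ⊓ N = ⊥ := by
    rw [eq_bot_iff]
    intro x hx
    by_contra h0
    exact lt_asymm (hP x hx.1 h0) (hN x hx.2 h0)
  have hsum : Module.finrank ℝ V = Module.finrank ℝ P + Module.finrank ℝ N := by
    have h1 := Submodule.finrank_sup_add_finrank_inf_eq P N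
    rw [hPN, hdis, finrank_top, finrank_bot] at h1
    omega
  have h1 : Module.finrank ℝ P ≤ p := by
    let L : P →ₗ[ℝ] (Fin p → ℝ) := LinearMap.pi fun i => (B.flip (c i)).comp P.subtype
    have hL : Function.Injective L := by
      rw [injective_iff_map_eq_zero]
      intro x hx
      by_contra h0
      have h2 : (x : V) ≠ 0 := fun h => h0 (Subtype.ext h)
      have h3 : ∀ i, B (x : V) (c i) = 0 := fun i => congrFun hx i
      exact lt_asymm (hP x x.2 h2) (hneg x h2 h3)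
    have h4 := LinearMap.finrank_le_finrank_of_injective hL
    rwa [Module.finrank_fin_fun] at h4
  have h2 : p + Module.finrank ℝ N ≤ Module.finrank ℝ V := by
    let L : ((Fin p → ℝ) × N) →ₗ[ℝ] V :=
      LinearMap.coprod (Fintype.linearCombination ℝ c) N.subtype
    have hL : Function.Injective L := by
      rw [injective_iff_map_eq_zero]
      rintro ⟨a, n⟩ han
      have h3 : (∑ i, a i • c i) + (n : V) = 0 := by
        simpa [L, Fintype.linearCombination_apply] using han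
      have h4 : (∑ i, a i • c i) = -(n : V) := eq_neg_of_add_eq_zero_left h3
      have ha : a = 0 := by
        by_contra ha
        have h5 := hpos a ha
        rw [h4] at h5
        by_cases hn : (n : V) = 0
        · rw [hn] at h5; simp at h5
        · have h6 := hN n n.2 hn
          simp only [map_neg, LinearMap.neg_apply, neg_neg] at h5
          exact lt_asymm h5 h6
      subst ha
      have hn : (n : V) = 0 := by simpa using h3
      exact Prod.ext rfl (Subtype.ext hn)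
    have h4 := LinearMap.finrank_le_finrank_of_injective hL
    rwa [Module.finrank_prod, Module.finrank_fin_fun] at h4
  exact ⟨by omega, by omega⟩

end LA

/-! ### the K3 lattice -/

/-- inverse of `E₈`. -/
def E8inv : Matrix (Fin 8) (Fin 8) ℤ :=
  !![4, 5, 7, 10, 8, 6, 4, 2;
     5, 8, 10, 15, 12, 9, 6, 3;
     7, 10, 14, 20, 16, 12, 8, 4;
     10, 15, 20, 30, 24, 18, 12, 6;
     8, 12, 16, 24, 20, 15, 10, 5;
     6, 9, 12, 18, 15, 12, 8, 4;
     4, 6, 8, 12, 10, 8, 6, 3;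
     2, 3, 4, 6, 5, 4, 3, 2]

def gKinv : Matrix IK IK ℤ := fun a b => match a, b with
    | Sum.inl (i, s), Sum.inl (j, t) => if i = j ∧ s ≠ t then 1 else 0
    | Sum.inr (i, s), Sum.inr (j, t) => if i = j then - E8inv s t else 0
    | _, _ => 0

theorem gK3_mul_inv : gK3 * gKinv = 1 := by
  decide +kernel

theorem gK3_unit : IsUnit gK3.det :=
  Matrix.isUnit_det_of_right_inverse gK3_mul_inv

theorem gK3_symm : gK3.IsSymm := by
  unfold Matrix.IsSymm
  decide +kernel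

theorem gK3_even (i : IK) : Even (gK3 i i) := by
  revert i
  decide +kernel

/-- the real form of the K3 lattice. -/
def BK : LinearMap.BilinForm ℝ (IK → ℝ) := Matrix.toBilin' (gK3.map fun z : ℤ => (z : ℝ))

theorem BK_apply (x y : IK → ℝ) : BK x y = ∑ a, ∑ b, x a * y b * (gK3 a b : ℝ) := by
  unfold BK
  rw [Matrix.toBilin'_apply]
  refine Finset.sum_congr rfl fun a _ => Finset.sum_congr rfl fun b _ => ?_
  rw [Matrix.map_apply]
  ring

theorem BK_single (i j : IK) : BK (Pi.single i 1) (Pi.single j 1) = gK3 i j := by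
  unfold BK
  rw [Matrix.toBilin'_single]
  rfl

theorem BK_symm (x y : IK → ℝ) : BK x y = BK y x := by
  rw [BK_apply, BK_apply, Finset.sum_comm]
  refine Finset.sum_congr rfl fun a _ => Finset.sum_congr rfl fun b _ => ?_
  have h1 : gK3 b a = gK3 a b := congrFun (congrFun gK3_symm a) b
  rw [h1]
  ring

/-- positive frame of the K3 lattice -/
def uK (i : Fin 3) : IK → ℝ := Pi.single (Sum.inl (i, 0)) 1 + Pi.single (Sum.inl (i, 1)) 1

theorem uK_sum (a : Fin 3 → ℝ) :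
    BK (∑ i, a i • uK i) (∑ i, a i • uK i) = 2 * (a 0 ^ 2 + a 1 ^ 2 + a 2 ^ 2) := by
  have h1 : ∀ i s, (∑ j, a j • uK j) (Sum.inl (i, s)) = a i := by
    intro i s
    rw [Finset.sum_apply]
    fin_cases i <;> fin_cases s <;> simp [uK, Pi.single_apply]
  have h2 : ∀ p, (∑ j, a j • uK j) (Sum.inr p) = 0 := by
    intro p
    rw [Finset.sum_apply]
    simp [uK]
  rw [BK_apply, gK3_form]
  simp only [h1, h2, zero_mul, Finset.sum_const_zero, sub_zero, Fin.sum_univ_three]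
  ring

theorem psiK_neg (n : (Fin 3 → ℝ) × (Fin 2 × Fin 8 → ℝ)) (hn : n ≠ 0) :
    BK (psiK n) (psiK n) < 0 := by
  rw [BK_apply, gK3_form]
  have h1 : ∀ i, psiK n (Sum.inl (i, 0)) = n.1 i := fun i => by simp [psiK]
  have h2 : ∀ i, psiK n (Sum.inl (i, 1)) = - n.1 i := fun i => by simp [psiK]
  have h3 : ∀ p, psiK n (Sum.inr p) = n.2 p := fun p => rfl
  simp only [h1, h2, h3]
  have h4 : ∀ j : Fin 2, 0 ≤ ∑ s : Fin 8, ∑ t : Fin 8, n.2 (j, s) * n.2 (j, t) *
      (CartanMatrix.E₈ s t : ℝ) := fun j => LatS_723.e8_nonneg (fun s => n.2 (j, s))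
  by_cases hn1 : n.1 = 0
  · have hn2 : n.2 ≠ 0 := fun h => hn (Prod.ext hn1 h)
    obtain ⟨⟨j, s⟩, hjs⟩ : ∃ p, n.2 p ≠ 0 := by
      by_contra hcon
      push Not at hcon
      exact hn2 (funext hcon)
    have h5 : 0 < ∑ s : Fin 8, ∑ t : Fin 8, n.2 (j, s) * n.2 (j, t) *
        (CartanMatrix.E₈ s t : ℝ) :=
      LatS_723.e8_pos (fun s => n.2 (j, s)) (fun h => hjs (congrFun h s))
    have h6 : 0 < ∑ j : Fin 2, ∑ s : Fin 8, ∑ t : Fin 8, n.2 (j, s) * n.2 (j, t) *
        (CartanMatrix.E₈ s t : ℝ) :=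
      Finset.sum_pos' (fun j _ => h4 j) ⟨j, Finset.mem_univ _, h5⟩
    simp only [hn1, Pi.zero_apply, neg_zero, mul_zero, add_zero,
      Finset.sum_const_zero, zero_sub]
    linarith
  · obtain ⟨i, hi⟩ : ∃ i, n.1 i ≠ 0 := by
      by_contra hcon
      push Not at hcon
      exact hn1 (funext hcon)
    have h5 : ∑ i : Fin 3, (n.1 i * - n.1 i + - n.1 i * n.1 i) < 0 := by
      have h7 : ∀ i, n.1 i * - n.1 i + - n.1 i * n.1 i ≤ 0 := fun i => by
        nlinarith [sq_nonneg (n.1 i)]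
      refine Finset.sum_neg' (fun i _ => h7 i) ⟨i, Finset.mem_univ _, ?_⟩
      have := mul_self_pos.2 hi
      nlinarith
    have h6 : 0 ≤ ∑ j : Fin 2, ∑ s : Fin 8, ∑ t : Fin 8, n.2 (j, s) * n.2 (j, t) *
        (CartanMatrix.E₈ s t : ℝ) := Finset.sum_nonneg fun j _ => h4 j
    linarith

theorem sigK : Sig BK 3 19 := by
  refine sig_of_frame BK BK_symm uK ?_ ?_ ?_
  · intro a ha
    rw [uK_sum]
    obtain ⟨i, hi⟩ : ∃ i, a i ≠ 0 := by
      by_contra hcon
      push Not at hcon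
      exact ha (funext hcon)
    have h0 := sq_nonneg (a 0)
    have h1 := sq_nonneg (a 1)
    have h2 := sq_nonneg (a 2)
    have h3 : 0 < a i ^ 2 := by positivity
    fin_cases i <;> simp at h3 <;> nlinarith
  · intro x h0 hx
    refine LatS_723.neg_of_sylvester (N := (Fin 3 → ℝ) × (Fin 2 × Fin 8 → ℝ)) BK BK_symm psiK
      psiK_neg (k := 3) ?_ uK ?_ x hx h0
    · simp
    · intro a ha
      rw [uK_sum]
      obtain ⟨i, hi⟩ : ∃ i, a i ≠ 0 := by
        by_contra hcon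
        push Not at hcon
        exact ha (funext hcon)
      have h0 := sq_nonneg (a 0)
      have h1 := sq_nonneg (a 1)
      have h2 := sq_nonneg (a 2)
      have h3 : 0 < a i ^ 2 := by positivity
      fin_cases i <;> simp at h3 <;> nlinarith
  · simp

/-! ### the lattice `3U` -/

/-- the Gram matrix of `3U`. -/
def gU3 : Matrix (Fin 3 × Fin 2) (Fin 3 × Fin 2) ℤ :=
  fun a b => if a.1 = b.1 ∧ a.2 ≠ b.2 then 1 else 0

theorem gU3_unit : IsUnit gU3.det := by
  refine Matrix.isUnit_det_of_right_inverse (B := gU3) ?_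
  decide +kernel

theorem gU3_symm : gU3.IsSymm := by
  unfold Matrix.IsSymm
  decide +kernel

theorem gU3_even (i : Fin 3 × Fin 2) : Even (gU3 i i) := by
  revert i
  decide +kernel

/-- the real form of `3U`. -/
def BU : LinearMap.BilinForm ℝ (Fin 3 × Fin 2 → ℝ) :=
  Matrix.toBilin' (gU3.map fun z : ℤ => (z : ℝ))

theorem BU_apply (x y : Fin 3 × Fin 2 → ℝ) :
    BU x y = ∑ i : Fin 3, (x (i, 0) * y (i, 1) + x (i, 1) * y (i, 0)) := by
  unfold BU
  rw [Matrix.toBilin'_apply]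
  simp only [Matrix.map_apply, gU3, Fintype.sum_prod_type, Fin.sum_univ_two, Fin.sum_univ_three]
  simp

theorem BU_single (i j : Fin 3 × Fin 2) : BU (Pi.single i 1) (Pi.single j 1) = gU3 i j := by
  unfold BU
  rw [Matrix.toBilin'_single]
  rfl

theorem BU_symm (x y : Fin 3 × Fin 2 → ℝ) : BU x y = BU y x := by
  rw [BU_apply, BU_apply]
  exact Finset.sum_congr rfl fun i _ => by ring

/-- frames of `3U` -/
def uU (ε : ℝ) (i : Fin 3) : Fin 3 × Fin 2 → ℝ := Pi.single (i, 0) 1 + Pi.single (i, 1) ε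

theorem uU_sum (ε : ℝ) (a : Fin 3 → ℝ) :
    BU (∑ i, a i • uU ε i) (∑ i, a i • uU ε i) = 2 * ε * (a 0 ^ 2 + a 1 ^ 2 + a 2 ^ 2) := by
  have h1 : ∀ i, (∑ j, a j • uU ε j) (i, 0) = a i := by
    intro i
    rw [Finset.sum_apply]
    fin_cases i <;> simp [uU, Pi.single_apply]
  have h2 : ∀ i, (∑ j, a j • uU ε j) (i, 1) = ε * a i := by
    intro i
    rw [Finset.sum_apply]
    fin_cases i <;> simp [uU, Pi.single_apply, mul_comm]
  rw [BU_apply]
  simp only [h1, h2, Fin.sum_univ_three]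
  ring

theorem sum_sq_pos (a : Fin 3 → ℝ) (ha : a ≠ 0) : 0 < a 0 ^ 2 + a 1 ^ 2 + a 2 ^ 2 := by
  obtain ⟨i, hi⟩ : ∃ i, a i ≠ 0 := by
    by_contra hcon
    push Not at hcon
    exact ha (funext hcon)
  have h0 := sq_nonneg (a 0)
  have h1 := sq_nonneg (a 1)
  have h2 := sq_nonneg (a 2)
  have h3 : 0 < a i ^ 2 := by positivity
  fin_cases i <;> simp at h3 <;> nlinarith

theorem sigU : Sig BU 3 3 := by
  have hpos : ∀ a : Fin 3 → ℝ, a ≠ 0 → 0 < BU (∑ i, a i • uU 1 i) (∑ i, a i • uU 1 i) := by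
    intro a ha
    rw [uU_sum]
    have := sum_sq_pos a ha
    linarith
  refine sig_of_frame BU BU_symm (uU 1) hpos ?_ ?_
  · intro x h0 hx
    refine LatS_723.neg_of_sylvester (N := Fin 3 → ℝ) BU BU_symm
      (Fintype.linearCombination ℝ (uU (-1))) ?_ (k := 3) ?_ (uU 1) hpos x hx h0
    · intro n hn
      rw [Fintype.linearCombination_apply, uU_sum]
      have := sum_sq_pos n hn
      linarith
    · simp
  · simp

/-! ### assembly -/

section Asm

variable {M : Type u} [TopologicalSpace M] [T2Space M] [CompactSpace M]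
  [ChartedSpace E4 M] [IsManifold 𝓘(ℝ, E4) ∞ M]

theorem even_of {F : Z2 M} {m : ℕ} {e : Module.Basis (Fin m) ℝ (H2 M)}
    {Q : Matrix (Fin m) (Fin m) ℤ} (hQ : ∀ i j, ip F (e i) (e j) = Q i j)
    (hHZ : HZ M = {c | ∃ n : Fin m → ℤ, c = ∑ i, (n i : ℝ) • e i})
    (hE : ∀ c ∈ HZ M, ∃ n : ℤ, ip F c c = 2 * n) (i : Fin m) : Even (Q i i) := by
  have hmem : e i ∈ HZ M := by
    rw [hHZ]
    refine ⟨Pi.single i 1, ?_⟩
    rw [Finset.sum_eq_single i]
    · simp
    · intro j _ hj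
      rw [Pi.single_eq_of_ne hj, Int.cast_zero, zero_smul]
    · intro h
      exact absurd (Finset.mem_univ _) h
  obtain ⟨n, hn⟩ := hE _ hmem
  rw [hQ] at hn
  refine ⟨n, ?_⟩
  have h1 : ((Q i i : ℤ) : ℝ) = ((n + n : ℤ) : ℝ) := by
    push_cast
    linarith
  exact_mod_cast h1

theorem k3_of (hC : EVENCLASS) {F : Z2 M} (hF : Vol (F.1.1 : F2 E4 M))
    (hb1 : HasB1 M 0) [FiniteDimensional ℝ (H2 M)]
    (hsig : Sig (ipB F hF) 3 19) {m : ℕ} (e : Module.Basis (Fin m) ℝ (H2 M))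
    (Q : Matrix (Fin m) (Fin m) ℤ) (hQ : ∀ i j, ip F (e i) (e j) = Q i j) (hQu : IsUnit Q.det)
    (hQe : ∀ i, Even (Q i i))
    (hHZ : HZ M = {c | ∃ n : Fin m → ℤ, c = ∑ i, (n i : ℝ) • e i}) : K3Type F := by
  obtain ⟨e', he', hspan⟩ := lattice_unique hC (ipB F hF) (fun x y => ip_comm F x y) e Q hQ hQu
    hQe (by norm_num : 0 < 3) (by norm_num : 0 < 19) hsig gK3 gK3_symm gK3_unit gK3_even BK
    BK_single BK_symm sigK
  exact ⟨b1Zero_of hb1, e', he', by rw [hHZ, hspan]⟩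

theorem hyp_of (hC : EVENCLASS) {F : Z2 M} (hF : Vol (F.1.1 : F2 E4 M))
    [FiniteDimensional ℝ (H2 M)]
    (hsig : Sig (ipB F hF) 3 3) {m : ℕ} (e : Module.Basis (Fin m) ℝ (H2 M))
    (Q : Matrix (Fin m) (Fin m) ℤ) (hQ : ∀ i j, ip F (e i) (e j) = Q i j) (hQu : IsUnit Q.det)
    (hQe : ∀ i, Even (Q i i))
    (hHZ : HZ M = {c | ∃ n : Fin m → ℤ, c = ∑ i, (n i : ℝ) • e i}) :
    ∃ f g : Fin 3 → H2 M, (∀ i j, ip F (f i) (f j) = 0) ∧ (∀ i j, ip F (g i) (g j) = 0) ∧
      (∀ i j, ip F (f i) (g j) = if i = j then 1 else 0) ∧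
      HZ M = {c | ∃ m n : Fin 3 → ℤ, c = ∑ i, (m i : ℝ) • f i + ∑ i, (n i : ℝ) • g i} := by
  obtain ⟨e', he', hspan⟩ := lattice_unique hC (ipB F hF) (fun x y => ip_comm F x y) e Q hQ hQu
    hQe (by norm_num : 0 < 3) (by norm_num : 0 < 3) hsig gU3 gU3_symm gU3_unit gU3_even BU
    BU_single BU_symm sigU
  have he'' : ∀ i j, ip F (e' i) (e' j) = gU3 i j := he'
  refine ⟨fun i => e' (i, 0), fun i => e' (i, 1), ?_, ?_, ?_, ?_⟩
  · intro i j
    rw [he'']
    simp [gU3]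
  · intro i j
    rw [he'']
    simp [gU3]
  · intro i j
    rw [he'']
    simp [gU3]
  · rw [hHZ, hspan]
    ext c
    constructor
    · rintro ⟨n, rfl⟩
      refine ⟨fun i => n (i, 0), fun i => n (i, 1), ?_⟩
      rw [Fintype.sum_prod_type]
      simp only [Fin.sum_univ_two]
      rw [Finset.sum_add_distrib]
    · rintro ⟨k, n, rfl⟩
      refine ⟨fun p => if p.2 = 0 then k p.1 else n p.1, ?_⟩
      rw [Fintype.sum_prod_type]
      simp only [Fin.sum_univ_two]
      rw [Finset.sum_add_distrib]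
      simp

end Asm

end

end Crest.Agent.R235.Dich_723

namespace Crest.Agent.R235

open Crest.Agent.R240 Crest.Agent.R240.Ch Crest.Agent.R240.Int
open BPlus_723 DichLA_723 LatTR_723 DichH1_723 DichW_723 Dich_723
open DichProps_723 hiding T4R

/-- **ASSEMBLY OF DICHR.** -/
theorem dichr_of (hZ : HZLat_524.HZLAT.{u}) (hH : H1BAS.{u}) (hS : SIG235.{u})
    (hE : EVEN235.{u}) (hB : BPLUS.{u}) (hF4 : FAM4W.{u}) (hC : EVENCLASS) : DICHR.{u} := by
  intro M _ _ _ _ _ _ w hw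
  have hF := hw.vol 0
  obtain ⟨b1, bp, bm, P, N, hb1, hfd, hPN, hPd, hNd, hPpos, hNneg, -, hsum, hpar⟩ := hS M w hw
  have hpos := posCls_of_pos3 hw
  have hneg : ∀ x, x ≠ 0 → (∀ i, (ipB (w 0) hF) x (clw w i) = 0) → (ipB (w 0) hF) x x < 0 :=
    fun x h0 hx => hB M w hw x hx h0
  obtain ⟨hp3, hdim⟩ := bp_eq (ipB (w 0) hF) (clw w) hpos hneg P N hPpos hNneg hPN
  have h3 : bp = 3 := by rw [← hPd, hp3]
  rw [hNd] at hdim
  subst h3
  obtain ⟨m, e, Q, hQ, hQu, hHZ⟩ := hZ M (w 0) (fun x => hw.W_ne' 0 x)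
  have hQe := even_of hQ hHZ (hE M w hw)
  have hcase : (b1 = 0 ∧ bm = 19) ∨ (b1 = 4 ∧ bm = 3) := by omega
  rcases hcase with ⟨rfl, rfl⟩ | ⟨rfl, rfl⟩
  · left
    exact k3_of hC hF hb1 (sig_of_frame (ipB (w 0) hF) (fun x y => ip_comm _ x y) (clw w) hpos hneg
      hdim) e Q hQ hQu hQe hHZ
  · right
    have hhyp := hyp_of hC hF (sig_of_frame (ipB (w 0) hF) (fun x y => ip_comm _ x y) (clw w)
      hpos hneg hdim) e Q hQ hQu hQe hHZ
    obtain ⟨b, s, hs⟩ := hH M
    have hb : b = 4 := by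
      refine hasB1_unique (M := M) ⟨s, hs.closed, fun r hr => ?_, hs.indep⟩ hb1
      obtain ⟨x, ⟨f, hf, hrf⟩, -⟩ := hs.span r hr
      exact ⟨x, f, hf, hrf⟩
    subst hb
    let a : Fin 4 → Fin 4 → Z2 M := fun i j => wedZ (hs.closed i) (hs.closed j)
    have ha : ∀ i j, ((a i j).1.1 : F2 E4 M) = wedG (s i) (s j) := fun i j => rfl
    have hm : pI (w 0) (a 0 1) (a 2 3) ≠ 0 := hF4 M w hw s hs _ _ rfl rfl
    refine ⟨⟨s, hs.closed, fun r hr => ?_, a, ha, gram_wed (w 0) ha, hm,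
      span_products hF hdim ha hm⟩, hhyp⟩
    obtain ⟨x, ⟨f, hf, hrf⟩, -⟩ := hs.span r hr
    exact ⟨x, f, hf, hrf⟩

end Crest.Agent.R235
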