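import Crest.Agent.R249.Tv10_57
import Mathlib.Analysis.Normed.Operator.Extend

/-!
# R235, SW-FS4 (helper546): the operator of an `OpPair` on `W^{1,2}`.

`SmS D` smooth sections, `cW D`, `cH D` their classes in `WE`, `HE`;
`P.lA` the linear map `A` on smooth sections; `Ah P : D0.toAD.WE →L[ℝ] D1.toAD.HE` the continuous
extension. If the classes of smooth sections are dense in `WE` (`FS3`):
`Ah_cW`, `inner_Ah` (energy identity), `adj`, `garding`, `Ah_eig`, `ker_eq`.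
-/

set_option autoImplicit false
set_option linter.unusedSectionVars false
set_option maxSynthPendingDepth 3
open scoped ContDiff ENNReal NNReal Topology Manifold Bundle RealInnerProductSpace
open MeasureTheory Set Filter Metric Bundle

noncomputable section
namespace Crest.Agent.R235.Fs4_546

open Crest.Agent.R249.Tv57
open Crest.Agent.R247.Dir593 Crest.Agent.R247.Ms322 Crest.Agent.R247.Frd657 Crest.Agent.R202.Sp

variable {n : ℕ} {M : Type*} [MetricSpace M] [ChartedSpace (EuclideanSpace ℝ (Fin n)) M]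
  [IsManifold (𝓡 n) ∞ M]
  [RiemannianBundle (fun p : M => TangentSpace (𝓡 n) p)]
  [IsContMDiffRiemannianBundle (𝓡 n) ∞ (EuclideanSpace ℝ (Fin n)) (fun p : M => TangentSpace (𝓡 n) p)]
  [IsRiemannianManifold (𝓡 n) M] [MeasurableSpace M] [BorelSpace M]
  [SecondCountableTopology M] [Nonempty M]
  [CompactSpace M] [IsFiniteMeasureOnCompacts (μHE[n] : Measure M)]

local notation "𝔼" => EuclideanSpace ℝ (Fin n)

section sections
variable {κ : Type} [Fintype κ]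

/-- the smooth sections -/
def SmS (D : Dat n M κ) : Submodule ℝ (κ → M → ℝ) where
  carrier := {u | SmV (n := n) u ∧ D.Sec u}
  zero_mem' := ⟨fun _ => contMDiff_const, fun a z => by simp⟩
  add_mem' := fun {u v} hu hv => ⟨fun a => (hu.1 a).add (hv.1 a), fun a z => by
    have h1 := hu.2 a z
    have h2 := hv.2 a z
    simp only [Pi.add_apply, mul_add, Finset.sum_add_distrib, h1, h2]⟩
  smul_mem' := fun c u hu => ⟨fun a => contMDiff_const.mul (hu.1 a), fun a z => by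
    have h1 := hu.2 a z
    simp only [Pi.smul_apply, smul_eq_mul]
    rw [← h1, Finset.mul_sum]
    exact Finset.sum_congr rfl fun b _ => by ring⟩

/-- the class of a smooth vector function -/
def clH (u : κ → M → ℝ) (hu : SmV (n := n) u) : HH (μHE[n] : Measure M) κ :=
  WithLp.toLp 2 fun a => GradS.tL (isT_smooth (hu a))

theorem clH_apply (u : κ → M → ℝ) (hu : SmV (n := n) u) (a : κ) :
    clH u hu a = GradS.tL (isT_smooth (hu a)) := rfl

theorem coe_clH (u : κ → M → ℝ) (hu : SmV (n := n) u) :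
    ∀ᵐ x ∂(μHE[n] : Measure M), ∀ a, (clH u hu a : M → ℝ) x = u a x := by
  rw [ae_all_iff]
  intro a
  exact GradS.coe_tL (isT_smooth (hu a))

theorem D_clH (u : κ → M → ℝ) (hu : SmV (n := n) u) :
    ∀ᵐ x ∂(μHE[n] : Measure M), ∀ a, ((gradS n M).D (clH u hu a) : M → 𝔼) x =
      Gr (n := n) (u a) x := by
  rw [ae_all_iff]
  intro a
  exact (gradS n M).D_tL (isT_smooth (hu a))

theorem clH_mem (u : κ → M → ℝ) (hu : SmV (n := n) u) (a : κ) : clH u hu a ∈ (gradS n M).V :=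
  (gradS n M).tL_mem (isT_smooth (hu a))

theorem clH_add (u v : κ → M → ℝ) (hu : SmV (n := n) u) (hv : SmV (n := n) v)
    (huv : SmV (n := n) (u + v)) : clH (u + v) huv = clH u hu + clH v hv := by
  ext a
  filter_upwards [coe_clH (u + v) huv, coe_clH u hu, coe_clH v hv,
    Lp.coeFn_add (clH u hu a) (clH v hv a)] with x e1 e2 e3 e4
  rw [e1 a]
  refine Eq.trans ?_ e4.symm
  rw [Pi.add_apply (f := ((clH u hu a : Lp ℝ 2 (μHE[n] : Measure M)) : M → ℝ)), e2 a, e3 a]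
  rfl

theorem clH_smul (c : ℝ) (u : κ → M → ℝ) (hu : SmV (n := n) u)
    (hcu : SmV (n := n) (c • u)) : clH (c • u) hcu = c • clH u hu := by
  ext a
  filter_upwards [coe_clH (c • u) hcu, coe_clH u hu, Lp.coeFn_smul c (clH u hu a)] with x e1 e2 e4
  rw [e1 a]
  refine Eq.trans ?_ e4.symm
  rw [Pi.smul_apply (f := ((clH u hu a : Lp ℝ 2 (μHE[n] : Measure M)) : M → ℝ)), e2 a]
  rfl

theorem P_clH (D : Dat n M κ) (u : κ → M → ℝ) (hu : SmV (n := n) u) (hs : D.Sec u) :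
    D.toAD.P (clH u hu) = clH u hu := by
  ext a
  filter_upwards [D.toAD.coe_P (clH u hu), coe_clH u hu] with x e1 e2
  rw [e1 a, e2 a]
  simp only [e2]
  exact hs a x

/-- the class in `L²(E)` -/
def cH (D : Dat n M κ) : SmS D →ₗ[ℝ] D.toAD.HE where
  toFun u := ⟨clH u.1 u.2.1, P_clH D u.1 u.2.1 u.2.2⟩
  map_add' u v := Subtype.ext (clH_add u.1 v.1 u.2.1 v.2.1 (u + v).2.1)
  map_smul' c u := Subtype.ext (clH_smul c u.1 u.2.1 (c • u).2.1)

theorem coe_cH (D : Dat n M κ) (u : SmS D) :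
    ((cH D u : D.toAD.HE) : HH (μHE[n] : Measure M) κ) = clH u.1 u.2.1 := rfl

/-- the class in `W^{1,2}(E)`, as a function -/
def cWf (D : Dat n M κ) (u : SmS D) : D.toAD.WE :=
  D.toAD.mkW (clH u.1 u.2.1) (clH_mem u.1 u.2.1) (P_clH D u.1 u.2.1 u.2.2)

theorem jj_cWf (D : Dat n M κ) (u : SmS D) : D.toAD.jj (cWf D u) = cH D u := rfl

/-- the class in `W^{1,2}(E)` -/
def cW (D : Dat n M κ) : SmS D →ₗ[ℝ] D.toAD.WE where
  toFun := cWf D
  map_add' u v := D.toAD.jj_injective (by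
    rw [map_add, jj_cWf, jj_cWf, jj_cWf, map_add])
  map_smul' c u := D.toAD.jj_injective (by
    rw [map_smul, jj_cWf, jj_cWf, map_smul, RingHom.id_apply])

theorem jj_cW (D : Dat n M κ) (u : SmS D) : D.toAD.jj (cW D u) = cH D u := rfl

theorem i1_cW (D : Dat n M κ) (u : SmS D) : D.toAD.i1 (cW D u) = clH u.1 u.2.1 := rfl

theorem inner_cH (D : Dat n M κ) (u v : SmS D) : ⟪cH D u, cH D v⟫ = ip n u.1 v.1 :=
  inner_HH (clH u.1 u.2.1) (clH v.1 v.2.1) (coe_clH u.1 u.2.1) (coe_clH v.1 v.2.1)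

theorem norm_cH_eq_zero (D : Dat n M κ) (u : SmS D) (h : cH D u = 0) : u = 0 := by
  have h1 : ip n u.1 u.1 = 0 := by rw [← inner_cH, h, inner_zero_left]
  apply Subtype.ext
  funext a z
  exact eq_zero_of_ip u.2.1 h1 a z

theorem cH_injective (D : Dat n M κ) : Function.Injective (cH D) := by
  intro u v h
  have h1 : cH D (u - v) = 0 := by rw [map_sub, h, sub_self]
  exact sub_eq_zero.1 (norm_cH_eq_zero D _ h1)

theorem cW_injective (D : Dat n M κ) : Function.Injective (cW D) := by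
  intro u v h
  exact cH_injective D (by rw [← jj_cW, ← jj_cW, h])

/-- the energy of smooth sections -/
theorem form_cW (D : Dat n M κ) (u v : SmS D) : D.toAD.form.a (cW D u) (cW D v) =
    ∫ z, D.ed u.1 v.1 z ∂(μHE[n] : Measure M) + D.toAD.shift * ip n u.1 v.1 := by
  rw [AD.form_apply, AD.form_eq, i1_cW, i1_cW]
  congr 1
  · refine integral_congr_ae ?_
    filter_upwards [coe_clH u.1 u.2.1, coe_clH v.1 v.2.1, D_clH u.1 u.2.1, D_clH v.1 v.2.1]
      with x e1 e2 e3 e4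
    rw [AD.en, Dat.ed]
    congr 1
    · refine Finset.sum_congr rfl fun a _ => ?_
      have c1 : D.cv u.1 a x = D.toAD.cvf (clH u.1 u.2.1) a x := by
        rw [Dat.cv, AD.cvf, e3 a]
        congr 1
        exact Finset.sum_congr rfl fun b _ => by rw [e1 b]; rfl
      have c2 : D.cv v.1 a x = D.toAD.cvf (clH v.1 v.2.1) a x := by
        rw [Dat.cv, AD.cvf, e4 a]
        congr 1
        exact Finset.sum_congr rfl fun b _ => by rw [e2 b]; rfl
      rw [c1, c2]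
    · refine Finset.sum_congr rfl fun a _ => Finset.sum_congr rfl fun b _ => ?_
      rw [e1 b, e2 a]
      rfl
  · congr 1
    exact inner_HH (clH u.1 u.2.1) (clH v.1 v.2.1) (coe_clH u.1 u.2.1) (coe_clH v.1 v.2.1)

end sections

/-! ### abstract Hilbert space part -/

section abs
variable {S S' E E' H H' : Type*} [AddCommGroup S] [Module ℝ S] [AddCommGroup S'] [Module ℝ S']
  [NormedAddCommGroup E] [InnerProductSpace ℝ E] [NormedAddCommGroup E'] [InnerProductSpace ℝ E']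
  [NormedAddCommGroup H] [InnerProductSpace ℝ H] [NormedAddCommGroup H'] [InnerProductSpace ℝ H']

theorem abs_norm_le {a : E →L[ℝ] E →L[ℝ] ℝ} {j : E →L[ℝ] H} {s : ℝ} (hs : 0 ≤ s) {c : S →ₗ[ℝ] E}
    {T : S →ₗ[ℝ] H'} (hT : ∀ u v, (⟪T u, T v⟫ : ℝ) = a (c u) (c v) - s * ⟪j (c u), j (c v)⟫) (u : S) :
    ‖T u‖ ≤ Real.sqrt ‖a‖ * ‖c u‖ := by
  have h1 : ‖T u‖ ^ 2 ≤ ‖a‖ * ‖c u‖ ^ 2 := by
    rw [← real_inner_self_eq_norm_sq, hT]
    have h2 : a (c u) (c u) ≤ ‖a‖ * ‖c u‖ ^ 2 := by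
      refine (le_abs_self _).trans ?_
      rw [← Real.norm_eq_abs, sq, ← mul_assoc]
      exact a.le_opNorm₂ _ _
    have h3 : 0 ≤ s * (⟪j (c u), j (c u)⟫ : ℝ) := mul_nonneg hs real_inner_self_nonneg
    linarith
  refine (pow_le_pow_iff_left₀ (norm_nonneg _) (by positivity) two_ne_zero).1 ?_
  rw [mul_pow, Real.sq_sqrt (norm_nonneg _)]
  exact h1

theorem abs_inner {a : E →L[ℝ] E →L[ℝ] ℝ} {j : E →L[ℝ] H} {s : ℝ} {c : S →ₗ[ℝ] E}
    {T : S →ₗ[ℝ] H'} (hT : ∀ u v, (⟪T u, T v⟫ : ℝ) = a (c u) (c v) - s * ⟪j (c u), j (c v)⟫)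
    (hd : DenseRange c) {Th : E →L[ℝ] H'} (hTh : ∀ u, Th (c u) = T u) (u v : E) :
    (⟪Th u, Th v⟫ : ℝ) = a u v - s * ⟪j u, j v⟫ := by
  have h1 : Continuous fun q : E × E => (⟪Th q.1, Th q.2⟫ : ℝ) := by fun_prop
  have h2 : Continuous fun q : E × E => a q.1 q.2 - s * (⟪j q.1, j q.2⟫ : ℝ) := by fun_prop
  have h3 := (DenseRange.prodMap hd hd).equalizer h1 h2 (by
    funext q
    simp only [Function.comp, Prod.map]
    rw [hTh, hTh, hT])
  exact congrFun h3 (u, v)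

theorem abs_adj {j : E →L[ℝ] H} {j' : E' →L[ℝ] H'} {c : S →ₗ[ℝ] E} {c' : S' →ₗ[ℝ] E'}
    (hd : DenseRange c) (hd' : DenseRange c') {Th : E →L[ℝ] H'} {Th' : E' →L[ℝ] H}
    (h : ∀ u w, (⟪Th (c u), j' (c' w)⟫ : ℝ) = ⟪j (c u), Th' (c' w)⟫) (u : E) (w : E') :
    (⟪Th u, j' w⟫ : ℝ) = ⟪j u, Th' w⟫ := by
  have h1 : Continuous fun q : E × E' => (⟪Th q.1, j' q.2⟫ : ℝ) := by fun_prop
  have h2 : Continuous fun q : E × E' => (⟪j q.1, Th' q.2⟫ : ℝ) := by fun_prop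
  have h3 := (DenseRange.prodMap hd hd').equalizer h1 h2 (by
    funext q
    simp only [Function.comp, Prod.map]
    exact h q.1 q.2)
  exact congrFun h3 (u, w)

theorem abs_garding {a : E →L[ℝ] E →L[ℝ] ℝ} {j : E →L[ℝ] H} {s b : ℝ} (hs : 0 ≤ s) (hb : 0 < b)
    (hc : ∀ v, b * ‖v‖ ^ 2 ≤ a v v + ‖j v‖ ^ 2) {Th : E →L[ℝ] H'}
    (hT : ∀ u v, (⟪Th u, Th v⟫ : ℝ) = a u v - s * ⟪j u, j v⟫) (u : E) :
    ‖u‖ ^ 2 ≤ (s + 1) / b * (‖Th u‖ ^ 2 + ‖j u‖ ^ 2) := by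
  have h1 := hc u
  have h2 := hT u u
  rw [real_inner_self_eq_norm_sq, real_inner_self_eq_norm_sq] at h2
  have h3 : b * ‖u‖ ^ 2 ≤ (s + 1) * (‖Th u‖ ^ 2 + ‖j u‖ ^ 2) := by
    have h4 : 0 ≤ ‖Th u‖ ^ 2 := by positivity
    nlinarith
  rw [div_mul_eq_mul_div, le_div_iff₀ hb]
  linarith

theorem abs_eig {a : E →L[ℝ] E →L[ℝ] ℝ} {j : E →L[ℝ] H} {t : ℝ} {c : S →ₗ[ℝ] E}
    (hd : DenseRange c) {e : E} (h : ∀ w, a e (c w) = t * ⟪j e, j (c w)⟫) (v : E) :
    a e v = t * ⟪j e, j v⟫ := by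
  have h1 : Continuous fun v : E => a e v := ContinuousLinearMap.continuous _
  have h2 : Continuous fun v : E => t * (⟪j e, j v⟫ : ℝ) := by fun_prop
  exact congrFun (DenseRange.equalizer hd h1 h2 (funext fun w => h w)) v

/-- the kernel, from the eigenbasis -/
theorem abs_ker {j : E →L[ℝ] H} (hj : Function.Injective j) {Th : E →L[ℝ] H'} {e : ℕ → E}
    {μ : ℕ → ℝ} (ho : ∀ k l, (⟪j (e k), j (e l)⟫ : ℝ) = if k = l then 1 else 0)
    (hT : ∀ k u, (⟪Th (e k), Th u⟫ : ℝ) = μ k * ⟪j (e k), j u⟫)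
    (hz : ∀ f : H, (∀ k, (⟪f, j (e k)⟫ : ℝ) = 0) → f = 0) (K : Finset ℕ)
    (hK : ∀ k, k ∈ K ↔ μ k = 0) {u : E} (hu : Th u = 0) :
    u = ∑ k ∈ K, (⟪j u, j (e k)⟫ : ℝ) • e k := by
  have h1 : ∀ k, k ∉ K → (⟪j u, j (e k)⟫ : ℝ) = 0 := by
    intro k hk
    have h2 := hT k u
    rw [hu, inner_zero_right] at h2
    rcases mul_eq_zero.1 h2.symm with h | h
    · exact absurd ((hK k).2 h) hk
    · rw [real_inner_comm]; exact h
  apply hj
  rw [map_sum]
  simp only [map_smul]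
  apply sub_eq_zero.1
  refine hz _ fun l => ?_
  rw [inner_sub_left, sum_inner]
  simp only [real_inner_smul_left, ho, mul_ite, mul_one, mul_zero, Finset.sum_ite_eq']
  split_ifs with hl
  · rw [sub_self]
  · rw [h1 l hl, sub_zero]

end abs

section op
variable {κ κ' : Type} [Fintype κ] [Fintype κ'] {D0 : Dat n M κ} {D1 : Dat n M κ'}
variable (P : OpPair D0 D1)

/-- `A` on smooth sections -/
def fA (u : SmS D0) : SmS D1 := ⟨P.A u.1, P.smA _ u.2.1 u.2.2, P.secA _ u.2.1 u.2.2⟩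

theorem inner_fA (u : SmS D0) (w : SmS D1) : ⟪cH D1 (fA P u), cH D1 w⟫ =
    ⟪cH D0 u, cH D0 (fA P.swap w)⟫ := by
  rw [inner_cH, inner_cH]
  exact P.adj _ _ u.2.1 u.2.2 w.2.1 w.2.2

theorem eq_of_inner {x y : SmS D1} (h : ∀ w, ⟪cH D1 x, cH D1 w⟫ = ⟪cH D1 y, cH D1 w⟫) : x = y := by
  apply cH_injective
  have h1 : ⟪cH D1 (x - y), cH D1 (x - y)⟫ = 0 := by
    rw [map_sub, inner_sub_left, ← map_sub, h, sub_self]
  have h2 := inner_self_eq_zero.1 h1
  rw [map_sub] at h2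
  exact sub_eq_zero.1 h2

/-- `A` as a linear map on smooth sections -/
def lA : SmS D0 →ₗ[ℝ] SmS D1 where
  toFun := fA P
  map_add' u v := eq_of_inner fun w => by
    rw [inner_fA, map_add, inner_add_left, map_add, inner_add_left, inner_fA, inner_fA]
  map_smul' c u := eq_of_inner fun w => by
    rw [inner_fA, map_smul, real_inner_smul_left, RingHom.id_apply, map_smul,
      real_inner_smul_left, inner_fA]

theorem lA_coe (u : SmS D0) : ((lA P u : SmS D1) : κ' → M → ℝ) = P.A u.1 := rfl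

/-- the energy identity on smooth sections -/
theorem inner_lA (u v : SmS D0) : ⟪cH D1 (lA P u), cH D1 (lA P v)⟫ =
    D0.toAD.form.a (cW D0 u) (cW D0 v) - D0.toAD.shift * ⟪cH D0 u, cH D0 v⟫ := by
  rw [form_cW, inner_cH, inner_cH, add_sub_cancel_right, P.enA _ _ u.2.1 u.2.2 v.2.1 v.2.2]
  rfl

theorem hT (u v : SmS D0) : ⟪((cH D1).comp (lA P)) u, ((cH D1).comp (lA P)) v⟫ =
    D0.toAD.form.a (cW D0 u) (cW D0 v) -
      D0.toAD.shift * ⟪D0.toAD.jj (cW D0 u), D0.toAD.jj (cW D0 v)⟫ := inner_lA P u v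

/-- **the operator on `W^{1,2}`** -/
def Ah : D0.toAD.WE →L[ℝ] D1.toAD.HE := ((cH D1).comp (lA P)).extendOfNorm (cW D0)

/-- the density of smooth sections in `W^{1,2}(E)` (FS3) -/
def Dns {κ : Type} [Fintype κ] (D : Dat n M κ) : Prop := DenseRange (cW D)

variable {P}

theorem Ah_cW (hd : Dns D0) (u : SmS D0) : Ah P (cW D0 u) = cH D1 (lA P u) :=
  LinearMap.extendOfNorm_eq hd ⟨_, abs_norm_le D0.toAD.shift_nonneg (hT P)⟩ u

/-- the energy identity -/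
theorem inner_Ah (hd : Dns D0) (u v : D0.toAD.WE) : ⟪Ah P u, Ah P v⟫ =
    D0.toAD.form.a u v - D0.toAD.shift * ⟪D0.toAD.jj u, D0.toAD.jj v⟫ :=
  abs_inner (hT P) hd (Ah_cW hd) u v

theorem inner_Ah_en (hd : Dns D0) (u v : D0.toAD.WE) : ⟪Ah P u, Ah P v⟫ =
    ∫ x, D0.toAD.en (D0.toAD.i1 u) (D0.toAD.i1 v) x ∂(μHE[n] : Measure M) := by
  rw [inner_Ah hd, AD.form_apply, AD.form_eq]
  have : (⟪D0.toAD.i1 u, D0.toAD.i1 v⟫ : ℝ) = ⟪D0.toAD.jj u, D0.toAD.jj v⟫ := rfl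
  rw [this]
  ring

/-- adjointness -/
theorem adj (hd0 : Dns D0) (hd1 : Dns D1) (u : D0.toAD.WE) (w : D1.toAD.WE) :
    ⟪Ah P u, D1.toAD.jj w⟫ = ⟪D0.toAD.jj u, Ah P.swap w⟫ :=
  abs_adj hd0 hd1 (fun u w => by
    rw [Ah_cW hd0, Ah_cW hd1, jj_cW, jj_cW]
    exact inner_fA P u w) u w

/-- Garding's inequality -/
theorem garding (hd : Dns D0) : ∃ C : ℝ, 0 < C ∧ ∀ u : D0.toAD.WE,
    ‖u‖ ^ 2 ≤ C * (‖Ah P u‖ ^ 2 + ‖D0.toAD.jj u‖ ^ 2) := by
  have hc0 : 0 < D0.toAD.form.c := D0.toAD.form.c_pos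
  have hs := D0.toAD.shift_nonneg
  exact ⟨(D0.toAD.shift + 1) / D0.toAD.form.c, by positivity,
    abs_garding hs hc0 D0.toAD.form.coer (inner_Ah hd)⟩

/-! ### eigensections -/

variable (S0 : Spec D0)

/-- the eigensection as a smooth section -/
def ph {κ : Type} [Fintype κ] {D : Dat n M κ} (S : Spec D) (k : ℕ) : SmS D :=
  ⟨S.φ k, S.smooth k, S.sec k⟩

theorem ortho_ph {κ : Type} [Fintype κ] {D : Dat n M κ} (S : Spec D) (k l : ℕ) :
    ⟪cH D (ph S k), cH D (ph S l)⟫ = if k = l then (1 : ℝ) else 0 := by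
  rw [inner_cH]
  exact S.ortho k l

theorem orthonormal_ph {κ : Type} [Fintype κ] {D : Dat n M κ} (S : Spec D) :
    Orthonormal ℝ fun k => cH D (ph S k) := by
  rw [orthonormal_iff_ite]
  exact ortho_ph S

/-- the weak eigen-equation against `W^{1,2}` -/
theorem eig_WE {κ : Type} [Fintype κ] {D : Dat n M κ} (hd : Dns D) (S : Spec D) (k : ℕ)
    (v : D.toAD.WE) : D.toAD.form.a (cW D (ph S k)) v =
      (S.μ k + D.toAD.shift) * ⟪D.toAD.jj (cW D (ph S k)), D.toAD.jj v⟫ :=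
  abs_eig hd (fun w => by
    rw [form_cW, jj_cW, jj_cW, inner_cH]
    have h4 := S.eig k w.1 w.2.1
    have h5 : (ph S k).1 = S.φ k := rfl
    rw [h5, h4, add_mul]
    rfl) v

/-- Parseval in `L²(E)` -/
theorem hasSum_HE {κ : Type} [Fintype κ] {D : Dat n M κ} (S : Spec D) (f : D.toAD.HE) :
    HasSum (fun k => ⟪f, cH D (ph S k)⟫ ^ 2) (‖f‖ ^ 2) := by
  set F : κ → M → ℝ := fun a => ((f : HH (μHE[n] : Measure M) κ) a : M → ℝ) with hF
  have hFm : ∀ a, MemLp (F a) 2 (μHE[n] : Measure M) := fun a => Lp.memLp _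
  have hPf : D.toAD.P (f : HH (μHE[n] : Measure M) κ) = f := f.2
  have hsec : ∀ᵐ z ∂(μHE[n] : Measure M), ∀ a, ∑ b, D.p a b z * F b z = F a z := by
    have h1 := D.toAD.coe_P (f : HH (μHE[n] : Measure M) κ)
    rw [hPf] at h1
    filter_upwards [h1] with z hz a
    exact (hz a).symm
  have h := S.pars F hFm hsec
  have e1 : ∀ k, (⟪f, cH D (ph S k)⟫ : ℝ) = ∫ z, ∑ a, F a z * S.φ k a z ∂(μHE[n] : Measure M) := by
    intro k
    exact inner_HH (f : HH (μHE[n] : Measure M) κ) (clH (S.φ k) (S.smooth k))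
      (Eventually.of_forall fun _ _ => rfl) (coe_clH (S.φ k) (S.smooth k))
  have e2 : ‖f‖ ^ 2 = ∫ z, ∑ a, F a z ^ 2 ∂(μHE[n] : Measure M) := by
    rw [← real_inner_self_eq_norm_sq]
    have h3 := inner_HH (f : HH (μHE[n] : Measure M) κ) (f : HH (μHE[n] : Measure M) κ)
      (f := F) (g := F) (Eventually.of_forall fun _ _ => rfl) (Eventually.of_forall fun _ _ => rfl)
    have h4 : (⟪f, f⟫ : ℝ) = ⟪(f : HH (μHE[n] : Measure M) κ), (f : HH (μHE[n] : Measure M) κ)⟫ := rfl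
    rw [h4, h3]
    refine integral_congr_ae (Eventually.of_forall fun x => ?_)
    exact Finset.sum_congr rfl fun a _ => by ring
  simp only [e1]
  rw [e2]
  exact h

theorem eq_zero_of_coef {κ : Type} [Fintype κ] {D : Dat n M κ} (S : Spec D) {f : D.toAD.HE}
    (h : ∀ k, ⟪f, cH D (ph S k)⟫ = (0 : ℝ)) : f = 0 := by
  have h1 := hasSum_HE S f
  simp only [h, ne_eq, OfNat.ofNat_ne_zero, not_false_eq_true, zero_pow] at h1
  have h2 := h1.unique hasSum_zero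
  exact norm_eq_zero.1 (pow_eq_zero_iff two_ne_zero |>.1 h2)

/-- the operator against the image of an eigensection -/
theorem Ah_eig (hd : Dns D0) (k : ℕ) (u : D0.toAD.WE) :
    ⟪Ah P (cW D0 (ph S0 k)), Ah P u⟫ =
      S0.μ k * ⟪D0.toAD.jj (cW D0 (ph S0 k)), D0.toAD.jj u⟫ := by
  rw [inner_Ah hd, eig_WE hd]
  ring

theorem Ah_ortho (hd : Dns D0) (k l : ℕ) :
    ⟪Ah P (cW D0 (ph S0 k)), Ah P (cW D0 (ph S0 l))⟫ = if k = l then S0.μ k else 0 := by
  rw [Ah_eig S0 hd, jj_cW, jj_cW, ortho_ph]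
  split_ifs <;> simp

/-- the kernel elements -/
theorem Ah_ph_ker (hd : Dns D0) {k : ℕ} (hk : S0.μ k = 0) : Ah P (cW D0 (ph S0 k)) = 0 := by
  have h := Ah_ortho (P := P) S0 hd k k
  rw [if_pos rfl, hk] at h
  exact inner_self_eq_zero.1 h

/-- **the kernel** -/
theorem ker_eq (hd : Dns D0) {u : D0.toAD.WE} (hu : Ah P u = 0) :
    u = ∑ k ∈ S0.ker, (⟪D0.toAD.jj u, D0.toAD.jj (cW D0 (ph S0 k))⟫ : ℝ) • cW D0 (ph S0 k) := by
  have h := abs_ker (j := D0.toAD.jj) (Th := Ah P) (e := fun k => cW D0 (ph S0 k)) (μ := S0.μ)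
    D0.toAD.jj_injective (ortho_ph S0) (Ah_eig S0 hd) (fun f hf => eq_zero_of_coef S0 hf) S0.ker
    (fun k => S0.mem_ker) hu
  exact h

end op

end Crest.Agent.R235.Fs4_546
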