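import Crest.Agent.R235.Dens_433
import Crest.Agent.R235.Fs4_546

/-!
# Row 235, SW-FS3: `Fs4_546.Dns D` holds for every `D` (helper433)

* `dns` : the classes of smooth sections are dense in `W^{1,2}(E)`, in the form of `Fs4_546`;
* `dns_H` : they are dense in `L²(E)`;
* `cW_eq` : `Fs4_546.cW D u = Dens_433.secW D _ _`.
-/

set_option autoImplicit false
set_option linter.unusedSectionVars false
set_option maxSynthPendingDepth 3
open scoped ContDiff ENNReal NNReal Topology Manifold Bundle RealInnerProductSpace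
open MeasureTheory Set Filter Metric Bundle

noncomputable section
namespace Crest.Agent.R235.Dns_433

open Crest.Agent.R247.Dir593 Crest.Agent.R247.Ms322 Crest.Agent.R247.Frd657
open Crest.Agent.R249.Tv57 Crest.Agent.R235.Dens_433 Crest.Agent.R235.Fs4_546

variable {n : ℕ} {M : Type*} [MetricSpace M] [CompactSpace M]
    [ChartedSpace (EuclideanSpace ℝ (Fin n)) M]
    [IsManifold (𝓡 n) ∞ M]
    [RiemannianBundle (fun p : M => TangentSpace (𝓡 n) p)]
    [IsContMDiffRiemannianBundle (𝓡 n) ∞ (EuclideanSpace ℝ (Fin n))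
      (fun p : M => TangentSpace (𝓡 n) p)]
    [IsRiemannianManifold (𝓡 n) M]
    [MeasurableSpace M] [BorelSpace M] [SecondCountableTopology M] [Nonempty M]
    [IsFiniteMeasureOnCompacts (μHE[n] : Measure M)]
    {κ : Type} [Fintype κ] (D : Dat n M κ)

theorem cW_eq (u : SmS D) : cW D u = secW D u.2.1 u.2.2 := rfl

variable [ConnectedSpace M]

/-- **FS3** -/
theorem dns (hn : 1 ≤ n) : Dns D := by
  intro w
  refine closure_mono ?_ (dense_smSet D hn w)
  rintro _ ⟨u, hu, hs, rfl⟩
  exact ⟨⟨u, hu, hs⟩, rfl⟩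

/-- smooth sections are dense in `L²(E)` -/
theorem dns_H (hn : 1 ≤ n) : DenseRange (cH D) := by
  have h1 : DenseRange D.toAD.jj := D.toAD.dense_jj (gradS n M).dense_V
  have h2 := h1.comp (dns D hn) D.toAD.jj.continuous
  exact h2

/-- an `L²` section orthogonal to all smooth sections vanishes -/
theorem eq_of_inner_cH (hn : 1 ≤ n) {f g : D.toAD.HE}
    (h : ∀ w : SmS D, (⟪f, cH D w⟫ : ℝ) = ⟪g, cH D w⟫) : f = g := by
  have h1 : ∀ v : D.toAD.HE, (⟪f, v⟫ : ℝ) = ⟪g, v⟫ := by
    intro v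
    have h2 : (fun v : D.toAD.HE => (⟪f, v⟫ : ℝ)) = fun v => ⟪g, v⟫ :=
      (dns_H D hn).equalizer (by fun_prop) (by fun_prop) (funext fun w => h w)
    exact congrFun h2 v
  exact ext_inner_right ℝ h1

end Crest.Agent.R235.Dns_433
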