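import Crest.Agent.R235.NWDefs_334

/-!
# Row 235, package NW, leaf H1 (helper952): the Hölder library, part 1 (`Hol a X E`)

Over `NWDefs_334` (`HB a M f`, `Hol a X E`, `Hol.fn`).  NO hypothesis on `a` is needed except where
stated (`HB.continuous`, `mk`, `hb_lip`: `0 < a`; `rst`: `0 ≤ a`).

* completeness, `ext`, `hb`, `norm_le`, `mkc` (from a continuous `HB` function), `mk` (`0 < a`);
* continuous linear maps: `ev x`, `toB`, `cl L` / `clL`, `bl B`, `cst`, `pair`, `rst`;
* algebra of the predicate `HB`.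
-/

set_option autoImplicit false
set_option linter.unusedSectionVars false

open Filter Topology Set
open scoped BoundedContinuousFunction ContDiff
open Crest.Agent.R235.NWDefs_334

namespace Crest.Agent.R235.NWHol_952

noncomputable section

universe u v w z

variable {a : ℝ} {X : Type u} [MetricSpace X] {E : Type v} [NormedAddCommGroup E]
  [NormedSpace ℝ E] {F : Type w} [NormedAddCommGroup F] [NormedSpace ℝ F]
  {H : Type z} [NormedAddCommGroup H] [NormedSpace ℝ H]

/-! ### the predicate `HB` -/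

theorem rpow_dist_nonneg (x y : X) : 0 ≤ dist x y ^ a := Real.rpow_nonneg dist_nonneg a

theorem HB.nonneg [Nonempty X] {M : ℝ} {f : X → E} (h : HB a M f) : 0 ≤ M :=
  (norm_nonneg _).trans (h.bdd (Classical.arbitrary X))

theorem HB.mono {M M' : ℝ} {f : X → E} (h : HB a M f) (hM : M ≤ M') : HB a M' f :=
  ⟨fun x => (h.bdd x).trans hM, fun x y => (h.hol x y).trans
    (mul_le_mul_of_nonneg_right hM (rpow_dist_nonneg x y))⟩

theorem HB.continuous (ha : 0 < a) {M : ℝ} {f : X → E} (h : HB a M f) : Continuous f := by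
  rw [continuous_iff_continuousAt]
  intro x
  have h1 : Tendsto (fun y : X => M * dist y x ^ a) (𝓝 x) (𝓝 0) := by
    have h2 : Continuous fun y : X => M * dist y x ^ a :=
      continuous_const.mul ((continuous_id.dist continuous_const).rpow_const
        fun _ => Or.inr ha.le)
    have h3 := h2.tendsto x
    simpa [Real.zero_rpow ha.ne'] using h3
  rw [ContinuousAt, tendsto_iff_norm_sub_tendsto_zero]
  exact squeeze_zero (fun _ => norm_nonneg _) (fun y => h.hol y x) h1

theorem HB.zero {M : ℝ} (hM : 0 ≤ M) : HB a M (fun _ : X => (0 : E)) :=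
  ⟨fun _ => by simpa using hM, fun x y => by
    simpa using mul_nonneg hM (rpow_dist_nonneg (a := a) x y)⟩

theorem HB.const (e : E) : HB a ‖e‖ (fun _ : X => e) :=
  ⟨fun _ => le_rfl, fun x y => by
    rw [sub_self, norm_zero]; exact mul_nonneg (norm_nonneg _) (rpow_dist_nonneg x y)⟩

theorem HB.add {M N : ℝ} {f g : X → E} (hf : HB a M f) (hg : HB a N g) :
    HB a (M + N) (fun x => f x + g x) :=
  ⟨fun x => (norm_add_le _ _).trans (add_le_add (hf.bdd x) (hg.bdd x)), fun x y => by
    have e : f x + g x - (f y + g y) = (f x - f y) + (g x - g y) := by abel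
    rw [e, add_mul]
    exact (norm_add_le _ _).trans (add_le_add (hf.hol x y) (hg.hol x y))⟩

theorem HB.neg {M : ℝ} {f : X → E} (hf : HB a M f) : HB a M (fun x => -f x) :=
  ⟨fun x => by rw [norm_neg]; exact hf.bdd x, fun x y => by
    have e : -f x - -f y = -(f x - f y) := by abel
    rw [e, norm_neg]
    exact hf.hol x y⟩

theorem HB.sub {M N : ℝ} {f g : X → E} (hf : HB a M f) (hg : HB a N g) :
    HB a (M + N) (fun x => f x - g x) := by
  simpa only [sub_eq_add_neg] using HB.add hf (HB.neg hg)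

theorem HB.clm {M : ℝ} {f : X → E} (T : E →L[ℝ] F) (hf : HB a M f) :
    HB a (‖T‖ * M) (fun x => T (f x)) := by
  constructor
  · intro x
    exact (T.le_opNorm _).trans (mul_le_mul_of_nonneg_left (hf.bdd x) (norm_nonneg _))
  · intro x y
    rw [← map_sub, mul_assoc]
    exact (T.le_opNorm _).trans (mul_le_mul_of_nonneg_left (hf.hol x y) (norm_nonneg _))

theorem HB.bilin {M N : ℝ} {f : X → E} {g : X → F} (B : E →L[ℝ] F →L[ℝ] H) (hM : 0 ≤ M)
    (hN : 0 ≤ N) (hf : HB a M f) (hg : HB a N g) :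
    HB a (2 * ‖B‖ * M * N) (fun x => B (f x) (g x)) := by
  constructor
  · intro x
    have h1 := B.le_opNorm₂ (f x) (g x)
    have h2 : ‖B‖ * ‖f x‖ * ‖g x‖ ≤ ‖B‖ * M * N := by
      gcongr
      · exact hf.bdd x
      · exact hg.bdd x
    have h3 : 0 ≤ ‖B‖ * M * N := by positivity
    linarith
  · intro x y
    have e : B (f x) (g x) - B (f y) (g y) = B (f x - f y) (g x) + B (f y) (g x - g y) := by
      simp only [map_sub, _root_.sub_apply]; abel
    rw [e]
    refine (norm_add_le _ _).trans ?_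
    have h0 := rpow_dist_nonneg (a := a) x y
    have h1 := B.le_opNorm₂ (f x - f y) (g x)
    have h2 := B.le_opNorm₂ (f y) (g x - g y)
    have h3 : ‖B‖ * ‖f x - f y‖ * ‖g x‖ ≤ ‖B‖ * (M * dist x y ^ a) * N := by
      gcongr
      · exact hf.hol x y
      · exact hg.bdd x
    have h4 : ‖B‖ * ‖f y‖ * ‖g x - g y‖ ≤ ‖B‖ * M * (N * dist x y ^ a) := by
      gcongr
      · exact hf.bdd y
      · exact hg.hol x y
    calc _ ≤ ‖B‖ * (M * dist x y ^ a) * N + ‖B‖ * M * (N * dist x y ^ a) := by linarith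
      _ = _ := by ring

theorem HB.const_smul {M : ℝ} {f : X → E} (c : ℝ) (hf : HB a M f) :
    HB a (|c| * M) (fun x => c • f x) := by
  constructor
  · intro x
    rw [norm_smul, Real.norm_eq_abs]
    exact mul_le_mul_of_nonneg_left (hf.bdd x) (abs_nonneg _)
  · intro x y
    rw [← smul_sub, norm_smul, Real.norm_eq_abs, mul_assoc]
    exact mul_le_mul_of_nonneg_left (hf.hol x y) (abs_nonneg _)

theorem HB.prodMk {M : ℝ} {f : X → E} {g : X → F} (hf : HB a M f) (hg : HB a M g) :
    HB a M (fun x => (f x, g x)) :=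
  ⟨fun x => max_le (hf.bdd x) (hg.bdd x), fun x y => by
    rw [Prod.mk_sub_mk, Prod.norm_mk]
    exact max_le (hf.hol x y) (hg.hol x y)⟩

/-- pull back by a Lipschitz map -/
theorem HB.comp_lip {Y : Type z} [MetricSpace Y] (ha : 0 ≤ a) {L M : ℝ} (hL : 0 ≤ L)
    (hM : 0 ≤ M) {φ : Y → X} (hφ : ∀ y y', dist (φ y) (φ y') ≤ L * dist y y') {f : X → E}
    (hf : HB a M f) : HB a (max 1 (L ^ a) * M) (fun y => f (φ y)) := by
  constructor
  · intro y
    exact (hf.bdd _).trans (le_mul_of_one_le_left hM (le_max_left _ _))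
  · intro y y'
    refine (hf.hol _ _).trans ?_
    have h1 : dist (φ y) (φ y') ^ a ≤ L ^ a * dist y y' ^ a := by
      rw [← Real.mul_rpow hL dist_nonneg]
      exact Real.rpow_le_rpow dist_nonneg (hφ y y') ha
    have h2 : L ^ a * dist y y' ^ a ≤ max 1 (L ^ a) * dist y y' ^ a :=
      mul_le_mul_of_nonneg_right (le_max_right _ _) (rpow_dist_nonneg y y')
    calc M * dist (φ y) (φ y') ^ a ≤ M * (max 1 (L ^ a) * dist y y' ^ a) :=
          mul_le_mul_of_nonneg_left (h1.trans h2) hM
      _ = _ := by ring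

/-- bounded Lipschitz maps are Hölder (`0 < a ≤ 1`) -/
theorem hb_lip (ha : 0 < a) (ha1 : a ≤ 1) {f : X → E} {M L : ℝ} (hM : ∀ x, ‖f x‖ ≤ M)
    (hL : ∀ x y, ‖f x - f y‖ ≤ L * dist x y) : HB a (2 * M + max L 0) f := by
  constructor
  · intro x
    have h1 := hM x
    have h2 : 0 ≤ M := (norm_nonneg _).trans h1
    have := le_max_right L 0
    linarith
  · intro x y
    have hM0 : 0 ≤ M := (norm_nonneg _).trans (hM x)
    have h0 := rpow_dist_nonneg (a := a) x y
    rcases le_or_gt (dist x y) 1 with h | h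
    · have h1 : dist x y ≤ dist x y ^ a := by
        rcases (dist_nonneg (x := x) (y := y)).eq_or_lt with h2 | h2
        · rw [← h2, Real.zero_rpow ha.ne']
        · calc dist x y = dist x y ^ (1 : ℝ) := (Real.rpow_one _).symm
            _ ≤ dist x y ^ a := Real.rpow_le_rpow_of_exponent_ge h2 h ha1
      calc ‖f x - f y‖ ≤ L * dist x y := hL x y
        _ ≤ max L 0 * dist x y := mul_le_mul_of_nonneg_right (le_max_left _ _) dist_nonneg
        _ ≤ max L 0 * dist x y ^ a := mul_le_mul_of_nonneg_left h1 (le_max_right _ _)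
        _ ≤ (2 * M + max L 0) * dist x y ^ a := by
          refine mul_le_mul_of_nonneg_right ?_ h0
          linarith
    · have h1 : 1 ≤ dist x y ^ a := Real.one_le_rpow h.le ha.le
      calc ‖f x - f y‖ ≤ ‖f x‖ + ‖f y‖ := norm_sub_le _ _
        _ ≤ 2 * M := by linarith [hM x, hM y]
        _ ≤ 2 * M + max L 0 := by linarith [le_max_right L 0]
        _ ≤ (2 * M + max L 0) * dist x y ^ a :=
          le_mul_of_one_le_right (by linarith [le_max_right L 0]) h1

/-- change of exponent `b ≤ a` -/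
theorem HB.exp_mono {b M : ℝ} (hb0 : 0 < b) (hba : b ≤ a) {f : X → E} (h : HB a M f) :
    HB b (2 * M) f := by
  constructor
  · intro x
    have h1 := h.bdd x
    have h2 : 0 ≤ M := (norm_nonneg _).trans h1
    linarith
  · intro x y
    have hM0 : 0 ≤ M := (norm_nonneg _).trans (h.bdd x)
    have h0 := rpow_dist_nonneg (a := b) x y
    rcases le_or_gt (dist x y) 1 with h1 | h1
    · have h2 : dist x y ^ a ≤ dist x y ^ b := by
        rcases (dist_nonneg (x := x) (y := y)).eq_or_lt with h2 | h2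
        · rw [← h2, Real.zero_rpow hb0.ne', Real.zero_rpow (hb0.trans_le hba).ne']
        · exact Real.rpow_le_rpow_of_exponent_ge h2 h1 hba
      calc ‖f x - f y‖ ≤ M * dist x y ^ a := h.hol x y
        _ ≤ M * dist x y ^ b := mul_le_mul_of_nonneg_left h2 hM0
        _ ≤ 2 * M * dist x y ^ b := by
          refine mul_le_mul_of_nonneg_right ?_ h0
          linarith
    · have h2 : 1 ≤ dist x y ^ b := Real.one_le_rpow h1.le hb0.le
      calc ‖f x - f y‖ ≤ ‖f x‖ + ‖f y‖ := norm_sub_le _ _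
        _ ≤ 2 * M := by linarith [h.bdd x, h.bdd y]
        _ ≤ 2 * M * dist x y ^ b := le_mul_of_one_le_right (by linarith) h2

/-! ### the Banach space `Hol a X E` -/

theorem isClosed_Hol : IsClosed (Hol a X E : Set ((X →ᵇ E) × (PR X →ᵇ E))) := by
  have h : (Hol a X E : Set ((X →ᵇ E) × (PR X →ᵇ E)))
      = ⋂ p : PR X, {q | (dist p.1.1 p.1.2 ^ a) • q.2 p = q.1 p.1.1 - q.1 p.1.2} := by
    ext q
    simp only [SetLike.mem_coe, mem_iInter, Set.mem_ofPred_eq]
    rfl
  rw [h]
  have c1 : ∀ x : X, Continuous fun q : (X →ᵇ E) × (PR X →ᵇ E) => q.1 x := fun x =>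
    (BoundedContinuousFunction.evalCLM ℝ x).continuous.comp continuous_fst
  have c2 : ∀ p : PR X, Continuous fun q : (X →ᵇ E) × (PR X →ᵇ E) => q.2 p := fun p =>
    (BoundedContinuousFunction.evalCLM ℝ p).continuous.comp continuous_snd
  exact isClosed_iInter fun p => isClosed_eq ((c2 p).const_smul _) ((c1 _).sub (c1 _))

instance instCompleteSpaceHol [CompleteSpace E] : CompleteSpace (Hol a X E) :=
  isClosed_Hol.completeSpace_coe

@[simp] theorem fn_add (u v : Hol a X E) (x : X) : Hol.fn (u + v) x = Hol.fn u x + Hol.fn v x :=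
  rfl
@[simp] theorem fn_sub (u v : Hol a X E) (x : X) : Hol.fn (u - v) x = Hol.fn u x - Hol.fn v x :=
  rfl
@[simp] theorem fn_neg (u : Hol a X E) (x : X) : Hol.fn (-u) x = -(Hol.fn u x) := rfl
@[simp] theorem fn_zero (x : X) : Hol.fn (0 : Hol a X E) x = 0 := rfl
@[simp] theorem fn_smul (c : ℝ) (u : Hol a X E) (x : X) : Hol.fn (c • u) x = c • Hol.fn u x := rfl

theorem quot_eq (u : Hol a X E) (p : PR X) :
    (dist p.1.1 p.1.2 ^ a) • u.1.2 p = Hol.fn u p.1.1 - Hol.fn u p.1.2 := u.2 p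

theorem ext {u v : Hol a X E} (h : ∀ x, Hol.fn u x = Hol.fn v x) : u = v := by
  apply Subtype.ext
  refine Prod.ext (BoundedContinuousFunction.ext h) (BoundedContinuousFunction.ext fun p => ?_)
  have hp : 0 < dist p.1.1 p.1.2 ^ a := Real.rpow_pos_of_pos (dist_pos.2 p.2) a
  have h1 := quot_eq u p
  have h2 := quot_eq v p
  rw [h, h, ← h2] at h1
  exact smul_right_injective E hp.ne' h1

theorem fn_injective : Function.Injective (Hol.fn : Hol a X E → X → E) := fun _ _ h =>
  ext fun x => congrFun h x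

theorem fn_continuous (u : Hol a X E) : Continuous (Hol.fn u) := u.1.1.continuous

theorem hb (u : Hol a X E) : HB a ‖u‖ (Hol.fn u) := by
  refine ⟨fun x => (u.1.1.norm_coe_le_norm x).trans (norm_fst_le u.1), fun x y => ?_⟩
  have h5 := rpow_dist_nonneg (a := a) x y
  by_cases hxy : x = y
  · subst hxy
    rw [sub_self, norm_zero]
    exact mul_nonneg (norm_nonneg _) h5
  · have h3 := quot_eq u ⟨(x, y), hxy⟩
    have h4 : ‖u.1.2 ⟨(x, y), hxy⟩‖ ≤ ‖u‖ := (u.1.2.norm_coe_le_norm _).trans (norm_snd_le u.1)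
    rw [← h3, norm_smul, Real.norm_of_nonneg h5, mul_comm]
    exact mul_le_mul_of_nonneg_right h4 h5

theorem norm_fn_le (u : Hol a X E) (x : X) : ‖Hol.fn u x‖ ≤ ‖u‖ := (hb u).bdd x

theorem norm_fn_sub_le (u : Hol a X E) (x y : X) :
    ‖Hol.fn u x - Hol.fn u y‖ ≤ ‖u‖ * dist x y ^ a := (hb u).hol x y

theorem norm_le {u : Hol a X E} {M : ℝ} (hM : 0 ≤ M) (h : HB a M (Hol.fn u)) : ‖u‖ ≤ M := by
  refine max_le ((BoundedContinuousFunction.norm_le hM).2 h.bdd)
    ((BoundedContinuousFunction.norm_le hM).2 fun p => ?_)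
  have hp : 0 < dist p.1.1 p.1.2 ^ a := Real.rpow_pos_of_pos (dist_pos.2 p.2) a
  have h3 := h.hol p.1.1 p.1.2
  rw [← quot_eq u p, norm_smul, Real.norm_of_nonneg hp.le, mul_comm] at h3
  exact le_of_mul_le_mul_right h3 hp

theorem norm_le' [Nonempty X] {u : Hol a X E} {M : ℝ} (h : HB a M (Hol.fn u)) : ‖u‖ ≤ M :=
  norm_le (HB.nonneg h) h

theorem norm_le_iff {u : Hol a X E} {M : ℝ} (hM : 0 ≤ M) : ‖u‖ ≤ M ↔ HB a M (Hol.fn u) :=
  ⟨fun h => HB.mono (hb u) h, norm_le hM⟩

/-- constructor, no hypothesis on `a` -/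
def mkc (f : X → E) (hf : Continuous f) (M : ℝ) (h : HB a M f) : Hol a X E :=
  ⟨(BoundedContinuousFunction.ofNormedAddCommGroup f hf M h.bdd,
    BoundedContinuousFunction.ofNormedAddCommGroup
      (fun p : PR X => (dist p.1.1 p.1.2 ^ a)⁻¹ • (f p.1.1 - f p.1.2))
      (by
        have h1 : Continuous fun p : PR X => dist p.1.1 p.1.2 ^ a :=
          ((continuous_fst.comp continuous_subtype_val).dist
            (continuous_snd.comp continuous_subtype_val)).rpow_const
              fun p => Or.inl (dist_pos.2 p.2).ne'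
        refine (h1.inv₀ fun p => (Real.rpow_pos_of_pos (dist_pos.2 p.2) a).ne').smul ?_
        exact (hf.comp (continuous_fst.comp continuous_subtype_val)).sub
          (hf.comp (continuous_snd.comp continuous_subtype_val)))
      M (fun p => by
        have hp : 0 < dist p.1.1 p.1.2 ^ a := Real.rpow_pos_of_pos (dist_pos.2 p.2) a
        rw [norm_smul, norm_inv, Real.norm_of_nonneg hp.le, inv_mul_le_iff₀ hp, mul_comm]
        exact h.hol _ _)), by
    intro p
    have hp : 0 < dist p.1.1 p.1.2 ^ a := Real.rpow_pos_of_pos (dist_pos.2 p.2) a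
    show (dist p.1.1 p.1.2 ^ a) • ((dist p.1.1 p.1.2 ^ a)⁻¹ • (f p.1.1 - f p.1.2)) =
      f p.1.1 - f p.1.2
    rw [smul_smul, mul_inv_cancel₀ hp.ne', one_smul]⟩

@[simp] theorem fn_mkc (f : X → E) (hf : Continuous f) (M : ℝ) (h : HB a M f) :
    Hol.fn (mkc f hf M h) = f := rfl

theorem norm_mkc_le {f : X → E} {hf : Continuous f} {M : ℝ} (h : HB a M f) (hM : 0 ≤ M) :
    ‖mkc f hf M h‖ ≤ M := norm_le hM h

/-- constructor, `0 < a` -/
def mk (ha : 0 < a) (f : X → E) (M : ℝ) (h : HB a M f) : Hol a X E :=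
  mkc f (HB.continuous ha h) M h

@[simp] theorem fn_mk (ha : 0 < a) (f : X → E) (M : ℝ) (h : HB a M f) :
    Hol.fn (mk ha f M h) = f := rfl

theorem norm_mk_le (ha : 0 < a) {f : X → E} {M : ℝ} (h : HB a M f) (hM : 0 ≤ M) :
    ‖mk ha f M h‖ ≤ M := norm_le hM h

/-! ### continuous linear operations -/

/-- evaluation -/
def ev (x : X) : Hol a X E →L[ℝ] E :=
  (BoundedContinuousFunction.evalCLM ℝ x).comp
    ((ContinuousLinearMap.fst ℝ _ _).comp (Hol a X E).subtypeL)

@[simp] theorem ev_apply (x : X) (u : Hol a X E) : ev x u = Hol.fn u x := rfl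

/-- the underlying bounded continuous function -/
def toB : Hol a X E →L[ℝ] (X →ᵇ E) :=
  (ContinuousLinearMap.fst ℝ _ _).comp (Hol a X E).subtypeL

@[simp] theorem toB_apply (u : Hol a X E) (x : X) : toB u x = Hol.fn u x := rfl

theorem hb_bl (B : E →L[ℝ] F →L[ℝ] H) (u : Hol a X E) (v : Hol a X F) :
    HB a (2 * ‖B‖ * ‖u‖ * ‖v‖) (fun x => B (Hol.fn u x) (Hol.fn v x)) :=
  HB.bilin B (norm_nonneg _) (norm_nonneg _) (hb u) (hb v)

theorem cont_bl (B : E →L[ℝ] F →L[ℝ] H) (u : Hol a X E) (v : Hol a X F) :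
    Continuous (fun x => B (Hol.fn u x) (Hol.fn v x)) :=
  (B.continuous.comp (fn_continuous u)).clm_apply (fn_continuous v)

/-- bilinear products -/
def bl (B : E →L[ℝ] F →L[ℝ] H) : Hol a X E →L[ℝ] Hol a X F →L[ℝ] Hol a X H :=
  LinearMap.mkContinuous₂
    (LinearMap.mk₂ ℝ (fun u v => mkc (fun x => B (Hol.fn u x) (Hol.fn v x)) (cont_bl B u v) _
        (hb_bl B u v))
      (fun u u' v => by
        refine ext fun x => ?_
        simp only [fn_mkc, fn_add, map_add, _root_.add_apply])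
      (fun c u v => by
        refine ext fun x => ?_
        simp only [fn_mkc, fn_smul, map_smul, _root_.smul_apply])
      (fun u v v' => by
        refine ext fun x => ?_
        simp only [fn_mkc, fn_add, map_add])
      (fun c u v => by
        refine ext fun x => ?_
        simp only [fn_mkc, fn_smul, map_smul]))
    (2 * ‖B‖) (fun u v => norm_mkc_le (hb_bl B u v) (by positivity))

@[simp] theorem fn_bl (B : E →L[ℝ] F →L[ℝ] H) (u : Hol a X E) (v : Hol a X F) (x : X) :
    Hol.fn (bl B u v) x = B (Hol.fn u x) (Hol.fn v x) := rfl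

theorem norm_bl_le (B : E →L[ℝ] F →L[ℝ] H) (u : Hol a X E) (v : Hol a X F) :
    ‖bl B u v‖ ≤ 2 * ‖B‖ * ‖u‖ * ‖v‖ := norm_mkc_le (hb_bl B u v) (by positivity)

theorem hb_cl (T : E →L[ℝ] F) (u : Hol a X E) : HB a (‖T‖ * ‖u‖) (fun x => T (Hol.fn u x)) :=
  HB.clm T (hb u)

/-- post-composition with a continuous linear map, linear in both arguments -/
def clL : (E →L[ℝ] F) →L[ℝ] Hol a X E →L[ℝ] Hol a X F :=
  LinearMap.mkContinuous₂
    (LinearMap.mk₂ ℝ (fun (T : E →L[ℝ] F) (u : Hol a X E) =>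
        mkc (fun x => T (Hol.fn u x)) (T.continuous.comp (fn_continuous u)) _ (hb_cl T u))
      (fun T T' v => by
        refine ext fun x => ?_
        simp only [fn_mkc, fn_add, _root_.add_apply])
      (fun c T v => by
        refine ext fun x => ?_
        simp only [fn_mkc, fn_smul, _root_.smul_apply])
      (fun T v v' => by
        refine ext fun x => ?_
        simp only [fn_mkc, fn_add, map_add])
      (fun c T v => by
        refine ext fun x => ?_
        simp only [fn_mkc, fn_smul, map_smul]))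
    1 (fun T u => (norm_mkc_le (hb_cl T u) (by positivity)).trans (by simp))

/-- post-composition with a continuous linear map -/
abbrev cl (T : E →L[ℝ] F) : Hol a X E →L[ℝ] Hol a X F := clL T

@[simp] theorem fn_clL (T : E →L[ℝ] F) (u : Hol a X E) (x : X) :
    Hol.fn (clL T u) x = T (Hol.fn u x) := rfl

theorem norm_cl_apply_le (T : E →L[ℝ] F) (u : Hol a X E) : ‖cl T u‖ ≤ ‖T‖ * ‖u‖ :=
  norm_mkc_le (hb_cl T u) (by positivity)

theorem norm_cl_le (T : E →L[ℝ] F) : ‖(cl T : Hol a X E →L[ℝ] Hol a X F)‖ ≤ ‖T‖ :=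
  ContinuousLinearMap.opNorm_le_bound _ (norm_nonneg _) (norm_cl_apply_le T)

/-- constants -/
def cst (X : Type u) [MetricSpace X] : E →L[ℝ] Hol a X E :=
  LinearMap.mkContinuous
    { toFun := fun e => mkc (fun _ : X => e) continuous_const _ (HB.const e)
      map_add' := fun _ _ => ext fun _ => rfl
      map_smul' := fun _ _ => ext fun _ => rfl }
    1 (fun e => (norm_mkc_le (HB.const e) (norm_nonneg _)).trans (by simp))

@[simp] theorem fn_cst (e : E) (x : X) : Hol.fn (cst X e : Hol a X E) x = e := rfl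

theorem norm_cst_le (e : E) : ‖(cst X e : Hol a X E)‖ ≤ ‖e‖ :=
  norm_mkc_le (HB.const e) (norm_nonneg _)

theorem hb_pair (u : Hol a X E) (v : Hol a X F) :
    HB a (max ‖u‖ ‖v‖) (fun x => (Hol.fn u x, Hol.fn v x)) :=
  HB.prodMk (HB.mono (hb u) (le_max_left _ _)) (HB.mono (hb v) (le_max_right _ _))

/-- pairs -/
def pair : (Hol a X E × Hol a X F) →L[ℝ] Hol a X (E × F) :=
  LinearMap.mkContinuous
    { toFun := fun p => mkc (fun x => (Hol.fn p.1 x, Hol.fn p.2 x))
        ((fn_continuous p.1).prodMk (fn_continuous p.2)) _ (hb_pair p.1 p.2)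
      map_add' := fun _ _ => ext fun _ => rfl
      map_smul' := fun _ _ => ext fun _ => rfl }
    1 (fun p => (norm_mkc_le (hb_pair p.1 p.2) (by positivity)).trans (by
      rw [one_mul]; exact le_of_eq (Prod.norm_def p).symm))

@[simp] theorem fn_pair (p : Hol a X E × Hol a X F) (x : X) :
    Hol.fn (pair p) x = (Hol.fn p.1 x, Hol.fn p.2 x) := rfl

theorem norm_pair_le (p : Hol a X E × Hol a X F) : ‖pair p‖ ≤ ‖p‖ :=
  (norm_mkc_le (hb_pair p.1 p.2) (by positivity)).trans (le_of_eq (Prod.norm_def p).symm)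

/-- pull back along a Lipschitz map (`0 ≤ a`) -/
def rst {Y : Type z} [MetricSpace Y] (ha : 0 ≤ a) {L : ℝ} (hL : 0 ≤ L) {φ : Y → X}
    (hφ : ∀ y y', dist (φ y) (φ y') ≤ L * dist y y') : Hol a X E →L[ℝ] Hol a Y E :=
  LinearMap.mkContinuous
    { toFun := fun u => mkc (fun y => Hol.fn u (φ y))
        ((fn_continuous u).comp (LipschitzWith.of_dist_le_mul (K := ⟨L, hL⟩) hφ).continuous) _
        (HB.comp_lip ha hL (norm_nonneg _) hφ (hb u))
      map_add' := fun _ _ => ext fun _ => rfl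
      map_smul' := fun _ _ => ext fun _ => rfl }
    (max 1 (L ^ a)) (fun u => norm_mkc_le (HB.comp_lip ha hL (norm_nonneg _) hφ (hb u))
      (by positivity))

@[simp] theorem fn_rst {Y : Type z} [MetricSpace Y] (ha : 0 ≤ a) {L : ℝ} (hL : 0 ≤ L)
    {φ : Y → X} (hφ : ∀ y y', dist (φ y) (φ y') ≤ L * dist y y') (u : Hol a X E) (y : Y) :
    Hol.fn (rst ha hL hφ u) y = Hol.fn u (φ y) := rfl

/-! ### the opaque type `HS a X E` -/

/-- THE BANACH SPACE of bounded `a`-Hölder maps `X → E` (opaque type) -/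
def HS (a : ℝ) (X : Type u) (E : Type v) [MetricSpace X] [NormedAddCommGroup E]
    [NormedSpace ℝ E] : Type (max u v) := ↥(Hol a X E)

instance HS.instNACG : NormedAddCommGroup (HS a X E) :=
  inferInstanceAs (NormedAddCommGroup ↥(Hol a X E))

instance HS.instNS : NormedSpace ℝ (HS a X E) := inferInstanceAs (NormedSpace ℝ ↥(Hol a X E))

instance HS.instCompleteSpace [CompleteSpace E] : CompleteSpace (HS a X E) :=
  (isClosed_Hol (a := a) (X := X) (E := E)).completeSpace_coe

namespace HS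

/-- the identification with the submodule `Hol a X E` -/
def toHol : HS a X E ≃ₗᵢ[ℝ] Hol a X E := LinearIsometryEquiv.refl ℝ _

/-- the underlying function -/
def fn (u : HS a X E) : X → E := fun x => u.1.1 x

@[simp] theorem fn_add (u v : HS a X E) (x : X) : (u + v).fn x = u.fn x + v.fn x := rfl
@[simp] theorem fn_sub (u v : HS a X E) (x : X) : (u - v).fn x = u.fn x - v.fn x := rfl
@[simp] theorem fn_neg (u : HS a X E) (x : X) : (-u).fn x = -(u.fn x) := rfl
@[simp] theorem fn_zero (x : X) : (0 : HS a X E).fn x = 0 := rfl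
@[simp] theorem fn_smul (c : ℝ) (u : HS a X E) (x : X) : (c • u).fn x = c • u.fn x := rfl

theorem quot_eq (u : HS a X E) (p : PR X) :
    (dist p.1.1 p.1.2 ^ a) • u.1.2 p = u.fn p.1.1 - u.fn p.1.2 := u.2 p

protected theorem ext {u v : HS a X E} (h : ∀ x, u.fn x = v.fn x) : u = v := by
  apply Subtype.ext
  refine Prod.ext (BoundedContinuousFunction.ext h) (BoundedContinuousFunction.ext fun p => ?_)
  have hp : 0 < dist p.1.1 p.1.2 ^ a := Real.rpow_pos_of_pos (dist_pos.2 p.2) a
  have h1 := quot_eq u p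
  have h2 := quot_eq v p
  rw [h, h, ← h2] at h1
  exact smul_right_injective E hp.ne' h1

theorem fn_injective : Function.Injective (fn : HS a X E → X → E) := fun _ _ h =>
  HS.ext fun x => congrFun h x

protected theorem continuous (u : HS a X E) : Continuous u.fn := u.1.1.continuous

theorem hb (u : HS a X E) : HB a ‖u‖ u.fn := by
  refine ⟨fun x => (u.1.1.norm_coe_le_norm x).trans (norm_fst_le u.1), fun x y => ?_⟩
  have h5 := rpow_dist_nonneg (a := a) x y
  by_cases hxy : x = y
  · subst hxy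
    rw [sub_self, norm_zero]
    exact mul_nonneg (norm_nonneg _) h5
  · have h3 := quot_eq u ⟨(x, y), hxy⟩
    have h4 : ‖u.1.2 ⟨(x, y), hxy⟩‖ ≤ ‖u‖ := (u.1.2.norm_coe_le_norm _).trans (norm_snd_le u.1)
    rw [← h3, norm_smul, Real.norm_of_nonneg h5, mul_comm]
    exact mul_le_mul_of_nonneg_right h4 h5

theorem norm_fn_le (u : HS a X E) (x : X) : ‖u.fn x‖ ≤ ‖u‖ := (hb u).bdd x

theorem norm_fn_sub_le (u : HS a X E) (x y : X) :
    ‖u.fn x - u.fn y‖ ≤ ‖u‖ * dist x y ^ a := (hb u).hol x y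

protected theorem norm_le {u : HS a X E} {M : ℝ} (hM : 0 ≤ M) (h : HB a M u.fn) : ‖u‖ ≤ M := by
  refine max_le ((BoundedContinuousFunction.norm_le hM).2 h.bdd)
    ((BoundedContinuousFunction.norm_le hM).2 fun p => ?_)
  have hp : 0 < dist p.1.1 p.1.2 ^ a := Real.rpow_pos_of_pos (dist_pos.2 p.2) a
  have h3 := h.hol p.1.1 p.1.2
  rw [← quot_eq u p, norm_smul, Real.norm_of_nonneg hp.le, mul_comm] at h3
  exact le_of_mul_le_mul_right h3 hp

protected theorem norm_le' [Nonempty X] {u : HS a X E} {M : ℝ} (h : HB a M u.fn) : ‖u‖ ≤ M :=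
  HS.norm_le (HB.nonneg h) h

protected theorem norm_le_iff {u : HS a X E} {M : ℝ} (hM : 0 ≤ M) : ‖u‖ ≤ M ↔ HB a M u.fn :=
  ⟨fun h => HB.mono (hb u) h, HS.norm_le hM⟩

/-- constructor, no hypothesis on `a` -/
def mkc (f : X → E) (hf : Continuous f) (M : ℝ) (h : HB a M f) : HS a X E :=
  ⟨(BoundedContinuousFunction.ofNormedAddCommGroup f hf M h.bdd,
    BoundedContinuousFunction.ofNormedAddCommGroup
      (fun p : PR X => (dist p.1.1 p.1.2 ^ a)⁻¹ • (f p.1.1 - f p.1.2))
      (by
        have h1 : Continuous fun p : PR X => dist p.1.1 p.1.2 ^ a :=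
          ((continuous_fst.comp continuous_subtype_val).dist
            (continuous_snd.comp continuous_subtype_val)).rpow_const
              fun p => Or.inl (dist_pos.2 p.2).ne'
        refine (h1.inv₀ fun p => (Real.rpow_pos_of_pos (dist_pos.2 p.2) a).ne').smul ?_
        exact (hf.comp (continuous_fst.comp continuous_subtype_val)).sub
          (hf.comp (continuous_snd.comp continuous_subtype_val)))
      M (fun p => by
        have hp : 0 < dist p.1.1 p.1.2 ^ a := Real.rpow_pos_of_pos (dist_pos.2 p.2) a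
        rw [norm_smul, norm_inv, Real.norm_of_nonneg hp.le, inv_mul_le_iff₀ hp, mul_comm]
        exact h.hol _ _)), by
    intro p
    have hp : 0 < dist p.1.1 p.1.2 ^ a := Real.rpow_pos_of_pos (dist_pos.2 p.2) a
    show (dist p.1.1 p.1.2 ^ a) • ((dist p.1.1 p.1.2 ^ a)⁻¹ • (f p.1.1 - f p.1.2)) =
      f p.1.1 - f p.1.2
    rw [smul_smul, mul_inv_cancel₀ hp.ne', one_smul]⟩

@[simp] theorem fn_mkc (f : X → E) (hf : Continuous f) (M : ℝ) (h : HB a M f) :
    (mkc f hf M h).fn = f := rfl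

theorem norm_mkc_le {f : X → E} {hf : Continuous f} {M : ℝ} (h : HB a M f) (hM : 0 ≤ M) :
    ‖mkc f hf M h‖ ≤ M := HS.norm_le hM h

/-- constructor, `0 < a` -/
def mk (ha : 0 < a) (f : X → E) (M : ℝ) (h : HB a M f) : HS a X E :=
  mkc f (HB.continuous ha h) M h

@[simp] theorem fn_mk (ha : 0 < a) (f : X → E) (M : ℝ) (h : HB a M f) :
    (mk ha f M h).fn = f := rfl

theorem norm_mk_le (ha : 0 < a) {f : X → E} {M : ℝ} (h : HB a M f) (hM : 0 ≤ M) :
    ‖mk ha f M h‖ ≤ M := HS.norm_le hM h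

/-! ### continuous linear operations -/

/-- evaluation -/
def ev (x : X) : HS a X E →L[ℝ] E :=
  LinearMap.mkContinuous
    { toFun := fun u => u.fn x
      map_add' := fun _ _ => rfl
      map_smul' := fun _ _ => rfl }
    1 (fun u => by rw [one_mul]; exact norm_fn_le u x)

@[simp] theorem ev_apply (x : X) (u : HS a X E) : ev x u = u.fn x := rfl

/-- the underlying bounded continuous function -/
def toB : HS a X E →L[ℝ] (X →ᵇ E) :=
  LinearMap.mkContinuous
    { toFun := fun u => u.1.1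
      map_add' := fun _ _ => rfl
      map_smul' := fun _ _ => rfl }
    1 (fun u => by rw [one_mul]; exact norm_fst_le u.1)

@[simp] theorem toB_apply (u : HS a X E) (x : X) : toB u x = u.fn x := rfl

theorem coe_toB (u : HS a X E) : ⇑(toB u) = u.fn := rfl

theorem hb_bl (B : E →L[ℝ] F →L[ℝ] H) (u : HS a X E) (v : HS a X F) :
    HB a (2 * ‖B‖ * ‖u‖ * ‖v‖) (fun x => B (u.fn x) (v.fn x)) :=
  HB.bilin B (norm_nonneg _) (norm_nonneg _) (hb u) (hb v)

theorem cont_bl (B : E →L[ℝ] F →L[ℝ] H) (u : HS a X E) (v : HS a X F) :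
    Continuous (fun x => B (u.fn x) (v.fn x)) :=
  (B.continuous.comp u.continuous).clm_apply v.continuous

/-- bilinear products -/
def bl (B : E →L[ℝ] F →L[ℝ] H) : HS a X E →L[ℝ] HS a X F →L[ℝ] HS a X H :=
  LinearMap.mkContinuous₂
    (LinearMap.mk₂ ℝ (fun (u : HS a X E) (v : HS a X F) =>
        mkc (fun x => B (u.fn x) (v.fn x)) (cont_bl B u v) _ (hb_bl B u v))
      (fun u u' v => by
        refine HS.ext fun x => ?_
        simp only [fn_mkc, fn_add, map_add, _root_.add_apply])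
      (fun c u v => by
        refine HS.ext fun x => ?_
        simp only [fn_mkc, fn_smul, map_smul, _root_.smul_apply])
      (fun u v v' => by
        refine HS.ext fun x => ?_
        simp only [fn_mkc, fn_add, map_add])
      (fun c u v => by
        refine HS.ext fun x => ?_
        simp only [fn_mkc, fn_smul, map_smul]))
    (2 * ‖B‖) (fun u v => norm_mkc_le (hb_bl B u v) (by positivity))

@[simp] theorem fn_bl (B : E →L[ℝ] F →L[ℝ] H) (u : HS a X E) (v : HS a X F) (x : X) :
    (bl B u v).fn x = B (u.fn x) (v.fn x) := rfl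

theorem norm_bl_le (B : E →L[ℝ] F →L[ℝ] H) (u : HS a X E) (v : HS a X F) :
    ‖bl B u v‖ ≤ 2 * ‖B‖ * ‖u‖ * ‖v‖ := norm_mkc_le (hb_bl B u v) (by positivity)

theorem hb_cl (T : E →L[ℝ] F) (u : HS a X E) : HB a (‖T‖ * ‖u‖) (fun x => T (u.fn x)) :=
  HB.clm T (hb u)

/-- post-composition with a continuous linear map, linear in both arguments -/
def clL : (E →L[ℝ] F) →L[ℝ] HS a X E →L[ℝ] HS a X F :=
  LinearMap.mkContinuous₂
    (LinearMap.mk₂ ℝ (fun (T : E →L[ℝ] F) (u : HS a X E) =>
        mkc (fun x => T (u.fn x)) (T.continuous.comp u.continuous) _ (hb_cl T u))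
      (fun T T' v => by
        refine HS.ext fun x => ?_
        simp only [fn_mkc, fn_add, _root_.add_apply])
      (fun c T v => by
        refine HS.ext fun x => ?_
        simp only [fn_mkc, fn_smul, _root_.smul_apply])
      (fun T v v' => by
        refine HS.ext fun x => ?_
        simp only [fn_mkc, fn_add, map_add])
      (fun c T v => by
        refine HS.ext fun x => ?_
        simp only [fn_mkc, fn_smul, map_smul]))
    1 (fun T u => (norm_mkc_le (hb_cl T u) (by positivity)).trans (by simp))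

/-- post-composition with a continuous linear map -/
abbrev cl (T : E →L[ℝ] F) : HS a X E →L[ℝ] HS a X F := clL T

@[simp] theorem fn_clL (T : E →L[ℝ] F) (u : HS a X E) (x : X) :
    (clL T u).fn x = T (u.fn x) := rfl

theorem norm_cl_apply_le (T : E →L[ℝ] F) (u : HS a X E) : ‖cl T u‖ ≤ ‖T‖ * ‖u‖ :=
  norm_mkc_le (hb_cl T u) (by positivity)

theorem norm_cl_le (T : E →L[ℝ] F) : ‖(cl T : HS a X E →L[ℝ] HS a X F)‖ ≤ ‖T‖ :=
  ContinuousLinearMap.opNorm_le_bound _ (norm_nonneg _) (norm_cl_apply_le T)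

/-- constants -/
def cst (X : Type u) [MetricSpace X] : E →L[ℝ] HS a X E :=
  LinearMap.mkContinuous
    { toFun := fun e => mkc (fun _ : X => e) continuous_const _ (HB.const e)
      map_add' := fun _ _ => HS.ext fun _ => rfl
      map_smul' := fun _ _ => HS.ext fun _ => rfl }
    1 (fun e => (norm_mkc_le (HB.const e) (norm_nonneg _)).trans (by simp))

@[simp] theorem fn_cst (e : E) (x : X) : (cst X e : HS a X E).fn x = e := rfl

theorem norm_cst_le (e : E) : ‖(cst X e : HS a X E)‖ ≤ ‖e‖ :=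
  norm_mkc_le (HB.const e) (norm_nonneg _)

theorem hb_pair (u : HS a X E) (v : HS a X F) :
    HB a (max ‖u‖ ‖v‖) (fun x => (u.fn x, v.fn x)) :=
  HB.prodMk (HB.mono (hb u) (le_max_left _ _)) (HB.mono (hb v) (le_max_right _ _))

/-- pairs -/
def pair : (HS a X E × HS a X F) →L[ℝ] HS a X (E × F) :=
  LinearMap.mkContinuous
    { toFun := fun p => mkc (fun x => (p.1.fn x, p.2.fn x))
        (p.1.continuous.prodMk p.2.continuous) _ (hb_pair p.1 p.2)
      map_add' := fun _ _ => HS.ext fun _ => rfl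
      map_smul' := fun _ _ => HS.ext fun _ => rfl }
    1 (fun p => (norm_mkc_le (hb_pair p.1 p.2) (by positivity)).trans (by
      rw [one_mul]; exact le_of_eq (Prod.norm_def p).symm))

@[simp] theorem fn_pair (p : HS a X E × HS a X F) (x : X) :
    (pair p).fn x = (p.1.fn x, p.2.fn x) := rfl

theorem norm_pair_le (p : HS a X E × HS a X F) : ‖pair p‖ ≤ ‖p‖ :=
  (norm_mkc_le (hb_pair p.1 p.2) (by positivity)).trans (le_of_eq (Prod.norm_def p).symm)

/-- pull back along a Lipschitz map (`0 ≤ a`) -/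
def rst {Y : Type z} [MetricSpace Y] (ha : 0 ≤ a) {L : ℝ} (hL : 0 ≤ L) {φ : Y → X}
    (hφ : ∀ y y', dist (φ y) (φ y') ≤ L * dist y y') : HS a X E →L[ℝ] HS a Y E :=
  LinearMap.mkContinuous
    { toFun := fun u => mkc (fun y => u.fn (φ y))
        (u.continuous.comp (LipschitzWith.of_dist_le_mul (K := ⟨L, hL⟩) hφ).continuous) _
        (HB.comp_lip ha hL (norm_nonneg _) hφ (hb u))
      map_add' := fun _ _ => HS.ext fun _ => rfl
      map_smul' := fun _ _ => HS.ext fun _ => rfl }
    (max 1 (L ^ a)) (fun u => norm_mkc_le (HB.comp_lip ha hL (norm_nonneg _) hφ (hb u))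
      (by positivity))

@[simp] theorem fn_rst {Y : Type z} [MetricSpace Y] (ha : 0 ≤ a) {L : ℝ} (hL : 0 ≤ L)
    {φ : Y → X} (hφ : ∀ y y', dist (φ y) (φ y') ≤ L * dist y y') (u : HS a X E) (y : Y) :
    (rst ha hL hφ u).fn y = u.fn (φ y) := rfl

end HS

end

end Crest.Agent.R235.NWHol_952
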