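import Crest.Agent.R235.NWIface_334
import Crest.Agent.R235.NWHol_952

/-!
Row 235, package REG, leaf REG-END (helper745), part 2: algebra of real-linear maps of `ℂ` and
germs at `0` of Hölder functions.
-/

set_option autoImplicit false

open Complex Metric Set Filter Topology
open scoped ContDiff ComplexConjugate

namespace Crest.Agent.R235.EndA_745

open Crest.Agent.R235.NWDefs_334

noncomputable section

/-! ### real-linear maps `ℂ → ℂ` -/

theorem apply_eq (L : ℂ →L[ℝ] ℂ) (v : ℂ) : L v = dl L * v + dbl L * conj v := by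
  have h : v = (v.re : ℝ) • (1 : ℂ) + (v.im : ℝ) • Complex.I := by
    simp [Complex.re_add_im]
  have h1 : L v = v.re • L 1 + v.im • L Complex.I := by
    conv_lhs => rw [h]
    rw [map_add, map_smul, map_smul]
  have h2 : conj v = (v.re : ℂ) - (v.im : ℂ) * Complex.I := by
    apply Complex.ext <;> simp
  rw [h1, h2]
  conv_rhs => rw [show v = (v.re : ℂ) + (v.im : ℂ) * Complex.I from (Complex.re_add_im v).symm]
  simp only [dl, dbl, smul_eq_mul, Complex.real_smul]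
  have hI : Complex.I * Complex.I = -1 := Complex.I_mul_I
  simp only [Complex.add_re, Complex.ofReal_re, Complex.mul_re, Complex.I_re, mul_zero,
    Complex.ofReal_im, Complex.I_im, mul_one, sub_self, add_zero, Complex.add_im, Complex.mul_im,
    zero_add]
  linear_combination ((v.im : ℂ) * L Complex.I) * hI

theorem clm_ext {L L' : ℂ →L[ℝ] ℂ} (h1 : dl L = dl L') (h2 : dbl L = dbl L') : L = L' := by
  ext v
  rw [apply_eq L, apply_eq L', h1, h2]

theorem dl_of_apply {L : ℂ →L[ℝ] ℂ} {p q : ℂ} (h : ∀ v, L v = p * v + q * conj v) :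
    dl L = p ∧ dbl L = q := by
  have hI : Complex.I * Complex.I = -1 := Complex.I_mul_I
  constructor
  · simp only [dl, h, smul_eq_mul, map_one, Complex.conj_I]
    linear_combination (-(1/2) * p + (1/2) * q) * hI
  · simp only [dbl, h, smul_eq_mul, map_one, Complex.conj_I]
    linear_combination ((1/2) * p - (1/2) * q) * hI

theorem dl_comp (A B : ℂ →L[ℝ] ℂ) : dl (A.comp B) = dl A * dl B + dbl A * conj (dbl B) ∧
    dbl (A.comp B) = dl A * dbl B + dbl A * conj (dl B) := by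
  apply dl_of_apply
  intro v
  rw [ContinuousLinearMap.comp_apply, apply_eq A, apply_eq B v]
  simp only [map_add, map_mul, Complex.conj_conj]
  ring

theorem dl_id : dl (ContinuousLinearMap.id ℝ ℂ) = 1 ∧ dbl (ContinuousLinearMap.id ℝ ℂ) = 0 := by
  apply dl_of_apply
  intro v; simp

theorem dl_add {E : Type*} [NormedAddCommGroup E] [NormedSpace ℂ E] (A B : ℂ →L[ℝ] E) :
    dl (A + B) = dl A + dl B ∧ dbl (A + B) = dbl A + dbl B := by
  constructor
  · simp only [dl, _root_.add_apply, smul_add, smul_sub]; abel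
  · simp only [dbl, _root_.add_apply, smul_add]; abel

theorem dl_sub {E : Type*} [NormedAddCommGroup E] [NormedSpace ℂ E] (A B : ℂ →L[ℝ] E) :
    dl (A - B) = dl A - dl B ∧ dbl (A - B) = dbl A - dbl B := by
  constructor
  · simp only [dl, _root_.sub_apply, smul_sub]; abel
  · simp only [dbl, _root_.sub_apply, smul_sub, smul_add]; abel

/-! ### Hölder germs at `0` -/

/-- `f` is `a`-Hölder near `0`. -/
def HG {F : Type*} [NormedAddCommGroup F] (a : ℝ) (f : ℂ → F) : Prop :=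
  ∃ r > 0, ∃ C ≥ 0, ∀ x ∈ ball (0 : ℂ) r, ∀ y ∈ ball (0 : ℂ) r, ‖f x - f y‖ ≤ C * dist x y ^ a

section HG

variable {F : Type*} [NormedAddCommGroup F] {a b : ℝ} {f g : ℂ → F}

theorem HG.congr (h : HG a f) (hfg : f =ᶠ[𝓝 0] g) : HG a g := by
  obtain ⟨r, hr, C, hC, H⟩ := h
  obtain ⟨r', hr', H'⟩ := Metric.eventually_nhds_iff_ball.1 hfg
  refine ⟨min r r', lt_min hr hr', C, hC, fun x hx y hy => ?_⟩
  have hx1 := ball_subset_ball (min_le_left r r') hx
  have hy1 := ball_subset_ball (min_le_left r r') hy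
  have hx2 := ball_subset_ball (min_le_right r r') hx
  have hy2 := ball_subset_ball (min_le_right r r') hy
  rw [← H' x hx2, ← H' y hy2]
  exact H x hx1 y hy1

theorem HG.mono (h : HG a f) (hb : 0 < b) (hba : b ≤ a) : HG b f := by
  obtain ⟨r, hr, C, hC, H⟩ := h
  refine ⟨min r (1/2), lt_min hr (by norm_num), C, hC, fun x hx y hy => ?_⟩
  refine (H x (ball_subset_ball (min_le_left _ _) hx) y
    (ball_subset_ball (min_le_left _ _) hy)).trans ?_
  refine mul_le_mul_of_nonneg_left ?_ hC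
  have hx2 := mem_ball.1 (ball_subset_ball (min_le_right _ _) hx)
  have hy2 := mem_ball.1 (ball_subset_ball (min_le_right _ _) hy)
  have hd : dist x y ≤ 1 := by
    calc dist x y ≤ dist x 0 + dist y 0 := dist_triangle_right _ _ _
      _ ≤ 1/2 + 1/2 := by gcongr
      _ = 1 := by norm_num
  rcases eq_or_lt_of_le (dist_nonneg (x := x) (y := y)) with h0 | h0
  · rw [← h0, Real.zero_rpow hb.ne', Real.zero_rpow (lt_of_lt_of_le hb hba).ne']
  · exact Real.rpow_le_rpow_of_exponent_ge h0 hd hba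

theorem HG.continuousOn (h : HG a f) (ha : 0 < a) : ∃ r > 0, ContinuousOn f (ball 0 r) := by
  obtain ⟨r, hr, C, hC, H⟩ := h
  refine ⟨r, hr, fun x hx => ?_⟩
  rw [Metric.continuousWithinAt_iff]
  intro ε hε
  have hlim : Tendsto (fun t : ℝ => C * t ^ a) (𝓝 0) (𝓝 0) := by
    have : ContinuousAt (fun t : ℝ => C * t ^ a) 0 :=
      continuousAt_const.mul (Real.continuousAt_rpow_const 0 a (Or.inr ha.le))
    have h2 := this.tendsto
    simp only [Real.zero_rpow ha.ne', mul_zero] at h2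
    exact h2
  obtain ⟨δ, hδ, hδ2⟩ := Metric.eventually_nhds_iff.1 (hlim.eventually (gt_mem_nhds hε))
  refine ⟨δ, hδ, fun y hy hd => ?_⟩
  rw [dist_eq_norm]
  refine (H y hy x hx).trans_lt (hδ2 ?_)
  rw [Real.dist_eq, sub_zero, abs_of_nonneg dist_nonneg]
  exact hd

theorem HG.bdd (h : HG a f) (ha : 0 < a) : ∃ r > 0, ∃ M ≥ 0, ∀ x ∈ ball (0 : ℂ) r, ‖f x‖ ≤ M := by
  obtain ⟨r, hr, C, hC, H⟩ := h
  refine ⟨r, hr, ‖f 0‖ + C * r ^ a, by positivity, fun x hx => ?_⟩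
  have h1 := H x hx 0 (mem_ball_self hr)
  have h2 : dist x 0 ^ a ≤ r ^ a := Real.rpow_le_rpow dist_nonneg (mem_ball.1 hx).le ha.le
  calc ‖f x‖ = ‖f 0 + (f x - f 0)‖ := by congr 1; abel
    _ ≤ ‖f 0‖ + ‖f x - f 0‖ := norm_add_le _ _
    _ ≤ ‖f 0‖ + C * r ^ a := by
        have := h1.trans (mul_le_mul_of_nonneg_left h2 hC)
        linarith

theorem HG.const (c : F) (a : ℝ) : HG a (fun _ => c) :=
  ⟨1, one_pos, 0, le_rfl, fun x _ y _ => by simp⟩

theorem HG.add (hf : HG a f) (hg : HG a g) : HG a (fun z => f z + g z) := by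
  obtain ⟨r, hr, C, hC, H⟩ := hf
  obtain ⟨r', hr', C', hC', H'⟩ := hg
  refine ⟨min r r', lt_min hr hr', C + C', by positivity, fun x hx y hy => ?_⟩
  have h1 := H x (ball_subset_ball (min_le_left _ _) hx) y (ball_subset_ball (min_le_left _ _) hy)
  have h2 := H' x (ball_subset_ball (min_le_right _ _) hx) y
    (ball_subset_ball (min_le_right _ _) hy)
  calc ‖f x + g x - (f y + g y)‖ = ‖(f x - f y) + (g x - g y)‖ := by congr 1; abel
    _ ≤ ‖f x - f y‖ + ‖g x - g y‖ := norm_add_le _ _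
    _ ≤ C * dist x y ^ a + C' * dist x y ^ a := add_le_add h1 h2
    _ = (C + C') * dist x y ^ a := by ring

theorem HG.neg (hf : HG a f) : HG a (fun z => - f z) := by
  obtain ⟨r, hr, C, hC, H⟩ := hf
  refine ⟨r, hr, C, hC, fun x hx y hy => ?_⟩
  have : -f x - -f y = -(f x - f y) := by abel
  rw [this, norm_neg]
  exact H x hx y hy

end HG

theorem HG.conj {a : ℝ} {f : ℂ → ℂ} (hf : HG a f) : HG a (fun z => conj (f z)) := by
  obtain ⟨r, hr, C, hC, H⟩ := hf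
  refine ⟨r, hr, C, hC, fun x hx y hy => ?_⟩
  rw [← map_sub, Complex.norm_conj]
  exact H x hx y hy

theorem HG.clm {F G : Type*} [NormedAddCommGroup F] [NormedSpace ℝ F] [NormedAddCommGroup G]
    [NormedSpace ℝ G] {a : ℝ} {f : ℂ → F} (T : F →L[ℝ] G) (hf : HG a f) :
    HG a (fun z => T (f z)) := by
  obtain ⟨r, hr, C, hC, H⟩ := hf
  refine ⟨r, hr, ‖T‖ * C, by positivity, fun x hx y hy => ?_⟩
  rw [← map_sub]
  calc ‖T (f x - f y)‖ ≤ ‖T‖ * ‖f x - f y‖ := T.le_opNorm _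
    _ ≤ ‖T‖ * (C * dist x y ^ a) := by gcongr; exact H x hx y hy
    _ = ‖T‖ * C * dist x y ^ a := by ring

theorem HG.mul {a : ℝ} (ha : 0 < a) {f g : ℂ → ℂ} (hf : HG a f) (hg : HG a g) :
    HG a (fun z => f z * g z) := by
  obtain ⟨r1, hr1, M, hM, HM⟩ := hf.bdd ha
  obtain ⟨r2, hr2, N, hN, HN⟩ := hg.bdd ha
  obtain ⟨r, hr, C, hC, H⟩ := hf
  obtain ⟨r', hr', C', hC', H'⟩ := hg
  refine ⟨min (min r r') (min r1 r2), lt_min (lt_min hr hr') (lt_min hr1 hr2), C * N + M * C',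
    by positivity, fun x hx y hy => ?_⟩
  have sub1 : ball (0 : ℂ) (min (min r r') (min r1 r2)) ⊆ ball 0 r :=
    ball_subset_ball ((min_le_left _ _).trans (min_le_left _ _))
  have sub2 : ball (0 : ℂ) (min (min r r') (min r1 r2)) ⊆ ball 0 r' :=
    ball_subset_ball ((min_le_left _ _).trans (min_le_right _ _))
  have sub3 : ball (0 : ℂ) (min (min r r') (min r1 r2)) ⊆ ball 0 r1 :=
    ball_subset_ball ((min_le_right _ _).trans (min_le_left _ _))
  have sub4 : ball (0 : ℂ) (min (min r r') (min r1 r2)) ⊆ ball 0 r2 :=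
    ball_subset_ball ((min_le_right _ _).trans (min_le_right _ _))
  calc ‖f x * g x - f y * g y‖ = ‖(f x - f y) * g x + f y * (g x - g y)‖ := by congr 1; ring
    _ ≤ ‖(f x - f y) * g x‖ + ‖f y * (g x - g y)‖ := norm_add_le _ _
    _ = ‖f x - f y‖ * ‖g x‖ + ‖f y‖ * ‖g x - g y‖ := by rw [norm_mul, norm_mul]
    _ ≤ (C * dist x y ^ a) * N + M * (C' * dist x y ^ a) := by
        gcongr
        · exact H x (sub1 hx) y (sub1 hy)
        · exact HN x (sub4 hx)
        · exact HM y (sub3 hy)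
        · exact H' x (sub2 hx) y (sub2 hy)
    _ = (C * N + M * C') * dist x y ^ a := by ring

theorem HG.pow {a : ℝ} (ha : 0 < a) {f : ℂ → ℂ} (hf : HG a f) (n : ℕ) :
    HG a (fun z => f z ^ n) := by
  induction n with
  | zero => simpa using HG.const (1 : ℂ) a
  | succ n ih => simpa [pow_succ] using HG.mul ha ih hf

theorem HG.inv {a : ℝ} (ha : 0 < a) {f : ℂ → ℂ} (hf : HG a f) (h0 : f 0 ≠ 0) :
    HG a (fun z => (f z)⁻¹) := by
  obtain ⟨r1, hr1, hc⟩ := hf.continuousOn ha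
  obtain ⟨r, hr, C, hC, H⟩ := hf
  have hcont : ContinuousAt f 0 := hc.continuousAt (ball_mem_nhds 0 hr1)
  have hpos : 0 < ‖f 0‖ := norm_pos_iff.2 h0
  have hev : ∀ᶠ z in 𝓝 (0 : ℂ), ‖f 0‖ / 2 < ‖f z‖ :=
    hcont.norm.eventually (lt_mem_nhds (by linarith))
  obtain ⟨r2, hr2, H2⟩ := Metric.eventually_nhds_iff_ball.1 hev
  refine ⟨min r r2, lt_min hr hr2, 4 * C / ‖f 0‖ ^ 2, by positivity, fun x hx y hy => ?_⟩
  have hx2 := H2 x (ball_subset_ball (min_le_right _ _) hx)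
  have hy2 := H2 y (ball_subset_ball (min_le_right _ _) hy)
  have hx0 : f x ≠ 0 := by
    intro h; rw [h, norm_zero] at hx2; linarith
  have hy0 : f y ≠ 0 := by
    intro h; rw [h, norm_zero] at hy2; linarith
  have hxy := H x (ball_subset_ball (min_le_left _ _) hx) y (ball_subset_ball (min_le_left _ _) hy)
  have he : (f x)⁻¹ - (f y)⁻¹ = (f y - f x) * ((f x)⁻¹ * (f y)⁻¹) := by
    field_simp
  rw [he, norm_mul, norm_mul, norm_inv, norm_inv, norm_sub_rev]
  have h3 : ‖f x‖⁻¹ ≤ 2 / ‖f 0‖ := by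
    rw [inv_le_comm₀ (by linarith) (by positivity)]
    rw [inv_div]; linarith
  have h4 : ‖f y‖⁻¹ ≤ 2 / ‖f 0‖ := by
    rw [inv_le_comm₀ (by linarith) (by positivity)]
    rw [inv_div]; linarith
  calc ‖f x - f y‖ * (‖f x‖⁻¹ * ‖f y‖⁻¹)
      ≤ (C * dist x y ^ a) * ((2 / ‖f 0‖) * (2 / ‖f 0‖)) := by gcongr
    _ = 4 * C / ‖f 0‖ ^ 2 * dist x y ^ a := by field_simp; ring

theorem HG.comp {F : Type*} [NormedAddCommGroup F] {a : ℝ} (ha : 0 < a) {f : ℂ → F} (hf : HG a f)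
    {k : ℂ → ℂ} (hk0 : k 0 = 0) {L ρ : ℝ} (hL : 0 ≤ L) (hρ : 0 < ρ)
    (hk : ∀ x ∈ ball (0 : ℂ) ρ, ∀ y ∈ ball (0 : ℂ) ρ, ‖k x - k y‖ ≤ L * dist x y) :
    HG a (fun z => f (k z)) := by
  obtain ⟨r, hr, C, hC, H⟩ := hf
  refine ⟨min ρ (r / (L + 1)), lt_min hρ (by positivity), C * L ^ a, by positivity,
    fun x hx y hy => ?_⟩
  have key : ∀ x ∈ ball (0 : ℂ) (min ρ (r / (L + 1))), k x ∈ ball (0 : ℂ) r := by
    intro x hx
    have h1 := hk x (ball_subset_ball (min_le_left _ _) hx) 0 (mem_ball_self hρ)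
    have h2 := mem_ball.1 (ball_subset_ball (min_le_right _ _) hx)
    rw [hk0, sub_zero] at h1
    rw [mem_ball_zero_iff]
    have h3 : L * dist x 0 ≤ L * (r / (L + 1)) := by gcongr
    have h4 : L * (r / (L + 1)) < r := by
      rw [mul_div_assoc', div_lt_iff₀ (by positivity)]
      nlinarith
    linarith
  refine (H _ (key x hx) _ (key y hy)).trans ?_
  rw [mul_assoc]
  refine mul_le_mul_of_nonneg_left ?_ hC
  rw [← Real.mul_rpow hL dist_nonneg]
  refine Real.rpow_le_rpow dist_nonneg ?_ ha.le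
  rw [dist_eq_norm]
  exact hk x (ball_subset_ball (min_le_left _ _) hx) y (ball_subset_ball (min_le_left _ _) hy)

theorem lip_of_contDiffAt {F : Type*} [NormedAddCommGroup F] [NormedSpace ℝ F] {f : ℂ → F}
    (hf : ContDiffAt ℝ 1 f 0) : ∃ ρ > 0, ∃ L ≥ (0 : ℝ), ∀ x ∈ ball (0 : ℂ) ρ,
      ∀ y ∈ ball (0 : ℂ) ρ, ‖f x - f y‖ ≤ L * dist x y := by
  obtain ⟨K, t, ht, hK⟩ := hf.exists_lipschitzOnWith
  obtain ⟨ρ, hρ, hsub⟩ := Metric.mem_nhds_iff.1 ht
  refine ⟨ρ, hρ, K, K.2, fun x hx y hy => ?_⟩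
  rw [← dist_eq_norm]
  exact hK.dist_le_mul x (hsub hx) y (hsub hy)

theorem HG.of_lip {F : Type*} [NormedAddCommGroup F] {a : ℝ} (ha : 0 < a) (ha1 : a ≤ 1)
    {f : ℂ → F} {ρ L : ℝ} (hρ : 0 < ρ) (hL : 0 ≤ L)
    (h : ∀ x ∈ ball (0 : ℂ) ρ, ∀ y ∈ ball (0 : ℂ) ρ, ‖f x - f y‖ ≤ L * dist x y) : HG a f := by
  have h1 : HG 1 f := ⟨ρ, hρ, L, hL, fun x hx y hy => by rw [Real.rpow_one]; exact h x hx y hy⟩
  exact h1.mono ha ha1

theorem HG.of_contDiffAt {F : Type*} [NormedAddCommGroup F] [NormedSpace ℝ F] {a : ℝ}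
    (ha : 0 < a) (ha1 : a ≤ 1) {f : ℂ → F} (hf : ContDiffAt ℝ 1 f 0) : HG a f := by
  obtain ⟨ρ, hρ, L, hL, h⟩ := lip_of_contDiffAt hf
  exact HG.of_lip ha ha1 hρ hL h

/-! ### cut-off -/

/-- Lipschitz cut-off -/
def cut (r : ℝ) (z : ℂ) : ℝ := max 0 (min 1 (2 - ‖z‖ / r))

theorem cut_nonneg (r : ℝ) (z : ℂ) : 0 ≤ cut r z := le_max_left _ _
theorem cut_le_one (r : ℝ) (z : ℂ) : cut r z ≤ 1 :=
  max_le zero_le_one (min_le_left _ _)

theorem cut_eq_one {r : ℝ} (hr : 0 < r) {z : ℂ} (hz : ‖z‖ ≤ r) : cut r z = 1 := by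
  have h : (1 : ℝ) ≤ 2 - ‖z‖ / r := by
    have : ‖z‖ / r ≤ 1 := (div_le_one hr).2 hz
    linarith
  rw [cut, min_eq_left h, max_eq_right zero_le_one]

theorem cut_eq_zero {r : ℝ} (hr : 0 < r) {z : ℂ} (hz : 2 * r ≤ ‖z‖) : cut r z = 0 := by
  have h : 2 - ‖z‖ / r ≤ 0 := by
    have : 2 ≤ ‖z‖ / r := by rw [le_div_iff₀ hr]; exact hz
    linarith
  rw [cut, max_eq_left (le_trans (min_le_right _ _) h)]

theorem cut_lip {r : ℝ} (hr : 0 < r) (x y : ℂ) : |cut r x - cut r y| ≤ dist x y / r := by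
  have h1 : |cut r x - cut r y| ≤ |(2 - ‖x‖ / r) - (2 - ‖y‖ / r)| := by
    unfold cut
    calc |max 0 (min 1 (2 - ‖x‖ / r)) - max 0 (min 1 (2 - ‖y‖ / r))|
        ≤ |min 1 (2 - ‖x‖ / r) - min 1 (2 - ‖y‖ / r)| := by
          exact abs_max_sub_max_le_abs' _ _ _
      _ ≤ |(2 - ‖x‖ / r) - (2 - ‖y‖ / r)| := by
          exact abs_min_sub_min_le' _ _ _
  refine h1.trans ?_
  have : (2 - ‖x‖ / r) - (2 - ‖y‖ / r) = (‖y‖ - ‖x‖) / r := by ring
  rw [this, abs_div, abs_of_pos hr]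
  gcongr
  rw [abs_sub_comm, dist_eq_norm]
  exact abs_norm_sub_norm_le x y
where
  abs_max_sub_max_le_abs' (c a b : ℝ) : |max c a - max c b| ≤ |a - b| := by
    rw [max_comm c a, max_comm c b]; exact abs_max_sub_max_le_abs a b c
  abs_min_sub_min_le' (c a b : ℝ) : |min c a - min c b| ≤ |a - b| := by
    have := abs_min_sub_min_le_max c a c b
    simpa using this

end

end Crest.Agent.R235.EndA_745
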