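import Crest.Agent.R235.EndB_745

/-!
Row 235, package REG, leaf REG-END (helper745), part 4: a continuous (Hölder) branch
`s ↦ (s ^ m, g s)` of a `J`-graph becomes `C¹` and `J`-holomorphic in a Beltrami coordinate.
-/

set_option autoImplicit false

open Complex Metric Set Filter Topology
open scoped ContDiff ComplexConjugate

namespace Crest.Agent.R235.EndC_745

open Crest.Agent.R235.NWDefs_334 Crest.Agent.R235.NWIface_334 Crest.Agent.R235.EndA_745
  Crest.Agent.R235.EndB_745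

noncomputable section

/-- the twist factor `(s̄ / s)^(m-1)` is bounded by `1`. -/
theorem norm_tw_le (s : ℂ) (n : ℕ) : ‖(conj s / s) ^ n‖ ≤ 1 := by
  rw [norm_pow]
  refine pow_le_one₀ (norm_nonneg _) ?_
  rw [norm_div, Complex.norm_conj]
  exact div_self_le_one _

theorem norm_pow_sub_le {x y : ℂ} (hx : ‖x‖ ≤ 1) (hy : ‖y‖ ≤ 1) (n : ℕ) :
    ‖x ^ n - y ^ n‖ ≤ n * ‖x - y‖ := by
  induction n with
  | zero => simp
  | succ n ih =>
    have e : x ^ (n + 1) - y ^ (n + 1) = (x ^ n - y ^ n) * x + y ^ n * (x - y) := by ring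
    rw [e]
    calc ‖(x ^ n - y ^ n) * x + y ^ n * (x - y)‖ ≤ ‖(x ^ n - y ^ n) * x‖ + ‖y ^ n * (x - y)‖ :=
          norm_add_le _ _
      _ = ‖x ^ n - y ^ n‖ * ‖x‖ + ‖y‖ ^ n * ‖x - y‖ := by rw [norm_mul, norm_mul, norm_pow]
      _ ≤ (n * ‖x - y‖) * 1 + 1 * ‖x - y‖ := by
          gcongr
          exact pow_le_one₀ (norm_nonneg _) hy
      _ = ((n + 1 : ℕ) : ℝ) * ‖x - y‖ := by push_cast; ring

theorem tw_sub_le {s s' : ℂ} (hs : s ≠ 0) (hs' : s' ≠ 0) :
    ‖conj s / s - conj s' / s'‖ ≤ 2 * (‖s - s'‖ / ‖s'‖) := by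
  have e : conj s / s - conj s' / s' = (conj s * (s' - s) + s * (conj s - conj s')) / (s * s') := by
    field_simp; ring
  rw [e, norm_div, norm_mul]
  have h1 : ‖conj s * (s' - s) + s * (conj s - conj s')‖ ≤ 2 * (‖s‖ * ‖s - s'‖) := by
    refine (norm_add_le _ _).trans ?_
    rw [norm_mul, norm_mul, Complex.norm_conj, ← map_sub, Complex.norm_conj, norm_sub_rev s' s]
    linarith
  have hp : 0 < ‖s‖ := norm_pos_iff.2 hs
  have hp' : 0 < ‖s'‖ := norm_pos_iff.2 hs'
  rw [div_le_iff₀ (by positivity)]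
  calc ‖conj s * (s' - s) + s * (conj s - conj s')‖ ≤ 2 * (‖s‖ * ‖s - s'‖) := h1
    _ = 2 * (‖s - s'‖ / ‖s'‖) * (‖s‖ * ‖s'‖) := by field_simp

/-- product of a Hölder germ vanishing at `0` with the twist factor. -/
theorem HG.tw {a : ℝ} (ha : 0 < a) (ha1 : a ≤ 1) {q : ℂ → ℂ} (hq : HG a q) (h0 : q 0 = 0)
    (n : ℕ) : HG a (fun s => q s * (conj s / s) ^ n) := by
  obtain ⟨r, hr, C, hC, H⟩ := hq
  refine ⟨r, hr, C + C * (2 * n + 2), by positivity, ?_⟩
  have main : ∀ x ∈ ball (0 : ℂ) r, ∀ y ∈ ball (0 : ℂ) r,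
      ‖q x * (conj x / x) ^ n - q y * (conj y / y) ^ n‖ ≤
        (C + C * (2 * n + 2)) * dist x y ^ a := by
    intro x hx y hy
    have e : q x * (conj x / x) ^ n - q y * (conj y / y) ^ n =
        (q x - q y) * (conj x / x) ^ n + q y * ((conj x / x) ^ n - (conj y / y) ^ n) := by ring
    rw [e]
    have h1 : ‖(q x - q y) * (conj x / x) ^ n‖ ≤ C * dist x y ^ a := by
      rw [norm_mul]
      calc ‖q x - q y‖ * ‖(conj x / x) ^ n‖ ≤ (C * dist x y ^ a) * 1 := by
            gcongr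
            · exact H x hx y hy
            · exact norm_tw_le x n
        _ = C * dist x y ^ a := mul_one _
    have h2 : ‖q y * ((conj x / x) ^ n - (conj y / y) ^ n)‖ ≤
        C * (2 * n + 2) * dist x y ^ a := by
      have hqy : ‖q y‖ ≤ C * ‖y‖ ^ a := by
        have := H y hy 0 (mem_ball_self hr)
        rwa [h0, sub_zero, dist_zero_right] at this
      rw [norm_mul]
      by_cases hy0 : y = 0
      · rw [hy0, h0, norm_zero, zero_mul]; positivity
      by_cases hx0 : x = 0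
      · have h3 : ‖(conj x / x) ^ n - (conj y / y) ^ n‖ ≤ 2 := by
          refine (norm_sub_le _ _).trans ?_
          linarith [norm_tw_le x n, norm_tw_le y n]
        have h4 : dist x y = ‖y‖ := by rw [hx0, dist_zero_left]
        rw [h4]
        calc ‖q y‖ * ‖(conj x / x) ^ n - (conj y / y) ^ n‖ ≤ (C * ‖y‖ ^ a) * 2 := by gcongr
          _ ≤ C * (2 * n + 2) * ‖y‖ ^ a := by
            have : (0:ℝ) ≤ C * ‖y‖ ^ a * n := by positivity
            nlinarith
      · have hpy : 0 < ‖y‖ := norm_pos_iff.2 hy0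
        set t := dist x y / ‖y‖ with ht
        have ht0 : 0 ≤ t := by positivity
        have h3 : ‖(conj x / x) ^ n - (conj y / y) ^ n‖ ≤ (2 * n + 2) * min 1 t := by
          rcases le_total 1 t with h1t | h1t
          · rw [min_eq_left h1t]
            have : ‖(conj x / x) ^ n - (conj y / y) ^ n‖ ≤ 2 := by
              refine (norm_sub_le _ _).trans ?_
              linarith [norm_tw_le x n, norm_tw_le y n]
            have hn : (0:ℝ) ≤ n := by positivity
            linarith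
          · rw [min_eq_right h1t]
            have hx1 : ‖conj x / x‖ ≤ 1 := by simpa using norm_tw_le x 1
            have hy1 : ‖conj y / y‖ ≤ 1 := by simpa using norm_tw_le y 1
            have h5 := norm_pow_sub_le hx1 hy1 n
            have h6 := tw_sub_le hx0 hy0
            rw [← dist_eq_norm x y, ← ht] at h6
            calc ‖(conj x / x) ^ n - (conj y / y) ^ n‖ ≤ n * ‖conj x / x - conj y / y‖ := h5
              _ ≤ n * (2 * t) := by gcongr
              _ ≤ (2 * n + 2) * t := by nlinarith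
        have h4 : min 1 t ≤ t ^ a := min_one_le_rpow ht0 ha ha1
        have h5 : ‖y‖ ^ a * t ^ a = dist x y ^ a := by
          rw [← Real.mul_rpow (norm_nonneg _) ht0, ht]
          congr 1
          field_simp
        calc ‖q y‖ * ‖(conj x / x) ^ n - (conj y / y) ^ n‖
            ≤ (C * ‖y‖ ^ a) * ((2 * n + 2) * t ^ a) := by
              gcongr
              exact h3.trans (by gcongr)
          _ = C * (2 * n + 2) * (‖y‖ ^ a * t ^ a) := by ring
          _ = C * (2 * n + 2) * dist x y ^ a := by rw [h5]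
    calc ‖(q x - q y) * (conj x / x) ^ n + q y * ((conj x / x) ^ n - (conj y / y) ^ n)‖
        ≤ _ := norm_add_le _ _
      _ ≤ C * dist x y ^ a + C * (2 * n + 2) * dist x y ^ a := add_le_add h1 h2
      _ = (C + C * (2 * n + 2)) * dist x y ^ a := by ring
  exact main

/-- composition of a Hölder germ with a `C¹` function. -/
theorem HG.postcomp {E F : Type*} [NormedAddCommGroup E] [NormedSpace ℝ E]
    [NormedAddCommGroup F] [NormedSpace ℝ F] {a : ℝ} (ha : 0 < a) {f : ℂ → E} (hf : HG a f)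
    {φ : E → F} (hφ : ContDiffAt ℝ 1 φ (f 0)) : HG a (fun z => φ (f z)) := by
  obtain ⟨K, t, ht, hK⟩ := hφ.exists_lipschitzOnWith
  obtain ⟨r1, hr1, hc⟩ := hf.continuousOn ha
  have hcont : ContinuousAt f 0 := hc.continuousAt (ball_mem_nhds 0 hr1)
  obtain ⟨r2, hr2, H2⟩ := Metric.eventually_nhds_iff_ball.1 (hcont.eventually ht)
  obtain ⟨r, hr, C, hC, H⟩ := hf
  refine ⟨min r r2, lt_min hr hr2, K * C, by positivity, fun x hx y hy => ?_⟩
  have h1 := hK.dist_le_mul (f x) (H2 x (ball_subset_ball (min_le_right _ _) hx)) (f y)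
    (H2 y (ball_subset_ball (min_le_right _ _) hy))
  rw [dist_eq_norm, dist_eq_norm] at h1
  calc ‖φ (f x) - φ (f y)‖ ≤ K * ‖f x - f y‖ := h1
    _ ≤ K * (C * dist x y ^ a) := by
        gcongr
        exact H x (ball_subset_ball (min_le_left _ _) hx) y
          (ball_subset_ball (min_le_left _ _) hy)
    _ = K * C * dist x y ^ a := by ring

theorem HG.prodMk {E F : Type*} [NormedAddCommGroup E] [NormedAddCommGroup F] {a : ℝ}
    {f : ℂ → E} {g : ℂ → F} (hf : HG a f) (hg : HG a g) : HG a (fun z => (f z, g z)) := by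
  obtain ⟨r, hr, C, hC, H⟩ := hf
  obtain ⟨r', hr', C', hC', H'⟩ := hg
  refine ⟨min r r', lt_min hr hr', max C C', le_max_of_le_left hC, fun x hx y hy => ?_⟩
  rw [Prod.mk_sub_mk, Prod.norm_mk]
  refine max_le ?_ ?_
  · refine (H x (ball_subset_ball (min_le_left _ _) hx) y
      (ball_subset_ball (min_le_left _ _) hy)).trans ?_
    gcongr
    exact le_max_left _ _
  · refine (H' x (ball_subset_ball (min_le_right _ _) hx) y
      (ball_subset_ball (min_le_right _ _) hy)).trans ?_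
    gcongr
    exact le_max_right _ _

/-- derivative of `z ↦ z ^ m` composed with a map. -/
theorem dz_pow {K : ℂ → ℂ} {t : ℂ} (hK : DifferentiableAt ℝ K t) (m : ℕ) :
    dz (fun t => K t ^ m) t = m * K t ^ (m - 1) * dz K t ∧
    dzb (fun t => K t ^ m) t = m * K t ^ (m - 1) * dzb K t := by
  have h : fderiv ℝ (fun t => K t ^ m) t = (m * K t ^ (m - 1)) • fderiv ℝ K t := by
    have := (hK.hasFDerivAt.pow m).fderiv
    rw [this]
    simp [nsmul_eq_mul]
  unfold dz dzb
  rw [h]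
  simp only [dl, dbl, ContinuousLinearMap.smul_apply, smul_eq_mul]
  constructor <;> ring

/-- **the branch theorem** -/
theorem branch (hBel : BelStmt) (hKP : KPStmt) {m : ℕ} (hm : 0 < m) {mu be : ℂ × ℂ → ℂ}
    (hmu : ContDiff ℝ 1 mu) (hbe : ContDiff ℝ 1 be) {g : ℂ → ℂ} {a : ℝ} (ha : 0 < a) (ha1 : a < 1)
    (hg : HG a g) (h0 : mu (0, g 0) = 0) {R : ℝ} (hR : 0 < R)
    (hsm : ∀ s ∈ ball (0 : ℂ) R, s ≠ 0 → DifferentiableAt ℝ g s)
    (hpde : ∀ s ∈ ball (0 : ℂ) R, s ≠ 0 → dzb g s =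
      mu (s ^ m, g s) * (conj s / s) ^ (m - 1) * dz g s -
        be (s ^ m, g s) * (m * conj s ^ (m - 1))) :
    ∃ (K : ℂ ≃ₜ ℂ), ContDiff ℝ 1 K ∧ ContDiff ℝ 1 K.symm ∧ K 0 = 0 ∧
      (∀ t, ‖t‖ / 2 ≤ ‖K t‖ ∧ ‖K t‖ ≤ 2 * ‖t‖) ∧
      (∀ t, ∃ e : ℂ ≃L[ℝ] ℂ, (e : ℂ →L[ℝ] ℂ) = fderiv ℝ K t) ∧ (∀ t, dz K t ≠ 0) ∧
      ∃ ρ > 0, ContDiffOn ℝ 1 (fun t => g (K t)) (ball 0 ρ) ∧
        (∀ t ∈ ball (0 : ℂ) ρ, dzb (fun t => K t ^ m) t =
          - mu (K t ^ m, g (K t)) * conj (dz (fun t => K t ^ m) t)) ∧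
        (∀ t ∈ ball (0 : ℂ) ρ, dzb (fun t => g (K t)) t =
          - be (K t ^ m, g (K t)) * conj (dz (fun t => K t ^ m) t)) := by
  -- the Beltrami coefficient
  set ν : ℂ → ℂ := fun s => mu (s ^ m, g s) * (conj s / s) ^ (m - 1) with hν
  have hpowC : ContDiff ℝ 1 (fun s : ℂ => s ^ m) := contDiff_id.pow m
  have hpow : HG a (fun s : ℂ => s ^ m) := HG.of_contDiffAt ha ha1.le hpowC.contDiffAt
  have hpair : HG a (fun s => (s ^ m, g s)) := HG.prodMk hpow hg
  have hq : HG a (fun s => mu (s ^ m, g s)) := HG.postcomp ha hpair hmu.contDiffAt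
  have h0' : mu ((0 : ℂ) ^ m, g 0) = 0 := by rw [zero_pow hm.ne']; exact h0
  have hνG : HG a ν := HG.tw ha ha1.le hq h0' (m - 1)
  have hν0 : ν 0 = 0 := by simp only [hν]; rw [h0', zero_mul]
  set b := a / 2 with hb
  have hb0 : 0 < b := by positivity
  obtain ⟨K, hKC, hKC', hK0, hKn, hKl, hKe, hKz, hKH, ρ1, hρ1, hKb⟩ :=
    bel_coord hBel hνG hν0 hb0 (by rw [hb]; linarith) (by rw [hb]; linarith)
  have hKd : Differentiable ℝ K := hKC.differentiable (by norm_num)
  refine ⟨K, hKC, hKC', hK0, hKn, hKe, hKz, ?_⟩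
  -- first equation
  have eq1 : ∀ t ∈ ball (0 : ℂ) ρ1, dzb (fun t => K t ^ m) t =
      - mu (K t ^ m, g (K t)) * conj (dz (fun t => K t ^ m) t) := by
    intro t ht
    rw [(dz_pow (hKd t) m).1, (dz_pow (hKd t) m).2, hKb t ht]
    simp only [hν, map_mul, map_pow, map_natCast]
    by_cases hKt : K t = 0
    · rw [hKt]
      rcases Nat.eq_zero_or_pos (m - 1) with h1 | h1
      · rw [h1]; ring
      · rw [zero_pow h1.ne', map_zero, zero_pow h1.ne']; ring
    · have : K t ^ (m - 1) * (conj (K t) / K t) ^ (m - 1) = conj (K t) ^ (m - 1) := by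
        rw [← mul_pow, mul_div_cancel₀ _ hKt]
      linear_combination (-(m : ℂ) * mu (K t ^ m, g (K t)) * conj (dz K t)) * this
  -- the right hand side of the second equation
  set F : ℂ → ℂ := fun t => - be (K t ^ m, g (K t)) * conj (dz (fun t => K t ^ m) t) with hF
  have hKlip : ∀ x ∈ ball (0 : ℂ) 1, ∀ y ∈ ball (0 : ℂ) 1, ‖K x - K y‖ ≤ 2 * dist x y :=
    fun x _ y _ => hKl x y
  have hgK : HG a (fun t => g (K t)) := HG.comp ha hg hK0 (by norm_num) one_pos hKlip
  have hgKb : HG b (fun t => g (K t)) := hgK.mono hb0 (by rw [hb]; linarith)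
  have hKm : HG b (fun t => K t ^ m) :=
    HG.of_contDiffAt hb0 (by rw [hb]; linarith) (hKC.pow m).contDiffAt
  have hbeG : HG b (fun t => be (K t ^ m, g (K t))) :=
    HG.postcomp hb0 (HG.prodMk hKm hgKb) hbe.contDiffAt
  have hFH : HG b F := by
    have h1 : HG b (fun t => dz (fun t => K t ^ m) t) := by
      have h2 : HG b (fun t => ((m : ℂ) * K t ^ (m - 1)) * dz K t) := by
        refine HG.mul hb0 (HG.mul hb0 (HG.const _ b) ?_) hKH
        exact HG.of_contDiffAt hb0 (by rw [hb]; linarith) (hKC.pow (m - 1)).contDiffAt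
      refine h2.congr (Eventually.of_forall fun t => ?_)
      simp only
      rw [(dz_pow (hKd t) m).1]
    exact HG.mul hb0 hbeG.neg h1.conj
  -- the equation off `0`
  have eq2 : ∀ t ∈ ball (0 : ℂ) (min ρ1 (R / 2)), t ≠ 0 →
      DifferentiableAt ℝ (fun t => g (K t)) t ∧ dzb (fun t => g (K t)) t = F t := by
    intro t ht ht0
    have ht1 := ball_subset_ball (min_le_left _ _) ht
    have ht2 := mem_ball_zero_iff.1 (ball_subset_ball (min_le_right _ _) ht)
    have hKt : K t ∈ ball (0 : ℂ) R := by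
      rw [mem_ball_zero_iff]
      have := (hKn t).2
      linarith
    have hKt0 : K t ≠ 0 := by
      intro h
      have := (hKn t).1
      rw [h, norm_zero] at this
      have : 0 < ‖t‖ := norm_pos_iff.2 ht0
      linarith
    have hgd := hsm (K t) hKt hKt0
    have hcomp : HasFDerivAt (fun t => g (K t)) ((fderiv ℝ g (K t)).comp (fderiv ℝ K t)) t :=
      hgd.hasFDerivAt.comp t (hKd t).hasFDerivAt
    refine ⟨hcomp.differentiableAt, ?_⟩
    have h1 : dzb (fun t => g (K t)) t = dz g (K t) * dzb K t + dzb g (K t) * conj (dz K t) := by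
      unfold dzb dz
      rw [hcomp.fderiv]
      exact (dl_comp _ _).2
    rw [h1, hpde _ hKt hKt0, hKb t ht1]
    simp only [hF, hν]
    rw [(dz_pow (hKd t) m).1]
    simp only [map_mul, map_pow, map_natCast]
    ring
  -- solve `∂̄ W = F`
  obtain ⟨Ft, M, R', hFt, hR', hFt0, r2, hr2, hFtF⟩ := HG.lift hFH hb0 (by rw [hb]; linarith)
  obtain ⟨C, -, hC⟩ := hKP b hb0 (by rw [hb]; linarith) R' hR'
  obtain ⟨hWC, hWb, -, -⟩ := hC Ft M hFt hFt0
  set W := R096.BelA_205.P Ft with hW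
  have hWd : Differentiable ℝ W := hWC.differentiable (by norm_num)
  obtain ⟨r3, hr3, hcont3⟩ := hgK.continuousOn ha
  set ρ := min (min ρ1 (R / 2)) (min r2 r3) with hρ
  have hρ0 : 0 < ρ := by positivity
  have sub1 : ball (0 : ℂ) ρ ⊆ ball 0 (min ρ1 (R / 2)) := ball_subset_ball (min_le_left _ _)
  have sub11 : ball (0 : ℂ) ρ ⊆ ball 0 ρ1 := sub1.trans (ball_subset_ball (min_le_left _ _))
  have sub2 : ball (0 : ℂ) ρ ⊆ ball 0 r2 :=
    ball_subset_ball ((min_le_right _ _).trans (min_le_left _ _))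
  have sub3 : ball (0 : ℂ) ρ ⊆ ball 0 r3 :=
    ball_subset_ball ((min_le_right _ _).trans (min_le_right _ _))
  -- the difference is holomorphic
  set h : ℂ → ℂ := fun t => g (K t) - W t with hh
  have hhol : ∀ t ∈ ball (0 : ℂ) ρ \ {0}, DifferentiableAt ℂ h t := by
    intro t ht
    obtain ⟨h1, h2⟩ := eq2 t (sub1 ht.1) ht.2
    have hd : DifferentiableAt ℝ h t := h1.sub (hWd t)
    have hz : dbl (fderiv ℝ h t) = 0 := by
      have e : fderiv ℝ h t = fderiv ℝ (fun t => g (K t)) t - fderiv ℝ W t :=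
        fderiv_sub h1 (hWd t)
      rw [e, (dl_sub _ _).2]
      have h3 : dbl (fderiv ℝ (fun t => g (K t)) t) = F t := h2
      have h4 : dbl (fderiv ℝ W t) = Ft t := hWb t
      rw [h3, h4, hFtF t (sub2 ht.1), sub_self]
    -- Cauchy-Riemann
    have hL : ∃ L : ℂ →L[ℂ] ℂ, (L.restrictScalars ℝ : ℂ →L[ℝ] ℂ) = fderiv ℝ h t := by
      refine ⟨ContinuousLinearMap.toSpanSingleton ℂ (dl (fderiv ℝ h t)), ?_⟩
      ext v
      rw [apply_eq (fderiv ℝ h t) v, hz, zero_mul, add_zero]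
      simp [mul_comm]
    obtain ⟨L, hL⟩ := hL
    have := hd.hasFDerivAt
    rw [← hL] at this
    exact (hasFDerivAt_of_restrictScalars ℝ this rfl).differentiableAt
  have hch : ContinuousAt h 0 :=
    (hcont3.continuousAt (ball_mem_nhds 0 hr3)).sub hWC.continuous.continuousAt
  have hdiff : DifferentiableOn ℂ h (ball 0 ρ) := by
    have h1 : DifferentiableOn ℂ h (ball 0 ρ \ {0}) := fun t ht => (hhol t ht).differentiableWithinAt
    exact (Complex.differentiableOn_compl_singleton_and_continuousAt_iff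
      (ball_mem_nhds 0 hρ0)).1 ⟨h1, hch⟩
  have hhC : ContDiffOn ℝ 1 h (ball 0 ρ) := by
    have h1 : ContDiffOn ℂ 1 h (ball 0 ρ) := hdiff.contDiffOn isOpen_ball
    exact h1.restrict_scalars ℝ
  have hgC : ContDiffOn ℝ 1 (fun t => g (K t)) (ball 0 ρ) := by
    have : (fun t => g (K t)) = fun t => h t + W t := by
      funext t; simp [hh]
    rw [this]
    exact hhC.add hWC.contDiffOn
  refine ⟨ρ, hρ0, hgC, fun t ht => eq1 t (sub11 ht), fun t ht => ?_⟩
  -- the second equation everywhere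
  have hdh : DifferentiableAt ℂ h t := hdiff.differentiableAt (isOpen_ball.mem_nhds ht)
  have e0 : (fun t => g (K t)) = fun t => h t + W t := by
    funext t; simp [hh]
  have e1 : fderiv ℝ (fun t => g (K t)) t = fderiv ℝ h t + fderiv ℝ W t := by
    rw [e0]
    exact fderiv_add (hdh.restrictScalars ℝ) (hWd t)
  have e2 : dbl (fderiv ℝ h t) = 0 := by
    have h1 : fderiv ℝ h t = (fderiv ℂ h t).restrictScalars ℝ :=
      hdh.fderiv_restrictScalars ℝ
    rw [h1]
    simp only [dbl, ContinuousLinearMap.coe_restrictScalars', smul_eq_mul]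
    have h2 : fderiv ℂ h t Complex.I = Complex.I * fderiv ℂ h t 1 := by
      have := (fderiv ℂ h t).map_smul Complex.I (1 : ℂ)
      simpa using this
    rw [h2]
    linear_combination (2⁻¹ * fderiv ℂ h t 1) * Complex.I_mul_I
  show dbl (fderiv ℝ (fun t => g (K t)) t) = F t
  rw [e1, (dl_add _ _).2, e2, zero_add]
  have h4 : dbl (fderiv ℝ W t) = Ft t := hWb t
  rw [h4, hFtF t (sub2 ht)]

end

end Crest.Agent.R235.EndC_745
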