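import Mathlib

/-!
Row 235, REG-END/E5 CHV (statement helper745, task 319): change of variables with multiplicity
for a local diffeomorphism with finite fibres in the plane.
-/

set_option autoImplicit false

open Set Function Filter MeasureTheory
open scoped Topology ENNReal

namespace Crest.Agent.R235.EndChv_57

noncomputable section

/-- local injectivity. -/
theorem exists_inj {φ : ℂ → ℂ} {O : Set ℂ} (hO : IsOpen O) (hφ : ContDiffOn ℝ 1 φ O)
    (hdet : ∀ t ∈ O, (fderiv ℝ φ t).det ≠ 0) {t : ℂ} (ht : t ∈ O) :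
    ∃ U : Set ℂ, IsOpen U ∧ t ∈ U ∧ U ⊆ O ∧ InjOn φ U := by
  have hc : ContDiffAt ℝ 1 φ t := hφ.contDiffAt (hO.mem_nhds ht)
  have hs : HasStrictFDerivAt φ (fderiv ℝ φ t) t := hc.hasStrictFDerivAt (by norm_num)
  have hs' : HasStrictFDerivAt φ
      (((fderiv ℝ φ t).toContinuousLinearEquivOfDetNeZero (hdet t ht) : ℂ ≃L[ℝ] ℂ) : ℂ →L[ℝ] ℂ) t := by
    rw [ContinuousLinearMap.coe_toContinuousLinearEquivOfDetNeZero]
    exact hs
  refine ⟨(hs'.toOpenPartialHomeomorph φ).source ∩ O,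
    (hs'.toOpenPartialHomeomorph φ).open_source.inter hO,
    ⟨hs'.mem_toOpenPartialHomeomorph_source, ht⟩, inter_subset_right, ?_⟩
  intro x hx y hy hxy
  exact (hs'.toOpenPartialHomeomorph φ).injOn hx.1 hy.1
    (by rw [HasStrictFDerivAt.toOpenPartialHomeomorph_coe]; exact hxy)

/-- a countable measurable partition into pieces of injectivity. -/
theorem exists_partition {φ : ℂ → ℂ} {O : Set ℂ} (hO : IsOpen O) (hφ : ContDiffOn ℝ 1 φ O)
    (hdet : ∀ t ∈ O, (fderiv ℝ φ t).det ≠ 0) :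
    ∃ P : ℕ → Set ℂ, (∀ n, MeasurableSet (P n)) ∧ (∀ n, P n ⊆ O) ∧ (⋃ n, P n) = O ∧
      Pairwise (Disjoint on P) ∧ ∀ n, InjOn φ (P n) := by
  rcases O.eq_empty_or_nonempty with h0 | hne
  · refine ⟨fun _ => ∅, fun _ => MeasurableSet.empty, fun _ => empty_subset _, ?_, ?_, ?_⟩
    · rw [h0]; simp
    · intro i j _
      simp [Function.onFun]
    · intro n; simp
  choose! f hfo hft hfO hfi using fun t (ht : t ∈ O) => exists_inj hO hφ hdet ht
  obtain ⟨T, hTO, hTc, hcov⟩ := TopologicalSpace.countable_cover_nhdsWithin (f := f) (s := O)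
    (fun x hx => mem_nhdsWithin_of_mem_nhds ((hfo x hx).mem_nhds (hft x hx)))
  have hTne : T.Nonempty := by
    obtain ⟨x, hx⟩ := hne
    obtain ⟨y, hy, _⟩ := mem_iUnion₂.1 (hcov hx)
    exact ⟨y, hy⟩
  obtain ⟨g, hg⟩ := hTc.exists_eq_range hTne
  have hgO : ∀ n, g n ∈ O := fun n => hTO (hg ▸ mem_range_self n)
  refine ⟨disjointed (fun n => f (g n)), fun n => ?_, fun n => ?_, ?_, ?_, fun n => ?_⟩
  · exact MeasurableSet.disjointed (fun k => (hfo _ (hgO k)).measurableSet) n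
  · exact (disjointed_subset _ n).trans (hfO _ (hgO n))
  · rw [iUnion_disjointed]
    apply Subset.antisymm
    · exact iUnion_subset fun n => hfO _ (hgO n)
    · intro x hx
      obtain ⟨y, hy, hxy⟩ := mem_iUnion₂.1 (hcov hx)
      rw [hg] at hy
      obtain ⟨n, rfl⟩ := hy
      exact mem_iUnion.2 ⟨n, hxy⟩
  · exact disjoint_disjointed _
  · exact (hfi _ (hgO n)).mono (disjointed_subset _ n)

/-- the function of one sheet. -/
def sh (φ : ℂ → ℂ) (P : Set ℂ) (F : ℂ → ℝ) : ℂ → ℝ :=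
  (φ '' P).indicator fun z => F (invFunOn φ P z)

theorem sh_apply {φ : ℂ → ℂ} {P : Set ℂ} {F : ℂ → ℝ} (hi : InjOn φ P) {t : ℂ} (ht : t ∈ P) :
    sh φ P F (φ t) = F t := by
  rw [sh, indicator_of_mem (mem_image_of_mem φ ht), hi.leftInvOn_invFunOn ht]

/-- pointwise identity: fibre sum = sum over the sheets. -/
theorem fibre_sum {φ : ℂ → ℂ} {O : Set ℂ} {P : ℕ → Set ℂ} (hU : (⋃ n, P n) = O)
    (hd : Pairwise (Disjoint on P)) (hi : ∀ n, InjOn φ (P n)) (F : ℂ → ℝ) (z : ℂ)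
    (hfin : (O ∩ φ ⁻¹' {z}).Finite) :
    HasSum (fun n => sh φ (P n) F z) (∑ᶠ t ∈ O ∩ φ ⁻¹' {z}, F t) := by
  classical
  have hex : ∀ t ∈ O, ∃ n, t ∈ P n := fun t ht => by
    rw [← hU] at ht; exact mem_iUnion.1 ht
  choose! ix hix using hex
  have hinj : InjOn ix (O ∩ φ ⁻¹' {z}) := by
    intro s hs t ht hst
    have h1 := hix s hs.1
    have h2 := hix t ht.1
    rw [← hst] at h2
    exact hi _ h1 h2 (by rw [(hs.2 : φ s = z), (ht.2 : φ t = z)])
  have himg : ∀ n, n ∈ ix '' (O ∩ φ ⁻¹' {z}) ↔ z ∈ φ '' P n := by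
    intro n
    constructor
    · rintro ⟨t, ht, rfl⟩
      exact ⟨t, hix t ht.1, ht.2⟩
    · rintro ⟨t, ht, rfl⟩
      have htO : t ∈ O := hU ▸ mem_iUnion.2 ⟨n, ht⟩
      refine ⟨t, ⟨htO, rfl⟩, ?_⟩
      by_contra hne
      exact (hd hne).le_bot ⟨hix t htO, ht⟩
  have hval : ∀ t ∈ O ∩ φ ⁻¹' {z}, sh φ (P (ix t)) F z = F t := by
    intro t ht
    have := sh_apply (F := F) (hi (ix t)) (hix t ht.1)
    rw [(ht.2 : φ t = z)] at this
    exact this
  have h1 : ∑ᶠ t ∈ O ∩ φ ⁻¹' {z}, F t = ∑ᶠ n ∈ ix '' (O ∩ φ ⁻¹' {z}), sh φ (P n) F z := by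
    rw [finsum_mem_image hinj]
    exact finsum_mem_congr rfl fun t ht => (hval t ht).symm
  rw [h1, finsum_mem_eq_finite_toFinset_sum _ (hfin.image ix)]
  apply hasSum_sum_of_ne_finset_zero
  intro n hn
  rw [Set.Finite.mem_toFinset, himg] at hn
  exact indicator_of_notMem hn _

theorem integrable_hasSum {ι : Type*} [Countable ι] {f : ι → ℂ → ℝ}
    (hf : ∀ n, Integrable (f n)) (hs : Summable fun n => ∫ z, ‖f n z‖) :
    Integrable fun z => ∑' n, f n z := by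
  refine ⟨?_, ?_⟩
  · exact (AEMeasurable.tsum fun n => (hf n).1.aemeasurable).aestronglyMeasurable
  · rw [hasFiniteIntegral_iff_enorm]
    have h1 : ∀ z, ‖∑' n, f n z‖ₑ ≤ ∑' n, ‖f n z‖ₑ := fun z => enorm_tsum_le_tsum_enorm
    refine (lintegral_mono h1).trans_lt ?_
    rw [lintegral_tsum fun n => (hf n).1.enorm]
    have this (n : ι) : ∫⁻ a, ‖f n a‖ₑ = ENNReal.ofReal (∫ a, ‖f n a‖) :=
      (ofReal_integral_norm_eq_lintegral_enorm (hf n)).symm
    rw [funext this]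
    exact hs.tsum_ofReal_lt_top

theorem chv {φ : ℂ → ℂ} {O : Set ℂ} (hO : IsOpen O) (hφ : ContDiffOn ℝ 1 φ O)
    (hdet : ∀ t ∈ O, (fderiv ℝ φ t).det ≠ 0) (hfin : ∀ z, (O ∩ φ ⁻¹' {z}).Finite) (F : ℂ → ℝ)
    (hF : IntegrableOn (fun t => |(fderiv ℝ φ t).det| * F t) O) :
    Integrable (fun z => ∑ᶠ t ∈ O ∩ φ ⁻¹' {z}, F t) ∧
      ∫ z, ∑ᶠ t ∈ O ∩ φ ⁻¹' {z}, F t = ∫ t in O, |(fderiv ℝ φ t).det| * F t := by
  obtain ⟨P, hPm, hPO, hPU, hPd, hPi⟩ := exists_partition hO hφ hdet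
  have hder : ∀ n, ∀ x ∈ P n, HasFDerivWithinAt φ (fderiv ℝ φ x) (P n) x := fun n x hx =>
    ((hφ.contDiffAt (hO.mem_nhds (hPO n hx))).differentiableAt (by norm_num)).hasFDerivAt.hasFDerivWithinAt
  have hmi : ∀ n, MeasurableSet (φ '' P n) := fun n =>
    measurable_image_of_fderivWithin (hPm n) (hder n) (hPi n)
  -- one sheet
  have hcong : ∀ n, ∀ t ∈ P n, |(fderiv ℝ φ t).det| • F (invFunOn φ (P n) (φ t)) =
      |(fderiv ℝ φ t).det| * F t := fun n t ht => by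
    rw [(hPi n).leftInvOn_invFunOn ht, smul_eq_mul]
  have hint : ∀ n, Integrable (sh φ (P n) F) := fun n => by
    rw [sh, integrable_indicator_iff (hmi n),
      integrableOn_image_iff_integrableOn_abs_det_fderiv_smul volume (hPm n) (hder n) (hPi n),
      integrableOn_congr_fun (hcong n) (hPm n)]
    exact hF.mono_set (hPO n)
  have hI : ∀ n, ∫ z, sh φ (P n) F z = ∫ t in P n, |(fderiv ℝ φ t).det| * F t := fun n => by
    rw [sh, integral_indicator (hmi n),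
      integral_image_eq_integral_abs_det_fderiv_smul volume (hPm n) (hder n) (hPi n)]
    exact setIntegral_congr_fun (hPm n) (hcong n)
  have hN : ∀ n, ∫ z, ‖sh φ (P n) F z‖ = ∫ t in P n, ‖|(fderiv ℝ φ t).det| * F t‖ := fun n => by
    have e : (fun z => ‖sh φ (P n) F z‖) =
        (φ '' P n).indicator fun z => ‖F (invFunOn φ (P n) z)‖ := by
      funext z
      rw [sh, norm_indicator_eq_indicator_norm]
    rw [e, integral_indicator (hmi n),
      integral_image_eq_integral_abs_det_fderiv_smul volume (hPm n) (hder n) (hPi n)]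
    refine setIntegral_congr_fun (hPm n) fun t ht => ?_
    show |(fderiv ℝ φ t).det| • ‖F (invFunOn φ (P n) (φ t))‖ = ‖|(fderiv ℝ φ t).det| * F t‖
    rw [(hPi n).leftInvOn_invFunOn ht, norm_mul, norm_abs_eq_norm, smul_eq_mul]
    rfl
  have hS : Summable fun n => ∫ z, ‖sh φ (P n) F z‖ := by
    simp only [hN]
    have h2 : IntegrableOn (fun t => ‖|(fderiv ℝ φ t).det| * F t‖) (⋃ n, P n) := by
      rw [hPU]; exact hF.norm
    exact (hasSum_integral_iUnion hPm hPd h2).summable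
  have hpt : ∀ z, HasSum (fun n => sh φ (P n) F z) (∑ᶠ t ∈ O ∩ φ ⁻¹' {z}, F t) := fun z =>
    fibre_sum hPU hPd hPi F z (hfin z)
  have hfun : (fun z => ∑ᶠ t ∈ O ∩ φ ⁻¹' {z}, F t) = fun z => ∑' n, sh φ (P n) F z := by
    funext z
    exact (hpt z).tsum_eq.symm
  rw [hfun]
  refine ⟨integrable_hasSum hint hS, ?_⟩
  have h1 := hasSum_integral_of_summable_integral_norm hint hS
  have h2 : HasSum (fun n => ∫ t in P n, |(fderiv ℝ φ t).det| * F t)
      (∫ t in O, |(fderiv ℝ φ t).det| * F t) := by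
    have h3 : IntegrableOn (fun t => |(fderiv ℝ φ t).det| * F t) (⋃ n, P n) := by
      rw [hPU]; exact hF
    have := hasSum_integral_iUnion hPm hPd h3
    rwa [hPU] at this
  simp only [hI] at h1
  exact h1.unique h2

end

end Crest.Agent.R235.EndChv_57
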