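import Mathlib

/-!
Row 235, package REG, leaf REG-END (helper745): change of variables with multiplicity.
-/

set_option autoImplicit false

open Set Filter Topology MeasureTheory

namespace Crest.Agent.R235.EndChv_745

noncomputable section

/-- local injectivity and a countable disjoint decomposition. -/
theorem exists_pieces {φ : ℂ → ℂ} {O : Set ℂ} (hO : IsOpen O) (hφ : ContDiffOn ℝ 1 φ O)
    (hdet : ∀ t ∈ O, (fderiv ℝ φ t).det ≠ 0) :
    ∃ P : ℕ → Set ℂ, (∀ n, MeasurableSet (P n)) ∧ Pairwise (Function.onFun Disjoint P) ∧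
      (⋃ n, P n) = O ∧ ∀ n, InjOn φ (P n) := by
  have hloc : ∀ t ∈ O, ∃ N : Set ℂ, IsOpen N ∧ t ∈ N ∧ N ⊆ O ∧ InjOn φ N := by
    intro t ht
    have h1 : ContDiffAt ℝ 1 φ t := hφ.contDiffAt (hO.mem_nhds ht)
    have h2 : HasStrictFDerivAt φ (fderiv ℝ φ t) t := h1.hasStrictFDerivAt (by norm_num)
    have h3 : HasStrictFDerivAt φ
        (((fderiv ℝ φ t).toContinuousLinearEquivOfDetNeZero (hdet t ht) : ℂ ≃L[ℝ] ℂ) :
          ℂ →L[ℝ] ℂ) t := by
      rw [ContinuousLinearMap.coe_toContinuousLinearEquivOfDetNeZero]; exact h2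
    refine ⟨(h3.toOpenPartialHomeomorph φ).source ∩ O,
      (h3.toOpenPartialHomeomorph φ).open_source.inter hO,
      ⟨h3.mem_toOpenPartialHomeomorph_source, ht⟩, inter_subset_right, ?_⟩
    exact (h3.toOpenPartialHomeomorph φ).injOn.mono inter_subset_left
  choose! N hNo hNt hNO hNi using hloc
  obtain ⟨T, hTO, hTc, hTU⟩ := TopologicalSpace.countable_cover_nhdsWithin (s := O) (f := N)
    (fun t ht => mem_nhdsWithin_of_mem_nhds ((hNo t ht).mem_nhds (hNt t ht)))
  rcases T.eq_empty_or_nonempty with hT | hT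
  · refine ⟨fun _ => ∅, fun _ => MeasurableSet.empty, fun i j _ => disjoint_bot_left, ?_,
      fun n => injOn_empty _⟩
    rw [iUnion_empty]
    rw [hT] at hTU
    simp only [mem_empty_iff_false, iUnion_of_empty, iUnion_empty] at hTU
    exact (subset_empty_iff.1 hTU).symm
  · obtain ⟨x, hx⟩ := hTc.exists_eq_range hT
    have hxO : ∀ n, x n ∈ O := fun n => hTO (by rw [hx]; exact mem_range_self n)
    refine ⟨disjointed fun n => N (x n), ?_, disjoint_disjointed _, ?_, ?_⟩
    · intro n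
      exact MeasurableSet.disjointed (fun i => (hNo _ (hxO i)).measurableSet) n
    · rw [iUnion_disjointed]
      apply Subset.antisymm
      · exact iUnion_subset fun n => hNO _ (hxO n)
      · intro t ht
        obtain ⟨y, hy, hty⟩ := mem_iUnion₂.1 (hTU ht)
        rw [hx] at hy
        obtain ⟨n, rfl⟩ := hy
        exact mem_iUnion.2 ⟨n, hty⟩
    · intro n
      exact (hNi _ (hxO n)).mono (disjointed_subset _ n)

theorem chv {φ : ℂ → ℂ} {O : Set ℂ} (hO : IsOpen O) (hφ : ContDiffOn ℝ 1 φ O)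
    (hdet : ∀ t ∈ O, (fderiv ℝ φ t).det ≠ 0) (hfin : ∀ z, (O ∩ φ ⁻¹' {z}).Finite) (F : ℂ → ℝ)
    (hF : IntegrableOn (fun t => |(fderiv ℝ φ t).det| * F t) O) :
    Integrable (fun z => ∑ᶠ t ∈ O ∩ φ ⁻¹' {z}, F t) ∧
      ∫ z, ∑ᶠ t ∈ O ∩ φ ⁻¹' {z}, F t = ∫ t in O, |(fderiv ℝ φ t).det| * F t := by
  classical
  obtain ⟨P, hPm, hPd, hPO, hPi⟩ := exists_pieces hO hφ hdet
  have hPsub : ∀ n, P n ⊆ O := fun n => by rw [← hPO]; exact subset_iUnion P n
  have hd : ∀ n, ∀ t ∈ P n, HasFDerivWithinAt φ (fderiv ℝ φ t) (P n) t := fun n t ht =>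
    (((hφ.differentiableOn (by norm_num)).differentiableAt
      (hO.mem_nhds (hPsub n ht))).hasFDerivAt).hasFDerivWithinAt
  have hIm : ∀ n, MeasurableSet (φ '' P n) := fun n =>
    measurable_image_of_fderivWithin (hPm n) (hd n) (hPi n)
  set f : ℕ → ℂ → ℝ := fun n z => F (Function.invFunOn φ (P n) z) with hf
  have hfφ : ∀ n, ∀ t ∈ P n, f n (φ t) = F t := by
    intro n t ht
    simp only [hf]
    rw [(hPi n).leftInvOn_invFunOn ht]
  set h : ℕ → ℂ → ℝ := fun n => (φ '' P n).indicator (f n) with hh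
  have hFn : ∀ n, IntegrableOn (fun t => |(fderiv ℝ φ t).det| * F t) (P n) := fun n =>
    hF.mono_set (hPsub n)
  have hfint : ∀ n, IntegrableOn (f n) (φ '' P n) := by
    intro n
    rw [integrableOn_image_iff_integrableOn_abs_det_fderiv_smul volume (hPm n) (hd n) (hPi n)]
    refine (hFn n).congr_fun (fun t ht => ?_) (hPm n)
    simp only [smul_eq_mul]
    rw [hfφ n t ht]
  have hhint : ∀ n, Integrable (h n) := fun n => (hfint n).integrable_indicator (hIm n)
  have hhI : ∀ n, ∫ z, h n z = ∫ t in P n, |(fderiv ℝ φ t).det| * F t := by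
    intro n
    rw [hh, integral_indicator (hIm n),
      integral_image_eq_integral_abs_det_fderiv_smul volume (hPm n) (hd n) (hPi n)]
    refine setIntegral_congr_fun (hPm n) (fun t ht => ?_)
    simp only [smul_eq_mul]
    rw [hfφ n t ht]
  have hhN : ∀ n, ∫ z, ‖h n z‖ = ∫ t in P n, ‖|(fderiv ℝ φ t).det| * F t‖ := by
    intro n
    have h1 : (fun z => ‖h n z‖) = (φ '' P n).indicator (fun z => ‖f n z‖) := by
      funext z
      exact norm_indicator_eq_indicator_norm _ _
    rw [h1, integral_indicator (hIm n),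
      integral_image_eq_integral_abs_det_fderiv_smul volume (hPm n) (hd n) (hPi n)]
    refine setIntegral_congr_fun (hPm n) (fun t ht => ?_)
    simp only [smul_eq_mul]
    rw [hfφ n t ht, norm_mul, Real.norm_eq_abs |_|, abs_abs]
  have hsum : Summable fun n => ∫ z, ‖h n z‖ := by
    simp only [hhN]
    have hFO : IntegrableOn (fun t => ‖|(fderiv ℝ φ t).det| * F t‖) (⋃ n, P n) := by
      rw [hPO]; exact hF.norm
    exact (hasSum_integral_iUnion hPm hPd hFO).summable
  -- the fibre sum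
  have hex : ∀ t : ℂ, ∃ n, t ∈ O → t ∈ P n := by
    intro t
    by_cases ht : t ∈ O
    · rw [← hPO] at ht
      obtain ⟨n, hn⟩ := mem_iUnion.1 ht
      exact ⟨n, fun _ => hn⟩
    · exact ⟨0, fun h => absurd h ht⟩
  choose nn hnn using hex
  have hpt : ∀ z, HasSum (fun n => h n z) (∑ᶠ t ∈ O ∩ φ ⁻¹' {z}, F t) := by
    intro z
    set A := (hfin z).toFinset with hA
    have hAm : ∀ t ∈ A, t ∈ O ∧ φ t = z := by
      intro t ht
      have h1 : t ∈ O ∩ φ ⁻¹' {z} := (hfin z).mem_toFinset.1 ht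
      exact h1
    have hinj : ∀ t ∈ A, ∀ t' ∈ A, nn t = nn t' → t = t' := by
      intro t ht t' ht' hnt
      have h1 := hnn t (hAm t ht).1
      have h2 := hnn t' (hAm t' ht').1
      rw [← hnt] at h2
      exact hPi _ h1 h2 ((hAm t ht).2.trans (hAm t' ht').2.symm)
    have hval : ∀ t ∈ A, h (nn t) z = F t := by
      intro t ht
      have h1 := hnn t (hAm t ht).1
      have h2 : z ∈ φ '' P (nn t) := ⟨t, h1, (hAm t ht).2⟩
      simp only [hh]
      rw [indicator_of_mem h2, ← (hAm t ht).2, hfφ _ t h1]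
    have hzero : ∀ n ∉ A.image nn, h n z = 0 := by
      intro n hn
      simp only [hh]
      rw [indicator_of_notMem]
      rintro ⟨t, ht, rfl⟩
      apply hn
      have htO : t ∈ O := hPsub n ht
      have htA : t ∈ A := (hfin (φ t)).mem_toFinset.2 ⟨htO, rfl⟩
      refine Finset.mem_image.2 ⟨t, htA, ?_⟩
      by_contra hne
      exact (Set.disjoint_left.1 (hPd hne)) (hnn t htO) ht
    have h1 : ∑ᶠ t ∈ O ∩ φ ⁻¹' {z}, F t = ∑ n ∈ A.image nn, h n z := by
      rw [finsum_mem_eq_finite_toFinset_sum _ (hfin z), Finset.sum_image hinj]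
      exact Finset.sum_congr rfl fun t ht => (hval t ht).symm
    rw [h1]
    exact hasSum_sum_of_ne_finset_zero hzero
  have hfun : (fun z => ∑ᶠ t ∈ O ∩ φ ⁻¹' {z}, F t) = fun z => ∑' n, h n z := by
    funext z
    exact (hpt z).tsum_eq.symm
  refine ⟨?_, ?_⟩
  · have hlt : ∑' n, ∫⁻ z, ‖h n z‖ₑ < ⊤ := by
      have h1 : ∀ n, ∫⁻ z, ‖h n z‖ₑ = ENNReal.ofReal (∫ z, ‖h n z‖) := fun n => by
        rw [ofReal_integral_norm_eq_lintegral_enorm (hhint n)]
      simp only [h1]
      exact hsum.tsum_ofReal_lt_top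
    have hms : AEStronglyMeasurable (fun z => ∑ᶠ t ∈ O ∩ φ ⁻¹' {z}, F t) volume := by
      refine aestronglyMeasurable_of_tendsto_ae atTop
        (f := fun (N : ℕ) z => ∑ n ∈ Finset.range N, h n z) ?_ ?_
      · intro N
        exact (integrable_finset_sum _ fun n _ => hhint n).aestronglyMeasurable
      · exact Eventually.of_forall fun z => (hpt z).tendsto_sum_nat
    refine ⟨hms, ?_⟩
    rw [hasFiniteIntegral_iff_enorm]
    refine lt_of_le_of_lt ?_ hlt
    rw [← lintegral_tsum (fun n => (hhint n).aestronglyMeasurable.enorm)]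
    refine lintegral_mono fun z => ?_
    rw [← (hpt z).tsum_eq]
    exact enorm_tsum_le_tsum_enorm
  · rw [hfun, ← (hasSum_integral_of_summable_integral_norm hhint hsum).tsum_eq]
    simp only [hhI]
    have hFO : IntegrableOn (fun t => |(fderiv ℝ φ t).det| * F t) (⋃ n, P n) := by
      rw [hPO]; exact hF
    rw [(hasSum_integral_iUnion hPm hPd hFO).tsum_eq, hPO]

end

end Crest.Agent.R235.EndChv_745
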