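import Crest.Agent.R235.EndC_745
import Crest.Agent.R235.EndDef_745

/-!
Row 235, package REG, leaf REG-END (helper745), part 4: the complex structure of the forms
`dz + μ dz̄`, `dw + β dz̄`; base change; smoothness of `C¹` discs.
-/

set_option autoImplicit false

open Complex Metric Set Filter Topology
open scoped ContDiff ComplexConjugate

namespace Crest.Agent.R235.EndD_745

open Crest.Agent.R235.NWDefs_334 Crest.Agent.R235.NWIface_334 Crest.Agent.R235.EndA_745
open Crest.Agent.R235.Loc Crest.Agent.R235.End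

noncomputable section

theorem lz_eq (A : ℂ →L[ℝ] ℂ) : lz A = dl A := by
  simp only [lz, dl, smul_eq_mul]; ring

theorem lzb_eq (A : ℂ →L[ℝ] ℂ) : lzb A = dbl A := by
  simp only [lzb, dbl, smul_eq_mul]; ring

/-! ### the complex structure -/

/-- `1 - |μ|²` as a complex number. -/
def den (m : ℂ) : ℂ := 1 - m * conj m

theorem den_ne {m : ℂ} (h : ‖m‖ < 1) : den m ≠ 0 := by
  intro h0
  have h1 : m * conj m = 1 := by
    have : (1 : ℂ) - m * conj m = 0 := h0
    linear_combination -this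
  have h2 : ‖m‖ * ‖m‖ = 1 := by
    have := congrArg norm h1
    rwa [norm_mul, Complex.norm_conj, norm_one] at this
  nlinarith [norm_nonneg m]

theorem conj_den (m : ℂ) : conj (den m) = den m := by
  simp only [den, map_sub, map_one, map_mul, Complex.conj_conj]; ring

theorem den_pos_ne {m n : ℂ} (hm : ‖m‖ < 1) (hn : ‖n‖ < 1) : 1 - conj m * n ≠ 0 := by
  intro h0
  have h1 : conj m * n = 1 := by linear_combination -h0
  have h2 : ‖m‖ * ‖n‖ = 1 := by
    have := congrArg norm h1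
    rwa [norm_mul, Complex.norm_conj, norm_one] at this
  nlinarith [norm_nonneg m, norm_nonneg n]

/-- first component of `J X`. -/
def J1 (m : ℂ) (a : ℂ) : ℂ := (I * ((1 + m * conj m) * a + 2 * m * conj a)) / den m

/-- second component of `J X`. -/
def J2 (m b : ℂ) (X : ℂ × ℂ) : ℂ := I * (X.2 + b * conj X.1) - b * conj (J1 m X.1)

theorem J1_add (m a b : ℂ) : J1 m (a + b) = J1 m a + J1 m b := by
  simp only [J1, map_add]; ring

theorem J1_smul (m : ℂ) (r : ℝ) (a : ℂ) : J1 m (r • a) = r • J1 m a := by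
  simp only [J1, Complex.real_smul, map_mul, Complex.conj_ofReal]; ring

/-- the complex structure at `x` as a real linear map -/
def Jm (μ β : ℂ × ℂ → ℂ) (x : ℂ × ℂ) : ℂ × ℂ →L[ℝ] ℂ × ℂ :=
  LinearMap.toContinuousLinearMap
    { toFun := fun X => (J1 (μ x) X.1, J2 (μ x) (β x) X)
      map_add' := by
        intro X Y
        ext
        · simp only [Prod.fst_add, J1_add]
        · simp only [J2, Prod.fst_add, Prod.snd_add, J1_add, map_add]; ring
      map_smul' := by
        intro r X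
        ext
        · simp only [Prod.smul_fst, J1_smul, RingHom.id_apply]
        · simp only [J2, Prod.smul_fst, Prod.smul_snd, J1_smul, RingHom.id_apply]
          simp only [Complex.real_smul, map_mul, Complex.conj_ofReal]
          ring }

theorem Jm_apply (μ β : ℂ × ℂ → ℂ) (x X : ℂ × ℂ) :
    Jm μ β x X = (J1 (μ x) X.1, J2 (μ x) (β x) X) := rfl

theorem J1_form {m : ℂ} (h : ‖m‖ < 1) (a : ℂ) : J1 m a + m * conj (J1 m a) = I * (a + m * conj a) := by
  have hd := den_ne h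
  simp only [J1, map_div₀, conj_den, map_mul, map_add, map_one, Complex.conj_conj, Complex.conj_I,
    map_ofNat]
  field_simp
  simp only [den]
  ring

theorem eq_zero_of_form {m e : ℂ} (h : ‖m‖ < 1) (he : e + m * conj e = 0) : e = 0 := by
  by_contra hne
  have h1 : e = - (m * conj e) := by linear_combination he
  have h2 : ‖e‖ = ‖m‖ * ‖e‖ := by
    conv_lhs => rw [h1]
    rw [norm_neg, norm_mul, Complex.norm_conj]
  have h3 : 0 < ‖e‖ := norm_pos_iff.2 hne
  nlinarith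

theorem Jm_iff {μ β : ℂ × ℂ → ℂ} {x : ℂ × ℂ} (h : ‖μ x‖ < 1) (X X' : ℂ × ℂ) :
    X' = Jm μ β x X ↔ X'.1 + μ x * conj X'.1 = I * (X.1 + μ x * conj X.1) ∧
      X'.2 + β x * conj X'.1 = I * (X.2 + β x * conj X.1) := by
  rw [Jm_apply]
  constructor
  · rintro rfl
    refine ⟨J1_form h X.1, ?_⟩
    simp only [J2]; ring
  · rintro ⟨h1, h2⟩
    have h3 : X'.1 - J1 (μ x) X.1 = 0 := by
      apply eq_zero_of_form h
      rw [map_sub]
      linear_combination h1 - J1_form h X.1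
    have h4 : X'.1 = J1 (μ x) X.1 := by linear_combination h3
    refine Prod.ext h4 ?_
    simp only [J2]
    rw [← h4]
    linear_combination h2

theorem Jm_sq {μ β : ℂ × ℂ → ℂ} {x : ℂ × ℂ} (h : ‖μ x‖ < 1) (X : ℂ × ℂ) :
    Jm μ β x (Jm μ β x X) = - X := by
  symm
  rw [Jm_iff h]
  obtain ⟨h1, h2⟩ := (Jm_iff (β := β) h X _).1 rfl
  constructor
  · rw [h1]
    simp only [Prod.fst_neg, map_neg]
    linear_combination (-(X.1 + μ x * conj X.1)) * Complex.I_mul_I
  · rw [h2]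
    simp only [Prod.fst_neg, Prod.snd_neg, map_neg]
    linear_combination (-(X.2 + β x * conj X.1)) * Complex.I_mul_I

theorem contDiff_conj {n : WithTop ℕ∞} : ContDiff ℝ n (fun z : ℂ => conj z) :=
  Complex.conjCLE.contDiff

theorem contDiff_conj_comp {E : Type*} [NormedAddCommGroup E] [NormedSpace ℝ E]
    {n : WithTop ℕ∞} {f : E → ℂ} (hf : ContDiff ℝ n f) : ContDiff ℝ n (fun z => conj (f z)) :=
  contDiff_conj.comp hf

theorem cdiv {E : Type*} [NormedAddCommGroup E] [NormedSpace ℝ E] {n : WithTop ℕ∞} {f g : E → ℂ}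
    (hf : ContDiff ℝ n f) (hg : ContDiff ℝ n g) (h : ∀ x, g x ≠ 0) :
    ContDiff ℝ n (fun x => f x / g x) := by
  have h1 := hf.mul (hg.inv h)
  have h2 : (fun x => f x / g x) = fun x => f x * g⁻¹ x := by
    funext x; rw [div_eq_mul_inv]; rfl
  rw [h2]; exact h1

theorem Jm_smooth {μ β : ℂ × ℂ → ℂ} (hμ : ContDiff ℝ ∞ μ) (hβ : ContDiff ℝ ∞ β)
    (h : ∀ x, ‖μ x‖ < 1) : ContDiff ℝ ∞ (Jm μ β) := by
  rw [contDiff_clm_apply_iff]
  intro X
  have hcμ := contDiff_conj_comp hμ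
  have hden : ContDiff ℝ ∞ (fun x => den (μ x)) := contDiff_const.sub (hμ.mul hcμ)
  have h1 : ContDiff ℝ ∞ (fun x => J1 (μ x) X.1) := by
    refine cdiv ?_ hden (fun x => den_ne (h x))
    exact contDiff_const.mul (((contDiff_const.add (hμ.mul hcμ)).mul contDiff_const).add
      ((contDiff_const.mul hμ).mul contDiff_const))
  have h2 : ContDiff ℝ ∞ (fun x => J2 (μ x) (β x) X) :=
    (contDiff_const.mul (contDiff_const.add (hβ.mul contDiff_const))).sub
      (hβ.mul (contDiff_conj_comp h1))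
  exact h1.prodMk h2

/-- **`C¹` discs are smooth** -/
theorem disc_smooth (hReg : RegStmt) {μ β : ℂ × ℂ → ℂ} (hμ : ContDiff ℝ ∞ μ)
    (hβ : ContDiff ℝ ∞ β) (h : ∀ x, ‖μ x‖ < 1) {u : ℂ → ℂ × ℂ} {O : Set ℂ} (hO : IsOpen O)
    (hu : ContDiffOn ℝ 1 u O)
    (jz : ∀ z ∈ O, ∀ v : ℂ,
      (fderiv ℝ u z (I * v)).1 + μ (u z) * conj (fderiv ℝ u z (I * v)).1 =
        I * ((fderiv ℝ u z v).1 + μ (u z) * conj (fderiv ℝ u z v).1))
    (jw : ∀ z ∈ O, ∀ v : ℂ,
      (fderiv ℝ u z (I * v)).2 + β (u z) * conj (fderiv ℝ u z (I * v)).1 =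
        I * ((fderiv ℝ u z v).2 + β (u z) * conj (fderiv ℝ u z v).1)) :
    ContDiffOn ℝ ∞ u O := by
  refine hReg (Jm μ β) univ isOpen_univ (Jm_smooth hμ hβ h).contDiffOn
    (fun x _ X => Jm_sq (h x) X) u O hO hu (fun _ _ => mem_univ _) (fun z hz => ⟨?_, fun v => ?_⟩)
  · exact (hu.differentiableOn (by norm_num)).differentiableAt (hO.mem_nhds hz)
  · exact (Jm_iff (h _) _ _).2 ⟨jz z hz v, jw z hz v⟩

/-! ### components -/

theorem fderiv_pair {a b : ℂ → ℂ} {t : ℂ} (ha : DifferentiableAt ℝ a t)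
    (hb : DifferentiableAt ℝ b t) (v : ℂ) :
    fderiv ℝ (fun t => (a t, b t)) t v =
      (dz a t * v + dzb a t * conj v, dz b t * v + dzb b t * conj v) := by
  rw [(ha.hasFDerivAt.prodMk hb.hasFDerivAt).fderiv]
  ext
  · rw [ContinuousLinearMap.prod_apply]; exact apply_eq _ v
  · rw [ContinuousLinearMap.prod_apply]; exact apply_eq _ v

theorem jeq_of_dzb {μ β : ℂ × ℂ → ℂ} {a b : ℂ → ℂ} {t : ℂ} (ha : DifferentiableAt ℝ a t)
    (hb : DifferentiableAt ℝ b t) (h1 : dzb a t = - μ (a t, b t) * conj (dz a t))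
    (h2 : dzb b t = - β (a t, b t) * conj (dz a t)) (v : ℂ) :
    (fderiv ℝ (fun t => (a t, b t)) t (I * v)).1 +
        μ (a t, b t) * conj (fderiv ℝ (fun t => (a t, b t)) t (I * v)).1 =
      I * ((fderiv ℝ (fun t => (a t, b t)) t v).1 +
        μ (a t, b t) * conj (fderiv ℝ (fun t => (a t, b t)) t v).1) ∧
    (fderiv ℝ (fun t => (a t, b t)) t (I * v)).2 +
        β (a t, b t) * conj (fderiv ℝ (fun t => (a t, b t)) t (I * v)).1 =
      I * ((fderiv ℝ (fun t => (a t, b t)) t v).2 +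
        β (a t, b t) * conj (fderiv ℝ (fun t => (a t, b t)) t v).1) := by
  rw [fderiv_pair ha hb, fderiv_pair ha hb]
  rw [h1, h2]
  simp only [map_add, map_mul, map_neg, Complex.conj_conj, Complex.conj_I]
  constructor <;> ring

/-! ### base change -/

/-- `L x = x + m x̄` -/
def Lb (m : ℂ) (x : ℂ) : ℂ := x + m * conj x

/-- `L⁻¹ y = (y - m ȳ) / (1 - |m|²)` -/
def Li (m : ℂ) (y : ℂ) : ℂ := (y - m * conj y) / den m

theorem Lb_Li {m : ℂ} (h : ‖m‖ < 1) (y : ℂ) : Lb m (Li m y) = y := by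
  have hd := den_ne h
  simp only [Lb, Li, map_div₀, conj_den, map_mul, map_sub, Complex.conj_conj]
  field_simp
  simp only [den]
  ring

theorem Li_Lb {m : ℂ} (h : ‖m‖ < 1) (x : ℂ) : Li m (Lb m x) = x := by
  have hd := den_ne h
  simp only [Lb, Li, map_mul, map_add, Complex.conj_conj]
  field_simp
  simp only [den]
  ring

theorem contDiff_Li (m : ℂ) {n : WithTop ℕ∞} : ContDiff ℝ n (Li m) :=
  (contDiff_id.sub (contDiff_const.mul contDiff_conj)).div_const _

theorem contDiff_Lb (m : ℂ) {n : WithTop ℕ∞} : ContDiff ℝ n (Lb m) :=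
  contDiff_id.add (contDiff_const.mul contDiff_conj)

theorem Li_zero (m : ℂ) : Li m 0 = 0 := by simp [Li]
theorem Lb_zero (m : ℂ) : Lb m 0 = 0 := by simp [Lb]

theorem Li_sub (m x y : ℂ) : Li m (x - y) = Li m x - Li m y := by
  simp only [Li, map_sub]; ring

theorem Lb_sub (m x y : ℂ) : Lb m (x - y) = Lb m x - Lb m y := by
  simp only [Lb, map_sub]; ring

/-- transformed coefficients -/
def mu' (m p : ℂ) (μ : ℂ × ℂ → ℂ) (x : ℂ × ℂ) : ℂ :=
  (μ (p + Li m x.1, x.2) - m) / (1 - conj m * μ (p + Li m x.1, x.2))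

def be' (m p : ℂ) (μ β : ℂ × ℂ → ℂ) (x : ℂ × ℂ) : ℂ :=
  β (p + Li m x.1, x.2) / (1 - conj m * μ (p + Li m x.1, x.2))

theorem contDiff_mu' {m p : ℂ} {μ : ℂ × ℂ → ℂ} {n : WithTop ℕ∞} (hm : ‖m‖ < 1)
    (hμ : ContDiff ℝ n μ) (h : ∀ x, ‖μ x‖ < 1) : ContDiff ℝ n (mu' m p μ) := by
  have h1 : ContDiff ℝ n (fun x : ℂ × ℂ => μ (p + Li m x.1, x.2)) :=
    hμ.comp ((contDiff_const.add ((contDiff_Li m).comp contDiff_fst)).prodMk contDiff_snd)
  have h2 : ContDiff ℝ n (fun x : ℂ × ℂ => 1 - conj m * μ (p + Li m x.1, x.2)) :=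
    contDiff_const.sub (contDiff_const.mul h1)
  exact cdiv (h1.sub contDiff_const) h2 (fun x => den_pos_ne hm (h _))

theorem contDiff_be' {m p : ℂ} {μ β : ℂ × ℂ → ℂ} {n : WithTop ℕ∞} (hm : ‖m‖ < 1)
    (hμ : ContDiff ℝ n μ) (hβ : ContDiff ℝ n β) (h : ∀ x, ‖μ x‖ < 1) :
    ContDiff ℝ n (be' m p μ β) := by
  have h1 : ContDiff ℝ n (fun x : ℂ × ℂ => (p + Li m x.1, x.2)) :=
    (contDiff_const.add ((contDiff_Li m).comp contDiff_fst)).prodMk contDiff_snd
  have h2 : ContDiff ℝ n (fun x : ℂ × ℂ => 1 - conj m * μ (p + Li m x.1, x.2)) :=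
    contDiff_const.sub (contDiff_const.mul (hμ.comp h1))
  exact cdiv (hβ.comp h1) h2 (fun x => den_pos_ne hm (h _))

theorem hasFDerivAt_Li_comp {m : ℂ} {Y : ℂ → ℂ} {t : ℂ} (hY : DifferentiableAt ℝ Y t) (p : ℂ) :
    DifferentiableAt ℝ (fun t => p + Li m (Y t)) t ∧
    dz (fun t => p + Li m (Y t)) t = (dz Y t - m * conj (dzb Y t)) / den m ∧
    dzb (fun t => p + Li m (Y t)) t = (dzb Y t - m * conj (dz Y t)) / den m := by
  have hd : DifferentiableAt ℝ (fun t => p + Li m (Y t)) t :=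
    (differentiableAt_const p).add
      (((contDiff_Li m (n := 1)).differentiable (by norm_num)).differentiableAt.comp t hY)
  refine ⟨hd, ?_⟩
  set Lc : ℂ →L[ℝ] ℂ := LinearMap.toContinuousLinearMap
    { toFun := Li m
      map_add' := fun x y => by simp only [Li, map_add]; ring
      map_smul' := fun r x => by
        simp only [Li, Complex.real_smul, map_mul, Complex.conj_ofReal, RingHom.id_apply]; ring }
    with hLc
  have h1 : HasFDerivAt (fun t => p + Li m (Y t)) (Lc.comp (fderiv ℝ Y t)) t :=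
    (Lc.hasFDerivAt.comp t hY.hasFDerivAt).const_add p
  have h2 := dl_comp Lc (fderiv ℝ Y t)
  have h3 : dl Lc = 1 / den m ∧ dbl Lc = - m / den m := by
    apply dl_of_apply
    intro v
    change Li m v = _
    simp only [Li]; ring
  simp only [dz, dzb]
  rw [h1.fderiv, h2.1, h2.2, h3.1, h3.2]
  constructor <;> ring

/-- base change of the two equations. -/
theorem basechange {m p : ℂ} (hm : ‖m‖ < 1) {μ β : ℂ × ℂ → ℂ} (h : ∀ x, ‖μ x‖ < 1)
    {Y G : ℂ → ℂ} {t : ℂ} (hY : DifferentiableAt ℝ Y t)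
    (h1 : dzb Y t = - mu' m p μ (Y t, G t) * conj (dz Y t))
    (h2 : dzb G t = - be' m p μ β (Y t, G t) * conj (dz Y t)) :
    dzb (fun t => p + Li m (Y t)) t =
      - μ (p + Li m (Y t), G t) * conj (dz (fun t => p + Li m (Y t)) t) ∧
    dzb G t = - β (p + Li m (Y t), G t) * conj (dz (fun t => p + Li m (Y t)) t) := by
  obtain ⟨_, h3, h4⟩ := hasFDerivAt_Li_comp (m := m) hY p
  rw [h3, h4, h1, h2]
  simp only [mu', be', map_div₀, conj_den, map_sub, map_mul, map_neg, Complex.conj_conj]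
  set q := μ (p + Li m (Y t), G t) with hq
  set b := β (p + Li m (Y t), G t) with hb
  set c := (starRingEnd ℂ) (dz Y t) with hc
  have hqn : ‖q‖ < 1 := h _
  have hd := den_ne hm
  have e1 : 1 - q * conj m ≠ 0 := by rw [mul_comm]; exact den_pos_ne hm hqn
  rw [mul_comm (conj m) q]
  constructor
  · field_simp
    ring
  · field_simp
    simp only [den]
    ring

end

end Crest.Agent.R235.EndD_745
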