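import Crest.Agent.R235.Mono1_659

/-!
# Row 235, REG-END (E1): monodromy, final statement

`mono` : a `k`-valued function on a punctured disc, continuous up to permutations, with `k`
distinct values everywhere, is a finite union of cyclic covers `ζ ↦ (p + ζ ^ m, g ζ)`.
-/

namespace Crest.Agent.R235.Mono_659

open Complex Metric Set Filter Topology Function Crest.Agent.R235.Mono1_659

variable {k : ℕ}

theorem HP_add {R : ℝ} {w : ℂ} (hw : w ∈ HP R) (n : ℤ) :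
    w + n * (2 * Real.pi * I) ∈ HP R := by
  have h : (w + n * (2 * Real.pi * I)).re = w.re := by
    simp
  change (w + n * (2 * Real.pi * I)).re < Real.log R
  rw [h]
  exact hw

theorem exp_add_per (w : ℂ) (n : ℤ) : exp (w + n * (2 * Real.pi * I)) = exp w := by
  rw [Complex.exp_add, Complex.exp_int_mul_two_pi_mul_I, mul_one]

/-- A continuous choice among finitely many continuous branches with distinct values is one of the
branches near the point. -/
theorem eventually_sheet {X : Type*} [TopologicalSpace X] (γ : X → ℂ) (F : Fin k → X → ℂ) (x0 : X)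
    (hγ : ContinuousAt γ x0) (hF : ∀ i, ContinuousAt (F i) x0)
    (hinj : Injective fun i => F i x0) (h : ∀ᶠ x in 𝓝 x0, ∃ i, F i x = γ x) :
    ∃ i, ∀ᶠ x in 𝓝 x0, γ x = F i x := by
  obtain ⟨i, hi⟩ := h.self_of_nhds
  refine ⟨i, ?_⟩
  have h1 : ∀ᶠ x in 𝓝 x0, ∀ j, j ≠ i → F j x ≠ γ x := by
    rw [eventually_all]
    intro j
    by_cases hj : j = i
    · exact Eventually.of_forall fun x hx => absurd hj hx
    · have h2 : F j x0 ≠ γ x0 := fun h3 => hj (hinj (h3.trans hi.symm))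
      filter_upwards [(ContinuousAt.ne_iff_eventually_ne (hF j) hγ).1 h2] with x hx _
      exact hx
  filter_upwards [h, h1] with x ⟨j, hj⟩ h2
  by_cases hji : j = i
  · rw [← hji, hj]
  · exact absurd hj (h2 j hji)

/-- the monodromy permutation -/
theorem exists_perm (s : ℂ → Fin k → ℂ) (p : ℂ) (R : ℝ) (h : Fin k → ℂ → ℂ)
    (h1 : ∀ i, ContinuousOn (h i) (HP R))
    (h2 : ∀ w ∈ HP R, ∃ τ : Equiv.Perm (Fin k), ∀ i, s (p + exp w) (τ i) = h i w)
    (h3 : ∀ i j, ∀ w ∈ HP R, h i w = h j w → i = j)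
    (h4 : ∀ g : ℂ → ℂ, ContinuousOn g (HP R) → (∀ w ∈ HP R, ∃ j, s (p + exp w) j = g w) →
        ∃ i, EqOn g (h i) (HP R)) :
    ∃ σ : Equiv.Perm (Fin k), ∀ (n : ℤ) i, ∀ w ∈ HP R,
      h i (w + n * (2 * Real.pi * I)) = h ((σ ^ n) i) w := by
  classical
  have h5 : ∀ i, ∃ j, EqOn (fun w => h i (w + 2 * Real.pi * I)) (h j) (HP R) := by
    intro i
    have hadd : ∀ w ∈ HP R, w + 2 * Real.pi * I ∈ HP R := by
      intro w hw
      have := HP_add hw 1
      simpa using this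
    refine h4 _ ((h1 i).comp (by fun_prop) hadd) ?_
    intro w hw
    obtain ⟨τ, hτ⟩ := h2 _ (hadd w hw)
    refine ⟨τ i, ?_⟩
    have h6 := hτ i
    rw [Complex.exp_add, Complex.exp_two_pi_mul_I, mul_one] at h6
    exact h6
  choose σ0 hσ0 using h5
  have hinj : Injective σ0 := by
    intro i j hij
    have hw := base_mem R
    have h6 := hσ0 i hw
    have h7 := hσ0 j hw
    rw [hij] at h6
    have hadd := HP_add hw 1
    rw [Int.cast_one, one_mul] at hadd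
    exact h3 i j _ hadd (h6.trans h7.symm)
  let σ : Equiv.Perm (Fin k) := Equiv.ofBijective σ0 (Finite.injective_iff_bijective.1 hinj)
  have hσ : ∀ i, ∀ w ∈ HP R, h i (w + 2 * Real.pi * I) = h (σ i) w := fun i w hw => hσ0 i hw
  refine ⟨σ, ?_⟩
  intro n
  induction n using Int.induction_on with
  | zero => intro i w _; simp
  | succ n ih =>
    intro i w hw
    have h6 := HP_add hw n
    have h7 : w + ((n : ℤ) + 1 : ℤ) * (2 * Real.pi * I)
        = (w + ((n : ℤ) : ℂ) * (2 * Real.pi * I)) + 2 * Real.pi * I := by push_cast; ring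
    rw [h7, hσ i _ h6, ih (σ i) w hw, zpow_add_one, Equiv.Perm.mul_apply]
  | pred n ih =>
    intro i w hw
    have h6 : w + ((-(n : ℤ) - 1 : ℤ) : ℂ) * (2 * Real.pi * I) ∈ HP R := HP_add hw _
    have h7 : w + ((-(n : ℤ) : ℤ) : ℂ) * (2 * Real.pi * I)
        = (w + ((-(n : ℤ) - 1 : ℤ) : ℂ) * (2 * Real.pi * I)) + 2 * Real.pi * I := by
      push_cast; ring
    have h8 : h (σ⁻¹ i) (w + ((-(n : ℤ) : ℤ) : ℂ) * (2 * Real.pi * I))
        = h i (w + ((-(n : ℤ) - 1 : ℤ) : ℂ) * (2 * Real.pi * I)) := by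
      rw [h7, hσ _ _ h6]
      simp
    rw [← h8, ih (σ⁻¹ i) w hw, zpow_sub_one, Equiv.Perm.mul_apply]

/-- **Monodromy of a simple `k`-valued function on a punctured disc.** -/
theorem mono (s : ℂ → Fin k → ℂ) (p : ℂ) (R : ℝ) (hR : 0 < R)
    (cont : ∀ z ∈ ball p R \ {p}, ∀ ε > 0, ∀ᶠ z' in 𝓝 z, ∃ τ : Equiv.Perm (Fin k),
      ∀ i, ‖s z' (τ i) - s z i‖ < ε)
    (inj : ∀ z ∈ ball p R \ {p}, Injective (s z)) :
    ∃ (J : ℕ) (m : Fin J → ℕ) (g : Fin J → ℂ → ℂ), (∀ j, 0 < m j) ∧ ∑ j, m j = k ∧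
      (∀ j, ContinuousOn (g j) {ζ | ζ ≠ 0 ∧ ‖ζ‖ ^ m j < R}) ∧
      (∀ j ζ, ζ ≠ 0 → ‖ζ‖ ^ m j < R → ∃ i, s (p + ζ ^ m j) i = g j ζ) ∧
      (∀ z ∈ ball p R \ {p}, ∀ i, ∃ j ζ, ζ ^ m j = z - p ∧ g j ζ = s z i) ∧
      (∀ j j' ζ ζ', ζ ≠ 0 → ‖ζ‖ ^ m j < R → ζ ^ m j = ζ' ^ m j' → g j ζ = g j' ζ' →
        j = j' ∧ ζ = ζ') := by
  classical
  obtain ⟨h, h1, h2, h3, h4⟩ := lifts s p R hR cont inj
  obtain ⟨σ, hσ⟩ := exists_perm s p R h h1 h2 h3 h4
  -- cycles
  let Q := Quotient (Equiv.Perm.SameCycle.setoid σ)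
  have : Fintype Q := Quotient.fintype _
  let e : Fin (Fintype.card Q) ≃ Q := (Fintype.equivFin Q).symm
  let r : Fin (Fintype.card Q) → Fin k := fun j => (e j).out
  have hr : ∀ j, (Quotient.mk _ (r j) : Q) = e j := fun j => Quotient.out_eq _
  have hrc : ∀ j j', σ.SameCycle (r j) (r j') → j = j' := by
    intro j j' hjj
    apply e.injective
    rw [← hr j, ← hr j']
    exact Quotient.sound hjj
  have hre : ∀ i, ∃ j, σ.SameCycle (r j) i := by
    intro i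
    refine ⟨e.symm (Quotient.mk _ i), ?_⟩
    have h5 := hr (e.symm (Quotient.mk _ i))
    rw [Equiv.apply_symm_apply] at h5
    exact Quotient.exact h5
  let m : Fin (Fintype.card Q) → ℕ := fun j => minimalPeriod σ (r j)
  have hm : ∀ j, 0 < m j := by
    intro j
    apply Function.minimalPeriod_pos_of_mem_periodicPts
    exact Function.Injective.mem_periodicPts σ.injective (r j)
  have hmp : ∀ j (n : ℤ), (σ ^ n) (r j) = r j ↔ ((m j : ℤ) ∣ n) := by
    intro j n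
    have h5 := MulAction.zpow_smul_eq_iff_minimalPeriod_dvd (a := σ) (b := r j) (n := n)
    simpa [Equiv.Perm.smul_def] using h5
  have hm0 : ∀ j, (m j : ℂ) ≠ 0 := fun j => Nat.cast_ne_zero.2 (hm j).ne'
  have hexp : ∀ j ζ, ζ ≠ 0 → exp ((m j : ℂ) * log ζ) = ζ ^ m j := by
    intro j ζ hζ
    rw [Complex.exp_nat_mul, Complex.exp_log hζ]
  have hmem : ∀ j ζ, ζ ≠ 0 → ‖ζ‖ ^ m j < R → (m j : ℂ) * log ζ ∈ HP R := by
    intro j ζ hζ hζR
    rw [mem_HP_iff hR, hexp j ζ hζ, norm_pow]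
    exact hζR
  let g : Fin (Fintype.card Q) → ℂ → ℂ := fun j ζ => h (r j) ((m j : ℂ) * log ζ)
  have hkey : ∀ j ζ w, ζ ≠ 0 → exp (w / m j) = ζ → w ∈ HP R → h (r j) w = g j ζ := by
    intro j ζ w hζ hw hwR
    rw [← Complex.exp_log hζ] at hw
    obtain ⟨n, hn⟩ := Complex.exp_eq_exp_iff_exists_int.1 hw
    have h5 : w = (m j : ℂ) * log ζ + ((m j : ℤ) * n : ℤ) * (2 * Real.pi * I) := by
      rw [div_eq_iff (hm0 j)] at hn
      rw [hn]
      push_cast
      ring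
    have h6 : (m j : ℂ) * log ζ ∈ HP R := by
      have h7 := HP_add hwR (-((m j : ℤ) * n))
      rw [h5] at h7
      convert h7 using 1
      push_cast
      ring
    rw [h5, hσ _ _ _ h6, (hmp j _).2 (dvd_mul_right _ _)]
  refine ⟨Fintype.card Q, m, g, hm, ?_, ?_, ?_, ?_, ?_⟩
  · -- cardinality
    have hb : Bijective fun x : (Σ j, Fin (m j)) => (σ ^ ((x.2 : ℕ) : ℤ)) (r x.1) := by
      constructor
      · rintro ⟨j, a⟩ ⟨j', a'⟩ hjj
        change (σ ^ ((a : ℕ) : ℤ)) (r j) = (σ ^ ((a' : ℕ) : ℤ)) (r j') at hjj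
        have h5 : (σ ^ (((a : ℕ) : ℤ) - ((a' : ℕ) : ℤ))) (r j) = r j' := by
          rw [sub_eq_neg_add, zpow_add, Equiv.Perm.mul_apply, hjj, ← Equiv.Perm.mul_apply,
            ← zpow_add, neg_add_cancel, zpow_zero, Equiv.Perm.one_apply]
        have h6 : j = j' := hrc j j' ⟨_, h5⟩
        subst h6
        have h7 := (hmp j _).1 h5
        have h8 : (a : ℕ) = (a' : ℕ) := by
          have ha := a.2
          have ha' := a'.2
          by_contra hne
          have h9 : ((a : ℕ) : ℤ) - ((a' : ℕ) : ℤ) ≠ 0 := by omega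
          have h10 := Int.le_of_dvd (abs_pos.2 h9) ((dvd_abs _ _).2 h7)
          rcases abs_cases (((a : ℕ) : ℤ) - ((a' : ℕ) : ℤ)) with h11 | h11 <;> omega
        rw [Fin.ext h8]
      · intro i
        obtain ⟨j, n, hn⟩ := hre i
        have h5 : (0 : ℤ) < m j := by exact_mod_cast hm j
        have h6 := Int.emod_nonneg n h5.ne'
        have h7 := Int.emod_lt_of_pos n h5
        refine ⟨⟨j, ⟨(n % (m j : ℤ)).toNat, by omega⟩⟩, ?_⟩
        change (σ ^ (((n % (m j : ℤ)).toNat : ℕ) : ℤ)) (r j) = i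
        rw [Int.toNat_of_nonneg h6, ← hn]
        have h8 : (σ ^ n) (r j) = (σ ^ (n % (m j : ℤ))) ((σ ^ ((m j : ℤ) * (n / (m j : ℤ)))) (r j)) := by
          rw [← Equiv.Perm.mul_apply, ← zpow_add, Int.emod_add_mul_ediv]
        rw [h8, (hmp j _).2 (dvd_mul_right _ _)]
    have h5 := Fintype.card_of_bijective hb
    rw [Fintype.card_sigma, Fintype.card_fin] at h5
    rw [← h5]
    exact Finset.sum_congr rfl fun j _ => (Fintype.card_fin _).symm
  · -- continuity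
    rintro j ζ0 ⟨hζ0, hζ0R⟩
    have hL : ∀ ζ, ζ ≠ 0 → exp (log ζ0 + log (ζ / ζ0)) = ζ := by
      intro ζ hζ
      rw [Complex.exp_add, Complex.exp_log hζ0, Complex.exp_log (div_ne_zero hζ hζ0)]
      field_simp
    have hLm : ∀ ζ, ζ ≠ 0 → ‖ζ‖ ^ m j < R →
        (m j : ℂ) * (log ζ0 + log (ζ / ζ0)) ∈ HP R := by
      intro ζ hζ hζR
      rw [mem_HP_iff hR, Complex.exp_nat_mul, hL ζ hζ, norm_pow]
      exact hζR
    have h5 : ∀ ζ ∈ {ζ : ℂ | ζ ≠ 0 ∧ ‖ζ‖ ^ m j < R},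
        g j ζ = h (r j) ((m j : ℂ) * (log ζ0 + log (ζ / ζ0))) := by
      rintro ζ ⟨hζ, hζR⟩
      refine (hkey j ζ _ hζ ?_ (hLm ζ hζ hζR)).symm
      rw [mul_div_cancel_left₀ _ (hm0 j), hL ζ hζ]
    refine ContinuousWithinAt.congr ?_ h5 (h5 ζ0 ⟨hζ0, hζ0R⟩)
    have h6 : ContinuousAt (fun ζ : ℂ => (m j : ℂ) * (log ζ0 + log (ζ / ζ0))) ζ0 := by
      have h7 : ContinuousAt (fun ζ : ℂ => log (ζ / ζ0)) ζ0 := by
        have h8 : ContinuousAt log (ζ0 / ζ0) := by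
          rw [div_self hζ0]
          exact continuousAt_clog Complex.one_mem_slitPlane
        exact ContinuousAt.comp (f := fun ζ : ℂ => ζ / ζ0) h8 (by fun_prop)
      fun_prop
    exact ContinuousWithinAt.comp (h1 (r j) _ (hLm ζ0 hζ0 hζ0R)) h6.continuousWithinAt
      (fun ζ hζ => hLm ζ hζ.1 hζ.2)
  · -- values
    intro j ζ hζ hζR
    obtain ⟨τ, hτ⟩ := h2 _ (hmem j ζ hζ hζR)
    refine ⟨τ (r j), ?_⟩
    rw [← hexp j ζ hζ]
    exact hτ (r j)
  · -- all values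
    rintro z ⟨hz1, hz2⟩ i
    have hz3 : z - p ≠ 0 := sub_ne_zero.2 hz2
    have hw : log (z - p) ∈ HP R := by
      rw [mem_HP_iff hR, Complex.exp_log hz3]
      rwa [mem_ball, dist_eq_norm] at hz1
    obtain ⟨τ, hτ⟩ := h2 _ hw
    rw [Complex.exp_log hz3, add_sub_cancel] at hτ
    obtain ⟨j, n, hn⟩ := hre (τ.symm i)
    have h5 := hτ (τ.symm i)
    rw [Equiv.apply_symm_apply] at h5
    refine ⟨j, exp ((log (z - p) + n * (2 * Real.pi * I)) / m j), ?_, ?_⟩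
    · rw [← Complex.exp_nat_mul, mul_div_cancel₀ _ (hm0 j), exp_add_per, Complex.exp_log hz3]
    · rw [← hkey j _ _ (Complex.exp_ne_zero _) rfl (HP_add hw n), hσ n _ _ hw, hn, h5]
  · -- injectivity
    intro j j' ζ ζ' hζ hζR hpow hgg
    have hζ' : ζ' ≠ 0 := by
      rintro rfl
      rw [zero_pow (hm j').ne'] at hpow
      exact pow_ne_zero _ hζ hpow
    have hw := hmem j ζ hζ hζR
    have h5 : exp ((m j' : ℂ) * log ζ') = exp ((m j : ℂ) * log ζ) := by
      rw [hexp j ζ hζ, hexp j' ζ' hζ', hpow]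
    obtain ⟨n, hn⟩ := Complex.exp_eq_exp_iff_exists_int.1 h5
    have h6 : h (r j) ((m j : ℂ) * log ζ) = h ((σ ^ n) (r j')) ((m j : ℂ) * log ζ) := by
      rw [← hσ n _ _ hw, ← hn]
      exact hgg
    have h7 := h3 _ _ _ hw h6
    have h8 : j = j' := (hrc j' j ⟨n, h7.symm⟩).symm
    subst h8
    refine ⟨rfl, ?_⟩
    obtain ⟨b, hb⟩ := (hmp j n).1 h7.symm
    have h9 : log ζ' = log ζ + b * (2 * Real.pi * I) := by
      apply mul_left_cancel₀ (hm0 j)
      rw [hn, hb]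
      push_cast
      ring
    rw [← Complex.exp_log hζ', h9, exp_add_per, Complex.exp_log hζ]

end Crest.Agent.R235.Mono_659
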