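import Crest.Agent.R235.EndD_745
import Crest.Agent.R235.Mono_659
import Crest.Agent.R235.LocSel_483

/-!
Row 235, package REG, leaf REG-END (helper745), part 5: the branches of a `k`-valued graph at a
point where all values coincide: cyclic covers, Hölder continuity up to the centre, equation.
-/

set_option autoImplicit false

open Complex Metric Set Filter Topology
open scoped ContDiff ComplexConjugate

namespace Crest.Agent.R235.EndE_745

open Crest.Agent.R235.NWDefs_334 Crest.Agent.R235.NWIface_334 Crest.Agent.R235.EndA_745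
open Crest.Agent.R235.Loc Crest.Agent.R235.End Crest.Agent.R235.EndD_745

noncomputable section

/-! ### connected sets in finitely many discs -/

theorem spread {k : ℕ} {A : Finset ℂ} (hA : A.card ≤ k) {ρ : ℝ} {f : ℝ → ℂ}
    (hf : ContinuousOn f (Icc 0 1)) (h : ∀ t ∈ Icc (0 : ℝ) 1, ∃ a ∈ A, dist (f t) a ≤ ρ) :
    dist (f 1) (f 0) ≤ 2 * k * ρ := by
  by_contra hcon
  push Not at hcon
  obtain ⟨a0, ha0, hda0⟩ := h 0 (by simp)
  have hρ : 0 ≤ ρ := dist_nonneg.trans hda0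
  have hk : 0 < k := lt_of_lt_of_le (Finset.card_pos.2 ⟨a0, ha0⟩) hA
  have hk' : (0 : ℝ) < k := by exact_mod_cast hk
  set D := dist (f 1) (f 0) with hD
  have hDpos : 0 ≤ D := dist_nonneg
  have hcont : ContinuousOn (fun t => dist (f t) (f 0)) (Icc 0 1) :=
    (continuous_id.dist continuous_const).comp_continuousOn hf
  have hiv := intermediate_value_Icc (zero_le_one' ℝ) hcont
  have hex : ∀ i : Fin (k + 1), ∃ t ∈ Icc (0 : ℝ) 1, dist (f t) (f 0) = D * i / k := by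
    intro i
    have hi : (i : ℝ) ≤ k := by exact_mod_cast Nat.lt_succ_iff.1 i.2
    have hmem : D * i / k ∈ Icc (dist (f 0) (f 0)) (dist (f 1) (f 0)) := by
      rw [dist_self]
      refine ⟨by positivity, ?_⟩
      rw [div_le_iff₀ hk']
      exact mul_le_mul_of_nonneg_left hi hDpos
    obtain ⟨t, ht, hte⟩ := hiv hmem
    exact ⟨t, ht, hte⟩
  choose t ht hte using hex
  choose a ha hda using fun i => h (t i) (ht i)
  have hcard : A.card < (Finset.univ : Finset (Fin (k + 1))).card := by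
    rw [Finset.card_univ, Fintype.card_fin]; omega
  obtain ⟨i, -, j, -, hij, haij⟩ :=
    Finset.exists_ne_map_eq_of_card_lt_of_maps_to hcard (f := a) (fun i _ => ha i)
  have h1 : dist (f (t i)) (f (t j)) ≤ 2 * ρ := by
    calc dist (f (t i)) (f (t j)) ≤ dist (f (t i)) (a i) + dist (f (t j)) (a i) :=
          dist_triangle_right _ _ _
      _ ≤ ρ + ρ := add_le_add (hda i) (by rw [haij]; exact hda j)
      _ = 2 * ρ := by ring
  have h2 : |dist (f (t i)) (f 0) - dist (f (t j)) (f 0)| ≤ dist (f (t i)) (f (t j)) :=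
    abs_dist_sub_le _ _ _
  rw [hte, hte] at h2
  have h3 : D / k ≤ |D * i / k - D * j / k| := by
    have h4 : D * i / k - D * j / k = (D / k) * ((i : ℝ) - j) := by ring
    rw [h4, abs_mul, abs_of_nonneg (by positivity)]
    have h5 : (1 : ℝ) ≤ |(i : ℝ) - j| := by
      have h6 : ((i : ℕ) : ℤ) - ((j : ℕ) : ℤ) ≠ 0 := by
        intro h7
        apply hij
        apply Fin.ext
        omega
      have h7 : (1 : ℤ) ≤ |((i : ℕ) : ℤ) - ((j : ℕ) : ℤ)| := Int.one_le_abs h6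
      exact_mod_cast h7
    exact le_mul_of_one_le_right (by positivity) h5
  have h4 : D / k ≤ 2 * ρ := h3.trans (h2.trans h1)
  rw [div_le_iff₀ hk'] at h4
  nlinarith

theorem pow_sub_le {x y : ℂ} (hx : ‖x‖ ≤ 1) (hy : ‖y‖ ≤ 1) (n : ℕ) :
    ‖x ^ n - y ^ n‖ ≤ n * ‖x - y‖ := by
  induction n with
  | zero => simp
  | succ n ih =>
    have h1 : x ^ (n + 1) - y ^ (n + 1) = x * (x ^ n - y ^ n) + (x - y) * y ^ n := by ring
    have h2 : ‖y ^ n‖ ≤ 1 := by rw [norm_pow]; exact pow_le_one₀ (norm_nonneg _) hy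
    calc ‖x ^ (n + 1) - y ^ (n + 1)‖ ≤ ‖x * (x ^ n - y ^ n)‖ + ‖(x - y) * y ^ n‖ := by
          rw [h1]; exact norm_add_le _ _
      _ ≤ 1 * (n * ‖x - y‖) + ‖x - y‖ * 1 := by
          rw [norm_mul, norm_mul]
          exact add_le_add (mul_le_mul hx ih (norm_nonneg _) zero_le_one)
            (mul_le_mul_of_nonneg_left h2 (norm_nonneg _))
      _ = ((n + 1 : ℕ) : ℝ) * ‖x - y‖ := by push_cast; ring

/-! ### reduced data -/

/-- a `k`-valued graph over `ball 0 R`, all values equal at `0`, simple off `0`, with sheets. -/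
structure RG (mu be : ℂ × ℂ → ℂ) (T : ℂ → Multiset ℂ) (k : ℕ) (R C b : ℝ) (w0 : ℂ) : Prop where
  R0 : 0 < R
  C0 : 0 ≤ C
  b0 : 0 < b
  k0 : 0 < k
  card : ∀ y ∈ ball (0 : ℂ) R, (T y).card = k
  hold : ∀ y ∈ ball (0 : ℂ) R, ∀ y' ∈ ball (0 : ℂ) R, Close (C * dist y y' ^ b) (T y) (T y')
  zero : T 0 = Multiset.replicate k w0
  nodup : ∀ y ∈ ball (0 : ℂ) R, y ≠ 0 → (T y).Nodup
  sheets : ∀ y ∈ ball (0 : ℂ) R, y ≠ 0 → ∃ r > 0, ∃ f : Fin k → ℂ → ℂ,
    (∀ i, ∀ y' ∈ ball y r, DifferentiableAt ℝ (f i) y' ∧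
      dzb (f i) y' = mu (y', f i y') * dz (f i) y' - be (y', f i y')) ∧
    ∀ y' ∈ ball y r, T y' = Multiset.map (fun i => f i y') Finset.univ.val

section

variable {mu be : ℂ × ℂ → ℂ} {T : ℂ → Multiset ℂ} {k : ℕ} {R C b : ℝ} {w0 : ℂ}

theorem RG.near (h : RG mu be T k R C b w0) {y y' : ℂ} (hy : y ∈ ball (0 : ℂ) R)
    (hy' : y' ∈ ball (0 : ℂ) R) {w : ℂ} (hw : w ∈ T y') :
    ∃ a ∈ T y, dist w a ≤ C * dist y y' ^ b := by
  obtain ⟨a, ha, hd⟩ := Multiset.exists_mem_of_rel_of_mem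
    (Multiset.rel_flip.2 (h.hold y hy y' hy')) hw
  exact ⟨a, ha, by rw [dist_comm]; exact hd⟩

/-- Hölder estimate of a continuous branch. -/
theorem RG.branch_hold (h : RG mu be T k R C b w0) {n : ℕ} {r : ℝ} (hr1 : r ≤ 1) (hrR : r ≤ R)
    (hn : 0 < n) {g : ℂ → ℂ} (hg : ContinuousOn g (ball 0 r))
    (hm : ∀ s ∈ ball (0 : ℂ) r, g s ∈ T (s ^ n)) :
    ∀ s ∈ ball (0 : ℂ) r, ∀ s' ∈ ball (0 : ℂ) r,
      ‖g s - g s'‖ ≤ 2 * k * (C * (n : ℝ) ^ b) * dist s s' ^ b := by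
  have hpow : ∀ s ∈ ball (0 : ℂ) r, s ^ n ∈ ball (0 : ℂ) R := by
    intro s hs
    rw [mem_ball_zero_iff] at hs ⊢
    rw [norm_pow]
    calc ‖s‖ ^ n ≤ ‖s‖ ^ 1 := pow_le_pow_of_le_one (norm_nonneg _) (hs.le.trans hr1) hn
      _ = ‖s‖ := pow_one _
      _ < R := lt_of_lt_of_le hs hrR
  intro s hs s' hs'
  have hseg : ∀ t ∈ Icc (0 : ℝ) 1, s + (t : ℂ) * (s' - s) ∈ ball (0 : ℂ) r := by
    intro t ht
    have := (convex_ball (0 : ℂ) r).add_smul_sub_mem hs hs' ht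
    rwa [Complex.real_smul] at this
  have hcont : ContinuousOn (fun t : ℝ => g (s + (t : ℂ) * (s' - s))) (Icc 0 1) := by
    refine hg.comp (Continuous.continuousOn (by fun_prop)) hseg
  have hsn1 : ‖s‖ ≤ 1 := ((mem_ball_zero_iff.1 hs).le.trans hr1)
  have key := spread (k := k) (A := (T (s ^ n)).toFinset) (ρ := C * (n * dist s s') ^ b)
    (Multiset.toFinset_card_le _ |>.trans (h.card _ (hpow s hs)).le) hcont (by
      intro t ht
      obtain ⟨a, ha, hd⟩ := h.near (hpow s hs) (hpow _ (hseg t ht)) (hm _ (hseg t ht))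
      refine ⟨a, Multiset.mem_toFinset.2 ha, hd.trans ?_⟩
      refine mul_le_mul_of_nonneg_left (Real.rpow_le_rpow dist_nonneg ?_ h.b0.le) h.C0
      rw [dist_eq_norm]
      have ht1 : ‖s + (t : ℂ) * (s' - s)‖ ≤ 1 :=
        ((mem_ball_zero_iff.1 (hseg t ht)).le.trans hr1)
      refine (pow_sub_le hsn1 ht1 n).trans ?_
      refine mul_le_mul_of_nonneg_left ?_ (Nat.cast_nonneg n)
      have h1 : s - (s + (t : ℂ) * (s' - s)) = (t : ℂ) * (s - s') := by ring
      rw [h1, norm_mul, Complex.norm_real, Real.norm_of_nonneg ht.1, dist_eq_norm]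
      exact mul_le_of_le_one_left (norm_nonneg _) ht.2)
  simp only [Complex.ofReal_one, one_mul, Complex.ofReal_zero, zero_mul, add_zero] at key
  have h2 : s + (s' - s) = s' := by ring
  rw [h2, dist_comm, dist_eq_norm] at key
  refine key.trans (le_of_eq ?_)
  rw [Real.mul_rpow (Nat.cast_nonneg n) dist_nonneg]
  ring

/-- enumerations. -/
theorem RG.exists_label (h : RG mu be T k R C b w0) :
    ∃ s : ℂ → Fin k → ℂ, ∀ y ∈ ball (0 : ℂ) R, T y = Multiset.map (s y) Finset.univ.val := by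
  classical
  have h1 : ∀ y, ∃ s : Fin k → ℂ, y ∈ ball (0 : ℂ) R → T y = Multiset.map s Finset.univ.val := by
    intro y
    by_cases hy : y ∈ ball (0 : ℂ) R
    · obtain ⟨a, ha⟩ := LocSel_483.exists_enum (T y) (h.card y hy)
      exact ⟨a, fun _ => ha⟩
    · exact ⟨fun _ => 0, fun h2 => absurd h2 hy⟩
  choose s hs using h1
  exact ⟨s, hs⟩

theorem RG.cont_label (h : RG mu be T k R C b w0) {s : ℂ → Fin k → ℂ}
    (hs : ∀ y ∈ ball (0 : ℂ) R, T y = Multiset.map (s y) Finset.univ.val) :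
    (∀ z ∈ ball (0 : ℂ) R \ {0}, ∀ ε > 0, ∀ᶠ z' in 𝓝 z, ∃ τ : Equiv.Perm (Fin k),
      ∀ i, ‖s z' (τ i) - s z i‖ < ε) ∧ ∀ z ∈ ball (0 : ℂ) R \ {0}, Function.Injective (s z) := by
  have hinj : ∀ z ∈ ball (0 : ℂ) R \ {0}, Function.Injective (s z) := by
    intro z hz
    apply LocSel_483.inj_of_nodup
    rw [← hs z hz.1]
    exact h.nodup z hz.1 hz.2
  refine ⟨?_, hinj⟩
  intro z hz ε hε
  have hopen : IsOpen (ball (0 : ℂ) R \ {0}) := isOpen_ball.sdiff isClosed_singleton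
  have hlim : Tendsto (fun z' => C * dist z z' ^ b) (𝓝 z) (𝓝 0) := by
    have h1 : ContinuousAt (fun z' => C * dist z z' ^ b) z := by
      refine continuousAt_const.mul ?_
      exact ContinuousAt.rpow_const (by fun_prop) (Or.inr h.b0.le)
    have h2 := h1.tendsto
    rwa [dist_self, Real.zero_rpow h.b0.ne', mul_zero] at h2
  filter_upwards [hopen.mem_nhds hz, hlim.eventually_lt_const hε] with z' hz' hε'
  have hcl := h.hold z hz.1 z' hz'.1
  rw [hs z hz.1] at hcl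
  obtain ⟨b', hb', hd⟩ := LocSel_483.rel_fun hcl
  have hi' := hinj z' hz'
  have hT := hs z' hz'.1
  have hbinj : Function.Injective b' := by
    apply LocSel_483.inj_of_nodup
    rw [← hb']
    exact h.nodup z' hz'.1 hz'.2
  have hex : ∀ i, ∃ j, s z' j = b' i := by
    intro i
    have h1 : b' i ∈ T z' := by rw [hb']; exact Multiset.mem_map_of_mem _ (Finset.mem_univ i)
    rw [hT] at h1
    obtain ⟨j, -, hj⟩ := Multiset.mem_map.1 h1
    exact ⟨j, hj⟩
  choose τ hτ using hex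
  have hτi : Function.Injective τ := by
    intro i j hij
    apply hbinj
    rw [← hτ i, ← hτ j, hij]
  refine ⟨Equiv.ofBijective τ (Finite.injective_iff_bijective.1 hτi), fun i => ?_⟩
  rw [Equiv.ofBijective_apply, hτ i, ← dist_eq_norm, dist_comm]
  exact lt_of_le_of_lt (hd i) hε'

theorem dz_pow_comp {f : ℂ → ℂ} {s : ℂ} {n : ℕ} (hf : DifferentiableAt ℝ f (s ^ n)) :
    DifferentiableAt ℝ (fun s => f (s ^ n)) s ∧
    dz (fun s => f (s ^ n)) s = dz f (s ^ n) * (n * s ^ (n - 1)) ∧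
    dzb (fun s => f (s ^ n)) s = dzb f (s ^ n) * conj (n * s ^ (n - 1)) := by
  have hid : DifferentiableAt ℝ (fun s : ℂ => s) s := differentiableAt_id
  have hp := EndC_745.dz_pow hid n
  have h0 : dz (fun s : ℂ => s) s = 1 ∧ dzb (fun s : ℂ => s) s = 0 := by
    simp only [dz, dzb]
    rw [fderiv_fun_id]
    exact dl_id
  rw [h0.1, h0.2] at hp
  have hd : DifferentiableAt ℝ (fun s : ℂ => s ^ n) s := hid.pow n
  refine ⟨hf.comp s hd, ?_⟩
  have h1 : fderiv ℝ (fun s => f (s ^ n)) s =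
      (fderiv ℝ f (s ^ n)).comp (fderiv ℝ (fun s : ℂ => s ^ n) s) :=
    fderiv_comp s hf hd
  have h2 := dl_comp (fderiv ℝ f (s ^ n)) (fderiv ℝ (fun s : ℂ => s ^ n) s)
  have h3 : dl (fderiv ℝ (fun s : ℂ => s ^ n) s) = n * s ^ (n - 1) := by
    have := hp.1; simp only [dz] at this; rw [this]; ring
  have h4 : dbl (fderiv ℝ (fun s : ℂ => s ^ n) s) = 0 := by
    have := hp.2; simp only [dzb] at this; rw [this]; ring
  simp only [dz, dzb]
  rw [h1, h2.1, h2.2, h3, h4, map_zero]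
  constructor <;> ring

/-- **the branches** -/
theorem RG.branches (h : RG mu be T k R C b w0) :
    ∃ (J : ℕ) (n : Fin J → ℕ) (g : Fin J → ℂ → ℂ), (∀ j, 0 < n j) ∧ (∀ j, g j 0 = w0) ∧
      (∀ j, ContinuousOn (g j) {ζ | ‖ζ‖ ^ n j < R}) ∧
      (∀ j ζ, ‖ζ‖ ^ n j < R → g j ζ ∈ T (ζ ^ n j)) ∧
      (∀ y ∈ ball (0 : ℂ) R, ∀ w ∈ T y, ∃ j ζ, ζ ^ n j = y ∧ g j ζ = w) ∧
      (∀ j j' ζ ζ', ‖ζ‖ ^ n j < R → ζ ^ n j = ζ' ^ n j' → g j ζ = g j' ζ' →
        (j = j' ∧ ζ = ζ') ∨ (ζ = 0 ∧ ζ' = 0)) ∧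
      (∀ j, HG b (g j)) ∧
      (∀ j s, s ≠ 0 → ‖s‖ ^ n j < R → DifferentiableAt ℝ (g j) s ∧
        dzb (g j) s = mu (s ^ n j, g j s) * (conj s / s) ^ (n j - 1) * dz (g j) s -
          be (s ^ n j, g j s) * (n j * conj s ^ (n j - 1))) := by
  classical
  obtain ⟨s, hs⟩ := h.exists_label
  obtain ⟨hcont, hinj⟩ := h.cont_label hs
  obtain ⟨J, n, g0, hn, hsum, hg0, hval, hall, hinj0⟩ :=
    Mono_659.mono s 0 R h.R0 hcont hinj
  simp only [zero_add, sub_zero] at hval hall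
  have hpow : ∀ (n : ℕ) (ζ : ℂ), ‖ζ‖ ^ n < R → ζ ^ n ∈ ball (0 : ℂ) R := by
    intro n ζ hζ
    rw [mem_ball_zero_iff, norm_pow]; exact hζ
  set g : Fin J → ℂ → ℂ := fun j ζ => if ζ = 0 then w0 else g0 j ζ with hg
  have hgz : ∀ j, g j 0 = w0 := fun j => by simp [hg]
  have hgn : ∀ j ζ, ζ ≠ 0 → g j ζ = g0 j ζ := fun j ζ hζ => by simp [hg, hζ]
  have hmem : ∀ j ζ, ‖ζ‖ ^ n j < R → g j ζ ∈ T (ζ ^ n j) := by
    intro j ζ hζ
    by_cases h0 : ζ = 0
    · rw [h0, hgz, zero_pow (hn j).ne', h.zero]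
      exact Multiset.mem_replicate.2 ⟨h.k0.ne', rfl⟩
    · obtain ⟨i, hi⟩ := hval j ζ h0 hζ
      rw [hgn j ζ h0, ← hi, hs _ (hpow _ _ hζ)]
      exact Multiset.mem_map_of_mem _ (Finset.mem_univ i)
  have hopen : ∀ j, IsOpen {ζ : ℂ | ‖ζ‖ ^ n j < R} := fun j =>
    isOpen_lt (by fun_prop) continuous_const
  have hbd : ∀ j ζ, ‖ζ‖ ^ n j < R → dist (g j ζ) w0 ≤ C * (‖ζ‖ ^ n j) ^ b := by
    intro j ζ hζ
    obtain ⟨a, ha, hd⟩ := h.near (mem_ball_self h.R0) (hpow _ _ hζ) (hmem j ζ hζ)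
    rw [h.zero] at ha
    rw [Multiset.eq_of_mem_replicate ha, dist_zero_left, norm_pow] at hd
    exact hd
  have hgc : ∀ j, ContinuousOn (g j) {ζ | ‖ζ‖ ^ n j < R} := by
    intro j ζ hζ
    by_cases h0 : ζ = 0
    · subst h0
      apply ContinuousAt.continuousWithinAt
      rw [ContinuousAt, hgz, tendsto_iff_dist_tendsto_zero]
      have hlim : Tendsto (fun ζ : ℂ => C * (‖ζ‖ ^ n j) ^ b) (𝓝 0) (𝓝 0) := by
        have h1 : ContinuousAt (fun ζ : ℂ => C * (‖ζ‖ ^ n j) ^ b) 0 := by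
          refine continuousAt_const.mul ?_
          exact ContinuousAt.rpow_const (by fun_prop) (Or.inr h.b0.le)
        have h2 := h1.tendsto
        rwa [norm_zero, zero_pow (hn j).ne', Real.zero_rpow h.b0.ne', mul_zero] at h2
      refine squeeze_zero' (Eventually.of_forall fun _ => dist_nonneg) ?_ hlim
      filter_upwards [(hopen j).mem_nhds hζ] with ζ hζ
      exact hbd j ζ hζ
    · have hop : IsOpen {ζ : ℂ | ζ ≠ 0 ∧ ‖ζ‖ ^ n j < R} := isOpen_ne.inter (hopen j)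
      have h1 : ContinuousAt (g0 j) ζ := (hg0 j).continuousAt (hop.mem_nhds ⟨h0, hζ⟩)
      refine (h1.congr ?_).continuousWithinAt
      filter_upwards [isOpen_ne.mem_nhds h0] with ζ' hζ'
      exact (hgn j ζ' hζ').symm
  refine ⟨J, n, g, hn, hgz, hgc, hmem, ?_, ?_, ?_, ?_⟩
  · -- all values
    intro y hy w hw
    by_cases h0 : y = 0
    · subst h0
      rw [h.zero] at hw
      have hJ : 0 < J := by
        rcases Nat.eq_zero_or_pos J with hJ | hJ
        · exfalso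
          subst hJ
          simp only [Finset.univ_eq_empty, Finset.sum_empty] at hsum
          exact h.k0.ne hsum
        · exact hJ
      exact ⟨⟨0, hJ⟩, 0, zero_pow (hn _).ne', by rw [hgz, Multiset.eq_of_mem_replicate hw]⟩
    · rw [hs y hy] at hw
      obtain ⟨i, -, hi⟩ := Multiset.mem_map.1 hw
      obtain ⟨j, ζ, h1, h2⟩ := hall y ⟨hy, h0⟩ i
      have hζ : ζ ≠ 0 := by
        rintro rfl
        rw [zero_pow (hn j).ne'] at h1
        exact h0 h1.symm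
      exact ⟨j, ζ, h1, by rw [hgn j ζ hζ, h2, hi]⟩
  · -- injectivity
    intro j j' ζ ζ' hζ hpe hge
    by_cases h0 : ζ = 0
    · right
      refine ⟨h0, ?_⟩
      rw [h0, zero_pow (hn j).ne'] at hpe
      exact pow_eq_zero_iff (hn j').ne' |>.1 hpe.symm
    · left
      have h0' : ζ' ≠ 0 := by
        rintro rfl
        rw [zero_pow (hn j').ne'] at hpe
        exact h0 (pow_eq_zero_iff (hn j).ne' |>.1 hpe)
      rw [hgn j ζ h0, hgn j' ζ' h0'] at hge
      exact hinj0 j j' ζ ζ' h0 hζ hpe hge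
  · -- Hölder
    intro j
    set r := min 1 R with hr
    have hr0 : 0 < r := lt_min one_pos h.R0
    have hsub : ∀ ζ ∈ ball (0 : ℂ) r, ‖ζ‖ ^ n j < R := by
      intro ζ hζ
      rw [mem_ball_zero_iff] at hζ
      calc ‖ζ‖ ^ n j ≤ ‖ζ‖ ^ 1 :=
            pow_le_pow_of_le_one (norm_nonneg _) (hζ.le.trans (min_le_left _ _)) (hn j)
        _ = ‖ζ‖ := pow_one _
        _ < R := lt_of_lt_of_le hζ (min_le_right _ _)
    refine ⟨r, hr0, 2 * k * (C * (n j : ℝ) ^ b), ?_, ?_⟩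
    · have := h.C0
      positivity
    · exact h.branch_hold (min_le_left _ _) (min_le_right _ _) (hn j)
        ((hgc j).mono hsub) (fun s hs' => hmem j s (hsub s hs'))
  · -- equation
    intro j s0 hs0 hsR
    have hy0 : s0 ^ n j ≠ 0 := pow_ne_zero _ hs0
    obtain ⟨r, hr, f, hf, hTf⟩ := h.sheets (s0 ^ n j) (hpow _ _ hsR) hy0
    have hev : ∀ᶠ x in 𝓝 s0, x ^ n j ∈ ball (s0 ^ n j) r ∧ ‖x‖ ^ n j < R := by
      refine (?_ : ∀ᶠ x in 𝓝 s0, x ^ n j ∈ ball (s0 ^ n j) r).and ((hopen j).mem_nhds hsR)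
      exact (continuous_pow (n j)).continuousAt.eventually_mem (ball_mem_nhds _ hr)
    have hmem0 : s0 ^ n j ∈ ball (s0 ^ n j) r := mem_ball_self hr
    obtain ⟨i, hi⟩ := Mono_659.eventually_sheet (g j) (fun i x => f i (x ^ n j)) s0
      ((hgc j).continuousAt ((hopen j).mem_nhds hsR))
      (fun i => ContinuousAt.comp (f := fun x : ℂ => x ^ n j) (hf i _ hmem0).1.continuousAt
        (continuous_pow (n j)).continuousAt)
      (by
        have := h.nodup _ (hpow _ _ hsR) hy0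
        rw [hTf _ hmem0] at this
        exact LocSel_483.inj_of_nodup this)
      (by
        filter_upwards [hev] with x hx
        have h1 := hmem j x hx.2
        rw [hTf _ hx.1] at h1
        obtain ⟨i, -, hi⟩ := Multiset.mem_map.1 h1
        exact ⟨i, hi⟩)
    obtain ⟨hd, hpde⟩ := hf i _ hmem0
    obtain ⟨c1, c2, c3⟩ := dz_pow_comp (n := n j) hd
    have hi' : g j =ᶠ[𝓝 s0] (fun x => f i (x ^ n j)) := hi
    have hfe : fderiv ℝ (g j) s0 = fderiv ℝ (fun x => f i (x ^ n j)) s0 := hi'.fderiv_eq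
    have hge : g j s0 = f i (s0 ^ n j) := hi'.self_of_nhds
    refine ⟨(c1.congr_of_eventuallyEq hi'), ?_⟩
    have e1 : dz (g j) s0 = dz (fun x => f i (x ^ n j)) s0 := by simp only [dz]; rw [hfe]
    have e2 : dzb (g j) s0 = dzb (fun x => f i (x ^ n j)) s0 := by simp only [dzb]; rw [hfe]
    rw [e1, e2, c2, c3, hge, hpde]
    have h5 : (conj s0 / s0) ^ (n j - 1) * s0 ^ (n j - 1) = conj s0 ^ (n j - 1) := by
      rw [← mul_pow, div_mul_cancel₀ _ hs0]
    simp only [map_mul, map_pow, map_natCast]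
    linear_combination (-(mu (s0 ^ n j, f i (s0 ^ n j)) * dz (f i) (s0 ^ n j) * (n j : ℂ))) * h5

end

end

end Crest.Agent.R235.EndE_745
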