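import Crest.Agent.R235.EndE_745
import Crest.Agent.R235.LocClus_305

/-!
Row 235, package REG, leaf REG-END (helper745), part 6: from `Loc.KG` to the reduced data `RG`
(cluster, base change).
-/

set_option autoImplicit false

open Complex Metric Set Filter Topology
open scoped ContDiff ComplexConjugate

namespace Crest.Agent.R235.EndF_745

open Crest.Agent.R235.NWDefs_334 Crest.Agent.R235.NWIface_334 Crest.Agent.R235.EndA_745
open Crest.Agent.R235.Loc Crest.Agent.R235.End Crest.Agent.R235.EndD_745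
open Crest.Agent.R235.EndE_745

noncomputable section

/-- `Li` as a continuous linear map. -/
def Lic (m : ℂ) : ℂ →L[ℝ] ℂ := LinearMap.toContinuousLinearMap
  { toFun := Li m
    map_add' := fun x y => by simp only [Li, map_add]; ring
    map_smul' := fun r x => by
      simp only [Li, Complex.real_smul, map_mul, Complex.conj_ofReal, RingHom.id_apply]; ring }

theorem Lic_apply (m y : ℂ) : Lic m y = Li m y := rfl

theorem Li_norm_le (m y : ℂ) : ‖Li m y‖ ≤ (‖Lic m‖ + 1) * ‖y‖ := by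
  rw [← Lic_apply]
  refine ((Lic m).le_opNorm y).trans ?_
  exact mul_le_mul_of_nonneg_right (by linarith) (norm_nonneg _)

theorem dl_Lic (m : ℂ) : dl (Lic m) = 1 / den m ∧ dbl (Lic m) = - m / den m := by
  apply dl_of_apply
  intro v
  rw [Lic_apply]
  simp only [Li]; ring

theorem comp_Li {w : ℂ → ℂ} {m p y : ℂ} (hw : DifferentiableAt ℝ w (p + Li m y)) :
    DifferentiableAt ℝ (fun y => w (p + Li m y)) y ∧
    dz (fun y => w (p + Li m y)) y =
      (dz w (p + Li m y) - conj m * dzb w (p + Li m y)) / den m ∧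
    dzb (fun y => w (p + Li m y)) y =
      (dzb w (p + Li m y) - m * dz w (p + Li m y)) / den m := by
  have h1 : HasFDerivAt (fun y => p + Li m y) (Lic m) y := (Lic m).hasFDerivAt.const_add p
  have h2 : HasFDerivAt (fun y => w (p + Li m y)) ((fderiv ℝ w (p + Li m y)).comp (Lic m)) y :=
    HasFDerivAt.comp (f := fun y => p + Li m y) y hw.hasFDerivAt h1
  refine ⟨h2.differentiableAt, ?_⟩
  have h3 := dl_comp (fderiv ℝ w (p + Li m y)) (Lic m)
  have h4 := dl_Lic m
  simp only [dz, dzb]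
  rw [h2.fderiv, h3.1, h3.2, h4.1, h4.2]
  simp only [map_div₀, map_neg, map_one, conj_den]
  constructor <;> ring

theorem pde_Li {μ β : ℂ × ℂ → ℂ} (h : ∀ x, ‖μ x‖ < 1) {w : ℂ → ℂ} {m p y : ℂ} (hm : ‖m‖ < 1)
    (hw : DifferentiableAt ℝ w (p + Li m y))
    (he : dzb w (p + Li m y) = μ (p + Li m y, w (p + Li m y)) * dz w (p + Li m y) -
      β (p + Li m y, w (p + Li m y))) :
    dzb (fun y => w (p + Li m y)) y =
      mu' m p μ (y, w (p + Li m y)) * dz (fun y => w (p + Li m y)) y -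
        be' m p μ β (y, w (p + Li m y)) := by
  obtain ⟨_, h2, h3⟩ := comp_Li hw
  rw [h2, h3, he]
  simp only [mu', be']
  set q := μ (p + Li m y, w (p + Li m y)) with hq
  set b := β (p + Li m y, w (p + Li m y)) with hb
  set d := dz w (p + Li m y) with hd
  have hqn : ‖q‖ < 1 := h _
  have hdn := den_ne hm
  have e1 : 1 - q * conj m ≠ 0 := by rw [mul_comm]; exact den_pos_ne hm hqn
  rw [mul_comm (conj m) q]
  field_simp
  simp only [den]
  ring

theorem close_mono {ε ε' : ℝ} (h : ε ≤ ε') {s t : Multiset ℂ} (hs : Close ε s t) :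
    Close ε' s t :=
  Multiset.Rel.mono hs fun _ _ _ _ hab => hab.trans h

/-- **reduction** -/
theorem reduce {μ β : ℂ × ℂ → ℂ} {κ L : ℝ} (hB : BoxD μ β κ L) {c : ℂ} {R : ℝ} {k : ℕ}
    {S : ℂ → Multiset ℂ} {e : ℂ → ℝ} (hK : KG μ β c R k S e) {p : ℂ} (hp : p ∈ ball c R)
    {C b r : ℝ} (hb : 0 < b) (hr : 0 < r)
    (hold : ∀ z ∈ ball p r, ∀ z' ∈ ball p r, Close (C * dist z z' ^ b) (S z) (S z'))
    (hnd : ∀ᶠ z in 𝓝[≠] p, (S z).Nodup) {w0 : ℂ} (hw0 : w0 ∈ S p) {ε0 : ℝ} (hε0 : 0 < ε0) :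
    ∃ (ε Ry C' : ℝ) (k' : ℕ), 0 < ε ∧ ε ≤ ε0 ∧ (∀ y ∈ ball (0 : ℂ) Ry,
        p + Li (μ (p, w0)) y ∈ ball c R ∧ dist (p + Li (μ (p, w0)) y) p < ε0 ∧
        (y ≠ 0 → (S (p + Li (μ (p, w0)) y)).Nodup)) ∧
      RG (mu' (μ (p, w0)) p μ) (be' (μ (p, w0)) p μ β)
        (fun y => (S (p + Li (μ (p, w0)) y)).filter (fun b => dist b w0 < ε)) k' Ry C' b w0 := by
  have hμ1 : ∀ x, ‖μ x‖ < 1 := fun x => (hB.bμ x).trans_lt hB.κ1
  set m := μ (p, w0) with hm_def
  have hm : ‖m‖ < 1 := hμ1 _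
  obtain ⟨ε, r1, hε, hεε0, hr1, hsub1, hK', hrep, hsep, -, -⟩ :=
    LocClus_305.clus μ β κ L hB c R k S e hK p hp w0 hw0 ε0 hε0
  obtain ⟨r2, hr2, hnd2⟩ : ∃ r2 > 0, ∀ z ∈ ball p r2, z ≠ p → (S z).Nodup := by
    rw [eventually_nhdsWithin_iff, Metric.eventually_nhds_iff_ball] at hnd
    obtain ⟨r2, hr2, H⟩ := hnd
    exact ⟨r2, hr2, fun z hz hzp => H z hz hzp⟩
  set C0 := max C 0 with hC0
  have hC00 : 0 ≤ C0 := le_max_right _ _
  obtain ⟨r3, hr3, hC3⟩ : ∃ r3 > 0, ∀ t : ℝ, 0 ≤ t → t ≤ 2 * r3 → C0 * t ^ b < ε := by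
    have hlim : Tendsto (fun t : ℝ => C0 * t ^ b) (𝓝 0) (𝓝 0) := by
      have h1 : ContinuousAt (fun t : ℝ => C0 * t ^ b) 0 := by
        refine continuousAt_const.mul ?_
        exact ContinuousAt.rpow_const continuousAt_id (Or.inr hb.le)
      have h2 := h1.tendsto
      simpa [Real.zero_rpow hb.ne'] using h2
    obtain ⟨δ, hδ, H⟩ := Metric.eventually_nhds_iff.1 (hlim.eventually_lt_const hε)
    refine ⟨δ / 4, by positivity, fun t ht0 ht => H ?_⟩
    rw [Real.dist_eq, sub_zero, abs_of_nonneg ht0]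
    linarith
  set r4 := min (min r1 r2) (min (min r r3) ε0) with hr4
  have hr40 : 0 < r4 := by
    rw [hr4]; exact lt_min (lt_min hr1 hr2) (lt_min (lt_min hr hr3) hε0)
  have h41 : r4 ≤ r1 := (min_le_left _ _).trans (min_le_left _ _)
  have h42 : r4 ≤ r2 := (min_le_left _ _).trans (min_le_right _ _)
  have h43 : r4 ≤ r := (min_le_right _ _).trans ((min_le_left _ _).trans (min_le_left _ _))
  have h44 : r4 ≤ r3 := (min_le_right _ _).trans ((min_le_left _ _).trans (min_le_right _ _))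
  have h45 : r4 ≤ ε0 := (min_le_right _ _).trans (min_le_right _ _)
  set cL := ‖Lic m‖ + 1 with hcL
  have hcL0 : 0 < cL := by positivity
  set Ry := r4 / cL with hRy
  have hRy0 : 0 < Ry := by positivity
  have hin : ∀ y ∈ ball (0 : ℂ) Ry, p + Li m y ∈ ball p r4 := by
    intro y hy
    rw [mem_ball, dist_eq_norm, add_sub_cancel_left]
    rw [mem_ball_zero_iff, hRy, lt_div_iff₀ hcL0] at hy
    refine (Li_norm_le m y).trans_lt ?_
    rw [mul_comm]; exact hy
  have hne : ∀ y : ℂ, y ≠ 0 → p + Li m y ≠ p := by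
    intro y hy h
    have h1 : Li m y = 0 := by linear_combination h
    apply hy
    rw [← Lb_Li hm y, h1, Lb_zero]
  have hP : ∀ z ∈ ball p r1, ∀ z' ∈ ball p r1, ∀ x ∈ S z, ∀ x' ∈ S z', dist x x' < ε →
      (dist x w0 < ε ↔ dist x' w0 < ε) := by
    intro z hz z' hz' x hx x' hx' hxx
    have key : ∀ z ∈ ball p r1, ∀ z' ∈ ball p r1, ∀ x ∈ S z, ∀ x' ∈ S z', dist x x' < ε →
        dist x w0 < ε → dist x' w0 < ε := by
      intro z _ z' hz' x _ x' hx' hxx h1
      rcases hsep z' hz' x' hx' with h2 | h2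
      · exact h2
      · exfalso
        have h3 := dist_triangle x' x w0
        rw [dist_comm x' x] at h3
        linarith
    exact ⟨key z hz z' hz' x hx x' hx' hxx, key z' hz' z hz x' hx' x hx (by rwa [dist_comm])⟩
  have hcard1 : 0 < (S p).count w0 := Multiset.count_pos.2 hw0
  refine ⟨ε, Ry, C0 * cL ^ b, (S p).count w0, hε, hεε0, ?_, ?_⟩
  · intro y hy
    have h1 := hin y hy
    refine ⟨hsub1 (ball_subset_ball h41 h1), lt_of_lt_of_le (mem_ball.1 h1) h45, fun hy0 => ?_⟩
    exact hnd2 _ (ball_subset_ball h42 h1) (hne y hy0)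
  refine ⟨hRy0, by positivity, hb, hcard1, ?_, ?_, ?_, ?_, ?_⟩
  · intro y hy
    exact hK'.card _ (ball_subset_ball h41 (hin y hy))
  · intro y hy y' hy'
    have hz := hin y hy
    have hz' := hin y' hy'
    have hd0 : dist (p + Li m y) (p + Li m y') ≤ cL * dist y y' := by
      rw [dist_eq_norm, dist_eq_norm]
      have h1 : p + Li m y - (p + Li m y') = Li m (y - y') := by rw [Li_sub]; ring
      rw [h1]
      exact Li_norm_le m _
    have hd2 : dist (p + Li m y) (p + Li m y') ≤ 2 * r3 := by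
      have h1 := dist_triangle_right (p + Li m y) (p + Li m y') p
      have h2 := mem_ball.1 hz
      have h3 := mem_ball.1 hz'
      linarith
    have h1 := hold _ (ball_subset_ball h43 hz) _ (ball_subset_ball h43 hz')
    have h2 : Close (C0 * dist (p + Li m y) (p + Li m y') ^ b) (S (p + Li m y))
        (S (p + Li m y')) :=
      close_mono (mul_le_mul_of_nonneg_right (le_max_left _ _)
        (Real.rpow_nonneg dist_nonneg _)) h1
    have h3 := LocClus_305.rel_filter (P := fun b => dist b w0 < ε) h2 (fun x hx x' hx' hxx =>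
      hP _ (ball_subset_ball h41 hz) _ (ball_subset_ball h41 hz') x hx x' hx'
        (lt_of_le_of_lt hxx (hC3 _ dist_nonneg hd2)))
    refine close_mono ?_ h3
    calc C0 * dist (p + Li m y) (p + Li m y') ^ b ≤ C0 * (cL * dist y y') ^ b :=
          mul_le_mul_of_nonneg_left (Real.rpow_le_rpow dist_nonneg hd0 hb.le) hC00
      _ = C0 * cL ^ b * dist y y' ^ b := by
          rw [Real.mul_rpow hcL0.le dist_nonneg]; ring
  · simp only [Li_zero, add_zero]
    exact hrep
  · intro y hy hy0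
    exact Multiset.Nodup.filter _ (hnd2 _ (ball_subset_ball h42 (hin y hy)) (hne y hy0))
  · intro y hy hy0
    have hz := hin y hy
    have hU : p + Li m y ∈ Usimp p r1 (fun z => (S z).filter (fun b => dist b w0 < ε)) :=
      ⟨ball_subset_ball h41 hz,
        Multiset.Nodup.filter _ (hnd2 _ (ball_subset_ball h42 hz) (hne y hy0))⟩
    obtain ⟨ρ, w, hρ, hsubU, hsh, hwC, -, hSw, -⟩ :=
      (LocSel_483.sel μ β κ L hB p r1 _ _ e hK').2 _ hU
    refine ⟨ρ / cL, by positivity, fun i y => w i (p + Li m y), ?_, ?_⟩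
    · intro i y' hy'
      have hz' : p + Li m y' ∈ ball (p + Li m y) ρ := by
        rw [mem_ball, dist_eq_norm]
        have h1 : p + Li m y' - (p + Li m y) = Li m (y' - y) := by rw [Li_sub]; ring
        rw [h1]
        rw [mem_ball, dist_eq_norm, lt_div_iff₀ hcL0] at hy'
        refine (Li_norm_le m _).trans_lt ?_
        rw [mul_comm]; exact hy'
      have hwd : DifferentiableAt ℝ (w i) (p + Li m y') :=
        ((hwC i).differentiableOn (by simp)).differentiableAt
          (isOpen_ball.mem_nhds hz')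
      have hpde := hK'.pde _ _ (fun z hz => (hsubU hz).1) (hsh i) _ hz'
      rw [lz_eq, lzb_eq] at hpde
      refine ⟨(comp_Li hwd).1, ?_⟩
      exact pde_Li hμ1 hm hwd hpde
    · intro y' hy'
      have hz' : p + Li m y' ∈ ball (p + Li m y) ρ := by
        rw [mem_ball, dist_eq_norm]
        have h1 : p + Li m y' - (p + Li m y) = Li m (y' - y) := by rw [Li_sub]; ring
        rw [h1]
        rw [mem_ball, dist_eq_norm, lt_div_iff₀ hcL0] at hy'
        refine (Li_norm_le m _).trans_lt ?_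
        rw [mul_comm]; exact hy'
      exact hSw _ hz'

end

end Crest.Agent.R235.EndF_745
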