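import Crest.Agent.R235.End_745
import Crest.Agent.R235.NWRegF_930

/-!
Row 235, package REG: `END` unconditionally.
-/

set_option autoImplicit false

namespace Crest.Agent.R235.EndFin_745

open Crest.Agent.R235.End

/-- **END** -/
theorem end_stmt : END := End_745.end_of_reg NWRegF_930.reg_stmt

end Crest.Agent.R235.EndFin_745
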