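import Crest.Agent.R235.EndF_745

/-!
Row 235, package REG, leaf REG-END (helper745), part 7: one branch = one `J`-disc; the
neighbourhood `U`.
-/

set_option autoImplicit false

open Complex Metric Set Filter Topology
open scoped ContDiff ComplexConjugate

namespace Crest.Agent.R235.EndG_745

open Crest.Agent.R235.NWDefs_334 Crest.Agent.R235.NWIface_334 Crest.Agent.R235.EndA_745
open Crest.Agent.R235.Loc Crest.Agent.R235.End Crest.Agent.R235.EndD_745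
open Crest.Agent.R235.EndE_745 Crest.Agent.R235.EndF_745

noncomputable section

theorem inj_fderiv {K : ℂ ≃ₜ ℂ} (hK : Differentiable ℝ K)
    (he : ∀ t, ∃ e : ℂ ≃L[ℝ] ℂ, (e : ℂ →L[ℝ] ℂ) = fderiv ℝ K t) (K0 : K 0 = 0) {n : ℕ}
    (hn : 0 < n) {m p t : ℂ} (hm : ‖m‖ < 1) (ht : t ≠ 0) (v : ℂ)
    (hv : fderiv ℝ (fun t => p + Li m (K t ^ n)) t v = 0) : v = 0 := by
  have hKt : K t ≠ 0 := by
    intro h0
    exact ht (K.injective (h0.trans K0.symm))
  have hpd : DifferentiableAt ℝ (fun t => K t ^ n) t := (hK t).pow n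
  have h1 : HasFDerivAt (fun t => p + Li m (K t ^ n))
      ((Lic m).comp (fderiv ℝ (fun t => K t ^ n) t)) t :=
    ((Lic m).hasFDerivAt.comp t hpd.hasFDerivAt).const_add p
  rw [h1.fderiv, ContinuousLinearMap.comp_apply, Lic_apply] at hv
  have h2 : fderiv ℝ (fun t => K t ^ n) t v = 0 := by
    rw [← Lb_Li hm (fderiv ℝ (fun t => K t ^ n) t v), hv, Lb_zero]
  have h3 := EndC_745.dz_pow (hK t) n
  rw [apply_eq] at h2
  simp only [dz, dzb] at h3
  rw [h3.1, h3.2] at h2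
  have h4 : (n * K t ^ (n - 1)) * fderiv ℝ K t v = 0 := by
    rw [apply_eq (fderiv ℝ K t)]
    linear_combination h2
  have h5 : (n : ℂ) * K t ^ (n - 1) ≠ 0 :=
    mul_ne_zero (by exact_mod_cast hn.ne') (pow_ne_zero _ hKt)
  have h6 : fderiv ℝ K t v = 0 := (mul_eq_zero.1 h4).resolve_left h5
  obtain ⟨e, he⟩ := he t
  rw [← he] at h6
  exact e.map_eq_zero_iff.1 h6

/-- **one branch is one `J`-disc** -/
theorem disc_of_branch (hBel : BelStmt) (hKP : KPStmt) (hReg : RegStmt) {μ β : ℂ × ℂ → ℂ}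
    (hμ1 : ∀ x, ‖μ x‖ < 1) (hμ : ContDiff ℝ ∞ μ) (hβ : ContDiff ℝ ∞ β) {p w0 : ℂ} {n : ℕ}
    (hn : 0 < n) {g : ℂ → ℂ} {b : ℝ} (hb : 0 < b) (hg : HG b g) (hg0 : g 0 = w0) {r : ℝ}
    (hr : 0 < r)
    (hpde : ∀ s ∈ ball (0 : ℂ) r, s ≠ 0 → DifferentiableAt ℝ g s ∧
      dzb g s = mu' (μ (p, w0)) p μ (s ^ n, g s) * (conj s / s) ^ (n - 1) * dz g s -
        be' (μ (p, w0)) p μ β (s ^ n, g s) * (n * conj s ^ (n - 1))) :
    ∃ (K : ℂ ≃ₜ ℂ), K 0 = 0 ∧ ∃ ρ > 0,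
      ContDiffOn ℝ ∞ (fun t => (p + Li (μ (p, w0)) (K t ^ n), g (K t))) (ball 0 ρ) ∧
      (∀ z ∈ ball (0 : ℂ) ρ, ∀ v : ℂ,
        (fderiv ℝ (fun t => (p + Li (μ (p, w0)) (K t ^ n), g (K t))) z (I * v)).1 +
          μ (p + Li (μ (p, w0)) (K z ^ n), g (K z)) *
            conj (fderiv ℝ (fun t => (p + Li (μ (p, w0)) (K t ^ n), g (K t))) z (I * v)).1 =
        I * ((fderiv ℝ (fun t => (p + Li (μ (p, w0)) (K t ^ n), g (K t))) z v).1 +
          μ (p + Li (μ (p, w0)) (K z ^ n), g (K z)) *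
            conj (fderiv ℝ (fun t => (p + Li (μ (p, w0)) (K t ^ n), g (K t))) z v).1)) ∧
      (∀ z ∈ ball (0 : ℂ) ρ, ∀ v : ℂ,
        (fderiv ℝ (fun t => (p + Li (μ (p, w0)) (K t ^ n), g (K t))) z (I * v)).2 +
          β (p + Li (μ (p, w0)) (K z ^ n), g (K z)) *
            conj (fderiv ℝ (fun t => (p + Li (μ (p, w0)) (K t ^ n), g (K t))) z (I * v)).1 =
        I * ((fderiv ℝ (fun t => (p + Li (μ (p, w0)) (K t ^ n), g (K t))) z v).2 +
          β (p + Li (μ (p, w0)) (K z ^ n), g (K z)) *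
            conj (fderiv ℝ (fun t => (p + Li (μ (p, w0)) (K t ^ n), g (K t))) z v).1)) ∧
      (∀ z ∈ ball (0 : ℂ) ρ, z ≠ 0 → ∀ v : ℂ,
        (fderiv ℝ (fun t => (p + Li (μ (p, w0)) (K t ^ n), g (K t))) z v).1 = 0 → v = 0) := by
  set m := μ (p, w0) with hm_def
  have hm : ‖m‖ < 1 := hμ1 _
  set b' := min b (1 / 2) with hb'
  have hb0 : 0 < b' := lt_min hb (by norm_num)
  have hb1 : b' < 1 := (min_le_right _ _).trans_lt (by norm_num)
  have hmu0 : mu' m p μ (0, g 0) = 0 := by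
    simp only [mu', Li_zero, add_zero, hg0]
    rw [← hm_def, sub_self, zero_div]
  have hmuC : ContDiff ℝ 1 (mu' m p μ) := (contDiff_mu' hm hμ hμ1).of_le (by exact_mod_cast le_top)
  have hbeC : ContDiff ℝ 1 (be' m p μ β) :=
    (contDiff_be' hm hμ hβ hμ1).of_le (by exact_mod_cast le_top)
  obtain ⟨K, hKC, -, hK0, -, hKe, -, ρ, hρ, hgK, he1, he2⟩ :=
    EndC_745.branch hBel hKP hn hmuC hbeC hb0 hb1 (hg.mono hb0 (min_le_left _ _)) hmu0 hr
      (fun s hs hs0 => (hpde s hs hs0).1) (fun s hs hs0 => (hpde s hs hs0).2)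
  have hKd : Differentiable ℝ K := hKC.differentiable (by norm_num)
  have hYC : ContDiff ℝ 1 (fun t => K t ^ n) := hKC.pow n
  have haC : ContDiff ℝ 1 (fun t => p + Li m (K t ^ n)) :=
    contDiff_const.add ((contDiff_Li m).comp hYC)
  have haD : Differentiable ℝ (fun t => p + Li m (K t ^ n)) := haC.differentiable (by norm_num)
  have hgD : ∀ t ∈ ball (0 : ℂ) ρ, DifferentiableAt ℝ (fun t => g (K t)) t := fun t ht =>
    (hgK.differentiableOn (by norm_num)).differentiableAt (isOpen_ball.mem_nhds ht)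
  have hjeq : ∀ t ∈ ball (0 : ℂ) ρ, ∀ v : ℂ, _ := fun t ht v =>
    have h1 := basechange (p := p) hm hμ1 (β := β) (G := fun t => g (K t))
      ((hYC.differentiable (by norm_num)) t) (he1 t ht) (he2 t ht)
    jeq_of_dzb (μ := μ) (β := β) (haD t) (hgD t ht) h1.1 h1.2 v
  have hC1 : ContDiffOn ℝ 1 (fun t => (p + Li m (K t ^ n), g (K t))) (ball 0 ρ) :=
    haC.contDiffOn.prodMk hgK
  refine ⟨K, hK0, ρ, hρ, ?_, fun t ht v => (hjeq t ht v).1, fun t ht v => (hjeq t ht v).2, ?_⟩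
  · exact disc_smooth hReg hμ hβ hμ1 isOpen_ball hC1 (fun t ht v => (hjeq t ht v).1)
      (fun t ht v => (hjeq t ht v).2)
  · intro t ht ht0 v hv
    apply inj_fderiv hKd hKe hK0 hn hm ht0 v (p := p)
    rw [fderiv_pair (haD t) (hgD t ht)] at hv
    rw [apply_eq]
    exact hv

/-! ### the neighbourhood -/

/-- abstract construction of the neighbourhood. -/
theorem exists_U {J : ℕ} {X : Type*} [MetricSpace X] {G W : Set X} {P : X} (hW : IsOpen W)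
    (hPW : P ∈ W) (U : Fin J → ℂ → X) (E : Fin J → Set ℂ) (hE : ∀ j, IsCompact (E j))
    (hU : ∀ j, ContinuousOn (U j) (E j)) (hU0 : ∀ j, U j 0 = P)
    (hUG : ∀ j, ∀ t ∈ E j, U j t ∈ G)
    (hinj : ∀ i j, ∀ t ∈ E i, ∀ t' ∈ E j, U i t = U j t' → (i = j ∧ t = t') ∨ (t = 0 ∧ t' = 0))
    (hcov : ∀ q ∈ G ∩ W, ∃ j, ∃ t ∈ E j, U j t = q) (ρ : Fin J → ℝ) (hρ : ∀ j, 0 < ρ j)
    (hρE : ∀ j, closedBall 0 (ρ j) ⊆ E j) (hρW : ∀ j, ∀ t ∈ ball (0 : ℂ) (ρ j), U j t ∈ W) :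
    ∃ O : Set X, IsOpen O ∧ P ∈ O ∧ O ⊆ W ∧ G ∩ O = ⋃ j, U j '' ball 0 (ρ j) ∧
      ∀ j, ∀ K : Set X, IsCompact K → K ⊆ O →
        ∃ r < ρ j, ∀ t ∈ ball (0 : ℂ) (ρ j), U j t ∈ K → ‖t‖ ≤ r := by
  set F : Set X := ⋃ j, U j '' (E j \ ball 0 (ρ j)) with hF
  have hFc : IsClosed F := by
    apply isClosed_iUnion_of_finite
    intro j
    apply IsCompact.isClosed
    exact ((hE j).diff isOpen_ball).image_of_continuousOn ((hU j).mono diff_subset)
  have h0E : ∀ j, (0 : ℂ) ∈ E j := fun j => hρE j (mem_closedBall_self (hρ j).le)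
  have hPF : P ∉ F := by
    intro h
    obtain ⟨j, t, ht, hte⟩ := mem_iUnion.1 h
    rcases hinj j j t ht.1 0 (h0E j) (hte.trans (hU0 j).symm) with h1 | h1
    · exact ht.2 (by rw [h1.2]; exact mem_ball_self (hρ j))
    · exact ht.2 (by rw [h1.1]; exact mem_ball_self (hρ j))
  have hnF : ∀ j, ∀ t ∈ ball (0 : ℂ) (ρ j), U j t ∉ F := by
    intro j t ht h
    obtain ⟨i, t', ht', hte⟩ := mem_iUnion.1 h
    rcases hinj i j t' ht'.1 t (hρE j (ball_subset_closedBall ht)) hte with h1 | h1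
    · obtain ⟨rfl, rfl⟩ := h1
      exact ht'.2 ht
    · exact ht'.2 (by rw [h1.1]; exact mem_ball_self (hρ i))
  refine ⟨W \ F, hW.sdiff hFc, ⟨hPW, hPF⟩, diff_subset, ?_, ?_⟩
  · ext q
    constructor
    · rintro ⟨hqG, hqW, hqF⟩
      obtain ⟨j, t, ht, hte⟩ := hcov q ⟨hqG, hqW⟩
      refine mem_iUnion.2 ⟨j, t, ?_, hte⟩
      by_contra hb
      exact hqF (mem_iUnion.2 ⟨j, t, ⟨ht, hb⟩, hte⟩)
    · intro h
      obtain ⟨j, t, ht, rfl⟩ := mem_iUnion.1 h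
      exact ⟨hUG j t (hρE j (ball_subset_closedBall ht)), hρW j t ht, hnF j t ht⟩
  · intro j K hK hKO
    set A : Set ℂ := closedBall 0 (ρ j) ∩ U j ⁻¹' K with hA
    have hAc : IsCompact A := by
      have h1 : IsClosed A :=
        ((hU j).mono (hρE j)).preimage_isClosed_of_isClosed isClosed_closedBall hK.isClosed
      exact (isCompact_closedBall (0 : ℂ) (ρ j)).of_isClosed_subset h1 inter_subset_left
    rcases A.eq_empty_or_nonempty with hA0 | hAn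
    · refine ⟨0, hρ j, fun t ht htK => ?_⟩
      have : t ∈ A := ⟨ball_subset_closedBall ht, htK⟩
      rw [hA0] at this
      exact this.elim
    · obtain ⟨t0, ht0, hmax⟩ := hAc.exists_isMaxOn hAn (continuous_norm.continuousOn)
      refine ⟨‖t0‖, ?_, fun t ht htK => hmax ⟨ball_subset_closedBall ht, htK⟩⟩
      by_contra hge
      have h1 : U j t0 ∈ F :=
        mem_iUnion.2 ⟨j, t0, ⟨hρE j ht0.1, fun hb => hge (mem_ball_zero_iff.1 hb)⟩, rfl⟩
      exact (hKO ht0.2).2 h1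

end

end Crest.Agent.R235.EndG_745
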