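import Crest.Agent.R235.EndG_745

/-!
Row 235, package REG, leaf REG-END (helper745), part 8: assembly of the local form (without the
formula for the current).
-/

set_option autoImplicit false

open Complex Metric Set Filter Topology
open scoped ContDiff ComplexConjugate

namespace Crest.Agent.R235.EndH_745

open Crest.Agent.R235.NWDefs_334 Crest.Agent.R235.NWIface_334 Crest.Agent.R235.EndA_745
open Crest.Agent.R235.Loc Crest.Agent.R235.End Crest.Agent.R235.EndD_745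
open Crest.Agent.R235.EndE_745 Crest.Agent.R235.EndF_745 Crest.Agent.R235.EndG_745

noncomputable section

/-- all fields of `PLoc` except `cur`, and two additional facts. -/
structure PL0 (μ β : ℂ × ℂ → ℂ) (S : ℂ → Multiset ℂ) (P : ℂ × ℂ) (V : Set (ℂ × ℂ))
    (U : Set (ℂ × ℂ)) (n : ℕ) (u : Fin n → ℂ → ℂ × ℂ) : Prop where
  openU : IsOpen U
  mem : P ∈ U
  sub : U ⊆ V
  disc : ∀ j, PDisc μ β (u j)
  centre : ∀ j, u j 0 = P
  disj : ∀ i j, i ≠ j → ∀ z ∈ ball (0 : ℂ) 1, ∀ w ∈ ball (0 : ℂ) 1, u i z = u j w → z = 0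
  supp : {q : ℂ × ℂ | q.2 ∈ S q.1} ∩ U = ⋃ j, u j '' ball (0 : ℂ) 1
  proper : ∀ j, ∀ K : Set (ℂ × ℂ), IsCompact K → K ⊆ U →
    ∃ r < (1 : ℝ), ∀ z ∈ ball (0 : ℂ) 1, u j z ∈ K → ‖z‖ ≤ r
  ne : ∀ j, ∀ t ∈ ball (0 : ℂ) 1, t ≠ 0 → (u j t).1 ≠ P.1
  imm1 : ∀ j, ∀ t ∈ ball (0 : ℂ) 1, t ≠ 0 → ∀ v : ℂ, (fderiv ℝ (u j) t v).1 = 0 → v = 0
  nodup : ∀ q ∈ U, q.1 ≠ P.1 → (S q.1).Nodup

/-! ### rescaling -/

theorem fderiv_scale {U : ℂ → ℂ × ℂ} {ρ : ℝ} {z : ℂ}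
    (hU : DifferentiableAt ℝ U ((ρ : ℂ) * z)) (v : ℂ) :
    fderiv ℝ (fun t => U ((ρ : ℂ) * t)) z v = fderiv ℝ U ((ρ : ℂ) * z) ((ρ : ℂ) * v) := by
  have h1 : HasFDerivAt (fun t : ℂ => (ρ : ℂ) * t)
      ((ContinuousLinearMap.mul ℝ ℂ) (ρ : ℂ)) z :=
    ((ContinuousLinearMap.mul ℝ ℂ) (ρ : ℂ)).hasFDerivAt
  have h2 : HasFDerivAt (fun t => U ((ρ : ℂ) * t))
      ((fderiv ℝ U ((ρ : ℂ) * z)).comp ((ContinuousLinearMap.mul ℝ ℂ) (ρ : ℂ))) z :=
    HasFDerivAt.comp (f := fun t : ℂ => (ρ : ℂ) * t) z hU.hasFDerivAt h1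
  rw [h2.fderiv]
  rfl

theorem scale_mem {ρ : ℝ} (hρ : 0 < ρ) {z : ℂ} (hz : z ∈ ball (0 : ℂ) 1) :
    (ρ : ℂ) * z ∈ ball (0 : ℂ) ρ := by
  rw [mem_ball_zero_iff] at hz ⊢
  rw [norm_mul, Complex.norm_real, Real.norm_of_nonneg hρ.le]
  calc ρ * ‖z‖ < ρ * 1 := mul_lt_mul_of_pos_left hz hρ
    _ = ρ := mul_one ρ

theorem image_scale {X : Type*} {U : ℂ → X} {ρ : ℝ} (hρ : 0 < ρ) :
    (fun t => U ((ρ : ℂ) * t)) '' ball 0 1 = U '' ball 0 ρ := by
  ext q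
  constructor
  · rintro ⟨t, ht, rfl⟩
    exact ⟨_, scale_mem hρ ht, rfl⟩
  · rintro ⟨t, ht, rfl⟩
    have hρc : (ρ : ℂ) ≠ 0 := by exact_mod_cast hρ.ne'
    refine ⟨t / ρ, ?_, ?_⟩
    · rw [mem_ball_zero_iff] at ht ⊢
      rw [norm_div, Complex.norm_real, Real.norm_of_nonneg hρ.le, div_lt_one hρ]
      exact ht
    · simp only
      rw [mul_div_cancel₀ _ hρc]

theorem pdisc_scale {μ β : ℂ × ℂ → ℂ} {U : ℂ → ℂ × ℂ} {ρ : ℝ} (hρ : 0 < ρ)
    (hC : ContDiffOn ℝ ∞ U (ball 0 ρ))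
    (jz : ∀ z ∈ ball (0 : ℂ) ρ, ∀ v : ℂ,
      (fderiv ℝ U z (I * v)).1 + μ (U z) * conj (fderiv ℝ U z (I * v)).1 =
        I * ((fderiv ℝ U z v).1 + μ (U z) * conj (fderiv ℝ U z v).1))
    (jw : ∀ z ∈ ball (0 : ℂ) ρ, ∀ v : ℂ,
      (fderiv ℝ U z (I * v)).2 + β (U z) * conj (fderiv ℝ U z (I * v)).1 =
        I * ((fderiv ℝ U z v).2 + β (U z) * conj (fderiv ℝ U z v).1))
    (inj : InjOn U (ball 0 ρ))
    (imm : ∀ z ∈ ball (0 : ℂ) ρ, z ≠ 0 → ∀ v : ℂ, (fderiv ℝ U z v).1 = 0 → v = 0) :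
    PDisc μ β (fun t => U ((ρ : ℂ) * t)) ∧
      ∀ t ∈ ball (0 : ℂ) 1, t ≠ 0 → ∀ v : ℂ,
        (fderiv ℝ (fun t => U ((ρ : ℂ) * t)) t v).1 = 0 → v = 0 := by
  have hρc : (ρ : ℂ) ≠ 0 := by exact_mod_cast hρ.ne'
  have hd : ∀ z ∈ ball (0 : ℂ) 1, DifferentiableAt ℝ U ((ρ : ℂ) * z) := fun z hz =>
    (hC.differentiableOn (by simp)).differentiableAt (isOpen_ball.mem_nhds (scale_mem hρ hz))
  have himm1 : ∀ t ∈ ball (0 : ℂ) 1, t ≠ 0 → ∀ v : ℂ,
        (fderiv ℝ (fun t => U ((ρ : ℂ) * t)) t v).1 = 0 → v = 0 := by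
    intro t ht ht0 v hv
    rw [fderiv_scale (hd t ht)] at hv
    have := imm _ (scale_mem hρ ht) (mul_ne_zero hρc ht0) _ hv
    exact (mul_eq_zero.1 this).resolve_left hρc
  refine ⟨⟨?_, ?_, ?_, ?_, ?_⟩, himm1⟩
  · refine hC.comp ?_ (fun t ht => scale_mem hρ ht)
    exact (contDiff_const.mul contDiff_id).contDiffOn
  · intro z hz v
    rw [fderiv_scale (hd z hz), fderiv_scale (hd z hz)]
    have h1 := jz _ (scale_mem hρ hz) ((ρ : ℂ) * v)
    have h2 : I * ((ρ : ℂ) * v) = (ρ : ℂ) * (I * v) := by ring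
    rw [h2] at h1
    exact h1
  · intro z hz v
    rw [fderiv_scale (hd z hz), fderiv_scale (hd z hz)]
    have h1 := jw _ (scale_mem hρ hz) ((ρ : ℂ) * v)
    have h2 : I * ((ρ : ℂ) * v) = (ρ : ℂ) * (I * v) := by ring
    rw [h2] at h1
    exact h1
  · intro x hx y hy hxy
    have := inj (scale_mem hρ hx) (scale_mem hρ hy) hxy
    exact mul_left_cancel₀ hρc this
  · intro z hz hz0 v hv
    exact himm1 z hz hz0 v (by rw [hv]; rfl)

/-! ### the centre is in the graph -/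

theorem assemble (hBel : BelStmt) (hKP : KPStmt) (hReg : RegStmt) {μ β : ℂ × ℂ → ℂ} {κ L : ℝ}
    (hB : BoxD μ β κ L) (hμ : ContDiff ℝ ∞ μ) (hβ : ContDiff ℝ ∞ β) {c : ℂ} {R : ℝ} {k : ℕ}
    {S : ℂ → Multiset ℂ} {e : ℂ → ℝ} (hK : KG μ β c R k S e) {p : ℂ} (hp : p ∈ ball c R)
    {C b r : ℝ} (hb : 0 < b) (hr : 0 < r)
    (hold : ∀ z ∈ ball p r, ∀ z' ∈ ball p r, Close (C * dist z z' ^ b) (S z) (S z'))
    (hnd : ∀ᶠ z in 𝓝[≠] p, (S z).Nodup) {w0 : ℂ} (hw0 : w0 ∈ S p) {V : Set (ℂ × ℂ)}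
    (hV : IsOpen V) (hPV : (p, w0) ∈ V) :
    ∃ (U : Set (ℂ × ℂ)) (n : ℕ) (u : Fin n → ℂ → ℂ × ℂ), PL0 μ β S (p, w0) V U n u := by
  have hμ1 : ∀ x, ‖μ x‖ < 1 := fun x => (hB.bμ x).trans_lt hB.κ1
  set m := μ (p, w0) with hm_def
  have hm : ‖m‖ < 1 := hμ1 _
  obtain ⟨ε0, hε0, hεV⟩ := Metric.isOpen_iff.1 hV _ hPV
  obtain ⟨ε, Ry, C', k', hε, hεε0, hRy, hRG⟩ :=
    reduce hB hK hp hb hr hold hnd hw0 hε0
  rw [← hm_def] at hRy hRG
  obtain ⟨J, n, g, hn, hg0, hgc, hgm, hgall, hginj, hgH, hgpde⟩ := hRG.branches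
  have hRy0 := hRG.R0
  set r1 := min 1 Ry with hr1
  have hr10 : 0 < r1 := lt_min one_pos hRy0
  have hsub1 : ∀ j, ∀ ζ ∈ ball (0 : ℂ) r1, ‖ζ‖ ^ n j < Ry := by
    intro j ζ hζ
    rw [mem_ball_zero_iff] at hζ
    calc ‖ζ‖ ^ n j ≤ ‖ζ‖ ^ 1 :=
          pow_le_pow_of_le_one (norm_nonneg _) (hζ.le.trans (min_le_left _ _)) (hn j)
      _ = ‖ζ‖ := pow_one _
      _ < Ry := lt_of_lt_of_le hζ (min_le_right _ _)
  have hdisc := fun j => disc_of_branch hBel hKP hReg hμ1 hμ hβ (p := p) (w0 := w0) (hn j) hb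
    (hgH j) (hg0 j) hr10 (fun s hs hs0 => hgpde j s hs0 (hsub1 j s hs))
  rw [← hm_def] at hdisc
  choose K hK0 ρ0 hρ0 hUC hUz hUw hUimm using hdisc
  set U : Fin J → ℂ → ℂ × ℂ := fun j t => (p + Li m (K j t ^ n j), g j (K j t)) with hU
  set R2 := Ry / 2 with hR2
  have hR20 : 0 < R2 := by positivity
  have hR2R : R2 < Ry := by rw [hR2]; linarith
  set E : Fin J → Set ℂ := fun j => {t | ‖K j t‖ ^ n j ≤ R2} with hE
  set W : Set (ℂ × ℂ) := {q | Lb m (q.1 - p) ∈ ball (0 : ℂ) R2 ∧ dist q.2 w0 < ε} with hW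
  set G : Set (ℂ × ℂ) := {q | q.2 ∈ S q.1} with hG
  have hLbC : Continuous (fun q : ℂ × ℂ => Lb m (q.1 - p)) :=
    (contDiff_Lb m (n := 0)).continuous.comp (continuous_fst.sub continuous_const)
  have hWo : IsOpen W :=
    (isOpen_ball.preimage hLbC).inter (isOpen_lt (continuous_snd.dist continuous_const)
      continuous_const)
  have hU0 : ∀ j, U j 0 = (p, w0) := by
    intro j
    simp only [hU, hK0, zero_pow (hn j).ne', Li_zero, add_zero, hg0]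
  have hPW : (p, w0) ∈ W := by
    refine ⟨?_, ?_⟩
    · simp only [sub_self, Lb_zero]; exact mem_ball_self hR20
    · simp only [dist_self]; exact hε
  have hEc : ∀ j, IsCompact (E j) := by
    intro j
    have h1 : IsCompact {ζ : ℂ | ‖ζ‖ ^ n j ≤ R2} := by
      refine (isCompact_closedBall (0 : ℂ) (max 1 R2)).of_isClosed_subset
        (isClosed_le (by fun_prop) continuous_const) ?_
      intro ζ hζ
      rw [mem_closedBall_zero_iff]
      rcases le_total ‖ζ‖ 1 with h | h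
      · exact h.trans (le_max_left _ _)
      · refine le_trans ?_ ((hζ : ‖ζ‖ ^ n j ≤ R2).trans (le_max_right _ _))
        exact le_self_pow₀ h (hn j).ne'
    exact (K j).isCompact_preimage.2 h1
  have hUcont : ∀ j, ContinuousOn (U j) {t | ‖K j t‖ ^ n j < Ry} := by
    intro j
    have h1 : Continuous (fun t => p + Li m (K j t ^ n j)) :=
      continuous_const.add ((contDiff_Li m (n := 0)).continuous.comp ((K j).continuous.pow _))
    have h2 : ContinuousOn (fun t => g j (K j t)) {t | ‖K j t‖ ^ n j < Ry} :=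
      (hgc j).comp (K j).continuous.continuousOn (fun t ht => ht)
    exact h1.continuousOn.prodMk h2
  have hEsub : ∀ j, E j ⊆ {t | ‖K j t‖ ^ n j < Ry} := fun j t ht =>
    lt_of_le_of_lt ht hR2R
  have hTmem : ∀ j t, ‖K j t‖ ^ n j < Ry → (U j t).2 ∈ S (U j t).1 ∧ dist (U j t).2 w0 < ε := by
    intro j t ht
    have h1 := hgm j (K j t) ht
    rw [Multiset.mem_filter] at h1
    exact h1
  have hinj : ∀ i j, ∀ t t', ‖K i t‖ ^ n i < Ry → U i t = U j t' →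
      (i = j ∧ t = t') ∨ (t = 0 ∧ t' = 0) := by
    intro i j t t' ht hte
    have h1 : p + Li m (K i t ^ n i) = p + Li m (K j t' ^ n j) := congrArg Prod.fst hte
    have h2 : g i (K i t) = g j (K j t') := congrArg Prod.snd hte
    have h3 : K i t ^ n i = K j t' ^ n j := by
      rw [← Lb_Li hm (K i t ^ n i), ← Lb_Li hm (K j t' ^ n j)]
      congr 1
      exact add_left_cancel h1
    rcases hginj i j _ _ ht h3 h2 with h4 | h4
    · left
      obtain ⟨rfl, h5⟩ := h4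
      exact ⟨rfl, (K i).injective h5⟩
    · right
      exact ⟨(K i).injective (h4.1.trans (hK0 i).symm), (K j).injective (h4.2.trans (hK0 j).symm)⟩
  have hcov : ∀ q ∈ G ∩ W, ∃ j, ∃ t ∈ E j, U j t = q := by
    rintro q ⟨hqG, hqW1, hqW2⟩
    have hq1 : p + Li m (Lb m (q.1 - p)) = q.1 := by rw [Li_Lb hm]; ring
    have h1 : q.2 ∈ (S (p + Li m (Lb m (q.1 - p)))).filter (fun b => dist b w0 < ε) := by
      rw [hq1, Multiset.mem_filter]; exact ⟨hqG, hqW2⟩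
    obtain ⟨j, ζ, hζ1, hζ2⟩ := hgall _ (ball_subset_ball hR2R.le hqW1) _ h1
    refine ⟨j, (K j).symm ζ, ?_, ?_⟩
    · simp only [hE, mem_setOf_eq, Homeomorph.apply_symm_apply]
      rw [← norm_pow, hζ1]
      exact (mem_ball_zero_iff.1 hqW1).le
    · simp only [hU, Homeomorph.apply_symm_apply]
      rw [hζ1, hq1, hζ2]
  have hρex : ∀ j, ∃ ρ > 0, ρ ≤ ρ0 j ∧ closedBall (0 : ℂ) ρ ⊆ E j ∧
      ∀ t ∈ ball (0 : ℂ) ρ, U j t ∈ W := by
    intro j
    have hop : IsOpen {t : ℂ | ‖K j t‖ ^ n j < R2} :=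
      isOpen_lt ((K j).continuous.norm.pow _) continuous_const
    have h0 : (0 : ℂ) ∈ {t : ℂ | ‖K j t‖ ^ n j < R2} := by
      simp only [mem_setOf_eq, hK0, norm_zero, zero_pow (hn j).ne']; exact hR20
    have hcat : ContinuousAt (U j) 0 := by
      refine (hUcont j).continuousAt (Filter.mem_of_superset (hop.mem_nhds h0) ?_)
      exact fun t ht => lt_trans (a := ‖K j t‖ ^ n j) ht hR2R
    have h1 : ∀ᶠ t in 𝓝 (0 : ℂ), U j t ∈ W := hcat.eventually_mem (by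
      rw [hU0]; exact hWo.mem_nhds hPW)
    have h2 : {t : ℂ | ‖K j t‖ ^ n j < R2} ∩ {t | U j t ∈ W} ∈ 𝓝 (0 : ℂ) :=
      Filter.inter_mem (hop.mem_nhds h0) h1
    obtain ⟨δ, hδ, H⟩ := Metric.nhds_basis_closedBall.mem_iff.1 h2
    refine ⟨min δ (ρ0 j), lt_min hδ (hρ0 j), min_le_right _ _, ?_, ?_⟩
    · intro t ht
      have h3 : ‖K j t‖ ^ n j < R2 := (H (closedBall_subset_closedBall (min_le_left _ _) ht)).1
      exact h3.le
    · intro t ht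
      exact (H (closedBall_subset_closedBall (min_le_left _ _) (ball_subset_closedBall ht))).2
  choose ρ hρ hρρ hρE hρW using hρex
  obtain ⟨O, hO, hPO, hOW, hGO, hprop⟩ := exists_U hWo hPW U E hEc
    (fun j => (hUcont j).mono (hEsub j)) hU0 (fun j t ht => (hTmem j t (hEsub j ht)).1)
    (fun i j t ht t' _ h => hinj i j t t' (hEsub i ht) h) hcov ρ hρ hρE hρW
  have hbE : ∀ j, ∀ t ∈ ball (0 : ℂ) (ρ j), ‖K j t‖ ^ n j < Ry := fun j t ht =>
    hEsub j (hρE j (ball_subset_closedBall ht))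
  have hscale := fun j => pdisc_scale (μ := μ) (β := β) (hρ j)
    ((hUC j).mono (ball_subset_ball (hρρ j)))
    (fun z hz v => hUz j z (ball_subset_ball (hρρ j) hz) v)
    (fun z hz v => hUw j z (ball_subset_ball (hρρ j) hz) v)
    (fun x hx y hy hxy => by
      rcases hinj j j x y (hbE j x hx) hxy with h | h
      · exact h.2
      · exact h.1.trans h.2.symm)
    (fun z hz hz0 v hv => hUimm j z (ball_subset_ball (hρρ j) hz) hz0 v hv)
  have hWq : ∀ q ∈ W, q.1 = p + Li m (Lb m (q.1 - p)) := fun q _ => by rw [Li_Lb hm]; ring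
  refine ⟨O, J, fun j t => U j ((ρ j : ℂ) * t), ⟨hO, hPO, ?_, fun j => (hscale j).1, ?_, ?_, ?_,
    ?_, ?_, fun j => (hscale j).2, ?_⟩⟩
  · intro q hq
    have hqW := hOW hq
    apply hεV
    rw [mem_ball, Prod.dist_eq, max_lt_iff]
    refine ⟨?_, lt_of_lt_of_le hqW.2 hεε0⟩
    have h1 := (hRy _ (ball_subset_ball hR2R.le hqW.1)).2.1
    rwa [← hWq q hqW] at h1
  · intro j
    simp only [mul_zero]
    exact hU0 j
  · intro i j hij z hz w hw hzw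
    rcases hinj i j _ _ (hbE i _ (scale_mem (hρ i) hz)) hzw with h | h
    · exact absurd h.1 hij
    · have hρc : (ρ i : ℂ) ≠ 0 := by exact_mod_cast (hρ i).ne'
      exact (mul_eq_zero.1 h.1).resolve_left hρc
  · rw [hGO]
    refine iUnion_congr fun j => ?_
    exact (image_scale (U := U j) (hρ j)).symm
  · intro j Q hQ hQO
    obtain ⟨s, hs, H⟩ := hprop j Q hQ hQO
    refine ⟨s / ρ j, (div_lt_one (hρ j)).2 hs, fun z hz hzQ => ?_⟩
    have h1 := H _ (scale_mem (hρ j) hz) hzQ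
    rw [norm_mul, Complex.norm_real, Real.norm_of_nonneg (hρ j).le] at h1
    rw [le_div_iff₀ (hρ j)]
    linarith
  · intro j t ht ht0 h1
    have hρc : (ρ j : ℂ) ≠ 0 := by exact_mod_cast (hρ j).ne'
    have h2 : Li m (K j ((ρ j : ℂ) * t) ^ n j) = 0 := by
      have h3 : p + Li m (K j ((ρ j : ℂ) * t) ^ n j) = p := h1
      linear_combination h3
    have h4 : K j ((ρ j : ℂ) * t) ^ n j = 0 := by
      rw [← Lb_Li hm (K j ((ρ j : ℂ) * t) ^ n j), h2, Lb_zero]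
    have h5 : K j ((ρ j : ℂ) * t) = 0 := (pow_eq_zero_iff (hn j).ne').1 h4
    have h6 : (ρ j : ℂ) * t = 0 := (K j).injective (h5.trans (hK0 j).symm)
    exact ht0 ((mul_eq_zero.1 h6).resolve_left hρc)
  · intro q hq hqp
    have hqW := hOW hq
    have h1 := (hRy _ (ball_subset_ball hR2R.le hqW.1)).2.2 (by
      intro h0
      apply hqp
      rw [hWq q hqW, h0, Li_zero, add_zero])
    rwa [← hWq q hqW] at h1

end

end Crest.Agent.R235.EndH_745
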