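import Crest.Agent.R235.EndH_745

/-!
Row 235, package REG, leaf REG-END (helper745), part 9: the formula for the current.
-/

set_option autoImplicit false

open Complex Metric Set Filter Topology MeasureTheory
open scoped ContDiff ComplexConjugate

namespace Crest.Agent.R235.EndI_745

open Crest.Agent.R235.NWDefs_334 Crest.Agent.R235.NWIface_334 Crest.Agent.R235.EndA_745
open Crest.Agent.R235.Loc Crest.Agent.R235.End Crest.Agent.R235.EndD_745
open Crest.Agent.R235.EndH_745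

noncomputable section

/-- change of variables with multiplicity (task 319). -/
def CHVStmt : Prop := ∀ (φ : ℂ → ℂ) (O : Set ℂ), IsOpen O → ContDiffOn ℝ 1 φ O →
  (∀ t ∈ O, (fderiv ℝ φ t).det ≠ 0) → (∀ z, (O ∩ φ ⁻¹' {z}).Finite) → ∀ F : ℂ → ℝ,
  IntegrableOn (fun t => |(fderiv ℝ φ t).det| * F t) O →
  Integrable (fun z => ∑ᶠ t ∈ O ∩ φ ⁻¹' {z}, F t) ∧
    ∫ z, ∑ᶠ t ∈ O ∩ φ ⁻¹' {z}, F t = ∫ t in O, |(fderiv ℝ φ t).det| * F t

/-! ### algebra -/

theorem det_eq (D : ℂ →L[ℝ] ℂ) : D.det = (D 1).re * (D I).im - (D I).re * (D 1).im := by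
  rw [ContinuousLinearMap.det, ← LinearMap.det_toMatrix Complex.basisOneI, Matrix.det_fin_two]
  simp only [LinearMap.toMatrix_apply, Complex.coe_basisOneI, Complex.coe_basisOneI_repr,
    Matrix.cons_val_zero, Matrix.cons_val_one, ContinuousLinearMap.coe_coe]

theorem det_eq_dl (D : ℂ →L[ℝ] ℂ) : D.det = ‖dl D‖ ^ 2 - ‖dbl D‖ ^ 2 := by
  rw [det_eq, apply_eq D 1, apply_eq D I, ← Complex.normSq_eq_norm_sq, ← Complex.normSq_eq_norm_sq,
    Complex.normSq_apply, Complex.normSq_apply]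
  simp only [map_one, Complex.conj_I, Complex.add_re, Complex.add_im, Complex.mul_re,
    Complex.mul_im, Complex.I_re, Complex.I_im, Complex.neg_re, Complex.neg_im, mul_one, mul_zero]
  ring

theorem det_pos {D : ℂ →L[ℝ] ℂ} {m : ℂ} (hm : ‖m‖ < 1)
    (h : D I + m * conj (D I) = I * (D 1 + m * conj (D 1))) (hinj : ∀ v, D v = 0 → v = 0) :
    0 < D.det := by
  have h1 : dbl D = - m * conj (dl D) := by
    rw [apply_eq D 1, apply_eq D I] at h
    simp only [map_one, Complex.conj_I, map_add, map_mul, map_neg] at h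
    linear_combination ((1 / 2) * I) * h +
      ((1 / 2) * (2 * dbl D + m * conj (dl D) + m * conj (dl D))) * Complex.I_mul_I
  rw [det_eq_dl, h1, norm_mul, norm_neg, Complex.norm_conj]
  have hp : dl D ≠ 0 := by
    intro h0
    have h2 : D 1 = 0 := by
      rw [apply_eq, h1, h0]; simp
    exact one_ne_zero (hinj 1 h2)
  have h3 : 0 < ‖dl D‖ := norm_pos_iff.2 hp
  have h4 : ‖m‖ * ‖dl D‖ < ‖dl D‖ := by nlinarith
  have h5 : 0 ≤ ‖m‖ * ‖dl D‖ := by positivity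
  nlinarith

theorem alt_det (B : ℂ × ℂ →L[ℝ] ℂ × ℂ →L[ℝ] ℝ) (hB : ∀ v, B v v = 0) (A D : ℂ →L[ℝ] ℂ) :
    B (D 1, A (D 1)) (D I, A (D I)) = D.det * B (1, A 1) (I, A I) := by
  have hx : ∀ x : ℂ, ((x, A x) : ℂ × ℂ) = x.re • ((1 : ℂ), A 1) + x.im • (I, A I) := by
    intro x
    have h1 : x = x.re • (1 : ℂ) + x.im • I := by
      simp [Complex.re_add_im]
    have h2 : A x = x.re • A 1 + x.im • A I := by
      conv_lhs => rw [h1]
      rw [map_add, map_smul, map_smul]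
    refine Prod.ext ?_ ?_
    · simp only [Prod.fst_add, Prod.smul_fst]; exact h1
    · simp only [Prod.snd_add, Prod.smul_snd]; exact h2
  have hanti : B (I, A I) ((1 : ℂ), A 1) = - B ((1 : ℂ), A 1) (I, A I) := by
    have h1 := hB (((1 : ℂ), A 1) + (I, A I))
    simp only [map_add, _root_.add_apply, hB] at h1
    linarith
  rw [hx (D 1), hx (D I), det_eq]
  simp only [map_add, map_smul, _root_.add_apply, ContinuousLinearMap.smul_apply, hB, hanti,
    smul_eq_mul]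
  ring

/-! ### sheets along a disc -/

section
variable {μ β : ℂ × ℂ → ℂ} {κ L : ℝ} {c : ℂ} {R : ℝ} {k : ℕ} {S : ℂ → Multiset ℂ} {e : ℂ → ℝ}

theorem slope_along (hB : BoxD μ β κ L) (hK : KG μ β c R k S e) {u : ℂ → ℂ × ℂ} {t : ℂ}
    (hu : DifferentiableAt ℝ u t) (hcR : (u t).1 ∈ ball c R) (hnd : (S (u t).1).Nodup)
    (hmem : ∀ᶠ t' in 𝓝 t, (u t').2 ∈ S (u t').1) (v : ℂ) :
    fderiv ℝ u t v = ((fderiv ℝ (fun t => (u t).1) t) v,
      slope S (u t).1 (u t).2 ((fderiv ℝ (fun t => (u t).1) t) v)) := by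
  obtain ⟨ρ, w, hρ, hsub, hsh, hwC, hwi, hSw, hsl⟩ :=
    (LocSel_483.sel μ β κ L hB c R k S e hK).2 _ (⟨hcR, hnd⟩ : (u t).1 ∈ Usimp c R S)
  have h1 : DifferentiableAt ℝ (fun t => (u t).1) t := hu.fst
  have h2 : DifferentiableAt ℝ (fun t => (u t).2) t := hu.snd
  have hself : (u t).1 ∈ ball (u t).1 ρ := mem_ball_self hρ
  have hwd : ∀ i, DifferentiableAt ℝ (w i) (u t).1 := fun i =>
    ((hwC i).differentiableOn (by simp)).differentiableAt (isOpen_ball.mem_nhds hself)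
  obtain ⟨i, hi⟩ := Mono_659.eventually_sheet (fun t => (u t).2) (fun i t' => w i (u t').1) t
    h2.continuousAt
    (fun i => ContinuousAt.comp (f := fun t' => (u t').1) (hwd i).continuousAt h1.continuousAt)
    (hwi _ hself)
    (by
      filter_upwards [hmem, h1.continuousAt.eventually_mem (ball_mem_nhds _ hρ)] with t' h3 h4
      rw [hSw _ h4] at h3
      obtain ⟨i, -, hi⟩ := Multiset.mem_map.1 h3
      exact ⟨i, hi⟩)
  have hi' : (fun t => (u t).2) =ᶠ[𝓝 t] (fun t' => w i (u t').1) := hi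
  have h5 : fderiv ℝ (fun t => (u t).2) t =
      (fderiv ℝ (w i) (u t).1).comp (fderiv ℝ (fun t => (u t).1) t) := by
    rw [hi'.fderiv_eq]
    exact fderiv_comp t (hwd i) h1
  have h6 : (u t).2 = w i (u t).1 := hi'.self_of_nhds
  have h7 : fderiv ℝ u t v = ((fderiv ℝ (fun t => (u t).1) t) v,
      (fderiv ℝ (fun t => (u t).2) t) v) := by
    have h8 := (h1.hasFDerivAt.prodMk h2.hasFDerivAt).fderiv
    have h9 : fderiv ℝ u t = (fderiv ℝ (fun t => (u t).1) t).prod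
        (fderiv ℝ (fun t => (u t).2) t) := h8
    rw [h9, ContinuousLinearMap.prod_apply]
  rw [h7, h5, h6, hsl _ hself i]
  rfl

/-- the value of `g` on the tangent plane of the graph. -/
def Gf (S : ℂ → Multiset ℂ) (g : ℂ × ℂ → (ℂ × ℂ →L[ℝ] ℂ × ℂ →L[ℝ] ℝ)) (q : ℂ × ℂ) : ℝ :=
  g q (1, slope S q.1 q.2 1) (I, slope S q.1 q.2 I)

variable {P : ℂ × ℂ} {V U : Set (ℂ × ℂ)} {n : ℕ} {u : Fin n → ℂ → ℂ × ℂ}

theorem mem_graph (h : PL0 μ β S P V U n u) {j : Fin n} {t : ℂ} (ht : t ∈ ball (0 : ℂ) 1) :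
    (u j t).2 ∈ S (u j t).1 ∧ u j t ∈ U := by
  have h1 : u j t ∈ {q : ℂ × ℂ | q.2 ∈ S q.1} ∩ U := by
    rw [h.supp]; exact mem_iUnion.2 ⟨j, t, ht, rfl⟩
  exact h1

theorem pl_diff (h : PL0 μ β S P V U n u) {j : Fin n} {t : ℂ} (ht : t ∈ ball (0 : ℂ) 1) :
    DifferentiableAt ℝ (u j) t :=
  ((h.disc j).smooth.differentiableOn (by simp)).differentiableAt (isOpen_ball.mem_nhds ht)

theorem density (hB : BoxD μ β κ L) (hK : KG μ β c R k S e) (hVc : V ⊆ ball c R ×ˢ univ)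
    (h : PL0 μ β S P V U n u) (g : ℂ × ℂ → (ℂ × ℂ →L[ℝ] ℂ × ℂ →L[ℝ] ℝ)) (hg : ∀ q v, g q v v = 0)
    {j : Fin n} {t : ℂ} (ht : t ∈ ball (0 : ℂ) 1) (ht0 : t ≠ 0) :
    0 < (fderiv ℝ (fun t => (u j t).1) t).det ∧
    |(fderiv ℝ (fun t => (u j t).1) t).det| * Gf S g (u j t) =
      g (u j t) (fderiv ℝ (u j) t 1) (fderiv ℝ (u j) t I) := by
  have hd := pl_diff h (j := j) ht
  have hgr := mem_graph h (j := j) ht
  have hcR : (u j t).1 ∈ ball c R := (hVc (h.sub hgr.2)).1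
  have hnd := h.nodup _ hgr.2 (h.ne j t ht ht0)
  have hsl := slope_along hB hK hd hcR hnd (by
    filter_upwards [isOpen_ball.mem_nhds ht] with t' ht'
    exact (mem_graph h (j := j) ht').1)
  have hfst : ∀ v, (fderiv ℝ (u j) t v).1 = (fderiv ℝ (fun t => (u j t).1) t) v := fun v => by
    rw [hsl v]
  have hpos : 0 < (fderiv ℝ (fun t => (u j t).1) t).det := by
    have hm : ‖μ (u j t)‖ < 1 := (hB.bμ _).trans_lt hB.κ1
    refine det_pos hm ?_ (fun v hv => h.imm1 j t ht ht0 v (by rw [hfst]; exact hv))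
    have h1 := (h.disc j).jz t ht 1
    rw [hfst, hfst, mul_one] at h1
    exact h1
  refine ⟨hpos, ?_⟩
  rw [abs_of_pos hpos, hsl 1, hsl I, alt_det (g (u j t)) (hg _)]
  rfl

theorem fibre_fin (h : PL0 μ β S P V U n u) (j : Fin n) (z : ℂ) :
    ((ball (0 : ℂ) 1 \ {0}) ∩ (fun t => (u j t).1) ⁻¹' {z}).Finite := by
  classical
  refine Set.Finite.of_finite_image (f := fun t => (u j t).2) ?_ ?_
  · refine (S z).toFinset.finite_toSet.subset ?_
    rintro _ ⟨t, ⟨ht, htz⟩, rfl⟩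
    have h1 := (mem_graph h (j := j) ht.1).1
    have htz' : (u j t).1 = z := htz
    rw [htz'] at h1
    exact Multiset.mem_toFinset.2 h1
  · rintro t ⟨ht, htz⟩ t' ⟨ht', htz'⟩ htt
    refine (h.disc j).inj ht.1 ht'.1 (Prod.ext ?_ htt)
    exact htz.trans htz'.symm

open Classical in
theorem fibre_sum (h : PL0 μ β S P V U n u) (g : ℂ × ℂ → (ℂ × ℂ →L[ℝ] ℂ × ℂ →L[ℝ] ℝ))
    (hgU : ∀ q ∉ U, g q = 0) {z : ℂ} (hz : z ≠ P.1) :
    ∑ w ∈ (S z).toFinset, g (z, w) (1, slope S z w 1) (I, slope S z w I) =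
      ∑ j, ∑ᶠ t ∈ (ball (0 : ℂ) 1 \ {0}) ∩ (fun t => (u j t).1) ⁻¹' {z}, Gf S g (u j t) := by
  have h1 : ∀ j, ∑ᶠ t ∈ (ball (0 : ℂ) 1 \ {0}) ∩ (fun t => (u j t).1) ⁻¹' {z}, Gf S g (u j t) =
      ∑ t ∈ (fibre_fin h j z).toFinset, Gf S g (u j t) := fun j =>
    finsum_mem_eq_finite_toFinset_sum _ _
  simp only [h1]
  rw [Finset.sum_sigma']
  rw [← Finset.sum_filter_add_sum_filter_not (S z).toFinset (fun w => (z, w) ∈ U)]
  have h2 : ∑ w ∈ (S z).toFinset with (z, w) ∉ U,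
      g (z, w) (1, slope S z w 1) (I, slope S z w I) = 0 := by
    refine Finset.sum_eq_zero fun w hw => ?_
    rw [hgU _ (Finset.mem_filter.1 hw).2]
    rfl
  rw [h2, add_zero]
  symm
  refine Finset.sum_bij (fun x _ => (u x.1 x.2).2) ?_ ?_ ?_ ?_
  · rintro ⟨j, t⟩ hx
    rw [Finset.mem_sigma] at hx
    obtain ⟨ht, htz⟩ := (Set.Finite.mem_toFinset _).1 hx.2
    have htz' : (u j t).1 = z := htz
    obtain ⟨h3, h4⟩ := mem_graph h (j := j) ht.1
    rw [Finset.mem_filter, Multiset.mem_toFinset]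
    have h5 : ((z, (u j t).2) : ℂ × ℂ) = u j t := Prod.ext htz'.symm rfl
    refine ⟨?_, ?_⟩
    · rw [← htz']; exact h3
    · change ((z, (u j t).2) : ℂ × ℂ) ∈ U
      rw [h5]; exact h4
  · rintro ⟨j, t⟩ hx ⟨j', t'⟩ hx' hxx
    rw [Finset.mem_sigma] at hx hx'
    obtain ⟨ht, htz⟩ := (Set.Finite.mem_toFinset _).1 hx.2
    obtain ⟨ht', htz'⟩ := (Set.Finite.mem_toFinset _).1 hx'.2
    have h3 : u j t = u j' t' := Prod.ext ((htz : (u j t).1 = z).trans
      (htz' : (u j' t').1 = z).symm) hxx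
    by_cases hj : j = j'
    · subst hj
      have h4 : t = t' := (h.disc j).inj ht.1 ht'.1 h3
      rw [h4]
    · exact absurd (h.disj j j' hj t ht.1 t' ht'.1 h3) ht.2
  · intro w hw
    rw [Finset.mem_filter, Multiset.mem_toFinset] at hw
    have h3 : ((z, w) : ℂ × ℂ) ∈ ⋃ j, u j '' ball (0 : ℂ) 1 := by
      rw [← h.supp]; exact ⟨hw.1, hw.2⟩
    obtain ⟨j, t, ht, hte⟩ := mem_iUnion.1 h3
    have ht0 : t ≠ 0 := by
      rintro rfl
      rw [h.centre j] at hte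
      exact hz (congrArg Prod.fst hte).symm
    refine ⟨⟨j, t⟩, ?_, ?_⟩
    · rw [Finset.mem_sigma]
      refine ⟨Finset.mem_univ _, (Set.Finite.mem_toFinset _).2 ⟨⟨ht, ht0⟩, ?_⟩⟩
      exact congrArg Prod.fst hte
    · exact congrArg Prod.snd hte
  · rintro ⟨j, t⟩ hx
    rw [Finset.mem_sigma] at hx
    obtain ⟨ht, htz⟩ := (Set.Finite.mem_toFinset _).1 hx.2
    have h5 : ((z, (u j t).2) : ℂ × ℂ) = u j t := Prod.ext (htz : (u j t).1 = z).symm rfl
    change Gf S g (u j t) = Gf S g (z, (u j t).2)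
    rw [h5]

theorem int_disc (h : PL0 μ β S P V U n u) (g : ℂ × ℂ → (ℂ × ℂ →L[ℝ] ℂ × ℂ →L[ℝ] ℝ))
    (hgc : Continuous g) {K : Set (ℂ × ℂ)} (hKU : K ⊆ U) (hK : IsCompact K)
    (hgK : ∀ q ∉ K, g q = 0) (j : Fin n) :
    IntegrableOn (fun t => g (u j t) (fderiv ℝ (u j) t 1) (fderiv ℝ (u j) t I)) (ball 0 1) := by
  obtain ⟨r, hr, H⟩ := h.proper j K hK hKU
  have hcd : ContinuousOn (fderiv ℝ (u j)) (ball 0 1) :=
    (h.disc j).smooth.continuousOn_fderiv_of_isOpen isOpen_ball (by simp)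
  have hcu : ContinuousOn (fun t => g (u j t)) (ball 0 1) :=
    hgc.comp_continuousOn (h.disc j).smooth.continuousOn
  have hc : ContinuousOn (fun t => g (u j t) (fderiv ℝ (u j) t 1) (fderiv ℝ (u j) t I))
      (ball 0 1) :=
    (hcu.clm_apply (hcd.clm_apply continuousOn_const)).clm_apply
      (hcd.clm_apply continuousOn_const)
  have h1 : IntegrableOn (fun t => g (u j t) (fderiv ℝ (u j) t 1) (fderiv ℝ (u j) t I))
      (closedBall 0 r) :=
    (hc.mono (closedBall_subset_ball hr)).integrableOn_compact (isCompact_closedBall _ _)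
  refine h1.of_forall_diff_eq_zero measurableSet_ball ?_
  rintro t ⟨ht, htr⟩
  have h2 : u j t ∉ K := fun h3 => htr (mem_closedBall_zero_iff.2 (H t ht h3))
  rw [hgK _ h2]
  rfl

/-- **the formula for the current** -/
theorem current (hCHV : CHVStmt) (hB : BoxD μ β κ L) (hK : KG μ β c R k S e)
    (hVc : V ⊆ ball c R ×ˢ univ) (h : PL0 μ β S P V U n u)
    (g : ℂ × ℂ → (ℂ × ℂ →L[ℝ] ℂ × ℂ →L[ℝ] ℝ)) (hgc : Continuous g) (hg : ∀ q v, g q v v = 0)
    {K : Set (ℂ × ℂ)} (hKU : K ⊆ U) (hKc : IsCompact K) (hgK : ∀ q ∉ K, g q = 0) :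
    Integrable (fun z => ∑ w ∈ (S z).toFinset,
        g (z, w) (1, slope S z w 1) (I, slope S z w I)) ∧
    (∀ j, IntegrableOn (fun t => g (u j t) (fderiv ℝ (u j) t 1) (fderiv ℝ (u j) t I))
      (ball 0 1)) ∧
    ∫ z, ∑ w ∈ (S z).toFinset, g (z, w) (1, slope S z w 1) (I, slope S z w I) =
      ∑ j, ∫ t in ball (0 : ℂ) 1, g (u j t) (fderiv ℝ (u j) t 1) (fderiv ℝ (u j) t I) := by
  have hgU : ∀ q ∉ U, g q = 0 := fun q hq => hgK q fun h1 => hq (hKU h1)
  have hint := int_disc h g hgc hKU hKc hgK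
  have hO : IsOpen (ball (0 : ℂ) 1 \ {0}) := isOpen_ball.sdiff isClosed_singleton
  have hOae : (ball (0 : ℂ) 1 \ {0} : Set ℂ) =ᵐ[volume] ball (0 : ℂ) 1 :=
    diff_null_ae_eq_self (measure_singleton 0)
  have hcongr : ∀ j, ∀ t ∈ ball (0 : ℂ) 1 \ {0},
      |(fderiv ℝ (fun t => (u j t).1) t).det| * Gf S g (u j t) =
      g (u j t) (fderiv ℝ (u j) t 1) (fderiv ℝ (u j) t I) := fun j t ht =>
    (density hB hK hVc h g hg ht.1 ht.2).2
  have hchv := fun j => hCHV (fun t => (u j t).1) (ball (0 : ℂ) 1 \ {0}) hO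
    (((h.disc j).smooth.fst.mono diff_subset).of_le (by exact_mod_cast le_top))
    (fun t ht => (density hB hK hVc h g hg ht.1 ht.2).1.ne') (fibre_fin h j)
    (fun t => Gf S g (u j t))
    (((hint j).mono_set diff_subset).congr_fun (fun t ht => (hcongr j t ht).symm)
      hO.measurableSet)
  have hae : (fun z => ∑ w ∈ (S z).toFinset, g (z, w) (1, slope S z w 1) (I, slope S z w I))
      =ᵐ[volume] fun z => ∑ j, ∑ᶠ t ∈ (ball (0 : ℂ) 1 \ {0}) ∩ (fun t => (u j t).1) ⁻¹' {z},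
        Gf S g (u j t) := by
    have h1 : ∀ᵐ z : ℂ, z ≠ P.1 := by
      have : (volume : Measure ℂ) {P.1} = 0 := measure_singleton _
      exact compl_mem_ae_iff.2 this
    filter_upwards [h1] with z hz
    exact fibre_sum h g hgU hz
  refine ⟨?_, hint, ?_⟩
  · refine Integrable.congr ?_ hae.symm
    exact integrable_finset_sum _ fun j _ => (hchv j).1
  · rw [integral_congr_ae hae, integral_finset_sum _ fun j _ => (hchv j).1]
    refine Finset.sum_congr rfl fun j _ => ?_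
    rw [(hchv j).2, ← setIntegral_congr_set hOae]
    exact setIntegral_congr_fun hO.measurableSet (hcongr j)

end

end

end Crest.Agent.R235.EndI_745
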