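import Crest.Agent.R235.KP_133
import Crest.Agent.R235.NWIface_334
import Crest.Agent.R235.NWHol_952

/-!
Row 235, package NW, leaf K, part 2 (helper133): the Cauchy transform `Pc : C^a_c → C^{1,a}`.
* `pc_hasFDerivAt`, `pc_hb`, `dp_hb`
* `liouville` : `∂̄u = 0`, `u → 0` at infinity `⇒ u = 0`
* `kp_stmt : KPStmt`
* `fderiv_Pc : D (Pc g) = Pc (D g)` for `g ∈ C¹_c`
-/

set_option autoImplicit false
set_option linter.unusedSectionVars false

open MeasureTheory Set Metric Topology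
open Filter hiding ker
open scoped ContDiff Real

namespace Crest.Agent.R235.NWKP_133

open Crest.Agent.R096.BelA_205 (ker norm_ker P CP CP_nonneg locallyIntegrable_ker)
open Crest.Agent.R235.KP_133 Crest.Agent.R235.NWDefs_334 Crest.Agent.R235.NWIface_334

noncomputable section

section Taylor

variable {V E : Type*} [NormedAddCommGroup V] [NormedSpace ℝ V] [NormedAddCommGroup E]
  [NormedSpace ℝ E]

/-- a uniform Taylor estimate gives differentiability -/
theorem taylor_hasFDerivAt {w : V → E} {A : V → V →L[ℝ] E} {K a : ℝ} (ha : 0 < a)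
    (h : ∀ z k, ‖w (z + k) - w z - A z k‖ ≤ K * ‖k‖ ^ (1 + a)) (z : V) :
    HasFDerivAt w (A z) z := by
  rw [hasFDerivAt_iff_isLittleO_nhds_zero]
  refine Asymptotics.IsLittleO.of_bound fun c hc => ?_
  have h1 : Tendsto (fun k : V => |K| * ‖k‖ ^ a) (𝓝 0) (𝓝 (|K| * ‖(0:V)‖ ^ a)) := by
    apply Tendsto.const_mul
    apply Tendsto.rpow_const
    · exact continuous_norm.tendsto 0
    · right; exact ha.le
  rw [norm_zero, Real.zero_rpow ha.ne', mul_zero] at h1
  filter_upwards [h1.eventually (gt_mem_nhds hc)] with k hk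
  have h2 := h z k
  have h3 : ‖k‖ ^ (1 + a) = ‖k‖ * ‖k‖ ^ a := by
    by_cases hk0 : ‖k‖ = 0
    · rw [hk0, Real.zero_rpow (by linarith), zero_mul]
    · rw [Real.rpow_add (lt_of_le_of_ne (norm_nonneg _) (Ne.symm hk0)), Real.rpow_one]
  rw [h3] at h2
  have h4 : K * (‖k‖ * ‖k‖ ^ a) ≤ (|K| * ‖k‖ ^ a) * ‖k‖ := by
    have : K * (‖k‖ * ‖k‖ ^ a) ≤ |K| * (‖k‖ * ‖k‖ ^ a) :=
      mul_le_mul_of_nonneg_right (le_abs_self _) (by positivity)
    linarith
  have h5 : (|K| * ‖k‖ ^ a) * ‖k‖ ≤ c * ‖k‖ := mul_le_mul_of_nonneg_right hk.le (norm_nonneg _)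
  linarith

/-- a uniform Taylor estimate makes the derivative Hölder -/
theorem taylor_holder {w : V → E} {A : V → V →L[ℝ] E} {K a : ℝ} (ha : 0 < a) (ha1 : a ≤ 1)
    (hK : 0 ≤ K) (h : ∀ z k, ‖w (z + k) - w z - A z k‖ ≤ K * ‖k‖ ^ (1 + a)) (z z' : V) :
    ‖A z - A z'‖ ≤ 6 * K * ‖z - z'‖ ^ a := by
  by_cases hzz : z = z'
  · subst hzz; simp; positivity
  set δ : ℝ := ‖z - z'‖ with hδ
  have hδ0 : 0 < δ := norm_pos_iff.2 (sub_ne_zero.2 hzz)
  have hp : (2 * δ) ^ (1 + a) ≤ 4 * δ ^ (1 + a) := by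
    rw [Real.mul_rpow (by norm_num) hδ0.le]
    apply mul_le_mul_of_nonneg_right _ (by positivity)
    calc (2:ℝ) ^ (1 + a) ≤ 2 ^ (2:ℝ) :=
          Real.rpow_le_rpow_of_exponent_le (by norm_num) (by linarith)
      _ = 4 := by norm_num
  have key : ∀ k : V, ‖k‖ = δ → ‖(A z - A z') k‖ ≤ 6 * K * δ ^ (1 + a) := by
    intro k hk
    have e1 := h z ((z' - z) + k)
    have e2 := h z' k
    have e3 := h z (z' - z)
    rw [hk] at e2
    rw [norm_sub_rev z' z, ← hδ] at e3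
    have e4 : ‖(z' - z) + k‖ ≤ 2 * δ := by
      calc ‖(z' - z) + k‖ ≤ ‖z' - z‖ + ‖k‖ := norm_add_le _ _
        _ = 2 * δ := by rw [norm_sub_rev, hk, ← hδ]; ring
    have e5 : K * ‖(z' - z) + k‖ ^ (1 + a) ≤ 4 * K * δ ^ (1 + a) := by
      have : ‖(z' - z) + k‖ ^ (1 + a) ≤ (2 * δ) ^ (1 + a) :=
        Real.rpow_le_rpow (norm_nonneg _) e4 (by linarith)
      calc K * ‖(z' - z) + k‖ ^ (1 + a) ≤ K * (4 * δ ^ (1 + a)) :=
            mul_le_mul_of_nonneg_left (this.trans hp) hK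
        _ = 4 * K * δ ^ (1 + a) := by ring
    have e6 : (A z - A z') k = -((w (z + ((z' - z) + k)) - w z - A z ((z' - z) + k))
        - (w (z' + k) - w z' - A z' k) - (w (z + (z' - z)) - w z - A z (z' - z))) := by
      have i1 : z + ((z' - z) + k) = z' + k := by abel
      have i2 : z + (z' - z) = z' := by abel
      rw [i1, i2, map_add]
      simp only [sub_apply]
      abel
    rw [e6, norm_neg]
    calc _ ≤ ‖w (z + ((z' - z) + k)) - w z - A z ((z' - z) + k)‖ + ‖w (z' + k) - w z' - A z' k‖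
          + ‖w (z + (z' - z)) - w z - A z (z' - z)‖ :=
          (norm_sub_le _ _).trans (add_le_add_left (norm_sub_le _ _) _)
      _ ≤ 4 * K * δ ^ (1 + a) + K * δ ^ (1 + a) + K * δ ^ (1 + a) := by
          gcongr
          exact e1.trans e5
      _ = 6 * K * δ ^ (1 + a) := by ring
  apply ContinuousLinearMap.opNorm_le_bound _ (by positivity)
  intro k
  by_cases hk : k = 0
  · subst hk; simp
  have hk0 : 0 < ‖k‖ := norm_pos_iff.2 hk
  have h1 := key ((δ / ‖k‖) • k) (by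
    rw [norm_smul, Real.norm_of_nonneg (by positivity)]; field_simp)
  rw [map_smul, norm_smul, Real.norm_of_nonneg (by positivity), Real.rpow_add hδ0,
    Real.rpow_one] at h1
  have h2 : ‖(A z - A z') k‖ = (‖k‖ / δ) * (δ / ‖k‖ * ‖(A z - A z') k‖) := by field_simp
  rw [h2]
  calc (‖k‖ / δ) * (δ / ‖k‖ * ‖(A z - A z') k‖) ≤ (‖k‖ / δ) * (6 * K * (δ * δ ^ a)) :=
        mul_le_mul_of_nonneg_left h1 (by positivity)
    _ = 6 * K * δ ^ a * ‖k‖ := by field_simp

end Taylor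

section Main

variable {E : Type*} [NormedAddCommGroup E] [NormedSpace ℂ E]

theorem dp_apply (u : ℂ → E) (z k : ℂ) : DP u z k = k • Tu u z + (starRingEnd ℂ) k • u z := by
  simp [DP]

theorem dbl_dp (u : ℂ → E) (z : ℂ) : dbl (DP u z) = u z := by
  unfold dbl
  rw [dp_apply, dp_apply]
  simp only [one_smul, map_one, Complex.conj_I, smul_add, smul_smul]
  match_scalars <;> first
    | linear_combination (1 / 2) * Complex.I_sq
    | linear_combination (-1 / 2) * Complex.I_sq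

theorem dl_dp (u : ℂ → E) (z : ℂ) : dl (DP u z) = Tu u z := by
  unfold dl
  rw [dp_apply, dp_apply]
  simp only [one_smul, map_one, Complex.conj_I, smul_add, smul_smul]
  match_scalars <;> first
    | linear_combination (1 / 2) * Complex.I_sq
    | linear_combination (-1 / 2) * Complex.I_sq

theorem dp_norm_le (u : ℂ → E) (z : ℂ) : ‖DP u z‖ ≤ ‖Tu u z‖ + ‖u z‖ := by
  apply ContinuousLinearMap.opNorm_le_bound _ (by positivity)
  intro k
  rw [dp_apply]
  calc _ ≤ ‖k • Tu u z‖ + ‖(starRingEnd ℂ) k • u z‖ := norm_add_le _ _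
    _ = (‖Tu u z‖ + ‖u z‖) * ‖k‖ := by
        rw [norm_smul, norm_smul, RCLike.norm_conj]; ring

/-- the Taylor constant -/
def Kc (a R : ℝ) : ℝ := π⁻¹ * Nc a R * Ja a + 2 * (CP R * Mc a R) + Tc a R + Mc a R

theorem Kc_nonneg {a R : ℝ} (hR : 0 ≤ R) : 0 ≤ Kc a R := by
  have h1 := Mc_nonneg (a := a) hR
  have h2 := Nc_nonneg (a := a) hR
  have h3 := Ja_nonneg a
  have h4 := CP_nonneg R
  have h5 := Tc_nonneg (a := a) hR
  unfold Kc; positivity

theorem dp_le {a R N : ℝ} {u : ℂ → E} (h : HC a R N u) (ha : 0 < a) (hR : 0 ≤ R) (z : ℂ) :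
    ‖DP u z‖ ≤ (Tc a R + Mc a R) * N := by
  have h1 := T_le h ha hR z
  have h2 := h.bound hR z
  have h3 := dp_norm_le u z
  have h4 : N * (2 * R + 1) ^ a = Mc a R * N := by unfold Mc; ring
  linarith

theorem taylor [CompleteSpace E] {a R N : ℝ} {u : ℂ → E} (h : HC a R N u) (ha : 0 < a)
    (ha1 : a < 1) (hR : 0 ≤ R) (z k : ℂ) :
    ‖Pc u (z + k) - Pc u z - DP u z k‖ ≤ Kc a R * N * ‖k‖ ^ (1 + a) := by
  have hN := h.nonneg
  have h1 := Mc_nonneg (a := a) hR
  have h2 := Nc_nonneg (a := a) hR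
  have h3 := Ja_nonneg a
  have h4 := CP_nonneg R
  have h5 := Tc_nonneg (a := a) hR
  by_cases hk : ‖k‖ ≤ 1
  · rw [dp_apply]
    refine (taylor_small h ha ha1 hR z hk).trans ?_
    apply mul_le_mul_of_nonneg_right _ (by positivity)
    have : π⁻¹ * (Nc a R * N) * Ja a = (π⁻¹ * Nc a R * Ja a) * N := by ring
    rw [this]
    apply mul_le_mul_of_nonneg_right _ hN
    unfold Kc
    have : 0 ≤ 2 * (CP R * Mc a R) := by positivity
    linarith
  · push Not at hk
    have e1 := Pc_le h ha hR (z + k)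
    have e2 := Pc_le h ha hR z
    have e3 := (DP u z).le_opNorm k
    have e4 := dp_le h ha hR z
    have e5 : ‖DP u z k‖ ≤ (Tc a R + Mc a R) * N * ‖k‖ :=
      e3.trans (mul_le_mul_of_nonneg_right e4 (norm_nonneg _))
    have e6 : ‖Pc u (z + k) - Pc u z - DP u z k‖ ≤
        CP R * Mc a R * N + CP R * Mc a R * N + (Tc a R + Mc a R) * N * ‖k‖ :=
      (norm_sub_le _ _).trans (add_le_add ((norm_sub_le _ _).trans (add_le_add e1 e2)) e5)
    have e7 : ‖k‖ ≤ ‖k‖ ^ (1 + a) := by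
      calc ‖k‖ = ‖k‖ ^ (1:ℝ) := (Real.rpow_one _).symm
        _ ≤ ‖k‖ ^ (1 + a) := Real.rpow_le_rpow_of_exponent_le hk.le (by linarith)
    have e8 : (1:ℝ) ≤ ‖k‖ ^ (1 + a) := hk.le.trans e7
    have e9 : (CP R * Mc a R * N + CP R * Mc a R * N) * 1 ≤
        (CP R * Mc a R * N + CP R * Mc a R * N) * ‖k‖ ^ (1 + a) :=
      mul_le_mul_of_nonneg_left e8 (by positivity)
    have e10 : (Tc a R + Mc a R) * N * ‖k‖ ≤ (Tc a R + Mc a R) * N * ‖k‖ ^ (1 + a) :=
      mul_le_mul_of_nonneg_left e7 (by positivity)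
    have e11 : 0 ≤ π⁻¹ * Nc a R * Ja a * N * ‖k‖ ^ (1 + a) := by positivity
    calc _ ≤ _ := e6
      _ ≤ (CP R * Mc a R * N + CP R * Mc a R * N) * ‖k‖ ^ (1 + a)
          + (Tc a R + Mc a R) * N * ‖k‖ ^ (1 + a) + π⁻¹ * Nc a R * Ja a * N * ‖k‖ ^ (1 + a) := by
          linarith
      _ = Kc a R * N * ‖k‖ ^ (1 + a) := by unfold Kc; ring

theorem pc_hasFDerivAt [CompleteSpace E] {a R N : ℝ} {u : ℂ → E} (h : HC a R N u) (ha : 0 < a)
    (ha1 : a < 1) (hR : 0 ≤ R) (z : ℂ) : HasFDerivAt (Pc u) (DP u z) z :=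
  taylor_hasFDerivAt ha (taylor h ha ha1 hR) z

theorem dp_holder [CompleteSpace E] {a R N : ℝ} {u : ℂ → E} (h : HC a R N u) (ha : 0 < a)
    (ha1 : a < 1) (hR : 0 ≤ R) (z z' : ℂ) :
    ‖DP u z - DP u z'‖ ≤ 6 * (Kc a R * N) * ‖z - z'‖ ^ a :=
  taylor_holder ha ha1.le (mul_nonneg (Kc_nonneg hR) h.nonneg) (taylor h ha ha1 hR) z z'

theorem pc_lip [CompleteSpace E] {a R N : ℝ} {u : ℂ → E} (h : HC a R N u) (ha : 0 < a)
    (ha1 : a < 1) (hR : 0 ≤ R) (z z' : ℂ) :
    ‖Pc u z - Pc u z'‖ ≤ (Tc a R + Mc a R) * N * ‖z - z'‖ := by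
  have := Convex.norm_image_sub_le_of_norm_hasFDerivWithin_le (𝕜 := ℝ) (f := Pc u) (s := univ)
    (f' := DP u) (C := (Tc a R + Mc a R) * N) (x := z') (y := z)
    (fun x _ => (pc_hasFDerivAt h ha ha1 hR x).hasFDerivWithinAt)
    (fun x _ => dp_le h ha hR x) convex_univ (mem_univ _) (mem_univ _)
  exact this

/-- the constant of the theorem -/
def KK (a R : ℝ) : ℝ := 6 * Kc a R + 2 * (CP R * Mc a R) + (Tc a R + Mc a R)

theorem KK_nonneg {a R : ℝ} (hR : 0 ≤ R) : 0 ≤ KK a R := by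
  have h1 := Mc_nonneg (a := a) hR
  have h2 := Kc_nonneg (a := a) hR
  have h4 := CP_nonneg R
  have h5 := Tc_nonneg (a := a) hR
  unfold KK; positivity

theorem pc_hb [CompleteSpace E] {a R N : ℝ} {u : ℂ → E} (h : HC a R N u) (ha : 0 < a)
    (ha1 : a < 1) (hR : 0 ≤ R) : HB a (KK a R * N) (Pc u) := by
  have hN := h.nonneg
  have h1 := Mc_nonneg (a := a) hR
  have h2 := Kc_nonneg (a := a) hR
  have h4 := CP_nonneg R
  have h5 := Tc_nonneg (a := a) hR
  have e := NWHol_952.hb_lip ha ha1.le (Pc_le h ha hR) (L := (Tc a R + Mc a R) * N)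
    (fun x y => by rw [dist_eq_norm]; exact pc_lip h ha ha1 hR x y)
  rw [max_eq_left (by positivity)] at e
  refine NWHol_952.HB.mono e ?_
  unfold KK
  have : 0 ≤ 6 * Kc a R * N := by positivity
  nlinarith

theorem dp_hb [CompleteSpace E] {a R N : ℝ} {u : ℂ → E} (h : HC a R N u) (ha : 0 < a)
    (ha1 : a < 1) (hR : 0 ≤ R) : HB a (KK a R * N) (DP u) := by
  have hN := h.nonneg
  have h1 := Mc_nonneg (a := a) hR
  have h2 := Kc_nonneg (a := a) hR
  have h4 := CP_nonneg R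
  have h5 := Tc_nonneg (a := a) hR
  refine ⟨fun z => (dp_le h ha hR z).trans ?_, fun z z' => (dp_holder h ha ha1 hR z z').trans ?_⟩
  · unfold KK
    have : 0 ≤ (6 * Kc a R + 2 * (CP R * Mc a R)) * N := by positivity
    nlinarith
  · rw [dist_eq_norm]
    apply mul_le_mul_of_nonneg_right _ (by positivity)
    unfold KK
    have : 0 ≤ (2 * (CP R * Mc a R) + (Tc a R + Mc a R)) * N := by positivity
    nlinarith

/-! ### decay and uniqueness -/

theorem pc_decay {R : ℝ} {u : ℂ → E} (hc : Continuous u) (hs : ∀ z, R < ‖z‖ → u z = 0)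
    (hR : 0 < R) {z : ℂ} (hz : 2 * R ≤ ‖z‖) :
    ‖Pc u z‖ ≤ 2 * π⁻¹ * (∫ ζ, ‖u ζ‖) * ‖z‖⁻¹ := by
  have hiu : Integrable u := hc.integrable_of_hasCompactSupport (compact_of hs)
  have hzpos : 0 < ‖z‖ := by linarith
  have e : Pc u z = ∫ ζ, ker (z - ζ) • u ζ := by
    unfold Pc
    rw [← integral_sub_left_eq_self (fun ζ => ker (z - ζ) • u ζ) volume z]
    simp
  rw [e]
  have hle : ∀ ζ, ‖ker (z - ζ) • u ζ‖ ≤ (2 * π⁻¹ * ‖z‖⁻¹) * ‖u ζ‖ := by
    intro ζ
    rw [norm_smul]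
    by_cases hζ : R < ‖ζ‖
    · rw [hs ζ hζ]; simp
    push Not at hζ
    apply mul_le_mul_of_nonneg_right _ (norm_nonneg _)
    rw [norm_ker]
    have h1 : ‖z‖ / 2 ≤ ‖z - ζ‖ := by
      have := norm_sub_norm_le z ζ
      linarith
    calc π⁻¹ * ‖z - ζ‖⁻¹ ≤ π⁻¹ * (‖z‖ / 2)⁻¹ :=
          mul_le_mul_of_nonneg_left (inv_anti₀ (by positivity) h1) (by positivity)
      _ = 2 * π⁻¹ * ‖z‖⁻¹ := by rw [inv_div]; ring
  refine (norm_integral_le_of_norm_le (hiu.norm.const_mul _) (Eventually.of_forall hle)).trans ?_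
  rw [integral_const_mul]
  apply le_of_eq; ring

theorem pc_tendsto {R : ℝ} {u : ℂ → E} (hc : Continuous u) (hs : ∀ z, R < ‖z‖ → u z = 0) :
    Tendsto (Pc u) (cocompact ℂ) (𝓝 0) := by
  set R' := max R 1 with hR'
  have hR0 : 0 < R' := by positivity
  have hs' : ∀ z, R' < ‖z‖ → u z = 0 := fun z hz => hs z ((le_max_left _ _).trans_lt hz)
  have h1 : Tendsto (fun z : ℂ => 2 * π⁻¹ * (∫ ζ, ‖u ζ‖) * ‖z‖⁻¹) (cocompact ℂ) (𝓝 0) := by
    have := (tendsto_inv_atTop_zero.comp (tendsto_norm_cocompact_atTop (E := ℂ))).const_mul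
      (2 * π⁻¹ * (∫ ζ, ‖u ζ‖))
    simpa using this
  refine squeeze_zero_norm' ?_ h1
  have h2 := (tendsto_norm_cocompact_atTop (E := ℂ)).eventually (eventually_ge_atTop (2 * R'))
  filter_upwards [h2] with z hz
  exact pc_decay hc hs' hR0 hz

/-- Liouville -/
theorem liouville {u : ℂ → E} (hd : Differentiable ℝ u) (h0 : ∀ z, dzb u z = 0)
    (hinf : Tendsto u (cocompact ℂ) (𝓝 0)) (z : ℂ) : u z = 0 := by
  have hdc : Differentiable ℂ u := by
    intro z
    have h1 := (hd z).hasFDerivAt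
    have h2 := h0 z
    unfold dzb dbl at h2
    have h3 : fderiv ℝ u z 1 + Complex.I • fderiv ℝ u z Complex.I = 0 := by
      have : (2:ℂ)⁻¹ ≠ 0 := by norm_num
      exact (smul_eq_zero.1 h2).resolve_left this
    have h4 : fderiv ℝ u z Complex.I = Complex.I • fderiv ℝ u z 1 := by
      have h5 : Complex.I • (fderiv ℝ u z 1 + Complex.I • fderiv ℝ u z Complex.I) = 0 := by
        rw [h3, smul_zero]
      rw [smul_add, smul_smul, Complex.I_mul_I, neg_one_smul, add_neg_eq_zero] at h5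
      exact h5.symm
    have h6 : ∀ k : ℂ, fderiv ℝ u z k = k • fderiv ℝ u z 1 := by
      intro k
      have hk : k = k.re • (1:ℂ) + k.im • Complex.I := by
        apply Complex.ext <;> simp
      conv_lhs => rw [hk]
      rw [map_add, map_smul, map_smul, h4]
      conv_rhs => rw [hk]
      rw [add_smul]
      congr 1
      · rw [smul_assoc, one_smul]
      · rw [smul_assoc]
    have h7 : HasFDerivAt u ((ContinuousLinearMap.id ℂ ℂ).smulRight (fderiv ℝ u z 1)) z := by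
      rw [hasFDerivAt_iff_isLittleO_nhds_zero] at h1 ⊢
      refine h1.congr_left fun k => ?_
      simp [h6 k]
    exact h7.differentiableAt
  have hcont : Continuous u := hd.continuous
  have hb : Bornology.IsBounded (range u) := by
    have h1 : ∀ᶠ z in cocompact ℂ, ‖u z‖ ≤ 1 := by
      have := hinf.norm
      rw [norm_zero] at this
      filter_upwards [this.eventually (gt_mem_nhds one_pos)] with z hz using hz.le
    obtain ⟨K, hK, hK1⟩ := mem_cocompact.1 h1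
    obtain ⟨C, hC⟩ := hK.exists_bound_of_continuousOn hcont.continuousOn
    refine (isBounded_iff_forall_norm_le).2 ⟨max C 1, ?_⟩
    rintro _ ⟨z, rfl⟩
    by_cases hz : z ∈ K
    · exact (hC z hz).trans (le_max_left _ _)
    · exact (hK1 hz : ‖u z‖ ≤ 1).trans (le_max_right _ _)
  have h1 : ∀ w, u w = u z := fun w => hdc.apply_eq_apply_of_bounded hb w z
  have h2 : Tendsto u (cocompact ℂ) (𝓝 (u z)) := by
    have : u = fun _ => u z := funext h1
    rw [this]; exact tendsto_const_nhds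
  exact tendsto_nhds_unique h2 hinf

/-! ### the two statements -/

theorem P_eq_Pc (g : ℂ → ℂ) : P g = Pc g := by
  funext z
  unfold P Pc
  simp only [smul_eq_mul]

theorem kp_stmt : KPStmt := by
  intro a ha ha1 R hR
  refine ⟨KK a R, KK_nonneg hR.le, fun g M hg hs => ?_⟩
  have h : HC a R M g := ⟨hs, fun z w => by rw [← dist_eq_norm z w]; exact hg.hol z w⟩
  rw [P_eq_Pc]
  have hd := pc_hasFDerivAt h ha ha1 hR.le
  have hf : fderiv ℝ (Pc g) = DP g := funext fun z => (hd z).fderiv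
  have hdp := dp_hb h ha ha1 hR.le
  refine ⟨?_, fun z => ?_, pc_hb h ha ha1 hR.le, ?_⟩
  · rw [contDiff_one_iff_fderiv, hf]
    exact ⟨fun z => (hd z).differentiableAt, NWHol_952.HB.continuous ha hdp⟩
  · unfold dzb
    rw [hf]; exact dbl_dp g z
  · rw [hf]; exact hdp

end Main

theorem pc_add {E : Type*} [NormedAddCommGroup E] [NormedSpace ℂ E] {u v : ℂ → E}
    (hu : Continuous u) (hv : Continuous v) (hus : HasCompactSupport u)
    (hvs : HasCompactSupport v) (z : ℂ) : Pc (fun z => u z + v z) z = Pc u z + Pc v z := by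
  have h1 := int_ker hu hus z 0
  have h2 := int_ker hv hvs z 0
  simp only [add_zero] at h1 h2
  unfold Pc
  rw [← integral_add h1 h2]
  congr 1; ext ζ; rw [smul_add]

theorem pc_smul {E : Type*} [NormedAddCommGroup E] [NormedSpace ℂ E] (c : ℝ) (u : ℂ → E) (z : ℂ) :
    Pc (fun z => c • u z) z = c • Pc u z := by
  unfold Pc
  rw [← integral_smul]
  congr 1; ext ζ; rw [smul_comm]

/-- the product of a cut-off and a Hölder function is `HC` -/
theorem hc_mul {E : Type*} [NormedAddCommGroup E] [NormedSpace ℂ E] {a R : ℝ} {χ : ℂ → ℝ}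
    {X M : ℝ} (hX : HB a X χ) (hs : ∀ z, R < ‖z‖ → χ z = 0) {g : ℂ → E} (hg : HB a M g) :
    HC a R (2 * X * M) (fun z => χ z • g z) := by
  have hX0 : 0 ≤ X := NWHol_952.HB.nonneg hX
  have hM0 : 0 ≤ M := NWHol_952.HB.nonneg hg
  have h1 := NWHol_952.HB.bilin (ContinuousLinearMap.lsmul ℝ ℝ : ℝ →L[ℝ] E →L[ℝ] E) hX0
    hM0 hX hg
  refine ⟨fun z hz => by simp [hs z hz], fun z w => ?_⟩
  have h2 := h1.hol z w
  rw [dist_eq_norm] at h2
  refine h2.trans ?_
  apply mul_le_mul_of_nonneg_right _ (by positivity)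
  have h3 : ‖(ContinuousLinearMap.lsmul ℝ ℝ : ℝ →L[ℝ] E →L[ℝ] E)‖ ≤ 1 :=
    ContinuousLinearMap.opNorm_lsmul_le
  have h4 : 0 ≤ X * M := by positivity
  nlinarith

/-- a smooth compactly supported function is `HB` -/
theorem hb_of_smooth {a : ℝ} (ha : 0 < a) (ha1 : a ≤ 1) {F : Type*} [NormedAddCommGroup F]
    [NormedSpace ℝ F] {χ : ℂ → F} (h : ContDiff ℝ 1 χ) (hc : HasCompactSupport χ) :
    ∃ X, HB a X χ := by
  obtain ⟨M, hM⟩ := hc.exists_bound_of_continuous h.continuous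
  obtain ⟨L, hL⟩ := (hc.fderiv ℝ).exists_bound_of_continuous (h.continuous_fderiv (by norm_num))
  refine ⟨_, NWHol_952.hb_lip ha ha1 hM (L := L) fun x y => ?_⟩
  rw [dist_eq_norm]
  exact Convex.norm_image_sub_le_of_norm_fderiv_le (𝕜 := ℝ) (s := univ)
    (fun x _ => (h.differentiable (by norm_num)) x) (fun x _ => hL x) convex_univ
    (mem_univ _) (mem_univ _)

/-- support in a ball -/
theorem supp_ball {F : Type*} [NormedAddCommGroup F] {χ : ℂ → F} (hc : HasCompactSupport χ) :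
    ∃ R : ℝ, 0 < R ∧ ∀ z, R < ‖z‖ → χ z = 0 := by
  obtain ⟨R, hR⟩ := hc.isCompact.isBounded.subset_closedBall 0
  refine ⟨max R 1, by positivity, fun z hz => ?_⟩
  apply image_eq_zero_of_notMem_tsupport
  intro h
  have := hR h
  rw [mem_closedBall, dist_zero_right] at this
  have := (le_max_left R 1)
  linarith

/-- `D (P g) = P (D g)` -/
theorem fderiv_Pc {E : Type*} [NormedAddCommGroup E] [NormedSpace ℂ E] [CompleteSpace E]
    {g : ℂ → E} (hg : ContDiff ℝ 1 g) (hc : HasCompactSupport g) (z : ℂ) :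
    DifferentiableAt ℝ (Pc g) z ∧ ∀ v, fderiv ℝ (Pc g) z v = Pc (fun ζ => fderiv ℝ g ζ v) z := by
  have h1 := hc.hasFDerivAt_convolution_right (ContinuousLinearMap.lsmul ℝ ℂ)
    locallyIntegrable_ker hg z
  rw [← Pc_eq_conv] at h1
  refine ⟨h1.differentiableAt, fun v => ?_⟩
  rw [h1.fderiv, convolution_precompR_apply _ locallyIntegrable_ker (hc.fderiv ℝ)
    (hg.continuous_fderiv (by norm_num)), Pc_eq_conv]

theorem contDiff_Pc {E : Type*} [NormedAddCommGroup E] [NormedSpace ℂ E] [CompleteSpace E]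
    {n : ℕ∞} {g : ℂ → E} (hg : ContDiff ℝ n g) (hc : HasCompactSupport g) :
    ContDiff ℝ n (Pc g) := by
  rw [Pc_eq_conv]
  exact hc.contDiff_convolution_right _ locallyIntegrable_ker hg

end

end Crest.Agent.R235.NWKP_133
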