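import Crest.Agent.R235.EndI_745
import Crest.Agent.R235.NWKP_133

/-!
Row 235, package REG, leaf REG-END (helper745), part 10: `END`.
-/

set_option autoImplicit false

open Complex Metric Set Filter Topology MeasureTheory
open scoped ContDiff ComplexConjugate

namespace Crest.Agent.R235.EndJ_745

open Crest.Agent.R235.NWDefs_334 Crest.Agent.R235.NWIface_334
open Crest.Agent.R235.Loc Crest.Agent.R235.End Crest.Agent.R235.EndH_745
open Crest.Agent.R235.EndI_745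

noncomputable section

/-- points off the graph. -/
theorem assemble0 {μ β : ℂ × ℂ → ℂ} {c : ℂ} {R : ℝ} {k : ℕ}
    {S : ℂ → Multiset ℂ} {e : ℂ → ℝ} (hK : KG μ β c R k S e) {p : ℂ} (hp : p ∈ ball c R)
    (hnd : ∀ᶠ z in 𝓝[≠] p, (S z).Nodup) {w0 : ℂ} (hw0 : w0 ∉ S p) {V : Set (ℂ × ℂ)}
    (hV : IsOpen V) (hPV : (p, w0) ∈ V) :
    ∃ (U : Set (ℂ × ℂ)) (u : Fin 0 → ℂ → ℂ × ℂ), PL0 μ β S (p, w0) V U 0 u := by
  obtain ⟨δ, hδ, hgap⟩ := LocClus_305.exists_gap w0 (S p)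
  have hne : ∀ b ∈ S p, b ≠ w0 := fun b hb h => hw0 (h ▸ hb)
  have h1 : ∀ᶠ z in 𝓝 p, Near (δ / 2) (S p) (S z) := hK.cont p hp _ (by positivity)
  have h2 : ∀ᶠ z in 𝓝 p, z ≠ p → (S z).Nodup := eventually_nhdsWithin_iff.1 hnd
  obtain ⟨r, hr, H⟩ := Metric.eventually_nhds_iff_ball.1 (h1.and h2)
  refine ⟨V ∩ {q | dist q.1 p < r ∧ dist q.2 w0 < δ / 2}, fun j => j.elim0,
    ⟨?_, ?_, inter_subset_left, fun j => j.elim0, fun j => j.elim0, fun j => j.elim0, ?_,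
      fun j => j.elim0, fun j => j.elim0, fun j => j.elim0, ?_⟩⟩
  · refine hV.inter ((isOpen_lt (continuous_fst.dist continuous_const) continuous_const).inter
      (isOpen_lt (continuous_snd.dist continuous_const) continuous_const))
  · refine ⟨hPV, ?_, ?_⟩
    · simp only [dist_self]; exact hr
    · simp only [dist_self]; positivity
  · rw [iUnion_of_empty]
    refine Set.eq_empty_iff_forall_notMem.2 ?_
    rintro q ⟨hq1, -, hq2, hq3⟩
    have h3 := (H q.1 hq2).1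
    obtain ⟨a, ha, hd⟩ := Multiset.exists_mem_of_rel_of_mem (Multiset.rel_flip.2 h3) hq1
    have hd' : dist a q.2 < δ / 2 := hd
    have h4 := hgap a ha (hne a ha)
    have h5 := dist_triangle a q.2 w0
    linarith
  · rintro q ⟨-, hq2, -⟩ hqp
    exact (H q.1 hq2).2 hqp

theorem ploc_of {μ β : ℂ × ℂ → ℂ} {κ L : ℝ} (hCHV : CHVStmt) (hB : BoxD μ β κ L) {c : ℂ} {R : ℝ}
    {k : ℕ} {S : ℂ → Multiset ℂ} {e : ℂ → ℝ} (hK : KG μ β c R k S e) {P : ℂ × ℂ}
    {V : Set (ℂ × ℂ)} (hVc : V ⊆ ball c R ×ˢ univ) {U : Set (ℂ × ℂ)} {n : ℕ}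
    {u : Fin n → ℂ → ℂ × ℂ} (h : PL0 μ β S P V U n u) : PLoc μ β S P V U n u where
  openU := h.openU
  mem := h.mem
  sub := h.sub
  disc := h.disc
  centre := h.centre
  disj := h.disj
  supp := h.supp
  proper := h.proper
  cur := by
    rintro g hgc hg ⟨K, hKU, hKc, hgK⟩
    exact current hCHV hB hK hVc h g hgc hg hKU hKc hgK

/-- **END** (modulo the Beltrami coordinate, the regularity of `C¹` discs and the change of
variables). -/
theorem end_of (hBel : BelStmt) (hReg : RegStmt) (hCHV : CHVStmt) : END := by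
  intro μ β κ L hB hμ hβ c R k S e hK p hp hold hnd w0 V hV hPV hVc
  obtain ⟨C, b, r, hb, hr, hold⟩ := hold
  by_cases hw0 : w0 ∈ S p
  · obtain ⟨U, n, u, h⟩ := assemble hBel NWKP_133.kp_stmt hReg hB hμ hβ hK hp hb hr hold hnd hw0
      hV hPV
    exact ⟨U, n, u, ploc_of hCHV hB hK hVc h⟩
  · obtain ⟨U, u, h⟩ := assemble0 (β := β) hK hp hnd hw0 hV hPV
    exact ⟨U, 0, u, ploc_of hCHV hB hK hVc h⟩

end

end Crest.Agent.R235.EndJ_745
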