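import Mathlib

/-!
Row 235, package REG, leaf REG-END (helper745), part 1: topology.
A `k`-valued function with distinct values, locally given by `k` sheets, has global sheets over a
convex open set; over a punctured disc it is a union of cyclic covers `z = s ^ m`.
-/

set_option autoImplicit false

open Complex Metric Set Filter Topology

namespace Crest.Agent.R235.EndTop_745

/-- `k`-valued function with distinct values given locally by `k` sheets of class `C^n`. -/
def LocSheets (k : ℕ) (n : WithTop ℕ∞) (S : ℂ → Fin k → ℂ) (U : Set ℂ) : Prop :=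
  ∀ z0 ∈ U, ∃ r > 0, ∃ f : Fin k → ℂ → ℂ, ball z0 r ⊆ U ∧
    (∀ i, ContDiffOn ℝ n (f i) (ball z0 r)) ∧
    (∀ z ∈ ball z0 r, Function.Injective fun i => f i z) ∧
    ∀ z ∈ ball z0 r, ∃ τ : Equiv.Perm (Fin k), ∀ i, S z (τ i) = f i z

variable {k : ℕ} {n : WithTop ℕ∞} {S : ℂ → Fin k → ℂ} {U : Set ℂ}

theorem LocSheets.isOpen (h : LocSheets k n S U) : IsOpen U := by
  rw [Metric.isOpen_iff]
  intro z hz
  obtain ⟨r, hr, f, h1, -⟩ := h z hz
  exact ⟨r, hr, h1⟩

theorem LocSheets.inj (h : LocSheets k n S U) {z : ℂ} (hz : z ∈ U) :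
    Function.Injective (S z) := by
  obtain ⟨r, hr, f, h1, h2, h3, h4⟩ := h z hz
  obtain ⟨τ, hτ⟩ := h4 z (mem_ball_self hr)
  intro i j hij
  have hi := hτ (τ.symm i)
  have hj := hτ (τ.symm j)
  simp only [Equiv.apply_symm_apply] at hi hj
  have : τ.symm i = τ.symm j := h3 z (mem_ball_self hr) (by simp only; rw [← hi, ← hj, hij])
  exact τ.symm.injective this

/-- a continuous selection coincides locally with a sheet. -/
theorem sel_local {g : ℂ → ℂ} {z0 : ℂ} {r : ℝ} {f : Fin k → ℂ → ℂ} (hr : 0 < r)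
    (hf : ∀ i, ContinuousOn (f i) (ball z0 r))
    (hinj : ∀ z ∈ ball z0 r, Function.Injective fun i => f i z)
    (hg : ContinuousAt g z0) (hsel : ∀ᶠ z in 𝓝 z0, ∃ i, g z = f i z) :
    ∃ i, ∀ᶠ z in 𝓝 z0, g z = f i z := by
  obtain ⟨i, hi⟩ := hsel.self_of_nhds
  refine ⟨i, ?_⟩
  have hball : ball z0 r ∈ 𝓝 z0 := ball_mem_nhds z0 hr
  have key : ∀ j : Fin k, j ≠ i → ∀ᶠ z in 𝓝 z0, g z ≠ f j z := by
    intro j hj
    have h1 : g z0 ≠ f j z0 := by
      rw [hi]
      intro h
      exact hj ((hinj z0 (mem_ball_self hr)) h).symm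
    have h2 : ContinuousAt (f j) z0 := (hf j).continuousAt hball
    exact (hg.ne_iff_eventually_ne h2).1 h1
  have key2 : ∀ᶠ z in 𝓝 z0, ∀ j : Fin k, j ≠ i → g z ≠ f j z := by
    rw [Filter.eventually_all]
    intro j
    by_cases hj : j = i
    · exact Eventually.of_forall fun z h => absurd hj h
    · filter_upwards [key j hj] with z hz _ using hz
  filter_upwards [key2, hsel] with z hz1 hz2
  obtain ⟨j, hj⟩ := hz2
  by_cases hji : j = i
  · rw [← hji]; exact hj
  · exact absurd hj (hz1 j hji)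

/-- selections of a `k`-valued function -/
def IsSel (S : ℂ → Fin k → ℂ) (U : Set ℂ) (g : ℂ → ℂ) : Prop :=
  ContinuousOn g U ∧ ∀ z ∈ U, ∃ i, g z = S z i

theorem IsSel.eventually (h : LocSheets k n S U) {g : ℂ → ℂ} (hg : IsSel S U g) {z0 : ℂ}
    (hz0 : z0 ∈ U) {r : ℝ} {f : Fin k → ℂ → ℂ} (hr : 0 < r) (hsub : ball z0 r ⊆ U)
    (hf : ∀ i, ContDiffOn ℝ n (f i) (ball z0 r))
    (hinj : ∀ z ∈ ball z0 r, Function.Injective fun i => f i z)
    (hS : ∀ z ∈ ball z0 r, ∃ τ : Equiv.Perm (Fin k), ∀ i, S z (τ i) = f i z) :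
    ∃ i, ∀ᶠ z in 𝓝 z0, g z = f i z := by
  refine sel_local hr (fun i => (hf i).continuousOn) hinj
    (hg.1.continuousAt (h.isOpen.mem_nhds hz0)) ?_
  filter_upwards [ball_mem_nhds z0 hr] with z hz
  obtain ⟨i, hi⟩ := hg.2 z (hsub hz)
  obtain ⟨τ, hτ⟩ := hS z hz
  refine ⟨τ.symm i, ?_⟩
  rw [← hτ, Equiv.apply_symm_apply, hi]

theorem IsSel.contDiffOn (h : LocSheets k n S U) {g : ℂ → ℂ} (hg : IsSel S U g) :
    ContDiffOn ℝ n g U := by
  intro z0 hz0
  obtain ⟨r, hr, f, h1, h2, h3, h4⟩ := h z0 hz0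
  obtain ⟨i, hi⟩ := hg.eventually h hz0 hr h1 h2 h3 h4
  exact (((h2 i).contDiffAt (ball_mem_nhds z0 hr)).congr_of_eventuallyEq hi).contDiffWithinAt

theorem IsSel.unique (h : LocSheets k n S U) (hU : IsPreconnected U) {g1 g2 : ℂ → ℂ}
    (hg1 : IsSel S U g1) (hg2 : IsSel S U g2) {z0 : ℂ} (hz0 : z0 ∈ U) (he : g1 z0 = g2 z0) :
    ∀ z ∈ U, g1 z = g2 z := by
  -- the set of agreement is clopen in `U`
  have hopen : ∀ z ∈ U, (g1 z = g2 z → ∀ᶠ w in 𝓝 z, g1 w = g2 w) ∧
      (g1 z ≠ g2 z → ∀ᶠ w in 𝓝 z, g1 w ≠ g2 w) := by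
    intro z hz
    obtain ⟨r, hr, f, h1, h2, h3, h4⟩ := h z hz
    obtain ⟨i, hi⟩ := hg1.eventually h hz hr h1 h2 h3 h4
    obtain ⟨j, hj⟩ := hg2.eventually h hz hr h1 h2 h3 h4
    constructor
    · intro hzz
      have : i = j := by
        apply h3 z (mem_ball_self hr)
        simp only
        rw [← hi.self_of_nhds, ← hj.self_of_nhds, hzz]
      subst this
      filter_upwards [hi, hj] with w h5 h6
      rw [h5, h6]
    · intro hzz
      have hne : i ≠ j := by
        rintro rfl
        exact hzz (by rw [hi.self_of_nhds, hj.self_of_nhds])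
      filter_upwards [hi, hj, ball_mem_nhds z hr] with w h5 h6 h7 h8
      exact hne (h3 w h7 (by simp only; rw [← h5, ← h6, h8]))
  by_contra hcon
  push Not at hcon
  obtain ⟨z1, hz1, hne⟩ := hcon
  let A : Set ℂ := {z | ∀ᶠ w in 𝓝 z, g1 w = g2 w}
  let B : Set ℂ := {z | ∀ᶠ w in 𝓝 z, g1 w ≠ g2 w}
  have hA : IsOpen A := isOpen_setOfPred_eventually_nhds
  have hB : IsOpen B := isOpen_setOfPred_eventually_nhds
  have hcov : U ⊆ A ∪ B := by
    intro z hz
    by_cases hzz : g1 z = g2 z
    · exact Or.inl ((hopen z hz).1 hzz)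
    · exact Or.inr ((hopen z hz).2 hzz)
  obtain ⟨z, hz, hzA, hzB⟩ := hU A B hA hB hcov ⟨z0, hz0, (hopen z0 hz0).1 he⟩
    ⟨z1, hz1, (hopen z1 hz1).2 hne⟩
  exact (hzB.self_of_nhds) hzA.self_of_nhds

/-! ### the covering space -/

/-- the graph over `U` -/
def Gr (S : ℂ → Fin k → ℂ) (U : Set ℂ) : Type := {q : U × ℂ // ∃ i, q.2 = S q.1 i}

instance : TopologicalSpace (Gr S U) := inferInstanceAs (TopologicalSpace {q : U × ℂ // _})

/-- projection to the base -/
def Gr.pr (q : Gr S U) : U := q.1.1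

theorem Gr.continuous_pr : Continuous (Gr.pr : Gr S U → U) :=
  continuous_fst.comp continuous_subtype_val

theorem Gr.continuous_snd : Continuous (fun q : Gr S U => q.1.2) :=
  Continuous.comp _root_.continuous_snd continuous_subtype_val

theorem isCovering (h : LocSheets k n S U) : IsCoveringMap (Gr.pr : Gr S U → U) := by
  intro x
  obtain ⟨r, hr, f, h1, h2, h3, h4⟩ := h x.1 x.2
  have hev : IsEvenlyCovered (Gr.pr : Gr S U → U) x (Fin k) := by
    refine ⟨inferInstance, {y : U | (y : ℂ) ∈ ball (x : ℂ) r}, mem_ball_self hr,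
      isOpen_ball.preimage continuous_subtype_val,
      (isOpen_ball.preimage continuous_subtype_val).preimage Gr.continuous_pr, ?_⟩
    set V : Set U := {y : U | (y : ℂ) ∈ ball (x : ℂ) r} with hV
    have hmem : ∀ (y : V) (i : Fin k), ∃ j, f i (y : U) = S (y : U) j := by
      intro y i
      obtain ⟨τ, hτ⟩ := h4 (y : U) y.2
      exact ⟨τ i, (hτ i).symm⟩
    have hidx : ∀ q : (Gr.pr ⁻¹' V : Set (Gr S U)), ∃ i, q.1.1.2 = f i (q.1.1.1 : ℂ) := by
      intro q
      obtain ⟨j, hj⟩ := q.1.2
      obtain ⟨τ, hτ⟩ := h4 (q.1.1.1 : ℂ) q.2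
      exact ⟨τ.symm j, by rw [← hτ, Equiv.apply_symm_apply, hj]⟩
    choose idx hidx using hidx
    have hidxu : ∀ (q : (Gr.pr ⁻¹' V : Set (Gr S U))) (i : Fin k),
        q.1.1.2 = f i (q.1.1.1 : ℂ) → idx q = i := by
      intro q i hi
      apply h3 (q.1.1.1 : ℂ) q.2
      simp only
      rw [← hidx q, hi]
    let E : (Gr.pr ⁻¹' V : Set (Gr S U)) ≃ V × Fin k :=
      { toFun := fun q => (⟨q.1.1.1, q.2⟩, idx q)
        invFun := fun y => ⟨⟨(y.1.1, f y.2 (y.1 : U)), hmem y.1 y.2⟩, y.1.2⟩
        left_inv := by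
          intro q
          apply Subtype.ext
          apply Subtype.ext
          exact Prod.ext rfl (hidx q).symm
        right_inv := by
          intro y
          refine Prod.ext rfl ?_
          exact hidxu _ _ rfl }
    have hc1 : Continuous E := by
      refine Continuous.prodMk ?_ ?_
      · exact Continuous.subtype_mk (Gr.continuous_pr.comp continuous_subtype_val) _
      · -- `idx` is locally constant
        rw [continuous_discrete_rng]
        intro i
        have hcl : ∀ j : Fin k, IsClosed {q : (Gr.pr ⁻¹' V : Set (Gr S U)) | idx q = j} := by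
          intro j
          have : {q : (Gr.pr ⁻¹' V : Set (Gr S U)) | idx q = j} =
              {q | q.1.1.2 = f j (q.1.1.1 : ℂ)} := by
            ext q
            constructor
            · intro hq
              have hq' : idx q = j := hq
              have := hidx q
              rw [hq'] at this
              exact this
            · intro hq; exact hidxu q j hq
          rw [this]
          refine isClosed_eq (Gr.continuous_snd.comp continuous_subtype_val) ?_
          have hcf : ContinuousOn (f j) (ball (x : ℂ) r) := (h2 j).continuousOn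
          exact hcf.comp_continuous
            (continuous_subtype_val.comp (Gr.continuous_pr.comp continuous_subtype_val))
            (fun q => q.2)
        have hc : idx ⁻¹' {i} = (⋃ j ∈ {j : Fin k | j ≠ i}, {q | idx q = j})ᶜ := by
          ext q
          simp only [mem_preimage, mem_singleton_iff, mem_ofPred_eq, mem_compl_iff, mem_iUnion,
            exists_prop, not_exists, not_and]
          constructor
          · rintro h5 j hj rfl
            exact hj h5
          · intro h5
            by_contra h6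
            exact h5 _ h6 rfl
        rw [hc, isOpen_compl_iff]
        exact Set.Finite.isClosed_biUnion (Set.toFinite _) fun j _ => hcl j
    have hc2 : Continuous E.symm := by
      rw [continuous_prod_of_discrete_right]
      intro i
      refine Continuous.subtype_mk (Continuous.subtype_mk ?_ _) _
      refine Continuous.prodMk continuous_subtype_val ?_
      exact ((h2 i).continuousOn).comp_continuous
        (continuous_subtype_val.comp continuous_subtype_val) (fun y => y.2)
    exact ⟨⟨E, hc1, hc2⟩, fun q => rfl⟩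
  exact hev.to_isEvenlyCovered_preimage

/-- global sheets over a convex open set. -/
theorem global_sheets (h : LocSheets k n S U) (hU : Convex ℝ U) (hne : U.Nonempty) :
    ∃ σ : Fin k → ℂ → ℂ, (∀ i, ContDiffOn ℝ n (σ i) U) ∧
      (∀ w ∈ U, Function.Injective fun i => σ i w) ∧
      (∀ w ∈ U, ∃ τ : Equiv.Perm (Fin k), ∀ i, S w (τ i) = σ i w) := by
  classical
  have hcov := isCovering h
  have : ContractibleSpace U := hU.contractibleSpace hne
  have : LocallyPathConnectedSpace U := h.isOpen.locallyPathConnectedSpace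
  obtain ⟨w0, hw0⟩ := hne
  have hlift : ∀ i : Fin k, ∃ F : C(U, Gr S U), F ⟨w0, hw0⟩ = ⟨(⟨w0, hw0⟩, S w0 i), i, rfl⟩ ∧
      Gr.pr ∘ F = id := by
    intro i
    obtain ⟨F, hF, -⟩ := hcov.existsUnique_continuousMap_lifts (ContinuousMap.id U) ⟨w0, hw0⟩
      (⟨(⟨w0, hw0⟩, S w0 i), i, rfl⟩ : Gr S U) rfl
    exact ⟨F, hF⟩
  choose F hF0 hF using hlift
  let σ : Fin k → ℂ → ℂ := fun i w => if hw : w ∈ U then (F i ⟨w, hw⟩).1.2 else 0
  have hσ : ∀ i w (hw : w ∈ U), σ i w = (F i ⟨w, hw⟩).1.2 := fun i w hw => dif_pos hw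
  have hfst : ∀ i (w : U), (F i w).1.1 = w := by
    intro i w
    have := congrFun (hF i) w
    exact this
  have hsel : ∀ i, IsSel S U (σ i) := by
    intro i
    constructor
    · rw [continuousOn_iff_continuous_domRestrict]
      have : U.domRestrict (σ i) = fun w : U => (F i w).1.2 := by
        funext w
        exact hσ i w w.2
      rw [this]
      exact Gr.continuous_snd.comp (F i).continuous
    · intro w hw
      obtain ⟨j, hj⟩ := (F i ⟨w, hw⟩).2
      refine ⟨j, ?_⟩
      rw [hσ i w hw, hj, hfst]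
  have hinj : ∀ w ∈ U, Function.Injective fun i => σ i w := by
    intro w hw i j hij
    simp only at hij
    have heq := IsSel.unique h hU.isPreconnected (hsel i) (hsel j) hw hij w0 hw0
    rw [hσ i w0 hw0, hσ j w0 hw0, hF0 i, hF0 j] at heq
    exact h.inj hw0 heq
  refine ⟨σ, fun i => (hsel i).contDiffOn h, hinj, ?_⟩
  intro w hw
  choose τ hτ using fun i => (hsel i).2 w hw
  have hτi : Function.Injective τ := by
    intro i j hij
    apply hinj w hw
    simp only
    rw [hτ i, hτ j, hij]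
  refine ⟨Equiv.ofBijective τ (Finite.injective_iff_bijective.1 hτi), fun i => ?_⟩
  exact (hτ i).symm

end Crest.Agent.R235.EndTop_745
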