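import Crest.Agent.R235.EndJ_745
import Crest.Agent.R235.EndChv_745
import Crest.Agent.R235.NWBel_601

/-!
Row 235, package REG, leaf REG-END (helper745): `END` from the regularity of `C¹` discs.
-/

set_option autoImplicit false

namespace Crest.Agent.R235.End_745

open Crest.Agent.R235.NWDefs_334 Crest.Agent.R235.End

theorem chv_stmt : EndI_745.CHVStmt := fun _ _ hO hφ hdet hfin F hF =>
  EndChv_745.chv hO hφ hdet hfin F hF

/-- **END** -/
theorem end_of_reg (hReg : RegStmt) : END :=
  EndJ_745.end_of NWBel_601.bel hReg chv_stmt

end Crest.Agent.R235.End_745
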