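import Mathlib

/-! Row 235 (helper356).  Part A of EqPert: the null image lemma (a map between spaces of equal
dimension whose differential has a kernel has a null image), and the local frames of a continuous
family of projections. -/

set_option autoImplicit false

open Set MeasureTheory Filter Topology Module
open scoped ENNReal

namespace Crest.Agent.R235.EqPert_356

/-- image of the set where the differential is not injective, equal dimensions: null -/
theorem null_image {D Y : Type*} [NormedAddCommGroup D] [NormedSpace ℝ D] [FiniteDimensional ℝ D]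
    [NormedAddCommGroup Y] [NormedSpace ℝ Y] [FiniteDimensional ℝ Y] [MeasurableSpace Y]
    [BorelSpace Y] (μ : Measure Y) [μ.IsAddHaarMeasure] (hdim : finrank ℝ D = finrank ℝ Y)
    (G : D → Y) (s : Set D) (G' : D → D →L[ℝ] Y) (hG : ∀ x ∈ s, HasFDerivAt G (G' x) x)
    (hk : ∀ x ∈ s, ∃ v : D, v ≠ 0 ∧ G' x v = 0) : μ (G '' s) = 0 := by
  let e : D ≃L[ℝ] Y := ContinuousLinearEquiv.ofFinrankEq hdim
  have himg : G '' s = (G ∘ e.symm) '' (e '' s) := by
    ext y; constructor
    · rintro ⟨x, hx, rfl⟩; exact ⟨e x, ⟨x, hx, rfl⟩, by simp⟩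
    · rintro ⟨_, ⟨x, hx, rfl⟩, rfl⟩; exact ⟨x, hx, by simp⟩
  rw [himg]
  refine addHaar_image_eq_zero_of_det_fderivWithin_eq_zero μ
    (f' := fun y => (G' (e.symm y)).comp (e.symm : Y →L[ℝ] D)) ?_ ?_
  · rintro _ ⟨x, hx, rfl⟩
    have h1 : HasFDerivAt G (G' x) (e.symm (e x)) := by simpa using hG x hx
    have h2 := h1.comp (e x) e.symm.hasFDerivAt
    simpa using h2.hasFDerivWithinAt
  · rintro _ ⟨x, hx, rfl⟩
    obtain ⟨v, hv, h0⟩ := hk x hx
    have h1 : ((G' (e.symm (e x))).comp (e.symm : Y →L[ℝ] D)) (e v) = 0 := by simpa using h0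
    have h2 : e v ≠ 0 := by simpa using hv
    by_contra hdet
    have h3 := (LinearMap.det ((((G' (e.symm (e x))).comp (e.symm : Y →L[ℝ] D)) : Y →L[ℝ] Y)
      : Y →ₗ[ℝ] Y))
    have h4 : LinearMap.ker (((G' (e.symm (e x))).comp (e.symm : Y →L[ℝ] D) : Y →L[ℝ] Y)
      : Y →ₗ[ℝ] Y) = ⊥ := by
      by_contra hne
      exact hdet (LinearMap.det_eq_zero_iff_ker_ne_bot.2 hne)
    have h5 : e v ∈ LinearMap.ker (((G' (e.symm (e x))).comp (e.symm : Y →L[ℝ] D) : Y →L[ℝ] Y)
      : Y →ₗ[ℝ] Y) := h1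
    rw [h4] at h5
    exact h2 (by simpa using h5)

/-- a projection close to a projection of the same rank maps its range onto -/
theorem proj_onto {H : Type*} [NormedAddCommGroup H] [InnerProductSpace ℂ H]
    [FiniteDimensional ℂ H] (P Q : H →L[ℂ] H) (hP : ∀ x, P (P x) = P x) (hQ : ∀ x, Q (Q x) = Q x)
    (hr : finrank ℂ (LinearMap.range (P : H →ₗ[ℂ] H)) = finrank ℂ (LinearMap.range (Q : H →ₗ[ℂ] H)))
    (hd : ‖P - Q‖ < 1) (x : H) (hx : Q x = x) :
    ∃ u : LinearMap.range (P : H →ₗ[ℂ] H), Q u = x := by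
  let f : LinearMap.range (P : H →ₗ[ℂ] H) →ₗ[ℂ] LinearMap.range (Q : H →ₗ[ℂ] H) :=
    ((Q : H →ₗ[ℂ] H).rangeRestrict).comp (LinearMap.range (P : H →ₗ[ℂ] H)).subtype
  have hinj : Function.Injective f := by
    rw [injective_iff_map_eq_zero]
    rintro ⟨u, w, hw⟩ hu
    have hPu : P u = u := by rw [← hw]; exact hP w
    have hQu : Q u = 0 := by
      have := congrArg Subtype.val hu
      exact this
    have h1 : ‖u‖ ≤ ‖P - Q‖ * ‖u‖ := by
      calc ‖u‖ = ‖(P - Q) u‖ := by
            rw [ContinuousLinearMap.sub_apply, hPu, hQu, sub_zero]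
        _ ≤ ‖P - Q‖ * ‖u‖ := (P - Q).le_opNorm u
    have h2 : ‖u‖ = 0 := by
      by_contra h
      have : 0 < ‖u‖ := lt_of_le_of_ne (norm_nonneg _) (Ne.symm h)
      nlinarith
    exact Subtype.ext (norm_eq_zero.1 h2)
  have hsurj : Function.Surjective f :=
    (LinearMap.injective_iff_surjective_of_finrank_eq_finrank hr).1 hinj
  obtain ⟨u, hu⟩ := hsurj ⟨x, x, hx⟩
  exact ⟨u, congrArg Subtype.val hu⟩

end Crest.Agent.R235.EqPert_356
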