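import Mathlib

/-!
Row 235, EqPert (helper371), part A: the set of bad perturbations is a null set.
-/

set_option autoImplicit false
set_option linter.unusedSectionVars false

open Set Function Filter MeasureTheory Module Metric
open scoped Topology ContDiff

namespace Crest.Agent.R235.EqPertA_371

noncomputable section

section Null

variable {E F : Type*} [NormedAddCommGroup E] [NormedSpace ℝ E] [FiniteDimensional ℝ E]
  [NormedAddCommGroup F] [NormedSpace ℝ F] [FiniteDimensional ℝ F]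
  [MeasurableSpace F] [BorelSpace F]

/-- image of a map between spaces of the same dimension whose differential has a kernel -/
theorem null_image (μ : Measure F) [μ.IsAddHaarMeasure] (hd : finrank ℝ E = finrank ℝ F)
    (Φ : E → F) (s : Set E) (hΦ : ∀ x ∈ s, DifferentiableAt ℝ Φ x)
    (hk : ∀ x ∈ s, ∃ v : E, v ≠ 0 ∧ fderiv ℝ Φ x v = 0) : μ (Φ '' s) = 0 := by
  let e : F ≃L[ℝ] E := ContinuousLinearEquiv.ofFinrankEq hd.symm
  have h1 : Φ '' s = (Φ ∘ e) '' (e ⁻¹' s) := by
    rw [image_comp, e.surjective.image_preimage]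
  rw [h1]
  refine addHaar_image_eq_zero_of_det_fderivWithin_eq_zero μ
    (f' := fun y => (fderiv ℝ Φ (e y)).comp (e : F →L[ℝ] E)) ?_ ?_
  · intro y hy
    have := (hΦ (e y) hy).hasFDerivAt.comp y (e : F →L[ℝ] E).hasFDerivAt
    exact this.hasFDerivWithinAt
  · intro y hy
    obtain ⟨v, hv, hv0⟩ := hk (e y) hy
    by_contra hne
    have h2 : IsUnit (LinearMap.det (((fderiv ℝ Φ (e y)).comp (e : F →L[ℝ] E) : F →L[ℝ] F) :
        F →ₗ[ℝ] F)) := isUnit_iff_ne_zero.2 hne
    have h3 := (LinearMap.equivOfIsUnitDet h2).injective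
    have h4 : e.symm v = 0 := by
      apply h3
      rw [map_zero, LinearMap.equivOfIsUnitDet_apply]
      show (fderiv ℝ Φ (e y)) (e (e.symm v)) = 0
      rw [e.apply_symm_apply, hv0]
    exact hv (by simpa using h4)

end Null

section Bad

variable {b : ℕ} {T H YR YC : Type*}
  [NormedAddCommGroup T] [NormedSpace ℝ T] [FiniteDimensional ℝ T]
  [NormedAddCommGroup H] [NormedSpace ℂ H] [FiniteDimensional ℂ H]
  [NormedAddCommGroup YR] [NormedSpace ℝ YR] [FiniteDimensional ℝ YR]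
  [NormedAddCommGroup YC] [NormedSpace ℂ YC] [FiniteDimensional ℂ YC]

/-- the parametrisation space over `h₀` -/
abbrev XX (b : ℕ) (T : Type*) (V : Type*) (YC : Type*) (K : ℕ) : Type _ :=
  T × ((Fin b → ℝ) × (V × (Fin K → YC)))

/-- the `k`-th column -/
def colk (b : ℕ) (T V YC : Type*) [NormedAddCommGroup T] [NormedSpace ℝ T]
    [NormedAddCommGroup V] [NormedSpace ℝ V] [NormedAddCommGroup YC] [NormedSpace ℝ YC]
    {K : ℕ} (k : Fin K) : XX b T V YC K →ₗ[ℝ] YC where
  toFun x := x.2.2.2 k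
  map_add' _ _ := rfl
  map_smul' _ _ := rfl

omit [FiniteDimensional ℝ T] [FiniteDimensional ℂ YC] in
theorem colk_surj {V : Type*} [NormedAddCommGroup V] [NormedSpace ℝ V] {K : ℕ} (k : Fin K) :
    Surjective (colk b T V YC k) := by
  intro y
  exact ⟨(0, 0, 0, fun _ => y), rfl⟩

theorem finrank_ker {V : Type*} [NormedAddCommGroup V] [NormedSpace ℝ V] [FiniteDimensional ℝ V]
    {K : ℕ} (k : Fin K) :
    finrank ℝ (LinearMap.ker (colk b T V YC k)) + finrank ℝ YC =
      finrank ℝ T + (b + (finrank ℝ V + K * finrank ℝ YC)) := by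
  have : FiniteDimensional ℝ YC := FiniteDimensional.complexToReal YC
  have h1 := LinearMap.finrank_range_add_finrank_ker (colk b T V YC k)
  rw [LinearMap.range_eq_top.2 (colk_surj k), finrank_top] at h1
  rw [add_comm, h1]
  simp [XX, finrank_prod, finrank_pi_fintype]

/-- the fibre point -/
def pt (P : (Fin b → ℝ) → H →L[ℂ] H) {V : Submodule ℂ H} {K : ℕ} (x : XX b T V YC K) : H :=
  P x.2.1 (x.2.2.1 : H)

/-- the map whose image contains the bad perturbations -/
def Phi (P : (Fin b → ℝ) → H →L[ℂ] H) {K : ℕ} (ℓ : Fin K → H →L[ℂ] ℂ)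
    (fR : T → (Fin b → ℝ) → H → YR) (fC : T → (Fin b → ℝ) → H → YC) (V : Submodule ℂ H)
    (k : Fin K) (x : XX b T V YC K) : YR × (Fin K → YC) :=
  (-fR x.1 x.2.1 (pt P x), fun j => if j = k then
    -((ℓ k (pt P x))⁻¹ • (fC x.1 x.2.1 (pt P x) + ∑ i, ℓ i (pt P x) • x.2.2.2 i)) else x.2.2.2 j)

theorem contDiff_eval {n : WithTop ℕ∞} {P : (Fin b → ℝ) → H →L[ℂ] H} (hP : ContDiff ℝ n P) :
    ContDiff ℝ n (fun q : (Fin b → ℝ) × H => P q.1 q.2) := by
  have h1 : ContDiff ℝ n (fun q : (Fin b → ℝ) × H =>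
      (ContinuousLinearMap.restrictScalarsL ℂ H H ℝ ℝ) (P q.1)) :=
    (ContinuousLinearMap.restrictScalarsL ℂ H H ℝ ℝ).contDiff.comp (hP.comp contDiff_fst)
  exact h1.clm_apply contDiff_snd

variable {P : (Fin b → ℝ) → H →L[ℂ] H} {K : ℕ} {ℓ : Fin K → H →L[ℂ] ℂ}
  {fR : T → (Fin b → ℝ) → H → YR} {fC : T → (Fin b → ℝ) → H → YC}

theorem contDiff_pt (hP : ContDiff ℝ 1 P) (V : Submodule ℂ H) :
    ContDiff ℝ 1 (fun x : XX b T V YC K => pt P x) := by
  have h2 : ContDiff ℝ 1 (fun x : XX b T V YC K => (x.2.1, ((x.2.2.1 : V) : H))) := by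
    refine (contDiff_fst.comp contDiff_snd).prodMk ?_
    have h3 : ContDiff ℝ 1 (fun v : V => (v : H)) := (V.subtypeL.restrictScalars ℝ).contDiff
    exact h3.comp (contDiff_fst.comp (contDiff_snd.comp contDiff_snd))
  exact (contDiff_eval hP).comp h2

theorem diff_Phi (hP : ContDiff ℝ 1 P)
    (hR : ContDiff ℝ 1 (fun q : T × ((Fin b → ℝ) × H) => fR q.1 q.2.1 q.2.2))
    (hC : ContDiff ℝ 1 (fun q : T × ((Fin b → ℝ) × H) => fC q.1 q.2.1 q.2.2))
    (V : Submodule ℂ H) (k : Fin K) (x : XX b T V YC K) (hx : ℓ k (pt P x) ≠ 0) :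
    DifferentiableAt ℝ (Phi P ℓ fR fC V k) x := by
  have h0 : ContDiff ℝ 1 (fun x : XX b T V YC K => (x.1, (x.2.1, pt P x))) :=
    contDiff_fst.prodMk ((contDiff_fst.comp contDiff_snd).prodMk (contDiff_pt hP V))
  have hpt : DifferentiableAt ℝ (fun x : XX b T V YC K => pt P x) x :=
    (contDiff_pt hP V).differentiable one_ne_zero x
  have hl : ∀ i, DifferentiableAt ℝ (fun x : XX b T V YC K => ℓ i (pt P x)) x := fun i =>
    ((ℓ i).restrictScalars ℝ).differentiableAt.comp x hpt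
  have hfR : DifferentiableAt ℝ (fun x : XX b T V YC K => fR x.1 x.2.1 (pt P x)) x :=
    (hR.comp h0).differentiable one_ne_zero x
  have hfC : DifferentiableAt ℝ (fun x : XX b T V YC K => fC x.1 x.2.1 (pt P x)) x :=
    (hC.comp h0).differentiable one_ne_zero x
  have hcol : ∀ j, DifferentiableAt ℝ (fun x : XX b T V YC K => x.2.2.2 j) x := by
    intro j
    fun_prop
  refine hfR.neg.prodMk ?_
  rw [differentiableAt_pi]
  intro j
  by_cases hj : j = k
  · simp only [hj, if_true]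
    refine (((hl k).inv hx).smul (hfC.add ?_)).neg
    refine DifferentiableAt.fun_sum fun i _ => (hl i).smul (hcol i)
  · simp only [hj, if_false]
    exact hcol j

/-- rotation of the fibre point inside the kernel of the `k`-th column -/
def rot (V : Submodule ℂ H) (k : Fin K) (z : V) :
    ℂ →ₗ[ℝ] LinearMap.ker (colk b T V YC k) where
  toFun c := ⟨(0, 0, c • z, 0), by simp [colk]⟩
  map_add' c d := by
    apply Subtype.ext
    simp [add_smul]
  map_smul' r c := by
    apply Subtype.ext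
    simp [mul_smul]

theorem null_one [MeasurableSpace (YR × (Fin K → YC))] [BorelSpace (YR × (Fin K → YC))]
    (μ : Measure (YR × (Fin K → YC))) [μ.IsAddHaarMeasure] (hP : ContDiff ℝ 1 P)
    (hR : ContDiff ℝ 1 (fun q : T × ((Fin b → ℝ) × H) => fR q.1 q.2.1 q.2.2))
    (hC : ContDiff ℝ 1 (fun q : T × ((Fin b → ℝ) × H) => fC q.1 q.2.1 q.2.2))
    (eR : ∀ t h (c : ℂ) ψ, ‖c‖ = 1 → fR t h (c • ψ) = fR t h ψ)
    (eC : ∀ t h (c : ℂ) ψ, ‖c‖ = 1 → fC t h (c • ψ) = c • fC t h ψ)
    (V : Submodule ℂ H)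
    (hdim : finrank ℝ T + b + 2 * finrank ℂ V = finrank ℝ YR + 2 * finrank ℂ YC) (k : Fin K) :
    μ (Phi P ℓ fR fC V k '' {x | x.2.2.2 k = 0 ∧ ℓ k (pt P x) ≠ 0}) = 0 := by
  have : FiniteDimensional ℝ YC := FiniteDimensional.complexToReal YC
  have : FiniteDimensional ℝ V := FiniteDimensional.complexToReal V
  have : FiniteDimensional ℝ (XX b T V YC K) := inferInstance
  set S := LinearMap.ker (colk b T V YC k) with hS
  have himg : Phi P ℓ fR fC V k '' {x | x.2.2.2 k = 0 ∧ ℓ k (pt P x) ≠ 0} =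
      (fun x : S => Phi P ℓ fR fC V k (x : XX b T V YC K)) ''
        {x : S | ℓ k (pt P (x : XX b T V YC K)) ≠ 0} := by
    ext q
    constructor
    · rintro ⟨x, ⟨hx1, hx2⟩, rfl⟩
      exact ⟨⟨x, hx1⟩, hx2, rfl⟩
    · rintro ⟨x, hx, rfl⟩
      exact ⟨x, ⟨x.2, hx⟩, rfl⟩
  rw [himg]
  have hfr := finrank_ker (b := b) (T := T) (V := V) (YC := YC) k
  have hV : finrank ℝ V = 2 * finrank ℂ V := finrank_real_of_complex V
  have hYC : finrank ℝ YC = 2 * finrank ℂ YC := finrank_real_of_complex YC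
  have hF : finrank ℝ (YR × (Fin K → YC)) = finrank ℝ YR + K * finrank ℝ YC := by
    simp [finrank_prod, finrank_pi_fintype]
  have hdd : ∀ x : S, ℓ k (pt P (x : XX b T V YC K)) ≠ 0 →
      DifferentiableAt ℝ (fun x : S => Phi P ℓ fR fC V k (x : XX b T V YC K)) x := by
    intro x hx
    exact (diff_Phi hP hR hC V k (x : XX b T V YC K) hx).comp x S.subtypeL.differentiableAt
  refine null_image μ ?_ _ _ (fun x hx => hdd x hx) ?_
  · have h1 : finrank ℝ S + 2 * finrank ℂ YC =
        finrank ℝ T + (b + (2 * finrank ℂ V + K * finrank ℝ YC)) := by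
      rw [← hV, ← hYC]; exact hfr
    have h2 : finrank ℝ S = finrank ℝ YR + K * finrank ℝ YC := by
      generalize K * finrank ℝ YC = e at h1 ⊢
      omega
    rw [hF, ← h2]
  · intro x hx
    obtain ⟨⟨t, h, z, a⟩, hx0⟩ := x
    have ha : a k = 0 := hx0
    have hz : z ≠ 0 := by
      rintro rfl
      apply hx
      simp [pt]
    let J : ℂ →L[ℝ] S := (rot V k z : ℂ →ₗ[ℝ] LinearMap.ker (colk b T V YC k)).toContinuousLinearMap
    refine ⟨J Complex.I, ?_, ?_⟩
    · intro h0
      have h1 : (((J Complex.I : S) : XX b T V YC K)).2.2.1 = 0 := by rw [h0]; rfl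
      have h2 : Complex.I • z = 0 := h1
      rcases smul_eq_zero.1 h2 with h | h
      · exact Complex.I_ne_zero h
      · exact hz h
    · set x0 : S := ⟨(t, h, z, a), hx0⟩ with hx0'
      have hconst : ∀ θ : ℝ, Phi P ℓ fR fC V k
          ((x0 + J (Complex.exp (θ * Complex.I) - 1) : S) : XX b T V YC K) =
          Phi P ℓ fR fC V k (x0 : XX b T V YC K) := by
        intro θ
        set c : ℂ := Complex.exp (θ * Complex.I) with hc
        have hc1 : ‖c‖ = 1 := Complex.norm_exp_ofReal_mul_I θ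
        have hc0 : c ≠ 0 := by
          intro h; rw [h] at hc1; simp at hc1
        have hx1 : ((x0 + J (c - 1) : S) : XX b T V YC K) = (t, h, c • z, a) := by
          show ((t, h, z, a) : XX b T V YC K) + (0, 0, (c - 1) • z, 0) = (t, h, c • z, a)
          simp [sub_smul]
        have hpt : pt P ((t, h, c • z, a) : XX b T V YC K) =
            c • pt P ((t, h, z, a) : XX b T V YC K) := by
          simp [pt]
        rw [hx1]
        show Phi P ℓ fR fC V k ((t, h, c • z, a) : XX b T V YC K) =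
          Phi P ℓ fR fC V k ((t, h, z, a) : XX b T V YC K)
        unfold Phi
        rw [hpt]
        refine Prod.ext ?_ ?_
        · show -fR t h (c • _) = -fR t h _
          rw [eR _ _ _ _ hc1]
        · funext j
          by_cases hj : j = k
          · simp only [hj, if_true]
            rw [eC _ _ _ _ hc1]
            simp only [map_smul, smul_eq_mul, mul_smul, ← Finset.smul_sum, ← smul_add]
            rw [mul_inv, mul_smul, smul_comm _ c, inv_smul_smul₀ hc0]
          · simp only [hj, if_false]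
      have hd1 : HasDerivAt (fun θ : ℝ => Complex.exp (θ * Complex.I) - 1) Complex.I 0 := by
        have h1 : HasDerivAt (fun θ : ℝ => (θ : ℂ) * Complex.I) (1 * Complex.I) 0 :=
          (Complex.ofRealCLM.hasDerivAt (x := (0 : ℝ))).mul_const Complex.I
        have h2 := h1.cexp.sub_const 1
        simpa using h2
      have hd2 : HasDerivAt (fun θ : ℝ => x0 + J (Complex.exp (θ * Complex.I) - 1))
          (J Complex.I) 0 := (J.hasFDerivAt.comp_hasDerivAt (0 : ℝ) hd1).const_add x0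
      have hd3 : HasFDerivAt (fun x : S => Phi P ℓ fR fC V k (x : XX b T V YC K))
          (fderiv ℝ (fun x : S => Phi P ℓ fR fC V k (x : XX b T V YC K)) x0)
          (x0 + J (Complex.exp (((0 : ℝ) : ℂ) * Complex.I) - 1)) := by
        have : x0 + J (Complex.exp (((0 : ℝ) : ℂ) * Complex.I) - 1) = x0 := by simp
        rw [this]
        exact (hdd x0 hx).hasFDerivAt
      have hd4 := hd3.comp_hasDerivAt (0 : ℝ) hd2
      have hd5 : HasDerivAt (fun θ : ℝ => Phi P ℓ fR fC V k
          ((x0 + J (Complex.exp (θ * Complex.I) - 1) : S) : XX b T V YC K)) 0 0 := by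
        simp only [hconst]
        exact hasDerivAt_const _ _
      exact hd4.unique hd5

/-- close projections: the range of one is the image of the range of the other -/
theorem exists_pre (hid : ∀ h ψ, P h (P h ψ) = P h ψ) {h h0 : Fin b → ℝ}
    (hc : ‖P h‖ * ‖P h - P h0‖ < 1) {ψ : H} (hψ : P h ψ = ψ) :
    ∃ z : LinearMap.range (P h0 : H →ₗ[ℂ] H), P h (z : H) = ψ := by
  let V : Submodule ℂ H := LinearMap.range (P h : H →ₗ[ℂ] H)
  let M : V →ₗ[ℂ] V :=
    { toFun := fun u => ⟨P h (P h0 (u : H)), ⟨P h0 (u : H), rfl⟩⟩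
      map_add' := fun u v => by apply Subtype.ext; simp
      map_smul' := fun c u => by apply Subtype.ext; simp }
  have hfix : ∀ u : V, P h (u : H) = u := by
    rintro ⟨_, ⟨y, rfl⟩⟩
    exact hid h y
  have hinj : Injective M := by
    rw [← LinearMap.ker_eq_bot, LinearMap.ker_eq_bot']
    intro u hu
    by_contra hne
    have hk0 : P h (P h0 (u : H)) = 0 := congrArg Subtype.val hu
    have hu0 : 0 < ‖(u : H)‖ := norm_pos_iff.2 (fun h' => hne (Subtype.ext h'))
    have h1 : (u : H) = P h ((P h - P h0) (u : H)) := by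
      rw [_root_.sub_apply, map_sub, hk0, hfix u, hfix u, sub_zero]
    have h2 : ‖(u : H)‖ ≤ ‖P h‖ * ‖P h - P h0‖ * ‖(u : H)‖ := by
      calc ‖(u : H)‖ = ‖P h ((P h - P h0) (u : H))‖ := by rw [← h1]
        _ ≤ ‖P h‖ * ‖(P h - P h0) (u : H)‖ := (P h).le_opNorm _
        _ ≤ ‖P h‖ * (‖P h - P h0‖ * ‖(u : H)‖) :=
            mul_le_mul_of_nonneg_left ((P h - P h0).le_opNorm _) (norm_nonneg _)
        _ = _ := by ring
    nlinarith
  have hsurj : Surjective M := LinearMap.injective_iff_surjective.1 hinj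
  obtain ⟨u, hu⟩ := hsurj ⟨ψ, ⟨ψ, hψ⟩⟩
  exact ⟨⟨P h0 (u : H), ⟨(u : H), rfl⟩⟩, congrArg Subtype.val hu⟩

/-- **the set of bad perturbations is a null set** -/
theorem null_bad [MeasurableSpace (YR × (Fin K → YC))] [BorelSpace (YR × (Fin K → YC))]
    (μ : Measure (YR × (Fin K → YC))) [μ.IsAddHaarMeasure] (hP : ContDiff ℝ 1 P)
    (hid : ∀ h ψ, P h (P h ψ) = P h ψ)
    (hR : ContDiff ℝ 1 (fun q : T × ((Fin b → ℝ) × H) => fR q.1 q.2.1 q.2.2))
    (hC : ContDiff ℝ 1 (fun q : T × ((Fin b → ℝ) × H) => fC q.1 q.2.1 q.2.2))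
    (eR : ∀ t h (c : ℂ) ψ, ‖c‖ = 1 → fR t h (c • ψ) = fR t h ψ)
    (eC : ∀ t h (c : ℂ) ψ, ‖c‖ = 1 → fC t h (c • ψ) = c • fC t h ψ) {m : ℕ}
    (hm : ∀ h, finrank ℂ (LinearMap.range (P h : H →ₗ[ℂ] H)) = m)
    (hdim : finrank ℝ T + b + 2 * m = finrank ℝ YR + 2 * finrank ℂ YC) :
    μ {q : YR × (Fin K → YC) | ∃ t h ψ, P h ψ = ψ ∧ (∃ k, ℓ k ψ ≠ 0) ∧ fR t h ψ + q.1 = 0 ∧
      fC t h ψ + ∑ i, ℓ i ψ • q.2 i = 0} = 0 := by
  obtain ⟨D, hDc, hD⟩ := TopologicalSpace.exists_countable_dense (Fin b → ℝ)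
  have hsub : {q : YR × (Fin K → YC) | ∃ t h ψ, P h ψ = ψ ∧ (∃ k, ℓ k ψ ≠ 0) ∧
      fR t h ψ + q.1 = 0 ∧ fC t h ψ + ∑ i, ℓ i ψ • q.2 i = 0} ⊆
      ⋃ h0 ∈ D, ⋃ k : Fin K, Phi P ℓ fR fC (LinearMap.range (P h0 : H →ₗ[ℂ] H)) k ''
        {x | x.2.2.2 k = 0 ∧ ℓ k (pt P x) ≠ 0} := by
    rintro ⟨c, a⟩ ⟨t, h, ψ, hψ, ⟨k, hk⟩, h1, h2⟩
    have hopen : IsOpen {h' : Fin b → ℝ | ‖P h‖ * ‖P h - P h'‖ < 1} := by
      refine isOpen_lt ?_ continuous_const
      exact continuous_const.mul (continuous_const.sub hP.continuous).norm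
    obtain ⟨h0, hh0D, hh0⟩ := hD.exists_mem_open hopen ⟨h, by simp⟩
    obtain ⟨z, hz⟩ := exists_pre hid hh0 hψ
    simp only [mem_iUnion]
    refine ⟨h0, hh0D, k, (t, h, z, fun j => if j = k then 0 else a j), ⟨by simp, ?_⟩, ?_⟩
    · show ℓ k (P h z) ≠ 0
      rw [hz]; exact hk
    · unfold Phi pt
      simp only [hz]
      refine Prod.ext ?_ ?_
      · exact (eq_neg_of_add_eq_zero_right h1).symm
      · funext j
        by_cases hj : j = k
        · subst hj
          simp only [if_true]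
          have h3 : ∑ i, ℓ i ψ • a i = ∑ i, ℓ i ψ • (if i = j then 0 else a i) + ℓ j ψ • a j := by
            have h4 : ∀ i, ℓ i ψ • a i =
                ℓ i ψ • (if i = j then 0 else a i) + (if i = j then ℓ j ψ • a j else 0) := by
              intro i
              by_cases hi : i = j
              · subst hi; simp
              · simp [hi]
            rw [Finset.sum_congr rfl fun i _ => h4 i, Finset.sum_add_distrib]
            simp
          rw [h3, ← add_assoc] at h2
          rw [eq_neg_of_add_eq_zero_left h2, smul_neg, neg_neg, inv_smul_smul₀ hk]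
        · simp only [hj, if_false]
  refine measure_mono_null hsub ?_
  refine (measure_biUnion_null_iff hDc).2 fun h0 _ => ?_
  refine measure_iUnion_null fun k => ?_
  exact null_one μ hP hR hC eR eC _ (by rw [hm]; exact hdim) k

end Bad

end

end Crest.Agent.R235.EqPertA_371
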