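import Crest.Agent.R235.EqPertA_356

/-! Row 235 (helper356).  Part B of EqPert: generic perturbations of `S¹`-equivariant maps on the
total space of a bundle `{P h ψ = ψ}`: for almost all `(c, A)` the map `F + (c, Σ ψ_k A_k)` has no
zero with `ψ ≠ 0` (surplus 0 in the real count). -/

set_option autoImplicit false

open Set MeasureTheory Filter Topology Module
open scoped ENNReal

namespace Crest.Agent.R235.EqPert_356

variable {T H YR YC : Type*} [NormedAddCommGroup T] [NormedSpace ℝ T] [FiniteDimensional ℝ T]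
  [NormedAddCommGroup H] [InnerProductSpace ℂ H] [FiniteDimensional ℂ H]
  [NormedAddCommGroup YR] [NormedSpace ℝ YR] [FiniteDimensional ℝ YR]
  [NormedAddCommGroup YC] [NormedSpace ℂ YC] [FiniteDimensional ℂ YC] {b m : ℕ}
  {ι : Type*} [Fintype ι] [DecidableEq ι]

/-- the parametrisation of the bad parameters -/
noncomputable def Gm (P : (Fin b → ℝ) → H →L[ℂ] H) (FR : T × (Fin b → ℝ) × H → YR)
    (FC : T × (Fin b → ℝ) × H → YC) (co : ι → H →L[ℂ] ℂ) (V : Submodule ℂ H) (j : ι)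
    (x : T × (Fin b → ℝ) × V × ({k : ι // k ≠ j} → YC)) : YR × (ι → YC) :=
  (-FR (x.1, x.2.1, P x.2.1 x.2.2.1), fun k => if hk : k = j then
    -((co j (P x.2.1 x.2.2.1))⁻¹ • (FC (x.1, x.2.1, P x.2.1 x.2.2.1)
      + ∑ l : {k : ι // k ≠ j}, co l (P x.2.1 x.2.2.1) • x.2.2.2 l))
    else x.2.2.2 ⟨k, hk⟩)

omit [FiniteDimensional ℂ H] [FiniteDimensional ℝ T] [FiniteDimensional ℝ YR]
  [FiniteDimensional ℂ YC] in
theorem Gm_diff (P : (Fin b → ℝ) → H →L[ℂ] H) (hPd : Differentiable ℝ P)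
    (FR : T × (Fin b → ℝ) × H → YR)
    (FC : T × (Fin b → ℝ) × H → YC) (co : ι → H →L[ℂ] ℂ) (V : Submodule ℂ H) (j : ι)
    (x : T × (Fin b → ℝ) × V × ({k : ι // k ≠ j} → YC))
    (dR : DifferentiableAt ℝ FR (x.1, x.2.1, P x.2.1 x.2.2.1))
    (dC : DifferentiableAt ℝ FC (x.1, x.2.1, P x.2.1 x.2.2.1))
    (hj : co j (P x.2.1 x.2.2.1) ≠ 0) : DifferentiableAt ℝ (Gm P FR FC co V j) x := by
  have hP' : Differentiable ℝ (fun h => (P h).restrictScalars ℝ) :=
    (ContinuousLinearMap.restrictScalarsL ℂ H H ℝ ℝ).differentiable.comp hPd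
  have h1 : Differentiable ℝ (fun x : T × (Fin b → ℝ) × V × ({k : ι // k ≠ j} → YC) =>
      (P x.2.1).restrictScalars ℝ) := hP'.comp (differentiable_fst.comp differentiable_snd)
  have h2 : Differentiable ℝ (fun x : T × (Fin b → ℝ) × V × ({k : ι // k ≠ j} → YC) =>
      (x.2.2.1 : H)) :=
    ((V.subtypeL).restrictScalars ℝ).differentiable.comp
      (differentiable_fst.comp (differentiable_snd.comp differentiable_snd))
  have h3 : Differentiable ℝ (fun x : T × (Fin b → ℝ) × V × ({k : ι // k ≠ j} → YC) =>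
      P x.2.1 (x.2.2.1 : H)) := h1.clm_apply h2
  have h4 : Differentiable ℝ (fun x : T × (Fin b → ℝ) × V × ({k : ι // k ≠ j} → YC) =>
      ((x.1, x.2.1, P x.2.1 (x.2.2.1 : H)) : T × (Fin b → ℝ) × H)) :=
    differentiable_fst.prodMk ((differentiable_fst.comp differentiable_snd).prodMk h3)
  have hR : DifferentiableAt ℝ (fun x : T × (Fin b → ℝ) × V × ({k : ι // k ≠ j} → YC) =>
      FR (x.1, x.2.1, P x.2.1 (x.2.2.1 : H))) x := DifferentiableAt.comp x dR (h4 x)
  have hC : DifferentiableAt ℝ (fun x : T × (Fin b → ℝ) × V × ({k : ι // k ≠ j} → YC) =>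
      FC (x.1, x.2.1, P x.2.1 (x.2.2.1 : H))) x := DifferentiableAt.comp x dC (h4 x)
  have hco : ∀ k, Differentiable ℝ (fun x : T × (Fin b → ℝ) × V × ({k : ι // k ≠ j} → YC) =>
      co k (P x.2.1 (x.2.2.1 : H))) := fun k =>
    ((co k).restrictScalars ℝ).differentiable.comp h3
  have hA : ∀ l : {k : ι // k ≠ j}, Differentiable ℝ
      (fun x : T × (Fin b → ℝ) × V × ({k : ι // k ≠ j} → YC) => x.2.2.2 l) := fun l =>
    (differentiable_pi.1 (differentiable_snd.comp (differentiable_snd.comp differentiable_snd)) l)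
  refine DifferentiableAt.prodMk hR.neg ?_
  rw [differentiableAt_pi]
  intro k
  by_cases hk : k = j
  · simp only [hk, dif_pos]
    refine DifferentiableAt.neg ?_
    refine DifferentiableAt.smul ?_ ?_
    · exact ((hco j) x).fun_inv hj
    · refine hC.add ?_
      refine DifferentiableAt.fun_sum fun l _ => ?_
      exact ((hco l) x).smul ((hA l) x)
  · simp only [hk, dif_neg, not_false_iff]
    exact hA ⟨k, hk⟩ x

omit [FiniteDimensional ℂ H] [FiniteDimensional ℝ T] [FiniteDimensional ℝ YR]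
  [FiniteDimensional ℂ YC] in
theorem Gm_rot (P : (Fin b → ℝ) → H →L[ℂ] H) (FR : T × (Fin b → ℝ) × H → YR)
    (FC : T × (Fin b → ℝ) × H → YC) (co : ι → H →L[ℂ] ℂ) (V : Submodule ℂ H) (j : ι)
    (eqR : ∀ t h ψ (z : ℂ), ‖z‖ = 1 → FR (t, h, z • ψ) = FR (t, h, ψ))
    (eqC : ∀ t h ψ (z : ℂ), ‖z‖ = 1 → FC (t, h, z • ψ) = z • FC (t, h, ψ))
    (t : T) (h : Fin b → ℝ) (u : V) (A : {k : ι // k ≠ j} → YC) (z : ℂ) (hz : ‖z‖ = 1) :
    Gm P FR FC co V j (t, h, z • u, A) = Gm P FR FC co V j (t, h, u, A) := by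
  have hz0 : z ≠ 0 := by
    intro h0; rw [h0, norm_zero] at hz; exact zero_ne_one hz
  have hPz : P h ((z • u : V) : H) = z • P h (u : H) := by
    rw [Submodule.coe_smul, map_smul]
  simp only [Gm, hPz, eqR _ _ _ z hz, eqC _ _ _ z hz]
  refine Prod.ext rfl ?_
  funext k
  by_cases hk : k = j
  · simp only [hk, dif_pos, map_smul, smul_eq_mul]
    congr 1
    have h1 : ∑ l : {k : ι // k ≠ j}, (z * (co l) (P h (u : H))) • A l
        = z • ∑ l : {k : ι // k ≠ j}, ((co l) (P h (u : H))) • A l := by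
      rw [Finset.smul_sum]
      exact Finset.sum_congr rfl fun l _ => by rw [mul_smul]
    rw [h1, ← smul_add, smul_smul, mul_inv]
    congr 1
    field_simp
  · simp only [hk, dif_neg, not_false_iff]

omit [FiniteDimensional ℂ H] [FiniteDimensional ℝ T] [FiniteDimensional ℝ YR]
  [FiniteDimensional ℂ YC] in
/-- the differential of `Gm` has a kernel -/
theorem Gm_ker (P : (Fin b → ℝ) → H →L[ℂ] H) (FR : T × (Fin b → ℝ) × H → YR)
    (FC : T × (Fin b → ℝ) × H → YC) (co : ι → H →L[ℂ] ℂ) (V : Submodule ℂ H) (j : ι)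
    (eqR : ∀ t h ψ (z : ℂ), ‖z‖ = 1 → FR (t, h, z • ψ) = FR (t, h, ψ))
    (eqC : ∀ t h ψ (z : ℂ), ‖z‖ = 1 → FC (t, h, z • ψ) = z • FC (t, h, ψ))
    (x : T × (Fin b → ℝ) × V × ({k : ι // k ≠ j} → YC))
    (hd : DifferentiableAt ℝ (Gm P FR FC co V j) x) (hu : x.2.2.1 ≠ 0) :
    ∃ v : T × (Fin b → ℝ) × V × ({k : ι // k ≠ j} → YC), v ≠ 0 ∧
      fderiv ℝ (Gm P FR FC co V j) x v = 0 := by
  obtain ⟨t, h, u, A⟩ := x
  refine ⟨(0, 0, Complex.I • u, 0), ?_, ?_⟩
  · intro h0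
    have h1 : Complex.I • u = 0 := congrArg (fun y => y.2.2.1) h0
    rcases smul_eq_zero.1 h1 with h2 | h2
    · exact Complex.I_ne_zero h2
    · exact hu h2
  · let γ : ℝ → T × (Fin b → ℝ) × V × ({k : ι // k ≠ j} → YC) := fun θ =>
      (t, h, Complex.exp (θ * Complex.I) • u, A)
    have hγ : HasDerivAt γ (0, 0, Complex.I • u, 0) 0 := by
      have h1 : HasDerivAt (fun θ : ℝ => Complex.exp (θ * Complex.I)) Complex.I 0 := by
        have h2 : HasDerivAt (fun θ : ℝ => (θ : ℂ) * Complex.I) Complex.I 0 := by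
          simpa using (Complex.ofRealCLM.hasDerivAt (x := (0 : ℝ))).mul_const Complex.I
        have h3 := h2.cexp
        simpa using h3
      have h4 : HasDerivAt (fun θ : ℝ => Complex.exp (θ * Complex.I) • u) (Complex.I • u) 0 := by
        exact h1.smul_const u
      exact (hasDerivAt_const _ _).prodMk ((hasDerivAt_const _ _).prodMk
        (h4.prodMk (hasDerivAt_const _ _)))
    have hγ0 : γ 0 = (t, h, u, A) := by simp [γ]
    have hc : HasDerivAt (fun θ => Gm P FR FC co V j (γ θ))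
        (fderiv ℝ (Gm P FR FC co V j) (t, h, u, A) (0, 0, Complex.I • u, 0)) 0 := by
      have h1 : HasFDerivAt (Gm P FR FC co V j)
        (fderiv ℝ (Gm P FR FC co V j) (t, h, u, A)) (γ 0) := by
        rw [hγ0]; exact hd.hasFDerivAt
      exact h1.comp_hasDerivAt 0 hγ
    have hconst : (fun θ => Gm P FR FC co V j (γ θ)) = fun _ => Gm P FR FC co V j (t, h, u, A) := by
      funext θ
      exact Gm_rot P FR FC co V j eqR eqC t h u A _ (by
        rw [Complex.norm_exp_ofReal_mul_I])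
    rw [hconst] at hc
    exact hc.unique (hasDerivAt_const _ _)

/-- **generic perturbations**: for almost all small `(c, A)` no zero with `ψ ≠ 0` in `s` -/
theorem exists_pert (P : (Fin b → ℝ) → H →L[ℂ] H) (hPd : Differentiable ℝ P)
    (hPP : ∀ h x, P h (P h x) = P h x)
    (hr : ∀ h, finrank ℂ (LinearMap.range (P h : H →ₗ[ℂ] H)) = m)
    (hdim : finrank ℝ T + b + 2 * m = finrank ℝ YR + 2 * finrank ℂ YC)
    (FR : T × (Fin b → ℝ) × H → YR) (FC : T × (Fin b → ℝ) × H → YC)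
    (eqR : ∀ t h ψ (z : ℂ), ‖z‖ = 1 → FR (t, h, z • ψ) = FR (t, h, ψ))
    (eqC : ∀ t h ψ (z : ℂ), ‖z‖ = 1 → FC (t, h, z • ψ) = z • FC (t, h, ψ))
    (s : Set (T × (Fin b → ℝ) × H)) (dR : ∀ x ∈ s, DifferentiableAt ℝ FR x)
    (dC : ∀ x ∈ s, DifferentiableAt ℝ FC x) (co : ι → H →L[ℂ] ℂ)
    (hco : ∀ ψ, ψ ≠ 0 → ∃ j, co j ψ ≠ 0) {η : ℝ} (hη : 0 < η) :
    ∃ (c : YR) (A : ι → YC), ‖c‖ < η ∧ ‖A‖ < η ∧ ∀ t h ψ, (t, h, ψ) ∈ s → P h ψ = ψ → ψ ≠ 0 →
      FR (t, h, ψ) + c = 0 → FC (t, h, ψ) + ∑ k, co k ψ • A k = 0 → False := by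
  letI : MeasurableSpace (YR × (ι → YC)) := borel _
  haveI : BorelSpace (YR × (ι → YC)) := ⟨rfl⟩
  let μ : Measure (YR × (ι → YC)) := Measure.addHaar
  obtain ⟨C, hC, hCU⟩ := TopologicalSpace.countable_cover_nhds (α := Fin b → ℝ)
    (f := fun h0 => {h | ‖P h0 - P h‖ < 1}) (by
      intro h0
      have h1 : Continuous (fun h => ‖P h0 - P h‖) :=
        (continuous_const.sub hPd.continuous).norm
      exact (isOpen_lt h1 continuous_const).mem_nhds (by simp))
  let V : (Fin b → ℝ) → Submodule ℂ H := fun h0 => LinearMap.range (P h0 : H →ₗ[ℂ] H)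
  let S : ∀ (h0 : Fin b → ℝ) (j : ι), Set (T × (Fin b → ℝ) × V h0 × ({k : ι // k ≠ j} → YC)) :=
    fun h0 j => {x | (x.1, x.2.1, P x.2.1 x.2.2.1) ∈ s ∧ co j (P x.2.1 x.2.2.1) ≠ 0}
  have hnull : ∀ h0 j, μ (Gm P FR FC co (V h0) j '' S h0 j) = 0 := by
    intro h0 j
    refine null_image μ ?_ _ _ (fun x => fderiv ℝ (Gm P FR FC co (V h0) j) x) ?_ ?_
    · have e1 : finrank ℝ (V h0) = 2 * m := by
        rw [finrank_real_of_complex, hr h0]
      have e2 : finrank ℝ YC = 2 * finrank ℂ YC := finrank_real_of_complex YC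
      have e3 : Fintype.card {k : ι // k ≠ j} + 1 = Fintype.card ι := by
        have : 0 < Fintype.card ι := Fintype.card_pos_iff.2 ⟨j⟩
        have h5 := Fintype.card_subtype_compl (fun k : ι => k = j)
        simp only [Fintype.card_subtype_eq] at h5
        have h6 : Fintype.card {k : ι // k ≠ j} = Fintype.card ι - 1 := h5
        omega
      rw [finrank_prod, finrank_prod, finrank_prod, finrank_prod, finrank_fin_fun,
        finrank_pi_fintype, finrank_pi_fintype, Finset.sum_const, Finset.sum_const,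
        Finset.card_univ, Finset.card_univ, e1, e2, smul_eq_mul, smul_eq_mul, ← e3]
      nlinarith
    · intro x hx
      exact (Gm_diff P hPd FR FC co (V h0) j x (dR _ hx.1) (dC _ hx.1) hx.2).hasFDerivAt
    · intro x hx
      refine Gm_ker P FR FC co (V h0) j eqR eqC x
        (Gm_diff P hPd FR FC co (V h0) j x (dR _ hx.1) (dC _ hx.1) hx.2) ?_
      intro h1
      apply hx.2
      rw [h1]; simp
  have hbad : μ (⋃ h0 ∈ C, ⋃ j, Gm P FR FC co (V h0) j '' S h0 j) = 0 := by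
    rw [measure_biUnion_null_iff hC]
    intro h0 _
    rw [measure_iUnion_null_iff]
    exact fun j => hnull h0 j
  have hpos : 0 < μ (Metric.ball (0 : YR × (ι → YC)) η) := Metric.measure_ball_pos μ 0 hη
  obtain ⟨y, hy1, hy2⟩ : ∃ y ∈ Metric.ball (0 : YR × (ι → YC)) η,
      y ∉ ⋃ h0 ∈ C, ⋃ j, Gm P FR FC co (V h0) j '' S h0 j := by
    by_contra hcon
    push Not at hcon
    have := measure_mono (μ := μ) (show Metric.ball (0 : YR × (ι → YC)) η ⊆ _ from hcon)
    rw [hbad] at this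
    exact absurd hpos (not_lt.2 this)
  obtain ⟨c, A⟩ := y
  have hn : ‖((c, A) : YR × (ι → YC))‖ < η := by simpa using hy1
  have hn1 : ‖c‖ < η := lt_of_le_of_lt (norm_fst_le ((c, A) : YR × (ι → YC))) hn
  have hn2 : ‖A‖ < η := lt_of_le_of_lt (norm_snd_le ((c, A) : YR × (ι → YC))) hn
  refine ⟨c, A, hn1, hn2, ?_⟩
  intro t h ψ hs hP h0 hR hCz
  apply hy2
  have hh : h ∈ ⋃ x ∈ C, {h | ‖P x - P h‖ < 1} := by rw [hCU]; trivial
  simp only [mem_iUnion, mem_setOf_eq] at hh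
  obtain ⟨c0, hc0, hlt⟩ := hh
  obtain ⟨u, hu⟩ := proj_onto (P c0) (P h) (hPP c0) (hPP h) (by rw [hr, hr]) hlt ψ hP
  obtain ⟨j, hj⟩ := hco ψ h0
  simp only [mem_iUnion]
  refine ⟨c0, hc0, j, (t, h, u, fun l => A l), ⟨?_, ?_⟩, ?_⟩
  · show (t, h, P h (u : H)) ∈ s
    rw [hu]; exact hs
  · show co j (P h (u : H)) ≠ 0
    rw [hu]; exact hj
  · simp only [Gm, hu]
    refine Prod.ext ?_ ?_
    · exact (eq_neg_of_add_eq_zero_right hR).symm
    · funext k
      by_cases hk : k = j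
      · subst hk
        simp only [dif_pos]
        have h1 : ∑ l, co l ψ • A l = co k ψ • A k + ∑ l : {l : ι // l ≠ k}, co l ψ • A l := by
          rw [Fintype.sum_eq_add_sum_subtype_ne _ k]
        rw [h1] at hCz
        have h2 : FC (t, h, ψ) + ∑ l : {l : ι // l ≠ k}, co l ψ • A l = -(co k ψ • A k) := by
          rw [eq_neg_iff_add_eq_zero, ← hCz]; abel
        rw [h2, smul_neg, neg_neg, smul_smul, inv_mul_cancel₀ hj, one_smul]
      · simp only [hk, dif_neg, not_false_iff]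

end Crest.Agent.R235.EqPert_356
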