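import Mathlib

/-!
Row 235, EqPert (helper371), part B: smoothing which commutes with translations and isometries.
-/

set_option autoImplicit false
set_option linter.unusedSectionVars false

open Set Function Filter MeasureTheory Module Metric
open scoped Topology ContDiff Convolution

namespace Crest.Agent.R235.EqPertB_371

noncomputable section

section Iso

variable {X : Type*} [NormedAddCommGroup X] [NormedSpace ℝ X] [FiniteDimensional ℝ X]
  [MeasurableSpace X] [BorelSpace X]

/-- linear isometries preserve Haar measures -/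
theorem iso_preserving (μ : Measure X) [μ.IsAddHaarMeasure] (u : X ≃ₗᵢ[ℝ] X) :
    MeasurePreserving u μ μ := by
  refine ⟨u.continuous.measurable, ?_⟩
  have h1 : (μ.map u).IsAddHaarMeasure := u.toContinuousLinearEquiv.isAddHaarMeasure_map μ
  have h2 := Measure.isAddLeftInvariant_eq_smul (μ.map u) μ
  have h3 : (μ.map u) (ball 0 1) = μ (ball 0 1) := by
    rw [Measure.map_apply u.continuous.measurable measurableSet_ball]
    congr 1
    ext x
    simp
  rw [h2, Measure.smul_apply] at h3
  have h4 : μ (ball (0 : X) 1) ≠ 0 := (measure_ball_pos μ 0 one_pos).ne'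
  have h5 : μ (ball (0 : X) 1) ≠ ⊤ := measure_ball_lt_top.ne
  set c := Measure.addHaarScalarFactor (μ.map u) μ with hc
  have h6 : (c : ENNReal) = 1 := by
    have h7 : (c : ENNReal) * μ (ball (0 : X) 1) = 1 * μ (ball (0 : X) 1) := by
      rw [one_mul]; exact h3
    exact (ENNReal.mul_left_inj h4 h5).1 h7
  have h8 : c = 1 := by exact_mod_cast h6
  rw [h2, h8, one_smul]

end Iso

section Moll

variable {X Y : Type*} [NormedAddCommGroup X] [NormedSpace ℝ X] [FiniteDimensional ℝ X]
  [MeasurableSpace X] [BorelSpace X] [NormedAddCommGroup Y] [NormedSpace ℝ Y] [CompleteSpace Y]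

/-- a mollifier of radius `r` -/
structure Mol (φ : X → ℝ) (r : ℝ) : Prop where
  smooth : ContDiff ℝ ∞ φ
  cpt : HasCompactSupport φ
  nonneg : ∀ x, 0 ≤ φ x
  supp : support φ ⊆ ball 0 r
  pos : 0 < φ 0

variable (φ : X → ℝ)

/-- the normalised mollifier -/
def nrm (x : X) : ℝ := (∫ y, φ y ∂(Measure.addHaar : Measure X))⁻¹ * φ x

/-- mollification -/
def moll (f : X → Y) : X → Y :=
  (nrm φ) ⋆[ContinuousLinearMap.lsmul ℝ ℝ, (Measure.addHaar : Measure X)] f

variable {φ} {r : ℝ}

theorem Mol.int_pos (h : Mol φ r) : 0 < ∫ y, φ y ∂(Measure.addHaar : Measure X) := by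
  refine (integral_pos_iff_support_of_nonneg h.nonneg
    (h.smooth.continuous.integrable_of_hasCompactSupport h.cpt)).2 ?_
  have hopen : IsOpen (support φ) := h.smooth.continuous.isOpen_support
  exact hopen.measure_pos _ ⟨0, h.pos.ne'⟩

theorem moll_contDiff (h : Mol φ r) {f : X → Y} (hf : Continuous f) :
    ContDiff ℝ 1 (moll φ f) := by
  have h1 : HasCompactSupport (nrm φ) := h.cpt.mul_left
  have h2 : ContDiff ℝ ((1 : ℕ∞) : WithTop ℕ∞) (nrm φ) :=
    contDiff_const.mul (h.smooth.of_le (by exact_mod_cast le_top))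
  exact h1.contDiff_convolution_left _ h2 hf.locallyIntegrable

theorem moll_close (h : Mol φ r) {f : X → Y} (hf : Continuous f) {x : X} {η : ℝ} (hη : 0 ≤ η)
    (hc : ∀ y ∈ ball x r, dist (f y) (f x) ≤ η) : dist (moll φ f x) (f x) ≤ η := by
  have hI := h.int_pos
  refine dist_convolution_le hη ?_ ?_ ?_ hf.aestronglyMeasurable hc
  · refine Subset.trans ?_ h.supp
    intro y hy
    have : (∫ y, φ y ∂(Measure.addHaar : Measure X))⁻¹ * φ y ≠ 0 := hy
    exact right_ne_zero_of_mul this
  · intro y
    exact mul_nonneg (inv_nonneg.2 hI.le) (h.nonneg y)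
  · unfold nrm
    rw [integral_const_mul, inv_mul_cancel₀ hI.ne']

theorem moll_transl {f : X → Y} {v : X} (hv : ∀ x, f (x + v) = f x) (x : X) :
    moll φ f (x + v) = moll φ f x := by
  unfold moll
  rw [convolution_def, convolution_def]
  refine integral_congr_ae (ae_of_all _ fun y => ?_)
  show nrm φ y • f (x + v - y) = nrm φ y • f (x - y)
  have : x + v - y = (x - y) + v := by abel
  rw [this, hv]

theorem moll_iso {f : X → Y} (u : X ≃ₗᵢ[ℝ] X) (A : Y →L[ℝ] Y) (hu : ∀ x, φ (u x) = φ x)
    (hA : ∀ x, f (u x) = A (f x)) (hφ : Mol φ r) (hf : Continuous f) (x : X) :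
    moll φ f (u x) = A (moll φ f x) := by
  unfold moll
  rw [convolution_def, convolution_def]
  have h1 := (iso_preserving (Measure.addHaar : Measure X) u).integral_comp'
    (f := u.toHomeomorph.toMeasurableEquiv)
    (fun y => (ContinuousLinearMap.lsmul ℝ ℝ (nrm φ y)) (f (u x - y)))
  rw [← h1, ← ContinuousLinearMap.integral_comp_comm]
  · refine integral_congr_ae (ae_of_all _ fun y => ?_)
    show nrm φ (u y) • f (u x - u y) = A (nrm φ y • f (x - y))
    have h2 : nrm φ (u y) = nrm φ y := by unfold nrm; rw [hu]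
    rw [h2, ← map_sub, hA, map_smul]
  · have hcs : HasCompactSupport (nrm φ) := hφ.cpt.mul_left
    have h3 : Continuous (fun y => nrm φ y • f (x - y)) :=
      (continuous_const.mul hφ.smooth.continuous).smul (hf.comp (continuous_const.sub continuous_id))
    exact h3.integrable_of_hasCompactSupport hcs.smul_right

end Moll

end

end Crest.Agent.R235.EqPertB_371
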