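import Crest.Agent.R235.EqPertB_356

/-! Row 235 (helper356).  Part C of EqPert: smooth `S¹`-equivariant and `ℤ^b`-periodic approximation
away from `ψ = 0`, by an explicit invariant partition of unity (no integrals). -/

set_option autoImplicit false

open Set Filter Topology Module
open scoped ENNReal InnerProductSpace Real

namespace Crest.Agent.R235.EqPert_356

variable {T H : Type*} [NormedAddCommGroup T] [NormedSpace ℝ T] [FiniteDimensional ℝ T]
  [NormedAddCommGroup H] [InnerProductSpace ℂ H] [FiniteDimensional ℂ H] {b n : ℕ}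

/-- invariant smooth distance-like function: vanishes exactly on the orbit of `p` -/
noncomputable def qf (B : Basis (Fin n) ℝ T) (p x : T × (Fin b → ℝ) × H) : ℝ :=
  (∑ i, (B.equivFun (x.1 - p.1) i) ^ 2) + (∑ k, Real.sin (π * (x.2.1 k - p.2.1 k)) ^ 2)
    + (‖x.2.2‖ ^ 2 - ‖p.2.2‖ ^ 2) ^ 2 + (‖p.2.2‖ ^ 2 * ‖x.2.2‖ ^ 2 - ‖⟪p.2.2, x.2.2⟫_ℂ‖ ^ 2)

omit [FiniteDimensional ℝ T] [FiniteDimensional ℂ H] in
theorem cs_nonneg (p x : H) : 0 ≤ ‖p‖ ^ 2 * ‖x‖ ^ 2 - ‖⟪p, x⟫_ℂ‖ ^ 2 := by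
  have h := norm_inner_le_norm (𝕜 := ℂ) p x
  have h1 : ‖⟪p, x⟫_ℂ‖ ^ 2 ≤ (‖p‖ * ‖x‖) ^ 2 := by
    exact pow_le_pow_left₀ (norm_nonneg _) h 2
  nlinarith

omit [FiniteDimensional ℝ T] [FiniteDimensional ℂ H] in
theorem qf_self (B : Basis (Fin n) ℝ T) (p : T × (Fin b → ℝ) × H) : qf B p p = 0 := by
  simp only [qf, sub_self, map_zero, Pi.zero_apply, mul_zero, Real.sin_zero]
  rw [inner_self_eq_norm_sq_to_K]
  simp
  ring

omit [FiniteDimensional ℝ T] [FiniteDimensional ℂ H] in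
theorem qf_nonneg (B : Basis (Fin n) ℝ T) (p x : T × (Fin b → ℝ) × H) : 0 ≤ qf B p x := by
  have h1 := cs_nonneg p.2.2 x.2.2
  have h2 : 0 ≤ ∑ i, (B.equivFun (x.1 - p.1) i) ^ 2 := Finset.sum_nonneg fun _ _ => sq_nonneg _
  have h3 : 0 ≤ ∑ k, Real.sin (π * (x.2.1 k - p.2.1 k)) ^ 2 :=
    Finset.sum_nonneg fun _ _ => sq_nonneg _
  have h4 := sq_nonneg (‖x.2.2‖ ^ 2 - ‖p.2.2‖ ^ 2)
  unfold qf
  linarith

omit [FiniteDimensional ℂ H] in
theorem qf_diff (B : Basis (Fin n) ℝ T) (p : T × (Fin b → ℝ) × H) :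
    Differentiable ℝ (qf B p) := by
  have hx : Differentiable ℝ (fun x : T × (Fin b → ℝ) × H => x.1) := differentiable_fst
  have hh : Differentiable ℝ (fun x : T × (Fin b → ℝ) × H => x.2.1) :=
    differentiable_fst.comp differentiable_snd
  have hψ : Differentiable ℝ (fun x : T × (Fin b → ℝ) × H => x.2.2) :=
    differentiable_snd.comp differentiable_snd
  have hn : Differentiable ℝ (fun x : T × (Fin b → ℝ) × H => ‖x.2.2‖ ^ 2) :=
    ((contDiff_norm_sq ℂ (n := 1)).differentiable one_ne_zero).comp hψ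
  have hB : Differentiable ℝ (fun x : T × (Fin b → ℝ) × H => B.equivFun (x.1 - p.1)) := by
    have h1 : Differentiable ℝ (fun y : T => B.equivFun y) :=
      (B.equivFun.toContinuousLinearEquiv).differentiable
    exact h1.comp (hx.sub_const _)
  have hi : Differentiable ℝ (fun x : T × (Fin b → ℝ) × H => ⟪p.2.2, x.2.2⟫_ℂ) := by
    have h1 : Differentiable ℝ (fun y : H => ⟪p.2.2, y⟫_ℂ) :=
      ((innerSL ℂ p.2.2).restrictScalars ℝ).differentiable
    exact h1.comp hψ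
  have hin : Differentiable ℝ (fun x : T × (Fin b → ℝ) × H => ‖⟪p.2.2, x.2.2⟫_ℂ‖ ^ 2) :=
    ((contDiff_norm_sq ℂ (n := 1)).differentiable one_ne_zero).comp hi
  unfold qf
  refine ((Differentiable.add ?_ ?_).add ((hn.sub_const _).pow 2)).add ?_
  · exact Differentiable.fun_sum fun i _ => ((differentiable_pi.1 hB i).pow 2)
  · refine Differentiable.fun_sum fun k _ => ?_
    have h1 : Differentiable ℝ (fun x : T × (Fin b → ℝ) × H => x.2.1 k) :=
      differentiable_pi.1 hh k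
    exact ((((h1.sub_const _).const_mul π).sin).pow 2)
  · exact (hn.const_mul _).sub hin

omit [FiniteDimensional ℝ T] [FiniteDimensional ℂ H] in
theorem qf_rot (B : Basis (Fin n) ℝ T) (p : T × (Fin b → ℝ) × H) (t : T) (h : Fin b → ℝ) (ψ : H)
    (z : ℂ) (hz : ‖z‖ = 1) : qf B p (t, h, z • ψ) = qf B p (t, h, ψ) := by
  simp only [qf, norm_smul, hz, one_mul, inner_smul_right, norm_mul]

omit [FiniteDimensional ℝ T] [FiniteDimensional ℂ H] in
theorem qf_per (B : Basis (Fin n) ℝ T) (p : T × (Fin b → ℝ) × H) (t : T) (h : Fin b → ℝ) (ψ : H)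
    (k : Fin b → ℤ) : qf B p (t, fun i => h i + k i, ψ) = qf B p (t, h, ψ) := by
  have hs : ∀ i, Real.sin (π * (h i + k i - p.2.1 i)) ^ 2 = Real.sin (π * (h i - p.2.1 i)) ^ 2 := by
    intro i
    have e : π * (h i + k i - p.2.1 i) = π * (h i - p.2.1 i) + (k i : ℤ) * π := by ring
    rw [e, Real.sin_add_int_mul_pi, mul_pow]
    have : (((-1 : ℝ) ^ (k i)) ^ 2) = 1 := by
      rw [← zpow_natCast, ← zpow_mul, mul_comm, zpow_mul]; norm_num
    rw [this, one_mul]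
  simp only [qf, hs]

omit [FiniteDimensional ℝ T] [FiniteDimensional ℂ H] in
theorem qf_zero (B : Basis (Fin n) ℝ T) (p x : T × (Fin b → ℝ) × H) (hp : p.2.2 ≠ 0)
    (h0 : qf B p x = 0) : x.1 = p.1 ∧ (∃ k : Fin b → ℤ, x.2.1 = fun i => p.2.1 i + k i) ∧
      ‖(⟪p.2.2, x.2.2⟫_ℂ / (‖p.2.2‖ ^ 2 : ℝ))‖ = 1 ∧
      x.2.2 = (⟪p.2.2, x.2.2⟫_ℂ / (‖p.2.2‖ ^ 2 : ℝ)) • p.2.2 := by
  have h1 := cs_nonneg p.2.2 x.2.2
  have h2 : 0 ≤ ∑ i, (B.equivFun (x.1 - p.1) i) ^ 2 := Finset.sum_nonneg fun _ _ => sq_nonneg _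
  have h3 : 0 ≤ ∑ k, Real.sin (π * (x.2.1 k - p.2.1 k)) ^ 2 :=
    Finset.sum_nonneg fun _ _ => sq_nonneg _
  have h4 := sq_nonneg (‖x.2.2‖ ^ 2 - ‖p.2.2‖ ^ 2)
  unfold qf at h0
  have e2 : ∑ i, (B.equivFun (x.1 - p.1) i) ^ 2 = 0 := by linarith
  have e3 : ∑ k, Real.sin (π * (x.2.1 k - p.2.1 k)) ^ 2 = 0 := by linarith
  have e4 : (‖x.2.2‖ ^ 2 - ‖p.2.2‖ ^ 2) ^ 2 = 0 := by linarith
  have e1 : ‖p.2.2‖ ^ 2 * ‖x.2.2‖ ^ 2 - ‖⟪p.2.2, x.2.2⟫_ℂ‖ ^ 2 = 0 := by linarith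
  have hpn : 0 < ‖p.2.2‖ := norm_pos_iff.2 hp
  have hnorm : ‖x.2.2‖ = ‖p.2.2‖ := by
    have h5 : ‖x.2.2‖ ^ 2 - ‖p.2.2‖ ^ 2 = 0 := by simpa using e4
    have h6 : ‖x.2.2‖ ^ 2 = ‖p.2.2‖ ^ 2 := by linarith
    exact (pow_left_inj₀ (norm_nonneg _) (norm_nonneg _) two_ne_zero).1 h6
  refine ⟨?_, ?_, ?_⟩
  · have h5 : B.equivFun (x.1 - p.1) = 0 := by
      funext i
      have := (Finset.sum_eq_zero_iff_of_nonneg fun i _ => sq_nonneg _).1 e2 i (Finset.mem_univ i)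
      simpa using this
    have h6 : x.1 - p.1 = 0 := B.equivFun.map_eq_zero_iff.1 h5
    exact sub_eq_zero.1 h6
  · have h5 : ∀ i, ∃ k : ℤ, x.2.1 i = p.2.1 i + k := by
      intro i
      have h6 := (Finset.sum_eq_zero_iff_of_nonneg fun i _ => sq_nonneg _).1 e3 i
        (Finset.mem_univ i)
      have h7 : Real.sin (π * (x.2.1 i - p.2.1 i)) = 0 := by simpa using h6
      obtain ⟨k, hk⟩ := Real.sin_eq_zero_iff.1 h7
      refine ⟨k, ?_⟩
      have h8 : π * ((k : ℝ) - (x.2.1 i - p.2.1 i)) = 0 := by linarith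
      rcases mul_eq_zero.1 h8 with h9 | h9
      · exact absurd h9 Real.pi_ne_zero
      · linarith
    choose k hk using h5
    exact ⟨k, funext hk⟩
  · have h5 : ‖⟪p.2.2, x.2.2⟫_ℂ‖ = ‖p.2.2‖ * ‖x.2.2‖ := by
      have h6 : ‖⟪p.2.2, x.2.2⟫_ℂ‖ ^ 2 = (‖p.2.2‖ * ‖x.2.2‖) ^ 2 := by rw [mul_pow]; linarith
      exact (pow_left_inj₀ (norm_nonneg _) (by positivity) two_ne_zero).1 h6
    have hx0 : x.2.2 ≠ 0 := by
      rw [← norm_pos_iff, hnorm]; exact hpn
    obtain ⟨r, hr0, hr⟩ := (norm_inner_eq_norm_iff (𝕜 := ℂ) hp hx0).1 h5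
    have h6 : ⟪p.2.2, x.2.2⟫_ℂ / ((‖p.2.2‖ ^ 2 : ℝ) : ℂ) = r := by
      rw [hr, inner_smul_right, inner_self_eq_norm_sq_to_K]
      have : ((‖p.2.2‖ : ℝ) : ℂ) ≠ 0 := by exact_mod_cast hpn.ne'
      push_cast
      field_simp
      rfl
    rw [h6]
    refine ⟨?_, hr⟩
    have h7 : ‖r‖ * ‖p.2.2‖ = ‖p.2.2‖ := by rw [← norm_smul, ← hr, hnorm]
    nlinarith [norm_nonneg r]

variable {YR YC : Type*} [NormedAddCommGroup YR] [NormedSpace ℝ YR]
  [NormedAddCommGroup YC] [NormedSpace ℂ YC]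

/-- the local model at `p` -/
noncomputable def md (fR : T × (Fin b → ℝ) × H → YR) (fC : T × (Fin b → ℝ) × H → YC)
    (p x : T × (Fin b → ℝ) × H) : YR × YC :=
  (fR p, (⟪p.2.2, x.2.2⟫_ℂ / ((‖p.2.2‖ ^ 2 : ℝ) : ℂ)) • fC p)

omit [NormedSpace ℝ T] [FiniteDimensional ℝ T] [FiniteDimensional ℂ H] [NormedSpace ℝ YR] in
theorem md_cont (fR : T × (Fin b → ℝ) × H → YR) (fC : T × (Fin b → ℝ) × H → YC)
    (p : T × (Fin b → ℝ) × H) : Continuous (md fR fC p) := by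
  have h1 : Continuous (fun x : T × (Fin b → ℝ) × H => ⟪p.2.2, x.2.2⟫_ℂ) :=
    continuous_const.inner (continuous_snd.comp continuous_snd)
  exact continuous_const.prodMk ((h1.div_const _).smul continuous_const)

omit [FiniteDimensional ℝ T] [FiniteDimensional ℂ H] in
theorem md_diff (fR : T × (Fin b → ℝ) × H → YR) (fC : T × (Fin b → ℝ) × H → YC)
    (p : T × (Fin b → ℝ) × H) : Differentiable ℝ (md fR fC p) := by
  have h1 : Differentiable ℝ (fun x : T × (Fin b → ℝ) × H => ⟪p.2.2, x.2.2⟫_ℂ) := by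
    have h1 : Differentiable ℝ (fun y : H => ⟪p.2.2, y⟫_ℂ) :=
      ((innerSL ℂ p.2.2).restrictScalars ℝ).differentiable
    exact h1.comp (differentiable_snd.comp differentiable_snd)
  have h2 : Differentiable ℝ (fun x : T × (Fin b → ℝ) × H =>
      ⟪p.2.2, x.2.2⟫_ℂ / ((‖p.2.2‖ ^ 2 : ℝ) : ℂ)) := by
    simpa only [div_eq_mul_inv] using h1.mul_const (((‖p.2.2‖ ^ 2 : ℝ) : ℂ))⁻¹
  exact (differentiable_const _).prodMk (h2.smul_const _)

omit [FiniteDimensional ℂ H] [NormedSpace ℝ YR] in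
/-- local approximation -/
theorem exists_rad (B : Basis (Fin n) ℝ T) (fR : T × (Fin b → ℝ) × H → YR)
    (fC : T × (Fin b → ℝ) × H → YC) (cR : Continuous fR) (cC : Continuous fC)
    (eqR : ∀ t h ψ (z : ℂ), ‖z‖ = 1 → fR (t, h, z • ψ) = fR (t, h, ψ))
    (eqC : ∀ t h ψ (z : ℂ), ‖z‖ = 1 → fC (t, h, z • ψ) = z • fC (t, h, ψ))
    (pR : ∀ t h ψ (k : Fin b → ℤ), fR (t, fun i => h i + k i, ψ) = fR (t, h, ψ))
    (pC : ∀ t h ψ (k : Fin b → ℤ), fC (t, fun i => h i + k i, ψ) = fC (t, h, ψ))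
    (K : Set (T × (Fin b → ℝ) × H)) (hK : IsCompact K) (p : T × (Fin b → ℝ) × H)
    (hp : p.2.2 ≠ 0) {η : ℝ} (hη : 0 < η) :
    ∃ r > 0, ∀ x ∈ K, qf B p x < r → ‖md fR fC p x - (fR x, fC x)‖ < η := by
  have hc : Continuous (fun x => ‖md fR fC p x - (fR x, fC x)‖) :=
    ((md_cont fR fC p).sub (cR.prodMk cC)).norm
  let Bd : Set (T × (Fin b → ℝ) × H) := K ∩ {x | η ≤ ‖md fR fC p x - (fR x, fC x)‖}
  have hBd : IsCompact Bd := hK.inter_right (isClosed_le continuous_const hc)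
  rcases Bd.eq_empty_or_nonempty with he | hne
  · refine ⟨1, one_pos, fun x hx _ => ?_⟩
    by_contra hcon
    have : x ∈ Bd := ⟨hx, not_lt.1 hcon⟩
    rw [he] at this
    exact this
  · obtain ⟨x0, hx0, hmin⟩ := hBd.exists_isMinOn hne (qf_diff B p).continuous.continuousOn
    have hpos : 0 < qf B p x0 := by
      refine lt_of_le_of_ne (qf_nonneg B p x0) (Ne.symm ?_)
      intro h0
      obtain ⟨h1, ⟨k, h2⟩, h3, h4⟩ := qf_zero B p x0 hp h0
      have h5 : η ≤ ‖md fR fC p x0 - (fR x0, fC x0)‖ := hx0.2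
      have h6 : md fR fC p x0 = (fR x0, fC x0) := by
        obtain ⟨t, h, ψ⟩ := x0
        obtain ⟨t0, hh0, ψ0⟩ := p
        simp only at h1 h2 h3 h4
        simp only [md]
        set z := ⟪ψ0, ψ⟫_ℂ / ((‖ψ0‖ ^ 2 : ℝ) : ℂ) with hz
        rw [h1, h2, h4, pR, pC, eqR _ _ _ z h3, eqC _ _ _ z h3]
      rw [h6, sub_self, norm_zero] at h5
      linarith
    refine ⟨qf B p x0, hpos, fun x hx hlt => ?_⟩
    by_contra hcon
    have h1 : x ∈ Bd := ⟨hx, not_lt.1 hcon⟩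
    exact absurd hlt (not_lt.2 (hmin h1))

/-- **smooth equivariant periodic approximation** away from `ψ = 0` -/
theorem exists_approx (fR : T × (Fin b → ℝ) × H → YR)
    (fC : T × (Fin b → ℝ) × H → YC) (cR : Continuous fR) (cC : Continuous fC)
    (eqR : ∀ t h ψ (z : ℂ), ‖z‖ = 1 → fR (t, h, z • ψ) = fR (t, h, ψ))
    (eqC : ∀ t h ψ (z : ℂ), ‖z‖ = 1 → fC (t, h, z • ψ) = z • fC (t, h, ψ))
    (pR : ∀ t h ψ (k : Fin b → ℤ), fR (t, fun i => h i + k i, ψ) = fR (t, h, ψ))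
    (pC : ∀ t h ψ (k : Fin b → ℤ), fC (t, fun i => h i + k i, ψ) = fC (t, h, ψ))
    (δ R : ℝ) (hδ : 0 < δ) {η : ℝ} (hη : 0 < η) :
    ∃ F : T × (Fin b → ℝ) × H → YR × YC, Continuous F ∧
      (∀ t h ψ (z : ℂ), ‖z‖ = 1 → (F (t, h, z • ψ)).1 = (F (t, h, ψ)).1) ∧
      (∀ t h ψ (z : ℂ), ‖z‖ = 1 → (F (t, h, z • ψ)).2 = z • (F (t, h, ψ)).2) ∧
      (∀ t h ψ (k : Fin b → ℤ), F (t, fun i => h i + k i, ψ) = F (t, h, ψ)) ∧
      ∀ t h ψ, ‖t‖ ≤ 1 → δ ≤ ‖ψ‖ → ‖ψ‖ ≤ R → DifferentiableAt ℝ F (t, h, ψ) ∧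
        ‖F (t, h, ψ) - (fR (t, h, ψ), fC (t, h, ψ))‖ ≤ η := by
  classical
  let B := Module.finBasis ℝ T
  let K : Set (T × (Fin b → ℝ) × H) := Metric.closedBall (0 : T) 1 ×ˢ
    (Icc (0 : Fin b → ℝ) 1 ×ˢ {ψ : H | δ ≤ ‖ψ‖ ∧ ‖ψ‖ ≤ R})
  have : ProperSpace T := FiniteDimensional.proper ℝ T
  have : ProperSpace H := FiniteDimensional.proper ℂ H
  have hKψ : IsCompact {ψ : H | δ ≤ ‖ψ‖ ∧ ‖ψ‖ ≤ R} := by
    refine (isCompact_closedBall (0 : H) R).of_isClosed_subset ?_ ?_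
    · exact (isClosed_le continuous_const continuous_norm).inter
        (isClosed_le continuous_norm continuous_const)
    · intro ψ hψ; simpa using hψ.2
  have hK : IsCompact K := (isCompact_closedBall _ _).prod (isCompact_Icc.prod hKψ)
  have hKne : ∀ p ∈ K, p.2.2 ≠ 0 := by
    intro p hp h0
    have h1 : δ ≤ ‖p.2.2‖ := hp.2.2.1
    rw [h0, norm_zero] at h1; linarith
  choose! rad hrad hradK using fun p (hp : p ∈ K) =>
    exists_rad B fR fC cR cC eqR eqC pR pC K hK p (hKne p hp) hη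
  obtain ⟨S, hSK, hScov⟩ := hK.elim_nhds_subcover (fun p => {x | qf B p x < rad p}) (by
    intro p hp
    refine (isOpen_lt (qf_diff B p).continuous continuous_const).mem_nhds ?_
    show qf B p p < rad p
    rw [qf_self]; exact hrad p hp)
  let w : (T × (Fin b → ℝ) × H) → (T × (Fin b → ℝ) × H) → ℝ := fun p x =>
    Real.smoothTransition (1 - qf B p x / rad p)
  have hw0 : ∀ p x, 0 ≤ w p x := fun p x => Real.smoothTransition.nonneg _
  have hwd : ∀ p, Differentiable ℝ (w p) := by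
    intro p
    have h1 : Differentiable ℝ Real.smoothTransition :=
      (Real.smoothTransition.contDiff (n := 1)).differentiable one_ne_zero
    have h2 : Differentiable ℝ (fun x : T × (Fin b → ℝ) × H => qf B p x / rad p) := by
      simpa only [div_eq_mul_inv] using (qf_diff B p).mul_const (rad p)⁻¹
    exact h1.comp (h2.const_sub _)
  have hwpos : ∀ p ∈ S, ∀ x, w p x ≠ 0 → qf B p x < rad p := by
    intro p hp x hne
    by_contra hcon
    apply hne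
    apply Real.smoothTransition.zero_of_nonpos
    have h1 : 1 ≤ qf B p x / rad p := by
      rw [le_div_iff₀ (hrad p (hSK p hp))]; linarith [not_lt.1 hcon]
    linarith
  let W : (T × (Fin b → ℝ) × H) → ℝ := fun x => ∑ p ∈ S, w p x
  have hWd : Differentiable ℝ W := Differentiable.fun_sum fun p _ => hwd p
  have hW0 : ∀ x ∈ K, 0 < W x := by
    intro x hx
    have h1 := hScov hx
    simp only [mem_iUnion] at h1
    obtain ⟨p, hp, hlt⟩ := h1
    refine Finset.sum_pos' (fun p _ => hw0 p x) ⟨p, hp, ?_⟩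
    apply Real.smoothTransition.pos_of_pos
    have h2 : qf B p x / rad p < 1 := by
      rw [div_lt_one (hrad p (hSK p hp))]; exact hlt
    linarith
  obtain ⟨w0, hw0pos, hw0K⟩ : ∃ w0 > 0, ∀ x ∈ K, w0 < W x := by
    rcases K.eq_empty_or_nonempty with he | hne
    · exact ⟨1, one_pos, fun x hx => by rw [he] at hx; exact absurd hx (notMem_empty _)⟩
    · obtain ⟨x0, hx0, hmin⟩ := hK.exists_isMinOn hne hWd.continuous.continuousOn
      exact ⟨W x0 / 2, half_pos (hW0 x0 hx0), fun x hx => by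
        have h1 : W x0 ≤ W x := hmin hx
        have := hW0 x0 hx0
        linarith⟩
  let D : (T × (Fin b → ℝ) × H) → ℝ := fun x => max (W x) w0
  have hD0 : ∀ x, 0 < D x := fun x => lt_of_lt_of_le hw0pos (le_max_right _ _)
  have hDc : Continuous D := hWd.continuous.max continuous_const
  let F : T × (Fin b → ℝ) × H → YR × YC := fun x => (D x)⁻¹ • ∑ p ∈ S, w p x • md fR fC p x
  have hwrot : ∀ p t h ψ (z : ℂ), ‖z‖ = 1 → w p (t, h, z • ψ) = w p (t, h, ψ) := by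
    intro p t h ψ z hz
    simp only [w, qf_rot B p t h ψ z hz]
  have hDrot : ∀ t h ψ (z : ℂ), ‖z‖ = 1 → D (t, h, z • ψ) = D (t, h, ψ) := by
    intro t h ψ z hz
    simp only [D, W, hwrot _ t h ψ z hz]
  have hwper : ∀ p t h ψ (k : Fin b → ℤ), w p (t, fun i => h i + k i, ψ) = w p (t, h, ψ) := by
    intro p t h ψ k
    simp only [w, qf_per B p t h ψ k]
  have hWper : ∀ t h ψ (k : Fin b → ℤ), W (t, fun i => h i + k i, ψ) = W (t, h, ψ) := by
    intro t h ψ k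
    simp only [W, hwper _ t h ψ k]
  have hFper : ∀ t h ψ (k : Fin b → ℤ), F (t, fun i => h i + k i, ψ) = F (t, h, ψ) := by
    intro t h ψ k
    simp only [F, D, hWper t h ψ k, hwper _ t h ψ k]
    rfl
  -- reduction to the cube
  have hred : ∀ (t : T) (h : Fin b → ℝ) (ψ : H), ‖t‖ ≤ 1 → δ ≤ ‖ψ‖ → ‖ψ‖ ≤ R → ∃ k : Fin b → ℤ,
      ((t, fun i => h i + k i, ψ) : T × (Fin b → ℝ) × H) ∈ K := by
    intro t h ψ ht h1 h2
    refine ⟨fun i => -⌊h i⌋, ?_, ⟨?_, ?_⟩, h1, h2⟩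
    · simpa using ht
    · intro i
      have := Int.floor_le (h i)
      show (0 : ℝ) ≤ h i + ((-⌊h i⌋ : ℤ) : ℝ)
      push_cast; linarith
    · intro i
      have := Int.lt_floor_add_one (h i)
      show h i + ((-⌊h i⌋ : ℤ) : ℝ) ≤ (1 : ℝ)
      push_cast; linarith
  refine ⟨F, ?_, ?_, ?_, hFper, ?_⟩
  · refine (hDc.inv₀ fun x => (hD0 x).ne').smul ?_
    exact continuous_finsetSum _ fun p _ => (hwd p).continuous.smul (md_cont fR fC p)
  · intro t h ψ z hz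
    simp only [F, hDrot t h ψ z hz, hwrot _ t h ψ z hz, Prod.smul_fst, Prod.fst_sum, md]
  · intro t h ψ z hz
    simp only [F, hDrot t h ψ z hz, hwrot _ t h ψ z hz, Prod.smul_snd, Prod.snd_sum, md]
    have key : ∑ p ∈ S, w p (t, h, ψ) • (⟪p.2.2, z • ψ⟫_ℂ / ((‖p.2.2‖ ^ 2 : ℝ) : ℂ)) • fC p
        = z • ∑ p ∈ S, w p (t, h, ψ) • (⟪p.2.2, ψ⟫_ℂ / ((‖p.2.2‖ ^ 2 : ℝ) : ℂ)) • fC p := by
      rw [Finset.smul_sum]
      refine Finset.sum_congr rfl fun p _ => ?_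
      rw [smul_comm z, inner_smul_right, mul_div_assoc, mul_smul]
    rw [key, smul_comm z]
  · intro t h ψ ht h1 h2
    obtain ⟨k, hk⟩ := hred t h ψ ht h1 h2
    have hWx : w0 < W (t, h, ψ) := by rw [← hWper t h ψ k]; exact hw0K _ hk
    constructor
    · have hev : F =ᶠ[𝓝 (t, h, ψ)] fun x => (W x)⁻¹ • ∑ p ∈ S, w p x • md fR fC p x := by
        have : {x | w0 < W x} ∈ 𝓝 (t, h, ψ) :=
          (isOpen_lt continuous_const hWd.continuous).mem_nhds hWx
        filter_upwards [this] with x hx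
        have h3 : D x = W x := max_eq_left (le_of_lt hx)
        simp only [F, h3]
      refine DifferentiableAt.congr_of_eventuallyEq ?_ hev
      refine ((hWd _).fun_inv (lt_trans hw0pos hWx).ne').smul ?_
      exact DifferentiableAt.fun_sum fun p _ => ((hwd p) _).smul ((md_diff fR fC p) _)
    · rw [← hFper t h ψ k, ← pR t h ψ k, ← pC t h ψ k]
      set x : T × (Fin b → ℝ) × H := (t, fun i => h i + k i, ψ) with hx
      have hDx : D x = W x := max_eq_left (hw0K x hk).le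
      have hWpos : 0 < W x := hW0 x hk
      have e1 : F x - (fR x, fC x) = (W x)⁻¹ • ∑ p ∈ S, w p x • (md fR fC p x - (fR x, fC x)) := by
        have e0 : ∑ p ∈ S, w p x • (md fR fC p x - (fR x, fC x))
            = (∑ p ∈ S, w p x • md fR fC p x) - W x • ((fR x, fC x) : YR × YC) := by
          simp only [smul_sub, Finset.sum_sub_distrib, W, Finset.sum_smul]
        rw [e0, smul_sub, smul_smul, inv_mul_cancel₀ hWpos.ne', one_smul]
        simp only [F, hDx]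
      rw [e1, norm_smul, norm_inv, Real.norm_of_nonneg hWpos.le]
      rw [inv_mul_le_iff₀ hWpos]
      calc ‖∑ p ∈ S, w p x • (md fR fC p x - (fR x, fC x))‖
          ≤ ∑ p ∈ S, ‖w p x • (md fR fC p x - (fR x, fC x))‖ := norm_sum_le _ _
        _ ≤ ∑ p ∈ S, w p x * η := by
            refine Finset.sum_le_sum fun p hp => ?_
            rw [norm_smul, Real.norm_of_nonneg (hw0 p x)]
            by_cases hz : w p x = 0
            · rw [hz]; simp
            · exact mul_le_mul_of_nonneg_left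
                (hradK p (hSK p hp) x hk (hwpos p hp x hz)).le (hw0 p x)
        _ = W x * η := by rw [← Finset.sum_mul]

end Crest.Agent.R235.EqPert_356
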