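import Crest.Agent.R235.EqPertC_356

/-! Row 235 (helper356).  **Relative EqPert** (for the FDS / FDH theorems of package FAM): as
`EqPert_356.eqPert`, but nothing is changed where a given continuous periodic function `κ` is `≤ 0`;
the zeros with `κ ≥ 0` are removed.  `eqPert` is the case `κ = 1`. -/

set_option autoImplicit false

open Set Filter Topology Module
open scoped ENNReal InnerProductSpace Real

namespace Crest.Agent.R235.EqPert_356

variable {T H YR YC : Type*} [NormedAddCommGroup T] [NormedSpace ℝ T] [FiniteDimensional ℝ T]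
  [NormedAddCommGroup H] [InnerProductSpace ℂ H] [FiniteDimensional ℂ H]
  [NormedAddCommGroup YR] [NormedSpace ℝ YR] [FiniteDimensional ℝ YR]
  [NormedAddCommGroup YC] [NormedSpace ℂ YC] [FiniteDimensional ℂ YC] {b m : ℕ}

/-- **relative EqPert**, uncurried form -/
theorem eqPert_rel (P : (Fin b → ℝ) → H →L[ℂ] H) (hPd : Differentiable ℝ P)
    (hPp : ∀ (h : Fin b → ℝ) (k : Fin b → ℤ), P (fun i => h i + k i) = P h)
    (hPP : ∀ h x, P h (P h x) = P h x)
    (hr : ∀ h, finrank ℂ (LinearMap.range (P h : H →ₗ[ℂ] H)) = m)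
    (hdim : finrank ℝ T + b + 2 * m = finrank ℝ YR + 2 * finrank ℂ YC)
    (fR : T × (Fin b → ℝ) × H → YR) (fC : T × (Fin b → ℝ) × H → YC)
    (cR : Continuous fR) (cC : Continuous fC)
    (eqR : ∀ t h ψ (z : ℂ), ‖z‖ = 1 → fR (t, h, z • ψ) = fR (t, h, ψ))
    (eqC : ∀ t h ψ (z : ℂ), ‖z‖ = 1 → fC (t, h, z • ψ) = z • fC (t, h, ψ))
    (pR : ∀ t h ψ (k : Fin b → ℤ), fR (t, fun i => h i + k i, ψ) = fR (t, h, ψ))
    (pC : ∀ t h ψ (k : Fin b → ℤ), fC (t, fun i => h i + k i, ψ) = fC (t, h, ψ))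
    (κ : T × (Fin b → ℝ) × H → ℝ) (cκ : Continuous κ)
    (pκ : ∀ t h ψ (k : Fin b → ℤ), κ (t, fun i => h i + k i, ψ) = κ (t, h, ψ))
    (R : ℝ) (hz : ∀ t h ψ, ‖t‖ ≤ 1 → P h ψ = ψ → 0 ≤ κ (t, h, ψ) → fR (t, h, ψ) = 0 →
      fC (t, h, ψ) = 0 → 0 < κ (t, h, ψ) ∧ ‖t‖ < 1 ∧ ψ ≠ 0 ∧ ‖ψ‖ < R) {ε : ℝ} (hε : 0 < ε) :
    ∃ (gR : T × (Fin b → ℝ) × H → YR) (gC : T × (Fin b → ℝ) × H → YC),
      Continuous gR ∧ Continuous gC ∧
      (∀ t h ψ (k : Fin b → ℤ), gR (t, fun i => h i + k i, ψ) = gR (t, h, ψ)) ∧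
      (∀ t h ψ (k : Fin b → ℤ), gC (t, fun i => h i + k i, ψ) = gC (t, h, ψ)) ∧
      (∀ x, ‖gR x - fR x‖ ≤ ε) ∧ (∀ x, ‖gC x - fC x‖ ≤ ε) ∧
      (∀ t h ψ, 1 ≤ ‖t‖ ∨ R ≤ ‖ψ‖ ∨ κ (t, h, ψ) ≤ 0 → gR (t, h, ψ) = fR (t, h, ψ) ∧ gC (t, h, ψ) = fC (t, h, ψ)) ∧
      ∀ t h ψ, ‖t‖ ≤ 1 → P h ψ = ψ → 0 ≤ κ (t, h, ψ) → gR (t, h, ψ) = 0 → gC (t, h, ψ) = 0 →
        False := by
  classical
  have : ProperSpace T := FiniteDimensional.proper ℝ T
  have : ProperSpace H := FiniteDimensional.proper ℂ H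
  let mu : T × (Fin b → ℝ) × H → ℝ := fun x =>
    min (κ x) (min (1 - ‖x.1‖) (min ‖x.2.2‖ (R - ‖x.2.2‖)))
  have hmu0' : ∀ x, mu x ≤ κ x := fun x => min_le_left _ _
  have hmu1 : ∀ x, mu x ≤ 1 - ‖x.1‖ := fun x => (min_le_right _ _).trans (min_le_left _ _)
  have hmu2 : ∀ x, mu x ≤ ‖x.2.2‖ := fun x =>
    (min_le_right _ _).trans ((min_le_right _ _).trans (min_le_left _ _))
  have hmu3 : ∀ x, mu x ≤ R - ‖x.2.2‖ := fun x =>
    (min_le_right _ _).trans ((min_le_right _ _).trans (min_le_right _ _))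
  have hmuc : Continuous mu := by
    have h1 : Continuous (fun x : T × (Fin b → ℝ) × H => ‖x.1‖) := continuous_fst.norm
    have h2 : Continuous (fun x : T × (Fin b → ℝ) × H => ‖x.2.2‖) :=
      (continuous_snd.comp continuous_snd).norm
    exact cκ.min ((continuous_const.sub h1).min (h2.min (continuous_const.sub h2)))
  let N : T × (Fin b → ℝ) × H → ℝ := fun x => ‖fR x‖ + ‖fC x‖
  have hNc : Continuous N := cR.norm.add cC.norm
  have hPap : Continuous (fun x : T × (Fin b → ℝ) × H => P x.2.1 x.2.2) :=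
    (hPd.continuous.comp (continuous_fst.comp continuous_snd)).clm_apply
      (continuous_snd.comp continuous_snd)
  let K : Set (T × (Fin b → ℝ) × H) := (Metric.closedBall (0 : T) 1 ×ˢ
    (Icc (0 : Fin b → ℝ) 1 ×ˢ Metric.closedBall (0 : H) R)) ∩
      ({x | P x.2.1 x.2.2 = x.2.2} ∩ {x | 0 ≤ κ x})
  have hK : IsCompact K := ((isCompact_closedBall _ _).prod
    (isCompact_Icc.prod (isCompact_closedBall _ _))).inter_right
    ((isClosed_eq hPap (continuous_snd.comp continuous_snd)).inter (isClosed_le continuous_const cκ))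
  have hpos : ∀ x ∈ K, 0 < N x + mu x := by
    rintro ⟨t, h, ψ⟩ ⟨⟨h1, h2, h3⟩, h4, h5⟩
    have e1 : ‖t‖ ≤ 1 := by simpa using h1
    have e3 : ‖ψ‖ ≤ R := by simpa using h3
    have hmu0 : 0 ≤ mu (t, h, ψ) :=
      le_min h5 (le_min (by simpa using e1) (le_min (norm_nonneg _) (by simpa using e3)))
    have hN0 : 0 ≤ N (t, h, ψ) := add_nonneg (norm_nonneg _) (norm_nonneg _)
    rcases hN0.eq_or_lt with h0 | h0
    · have n1 : ‖fR (t, h, ψ)‖ = 0 := by
        have := norm_nonneg (fR (t, h, ψ)); have := norm_nonneg (fC (t, h, ψ))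
        simp only [N] at h0; linarith
      have n2 : ‖fC (t, h, ψ)‖ = 0 := by
        have := norm_nonneg (fR (t, h, ψ)); have := norm_nonneg (fC (t, h, ψ))
        simp only [N] at h0; linarith
      obtain ⟨a0, a1, a2, a3⟩ := hz t h ψ e1 h4 h5 (norm_eq_zero.1 n1) (norm_eq_zero.1 n2)
      have : 0 < mu (t, h, ψ) :=
        lt_min a0 (lt_min (by simpa using a1) (lt_min (norm_pos_iff.2 a2) (by simpa using a3)))
      linarith
    · linarith
  obtain ⟨δ, hδ, hδK⟩ : ∃ δ > 0, ∀ x ∈ K, 2 * δ ≤ N x + mu x := by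
    rcases K.eq_empty_or_nonempty with he | hne
    · exact ⟨1, one_pos, fun x hx => by rw [he] at hx; exact absurd hx (notMem_empty _)⟩
    · obtain ⟨x0, hx0, hmin⟩ := hK.exists_isMinOn hne (hNc.add hmuc).continuousOn
      refine ⟨(N x0 + mu x0) / 2, half_pos (hpos x0 hx0), fun x hx => ?_⟩
      have h1 : N x0 + mu x0 ≤ N x + mu x := hmin hx
      linarith
  -- lower bound near the boundary of the region
  have hlow : ∀ t h ψ, ‖t‖ ≤ 1 → ‖ψ‖ ≤ R → P h ψ = ψ → 0 ≤ κ (t, h, ψ) → mu (t, h, ψ) ≤ δ →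
      δ ≤ N (t, h, ψ) := by
    intro t h ψ h1 h2 h3 hκ0 h4
    let k : Fin b → ℤ := fun i => -⌊h i⌋
    have hk : ((t, fun i => h i + k i, ψ) : T × (Fin b → ℝ) × H) ∈ K := by
      refine ⟨⟨by simpa using h1, ⟨?_, ?_⟩, by simpa using h2⟩, ?_, ?_⟩
      · intro i
        have := Int.floor_le (h i)
        show (0 : ℝ) ≤ h i + ((-⌊h i⌋ : ℤ) : ℝ)
        push_cast; linarith
      · intro i
        have := Int.lt_floor_add_one (h i)
        show h i + ((-⌊h i⌋ : ℤ) : ℝ) ≤ (1 : ℝ)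
        push_cast; linarith
      · show P (fun i => h i + k i) ψ = ψ
        rw [hPp, h3]
      · show 0 ≤ κ (t, fun i => h i + k i, ψ)
        rw [pκ]; exact hκ0
    have h5 := hδK _ hk
    have h6 : N (t, fun i => h i + k i, ψ) = N (t, h, ψ) := by simp only [N, pR, pC]
    have h7 : mu (t, fun i => h i + k i, ψ) = mu (t, h, ψ) := by simp only [mu, pκ]
    rw [h6, h7] at h5
    linarith
  -- smoothing
  set η : ℝ := min ε δ / 8 with hηdef
  have hη : 0 < η := by have := lt_min hε hδ; positivity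
  have hηε : 2 * η ≤ ε := by
    have := min_le_left ε δ; have := lt_min hε hδ
    rw [hηdef]; linarith
  have hηδ : 4 * η < δ := by
    have := min_le_right ε δ; have := lt_min hε hδ
    rw [hηdef]; linarith
  obtain ⟨F, Fc, F1, F2, Fp, Fa⟩ := exists_approx fR fC cR cC eqR eqC pR pC (δ / 2) R
    (half_pos hδ) hη
  -- coordinates
  let e := stdOrthonormalBasis ℂ H
  let co : Fin (finrank ℂ H) → H →L[ℂ] ℂ := fun k => innerSL ℂ (e k)
  have hco : ∀ ψ : H, ψ ≠ 0 → ∃ j, co j ψ ≠ 0 := by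
    intro ψ hψ
    by_contra hcon
    push Not at hcon
    apply hψ
    have h1 : ∀ j, ⟪e j, ψ⟫_ℂ = 0 := hcon
    rw [← e.sum_repr ψ]
    refine Finset.sum_eq_zero fun j _ => ?_
    rw [e.repr_apply_apply, h1 j, zero_smul]
  let M : ℝ := 1 + ∑ k, ‖co k‖ * |R|
  have hM : 1 ≤ M := by
    have : 0 ≤ ∑ k, ‖co k‖ * |R| :=
      Finset.sum_nonneg fun k _ => mul_nonneg (norm_nonneg _) (abs_nonneg _)
    simp only [M]; linarith
  obtain ⟨c, A, hcη, hAη, hno⟩ := exists_pert P hPd hPP hr hdim (fun x => (F x).1)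
    (fun x => (F x).2) F1 F2 {x | ‖x.1‖ ≤ 1 ∧ δ / 2 ≤ ‖x.2.2‖ ∧ ‖x.2.2‖ ≤ R}
    (by
      rintro ⟨t, h, ψ⟩ ⟨h1, h2, h3⟩
      exact (Fa t h ψ h1 h2 h3).1.fst)
    (by
      rintro ⟨t, h, ψ⟩ ⟨h1, h2, h3⟩
      exact (Fa t h ψ h1 h2 h3).1.snd)
    co hco (η := η / M) (div_pos hη (by linarith))
  have hηM : η / M ≤ η := div_le_self hη.le hM
  let χ : T × (Fin b → ℝ) × H → ℝ := fun x => max 0 (min 1 (2 * mu x / δ - 1))
  have hχc : Continuous χ :=
    continuous_const.max (continuous_const.min (((continuous_const.mul hmuc).div_const _).sub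
      continuous_const))
  have hχ0 : ∀ x, 0 ≤ χ x := fun x => le_max_left _ _
  have hχ1 : ∀ x, χ x ≤ 1 := fun x => max_le zero_le_one (min_le_left _ _)
  have hχp : ∀ t h ψ (k : Fin b → ℤ), χ (t, fun i => h i + k i, ψ) = χ (t, h, ψ) := by
    intro t h ψ k
    simp only [χ, mu, pκ]
  have hχz : ∀ x, χ x ≠ 0 → δ / 2 < mu x := by
    intro x hx
    by_contra hcon
    apply hx
    have h1 : 2 * mu x / δ - 1 ≤ 0 := by
      rw [sub_nonpos, div_le_one hδ]; linarith [not_lt.1 hcon]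
    exact max_eq_left (le_trans (min_le_right _ _) h1)
  have hχo : ∀ x, δ ≤ mu x → χ x = 1 := by
    intro x hx
    have h1 : 1 ≤ 2 * mu x / δ - 1 := by
      rw [le_sub_iff_add_le, le_div_iff₀ hδ]; linarith
    simp only [χ, min_eq_left h1]
    exact max_eq_right zero_le_one
  let pe : T × (Fin b → ℝ) × H → YC := fun x => ∑ k, co k x.2.2 • A k
  have hpec : Continuous pe := continuous_finsetSum _ fun k _ =>
    ((co k).continuous.comp (continuous_snd.comp continuous_snd)).smul continuous_const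
  have hpeb : ∀ x : T × (Fin b → ℝ) × H, ‖x.2.2‖ ≤ R → ‖pe x‖ ≤ η := by
    intro x hx
    have hR0 : 0 ≤ R := le_trans (norm_nonneg _) hx
    calc ‖pe x‖ ≤ ∑ k, ‖co k x.2.2 • A k‖ := norm_sum_le _ _
      _ ≤ ∑ k, (‖co k‖ * |R|) * (η / M) := by
          refine Finset.sum_le_sum fun k _ => ?_
          rw [norm_smul]
          refine mul_le_mul ?_ ((norm_le_pi_norm A k).trans hAη.le) (norm_nonneg _)
            (mul_nonneg (norm_nonneg _) (abs_nonneg _))
          refine ((co k).le_opNorm _).trans ?_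
          rw [abs_of_nonneg hR0]
          exact mul_le_mul_of_nonneg_left hx (norm_nonneg _)
      _ = (∑ k, ‖co k‖ * |R|) * (η / M) := by rw [← Finset.sum_mul]
      _ ≤ M * (η / M) := by
          refine mul_le_mul_of_nonneg_right ?_ (div_pos hη (by linarith)).le
          simp only [M]; linarith
      _ = η := by field_simp
  let gR : T × (Fin b → ℝ) × H → YR := fun x => fR x + χ x • ((F x).1 + c - fR x)
  let gC : T × (Fin b → ℝ) × H → YC := fun x => fC x + χ x • ((F x).2 + pe x - fC x)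
  have hbR : ∀ x, ‖gR x - fR x‖ ≤ 2 * η := by
    rintro ⟨t, h, ψ⟩
    have e1 : gR (t, h, ψ) - fR (t, h, ψ)
        = χ (t, h, ψ) • ((F (t, h, ψ)).1 + c - fR (t, h, ψ)) := by simp [gR]
    rw [e1, norm_smul, Real.norm_of_nonneg (hχ0 _)]
    by_cases h0 : χ (t, h, ψ) = 0
    · rw [h0, zero_mul]; positivity
    · have h1 := hχz _ h0
      have a1 : δ / 2 < 1 - ‖t‖ := lt_of_lt_of_le h1 (hmu1 _)
      have a2 : δ / 2 < ‖ψ‖ := lt_of_lt_of_le h1 (hmu2 _)
      have a3 : δ / 2 < R - ‖ψ‖ := lt_of_lt_of_le h1 (hmu3 _)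
      have a4 := (Fa t h ψ (by linarith) a2.le (by linarith)).2
      have a5 : ‖(F (t, h, ψ)).1 - fR (t, h, ψ)‖ ≤ η :=
        le_trans (norm_fst_le (F (t, h, ψ) - (fR (t, h, ψ), fC (t, h, ψ)))) a4
      have a6 : ‖(F (t, h, ψ)).1 + c - fR (t, h, ψ)‖ ≤ 2 * η := by
        have : (F (t, h, ψ)).1 + c - fR (t, h, ψ) = ((F (t, h, ψ)).1 - fR (t, h, ψ)) + c := by abel
        rw [this]
        exact (norm_add_le _ _).trans (by linarith)
      exact (mul_le_mul (hχ1 _) a6 (norm_nonneg _) zero_le_one).trans (by linarith)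
  have hbC : ∀ x, ‖gC x - fC x‖ ≤ 2 * η := by
    rintro ⟨t, h, ψ⟩
    have e1 : gC (t, h, ψ) - fC (t, h, ψ)
        = χ (t, h, ψ) • ((F (t, h, ψ)).2 + pe (t, h, ψ) - fC (t, h, ψ)) := by simp [gC]
    rw [e1, norm_smul, Real.norm_of_nonneg (hχ0 _)]
    by_cases h0 : χ (t, h, ψ) = 0
    · rw [h0, zero_mul]; positivity
    · have h1 := hχz _ h0
      have a1 : δ / 2 < 1 - ‖t‖ := lt_of_lt_of_le h1 (hmu1 _)
      have a2 : δ / 2 < ‖ψ‖ := lt_of_lt_of_le h1 (hmu2 _)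
      have a3 : δ / 2 < R - ‖ψ‖ := lt_of_lt_of_le h1 (hmu3 _)
      have a4 := (Fa t h ψ (by linarith) a2.le (by linarith)).2
      have a5 : ‖(F (t, h, ψ)).2 - fC (t, h, ψ)‖ ≤ η :=
        le_trans (norm_snd_le (F (t, h, ψ) - (fR (t, h, ψ), fC (t, h, ψ)))) a4
      have a7 : ‖pe (t, h, ψ)‖ ≤ η := hpeb _ (by show ‖ψ‖ ≤ R; linarith)
      have a6 : ‖(F (t, h, ψ)).2 + pe (t, h, ψ) - fC (t, h, ψ)‖ ≤ 2 * η := by
        have : (F (t, h, ψ)).2 + pe (t, h, ψ) - fC (t, h, ψ)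
          = ((F (t, h, ψ)).2 - fC (t, h, ψ)) + pe (t, h, ψ) := by abel
        rw [this]
        exact (norm_add_le _ _).trans (by linarith)
      exact (mul_le_mul (hχ1 _) a6 (norm_nonneg _) zero_le_one).trans (by linarith)
  refine ⟨gR, gC, cR.add (hχc.smul ((Fc.fst.add continuous_const).sub cR)),
    cC.add (hχc.smul ((Fc.snd.add hpec).sub cC)), ?_, ?_, fun x => (hbR x).trans hηε,
    fun x => (hbC x).trans hηε, ?_, ?_⟩
  · intro t h ψ k
    show fR (t, fun i => h i + k i, ψ) + χ (t, fun i => h i + k i, ψ) •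
      ((F (t, fun i => h i + k i, ψ)).1 + c - fR (t, fun i => h i + k i, ψ)) = _
    rw [pR, Fp, hχp]
  · intro t h ψ k
    show fC (t, fun i => h i + k i, ψ) + χ (t, fun i => h i + k i, ψ) •
      ((F (t, fun i => h i + k i, ψ)).2 + pe (t, h, ψ) - fC (t, fun i => h i + k i, ψ)) = _
    rw [pC, Fp, hχp]
  · intro t h ψ hor
    have h0 : χ (t, h, ψ) = 0 := by
      by_contra hcon
      have h1 := hχz _ hcon
      have a1 : δ / 2 < 1 - ‖t‖ := lt_of_lt_of_le h1 (hmu1 _)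
      have a3 : δ / 2 < R - ‖ψ‖ := lt_of_lt_of_le h1 (hmu3 _)
      have a0 : δ / 2 < κ (t, h, ψ) := lt_of_lt_of_le h1 (hmu0' _)
      rcases hor with h2 | h2 | h2
      · linarith
      · linarith
      · linarith
    constructor
    · simp only [gR, h0, zero_smul, add_zero]
    · simp only [gC, h0, zero_smul, add_zero]
  · intro t h ψ ht hP hκ h1 h2
    rcases le_or_gt δ (mu (t, h, ψ)) with hm | hm
    · have hone := hχo _ hm
      have a2 : δ ≤ ‖ψ‖ := le_trans hm (hmu2 _)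
      have a3 : δ ≤ R - ‖ψ‖ := le_trans hm (hmu3 _)
      refine hno t h ψ ⟨ht, by show δ / 2 ≤ ‖ψ‖; linarith, by show ‖ψ‖ ≤ R; linarith⟩ hP ?_ ?_ ?_
      · intro h0; rw [h0, norm_zero] at a2; linarith
      · have : gR (t, h, ψ) = (F (t, h, ψ)).1 + c := by simp [gR, hone]
        rw [← this]; exact h1
      · have : gC (t, h, ψ) = (F (t, h, ψ)).2 + pe (t, h, ψ) := by simp [gC, hone]
        rw [this] at h2; exact h2
    · rcases le_or_gt ‖ψ‖ R with hψR | hψR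
      · have h3 := hlow t h ψ ht hψR hP hκ hm.le
        have h4 := hbR (t, h, ψ)
        have h5 := hbC (t, h, ψ)
        rw [h1, zero_sub, norm_neg] at h4
        rw [h2, zero_sub, norm_neg] at h5
        simp only [N] at h3
        linarith
      · have h0 : χ (t, h, ψ) = 0 := by
          by_contra hcon
          have h1 := hχz _ hcon
          have a3 : δ / 2 < R - ‖ψ‖ := lt_of_lt_of_le h1 (hmu3 _)
          linarith
        have e1 : fR (t, h, ψ) = 0 := by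
          simpa only [gR, h0, zero_smul, add_zero] using h1
        have e2 : fC (t, h, ψ) = 0 := by
          simpa only [gC, h0, zero_smul, add_zero] using h2
        obtain ⟨_, _, _, a3⟩ := hz t h ψ ht hP hκ e1 e2
        linarith

end Crest.Agent.R235.EqPert_356
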