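import Mathlib
import Crest.Agent.R235.EqPertA_371
import Crest.Agent.R235.EqPertB_371

/-!
Row 235, EqPert (helper371): removal of all the zeros of an equivariant map.
-/

set_option autoImplicit false
set_option linter.unusedSectionVars false

open Set Function Filter MeasureTheory Module Metric
open scoped Topology ContDiff

namespace Crest.Agent.R235.EqPert_371

open Crest.Agent.R235.EqPertA_371 Crest.Agent.R235.EqPertB_371

noncomputable section

section MolExists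

variable {b : ℕ} {T H : Type*} [NormedAddCommGroup T] [NormedSpace ℝ T] [FiniteDimensional ℝ T]
  [NormedAddCommGroup H] [InnerProductSpace ℂ H] [FiniteDimensional ℂ H]

/-- the rotation of the last coordinate -/
def rotX (b : ℕ) (T H : Type*) [NormedAddCommGroup T] [NormedSpace ℝ T]
    [NormedAddCommGroup H] [InnerProductSpace ℂ H] (c : ℂ) (hc : ‖c‖ = 1) :
    (T × ((Fin b → ℝ) × H)) ≃ₗᵢ[ℝ] (T × ((Fin b → ℝ) × H)) where
  toFun x := (x.1, x.2.1, c • x.2.2)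
  invFun x := (x.1, x.2.1, c⁻¹ • x.2.2)
  map_add' x y := by simp
  map_smul' a x := by
    simp only [RingHom.id_apply, Prod.smul_fst, Prod.smul_snd, Prod.smul_mk]
    rw [smul_comm]
  left_inv x := by
    have : c ≠ 0 := by intro h; simp [h] at hc
    simp [smul_smul, this]
  right_inv x := by
    have : c ≠ 0 := by intro h; simp [h] at hc
    simp [smul_smul, this]
  norm_map' x := by
    simp [Prod.norm_def, norm_smul, hc]

theorem exists_mol (b : ℕ) (T H : Type*) [NormedAddCommGroup T] [NormedSpace ℝ T]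
    [FiniteDimensional ℝ T] [NormedAddCommGroup H] [InnerProductSpace ℂ H]
    [FiniteDimensional ℂ H] {r : ℝ} (hr : 0 < r) :
    ∃ φ : (T × ((Fin b → ℝ) × H)) → ℝ, Mol φ r ∧
      ∀ (c : ℂ) (x : T × ((Fin b → ℝ) × H)), ‖c‖ = 1 → φ (x.1, x.2.1, c • x.2.2) = φ x := by
  have : FiniteDimensional ℝ H := FiniteDimensional.complexToReal H
  let a : ContDiffBump (0 : T) := ⟨r / 2, r, by positivity, by linarith⟩
  let d : ContDiffBump (0 : Fin b → ℝ) := ⟨r / 2, r, by positivity, by linarith⟩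
  let s : H → ℝ := fun ψ => Real.smoothTransition (1 - ‖ψ‖ ^ 2 / r ^ 2)
  have hs0 : ∀ ψ, s ψ ≠ 0 → ‖ψ‖ < r := by
    intro ψ h
    by_contra hlt
    push Not at hlt
    apply h
    apply Real.smoothTransition.zero_of_nonpos
    have h1 : r ^ 2 ≤ ‖ψ‖ ^ 2 := by
      have := norm_nonneg ψ
      nlinarith
    have h2 : 1 ≤ ‖ψ‖ ^ 2 / r ^ 2 := (one_le_div (by positivity)).2 h1
    linarith
  refine ⟨fun x => a x.1 * (d x.2.1 * s x.2.2), ?_, ?_⟩
  · have hsupp : support (fun x : T × ((Fin b → ℝ) × H) => a x.1 * (d x.2.1 * s x.2.2)) ⊆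
        ball 0 r := by
      intro x hx
      have h1 : a x.1 ≠ 0 := left_ne_zero_of_mul hx
      have h23 : d x.2.1 * s x.2.2 ≠ 0 := right_ne_zero_of_mul hx
      have h2 : d x.2.1 ≠ 0 := left_ne_zero_of_mul h23
      have h3 : s x.2.2 ≠ 0 := right_ne_zero_of_mul h23
      have h1' : x.1 ∈ ball (0 : T) r := by
        have : x.1 ∈ support a := h1
        rwa [a.support_eq] at this
      have h2' : x.2.1 ∈ ball (0 : Fin b → ℝ) r := by
        have : x.2.1 ∈ support d := h2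
        rwa [d.support_eq] at this
      rw [mem_ball_zero_iff] at h1' h2' ⊢
      rw [Prod.norm_def, Prod.norm_def]
      exact max_lt h1' (max_lt h2' (hs0 _ h3))
    refine ⟨?_, ?_, ?_, hsupp, ?_⟩
    · refine (a.contDiff.comp contDiff_fst).mul ((d.contDiff.comp ?_).mul ?_)
      · exact contDiff_fst.comp contDiff_snd
      · refine (Real.smoothTransition.contDiff).comp ?_
        refine contDiff_const.sub (ContDiff.div_const ?_ _)
        exact (contDiff_norm_sq ℂ).comp (contDiff_snd.comp contDiff_snd)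
    · exact HasCompactSupport.of_support_subset_isCompact (isCompact_closedBall 0 r)
        (hsupp.trans ball_subset_closedBall)
    · intro x
      exact mul_nonneg a.nonneg (mul_nonneg d.nonneg (Real.smoothTransition.nonneg _))
    · show 0 < a 0 * (d 0 * s 0)
      have h1 : a 0 = 1 := a.one_of_mem_closedBall (by simp [a.rIn_pos.le])
      have h2 : d 0 = 1 := d.one_of_mem_closedBall (by simp [d.rIn_pos.le])
      have h3 : s 0 = 1 := by
        apply Real.smoothTransition.one_of_one_le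
        simp
      rw [h1, h2, h3]
      norm_num
  · intro c x hc
    show a x.1 * (d x.2.1 * s (c • x.2.2)) = a x.1 * (d x.2.1 * s x.2.2)
    have : s (c • x.2.2) = s x.2.2 := by
      show Real.smoothTransition _ = Real.smoothTransition _
      rw [norm_smul, hc, one_mul]
    rw [this]

end MolExists

section Period

variable {b : ℕ} {T H Y : Type*} [NormedAddCommGroup T] [NormedSpace ℝ T] [FiniteDimensional ℝ T]
  [NormedAddCommGroup H] [InnerProductSpace ℂ H] [FiniteDimensional ℂ H]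

/-- translation vector -/
def tv (T H : Type*) [Zero T] [Zero H] (k : Fin b → ℤ) : T × ((Fin b → ℝ) × H) :=
  (0, fun i => (k i : ℝ), 0)

theorem add_tv (x : T × ((Fin b → ℝ) × H)) (k : Fin b → ℤ) :
    x + tv T H k = (x.1, fun i => x.2.1 i + k i, x.2.2) := by
  refine Prod.ext ?_ (Prod.ext ?_ ?_)
  · simp [tv]
  · funext i; simp [tv]
  · simp [tv]

/-- the fundamental compact set -/
def KK (b : ℕ) (T H : Type*) [NormedAddCommGroup T] [NormedAddCommGroup H] (ρ : ℝ) (s : ℝ) :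
    Set (T × ((Fin b → ℝ) × H)) :=
  closedBall 0 ρ ×ˢ ((Icc (fun _ => -1) (fun _ => 2)) ×ˢ closedBall 0 s)

theorem isCompact_KK (ρ s : ℝ) : IsCompact (KK b T H ρ s) := by
  have : FiniteDimensional ℝ H := FiniteDimensional.complexToReal H
  have : ProperSpace H := FiniteDimensional.proper ℝ H
  have : ProperSpace T := FiniteDimensional.proper ℝ T
  exact (isCompact_closedBall _ _).prod (isCompact_Icc.prod (isCompact_closedBall _ _))

theorem exists_red (x : T × ((Fin b → ℝ) × H)) :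
    ∃ k : Fin b → ℤ, ∀ i, (x + tv T H k).2.1 i ∈ Icc (0 : ℝ) 1 := by
  refine ⟨fun i => -⌊x.2.1 i⌋, fun i => ?_⟩
  rw [add_tv]
  have h1 := Int.floor_le (x.2.1 i)
  have h2 := (Int.lt_floor_add_one (x.2.1 i)).le
  constructor
  · simp only [Int.cast_neg]; linarith
  · simp only [Int.cast_neg]; linarith

theorem modulus [NormedAddCommGroup Y] {f : T × ((Fin b → ℝ) × H) → Y} (hf : Continuous f)
    (hper : ∀ x (k : Fin b → ℤ), f (x + tv T H k) = f x) (R : ℝ) {η : ℝ} (hη : 0 < η) :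
    ∃ r, 0 < r ∧ ∀ x : T × ((Fin b → ℝ) × H), ‖x.1‖ ≤ 1 → ‖x.2.2‖ ≤ R → ∀ y ∈ ball x r,
      dist (f y) (f x) ≤ η := by
  have h1 := (isCompact_KK (b := b) (T := T) (H := H) 2 (R + 1)).uniformContinuousOn_of_continuous
    hf.continuousOn
  obtain ⟨δ, hδ, h2⟩ := Metric.uniformContinuousOn_iff.1 h1 η hη
  refine ⟨min δ 1, lt_min hδ one_pos, fun x hx1 hx2 y hy => ?_⟩
  obtain ⟨k, hk⟩ := exists_red x
  rw [← hper y k, ← hper x k]
  have hd : dist (y + tv T H k) (x + tv T H k) < min δ 1 := by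
    rw [dist_add_right]; exact hy
  have hd1 := lt_of_lt_of_le hd (min_le_right _ _)
  have hd2 := lt_of_lt_of_le hd (min_le_left _ _)
  have e1 : ‖(x + tv T H k).1‖ ≤ 1 := by rw [add_tv]; exact hx1
  have e2 : ‖(x + tv T H k).2.2‖ ≤ R := by rw [add_tv]; exact hx2
  generalize x + tv T H k = x' at *
  generalize y + tv T H k = y' at *
  refine (h2 y' ?_ x' ?_ hd2).le
  · rw [Prod.dist_eq, Prod.dist_eq] at hd1
    have g1 : dist y'.1 x'.1 < 1 := lt_of_le_of_lt (le_max_left _ _) hd1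
    have g23 := lt_of_le_of_lt (le_max_right _ _) hd1
    have g2 : dist y'.2.1 x'.2.1 < 1 := lt_of_le_of_lt (le_max_left _ _) g23
    have g3 : dist y'.2.2 x'.2.2 < 1 := lt_of_le_of_lt (le_max_right _ _) g23
    refine ⟨?_, ?_, ?_⟩
    · rw [mem_closedBall_zero_iff]
      have := norm_le_norm_add_norm_sub' y'.1 x'.1
      rw [dist_eq_norm] at g1
      linarith
    · have g4 : ∀ i, |y'.2.1 i - x'.2.1 i| < 1 := fun i =>
        lt_of_le_of_lt (by simpa [Real.dist_eq] using dist_le_pi_dist y'.2.1 x'.2.1 i) g2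
      constructor
      · intro i
        have := abs_lt.1 (g4 i)
        have := (hk i).1
        show (-1 : ℝ) ≤ y'.2.1 i
        linarith [(abs_lt.1 (g4 i)).1]
      · intro i
        have := (hk i).2
        show y'.2.1 i ≤ (2 : ℝ)
        linarith [(abs_lt.1 (g4 i)).2]
    · rw [mem_closedBall_zero_iff]
      have := norm_le_norm_add_norm_sub' y'.2.2 x'.2.2
      rw [dist_eq_norm] at g3
      linarith
  · refine ⟨?_, ?_, ?_⟩
    · rw [mem_closedBall_zero_iff]; linarith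
    · constructor
      · intro i
        have := (hk i).1
        show (-1 : ℝ) ≤ x'.2.1 i
        linarith
      · intro i
        have := (hk i).2
        show x'.2.1 i ≤ (2 : ℝ)
        linarith
    · rw [mem_closedBall_zero_iff]; linarith

theorem lower {F : T × ((Fin b → ℝ) × H) → ℝ} (hF : Continuous F)
    (hper : ∀ x (k : Fin b → ℤ), F (x + tv T H k) = F x) {S : Set (T × ((Fin b → ℝ) × H))}
    (hS : IsClosed S) (hSp : ∀ x ∈ S, ∀ k : Fin b → ℤ, x + tv T H k ∈ S) {R : ℝ}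
    (hSb : ∀ x ∈ S, ‖x.1‖ ≤ 1 ∧ ‖x.2.2‖ ≤ R) (hpos : ∀ x ∈ S, 0 < F x) :
    ∃ δ, 0 < δ ∧ ∀ x ∈ S, δ ≤ F x := by
  have hc : IsCompact (KK b T H 1 R ∩ S) := (isCompact_KK 1 R).inter_right hS
  have key : ∀ x ∈ S, ∃ k : Fin b → ℤ, x + tv T H k ∈ KK b T H 1 R ∩ S := by
    intro x hx
    obtain ⟨k, hk⟩ := exists_red x
    refine ⟨k, ⟨?_, ?_, ?_⟩, hSp x hx k⟩
    · rw [mem_closedBall_zero_iff]; exact (hSb _ (hSp x hx k)).1
    · constructor
      · intro i
        have := (hk i).1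
        show (-1 : ℝ) ≤ (x + tv T H k).2.1 i
        linarith
      · intro i
        have := (hk i).2
        show (x + tv T H k).2.1 i ≤ (2 : ℝ)
        linarith
    · rw [mem_closedBall_zero_iff]; exact (hSb _ (hSp x hx k)).2
  by_cases hne : (KK b T H 1 R ∩ S).Nonempty
  · obtain ⟨x0, hx0, hmin⟩ := hc.exists_isMinOn hne hF.continuousOn
    refine ⟨F x0, hpos x0 hx0.2, fun x hx => ?_⟩
    obtain ⟨k, hk⟩ := key x hx
    rw [← hper x k]
    exact hmin hk
  · refine ⟨1, one_pos, fun x hx => ?_⟩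
    obtain ⟨k, hk⟩ := key x hx
    exact absurd ⟨_, hk⟩ hne

end Period

section Cut

variable {E : Type*} [NormedAddCommGroup E] [NormedSpace ℝ E]

/-- radial retraction onto the ball of radius `ρ` -/
def cut (ρ : ℝ) (v : E) : E := (ρ / max ρ ‖v‖) • v

theorem norm_cut_le {ρ : ℝ} (hρ : 0 < ρ) (v : E) : ‖cut ρ v‖ ≤ ρ := by
  have h1 : 0 < max ρ ‖v‖ := lt_of_lt_of_le hρ (le_max_left _ _)
  rw [cut, norm_smul, Real.norm_of_nonneg (by positivity), div_mul_eq_mul_div, div_le_iff₀ h1]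
  exact mul_le_mul_of_nonneg_left (le_max_right _ _) hρ.le

theorem cut_of_le {ρ : ℝ} (hρ : 0 < ρ) {v : E} (hv : ‖v‖ ≤ ρ) : cut ρ v = v := by
  rw [cut, max_eq_left hv, div_self hρ.ne', one_smul]

theorem norm_cut_of_ge {ρ : ℝ} (hρ : 0 < ρ) {v : E} (hv : ρ ≤ ‖v‖) : ‖cut ρ v‖ = ρ := by
  have h1 : 0 < ‖v‖ := lt_of_lt_of_le hρ hv
  rw [cut, max_eq_right hv, norm_smul, Real.norm_of_nonneg (by positivity),
    div_mul_cancel₀ _ h1.ne']

theorem continuous_cut {ρ : ℝ} (hρ : 0 < ρ) : Continuous (cut ρ : E → E) := by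
  unfold cut
  refine (continuous_const.div (continuous_const.max continuous_norm) fun v => ?_).smul
    continuous_id
  exact (lt_of_lt_of_le hρ (le_max_left _ _)).ne'

end Cut

section Main

variable {b : ℕ} {T H YR YC : Type*}
  [NormedAddCommGroup T] [NormedSpace ℝ T] [FiniteDimensional ℝ T]
  [NormedAddCommGroup H] [InnerProductSpace ℂ H] [FiniteDimensional ℂ H]
  [NormedAddCommGroup YR] [NormedSpace ℝ YR] [FiniteDimensional ℝ YR]
  [NormedAddCommGroup YC] [NormedSpace ℂ YC] [FiniteDimensional ℂ YC]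

/-- **small equivariant smooth approximation without zeros off `ψ = 0`** -/
theorem exists_good {P : (Fin b → ℝ) → H →L[ℂ] H} {fR : T → (Fin b → ℝ) → H → YR}
    {fC : T → (Fin b → ℝ) → H → YC} {m : ℕ} (hP : ContDiff ℝ ∞ P)
    (hid : ∀ h ψ, P h (P h ψ) = P h ψ)
    (hm : ∀ h, finrank ℂ (LinearMap.range (P h : H →ₗ[ℂ] H)) = m)
    (hdim : finrank ℝ T + b + 2 * m = finrank ℝ YR + 2 * finrank ℂ YC)
    (hR : Continuous (fun q : T × ((Fin b → ℝ) × H) => fR q.1 q.2.1 q.2.2))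
    (hC : Continuous (fun q : T × ((Fin b → ℝ) × H) => fC q.1 q.2.1 q.2.2))
    (pR : ∀ t h (k : Fin b → ℤ) ψ, fR t (fun i => h i + k i) ψ = fR t h ψ)
    (pC : ∀ t h (k : Fin b → ℤ) ψ, fC t (fun i => h i + k i) ψ = fC t h ψ)
    (eR : ∀ t h (c : ℂ) ψ, ‖c‖ = 1 → fR t h (c • ψ) = fR t h ψ)
    (eC : ∀ t h (c : ℂ) ψ, ‖c‖ = 1 → fC t h (c • ψ) = c • fC t h ψ)
    {R : ℝ} (hR0 : 0 < R) {η : ℝ} (hη : 0 < η) :
    ∃ (sR : T × ((Fin b → ℝ) × H) → YR) (sC : T × ((Fin b → ℝ) × H) → YC),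
      Continuous sR ∧ Continuous sC ∧ (∀ x (k : Fin b → ℤ), sR (x + tv T H k) = sR x) ∧
      (∀ x (k : Fin b → ℤ), sC (x + tv T H k) = sC x) ∧
      (∀ x, ‖x.1‖ ≤ 1 → ‖x.2.2‖ ≤ R → ‖sR x - fR x.1 x.2.1 x.2.2‖ ≤ η) ∧
      (∀ x, ‖x.1‖ ≤ 1 → ‖x.2.2‖ ≤ R → ‖sC x - fC x.1 x.2.1 x.2.2‖ ≤ η) ∧
      ∀ x, P x.2.1 x.2.2 = x.2.2 → x.2.2 ≠ 0 → sR x = 0 → sC x = 0 → False := by
  have : FiniteDimensional ℝ H := FiniteDimensional.complexToReal H
  have : FiniteDimensional ℝ YC := FiniteDimensional.complexToReal YC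
  have : CompleteSpace YC := FiniteDimensional.complete ℂ YC
  have : CompleteSpace YR := FiniteDimensional.complete ℝ YR
  let _ : MeasurableSpace (T × ((Fin b → ℝ) × H)) := borel _
  have : BorelSpace (T × ((Fin b → ℝ) × H)) := ⟨rfl⟩
  have pR' : ∀ x (k : Fin b → ℤ), (fun q : T × ((Fin b → ℝ) × H) => fR q.1 q.2.1 q.2.2)
      (x + tv T H k) = (fun q : T × ((Fin b → ℝ) × H) => fR q.1 q.2.1 q.2.2) x := by
    intro x k
    simp only [add_tv, pR]
  have pC' : ∀ x (k : Fin b → ℤ), (fun q : T × ((Fin b → ℝ) × H) => fC q.1 q.2.1 q.2.2)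
      (x + tv T H k) = (fun q : T × ((Fin b → ℝ) × H) => fC q.1 q.2.1 q.2.2) x := by
    intro x k
    simp only [add_tv, pC]
  obtain ⟨r1, hr1, hmod1⟩ := modulus hR pR' R (η := η / 2) (by positivity)
  obtain ⟨r2, hr2, hmod2⟩ := modulus hC pC' R (η := η / 2) (by positivity)
  obtain ⟨φ, hφ, hφrot⟩ := exists_mol b T H (lt_min hr1 hr2)
  set sR := moll φ (fun q : T × ((Fin b → ℝ) × H) => fR q.1 q.2.1 q.2.2) with hsR
  set sC := moll φ (fun q : T × ((Fin b → ℝ) × H) => fC q.1 q.2.1 q.2.2) with hsC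
  have dR : ContDiff ℝ 1 sR := moll_contDiff hφ hR
  have dC : ContDiff ℝ 1 sC := moll_contDiff hφ hC
  have rR : ∀ (c : ℂ) x, ‖c‖ = 1 → sR (x.1, x.2.1, c • x.2.2) = sR x := by
    intro c x hc
    exact moll_iso (rotX b T H c hc) (ContinuousLinearMap.id ℝ YR) (fun x => hφrot c x hc)
      (fun x => eR _ _ _ _ hc) hφ hR x
  have rC : ∀ (c : ℂ) x, ‖c‖ = 1 → sC (x.1, x.2.1, c • x.2.2) = c • sC x := by
    intro c x hc
    exact moll_iso (rotX b T H c hc) ((c • ContinuousLinearMap.id ℂ YC).restrictScalars ℝ)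
      (fun x => hφrot c x hc) (fun x => eC _ _ _ _ hc) hφ hC x
  -- the linear functionals
  set K := finrank ℂ H with hK
  let B := stdOrthonormalBasis ℂ H
  let ℓ : Fin K → H →L[ℂ] ℂ := fun i => innerSL ℂ (B i)
  have hℓ0 : ∀ ψ : H, ψ ≠ 0 → ∃ k, ℓ k ψ ≠ 0 := by
    intro ψ hψ
    by_contra hall
    push Not at hall
    apply hψ
    rw [← B.sum_repr ψ]
    refine Finset.sum_eq_zero fun i _ => ?_
    rw [B.repr_apply_apply]
    have : inner ℂ (B i) ψ = (0 : ℂ) := hall i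
    rw [this, zero_smul]
  have hℓ1 : ∀ (i : Fin K) (ψ : H), ‖ℓ i ψ‖ ≤ ‖ψ‖ := by
    intro i ψ
    have h1 : ‖inner ℂ (B i) ψ‖ ≤ ‖B i‖ * ‖ψ‖ := norm_inner_le_norm _ _
    rw [B.norm_eq_one, one_mul] at h1
    exact h1
  let _ : MeasurableSpace (YR × (Fin K → YC)) := borel _
  have : BorelSpace (YR × (Fin K → YC)) := ⟨rfl⟩
  have hnull := null_bad (ℓ := ℓ) (fR := fun t h ψ => sR (t, h, ψ))
    (fC := fun t h ψ => sC (t, h, ψ)) (Measure.addHaar : Measure (YR × (Fin K → YC)))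
    (hP.of_le (by exact_mod_cast le_top)) hid dR dC
    (fun t h c ψ hc => rR c (t, h, ψ) hc) (fun t h c ψ hc => rC c (t, h, ψ) hc) hm hdim
  have hD : (0 : ℝ) < K * R + 1 := by positivity
  obtain ⟨q, hq1, hq2⟩ : ∃ q : YR × (Fin K → YC), q ∈ ball (0 : YR × (Fin K → YC))
      ((η / 2) / (K * R + 1)) ∧ q ∉ {q : YR × (Fin K → YC) | ∃ t h ψ, P h ψ = ψ ∧
        (∃ k, ℓ k ψ ≠ 0) ∧ (fun t h ψ => sR (t, h, ψ)) t h ψ + q.1 = 0 ∧
        (fun t h ψ => sC (t, h, ψ)) t h ψ + ∑ i, ℓ i ψ • q.2 i = 0} := by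
    by_contra hcon
    push Not at hcon
    have h1 := measure_mono_null (μ := (Measure.addHaar : Measure (YR × (Fin K → YC))))
      (s := ball (0 : YR × (Fin K → YC)) ((η / 2) / (K * R + 1))) hcon hnull
    exact (measure_ball_pos _ _ (by positivity)).ne' h1
  rw [mem_ball_zero_iff] at hq1
  have hq11 : ‖q.1‖ ≤ (η / 2) / (K * R + 1) := (norm_fst_le q).trans hq1.le
  have hq12 : ∀ i, ‖q.2 i‖ ≤ (η / 2) / (K * R + 1) := fun i =>
    (norm_le_pi_norm _ i).trans ((norm_snd_le q).trans hq1.le)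
  refine ⟨fun x => sR x + q.1, fun x => sC x + ∑ i, ℓ i x.2.2 • q.2 i, ?_, ?_, ?_, ?_, ?_, ?_, ?_⟩
  · exact dR.continuous.add continuous_const
  · refine dC.continuous.add ?_
    refine continuous_finsetSum _ fun i _ => ?_
    exact ((ℓ i).continuous.comp (continuous_snd.comp continuous_snd)).smul continuous_const
  · intro x k
    show sR (x + tv T H k) + q.1 = sR x + q.1
    rw [hsR, moll_transl (fun x => pR' x k)]
  · intro x k
    show sC (x + tv T H k) + ∑ i, ℓ i (x + tv T H k).2.2 • q.2 i =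
      sC x + ∑ i, ℓ i x.2.2 • q.2 i
    rw [hsC, moll_transl (fun x => pC' x k), add_tv]
  · intro x hx1 hx2
    have h1 : dist (sR x) (fR x.1 x.2.1 x.2.2) ≤ η / 2 :=
      moll_close hφ hR (by positivity) fun y hy => hmod1 x hx1 hx2 y
        (ball_subset_ball (min_le_left _ _) hy)
    rw [dist_eq_norm] at h1
    have h2 : (η / 2) / (K * R + 1) ≤ η / 2 := div_le_self (by positivity) (by
      have : (0 : ℝ) ≤ K * R := by positivity
      linarith)
    have h3 : sR x + q.1 - fR x.1 x.2.1 x.2.2 = (sR x - fR x.1 x.2.1 x.2.2) + q.1 := by abel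
    show ‖sR x + q.1 - fR x.1 x.2.1 x.2.2‖ ≤ η
    rw [h3]
    refine (norm_add_le _ _).trans ?_
    linarith
  · intro x hx1 hx2
    have h1 : dist (sC x) (fC x.1 x.2.1 x.2.2) ≤ η / 2 :=
      moll_close hφ hC (by positivity) fun y hy => hmod2 x hx1 hx2 y
        (ball_subset_ball (min_le_right _ _) hy)
    rw [dist_eq_norm] at h1
    have h2 : ‖∑ i, ℓ i x.2.2 • q.2 i‖ ≤ η / 2 := by
      refine (norm_sum_le _ _).trans ?_
      have h4 : ∀ i ∈ (Finset.univ : Finset (Fin K)), ‖ℓ i x.2.2 • q.2 i‖ ≤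
          R * ((η / 2) / (K * R + 1)) := by
        intro i _
        rw [norm_smul]
        exact mul_le_mul ((hℓ1 i _).trans hx2) (hq12 i) (norm_nonneg _) hR0.le
      refine (Finset.sum_le_sum h4).trans ?_
      rw [Finset.sum_const, Finset.card_univ, Fintype.card_fin, nsmul_eq_mul]
      have h5 : (K : ℝ) * (R * (η / 2 / (K * R + 1))) = (η / 2) * ((K * R) / (K * R + 1)) := by
        field_simp
      rw [h5]
      have h6 : (K * R : ℝ) / (K * R + 1) ≤ 1 := by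
        rw [div_le_one hD]; linarith
      exact mul_le_of_le_one_right (by positivity) h6
    have h3 : sC x + ∑ i, ℓ i x.2.2 • q.2 i - fC x.1 x.2.1 x.2.2 =
        (sC x - fC x.1 x.2.1 x.2.2) + ∑ i, ℓ i x.2.2 • q.2 i := by abel
    show ‖sC x + ∑ i, ℓ i x.2.2 • q.2 i - fC x.1 x.2.1 x.2.2‖ ≤ η
    rw [h3]
    refine (norm_add_le _ _).trans ?_
    linarith
  · intro x hPx hx h1 h2
    exact hq2 ⟨x.1, x.2.1, x.2.2, hPx, hℓ0 _ hx, h1, h2⟩

/-- **EqPert** : removal of all the zeros of an equivariant map (index `< 0` case) -/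
theorem eqPert {P : (Fin b → ℝ) → H →L[ℂ] H} {fR : T → (Fin b → ℝ) → H → YR}
    {fC : T → (Fin b → ℝ) → H → YC} {m : ℕ} {R : ℝ} (hP : ContDiff ℝ ∞ P)
    (pP : ∀ h (k : Fin b → ℤ), P (fun i => h i + k i) = P h)
    (hid : ∀ h ψ, P h (P h ψ) = P h ψ)
    (hm : ∀ h, finrank ℂ (LinearMap.range (P h : H →ₗ[ℂ] H)) = m)
    (hdim : finrank ℝ T + b + 2 * m = finrank ℝ YR + 2 * finrank ℂ YC)
    (hR : Continuous (fun q : T × ((Fin b → ℝ) × H) => fR q.1 q.2.1 q.2.2))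
    (hC : Continuous (fun q : T × ((Fin b → ℝ) × H) => fC q.1 q.2.1 q.2.2))
    (pR : ∀ t h (k : Fin b → ℤ) ψ, fR t (fun i => h i + k i) ψ = fR t h ψ)
    (pC : ∀ t h (k : Fin b → ℤ) ψ, fC t (fun i => h i + k i) ψ = fC t h ψ)
    (eR : ∀ t h (c : ℂ) ψ, ‖c‖ = 1 → fR t h (c • ψ) = fR t h ψ)
    (eC : ∀ t h (c : ℂ) ψ, ‖c‖ = 1 → fC t h (c • ψ) = c • fC t h ψ)
    (hz : ∀ t h ψ, ‖t‖ ≤ 1 → P h ψ = ψ → fR t h ψ = 0 → fC t h ψ = 0 →
      ‖t‖ < 1 ∧ ψ ≠ 0 ∧ ‖ψ‖ < R) {ε : ℝ} (hε : 0 < ε) :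
    ∃ (gR : T → (Fin b → ℝ) → H → YR) (gC : T → (Fin b → ℝ) → H → YC),
      Continuous (fun q : T × ((Fin b → ℝ) × H) => gR q.1 q.2.1 q.2.2) ∧
      Continuous (fun q : T × ((Fin b → ℝ) × H) => gC q.1 q.2.1 q.2.2) ∧
      (∀ t h (k : Fin b → ℤ) ψ, gR t (fun i => h i + k i) ψ = gR t h ψ) ∧
      (∀ t h (k : Fin b → ℤ) ψ, gC t (fun i => h i + k i) ψ = gC t h ψ) ∧
      (∀ t h ψ, ‖gR t h ψ - fR t h ψ‖ ≤ ε) ∧ (∀ t h ψ, ‖gC t h ψ - fC t h ψ‖ ≤ ε) ∧
      (∀ t h ψ, P h ψ = ψ → (1 ≤ ‖t‖ ∨ R ≤ ‖ψ‖) →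
        gR t h ψ = fR t h ψ ∧ gC t h ψ = fC t h ψ) ∧
      (∀ t h ψ, ‖t‖ ≤ 1 → P h ψ = ψ → gR t h ψ = 0 → gC t h ψ = 0 → False) := by
  by_cases hR0 : R ≤ 0
  · refine ⟨fR, fC, hR, hC, pR, pC, fun _ _ _ => by simp [hε.le], fun _ _ _ => by simp [hε.le],
      fun _ _ _ _ _ => ⟨rfl, rfl⟩, fun t h ψ h1 h2 h3 h4 => ?_⟩
    have := (hz t h ψ h1 h2 h3 h4).2.2
    have := norm_nonneg ψ
    linarith
  push Not at hR0
  have : FiniteDimensional ℝ H := FiniteDimensional.complexToReal H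
  set F : T × ((Fin b → ℝ) × H) → ℝ := fun x => ‖fR x.1 x.2.1 x.2.2‖ + ‖fC x.1 x.2.1 x.2.2‖
    with hF
  have hFc : Continuous F := hR.norm.add hC.norm
  have hFp : ∀ x (k : Fin b → ℤ), F (x + tv T H k) = F x := by
    intro x k
    simp only [hF, add_tv, pR, pC]
  have hPc : Continuous fun x : T × ((Fin b → ℝ) × H) => P x.2.1 x.2.2 :=
    (hP.continuous.comp (continuous_fst.comp continuous_snd)).clm_apply
      (continuous_snd.comp continuous_snd)
  set S : Set (T × ((Fin b → ℝ) × H)) := {x | ‖x.1‖ ≤ 1 ∧ P x.2.1 x.2.2 = x.2.2 ∧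
    ‖x.2.2‖ ≤ R ∧ (1 ≤ ‖x.1‖ ∨ R ≤ ‖x.2.2‖ ∨ x.2.2 = 0)} with hS
  have hSc : IsClosed S := by
    have c1 : Continuous fun x : T × ((Fin b → ℝ) × H) => x.2.2 :=
      continuous_snd.comp continuous_snd
    refine (isClosed_le continuous_fst.norm continuous_const).inter
      ((isClosed_eq hPc c1).inter ((isClosed_le c1.norm continuous_const).inter ?_))
    exact (isClosed_le continuous_const continuous_fst.norm).union
      ((isClosed_le continuous_const c1.norm).union (isClosed_eq c1 continuous_const))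
  have hSp : ∀ x ∈ S, ∀ k : Fin b → ℤ, x + tv T H k ∈ S := by
    rintro x ⟨h1, h2, h3, h4⟩ k
    rw [add_tv]
    exact ⟨h1, by rw [pP]; exact h2, h3, h4⟩
  have hSpos : ∀ x ∈ S, 0 < F x := by
    rintro x ⟨h1, h2, h3, h4⟩
    by_contra hle
    push Not at hle
    have g1 : ‖fR x.1 x.2.1 x.2.2‖ = 0 := by
      have := norm_nonneg (fR x.1 x.2.1 x.2.2)
      have := norm_nonneg (fC x.1 x.2.1 x.2.2)
      simp only [hF] at hle
      linarith
    have g2 : ‖fC x.1 x.2.1 x.2.2‖ = 0 := by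
      have := norm_nonneg (fR x.1 x.2.1 x.2.2)
      have := norm_nonneg (fC x.1 x.2.1 x.2.2)
      simp only [hF] at hle
      linarith
    obtain ⟨k1, k2, k3⟩ := hz x.1 x.2.1 x.2.2 h1 h2 (norm_eq_zero.1 g1) (norm_eq_zero.1 g2)
    rcases h4 with h4 | h4 | h4
    · linarith
    · linarith
    · exact k2 h4
  obtain ⟨δ0, hδ0, hlow⟩ := lower hFc hFp hSc hSp (fun x hx => ⟨hx.1, hx.2.2.1⟩) hSpos
  set δ := δ0 / 2 with hδ
  have hδpos : 0 < δ := by positivity
  obtain ⟨sR, sC, csR, csC, psR, psC, nR, nC, hgood⟩ := exists_good hP hid hm hdim hR hC pR pC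
    eR eC hR0 (η := min ε (δ / 4)) (lt_min hε (by positivity))
  -- the clamp
  set cl : T × ((Fin b → ℝ) × H) → T × ((Fin b → ℝ) × H) :=
    fun x => (cut 1 x.1, x.2.1, cut R (P x.2.1 x.2.2)) with hcl
  have ccl : Continuous cl :=
    ((continuous_cut one_pos).comp continuous_fst).prodMk
      ((continuous_fst.comp continuous_snd).prodMk ((continuous_cut hR0).comp hPc))
  have pcl : ∀ x (k : Fin b → ℤ), cl (x + tv T H k) = cl x + tv T H k := by
    intro x k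
    simp only [hcl, add_tv, pP]
  have ncl1 : ∀ x, ‖(cl x).1‖ ≤ 1 := fun x => norm_cut_le one_pos _
  have ncl2 : ∀ x, ‖(cl x).2.2‖ ≤ R := fun x => norm_cut_le hR0 _
  have Pcl : ∀ x, P (cl x).2.1 (cl x).2.2 = (cl x).2.2 := by
    intro x
    show P x.2.1 (cut R (P x.2.1 x.2.2)) = cut R (P x.2.1 x.2.2)
    unfold cut
    rw [ContinuousLinearMap.map_smul_of_tower, hid]
  have clS1 : ∀ x, 1 ≤ ‖x.1‖ → cl x ∈ S := fun x hx =>
    ⟨ncl1 x, Pcl x, ncl2 x, Or.inl (norm_cut_of_ge one_pos hx).ge⟩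
  have clS2 : ∀ x, P x.2.1 x.2.2 = x.2.2 → R ≤ ‖x.2.2‖ → cl x ∈ S := fun x hx hx2 =>
    ⟨ncl1 x, Pcl x, ncl2 x, Or.inr (Or.inl (norm_cut_of_ge hR0 (by rw [hx]; exact hx2)).ge)⟩
  have cleq : ∀ x, ‖x.1‖ ≤ 1 → P x.2.1 x.2.2 = x.2.2 → ‖x.2.2‖ ≤ R → cl x = x := by
    intro x h1 h2 h3
    simp only [hcl]
    rw [h2, cut_of_le one_pos h1, cut_of_le hR0 h3]
  set χ : T × ((Fin b → ℝ) × H) → ℝ := fun x => max 0 (min 1 (2 - F (cl x) / δ)) with hχ
  have cχ : Continuous χ :=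
    continuous_const.max (continuous_const.min (continuous_const.sub
      ((hFc.comp ccl).div_const _)))
  have pχ : ∀ x (k : Fin b → ℤ), χ (x + tv T H k) = χ x := by
    intro x k
    simp only [hχ, pcl, hFp]
  have χ0 : ∀ x, 0 ≤ χ x := fun x => le_max_left _ _
  have χ1 : ∀ x, χ x ≤ 1 := fun x => max_le zero_le_one (min_le_left _ _)
  have χz : ∀ x, 2 * δ ≤ F (cl x) → χ x = 0 := by
    intro x hx
    have h1 : 2 ≤ F (cl x) / δ := (le_div_iff₀ hδpos).2 hx
    have h2 : min 1 (2 - F (cl x) / δ) ≤ 0 := (min_le_right _ _).trans (by linarith)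
    exact max_eq_left h2
  have χo : ∀ x, F (cl x) ≤ δ → χ x = 1 := by
    intro x hx
    have h1 : F (cl x) / δ ≤ 1 := (div_le_one hδpos).2 hx
    have h2 : min 1 (2 - F (cl x) / δ) = 1 := min_eq_left (by linarith)
    simp only [hχ]
    rw [h2]
    exact max_eq_right zero_le_one
  have χS : ∀ x, cl x ∈ S → χ x = 0 := fun x hx => χz x (by
    have := hlow _ hx
    rw [hδ]; linarith)
  set DR : T × ((Fin b → ℝ) × H) → YR := fun x => sR x - fR x.1 x.2.1 x.2.2 with hDR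
  set DC : T × ((Fin b → ℝ) × H) → YC := fun x => sC x - fC x.1 x.2.1 x.2.2 with hDC
  have cDR : Continuous DR := csR.sub hR
  have cDC : Continuous DC := csC.sub hC
  have pDR : ∀ x (k : Fin b → ℤ), DR (x + tv T H k) = DR x := by
    intro x k
    simp only [hDR]
    rw [psR]
    simp only [add_tv, pR]
  have pDC : ∀ x (k : Fin b → ℤ), DC (x + tv T H k) = DC x := by
    intro x k
    simp only [hDC]
    rw [psC]
    simp only [add_tv, pC]
  have bDR : ∀ x, ‖DR (cl x)‖ ≤ min ε (δ / 4) := fun x => nR _ (ncl1 x) (ncl2 x)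
  have bDC : ∀ x, ‖DC (cl x)‖ ≤ min ε (δ / 4) := fun x => nC _ (ncl1 x) (ncl2 x)
  have bR : ∀ x, ‖χ x • DR (cl x)‖ ≤ min ε (δ / 4) := by
    intro x
    rw [norm_smul, Real.norm_of_nonneg (χ0 x)]
    exact (mul_le_of_le_one_left (norm_nonneg _) (χ1 x)).trans (bDR x)
  have bC : ∀ x, ‖χ x • DC (cl x)‖ ≤ min ε (δ / 4) := by
    intro x
    rw [norm_smul, Real.norm_of_nonneg (χ0 x)]
    exact (mul_le_of_le_one_left (norm_nonneg _) (χ1 x)).trans (bDC x)
  refine ⟨fun t h ψ => fR t h ψ + χ (t, h, ψ) • DR (cl (t, h, ψ)),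
    fun t h ψ => fC t h ψ + χ (t, h, ψ) • DC (cl (t, h, ψ)), ?_, ?_, ?_, ?_, ?_, ?_, ?_, ?_⟩
  · exact hR.add (cχ.smul (cDR.comp ccl))
  · exact hC.add (cχ.smul (cDC.comp ccl))
  · intro t h k ψ
    have h1 : ((t, (fun i => h i + k i), ψ) : T × ((Fin b → ℝ) × H)) =
        (t, h, ψ) + tv T H k := by rw [add_tv]
    simp only [h1, pχ, pcl, pDR, pR]
  · intro t h k ψ
    have h1 : ((t, (fun i => h i + k i), ψ) : T × ((Fin b → ℝ) × H)) =
        (t, h, ψ) + tv T H k := by rw [add_tv]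
    simp only [h1, pχ, pcl, pDC, pC]
  · intro t h ψ
    rw [add_sub_cancel_left]
    exact (bR _).trans (min_le_left _ _)
  · intro t h ψ
    rw [add_sub_cancel_left]
    exact (bC _).trans (min_le_left _ _)
  · intro t h ψ hPψ hor
    have h1 : χ (t, h, ψ) = 0 := by
      rcases hor with h1 | h1
      · exact χS _ (clS1 (t, h, ψ) h1)
      · exact χS _ (clS2 (t, h, ψ) hPψ h1)
    simp only [h1, zero_smul, add_zero, and_self]
  · intro t h ψ ht hPψ h1 h2
    beta_reduce at h1 h2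
    by_cases hRψ : R ≤ ‖ψ‖
    · have h3 : χ (t, h, ψ) = 0 := χS _ (clS2 (t, h, ψ) hPψ hRψ)
      rw [h3, zero_smul, add_zero] at h1 h2
      have := (hz t h ψ ht hPψ h1 h2).2.2
      linarith
    · push Not at hRψ
      have h4 : cl (t, h, ψ) = (t, h, ψ) := cleq _ ht hPψ hRψ.le
      have hbR := bR (t, h, ψ)
      have hbC := bC (t, h, ψ)
      have h5 : F (t, h, ψ) ≤ δ := by
        have e1 : fR t h ψ = -(χ (t, h, ψ) • DR (cl (t, h, ψ))) := eq_neg_of_add_eq_zero_left h1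
        have e2 : fC t h ψ = -(χ (t, h, ψ) • DC (cl (t, h, ψ))) := eq_neg_of_add_eq_zero_left h2
        show ‖fR t h ψ‖ + ‖fC t h ψ‖ ≤ δ
        rw [e1, e2, norm_neg, norm_neg]
        have := min_le_right ε (δ / 4)
        linarith
      have h6 : χ (t, h, ψ) = 1 := χo _ (by rw [h4]; exact h5)
      have h7 : ψ ≠ 0 := by
        intro h0
        have : χ (t, h, ψ) = 0 := χS _ (by
          rw [h4]
          exact ⟨ht, hPψ, hRψ.le, Or.inr (Or.inr h0)⟩)
        rw [h6] at this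
        exact one_ne_zero this
      rw [h6, one_smul, h4] at h1 h2
      refine hgood (t, h, ψ) hPψ h7 ?_ ?_
      · simpa [hDR] using h1
      · simpa [hDC] using h2

end Main

end

end Crest.Agent.R235.EqPert_371
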