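import Crest.Agent.R235.FDADef_365

/-!
# R235, package FD-A, block B2 (helper143): properness and the estimates over the cell

`S : SWData b A P Ya Yp`, `Ga p = La a + Ka p`, `Gp p = Lp ψ + Kp p`, `p = (h, a, ψ)`.

* `isCompact_pre` : `{x | ‖x‖ ≤ R ∧ L x ∈ Q}` is compact (Banach space, `Fred L`, `Q` compact)
* `isCompact_G`   : `{p | ‖p‖ ≤ R ∧ (Ga p, Gp p) ∈ Q}` is compact
* `exists_lower`  : lower bound on closed bounded sets without zeros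
* `est_bdd`       : small values over the cell, `ρ ≤ 0` ⇒ `‖a‖, ‖ψ‖ ≤ R₁`, `ψ ≠ 0`
* `est_near`      : small values over the cell, `|ρ|` small ⇒ near the orbit of the canonical solution
* `exists_C`      : the derivative of `K` is compact; `D_lower` : `c ‖y‖ ≤ ‖D y‖`
-/

set_option autoImplicit false
set_option linter.unusedSectionVars false

open Set Filter Topology Metric
open Crest.Agent.R235.FDADef_365

noncomputable section

namespace Crest.Agent.R235.Est_143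

section General

variable {A P Ya Yp : Type} [NormedAddCommGroup A] [NormedSpace ℝ A]
    [CompleteSpace A] [NormedAddCommGroup P] [NormedSpace ℝ P] [CompleteSpace P]
    [NormedAddCommGroup Ya] [InnerProductSpace ℝ Ya] [CompleteSpace Ya]
    [NormedAddCommGroup Yp] [InnerProductSpace ℝ Yp] [CompleteSpace Yp]

theorem isCompact_pre {L : A →L[ℝ] Ya} (hL : Fred L) {R : ℝ} {Q : Set Ya} (hQ : IsCompact Q) :
    IsCompact {x : A | ‖x‖ ≤ R ∧ L x ∈ Q} := by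
  have := hL.ker
  set N : Submodule ℝ A := LinearMap.ker (L : A →ₗ[ℝ] Ya) with hN
  obtain ⟨π, hπ⟩ := Submodule.ClosedComplemented.of_finiteDimensional N
  let Φ : A →L[ℝ] N × Ya := π.prod L
  have hinj : Function.Injective Φ := by
    rw [injective_iff_map_eq_zero]
    intro x hx
    have h1 : π x = 0 := congrArg Prod.fst hx
    have h2 : L x = 0 := congrArg Prod.snd hx
    have h3 : x ∈ N := h2
    have h4 := hπ ⟨x, h3⟩
    have h5 : (⟨x, h3⟩ : N) = 0 := by rw [← h4]; exact h1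
    exact congrArg Subtype.val h5
  have hran : range Φ = univ ×ˢ range L := by
    apply Subset.antisymm
    · rintro _ ⟨x, rfl⟩
      exact ⟨mem_univ _, x, rfl⟩
    · rintro ⟨k, y⟩ ⟨-, x, rfl⟩
      refine ⟨x - (π x : A) + k, ?_⟩
      have e1 : L (π x : A) = 0 := (π x).2
      have e2 : L (k : A) = 0 := k.2
      have e3 : π (π x : A) = π x := hπ _
      have e4 : π (k : A) = k := hπ _
      refine Prod.ext ?_ ?_
      · show π (x - (π x : A) + k) = k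
        rw [map_add, map_sub, e3, e4, sub_self, zero_add]
      · show L (x - (π x : A) + k) = L x
        rw [map_add, map_sub, e1, e2, sub_zero, add_zero]
  have hcl : IsClosed (range Φ) := by
    rw [hran]
    exact isClosed_univ.prod hL.closed
  have : CompleteSpace N := FiniteDimensional.complete ℝ N
  obtain ⟨K, hK⟩ := Φ.antilipschitz_of_injective_of_isClosed_range hinj hcl
  have hce : IsClosedEmbedding Φ := hK.isClosedEmbedding Φ.uniformContinuous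
  have : ProperSpace N := FiniteDimensional.proper_real N
  have hcp : IsCompact (closedBall (0 : N) (‖π‖ * R) ×ˢ Q) := (isCompact_closedBall _ _).prod hQ
  refine (hce.isCompact_preimage hcp).of_isClosed_subset ?_ ?_
  · exact (isClosed_le continuous_norm continuous_const).inter (hQ.isClosed.preimage L.continuous)
  · rintro x ⟨hx, hxQ⟩
    refine ⟨?_, hxQ⟩
    rw [mem_closedBall_zero_iff]
    exact (π.le_opNorm x).trans (by gcongr)

/-- the map `(Ga, Gp)` -/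
def Gm {b : ℕ} (La : A →L[ℝ] Ya) (Lp : P →L[ℝ] Yp) (Ka : (Fin b → ℝ) × A × P → Ya)
    (Kp : (Fin b → ℝ) × A × P → Yp) (p : (Fin b → ℝ) × A × P) : Ya × Yp :=
  (La p.2.1 + Ka p, Lp p.2.2 + Kp p)

variable {b : ℕ} {La : A →L[ℝ] Ya} {Lp : P →L[ℝ] Yp} {Ka : (Fin b → ℝ) × A × P → Ya}
    {Kp : (Fin b → ℝ) × A × P → Yp}

theorem continuous_Gm (hKa : Continuous Ka) (hKp : Continuous Kp) :
    Continuous (Gm La Lp Ka Kp) := by
  unfold Gm
  fun_prop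

theorem isCompact_G (hLa : Fred La) (hLp : Fred Lp) (hKa : Continuous Ka) (hKp : Continuous Kp)
    {R : ℝ} (hca : IsCompact (closure (Ka '' {p | ‖p‖ ≤ R})))
    (hcp : IsCompact (closure (Kp '' {p | ‖p‖ ≤ R}))) {Q : Set (Ya × Yp)} (hQ : IsCompact Q) :
    IsCompact {p : (Fin b → ℝ) × A × P | ‖p‖ ≤ R ∧ Gm La Lp Ka Kp p ∈ Q} := by
  have h1 : IsCompact ((fun q : Ya × Ya => q.1 - q.2) ''
      ((Prod.fst '' Q) ×ˢ closure (Ka '' {p | ‖p‖ ≤ R}))) :=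
    ((hQ.image continuous_fst).prod hca).image (by fun_prop)
  have h2 : IsCompact ((fun q : Yp × Yp => q.1 - q.2) ''
      ((Prod.snd '' Q) ×ˢ closure (Kp '' {p | ‖p‖ ≤ R}))) :=
    ((hQ.image continuous_snd).prod hcp).image (by fun_prop)
  have h3 := isCompact_pre hLa (R := R) h1
  have h4 := isCompact_pre hLp (R := R) h2
  refine ((isCompact_closedBall (0 : Fin b → ℝ) R).prod (h3.prod h4)).of_isClosed_subset ?_ ?_
  · exact (isClosed_le continuous_norm continuous_const).inter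
      (hQ.isClosed.preimage (continuous_Gm hKa hKp))
  · rintro ⟨h, a, ψ⟩ ⟨hp, hpQ⟩
    have e1 : ‖h‖ ≤ R := (norm_fst_le (h, a, ψ)).trans hp
    have e2 : ‖(a, ψ)‖ ≤ R := (norm_snd_le (h, a, ψ)).trans hp
    have e3 : ‖a‖ ≤ R := (norm_fst_le (a, ψ)).trans e2
    have e4 : ‖ψ‖ ≤ R := (norm_snd_le (a, ψ)).trans e2
    refine ⟨mem_closedBall_zero_iff.2 e1, ⟨e3, ?_⟩, ⟨e4, ?_⟩⟩
    · refine ⟨(La a + Ka (h, a, ψ), Ka (h, a, ψ)), ⟨⟨_, hpQ, rfl⟩,
        subset_closure ⟨_, hp, rfl⟩⟩, ?_⟩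
      simp
    · refine ⟨(Lp ψ + Kp (h, a, ψ), Kp (h, a, ψ)), ⟨⟨_, hpQ, rfl⟩,
        subset_closure ⟨_, hp, rfl⟩⟩, ?_⟩
      simp

/-- lower bound of a proper map without zeros on a closed set -/
theorem exists_lower {X Z : Type*} [TopologicalSpace X] [NormedAddCommGroup Z] {F : X → Z}
    {S : Set X} (hS : IsClosed S) (hF : Continuous F)
    (hprop : ∀ Q : Set Z, IsCompact Q → ∃ D : Set X, IsCompact D ∧ ∀ p ∈ S, F p ∈ Q → p ∈ D)
    (h0 : ∀ p ∈ S, F p ≠ 0) : ∃ ε > 0, ∀ p ∈ S, ε < ‖F p‖ := by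
  by_contra hcon
  push Not at hcon
  have h1 : ∀ n : ℕ, ∃ p ∈ S, ‖F p‖ ≤ 1 / ((n : ℝ) + 1) := fun n => hcon _ (by positivity)
  choose p hpS hp using h1
  have hlim : Tendsto (fun n => F (p n)) atTop (𝓝 0) := by
    rw [tendsto_zero_iff_norm_tendsto_zero]
    exact squeeze_zero (fun n => norm_nonneg _) hp tendsto_one_div_add_atTop_nhds_zero_nat
  obtain ⟨D, hD, hDp⟩ := hprop _ hlim.isCompact_insert_range
  have hK : IsCompact (S ∩ D) := hD.inter_left hS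
  have hK' : IsCompact (F '' (S ∩ D)) := hK.image hF
  have hmem : (0 : Z) ∈ F '' (S ∩ D) :=
    hK'.isClosed.mem_of_tendsto hlim (Eventually.of_forall fun n =>
      ⟨p n, ⟨hpS n, hDp _ (hpS n) (Or.inr ⟨n, rfl⟩)⟩, rfl⟩)
  obtain ⟨q, hq, hq0⟩ := hmem
  exact h0 q hq.1 hq0

/-- lower bound of `(Ga, Gp, ρ)` on closed bounded sets without zeros -/
theorem lower_G (hLa : Fred La) (hLp : Fred Lp) (hKa : Continuous Ka) (hKp : Continuous Kp)
    {ρ : (Fin b → ℝ) × A × P → ℝ} (hρ : Continuous ρ)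
    {R : ℝ} (hca : IsCompact (closure (Ka '' {p | ‖p‖ ≤ R})))
    (hcp : IsCompact (closure (Kp '' {p | ‖p‖ ≤ R}))) {S : Set ((Fin b → ℝ) × A × P)}
    (hS : IsClosed S) (hSR : ∀ p ∈ S, ‖p‖ ≤ R)
    (h0 : ∀ p ∈ S, La p.2.1 + Ka p = 0 → Lp p.2.2 + Kp p = 0 → ρ p ≠ 0) :
    ∃ ε > 0, ∀ p ∈ S, ‖La p.2.1 + Ka p‖ ≤ ε → ‖Lp p.2.2 + Kp p‖ ≤ ε → ε < |ρ p| := by
  have hF : Continuous fun p : (Fin b → ℝ) × A × P => (Gm La Lp Ka Kp p, ρ p) :=
    (continuous_Gm hKa hKp).prodMk hρ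
  have hprop : ∀ Q : Set ((Ya × Yp) × ℝ), IsCompact Q → ∃ D : Set ((Fin b → ℝ) × A × P),
      IsCompact D ∧ ∀ p ∈ S, (Gm La Lp Ka Kp p, ρ p) ∈ Q → p ∈ D := by
    intro Q hQ
    refine ⟨_, isCompact_G hLa hLp hKa hKp hca hcp (hQ.image continuous_fst), fun p hp hpQ => ?_⟩
    exact ⟨hSR p hp, _, hpQ, rfl⟩
  have h0' : ∀ p ∈ S, (Gm La Lp Ka Kp p, ρ p) ≠ 0 := by
    intro p hp hp0
    have e1 : Gm La Lp Ka Kp p = 0 := congrArg Prod.fst hp0
    exact h0 p hp (congrArg Prod.fst e1) (congrArg Prod.snd e1) (congrArg Prod.snd hp0)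
  obtain ⟨ε, hε, h1⟩ := exists_lower hS hF hprop h0'
  refine ⟨ε, hε, fun p hp hA hP => ?_⟩
  have h2 := h1 p hp
  rw [Prod.norm_def, lt_sup_iff] at h2
  rcases h2 with h2 | h2
  · exfalso
    have h3 : ‖Gm La Lp Ka Kp p‖ ≤ ε := by
      rw [Prod.norm_def]
      exact max_le hA hP
    exact absurd h2 (not_lt.2 h3)
  · simpa using h2

/-- the same without `ρ` -/
theorem lower_G' (hLa : Fred La) (hLp : Fred Lp) (hKa : Continuous Ka) (hKp : Continuous Kp)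
    {R : ℝ} (hca : IsCompact (closure (Ka '' {p | ‖p‖ ≤ R})))
    (hcp : IsCompact (closure (Kp '' {p | ‖p‖ ≤ R}))) {S : Set ((Fin b → ℝ) × A × P)}
    (hS : IsClosed S) (hSR : ∀ p ∈ S, ‖p‖ ≤ R)
    (h0 : ∀ p ∈ S, La p.2.1 + Ka p = 0 → Lp p.2.2 + Kp p ≠ 0) :
    ∃ ε > 0, ∀ p ∈ S, ‖La p.2.1 + Ka p‖ ≤ ε → ε < ‖Lp p.2.2 + Kp p‖ := by
  have hprop : ∀ Q : Set (Ya × Yp), IsCompact Q → ∃ D : Set ((Fin b → ℝ) × A × P),
      IsCompact D ∧ ∀ p ∈ S, Gm La Lp Ka Kp p ∈ Q → p ∈ D := by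
    intro Q hQ
    exact ⟨_, isCompact_G hLa hLp hKa hKp hca hcp hQ, fun p hp hpQ => ⟨hSR p hp, hpQ⟩⟩
  have h0' : ∀ p ∈ S, Gm La Lp Ka Kp p ≠ 0 := by
    intro p hp hp0
    exact h0 p hp (congrArg Prod.fst hp0) (congrArg Prod.snd hp0)
  obtain ⟨ε, hε, h1⟩ := exists_lower hS (continuous_Gm hKa hKp) hprop h0'
  refine ⟨ε, hε, fun p hp hA => ?_⟩
  have h2 := h1 p hp
  rw [Prod.norm_def, lt_sup_iff] at h2
  rcases h2 with h2 | h2
  · exact absurd h2 (not_lt.2 hA)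
  · exact h2

/-- the derivative of a compact map is compact -/
theorem isCompact_deriv {E Y : Type*} [NormedAddCommGroup E] [NormedSpace ℝ E]
    [NormedAddCommGroup Y] [NormedSpace ℝ Y] [CompleteSpace Y] {K : E → Y}
    (hK : ∀ R : ℝ, IsCompact (closure (K '' {p | ‖p‖ ≤ R}))) {C : E →L[ℝ] Y} {p₀ : E}
    (hC : HasFDerivAt K C p₀) (R : ℝ) : IsCompact (closure (C '' {p | ‖p‖ ≤ R})) := by
  refine TotallyBounded.isCompact_of_isClosed (TotallyBounded.closure ?_) isClosed_closure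
  rw [Metric.totallyBounded_iff]
  intro ε hε
  set R' : ℝ := max R 1 with hR'
  have hR1 : 0 < R' := lt_of_lt_of_le one_pos (le_max_right _ _)
  -- small scale
  have h1 := hC.isLittleO.def (c := ε / (2 * R')) (by positivity)
  obtain ⟨δ, hδ, h2⟩ := Metric.eventually_nhds_iff.1 h1
  set r : ℝ := δ / (2 * R') with hr
  have hr0 : 0 < r := by positivity
  have hTB : TotallyBounded (K '' {p | ‖p‖ ≤ ‖p₀‖ + δ}) :=
    ((hK (‖p₀‖ + δ)).totallyBounded).subset subset_closure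
  rw [Metric.totallyBounded_iff] at hTB
  obtain ⟨t, ht, hts⟩ := hTB (r * ε / 2) (by positivity)
  refine ⟨(fun y => r⁻¹ • (y - K p₀)) '' t, ht.image _, ?_⟩
  rintro _ ⟨x, hx, rfl⟩
  have hxR : ‖x‖ ≤ R' := le_trans hx (le_max_left _ _)
  have hrx : ‖r • x‖ ≤ δ / 2 := by
    rw [norm_smul, Real.norm_of_nonneg hr0.le, hr]
    calc δ / (2 * R') * ‖x‖ ≤ δ / (2 * R') * R' := by gcongr
      _ = δ / 2 := by field_simp
  have h3 : dist (p₀ + r • x) p₀ < δ := by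
    rw [dist_eq_norm, add_sub_cancel_left]
    linarith
  have h4 := h2 h3
  rw [add_sub_cancel_left] at h4
  have h5 : K (p₀ + r • x) ∈ K '' {p | ‖p‖ ≤ ‖p₀‖ + δ} := by
    refine ⟨_, ?_, rfl⟩
    have := norm_add_le p₀ (r • x)
    show ‖p₀ + r • x‖ ≤ ‖p₀‖ + δ
    linarith
  obtain ⟨y, hy, hy2⟩ := mem_iUnion₂.1 (hts h5)
  refine mem_iUnion₂.2 ⟨_, ⟨y, hy, rfl⟩, ?_⟩
  rw [mem_ball, dist_eq_norm] at hy2 ⊢
  have h6 : C x - r⁻¹ • (y - K p₀) =
      r⁻¹ • ((K (p₀ + r • x) - y) - (K (p₀ + r • x) - K p₀ - C (r • x))) := by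
    rw [map_smul]
    have : r⁻¹ • r • C x = C x := by rw [smul_smul, inv_mul_cancel₀ hr0.ne', one_smul]
    rw [sub_sub_sub_comm, smul_sub, smul_sub, smul_sub, smul_sub, smul_sub, this]
    abel
  rw [h6, norm_smul, norm_inv, Real.norm_of_nonneg hr0.le]
  have h7 : ‖(K (p₀ + r • x) - y) - (K (p₀ + r • x) - K p₀ - C (r • x))‖ < r * ε := by
    refine lt_of_le_of_lt (norm_sub_le _ _) ?_
    have h8 : ε / (2 * R') * ‖r • x‖ ≤ r * ε / 2 := by
      rw [norm_smul, Real.norm_of_nonneg hr0.le]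
      calc ε / (2 * R') * (r * ‖x‖) ≤ ε / (2 * R') * (r * R') := by gcongr
        _ = r * ε / 2 := by field_simp
    linarith
  rw [inv_mul_lt_iff₀ hr0]
  exact h7

end General

section Data

variable {b : ℕ} {A P Ya Yp : Type} [NormedAddCommGroup A] [NormedSpace ℝ A]
    [CompleteSpace A] [NormedAddCommGroup P] [NormedSpace ℝ P] [CompleteSpace P]
    [NormedAddCommGroup Ya] [InnerProductSpace ℝ Ya] [CompleteSpace Ya]
    [NormedAddCommGroup Yp] [InnerProductSpace ℝ Yp] [CompleteSpace Yp]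
    (S : SWData b A P Ya Yp)

/-- the cell -/
def Cell (R : ℝ) : Set ((Fin b → ℝ) × A × P) :=
  {p | (∀ i, p.1 i ∈ Icc (0 : ℝ) 1) ∧ ‖p.2.1‖ ≤ R ∧ ‖p.2.2‖ ≤ R}

theorem isClosed_Cell (R : ℝ) : IsClosed (Cell R : Set ((Fin b → ℝ) × A × P)) := by
  have h1 : IsClosed {p : (Fin b → ℝ) × A × P | ∀ i, p.1 i ∈ Icc (0 : ℝ) 1} := by
    rw [ofPred_forall]
    exact isClosed_iInter fun i => isClosed_Icc.preimage (by fun_prop)
  have h2 : IsClosed {p : (Fin b → ℝ) × A × P | ‖p.2.1‖ ≤ R} :=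
    isClosed_le (by fun_prop) continuous_const
  have h3 : IsClosed {p : (Fin b → ℝ) × A × P | ‖p.2.2‖ ≤ R} :=
    isClosed_le (by fun_prop) continuous_const
  exact h1.inter (h2.inter h3)

theorem Cell_norm {R : ℝ} {p : (Fin b → ℝ) × A × P} (hp : p ∈ Cell R) : ‖p‖ ≤ max 1 R := by
  obtain ⟨h1, h2, h3⟩ := hp
  rw [Prod.norm_def, Prod.norm_def]
  refine max_le ?_ (max_le (h2.trans (le_max_right _ _)) (h3.trans (le_max_right _ _)))
  refine le_trans ?_ (le_max_left _ _)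
  refine (pi_norm_le_iff_of_nonneg zero_le_one).2 fun i => ?_
  rw [Real.norm_of_nonneg (h1 i).1]
  exact (h1 i).2

/-- small values over the cell in the region `ρ ≤ 0`: a priori bound and no reducibles -/
theorem est_bdd : ∃ R₁ : ℝ, ∀ R' : ℝ, ∃ ε > 0, ∀ p : (Fin b → ℝ) × A × P, p ∈ Cell R' →
    S.ρ p ≤ 0 → ‖S.La p.2.1 + S.Ka p‖ ≤ ε → ‖S.Lp p.2.2 + S.Kp p‖ ≤ ε →
    ‖p.2.1‖ ≤ R₁ ∧ ‖p.2.2‖ ≤ R₁ ∧ p.2.2 ≠ 0 := by
  obtain ⟨R, hR⟩ := S.bdd
  refine ⟨R + 1, fun R' => ?_⟩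
  set T : Set ((Fin b → ℝ) × A × P) := Cell R' ∩ ({p | S.ρ p ≤ 0} ∩
    ({p | R + 1 ≤ ‖p.2.1‖} ∪ ({p | R + 1 ≤ ‖p.2.2‖} ∪ {p | p.2.2 = 0}))) with hT
  have hTc : IsClosed T := by
    have h2 : IsClosed {p : (Fin b → ℝ) × A × P | R + 1 ≤ ‖p.2.1‖} :=
      isClosed_le continuous_const (by fun_prop)
    have h3 : IsClosed {p : (Fin b → ℝ) × A × P | R + 1 ≤ ‖p.2.2‖} :=
      isClosed_le continuous_const (by fun_prop)
    have h4 : IsClosed {p : (Fin b → ℝ) × A × P | p.2.2 = 0} :=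
      isClosed_eq (by fun_prop) continuous_const
    exact (isClosed_Cell R').inter ((isClosed_le S.contρ continuous_const).inter
      (h2.union (h3.union h4)))
  obtain ⟨ε, hε, h1⟩ := lower_G' S.fredA S.fredP S.contA S.contP (S.cptA (max 1 R'))
    (S.cptP (max 1 R')) hTc (fun p hp => Cell_norm hp.1) (fun p hp hA hP => by
      obtain ⟨hc, hρ, h2⟩ := hp
      obtain ⟨h, a, ψ⟩ := p
      have h3 := hR h a ψ hc.1 hρ hA hP
      rcases h2 with h2 | h2 | h2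
      · have : R + 1 ≤ ‖a‖ := h2
        linarith [h3.1]
      · have : R + 1 ≤ ‖ψ‖ := h2
        linarith [h3.2]
      · have h4 : ψ = 0 := h2
        subst h4
        exact S.irred h a hρ hA)
  refine ⟨ε, hε, fun p hp hρ hA hP => ?_⟩
  have h2 : p ∉ T := fun hpT => absurd (h1 p hpT hA) (not_lt.2 hP)
  refine ⟨?_, ?_, ?_⟩
  · by_contra hcon
    exact h2 ⟨hp, hρ, Or.inl (not_le.1 hcon).le⟩
  · by_contra hcon
    exact h2 ⟨hp, hρ, Or.inr (Or.inl (not_le.1 hcon).le)⟩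
  · intro hcon
    exact h2 ⟨hp, hρ, Or.inr (Or.inr hcon)⟩

/-- the open `δ`-neighbourhood of the orbit of the canonical solution -/
def Nbh (δ : ℝ) : Set ((Fin b → ℝ) × A × P) :=
  {p | ∃ m : Fin b → ℤ, ‖p.1 - (S.h₀ + lat m)‖ < δ ∧ ‖p.2.1 - S.a₀‖ < δ ∧
    (‖p.2.2 - S.U m S.ψ₀‖ < δ ∨ ‖p.2.2 + S.U m S.ψ₀‖ < δ)}

theorem isOpen_Nbh (δ : ℝ) : IsOpen (Nbh S δ) := by
  have h1 : Nbh S δ = ⋃ m : Fin b → ℤ, {p | ‖p.1 - (S.h₀ + lat m)‖ < δ ∧ ‖p.2.1 - S.a₀‖ < δ ∧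
    (‖p.2.2 - S.U m S.ψ₀‖ < δ ∨ ‖p.2.2 + S.U m S.ψ₀‖ < δ)} := by
    ext p
    simp [Nbh]
  rw [h1]
  refine isOpen_iUnion fun m => ?_
  have h2 : IsOpen {p : (Fin b → ℝ) × A × P | ‖p.1 - (S.h₀ + lat m)‖ < δ} :=
    isOpen_lt (by fun_prop) continuous_const
  have h3 : IsOpen {p : (Fin b → ℝ) × A × P | ‖p.2.1 - S.a₀‖ < δ} :=
    isOpen_lt (by fun_prop) continuous_const
  have h4 : IsOpen {p : (Fin b → ℝ) × A × P | ‖p.2.2 - S.U m S.ψ₀‖ < δ} :=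
    isOpen_lt (by fun_prop) continuous_const
  have h5 : IsOpen {p : (Fin b → ℝ) × A × P | ‖p.2.2 + S.U m S.ψ₀‖ < δ} :=
    isOpen_lt (by fun_prop) continuous_const
  exact h2.inter (h3.inter (h4.union h5))

/-- small values over the cell near `ρ = 0`: near the orbit of the canonical solution -/
theorem est_near (R' : ℝ) {δ : ℝ} (hδ : 0 < δ) : ∃ ε > 0, ∀ p : (Fin b → ℝ) × A × P,
    p ∈ Cell R' → |S.ρ p| ≤ ε → ‖S.La p.2.1 + S.Ka p‖ ≤ ε → ‖S.Lp p.2.2 + S.Kp p‖ ≤ ε →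
    p ∈ Nbh S δ := by
  obtain ⟨ε, hε, h1⟩ := lower_G S.fredA S.fredP S.contA S.contP S.contρ (S.cptA (max 1 R'))
    (S.cptP (max 1 R')) (S := Cell R' ∩ (Nbh S δ)ᶜ)
    ((isClosed_Cell R').inter (isOpen_Nbh S δ).isClosed_compl) (fun p hp => Cell_norm hp.1)
    (fun p hp hA hP hρ => by
      obtain ⟨h, a, ψ⟩ := p
      obtain ⟨m, e1, e2, e3⟩ := S.uniq h a ψ hρ hA hP
      refine hp.2 ⟨m, ?_, ?_, ?_⟩
      · show ‖h - (S.h₀ + lat m)‖ < δ
        rw [e1, sub_self, norm_zero]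
        exact hδ
      · show ‖a - S.a₀‖ < δ
        rw [e2, sub_self, norm_zero]
        exact hδ
      · rcases e3 with e3 | e3
        · left
          show ‖ψ - S.U m S.ψ₀‖ < δ
          rw [e3, sub_self, norm_zero]
          exact hδ
        · right
          show ‖ψ + S.U m S.ψ₀‖ < δ
          rw [e3, neg_add_cancel, norm_zero]
          exact hδ)
  refine ⟨ε, hε, fun p hp hρ hA hP => ?_⟩
  by_contra hcon
  exact absurd (h1 p ⟨hp, hcon⟩ hA hP) (not_lt.2 hρ)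

/-- the derivatives of `Ka`, `Kp`, `ρ` at the canonical solution; they are compact -/
theorem exists_C : ∃ (Ca : (Fin b → ℝ) × A × P →L[ℝ] Ya) (Cp : (Fin b → ℝ) × A × P →L[ℝ] Yp)
    (Dρ : (Fin b → ℝ) × A × P →L[ℝ] ℝ),
    HasFDerivAt S.Ka Ca (S.h₀, S.a₀, S.ψ₀) ∧ HasFDerivAt S.Kp Cp (S.h₀, S.a₀, S.ψ₀) ∧
    HasFDerivAt S.ρ Dρ (S.h₀, S.a₀, S.ψ₀) ∧
    (∀ y, S.D y = (S.La y.2.1 + Ca y, S.Lp y.2.2 + Cp y, Dρ y)) ∧
    (∀ R : ℝ, IsCompact (closure (Ca '' {p | ‖p‖ ≤ R}))) ∧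
    (∀ R : ℝ, IsCompact (closure (Cp '' {p | ‖p‖ ≤ R}))) := by
  set p₀ : (Fin b → ℝ) × A × P := (S.h₀, S.a₀, S.ψ₀) with hp₀
  let fA : (Fin b → ℝ) × A × P →L[ℝ] A :=
    (ContinuousLinearMap.fst ℝ A P).comp (ContinuousLinearMap.snd ℝ (Fin b → ℝ) (A × P))
  let fP : (Fin b → ℝ) × A × P →L[ℝ] P :=
    (ContinuousLinearMap.snd ℝ A P).comp (ContinuousLinearMap.snd ℝ (Fin b → ℝ) (A × P))
  have h1 : HasFDerivAt (fun p : (Fin b → ℝ) × A × P => S.La p.2.1 + S.Ka p)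
      ((ContinuousLinearMap.fst ℝ Ya (Yp × ℝ)).comp S.D) p₀ :=
    (ContinuousLinearMap.fst ℝ Ya (Yp × ℝ)).hasFDerivAt.comp p₀ S.deriv
  have h2 : HasFDerivAt (fun p : (Fin b → ℝ) × A × P => S.Lp p.2.2 + S.Kp p)
      ((ContinuousLinearMap.fst ℝ Yp ℝ).comp
        ((ContinuousLinearMap.snd ℝ Ya (Yp × ℝ)).comp S.D)) p₀ :=
    (ContinuousLinearMap.fst ℝ Yp ℝ).hasFDerivAt.comp p₀
      ((ContinuousLinearMap.snd ℝ Ya (Yp × ℝ)).hasFDerivAt.comp p₀ S.deriv)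
  have h3 : HasFDerivAt S.ρ ((ContinuousLinearMap.snd ℝ Yp ℝ).comp
        ((ContinuousLinearMap.snd ℝ Ya (Yp × ℝ)).comp S.D)) p₀ :=
    (ContinuousLinearMap.snd ℝ Yp ℝ).hasFDerivAt.comp p₀
      ((ContinuousLinearMap.snd ℝ Ya (Yp × ℝ)).hasFDerivAt.comp p₀ S.deriv)
  have h4 : HasFDerivAt (fun p : (Fin b → ℝ) × A × P => S.La p.2.1) (S.La.comp fA) p₀ :=
    (S.La.comp fA).hasFDerivAt
  have h5 : HasFDerivAt (fun p : (Fin b → ℝ) × A × P => S.Lp p.2.2) (S.Lp.comp fP) p₀ :=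
    (S.Lp.comp fP).hasFDerivAt
  have h6 : HasFDerivAt S.Ka ((ContinuousLinearMap.fst ℝ Ya (Yp × ℝ)).comp S.D - S.La.comp fA)
      p₀ := by
    have := h1.sub h4
    refine this.congr_of_eventuallyEq (Eventually.of_forall fun p => ?_)
    simp
  have h7 : HasFDerivAt S.Kp ((ContinuousLinearMap.fst ℝ Yp ℝ).comp
        ((ContinuousLinearMap.snd ℝ Ya (Yp × ℝ)).comp S.D) - S.Lp.comp fP) p₀ := by
    have := h2.sub h5
    refine this.congr_of_eventuallyEq (Eventually.of_forall fun p => ?_)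
    simp
  refine ⟨_, _, _, h6, h7, h3, fun y => ?_, fun R => isCompact_deriv S.cptA h6 R,
    fun R => isCompact_deriv S.cptP h7 R⟩
  refine Prod.ext ?_ (Prod.ext ?_ rfl)
  · show (S.D y).1 = S.La y.2.1 + ((S.D y).1 - S.La y.2.1)
    abel
  · show (S.D y).2.1 = S.Lp y.2.2 + ((S.D y).2.1 - S.Lp y.2.2)
    abel

/-- the linearisation is bounded below -/
theorem D_lower : ∃ c > 0, ∀ y, c * ‖y‖ ≤ ‖S.D y‖ := by
  obtain ⟨Ca, Cp, Dρ, -, -, -, hD, hCa, hCp⟩ := exists_C S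
  obtain ⟨ε, hε, h1⟩ := lower_G S.fredA S.fredP Ca.continuous Cp.continuous Dρ.continuous
    (hCa 1) (hCp 1) (S := {y | ‖y‖ = 1}) (isClosed_eq continuous_norm continuous_const)
    (fun p hp => le_of_eq hp) (fun p hp hA hP hρ => by
      have h2 : S.D p = 0 := by
        rw [hD p, hA, hP, hρ]
        rfl
      have h3 := S.inj p h2
      have h4 : ‖p‖ = 1 := hp
      rw [h3, norm_zero] at h4
      exact zero_ne_one h4)
  refine ⟨ε, hε, fun y => ?_⟩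
  by_cases hy : y = 0
  · subst hy
    simp
  have hy0 : 0 < ‖y‖ := norm_pos_iff.2 hy
  have h2 : ∀ p : (Fin b → ℝ) × A × P, ‖p‖ = 1 → ε ≤ ‖S.D p‖ := by
    intro p hp
    by_contra hcon
    rw [not_le, hD p, Prod.norm_def, Prod.norm_def] at hcon
    obtain ⟨h3, h4⟩ := max_lt_iff.1 hcon
    obtain ⟨h5, h6⟩ := max_lt_iff.1 h4
    have h7 := h1 p hp h3.le h5.le
    rw [Real.norm_eq_abs] at h6
    exact absurd h7 (not_lt.2 h6.le)
  have h3 := h2 (‖y‖⁻¹ • y) (by rw [norm_smul, norm_inv, norm_norm, inv_mul_cancel₀ hy0.ne'])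
  rw [map_smul, norm_smul, norm_inv, norm_norm] at h3
  rw [inv_mul_eq_div, le_div_iff₀ hy0] at h3
  exact h3

end Data

end Crest.Agent.R235.Est_143
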