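import Crest.Agent.R235.Frames_844

/-!
Row 235 (S0364), node (C) of #1826 (EVEN REACH), abstract part, helper510: the class-moving argument
inside the triples fixed by a linear involution `T` of the space of closed forms which acts
trivially on the classes and preserves positivity.
-/

set_option autoImplicit false

open Set Function

namespace Crest.Agent.R235.Mv

section Even

variable {X : Type*} [AddCommGroup X] [Module ℝ X]

/-- the even forms. -/
def evn (T : X →ₗ[ℝ] X) : Submodule ℝ X := LinearMap.ker (T - LinearMap.id)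

theorem mem_evn {T : X →ₗ[ℝ] X} {x : X} : x ∈ evn T ↔ T x = x := by
  simp [evn, sub_eq_zero]

/-- a triple of even forms as a triple of forms. -/
def inc {T : X →ₗ[ℝ] X} (w : Fin 3 → evn T) : Fin 3 → X := fun i => (w i : X)

theorem inc_lin {T : X →ₗ[ℝ] X} (w w' : Fin 3 → evn T) (t : ℝ) :
    inc (lin w w' t) = lin (inc w) (inc w') t := by
  funext i; simp [inc, lin]

theorem inc_update {T : X →ₗ[ℝ] X} (w : Fin 3 → evn T) (k : Fin 3) (x : evn T) :
    inc (update w k x) = update (inc w) k (x : X) := by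
  funext i
  by_cases h : i = k
  · subst h; simp [inc]
  · simp [inc, update_of_ne h]

theorem inc_act {T : X →ₗ[ℝ] X} (g : Matrix (Fin 3) (Fin 3) ℝ) (w : Fin 3 → evn T) :
    inc (act g w) = act g (inc w) := by
  funext i
  simp [inc, act]

theorem seg_inc {T : X →ₗ[ℝ] X} {P : Set (Fin 3 → X)} {w w' : Fin 3 → evn T} :
    Seg {w : Fin 3 → evn T | inc w ∈ P} w w' ↔ Seg P (inc w) (inc w') := by
  constructor
  · intro h t ht
    have := h t ht
    rw [mem_ofPred_eq, inc_lin] at this
    exact this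
  · intro h t ht
    show inc _ ∈ P
    rw [inc_lin]
    exact h t ht

theorem tm_inc {T : X →ₗ[ℝ] X} {P : Set (Fin 3 → X)} {w : Fin 3 → evn T} {k : Fin 3}
    {x : evn T} : x ∈ Tm {w : Fin 3 → evn T | inc w ∈ P} w k ↔ (x : X) ∈ Tm P (inc w) k := by
  show Seg _ _ _ ↔ Seg _ _ _
  rw [seg_inc, inc_update]

end Even

variable {X H : Type*} [AddCommGroup X] [Module ℝ X] [NormedAddCommGroup H]
    [NormedSpace ℝ H] [FiniteDimensional ℝ H]

/-- `T` preserves `Tm` at even triples. -/
theorem Sys.T_mem_tm (S : Sys X H) {T : X →ₗ[ℝ] X}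
    (hP : ∀ w ∈ S.P, (fun i => T (w i)) ∈ S.P) {w : Fin 3 → evn T} {k : Fin 3} {x : X}
    (hx : x ∈ Tm S.P (inc w) k) : T x ∈ Tm S.P (inc w) k := by
  intro t ht
  have h := hP _ (hx t ht)
  have e : (fun i => T (lin (inc w) (update (inc w) k x) t i)) =
      lin (inc w) (update (inc w) k (T x)) t := by
    funext i
    have hw : T (inc w i) = inc w i := mem_evn.1 (w i).2
    by_cases hi : i = k
    · subst hi
      simp only [lin, update_self, map_add, map_smul, hw]
    · simp only [lin, update_of_ne hi, map_add, map_smul, hw]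
  rwa [e] at h

/-- the system of even triples. -/
def Sys.even (S : Sys X H) (T : X →ₗ[ℝ] X) (hT : ∀ x, T (T x) = x)
    (hcl : ∀ x, S.cl (T x) = S.cl x) (hP : ∀ w ∈ S.P, (fun i => T (w i)) ∈ S.P) :
    Sys (evn T) H where
  P := {w | inc w ∈ S.P}
  P_act g w hg hw := by
    show inc _ ∈ S.P
    rw [inc_act]
    exact S.P_act g _ hg hw
  cl := S.cl ∘ₗ (evn T).subtype
  B := S.B
  B_symm := S.B_symm
  R := S.R
  R_cnt := S.R_cnt
  Hy := ∅
  Hy_sub := empty_subset _
  Hy_act _ _ _ h := h.elim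
  cvx w hw k := by
    intro x hx y hy a b ha hb hab
    rw [tm_inc] at hx hy ⊢
    exact S.cvx (inc w) hw k hx hy ha hb hab
  opn m b := by
    have h := S.opn m (fun j => (b j : X))
    convert h using 1
    ext a
    simp only [mem_ofPred_eq]
    have e : inc (fun i => ∑ j, a i j • b j) = fun i => ∑ j, a i j • (b j : X) := by
      funext i; simp [inc]
    rw [e]
  pos w hw := S.pos (inc w) hw
  swb w hw := S.swb (inc w) hw
  cone w hw k c hc := by
    obtain ⟨x, hx, hxc⟩ := S.cone (inc w) hw k c hc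
    have hTx := S.T_mem_tm hP hx
    have hmem : ((1 / 2 : ℝ) • x + (1 / 2 : ℝ) • T x) ∈ evn T := by
      rw [mem_evn, map_add, map_smul, map_smul, hT, add_comm]
    refine ⟨⟨_, hmem⟩, ?_, ?_⟩
    · rw [tm_inc]
      exact S.cvx (inc w) hw k hx hTx (by norm_num) (by norm_num) (by norm_num)
    · show S.cl ((1 / 2 : ℝ) • x + (1 / 2 : ℝ) • T x) = c
      rw [map_add, map_smul, map_smul, hcl, hxc, ← add_smul]
      norm_num
  hkcone _ hw := hw.elim

/-- EVEN REACH, abstract form: every even positive triple is joined by segments of even positive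
triples to one with the prescribed classes. -/
theorem Sys.even_reach (S : Sys X H) (T : X →ₗ[ℝ] X) (hT : ∀ x, T (T x) = x)
    (hcl : ∀ x, S.cl (T x) = S.cl x) (hP : ∀ w ∈ S.P, (fun i => T (w i)) ∈ S.P)
    {w : Fin 3 → X} (hw : w ∈ S.P) (hev : ∀ i, T (w i) = w i) {cs : Fin 3 → H}
    (hcs : PosF S.B cs) (hgen : ∀ d ∈ S.R, S.B d (cs 0) ≠ 0)
    (hdet : 0 < (Matrix.of fun i j => S.B (S.cl (w i)) (cs j)).det) :
    ∃ w' ∈ S.P, (∀ i, T (w' i) = w' i) ∧
      Relation.ReflTransGen (fun u v => Seg S.P u v ∧ (∀ i, T (u i) = u i) ∧ ∀ i, T (v i) = v i)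
        w w' ∧ (fun i => S.cl (w' i)) = cs := by
  let w0 : Fin 3 → evn T := fun i => ⟨w i, mem_evn.2 (hev i)⟩
  have hw0 : w0 ∈ (S.even T hT hcl hP).P := hw
  obtain ⟨w', hw', h1, h2⟩ := (S.even T hT hcl hP).reach hw0 (cs := cs) hcs hgen hdet
  refine ⟨inc w', hw', fun i => mem_evn.1 (w' i).2, ?_, h2⟩
  have key : ∀ u v : Fin 3 → evn T, Relation.ReflTransGen (Seg (S.even T hT hcl hP).P) u v →
      Relation.ReflTransGen (fun u v => Seg S.P u v ∧ (∀ i, T (u i) = u i) ∧ ∀ i, T (v i) = v i)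
        (inc u) (inc v) := by
    intro u v h
    induction h with
    | refl => exact Relation.ReflTransGen.refl
    | tail _ h2 ih =>
      exact ih.tail ⟨seg_inc.1 h2, fun i => mem_evn.1 (Subtype.mem _),
        fun i => mem_evn.1 (Subtype.mem _)⟩
  exact key _ _ h1

end Crest.Agent.R235.Mv
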