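import Crest.Agent.R235.T4R_837
import Crest.Agent.R235.TopA_844

/-!
Row 235 (S0364), helper510: lemmas on the REAL TORUS TYPE `T4R` (T4R_837):
congruence, countability of the integral classes, finite dimension, `b⁺ = 3`, `b₁ ≠ 0`,
`T4Type → T4R`.
-/

set_option autoImplicit false
set_option maxSynthPendingDepth 3
set_option linter.unusedSectionVars false

open Set Function Filter MeasureTheory
open scoped Manifold ContDiff Topology

universe u

namespace Crest.Agent.R235.T4RLem_510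

open Crest.Agent.R235 Crest.Agent.R240 Crest.Agent.R240.Ch Crest.Agent.R240.Int

noncomputable section

variable {M : Type u} [TopologicalSpace M] [T2Space M] [CompactSpace M]
  [ChartedSpace E4 M] [IsManifold 𝓘(ℝ, E4) ∞ M]

theorem isEx_wed_dF' {f : M → ℝ} (hf : SmoothF E4 f) {s : F1 E4 M} (hs : Closed1 s) :
    IsEx (wedG (dF (E := E4) f) s) := by
  have h := dG_fmul1 hf hs.1
  have hz : dG s = 0 := by
    funext x
    exact hs.2 x _ (mem_chart_target E4 x)
  rw [hz] at h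
  have h0 : fmul f (0 : F2 E4 M) = 0 := by
    funext x
    exact smul_zero _
  rw [h0, add_zero] at h
  rw [← h]
  exact isEx_dG (Smooth1.fmul hf hs.1)

theorem ip_of_pI {F G : Z2 M} (h : pI G = pI F) : ip G = ip F := by
  funext a b
  unfold ip
  rw [h]

theorem T4R_congr {F G : Z2 M} (h : pI G = pI F) : T4R G = T4R F := by
  unfold T4R
  rw [h, ip_of_pI h]

theorem of_t4 {F : Z2 M} (hF : Vol (F.1.1 : F2 E4 M)) (h : T4Type F) : T4R F := by
  obtain ⟨f, g, h1, h2, h3, -, h4⟩ := BPlus_723.T4_hyp hF h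
  obtain ⟨s, hs, hs', a, ha, hG, habs, hspan, -⟩ := h
  refine ⟨⟨s, hs, hs', a, ha, hG, ?_, hspan⟩, f, g, h1, h2, h3, h4⟩
  intro h0
  rw [h0] at habs
  simp at habs

/-- the integral classes are countable. -/
theorem cnt {F : Z2 M} (h : T4R F) : (HZ M).Countable := by
  obtain ⟨-, f, g, -, -, -, hZ⟩ := h
  rw [hZ]
  refine (Set.countable_range (fun p : (Fin 3 → ℤ) × (Fin 3 → ℤ) =>
    ∑ i, (p.1 i : ℝ) • f i + ∑ i, (p.2 i : ℝ) • g i)).mono ?_
  rintro c ⟨m, n, rfl⟩
  exact ⟨(m, n), rfl⟩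

/-- the second cohomology has dimension at most six. -/
theorem span6 {F : Z2 M} (h : T4R F) : ∃ Φ : (Fin 6 → ℝ) →ₗ[ℝ] H2 M, Function.Surjective Φ := by
  obtain ⟨⟨s, -, -, a, ha, -, -, hspan⟩, -⟩ := h
  have hanti : ∀ i j, cls (a j i) = - cls (a i j) := by
    intro i j
    rw [← map_neg]
    congr 1
    apply Z2_ext
    intro x
    show at2 ((a j i).1.1 : F2 E4 M) x = - at2 ((a i j).1.1 : F2 E4 M) x
    rw [ha, ha, BPlus_723.wedG_anti]
    rfl
  have hdiag : ∀ i, cls (a i i) = 0 := by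
    intro i
    have h1 : cls (a i i) = - cls (a i i) := hanti i i
    have h2 : (2 : ℝ) • cls (a i i) = 0 := by
      rw [two_smul]
      nth_rewrite 1 [h1]
      exact neg_add_cancel _
    calc cls (a i i) = (1 / 2 : ℝ) • ((2 : ℝ) • cls (a i i)) := by rw [smul_smul]; norm_num
      _ = 0 := by rw [h2, smul_zero]
  refine ⟨Fintype.linearCombination ℝ
    (![cls (a 0 1), cls (a 0 2), cls (a 0 3), cls (a 1 2), cls (a 1 3), cls (a 2 3)] :
      Fin 6 → H2 M), fun c => ?_⟩
  obtain ⟨n, hn⟩ := hspan c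
  refine ⟨![n 0 1 - n 1 0, n 0 2 - n 2 0, n 0 3 - n 3 0, n 1 2 - n 2 1, n 1 3 - n 3 1,
    n 2 3 - n 3 2], ?_⟩
  rw [hn, Fintype.linearCombination_apply]
  simp only [Fin.sum_univ_six, Fin.sum_univ_four, Matrix.cons_val_zero, Matrix.cons_val_one,
    Matrix.cons_val, hdiag, hanti 0 1, hanti 0 2, hanti 0 3, hanti 1 2, hanti 1 3, hanti 2 3]
  module

theorem fin {F : Z2 M} (h : T4R F) : Module.Finite ℝ (H2 M) := by
  obtain ⟨Φ, hΦ⟩ := span6 h
  exact Module.Finite.of_surjective Φ hΦ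

theorem finrank_le {F : Z2 M} (h : T4R F) : Module.finrank ℝ (H2 M) ≤ 6 := by
  obtain ⟨Φ, hΦ⟩ := span6 h
  have h1 := LinearMap.finrank_le_finrank_of_surjective (f := Φ) hΦ
  rwa [Module.finrank_fin_fun] at h1

/-- the orthogonal complement of a positive frame is negative definite. -/
theorem neg {F : Z2 M} (hF : Vol (F.1.1 : F2 E4 M)) (h : T4R F) (c : Fin 3 → H2 M)
    (hc : PosCls F c) (x : H2 M) (hx : ∀ i, ip F x (c i) = 0) (h0 : x ≠ 0) : ip F x x < 0 := by
  have hfd := fin h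
  have hdim := finrank_le h
  obtain ⟨-, f, g, hff, hgg, hfg, -⟩ := h
  let Φ : ((Fin 3 → ℝ) × (Fin 3 → ℝ)) →ₗ[ℝ] H2 M :=
    LinearMap.coprod (Fintype.linearCombination ℝ f) (Fintype.linearCombination ℝ g)
  have hΦ : ∀ p, Φ p = ∑ i, p.1 i • f i + ∑ i, p.2 i • g i := by
    intro p
    simp [Φ, Fintype.linearCombination_apply]
  refine LatS_723.neg_of_sylvester (N := Fin 3 → ℝ) (ipB F hF)
    (fun x y => ip_comm F x y) (Φ ∘ₗ LinearMap.prod LinearMap.id (-LinearMap.id)) ?_ (k := 3) ?_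
    c hc x hx h0
  · intro n hn
    have h1 : (Φ ∘ₗ LinearMap.prod LinearMap.id (-LinearMap.id)) n =
        ∑ i, n i • f i + ∑ i, (-n i) • g i := by
      rw [LinearMap.comp_apply, hΦ]
      rfl
    rw [h1, ipB_apply, BPlus_723.hyp_pair hF hff hgg hfg]
    obtain ⟨i, hi⟩ : ∃ i, n i ≠ 0 := by
      by_contra hcon
      push Not at hcon
      exact hn (funext hcon)
    have h7 : ∀ i, n i * - n i + - n i * n i ≤ 0 := fun i => by
      nlinarith [sq_nonneg (n i)]
    refine Finset.sum_neg' (fun i _ => h7 i) ⟨i, Finset.mem_univ _, ?_⟩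
    have := mul_self_pos.2 hi
    nlinarith
  · rw [Module.finrank_fin_fun]
    exact hdim

/-- both types: the orthogonal complement of a positive frame is negative definite. -/
theorem neg_of_type {F : Z2 M} (hF : Vol (F.1.1 : F2 E4 M)) (h : K3Type F ∨ T4R F)
    (c : Fin 3 → H2 M) (hc : PosCls F c) (x : H2 M) (hx : ∀ i, ip F x (c i) = 0)
    (h0 : x ≠ 0) : ip F x x < 0 := by
  rcases h with h | h
  · exact BPlus_723.neg_K3 hF h c hc x hx h0
  · exact neg hF h c hc x hx h0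

/-- both types: the integral classes are countable. -/
theorem HZ_countable {F : Z2 M} (h : K3Type F ∨ T4R F) : (HZ M).Countable := by
  rcases h with h | h
  · exact Crest.Agent.R235.HZ_countable (Or.inl h : K3Type F ∨ T4Type F)
  · exact cnt h

theorem finite_H2 {F : Z2 M} (h : K3Type F ∨ T4R F) : Module.Finite ℝ (H2 M) := by
  rcases h with h | h
  · exact Crest.Agent.R235.finite_H2 (Or.inl h : K3Type F ∨ T4Type F)
  · exact fin h

/-- torus type manifolds have `b₁ ≠ 0`. -/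
theorem not_b1zero {F : Z2 M} (hF : Vol (F.1.1 : F2 E4 M)) (h : T4R F) : ¬ B1Zero M := by
  intro hB
  obtain ⟨⟨s, hs, -, a, ha, -, h1, -⟩, -⟩ := h
  obtain ⟨f, hf, hsf⟩ := hB (s 0) (hs 0)
  have hex : IsEx ((a 0 1).1.1 : F2 E4 M) := by
    rw [ha, hsf]
    exact isEx_wed_dF' hf (hs 1)
  exact h1 (pI_exact_left hF hex _)

/-- the dichotomy, real form, from the old one. -/
theorem dichr_of_dich (h : DICH.{u}) : DICHR.{u} := by
  intro M _ _ _ _ _ _ w hw
  rcases h M w hw with h1 | h1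
  · exact Or.inl h1
  · exact Or.inr (of_t4 (hw.vol 0) h1)

/-- BPLUS from DICHR. -/
theorem bplus_of_dichr (h : DICHR.{u}) : BPLUS.{u} := by
  intro M _ _ _ _ _ _ w hw c hc h0
  exact neg_of_type (hw.vol 0) (h M w hw) _ (BPlus_723.posCls_of_pos3 hw) c hc h0

end

end Crest.Agent.R235.T4RLem_510
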