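import Crest.Agent.R235.TorMin_510
import Crest.Agent.R235.EvenS_510
import Crest.Agent.R235.Top_844
import Crest.Agent.R235.T4RLem_510

/-!
Row 235 (S0364), node (C) of #1826 (EVEN REACH), part on the manifold, helper510.
-/

set_option autoImplicit false
set_option maxSynthPendingDepth 3
set_option linter.unusedSectionVars false

open Set Function Filter MeasureTheory
open scoped Manifold ContDiff Topology

universe u

namespace Crest.Agent.R235.TorMin_510

open Crest.Agent.R235 Crest.Agent.R240 Crest.Agent.R240.Ch Crest.Agent.R240.Int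

noncomputable section

section Self

variable {M : Type u} [TopologicalSpace M] [ChartedSpace E4 M] [IsManifold 𝓘(ℝ, E4) ∞ M]

theorem val_tb_pull {τ : M → M} (hτ : ContMDiff 𝓘(ℝ, E4) 𝓘(ℝ, E4) ∞ τ) (b : Z2 M) (x : M) :
    val (tb hτ b) x = pull (dself τ x) (val b (τ x)) := by
  ext u v
  rw [pull_apply]
  rfl

theorem W_tb {τ : M → M} (hτ : ContMDiff 𝓘(ℝ, E4) 𝓘(ℝ, E4) ∞ τ) (b c : Z2 M) (x : M) :
    W (val (tb hτ b) x) (val (tb hτ c) x) =
      LinearMap.det (dself τ x : E4 →ₗ[ℝ] E4) * W (val b (τ x)) (val c (τ x)) := by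
  rw [val_tb_pull, val_tb_pull, W_pull (val_alt b _) (val_alt c _)]

theorem det_dself_ne {τ : M → M} (hτ : ContMDiff 𝓘(ℝ, E4) 𝓘(ℝ, E4) ∞ τ)
    (hi : ∀ x, τ (τ x) = x) (x : M) : LinearMap.det (dself τ x : E4 →ₗ[ℝ] E4) ≠ 0 := by
  intro h
  have h1 : (dself τ (τ x) : E4 →ₗ[ℝ] E4) ∘ₗ (dself τ x : E4 →ₗ[ℝ] E4) = LinearMap.id := by
    ext v : 1
    exact dself_dself hτ hi x v
  have h2 := congrArg LinearMap.det h1
  rw [LinearMap.det_comp, h, mul_zero, LinearMap.det_id] at h2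
  exact zero_ne_one h2

/-- the pull back of a positive triple by an involution is positive. -/
theorem pos3_tb {τ : M → M} (hτ : ContMDiff 𝓘(ℝ, E4) 𝓘(ℝ, E4) ∞ τ)
    (hi : ∀ x, τ (τ x) = x) {w : Trip M} (hw : Pos3 w) : Pos3 (fun i => tb hτ (w i)) := by
  intro x c hc
  have e : ∑ i, c i • val (tb hτ (w i)) x = val (tb hτ (∑ i, c i • w i)) x := by
    rw [← val_comb, map_sum]
    simp only [map_smul]
  rw [e, W_tb]
  refine mul_ne_zero (det_dself_ne hτ hi x) ?_
  rw [val_comb]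
  exact hw (τ x) c hc

theorem tb_tb {τ : M → M} (hτ : ContMDiff 𝓘(ℝ, E4) 𝓘(ℝ, E4) ∞ τ)
    (hi : ∀ x, τ (τ x) = x) (b : Z2 M) : tb hτ (tb hτ b) = b := by
  apply Z2_ext
  intro x
  ext u v
  rw [val_tb, val_tb, dself_dself hτ hi, dself_dself hτ hi, hi]

/-- a triple is preserved by the involution iff its forms are even. -/
theorem invol_iff {τ : M → M} (hτ : ContMDiff 𝓘(ℝ, E4) 𝓘(ℝ, E4) ∞ τ)
    (hi : ∀ x, τ (τ x) = x) {w : Trip M} : Invol w τ ↔ ∀ i, tb hτ (w i) = w i := by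
  constructor
  · intro h i
    apply Z2_ext
    intro x
    ext u v
    rw [val_tb, h.pres]
  · intro h
    refine ⟨hτ, hi, fun i x u v => ?_⟩
    rw [← val_tb hτ, h i]

end Self

section Closed

variable {M : Type u} [TopologicalSpace M] [T2Space M] [CompactSpace M]
  [ChartedSpace E4 M] [IsManifold 𝓘(ℝ, E4) ∞ M]

/-- pull back by an involution acting by `-1` on `H¹` preserves the classes, `clw` form. -/
theorem clw_tb {F : Z2 M} (hT : T4R F) {τ : M → M}
    (hτ : ContMDiff 𝓘(ℝ, E4) 𝓘(ℝ, E4) ∞ τ) (hm : MinusOne τ) (w : Trip M) :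
    clw (fun i => tb hτ (w i)) = clw w := by
  funext i
  exact cls_tb hT hτ hm (w i)

/-- the two types exclude each other. -/
theorem not_b1zero_of_t4 {F : Z2 M} (hF : Vol (F.1.1 : F2 E4 M)) (hT : T4R F) :
    ¬ B1Zero M := by
  exact T4RLem_510.not_b1zero hF hT

/-- the orientation is preserved by an involution which preserves `F`. -/
theorem po_tb {F : Z2 M} {τ : M → M} (hs : ContMDiff 𝓘(ℝ, E4) 𝓘(ℝ, E4) ∞ τ)
    (hinv : ∀ x, τ (τ x) = x) (hFe : tb hs F = F) {u : Trip M}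
    (hu : Pos3 u ∧ SO F (u 0)) : Pos3 (fun i => tb hs (u i)) ∧ SO F (tb hs (u 0)) := by
  refine ⟨pos3_tb hs hinv hu.1, fun x => ?_⟩
  have h1 : W (val F x) (val F x) =
      LinearMap.det (dself τ x : E4 →ₗ[ℝ] E4) * W (val F (τ x)) (val F (τ x)) := by
    rw [← W_tb hs, hFe]
  rw [h1, W_tb]
  have h2 := hu.2 (τ x)
  have h3 : 0 < LinearMap.det (dself τ x : E4 →ₗ[ℝ] E4) ^ 2 := by
    have := det_dself_ne hs hinv x
    positivity
  nlinarith [mul_pos h3 h2]

end Closed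

section Inst

variable {M : Type u} [TopologicalSpace M] [T2Space M] [CompactSpace M] [ConnectedSpace M]
  [ChartedSpace E4 M] [IsManifold 𝓘(ℝ, E4) ∞ M]

/-- (SWB) for torus type. -/
theorem swb0 {F : Z2 M} (hF : Vol (F.1.1 : F2 E4 M)) {n : ℕ} (E : H2 M ≃ₗ[ℝ] (Fin n → ℝ))
    (hT : T4R F) {w : Trip M} (hw : w ∈ PO F) :
    ∀ d ∈ E '' Dg F, ∃ i, Bt F hF E d (E (clw w i)) ≠ 0 := by
  rintro _ ⟨e, he, rfl⟩
  by_contra hcon
  push Not at hcon
  have h0 : ∀ i, ip F e (cls (w i)) = 0 := by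
    intro i
    have h1 := hcon i
    rw [Bt_apply, E.symm_apply_apply, E.symm_apply_apply] at h1
    exact h1
  have hneg : ip F e e < 0 := by
    have hpc := BPlus_723.posCls_of_pos3 hw.1
    rw [PosCls_congr (PO.ip_eq hF hw)] at hpc
    exact T4RLem_510.neg hF hT _ hpc e h0 he.2.1
  rcases he.2.2 with h1 | h1
  · exact absurd hneg (not_lt.2 h1)
  · exact T4RLem_510.not_b1zero hF hT h1.1.1

/-- the system of 844 without hyperkaehler triples (no `HKCONE` needed). -/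
def sys0 (F : Z2 M) (hF : Vol (F.1.1 : F2 E4 M)) {n : ℕ} (E : H2 M ≃ₗ[ℝ] (Fin n → ℝ))
    (hT : T4R F) (hex : ∀ w : Trip M, Pos3 w → ∃ J, IsJ w J)
    (hcone : ∀ w : Trip M, Pos3 w → ∀ (k : Fin 3) (x : H2 M), CCond (w 0) (clw w) k x →
      ∃ a : Z2 M, cls a = x ∧ Seg w (update w k a)) :
    Mv.Sys (Z2 M) (Fin n → ℝ) where
  P := PO F
  P_act := fun g w hg hw => so_linear hw hg
  cl := clt E
  B := Bt F hF E
  B_symm := fun a b => ip_comm F _ _
  R := E '' Dg F
  R_cnt := ((T4RLem_510.cnt hT).mono fun e he => he.1).image _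
  Hy := ∅
  Hy_sub := empty_subset _
  Hy_act := fun _ _ _ h => h.elim
  cvx := by
    intro w hw k
    have : Mv.Tm (PO F) w k = {a : Z2 M | Seg w (update w k a)} := by
      ext a; exact tm_iff hw k a
    rw [this]
    exact convex_tame hw.1 k hex
  opn := isOpen_PO F
  pos := fun w hw => pos_of hF E hw
  swb := fun _ hw => swb0 hF E hT hw
  cone := by
    intro w hw k c hc
    obtain ⟨a, ha, hs⟩ := hcone w hw.1 k (E.symm c) (ccond_of hF E hw hc)
    exact ⟨a, (tm_iff hw k a).2 hs, by rw [clt_apply, ha, E.apply_symm_apply]⟩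
  hkcone := fun _ h => h.elim

/-- the steps of the even paths. -/
def EvSeg (τ : M → M) (u v : Trip M) : Prop := Seg u v ∧ Invol u τ ∧ Invol v τ

theorem pl_of_evSeg {τ : M → M} {u v : Trip M} (h : Relation.ReflTransGen (EvSeg τ) u v) :
    PL u v := Relation.ReflTransGen.mono (fun _ _ h => h.1) _ _ h

theorem even_reach_aux {F : Z2 M} (hF : Vol (F.1.1 : F2 E4 M)) {n : ℕ}
    (E : H2 M ≃ₗ[ℝ] (Fin n → ℝ)) (hT : T4R F)
    (hex : ∀ w : Trip M, Pos3 w → ∃ J, IsJ w J)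
    (hcone : ∀ w : Trip M, Pos3 w → ∀ (k : Fin 3) (x : H2 M), CCond (w 0) (clw w) k x →
      ∃ a : Z2 M, cls a = x ∧ Seg w (update w k a))
    {τ : M → M} (hs : ContMDiff 𝓘(ℝ, E4) 𝓘(ℝ, E4) ∞ τ) (hinv : ∀ x, τ (τ x) = x)
    (hm : MinusOne τ) (hFe : tb hs F = F)
    {w : Trip M} (hw : w ∈ PO F) (hev : ∀ i, tb hs (w i) = w i) {b : Fin 3 → H2 M}
    (hb : PosCls F b) (hgen : ∀ e ∈ HZ M, e ≠ 0 → ip F e (b 0) ≠ 0)
    (hdet : 0 < (Matrix.of fun i j => ip F (b i) (cls (w j))).det) :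
    ∃ w' : Trip M, w' ∈ PO F ∧ (∀ i, tb hs (w' i) = w' i) ∧
      Relation.ReflTransGen (fun u v : Trip M => Mv.Seg (PO F) u v ∧ (∀ i, tb hs (u i) = u i) ∧
        ∀ i, tb hs (v i) = v i) w w' ∧ clw w' = b := by
  have h1 : Mv.PosF (Bt F hF E) (fun i => E (b i)) := by
    intro a ha
    have h1 := hb a ha
    rw [Bt_apply, symm_comb]
    exact h1
  have h2 : ∀ d ∈ E '' Dg F, Bt F hF E d (E (b 0)) ≠ 0 := by
    rintro _ ⟨e, he, rfl⟩
    rw [Bt_apply, E.symm_apply_apply, E.symm_apply_apply]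
    exact hgen e he.1 he.2.1
  have h3 : 0 < (Matrix.of fun i j => Bt F hF E (clt E (w i)) (E (b j))).det := by
    rw [← Matrix.det_transpose]
    have e : (Matrix.of fun i j => Bt F hF E (clt E (w i)) (E (b j))).transpose =
        Matrix.of fun i j => ip F (b i) (cls (w j)) := by
      ext i j
      rw [Matrix.transpose_apply, Matrix.of_apply, Matrix.of_apply, Bt_apply, clt_apply,
        E.symm_apply_apply, E.symm_apply_apply, ip_comm]
    rw [e]
    exact hdet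
  have h4 : ∀ x : Z2 M, (sys0 F hF E hT hex hcone).cl (tb hs x) =
      (sys0 F hF E hT hex hcone).cl x := by
    intro x
    show clt E (tb hs x) = clt E x
    rw [clt_apply, clt_apply, cls_tb hT hs hm]
  have h5 : ∀ u ∈ (sys0 F hF E hT hex hcone).P,
      (fun i => tb hs (u i)) ∈ (sys0 F hF E hT hex hcone).P :=
    fun u hu => po_tb hs hinv hFe hu
  obtain ⟨w', hw', hev', hpath, hcl⟩ :=
    (sys0 F hF E hT hex hcone).even_reach (tb hs)
      (tb_tb hs hinv) h4 h5 (w := w) hw hev (cs := fun i => E (b i)) h1 h2 h3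
  exact ⟨w', hw', hev', hpath, funext fun i => E.injective (congrFun hcl i)⟩

/-- EVEN REACH: an even positive triple on a torus-type manifold is joined, through segments of even
positive triples, to an even positive triple with prescribed generic classes. -/
theorem even_reach (hex : EXJ.{u}) (hcone : CONE.{u}) {w : Trip M} (hw : Pos3 w)
    (hT : T4R (w 0)) {τ : M → M} (hi : Invol w τ) (hm : MinusOne τ) {b : Fin 3 → H2 M}
    (hb : Frame w b) (hgen : ∀ e ∈ HZ M, e ≠ 0 → ip (w 0) e (b 0) ≠ 0) :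
    ∃ w' : Trip M, w' ∈ PO (w 0) ∧ Invol w' τ ∧ Relation.ReflTransGen (EvSeg τ) w w' ∧
      clw w' = b := by
  have hF : Vol ((w 0).1.1 : F2 E4 M) := hw.vol 0
  have hfin : Module.Finite ℝ (H2 M) := T4RLem_510.fin hT
  have hev := (invol_iff hi.smooth hi.inv).1 hi
  obtain ⟨w', hw', hev', hpath, hcl⟩ := even_reach_aux hF (Module.finBasis ℝ (H2 M)).equivFun hT
    (hex M) (hcone M) hi.smooth hi.inv hm (hev 0) (w := w) ⟨hw, hw.so 0 0⟩ hev
    ((BPlus_723.posCls_iff hF b).2 hb.pos) hgen hb.ori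
  refine ⟨w', hw', (invol_iff hi.smooth hi.inv).2 hev', ?_, hcl⟩
  refine Relation.ReflTransGen.mono (fun u v h => ?_) _ _ hpath
  exact ⟨(mvSeg_iff h.1.left).1 h.1, (invol_iff hi.smooth hi.inv).2 h.2.1,
    (invol_iff hi.smooth hi.inv).2 h.2.2⟩

/-- EVEN REACH to elliptic position: from an even positive triple on a torus-type manifold one
reaches, through segments of even positive triples, an even positive triple in elliptic position. -/
theorem even_torpos (hex : EXJ.{u}) (hcone : CONE.{u}) (hLT : LATTR.{u}) {w : Trip M}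
    (hw : Pos3 w) (hT : T4R (w 0)) {τ : M → M} (hi : Invol w τ) (hm : MinusOne τ) :
    ∃ (w' : Trip M) (e : H2 M), w' ∈ PO (w 0) ∧ Invol w' τ ∧ Relation.ReflTransGen (EvSeg τ) w w' ∧
      T4R (w' 0) ∧ TorPos (w' 0) e (clw w') := by
  obtain ⟨e, b, hb, hd⟩ := hLT M w hw hT
  obtain ⟨w', hw', hi', hpath, hcl⟩ := even_reach hex hcone hw hT hi hm hb hd.gen
  have hF : Vol ((w 0).1.1 : F2 E4 M) := hw.vol 0
  refine ⟨w', e, hw', hi', hpath, ?_, ?_⟩
  · rw [T4RLem_510.T4R_congr (hw'.2.pI_eq hF (hw'.1.vol 0))]; exact hT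
  · rw [hcl]; exact TorPos_congr (PO.ip_eq hF hw') hd

end Inst

end

end Crest.Agent.R235.TorMin_510
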