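import Crest.Agent.R224.T.TopFinal

/-!
Row 235, package FD-A, topological half, part 1 (helper365): fundamental chains (mod 2) around a
compact subset of a topological manifold which need not be compact.
-/

set_option autoImplicit false

noncomputable section

open Topology Set Filter

namespace Crest.Agent.R235.FA1_365

open Crest.Agent.R224.T Crest.Agent.R224.TM

theorem hS : NSub := nSub (nFill nPrism)
theorem hF : NFill := nFill nPrism
theorem hL : NLocAll := nLocAll nPrism hS hF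
theorem hSt : NStar := Crest.Agent.R224.T.nStar nDD hS nPrism
theorem hE : NExc := exc_holds hS
theorem hM : NMan := nMan_of hS
theorem hC : NClass := nClass hE hL hSt
theorem hUM : NUniqM := nUniqM hE (nUniq nDD hS nPrism hL)

variable {d : ℕ} {Y : Type} [TopologicalSpace Y] [T2Space Y] [ChartedSpace (EE (d + 1)) Y]

/-- fundamental chain over a compact set -/
theorem fund0 {K : Set Y} (hK : IsCompact K) :
    ∃ c : Ch (d + 1) Y, RC Kᶜ c ∧ ∀ p ∈ K, ¬ Nul {p}ᶜ c := by
  classical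
  let S := chTh nDD hS Y
  have L1 : ∀ (x : Y) (w w' : S.C (d + 1)), S.d d w ∈ S.In {x}ᶜ d → S.d d w' ∈ S.In {x}ᶜ d →
      ¬ S.Null {x} (d + 1) w → ¬ S.Null {x} (d + 1) w' → S.Null {x} (d + 1) (w + w') := by
    intro x w w' hw hw' h1 h2
    refine (null_iff_nul nDD hS {x} _).2 ?_
    refine (hM d Y).2.1 x w w' hw hw' ?_ ?_
    · exact fun h => h1 ((null_iff_nul nDD hS {x} _).2 h)
    · exact fun h => h2 ((null_iff_nul nDD hS {x} _).2 h)
  have L2 : ∀ x : Y, ∃ B : Set Y, IsCompact B ∧ B ∈ nhds x ∧ (∃ w, Fund S B d w) ∧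
      ∀ K : Set Y, IsCompact K → K ⊆ B → ∀ w : S.C (d + 1), S.d d w ∈ S.In Kᶜ d →
        (∀ y ∈ K, S.Null {y} (d + 1) w) → S.Null K (d + 1) w := by
    intro x
    obtain ⟨K, hKn, hKc, ⟨y, hy⟩, c, hc, hcn⟩ := hC d Y x
    refine ⟨K, hKc, hKn, ⟨c, hc, ?_⟩, ?_⟩
    · intro q hq hn
      exact hcn q hq ((null_iff_nul nDD hS {q} c).1 hn)
    · intro L hL hLK w hw hn
      refine (null_iff_nul nDD hS L w).2 ?_
      refine hUM d Y y L hL (hLK.trans hy) w hw ?_
      intro p hp
      exact (null_iff_nul nDD hS {p} w).1 (hn p hp)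
  choose B hBc hBn hBw hBK using L2
  obtain ⟨t, -, ht⟩ := hK.elim_nhds_subcover B (fun x _ => hBn x)
  have key : ∀ s : Finset Y, ∃ w, Fund S (⋃ x ∈ s, B x) d w := by
    intro s
    induction s using Finset.induction_on with
    | empty =>
      refine ⟨0, ?_, by simp⟩
      rw [map_zero]; exact AddSubgroup.zero_mem _
    | insert a s ha ih =>
      obtain ⟨w, hw⟩ := ih
      obtain ⟨w', hw'⟩ := hBw a
      rw [Finset.set_biUnion_insert, union_comm]
      have hAc : IsCompact (⋃ x ∈ s, B x) := s.isCompact_biUnion fun x _ => hBc x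
      refine Fund.union hAc.isClosed (hBc a).isClosed hw hw' ?_
      refine hBK a _ (hAc.inter (hBc a)) inter_subset_right _ ?_ ?_
      · rw [map_add, compl_inter]
        exact AddSubgroup.add_mem _ (S.In_mono d subset_union_left hw.1)
          (S.In_mono d subset_union_right hw'.1)
      · intro y hy
        refine L1 y w w' ?_ ?_ (hw.2 y hy.1) (hw'.2 y hy.2)
        · exact S.In_mono d (compl_subset_compl.2 (singleton_subset_iff.2 hy.1)) hw.1
        · exact S.In_mono d (compl_subset_compl.2 (singleton_subset_iff.2 hy.2)) hw'.1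
  obtain ⟨w, hw⟩ := key t
  refine ⟨w, ?_, ?_⟩
  · have h1 : S.d d w ∈ S.In Kᶜ d := S.In_mono d (compl_subset_compl.2 ht) hw.1
    exact h1
  · intro p hp hn
    exact hw.2 p (ht hp) ((null_iff_nul nDD hS {p} w).2 hn)

/-- fundamental chain over a compact set, subordinate to an open cover -/
theorem fund {K : Set Y} (hK : IsCompact K) (𝒰 : Set (Set Y)) (h𝒰 : ∀ U ∈ 𝒰, IsOpen U)
    (hcov : ⋃₀ 𝒰 = univ) :
    ∃ c : Ch (d + 1) Y, RC Kᶜ c ∧ Small 𝒰 c ∧ ∀ p ∈ K, ¬ Nul {p}ᶜ c := by
  obtain ⟨c, hc, hn⟩ := fund0 (d := d) hK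
  obtain ⟨O, hO⟩ := hS Y
  obtain ⟨k, hk⟩ := (hO 𝒰 h𝒰 (d + 1) c (by rw [hcov]; exact fun σ _ => subset_univ _)).exists
  have hin : In Kᶜ (bd d ((O k).s (d + 1) c)) := by
    rw [(O k).bd_s]
    exact SubOp.in_s _ hc
  refine ⟨(O k).s (d + 1) c, hin, hk, ?_⟩
  intro p hp hnul
  apply hn p hp
  have h1 := (O k).bd_h d c
  -- c = s c + bd h c + h bd c
  have h2 : c = (O k).s (d + 1) c + (bd (d + 1) ((O k).h (d + 1) c) + (O k).h d (bd d c)) := by
    have e1 := ch_two ((O k).s (d + 1) c)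
    have e2 := ch_two ((O k).h d (bd d c))
    rw [h1]
    calc c = c + ((O k).s (d + 1) c + (O k).s (d + 1) c)
          + ((O k).h d (bd d c) + (O k).h d (bd d c)) := by rw [e1, e2, add_zero, add_zero]
      _ = _ := by abel
  rw [h2]
  refine nul_add hnul ⟨(O k).h (d + 1) c, (O k).h d (bd d c), ?_, rfl⟩
  exact in_mono (compl_subset_compl.2 (singleton_subset_iff.2 hp)) (SubOp.in_h _ hc)

end Crest.Agent.R235.FA1_365
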