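import Crest.Agent.R235.FA1_365

/-!
Row 235, package FD-A, topological half, part 2 (helper365): chains on a space with a free
involution: norms, transfer for the quotient map.
-/

set_option autoImplicit false

noncomputable section

open Topology Set Filter

namespace Crest.Agent.R235.FA2_365

open Crest.Agent.R224.T

/-- a set of representatives of a free involution -/
theorem exists_half {α : Type*} (j : α → α) (h1 : ∀ a, j (j a) = a) (h2 : ∀ a, j a ≠ a) :
    ∃ R : Set α, ∀ a, j a ∈ R ↔ a ∉ R := by
  let s : Setoid α :=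
    { r := fun a b => b = a ∨ b = j a
      iseqv := ⟨fun a => Or.inl rfl, by
        rintro a b (rfl | rfl)
        · exact Or.inl rfl
        · exact Or.inr (h1 a).symm, by
        rintro a b c (rfl | rfl) (rfl | rfl)
        · exact Or.inl rfl
        · exact Or.inr rfl
        · exact Or.inr rfl
        · exact Or.inl (h1 a)⟩ }
  refine ⟨{a | (Quotient.mk s a).out = a}, fun a => ?_⟩
  have e : Quotient.mk s (j a) = Quotient.mk s a := Quotient.sound (s := s) (Or.inr (h1 a).symm)
  have h3 : a = (Quotient.mk s a).out ∨ a = j (Quotient.mk s a).out := Quotient.mk_out (s := s) a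
  show (Quotient.mk s (j a)).out = j a ↔ ¬ ((Quotient.mk s a).out = a)
  rw [e]
  constructor
  · intro h h'
    exact h2 a (h.symm.trans h')
  · intro h
    rcases h3 with h3 | h3
    · exact absurd h3.symm h
    · rw [h3, h1]
      exact congrArg _ (by rw [← h3])

variable {X : Type} [TopologicalSpace X]

/-- an invariant chain is the norm of half of its support -/
theorem norm_of_inv {ι : C(X, X)} (h1 : ∀ x, ι (ι x) = x) (h2 : ∀ x, ι x ≠ x) {n : ℕ}
    (c : Ch n X) (hc : push ι n c = c) :
    ∃ c' : Ch n X, c = c' + push ι n c' ∧ c'.support ⊆ c.support := by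
  classical
  have k1 : ∀ σ : C(Dl n, X), ι.comp (ι.comp σ) = σ := by
    intro σ; ext x; exact h1 _
  have k2 : ∀ σ : C(Dl n, X), ι.comp σ ≠ σ := by
    intro σ h
    have : Nonempty (Dl n) := inferInstance
    obtain ⟨y⟩ := this
    exact h2 (σ y) (DFunLike.congr_fun h y)
  obtain ⟨R, hR⟩ := exists_half (fun σ : C(Dl n, X) => ι.comp σ) k1 k2
  have hinj : Function.Injective fun σ : C(Dl n, X) => ι.comp σ := by
    intro σ τ h
    have := congrArg (fun σ : C(Dl n, X) => ι.comp σ) h
    simp only [k1] at this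
    exact this
  have hap : ∀ (u : Ch n X) (σ : C(Dl n, X)), push ι n u σ = u (ι.comp σ) := by
    intro u σ
    have h3 : push ι n u (ι.comp (ι.comp σ)) = u (ι.comp σ) := by
      unfold push
      rw [Finsupp.lmapDomain_apply]
      exact Finsupp.mapDomain_apply hinj u (ι.comp σ)
    rwa [k1] at h3
  refine ⟨c.filter (· ∈ R), ?_, ?_⟩
  · ext σ
    have h4 : c (ι.comp σ) = c σ := by
      rw [← hap, hc]
    rw [Finsupp.add_apply, hap, Finsupp.filter_apply, Finsupp.filter_apply, h4]
    by_cases h : σ ∈ R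
    · have h5 : ι.comp σ ∉ R := fun h6 => ((hR σ).1 h6) h
      rw [if_pos h, if_neg h5, add_zero]
    · have h5 : ι.comp σ ∈ R := (hR σ).2 h
      rw [if_neg h, if_pos h5, zero_add]
  · rw [Finsupp.support_filter]
    exact Finset.filter_subset _ _

/-- if two simplices have the same image in the quotient, they differ by `ι` -/
theorem lift_unique {Q : Type} [TopologicalSpace Q] [T2Space X] {ι : C(X, X)}
    (h2 : ∀ x, ι x ≠ x) {π : C(X, Q)} (hπ : ∀ x y, π x = π y → y = x ∨ y = ι x) {n : ℕ}
    {σ τ : C(Dl n, X)} (h : π.comp σ = π.comp τ) : τ = σ ∨ τ = ι.comp σ := by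
  have hcl1 : IsClosed {y | τ y = σ y} := isClosed_eq τ.continuous σ.continuous
  have hcl2 : IsClosed {y | τ y = ι (σ y)} :=
    isClosed_eq τ.continuous (ι.continuous.comp σ.continuous)
  have hun : {y | τ y = σ y} ∪ {y | τ y = ι (σ y)} = univ := by
    refine eq_univ_of_forall fun y => ?_
    exact hπ _ _ (DFunLike.congr_fun h y)
  have hdis : {y | τ y = σ y} ∩ {y | τ y = ι (σ y)} = ∅ := by
    refine eq_empty_of_forall_notMem fun y hy => ?_
    have e1 : τ y = σ y := hy.1
    have e2 : τ y = ι (σ y) := hy.2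
    exact h2 _ (e2.symm.trans e1)
  have hclopen : IsClopen {y | τ y = σ y} := by
    refine ⟨hcl1, ?_⟩
    have : {y | τ y = σ y} = {y | τ y = ι (σ y)}ᶜ := by
      ext y
      constructor
      · intro h3 h4
        exact (eq_empty_iff_forall_notMem.1 hdis y) ⟨h3, h4⟩
      · intro h3
        rcases (eq_univ_iff_forall.1 hun y) with h4 | h4
        · exact h4
        · exact absurd h4 h3
    rw [this]
    exact hcl2.isOpen_compl
  rcases isClopen_iff.1 hclopen with h5 | h5
  · right
    ext y
    rcases (eq_univ_iff_forall.1 hun y) with h4 | h4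
    · rw [h5] at h4; exact absurd h4 (notMem_empty _)
    · exact h4
  · left
    ext y
    have : y ∈ {y | τ y = σ y} := by rw [h5]; trivial
    exact this

section transfer

variable {Q : Type} [TopologicalSpace Q] [T2Space X] (ι : C(X, X)) (π : C(X, Q))

open Classical in
/-- sum of the two lifts of a simplex -/
def trs (n : ℕ) (τ : C(Dl n, Q)) : Ch n X :=
  if h : ∃ σ : C(Dl n, X), π.comp σ = τ then
    Finsupp.single h.choose 1 + Finsupp.single (ι.comp h.choose) 1 else 0

/-- the transfer -/
def tr (n : ℕ) : Ch n Q →ₗ[ZMod 2] Ch n X :=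
  Finsupp.linearCombination (ZMod 2) (trs ι π n)

variable {ι π}

theorem tr_single (h1 : ∀ x, ι (ι x) = x) (h2 : ∀ x, ι x ≠ x)
    (hπ : ∀ x y, π x = π y → y = x ∨ y = ι x) {n : ℕ} (σ : C(Dl n, X)) :
    tr ι π n (Finsupp.single (π.comp σ) 1) =
      Finsupp.single σ 1 + Finsupp.single (ι.comp σ) 1 := by
  have hex : ∃ σ' : C(Dl n, X), π.comp σ' = π.comp σ := ⟨σ, rfl⟩
  unfold tr
  rw [Finsupp.linearCombination_single, one_smul]
  unfold trs
  rw [dif_pos hex]
  have hu := lift_unique h2 hπ hex.choose_spec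
  generalize hex.choose = ρ at hu
  rcases hu with h | h
  · rw [← h]
  · have h3 : ι.comp σ = ρ := by
      rw [h]; ext y; exact h1 _
    rw [h3, add_comm, ← h]

/-- transfer of a push forward = norm -/
theorem tr_push (h1 : ∀ x, ι (ι x) = x) (h2 : ∀ x, ι x ≠ x)
    (hπ : ∀ x y, π x = π y → y = x ∨ y = ι x) {n : ℕ} (c : Ch n X) :
    tr ι π n (push π n c) = c + push ι n c := by
  have : (tr ι π n).comp (push π n) = LinearMap.id + push ι n := by
    refine Loc.lin_ext fun σ => ?_
    simp only [LinearMap.comp_apply, LinearMap.add_apply, LinearMap.id_apply, Loc.push_single]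
    exact tr_single h1 h2 hπ σ
  exact congrArg (fun L : Ch n X →ₗ[ZMod 2] Ch n X => L c) this

theorem in_tr (hιπ : ∀ x, π (ι x) = π x) {n : ℕ} {A : Set Q} {c : Ch n Q} (hc : In A c) :
    In (π ⁻¹' A) (tr ι π n c) := by
  refine in_map (tr ι π n) (fun τ hτ => ?_) hc
  unfold tr
  rw [Finsupp.linearCombination_single, one_smul]
  unfold trs
  split_ifs with h
  · have h3 := h.choose_spec
    generalize h.choose = ρ at h3
    refine in_add (in_single ?_ 1) (in_single ?_ 1)
    · rintro _ ⟨y, rfl⟩
      refine hτ ⟨y, ?_⟩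
      rw [← h3]; rfl
    · rintro _ ⟨y, rfl⟩
      refine hτ ⟨y, ?_⟩
      have : π (ι (ρ y)) = π (ρ y) := hιπ _
      rw [← h3]
      exact this.symm
  · exact in_zero _ _

end transfer

end Crest.Agent.R235.FA2_365
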