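import Crest.Agent.R235.FA2_365

/-!
Row 235, package FD-A, topological half, part 3 (helper365): Smith towers of mod 2 chains.
-/

set_option autoImplicit false

noncomputable section

open Topology Set Filter

namespace Crest.Agent.R235.FA3_365

open Crest.Agent.R224.T Crest.Agent.R235.FA2_365

section tow
variable {X : Type} [TopologicalSpace X] {Y : Type} [TopologicalSpace Y]

/-- Smith tower: `x` has boundary `u + (1+ι) x'`, `∂u = (1+ι) u'`, and so on -/
def Tow (ι : C(X, X)) (A B : Set X) : ∀ k : ℕ, Ch (k + 1) X → Ch k X → Prop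
  | 0, x, u => In A u ∧ ∃ x' : Ch 0 X, In B x' ∧ bd 0 x = u + (x' + push ι 0 x')
  | k + 1, x, u => In A u ∧ ∃ (x' : Ch (k + 1) X) (u' : Ch k X), In B x' ∧
      bd (k + 1) x = u + (x' + push ι (k + 1) x') ∧ bd k u = u' + push ι k u' ∧
      Tow ι A B k x' u'

theorem Tow.push' {ι : C(X, X)} {τ : C(Y, Y)} {F : C(X, Y)} (hF : F.comp ι = τ.comp F)
    {A B : Set X} {A' B' : Set Y} (hA : MapsTo F A A') (hB : MapsTo F B B') :
    ∀ (k : ℕ) (x : Ch (k + 1) X) (u : Ch k X), Tow ι A B k x u →
      Tow τ A' B' k (push F (k + 1) x) (push F k u)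
  | 0, x, u, h => by
    obtain ⟨hu, x', hx', e⟩ := h
    refine ⟨Loc.in_push hu F hA, push F 0 x', Loc.in_push hx' F hB, ?_⟩
    rw [Loc.bd_push, e, map_add, map_add, Loc.push_push, hF, ← Loc.push_push]
  | k + 1, x, u, h => by
    obtain ⟨hu, x', u', hx', e, e', ht⟩ := h
    refine ⟨Loc.in_push hu F hA, push F (k + 1) x', push F k u',
      Loc.in_push hx' F hB, ?_, ?_, Tow.push' hF hA hB k x' u' ht⟩
    · rw [Loc.bd_push, e, map_add, map_add, Loc.push_push, hF, ← Loc.push_push]
    · rw [Loc.bd_push, e', map_add, Loc.push_push, hF, ← Loc.push_push]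

theorem in_of_supp {n : ℕ} {A : Set X} {c c' : Ch n X} (h : c'.support ⊆ c.support)
    (hc : In A c) : In A c' := fun σ hσ => hc σ (h hσ)

/-- construction of the tower on a space with a free involution -/
theorem exists_tow {ι : C(X, X)} (h1 : ∀ x, ι (ι x) = x) (h2 : ∀ x, ι x ≠ x) {A B : Set X}
    (hAB : A ⊆ B) : ∀ (k : ℕ) (h : Ch (k + 1) X) (z : Ch k X), In B (bd k h) → In A z →
      push ι k (bd k h + z) = bd k h + z → Tow ι A B k h z
  | 0, h, z, hh, hz, e => by
    obtain ⟨x', ex, hx⟩ := norm_of_inv h1 h2 _ e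
    refine ⟨hz, x', in_of_supp hx (in_add hh (in_mono hAB hz)), ?_⟩
    rw [← ex]
    have := ch_two z
    calc bd 0 h = bd 0 h + (z + z) := by rw [this, add_zero]
      _ = _ := by abel
  | k + 1, h, z, hh, hz, e => by
    obtain ⟨x', ex, hx⟩ := norm_of_inv h1 h2 _ e
    have hx' : In B x' := in_of_supp hx (in_add hh (in_mono hAB hz))
    have ez : push ι k (bd k z) = bd k z := by
      have e1 : push ι (k + 1) (bd (k + 1) h) + push ι (k + 1) z = bd (k + 1) h + z := by
        rw [← map_add]; exact e
      have e2 := congrArg (bd k) e1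
      rw [map_add, map_add, Loc.bd_push, Loc.bd_push, Loc.bd_bd, map_zero, zero_add, zero_add] at e2
      exact e2
    obtain ⟨u', eu, hu⟩ := norm_of_inv h1 h2 _ ez
    have hu' : In A u' := in_of_supp hu (in_bd hz)
    have e3 : bd (k + 1) h = z + (x' + push ι (k + 1) x') := by
      rw [← ex]
      have := ch_two z
      calc bd (k + 1) h = bd (k + 1) h + (z + z) := by rw [this, add_zero]
        _ = _ := by abel
    refine ⟨hz, x', u', hx', e3, eu, ?_⟩
    refine exists_tow h1 h2 hAB k x' u' (in_bd hx') hu' ?_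
    -- `∂x' + ι ∂x' = ∂z = u' + ι u'`
    have e4 : bd k x' + push ι k (bd k x') = bd k z := by
      have := congrArg (bd k) e3
      rw [Loc.bd_bd, map_add, map_add, Loc.bd_push] at this
      have t := ch_two (bd k z)
      calc bd k x' + push ι k (bd k x') = (bd k z + bd k z) + (bd k x' + push ι k (bd k x')) := by
            rw [t, zero_add]
        _ = bd k z + (bd k z + (bd k x' + push ι k (bd k x'))) := by abel
        _ = _ := by rw [← this, add_zero]
    rw [eu] at e4
    -- so `(1+ι)(∂x' + u') = 0`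
    rw [map_add]
    have t1 := ch_two (bd k x')
    have t2 := ch_two (push ι k u')
    calc push ι k (bd k x') + push ι k u'
        = (bd k x' + bd k x') + (push ι k (bd k x') + push ι k u') := by rw [t1, zero_add]
      _ = bd k x' + (bd k x' + push ι k (bd k x')) + push ι k u' := by abel
      _ = bd k x' + u' + (push ι k u' + push ι k u') := by rw [e4]; abel
      _ = _ := by rw [t2, add_zero]

end tow

end Crest.Agent.R235.FA3_365
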