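import Crest.Agent.R235.FA3_365

/-!
Row 235, package FD-A, topological half, part 4 (helper365): the top of a Smith tower in `ℝⁿ` (whose
`u`-part avoids the half line `-ℝ₊ e`, `τ e = e`) is null in the local homology at `0`.
-/

set_option autoImplicit false

noncomputable section

open Topology Set Filter

namespace Crest.Agent.R235.FA4_365

open Crest.Agent.R224.T Crest.Agent.R235.FA1_365 Crest.Agent.R235.FA2_365
open Crest.Agent.R235.FA3_365

/-- complement of the half line `-ℝ₊ e` -/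
def V1 {n : ℕ} (e : EE n) : Set (EE n) := {y | ¬ ∃ s : ℝ, 0 ≤ s ∧ y = -(s • e)}

theorem mem_V1_self {n : ℕ} {e : EE n} (he : e ≠ 0) : e ∈ V1 e := by
  rintro ⟨s, hs, h⟩
  have h1 : (1 + s) • e = 0 := by
    rw [add_smul, one_smul]
    nth_rewrite 1 [h]
    simp
  rcases smul_eq_zero.1 h1 with h2 | h2
  · linarith
  · exact he h2

theorem star_V1 {n : ℕ} {e : EE n} (he : e ≠ 0) : StarConvex ℝ e (V1 e) := by
  intro y hy a b ha hb hab
  rintro ⟨s, hs, h⟩
  rcases hb.eq_or_lt with hb | hb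
  · subst hb
    have ha1 : a = 1 := by linarith
    subst ha1
    refine mem_V1_self he ⟨s, hs, ?_⟩
    simpa using h
  · apply hy
    refine ⟨(s + a) / b, by positivity, ?_⟩
    have h1 : b • y = -((s + a) • e) := by
      have : b • y = (a • e + b • y) - a • e := by abel
      rw [this, h, add_smul]
      abel
    have h2 : y = b⁻¹ • (b • y) := by rw [smul_smul, inv_mul_cancel₀ hb.ne', one_smul]
    rw [h2, h1, smul_neg, smul_smul]
    congr 2
    field_simp

theorem V1_sub {n : ℕ} {e : EE n} : V1 e ⊆ ({0}ᶜ : Set (EE n)) := by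
  intro y hy h0
  rw [mem_singleton_iff] at h0
  exact hy ⟨0, le_refl _, by rw [h0]; simp⟩

/-- cycles, with augmentation zero in degree zero -/
def Cyc {X : Type} [TopologicalSpace X] : ∀ k : ℕ, Ch k X → Prop
  | 0, c => LB.aug c = 0
  | k + 1, c => bd k c = 0

theorem cyc_bd {X : Type} [TopologicalSpace X] : ∀ (k : ℕ) (c : Ch (k + 1) X), Cyc k (bd k c)
  | 0, c => LB.aug_bd c
  | k + 1, c => Loc.bd_bd k c

theorem Cyc.add' {X : Type} [TopologicalSpace X] : ∀ {k : ℕ} {c c' : Ch k X}, Cyc k c → Cyc k c' →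
    Cyc k (c + c')
  | 0, c, c', h, h' => by
    show LB.aug _ = 0
    rw [map_add]
    have h1 : LB.aug c = 0 := h
    have h2 : LB.aug c' = 0 := h'
    rw [h1, h2, add_zero]
  | k + 1, c, c', h, h' => by
    show bd k _ = 0
    rw [map_add]
    have h1 : bd k c = 0 := h
    have h2 : bd k c' = 0 := h'
    rw [h1, h2, add_zero]

/-- filling in the complement of the half line -/
theorem fillV1 {n : ℕ} {e : EE n} (he : e ≠ 0) : ∀ (k : ℕ) (c : Ch k (EE n)), In (V1 e) c →
    Cyc k c → ∃ w : Ch (k + 1) (EE n), In (V1 e) w ∧ bd k w = c := by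
  have hc : ContractibleSpace (V1 e) := (star_V1 he).contractibleSpace ⟨e, mem_V1_self he⟩
  intro k c h1 h2
  match k, c, h1, h2 with
  | 0, c, h1, h2 =>
    have hpc : IsPathConnected (V1 e) := by
      rw [isPathConnected_iff_pathConnectedSpace]
      infer_instance
    exact LB.fill0 hpc h1 h2
  | k + 1, c, h1, h2 => exact LB.fill_in hF (V1 e) h1 h2

/-- filling in the punctured space below the top degree -/
theorem fillV0 {d : ℕ} : ∀ (k : ℕ), k < d → ∀ (c : Ch k (EE (d + 1))), In {0}ᶜ c →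
    Cyc k c → ∃ w : Ch (k + 1) (EE (d + 1)), In {0}ᶜ w ∧ bd k w = c := by
  intro k hk c h1 h2
  match k, c, hk, h1, h2 with
  | 0, c, hk, h1, h2 =>
    have hpc : IsPathConnected ({0}ᶜ : Set (EE (d + 1))) := by
      refine isPathConnected_compl_singleton_of_one_lt_rank ?_ 0
      rw [← Module.finrank_eq_rank, finrank_euclideanSpace_fin]
      exact_mod_cast Nat.lt_of_lt_of_le (by norm_num) (Nat.succ_le_succ hk)
    exact LB.fill0 hpc h1 h2
  | k + 1, c, hk, h1, h2 =>
    have hcs : ContractibleSpace (EE (d + 1)) := inferInstance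
    obtain ⟨b, hb⟩ := hF (EE (d + 1)) k c h2
    have hrc : RC {0}ᶜ b := by
      show In _ _
      rw [hb]; exact h1
    obtain ⟨b', e', he', hbe⟩ := (hL d).1 (k + 1) b (by omega) hrc
    refine ⟨e', he', ?_⟩
    rw [← hb, hbe, map_add, Loc.bd_bd, zero_add]

variable {d : ℕ}

/-- `(1 + τ) c` -/
abbrev nm (τ : C(EE (d + 1), EE (d + 1))) {k : ℕ} (c : Ch k (EE (d + 1))) : Ch k (EE (d + 1)) :=
  c + push τ k c

theorem nm_add (τ : C(EE (d + 1), EE (d + 1))) {k : ℕ} (c c' : Ch k (EE (d + 1))) :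
    nm τ (c + c') = nm τ c + nm τ c' := by
  simp only [nm, map_add]; abel

theorem nm_bd (τ : C(EE (d + 1), EE (d + 1))) {k : ℕ} (c : Ch (k + 1) (EE (d + 1))) :
    nm τ (bd k c) = bd k (nm τ c) := by
  simp only [nm, map_add, Loc.bd_push]

theorem nm_nm {τ : C(EE (d + 1), EE (d + 1))} (hτ : ∀ x, τ (τ x) = x) {k : ℕ}
    (c : Ch k (EE (d + 1))) : nm τ (nm τ c) = 0 := by
  have h1 : push τ k (push τ k c) = c := by
    rw [Loc.push_push]
    have : τ.comp τ = ContinuousMap.id _ := by ext1 x; exact hτ x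
    rw [this, Loc.push_id]
  simp only [nm, map_add, h1]
  have e1 := ch_two c
  have e2 := ch_two (push τ k c)
  calc c + push τ k c + (push τ k c + c) = (c + c) + (push τ k c + push τ k c) := by abel
    _ = 0 := by rw [e1, e2, add_zero]

theorem aug_nm (τ : C(EE (d + 1), EE (d + 1))) (c : Ch 0 (EE (d + 1))) :
    LB.aug (nm τ c) = 0 := by
  have h1 : LB.aug (push τ 0 c) = LB.aug c := by
    refine chain_ind (P := fun c => LB.aug (push τ 0 c) = LB.aug c) c (by simp) ?_ ?_
    · intro a b ha hb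
      rw [map_add, map_add, map_add, ha, hb]
    · intro σ
      rw [Loc.push_single]
      unfold LB.aug
      rw [LB.cnt_single, LB.cnt_single]
  rw [map_add, h1]
  exact (by decide : ∀ a : ZMod 2, a + a = 0) _

/-- the claim proved by going up the tower -/
theorem tow_claim {τ : C(EE (d + 1), EE (d + 1))} (hτ : ∀ x, τ (τ x) = x) (hτ0 : τ 0 = 0)
    {e : EE (d + 1)} (he : e ≠ 0) (hτe : τ e = e) (hτV : MapsTo τ (V1 e) (V1 e)) :
    ∀ (k : ℕ), k ≤ d → ∀ (x : Ch (k + 1) (EE (d + 1))) (u : Ch k (EE (d + 1))),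
      Tow τ (V1 e) {0}ᶜ k x u →
      ∃ (y : Ch (k + 1) (EE (d + 1))) (ζ : Ch k (EE (d + 1))), In (V1 e) y ∧ In {0}ᶜ ζ ∧
        Cyc k ζ ∧ bd k (x + y) = nm τ ζ ∧ nm τ (bd k y) = nm τ u := by
  have hτ' : MapsTo τ ({0}ᶜ : Set (EE (d + 1))) {0}ᶜ := by
    intro x hx h0
    apply hx
    have h1 : τ (τ x) = τ 0 := by rw [mem_singleton_iff.1 h0]
    rw [hτ, hτ0] at h1
    exact h1
  intro k
  induction k with
  | zero =>
    intro _ x u h
    obtain ⟨hu, x', hx', e1⟩ := h
    let p : Ch 0 (EE (d + 1)) := Finsupp.single (LB.cst 0 e) 1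
    have hp1 : In (V1 e) p := in_single (by
      rintro _ ⟨z, rfl⟩; exact mem_V1_self he) 1
    have hpa : LB.aug p = 1 := by
      show LB.aug (Finsupp.single _ 1) = 1
      unfold LB.aug; rw [LB.cnt_single]
    have hpn : nm τ p = 0 := by
      have : push τ 0 p = p := by
        show push τ 0 (Finsupp.single _ 1) = Finsupp.single _ 1
        rw [Loc.push_single]
        congr 1
        ext1 z
        exact hτe
      show p + push τ 0 p = 0
      rw [this, ch_two]
    have hps : ∀ a : ZMod 2, nm τ (a • p) = 0 := by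
      intro a
      show a • p + push τ 0 (a • p) = 0
      rw [map_smul, ← smul_add]
      have : p + push τ 0 p = 0 := hpn
      rw [this, smul_zero]
    obtain ⟨y, hy, ey⟩ := fillV1 he 0 (u + (LB.aug u) • p) (in_add hu (in_smul _ hp1)) (by
      show LB.aug _ = 0
      rw [map_add, map_smul, hpa, smul_eq_mul, mul_one]
      exact (by decide : ∀ a : ZMod 2, a + a = 0) _)
    have e2 : bd 0 (x + y) = nm τ x' + (LB.aug u) • p := by
      rw [map_add, e1, ey]
      have t := ch_two u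
      calc u + (x' + push τ 0 x') + (u + (LB.aug u) • p)
          = (u + u) + ((x' + push τ 0 x') + (LB.aug u) • p) := by abel
        _ = _ := by rw [t, zero_add]
    have ha : LB.aug u = 0 := by
      have h3 := LB.aug_bd (x + y)
      rw [e2, map_add, aug_nm, map_smul, hpa, zero_add, smul_eq_mul, mul_one] at h3
      exact h3
    refine ⟨y, x' + (LB.aug x') • p, hy, in_add hx' (in_smul _ (in_mono V1_sub hp1)), ?_, ?_, ?_⟩
    · show LB.aug _ = 0
      rw [map_add, map_smul, hpa, smul_eq_mul, mul_one]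
      exact (by decide : ∀ a : ZMod 2, a + a = 0) _
    · rw [nm_add, hps, add_zero, e2, ha, zero_smul, add_zero]
    · rw [ey, nm_add, hps, add_zero]
  | succ k ih =>
    intro hk x u h
    obtain ⟨hu, x', u', hx', e1, e2, ht⟩ := h
    obtain ⟨y', ζ', hy', hζ', hc', f1, f2⟩ := ih (by omega) x' u' ht
    -- fill `u + (1+τ) y'`
    have hcyc : Cyc (k + 1) (u + nm τ y') := by
      show bd k _ = 0
      rw [map_add, ← nm_bd, f2, e2]
      exact ch_two _
    have hin : In (V1 e) (u + nm τ y') :=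
      in_add hu (in_add hy' (Loc.in_push hy' τ hτV))
    obtain ⟨y, hy, ey⟩ := fillV1 he (k + 1) _ hin hcyc
    obtain ⟨w, hw, ew⟩ := fillV0 (d := d) k (by omega) ζ' hζ' hc'
    refine ⟨y, x' + y' + nm τ w, hy, ?_, ?_, ?_, ?_⟩
    · exact in_add (in_add hx' (in_mono V1_sub hy')) (in_add hw (Loc.in_push hw τ hτ'))
    · show bd k _ = 0
      rw [map_add, f1, ← nm_bd, ew]
      exact ch_two _
    · rw [nm_add, nm_nm hτ, add_zero, map_add, e1, ey, nm_add]
      have t := ch_two u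
      calc u + (x' + push τ (k + 1) x') + (u + nm τ y')
          = (u + u) + ((x' + push τ (k + 1) x') + nm τ y') := by abel
        _ = _ := by rw [t, zero_add]
    · rw [ey, nm_add, nm_nm hτ, add_zero]

/-- **the top of a Smith tower is null** -/
theorem nul_of_tow (hd : 1 ≤ d) {τ : C(EE (d + 1), EE (d + 1))} (hτ : ∀ x, τ (τ x) = x)
    (hτ0 : τ 0 = 0) {e : EE (d + 1)} (he : e ≠ 0) (hτe : τ e = e)
    (hτV : MapsTo τ (V1 e) (V1 e)) (x : Ch (d + 1) (EE (d + 1))) (u : Ch d (EE (d + 1)))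
    (h : Tow τ (V1 e) {0}ᶜ d x u) : Nul {0}ᶜ x := by
  obtain ⟨y, ζ, hy, hζ, hc, f1, f2⟩ := tow_claim hτ hτ0 he hτe hτV d le_rfl x u h
  obtain ⟨j, rfl⟩ : ∃ j, d = j + 1 := ⟨d - 1, by omega⟩
  have hcs : ContractibleSpace (EE (j + 1 + 1)) := inferInstance
  obtain ⟨g, hg⟩ := hF (EE (j + 1 + 1)) j ζ hc
  have hτ' : MapsTo τ ({0}ᶜ : Set (EE (j + 1 + 1))) {0}ᶜ := by
    intro x hx h0
    apply hx
    have h1 : τ (τ x) = τ 0 := by rw [mem_singleton_iff.1 h0]
    rw [hτ, hτ0] at h1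
    exact h1
  -- `g + τ g` is null
  have hrg : RC {0}ᶜ g := by
    show In _ _
    rw [hg]; exact hζ
  have hrτ : RC {0}ᶜ (push τ (j + 2) g) := by
    show In _ _
    rw [Loc.bd_push, hg]
    exact Loc.in_push hζ τ hτ'
  have hτnul : Nul {0}ᶜ g → Nul {0}ᶜ (push τ (j + 2) g) := by
    rintro ⟨b, v, hv, rfl⟩
    refine ⟨push τ (j + 3) b, push τ (j + 2) v, Loc.in_push hv τ hτ', ?_⟩
    rw [map_add, Loc.bd_push]
  have hτnul' : Nul {0}ᶜ (push τ (j + 2) g) → Nul {0}ᶜ g := by
    rintro ⟨b, v, hv, h⟩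
    have h1 : push τ (j + 2) (push τ (j + 2) g) = g := by
      rw [Loc.push_push]
      have : τ.comp τ = ContinuousMap.id _ := by ext1 x; exact hτ x
      rw [this, Loc.push_id]
    rw [← h1]
    refine ⟨push τ (j + 3) b, push τ (j + 2) v, Loc.in_push hv τ hτ', ?_⟩
    rw [h, map_add, Loc.bd_push]
  have hnn : Nul {0}ᶜ (nm τ g) := by
    by_cases hgn : Nul {0}ᶜ g
    · exact nul_add hgn (hτnul hgn)
    · exact (hL (j + 1)).2.2 g _ hrg hrτ hgn (fun h => hgn (hτnul' h))
  -- `x + y + (1+τ) g` is a cycle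
  have hcy : bd (j + 1) (x + y + nm τ g) = 0 := by
    rw [map_add, f1, ← nm_bd, hg]
    exact ch_two _
  obtain ⟨b, hb⟩ := hF (EE (j + 1 + 1)) (j + 1) _ hcy
  have hx : x = bd (j + 2) b + (nm τ g + y) := by
    rw [hb]
    have t1 := ch_two y
    have t2 := ch_two (nm τ g)
    calc x = x + (y + y) + (nm τ g + nm τ g) := by rw [t1, t2, add_zero, add_zero]
      _ = _ := by abel
  rw [hx]
  refine nul_add ⟨b, 0, in_zero _ _, by rw [add_zero]⟩ (nul_add hnn ?_)
  exact ⟨0, y, in_mono V1_sub hy, by rw [map_zero, zero_add]⟩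

end Crest.Agent.R235.FA4_365
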