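import Crest.Agent.R235.FA4_365

/-!
Row 235, package FD-A, topological half, part 5 (helper365): the main argument, for a given quotient
`π : X → Q` by the free involution.
-/

set_option autoImplicit false

noncomputable section

open Topology Set Filter

namespace Crest.Agent.R235.FA5_365

open Crest.Agent.R224.T Crest.Agent.R235.FA1_365 Crest.Agent.R235.FA2_365
open Crest.Agent.R235.FA3_365 Crest.Agent.R235.FA4_365

section lifts
variable {X Q : Type} [TopologicalSpace X] [TopologicalSpace Q]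

/-- lift of a chain all whose simplices lift -/
theorem exists_lift_chain {π : C(X, Q)} {n : ℕ} (c : Ch n Q) {A : Set Q} (hA : In A c)
    (h : ∀ σ ∈ c.support, ∃ τ : C(Dl n, X), π.comp τ = σ) :
    ∃ c' : Ch n X, push π n c' = c ∧ In (π ⁻¹' A) c' := by
  classical
  choose τ hτ using h
  refine ⟨∑ σ ∈ c.support.attach, Finsupp.single (τ σ.1 σ.2) (c σ.1), ?_, ?_⟩
  · rw [map_sum]
    conv_rhs => rw [← Finsupp.sum_single c, Finsupp.sum, ← Finset.sum_attach]
    refine Finset.sum_congr rfl fun σ _ => ?_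
    rw [Exc.push_single, hτ σ.1 σ.2]
  · refine in_sum _ _ fun σ _ => in_single ?_ _
    rintro _ ⟨y, rfl⟩
    have h1 : π (τ σ.1 σ.2 y) = σ.1 y := DFunLike.congr_fun (hτ σ.1 σ.2) y
    show π _ ∈ A
    rw [h1]
    exact hA σ.1 σ.2 ⟨y, rfl⟩

/-- `π` restricted to an open set on which it is injective -/
def res (π : C(X, Q)) (V : Set X) : C(V, Q) := π.comp (Loc.inc V)

theorem isOpenEmbedding_res {π : C(X, Q)} (hπo : IsOpenMap π) {V : Set X} (hV : IsOpen V)
    (hinj : InjOn π V) : IsOpenEmbedding (res π V) := by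
  refine IsOpenEmbedding.of_continuous_injective_isOpenMap (res π V).continuous ?_ ?_
  · intro x y h
    exact Subtype.ext (hinj x.2 y.2 h)
  · exact hπo.comp hV.isOpenMap_subtype_val

theorem range_res (π : C(X, Q)) (V : Set X) : range (res π V) = π '' V := by
  ext q
  constructor
  · rintro ⟨x, rfl⟩; exact ⟨x.1, x.2, rfl⟩
  · rintro ⟨x, hx, rfl⟩; exact ⟨⟨x, hx⟩, rfl⟩

theorem exists_lift {f : C(X, Q)} (hf : IsEmbedding f) {n : ℕ} (σ : C(Dl n, Q))
    (h : range σ ⊆ range f) : ∃ τ : C(Dl n, X), f.comp τ = σ := by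
  choose g hg using fun x => h (mem_range_self x)
  refine ⟨⟨g, ?_⟩, ?_⟩
  · rw [hf.continuous_iff]
    have : f ∘ g = σ := funext hg
    rw [this]; exact σ.continuous
  · ext x; exact hg x

end lifts

/-- homotopy invariance of local nullity -/
theorem nul_homotopy {W : Type} [TopologicalSpace W] {d n : ℕ} (G : C(W × unitInterval, EE n))
    {L : Set W} (hL : ∀ x t, G (x, t) = 0 → x ∈ L) (c : Ch (d + 1) W) (hc : RC Lᶜ c) :
    Nul {0}ᶜ (push (G.comp ⟨fun x => (x, 0), by fun_prop⟩) (d + 1) c) →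
    Nul {0}ᶜ (push (G.comp ⟨fun x => (x, 1), by fun_prop⟩) (d + 1) c) := by
  obtain ⟨P, -, h1, h2⟩ := nPrism W (EE n) G
  intro h
  have e := h1 d c
  have e2 : push (G.comp ⟨fun x => (x, 1), by fun_prop⟩) (d + 1) c =
      bd (d + 1) (P (d + 1) c) + (push (G.comp ⟨fun x => (x, 0), by fun_prop⟩) (d + 1) c
        + P d (bd d c)) := by
    rw [e]
    have t1 := ch_two (push (G.comp ⟨fun x => (x, 0), by fun_prop⟩) (d + 1) c)
    have t2 := ch_two (P d (bd d c))
    calc push (G.comp ⟨fun x => (x, 1), by fun_prop⟩) (d + 1) c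
        = push (G.comp ⟨fun x => (x, 1), by fun_prop⟩) (d + 1) c
          + (push (G.comp ⟨fun x => (x, 0), by fun_prop⟩) (d + 1) c
            + push (G.comp ⟨fun x => (x, 0), by fun_prop⟩) (d + 1) c)
          + (P d (bd d c) + P d (bd d c)) := by rw [t1, t2, add_zero, add_zero]
      _ = _ := by abel
  rw [e2]
  refine Crest.Agent.R224.T.nul_add ⟨P (d + 1) c, 0, in_zero _ _, by rw [add_zero]⟩
    (Crest.Agent.R224.T.nul_add h ?_)
  refine ⟨0, P d (bd d c), ?_, by rw [map_zero, zero_add]⟩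
  refine in_map (P d) (fun σ hσ => ?_) hc
  intro τ hτ
  refine (h2 d σ τ hτ).trans ?_
  rintro _ ⟨⟨x, t⟩, ⟨hx, -⟩, rfl⟩ h0
  exact hσ hx (hL x t h0)

end Crest.Agent.R235.FA5_365
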