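import Crest.Agent.R235.FA5_365

/-!
Row 235, package FD-A, topological half, part 6 (helper365): the main argument, for a given quotient
`π : X → Q` by the free involution.
-/

set_option autoImplicit false

noncomputable section

open Topology Set Filter

namespace Crest.Agent.R235.FA6_365

open Crest.Agent.R224.T Crest.Agent.R235.FA1_365 Crest.Agent.R235.FA2_365
open Crest.Agent.R235.FA3_365 Crest.Agent.R235.FA4_365 Crest.Agent.R235.FA5_365

theorem core {d : ℕ} (hd : 1 ≤ d) {X Q : Type} [TopologicalSpace X] [T2Space X]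
    [TopologicalSpace Q] [T2Space Q] [ChartedSpace (EE (d + 1)) Q]
    {ι : C(X, X)} (h1 : ∀ x, ι (ι x) = x) (h2 : ∀ x, ι x ≠ x)
    {π : C(X, Q)} (hπo : IsOpenMap π) (hπs : Function.Surjective π)
    (hπ : ∀ x y, π x = π y ↔ y = x ∨ y = ι x)
    {τ : C(EE (d + 1), EE (d + 1))} (hτ : ∀ x, τ (τ x) = x) (hτ0 : τ 0 = 0)
    {e : EE (d + 1)} (he : e ≠ 0) (hτe : τ e = e) (hτV : MapsTo τ (V1 e) (V1 e))
    (F : C(X, EE (d + 1))) (hF : ∀ x, F (ι x) = τ (F x)) (hK : IsCompact {x | F x ∉ V1 e})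
    {W K₁ : Set X} (hW : IsOpen W) (hWι : ∀ x ∈ W, ι x ∉ W) (hz : ∀ x, F x = 0 → x ∈ W ∨ ι x ∈ W)
    (hK₁ : IsCompact K₁) (hKW : K₁ ⊆ W)
    (G : C(W × unitInterval, EE (d + 1))) (G0 : ∀ x : W, G (x, 0) = F x.1)
    (Gz : ∀ (x : W) t, G (x, t) = 0 → x.1 ∈ K₁)
    (G1 : IsOpenEmbedding (fun x : W => G (x, 1))) (x₁ : W) (hx₁ : G (x₁, 1) = 0) : False := by
  classical
  have hιπ : ∀ x, π (ι x) = π x := fun x => ((hπ x (ι x)).2 (Or.inr rfl)).symm
  have hπ' : ∀ x y, π x = π y → y = x ∨ y = ι x := fun x y => (hπ x y).1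
  have hinj : InjOn π W := by
    intro x hx y hy h
    rcases hπ' x y h with h' | h'
    · exact h'.symm
    · exact absurd (h' ▸ hy) (hWι x hx)
  set Z : Set Q := π '' K₁ with hZ
  set Z1 : Set Q := π '' {x | F x ∉ V1 e} with hZ1
  have hZc : IsCompact Z := hK₁.image π.continuous
  have hZ1c : IsCompact Z1 := hK.image π.continuous
  -- the cover
  set 𝒰 : Set (Set Q) := {U | IsOpen U ∧ (∃ V : Set X, IsOpen V ∧ (∀ x ∈ V, ι x ∉ V) ∧ U ⊆ π '' V) ∧
    (U ⊆ π '' W ∨ U ∩ Z = ∅)} with h𝒰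
  have hcov : ⋃₀ 𝒰 = univ := by
    refine eq_univ_of_forall fun q => ?_
    obtain ⟨x, rfl⟩ := hπs q
    obtain ⟨V1', V2', hV1, hV2, hx1, hx2, hdis⟩ := t2_separation (h2 x).symm
    have hVo : IsOpen (V1' ∩ ι ⁻¹' V2') := hV1.inter (hV2.preimage ι.continuous)
    have hVι : ∀ y ∈ V1' ∩ ι ⁻¹' V2', ι y ∉ V1' ∩ ι ⁻¹' V2' := by
      intro y hy hy'
      exact Set.disjoint_left.1 hdis hy'.1 hy.2
    have hxV : x ∈ V1' ∩ ι ⁻¹' V2' := ⟨hx1, hx2⟩
    by_cases hq : π x ∈ π '' W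
    · refine ⟨π '' (V1' ∩ ι ⁻¹' V2') ∩ π '' W, ⟨(hπo _ hVo).inter (hπo _ hW),
        ⟨_, hVo, hVι, inter_subset_left⟩, Or.inl inter_subset_right⟩, ⟨x, hxV, rfl⟩, hq⟩
    · refine ⟨π '' (V1' ∩ ι ⁻¹' V2') ∩ Zᶜ, ⟨(hπo _ hVo).inter hZc.isClosed.isOpen_compl,
        ⟨_, hVo, hVι, inter_subset_left⟩, Or.inr ?_⟩, ⟨x, hxV, rfl⟩, ?_⟩
      · rw [inter_assoc, compl_inter_self, inter_empty]
      · exact fun h => hq (image_mono hKW h)
  obtain ⟨c, hc, hcs, hcn⟩ := fund (d := d) (hZc.union hZ1c) 𝒰 (fun U hU => hU.1) hcov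
  -- splitting
  set cW : Ch (d + 1) Q := c.filter fun σ => range σ ⊆ π '' W with hcW
  set cr : Ch (d + 1) Q := c.filter fun σ => ¬ range σ ⊆ π '' W with hcr
  have hsum : cW + cr = c := Finsupp.filter_add_filter_not c _
  have iW : In (π '' W) cW := by
    intro σ hσ
    rw [hcW, Finsupp.support_filter, Finset.mem_filter] at hσ
    exact hσ.2
  have ir : In Zᶜ cr := by
    intro σ hσ
    rw [hcr, Finsupp.support_filter, Finset.mem_filter] at hσ
    obtain ⟨U, hU, hσU⟩ := hcs σ hσ.1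
    rcases hU.2.2 with h | h
    · exact absurd (hσU.trans h) hσ.2
    · intro q hq hqZ
      have : q ∈ U ∩ Z := ⟨hσU hq, hqZ⟩
      rw [h] at this
      exact this
  set f : C(W, Q) := res π W with hf0
  have hf : IsOpenEmbedding f := isOpenEmbedding_res hπo hW hinj
  obtain ⟨hw, ehw⟩ := Exc.exists_push hf.isEmbedding (c := cW) (by
    rw [hf0, range_res]; exact iW)
  have hlr : ∀ σ ∈ cr.support, ∃ τ : C(Dl (d + 1), X), π.comp τ = σ := by
    intro σ hσ
    rw [hcr, Finsupp.support_filter, Finset.mem_filter] at hσ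
    obtain ⟨U, ⟨-, ⟨V, hVo, hVι, hUV⟩, -⟩, hσU⟩ := hcs σ hσ.1
    have hinjV : InjOn π V := by
      intro x hx y hy h
      rcases hπ' x y h with h' | h'
      · exact h'.symm
      · exact absurd (h' ▸ hy) (hVι x hx)
    obtain ⟨τ', hτ'⟩ := exists_lift (isOpenEmbedding_res hπo hVo hinjV).isEmbedding σ (by
      rw [range_res]; exact hσU.trans hUV)
    exact ⟨(Loc.inc V).comp τ', hτ'⟩
  obtain ⟨h'', eh'', ih''⟩ := exists_lift_chain cr ir hlr
  set h' : Ch (d + 1) X := push (Loc.inc W) (d + 1) hw with hh'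
  have eh' : push π (d + 1) h' = cW := by
    rw [hh', Loc.push_push]; exact ehw
  set h : Ch (d + 1) X := h' + h'' with hh
  have eh : push π (d + 1) h = c := by rw [hh, map_add, eh', eh'', hsum]
  -- regions
  set A : Set X := F ⁻¹' V1 e with hA
  set B : Set X := F ⁻¹' {0}ᶜ with hB
  have hAB : A ⊆ B := fun x hx => V1_sub hx
  have subA : π ⁻¹' (Z ∪ Z1)ᶜ ⊆ A := by
    intro x hx
    by_contra hn
    exact hx (Or.inr ⟨x, hn, rfl⟩)
  have subB : π ⁻¹' Zᶜ ⊆ B := by
    intro x hx h0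
    rw [mem_singleton_iff] at h0
    rcases hz x h0 with h3 | h3
    · exact hx ⟨x, Gz ⟨x, h3⟩ 0 ((G0 ⟨x, h3⟩).trans h0), rfl⟩
    · have h4 : F (ι x) = 0 := by rw [hF, h0, hτ0]
      exact hx ⟨ι x, Gz ⟨ι x, h3⟩ 0 ((G0 ⟨ι x, h3⟩).trans h4), hιπ x⟩
  -- boundaries
  have ibw : In (f ⁻¹' Zᶜ) (bd d hw) := by
    refine Exc.In.of_push hf.injective ?_
    rw [← Loc.bd_push, ehw]
    have : bd d cW = bd d c + bd d cr := by
      rw [← hsum, map_add]
      exact (Loc.add_cancel _ _).symm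
    rw [this]
    exact in_add (in_mono (compl_subset_compl.2 subset_union_left) hc) (in_bd ir)
  have ibh : In B (bd d h) := by
    rw [hh, map_add]
    refine in_add ?_ (in_bd (in_mono subB ih''))
    rw [hh', Loc.bd_push]
    refine Loc.in_push ibw (Loc.inc W) ?_
    intro x hx
    exact subB hx
  have itr : In A (bd d h + push ι d (bd d h)) := by
    rw [← tr_push h1 h2 hπ', ← Loc.bd_push, eh]
    exact in_mono subA (in_tr hιπ hc)
  obtain ⟨z, ez, hzs⟩ := norm_of_inv h1 h2 (bd d h + push ι d (bd d h)) (by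
    rw [map_add, Loc.push_push]
    have : ι.comp ι = ContinuousMap.id X := by ext1 x; exact h1 x
    rw [this, Loc.push_id, add_comm])
  have iz : In A z := in_of_supp hzs itr
  have htow : Tow ι A B d h z := by
    refine exists_tow h1 h2 hAB d h z ibh iz ?_
    rw [map_add]
    have t1 := ch_two (bd d h)
    have t2 := ch_two (push ι d z)
    calc push ι d (bd d h) + push ι d z
        = (bd d h + push ι d (bd d h)) + bd d h + push ι d z
          + (bd d h + bd d h) := by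
          rw [t1, add_zero]
          calc push ι d (bd d h) + push ι d z
              = (bd d h + bd d h) + (push ι d (bd d h) + push ι d z) := by rw [t1, zero_add]
            _ = _ := by abel
      _ = (z + push ι d z) + bd d h + push ι d z := by rw [t1, add_zero, ez]
      _ = bd d h + z + (push ι d z + push ι d z) := by abel
      _ = _ := by rw [t2, add_zero]
  have hcomp : F.comp ι = τ.comp F := by ext1 x; exact hF x
  have htow' := Tow.push' hcomp (A' := V1 e) (B' := {0}ᶜ) (fun x hx => hx) (fun x hx => hx)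
    d h z htow
  have N := nul_of_tow hd hτ hτ0 he hτe hτV _ _ htow'
  -- contradiction
  have N1 : Nul {0}ᶜ (push F (d + 1) h') := by
    have e1 : push F (d + 1) h' = push F (d + 1) h + push F (d + 1) h'' := by
      rw [hh, map_add]
      exact (Loc.add_cancel _ _).symm
    rw [e1]
    refine Crest.Agent.R224.T.nul_add N
      ⟨0, push F (d + 1) h'', ?_, by rw [map_zero, zero_add]⟩
    exact Loc.in_push ih'' F fun x hx => subB hx
  have N2 : Nul {0}ᶜ (push (G.comp ⟨fun x => (x, 0), by fun_prop⟩) (d + 1) hw) := by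
    have : (G.comp ⟨fun x => (x, 0), by fun_prop⟩ : C(W, EE (d + 1))) =
        F.comp (Loc.inc W) := by
      ext1 x
      exact G0 x
    rw [this, ← Loc.push_push]; exact N1
  have hrc : RC {x : W | x.1 ∈ K₁}ᶜ hw := by
    refine in_mono ?_ ibw
    intro x hx hx'
    exact hx ⟨x.1, hx', rfl⟩
  have N3 := nul_homotopy G (L := {x : W | x.1 ∈ K₁}) Gz hw hrc N2
  set g1 : C(W, EE (d + 1)) := G.comp ⟨fun x => (x, 1), by fun_prop⟩ with hg1
  have hg1e : IsOpenEmbedding g1 := G1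
  have hx1K : x₁.1 ∈ K₁ := Gz x₁ 1 hx₁
  have hrc1 : RC {x₁}ᶜ hw := by
    refine in_mono ?_ hrc
    intro x hx hx'
    rw [mem_singleton_iff] at hx'
    subst hx'
    exact hx hx1K
  have e3 := ((hE W (EE (d + 1)) g1 hg1e {x₁} (by
    rw [image_singleton]; exact isClosed_singleton) d).2 hw hrc1).1 (by
      rw [image_singleton]
      have : g1 x₁ = 0 := hx₁
      rw [this]
      exact N3)
  have e4 := ((hE W Q f hf {x₁} (by
    rw [image_singleton]; exact isClosed_singleton) d).2 hw hrc1).2 e3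
  rw [image_singleton, ehw] at e4
  have hfZ : f x₁ ∈ Z := ⟨x₁.1, hx1K, rfl⟩
  refine hcn (f x₁) (Or.inl hfZ) ?_
  rw [← hsum]
  refine Crest.Agent.R224.T.nul_add e4 ⟨0, cr, ?_, by rw [map_zero, zero_add]⟩
  exact in_mono (compl_subset_compl.2 (singleton_subset_iff.2 hfZ)) ir

end Crest.Agent.R235.FA6_365
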