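import Mathlib

/-!
Row 235 (S0364), package FD, part FD-A (helper365): the abstract theorem behind `b⁺ = 3`.

* `FDTOP`  : the finite dimensional (topological) statement: an equivariant map from a manifold with
  a free involution cannot have exactly one nondegenerate pair of zeros on the boundary.
* `SWData` : the abstract Hilbert space data (family of Seiberg-Witten equations over `B³`, the
  Jacobian torus `ℝᵇ/ℤᵇ` included); `FDHILB` : these data are contradictory.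
-/

set_option autoImplicit false

open Topology Set

namespace Crest.Agent.R235.FDADef_365

/-- Euclidean space -/
abbrev EE (n : ℕ) : Type := EuclideanSpace ℝ (Fin n)

/-- `F = (G, ρ) : X → ℝⁿ` equivariant, `e` = the direction of `ρ`; `{G = 0, ρ ≤ 0}` is compact; the
zeros of `F` are contained in `W ∪ ι W`, and on `W` the map `F` is homotopic, through maps without
zeros outside a compact set, to an open embedding with a zero.  This is impossible. -/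
def FDTOP : Prop := ∀ (d : ℕ), 1 ≤ d → ∀ (X : Type) [TopologicalSpace X] [T2Space X]
  [ChartedSpace (EE (d + 1)) X] (ι : X → X) (τ : EE (d + 1) ≃ₗ[ℝ] EE (d + 1)) (e : EE (d + 1))
  (F : X → EE (d + 1)) (W K₁ : Set X) (H : X → ℝ → EE (d + 1)),
  Continuous ι → (∀ x, ι (ι x) = x) → (∀ x, ι x ≠ x) →
  (∀ y, τ (τ y) = y) → τ e = e → e ≠ 0 →
  Continuous F → (∀ x, F (ι x) = τ (F x)) →
  IsCompact {x | ∃ s : ℝ, 0 ≤ s ∧ F x = -(s • e)} →
  IsOpen W → (∀ x ∈ W, ι x ∉ W) → (∀ x, F x = 0 → x ∈ W ∨ ι x ∈ W) →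
  IsCompact K₁ → K₁ ⊆ W →
  ContinuousOn (fun p : X × ℝ => H p.1 p.2) (W ×ˢ Icc 0 1) →
  (∀ x ∈ W, H x 0 = F x) →
  (∀ x ∈ W, ∀ s ∈ Icc (0 : ℝ) 1, H x s = 0 → x ∈ K₁) →
  IsOpenEmbedding (W.domRestrict fun x => H x 1) →
  (∃ x ∈ W, H x 1 = 0) → False

/-- a Fredholm operator (closed range, finite dimensional kernel and orthogonal complement of the
range) -/
structure Fred {A Y : Type} [NormedAddCommGroup A] [NormedSpace ℝ A] [NormedAddCommGroup Y]
    [InnerProductSpace ℝ Y] (L : A →L[ℝ] Y) : Prop where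
  ker : FiniteDimensional ℝ (LinearMap.ker (L : A →ₗ[ℝ] Y))
  closed : IsClosed (range L)
  coker : FiniteDimensional ℝ (LinearMap.range (L : A →ₗ[ℝ] Y))ᗮ

/-- the index -/
noncomputable def ind {A Y : Type} [NormedAddCommGroup A] [NormedSpace ℝ A] [NormedAddCommGroup Y]
    [InnerProductSpace ℝ Y] (L : A →L[ℝ] Y) : ℤ :=
  Module.finrank ℝ (LinearMap.ker (L : A →ₗ[ℝ] Y)) -
    Module.finrank ℝ (LinearMap.range (L : A →ₗ[ℝ] Y))ᗮ

/-- a lattice point as a real vector -/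
def lat {b : ℕ} (m : Fin b → ℤ) : Fin b → ℝ := fun i => (m i : ℝ)

/-- the abstract data.  `b = b₁`; `h` = the harmonic part of the connection (coordinates such that
the lattice is `ℤᵇ`); `a ∈ A` = (`t ∈ ℝ³`, coexact part) = all unknowns which are EVEN under
`ψ ↦ -ψ`; `ψ ∈ P` = the spinor; `ga` = the even equations, `gp` = the odd equations (Dirac equation
and three real components of the evaluation); `ρ = |t|² - 1`. -/
structure SWData (b : ℕ) (A P Ya Yp : Type) [NormedAddCommGroup A] [NormedSpace ℝ A]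
    [CompleteSpace A] [NormedAddCommGroup P] [NormedSpace ℝ P] [CompleteSpace P]
    [NormedAddCommGroup Ya] [InnerProductSpace ℝ Ya] [CompleteSpace Ya]
    [NormedAddCommGroup Yp] [InnerProductSpace ℝ Yp] [CompleteSpace Yp] where
  La : A →L[ℝ] Ya
  Lp : P →L[ℝ] Yp
  Ka : (Fin b → ℝ) × A × P → Ya
  Kp : (Fin b → ℝ) × A × P → Yp
  ρ : (Fin b → ℝ) × A × P → ℝ
  /-- gauge transformations of `H¹(M; ℤ)` on spinors, and on the odd equations -/
  U : (Fin b → ℤ) → P ≃L[ℝ] P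
  V : (Fin b → ℤ) → Yp ≃L[ℝ] Yp
  h₀ : Fin b → ℝ
  a₀ : A
  ψ₀ : P
  /-- the linearisation at the canonical solution -/
  D : ((Fin b → ℝ) × A × P) →L[ℝ] Ya × Yp × ℝ
  fredA : Fred La
  fredP : Fred Lp
  /-- total index `0` -/
  index : ind La + ind Lp + b = 1
  contA : Continuous Ka
  contP : Continuous Kp
  contρ : Continuous ρ
  cptA : ∀ R : ℝ, IsCompact (closure (Ka '' {p | ‖p‖ ≤ R}))
  cptP : ∀ R : ℝ, IsCompact (closure (Kp '' {p | ‖p‖ ≤ R}))
  evenA : ∀ h a ψ, Ka (h, a, -ψ) = Ka (h, a, ψ)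
  oddP : ∀ h a ψ, Kp (h, a, -ψ) = - Kp (h, a, ψ)
  evenρ : ∀ h a ψ, ρ (h, a, -ψ) = ρ (h, a, ψ)
  U_add : ∀ m n ψ, U (m + n) ψ = U m (U n ψ)
  V_add : ∀ m n y, V (m + n) y = V m (V n y)
  /-- gauge invariance -/
  latA : ∀ m h a ψ, Ka (h + lat m, a, U m ψ) = Ka (h, a, ψ)
  latP : ∀ m h a ψ, Lp (U m ψ) + Kp (h + lat m, a, U m ψ) = V m (Lp ψ + Kp (h, a, ψ))
  latρ : ∀ m h a ψ, ρ (h + lat m, a, U m ψ) = ρ (h, a, ψ)
  /-- a priori bound over a fundamental cell, `|t| ≤ 1` -/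
  bdd : ∃ R : ℝ, ∀ h a ψ, (∀ i, h i ∈ Icc (0 : ℝ) 1) → ρ (h, a, ψ) ≤ 0 →
    La a + Ka (h, a, ψ) = 0 → Lp ψ + Kp (h, a, ψ) = 0 → ‖a‖ ≤ R ∧ ‖ψ‖ ≤ R
  /-- no reducible solution for `|t| ≤ 1` (`b⁺ > 3`) -/
  irred : ∀ h a, ρ (h, a, 0) ≤ 0 → La a + Ka (h, a, 0) ≠ 0
  /-- the canonical solution -/
  solA : La a₀ + Ka (h₀, a₀, ψ₀) = 0
  solP : Lp ψ₀ + Kp (h₀, a₀, ψ₀) = 0
  solρ : ρ (h₀, a₀, ψ₀) = 0
  /-- up to gauge and sign it is the only solution with `|t| = 1` -/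
  uniq : ∀ h a ψ, ρ (h, a, ψ) = 0 → La a + Ka (h, a, ψ) = 0 → Lp ψ + Kp (h, a, ψ) = 0 →
    ∃ m, h = h₀ + lat m ∧ a = a₀ ∧ (ψ = U m ψ₀ ∨ ψ = - U m ψ₀)
  /-- nondegenerate -/
  deriv : HasFDerivAt (fun p : (Fin b → ℝ) × A × P =>
    (La p.2.1 + Ka p, Lp p.2.2 + Kp p, ρ p)) D (h₀, a₀, ψ₀)
  inj : ∀ y, D y = 0 → y = 0

/-- the abstract theorem consumed by SWA -/
def FDHILB : Prop := ∀ (b : ℕ) (A P Ya Yp : Type) [NormedAddCommGroup A] [NormedSpace ℝ A]
    [CompleteSpace A] [NormedAddCommGroup P] [NormedSpace ℝ P] [CompleteSpace P]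
    [NormedAddCommGroup Ya] [InnerProductSpace ℝ Ya] [CompleteSpace Ya]
    [NormedAddCommGroup Yp] [InnerProductSpace ℝ Yp] [CompleteSpace Yp],
    SWData b A P Ya Yp → False

end Crest.Agent.R235.FDADef_365
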