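import Mathlib
import Crest.Agent.R235.FDADef_365
import Crest.Agent.R275.FredC_685

/-!
Row 235 (S0364), package FD-A (leader helper365), block B1 (helper435).

* bridge between the two notions of Fredholm operator (`FDADef_365.Fred`, closed range, and
  `R275.Fred685.Fred`, parametrix modulo compact operators), and of the two indices;
* stability of `FDADef_365.Fred` and of its index.
-/

set_option autoImplicit false

open Topology Set
open Crest.Agent.R275

namespace Crest.Agent.R235.FdB1_435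

open FDADef_365

/-! ### the two notions of Fredholm operator -/

section bridge

variable {A Y : Type} [NormedAddCommGroup A] [NormedSpace ℝ A] [CompleteSpace A]
  [NormedAddCommGroup Y] [InnerProductSpace ℝ Y] [CompleteSpace Y]

theorem cpt_of_range {E F : Type*} [NormedAddCommGroup E] [NormedSpace ℝ E] [NormedAddCommGroup F]
    [NormedSpace ℝ F] (K : E →L[ℝ] F) (N : Submodule ℝ F) [FiniteDimensional ℝ N]
    (h : ∀ x, K x ∈ N) : IsCompactOperator K := by
  have h1 := Fred685.isCompactOperator_comp_finiteDimensional N.subtypeL (K.codRestrict N h)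
  have h2 : N.subtypeL.comp (K.codRestrict N h) = K := by
    ext x
    rfl
  rwa [h2] at h1

omit [CompleteSpace A] [CompleteSpace Y] in
/-- the kernel has a closed complement. -/
theorem exists_compl (L : A →L[ℝ] Y) [FiniteDimensional ℝ (LinearMap.ker (L : A →ₗ[ℝ] Y))] :
    ∃ Q : Submodule ℝ A, IsClosed (Q : Set A) ∧ IsCompl (LinearMap.ker (L : A →ₗ[ℝ] Y)) Q :=
  (Submodule.ClosedComplemented.of_finiteDimensional
    (LinearMap.ker (L : A →ₗ[ℝ] Y))).exists_isClosed_isCompl

theorem par_of_fred {L : A →L[ℝ] Y} (h : Fred L) : Fred685.Fred L := by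
  have hk := h.ker
  have hc := h.coker
  obtain ⟨Q, hQ, hKQ⟩ := exists_compl L
  set R : Submodule ℝ Y := LinearMap.range (L : A →ₗ[ℝ] Y) with hR
  have hRc : IsClosed (R : Set Y) := h.closed
  have : CompleteSpace Q := hQ.completeSpace_coe
  have : CompleteSpace R := hRc.completeSpace_coe
  let f : Q →L[ℝ] R := (L.comp Q.subtypeL).codRestrict R fun x => ⟨x, rfl⟩
  have hf : Function.Bijective f := by
    constructor
    · rw [injective_iff_map_eq_zero]
      intro x hx
      have h1 : L x = 0 := congrArg Subtype.val hx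
      have h2 : (x : A) ∈ LinearMap.ker (L : A →ₗ[ℝ] Y) ⊓ Q := ⟨h1, x.2⟩
      rw [hKQ.inf_eq_bot] at h2
      exact Subtype.ext ((Submodule.mem_bot ℝ).1 h2)
    · rintro ⟨y, x, hx⟩
      have h3 : x ∈ LinearMap.ker (L : A →ₗ[ℝ] Y) ⊔ Q := by rw [hKQ.sup_eq_top]; trivial
      obtain ⟨n, hn, q, hq, rfl⟩ := Submodule.mem_sup.1 h3
      refine ⟨⟨q, hq⟩, Subtype.ext ?_⟩
      have h4 : L n = 0 := hn
      have h5 : L (n + q) = y := hx
      rw [map_add, h4, zero_add] at h5
      exact h5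
  let e : Q ≃L[ℝ] R := ContinuousLinearEquiv.ofBijective f
    (LinearMap.ker_eq_bot.2 hf.1) (LinearMap.range_eq_top.2 hf.2)
  have he : ∀ x, e x = f x := fun x => rfl
  let S : Y →L[ℝ] A := Q.subtypeL.comp ((e.symm : R →L[ℝ] Q).comp R.orthogonalProjectionOnto)
  refine ⟨S, ?_, ?_⟩
  · refine cpt_of_range _ (LinearMap.ker (L : A →ₗ[ℝ] Y)) fun x => ?_
    have h3 : x ∈ LinearMap.ker (L : A →ₗ[ℝ] Y) ⊔ Q := by rw [hKQ.sup_eq_top]; trivial
    obtain ⟨n, hn, q, hq, rfl⟩ := Submodule.mem_sup.1 h3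
    have h4 : L n = 0 := hn
    have h6 : R.orthogonalProjectionOnto (L (n + q)) = e ⟨q, hq⟩ := by
      rw [map_add, h4, zero_add]
      have : L q = ((f ⟨q, hq⟩ : R) : Y) := rfl
      rw [this, Submodule.orthogonalProjectionOnto_mem_subspace_eq_self, he]
    have h7 : S (L (n + q)) = q := by
      show ((e.symm (R.orthogonalProjectionOnto (L (n + q))) : Q) : A) = q
      rw [h6, e.symm_apply_apply]
    show (1 - S.comp L) (n + q) ∈ _
    have h8 : (1 - S.comp L) (n + q) = n := by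
      show (n + q) - S (L (n + q)) = n
      rw [h7]
      abel
    rw [h8]
    exact hn
  · refine cpt_of_range _ Rᗮ fun y => ?_
    have h9 : L (S y) = (R.orthogonalProjectionOnto y : Y) := by
      show L ((e.symm (R.orthogonalProjectionOnto y) : Q) : A) = _
      have : L ((e.symm (R.orthogonalProjectionOnto y) : Q) : A) =
        ((e (e.symm (R.orthogonalProjectionOnto y)) : R) : Y) := rfl
      rw [this, e.apply_symm_apply]
    show y - L (S y) ∈ Rᗮ
    rw [h9]
    have h10 := R.sub_starProjection_mem_orthogonal y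
    rwa [R.starProjection_apply] at h10

theorem fred_of_par {L : A →L[ℝ] Y} (h : Fred685.Fred L) : Fred L := by
  obtain ⟨hk, hc⟩ := h.finIdx
  obtain ⟨Q, hQ, hKQ⟩ := exists_compl L
  obtain ⟨G, hG⟩ := Submodule.exists_isCompl (LinearMap.range (L : A →ₗ[ℝ] Y))
  have hGf : FiniteDimensional ℝ G :=
    LinearEquiv.finiteDimensional (Submodule.quotientEquivOfIsCompl _ G hG)
  have : CompleteSpace Q := hQ.completeSpace_coe
  have hr : LinearMap.range ((L.comp Q.subtypeL : Q →L[ℝ] Y) : Q →ₗ[ℝ] Y) =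
      LinearMap.range (L : A →ₗ[ℝ] Y) := by
    ext y
    constructor
    · rintro ⟨x, hx⟩
      exact ⟨x, hx⟩
    · rintro ⟨x, hx⟩
      have h3 : x ∈ LinearMap.ker (L : A →ₗ[ℝ] Y) ⊔ Q := by rw [hKQ.sup_eq_top]; trivial
      obtain ⟨n, hn, q, hq, rfl⟩ := Submodule.mem_sup.1 h3
      refine ⟨⟨q, hq⟩, ?_⟩
      have h4 : L n = 0 := hn
      have h5 : L (n + q) = y := hx
      rw [map_add, h4, zero_add] at h5
      exact h5
  have hker : LinearMap.ker ((L.comp Q.subtypeL : Q →L[ℝ] Y) : Q →ₗ[ℝ] Y) = ⊥ := by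
    rw [Submodule.eq_bot_iff]
    intro x hx
    have h1 : L x = 0 := hx
    have h2 : (x : A) ∈ LinearMap.ker (L : A →ₗ[ℝ] Y) ⊓ Q := ⟨h1, x.2⟩
    rw [hKQ.inf_eq_bot] at h2
    exact Subtype.ext ((Submodule.mem_bot ℝ).1 h2)
  have hcl := ContinuousLinearMap.closed_complemented_range_of_isCompl_of_ker_eq_bot
    (L.comp Q.subtypeL) G (by rw [hr]; exact hG) G.closed_of_finiteDimensional hker
  rw [hr] at hcl
  refine ⟨hk, hcl, ?_⟩
  have : CompleteSpace (LinearMap.range (L : A →ₗ[ℝ] Y)) := hcl.completeSpace_coe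
  exact LinearEquiv.finiteDimensional (Submodule.quotientEquivOfIsCompl _ _
    (Submodule.isCompl_orthogonal (LinearMap.range (L : A →ₗ[ℝ] Y))))

theorem fred_iff {L : A →L[ℝ] Y} : Fred L ↔ Fred685.Fred L := ⟨par_of_fred, fred_of_par⟩

omit [CompleteSpace A] in
theorem ind_eq {L : A →L[ℝ] Y} (h : Fred L) : ind L = Fred685.ind L := by
  have : CompleteSpace (LinearMap.range (L : A →ₗ[ℝ] Y)) :=
    (show IsClosed ((LinearMap.range (L : A →ₗ[ℝ] Y) : Submodule ℝ Y) : Set Y) from
      h.closed).completeSpace_coe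
  unfold ind Fred685.ind Fred685.idx
  rw [(Submodule.quotientEquivOfIsCompl _ _
    (Submodule.isCompl_orthogonal (LinearMap.range (L : A →ₗ[ℝ] Y)))).finrank_eq]

theorem fred_congr {L L' : A →L[ℝ] Y} (h : Fred L) (hK : IsCompactOperator (L' - L)) :
    Fred L' ∧ ind L' = ind L := by
  have h1 := par_of_fred h
  have h2 := h1.congr hK
  have h3 := fred_of_par h2
  exact ⟨h3, by rw [ind_eq h3, ind_eq h, Fred685.ind_congr h1 hK]⟩

theorem fred_add_compact {L K : A →L[ℝ] Y} (h : Fred L) (hK : IsCompactOperator K) :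
    Fred (L + K) ∧ ind (L + K) = ind L :=
  fred_congr h (by rwa [add_sub_cancel_left])

theorem exists_nhds_fred {L : A →L[ℝ] Y} (h : Fred L) :
    ∃ ε > 0, ∀ L' : A →L[ℝ] Y, ‖L' - L‖ < ε → Fred L' ∧ ind L' = ind L := by
  obtain ⟨ε, hε, h1⟩ := Fred685.exists_nhds_fred (par_of_fred h)
  refine ⟨ε, hε, fun L' hL' => ?_⟩
  obtain ⟨h2, h3⟩ := h1 L' hL'
  have h4 := fred_of_par h2
  exact ⟨h4, by rw [ind_eq h4, ind_eq h, h3]⟩

end bridge

end Crest.Agent.R235.FdB1_435
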