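import Mathlib
import Crest.Agent.R235.FDADef_365
import Crest.Agent.R235.FdB1_435

/-!
Row 235 (S0364), package FD-A (helper365), block B4, part 6: the topological statement for a
manifold with a free action of a lattice (deduced from `FDTOP` on the quotient).
-/

set_option autoImplicit false

open Topology Set Module

namespace Crest.Agent.R235.FB6_365

open FDADef_365 FdB1_435

/-- quotients of manifolds by a lattice -/
def QL : Prop := ∀ (n b : ℕ) (X : Type) [TopologicalSpace X] [T2Space X] [ChartedSpace (EE n) X]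
  (act : (Fin b → ℤ) → X → X) (hh : X → (Fin b → ℝ)),
  (∀ m, Continuous (act m)) → (∀ x, act 0 x = x) → (∀ m m' x, act (m + m') x = act m (act m' x)) →
  Continuous hh → (∀ m x, hh (act m x) = hh x + lat m) →
  ∃ (Q : Type) (_ : TopologicalSpace Q) (_ : T2Space Q) (_ : ChartedSpace (EE n) Q) (π : X → Q),
    Continuous π ∧ IsOpenMap π ∧ Function.Surjective π ∧ ∀ x y, π x = π y ↔ ∃ m, y = act m x

theorem isClosed_ray {T : Type*} [NormedAddCommGroup T] [NormedSpace ℝ T] {e : T} (he : e ≠ 0) :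
    IsClosed {v : T | ∃ s : ℝ, 0 ≤ s ∧ v = -(s • e)} := by
  have h1 : IsClosedEmbedding fun s : ℝ => s • (-e) :=
    isClosedEmbedding_smul_left (neg_ne_zero.2 he)
  have h2 := h1.isClosedMap _ (isClosed_Ici (a := (0 : ℝ)))
  convert h2 using 1
  ext v
  constructor
  · rintro ⟨s, hs, rfl⟩
    exact ⟨s, hs, by simp⟩
  · rintro ⟨s, hs, rfl⟩
    exact ⟨s, hs, by simp⟩

section

variable {b d : ℕ} {X T : Type} [TopologicalSpace X] [T2Space X]
  [ChartedSpace (EE (d + 1)) X] [NormedAddCommGroup T] [NormedSpace ℝ T] [FiniteDimensional ℝ T]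

/-- the topological statement with a lattice -/
theorem fdtop_lat (hQL : QL) (hT : FDTOP) (hd : 1 ≤ d) (hTd : finrank ℝ T = d + 1)
    (act : (Fin b → ℤ) → X → X) (hh : X → (Fin b → ℝ))
    (ac : ∀ m, Continuous (act m)) (a0 : ∀ x, act 0 x = x)
    (aa : ∀ m m' x, act (m + m') x = act m (act m' x)) (hc : Continuous hh)
    (ha : ∀ m x, hh (act m x) = hh x + lat m)
    (ι : X → X) (ιc : Continuous ι) (ιι : ∀ x, ι (ι x) = x) (ιne : ∀ x, ι x ≠ x)
    (ιa : ∀ m x, ι (act m x) = act m (ι x)) (ιh : ∀ x, hh (ι x) = hh x)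
    (τ : T ≃ₗ[ℝ] T) (e : T) (F : X → T) (ττ : ∀ y, τ (τ y) = y) (τe : τ e = e) (he : e ≠ 0)
    (Fc : Continuous F) (Fι : ∀ x, F (ι x) = τ (F x)) (Fa : ∀ m x, F (act m x) = F x)
    (T0 : Set X) (hT0 : IsCompact T0)
    (hT0' : ∀ x, (∃ s : ℝ, 0 ≤ s ∧ F x = -(s • e)) → ∃ m, act m x ∈ T0)
    (W K₁ : Set X) (hW : IsOpen W) (hWa : ∀ x ∈ W, ∀ m, act m x ∈ W → m = 0)
    (hWι : ∀ x ∈ W, ∀ m, act m (ι x) ∉ W)
    (hz : ∀ x, F x = 0 → ∃ m, act m x ∈ W ∨ act m (ι x) ∈ W)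
    (hK₁ : IsCompact K₁) (hKW : K₁ ⊆ W) (H : X → ℝ → T)
    (Hc : ContinuousOn (fun p : X × ℝ => H p.1 p.2) (W ×ˢ Icc 0 1))
    (H0 : ∀ x ∈ W, H x 0 = F x)
    (Hz : ∀ x ∈ W, ∀ s ∈ Icc (0 : ℝ) 1, H x s = 0 → x ∈ K₁)
    (H1 : IsOpenEmbedding (W.domRestrict fun x => H x 1))
    (hx : ∃ x ∈ W, H x 1 = 0) : False := by
  classical
  obtain ⟨Q, _, _, _, π, πc, πo, πs, hπ⟩ := hQL (d + 1) b X act hh ac a0 aa hc ha
  have πq : IsQuotientMap π := πo.isQuotientMap πc πs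
  have πact : ∀ m x, π (act m x) = π x := fun m x => ((hπ x (act m x)).2 ⟨m, rfl⟩).symm
  set s : Q → X := Function.surjInv πs with hs
  have hπs' : ∀ q, π (s q) = q := Function.surjInv_eq πs
  have hsπ : ∀ x, ∃ m, s (π x) = act m x := fun x => (hπ x (s (π x))).1 (hπs' (π x)).symm
  -- transport to `EE (d + 1)`
  have hfr : finrank ℝ T = finrank ℝ (EE (d + 1)) := by
    rw [hTd, finrank_euclideanSpace_fin]
  let Φ : T ≃L[ℝ] EE (d + 1) := ContinuousLinearEquiv.ofFinrankEq hfr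
  -- descended maps
  let FQ : Q → EE (d + 1) := fun q => Φ (F (s q))
  have hFQ : ∀ x, FQ (π x) = Φ (F x) := fun x => by
    obtain ⟨m, hm⟩ := hsπ x
    show Φ (F (s (π x))) = _
    rw [hm, Fa]
  let ιQ : Q → Q := fun q => π (ι (s q))
  have hιQ : ∀ x, ιQ (π x) = π (ι x) := fun x => by
    obtain ⟨m, hm⟩ := hsπ x
    show π (ι (s (π x))) = _
    rw [hm, ιa, πact]
  have FQc : Continuous FQ := by
    rw [πq.continuous_iff]
    have : FQ ∘ π = fun x => Φ (F x) := funext hFQ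
    rw [this]
    exact Φ.continuous.comp Fc
  have ιQc : Continuous ιQ := by
    rw [πq.continuous_iff]
    have : ιQ ∘ π = fun x => π (ι x) := funext hιQ
    rw [this]
    exact πc.comp ιc
  have hinj : ∀ x ∈ W, ∀ y ∈ W, π x = π y → x = y := by
    intro x hx y hy hxy
    obtain ⟨m, rfl⟩ := (hπ x y).1 hxy
    rw [hWa x hx m hy, a0]
  -- the inverse on `W`
  let σ : Q → X := fun q => if h : q ∈ π '' W then h.choose else s q
  have hσ : ∀ q ∈ π '' W, σ q ∈ W ∧ π (σ q) = q := by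
    intro q hq
    show (if h : q ∈ π '' W then h.choose else s q) ∈ W ∧
      π (if h : q ∈ π '' W then h.choose else s q) = q
    rw [dif_pos hq]
    exact hq.choose_spec
  have hσπ : ∀ x ∈ W, σ (π x) = x := by
    intro x hx
    have h1 := hσ (π x) ⟨x, hx, rfl⟩
    exact hinj _ h1.1 _ hx h1.2
  have σc : ContinuousOn σ (π '' W) := by
    rw [continuousOn_iff]
    intro q hq t ht hqt
    refine ⟨π '' (t ∩ W), πo _ (ht.inter hW), ⟨σ q, ⟨hqt, (hσ q hq).1⟩, (hσ q hq).2⟩, ?_⟩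
    rintro _ ⟨⟨x, ⟨hxt, hxW⟩, rfl⟩, -⟩
    show σ (π x) ∈ t
    rw [hσπ x hxW]
    exact hxt
  refine hT d hd Q ιQ ((Φ.symm.toLinearEquiv.trans τ).trans Φ.toLinearEquiv) (Φ e) FQ (π '' W)
    (π '' K₁) (fun q t => Φ (H (σ q) t)) ιQc ?_ ?_ ?_ ?_ ?_ FQc ?_ ?_ (πo _ hW) ?_ ?_
    (hK₁.image πc) (image_mono hKW) ?_ ?_ ?_ ?_ ?_
  · intro q
    obtain ⟨x, rfl⟩ := πs q
    exact (congrArg ιQ (hιQ x)).trans ((hιQ (ι x)).trans (congrArg π (ιι x)))
  · intro q hq
    obtain ⟨x, rfl⟩ := πs q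
    rw [hιQ] at hq
    obtain ⟨m, hm⟩ := (hπ _ _).1 hq
    have h1 := congrArg hh hm
    rw [ha, ιh] at h1
    have h2 : lat m = lat 0 := by
      rw [lat_zero]
      have : hh x + lat m = hh x + 0 := by rw [add_zero]; exact h1.symm
      exact add_left_cancel this
    rw [lat_inj h2, a0] at hm
    exact ιne x hm.symm
  · intro y
    simp [ττ]
  · simp [τe]
  · simpa using he
  · intro q
    obtain ⟨x, rfl⟩ := πs q
    rw [hιQ, hFQ, hFQ, Fι]
    simp
  · refine (hT0.image πc).of_isClosed_subset ?_ ?_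
    · have h1 := (isClosed_ray (T := EE (d + 1)) (e := Φ e) (by simpa using he)).preimage FQc
      exact h1
    · rintro q ⟨t, ht, hq⟩
      obtain ⟨x, rfl⟩ := πs q
      rw [hFQ] at hq
      have h2 : F x = -(t • e) := by
        apply Φ.injective
        rw [hq]
        simp
      obtain ⟨m, hm⟩ := hT0' x ⟨t, ht, h2⟩
      exact ⟨act m x, hm, πact m x⟩
  · rintro _ ⟨x, hx, rfl⟩ ⟨y, hy, hxy⟩
    rw [hιQ] at hxy
    obtain ⟨m, rfl⟩ := (hπ _ _).1 hxy.symm
    exact hWι x hx m hy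
  · intro q hq
    obtain ⟨x, rfl⟩ := πs q
    rw [hFQ] at hq
    have h2 : F x = 0 := by
      apply Φ.injective
      rw [hq, map_zero]
    obtain ⟨m, hm | hm⟩ := hz x h2
    · exact Or.inl ⟨_, hm, πact m x⟩
    · refine Or.inr ⟨_, hm, ?_⟩
      rw [hιQ, πact]
  · refine Φ.continuous.comp_continuousOn (Hc.comp
      (f := fun p : Q × ℝ => (σ p.1, p.2)) (s := (π '' W) ×ˢ Icc (0 : ℝ) 1) ?_ ?_)
    · exact (σc.comp continuousOn_fst fun p hp => hp.1).prodMk continuousOn_snd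
    · rintro ⟨q, t⟩ ⟨hq, ht⟩
      exact ⟨(hσ q hq).1, ht⟩
  · rintro _ ⟨x, hx, rfl⟩
    show Φ (H (σ (π x)) 0) = FQ (π x)
    rw [hσπ x hx, H0 x hx, hFQ]
  · rintro _ ⟨x, hx, rfl⟩ t ht h0
    rw [hσπ x hx] at h0
    have h2 : H x t = 0 := by
      apply Φ.injective
      rw [h0, map_zero]
    exact ⟨x, Hz x hx t ht h2, rfl⟩
  · let E : (π '' W) ≃ₜ W :=
      { toFun := fun q => ⟨σ q, (hσ q q.2).1⟩
        invFun := fun x => ⟨π x, x, x.2, rfl⟩
        left_inv := fun q => Subtype.ext (hσ q q.2).2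
        right_inv := fun x => Subtype.ext (hσπ x x.2)
        continuous_toFun := (continuousOn_iff_continuous_domRestrict.1 σc).subtype_mk _
        continuous_invFun := (πc.comp continuous_subtype_val).subtype_mk _ }
    have h1 := Φ.toHomeomorph.isOpenEmbedding.comp (H1.comp E.isOpenEmbedding)
    exact h1
  · obtain ⟨x, hxW, hx0⟩ := hx
    refine ⟨π x, ⟨x, hxW, rfl⟩, ?_⟩
    show Φ (H (σ (π x)) 1) = 0
    rw [hσπ x hxW, hx0, map_zero]

end

end Crest.Agent.R235.FB6_365
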