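import Crest.Agent.R235.FDADef_365

/-!
# R235, package FD-A, blocks QM and QL (helper143 for helper365): quotients of topological manifolds

* `quot_of` : quotient of a charted space by an equivalence relation with open, locally injective
  projection and separated classes
* `exists_QL` : quotient by an action of `ℤᵇ` with an equivariant map to `ℝᵇ`
* `exists_QM` : quotient by a free continuous involution
-/

set_option autoImplicit false

open Set Filter Topology
open Crest.Agent.R235.FDADef_365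

noncomputable section

namespace Crest.Agent.R235.QMan_143

theorem quot_of {n : ℕ} (X : Type) [TopologicalSpace X] [T2Space X] [ChartedSpace (EE n) X]
    (r : Setoid X) (hopen : IsOpenMap (Quotient.mk r))
    (hloc : ∀ x, ∃ U : Set X, IsOpen U ∧ x ∈ U ∧ InjOn (Quotient.mk r) U)
    (hsep : ∀ x y, ¬ r x y → ∃ U V : Set X, IsOpen U ∧ IsOpen V ∧ x ∈ U ∧ y ∈ V ∧
      ∀ u ∈ U, ∀ v ∈ V, ¬ r u v) :
    ∃ (Q : Type) (_ : TopologicalSpace Q) (_ : T2Space Q) (_ : ChartedSpace (EE n) Q)
      (π : X → Q), Continuous π ∧ IsOpenMap π ∧ Function.Surjective π ∧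
        ∀ x y, π x = π y ↔ r x y := by
  have hcont : Continuous (Quotient.mk r) := continuous_quotient_mk'
  have heq : ∀ x y, Quotient.mk r x = Quotient.mk r y ↔ r x y := fun x y => Quotient.eq
  have hsurj : Function.Surjective (Quotient.mk r) := Quotient.mk_surjective
  have hT2 : T2Space (Quotient r) := by
    refine ⟨fun p q hpq => ?_⟩
    obtain ⟨x, rfl⟩ := hsurj p
    obtain ⟨y, rfl⟩ := hsurj q
    obtain ⟨U, V, hU, hV, hx, hy, hUV⟩ := hsep x y (fun h => hpq ((heq x y).2 h))
    refine ⟨_, _, hopen U hU, hopen V hV, ⟨x, hx, rfl⟩, ⟨y, hy, rfl⟩, ?_⟩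
    rw [Set.disjoint_left]
    rintro _ ⟨u, hu, rfl⟩ ⟨v, hv, hvu⟩
    exact hUV u hu v hv ((heq u v).1 hvu.symm)
  -- local sections
  choose U hU hxU hinj using hloc
  let e : X → OpenPartialHomeomorph X (Quotient r) := fun x =>
    letI : Nonempty X := ⟨x⟩
    OpenPartialHomeomorph.ofContinuousOpen (InjOn.toPartialEquiv (Quotient.mk r) (U x) (hinj x))
      hcont.continuousOn hopen (hU x)
  have hes : ∀ x, (e x).source = U x := fun x => rfl
  have hec : ∀ x y, e x y = Quotient.mk r y := fun x y => rfl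
  let s : Quotient r → X := fun q => Classical.choose (hsurj q)
  have hs : ∀ q, Quotient.mk r (s q) = q := fun q => Classical.choose_spec (hsurj q)
  let ch : Quotient r → OpenPartialHomeomorph (Quotient r) (EE n) := fun q =>
    (e (s q)).symm.trans (chartAt (EE n) (s q))
  have hch : ∀ q, q ∈ (ch q).source := by
    intro q
    have h1 : s q ∈ (e (s q)).source := hxU (s q)
    have h2 : e (s q) (s q) = q := hs q
    have h3 : (e (s q)).symm q = s q := by
      have h4 := (e (s q)).left_inv h1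
      rwa [h2] at h4
    rw [OpenPartialHomeomorph.trans_source]
    refine ⟨?_, ?_⟩
    · show q ∈ (e (s q)).target
      have h4 := (e (s q)).map_source h1
      rwa [h2] at h4
    · show (e (s q)).symm q ∈ (chartAt (EE n) (s q)).source
      rw [h3]
      exact mem_chart_source _ _
  refine ⟨Quotient r, inferInstance, hT2,
    { atlas := range ch
      chartAt := ch
      mem_chart_source := hch
      chart_mem_atlas := fun q => ⟨q, rfl⟩ }, Quotient.mk r, hcont, hopen, hsurj, heq⟩

/-! ### involutions -/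

theorem exists_QM {n : ℕ} (X : Type) [TopologicalSpace X] [T2Space X] [ChartedSpace (EE n) X]
    (ι : X → X) (hc : Continuous ι) (hi : ∀ x, ι (ι x) = x) (hf : ∀ x, ι x ≠ x) :
    ∃ (Q : Type) (_ : TopologicalSpace Q) (_ : T2Space Q) (_ : ChartedSpace (EE n) Q)
      (π : X → Q), Continuous π ∧ IsOpenMap π ∧ Function.Surjective π ∧
        ∀ x y, π x = π y ↔ y = x ∨ y = ι x := by
  let r : Setoid X :=
    { r := fun x y => y = x ∨ y = ι x
      iseqv := by
        refine ⟨fun x => Or.inl rfl, ?_, ?_⟩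
        · rintro x y (h | h)
          · exact Or.inl h.symm
          · right
            rw [h, hi]
        · rintro x y z (h | h) (h' | h')
          · exact Or.inl (h'.trans h)
          · right
            rw [h', h]
          · right
            rw [h', h]
          · left
            rw [h', h, hi] }
  have hr : ∀ x y, r x y ↔ (y = x ∨ y = ι x) := fun x y => Iff.rfl
  have hopen : IsOpenMap (Quotient.mk r) := by
    intro U hU
    rw [← isQuotientMap_quotient_mk'.isOpen_preimage]
    have h1 : (Quotient.mk r) ⁻¹' ((Quotient.mk r) '' U) = U ∪ ι ⁻¹' U := by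
      ext y
      constructor
      · rintro ⟨x, hx, hxy⟩
        have h2 : r x y := Quotient.eq.1 hxy
        rcases (hr x y).1 h2 with h3 | h3
        · left; rw [h3]; exact hx
        · right
          show ι y ∈ U
          rw [h3, hi]; exact hx
      · rintro (h | h)
        · exact ⟨y, h, rfl⟩
        · exact ⟨ι y, h, Quotient.eq.2 ((hr _ _).2 (Or.inr (hi y).symm))⟩
    show IsOpen ((Quotient.mk r) ⁻¹' ((Quotient.mk r) '' U))
    rw [h1]
    exact hU.union (hU.preimage hc)
  have hsep2 : ∀ x y : X, y ≠ ι x → ∃ U V : Set X, IsOpen U ∧ IsOpen V ∧ x ∈ U ∧ y ∈ V ∧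
      ∀ u ∈ U, ∀ v ∈ V, v ≠ ι u := by
    intro x y h
    obtain ⟨A, B, hA, hB, hxA, hyB, hAB⟩ := t2_separation (Ne.symm h)
    refine ⟨ι ⁻¹' A, B, hA.preimage hc, hB, hxA, hyB, fun u hu v hv huv => ?_⟩
    exact Set.disjoint_left.1 hAB hu (huv ▸ hv)
  refine quot_of X r hopen ?_ ?_
  · intro x
    obtain ⟨U, V, hU, hV, hx, hy, hUV⟩ := hsep2 x x (Ne.symm (hf x))
    refine ⟨U ∩ V, hU.inter hV, ⟨hx, hy⟩, fun u hu v hv huv => ?_⟩
    have h2 : r u v := Quotient.eq.1 huv
    rcases (hr u v).1 h2 with h3 | h3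
    · exact h3.symm
    · exact (hUV u hu.1 v hv.2 h3).elim
  · intro x y hxy
    have h2 : y ≠ x := fun h => hxy ((hr x y).2 (Or.inl h))
    have h3 : y ≠ ι x := fun h => hxy ((hr x y).2 (Or.inr h))
    obtain ⟨U, V, hU, hV, hx, hy, hUV⟩ := hsep2 x y h3
    obtain ⟨A, B, hA, hB, hxA, hyB, hAB⟩ := t2_separation h2.symm
    refine ⟨U ∩ A, V ∩ B, hU.inter hA, hV.inter hB, ⟨hx, hxA⟩, ⟨hy, hyB⟩, fun u hu v hv h => ?_⟩
    rcases (hr u v).1 h with h | h
    · exact Set.disjoint_left.1 hAB hu.2 (h ▸ hv.2)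
    · exact hUV u hu.1 v hv.1 h

/-! ### lattices -/

theorem lat_add {b : ℕ} (m k : Fin b → ℤ) : lat (m + k) = lat m + lat k := by
  funext i; simp [lat]

theorem lat_neg {b : ℕ} (m : Fin b → ℤ) : lat (-m) = - lat m := by
  funext i; simp [lat]

theorem eq_of_lat_close {b : ℕ} {m k : Fin b → ℤ} (h : ‖lat m - lat k‖ < 1) : m = k := by
  funext i
  have h1 : ‖(lat m - lat k) i‖ < 1 := lt_of_le_of_lt (norm_le_pi_norm _ i) h
  have h2 : |((m i - k i : ℤ) : ℝ)| < 1 := by
    simpa [lat] using h1
  have h3 : |m i - k i| < 1 := by exact_mod_cast h2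
  have h4 : m i - k i = 0 := Int.abs_lt_one_iff.1 h3
  linarith

theorem exists_QL {n b : ℕ} (X : Type) [TopologicalSpace X] [T2Space X] [ChartedSpace (EE n) X]
    (act : (Fin b → ℤ) → X → X) (hc : ∀ m, Continuous (act m)) (h0 : ∀ x, act 0 x = x)
    (ha : ∀ m m' x, act (m + m') x = act m (act m' x)) (hh : X → (Fin b → ℝ))
    (hhc : Continuous hh) (hhl : ∀ m x, hh (act m x) = hh x + lat m) :
    ∃ (Q : Type) (_ : TopologicalSpace Q) (_ : T2Space Q) (_ : ChartedSpace (EE n) Q)
      (π : X → Q), Continuous π ∧ IsOpenMap π ∧ Function.Surjective π ∧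
        ∀ x y, π x = π y ↔ ∃ m, y = act m x := by
  have hneg : ∀ m x, act (-m) (act m x) = x := by
    intro m x
    rw [← ha, neg_add_cancel, h0]
  have hneg' : ∀ m x, act m (act (-m) x) = x := by
    intro m x
    rw [← ha, add_neg_cancel, h0]
  let r : Setoid X :=
    { r := fun x y => ∃ m, y = act m x
      iseqv := by
        refine ⟨fun x => ⟨0, (h0 x).symm⟩, ?_, ?_⟩
        · rintro x y ⟨m, h⟩
          exact ⟨-m, by rw [h, hneg]⟩
        · rintro x y z ⟨m, h⟩ ⟨m', h'⟩
          exact ⟨m' + m, by rw [h', h, ha]⟩ }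
  have hr : ∀ x y, r x y ↔ ∃ m, y = act m x := fun x y => Iff.rfl
  have hopen : IsOpenMap (Quotient.mk r) := by
    intro U hU
    rw [← isQuotientMap_quotient_mk'.isOpen_preimage]
    have h1 : (Quotient.mk r) ⁻¹' ((Quotient.mk r) '' U) = ⋃ m, act m ⁻¹' U := by
      ext y
      rw [mem_iUnion]
      constructor
      · rintro ⟨x, hx, hxy⟩
        have h2 : r x y := Quotient.eq.1 hxy
        obtain ⟨m, h3⟩ := (hr x y).1 h2
        refine ⟨-m, ?_⟩
        show act (-m) y ∈ U
        rw [h3, hneg]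
        exact hx
      · rintro ⟨m, h⟩
        exact ⟨act m y, h, Quotient.eq.2 ((hr _ _).2 ⟨-m, (hneg m y).symm⟩)⟩
    show IsOpen ((Quotient.mk r) ⁻¹' ((Quotient.mk r) '' U))
    rw [h1]
    exact isOpen_iUnion fun m => hU.preimage (hc m)
  -- small neighbourhoods
  have hball : ∀ x : X, IsOpen (hh ⁻¹' Metric.ball (hh x) (1 / 4)) ∧
      x ∈ hh ⁻¹' Metric.ball (hh x) (1 / 4) := fun x =>
    ⟨Metric.isOpen_ball.preimage hhc, Metric.mem_ball_self (by norm_num)⟩
  refine quot_of X r hopen ?_ ?_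
  · intro x
    refine ⟨_, (hball x).1, (hball x).2, fun u hu v hv huv => ?_⟩
    obtain ⟨m, hm⟩ := (hr u v).1 (Quotient.eq.1 huv)
    have e1 : dist (hh u) (hh x) < 1 / 4 := hu
    have e2 : dist (hh v) (hh x) < 1 / 4 := hv
    have e3 : dist (hh v) (hh u) < 1 := by
      have := dist_triangle_right (hh v) (hh u) (hh x)
      linarith
    rw [hm, hhl, dist_eq_norm, add_sub_cancel_left] at e3
    have e4 : m = 0 := by
      apply eq_of_lat_close
      have : lat (0 : Fin b → ℤ) = 0 := by funext i; simp [lat]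
      rw [this, sub_zero]
      exact e3
    rw [hm, e4, h0]
  · intro x y hxy
    have hn : ∀ m, y ≠ act m x := fun m h => hxy ((hr x y).2 ⟨m, h⟩)
    by_cases hex : ∃ m, ‖hh x + lat m - hh y‖ < 1 / 2
    · obtain ⟨m, hm⟩ := hex
      obtain ⟨A, B, hA, hB, hxA, hyB, hAB⟩ := t2_separation (Ne.symm (hn m))
      refine ⟨hh ⁻¹' Metric.ball (hh x) (1 / 4) ∩ act m ⁻¹' A,
        hh ⁻¹' Metric.ball (hh y) (1 / 4) ∩ B, (hball x).1.inter (hA.preimage (hc m)),
        (hball y).1.inter hB, ⟨(hball x).2, hxA⟩, ⟨(hball y).2, hyB⟩, fun u hu v hv h => ?_⟩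
      obtain ⟨k, hk⟩ := (hr u v).1 h
      have e1 : ‖hh u - hh x‖ < 1 / 4 := by
        have : dist (hh u) (hh x) < 1 / 4 := hu.1
        rwa [dist_eq_norm] at this
      have e2 : ‖hh v - hh y‖ < 1 / 4 := by
        have : dist (hh v) (hh y) < 1 / 4 := hv.1
        rwa [dist_eq_norm] at this
      have e3 : hh v = hh u + lat k := by rw [hk, hhl]
      have e4 : lat m - lat k = (hh x + lat m - hh y) + (hh u - hh x) - (hh v - hh y) := by
        rw [e3]; abel
      have e5 : m = k := by
        apply eq_of_lat_close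
        rw [e4]
        have := norm_sub_le ((hh x + lat m - hh y) + (hh u - hh x)) (hh v - hh y)
        have := norm_add_le (hh x + lat m - hh y) (hh u - hh x)
        linarith
      rw [← e5] at hk
      exact Set.disjoint_left.1 hAB hu.2 (by rw [← hk]; exact hv.2)
    · push Not at hex
      refine ⟨_, _, (hball x).1, (hball y).1, (hball x).2, (hball y).2, fun u hu v hv h => ?_⟩
      obtain ⟨k, hk⟩ := (hr u v).1 h
      have e1 : ‖hh u - hh x‖ < 1 / 4 := by
        have : dist (hh u) (hh x) < 1 / 4 := hu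
        rwa [dist_eq_norm] at this
      have e2 : ‖hh v - hh y‖ < 1 / 4 := by
        have : dist (hh v) (hh y) < 1 / 4 := hv
        rwa [dist_eq_norm] at this
      have e3 : hh v = hh u + lat k := by rw [hk, hhl]
      have e4 : hh x + lat k - hh y = (hh v - hh y) - (hh u - hh x) := by
        rw [e3]; abel
      have e5 := hex k
      rw [e4] at e5
      have := norm_sub_le (hh v - hh y) (hh u - hh x)
      linarith

end Crest.Agent.R235.QMan_143
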