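import Mathlib
import Crest.Agent.R235.FDADef_365
import Crest.Agent.R235.FA6_365
import Crest.Agent.R235.QMan_143
import Crest.Agent.R235.FB6_365

/-!
Row 235, package FD-A (leader helper365), topological half, part 7 (helper435): `FDTOP` is a
theorem (`FA6_365.core` for the quotient of helper143).
-/

set_option autoImplicit false

open Topology Set

namespace Crest.Agent.R235.FA7_435

open Crest.Agent.R235.FDADef_365

theorem fdtop : FDTOP := by
  intro d hd X _ _ _ ι τ e F W K₁ H hι hιι hιne hττ hτe he hF hFι hK hW hWι hz hK₁ hKW hHc H0 Hz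
    H1 hx
  obtain ⟨Q, _, _, _, π, πc, πo, πs, hπ⟩ := QMan_143.exists_QM (n := d + 1) X ι hι hιι hιne
  obtain ⟨x₁, hx₁, hHx₁⟩ := hx
  have hτc : Continuous τ := τ.toLinearMap.continuous_of_finiteDimensional
  refine FA6_365.core (d := d) hd (X := X) (Q := Q) (ι := ⟨ι, hι⟩) hιι hιne (π := ⟨π, πc⟩) πo πs hπ
    (τ := ⟨τ, hτc⟩) hττ (map_zero τ) he hτe ?_ ⟨F, hF⟩ hFι ?_ hW hWι hz hK₁ hKW
    ⟨fun p => H p.1.1 p.2.1, ?_⟩ (fun x => H0 x.1 x.2) (fun x t h => Hz x.1 x.2 t.1 t.2 h) H1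
    ⟨x₁, hx₁⟩ hHx₁
  · rintro y hy ⟨s, hs, h⟩
    refine hy ⟨s, hs, ?_⟩
    have h1 : τ y = -(s • e) := h
    have h2 := congrArg τ h1
    rw [hττ, map_neg, map_smul, hτe] at h2
    exact h2
  · have : {x : X | F x ∉ FA4_365.V1 e} = {x | ∃ s : ℝ, 0 ≤ s ∧ F x = -(s • e)} := by
      ext x
      exact not_not
    exact this ▸ hK
  · exact hHc.comp_continuous (f := fun p : W × unitInterval => (p.1.1, (p.2.1 : ℝ)))
      (by fun_prop) fun p => ⟨p.1.2, p.2.2⟩

theorem ql : FB6_365.QL := fun n b X _ _ _ act hh hc h0 ha hhc hhl =>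
  QMan_143.exists_QL (n := n) (b := b) X act hc h0 ha hh hhc hhl

end Crest.Agent.R235.FA7_435
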