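import Mathlib
import Crest.Agent.R235.FDADef_365
import Crest.Agent.R235.Bet_785
import Crest.Agent.R235.FdB1_435

/-!
Row 235 (S0364), package FD-A, block B1 (helper435): the cut-off built from 785's functions.
-/

set_option autoImplicit false

open Topology Set

namespace Crest.Agent.R235.FdB1_435

open FDADef_365 Bet_785

variable {b : ℕ}

/-- the cut-off `θ = ∑ β_ε²`. -/
noncomputable def th (b : ℕ) (h : Fin b → ℝ) : ℝ := ∑ ε : Fin b → Bool, bet ε h ^ 2

theorem th_ne {h : Fin b → ℝ} (hh : th b h ≠ 0) : ‖h‖ < 1 := by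
  obtain ⟨ε, _, hε⟩ := Finset.exists_ne_zero_of_sum_ne_zero hh
  exact norm_lt_of_bet_ne (fun h0 => hε (by rw [h0]; simp))

theorem cut_th : Cut b (th b) where
  cont := by
    unfold th
    exact continuous_finsetSum _ fun ε _ => (continuous_bet ε).pow 2
  supp := by
    refine HasCompactSupport.of_support_subset_isCompact
      (isCompact_closedBall (0 : Fin b → ℝ) 1) fun h hh => ?_
    rw [mem_closedBall_zero_iff]
    exact (th_ne hh).le
  nonneg := fun h => Finset.sum_nonneg fun ε _ => sq_nonneg _
  sum := fun h => by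
    have h1 := sum_sq (b := b) h
    rw [← h1]
    unfold th
    rw [finsum_sum_comm]
    intro ε _
    refine (box b ‖h‖).finite_toSet.subset fun m hm => ?_
    refine mem_box (le_refl ‖h‖) (ε := ε) fun h0 => hm ?_
    show bet ε (h - lat m) ^ 2 = 0
    rw [h0]
    simp

theorem th_plateau {h : Fin b → ℝ} (hh : ‖h‖ ≤ 1 / 8) : th b h = 1 := by
  unfold th
  rw [Finset.sum_eq_single z0]
  · rw [plateau hh, one_pow]
  · intro ε _ hε
    have := plateau_zero (m := 0) hh (Or.inl hε)
    rw [Bet_785.lat_zero, sub_zero] at this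
    rw [this]
    simp
  · intro h0
    exact absurd (Finset.mem_univ _) h0

end Crest.Agent.R235.FdB1_435
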