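import Mathlib
import Crest.Agent.R235.FDADef_365
import Crest.Agent.R235.Bet_785
import Crest.Agent.R235.FdB1_435
import Crest.Agent.R235.FdB1b_435

/-!
Row 235 (S0364), package FD-A (helper365), block B4, part 1: the finite dimensional data.

* `sec j h` : the equivariant sections spanning a complement of the range of `Lh h`;
* `Zc j p`  : the coefficients of the compact part;
* `LL h (a, ψ, z) = Lh h ψ - ∑ z_j sec_j h`.
-/

set_option autoImplicit false

open Topology Set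

namespace Crest.Agent.R235.FB1_365

open FDADef_365 Bet_785 FdB1_435

/-- the indices -/
abbrev J (N b : ℕ) : Type := Fin N × (Fin b → Bool)

variable {b : ℕ} {A P Ya Yp : Type} [NormedAddCommGroup A] [NormedSpace ℝ A]
    [CompleteSpace A] [NormedAddCommGroup P] [NormedSpace ℝ P] [CompleteSpace P]
    [NormedAddCommGroup Ya] [InnerProductSpace ℝ Ya] [CompleteSpace Ya]
    [NormedAddCommGroup Yp] [InnerProductSpace ℝ Yp] [CompleteSpace Yp]

variable (S : SWData b A P Ya Yp) {N : ℕ} (y : Fin N → Yp)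

/-- the sections -/
noncomputable def sec (j : J N b) (h : Fin b → ℝ) : Yp :=
  bsum j.2 (fun m => S.V m (y j.1)) (h - S.h₀)

theorem sec_lat (j : J N b) (h : Fin b → ℝ) (n : Fin b → ℤ) :
    sec S y j (h + lat n) = S.V n (sec S y j h) := by
  unfold sec
  have h1 : h + lat n - S.h₀ = (h - S.h₀) + lat n := by abel
  rw [h1, bsum_add]
  have h2 := bsum_map j.2 ((S.V n : Yp →L[ℝ] Yp) : Yp →ₗ[ℝ] Yp) (fun m => S.V m (y j.1))
    (h - S.h₀)
  refine Eq.trans ?_ h2
  congr 1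
  funext m
  rw [add_comm, S.V_add]
  rfl

theorem sec_cont (j : J N b) : Continuous (sec S y j) := by
  unfold sec
  exact continuous_bsum j.2 (fun m _ => S.V m (y j.1)) (fun m => continuous_const) _
    (continuous_id.sub continuous_const)

/-- the coefficients of the compact part -/
noncomputable def Zc (j : J N b) (p : (Fin b → ℝ) × A × P) : ℝ :=
  bsum j.2 (fun m => inner ℝ (y j.1) (Kh S (th b) (p.1 - lat m, p.2.1, S.U (-m) p.2.2)))
    (p.1 - S.h₀)

theorem Zc_lat (j : J N b) (n : Fin b → ℤ) (h : Fin b → ℝ) (a : A) (ψ : P) :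
    Zc S y j (h + lat n, a, S.U n ψ) = Zc S y j (h, a, ψ) := by
  unfold Zc
  have h1 : h + lat n - S.h₀ = (h - S.h₀) + lat n := by abel
  simp only
  rw [h1, bsum_add]
  congr 1
  funext m
  have h2 : h + lat n - lat (m + n) = h - lat m := by rw [Bet_785.lat_add]; abel
  have h3 : S.U (-(m + n)) (S.U n ψ) = S.U (-m) ψ := by
    rw [← S.U_add]
    congr 2
    abel
  rw [h2, h3]

theorem Zc_odd (j : J N b) (h : Fin b → ℝ) (a : A) (ψ : P) :
    Zc S y j (h, a, -ψ) = - Zc S y j (h, a, ψ) := by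
  unfold Zc
  simp only
  have h1 := bsum_map j.2 (-(LinearMap.id : ℝ →ₗ[ℝ] ℝ))
    (fun m => inner ℝ (y j.1) (Kh S (th b) (h - lat m, a, S.U (-m) ψ))) (h - S.h₀)
  refine Eq.trans ?_ h1
  congr 1
  funext m
  rw [map_neg, Kh_odd, inner_neg_right]
  rfl

theorem Zc_cont (j : J N b) : Continuous (Zc S y j) := by
  unfold Zc
  refine continuous_bsum j.2 (fun m (p : (Fin b → ℝ) × A × P) =>
    (inner ℝ (y j.1) (Kh S (th b) (p.1 - lat m, p.2.1, S.U (-m) p.2.2)) : ℝ)) (fun m => ?_) _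
    (continuous_fst.sub continuous_const)
  refine continuous_const.inner ((Kh_cont S cut_th).comp ?_)
  exact (continuous_fst.sub continuous_const).prodMk ((by fun_prop : Continuous
    fun p : (Fin b → ℝ) × A × P => p.2.1).prodMk ((S.U (-m)).continuous.comp (by fun_prop)))

/-! ### near the canonical solution -/

theorem bsum_z0 {E : Type*} [AddCommGroup E] [Module ℝ E] {h : Fin b → ℝ} (hh : ‖h‖ ≤ 1 / 8)
    (F : (Fin b → ℤ) → E) : bsum z0 F h = F 0 := by
  have h1 : bet z0 (h - lat (0 : Fin b → ℤ)) = 1 := by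
    rw [Bet_785.lat_zero, sub_zero, plateau hh]
  rw [bsum_of_ne (m₀ := 0) (by rw [h1]; exact one_ne_zero), h1, one_smul]

theorem bsum_ne {E : Type*} [AddCommGroup E] [Module ℝ E] {h : Fin b → ℝ} (hh : ‖h‖ ≤ 1 / 8)
    {ε : Fin b → Bool} (hε : ε ≠ z0) (F : (Fin b → ℤ) → E) : bsum ε F h = 0 :=
  bsum_eq_zero (fun m => plateau_zero hh (Or.inl hε)) F

theorem sec_z0 {h : Fin b → ℝ} (hh : ‖h - S.h₀‖ ≤ 1 / 8) (i : Fin N) :
    sec S y (i, z0) h = y i := by
  unfold sec
  rw [bsum_z0 hh, V_zero]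

theorem sec_ne {h : Fin b → ℝ} (hh : ‖h - S.h₀‖ ≤ 1 / 8) (i : Fin N) {ε : Fin b → Bool}
    (hε : ε ≠ z0) : sec S y (i, ε) h = 0 := by
  unfold sec
  exact bsum_ne hh hε _

theorem Zc_z0 {p : (Fin b → ℝ) × A × P} (hh : ‖p.1 - S.h₀‖ ≤ 1 / 8) (i : Fin N) :
    Zc S y (i, z0) p = inner ℝ (y i) (S.Kp p) := by
  unfold Zc
  rw [bsum_z0 hh, Bet_785.lat_zero, sub_zero, neg_zero, U_zero,
    Kh_eq S cut_th (th_plateau hh)]

theorem Zc_ne {p : (Fin b → ℝ) × A × P} (hh : ‖p.1 - S.h₀‖ ≤ 1 / 8) (i : Fin N)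
    {ε : Fin b → Bool} (hε : ε ≠ z0) : Zc S y (i, ε) p = 0 := by
  unfold Zc
  exact bsum_ne hh hε _

/-- the sum over `J` reduces to the sum over `Fin N` -/
theorem sum_sec {h : Fin b → ℝ} (hh : ‖h - S.h₀‖ ≤ 1 / 8) (z : J N b → ℝ) :
    ∑ j, z j • sec S y j h = ∑ i, z (i, z0) • y i := by
  rw [Fintype.sum_prod_type]
  refine Finset.sum_congr rfl fun i _ => ?_
  rw [Finset.sum_eq_single z0]
  · rw [sec_z0 S y hh]
  · intro ε _ hε
    rw [sec_ne S y hh i hε, smul_zero]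
  · intro h0
    exact absurd (Finset.mem_univ _) h0

/-! ### the family of operators -/

/-- `LL h (a, ψ, z) = Lh h ψ - ∑ z_j sec_j h` -/
noncomputable def LL (Va : Submodule ℝ A) (h : Fin b → ℝ) :
    (Va × P × (J N b → ℝ)) →L[ℝ] Yp :=
  ((Lh S (th b) h).comp (ContinuousLinearMap.fst ℝ P (J N b → ℝ)) -
    ∑ j, ((ContinuousLinearMap.proj (R := ℝ) (φ := fun _ : J N b => ℝ) j).comp
      (ContinuousLinearMap.snd ℝ P (J N b → ℝ))).smulRight (sec S y j h)).comp
    (ContinuousLinearMap.snd ℝ Va (P × (J N b → ℝ)))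

variable (Va : Submodule ℝ A)

theorem LL_apply (h : Fin b → ℝ) (v : Va × P × (J N b → ℝ)) :
    LL S y Va h v = Lh S (th b) h v.2.1 - ∑ j, v.2.2 j • sec S y j h := by
  simp [LL]

theorem LL_cont : Continuous (LL S y Va) := by
  unfold LL
  have h1 := Lh_cont S (cut_th (b := b))
  have h2 : Continuous fun h => (Lh S (th b) h).comp (ContinuousLinearMap.fst ℝ P (J N b → ℝ)) -
    ∑ j, ((ContinuousLinearMap.proj (R := ℝ) (φ := fun _ : J N b => ℝ) j).comp
      (ContinuousLinearMap.snd ℝ P (J N b → ℝ))).smulRight (sec S y j h) := by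
    refine (h1.clm_comp continuous_const).sub (continuous_finsetSum _ fun j _ => ?_)
    exact (ContinuousLinearMap.smulRightL ℝ (P × (J N b → ℝ)) Yp
      ((ContinuousLinearMap.proj (R := ℝ) (φ := fun _ : J N b => ℝ) j).comp
      (ContinuousLinearMap.snd ℝ P (J N b → ℝ)))).continuous.comp (sec_cont S y j)
  exact h2.clm_comp continuous_const

theorem LL_lat (h : Fin b → ℝ) (n : Fin b → ℤ) (a : Va) (ψ : P) (z : J N b → ℝ) :
    LL S y Va (h + lat n) (a, S.U n ψ, z) = S.V n (LL S y Va h (a, ψ, z)) := by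
  rw [LL_apply, LL_apply, map_sub, Lh_lat S cut_th, map_sum]
  congr 1
  refine Finset.sum_congr rfl fun j _ => ?_
  rw [map_smul, sec_lat]

theorem LL_neg (h : Fin b → ℝ) (a : Va) (ψ : P) (z : J N b → ℝ) :
    LL S y Va h (a, -ψ, -z) = - LL S y Va h (a, ψ, z) := by
  rw [LL_apply, LL_apply, map_neg]
  simp only [Pi.neg_apply, neg_smul, Finset.sum_neg_distrib]
  abel

/-- surjectivity of `LL`, from a complement over a cell -/
theorem LL_surj (hs : ∀ h : Fin b → ℝ, ‖h - S.h₀‖ ≤ 1 →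
    Submodule.span ℝ (range y) ⊔ LinearMap.range (Lh S (th b) h : P →ₗ[ℝ] Yp) = ⊤)
    (h : Fin b → ℝ) : Function.Surjective (LL S y Va h) := by
  intro w
  obtain ⟨ε, m, hm⟩ := exists_ge (h - S.h₀)
  have h1 := norm_lt_of_bet_ne hm
  have h2 := hs (h - lat m) (by
    have : h - lat m - S.h₀ = h - S.h₀ - lat m := by abel
    rw [this]
    exact h1.le)
  have h3 : S.V (-m) w ∈ Submodule.span ℝ (range y) ⊔
      LinearMap.range (Lh S (th b) (h - lat m) : P →ₗ[ℝ] Yp) := by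
    rw [h2]
    trivial
  obtain ⟨u, hu, v, ⟨ψ, hψ⟩, huv⟩ := Submodule.mem_sup.1 h3
  obtain ⟨c, hc⟩ := (Submodule.mem_span_range_iff_exists_fun ℝ).1 hu
  set β : ℝ := bet ε (h - S.h₀ - lat m) with hβ
  have hψ' : Lh S (th b) (h - lat m) ψ = v := hψ
  have h4 : w = S.V m u + S.V m v := by
    rw [← map_add, huv, ← S.V_add, add_neg_cancel, V_zero]
  have h5 : Lh S (th b) h (S.U m ψ) = S.V m v := by
    rw [← hψ', ← Lh_lat S cut_th, sub_add_cancel]
  refine ⟨(0, S.U m ψ, fun j => if j.2 = ε then -(c j.1 / β) else 0), ?_⟩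
  rw [LL_apply]
  simp only
  rw [h5, Fintype.sum_prod_type]
  have h6 : ∀ i : Fin N, ∑ ε' : Fin b → Bool, (if ε' = ε then -(c i / β) else 0) •
      sec S y (i, ε') h = -(c i • S.V m (y i)) := by
    intro i
    rw [Finset.sum_eq_single ε]
    · rw [if_pos rfl]
      unfold sec
      rw [bsum_of_ne hm, ← hβ, smul_smul, neg_mul, div_mul_cancel₀ _ hm, neg_smul]
    · intro ε' _ hε'
      rw [if_neg hε', zero_smul]
    · intro h0
      exact absurd (Finset.mem_univ _) h0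
  rw [Finset.sum_congr rfl fun i _ => h6 i, Finset.sum_neg_distrib, sub_neg_eq_add, h4, ← hc,
    map_sum]
  rw [add_comm]
  congr 1
  refine Finset.sum_congr rfl fun i _ => ?_
  rw [map_smul]

end Crest.Agent.R235.FB1_365
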