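import Mathlib
import Crest.Agent.R235.FDADef_365
import Crest.Agent.R235.Bet_785
import Crest.Agent.R235.FdB1_435
import Crest.Agent.R235.FdB1b_435
import Crest.Agent.R235.FB1_365

/-!
Row 235 (S0364), package FD-A (helper365), block B4, part 2: the error of the finite dimensional
approximation.
-/

set_option autoImplicit false

open Topology Set

namespace Crest.Agent.R235.FB2_365

open FDADef_365 Bet_785 FdB1_435 FB1_365

variable {b : ℕ} {A P Ya Yp : Type} [NormedAddCommGroup A] [NormedSpace ℝ A]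
    [CompleteSpace A] [NormedAddCommGroup P] [NormedSpace ℝ P] [CompleteSpace P]
    [NormedAddCommGroup Ya] [InnerProductSpace ℝ Ya] [CompleteSpace Ya]
    [NormedAddCommGroup Yp] [InnerProductSpace ℝ Yp] [CompleteSpace Yp]

variable (S : SWData b A P Ya Yp) {N : ℕ} (y : Fin N → Yp)

/-- `w ↦ ∑ ⟪y_i, w⟫ y_i` -/
noncomputable def Pl (w : Yp) : Yp := ∑ i, (inner ℝ (y i) w : ℝ) • y i

/-- the error as a convex combination -/
theorem err_eq (h : Fin b → ℝ) (a : A) (ψ : P) : ∃ (c : (Fin b → Bool) → ℝ)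
    (m : (Fin b → Bool) → (Fin b → ℤ)), (∀ ε, 0 ≤ c ε) ∧ ∑ ε, c ε = 1 ∧
    (∀ ε, c ε ≠ 0 → ‖h - S.h₀ - lat (m ε)‖ < 1) ∧
    Kh S (th b) (h, a, ψ) - ∑ j, Zc S y j (h, a, ψ) • sec S y j h =
      ∑ ε, c ε • S.V (m ε) (Kh S (th b) (h - lat (m ε), a, S.U (-m ε) ψ) -
        Pl y (Kh S (th b) (h - lat (m ε), a, S.U (-m ε) ψ))) := by
  have h0 : ∀ ε : Fin b → Bool, ∃ m₀ : Fin b → ℤ,
      (∀ m, m ≠ m₀ → bet ε (h - S.h₀ - lat m) = 0) ∧
      (∀ F : (Fin b → ℤ) → Yp, bsum ε F (h - S.h₀) = bet ε (h - S.h₀ - lat m₀) • F m₀) ∧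
      ∀ F : (Fin b → ℤ) → ℝ, bsum ε F (h - S.h₀) = bet ε (h - S.h₀ - lat m₀) • F m₀ := by
    intro ε
    by_cases hex : ∃ m₀ : Fin b → ℤ, bet ε (h - S.h₀ - lat m₀) ≠ 0
    · obtain ⟨m₀, hm₀⟩ := hex
      refine ⟨m₀, fun m hm => ?_, fun F => bsum_of_ne hm₀ F, fun F => bsum_of_ne hm₀ F⟩
      by_contra hne
      exact hm (bet_disj hne hm₀)
    · push Not at hex
      exact ⟨0, fun m _ => hex m, fun F => by rw [bsum_eq_zero hex, hex, zero_smul],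
        fun F => by rw [bsum_eq_zero hex, hex, zero_smul]⟩
  choose m hm1 hm2 hm3 using h0
  have hsum : ∑ ε : Fin b → Bool, bet ε (h - S.h₀ - lat (m ε)) ^ 2 = 1 := by
    rw [← sum_sq (h - S.h₀)]
    refine Finset.sum_congr rfl fun ε _ => ?_
    refine (finsum_eq_single (fun n => bet ε (h - S.h₀ - lat n) ^ 2) (m ε) fun n hn => ?_).symm
    rw [hm1 ε n hn]
    simp
  refine ⟨fun ε => bet ε (h - S.h₀ - lat (m ε)) ^ 2, m, fun ε => sq_nonneg _, hsum, ?_, ?_⟩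
  · intro ε hε
    exact norm_lt_of_bet_ne (ε := ε) fun h1 => hε (by simp only; rw [h1]; simp)
  · have hK : Kh S (th b) (h, a, ψ) = ∑ ε, bet ε (h - S.h₀ - lat (m ε)) ^ 2 •
        S.V (m ε) (Kh S (th b) (h - lat (m ε), a, S.U (-m ε) ψ)) := by
      have h1 : ∀ n, S.V n (Kh S (th b) (h - lat n, a, S.U (-n) ψ)) = Kh S (th b) (h, a, ψ) := by
        intro n
        rw [← Kh_lat S cut_th, sub_add_cancel, ← S.U_add, add_neg_cancel, U_zero]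
      simp only [h1]
      rw [← Finset.sum_smul, hsum, one_smul]
    rw [hK, Fintype.sum_prod_type_right, ← Finset.sum_sub_distrib]
    refine Finset.sum_congr rfl fun ε _ => ?_
    rw [map_sub, smul_sub]
    congr 1
    unfold Pl
    rw [map_sum, Finset.smul_sum]
    refine Finset.sum_congr rfl fun i _ => ?_
    unfold sec Zc
    simp only
    rw [hm2, hm3, map_smul]
    simp only [smul_eq_mul]
    rw [smul_smul, smul_smul]
    congr 1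
    ring

theorem finite_lat (R : ℝ) : {m : Fin b → ℤ | ‖lat m‖ ≤ R}.Finite := by
  obtain ⟨n, hn⟩ := exists_nat_ge R
  refine (Finset.Icc (fun _ : Fin b => -(n : ℤ)) (fun _ => (n : ℤ))).finite_toSet.subset ?_
  intro m hm
  have hm' : ‖lat m‖ ≤ R := hm
  rw [Finset.mem_coe, Finset.mem_Icc]
  have h4 : ∀ i, |(m i : ℝ)| ≤ n := fun i => (norm_le_pi_norm (lat m) i).trans (hm'.trans hn)
  constructor
  · intro i
    have := (abs_le.1 (h4 i)).1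
    exact_mod_cast this
  · intro i
    have := (abs_le.1 (h4 i)).2
    exact_mod_cast this

/-- uniform bounds of the gauge transformations -/
theorem exists_UV (R : ℝ) : ∃ C : ℝ, 1 ≤ C ∧ ∀ m : Fin b → ℤ, ‖lat m‖ ≤ R →
    (∀ ψ, ‖S.U m ψ‖ ≤ C * ‖ψ‖) ∧ (∀ ψ, ‖S.U (-m) ψ‖ ≤ C * ‖ψ‖) ∧ ∀ w, ‖S.V m w‖ ≤ C * ‖w‖ := by
  have hf := finite_lat (b := b) R
  set s := hf.toFinset with hs
  set C : ℝ := 1 + ∑ m ∈ s, (‖(S.U m : P →L[ℝ] P)‖ + ‖(S.U (-m) : P →L[ℝ] P)‖ +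
    ‖(S.V m : Yp →L[ℝ] Yp)‖) with hC
  have h0 : ∀ m : Fin b → ℤ, 0 ≤ ‖(S.U m : P →L[ℝ] P)‖ + ‖(S.U (-m) : P →L[ℝ] P)‖ +
    ‖(S.V m : Yp →L[ℝ] Yp)‖ := fun m => by positivity
  refine ⟨C, ?_, fun m hm => ?_⟩
  · have := Finset.sum_nonneg fun m (_ : m ∈ s) => h0 m
    linarith
  have hms : m ∈ s := by
    rw [hs, Set.Finite.mem_toFinset]
    exact hm
  have h1 := Finset.single_le_sum (f := fun m : Fin b → ℤ => ‖(S.U m : P →L[ℝ] P)‖ +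
    ‖(S.U (-m) : P →L[ℝ] P)‖ + ‖(S.V m : Yp →L[ℝ] Yp)‖) (fun m _ => h0 m) hms
  have e1 := norm_nonneg (S.U m : P →L[ℝ] P)
  have e2 := norm_nonneg (S.U (-m) : P →L[ℝ] P)
  have e3 := norm_nonneg (S.V m : Yp →L[ℝ] Yp)
  refine ⟨fun ψ => ?_, fun ψ => ?_, fun w => ?_⟩
  · exact ((S.U m : P →L[ℝ] P).le_opNorm ψ).trans
      (mul_le_mul_of_nonneg_right (by linarith) (norm_nonneg _))
  · exact ((S.U (-m) : P →L[ℝ] P).le_opNorm ψ).trans
      (mul_le_mul_of_nonneg_right (by linarith) (norm_nonneg _))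
  · exact ((S.V m : Yp →L[ℝ] Yp).le_opNorm w).trans
      (mul_le_mul_of_nonneg_right (by linarith) (norm_nonneg _))

/-- the error bound -/
theorem err_le {C R' R₃ ε₀ : ℝ} (hC1 : 1 ≤ C)
    (hC : ∀ m : Fin b → ℤ, ‖lat m‖ ≤ 3 + ‖S.h₀‖ →
      (∀ ψ, ‖S.U m ψ‖ ≤ C * ‖ψ‖) ∧ (∀ ψ, ‖S.U (-m) ψ‖ ≤ C * ‖ψ‖) ∧ ∀ w, ‖S.V m w‖ ≤ C * ‖w‖)
    (hR0 : 0 ≤ R') (hR₃ : 1 + ‖S.h₀‖ ≤ R₃) (hR₃' : C * R' ≤ R₃)
    (happ : ∀ q : (Fin b → ℝ) × A × P, ‖q‖ ≤ R₃ →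
      ‖Kh S (th b) q - Pl y (Kh S (th b) q)‖ ≤ ε₀)
    {h : Fin b → ℝ} {a : A} {ψ : P} (hh : ‖h‖ ≤ 2) (ha : ‖a‖ ≤ R') (hψ : ‖ψ‖ ≤ R') :
    ‖Kh S (th b) (h, a, ψ) - ∑ j, Zc S y j (h, a, ψ) • sec S y j h‖ ≤ C * ε₀ := by
  obtain ⟨c, m, hc0, hc1, hm, he⟩ := err_eq S y h a ψ
  rw [he]
  refine (norm_sum_le _ _).trans ?_
  have h1 : ∀ ε, ‖c ε • S.V (m ε) (Kh S (th b) (h - lat (m ε), a, S.U (-m ε) ψ) -
        Pl y (Kh S (th b) (h - lat (m ε), a, S.U (-m ε) ψ)))‖ ≤ c ε * (C * ε₀) := by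
    intro ε
    rw [norm_smul, Real.norm_of_nonneg (hc0 ε)]
    by_cases hz : c ε = 0
    · rw [hz, zero_mul, zero_mul]
    refine mul_le_mul_of_nonneg_left ?_ (hc0 ε)
    have h2 := (hm ε hz).le
    have h3 : ‖lat (m ε)‖ ≤ 3 + ‖S.h₀‖ := by
      have e1 : lat (m ε) = h - S.h₀ - (h - S.h₀ - lat (m ε)) := by abel
      rw [e1]
      have e2 := norm_sub_le (h - S.h₀) (h - S.h₀ - lat (m ε))
      have e3 := norm_sub_le h S.h₀
      linarith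
    obtain ⟨-, h5, h6⟩ := hC _ h3
    refine (h6 _).trans (mul_le_mul_of_nonneg_left (happ _ ?_) (by linarith))
    have e4 : ‖h - lat (m ε)‖ ≤ R₃ := by
      have e5 : h - lat (m ε) = (h - S.h₀ - lat (m ε)) + S.h₀ := by abel
      rw [e5]
      refine (norm_add_le _ _).trans ?_
      linarith
    have e6 : ‖a‖ ≤ R₃ := by
      refine ha.trans (le_trans ?_ hR₃')
      nlinarith
    have e7 : ‖S.U (-m ε) ψ‖ ≤ R₃ := by
      refine (h5 ψ).trans (le_trans ?_ hR₃')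
      exact mul_le_mul_of_nonneg_left hψ (by linarith)
    rw [Prod.norm_def, Prod.norm_def]
    exact max_le e4 (max_le e6 e7)
  refine (Finset.sum_le_sum fun ε _ => h1 ε).trans ?_
  rw [← Finset.sum_mul, hc1, one_mul]

end Crest.Agent.R235.FB2_365
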