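import Mathlib
import Crest.Agent.R235.FDADef_365
import Crest.Agent.R235.FdB1a_435

/-!
Row 235 (S0364), package FD-A (helper365), block B4, part 3: dimension count and a uniform
complement of the ranges of a compact family of Fredholm operators.
-/

set_option autoImplicit false

open Topology Set Module

namespace Crest.Agent.R235.FB3_365

open FDADef_365

section dims

variable {A Y : Type} [NormedAddCommGroup A] [NormedSpace ℝ A]
    [NormedAddCommGroup Y] [InnerProductSpace ℝ Y] [CompleteSpace Y]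

/-- the restriction of `L` to the preimage of `W` -/
def resW (L : A →L[ℝ] Y) (W : Submodule ℝ Y) : (W.comap (L : A →ₗ[ℝ] Y)) →ₗ[ℝ] W :=
  (L : A →ₗ[ℝ] Y).restrict (p := W.comap (L : A →ₗ[ℝ] Y)) (q := W) (fun _ hx => hx)

/-- the kernel of the restriction is the kernel -/
def kerEquiv (L : A →L[ℝ] Y) (W : Submodule ℝ Y) :
    LinearMap.ker (resW L W) ≃ₗ[ℝ] LinearMap.ker (L : A →ₗ[ℝ] Y) where
  toFun x := ⟨((x : W.comap (L : A →ₗ[ℝ] Y)) : A), by
    have hx : resW L W x.1 = 0 := x.2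
    have h1 : ((resW L W x.1 : W) : Y) = 0 := by rw [hx]; rfl
    exact h1⟩
  map_add' x y := rfl
  map_smul' c x := rfl
  invFun y := ⟨⟨(y : A), by
    have hy : L (y : A) = 0 := y.2
    show L (y : A) ∈ W
    rw [hy]; exact W.zero_mem⟩, by
    have hy : L (y : A) = 0 := y.2
    exact Subtype.ext hy⟩
  left_inv x := rfl
  right_inv y := rfl

omit [CompleteSpace Y] in
theorem finDim_comap (L : A →L[ℝ] Y)
    (hk : FiniteDimensional ℝ (LinearMap.ker (L : A →ₗ[ℝ] Y)))
    (W : Submodule ℝ Y) (hW : FiniteDimensional ℝ W) :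
    FiniteDimensional ℝ (W.comap (L : A →ₗ[ℝ] Y)) := by
  have hker : FiniteDimensional ℝ (LinearMap.ker (resW L W)) :=
    LinearEquiv.finiteDimensional (kerEquiv L W).symm
  have hq : FiniteDimensional ℝ
      ((W.comap (L : A →ₗ[ℝ] Y)) ⧸ LinearMap.ker (resW L W)) :=
    LinearEquiv.finiteDimensional (resW L W).quotKerEquivRange.symm
  exact Module.Finite.of_submodule_quotient (LinearMap.ker (resW L W))

/-- the dimension of the preimage -/
theorem dimA (L : A →L[ℝ] Y) (hL : Fred L) (W : Submodule ℝ Y) [hW : FiniteDimensional ℝ W]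
    (hWr : (LinearMap.range (L : A →ₗ[ℝ] Y))ᗮ ≤ W) :
    FiniteDimensional ℝ (W.comap (L : A →ₗ[ℝ] Y)) ∧
      (finrank ℝ (W.comap (L : A →ₗ[ℝ] Y)) : ℤ) = ind L + finrank ℝ W := by
  have hcf := finDim_comap L hL.ker W hW
  have h1 := (resW L W).finrank_range_add_finrank_ker
  have h2 : finrank ℝ (LinearMap.ker (resW L W)) =
      finrank ℝ (LinearMap.ker (L : A →ₗ[ℝ] Y)) := (kerEquiv L W).finrank_eq
  have hclosed : IsClosed ((LinearMap.range (L : A →ₗ[ℝ] Y) : Submodule ℝ Y) : Set Y) := by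
    have : ((LinearMap.range (L : A →ₗ[ℝ] Y) : Submodule ℝ Y) : Set Y) = Set.range L := by
      ext y; simp
    rw [this]; exact hL.closed
  have hperp : ((LinearMap.range (L : A →ₗ[ℝ] Y))ᗮ)ᗮ = LinearMap.range (L : A →ₗ[ℝ] Y) := by
    rw [Submodule.orthogonal_orthogonal_eq_closure]
    exact hclosed.submodule_topologicalClosure_eq
  have h3 := Submodule.finrank_add_inf_finrank_orthogonal hWr
  rw [hperp] at h3
  have h4 : finrank ℝ (LinearMap.range (resW L W)) =
      finrank ℝ (LinearMap.range (L : A →ₗ[ℝ] Y) ⊓ W : Submodule ℝ Y) := by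
    have hmap : (LinearMap.range (resW L W)).map W.subtype =
        LinearMap.range (L : A →ₗ[ℝ] Y) ⊓ W := by
      ext y
      constructor
      · rintro ⟨w, ⟨x, rfl⟩, rfl⟩
        exact ⟨⟨(x : A), rfl⟩, (resW L W x).2⟩
      · rintro ⟨⟨x, rfl⟩, hxW⟩
        exact ⟨⟨L x, hxW⟩, ⟨⟨x, hxW⟩, rfl⟩, rfl⟩
    rw [← hmap]
    exact (LinearEquiv.finrank_eq (Submodule.equivMapOfInjective W.subtype
      (Submodule.injective_subtype W) _))
  refine ⟨hcf, ?_⟩
  unfold ind
  omega

/-- the kernel of `(x, z) ↦ L x - s z`, surjective -/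
theorem dimP {E F : Type} [AddCommGroup E] [Module ℝ E] [AddCommGroup F] [Module ℝ F]
    [FiniteDimensional ℝ F] (L : A →L[ℝ] Y) (hL : Fred L) (e : E ≃ₗ[ℝ] A × F) (s : F →ₗ[ℝ] Y)
    (T : E →ₗ[ℝ] Y) (hT : ∀ x, T x = L (e x).1 - s (e x).2) (hsurj : Function.Surjective T) :
    FiniteDimensional ℝ (LinearMap.ker T) ∧
      (finrank ℝ (LinearMap.ker T) : ℤ) = ind L + finrank ℝ F := by
  have hLk := hL.ker
  set R : Submodule ℝ Y := LinearMap.range (L : A →ₗ[ℝ] Y) with hR
  have hRc : IsClosed (R : Set Y) := hL.closed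
  have : CompleteSpace R := hRc.completeSpace_coe
  -- the map onto the quotient
  let q : F →ₗ[ℝ] (Y ⧸ R) := R.mkQ ∘ₗ s
  have hq : Function.Surjective q := by
    intro w
    obtain ⟨y, rfl⟩ := R.mkQ_surjective w
    obtain ⟨x, rfl⟩ := hsurj y
    refine ⟨-(e x).2, ?_⟩
    show R.mkQ (s (-(e x).2)) = R.mkQ (T x)
    rw [hT, map_sub, map_neg, map_neg]
    have : R.mkQ (L (e x).1) = 0 := by
      rw [Submodule.mkQ_apply, Submodule.Quotient.mk_eq_zero]
      exact ⟨(e x).1, rfl⟩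
    rw [this, zero_sub]
  have hqf : finrank ℝ (LinearMap.range q) = finrank ℝ (Rᗮ : Submodule ℝ Y) := by
    rw [LinearMap.range_eq_top.2 hq, finrank_top]
    exact (Submodule.quotientEquivOfIsCompl _ _ (Submodule.isCompl_orthogonal R)).finrank_eq
  have h1 := q.finrank_range_add_finrank_ker
  -- the projection of the kernel
  let g : LinearMap.ker T →ₗ[ℝ] F := (LinearMap.snd ℝ A F ∘ₗ (e : E →ₗ[ℝ] A × F)) ∘ₗ
    (LinearMap.ker T).subtype
  have hg : ∀ x : LinearMap.ker T, g x = (e (x : E)).2 := fun x => rfl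
  have hgr : LinearMap.range g = LinearMap.ker q := by
    ext z
    constructor
    · rintro ⟨x, rfl⟩
      have hx : T (x : E) = 0 := x.2
      rw [hT, sub_eq_zero] at hx
      show R.mkQ (s (g x)) = 0
      rw [hg, ← hx, Submodule.mkQ_apply, Submodule.Quotient.mk_eq_zero]
      exact ⟨_, rfl⟩
    · intro hz
      have hz' : R.mkQ (s z) = 0 := hz
      rw [Submodule.mkQ_apply, Submodule.Quotient.mk_eq_zero] at hz'
      obtain ⟨a, ha⟩ := hz'
      have ha' : L a = s z := ha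
      refine ⟨⟨e.symm (a, z), ?_⟩, ?_⟩
      · show T (e.symm (a, z)) = 0
        rw [hT, e.apply_symm_apply, ha', sub_self]
      · rw [hg]
        simp
  have hgk : LinearMap.ker g ≃ₗ[ℝ] LinearMap.ker (L : A →ₗ[ℝ] Y) :=
    { toFun := fun x => ⟨(e ((x : LinearMap.ker T) : E)).1, by
        have hx1 : T ((x : LinearMap.ker T) : E) = 0 := x.1.2
        have hx2 : (e ((x : LinearMap.ker T) : E)).2 = 0 := x.2
        rw [hT, hx2, map_zero, sub_zero] at hx1
        exact hx1⟩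
      map_add' := fun x y => by
        apply Subtype.ext
        show (e (((x : LinearMap.ker T) : E) + ((y : LinearMap.ker T) : E))).1 = _
        rw [map_add]
        rfl
      map_smul' := fun c x => by
        apply Subtype.ext
        show (e (c • ((x : LinearMap.ker T) : E))).1 = _
        rw [map_smul]
        rfl
      invFun := fun a => ⟨⟨e.symm ((a : A), 0), by
        have ha : L (a : A) = 0 := a.2
        show T (e.symm ((a : A), 0)) = 0
        rw [hT, e.apply_symm_apply, ha, map_zero, sub_zero]⟩, by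
        show (e (e.symm ((a : A), 0))).2 = 0
        rw [e.apply_symm_apply]⟩
      left_inv := fun x => by
        apply Subtype.ext
        apply Subtype.ext
        have hx2 : (e ((x : LinearMap.ker T) : E)).2 = 0 := x.2
        show e.symm ((e ((x : LinearMap.ker T) : E)).1, 0) = ((x : LinearMap.ker T) : E)
        rw [LinearEquiv.symm_apply_eq]
        exact Prod.ext rfl hx2.symm
      right_inv := fun a => by
        apply Subtype.ext
        show (e (e.symm ((a : A), 0))).1 = a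
        rw [e.apply_symm_apply] }
  have hgkf : FiniteDimensional ℝ (LinearMap.ker g) := LinearEquiv.finiteDimensional hgk.symm
  have hqk : FiniteDimensional ℝ (LinearMap.ker T ⧸ LinearMap.ker g) :=
    LinearEquiv.finiteDimensional g.quotKerEquivRange.symm
  have hfin : FiniteDimensional ℝ (LinearMap.ker T) :=
    Module.Finite.of_submodule_quotient (LinearMap.ker g)
  have h2 := g.finrank_range_add_finrank_ker
  rw [hgr, hgk.finrank_eq] at h2
  refine ⟨hfin, ?_⟩
  unfold ind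
  rw [← hR]
  omega

end dims

section compl

variable {P Y : Type} [NormedAddCommGroup P] [NormedSpace ℝ P] [CompleteSpace P]
    [NormedAddCommGroup Y] [InnerProductSpace ℝ Y] [CompleteSpace Y]

/-- a right inverse modulo the orthogonal complement of the range -/
theorem exists_rinv {L : P →L[ℝ] Y} (h : Fred L) : ∃ T : Y →L[ℝ] P,
    ∀ w, w - L (T w) ∈ (LinearMap.range (L : P →ₗ[ℝ] Y))ᗮ := by
  have hk := h.ker
  obtain ⟨Q, hQ, hKQ⟩ := FdB1_435.exists_compl L
  set R : Submodule ℝ Y := LinearMap.range (L : P →ₗ[ℝ] Y) with hR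
  have hRc : IsClosed (R : Set Y) := h.closed
  have : CompleteSpace Q := hQ.completeSpace_coe
  have : CompleteSpace R := hRc.completeSpace_coe
  let f : Q →L[ℝ] R := (L.comp Q.subtypeL).codRestrict R fun x => ⟨x, rfl⟩
  have hf : Function.Bijective f := by
    constructor
    · rw [injective_iff_map_eq_zero]
      intro x hx
      have h1 : L x = 0 := congrArg Subtype.val hx
      have h2 : (x : P) ∈ LinearMap.ker (L : P →ₗ[ℝ] Y) ⊓ Q := ⟨h1, x.2⟩
      rw [hKQ.inf_eq_bot] at h2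
      exact Subtype.ext ((Submodule.mem_bot ℝ).1 h2)
    · rintro ⟨y, x, hx⟩
      have h3 : x ∈ LinearMap.ker (L : P →ₗ[ℝ] Y) ⊔ Q := by rw [hKQ.sup_eq_top]; trivial
      obtain ⟨n, hn, q, hq, rfl⟩ := Submodule.mem_sup.1 h3
      refine ⟨⟨q, hq⟩, Subtype.ext ?_⟩
      have h4 : L n = 0 := hn
      have h5 : L (n + q) = y := hx
      rw [map_add, h4, zero_add] at h5
      exact h5
  let e : Q ≃L[ℝ] R := ContinuousLinearEquiv.ofBijective f
    (LinearMap.ker_eq_bot.2 hf.1) (LinearMap.range_eq_top.2 hf.2)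
  let T : Y →L[ℝ] P := Q.subtypeL.comp ((e.symm : R →L[ℝ] Q).comp R.orthogonalProjectionOnto)
  refine ⟨T, fun w => ?_⟩
  have h9 : L (T w) = (R.orthogonalProjectionOnto w : Y) := by
    show L ((e.symm (R.orthogonalProjectionOnto w) : Q) : P) = _
    have : L ((e.symm (R.orthogonalProjectionOnto w) : Q) : P) =
      ((e (e.symm (R.orthogonalProjectionOnto w)) : R) : Y) := rfl
    rw [this, e.apply_symm_apply]
  rw [h9]
  have h10 := R.sub_starProjection_mem_orthogonal w
  rwa [R.starProjection_apply] at h10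

theorem exists_nhds_sup {L : P →L[ℝ] Y} (h : Fred L) : ∃ ε > 0, ∀ L' : P →L[ℝ] Y,
    ‖L' - L‖ < ε →
    (LinearMap.range (L : P →ₗ[ℝ] Y))ᗮ ⊔ LinearMap.range (L' : P →ₗ[ℝ] Y) = ⊤ := by
  obtain ⟨T, hT⟩ := exists_rinv h
  refine ⟨1 / (‖T‖ + 1), by positivity, fun L' hL' => ?_⟩
  rw [eq_top_iff]
  intro w _
  set B : Y →L[ℝ] Y := (L' - L).comp T with hB
  have h1 : ‖-B‖ < 1 := by
    rw [norm_neg]
    refine lt_of_le_of_lt ((L' - L).opNorm_comp_le T) ?_
    rw [lt_div_iff₀ (by positivity)] at hL'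
    have := norm_nonneg (L' - L)
    have := norm_nonneg T
    nlinarith
  have h2 : IsUnit (1 - -B) := isUnit_one_sub_of_norm_lt_one h1
  obtain ⟨u, hu⟩ := h2
  have h3 : (u : Y →L[ℝ] Y) (((u⁻¹ : (Y →L[ℝ] Y)ˣ) : Y →L[ℝ] Y) w) = w := by
    have : ((u : Y →L[ℝ] Y) * ((u⁻¹ : (Y →L[ℝ] Y)ˣ) : Y →L[ℝ] Y)) w = w := by
      rw [Units.mul_inv]
      rfl
    exact this
  set v := ((u⁻¹ : (Y →L[ℝ] Y)ˣ) : Y →L[ℝ] Y) w with hv
  rw [hu] at h3
  have h4 : w = (v - L (T v)) + L' (T v) := by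
    rw [← h3]
    show v - -((L' - L) (T v)) = _
    rw [_root_.sub_apply]
    abel
  rw [h4]
  exact Submodule.add_mem_sup (hT v) ⟨T v, rfl⟩

/-- **a uniform complement** -/
theorem exists_compl_unif {H : Type*} [TopologicalSpace H] {C : Set H} (hC : IsCompact C)
    (Lf : H → P →L[ℝ] Y) (hLf : Continuous Lf) (hF : ∀ h, Fred (Lf h)) :
    ∃ W : Submodule ℝ Y, FiniteDimensional ℝ W ∧
      ∀ h ∈ C, W ⊔ LinearMap.range (Lf h : P →ₗ[ℝ] Y) = ⊤ := by
  have h1 : ∀ h₁ ∈ C, ∃ U ∈ 𝓝[C] h₁, ∀ h ∈ U,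
      (LinearMap.range (Lf h₁ : P →ₗ[ℝ] Y))ᗮ ⊔ LinearMap.range (Lf h : P →ₗ[ℝ] Y) = ⊤ := by
    intro h₁ _
    obtain ⟨ε, hε, h2⟩ := exists_nhds_sup (hF h₁)
    refine ⟨{h | ‖Lf h - Lf h₁‖ < ε}, ?_, fun h hh => h2 _ hh⟩
    apply mem_nhdsWithin_of_mem_nhds
    have h3 : ContinuousAt (fun h => ‖Lf h - Lf h₁‖) h₁ :=
      (hLf.sub continuous_const).norm.continuousAt
    have h4 : (fun h => ‖Lf h - Lf h₁‖) h₁ < ε := by
      simp only
      rw [sub_self, norm_zero]
      exact hε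
    exact h3.eventually (gt_mem_nhds h4)
  refine hC.induction_on (p := fun D => ∃ W : Submodule ℝ Y, FiniteDimensional ℝ W ∧
      ∀ h ∈ D, W ⊔ LinearMap.range (Lf h : P →ₗ[ℝ] Y) = ⊤) ?_ ?_ ?_ ?_
  · exact ⟨⊥, inferInstance, fun h hh => absurd hh (notMem_empty h)⟩
  · rintro D D' hDD' ⟨W, hW, h2⟩
    exact ⟨W, hW, fun h hh => h2 h (hDD' hh)⟩
  · rintro D D' ⟨W, hW, h2⟩ ⟨W', hW', h2'⟩
    refine ⟨W ⊔ W', Submodule.finiteDimensional_sup _ _, ?_⟩
    rintro h (hh | hh)
    · rw [eq_top_iff, ← h2 h hh]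
      exact sup_le_sup_right le_sup_left _
    · rw [eq_top_iff, ← h2' h hh]
      exact sup_le_sup_right le_sup_right _
  · intro h₁ hh₁
    obtain ⟨U, hU, h2⟩ := h1 h₁ hh₁
    exact ⟨U, hU, _, (hF h₁).coker, h2⟩

end compl

end Crest.Agent.R235.FB3_365
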