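import Mathlib
import Crest.Agent.R235.FDADef_365

/-!
Row 235 (S0364), package FD-A (leader helper365), block B3 (helper435): the total space of the
kernels of a continuous family of surjective Fredholm operators over `ℝᵇ` is a topological
manifold, and its bounded closed pieces over compact sets are compact.
-/

set_option autoImplicit false

open Topology Set

namespace Crest.Agent.R235.Tot_435

open FDADef_365

variable {b : ℕ} {E Y : Type} [NormedAddCommGroup E] [NormedSpace ℝ E] [CompleteSpace E]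
  [NormedAddCommGroup Y] [NormedSpace ℝ Y] [CompleteSpace Y]

/-- local trivialisation: `(LL h, π)` is invertible near `h₀`. -/
theorem exists_triv {LL : (Fin b → ℝ) → (E →L[ℝ] Y)} (hc : Continuous LL) (h₀ : Fin b → ℝ)
    (hs : Function.Surjective (LL h₀)) (K : Submodule ℝ E) [FiniteDimensional ℝ K]
    (hK : ∀ v, v ∈ K ↔ LL h₀ v = 0) :
    ∃ (π : E →L[ℝ] K) (U : Set (Fin b → ℝ)) (g : (Fin b → ℝ) × K → E),
      IsOpen U ∧ h₀ ∈ U ∧ ContinuousOn g (U ×ˢ univ) ∧
      (∀ q, LL q.1 (g q) = 0) ∧ (∀ q, q.1 ∈ U → π (g q) = q.2) ∧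
      (∀ h ∈ U, ∀ v, LL h v = 0 → g (h, π v) = v) := by
  obtain ⟨π, hπ⟩ := Submodule.ClosedComplemented.of_finiteDimensional K
  let Φ : (Fin b → ℝ) → (E →L[ℝ] Y × K) := fun h => (LL h).prod π
  have hΦc : Continuous Φ :=
    (ContinuousLinearMap.prodₗᵢ (𝕜 := ℝ) (E := E) (F := Y) (G := K) ℝ).continuous.comp
      (hc.prodMk continuous_const)
  have hΦ0 : Function.Bijective (Φ h₀) := by
    constructor
    · rw [injective_iff_map_eq_zero]
      intro v hv
      have h1 : LL h₀ v = 0 := congrArg Prod.fst hv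
      have h2 : π v = 0 := congrArg Prod.snd hv
      have h3 := hπ ⟨v, (hK v).2 h1⟩
      have h4 : (⟨v, (hK v).2 h1⟩ : K) = 0 := by rw [← h3]; exact h2
      exact congrArg Subtype.val h4
    · rintro ⟨y, w⟩
      obtain ⟨v, hv⟩ := hs y
      refine ⟨v - (π v : E) + w, Prod.ext ?_ ?_⟩
      · have h1 : LL h₀ (π v : E) = 0 := (hK _).1 (π v).2
        have h2 : LL h₀ (w : E) = 0 := (hK _).1 w.2
        show LL h₀ (v - (π v : E) + w) = y
        rw [map_add, map_sub, h1, h2, hv, sub_zero, add_zero]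
      · show π (v - (π v : E) + w) = w
        rw [map_add, map_sub, hπ, hπ, sub_self, zero_add]
  let e₀ : E ≃L[ℝ] Y × K := ContinuousLinearEquiv.ofBijective (Φ h₀)
    (LinearMap.ker_eq_bot.2 hΦ0.1) (LinearMap.range_eq_top.2 hΦ0.2)
  have he₀ : (e₀ : E →L[ℝ] Y × K) = Φ h₀ := by ext <;> rfl
  let U : Set (Fin b → ℝ) := Φ ⁻¹' (range ((↑) : (E ≃L[ℝ] Y × K) → E →L[ℝ] Y × K))
  have hUo : IsOpen U := ContinuousLinearEquiv.isOpen.preimage hΦc
  have hU0 : h₀ ∈ U := ⟨e₀, he₀⟩
  have hinv : ∀ h ∈ U, ContinuousAt (fun h => ContinuousLinearMap.inverse (Φ h)) h := by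
    rintro h ⟨e, he⟩
    have h1 : ContinuousAt (ContinuousLinearMap.inverse : (E →L[ℝ] Y × K) → _) (Φ h) := by
      rw [← he]
      exact (contDiffAt_map_inverse (n := 0) e).continuousAt
    exact ContinuousAt.comp (f := Φ) h1 hΦc.continuousAt
  let g : (Fin b → ℝ) × K → E := fun q => ContinuousLinearMap.inverse (Φ q.1) (0, q.2)
  refine ⟨π, U, g, hUo, hU0, ?_, ?_, ?_, ?_⟩
  · rintro ⟨h, w⟩ ⟨hh, -⟩
    apply ContinuousAt.continuousWithinAt
    have h1 : ContinuousAt (fun q : (Fin b → ℝ) × K => ContinuousLinearMap.inverse (Φ q.1)) (h, w) :=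
      ContinuousAt.comp (g := fun h => ContinuousLinearMap.inverse (Φ h))
        (f := fun q : (Fin b → ℝ) × K => q.1) (x := (h, w)) (hinv h hh) continuousAt_fst
    have h2 : ContinuousAt (fun q : (Fin b → ℝ) × K => ((0 : Y), q.2)) (h, w) := by fun_prop
    exact h1.clm_apply h2
  · intro q
    by_cases hq : q.1 ∈ U
    · obtain ⟨e, he⟩ := hq
      show LL q.1 (ContinuousLinearMap.inverse (Φ q.1) (0, q.2)) = 0
      rw [← he, ContinuousLinearMap.inverse_equiv]
      have h1 : Φ q.1 (e.symm (0, q.2)) = (0, q.2) := by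
        rw [← he]
        exact e.apply_symm_apply _
      exact congrArg Prod.fst h1
    · have h1 : ¬ (Φ q.1).IsInvertible := hq
      show LL q.1 (ContinuousLinearMap.inverse (Φ q.1) (0, q.2)) = 0
      rw [ContinuousLinearMap.inverse_of_not_isInvertible h1]
      simp
  · rintro q ⟨e, he⟩
    show π (ContinuousLinearMap.inverse (Φ q.1) (0, q.2)) = q.2
    rw [← he, ContinuousLinearMap.inverse_equiv]
    have h1 : Φ q.1 (e.symm (0, q.2)) = (0, q.2) := by
      rw [← he]
      exact e.apply_symm_apply _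
    exact congrArg Prod.snd h1
  · rintro h ⟨e, he⟩ v hv
    show ContinuousLinearMap.inverse (Φ h) (0, π v) = v
    have h1 : ((0 : Y), π v) = e v := by
      have h2 : (e : E →L[ℝ] Y × K) v = Φ h v := by rw [he]
      refine Eq.trans ?_ h2.symm
      exact Prod.ext hv.symm rfl
    rw [← he, ContinuousLinearMap.inverse_equiv, h1]
    exact e.symm_apply_apply v

/-- a chart near a point. -/
theorem exists_chart {LL : (Fin b → ℝ) → (E →L[ℝ] Y)} (hc : Continuous LL)
    (hs : ∀ h, Function.Surjective (LL h)) {k : ℕ}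
    (hf : ∀ h, FiniteDimensional ℝ (LinearMap.ker (LL h : E →ₗ[ℝ] Y)))
    (hk : ∀ h, Module.finrank ℝ (LinearMap.ker (LL h : E →ₗ[ℝ] Y)) = k)
    (x : {p : (Fin b → ℝ) × E // LL p.1 p.2 = 0}) :
    ∃ e : OpenPartialHomeomorph {p : (Fin b → ℝ) × E // LL p.1 p.2 = 0} (EE (b + k)),
      x ∈ e.source := by
  have hf' := hf x.1.1
  obtain ⟨π, U, g, hU, hxU, hg, h1, h2, h3⟩ := exists_triv hc x.1.1 (hs x.1.1)
    (LinearMap.ker (LL x.1.1 : E →ₗ[ℝ] Y)) (fun v => Iff.rfl)
  have hfr : Module.finrank ℝ ((Fin b → ℝ) × LinearMap.ker (LL x.1.1 : E →ₗ[ℝ] Y)) =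
      Module.finrank ℝ (EE (b + k)) := by
    rw [Module.finrank_prod, Module.finrank_fin_fun, hk, finrank_euclideanSpace_fin]
  let J : ((Fin b → ℝ) × LinearMap.ker (LL x.1.1 : E →ₗ[ℝ] Y)) ≃L[ℝ] EE (b + k) :=
    ContinuousLinearEquiv.ofFinrankEq hfr
  refine ⟨{ toFun := fun p => J (p.1.1, π p.1.2)
            invFun := fun y => ⟨((J.symm y).1, g (J.symm y)), h1 _⟩
            source := {p | p.1.1 ∈ U}
            target := {y | (J.symm y).1 ∈ U}
            map_source' := ?_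
            map_target' := ?_
            left_inv' := ?_
            right_inv' := ?_
            open_source := ?_
            open_target := ?_
            continuousOn_toFun := ?_
            continuousOn_invFun := ?_ }, hxU⟩
  · intro p hp
    show (J.symm (J (p.1.1, π p.1.2))).1 ∈ U
    rw [J.symm_apply_apply]
    exact hp
  · intro y hy
    exact hy
  · rintro ⟨⟨h, v⟩, hv⟩ hp
    apply Subtype.ext
    show ((J.symm (J (h, π v))).1, g (J.symm (J (h, π v)))) = (h, v)
    rw [J.symm_apply_apply, h3 h hp v hv]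
  · intro y hy
    show J ((J.symm y).1, π (g (J.symm y))) = y
    rw [h2 _ hy]
    exact J.apply_symm_apply y
  · apply Continuous.continuousOn
    fun_prop
  · have hcont : ContinuousOn (fun y => ((J.symm y).1, g (J.symm y))) {y | (J.symm y).1 ∈ U} := by
      refine ContinuousOn.prodMk (Continuous.continuousOn (by fun_prop)) ?_
      exact hg.comp (Continuous.continuousOn J.symm.continuous) fun y hy => ⟨hy, mem_univ _⟩
    exact (Topology.IsInducing.continuousOn_iff (g := Subtype.val)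
      (Topology.IsInducing.mk rfl)).2 hcont
  · exact hU.preimage (continuous_fst.comp continuous_subtype_val)
  · exact hU.preimage (continuous_fst.comp J.symm.continuous)

/-- (a) the total space is a topological manifold of dimension `b + k`. -/
theorem chartedSpace {LL : (Fin b → ℝ) → (E →L[ℝ] Y)} (hc : Continuous LL)
    (hs : ∀ h, Function.Surjective (LL h)) {k : ℕ}
    (hf : ∀ h, FiniteDimensional ℝ (LinearMap.ker (LL h : E →ₗ[ℝ] Y)))
    (hk : ∀ h, Module.finrank ℝ (LinearMap.ker (LL h : E →ₗ[ℝ] Y)) = k) :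
    Nonempty (ChartedSpace (EE (b + k)) {p : (Fin b → ℝ) × E // LL p.1 p.2 = 0}) := by
  choose e he using exists_chart hc hs hf hk
  exact ⟨{ atlas := range e
           chartAt := e
           mem_chart_source := he
           chart_mem_atlas := fun x => ⟨x, rfl⟩ }⟩

/-- (b) bounded closed pieces over compact sets are compact. -/
theorem isCompact_piece {LL : (Fin b → ℝ) → (E →L[ℝ] Y)} (hc : Continuous LL)
    (hs : ∀ h, Function.Surjective (LL h))
    (hf : ∀ h, FiniteDimensional ℝ (LinearMap.ker (LL h : E →ₗ[ℝ] Y)))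
    {C : Set (Fin b → ℝ)} (hC : IsCompact C) (R : ℝ) :
    IsCompact {p : (Fin b → ℝ) × E | p.1 ∈ C ∧ LL p.1 p.2 = 0 ∧ ‖p.2‖ ≤ R} := by
  have hcov : ∃ Q : Set ((Fin b → ℝ) × E), IsCompact Q ∧
      {p : (Fin b → ℝ) × E | p.1 ∈ C ∧ LL p.1 p.2 = 0 ∧ ‖p.2‖ ≤ R} ⊆ Q := by
    refine hC.induction_on (p := fun t => ∃ Q : Set ((Fin b → ℝ) × E), IsCompact Q ∧
      {p : (Fin b → ℝ) × E | p.1 ∈ t ∧ LL p.1 p.2 = 0 ∧ ‖p.2‖ ≤ R} ⊆ Q) ?_ ?_ ?_ ?_
    · exact ⟨∅, isCompact_empty, fun p hp => hp.1.elim⟩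
    · rintro s t hst ⟨Q, hQ, h⟩
      exact ⟨Q, hQ, fun p hp => h ⟨hst hp.1, hp.2⟩⟩
    · rintro s t ⟨Q, hQ, h⟩ ⟨Q', hQ', h'⟩
      refine ⟨Q ∪ Q', hQ.union hQ', ?_⟩
      rintro p ⟨hp | hp, hp2⟩
      · exact Or.inl (h ⟨hp, hp2⟩)
      · exact Or.inr (h' ⟨hp, hp2⟩)
    · intro h₀ _
      have hf' := hf h₀
      obtain ⟨π, U, g, hU, hxU, hg, h1, h2, h3⟩ := exists_triv hc h₀ (hs h₀)
        (LinearMap.ker (LL h₀ : E →ₗ[ℝ] Y)) (fun v => Iff.rfl)
      obtain ⟨ε, hε, hball⟩ := Metric.isOpen_iff.1 hU h₀ hxU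
      have hsub : Metric.closedBall h₀ (ε / 2) ⊆ U :=
        (Metric.closedBall_subset_ball (by linarith)).trans hball
      refine ⟨Metric.closedBall h₀ (ε / 2),
        mem_nhdsWithin_of_mem_nhds (Metric.closedBall_mem_nhds _ (by positivity)), ?_⟩
      let S : Set ((Fin b → ℝ) × LinearMap.ker (LL h₀ : E →ₗ[ℝ] Y)) :=
        Metric.closedBall h₀ (ε / 2) ×ˢ Metric.closedBall 0 (‖π‖ * R)
      have hS : IsCompact S := (isCompact_closedBall _ _).prod (isCompact_closedBall _ _)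
      refine ⟨(fun q => (q.1, g q)) '' S, hS.image_of_continuousOn ?_, ?_⟩
      · exact continuousOn_fst.prodMk (hg.mono fun q hq => ⟨hsub hq.1, mem_univ _⟩)
      · rintro ⟨h, v⟩ ⟨hh, hv, hR⟩
        refine ⟨(h, π v), ⟨hh, ?_⟩, ?_⟩
        · rw [mem_closedBall_zero_iff]
          exact (π.le_opNorm v).trans (mul_le_mul_of_nonneg_left hR (norm_nonneg _))
        · show (h, g (h, π v)) = (h, v)
          rw [h3 h (hsub hh) v hv]
  obtain ⟨Q, hQ, hsub⟩ := hcov
  refine hQ.of_isClosed_subset ?_ hsub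
  refine (hC.isClosed.preimage continuous_fst).inter (IsClosed.inter ?_ ?_)
  · refine isClosed_eq ?_ continuous_const
    exact (hc.comp continuous_fst).clm_apply continuous_snd
  · exact isClosed_le continuous_snd.norm continuous_const

end Crest.Agent.R235.Tot_435
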