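import Mathlib
import Crest.Agent.R235.FDADef_365
import Crest.Agent.R235.FB1_365
import Crest.Agent.R235.FB2_365
import Crest.Agent.R235.FB3_365
import Crest.Agent.R235.FB6_365
import Crest.Agent.R235.Tot_435

/-!
Row 235 (S0364), package FD-A (helper365), block B4, part 4: the structure `Good` (everything which
is used about the finite dimensional data), the total space and its maps.
-/

set_option autoImplicit false

open Topology Set Module

namespace Crest.Agent.R235.FB4_365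

open FDADef_365 Bet_785 FdB1_435 FB1_365 FB2_365 FB3_365

variable {b : ℕ} {A P Ya Yp : Type} [NormedAddCommGroup A] [NormedSpace ℝ A]
    [CompleteSpace A] [NormedAddCommGroup P] [NormedSpace ℝ P] [CompleteSpace P]
    [NormedAddCommGroup Ya] [InnerProductSpace ℝ Ya] [CompleteSpace Ya]
    [NormedAddCommGroup Yp] [InnerProductSpace ℝ Yp] [CompleteSpace Yp]

/-- the canonical solution -/
def p0 (S : SWData b A P Ya Yp) : (Fin b → ℝ) × A × P := (S.h₀, S.a₀, S.ψ₀)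

/-- the properties of the finite dimensional data -/
structure Good (S : SWData b A P Ya Yp) {N : ℕ} (y : Fin N → Yp) (Fa : Submodule ℝ Ya)
    [FiniteDimensional ℝ Fa] (R' C δ : ℝ) (Ca : (Fin b → ℝ) × A × P →L[ℝ] Ya)
    (Cp : (Fin b → ℝ) × A × P →L[ℝ] Yp) (Dρ : (Fin b → ℝ) × A × P →L[ℝ] ℝ) : Prop where
  hN : 0 < N
  compl : ∀ h : Fin b → ℝ, ‖h - S.h₀‖ ≤ 1 →
    Submodule.span ℝ (range y) ⊔ LinearMap.range (Lh S (th b) h : P →ₗ[ℝ] Yp) = ⊤
  Fa_ge : (LinearMap.range (S.La : A →ₗ[ℝ] Ya))ᗮ ≤ Fa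
  C1 : 1 ≤ C
  CU : ∀ m : Fin b → ℤ, ‖lat m‖ ≤ 3 + ‖S.h₀‖ → ∀ ψ, ‖S.U m ψ‖ ≤ C * ‖ψ‖
  δ0 : 0 < δ
  δ8 : δ ≤ 1 / 8
  δψ : 2 * δ < ‖S.ψ₀‖
  Ra : ‖S.a₀‖ + δ < R'
  Rψ : ‖S.ψ₀‖ + δ < R'
  near : ∀ (h : Fin b → ℝ) (a : A) (ψ : P) (z : J N b → ℝ), (∀ i, h i ∈ Icc (0 : ℝ) 1) →
    ‖a‖ ≤ C * R' → ‖ψ‖ ≤ C * R' → Lh S (th b) h ψ = ∑ j, z j • sec S y j h →
    (∀ j, z j + Zc S y j (h, a, ψ) = 0) →
    S.La a + Fa.starProjection (S.Ka (h, a, ψ)) = 0 → S.ρ (h, a, ψ) ≤ 0 →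
    ‖a‖ < R' ∧ ‖ψ‖ < R' ∧ ψ ≠ 0 ∧ (S.ρ (h, a, ψ) = 0 → ∃ m : Fin b → ℤ,
      ‖h + lat m - S.h₀‖ < δ ∧ ‖a - S.a₀‖ < δ ∧
      (‖S.U m ψ - S.ψ₀‖ < δ ∨ ‖-S.U m ψ - S.ψ₀‖ < δ))
  loc : ∀ p : (Fin b → ℝ) × A × P, ‖p - p0 S‖ < δ → ∀ s ∈ Icc (0 : ℝ) 1,
    S.La p.2.1 + Fa.starProjection ((1 - s) • S.Ka p + s • (S.Ka (p0 S) + Ca (p - p0 S))) = 0 →
    S.Lp p.2.2 + Pl y ((1 - s) • S.Kp p + s • (S.Kp (p0 S) + Cp (p - p0 S))) = 0 →
    (1 - s) * S.ρ p + s * Dρ (p - p0 S) = 0 → ‖p - p0 S‖ ≤ δ / 2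
  lin : ∀ v : (Fin b → ℝ) × A × P, S.La v.2.1 + Fa.starProjection (Ca v) = 0 →
    S.Lp v.2.2 + Pl y (Cp v) = 0 → Dρ v = 0 → v = 0
  aff : ∀ p : (Fin b → ℝ) × A × P,
    S.La p.2.1 + Fa.starProjection (S.Ka (p0 S) + Ca (p - p0 S)) = 0 →
    S.Lp p.2.2 + Pl y (S.Kp (p0 S) + Cp (p - p0 S)) = 0 →
    Dρ (p - p0 S) = 0 → ‖p - p0 S‖ < δ

variable (S : SWData b A P Ya Yp) {N : ℕ} (y : Fin N → Yp) (Fa : Submodule ℝ Ya)

/-- the preimage of `Fa` -/
abbrev VA : Submodule ℝ A := Fa.comap (S.La : A →ₗ[ℝ] Ya)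

theorem isClosed_VA [FiniteDimensional ℝ Fa] : IsClosed (VA S Fa : Set A) :=
  Fa.closed_of_finiteDimensional.preimage S.La.continuous

/-- the fibre -/
abbrev EF (N : ℕ) : Type := VA S Fa × P × (J N b → ℝ)

/-- the total space -/
abbrev Tot : Type := {p : (Fin b → ℝ) × EF S Fa N // LL S y (VA S Fa) p.1 p.2 = 0}

variable {S y Fa}

/-- the projection to the data of the equations -/
def bas (x : Tot S y Fa) : (Fin b → ℝ) × A × P := (x.1.1, (x.1.2.1 : A), x.1.2.2.1)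

/-- the auxiliary variables -/
def zz (x : Tot S y Fa) : J N b → ℝ := x.1.2.2.2

theorem bas_cont : Continuous (bas : Tot S y Fa → _) := by
  unfold bas
  fun_prop

theorem zz_cont : Continuous (zz : Tot S y Fa → _) := by
  unfold zz
  fun_prop

theorem constr (x : Tot S y Fa) :
    Lh S (th b) (bas x).1 (bas x).2.2 = ∑ j, zz x j • sec S y j (bas x).1 := by
  have h1 := x.2
  rw [LL_apply, sub_eq_zero] at h1
  exact h1

/-- the action of the lattice -/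
def actT (m : Fin b → ℤ) (x : Tot S y Fa) : Tot S y Fa :=
  ⟨(x.1.1 + lat m, (x.1.2.1, S.U m x.1.2.2.1, x.1.2.2.2)), by
    have h1 := LL_lat S y (VA S Fa) x.1.1 m x.1.2.1 x.1.2.2.1 x.1.2.2.2
    have h2 : LL S y (VA S Fa) x.1.1 (x.1.2.1, x.1.2.2.1, x.1.2.2.2) = 0 := x.2
    rw [h2, map_zero] at h1
    exact h1⟩

/-- the involution -/
def iT (x : Tot S y Fa) : Tot S y Fa :=
  ⟨(x.1.1, (x.1.2.1, -x.1.2.2.1, -x.1.2.2.2)), by
    have h1 := LL_neg S y (VA S Fa) x.1.1 x.1.2.1 x.1.2.2.1 x.1.2.2.2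
    have h2 : LL S y (VA S Fa) x.1.1 (x.1.2.1, x.1.2.2.1, x.1.2.2.2) = 0 := x.2
    rw [h2, neg_zero] at h1
    exact h1⟩

theorem actT_cont (m : Fin b → ℤ) : Continuous (actT m : Tot S y Fa → Tot S y Fa) := by
  unfold actT
  refine Continuous.subtype_mk ?_ _
  have h1 := (S.U m).continuous
  fun_prop

theorem iT_cont : Continuous (iT : Tot S y Fa → Tot S y Fa) := by
  unfold iT
  refine Continuous.subtype_mk ?_ _
  fun_prop

theorem bas_act (m : Fin b → ℤ) (x : Tot S y Fa) :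
    bas (actT m x) = ((bas x).1 + lat m, (bas x).2.1, S.U m (bas x).2.2) := rfl

theorem zz_act (m : Fin b → ℤ) (x : Tot S y Fa) : zz (actT m x) = zz x := rfl

theorem bas_iT (x : Tot S y Fa) : bas (iT x) = ((bas x).1, (bas x).2.1, -(bas x).2.2) := rfl

theorem zz_iT (x : Tot S y Fa) : zz (iT x) = - zz x := rfl

theorem ext' {x x' : Tot S y Fa} (h1 : bas x = bas x') (h2 : zz x = zz x') : x = x' := by
  apply Subtype.ext
  refine Prod.ext ?_ (Prod.ext (Subtype.ext ?_) (Prod.ext ?_ h2))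
  · exact congrArg (fun p : (Fin b → ℝ) × A × P => p.1) h1
  · exact congrArg (fun p : (Fin b → ℝ) × A × P => p.2.1) h1
  · exact congrArg (fun p : (Fin b → ℝ) × A × P => p.2.2) h1

theorem actT_zero (x : Tot S y Fa) : actT 0 x = x := by
  refine ext' ?_ rfl
  rw [bas_act, Bet_785.lat_zero, add_zero, U_zero]

theorem actT_add (m m' : Fin b → ℤ) (x : Tot S y Fa) : actT (m + m') x = actT m (actT m' x) := by
  refine ext' ?_ rfl
  rw [bas_act, bas_act, bas_act, Bet_785.lat_add]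
  refine Prod.ext ?_ (Prod.ext rfl ?_)
  · show (bas x).1 + (lat m + lat m') = (bas x).1 + lat m' + lat m
    abel
  · exact S.U_add m m' _

theorem iT_iT (x : Tot S y Fa) : iT (iT x) = x := by
  refine ext' ?_ ?_
  · rw [bas_iT, bas_iT, neg_neg]
  · rw [zz_iT, zz_iT, neg_neg]

theorem iT_act (m : Fin b → ℤ) (x : Tot S y Fa) : iT (actT m x) = actT m (iT x) := by
  refine ext' ?_ rfl
  rw [bas_iT, bas_act, bas_act, bas_iT, map_neg]

variable [FiniteDimensional ℝ Fa]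

/-- the target -/
abbrev TT (Fa : Submodule ℝ Ya) (N b : ℕ) : Type := Fa × (J N b → ℝ) × ℝ

/-- the finite dimensional map -/
noncomputable def FT (x : Tot S y Fa) : TT Fa N b :=
  ((⟨S.La (x.1.2.1 : A), x.1.2.1.2⟩ : Fa) + Fa.orthogonalProjectionOnto (S.Ka (bas x)),
    fun j => zz x j + Zc S y j (bas x), S.ρ (bas x))

theorem FT_cont : Continuous (FT : Tot S y Fa → TT Fa N b) := by
  unfold FT
  have h1 := bas_cont (S := S) (y := y) (Fa := Fa)
  have h2 := zz_cont (S := S) (y := y) (Fa := Fa)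
  refine Continuous.prodMk ?_ (Continuous.prodMk ?_ (S.contρ.comp h1))
  · refine Continuous.add ?_ (Fa.orthogonalProjectionOnto.continuous.comp (S.contA.comp h1))
    exact Continuous.subtype_mk (S.La.continuous.comp (by fun_prop)) _
  · exact continuous_pi fun j => ((continuous_apply j).comp h2).add ((Zc_cont S y j).comp h1)

theorem FT_act (m : Fin b → ℤ) (x : Tot S y Fa) : FT (actT m x) = FT x := by
  unfold FT
  have h1 := S.latA m (bas x).1 (bas x).2.1 (bas x).2.2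
  have h2 := S.latρ m (bas x).1 (bas x).2.1 (bas x).2.2
  rw [bas_act, h1, h2, zz_act]
  refine Prod.ext rfl (Prod.ext ?_ rfl)
  funext j
  show zz x j + Zc S y j _ = zz x j + Zc S y j _
  rw [Zc_lat]

/-- the involution of the target -/
def tau (Fa : Submodule ℝ Ya) (N b : ℕ) : TT Fa N b ≃ₗ[ℝ] TT Fa N b :=
  (LinearEquiv.refl ℝ Fa).prodCongr ((LinearEquiv.neg ℝ).prodCongr (LinearEquiv.refl ℝ ℝ))

omit [CompleteSpace Ya] [FiniteDimensional ℝ Fa] in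
theorem tau_apply (v : TT Fa N b) : tau Fa N b v = (v.1, -v.2.1, v.2.2) := rfl

theorem FT_iT (x : Tot S y Fa) : FT (iT x) = tau Fa N b (FT x) := by
  rw [tau_apply]
  unfold FT
  have h1 := S.evenA (bas x).1 (bas x).2.1 (bas x).2.2
  have h2 := S.evenρ (bas x).1 (bas x).2.1 (bas x).2.2
  rw [bas_iT, h1, h2, zz_iT]
  refine Prod.ext rfl (Prod.ext ?_ rfl)
  funext j
  show (-zz x) j + Zc S y j _ = -(zz x j + Zc S y j _)
  rw [Zc_odd, Pi.neg_apply]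
  ring

/-- the first component in the ambient space -/
theorem FT_fst (x : Tot S y Fa) (h : (FT x).1 = 0) :
    S.La (bas x).2.1 + Fa.starProjection (S.Ka (bas x)) = 0 := by
  have h1 := congrArg (Subtype.val) h
  exact h1

end Crest.Agent.R235.FB4_365
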