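import Mathlib
import Crest.Agent.R235.FB4_365

/-!
Row 235 (S0364), package FD-A (helper365), block B4, part 7: the region and compactness.
-/

set_option autoImplicit false

open Topology Set Module

namespace Crest.Agent.R235.FB7_365

open FDADef_365 Bet_785 FdB1_435 FB1_365 FB2_365 FB3_365 FB4_365

variable {b : ℕ} {A P Ya Yp : Type} [NormedAddCommGroup A] [NormedSpace ℝ A]
    [CompleteSpace A] [NormedAddCommGroup P] [NormedSpace ℝ P] [CompleteSpace P]
    [NormedAddCommGroup Ya] [InnerProductSpace ℝ Ya] [CompleteSpace Ya]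
    [NormedAddCommGroup Yp] [InnerProductSpace ℝ Yp] [CompleteSpace Yp]

/-- translation into the cell -/
theorem exists_cell (h : Fin b → ℝ) :
    ∃ m : Fin b → ℤ, (∀ i, (h + lat m) i ∈ Icc (0 : ℝ) 1) ∧ ‖lat m‖ ≤ ‖h‖ + 1 := by
  refine ⟨fun i => -⌊h i⌋, fun i => ?_, ?_⟩
  · simp only [Pi.add_apply, lat, Int.cast_neg]
    have h1 := Int.floor_le (h i)
    have h2 := Int.lt_floor_add_one (h i)
    constructor <;> linarith
  · refine (pi_norm_le_iff_of_nonneg (by positivity)).2 fun i => ?_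
    have h1 := Int.floor_le (h i)
    have h2 := Int.lt_floor_add_one (h i)
    have h3 := norm_le_pi_norm h i
    rw [Real.norm_eq_abs] at h3 ⊢
    have h4 := abs_le.1 h3
    simp only [lat, Int.cast_neg]
    rw [abs_le]
    constructor <;> linarith [h4.1, h4.2]

/-- the coefficients are bounded on bounded sets -/
theorem Zc_bdd (S : SWData b A P Ya Yp) {N : ℕ} (y : Fin N → Yp) (R : ℝ) : ∃ M : ℝ, 0 ≤ M ∧
    ∀ p : (Fin b → ℝ) × A × P, ‖p‖ ≤ R → ∀ j, |Zc S y j p| ≤ M := by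
  obtain ⟨C, hC1, hC⟩ := exists_UV S (R + ‖S.h₀‖ + 1)
  set R₃ : ℝ := max (1 + ‖S.h₀‖) (max R (C * R)) with hR₃
  obtain ⟨M, hM⟩ := (Kh_cptP S (cut_th (b := b)) R₃).isBounded.exists_norm_le
  set Y : ℝ := ∑ i, ‖y i‖ with hY
  have hY0 : 0 ≤ Y := Finset.sum_nonneg fun i _ => norm_nonneg _
  refine ⟨Y * |M|, by positivity, fun p hp j => ?_⟩
  have hp1 : ‖p.1‖ ≤ R := (norm_fst_le p).trans hp
  have hp2 : ‖p.2.1‖ ≤ R := (norm_fst_le p.2).trans ((norm_snd_le p).trans hp)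
  have hp3 : ‖p.2.2‖ ≤ R := (norm_snd_le p.2).trans ((norm_snd_le p).trans hp)
  unfold Zc
  by_cases hex : ∃ m₀ : Fin b → ℤ, bet j.2 (p.1 - S.h₀ - lat m₀) ≠ 0
  · obtain ⟨m, hm⟩ := hex
    rw [bsum_of_ne hm, smul_eq_mul, abs_mul, abs_of_nonneg (bet_nonneg _ _)]
    have h1 := norm_lt_of_bet_ne hm
    have h3 : ‖lat m‖ ≤ R + ‖S.h₀‖ + 1 := by
      have e1 : lat m = p.1 - S.h₀ - (p.1 - S.h₀ - lat m) := by abel
      rw [e1]
      have e2 := norm_sub_le (p.1 - S.h₀) (p.1 - S.h₀ - lat m)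
      have e3 := norm_sub_le p.1 S.h₀
      linarith
    have h4 : ‖((p.1 - lat m, p.2.1, S.U (-m) p.2.2) : (Fin b → ℝ) × A × P)‖ ≤ R₃ := by
      rw [Prod.norm_def, Prod.norm_def]
      refine max_le ?_ (max_le ?_ ?_)
      · refine le_trans ?_ (le_max_left _ _)
        have e5 : p.1 - lat m = (p.1 - S.h₀ - lat m) + S.h₀ := by abel
        show ‖p.1 - lat m‖ ≤ _
        rw [e5]
        refine (norm_add_le _ _).trans ?_
        linarith
      · exact hp2.trans ((le_max_left _ _).trans (le_max_right _ _))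
      · refine ((hC m h3).2.1 _).trans (le_trans ?_ ((le_max_right _ _).trans (le_max_right _ _)))
        exact mul_le_mul_of_nonneg_left hp3 (by linarith)
    have h5 := hM _ (subset_closure ⟨_, h4, rfl⟩)
    have h6 : |(inner ℝ (y j.1) (Kh S (th b) (p.1 - lat m, p.2.1, S.U (-m) p.2.2)) : ℝ)| ≤
        Y * |M| := by
      refine (abs_real_inner_le_norm _ _).trans (mul_le_mul ?_ (h5.trans (le_abs_self _))
        (norm_nonneg _) hY0)
      exact Finset.single_le_sum (f := fun i => ‖y i‖) (fun i _ => norm_nonneg _)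
        (Finset.mem_univ j.1)
    calc _ ≤ 1 * (Y * |M|) := mul_le_mul (bet_le_one _ _) h6 (abs_nonneg _) zero_le_one
      _ = _ := one_mul _
  · push Not at hex
    rw [bsum_eq_zero hex, abs_zero]
    positivity

variable {S : SWData b A P Ya Yp} {N : ℕ} {y : Fin N → Yp} {Fa : Submodule ℝ Ya}

/-- compactness of closed bounded sets of the total space -/
theorem cpt [FiniteDimensional ℝ Fa]
    (hs : ∀ h, Function.Surjective (LL S y (VA S Fa) h))
    (hf : ∀ h, FiniteDimensional ℝ (LinearMap.ker (LL S y (VA S Fa) h : EF S Fa N →ₗ[ℝ] Yp)))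
    {K : Set (Tot S y Fa)} (hK : IsClosed K) {R : ℝ}
    (hb : ∀ x ∈ K, ‖bas x‖ ≤ R ∧ ‖zz x‖ ≤ R) : IsCompact K := by
  have : CompleteSpace (VA S Fa) := (isClosed_VA S Fa).completeSpace_coe
  have hce : IsClosedEmbedding (Subtype.val : Tot S y Fa → (Fin b → ℝ) × EF S Fa N) := by
    refine IsClosed.isClosedEmbedding_subtypeVal ?_
    exact isClosed_eq (((LL_cont S y (VA S Fa)).comp continuous_fst).clm_apply continuous_snd)
      continuous_const
  have h1 := hce.isCompact_preimage (Tot_435.isCompact_piece (LL_cont S y (VA S Fa)) hs hf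
    (isCompact_closedBall (0 : Fin b → ℝ) R) R)
  refine h1.of_isClosed_subset hK fun x hx => ?_
  obtain ⟨h2, h3⟩ := hb x hx
  have e1 : ‖(bas x).1‖ ≤ R := (norm_fst_le _).trans h2
  have e2 : ‖(bas x).2.1‖ ≤ R := (norm_fst_le _).trans ((norm_snd_le _).trans h2)
  have e3 : ‖(bas x).2.2‖ ≤ R := (norm_snd_le _).trans ((norm_snd_le _).trans h2)
  refine ⟨mem_closedBall_zero_iff.2 e1, x.2, ?_⟩
  rw [Prod.norm_def, Prod.norm_def]
  exact max_le e2 (max_le e3 h3)

/-- the bounded region -/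
def O (R' : ℝ) : Set (Tot S y Fa) :=
  {x | ‖(bas x).1‖ < 2 + ‖S.h₀‖ ∧ ‖(bas x).2.1‖ < R' ∧ ‖(bas x).2.2‖ < R'}

theorem isOpen_O (R' : ℝ) : IsOpen (O R' : Set (Tot S y Fa)) := by
  have h0 := bas_cont (S := S) (y := y) (Fa := Fa)
  have h1 : IsOpen {x : Tot S y Fa | ‖(bas x).1‖ < 2 + ‖S.h₀‖} :=
    isOpen_lt (continuous_fst.comp h0).norm continuous_const
  have h2 : IsOpen {x : Tot S y Fa | ‖(bas x).2.1‖ < R'} :=
    isOpen_lt ((continuous_fst.comp continuous_snd).comp h0).norm continuous_const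
  have h3 : IsOpen {x : Tot S y Fa | ‖(bas x).2.2‖ < R'} :=
    isOpen_lt ((continuous_snd.comp continuous_snd).comp h0).norm continuous_const
  exact h1.inter (h2.inter h3)

/-- the invariant region -/
def Xo (S : SWData b A P Ya Yp) (y : Fin N → Yp) (Fa : Submodule ℝ Ya) (R' : ℝ) :
    TopologicalSpace.Opens (Tot S y Fa) where
  carrier := {x | ((bas x).2.2 ≠ 0 ∨ zz x ≠ 0) ∧ ∃ m, actT m x ∈ O R'}
  is_open' := by
    have h0 := bas_cont (S := S) (y := y) (Fa := Fa)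
    have h1 : IsOpen {x : Tot S y Fa | (bas x).2.2 ≠ 0} :=
      isOpen_ne_fun ((continuous_snd.comp continuous_snd).comp h0) continuous_const
    have h2 : IsOpen {x : Tot S y Fa | zz x ≠ 0} := isOpen_ne_fun zz_cont continuous_const
    have h3 : IsOpen {x : Tot S y Fa | ∃ m, actT m x ∈ O R'} := by
      have : {x : Tot S y Fa | ∃ m, actT m x ∈ O R'} =
          ⋃ m : Fin b → ℤ, (actT m) ⁻¹' O R' := by
        ext x
        simp
      rw [this]
      exact isOpen_iUnion fun m => (isOpen_O R').preimage (actT_cont m)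
    exact (h1.union h2).inter h3

theorem mem_Xo {R' : ℝ} {x : Tot S y Fa} : x ∈ Xo S y Fa R' ↔
    ((bas x).2.2 ≠ 0 ∨ zz x ≠ 0) ∧ ∃ m, actT m x ∈ O R' := Iff.rfl

theorem act_mem {R' : ℝ} {x : Tot S y Fa} (hx : x ∈ Xo S y Fa R') (m : Fin b → ℤ) :
    actT m x ∈ Xo S y Fa R' := by
  obtain ⟨h1, n, hn⟩ := hx
  refine ⟨?_, n - m, ?_⟩
  · rcases h1 with h1 | h1
    · left
      rw [bas_act]
      intro h2
      exact h1 ((S.U m).injective (by rw [map_zero]; exact h2))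
    · exact Or.inr h1
  · rw [← actT_add, sub_add_cancel]
    exact hn

theorem iT_mem {R' : ℝ} {x : Tot S y Fa} (hx : x ∈ Xo S y Fa R') : iT x ∈ Xo S y Fa R' := by
  obtain ⟨h1, n, hn⟩ := hx
  refine ⟨?_, n, ?_⟩
  · rcases h1 with h1 | h1
    · left
      rw [bas_iT]
      exact neg_ne_zero.2 h1
    · right
      rw [zz_iT]
      exact neg_ne_zero.2 h1
  · rw [← iT_act]
    obtain ⟨e1, e2, e3⟩ := hn
    refine ⟨e1, e2, ?_⟩
    rw [bas_iT]
    show ‖-(bas (actT n x)).2.2‖ < R'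
    rw [norm_neg]
    exact e3

theorem eq_zero_of_neg {V : Type*} [AddCommGroup V] [Module ℝ V] {v : V} (h : -v = v) :
    v = 0 := by
  have h1 : (2 : ℝ) • v = 0 := by
    rw [two_smul]
    nth_rewrite 1 [← h]
    exact neg_add_cancel v
  exact (smul_eq_zero.1 h1).resolve_left two_ne_zero

theorem iT_ne {R' : ℝ} {x : Tot S y Fa} (hx : x ∈ Xo S y Fa R') : iT x ≠ x := by
  intro h
  rcases hx.1 with h1 | h1
  · apply h1
    have h2 := congrArg (fun x : Tot S y Fa => (bas x).2.2) h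
    exact eq_zero_of_neg h2
  · apply h1
    have h2 := congrArg (fun x : Tot S y Fa => zz x) h
    exact eq_zero_of_neg h2

variable [FiniteDimensional ℝ Fa]

/-- the compact set of representatives -/
def T0 (S : SWData b A P Ya Yp) (y : Fin N → Yp) (Fa : Submodule ℝ Ya)
    [FiniteDimensional ℝ Fa] (R : ℝ) : Set (Tot S y Fa) :=
  {x | (∀ i, (bas x).1 i ∈ Icc (0 : ℝ) 1) ∧ ‖(bas x).2.1‖ ≤ R ∧ ‖(bas x).2.2‖ ≤ R ∧
    (FT x).1 = 0 ∧ (FT x).2.1 = 0 ∧ (FT x).2.2 ≤ 0}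

theorem isCompact_T0 (hs : ∀ h, Function.Surjective (LL S y (VA S Fa) h))
    (hf : ∀ h, FiniteDimensional ℝ (LinearMap.ker (LL S y (VA S Fa) h : EF S Fa N →ₗ[ℝ] Yp)))
    (R : ℝ) : IsCompact (T0 S y Fa R) := by
  have h0 := bas_cont (S := S) (y := y) (Fa := Fa)
  have h1 := FT_cont (S := S) (y := y) (Fa := Fa)
  obtain ⟨M, hM0, hM⟩ := Zc_bdd S y (max 1 R)
  refine cpt hs hf (R := max (max 1 R) M) ?_ ?_
  · have c1 : IsClosed {x : Tot S y Fa | ∀ i, (bas x).1 i ∈ Icc (0 : ℝ) 1} := by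
      rw [ofPred_forall]
      exact isClosed_iInter fun i => isClosed_Icc.preimage
        ((continuous_apply i).comp (continuous_fst.comp h0))
    have c2 : IsClosed {x : Tot S y Fa | ‖(bas x).2.1‖ ≤ R} :=
      isClosed_le ((continuous_fst.comp continuous_snd).comp h0).norm continuous_const
    have c3 : IsClosed {x : Tot S y Fa | ‖(bas x).2.2‖ ≤ R} :=
      isClosed_le ((continuous_snd.comp continuous_snd).comp h0).norm continuous_const
    have c4 : IsClosed {x : Tot S y Fa | (FT x).1 = 0} :=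
      isClosed_eq (continuous_fst.comp h1) continuous_const
    have c5 : IsClosed {x : Tot S y Fa | (FT x).2.1 = 0} :=
      isClosed_eq ((continuous_fst.comp continuous_snd).comp h1) continuous_const
    have c6 : IsClosed {x : Tot S y Fa | (FT x).2.2 ≤ 0} :=
      isClosed_le ((continuous_snd.comp continuous_snd).comp h1) continuous_const
    exact c1.inter (c2.inter (c3.inter (c4.inter (c5.inter c6))))
  · rintro x ⟨e1, e2, e3, -, e5, -⟩
    have h2 : ‖bas x‖ ≤ max 1 R := by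
      rw [Prod.norm_def, Prod.norm_def]
      refine max_le ?_ (max_le (e2.trans (le_max_right _ _)) (e3.trans (le_max_right _ _)))
      refine le_trans ?_ (le_max_left _ _)
      refine (pi_norm_le_iff_of_nonneg zero_le_one).2 fun i => ?_
      rw [Real.norm_of_nonneg (e1 i).1]
      exact (e1 i).2
    refine ⟨h2.trans (le_max_left _ _), ?_⟩
    refine (pi_norm_le_iff_of_nonneg (hM0.trans (le_max_right _ _))).2 fun j => ?_
    have h3 : zz x j + Zc S y j (bas x) = 0 := congrFun e5 j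
    have h4 : zz x j = - Zc S y j (bas x) := by linarith
    rw [h4, norm_neg, Real.norm_eq_abs]
    exact (hM _ h2 j).trans (le_max_right _ _)

variable {R' C δ : ℝ} {Ca : (Fin b → ℝ) × A × P →L[ℝ] Ya}
    {Cp : (Fin b → ℝ) × A × P →L[ℝ] Yp} {Dρ : (Fin b → ℝ) × A × P →L[ℝ] ℝ}

theorem T0_near (G : Good S y Fa R' C δ Ca Cp Dρ) {x : Tot S y Fa}
    (hx : x ∈ T0 S y Fa (C * R')) : ‖(bas x).2.1‖ < R' ∧ ‖(bas x).2.2‖ < R' ∧ (bas x).2.2 ≠ 0 ∧
      ((FT x).2.2 = 0 → ∃ m : Fin b → ℤ, ‖(bas x).1 + lat m - S.h₀‖ < δ ∧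
      ‖(bas x).2.1 - S.a₀‖ < δ ∧
      (‖S.U m (bas x).2.2 - S.ψ₀‖ < δ ∨ ‖-S.U m (bas x).2.2 - S.ψ₀‖ < δ)) := by
  obtain ⟨e1, e2, e3, e4, e5, e6⟩ := hx
  exact G.near (bas x).1 (bas x).2.1 (bas x).2.2 (zz x) e1 e2 e3 (constr x) (congrFun e5)
    (FT_fst x e4) e6

theorem T0_sub (G : Good S y Fa R' C δ Ca Cp Dρ) {x : Tot S y Fa}
    (hx : x ∈ T0 S y Fa (C * R')) : x ∈ Xo S y Fa R' := by
  obtain ⟨h1, h2, h3, -⟩ := T0_near G hx
  refine ⟨Or.inl h3, 0, ?_⟩
  rw [actT_zero]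
  refine ⟨?_, h1, h2⟩
  have h4 : ‖(bas x).1‖ ≤ 1 := by
    refine (pi_norm_le_iff_of_nonneg zero_le_one).2 fun i => ?_
    rw [Real.norm_of_nonneg (hx.1 i).1]
    exact (hx.1 i).2
  have := norm_nonneg S.h₀
  linarith

/-- representatives in `T0` -/
theorem exists_T0 (G : Good S y Fa R' C δ Ca Cp Dρ) {x : Tot S y Fa} (hx : x ∈ Xo S y Fa R')
    (h1 : (FT x).1 = 0) (h2 : (FT x).2.1 = 0) (h3 : (FT x).2.2 ≤ 0) :
    ∃ m, actT m x ∈ T0 S y Fa (C * R') := by
  obtain ⟨-, m, e1, e2, e3⟩ := hx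
  obtain ⟨n, e4, e5⟩ := exists_cell (bas (actT m x)).1
  have hR : 0 < R' := lt_of_le_of_lt (norm_nonneg _) e2
  refine ⟨n + m, ?_, ?_, ?_, ?_, ?_, ?_⟩
  · rw [actT_add]
    exact e4
  · rw [actT_add, bas_act]
    show ‖(bas (actT m x)).2.1‖ ≤ C * R'
    have := G.C1
    nlinarith
  · rw [actT_add, bas_act]
    show ‖S.U n (bas (actT m x)).2.2‖ ≤ C * R'
    refine (G.CU n (by linarith) _).trans ?_
    exact mul_le_mul_of_nonneg_left e3.le (by linarith [G.C1])
  · rw [FT_act]; exact h1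
  · rw [FT_act]; exact h2
  · rw [FT_act]; exact h3

end Crest.Agent.R235.FB7_365
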