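import Mathlib
import Crest.Agent.R235.FB7_365

/-!
Row 235 (S0364), package FD-A (helper365), block B4, part 8: the homotopy near the canonical
solution.
-/

set_option autoImplicit false
set_option linter.unusedSectionVars false

open Topology Set Module

namespace Crest.Agent.R235.FB8_365

open FDADef_365 Bet_785 FdB1_435 FB1_365 FB2_365 FB3_365 FB4_365 FB7_365

variable {b : ℕ} {A P Ya Yp : Type} [NormedAddCommGroup A] [NormedSpace ℝ A]
    [CompleteSpace A] [NormedAddCommGroup P] [NormedSpace ℝ P] [CompleteSpace P]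
    [NormedAddCommGroup Ya] [InnerProductSpace ℝ Ya] [CompleteSpace Ya]
    [NormedAddCommGroup Yp] [InnerProductSpace ℝ Yp] [CompleteSpace Yp]

section

variable (S : SWData b A P Ya Yp) {N : ℕ} (y : Fin N → Yp)
  (Ca : (Fin b → ℝ) × A × P →L[ℝ] Ya)
  (Cp : (Fin b → ℝ) × A × P →L[ℝ] Yp) (Dρ : (Fin b → ℝ) × A × P →L[ℝ] ℝ)

/-- the homotopy of `Ka` -/
noncomputable def KaS (s : ℝ) (p : (Fin b → ℝ) × A × P) : Ya :=
  (1 - s) • S.Ka p + s • (S.Ka (p0 S) + Ca (p - p0 S))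

/-- the homotopy of `Kp` -/
noncomputable def KpS (s : ℝ) (p : (Fin b → ℝ) × A × P) : Yp :=
  (1 - s) • S.Kp p + s • (S.Kp (p0 S) + Cp (p - p0 S))

/-- the homotopy of `ρ` -/
noncomputable def rS (s : ℝ) (p : (Fin b → ℝ) × A × P) : ℝ :=
  (1 - s) * S.ρ p + s * Dρ (p - p0 S)

/-- coefficients -/
noncomputable def cf (w : Yp) : J N b → ℝ :=
  fun j => if j.2 = z0 then (inner ℝ (y j.1) w : ℝ) else 0

omit [CompleteSpace Yp] in
theorem cf_cont : Continuous (cf (b := b) y) := by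
  unfold cf
  refine continuous_pi fun j => ?_
  by_cases h : j.2 = z0
  · simp only [h, if_true]
    fun_prop
  · simp only [h, if_false]
    exact continuous_const

omit [CompleteSpace Yp] in
theorem cf_add (w w' : Yp) : cf (b := b) y (w + w') = cf y w + cf y w' := by
  funext j
  show (if j.2 = z0 then (inner ℝ (y j.1) (w + w') : ℝ) else 0) =
    (if j.2 = z0 then (inner ℝ (y j.1) w : ℝ) else 0) +
      (if j.2 = z0 then (inner ℝ (y j.1) w' : ℝ) else 0)
  split_ifs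
  · rw [inner_add_right]
  · rw [add_zero]

omit [CompleteSpace Yp] in
theorem cf_smul (c : ℝ) (w : Yp) : cf (b := b) y (c • w) = c • cf y w := by
  funext j
  show (if j.2 = z0 then (inner ℝ (y j.1) (c • w) : ℝ) else 0) =
    c * (if j.2 = z0 then (inner ℝ (y j.1) w : ℝ) else 0)
  split_ifs
  · rw [real_inner_smul_right]
  · rw [mul_zero]

omit [CompleteSpace Yp] in
theorem sum_cf (w : Yp) : ∑ i, cf (b := b) y w (i, z0) • y i = Pl y w := by
  unfold cf Pl
  simp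

omit [CompleteSpace Yp] in
theorem cf_le (w : Yp) : ‖cf (b := b) y w‖ ≤ (∑ i, ‖y i‖) * ‖w‖ := by
  have h0 : 0 ≤ ∑ i, ‖y i‖ := Finset.sum_nonneg fun i _ => norm_nonneg _
  refine (pi_norm_le_iff_of_nonneg (by positivity)).2 fun j => ?_
  show ‖(if j.2 = z0 then (inner ℝ (y j.1) w : ℝ) else 0)‖ ≤ _
  split_ifs
  · refine (norm_inner_le_norm _ _).trans (mul_le_mul_of_nonneg_right ?_ (norm_nonneg _))
    exact Finset.single_le_sum (f := fun i => ‖y i‖) (fun i _ => norm_nonneg _)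
      (Finset.mem_univ j.1)
  · rw [norm_zero]
    positivity

theorem KpS_bdd : ∃ M : ℝ, ∀ s ∈ Icc (0 : ℝ) 1, ∀ p, ‖p - p0 S‖ ≤ 1 → ‖KpS S Cp s p‖ ≤ M := by
  obtain ⟨M, hM⟩ := (S.cptP (‖p0 S‖ + 1)).isBounded.exists_norm_le
  refine ⟨M + (‖S.Kp (p0 S)‖ + ‖Cp‖ * 1), fun s hs p hp => ?_⟩
  have h1 : ‖p‖ ≤ ‖p0 S‖ + 1 := by
    have : p = p0 S + (p - p0 S) := by abel
    rw [this]
    exact (norm_add_le _ _).trans (by linarith)
  have h2 := hM _ (subset_closure ⟨p, h1, rfl⟩)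
  have h3 : ‖S.Kp (p0 S) + Cp (p - p0 S)‖ ≤ ‖S.Kp (p0 S)‖ + ‖Cp‖ * 1 :=
    (norm_add_le _ _).trans (add_le_add le_rfl ((Cp.le_opNorm _).trans
      (mul_le_mul_of_nonneg_left hp (norm_nonneg _))))
  unfold KpS
  refine (norm_add_le _ _).trans (add_le_add ?_ ?_)
  · rw [norm_smul, Real.norm_of_nonneg (by linarith [hs.2])]
    have := norm_nonneg (S.Kp p)
    nlinarith [hs.1]
  · rw [norm_smul, Real.norm_of_nonneg hs.1]
    refine le_trans ?_ h3
    have := norm_nonneg (S.Kp (p0 S) + Cp (p - p0 S))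
    nlinarith [hs.2]

end

variable {S : SWData b A P Ya Yp} {N : ℕ} {y : Fin N → Yp} {Fa : Submodule ℝ Ya}
  [FiniteDimensional ℝ Fa] (Ca : (Fin b → ℝ) × A × P →L[ℝ] Ya)
  (Cp : (Fin b → ℝ) × A × P →L[ℝ] Yp) (Dρ : (Fin b → ℝ) × A × P →L[ℝ] ℝ)

/-- the homotopy -/
noncomputable def HT (x : Tot S y Fa) (s : ℝ) : TT Fa N b :=
  ((⟨S.La (x.1.2.1 : A), x.1.2.1.2⟩ : Fa) + Fa.orthogonalProjectionOnto (KaS S Ca s (bas x)),
    zz x + cf y (KpS S Cp s (bas x)), rS S Dρ s (bas x))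

theorem HT_cont : Continuous fun q : Tot S y Fa × ℝ => HT Ca Cp Dρ q.1 q.2 := by
  have h1 : Continuous fun q : Tot S y Fa × ℝ => bas q.1 := bas_cont.comp continuous_fst
  have h2 : Continuous fun q : Tot S y Fa × ℝ => zz q.1 := zz_cont.comp continuous_fst
  have hA := S.contA.comp h1
  have hP := S.contP.comp h1
  have hρ := S.contρ.comp h1
  have h3 : Continuous fun q : Tot S y Fa × ℝ => KaS S Ca q.2 (bas q.1) := by
    unfold KaS
    exact ((continuous_const.sub continuous_snd).smul hA).add (continuous_snd.smul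
      (continuous_const.add (Ca.continuous.comp (h1.sub continuous_const))))
  have h4 : Continuous fun q : Tot S y Fa × ℝ => KpS S Cp q.2 (bas q.1) := by
    unfold KpS
    exact ((continuous_const.sub continuous_snd).smul hP).add (continuous_snd.smul
      (continuous_const.add (Cp.continuous.comp (h1.sub continuous_const))))
  have h5 : Continuous fun q : Tot S y Fa × ℝ => rS S Dρ q.2 (bas q.1) := by
    unfold rS
    exact ((continuous_const.sub continuous_snd).mul hρ).add (continuous_snd.mul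
      (Dρ.continuous.comp (h1.sub continuous_const)))
  unfold HT
  refine Continuous.prodMk ?_ (Continuous.prodMk (h2.add ((cf_cont y).comp h4)) h5)
  refine Continuous.add ?_ (Fa.orthogonalProjectionOnto.continuous.comp h3)
  exact Continuous.subtype_mk (S.La.continuous.comp (by fun_prop)) _

theorem HT_zero {x : Tot S y Fa} (hx : ‖(bas x).1 - S.h₀‖ ≤ 1 / 8) :
    HT Ca Cp Dρ x 0 = FT x := by
  unfold HT FT KaS KpS rS
  simp only [sub_zero, one_smul, zero_smul, add_zero, one_mul, zero_mul]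
  refine Prod.ext rfl (Prod.ext ?_ rfl)
  funext j
  show zz x j + (if j.2 = z0 then (inner ℝ (y j.1) (S.Kp (bas x)) : ℝ) else 0) =
    zz x j + Zc S y j (bas x)
  obtain ⟨i, ε⟩ := j
  by_cases h : ε = z0
  · subst h
    rw [if_pos rfl, Zc_z0 S y hx]
  · rw [if_neg h, Zc_ne S y hx i h]

/-- the constraint near the canonical solution -/
theorem constr' {x : Tot S y Fa} (hx : ‖(bas x).1 - S.h₀‖ ≤ 1 / 8) :
    S.Lp (bas x).2.2 = ∑ i, zz x (i, z0) • y i := by
  have h1 := constr x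
  rw [Lh_eq S cut_th (th_plateau hx), sum_sec S y hx] at h1
  exact h1

/-- the zeros of the homotopy -/
theorem HT_eq {x : Tot S y Fa} {s : ℝ} (hx : ‖(bas x).1 - S.h₀‖ ≤ 1 / 8)
    (h : HT Ca Cp Dρ x s = 0) :
    S.La (bas x).2.1 + Fa.starProjection (KaS S Ca s (bas x)) = 0 ∧
    S.Lp (bas x).2.2 + Pl y (KpS S Cp s (bas x)) = 0 ∧ rS S Dρ s (bas x) = 0 ∧
    zz x = - cf y (KpS S Cp s (bas x)) := by
  have h1 : (⟨S.La (x.1.2.1 : A), x.1.2.1.2⟩ : Fa) +
      Fa.orthogonalProjectionOnto (KaS S Ca s (bas x)) = 0 := congrArg Prod.fst h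
  have h2 : zz x + cf y (KpS S Cp s (bas x)) = 0 := congrArg (fun v : TT Fa N b => v.2.1) h
  have h3 : rS S Dρ s (bas x) = 0 := congrArg (fun v : TT Fa N b => v.2.2) h
  have h4 : zz x = - cf y (KpS S Cp s (bas x)) := eq_neg_of_add_eq_zero_left h2
  refine ⟨congrArg Subtype.val h1, ?_, h3, h4⟩
  rw [constr' hx, h4, ← sum_cf (b := b) y]
  simp

variable {Ca Cp Dρ} {R' C δ : ℝ}

theorem norm_bas {x : Tot S y Fa} (hδ : δ ≤ 1 / 8) (hx : ‖bas x - p0 S‖ < δ) :
    ‖(bas x).1 - S.h₀‖ ≤ 1 / 8 := by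
  have h1 : ‖(bas x - p0 S).1‖ ≤ ‖bas x - p0 S‖ := norm_fst_le _
  have h2 : (bas x - p0 S).1 = (bas x).1 - S.h₀ := rfl
  rw [h2] at h1
  linarith

/-- the compact set containing the zeros of the homotopy -/
def K1 (S : SWData b A P Ya Yp) (y : Fin N → Yp) (Fa : Submodule ℝ Ya) (δ M : ℝ) :
    Set (Tot S y Fa) := {x | ‖bas x - p0 S‖ ≤ δ / 2 ∧ ‖zz x‖ ≤ M}

theorem isCompact_K1 (hs : ∀ h, Function.Surjective (LL S y (VA S Fa) h))
    (hf : ∀ h, FiniteDimensional ℝ (LinearMap.ker (LL S y (VA S Fa) h : EF S Fa N →ₗ[ℝ] Yp)))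
    (δ M : ℝ) : IsCompact (K1 S y Fa δ M) := by
  have h0 := bas_cont (S := S) (y := y) (Fa := Fa)
  refine cpt hs hf (R := max (‖p0 S‖ + δ / 2) M) ?_ ?_
  · have c1 : IsClosed {x : Tot S y Fa | ‖bas x - p0 S‖ ≤ δ / 2} :=
      isClosed_le (h0.sub continuous_const).norm continuous_const
    have c2 : IsClosed {x : Tot S y Fa | ‖zz x‖ ≤ M} := isClosed_le zz_cont.norm continuous_const
    exact c1.inter c2
  · rintro x ⟨h1, h2⟩
    refine ⟨le_trans ?_ (le_max_left _ _), h2.trans (le_max_right _ _)⟩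
    have : bas x = p0 S + (bas x - p0 S) := by abel
    rw [this]
    exact (norm_add_le _ _).trans (by linarith)

/-- the zeros are in `K1` -/
theorem exists_M (G : Good S y Fa R' C δ Ca Cp Dρ) : ∃ M : ℝ, ∀ (x : Tot S y Fa),
    ‖bas x - p0 S‖ < δ → ∀ s ∈ Icc (0 : ℝ) 1, HT Ca Cp Dρ x s = 0 → x ∈ K1 S y Fa δ M := by
  obtain ⟨M, hM⟩ := KpS_bdd S Cp
  refine ⟨(∑ i, ‖y i‖) * M, fun x hx s hs h => ?_⟩
  have h0 : 0 ≤ ∑ i, ‖y i‖ := Finset.sum_nonneg fun i _ => norm_nonneg _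
  obtain ⟨h1, h2, h3, h4⟩ := HT_eq Ca Cp Dρ (norm_bas G.δ8 hx) h
  refine ⟨G.loc _ hx s hs h1 h2 h3, ?_⟩
  rw [h4, norm_neg]
  refine (cf_le y _).trans (mul_le_mul_of_nonneg_left (hM s hs _ ?_) h0)
  have := G.δ8
  linarith

theorem W_mem_Xo (G : Good S y Fa R' C δ Ca Cp Dρ) {x : Tot S y Fa}
    (hx : ‖bas x - p0 S‖ < δ) : x ∈ Xo S y Fa R' := by
  have h1 : ‖(bas x).1 - S.h₀‖ < δ := lt_of_le_of_lt (norm_fst_le (bas x - p0 S)) hx
  have h2 : ‖(bas x).2.1 - S.a₀‖ < δ :=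
    lt_of_le_of_lt ((norm_fst_le (bas x - p0 S).2).trans (norm_snd_le (bas x - p0 S))) hx
  have h3 : ‖(bas x).2.2 - S.ψ₀‖ < δ :=
    lt_of_le_of_lt ((norm_snd_le (bas x - p0 S).2).trans (norm_snd_le (bas x - p0 S))) hx
  refine ⟨Or.inl fun h0 => ?_, 0, ?_⟩
  · rw [h0, zero_sub, norm_neg] at h3
    have := G.δψ
    have := G.δ0
    linarith
  · rw [actT_zero]
    refine ⟨?_, ?_, ?_⟩
    · have e1 : (bas x).1 = ((bas x).1 - S.h₀) + S.h₀ := by abel
      rw [e1]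
      refine lt_of_le_of_lt (norm_add_le _ _) ?_
      have := G.δ8
      linarith
    · have e1 : (bas x).2.1 = ((bas x).2.1 - S.a₀) + S.a₀ := by abel
      rw [e1]
      refine lt_of_le_of_lt (norm_add_le _ _) ?_
      have := G.Ra
      linarith
    · have e1 : (bas x).2.2 = ((bas x).2.2 - S.ψ₀) + S.ψ₀ := by abel
      rw [e1]
      refine lt_of_le_of_lt (norm_add_le _ _) ?_
      have := G.Rψ
      linarith

end Crest.Agent.R235.FB8_365
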