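import Mathlib
import Crest.Agent.R235.FB8_365

/-!
Row 235 (S0364), package FD-A (helper365), block B4, part 9: the end of the homotopy is an open
embedding with a zero.
-/

set_option autoImplicit false
set_option linter.unusedSectionVars false

open Topology Set Module

namespace Crest.Agent.R235.FB9_365

open FDADef_365 Bet_785 FdB1_435 FB1_365 FB2_365 FB3_365 FB4_365 FB7_365 FB8_365

variable {b : ℕ} {A P Ya Yp : Type} [NormedAddCommGroup A] [NormedSpace ℝ A]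
    [CompleteSpace A] [NormedAddCommGroup P] [NormedSpace ℝ P] [CompleteSpace P]
    [NormedAddCommGroup Ya] [InnerProductSpace ℝ Ya] [CompleteSpace Ya]
    [NormedAddCommGroup Yp] [InnerProductSpace ℝ Yp] [CompleteSpace Yp]

variable {S : SWData b A P Ya Yp} {N : ℕ} {y : Fin N → Yp} {Fa : Submodule ℝ Ya}

/-- the linear model -/
abbrev M0 (S : SWData b A P Ya Yp) (y : Fin N → Yp) (Fa : Submodule ℝ Ya) : Type :=
  (Fin b → ℝ) × LinearMap.ker (LL S y (VA S Fa) S.h₀ : EF S Fa N →ₗ[ℝ] Yp)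

theorem LL_eq {h : Fin b → ℝ} (hh : ‖h - S.h₀‖ ≤ 1 / 8) (v : EF S Fa N) :
    LL S y (VA S Fa) h v = LL S y (VA S Fa) S.h₀ v := by
  have h0 : ‖S.h₀ - S.h₀‖ ≤ 1 / 8 := by rw [sub_self, norm_zero]; norm_num
  rw [LL_apply, LL_apply, Lh_eq S cut_th (th_plateau hh), Lh_eq S cut_th (th_plateau h0),
    sum_sec S y hh, sum_sec S y h0]

/-- the data of a point of the model -/
def vb (q : M0 S y Fa) : (Fin b → ℝ) × A × P :=
  (q.1, (((q.2 : EF S Fa N).1 : VA S Fa) : A), (q.2 : EF S Fa N).2.1)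

/-- the auxiliary variables of a point of the model -/
def vz (q : M0 S y Fa) : J N b → ℝ := (q.2 : EF S Fa N).2.2

theorem vb_add (q q' : M0 S y Fa) : vb (q + q') = vb q + vb q' := rfl
theorem vb_smul (c : ℝ) (q : M0 S y Fa) : vb (c • q) = c • vb q := rfl
theorem vz_add (q q' : M0 S y Fa) : vz (q + q') = vz q + vz q' := rfl
theorem vz_smul (c : ℝ) (q : M0 S y Fa) : vz (c • q) = c • vz q := rfl

theorem vb_cont : Continuous (vb : M0 S y Fa → _) := by
  unfold vb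
  fun_prop

theorem constr0 (q : M0 S y Fa) : S.Lp (vb q).2.2 = ∑ i, vz q (i, z0) • y i := by
  have h0 : ‖S.h₀ - S.h₀‖ ≤ 1 / 8 := by rw [sub_self, norm_zero]; norm_num
  have h1 : LL S y (VA S Fa) S.h₀ (q.2 : EF S Fa N) = 0 := q.2.2
  rw [LL_apply, sub_eq_zero, Lh_eq S cut_th (th_plateau h0), sum_sec S y h0] at h1
  exact h1

variable [FiniteDimensional ℝ Fa]

/-- the linear map -/
noncomputable def VL (Ca : (Fin b → ℝ) × A × P →L[ℝ] Ya)
    (Cp : (Fin b → ℝ) × A × P →L[ℝ] Yp) (Dρ : (Fin b → ℝ) × A × P →L[ℝ] ℝ) :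
    M0 S y Fa →ₗ[ℝ] TT Fa N b where
  toFun q := ((⟨S.La (vb q).2.1, (q.2 : EF S Fa N).1.2⟩ : Fa) +
    Fa.orthogonalProjectionOnto (Ca (vb q)), vz q + cf y (Cp (vb q)), Dρ (vb q))
  map_add' q q' := by
    refine Prod.ext ?_ (Prod.ext ?_ ?_)
    · apply Subtype.ext
      show S.La (vb (q + q')).2.1 + (Fa.orthogonalProjectionOnto (Ca (vb (q + q'))) : Ya) =
        (S.La (vb q).2.1 + (Fa.orthogonalProjectionOnto (Ca (vb q)) : Ya)) +
        (S.La (vb q').2.1 + (Fa.orthogonalProjectionOnto (Ca (vb q')) : Ya))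
      rw [vb_add, map_add Ca, map_add, Submodule.coe_add]
      show S.La ((vb q).2.1 + (vb q').2.1) + _ = _
      rw [map_add]
      abel
    · show vz (q + q') + cf y (Cp (vb (q + q'))) =
        (vz q + cf y (Cp (vb q))) + (vz q' + cf y (Cp (vb q')))
      rw [vb_add, vz_add, map_add, cf_add]
      abel
    · show Dρ (vb (q + q')) = Dρ (vb q) + Dρ (vb q')
      rw [vb_add, map_add]
  map_smul' c q := by
    refine Prod.ext ?_ (Prod.ext ?_ ?_)
    · apply Subtype.ext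
      show S.La (vb (c • q)).2.1 + (Fa.orthogonalProjectionOnto (Ca (vb (c • q))) : Ya) =
        c • (S.La (vb q).2.1 + (Fa.orthogonalProjectionOnto (Ca (vb q)) : Ya))
      rw [vb_smul, map_smul Ca, map_smul, Submodule.coe_smul]
      show S.La (c • (vb q).2.1) + _ = _
      rw [map_smul, smul_add]
    · show vz (c • q) + cf y (Cp (vb (c • q))) = c • (vz q + cf y (Cp (vb q)))
      rw [vb_smul, vz_smul, map_smul, cf_smul, smul_add]
    · show Dρ (vb (c • q)) = c • Dρ (vb q)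
      rw [vb_smul, map_smul]

variable {R' C δ : ℝ} {Ca : (Fin b → ℝ) × A × P →L[ℝ] Ya}
    {Cp : (Fin b → ℝ) × A × P →L[ℝ] Yp} {Dρ : (Fin b → ℝ) × A × P →L[ℝ] ℝ}

theorem VL_inj (G : Good S y Fa R' C δ Ca Cp Dρ) :
    Function.Injective (VL Ca Cp Dρ : M0 S y Fa →ₗ[ℝ] TT Fa N b) := by
  rw [injective_iff_map_eq_zero]
  intro q hq
  have h1 : (⟨S.La (vb q).2.1, (q.2 : EF S Fa N).1.2⟩ : Fa) +
    Fa.orthogonalProjectionOnto (Ca (vb q)) = 0 := congrArg Prod.fst hq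
  have h2 : vz q + cf y (Cp (vb q)) = 0 := congrArg (fun v : TT Fa N b => v.2.1) hq
  have h3 : Dρ (vb q) = 0 := congrArg (fun v : TT Fa N b => v.2.2) hq
  have h4 : vz q = - cf y (Cp (vb q)) := eq_neg_of_add_eq_zero_left h2
  have h5 : vb q = 0 := by
    refine G.lin (vb q) (congrArg Subtype.val h1) ?_ h3
    rw [constr0, h4, ← sum_cf (b := b) y]
    simp
  rw [h5, map_zero] at h4
  have h6 : vz q = 0 := by
    rw [h4]
    funext j
    simp [cf]
  refine Prod.ext (congrArg (fun p : (Fin b → ℝ) × A × P => p.1) h5) (Subtype.ext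
    (Prod.ext (Subtype.ext ?_) (Prod.ext ?_ h6)))
  · exact congrArg (fun p : (Fin b → ℝ) × A × P => p.2.1) h5
  · exact congrArg (fun p : (Fin b → ℝ) × A × P => p.2.2) h5

/-- the constant part -/
noncomputable def kap (S : SWData b A P Ya Yp) (y : Fin N → Yp) (Fa : Submodule ℝ Ya)
    [FiniteDimensional ℝ Fa] (Ca : (Fin b → ℝ) × A × P →L[ℝ] Ya)
    (Cp : (Fin b → ℝ) × A × P →L[ℝ] Yp) (Dρ : (Fin b → ℝ) × A × P →L[ℝ] ℝ) : TT Fa N b :=
  (Fa.orthogonalProjectionOnto (S.Ka (p0 S) - Ca (p0 S)), cf y (S.Kp (p0 S) - Cp (p0 S)),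
    -Dρ (p0 S))

/-- the region of the linear model -/
def U0 (S : SWData b A P Ya Yp) (y : Fin N → Yp) (Fa : Submodule ℝ Ya) (δ : ℝ) :
    Set (M0 S y Fa) := {q | ‖vb q - p0 S‖ < δ}

theorem isOpen_U0 : IsOpen (U0 S y Fa δ) :=
  isOpen_lt (vb_cont.sub continuous_const).norm continuous_const

theorem fst_le {q : M0 S y Fa} (hδ : δ ≤ 1 / 8) (hq : q ∈ U0 S y Fa δ) :
    ‖q.1 - S.h₀‖ ≤ 1 / 8 := by
  have h1 : ‖(vb q - p0 S).1‖ ≤ ‖vb q - p0 S‖ := norm_fst_le _
  have h2 : (vb q - p0 S).1 = q.1 - S.h₀ := rfl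
  have h3 : ‖vb q - p0 S‖ < δ := hq
  rw [h2] at h1
  linarith

/-- the point of the total space -/
def ofM (hδ : δ ≤ 1 / 8) (q : U0 S y Fa δ) : Tot S y Fa :=
  ⟨(q.1.1, (q.1.2 : EF S Fa N)), by
    have h1 : LL S y (VA S Fa) S.h₀ (q.1.2 : EF S Fa N) = 0 := q.1.2.2
    show LL S y (VA S Fa) q.1.1 (q.1.2 : EF S Fa N) = 0
    rw [LL_eq (fst_le hδ q.2)]
    exact h1⟩

/-- the point of the model -/
def toM (hδ : δ ≤ 1 / 8) (x : Tot S y Fa) (hx : ‖bas x - p0 S‖ < δ) : M0 S y Fa :=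
  (x.1.1, ⟨x.1.2, by
    have h1 := x.2
    have h2 : ‖x.1.1 - S.h₀‖ ≤ 1 / 8 := norm_bas hδ hx
    rw [LL_eq h2] at h1
    exact h1⟩)

/-- the end of the homotopy is affine -/
theorem HT_one (hδ : δ ≤ 1 / 8) (x : Tot S y Fa) (hx : ‖bas x - p0 S‖ < δ) :
    HT Ca Cp Dρ x 1 = VL Ca Cp Dρ (toM hδ x hx) + kap S y Fa Ca Cp Dρ := by
  unfold HT KaS KpS rS
  simp only [sub_self, zero_smul, one_smul, zero_add, zero_mul, one_mul]
  refine Prod.ext ?_ (Prod.ext ?_ ?_)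
  · apply Subtype.ext
    show S.La (bas x).2.1 + (Fa.orthogonalProjectionOnto (S.Ka (p0 S) + Ca (bas x - p0 S)) : Ya) =
      (S.La (bas x).2.1 + (Fa.orthogonalProjectionOnto (Ca (bas x)) : Ya)) +
        (Fa.orthogonalProjectionOnto (S.Ka (p0 S) - Ca (p0 S)) : Ya)
    rw [add_assoc, ← Submodule.coe_add, ← map_add, map_sub]
    congr 3
    abel
  · show zz x + cf y (S.Kp (p0 S) + Cp (bas x - p0 S)) =
      (zz x + cf y (Cp (bas x))) + cf y (S.Kp (p0 S) - Cp (p0 S))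
    rw [add_assoc, ← cf_add, map_sub]
    congr 2
    abel
  · show Dρ (bas x - p0 S) = Dρ (bas x) + -Dρ (p0 S)
    rw [map_sub]
    abel

/-- the homeomorphism of the neighbourhood with the region of the linear model -/
def homeo (G : Good S y Fa R' C δ Ca Cp Dρ) :
    {x : Xo S y Fa R' | ‖bas x.1 - p0 S‖ < δ} ≃ₜ U0 S y Fa δ where
  toFun x := ⟨toM G.δ8 x.1.1 x.2, x.2⟩
  invFun q := ⟨⟨ofM G.δ8 q, W_mem_Xo G (x := ofM G.δ8 q) q.2⟩, q.2⟩
  left_inv x := rfl
  right_inv q := rfl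
  continuous_toFun := by
    refine Continuous.subtype_mk ?_ _
    unfold toM
    refine Continuous.prodMk (by fun_prop) (Continuous.subtype_mk (by fun_prop) _)
  continuous_invFun := by
    refine Continuous.subtype_mk (Continuous.subtype_mk ?_ _) _
    unfold ofM
    exact Continuous.subtype_mk (by fun_prop) _

/-- the end of the homotopy is an open embedding with a zero -/
theorem HT_emb (G : Good S y Fa R' C δ Ca Cp Dρ)
    (hf : FiniteDimensional ℝ (LinearMap.ker (LL S y (VA S Fa) S.h₀ : EF S Fa N →ₗ[ℝ] Yp)))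
    (hdim : finrank ℝ (M0 S y Fa) = finrank ℝ (TT Fa N b)) :
    IsOpenEmbedding ({x : Xo S y Fa R' | ‖bas x.1 - p0 S‖ < δ}.domRestrict
      fun x => HT Ca Cp Dρ x.1 1) ∧
    ∃ x : Xo S y Fa R', ‖bas x.1 - p0 S‖ < δ ∧ HT Ca Cp Dρ x.1 1 = 0 := by
  let e : M0 S y Fa ≃ₗ[ℝ] TT Fa N b := (VL Ca Cp Dρ).linearEquivOfInjective (VL_inj G) hdim
  let e' : M0 S y Fa ≃L[ℝ] TT Fa N b := e.toContinuousLinearEquiv
  have he : ∀ q, e' q = VL Ca Cp Dρ q := fun q => rfl
  constructor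
  · have h1 : IsOpenEmbedding fun v : TT Fa N b => v + kap S y Fa Ca Cp Dρ :=
      (Homeomorph.addRight (kap S y Fa Ca Cp Dρ)).isOpenEmbedding
    have h2 := h1.comp (e'.toHomeomorph.isOpenEmbedding.comp
      ((isOpen_U0 (S := S) (y := y) (Fa := Fa) (δ := δ)).isOpenEmbedding_subtypeVal.comp
        (homeo G).isOpenEmbedding))
    convert h2 using 1
    funext x
    exact HT_one G.δ8 x.1.1 x.2
  · set q : M0 S y Fa := e'.symm (-kap S y Fa Ca Cp Dρ) with hq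
    have hq1 : VL Ca Cp Dρ q + kap S y Fa Ca Cp Dρ = 0 := by
      rw [← he, hq, e'.apply_symm_apply, neg_add_cancel]
    have k1 : (⟨S.La (vb q).2.1, (q.2 : EF S Fa N).1.2⟩ : Fa) +
      Fa.orthogonalProjectionOnto (Ca (vb q)) +
        Fa.orthogonalProjectionOnto (S.Ka (p0 S) - Ca (p0 S)) = 0 := congrArg Prod.fst hq1
    have k2 : vz q + cf y (Cp (vb q)) + cf y (S.Kp (p0 S) - Cp (p0 S)) = 0 :=
      congrArg (fun v : TT Fa N b => v.2.1) hq1
    have k3 : Dρ (vb q) + -Dρ (p0 S) = 0 := congrArg (fun v : TT Fa N b => v.2.2) hq1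
    have hδq : q ∈ U0 S y Fa δ := by
      refine G.aff (vb q) ?_ ?_ ?_
      · have h1 := congrArg Subtype.val k1
        have h2 : S.La (vb q).2.1 + (Fa.orthogonalProjectionOnto (Ca (vb q)) : Ya) +
          (Fa.orthogonalProjectionOnto (S.Ka (p0 S) - Ca (p0 S)) : Ya) = 0 := h1
        rw [add_assoc, ← Submodule.coe_add, ← map_add] at h2
        have h3 : S.Ka (p0 S) + Ca (vb q - p0 S) = Ca (vb q) + (S.Ka (p0 S) - Ca (p0 S)) := by
          rw [map_sub]
          abel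
        rw [h3]
        exact h2
      · have h3 : S.Kp (p0 S) + Cp (vb q - p0 S) = Cp (vb q) + (S.Kp (p0 S) - Cp (p0 S)) := by
          rw [map_sub]
          abel
        rw [add_assoc, ← cf_add] at k2
        have h4 := eq_neg_of_add_eq_zero_left k2
        rw [h3, constr0, h4, ← sum_cf (b := b) y]
        simp
      · rw [map_sub]
        linarith
    have hx0 := ((homeo G).symm ⟨q, hδq⟩).2
    refine ⟨((homeo G).symm ⟨q, hδq⟩).1, hx0, ?_⟩
    have h6 := HT_one (Ca := Ca) (Cp := Cp) (Dρ := Dρ) G.δ8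
      (((homeo G).symm ⟨q, hδq⟩).1.1) hx0
    rw [h6]
    exact hq1

end Crest.Agent.R235.FB9_365
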