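import Mathlib
import Crest.Agent.R235.FB9_365

/-!
Row 235 (S0364), package FD-A (helper365), block B4, part 10: `Good` data are contradictory.
-/

set_option autoImplicit false
set_option linter.unusedSectionVars false

open Topology Set Module

namespace Crest.Agent.R235.FB10_365

open FDADef_365 Bet_785 FdB1_435 FB1_365 FB2_365 FB3_365 FB4_365 FB6_365 FB7_365 FB8_365 FB9_365

variable {b : ℕ} {A P Ya Yp : Type} [NormedAddCommGroup A] [NormedSpace ℝ A]
    [CompleteSpace A] [NormedAddCommGroup P] [NormedSpace ℝ P] [CompleteSpace P]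
    [NormedAddCommGroup Ya] [InnerProductSpace ℝ Ya] [CompleteSpace Ya]
    [NormedAddCommGroup Yp] [InnerProductSpace ℝ Yp] [CompleteSpace Yp]

variable {S : SWData b A P Ya Yp} {N : ℕ} {y : Fin N → Yp} {Fa : Submodule ℝ Ya}

/-- dimensions of the fibres -/
theorem dims [FiniteDimensional ℝ Fa] (hFa : (LinearMap.range (S.La : A →ₗ[ℝ] Ya))ᗮ ≤ Fa)
    (hs : ∀ h, Function.Surjective (LL S y (VA S Fa) h)) (h : Fin b → ℝ) :
    FiniteDimensional ℝ (LinearMap.ker (LL S y (VA S Fa) h : EF S Fa N →ₗ[ℝ] Yp)) ∧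
    b + finrank ℝ (LinearMap.ker (LL S y (VA S Fa) h : EF S Fa N →ₗ[ℝ] Yp)) =
      finrank ℝ Fa + N * 2 ^ b + 1 := by
  obtain ⟨h1, h2⟩ := dimA S.La S.fredA Fa hFa
  let e : EF S Fa N ≃ₗ[ℝ] P × (VA S Fa × (J N b → ℝ)) :=
    { toFun := fun v => (v.2.1, (v.1, v.2.2))
      map_add' := fun v w => rfl
      map_smul' := fun c v => rfl
      invFun := fun v => (v.2.1, (v.1, v.2.2))
      left_inv := fun v => rfl
      right_inv := fun v => rfl }
  let s : (VA S Fa × (J N b → ℝ)) →ₗ[ℝ] Yp :=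
    (∑ j, (LinearMap.proj (R := ℝ) (φ := fun _ : J N b => ℝ) j).smulRight (sec S y j h)) ∘ₗ
      LinearMap.snd ℝ (VA S Fa) (J N b → ℝ)
  have hsv : ∀ v, s v = ∑ j, v.2 j • sec S y j h := by
    intro v
    simp [s]
  obtain ⟨h3, h4⟩ := dimP (Lh S (th b) h) (Lh_fred S cut_th h) e s
    (LL S y (VA S Fa) h : EF S Fa N →ₗ[ℝ] Yp) (fun x => by
      rw [hsv]
      exact LL_apply S y (VA S Fa) h x) (hs h)
  refine ⟨h3, ?_⟩
  have h5 : finrank ℝ (VA S Fa × (J N b → ℝ)) = finrank ℝ (VA S Fa) + N * 2 ^ b := by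
    rw [finrank_prod, finrank_pi]
    simp
  rw [h5, Lh_ind S cut_th h] at h4
  have h6 := S.index
  push_cast at h4
  have h7 : (finrank ℝ (VA S Fa) : ℤ) = ind S.La + finrank ℝ Fa := h2
  have h8 : ((b + finrank ℝ (LinearMap.ker (LL S y (VA S Fa) h : EF S Fa N →ₗ[ℝ] Yp)) : ℕ) : ℤ) =
      ((finrank ℝ Fa + N * 2 ^ b + 1 : ℕ) : ℤ) := by
    push_cast
    rw [h4, h7]
    linarith
  exact_mod_cast h8

/-- the direction of `ρ` -/
def ee (Fa : Submodule ℝ Ya) (N b : ℕ) : TT Fa N b := (0, 0, 1)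

theorem ray {Fa : Submodule ℝ Ya} {v : TT Fa N b} {s : ℝ} (hs : 0 ≤ s) (h : v = -(s • ee Fa N b)) :
    v.1 = 0 ∧ v.2.1 = 0 ∧ v.2.2 ≤ 0 := by
  subst h
  unfold ee
  simp [hs]

variable [FiniteDimensional ℝ Fa] {R' C δ : ℝ} {Ca : (Fin b → ℝ) × A × P →L[ℝ] Ya}
    {Cp : (Fin b → ℝ) × A × P →L[ℝ] Yp} {Dρ : (Fin b → ℝ) × A × P →L[ℝ] ℝ}

theorem bot (G : Good S y Fa R' C δ Ca Cp Dρ) (hQL : QL) (hT : FDTOP) : False := by
  have hs : ∀ h, Function.Surjective (LL S y (VA S Fa) h) := LL_surj S y (VA S Fa) G.compl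
  have hf := fun h => (dims (S := S) (y := y) G.Fa_ge hs h).1
  have hk := fun h => (dims (S := S) (y := y) G.Fa_ge hs h).2
  have : CompleteSpace (VA S Fa) := (isClosed_VA S Fa).completeSpace_coe
  set k := finrank ℝ (LinearMap.ker (LL S y (VA S Fa) S.h₀ : EF S Fa N →ₗ[ℝ] Yp)) with hkd
  have hk' : ∀ h, finrank ℝ (LinearMap.ker (LL S y (VA S Fa) h : EF S Fa N →ₗ[ℝ] Yp)) = k := by
    intro h
    have h1 := hk h
    have h2 := hk S.h₀
    omega
  obtain ⟨cs⟩ := Tot_435.chartedSpace (LL_cont S y (VA S Fa)) hs hf hk'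
  set d : ℕ := finrank ℝ Fa + N * 2 ^ b with hd
  have hbk : b + k = d + 1 := hk S.h₀
  rw [hbk] at cs
  have hd1 : 1 ≤ d := by
    have h1 : 0 < N * 2 ^ b := Nat.mul_pos G.hN (by positivity)
    omega
  have hTT : finrank ℝ (TT Fa N b) = d + 1 := by
    rw [finrank_prod, finrank_prod, finrank_pi, finrank_self]
    simp [hd]
    ring
  have hM0 : finrank ℝ (M0 S y Fa) = finrank ℝ (TT Fa N b) := by
    rw [hTT, finrank_prod, finrank_pi, ← hbk]
    simp [hkd]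
  obtain ⟨M, hM⟩ := exists_M (S := S) (y := y) G
  obtain ⟨hemb, hzero⟩ := HT_emb G (hf S.h₀) hM0
  let act : (Fin b → ℤ) → Xo S y Fa R' → Xo S y Fa R' := fun m x => ⟨actT m x.1, act_mem x.2 m⟩
  let ιX : Xo S y Fa R' → Xo S y Fa R' := fun x => ⟨iT x.1, iT_mem x.2⟩
  have hU : ∀ {x : Tot S y Fa} {m : Fin b → ℤ}, ‖(bas x).1 - S.h₀‖ < δ →
      ‖(bas x).1 + lat m - S.h₀‖ < δ → m = 0 := by
    intro x m h1 h2
    have h3 : ‖lat m‖ < 1 := by
      have e1 : lat m = ((bas x).1 + lat m - S.h₀) - ((bas x).1 - S.h₀) := by abel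
      rw [e1]
      refine lt_of_le_of_lt (norm_sub_le _ _) ?_
      have := G.δ8
      linarith
    funext i
    have h4 : |(m i : ℝ)| < 1 := lt_of_le_of_lt (norm_le_pi_norm (lat m) i) h3
    have h5 : |m i| < 1 := by exact_mod_cast h4
    exact Int.abs_lt_one_iff.1 h5
  have hn1 : ∀ {x : Tot S y Fa}, ‖bas x - p0 S‖ < δ → ‖(bas x).1 - S.h₀‖ < δ := fun {x} hx =>
    lt_of_le_of_lt (norm_fst_le (bas x - p0 S)) hx
  have hn3 : ∀ {x : Tot S y Fa}, ‖bas x - p0 S‖ < δ → ‖(bas x).2.2 - S.ψ₀‖ < δ := fun {x} hx =>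
    lt_of_le_of_lt ((norm_snd_le (bas x - p0 S).2).trans (norm_snd_le (bas x - p0 S))) hx
  refine fdtop_lat (X := Xo S y Fa R') (T := TT Fa N b) hQL hT hd1 hTT act
    (fun x => (bas x.1).1) ?_ ?_ ?_ ?_ ?_ ιX ?_ ?_ ?_ ?_ ?_ (tau Fa N b) (ee Fa N b)
    (fun x => FT x.1) ?_ ?_ ?_ ?_ ?_ ?_ {x | x.1 ∈ T0 S y Fa (C * R')} ?_ ?_
    {x | ‖bas x.1 - p0 S‖ < δ} {x | x.1 ∈ K1 S y Fa δ M} ?_ ?_ ?_ ?_ ?_ ?_
    (fun x s => HT Ca Cp Dρ x.1 s) ?_ ?_ ?_ hemb ?_
  · exact fun m => ((actT_cont m).comp continuous_subtype_val).subtype_mk _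
  · exact fun x => Subtype.ext (actT_zero x.1)
  · exact fun m m' x => Subtype.ext (actT_add m m' x.1)
  · exact continuous_fst.comp (bas_cont.comp continuous_subtype_val)
  · exact fun m x => rfl
  · exact (iT_cont.comp continuous_subtype_val).subtype_mk _
  · exact fun x => Subtype.ext (iT_iT x.1)
  · exact fun x h => iT_ne x.2 (congrArg Subtype.val h)
  · exact fun m x => Subtype.ext (iT_act m x.1)
  · exact fun x => rfl
  · intro v
    rw [tau_apply, tau_apply]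
    simp
  · unfold ee
    rw [tau_apply]
    simp
  · unfold ee
    simp
  · exact FT_cont.comp continuous_subtype_val
  · exact fun x => FT_iT x.1
  · exact fun m x => FT_act m x.1
  · rw [Subtype.isCompact_iff]
    convert isCompact_T0 (S := S) (y := y) (Fa := Fa) hs hf (C * R') using 1
    ext x
    constructor
    · rintro ⟨x, hx, rfl⟩
      exact hx
    · intro hx
      exact ⟨⟨x, T0_sub G hx⟩, hx, rfl⟩
  · rintro x ⟨s, hs0, hx⟩
    obtain ⟨r1, r2, r3⟩ := ray hs0 hx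
    exact exists_T0 G x.2 r1 r2 r3
  · exact isOpen_lt ((bas_cont.comp continuous_subtype_val).sub continuous_const).norm
      continuous_const
  · intro x hx m hm
    exact hU (hn1 hx) (hn1 hm)
  · intro x hx m hm
    have h1 : m = 0 := hU (x := x.1) (hn1 hx) (hn1 (x := actT m (iT x.1)) hm)
    subst h1
    have h2 : ‖bas (actT 0 (iT x.1)) - p0 S‖ < δ := hm
    rw [actT_zero] at h2
    have h3 := hn3 hx
    have h4 := hn3 h2
    rw [bas_iT] at h4
    have h5 : ‖(bas x.1).2.2 - S.ψ₀‖ < δ := h3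
    have h6 : ‖-(bas x.1).2.2 - S.ψ₀‖ < δ := h4
    have h7 : ‖(2 : ℝ) • S.ψ₀‖ < 2 * δ := by
      have e1 : (2 : ℝ) • S.ψ₀ = -(((bas x.1).2.2 - S.ψ₀) + (-(bas x.1).2.2 - S.ψ₀)) := by
        rw [two_smul]
        abel
      rw [e1, norm_neg]
      refine lt_of_le_of_lt (norm_add_le _ _) ?_
      linarith
    rw [norm_smul, Real.norm_of_nonneg (by norm_num : (0 : ℝ) ≤ 2)] at h7
    have h8 := G.δψ
    have h9 := norm_nonneg S.ψ₀
    linarith
  · intro x hx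
    have r1 : (FT x.1).1 = 0 := by rw [hx]; rfl
    have r2 : (FT x.1).2.1 = 0 := by rw [hx]; rfl
    have r3 : (FT x.1).2.2 = 0 := by rw [hx]; rfl
    obtain ⟨n, hn⟩ := exists_T0 G x.2 r1 r2 r3.le
    obtain ⟨-, -, -, h4⟩ := T0_near G hn
    obtain ⟨m, e1, e2, e3⟩ := h4 (by rw [FT_act]; exact r3)
    refine ⟨m + n, ?_⟩
    rcases e3 with e3 | e3
    · left
      show ‖bas (actT (m + n) x.1) - p0 S‖ < δ
      rw [actT_add, bas_act]
      rw [Prod.norm_def, Prod.norm_def]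
      exact max_lt e1 (max_lt e2 e3)
    · right
      show ‖bas (actT (m + n) (iT x.1)) - p0 S‖ < δ
      rw [← iT_act, actT_add, bas_iT, bas_act]
      rw [Prod.norm_def, Prod.norm_def]
      exact max_lt e1 (max_lt e2 e3)
  · rw [Subtype.isCompact_iff]
    convert isCompact_K1 (S := S) (y := y) (Fa := Fa) hs hf δ M using 1
    ext x
    constructor
    · rintro ⟨x, hx, rfl⟩
      exact hx
    · intro hx
      refine ⟨⟨x, W_mem_Xo G ?_⟩, hx, rfl⟩
      have := G.δ0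
      linarith [hx.1]
  · intro x hx
    have h1 : ‖bas x.1 - p0 S‖ ≤ δ / 2 := hx.1
    have := G.δ0
    show ‖bas x.1 - p0 S‖ < δ
    linarith
  · exact ((HT_cont Ca Cp Dρ).comp ((continuous_subtype_val.comp continuous_fst).prodMk
      continuous_snd)).continuousOn
  · intro x hx
    exact HT_zero Ca Cp Dρ (norm_bas G.δ8 hx)
  · intro x hx s hs0 h
    exact hM x.1 hx s hs0 h
  · exact hzero

end Crest.Agent.R235.FB10_365
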