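import Mathlib

/-!
Row 235 (S0364), helper755. Task GAL, part A: functional analysis for the Galerkin step.
* `PB L` : bounded sequences with convergent image under `L` have convergent subsequences;
* `pb_of_fredholm`, `pb_prod`, `pb_of_bij`;
* `lower_bound` : a compact perturbation of a `PB` map without zeros on a closed bounded set is
  bounded away from zero;
* `exists_approx` : finite dimensional subspaces approximate compact sets.
-/

set_option autoImplicit false

open Set Filter Topology Module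

namespace Crest.Agent.R235.GalA_755

/-- bounded sequences with convergent image have convergent subsequences. -/
def PB {E F : Type*} [NormedAddCommGroup E] [NormedAddCommGroup F] (L : E → F) : Prop :=
  ∀ (x : ℕ → E) (R : ℝ) (y : F), (∀ n, ‖x n‖ ≤ R) → Tendsto (fun n => L (x n)) atTop (𝓝 y) →
    ∃ (x0 : E) (φ : ℕ → ℕ), StrictMono φ ∧ Tendsto (fun n => x (φ n)) atTop (𝓝 x0)

theorem pb_prod {E F E' F' : Type*} [NormedAddCommGroup E] [NormedAddCommGroup F]
    [NormedAddCommGroup E'] [NormedAddCommGroup F'] {L : E → F} {L' : E' → F'}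
    (h : PB L) (h' : PB L') : PB (fun q : E × E' => (L q.1, L' q.2)) := by
  intro x R y hx hy
  have h1 : Tendsto (fun n => L (x n).1) atTop (𝓝 y.1) :=
    (continuous_fst.tendsto _).comp hy
  have h2 : Tendsto (fun n => L' (x n).2) atTop (𝓝 y.2) :=
    (continuous_snd.tendsto _).comp hy
  obtain ⟨a, φ, hφ, ha⟩ := h (fun n => (x n).1) R y.1
    (fun n => (norm_fst_le (x n)).trans (hx n)) h1
  obtain ⟨b, ψ, hψ, hb⟩ := h' (fun n => (x (φ n)).2) R y.2
    (fun n => (norm_snd_le (x (φ n))).trans (hx _)) (h2.comp hφ.tendsto_atTop)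
  refine ⟨(a, b), φ ∘ ψ, hφ.comp hψ, ?_⟩
  have := (ha.comp hψ.tendsto_atTop).prodMk_nhds hb
  exact this

/-- a Banach space map whose sum with a map from an auxiliary Banach space is bijective. -/
theorem pb_of_bij {T E F : Type*} [NormedAddCommGroup T] [NormedSpace ℝ T] [CompleteSpace T]
    [NormedAddCommGroup E] [NormedSpace ℝ E] [CompleteSpace E]
    [NormedAddCommGroup F] [NormedSpace ℝ F] [CompleteSpace F]
    (L : E →L[ℝ] F) (A : T →L[ℝ] F)
    (h : Function.Bijective fun q : T × E => L q.2 + A q.1) : PB (fun x => L x) := by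
  let M : T × E →L[ℝ] F := L.comp (ContinuousLinearMap.snd ℝ T E) +
    A.comp (ContinuousLinearMap.fst ℝ T E)
  have hM : ∀ q, M q = L q.2 + A q.1 := fun q => rfl
  have hb : Function.Bijective M := h
  let e : (T × E) ≃L[ℝ] F := ContinuousLinearEquiv.ofBijective M
    (LinearMap.ker_eq_bot.2 hb.1) (LinearMap.range_eq_top.2 hb.2)
  have he : ∀ q, e q = M q := fun q => rfl
  intro x R y _ hy
  refine ⟨(e.symm y).2, id, strictMono_id, ?_⟩
  have h1 : Tendsto (fun n => e.symm (L (x n))) atTop (𝓝 (e.symm y)) :=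
    (e.symm.continuous.tendsto y).comp hy
  have h2 : ∀ n, (e.symm (L (x n))).2 = x n := by
    intro n
    have : e (0, x n) = L (x n) := by rw [he, hM]; simp
    rw [← this, e.symm_apply_apply]
  have h3 := (continuous_snd.tendsto (e.symm y)).comp h1
  refine h3.congr ?_
  intro n
  simp only [Function.comp, id]
  exact h2 n

/-- finite dimensional kernel and closed range. -/
theorem pb_of_fredholm {E F : Type*} [NormedAddCommGroup E] [InnerProductSpace ℝ E]
    [CompleteSpace E] [NormedAddCommGroup F] [NormedSpace ℝ F] [CompleteSpace F]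
    (L : E →L[ℝ] F) (hk : FiniteDimensional ℝ (LinearMap.ker (L : E →ₗ[ℝ] F)))
    (hr : IsClosed (Set.range L)) : PB (fun x => L x) := by
  set N : Submodule ℝ E := LinearMap.ker (L : E →ₗ[ℝ] F) with hN
  haveI : FiniteDimensional ℝ N := hk
  -- restriction to the orthogonal complement
  let L1 : Nᗮ →L[ℝ] F := L.comp Nᗮ.subtypeL
  have hinj : Function.Injective L1 := by
    intro a b hab
    have h0 : L ((a : E) - b) = 0 := by
      have : L (a : E) = L (b : E) := hab
      rw [map_sub, this, sub_self]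
    have h1 : ((a : E) - b) ∈ N := h0
    have h2 : ((a : E) - b) ∈ Nᗮ := Nᗮ.sub_mem a.2 b.2
    have h3 : ((a : E) - b) = 0 := by
      have := Submodule.inner_right_of_mem_orthogonal h1 h2
      exact inner_self_eq_zero.1 this
    exact Subtype.ext (sub_eq_zero.1 h3)
  have hrange : Set.range L1 = Set.range L := by
    ext y
    constructor
    · rintro ⟨a, rfl⟩; exact ⟨a, rfl⟩
    · rintro ⟨x, rfl⟩
      obtain ⟨n, hn, z, hz, hx⟩ := N.exists_add_mem_mem_orthogonal x
      refine ⟨⟨z, hz⟩, ?_⟩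
      have : L n = 0 := hn
      show L z = L x
      rw [hx, map_add, this, zero_add]
  have hcl : IsClosed (Set.range L1) := by rw [hrange]; exact hr
  obtain ⟨K, hK⟩ := L1.antilipschitz_of_injective_of_isClosed_range hinj hcl
  intro x R y hx hy
  -- components
  have hdec : ∀ n, (N.starProjection (x n)) + (Nᗮ.starProjection (x n)) = x n := fun n =>
    Submodule.starProjection_add_starProjection_orthogonal (K := N) (x n)
  have hz : ∀ n, L1 (Nᗮ.orthogonalProjectionOnto (x n)) = L (x n) := by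
    intro n
    have h0 : L (N.starProjection (x n)) = 0 := (N.starProjection_apply_mem (x n))
    have : L (Nᗮ.starProjection (x n)) = L (x n) := by
      conv_rhs => rw [← hdec n, map_add, h0, zero_add]
    exact this
  obtain ⟨z0, hz0⟩ : y ∈ Set.range L1 := by
    rw [hrange]
    exact hr.mem_of_tendsto hy (Eventually.of_forall fun n => ⟨x n, rfl⟩)
  have hzt : Tendsto (fun n => Nᗮ.orthogonalProjectionOnto (x n)) atTop (𝓝 z0) := by
    rw [tendsto_iff_dist_tendsto_zero]
    have h1 : Tendsto (fun n => (K : ℝ) * dist (L (x n)) y) atTop (𝓝 0) := by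
      have := (tendsto_iff_dist_tendsto_zero.1 hy).const_mul (K : ℝ)
      simpa using this
    refine squeeze_zero (fun n => dist_nonneg) (fun n => ?_) h1
    have := hK.le_mul_dist (Nᗮ.orthogonalProjectionOnto (x n)) z0
    rwa [hz n, hz0] at this
  -- the kernel part is bounded
  have hkb : ∀ n, (N.orthogonalProjectionOnto (x n)) ∈ Metric.closedBall (0 : N) R := by
    intro n
    rw [mem_closedBall_zero_iff]
    exact (N.norm_orthogonalProjectionOnto_apply_le (x n)).trans (hx n)
  obtain ⟨k0, _, φ, hφ, hk0⟩ := (isCompact_closedBall (0 : N) R).tendsto_subseq hkb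
  refine ⟨(k0 : E) + (z0 : E), φ, hφ, ?_⟩
  have h1 : Tendsto (fun n => ((N.orthogonalProjectionOnto (x (φ n)) : N) : E)) atTop
      (𝓝 (k0 : E)) := (continuous_subtype_val.tendsto k0).comp hk0
  have h2 : Tendsto (fun n => ((Nᗮ.orthogonalProjectionOnto (x (φ n)) : Nᗮ) : E)) atTop
      (𝓝 (z0 : E)) :=
    ((continuous_subtype_val.tendsto z0).comp hzt).comp hφ.tendsto_atTop
  refine (h1.add h2).congr ?_
  intro n
  exact hdec (φ n)

/-- a compact perturbation of a `PB` map without zeros on a closed bounded set is bounded away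
from zero. -/
theorem lower_bound {Q E F : Type*} [MetricSpace Q] [NormedAddCommGroup E]
    [NormedAddCommGroup F] (L : E → F) (hL : PB L) (hLc : Continuous L)
    {S : Set Q} (hS : IsCompact S) (B : Set (Q × E)) (hB : IsClosed B) (R : ℝ)
    (hBS : ∀ q ∈ B, q.1 ∈ S ∧ ‖q.2‖ ≤ R)
    (G : Q × E → F) (hG : ContinuousOn G B) {C : Set F} (hC : IsCompact C)
    (hGC : ∀ q ∈ B, G q ∈ C) (hne : ∀ q ∈ B, L q.2 + G q ≠ 0) :
    ∃ ε > 0, ∀ q ∈ B, ε ≤ ‖L q.2 + G q‖ := by
  by_contra hcon
  push Not at hcon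
  have h1 : ∀ n : ℕ, ∃ q ∈ B, ‖L q.2 + G q‖ < 1 / ((n : ℝ) + 1) := fun n =>
    hcon _ (by positivity)
  choose q hqB hq using h1
  obtain ⟨s, hsS, φ, hφ, hs⟩ := hS.tendsto_subseq (fun n => (hBS (q n) (hqB n)).1)
  obtain ⟨g, hgC, ψ, hψ, hg⟩ := hC.tendsto_subseq (fun n => hGC (q (φ n)) (hqB (φ n)))
  have h0 : Tendsto (fun n => L (q n).2 + G (q n)) atTop (𝓝 0) := by
    rw [tendsto_zero_iff_norm_tendsto_zero]
    refine squeeze_zero (fun n => norm_nonneg _) (fun n => (hq n).le)
      tendsto_one_div_add_atTop_nhds_zero_nat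
  have h0' : Tendsto (fun n => L (q (φ (ψ n))).2 + G (q (φ (ψ n)))) atTop (𝓝 0) :=
    h0.comp (hφ.comp hψ).tendsto_atTop
  have hLt : Tendsto (fun n => L (q (φ (ψ n))).2) atTop (𝓝 (-g)) := by
    have := h0'.sub hg
    simpa using this
  obtain ⟨x0, χ, hχ, hx⟩ := hL (fun n => (q (φ (ψ n))).2) R (-g)
    (fun n => (hBS _ (hqB _)).2) hLt
  have hs2 : Tendsto (fun n => (q (φ (ψ (χ n)))).1) atTop (𝓝 s) :=
    hs.comp (hψ.comp hχ).tendsto_atTop
  have hq2 : Tendsto (fun n => q (φ (ψ (χ n)))) atTop (𝓝 (s, x0)) := by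
    have := hs2.prodMk_nhds hx
    exact this
  have hmem : (s, x0) ∈ B := hB.mem_of_tendsto hq2 (Eventually.of_forall fun n => hqB _)
  have hGt : Tendsto (fun n => G (q (φ (ψ (χ n))))) atTop (𝓝 (G (s, x0))) := by
    have := hG (s, x0) hmem
    refine this.tendsto.comp ?_
    exact tendsto_nhdsWithin_iff.2 ⟨hq2, Eventually.of_forall fun n => hqB _⟩
  have hLt2 : Tendsto (fun n => L (q (φ (ψ (χ n)))).2) atTop (𝓝 (L x0)) :=
    (hLc.tendsto x0).comp hx
  have hlim := hLt2.add hGt
  have h0'' : Tendsto (fun n => L (q (φ (ψ (χ n)))).2 + G (q (φ (ψ (χ n))))) atTop (𝓝 0) :=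
    h0'.comp hχ.tendsto_atTop
  exact hne _ hmem (tendsto_nhds_unique hlim h0'')

/-- finite dimensional subspaces approximate compact sets. -/
theorem exists_approx {Y : Type*} [NormedAddCommGroup Y] [InnerProductSpace ℝ Y]
    {C : Set Y} (hC : IsCompact C) (W0 : Submodule ℝ Y) [FiniteDimensional ℝ W0]
    {ε : ℝ} (hε : 0 < ε) :
    ∃ W : Submodule ℝ Y, W0 ≤ W ∧ ∃ _ : FiniteDimensional ℝ W,
      ∀ y ∈ C, ‖y - W.starProjection y‖ < ε := by
  obtain ⟨s, _, hsf, hs⟩ := hC.finite_cover_balls hε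
  refine ⟨W0 ⊔ Submodule.span ℝ s, le_sup_left, ?_⟩
  haveI : FiniteDimensional ℝ (Submodule.span ℝ s) := FiniteDimensional.span_of_finite ℝ hsf
  haveI hfin : FiniteDimensional ℝ ↥(W0 ⊔ Submodule.span ℝ s) := Submodule.finiteDimensional_sup _ _
  refine ⟨hfin, ?_⟩
  intro y hy
  obtain ⟨c, hc, hyc⟩ := mem_iUnion₂.1 (hs hy)
  have hcW : c ∈ W0 ⊔ Submodule.span ℝ s :=
    (le_sup_right : Submodule.span ℝ s ≤ _) (Submodule.subset_span hc)
  rw [Submodule.starProjection_minimal]
  refine lt_of_le_of_lt ?_ (mem_ball_iff_norm.1 hyc)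
  have hbdd : BddBelow (Set.range fun w : ↥(W0 ⊔ Submodule.span ℝ s) => ‖y - w‖) :=
    ⟨0, by rintro _ ⟨w, rfl⟩; exact norm_nonneg _⟩
  exact ciInf_le hbdd ⟨c, hcW⟩

end Crest.Agent.R235.GalA_755
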