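import Mathlib
import Crest.Agent.R235.FB4_365
import Crest.Agent.R235.Est_143
import Crest.Agent.R235.GalA_755

/-!
Row 235 (S0364), package FD-A (leader helper365), block FB5 (helper785): existence of the finite
dimensional data, `exists_good`.
-/

set_option autoImplicit false

open Topology Set Module Filter

namespace Crest.Agent.R235.FB5_785

open FDADef_365 Bet_785 FdB1_435 FB1_365 FB2_365 FB3_365 FB4_365 Est_143

/-- a spanning family such that `Pl` is the orthogonal projection. -/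
theorem exists_y {Yp : Type} [NormedAddCommGroup Yp] [InnerProductSpace ℝ Yp]
    (W : Submodule ℝ Yp) [FiniteDimensional ℝ W] :
    ∃ (N : ℕ) (y : Fin N → Yp), 0 < N ∧ Submodule.span ℝ (range y) = W ∧
      ∀ w, Pl y w = W.starProjection w := by
  let B := stdOrthonormalBasis ℝ W
  refine ⟨finrank ℝ W + 1, Fin.cons 0 (fun i => (B i : Yp)), Nat.succ_pos _, ?_, fun w => ?_⟩
  · rw [Fin.range_cons, Submodule.span_insert_zero]
    have h1 : range (fun i => (B i : Yp)) = W.subtype '' (range B) := by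
      rw [← range_comp]; rfl
    rw [h1, Submodule.span_image, ← OrthonormalBasis.coe_toBasis, Basis.span_eq,
      Submodule.map_top, Submodule.range_subtype]
  · unfold Pl
    rw [Fin.sum_univ_succ]
    simp only [Fin.cons_zero, Fin.cons_succ, smul_zero, zero_add]
    rw [B.starProjection_eq_sum_rankOne]
    simp

section main

variable {b : ℕ} {A P Ya Yp : Type} [NormedAddCommGroup A] [NormedSpace ℝ A]
    [CompleteSpace A] [NormedAddCommGroup P] [NormedSpace ℝ P] [CompleteSpace P]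
    [NormedAddCommGroup Ya] [InnerProductSpace ℝ Ya] [CompleteSpace Ya]
    [NormedAddCommGroup Yp] [InnerProductSpace ℝ Yp] [CompleteSpace Yp]

/-- homogeneity of the error of a linear map. -/
theorem err_lin {E Y : Type} [NormedAddCommGroup E] [NormedSpace ℝ E] [NormedAddCommGroup Y]
    [NormedSpace ℝ Y] (L : E →L[ℝ] Y) (Q : Y →L[ℝ] Y) {ε : ℝ}
    (h : ∀ q : E, ‖q‖ ≤ 1 → ‖L q - Q (L q)‖ ≤ ε) (v : E) : ‖L v - Q (L v)‖ ≤ ε * ‖v‖ := by
  by_cases hv : v = 0
  · subst hv; simp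
  have hv0 : 0 < ‖v‖ := norm_pos_iff.2 hv
  have h1 := h (‖v‖⁻¹ • v) (by rw [norm_smul, norm_inv, norm_norm, inv_mul_cancel₀ hv0.ne'])
  rw [map_smul, map_smul, ← smul_sub, norm_smul, norm_inv, norm_norm] at h1
  rw [inv_mul_le_iff₀ hv0] at h1
  linarith

/-- the norm of `D v`. -/
theorem norm_D_le (S : SWData b A P Ya Yp) {Ca : (Fin b → ℝ) × A × P →L[ℝ] Ya}
    {Cp : (Fin b → ℝ) × A × P →L[ℝ] Yp} {Dρ : (Fin b → ℝ) × A × P →L[ℝ] ℝ}
    (hD : ∀ y, S.D y = (S.La y.2.1 + Ca y, S.Lp y.2.2 + Cp y, Dρ y))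
    {v : (Fin b → ℝ) × A × P} {B : ℝ} (h1 : ‖S.La v.2.1 + Ca v‖ ≤ B)
    (h2 : ‖S.Lp v.2.2 + Cp v‖ ≤ B) (h3 : |Dρ v| ≤ B) : ‖S.D v‖ ≤ B := by
  rw [hD v, Prod.norm_def, Prod.norm_def]
  exact max_le h1 (max_le h2 h3)

set_option maxHeartbeats 2000000 in
theorem exists_good (S : SWData b A P Ya Yp) :
    ∃ (N : ℕ) (y : Fin N → Yp) (Fa : Submodule ℝ Ya) (_ : FiniteDimensional ℝ Fa) (R' C δ : ℝ)
      (Ca : (Fin b → ℝ) × A × P →L[ℝ] Ya) (Cp : (Fin b → ℝ) × A × P →L[ℝ] Yp)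
      (Dρ : (Fin b → ℝ) × A × P →L[ℝ] ℝ), Good S y Fa R' C δ Ca Cp Dρ := by
  obtain ⟨R₁, hR₁⟩ := est_bdd S
  obtain ⟨C, hC1, hC⟩ := exists_UV S (3 + ‖S.h₀‖)
  obtain ⟨c, hc, hDl⟩ := D_lower S
  obtain ⟨Ca, Cp, Dρ, dA, dP, dR, hD, cA, cP⟩ := exists_C S
  have hC0 : 0 < C := by linarith
  have hψ0 : S.ψ₀ ≠ 0 := by
    intro h0
    have h1 := S.solρ
    have h2 := S.solA
    rw [h0] at h1 h2
    exact S.irred _ _ h1.le h2
  have hψ0' : 0 < ‖S.ψ₀‖ := norm_pos_iff.2 hψ0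
  -- the radius of linearisation
  obtain ⟨δ₁, hδ₁, hlin⟩ : ∃ δ₁ > 0, ∀ p : (Fin b → ℝ) × A × P, ‖p - p0 S‖ < δ₁ →
      ‖S.Ka p - S.Ka (p0 S) - Ca (p - p0 S)‖ ≤ c / 4 * ‖p - p0 S‖ ∧
      ‖S.Kp p - S.Kp (p0 S) - Cp (p - p0 S)‖ ≤ c / 4 * ‖p - p0 S‖ ∧
      ‖S.ρ p - S.ρ (p0 S) - Dρ (p - p0 S)‖ ≤ c / 4 * ‖p - p0 S‖ := by
    have e1 := dA.isLittleO.def (c := c / 4) (by positivity)
    have e2 := dP.isLittleO.def (c := c / 4) (by positivity)
    have e3 := dR.isLittleO.def (c := c / 4) (by positivity)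
    obtain ⟨δ₁, hδ₁, h⟩ := Metric.eventually_nhds_iff.1 (e1.and (e2.and e3))
    refine ⟨δ₁, hδ₁, fun p hp => ?_⟩
    exact h (by rw [dist_eq_norm]; exact hp)
  set δ : ℝ := min (min δ₁ (1 / 8)) (‖S.ψ₀‖ / 4) with hδdef
  have hδ0 : 0 < δ := lt_min (lt_min hδ₁ (by norm_num)) (by positivity)
  have hδ1 : δ ≤ δ₁ := (min_le_left _ _).trans (min_le_left _ _)
  have hδ8 : δ ≤ 1 / 8 := (min_le_left _ _).trans (min_le_right _ _)
  have hδψ : 2 * δ < ‖S.ψ₀‖ := by
    have := min_le_right (min δ₁ (1 / 8)) (‖S.ψ₀‖ / 4)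
    rw [← hδdef] at this
    linarith
  set R' : ℝ := |R₁| + ‖S.a₀‖ + ‖S.ψ₀‖ + 2 with hR'
  have hR1 : R₁ < R' := by
    have := le_abs_self R₁
    have := norm_nonneg S.a₀
    linarith
  have hR0 : 0 < R' := by
    have := abs_nonneg R₁
    have := norm_nonneg S.a₀
    linarith
  obtain ⟨ε₁, hε₁, h1⟩ := hR₁ (C * R')
  obtain ⟨ε₂, hε₂, h2⟩ := est_near S (C * R') (δ := δ / C) (by positivity)
  set ε : ℝ := min (min ε₁ ε₂) (min (c * δ / 16) (c / 8)) with hεdef
  have hε0 : 0 < ε := lt_min (lt_min hε₁ hε₂) (lt_min (by positivity) (by positivity))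
  have le1 : ε ≤ ε₁ := (min_le_left _ _).trans (min_le_left _ _)
  have le2 : ε ≤ ε₂ := (min_le_left _ _).trans (min_le_right _ _)
  have le3 : ε ≤ c * δ / 16 := (min_le_right _ _).trans (min_le_left _ _)
  have le4 : ε ≤ c / 8 := (min_le_right _ _).trans (min_le_right _ _)
  set ε₀ : ℝ := ε / C with hε₀def
  have hε₀ : 0 < ε₀ := by positivity
  have hε₀C : C * ε₀ = ε := by rw [hε₀def]; field_simp
  have hε₀le : ε₀ ≤ ε := by
    rw [hε₀def]
    exact div_le_self hε0.le hC1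
  set R₃ : ℝ := max (1 + ‖S.h₀‖) (C * (C * R')) + ‖p0 S‖ + 1 with hR₃
  have r1 : 1 + ‖S.h₀‖ ≤ R₃ := by
    have := le_max_left (1 + ‖S.h₀‖) (C * (C * R'))
    have := norm_nonneg (p0 S)
    linarith
  have r2 : C * (C * R') ≤ R₃ := by
    have := le_max_right (1 + ‖S.h₀‖) (C * (C * R'))
    have := norm_nonneg (p0 S)
    linarith
  have r3 : ‖p0 S‖ + 1 ≤ R₃ := by
    have h3 := le_max_left (1 + ‖S.h₀‖) (C * (C * R'))
    have := norm_nonneg S.h₀
    linarith
  have r4 : C * R' ≤ R₃ := by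
    refine le_trans ?_ r2
    have : 0 ≤ C * R' := by positivity
    nlinarith
  have r5 : 1 ≤ R₃ := by
    have := norm_nonneg (p0 S)
    linarith
  -- the subspaces
  obtain ⟨W, hWf, hW⟩ := exists_compl_unif (isCompact_closedBall S.h₀ 1) (Lh S (th b))
    (Lh_cont S cut_th) (fun h => Lh_fred S cut_th h)
  have hKP : IsCompact (closure (Kh S (th b) '' {p | ‖p‖ ≤ R₃}) ∪
      (closure (S.Kp '' {p | ‖p‖ ≤ R₃}) ∪ closure (Cp '' {p | ‖p‖ ≤ R₃}))) :=
    (Kh_cptP S cut_th R₃).union ((S.cptP R₃).union (cP R₃))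
  obtain ⟨W', hWW, hW'f, hW'⟩ := GalA_755.exists_approx hKP W hε₀
  obtain ⟨N, y, hN, hspan, hPl⟩ := exists_y W'
  have hcok := S.fredA.coker
  have hKA : IsCompact (closure (S.Ka '' {p | ‖p‖ ≤ R₃}) ∪ closure (Ca '' {p | ‖p‖ ≤ R₃})) :=
    (S.cptA R₃).union (cA R₃)
  obtain ⟨Fa, hFa, hFaf, hFa'⟩ := GalA_755.exists_approx hKA
    ((LinearMap.range (S.La : A →ₗ[ℝ] Ya))ᗮ) hε₀
  -- the errors
  have eA : ∀ q : (Fin b → ℝ) × A × P, ‖q‖ ≤ R₃ →
      ‖S.Ka q - Fa.starProjection (S.Ka q)‖ ≤ ε₀ := fun q hq =>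
    (hFa' _ (Or.inl (subset_closure ⟨q, hq, rfl⟩))).le
  have eA' : ∀ v : (Fin b → ℝ) × A × P, ‖Ca v - Fa.starProjection (Ca v)‖ ≤ ε₀ * ‖v‖ :=
    err_lin Ca Fa.starProjection fun q hq =>
      (hFa' _ (Or.inr (subset_closure ⟨q, hq.trans r5, rfl⟩))).le
  have eH : ∀ q : (Fin b → ℝ) × A × P, ‖q‖ ≤ R₃ →
      ‖Kh S (th b) q - Pl y (Kh S (th b) q)‖ ≤ ε₀ := fun q hq => by
    rw [hPl]
    exact (hW' _ (Or.inl (subset_closure ⟨q, hq, rfl⟩))).le
  have eP : ∀ q : (Fin b → ℝ) × A × P, ‖q‖ ≤ R₃ →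
      ‖S.Kp q - W'.starProjection (S.Kp q)‖ ≤ ε₀ := fun q hq =>
    (hW' _ (Or.inr (Or.inl (subset_closure ⟨q, hq, rfl⟩)))).le
  have eP' : ∀ v : (Fin b → ℝ) × A × P, ‖Cp v - W'.starProjection (Cp v)‖ ≤ ε₀ * ‖v‖ :=
    err_lin Cp W'.starProjection fun q hq =>
      (hW' _ (Or.inr (Or.inr (subset_closure ⟨q, hq.trans r5, rfl⟩)))).le
  have hp0 : ‖p0 S‖ ≤ R₃ := by linarith
  have sA : S.La (p0 S).2.1 + S.Ka (p0 S) = 0 := S.solA
  have sP : S.Lp (p0 S).2.2 + S.Kp (p0 S) = 0 := S.solP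
  have sR : S.ρ (p0 S) = 0 := S.solρ
  refine ⟨N, y, Fa, hFaf, R', C, δ, Ca, Cp, Dρ, ?_⟩
  constructor
  · exact hN
  · intro h hh
    rw [hspan, eq_top_iff, ← hW h (by rw [mem_closedBall_iff_norm]; exact hh)]
    exact sup_le_sup_right hWW _
  · exact hFa
  · exact hC1
  · intro m hm ψ
    exact (hC m hm).1 ψ
  · exact hδ0
  · exact hδ8
  · exact hδψ
  · have := abs_nonneg R₁
    linarith
  · have := abs_nonneg R₁
    have := norm_nonneg S.a₀
    linarith
  · -- near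
    intro h a ψ z hh ha hψ hL hz hA hρ
    have hcell : ((h, a, ψ) : (Fin b → ℝ) × A × P) ∈ Cell (C * R') := ⟨hh, ha, hψ⟩
    have hh1 : ‖h‖ ≤ 1 := by
      refine (pi_norm_le_iff_of_nonneg zero_le_one).2 fun i => ?_
      rw [Real.norm_of_nonneg (hh i).1]
      exact (hh i).2
    have hpR : ‖((h, a, ψ) : (Fin b → ℝ) × A × P)‖ ≤ R₃ := by
      refine (Cell_norm hcell).trans (max_le r5 r4)
    have gA : ‖S.La a + S.Ka (h, a, ψ)‖ ≤ ε := by
      have e : S.La a + S.Ka (h, a, ψ) = S.Ka (h, a, ψ) - Fa.starProjection (S.Ka (h, a, ψ)) := by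
        rw [eq_sub_iff_add_eq]
        rw [add_right_comm, hA, zero_add]
      rw [e]
      exact (eA _ hpR).trans hε₀le
    have gP : ‖S.Lp ψ + S.Kp (h, a, ψ)‖ ≤ ε := by
      rw [← Lh_add_Kh (θ := th b) S h a ψ, hL]
      have e : ∑ j, z j • sec S y j h + Kh S (th b) (h, a, ψ) =
          Kh S (th b) (h, a, ψ) - ∑ j, Zc S y j (h, a, ψ) • sec S y j h := by
        have : ∑ j, z j • sec S y j h = - ∑ j, Zc S y j (h, a, ψ) • sec S y j h := by
          rw [← Finset.sum_neg_distrib]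
          refine Finset.sum_congr rfl fun j _ => ?_
          rw [← neg_smul, eq_neg_of_add_eq_zero_left (hz j)]
        rw [this]; abel
      rw [e, ← hε₀C]
      exact err_le S y hC1 hC (by positivity) r1 r2 eH (by linarith) ha hψ
    have hb := h1 _ hcell hρ (gA.trans le1) (gP.trans le1)
    refine ⟨lt_of_le_of_lt hb.1 hR1, lt_of_le_of_lt hb.2.1 hR1, hb.2.2, fun hρ0 => ?_⟩
    obtain ⟨m, m1, m2, m3⟩ := h2 _ hcell (by rw [hρ0, abs_zero]; exact hε₂.le) (gA.trans le2)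
      (gP.trans le2)
    have hδC : δ / C ≤ δ := div_le_self hδ0.le hC1
    have m1' : ‖h - (S.h₀ + lat m)‖ < δ / C := m1
    have hm : ‖lat m‖ ≤ 3 + ‖S.h₀‖ := by
      have e1 : lat m = h - S.h₀ - (h - (S.h₀ + lat m)) := by abel
      rw [e1]
      have e2 := norm_sub_le (h - S.h₀) (h - (S.h₀ + lat m))
      have e3 := norm_sub_le h S.h₀
      linarith
    have hCm := (hC m hm).2.1
    refine ⟨-m, ?_, lt_of_lt_of_le m2 hδC, ?_⟩
    · have e : h + lat (-m) - S.h₀ = h - (S.h₀ + lat m) := by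
        rw [Bet_785.lat_neg]; abel
      rw [e]
      exact lt_of_lt_of_le m1' hδC
    · rcases m3 with m3 | m3
      · left
        have m3' : ‖ψ - S.U m S.ψ₀‖ < δ / C := m3
        have e : S.U (-m) ψ - S.ψ₀ = S.U (-m) (ψ - S.U m S.ψ₀) := by
          rw [map_sub, U_neg]
        rw [e]
        refine lt_of_le_of_lt (hCm _) ?_
        rw [lt_div_iff₀ hC0] at m3'
        linarith
      · right
        have m3' : ‖ψ + S.U m S.ψ₀‖ < δ / C := m3
        have e : -S.U (-m) ψ - S.ψ₀ = -S.U (-m) (ψ + S.U m S.ψ₀) := by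
          rw [map_add, U_neg]; abel
        rw [e, norm_neg]
        refine lt_of_le_of_lt (hCm _) ?_
        rw [lt_div_iff₀ hC0] at m3'
        linarith
  · -- loc
    intro p hp s hs hA hP hρ
    obtain ⟨l1, l2, l3⟩ := hlin p (lt_of_lt_of_le hp hδ1)
    set v := p - p0 S with hv
    have hpv : p = p0 S + v := by rw [hv]; abel
    have hpR : ‖p‖ ≤ R₃ := by
      rw [hpv]
      refine (norm_add_le _ _).trans ?_
      linarith
    have hs0 := hs.1
    have hs1 : 0 ≤ 1 - s := by linarith [hs.2]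
    have hvδ : ‖v‖ ≤ 1 := by linarith
    have hc1 : ε₀ * ‖v‖ ≤ ε₀ := by nlinarith
    have gA : ‖S.La v.2.1 + Ca v‖ ≤ c / 4 * ‖v‖ + 2 * ε₀ := by
      set X := (1 - s) • S.Ka p + s • (S.Ka (p0 S) + Ca v) with hX
      have e1 : S.La p.2.1 = S.La (p0 S).2.1 + S.La v.2.1 := by
        rw [← map_add]
        congr 1
        rw [hpv]; rfl
      have e2 : S.La v.2.1 + Ca v = (X - Fa.starProjection X) -
          (1 - s) • (S.Ka p - S.Ka (p0 S) - Ca v) := by
        have h3 : X = S.Ka (p0 S) + Ca v + (1 - s) • (S.Ka p - S.Ka (p0 S) - Ca v) := by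
          rw [hX]; module
        have h4 : S.La v.2.1 = - S.La (p0 S).2.1 - Fa.starProjection X := by
          have := hA
          rw [e1] at this
          have h5 : S.La v.2.1 = (S.La (p0 S).2.1 + S.La v.2.1 + Fa.starProjection X) -
            S.La (p0 S).2.1 - Fa.starProjection X := by abel
          rw [h5, this]; abel
        have h6 : S.La (p0 S).2.1 = - S.Ka (p0 S) := eq_neg_of_add_eq_zero_left sA
        rw [h4, h6]
        nth_rewrite 2 [h3]
        abel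
      have e3 : ‖X - Fa.starProjection X‖ ≤ 2 * ε₀ := by
        have h3 : X - Fa.starProjection X = (1 - s) • (S.Ka p - Fa.starProjection (S.Ka p)) +
            s • ((S.Ka (p0 S) - Fa.starProjection (S.Ka (p0 S))) +
              (Ca v - Fa.starProjection (Ca v))) := by
          rw [hX, map_add, map_smul, map_smul, map_add]; module
        rw [h3]
        refine (norm_add_le _ _).trans ?_
        rw [norm_smul, norm_smul, Real.norm_of_nonneg hs1, Real.norm_of_nonneg hs0]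
        have h5 := (norm_add_le (S.Ka (p0 S) - Fa.starProjection (S.Ka (p0 S)))
          (Ca v - Fa.starProjection (Ca v))).trans
          (add_le_add (eA _ hp0) ((eA' v).trans hc1))
        have h6 := mul_le_mul_of_nonneg_left (eA _ hpR) hs1
        have h7 := mul_le_mul_of_nonneg_left h5 hs0
        nlinarith
      rw [e2]
      refine (norm_sub_le _ _).trans ?_
      rw [norm_smul, Real.norm_of_nonneg hs1]
      have h8 : (1 - s) * ‖S.Ka p - S.Ka (p0 S) - Ca v‖ ≤ 1 * (c / 4 * ‖v‖) :=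
        mul_le_mul (by linarith) l1 (norm_nonneg _) zero_le_one
      linarith
    have gP : ‖S.Lp v.2.2 + Cp v‖ ≤ c / 4 * ‖v‖ + 2 * ε₀ := by
      rw [hPl] at hP
      set X := (1 - s) • S.Kp p + s • (S.Kp (p0 S) + Cp v) with hX
      have e1 : S.Lp p.2.2 = S.Lp (p0 S).2.2 + S.Lp v.2.2 := by
        rw [← map_add]
        congr 1
        rw [hpv]; rfl
      have e2 : S.Lp v.2.2 + Cp v = (X - W'.starProjection X) -
          (1 - s) • (S.Kp p - S.Kp (p0 S) - Cp v) := by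
        have h3 : X = S.Kp (p0 S) + Cp v + (1 - s) • (S.Kp p - S.Kp (p0 S) - Cp v) := by
          rw [hX]; module
        have h4 : S.Lp v.2.2 = - S.Lp (p0 S).2.2 - W'.starProjection X := by
          have := hP
          rw [e1] at this
          have h5 : S.Lp v.2.2 = (S.Lp (p0 S).2.2 + S.Lp v.2.2 + W'.starProjection X) -
            S.Lp (p0 S).2.2 - W'.starProjection X := by abel
          rw [h5, this]; abel
        have h6 : S.Lp (p0 S).2.2 = - S.Kp (p0 S) := eq_neg_of_add_eq_zero_left sP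
        rw [h4, h6]
        nth_rewrite 2 [h3]
        abel
      have e3 : ‖X - W'.starProjection X‖ ≤ 2 * ε₀ := by
        have h3 : X - W'.starProjection X = (1 - s) • (S.Kp p - W'.starProjection (S.Kp p)) +
            s • ((S.Kp (p0 S) - W'.starProjection (S.Kp (p0 S))) +
              (Cp v - W'.starProjection (Cp v))) := by
          rw [hX, map_add, map_smul, map_smul, map_add]; module
        rw [h3]
        refine (norm_add_le _ _).trans ?_
        rw [norm_smul, norm_smul, Real.norm_of_nonneg hs1, Real.norm_of_nonneg hs0]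
        have h5 := (norm_add_le (S.Kp (p0 S) - W'.starProjection (S.Kp (p0 S)))
          (Cp v - W'.starProjection (Cp v))).trans
          (add_le_add (eP _ hp0) ((eP' v).trans hc1))
        have h6 := mul_le_mul_of_nonneg_left (eP _ hpR) hs1
        have h7 := mul_le_mul_of_nonneg_left h5 hs0
        nlinarith
      rw [e2]
      refine (norm_sub_le _ _).trans ?_
      rw [norm_smul, Real.norm_of_nonneg hs1]
      have h8 : (1 - s) * ‖S.Kp p - S.Kp (p0 S) - Cp v‖ ≤ 1 * (c / 4 * ‖v‖) :=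
        mul_le_mul (by linarith) l2 (norm_nonneg _) zero_le_one
      linarith
    have gR : |Dρ v| ≤ c / 4 * ‖v‖ + 2 * ε₀ := by
      rw [sR, sub_zero, Real.norm_eq_abs] at l3
      have e : Dρ v = -((1 - s) * (S.ρ p - Dρ v)) := by
        linear_combination hρ
      rw [e, abs_neg, abs_mul, abs_of_nonneg hs1]
      have h8 : (1 - s) * |S.ρ p - Dρ v| ≤ 1 * (c / 4 * ‖v‖) :=
        mul_le_mul (by linarith) l3 (abs_nonneg _) zero_le_one
      linarith
    have h9 := (hDl v).trans (norm_D_le S hD gA gP gR)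
    have h10 : 3 * (c * ‖v‖) ≤ 8 * ε₀ := by linarith
    have h11 : c * ‖v‖ ≤ c * (δ / 2) := by nlinarith
    exact le_of_mul_le_mul_left h11 hc
  · -- lin
    intro v hA hP hρ
    rw [hPl] at hP
    have gA : ‖S.La v.2.1 + Ca v‖ ≤ ε₀ * ‖v‖ := by
      have e : S.La v.2.1 + Ca v = Ca v - Fa.starProjection (Ca v) := by
        rw [eq_sub_iff_add_eq, add_right_comm, hA, zero_add]
      rw [e]; exact eA' v
    have gP : ‖S.Lp v.2.2 + Cp v‖ ≤ ε₀ * ‖v‖ := by
      have e : S.Lp v.2.2 + Cp v = Cp v - W'.starProjection (Cp v) := by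
        rw [eq_sub_iff_add_eq, add_right_comm, hP, zero_add]
      rw [e]; exact eP' v
    have gR : |Dρ v| ≤ ε₀ * ‖v‖ := by rw [hρ, abs_zero]; positivity
    have h9 := (hDl v).trans (norm_D_le S hD gA gP gR)
    by_contra hv
    have hv0 : 0 < ‖v‖ := norm_pos_iff.2 hv
    nlinarith
  · -- aff
    intro p hA hP hρ
    rw [hPl] at hP
    set v := p - p0 S with hv
    have hpv : p = p0 S + v := by rw [hv]; abel
    have gA : ‖S.La v.2.1 + Ca v‖ ≤ ε₀ + ε₀ * ‖v‖ := by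
      have e1 : S.La p.2.1 = S.La (p0 S).2.1 + S.La v.2.1 := by
        rw [← map_add]
        congr 1
        rw [hpv]; rfl
      have e : S.La v.2.1 + Ca v = (S.Ka (p0 S) - Fa.starProjection (S.Ka (p0 S))) +
          (Ca v - Fa.starProjection (Ca v)) := by
        rw [e1, map_add] at hA
        have h6 : S.La (p0 S).2.1 = - S.Ka (p0 S) := eq_neg_of_add_eq_zero_left sA
        rw [h6] at hA
        have h7 : S.La v.2.1 + Ca v = (-S.Ka (p0 S) + S.La v.2.1 +
          (Fa.starProjection (S.Ka (p0 S)) + Fa.starProjection (Ca v))) +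
          (S.Ka (p0 S) - Fa.starProjection (S.Ka (p0 S))) +
          (Ca v - Fa.starProjection (Ca v)) := by abel
        rw [h7, hA, zero_add]
      rw [e]
      exact (norm_add_le _ _).trans (add_le_add (eA _ hp0) (eA' v))
    have gP : ‖S.Lp v.2.2 + Cp v‖ ≤ ε₀ + ε₀ * ‖v‖ := by
      have e1 : S.Lp p.2.2 = S.Lp (p0 S).2.2 + S.Lp v.2.2 := by
        rw [← map_add]
        congr 1
        rw [hpv]; rfl
      have e : S.Lp v.2.2 + Cp v = (S.Kp (p0 S) - W'.starProjection (S.Kp (p0 S))) +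
          (Cp v - W'.starProjection (Cp v)) := by
        rw [e1, map_add] at hP
        have h6 : S.Lp (p0 S).2.2 = - S.Kp (p0 S) := eq_neg_of_add_eq_zero_left sP
        rw [h6] at hP
        have h7 : S.Lp v.2.2 + Cp v = (-S.Kp (p0 S) + S.Lp v.2.2 +
          (W'.starProjection (S.Kp (p0 S)) + W'.starProjection (Cp v))) +
          (S.Kp (p0 S) - W'.starProjection (S.Kp (p0 S))) +
          (Cp v - W'.starProjection (Cp v)) := by abel
        rw [h7, hP, zero_add]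
      rw [e]
      exact (norm_add_le _ _).trans (add_le_add (eP _ hp0) (eP' v))
    have gR : |Dρ v| ≤ ε₀ + ε₀ * ‖v‖ := by rw [hρ, abs_zero]; positivity
    have h9 := (hDl v).trans (norm_D_le S hD gA gP gR)
    have hvn := norm_nonneg v
    have h10 : ε₀ * ‖v‖ ≤ c / 8 * ‖v‖ := mul_le_mul_of_nonneg_right (by linarith) hvn
    have h11 : c * ‖v‖ < c * δ := by nlinarith
    exact lt_of_mul_lt_mul_left h11 hc.le

end main

end Crest.Agent.R235.FB5_785
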