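import Crest.Agent.R235.NWJ2_130

/-!
# Row 235 (S0364), PACKAGE ADJ, leaf FBOX, part A (helper130)

* `exists_LD`  : inverse function theorem on a ball, with all the derived data;
* `fol_norm`   : normalisation of the foliations of `FolStmt`: `J`-holomorphic leaves, complex linear
  differential at `0`, finitely many given directions are not vertical;
* `planar`     : the same in a four-dimensional real vector space with an almost complex structure.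
-/

set_option autoImplicit false
set_option maxSynthPendingDepth 3

open Set Filter Metric Topology
open scoped ContDiff Real NNReal ENNReal

namespace Crest.Agent.R235.FBoxA_130

open Crest.Agent.R235.NWDefs_334 Crest.Agent.R235.NWJ_130 Crest.Agent.R235.NWJ2_130

noncomputable section

/-! ### inverse functions -/

section inv

variable {V W : Type*} [NormedAddCommGroup V] [NormedSpace ℝ V] [CompleteSpace V]
  [NormedAddCommGroup W] [NormedSpace ℝ W]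

/-- `Θ = G` is a diffeomorphism of `ball 0 R`. -/
structure LD (G : V → W) (Θ : OpenPartialHomeomorph V W) (R : ℝ) : Prop where
  pos : 0 < R
  source : Θ.source = ball 0 R
  eq : ∀ x, Θ x = G x
  smooth : ∀ x ∈ ball (0 : V) R, ContDiffAt ℝ ∞ G x
  smooth_symm : ∀ y ∈ Θ.target, ContDiffAt ℝ ∞ Θ.symm y
  inv : ∀ x ∈ ball (0 : V) R, ∀ y, fderiv ℝ Θ.symm (G x) (fderiv ℝ G x y) = y
  inv' : ∀ x ∈ ball (0 : V) R, ∀ y, fderiv ℝ G x (fderiv ℝ Θ.symm (G x) y) = y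

theorem exists_LD {G : V → W} (hG : ∀ᶠ x in 𝓝 (0 : V), ContDiffAt ℝ ∞ G x) (P : V ≃L[ℝ] W)
    (hP : HasFDerivAt G (P : V →L[ℝ] W) 0) {N : Set V} (hN : N ∈ 𝓝 (0 : V)) :
    ∃ (Θ : OpenPartialHomeomorph V W) (R : ℝ), LD G Θ R ∧ ball (0 : V) R ⊆ N := by
  have hsm0 : ContDiffAt ℝ ∞ G 0 := hG.self_of_nhds
  let Φ := hsm0.toOpenPartialHomeomorph G hP (by simp)
  have hΦs : (0 : V) ∈ Φ.source := hsm0.mem_toOpenPartialHomeomorph_source hP (by simp)
  have hopen : ∀ᶠ x in 𝓝 (0 : V), x ∈ Φ.source ∧ x ∈ N ∧ ContDiffAt ℝ ∞ G x ∧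
      fderiv ℝ G x ∈ Set.range (fun e : V ≃L[ℝ] W => (e : V →L[ℝ] W)) := by
    have hS : ∀ᶠ x in 𝓝 (0 : V), x ∈ Φ.source := Φ.open_source.mem_nhds hΦs
    refine hS.and (Eventually.and hN (hG.and ?_))
    have hc : ContinuousAt (fderiv ℝ G) 0 := (hsm0.fderiv_right (m := 0) (by simp)).continuousAt
    refine hc.eventually_mem (ContinuousLinearEquiv.isOpen.mem_nhds ?_)
    exact ⟨P, hP.fderiv.symm⟩
  obtain ⟨ρ, hρ, hball⟩ := Metric.mem_nhds_iff.1 hopen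
  let Θ := Φ.restrOpen (ball 0 ρ) isOpen_ball
  have hΘf : (Θ : V → W) = G := rfl
  have hsrc : Θ.source = ball 0 ρ := by
    rw [OpenPartialHomeomorph.restrOpen_source]
    exact inter_eq_right.2 fun x hx => (hball hx).1
  have hΘsm : ∀ x ∈ ball (0 : V) ρ, ContDiffAt ℝ ∞ Θ x := fun x hx => by
    rw [hΘf]; exact (hball hx).2.2.1
  have hsymm : ∀ y ∈ Θ.target, ContDiffAt ℝ ∞ Θ.symm y := by
    intro y hy
    have hx : Θ.symm y ∈ ball (0 : V) ρ := by rw [← hsrc]; exact Θ.map_target hy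
    obtain ⟨e, he⟩ := (hball hx).2.2.2
    refine Θ.contDiffAt_symm hy (f₀' := e) ?_ (hΘsm _ hx)
    rw [show (e : V →L[ℝ] W) = fderiv ℝ G (Θ.symm y) from he]
    exact ((hΘsm _ hx).differentiableAt (by simp)).hasFDerivAt
  have hmem : ∀ x ∈ ball (0 : V) ρ, Θ x ∈ Θ.target := fun x hx =>
    Θ.map_source (by rw [hsrc]; exact hx)
  have hleft : ∀ x ∈ ball (0 : V) ρ, Θ.symm (Θ x) = x := fun x hx =>
    Θ.left_inv (by rw [hsrc]; exact hx)
  have hinv : ∀ x ∈ ball (0 : V) ρ, ∀ y, fderiv ℝ Θ.symm (G x) (fderiv ℝ G x y) = y := by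
    intro x hx y
    have h1 : HasFDerivAt (fun x => Θ.symm (Θ x))
        ((fderiv ℝ Θ.symm (Θ x)).comp (fderiv ℝ Θ x)) x :=
      (((hsymm _ (hmem x hx)).differentiableAt (by simp)).hasFDerivAt).comp x
        ((hΘsm x hx).differentiableAt (by simp)).hasFDerivAt
    have h2 : HasFDerivAt (fun x => Θ.symm (Θ x)) (ContinuousLinearMap.id ℝ _) x :=
      (hasFDerivAt_id x).congr_of_eventuallyEq (by
        filter_upwards [isOpen_ball.mem_nhds hx] with z hz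
        exact hleft z hz)
    have h3 := h1.unique h2
    exact congrArg (fun L : V →L[ℝ] V => L y) h3
  refine ⟨Θ, ρ, ⟨hρ, hsrc, fun x => rfl, fun x hx => hΘsm x hx, hsymm, hinv, ?_⟩,
    fun x hx => (hball hx).2.1⟩
  intro x hx y
  obtain ⟨e, he⟩ := (hball hx).2.2.2
  have h1 : ∀ y, fderiv ℝ G x y = e y := fun y => by rw [← he]; rfl
  have h2 : fderiv ℝ Θ.symm (G x) y = e.symm y := by
    have := hinv x hx (e.symm y)
    rw [h1, e.apply_symm_apply] at this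
    exact this
  rw [h2, h1, e.apply_symm_apply]

end inv

/-! ### linear maps close to the identity -/

theorem near_id {E : Type*} [NormedAddCommGroup E] [NormedSpace ℝ E] [FiniteDimensional ℝ E]
    (D : E →L[ℝ] E) {δ : ℝ} (hδ : δ < 1) (h : ∀ v, ‖D v - v‖ ≤ δ * ‖v‖) :
    ∃ e : E ≃L[ℝ] E, ∀ v, e v = D v := by
  have hinj : Function.Injective (D : E →ₗ[ℝ] E) := by
    rw [injective_iff_map_eq_zero]
    intro v hv
    have h1 := h v
    have h2 : D v = 0 := hv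
    rw [h2, zero_sub, norm_neg] at h1
    by_contra hne
    have h3 : 0 < ‖v‖ := norm_pos_iff.2 hne
    nlinarith
  exact ⟨(LinearEquiv.ofInjectiveEndo (D : E →ₗ[ℝ] E) hinj).toContinuousLinearEquiv,
    fun v => rfl⟩

theorem norm_symm_le {E : Type*} [NormedAddCommGroup E] [NormedSpace ℝ E]
    (e : E ≃L[ℝ] E) {δ : ℝ} (h : ∀ v, ‖e v - v‖ ≤ δ * ‖v‖) (w : E) :
    (1 - δ) * ‖e.symm w‖ ≤ ‖w‖ := by
  have h1 := h (e.symm w)
  rw [e.apply_symm_apply] at h1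
  have h2 : ‖e.symm w‖ ≤ ‖w‖ + ‖w - e.symm w‖ := by
    have := norm_sub_le w (w - e.symm w)
    rwa [sub_sub_cancel] at this
  linarith

/-! ### normalisation of the foliation -/

theorem exists_delta {ι : Type*} [Finite ι] (B : ι → ℂ × ℂ) (hB : ∀ j, (B j).1 ≠ 0) :
    ∃ δ : ℝ, 0 < δ ∧ δ ≤ 1 / 4 ∧ ∀ j, 2 * δ * ‖B j‖ < ‖(B j).1‖ := by
  have h1 : ∀ j, ∀ᶠ δ : ℝ in 𝓝[>] 0, 2 * δ * ‖B j‖ < ‖(B j).1‖ := by
    intro j
    have h2 : Tendsto (fun δ : ℝ => 2 * δ * ‖B j‖) (𝓝 0) (𝓝 (2 * 0 * ‖B j‖)) :=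
      ((continuous_const.mul continuous_id).mul continuous_const).tendsto 0
    rw [mul_zero, zero_mul] at h2
    exact nhdsWithin_le_nhds (h2.eventually (gt_mem_nhds (norm_pos_iff.2 (hB j))))
  have h2 : ∀ᶠ δ : ℝ in 𝓝[>] 0, ∀ j, 2 * δ * ‖B j‖ < ‖(B j).1‖ := eventually_all.2 h1
  have h3 : ∀ᶠ δ : ℝ in 𝓝[>] 0, δ < 1 / 4 :=
    nhdsWithin_le_nhds (gt_mem_nhds (by norm_num))
  obtain ⟨δ, h4, h5, h6⟩ := (h2.and (h3.and self_mem_nhdsWithin)).exists
  exact ⟨δ, h6, h5.le, h4⟩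

/-- `(a, b) ↦ a e₁ + b e₂`, complex linear. -/
def cl (e1 e2 : ℂ × ℂ) : ℂ × ℂ →L[ℂ] ℂ × ℂ :=
  (ContinuousLinearMap.fst ℂ ℂ ℂ).smulRight e1 + (ContinuousLinearMap.snd ℂ ℂ ℂ).smulRight e2

theorem cl_apply (e1 e2 x : ℂ × ℂ) : cl e1 e2 x = x.1 • e1 + x.2 • e2 := rfl

theorem fol_norm (hF : FolStmt) {J1 : ℂ × ℂ → ℂ × ℂ →L[ℝ] ℂ × ℂ} {r : ℝ} (hJ : ACS J1 r)
    {ι : Type*} [Finite ι] (B : ι → ℂ × ℂ) (hB : ∀ j, (B j).1 ≠ 0) :
    ∃ (G : ℂ × ℂ → ℂ × ℂ) (P : (ℂ × ℂ) ≃L[ℝ] (ℂ × ℂ)), ContDiffOn ℝ ∞ G (ball 0 1) ∧ G 0 = 0 ∧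
      HasFDerivAt G (P : ℂ × ℂ →L[ℝ] ℂ × ℂ) 0 ∧ (∀ v, P (Complex.I • v) = Complex.I • P v) ∧
      (∀ x ∈ ball (0 : ℂ × ℂ) 1, G x ∈ ball (0 : ℂ × ℂ) r) ∧
      (∀ x ∈ ball (0 : ℂ × ℂ) 1, ∀ a : ℂ,
        fderiv ℝ G x (0, Complex.I * a) = J1 (G x) (fderiv ℝ G x (0, a))) ∧
      ∀ j, (P.symm (B j)).1 ≠ 0 := by
  obtain ⟨δ, hδ0, hδ4, hδB⟩ := exists_delta B hB
  obtain ⟨R, hR, hRr, hF'⟩ := hF J1 r hJ δ hδ0
  obtain ⟨F, hFs, hFd, hFl⟩ := hF' R hR le_rfl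
  have hFat : ∀ x ∈ ball (0 : ℂ × ℂ) 4, ContDiffAt ℝ ∞ F x := fun x hx =>
    hFs.contDiffAt (isOpen_ball.mem_nhds hx)
  have hFf : ∀ x ∈ ball (0 : ℂ × ℂ) 4, HasFDerivAt F (fderiv ℝ F x) x := fun x hx =>
    ((hFat x hx).differentiableAt (by simp)).hasFDerivAt
  -- the zero of `F`
  obtain ⟨x0, hx0, hFx0⟩ : ∃ x0 : ℂ × ℂ, ‖x0‖ ≤ δ ∧ F x0 = 0 := by
    let g : ℂ × ℂ → ℂ × ℂ := fun x => x - F x
    have hsub : closedBall (0 : ℂ × ℂ) 1 ⊆ ball 0 4 := closedBall_subset_ball (by norm_num)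
    have hg : ∀ x ∈ closedBall (0 : ℂ × ℂ) 1,
        HasFDerivWithinAt g (ContinuousLinearMap.id ℝ _ - fderiv ℝ F x) (closedBall 0 1) x :=
      fun x hx => ((hasFDerivAt_id x).sub (hFf x (hsub hx))).hasFDerivWithinAt
    have hgn : ∀ x ∈ ball (0 : ℂ × ℂ) 4, ‖g x‖ ≤ δ := by
      intro x hx
      have := (hFd x hx).1
      rwa [← norm_neg, neg_sub] at this
    let K : ℝ≥0 := ⟨δ, hδ0.le⟩
    have hlip : LipschitzOnWith K g (closedBall 0 1) :=
      (convex_closedBall (0 : ℂ × ℂ) 1).lipschitzOnWith_of_nnnorm_hasFDerivWithin_le hg (by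
        intro x hx
        have := (hFd x (hsub hx)).2
        rw [← norm_neg, neg_sub] at this
        exact this)
    have hmaps : MapsTo g (closedBall 0 1) (closedBall 0 1) := by
      intro x hx
      rw [mem_closedBall_zero_iff]
      exact (hgn x (hsub hx)).trans (by linarith)
    have hK : K < 1 := by
      rw [← NNReal.coe_lt_coe]
      show δ < 1
      linarith
    have hcontr : ContractingWith K (hmaps.restrict g (closedBall 0 1) (closedBall 0 1)) :=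
      ⟨hK, hlip.mapsToRestrict hmaps⟩
    obtain ⟨y, hy, hfix, -⟩ := hcontr.exists_fixedPoint' isClosed_closedBall.isComplete hmaps
      (x := 0) (by simp) (edist_ne_top _ _)
    have h1 : y - F y = y := hfix
    have h2 : F y = 0 := by
      have : y - (y - F y) = y - y := by rw [h1]
      rwa [sub_sub_cancel, sub_self] at this
    refine ⟨y, ?_, h2⟩
    have := hgn y (hsub hy)
    have h3 : g y = y := h1
    rwa [h3] at this
  have hx04 : x0 ∈ ball (0 : ℂ × ℂ) 4 := by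
    rw [mem_ball_zero_iff]; linarith
  -- the differential
  have hD1 : ∀ v, ‖fderiv ℝ F x0 v - v‖ ≤ δ * ‖v‖ := by
    intro v
    have h1 := (hFd x0 hx04).2
    have h2 := (fderiv ℝ F x0 - ContinuousLinearMap.id ℝ _).le_opNorm v
    simp only [sub_apply, ContinuousLinearMap.coe_id', id_eq] at h2
    exact h2.trans (by gcongr)
  obtain ⟨D, hD⟩ := near_id (fderiv ℝ F x0) (δ := δ) (by linarith) hD1
  have hD2 : ∀ v, ‖D v - v‖ ≤ δ * ‖v‖ := fun v => by rw [hD]; exact hD1 v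
  -- the vertical derivative of `F`
  have hvert : ∀ y ∈ ball (0 : ℂ × ℂ) 4, ∀ a : ℂ,
      fderiv ℝ (fun z => F (y.1, z)) y.2 a = fderiv ℝ F y (0, a) := by
    intro y hy a
    have h1 : HasFDerivAt (fun z : ℂ => ((y.1, z) : ℂ × ℂ)) (ContinuousLinearMap.inr ℝ ℂ ℂ) y.2 :=
      hasFDerivAt_prodMk_right y.1 y.2
    have h2 : HasFDerivAt F (fderiv ℝ F y) ((fun z : ℂ => ((y.1, z) : ℂ × ℂ)) y.2) := hFf y hy
    have h3 := h2.comp y.2 h1
    have h4 : fderiv ℝ (fun z => F (y.1, z)) y.2 = _ := h3.fderiv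
    rw [h4]
    simp
  have hleafF : ∀ y ∈ ball (0 : ℂ × ℂ) 4, ∀ a : ℂ,
      fderiv ℝ F y (0, Complex.I * a) = J1 (R • F y) (fderiv ℝ F y (0, a)) := by
    intro y hy a
    have hy1 : y.1 ∈ ball (0 : ℂ) 4 := by
      rw [mem_ball_zero_iff] at hy ⊢
      exact (norm_fst_le y).trans_lt hy
    have hy2 : y.2 ∈ ball (0 : ℂ) 4 := by
      rw [mem_ball_zero_iff] at hy ⊢
      exact (norm_snd_le y).trans_lt hy
    have h1 := (hFl y.1 hy1 y.2 hy2).2 a
    rw [hvert y hy, hvert y hy] at h1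
    exact h1
  have hDI : ∀ a : ℂ, D (0, Complex.I * a) = Complex.I • D (0, a) := by
    intro a
    rw [hD, hD, hleafF x0 hx04, hFx0, smul_zero, hJ.zero]
  have hD2' : ∀ z : ℂ, D (0, z) = z • D (0, 1) := by
    intro z
    have h1 : ((0, z) : ℂ × ℂ) = z.re • (0, 1) + z.im • (0, Complex.I * 1) := by
      ext <;> simp
    rw [h1, map_add, map_smul, map_smul, hDI]
    conv_rhs => rw [← Complex.re_add_im z, add_smul, mul_smul]
    rw [Complex.coe_smul, Complex.coe_smul]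
  -- the complex linear map `P`
  set e1 := D (1, 0) with he1
  set e2 := D (0, 1) with he2
  have he1n : ‖e1 - (1, 0)‖ ≤ δ := by
    have := hD2 (1, 0)
    simpa [Prod.norm_def] using this
  have he2n : ‖e2 - (0, 1)‖ ≤ δ := by
    have := hD2 (0, 1)
    simpa [Prod.norm_def] using this
  have hP1 : ∀ v : ℂ × ℂ, ‖(cl e1 e2).restrictScalars ℝ v - v‖ ≤ (2 * δ) * ‖v‖ := by
    intro v
    have h1 : (cl e1 e2).restrictScalars ℝ v - v =
        v.1 • (e1 - (1, 0)) + v.2 • (e2 - (0, 1)) := by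
      show cl e1 e2 v - v = _
      rw [cl_apply]
      ext <;> simp <;> ring
    rw [h1]
    refine (norm_add_le _ _).trans ?_
    rw [norm_smul, norm_smul]
    calc ‖v.1‖ * ‖e1 - (1, 0)‖ + ‖v.2‖ * ‖e2 - (0, 1)‖ ≤ ‖v‖ * δ + ‖v‖ * δ := by
          gcongr
          · exact norm_fst_le v
          · exact norm_snd_le v
      _ = 2 * δ * ‖v‖ := by ring
  obtain ⟨P0, hP0⟩ := near_id ((cl e1 e2).restrictScalars ℝ) (δ := 2 * δ) (by linarith) hP1
  have hP0' : ∀ v : ℂ × ℂ, P0 v = v.1 • e1 + v.2 • e2 := fun v => by rw [hP0]; rfl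
  -- `L = D⁻¹ P`
  let L : (ℂ × ℂ) ≃L[ℝ] (ℂ × ℂ) := P0.trans D.symm
  have hL : ∀ v, L v = D.symm (P0 v) := fun v => rfl
  have hLv : ∀ a : ℂ, L (0, a) = (0, a) := by
    intro a
    rw [hL, hP0', D.symm_apply_eq]
    simp only [zero_smul, zero_add]
    exact (hD2' a).symm
  have hLn : ∀ v, ‖L v‖ ≤ 2 * ‖v‖ := by
    intro v
    have h1 := norm_symm_le D (δ := δ) hD2 (P0 v)
    have h2 : ‖P0 v‖ ≤ (1 + 2 * δ) * ‖v‖ := by
      have h3 := hP1 v
      rw [← hP0] at h3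
      have h4 : ‖P0 v‖ ≤ ‖P0 v - v‖ + ‖v‖ := by
        have := norm_add_le (P0 v - v) v
        rwa [sub_add_cancel] at this
      linarith
    rw [← hL] at h1
    have h5 : (1 - δ) * ‖L v‖ ≤ (1 + 2 * δ) * ‖v‖ := h1.trans h2
    have h6 : 0 ≤ ‖L v‖ := norm_nonneg _
    have h7 : 0 ≤ ‖v‖ := norm_nonneg _
    nlinarith
  -- the map `G`
  let A : ℂ × ℂ → ℂ × ℂ := fun x => x0 + L x
  have hA : ∀ x ∈ ball (0 : ℂ × ℂ) 1, A x ∈ ball (0 : ℂ × ℂ) 4 := by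
    intro x hx
    rw [mem_ball_zero_iff] at hx ⊢
    calc ‖x0 + L x‖ ≤ ‖x0‖ + ‖L x‖ := norm_add_le _ _
      _ ≤ δ + 2 * ‖x‖ := add_le_add hx0 (hLn x)
      _ < 4 := by linarith
  have hAd : ∀ x, HasFDerivAt A (L : ℂ × ℂ →L[ℝ] ℂ × ℂ) x := fun x =>
    (L : ℂ × ℂ →L[ℝ] ℂ × ℂ).hasFDerivAt.const_add x0
  have hAs : ContDiff ℝ ∞ A := contDiff_const.add (L : ℂ × ℂ →L[ℝ] ℂ × ℂ).contDiff
  let G : ℂ × ℂ → ℂ × ℂ := fun x => R • F (A x)
  have hGd : ∀ x ∈ ball (0 : ℂ × ℂ) 1,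
      HasFDerivAt G (R • (fderiv ℝ F (A x)).comp (L : ℂ × ℂ →L[ℝ] ℂ × ℂ)) x := fun x hx =>
    ((hFf _ (hA x hx)).comp x (hAd x)).const_smul R
  have hA0 : A 0 = x0 := by simp [A]
  let mR : (ℂ × ℂ) ≃L[ℝ] (ℂ × ℂ) :=
    (LinearEquiv.smulOfNeZero ℝ (ℂ × ℂ) R hR.ne').toContinuousLinearEquiv
  have hmR : ∀ v, mR v = R • v := fun v => rfl
  let P : (ℂ × ℂ) ≃L[ℝ] (ℂ × ℂ) := P0.trans mR
  have hP : ∀ v, P v = R • P0 v := fun v => rfl
  refine ⟨G, P, ?_, ?_, ?_, ?_, ?_, ?_, ?_⟩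
  · intro x hx
    have h1 : ContDiffAt ℝ ∞ (fun x => F (A x)) x :=
      ContDiffAt.comp x (hFat _ (hA x hx)) hAs.contDiffAt
    exact (h1.const_smul R).contDiffWithinAt
  · show R • F (A 0) = 0
    rw [hA0, hFx0, smul_zero]
  · have h1 := hGd 0 (by simp)
    refine h1.congr_fderiv ?_
    refine ContinuousLinearMap.ext fun v => ?_
    rw [hA0, ContinuousLinearEquiv.coe_coe, hP]
    simp only [smul_apply, ContinuousLinearMap.comp_apply, ContinuousLinearEquiv.coe_coe]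
    rw [← hD, hL, D.apply_symm_apply]
  · intro v
    rw [hP, hP, hP0', hP0']
    simp only [Prod.smul_fst, Prod.smul_snd, smul_eq_mul]
    rw [smul_comm Complex.I R, smul_add Complex.I, smul_smul, smul_smul]
  · intro x hx
    have h1 := hA x hx
    have h2 := (hFd _ h1).1
    rw [mem_ball_zero_iff] at h1 ⊢
    show ‖R • F (A x)‖ < r
    rw [norm_smul, Real.norm_eq_abs, abs_of_pos hR]
    have h3 : ‖F (A x)‖ ≤ ‖F (A x) - A x‖ + ‖A x‖ := by
      have := norm_add_le (F (A x) - A x) (A x)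
      rwa [sub_add_cancel] at this
    have h4 : ‖F (A x)‖ ≤ 4 * (1 + δ) := by linarith
    calc R * ‖F (A x)‖ ≤ R * (4 * (1 + δ)) := by gcongr
      _ < r := hRr
  · intro x hx a
    rw [(hGd x hx).fderiv]
    simp only [smul_apply, ContinuousLinearMap.comp_apply, ContinuousLinearEquiv.coe_coe, hLv]
    rw [hleafF _ (hA x hx), map_smul]
  · intro j hj
    set b := P.symm (B j) with hb
    have h1 : B j = R • (b.1 • e1 + b.2 • e2) := by
      rw [← hP0', ← hP, hb, P.apply_symm_apply]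
    rw [hj, zero_smul, zero_add] at h1
    have h2 : (B j).1 = R • (b.2 * (e2 - (0, 1)).1) := by
      rw [h1]; simp
    have h3 : (B j).2 = R • (b.2 * (1 + (e2 - (0, 1)).2)) := by
      rw [h1]; simp
    have h4 : ‖(e2 - (0, 1)).1‖ ≤ δ := (norm_fst_le _).trans he2n
    have h5 : ‖(e2 - (0, 1)).2‖ ≤ δ := (norm_snd_le _).trans he2n
    have h6 : ‖(B j).1‖ ≤ R * ‖b.2‖ * δ := by
      rw [h2, norm_smul, norm_mul, Real.norm_eq_abs, abs_of_pos hR, ← mul_assoc]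
      gcongr
    have h7 : R * ‖b.2‖ * (1 / 2) ≤ ‖B j‖ := by
      refine le_trans ?_ (norm_snd_le _)
      rw [h3, norm_smul, norm_mul, Real.norm_eq_abs, abs_of_pos hR, ← mul_assoc]
      have h8 : (1 : ℝ) - ‖(e2 - (0, 1)).2‖ ≤ ‖1 + (e2 - (0, 1)).2‖ := by
        have := norm_sub_le (1 + (e2 - (0, 1)).2) (e2 - (0, 1)).2
        rw [add_sub_cancel_right, norm_one] at this
        linarith
      gcongr
      linarith
    have h9 := hδB j
    nlinarith [norm_nonneg (b.2)]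

/-! ### a complex direction avoiding finitely many others -/

theorem exists_dir {E : Type*} [NormedAddCommGroup E] [NormedSpace ℝ E]
    (hE : Module.finrank ℝ E = 4) (j : E →L[ℝ] E) {ι : Type*} [Finite ι] (A : ι → E) :
    ∃ e : E, e ≠ 0 ∧ ∀ i, ∀ a b : ℝ, e ≠ a • A i + b • j (A i) := by
  classical
  cases nonempty_fintype ι
  have hfin : FiniteDimensional ℝ E := Module.finite_of_finrank_pos (by rw [hE]; norm_num)
  let S : ι → Submodule ℝ E := fun i => Submodule.span ℝ {A i, j (A i)}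
  have hS : ∀ i, S i ≠ ⊤ := by
    intro i h
    have h1 : Module.finrank ℝ (S i) ≤ 2 := by
      have h2 : Module.finrank ℝ (Submodule.span ℝ ((({A i, j (A i)} : Finset E)) : Set E)) ≤
          ({A i, j (A i)} : Finset E).card := finrank_span_finset_le_card _
      have h3 : ({A i, j (A i)} : Finset E).card ≤ 2 := Finset.card_le_two
      have h4 : ((({A i, j (A i)} : Finset E)) : Set E) = {A i, j (A i)} := by simp
      rw [h4] at h2
      exact h2.trans h3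
    rw [h, finrank_top, hE] at h1
    norm_num at h1
  have h0 : (⊥ : Submodule ℝ E) ≠ ⊤ := by
    intro h
    have h1 : Module.finrank ℝ (⊥ : Submodule ℝ E) = 4 := by rw [h, finrank_top, hE]
    rw [finrank_bot] at h1
    norm_num at h1
  let s : Finset (Submodule ℝ E) := insert ⊥ (Finset.univ.image S)
  have hs : ⊤ ∉ s := by
    intro h
    rcases Finset.mem_insert.1 h with h | h
    · exact h0 h.symm
    · obtain ⟨i, -, hi⟩ := Finset.mem_image.1 h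
      exact hS i hi
  have h1 := Subspace.biUnion_ne_univ_of_top_notMem hs
  obtain ⟨e, he⟩ := (Set.ne_univ_iff_exists_notMem _).1 h1
  simp only [mem_iUnion, not_exists] at he
  refine ⟨e, fun h => ?_, fun i a b h => ?_⟩
  · refine he ⊥ (Finset.mem_insert_self _ _) ?_
    rw [h]; exact Submodule.zero_mem _
  · refine he (S i) (Finset.mem_insert_of_mem (Finset.mem_image_of_mem _ (Finset.mem_univ i))) ?_
    rw [h]
    exact Submodule.add_mem _ (Submodule.smul_mem _ _ (Submodule.subset_span (by simp)))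
      (Submodule.smul_mem _ _ (Submodule.subset_span (by simp)))

/-- foliation box in a four-dimensional real vector space. -/
theorem planar (hF : FolStmt) {E : Type*} [NormedAddCommGroup E] [NormedSpace ℝ E]
    (hE : Module.finrank ℝ E = 4) {Jt : E → E →L[ℝ] E} {Ω : Set E} (hΩ : IsOpen Ω) {y0 : E}
    (hy0 : y0 ∈ Ω) (hJ : ContDiffOn ℝ ∞ Jt Ω) (hJ2 : ∀ x ∈ Ω, ∀ v, Jt x (Jt x v) = -v)
    {ι : Type*} [Finite ι] (A : ι → E) (hA : ∀ j, A j ≠ 0) :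
    ∃ (G : ℂ × ℂ → E) (P : (ℂ × ℂ) ≃L[ℝ] E), ContDiffOn ℝ ∞ G (ball 0 1) ∧ G 0 = y0 ∧
      HasFDerivAt G (P : ℂ × ℂ →L[ℝ] E) 0 ∧ (∀ v, P (Complex.I • v) = Jt y0 (P v)) ∧
      (∀ x ∈ ball (0 : ℂ × ℂ) 1, G x ∈ Ω) ∧
      (∀ x ∈ ball (0 : ℂ × ℂ) 1, ∀ a : ℂ,
        fderiv ℝ G x (0, Complex.I * a) = Jt (G x) (fderiv ℝ G x (0, a))) ∧
      ∀ j, (P.symm (A j)).1 ≠ 0 := by
  obtain ⟨e, he0, he⟩ := exists_dir hE (Jt y0) A
  have hj0 := hJ2 y0 hy0
  obtain ⟨T, hTJ, hTe⟩ := exists_lin hE hj0 he0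
  have hTs : ∀ v, T.symm (Complex.I • v) = Jt y0 (T.symm v) := by
    intro v
    rw [T.symm_apply_eq, hTJ, T.apply_symm_apply]
  -- the vertical components
  have hB : ∀ j, (T (A j)).1 ≠ 0 := by
    intro j h
    set c := (T (A j)).2 with hc
    have h1 : T (A j) = T (c.re • e + c.im • Jt y0 e) := by
      rw [map_add, map_smul, map_smul, hTJ, hTe]
      refine Prod.ext ?_ ?_
      · rw [h]; simp
      · rw [← hc]
        apply Complex.ext <;> simp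
    have h2 : A j = c.re • e + c.im • Jt y0 e := T.injective h1
    have h3 := cancel_j hj0 c.re c.im e
    rw [← h2] at h3
    have hc0 : c ≠ 0 := by
      intro hc0
      rw [hc0] at h2
      exact hA j (by rw [h2]; simp)
    have h4 : c.re ^ 2 + c.im ^ 2 ≠ 0 := by
      intro h5
      apply hc0
      have a1 : c.re = 0 := by nlinarith [sq_nonneg c.re, sq_nonneg c.im]
      have a2 : c.im = 0 := by nlinarith [sq_nonneg c.re, sq_nonneg c.im]
      exact Complex.ext a1 a2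
    refine he j ((c.re ^ 2 + c.im ^ 2)⁻¹ * c.re) (-((c.re ^ 2 + c.im ^ 2)⁻¹ * c.im)) ?_
    have h5 : e = (c.re ^ 2 + c.im ^ 2)⁻¹ • ((c.re ^ 2 + c.im ^ 2) • e) := by
      rw [smul_smul, inv_mul_cancel₀ h4, one_smul]
    rw [h5, ← h3]
    module
  -- the structure on `ℂ × ℂ`
  let ψ : ℂ × ℂ → E := fun x => y0 + T.symm x
  have hψ : ContDiff ℝ ∞ ψ := contDiff_const.add (T.symm : ℂ × ℂ →L[ℝ] E).contDiff
  have hψ0 : ψ 0 = y0 := by simp [ψ]
  obtain ⟨r, hr, hball⟩ : ∃ r : ℝ, 0 < r ∧ ∀ x ∈ ball (0 : ℂ × ℂ) r, ψ x ∈ Ω := by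
    have h1 : ψ ⁻¹' Ω ∈ 𝓝 (0 : ℂ × ℂ) :=
      hψ.continuous.continuousAt.preimage_mem_nhds (hΩ.mem_nhds (by rw [hψ0]; exact hy0))
    obtain ⟨r, hr, h2⟩ := Metric.mem_nhds_iff.1 h1
    exact ⟨r, hr, fun x hx => h2 hx⟩
  let J1 : ℂ × ℂ → ℂ × ℂ →L[ℝ] ℂ × ℂ := fun x =>
    (T : E →L[ℝ] ℂ × ℂ).comp ((Jt (ψ x)).comp (T.symm : ℂ × ℂ →L[ℝ] E))
  have hJ1 : ∀ x v, J1 x v = T (Jt (ψ x) (T.symm v)) := fun _ _ => rfl
  have hacs : ACS J1 r := by
    refine ⟨hr, ?_, ?_, ?_⟩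
    · intro x hx
      have h1 : ContDiffAt ℝ ∞ (fun x => Jt (ψ x)) x :=
        ContDiffAt.comp x (hJ.contDiffAt (hΩ.mem_nhds (hball x hx))) hψ.contDiffAt
      exact (contDiffAt_const.clm_comp (h1.clm_comp contDiffAt_const)).contDiffWithinAt
    · intro x hx v
      rw [hJ1, hJ1, T.symm_apply_apply, hJ2 _ (hball x hx), map_neg, T.apply_symm_apply]
    · intro v
      rw [hJ1, hψ0, ← hTs, T.apply_symm_apply]
  obtain ⟨G1, P1, hG1, hG10, hG1d, hP1, hG1r, hG1l, hG1B⟩ :=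
    fol_norm hF hacs (fun j => T (A j)) hB
  have hGat : ∀ x ∈ ball (0 : ℂ × ℂ) 1, ContDiffAt ℝ ∞ G1 x := fun x hx =>
    hG1.contDiffAt (isOpen_ball.mem_nhds hx)
  have hd : ∀ x ∈ ball (0 : ℂ × ℂ) 1,
      HasFDerivAt (fun x => ψ (G1 x)) ((T.symm : ℂ × ℂ →L[ℝ] E).comp (fderiv ℝ G1 x)) x := by
    intro x hx
    have h1 : HasFDerivAt ψ (T.symm : ℂ × ℂ →L[ℝ] E) (G1 x) :=
      (T.symm : ℂ × ℂ →L[ℝ] E).hasFDerivAt.const_add y0
    exact h1.comp x ((hGat x hx).differentiableAt (by simp)).hasFDerivAt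
  refine ⟨fun x => ψ (G1 x), P1.trans T.symm, ?_, ?_, ?_, ?_, ?_, ?_, ?_⟩
  · intro x hx
    exact (ContDiffAt.comp x hψ.contDiffAt (hGat x hx)).contDiffWithinAt
  · show ψ (G1 0) = y0
    rw [hG10, hψ0]
  · have h1 := hd 0 (by simp)
    rw [hG1d.fderiv] at h1
    exact h1
  · intro v
    show T.symm (P1 (Complex.I • v)) = Jt y0 (T.symm (P1 v))
    rw [hP1, hTs]
  · intro x hx
    exact hball _ (hG1r x hx)
  · intro x hx a
    rw [(hd x hx).fderiv]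
    show T.symm (fderiv ℝ G1 x (0, Complex.I * a)) = Jt (ψ (G1 x)) (T.symm (fderiv ℝ G1 x (0, a)))
    rw [hG1l x hx, hJ1, T.symm_apply_apply]
  · intro j
    exact hG1B j

end

end Crest.Agent.R235.FBoxA_130
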