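import Mathlib

/-!
# Row 235 (S0364), helper130: smooth functions vanishing to order `m`

`smO`: a smooth function with bounded derivatives which is `o(‖x‖^m)` is `O(‖x‖^(m+1))`, and its
derivative is `O(‖x‖^m)`.  (Mathlib only.)
-/

set_option autoImplicit false

open Set Filter Metric Topology Asymptotics
open scoped ContDiff Nat

universe u v

namespace Crest.Agent.R235.SmO_130

noncomputable section

/-- the nodes -/
def nd (n : ℕ) (i : Fin (n + 1)) : ℝ := ((i : ℕ) + 1 : ℝ) / (n + 1)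

theorem nd_pos (n : ℕ) (i : Fin (n + 1)) : 0 < nd n i := by
  unfold nd; positivity

theorem nd_le (n : ℕ) (i : Fin (n + 1)) : nd n i ≤ 1 := by
  unfold nd
  rw [div_le_one (by positivity)]
  have : ((i : ℕ) : ℝ) ≤ n := by exact_mod_cast Nat.lt_succ_iff.1 i.2
  linarith

theorem nd_inj (n : ℕ) : Function.Injective (nd n) := by
  intro i j h
  unfold nd at h
  have hn : ((n : ℝ) + 1) ≠ 0 := by positivity
  rw [div_left_inj' hn] at h
  have : ((i : ℕ) : ℝ) = (j : ℕ) := by linarith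
  exact Fin.ext (by exact_mod_cast this)

/-- Lagrange weights -/
theorem exists_weights (n j : ℕ) (hj : j ≤ n) : ∃ w : Fin (n + 1) → ℝ, ∀ k : ℕ, k ≤ n →
    ∑ i : Fin (n + 1), w i * nd n i ^ k = if k = j then 1 else 0 := by
  let V := Matrix.vandermonde (nd n)
  have hV : V.det ≠ 0 := Matrix.det_vandermonde_ne_zero_iff.2 (nd_inj n)
  have hV' : IsUnit V.det := isUnit_iff_ne_zero.2 hV
  let e : Fin (n + 1) → ℝ := Pi.single ⟨j, Nat.lt_succ_of_le hj⟩ 1
  refine ⟨Matrix.vecMul e V⁻¹, fun k hk => ?_⟩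
  have h1 : Matrix.vecMul (Matrix.vecMul e V⁻¹) V = e := by
    rw [Matrix.vecMul_vecMul, Matrix.nonsing_inv_mul _ hV', Matrix.vecMul_one]
  have h2 := congrFun h1 ⟨k, Nat.lt_succ_of_le hk⟩
  rw [Matrix.vecMul, dotProduct] at h2
  have h3 : ∀ i, V i ⟨k, Nat.lt_succ_of_le hk⟩ = nd n i ^ k := fun i => rfl
  simp only [h3] at h2
  rw [h2]
  show (Pi.single _ 1 : Fin (n + 1) → ℝ) _ = _
  rw [Pi.single_apply]
  simp

theorem coeff_bound (n j : ℕ) (hj : j ≤ n) : ∃ C : ℝ, 0 ≤ C ∧ ∀ {E : Type u}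
    [NormedAddCommGroup E] [NormedSpace ℝ E] (c : ℕ → E) (A : ℝ),
    (∀ i : Fin (n + 1), ‖∑ k ∈ Finset.range (n + 1), nd n i ^ k • c k‖ ≤ A) → ‖c j‖ ≤ C * A := by
  obtain ⟨w, hw⟩ := exists_weights n j hj
  refine ⟨∑ i, |w i|, Finset.sum_nonneg fun i _ => abs_nonneg _, ?_⟩
  intro E _ _ c A h
  have h1 : c j = ∑ i, w i • ∑ k ∈ Finset.range (n + 1), nd n i ^ k • c k := by
    simp only [Finset.smul_sum, smul_smul]
    rw [Finset.sum_comm]
    simp only [← Finset.sum_smul]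
    rw [Finset.sum_eq_single j]
    · rw [hw j hj, if_pos rfl, one_smul]
    · intro k hk hkj
      rw [hw k (Nat.lt_succ_iff.1 (Finset.mem_range.1 hk)), if_neg hkj, zero_smul]
    · intro h2
      exact absurd (Finset.mem_range.2 (Nat.lt_succ_of_le hj)) h2
  rw [h1, Finset.sum_mul]
  refine (norm_sum_le _ _).trans (Finset.sum_le_sum fun i _ => ?_)
  rw [norm_smul, Real.norm_eq_abs]
  exact mul_le_mul_of_nonneg_left (h i) (abs_nonneg _)

section oned

variable {E : Type u} [NormedAddCommGroup E] [NormedSpace ℝ E]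

/-- Taylor coefficients at `0` -/
def tc (h : ℝ → E) (k : ℕ) : E := (k ! : ℝ)⁻¹ • iteratedDeriv k h 0

theorem taylor_bound {h : ℝ → E} {n : ℕ} {B : ℝ} (hh : ContDiff ℝ ∞ h)
    (hB : ∀ t ∈ Icc (0 : ℝ) 1, ‖iteratedDeriv (n + 1) h t‖ ≤ B) {x : ℝ} (hx : x ∈ Icc (0 : ℝ) 1) :
    ‖h x - ∑ k ∈ Finset.range (n + 1), x ^ k • tc h k‖ ≤ B * x ^ (n + 1) / n ! := by
  have hu : UniqueDiffOn ℝ (Icc (0 : ℝ) 1) := uniqueDiffOn_Icc one_pos
  have he : ∀ k : ℕ, ∀ t ∈ Icc (0 : ℝ) 1,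
      iteratedDerivWithin k h (Icc 0 1) t = iteratedDeriv k h t := by
    intro k t ht
    exact iteratedDerivWithin_eq_iteratedDeriv hu
      ((hh.of_le (by exact_mod_cast le_top)).contDiffAt) ht
  have h1 := taylor_mean_remainder_bound (f := h) (a := 0) (b := 1) (C := B) (n := n) zero_le_one
    ((hh.of_le (by exact_mod_cast le_top)).contDiffOn) hx
    (fun y hy => by rw [he _ y hy]; exact hB y hy)
  rw [taylor_within_apply, sub_zero] at h1
  refine le_trans (le_of_eq ?_) h1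
  congr 2
  refine Finset.sum_congr rfl fun k _ => ?_
  rw [he k 0 (by simp), tc, smul_smul, mul_comm]

theorem tc_eq_zero {h : ℝ → E} {m : ℕ} {B : ℝ} (hh : ContDiff ℝ ∞ h)
    (hB : ∀ t ∈ Icc (0 : ℝ) 1, ‖iteratedDeriv (m + 1) h t‖ ≤ B)
    (ho : ∀ ε : ℝ, 0 < ε → ∃ δ : ℝ, 0 < δ ∧ ∀ t : ℝ, 0 < t → t < δ → ‖h t‖ ≤ ε * t ^ m)
    {j : ℕ} (hj : j ≤ m) : tc h j = 0 := by
  have hB0 : 0 ≤ B := (norm_nonneg _).trans (hB 0 (by simp))
  obtain ⟨C, hC0, hC⟩ := coeff_bound.{u} m j hj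
  have key : ∀ ε : ℝ, 0 < ε → ‖tc h j‖ ≤ C * (2 * ε) := by
    intro ε hε
    obtain ⟨δ, hδ, hδ'⟩ := ho ε hε
    obtain ⟨l, hl0, hl1⟩ : ∃ l : ℝ, 0 < l ∧ l < δ ∧ l ≤ 1 ∧ B * l ≤ ε := by
      refine ⟨min (δ / 2) (min 1 (ε / (B + 1))), by positivity, ?_, ?_, ?_⟩
      · exact (min_le_left _ _).trans_lt (by linarith)
      · exact (min_le_right _ _).trans (min_le_left _ _)
      · have h1 : min (δ / 2) (min 1 (ε / (B + 1))) ≤ ε / (B + 1) :=
          (min_le_right _ _).trans (min_le_right _ _)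
        calc B * min (δ / 2) (min 1 (ε / (B + 1))) ≤ (B + 1) * (ε / (B + 1)) := by
              gcongr; linarith
          _ = ε := by field_simp
    obtain ⟨hl1, hl2, hl3⟩ := hl1
    have h1 := hC (E := E) (fun k => l ^ k • tc h k) (2 * ε * l ^ m) (by
      intro i
      have hx0 : 0 < l * nd m i := mul_pos hl0 (nd_pos m i)
      have hx1 : l * nd m i ≤ l := by
        have := mul_le_mul_of_nonneg_left (nd_le m i) hl0.le
        rwa [mul_one] at this
      have h2 := taylor_bound hh hB (x := l * nd m i) ⟨hx0.le, hx1.trans hl2⟩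
      have h3 := hδ' (l * nd m i) hx0 (hx1.trans_lt hl1)
      have h4 : ∑ k ∈ Finset.range (m + 1), nd m i ^ k • l ^ k • tc h k =
          ∑ k ∈ Finset.range (m + 1), (l * nd m i) ^ k • tc h k := by
        refine Finset.sum_congr rfl fun k _ => ?_
        rw [smul_smul, ← mul_pow, mul_comm (nd m i) l]
      rw [h4]
      have h5 : ‖∑ k ∈ Finset.range (m + 1), (l * nd m i) ^ k • tc h k‖ ≤
          ‖h (l * nd m i)‖ + ‖h (l * nd m i) - ∑ k ∈ Finset.range (m + 1),
            (l * nd m i) ^ k • tc h k‖ := by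
        have := norm_sub_le (h (l * nd m i)) (h (l * nd m i) - ∑ k ∈ Finset.range (m + 1),
            (l * nd m i) ^ k • tc h k)
        rwa [sub_sub_cancel] at this
      refine h5.trans ?_
      have h6 : (l * nd m i) ^ m ≤ l ^ m := by gcongr
      have h7 : B * (l * nd m i) ^ (m + 1) / m ! ≤ ε * l ^ m := by
        have h8 : B * (l * nd m i) ^ (m + 1) / m ! ≤ B * (l * nd m i) ^ (m + 1) := by
          apply div_le_self (by positivity)
          exact_mod_cast Nat.one_le_iff_ne_zero.2 (Nat.factorial_ne_zero m)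
        refine h8.trans ?_
        calc B * (l * nd m i) ^ (m + 1) ≤ B * l ^ (m + 1) := by gcongr
          _ = (B * l) * l ^ m := by ring
          _ ≤ ε * l ^ m := by gcongr
      calc _ ≤ ε * (l * nd m i) ^ m + B * (l * nd m i) ^ (m + 1) / m ! := add_le_add h3 h2
        _ ≤ ε * l ^ m + ε * l ^ m := by gcongr
        _ = _ := by ring)
    have h1' : l ^ j * ‖tc h j‖ ≤ C * (2 * ε * l ^ m) := by
      have h2 : ‖l ^ j • tc h j‖ = l ^ j * ‖tc h j‖ := by
        rw [norm_smul, Real.norm_eq_abs, abs_of_pos (pow_pos hl0 j)]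
      rw [← h2]; exact h1
    have h9 : l ^ m ≤ l ^ j := pow_le_pow_of_le_one hl0.le hl2 hj
    have h10 : l ^ j * ‖tc h j‖ ≤ l ^ j * (C * (2 * ε)) := by
      refine h1'.trans ?_
      calc C * (2 * ε * l ^ m) ≤ C * (2 * ε * l ^ j) := by gcongr
        _ = _ := by ring
    exact le_of_mul_le_mul_left h10 (pow_pos hl0 j)
  by_contra hne
  have hpos : 0 < ‖tc h j‖ := norm_pos_iff.2 hne
  have h1 := key (‖tc h j‖ / (4 * (C + 1))) (by positivity)
  have h2 : C * (2 * (‖tc h j‖ / (4 * (C + 1)))) ≤ ‖tc h j‖ / 2 := by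
    have h3 : C * (2 * (‖tc h j‖ / (4 * (C + 1)))) = (C / (C + 1)) * (‖tc h j‖ / 2) := by
      field_simp; ring
    rw [h3]
    have h4 : C / (C + 1) ≤ 1 := by rw [div_le_one (by positivity)]; linarith
    calc _ ≤ 1 * (‖tc h j‖ / 2) := by gcongr
      _ = _ := one_mul _
  linarith

theorem radial {h : ℝ → E} {m : ℕ} {B : ℝ} (hh : ContDiff ℝ ∞ h)
    (hB : ∀ t ∈ Icc (0 : ℝ) 1, ‖iteratedDeriv (m + 1) h t‖ ≤ B)
    (ho : ∀ ε : ℝ, 0 < ε → ∃ δ : ℝ, 0 < δ ∧ ∀ t : ℝ, 0 < t → t < δ → ‖h t‖ ≤ ε * t ^ m) :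
    ‖h 1‖ ≤ B := by
  have hB0 : 0 ≤ B := (norm_nonneg _).trans (hB 0 (by simp))
  have h1 := taylor_bound hh hB (x := 1) (by simp)
  have h2 : ∑ k ∈ Finset.range (m + 1), (1 : ℝ) ^ k • tc h k = 0 := by
    refine Finset.sum_eq_zero fun k hk => ?_
    rw [tc_eq_zero hh hB ho (Nat.lt_succ_iff.1 (Finset.mem_range.1 hk)), smul_zero]
  rw [h2, sub_zero] at h1
  refine h1.trans ?_
  rw [one_pow, mul_one]
  apply div_le_self hB0
  exact_mod_cast Nat.one_le_iff_ne_zero.2 (Nat.factorial_ne_zero m)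

theorem deriv_bound (n : ℕ) (hn : 1 ≤ n) : ∃ C : ℝ, 0 ≤ C ∧ ∀ {E : Type u}
    [NormedAddCommGroup E] [NormedSpace ℝ E] (h : ℝ → E) (A B : ℝ), ContDiff ℝ ∞ h →
    (∀ t ∈ Icc (0 : ℝ) 1, ‖h t‖ ≤ A) →
    (∀ t ∈ Icc (0 : ℝ) 1, ‖iteratedDeriv (n + 1) h t‖ ≤ B) → ‖deriv h 0‖ ≤ C * (A + B) := by
  obtain ⟨C, hC0, hC⟩ := coeff_bound.{u} n 1 hn
  refine ⟨C, hC0, ?_⟩
  intro E _ _ h A B hh hA hB
  have hB0 : 0 ≤ B := (norm_nonneg _).trans (hB 0 (by simp))
  have h1 := hC (E := E) (tc h) (A + B) (by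
    intro i
    have hx : nd n i ∈ Icc (0 : ℝ) 1 := ⟨(nd_pos n i).le, nd_le n i⟩
    have h2 := taylor_bound hh hB hx
    have h5 : ‖∑ k ∈ Finset.range (n + 1), nd n i ^ k • tc h k‖ ≤
          ‖h (nd n i)‖ + ‖h (nd n i) - ∑ k ∈ Finset.range (n + 1), nd n i ^ k • tc h k‖ := by
      have := norm_sub_le (h (nd n i)) (h (nd n i) - ∑ k ∈ Finset.range (n + 1),
          nd n i ^ k • tc h k)
      rwa [sub_sub_cancel] at this
    refine h5.trans (add_le_add (hA _ hx) (h2.trans ?_))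
    have h8 : B * nd n i ^ (n + 1) / n ! ≤ B * nd n i ^ (n + 1) := by
      apply div_le_self (mul_nonneg hB0 (pow_nonneg (nd_pos n i).le _))
      exact_mod_cast Nat.one_le_iff_ne_zero.2 (Nat.factorial_ne_zero n)
    refine h8.trans ?_
    calc B * nd n i ^ (n + 1) ≤ B * 1 := by
          gcongr
          exact pow_le_one₀ (nd_pos n i).le (nd_le n i)
      _ = B := mul_one B)
  have h2 : tc h 1 = deriv h 0 := by
    simp [tc, iteratedDeriv_one]
  rwa [h2] at h1

end oned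

section multi

variable {V : Type v} [NormedAddCommGroup V] [NormedSpace ℝ V]
  {E : Type u} [NormedAddCommGroup E] [NormedSpace ℝ E]

theorem line_contDiff {f : V → E} (hf : ContDiff ℝ ∞ f) (x w : V) :
    ContDiff ℝ ∞ (fun t : ℝ => f (x + t • w)) :=
  hf.comp (contDiff_const.add (contDiff_id.smul contDiff_const))

theorem line_bound {f : V → E} (hf : ContDiff ℝ ∞ f) {n : ℕ} {K : ℝ}
    (hK : ∀ x, ‖iteratedFDeriv ℝ n f x‖ ≤ K) (x w : V) (t : ℝ) :
    ‖iteratedDeriv n (fun t : ℝ => f (x + t • w)) t‖ ≤ K * ‖w‖ ^ n := by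
  rw [← norm_iteratedFDeriv_eq_norm_iteratedDeriv]
  let g : ℝ →L[ℝ] V := ContinuousLinearMap.toSpanSingleton ℝ w
  have h1 : (fun t : ℝ => f (x + t • w)) = (fun y => f (x + y)) ∘ g := by
    funext t
    simp [g, ContinuousLinearMap.toSpanSingleton_apply]
  have h2 : ContDiff ℝ ∞ (fun y => f (x + y)) := hf.comp (contDiff_const.add contDiff_id)
  rw [h1, ContinuousLinearMap.iteratedFDeriv_comp_right g h2 t (i := n) (by exact_mod_cast le_top),
    iteratedFDeriv_comp_add_left]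
  refine (ContinuousMultilinearMap.norm_compContinuousLinearMap_le _ _).trans ?_
  have h3 : ‖g‖ = ‖w‖ := ContinuousLinearMap.norm_toSpanSingleton w
  simp only [h3, Finset.prod_const, Finset.card_univ, Fintype.card_fin]
  gcongr
  exact hK _

/-- **smooth functions vanishing to order `m`** -/
theorem smO {f : V → E} (hf : ContDiff ℝ ∞ f)
    (hb : ∀ n : ℕ, ∃ K : ℝ, ∀ x, ‖iteratedFDeriv ℝ n f x‖ ≤ K) {m : ℕ}
    (ho : f =o[𝓝 0] fun x : V => ‖x‖ ^ m) :
    ∃ C : ℝ, 0 ≤ C ∧ ∀ x, ‖f x‖ ≤ C * ‖x‖ ^ (m + 1) ∧ ‖fderiv ℝ f x‖ ≤ C * ‖x‖ ^ m := by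
  obtain ⟨K, hK⟩ := hb (m + 1)
  have hK0 : 0 ≤ K := (norm_nonneg _).trans (hK 0)
  have h1 : ∀ x, ‖f x‖ ≤ K * ‖x‖ ^ (m + 1) := by
    intro x
    have h2 := radial (h := fun t : ℝ => f (0 + t • x)) (m := m) (B := K * ‖x‖ ^ (m + 1))
      (line_contDiff hf 0 x) (fun t _ => line_bound hf hK 0 x t) (by
        intro ε hε
        have h3 : ∀ᶠ y in 𝓝 (0 : V), ‖f y‖ ≤ (ε / (‖x‖ ^ m + 1)) * ‖‖y‖ ^ m‖ :=
          ho.bound (by positivity)
        have h4 : Tendsto (fun t : ℝ => t • x) (𝓝 0) (𝓝 0) := by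
          have : Tendsto (fun t : ℝ => t • x) (𝓝 0) (𝓝 ((0 : ℝ) • x)) :=
            (continuous_id.smul continuous_const).tendsto 0
          rwa [zero_smul] at this
        obtain ⟨δ, hδ, hδ'⟩ := Metric.eventually_nhds_iff.1 (h4.eventually h3)
        refine ⟨δ, hδ, fun t ht0 ht1 => ?_⟩
        have h5 := hδ' (y := t) (by rw [Real.dist_eq, sub_zero, abs_of_pos ht0]; exact ht1)
        rw [zero_add]
        refine h5.trans ?_
        rw [norm_pow, norm_norm, norm_smul, Real.norm_eq_abs, abs_of_pos ht0, mul_pow]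
        calc ε / (‖x‖ ^ m + 1) * (t ^ m * ‖x‖ ^ m)
            = ε * t ^ m * (‖x‖ ^ m / (‖x‖ ^ m + 1)) := by ring
          _ ≤ ε * t ^ m * 1 := by
              gcongr
              rw [div_le_one (by positivity)]; linarith
          _ = ε * t ^ m := mul_one _)
    simpa using h2
  rcases Nat.eq_zero_or_pos m with hm | hm
  · subst hm
    obtain ⟨K1, hK1⟩ := hb 1
    refine ⟨max K K1, le_max_of_le_left hK0, fun x => ⟨(h1 x).trans ?_, ?_⟩⟩
    · gcongr
      exact le_max_left _ _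
    · rw [pow_zero, mul_one, ← norm_iteratedFDeriv_one]
      exact (hK1 x).trans (le_max_right _ _)
  · obtain ⟨C, hC0, hC⟩ := deriv_bound.{u} m hm
    refine ⟨K + C * (K * 2 ^ (m + 1) + K), by positivity, fun x => ⟨(h1 x).trans ?_, ?_⟩⟩
    · gcongr
      have : 0 ≤ C * (K * 2 ^ (m + 1) + K) := by positivity
      linarith
    · rcases eq_or_ne x 0 with hx | hx
      · have h2 : HasFDerivAt f (0 : V →L[ℝ] E) x := by
          rw [hx, hasFDerivAt_iff_isLittleO_nhds_zero]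
          have h3 : f 0 = 0 := by
            have := h1 0
            rw [norm_zero, zero_pow (Nat.succ_ne_zero m), mul_zero] at this
            exact norm_le_zero_iff.1 this
          have h4 : (fun h : V => f (0 + h) - f 0 - (0 : V →L[ℝ] E) h) = f := by
            funext h; simp [h3]
          rw [h4]
          refine ho.trans_isBigO ?_
          refine IsBigO.of_bound 1 ?_
          filter_upwards [Metric.ball_mem_nhds (0 : V) one_pos] with y hy
          rw [mem_ball_zero_iff] at hy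
          rw [norm_pow, norm_norm, one_mul]
          calc ‖y‖ ^ m ≤ ‖y‖ ^ 1 := pow_le_pow_of_le_one (norm_nonneg _) hy.le hm
            _ = ‖y‖ := pow_one _
        rw [h2.fderiv, norm_zero]
        positivity
      · have hx0 : 0 < ‖x‖ := norm_pos_iff.2 hx
        refine ContinuousLinearMap.opNorm_le_bound _ (by positivity) fun w => ?_
        rcases eq_or_ne w 0 with hw | hw
        · simp [hw]
        have hw0 : 0 < ‖w‖ := norm_pos_iff.2 hw
        have hv : ‖(‖x‖ / ‖w‖) • w‖ = ‖x‖ := by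
          rw [norm_smul, Real.norm_eq_abs, abs_of_pos (by positivity)]
          field_simp
        have h2 := hC (E := E) (fun t : ℝ => f (x + t • (‖x‖ / ‖w‖) • w))
          (K * 2 ^ (m + 1) * ‖x‖ ^ (m + 1)) (K * ‖x‖ ^ (m + 1)) (line_contDiff hf _ _)
          (by
            intro t ht
            refine (h1 _).trans ?_
            have h3 : ‖x + t • (‖x‖ / ‖w‖) • w‖ ≤ 2 * ‖x‖ := by
              refine (norm_add_le _ _).trans ?_
              rw [norm_smul, hv, Real.norm_eq_abs, abs_of_nonneg ht.1]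
              have := mul_le_mul_of_nonneg_right ht.2 hx0.le
              linarith
            calc K * ‖x + t • (‖x‖ / ‖w‖) • w‖ ^ (m + 1) ≤ K * (2 * ‖x‖) ^ (m + 1) := by gcongr
              _ = _ := by rw [mul_pow]; ring)
          (by
            intro t _
            have := line_bound hf hK x ((‖x‖ / ‖w‖) • w) t
            rwa [hv] at this)
        have h3 : deriv (fun t : ℝ => f (x + t • (‖x‖ / ‖w‖) • w)) 0 =
            (‖x‖ / ‖w‖) • fderiv ℝ f x w := by
          have h4 : HasDerivAt (fun t : ℝ => x + t • (‖x‖ / ‖w‖) • w) ((‖x‖ / ‖w‖) • w) 0 := by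
            have := ((hasDerivAt_id (0 : ℝ)).smul_const ((‖x‖ / ‖w‖) • w)).const_add x
            simpa using this
          have h5 : HasFDerivAt f (fderiv ℝ f x) (x + (0 : ℝ) • (‖x‖ / ‖w‖) • w) := by
            rw [zero_smul, add_zero]
            exact (hf.differentiable (by norm_num) x).hasFDerivAt
          have h6 := h5.comp_hasDerivAt (0 : ℝ) h4
          rw [show (fun t : ℝ => f (x + t • (‖x‖ / ‖w‖) • w)) =
            f ∘ (fun t : ℝ => x + t • (‖x‖ / ‖w‖) • w) from rfl, h6.deriv, map_smul]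
        rw [h3, norm_smul, Real.norm_eq_abs, abs_of_pos (by positivity)] at h2
        have h7 : ‖fderiv ℝ f x w‖ = (‖w‖ / ‖x‖) * (‖x‖ / ‖w‖ * ‖fderiv ℝ f x w‖) := by
          field_simp
        rw [h7]
        calc (‖w‖ / ‖x‖) * (‖x‖ / ‖w‖ * ‖fderiv ℝ f x w‖)
            ≤ (‖w‖ / ‖x‖) * (C * (K * 2 ^ (m + 1) * ‖x‖ ^ (m + 1) + K * ‖x‖ ^ (m + 1))) := by
              gcongr
          _ = C * (K * 2 ^ (m + 1) + K) * ‖x‖ ^ m * ‖w‖ := by
              rw [pow_succ ‖x‖ m]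
              field_simp
          _ ≤ (K + C * (K * 2 ^ (m + 1) + K)) * ‖x‖ ^ m * ‖w‖ := by
              gcongr
              linarith

end multi

end

end Crest.Agent.R235.SmO_130
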