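import Crest.Agent.R235.FBoxA_130
import Crest.Agent.R235.SmO_130
import Crest.Agent.R235.SimJ_679
import Crest.Agent.R235.BrNF_266

/-!
# Row 235 (S0364), PACKAGE ADJ, leaf FBOX, part B (helper130)

* `branch_lead` : leading term of a `J`-disc;
* `lift_lead`   : leading term in the coordinates of the box;
* `est`         : estimates of the remainder and of its derivative.
-/

set_option autoImplicit false
set_option maxSynthPendingDepth 3

open Set Filter Metric Topology Asymptotics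
open scoped ContDiff Real

namespace Crest.Agent.R235.FBoxB_130

open Crest.Agent.R235.NWDefs_334 Crest.Agent.R235.NWJ_130 Crest.Agent.R235.NWJ2_130
open Crest.Agent.R235.FBoxA_130 Crest.Agent.R235.SimJ_679 Crest.Agent.R235.BrNF_266

noncomputable section

theorem act_one {E : Type*} [NormedAddCommGroup E] [NormedSpace ℝ E] (J : E →L[ℝ] E) (A : E) :
    act J 1 A = A := by
  rw [act_apply]; simp

theorem act_isBigO {E : Type*} [NormedAddCommGroup E] [NormedSpace ℝ E] (J : E →L[ℝ] E) (A : E)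
    (m : ℕ) : (fun s : ℂ => act J (s ^ m) A) =O[𝓝 0] fun s : ℂ => s ^ m := by
  refine IsBigO.of_bound (‖A‖ + ‖J A‖) (Eventually.of_forall fun s => ?_)
  rw [act_apply]
  refine (norm_add_le _ _).trans ?_
  rw [norm_smul, norm_smul, Real.norm_eq_abs, Real.norm_eq_abs]
  have h1 := Complex.abs_re_le_norm (s ^ m)
  have h2 := Complex.abs_im_le_norm (s ^ m)
  calc |(s ^ m).re| * ‖A‖ + |(s ^ m).im| * ‖J A‖ ≤ ‖s ^ m‖ * ‖A‖ + ‖s ^ m‖ * ‖J A‖ := by gcongr
    _ = (‖A‖ + ‖J A‖) * ‖s ^ m‖ := by ring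

section branch

variable {E : Type*} [NormedAddCommGroup E] [NormedSpace ℝ E]

/-- leading term of a `J`-disc. -/
theorem branch_lead [FiniteDimensional ℝ E] {Jt : E → E →L[ℝ] E} {Ω : Set E} (hΩ : IsOpen Ω)
    {y0 : E} (hy0 : y0 ∈ Ω)
    (hJ : ContDiffOn ℝ ∞ Jt Ω) (hJ2 : ∀ x ∈ Ω, ∀ v, Jt x (Jt x v) = -v) {u : ℂ → E} {ρ : ℝ}
    (hρ : 0 < ρ) (hu : ContDiffOn ℝ ∞ u (ball 0 ρ)) (hu0 : u 0 = y0)
    (hol : ∀ s ∈ ball (0 : ℂ) ρ, ∀ v, fderiv ℝ u s (Complex.I * v) = Jt (u s) (fderiv ℝ u s v))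
    (hne : ∀ s ∈ ball (0 : ℂ) ρ, s ≠ 0 → u s ≠ y0) :
    ∃ (m : ℕ) (A : E), 1 ≤ m ∧ A ≠ 0 ∧
      (fun s : ℂ => u s - y0 - act (Jt y0) (s ^ m) A) =o[𝓝 0] fun s : ℂ => s ^ m := by
  have hball : ball (0 : ℂ) ρ ∈ 𝓝 (0 : ℂ) := ball_mem_nhds _ hρ
  have hat : ContDiffAt ℝ ∞ u 0 := hu.contDiffAt hball
  have hat1 : ContDiffAt ℝ 1 u 0 := hat.of_le (by norm_num)
  have hJat : ContDiffAt ℝ 1 Jt (u 0) := by
    rw [hu0]; exact (hJ.contDiffAt (hΩ.mem_nhds hy0)).of_le (by norm_num)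
  have hJ2' : ∀ᶠ x in 𝓝 (u 0), ∀ y, Jt x (Jt x y) = -y := by
    rw [hu0]
    filter_upwards [hΩ.mem_nhds hy0] with x hx using hJ2 x hx
  have hu' : ∀ᶠ z in 𝓝 (0 : ℂ), fderiv ℝ u z Complex.I = Jt (u z) (fderiv ℝ u z 1) := by
    filter_upwards [hball] with z hz
    have := hol z hz 1
    rwa [mul_one] at this
  have hsub : SubJ (fun z => Jt (u z)) (fun z => u z - (fun _ => y0) z) 0 := by
    refine diff_subJ hJat hJ2' ?_ ?_ hat1 contDiffAt_const hu' ?_
    · show ∀ᶠ x in 𝓝 y0, ∀ y, Jt x (Jt x y) = -y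
      rw [← hu0]; exact hJ2'
    · show ContinuousAt Jt y0
      rw [← hu0]; exact hJat.continuousAt
    · refine Eventually.of_forall fun z => ?_
      simp
  rcases leadJ_o (hJat.comp 0 hat1) (hat.continuousAt.eventually hJ2')
    (hat1.sub contDiffAt_const) hsub with h | ⟨m, A, hA, ho⟩
  · exfalso
    have h1 : ∀ᶠ z in 𝓝[≠] (0 : ℂ), u z - y0 = 0 := nhdsWithin_le_nhds h
    have h2 : ∀ᶠ z in 𝓝[≠] (0 : ℂ), z ∈ ball (0 : ℂ) ρ := nhdsWithin_le_nhds hball
    obtain ⟨z, h3, h4, h5⟩ := (h1.and (h2.and self_mem_nhdsWithin)).exists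
    exact hne z h4 h5 (sub_eq_zero.1 h3)
  · simp only [sub_zero, Function.comp_apply, hu0] at ho
    refine ⟨m, A, ?_, hA, ho⟩
    rcases Nat.eq_zero_or_pos m with hm | hm
    · exfalso
      subst hm
      simp only [pow_zero, act_one] at ho
      have h1 : Tendsto (fun s : ℂ => u s - y0 - A) (𝓝 0) (𝓝 0) :=
        (isLittleO_one_iff ℂ).1 ho
      have h2 : Tendsto (fun s : ℂ => u s - y0 - A) (𝓝 0) (𝓝 (u 0 - y0 - A)) :=
        (hat.continuousAt.sub continuousAt_const).sub continuousAt_const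
      have h3 := tendsto_nhds_unique h1 h2
      rw [hu0, sub_self, zero_sub] at h3
      exact hA (neg_eq_zero.1 h3.symm)
    · exact hm

/-- leading term in the coordinates of the box. -/
theorem lift_lead {Jt : E → E →L[ℝ] E} {G : ℂ × ℂ → E}
    {Θ : OpenPartialHomeomorph (ℂ × ℂ) E} {R : ℝ} (hL : LD G Θ R) {P : (ℂ × ℂ) ≃L[ℝ] E}
    (hP : HasFDerivAt G (P : ℂ × ℂ →L[ℝ] E) 0) {y0 : E} (hG0 : G 0 = y0)
    (hPJ : ∀ v, P (Complex.I • v) = Jt y0 (P v)) {u : ℂ → E} (hc : ContinuousAt u 0)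
    (hu0 : u 0 = y0) {m : ℕ} {A : E}
    (ho : (fun s : ℂ => u s - y0 - act (Jt y0) (s ^ m) A) =o[𝓝 0] fun s : ℂ => s ^ m) :
    (fun s : ℂ => Θ.symm (u s) - s ^ m • P.symm A) =o[𝓝 0] fun s : ℂ => s ^ m := by
  have h0 : (0 : ℂ × ℂ) ∈ ball (0 : ℂ × ℂ) R := mem_ball_self hL.pos
  have hT : y0 ∈ Θ.target := by
    rw [← hG0, ← hL.eq]; exact Θ.map_source (by rw [hL.source]; exact h0)
  have hs0 : Θ.symm y0 = 0 := by
    rw [← hG0, ← hL.eq]; exact Θ.left_inv (by rw [hL.source]; exact h0)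
  have hd : HasFDerivAt Θ.symm (P.symm : E →L[ℝ] ℂ × ℂ) y0 := by
    have h1 := ((hL.smooth_symm y0 hT).differentiableAt (by simp)).hasFDerivAt
    refine h1.congr_fderiv (ContinuousLinearMap.ext fun y => ?_)
    have h2 := hL.inv 0 h0 (P.symm y)
    rw [hP.fderiv, hG0] at h2
    simpa using h2
  have h1 := hasFDerivAt_iff_isLittleO.1 hd
  have hcu : Tendsto u (𝓝 0) (𝓝 y0) := by rw [← hu0]; exact hc
  have h2 := h1.comp_tendsto hcu
  have hO : (fun s : ℂ => u s - y0) =O[𝓝 0] fun s : ℂ => s ^ m := by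
    have h3 := ho.isBigO.add (act_isBigO (Jt y0) A m)
    refine h3.congr_left fun s => ?_
    simp
  have h3 : (fun s : ℂ => Θ.symm (u s) - Θ.symm y0 - P.symm (u s - y0)) =o[𝓝 0]
      fun s : ℂ => s ^ m := h2.trans_isBigO hO
  have h4 : (fun s : ℂ => P.symm (u s - y0 - act (Jt y0) (s ^ m) A)) =o[𝓝 0]
      fun s : ℂ => s ^ m :=
    ((P.symm : E →L[ℝ] ℂ × ℂ).isBigO_comp _ _).trans_isLittleO ho
  have hact : ∀ c : ℂ, P.symm (act (Jt y0) c A) = c • P.symm A := by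
    intro c
    rw [P.symm_apply_eq]
    have h5 : c • P.symm A = c.re • P.symm A + c.im • (Complex.I • P.symm A) := by
      conv_lhs => rw [← Complex.re_add_im c, add_smul, mul_smul]
      rw [Complex.coe_smul, Complex.coe_smul]
    rw [h5, map_add, map_smul, map_smul, hPJ, P.apply_symm_apply, act_apply]
  refine (h3.add h4).congr_left fun s => ?_
  rw [map_sub P.symm (u s - y0), hact, hs0]
  abel

end branch

/-- estimates -/
theorem est {v : ℂ → ℂ × ℂ} {ρ : ℝ} (hρ : 0 < ρ) (hv : ContDiffOn ℝ ∞ v (ball 0 ρ)) {m : ℕ}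
    (hm : 1 ≤ m) {b : ℂ × ℂ}
    (ho : (fun s : ℂ => v s - s ^ m • b) =o[𝓝 0] fun s : ℂ => s ^ m) :
    ∃ r C : ℝ, 0 < r ∧ r ≤ ρ ∧ r ≤ 1 ∧ 0 ≤ C ∧ ∀ s ∈ ball (0 : ℂ) r,
      ‖(v s).1 - b.1 * s ^ m‖ ≤ C * ‖s‖ ^ (m + 1) ∧
      ‖fderiv ℝ (fun s => (v s).1) s - mulc (m * b.1 * s ^ (m - 1))‖ ≤ C * ‖s‖ ^ m ∧
      ‖(v s).2‖ ≤ C * ‖s‖ ^ m ∧
      ‖fderiv ℝ (fun s => (v s).2) s‖ ≤ C * ‖s‖ ^ (m - 1) := by
  let w : ℂ → ℂ × ℂ := fun s => v s - s ^ m • b
  have hpow : ContDiff ℝ ∞ (fun s : ℂ => s ^ m • b) := (contDiff_id.pow m).smul contDiff_const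
  have hw : ContDiffOn ℝ ∞ w (ball 0 ρ) := hv.sub hpow.contDiffOn
  let χ : ContDiffBump (0 : ℂ) := ⟨ρ / 4, ρ / 2, by positivity, by linarith⟩
  let g : ℂ → ℂ × ℂ := fun s => χ s • w s
  have hχ : ContDiff ℝ ∞ (χ : ℂ → ℝ) := χ.contDiff
  have hgs : ContDiff ℝ ∞ g := by
    rw [contDiff_iff_contDiffAt]
    intro s
    by_cases hs : s ∈ ball (0 : ℂ) ρ
    · exact hχ.contDiffAt.smul (hw.contDiffAt (isOpen_ball.mem_nhds hs))
    · have h1 : s ∈ (closedBall (0 : ℂ) (ρ / 2))ᶜ := by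
        intro h2
        apply hs
        rw [mem_closedBall_zero_iff] at h2
        rw [mem_ball_zero_iff]
        linarith
      have h2 : g =ᶠ[𝓝 s] fun _ => 0 := by
        filter_upwards [isClosed_closedBall.isOpen_compl.mem_nhds h1] with y hy
        have h3 : χ y = 0 := by
          apply χ.zero_of_le_dist
          have : ¬ dist y 0 ≤ ρ / 2 := hy
          exact (not_le.1 this).le
        show χ y • w y = 0
        rw [h3, zero_smul]
      exact contDiffAt_const.congr_of_eventuallyEq h2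
  have hgc : HasCompactSupport g := χ.hasCompactSupport.smul_right
  have hgb : ∀ n : ℕ, ∃ K : ℝ, ∀ x, ‖iteratedFDeriv ℝ n g x‖ ≤ K := by
    intro n
    obtain ⟨K, hK⟩ := (hgs.continuous_iteratedFDeriv (m := n)
      (by exact_mod_cast le_top)).bounded_above_of_compact_support (hgc.iteratedFDeriv n)
    exact ⟨K, hK⟩
  have hgw : ∀ s ∈ ball (0 : ℂ) (ρ / 4), g s = w s := by
    intro s hs
    have : χ s = 1 := χ.one_of_mem_closedBall (ball_subset_closedBall hs)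
    show χ s • w s = w s
    rw [this, one_smul]
  have hgw' : ∀ s ∈ ball (0 : ℂ) (ρ / 4), g =ᶠ[𝓝 s] w := by
    intro s hs
    filter_upwards [isOpen_ball.mem_nhds hs] with y hy using hgw y hy
  have hog : g =o[𝓝 0] fun x : ℂ => ‖x‖ ^ m := by
    have h1 : g =ᶠ[𝓝 0] w := hgw' 0 (mem_ball_self (by positivity))
    have h2 : w =o[𝓝 0] fun x : ℂ => ‖x‖ ^ m := by
      have h3 := ho.norm_right
      simpa only [norm_pow] using h3
    exact h1.trans_isLittleO h2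
  obtain ⟨C, hC0, hC⟩ := SmO_130.smO hgs hgb hog
  refine ⟨min (ρ / 4) 1, C + (m + 1) * ‖b‖, by positivity, ?_, min_le_right _ _, by positivity, ?_⟩
  · exact (min_le_left _ _).trans (by linarith)
  intro s hs
  have hs4 : s ∈ ball (0 : ℂ) (ρ / 4) := ball_subset_ball (min_le_left _ _) hs
  have hs1 : ‖s‖ ≤ 1 := by
    have := ball_subset_ball (min_le_right (ρ / 4) 1) hs
    rw [mem_ball_zero_iff] at this
    exact this.le
  have hsρ : s ∈ ball (0 : ℂ) ρ := ball_subset_ball (by linarith) hs4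
  obtain ⟨e1, e2⟩ := hC s
  rw [hgw s hs4] at e1
  rw [(hgw' s hs4).fderiv_eq] at e2
  have hvd : HasFDerivAt v (fderiv ℝ v s) s :=
    ((hv.contDiffAt (isOpen_ball.mem_nhds hsρ)).differentiableAt (by simp)).hasFDerivAt
  have hpd : HasFDerivAt (fun s : ℂ => s ^ m) (mulc (m * s ^ (m - 1))) s := by
    have h1 : HasDerivAt (fun s : ℂ => s ^ m) ((m : ℂ) * s ^ (m - 1)) s := by
      simpa using hasDerivAt_pow m s
    have h2 := h1.hasFDerivAt.restrictScalars ℝ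
    refine h2.congr_fderiv (ContinuousLinearMap.ext fun y => ?_)
    rw [mulc_apply]
    simp [mul_comm]
  have hpd2 : HasFDerivAt (fun s : ℂ => s ^ m • b)
      ((mulc (m * s ^ (m - 1))).smulRight b) s := hpd.smul_const b
  have hwd : fderiv ℝ w s = fderiv ℝ v s - (mulc (m * s ^ (m - 1))).smulRight b :=
    (hvd.sub hpd2).fderiv
  have hv1 : HasFDerivAt (fun s => (v s).1) ((ContinuousLinearMap.fst ℝ ℂ ℂ).comp (fderiv ℝ v s)) s :=
    hasFDerivAt_fst.comp s hvd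
  have hv2 : HasFDerivAt (fun s => (v s).2) ((ContinuousLinearMap.snd ℝ ℂ ℂ).comp (fderiv ℝ v s)) s :=
    hasFDerivAt_snd.comp s hvd
  have hCb : C ≤ C + (m + 1) * ‖b‖ := by
    have : 0 ≤ ((m : ℝ) + 1) * ‖b‖ := by positivity
    linarith
  have hsm : ‖s‖ ^ m ≤ ‖s‖ ^ (m - 1) := pow_le_pow_of_le_one (norm_nonneg _) hs1 (Nat.sub_le m 1)
  have hsm1 : ‖s‖ ^ (m + 1) ≤ ‖s‖ ^ m := pow_le_pow_of_le_one (norm_nonneg _) hs1 (Nat.le_succ m)
  refine ⟨?_, ?_, ?_, ?_⟩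
  · have h1 : (v s).1 - b.1 * s ^ m = (w s).1 := by
      show _ = (v s).1 - s ^ m * b.1
      ring
    rw [h1]
    exact (norm_fst_le _).trans (e1.trans (by gcongr))
  · have h1 : fderiv ℝ (fun s => (v s).1) s - mulc (m * b.1 * s ^ (m - 1)) =
        (ContinuousLinearMap.fst ℝ ℂ ℂ).comp (fderiv ℝ w s) := by
      rw [hv1.fderiv, hwd]
      refine ContinuousLinearMap.ext fun y => ?_
      simp only [sub_apply, ContinuousLinearMap.comp_apply, mulc_apply,
        ContinuousLinearMap.coe_fst', ContinuousLinearMap.smulRight_apply, Prod.fst_sub,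
        Prod.smul_fst, smul_eq_mul]
      ring
    rw [h1]
    have h2 : ‖(ContinuousLinearMap.fst ℝ ℂ ℂ).comp (fderiv ℝ w s)‖ ≤ ‖fderiv ℝ w s‖ := by
      refine (ContinuousLinearMap.opNorm_comp_le _ _).trans ?_
      calc _ ≤ 1 * ‖fderiv ℝ w s‖ := by
            gcongr
            exact ContinuousLinearMap.norm_fst_le ℝ ℂ ℂ
        _ = _ := one_mul _
    exact h2.trans (e2.trans (by gcongr))
  · have h1 : (v s).2 = (w s).2 + s ^ m * b.2 := by
      show _ = ((v s).2 - s ^ m * b.2) + s ^ m * b.2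
      ring
    rw [h1]
    calc ‖(w s).2 + s ^ m * b.2‖ ≤ ‖(w s).2‖ + ‖s ^ m * b.2‖ := norm_add_le _ _
      _ ≤ C * ‖s‖ ^ (m + 1) + ‖s‖ ^ m * ‖b‖ := by
          rw [norm_mul, norm_pow]
          gcongr
          · exact (norm_snd_le _).trans e1
          · exact norm_snd_le _
      _ ≤ C * ‖s‖ ^ m + ‖s‖ ^ m * ((m + 1) * ‖b‖) := by
          gcongr
          have : 0 ≤ (m : ℝ) * ‖b‖ := by positivity
          linarith
      _ = _ := by ring
  · have h1 : fderiv ℝ (fun s => (v s).2) s = (ContinuousLinearMap.snd ℝ ℂ ℂ).comp (fderiv ℝ w s) +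
        mulc (m * b.2 * s ^ (m - 1)) := by
      rw [hv2.fderiv, hwd]
      refine ContinuousLinearMap.ext fun y => ?_
      simp only [add_apply, sub_apply, ContinuousLinearMap.comp_apply, mulc_apply,
        ContinuousLinearMap.coe_snd', ContinuousLinearMap.smulRight_apply, Prod.snd_sub,
        Prod.smul_snd, smul_eq_mul]
      ring
    rw [h1]
    have h2 : ‖(ContinuousLinearMap.snd ℝ ℂ ℂ).comp (fderiv ℝ w s)‖ ≤ ‖fderiv ℝ w s‖ := by
      refine (ContinuousLinearMap.opNorm_comp_le _ _).trans ?_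
      calc _ ≤ 1 * ‖fderiv ℝ w s‖ := by
            gcongr
            exact ContinuousLinearMap.norm_snd_le ℝ ℂ ℂ
        _ = _ := one_mul _
    calc _ ≤ ‖(ContinuousLinearMap.snd ℝ ℂ ℂ).comp (fderiv ℝ w s)‖ +
          ‖mulc (m * b.2 * s ^ (m - 1))‖ := norm_add_le _ _
      _ ≤ C * ‖s‖ ^ m + m * ‖b‖ * ‖s‖ ^ (m - 1) := by
          refine add_le_add (h2.trans e2) ?_
          rw [norm_mulc, norm_mul, norm_mul, norm_pow]
          gcongr
          · simp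
          · exact norm_snd_le _
      _ ≤ C * ‖s‖ ^ (m - 1) + (m + 1) * ‖b‖ * ‖s‖ ^ (m - 1) := by
          gcongr
          linarith
      _ = _ := by ring

end

end Crest.Agent.R235.FBoxB_130
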