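import Crest.Agent.R235.FBoxB_130
import Crest.Agent.R235.AdjBox_43
import Crest.Agent.R235.Dm_61

/-!
# Row 235 (S0364), PACKAGE ADJ, leaf FBOX, part C (helper130)

`fbox_of : FolStmt → FBOX`.
-/

set_option autoImplicit false
set_option maxSynthPendingDepth 3

open Set Function Filter MeasureTheory Metric Asymptotics
open scoped Manifold ContDiff Topology

universe u

namespace Crest.Agent.R235.FBoxC_130

open Crest.Agent.R240 Crest.Agent.R240.Ch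
open Crest.Agent.R235 Crest.Agent.R235.Glob_370 Crest.Agent.R235.Adj
open Crest.Agent.R235.NWDefs_334 Crest.Agent.R235.FBoxA_130 Crest.Agent.R235.FBoxB_130
open Crest.Agent.R235.BrNF_266

noncomputable section

theorem exists_pos_le {n : ℕ} (r : Fin n → ℝ) (h : ∀ j, 0 < r j) :
    ∃ r0 : ℝ, 0 < r0 ∧ r0 ≤ 1 ∧ ∀ j, r0 ≤ r j := by
  have h1 : ∀ᶠ t : ℝ in 𝓝[>] 0, ∀ j, t < r j :=
    eventually_all.2 fun j => nhdsWithin_le_nhds (gt_mem_nhds (h j))
  have h2 : ∀ᶠ t : ℝ in 𝓝[>] 0, t < 1 := nhdsWithin_le_nhds (gt_mem_nhds one_pos)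
  obtain ⟨t, h3, h4, h5⟩ := (h1.and (h2.and self_mem_nhdsWithin)).exists
  exact ⟨t, h5, h4.le, fun j => (h3 j).le⟩

theorem exists_le {n : ℕ} (C : Fin n → ℝ) (h : ∀ j, 0 ≤ C j) :
    ∃ C0 : ℝ, 0 ≤ C0 ∧ ∀ j, C j ≤ C0 :=
  ⟨∑ j, C j, Finset.sum_nonneg fun j _ => h j,
    fun j => Finset.single_le_sum (fun i _ => h i) (Finset.mem_univ j)⟩

theorem finrank_E4 : Module.finrank ℝ E4 = 4 := by simp

section Basic

variable {M : Type u} [TopologicalSpace M] [ChartedSpace E4 M] [IsManifold 𝓘(ℝ, E4) ∞ M]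

theorem repJ_sq {J : EndF E4 M} (hJ2 : ∀ x v, atJ J x (atJ J x v) = -v) (p : M) {y : E4}
    (hy : y ∈ (chartAt E4 p).target) (v : E4) : repJ p J y (repJ p J y v) = -v := by
  have hx := symm_mem hy
  rw [repJ_apply, repJ_apply, tcc_cancel' hx, hJ2, map_neg, tcc_cancel hx]

/-- `J`-holomorphy in a chart. -/
theorem hol_chart {J : EndF E4 M} {u : ℂ → M} {z : ℂ}
    (hu : ContMDiffAt 𝓘(ℝ, ℂ) 𝓘(ℝ, E4) ∞ u z)
    (hh : ∀ v : ℂ, dmap u z (Complex.I * v) = atJ J (u z) (dmap u z v)) {p : M}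
    (hp : u z ∈ (chartAt E4 p).source) (v : ℂ) :
    fderiv ℝ (fun z => chartAt E4 p (u z)) z (Complex.I * v) =
      repJ p J (chartAt E4 p (u z)) (fderiv ℝ (fun z => chartAt E4 p (u z)) z v) := by
  rw [Dm_61.fderiv_chart hu hp, Dm_61.fderiv_chart hu hp, hh, apply_eq_repJ hp]

/-- near `p` the curve is made of the small branches. -/
theorem near_lemma [T2Space M] [CompactSpace M] {J : EndF E4 M} (c : JCurve J) (p : M) {r1 : ℝ}
    (hr1 : 0 < r1) :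
    ∃ N ∈ 𝓝 p, ∀ x ∈ N, x ∈ range c.f → ∃ j, ∃ s ∈ ball (0 : ℂ) r1, (c.L p).u j s = x := by
  obtain ⟨K, hKn, hKU, hK⟩ := local_compact_nhds ((c.L p).openU.mem_nhds (c.L p).mem)
  choose r hr1' hr using fun j => (c.L p).proper j K hK hKU
  let A : Fin (c.L p).n → Set ℂ := fun j => closedBall 0 (r j) ∩ {z | r1 ≤ ‖z‖}
  have hA : ∀ j, IsCompact (A j) := fun j =>
    (isCompact_closedBall _ _).inter_right (isClosed_le continuous_const continuous_norm)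
  have hAb : ∀ j, A j ⊆ ball 0 1 := fun j z hz => closedBall_subset_ball (hr1' j) hz.1
  have hcont : ∀ j, ContinuousOn ((c.L p).u j) (ball 0 1) := fun j =>
    ((c.L p).disc j).hol.smooth.continuousOn
  have hZ : ∀ j, IsClosed ((c.L p).u j '' A j) := fun j =>
    ((hA j).image_of_continuousOn ((hcont j).mono (hAb j))).isClosed
  have hp : ∀ j, p ∉ (c.L p).u j '' A j := by
    rintro j ⟨z, hz, hzp⟩
    have h1 : z = 0 := ((c.L p).disc j).inj (hAb j hz) (mem_ball_self one_pos) (by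
      rw [hzp, (c.L p).centre j])
    have h2 : r1 ≤ ‖z‖ := hz.2
    rw [h1, norm_zero] at h2
    linarith
  have h3 : ∀ᶠ x in 𝓝 p, ∀ j, x ∉ (c.L p).u j '' A j :=
    eventually_all.2 fun j => (hZ j).isOpen_compl.mem_nhds (hp j)
  refine ⟨K ∩ {x | ∀ j, x ∉ (c.L p).u j '' A j}, inter_mem hKn h3, ?_⟩
  rintro x ⟨hxK, hx⟩ hxf
  have h4 : x ∈ range c.f ∩ (c.L p).U := ⟨hxf, hKU hxK⟩
  rw [(c.L p).supp] at h4
  obtain ⟨j, hj⟩ := mem_iUnion.1 h4
  obtain ⟨s, hs, hsx⟩ := hj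
  refine ⟨j, s, ?_, hsx⟩
  rw [mem_ball_zero_iff]
  by_contra hlt
  have h5 : ‖s‖ ≤ r j := hr j s hs (by rw [hsx]; exact hxK)
  exact hx j ⟨s, ⟨mem_closedBall_zero_iff.2 h5, not_lt.1 hlt⟩, hsx⟩

end Basic

/-- **FBOX** -/
theorem fbox_of (hF : FolStmt) : FBOX.{u} := by
  intro M _ _ _ _ _ _ J hJs hJ2 c p V hV hpV _
  set φ := chartAt E4 p with hφ
  have hps : p ∈ φ.source := mem_chart_source E4 p
  set y0 := φ p with hy0
  let Ω : Set E4 := φ.target ∩ φ.symm ⁻¹' (V ∩ (c.L p).U)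
  have hΩ : IsOpen Ω := φ.isOpen_inter_preimage_symm (hV.inter (c.L p).openU)
  have hy0Ω : y0 ∈ Ω := by
    refine ⟨φ.map_source hps, ?_⟩
    show φ.symm (φ p) ∈ V ∩ (c.L p).U
    rw [φ.left_inv hps]
    exact ⟨hpV, (c.L p).mem⟩
  have hJt : ContDiffOn ℝ ∞ (repJ p J) Ω := (hJs p).mono inter_subset_left
  have hJt2 : ∀ x ∈ Ω, ∀ v, repJ p J x (repJ p J x v) = -v := fun x hx v =>
    repJ_sq hJ2 p hx.1 v
  -- the branches in the chart
  let ub : Fin (c.L p).n → ℂ → E4 := fun j s => φ ((c.L p).u j s)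
  have humd : ∀ j, ∀ s ∈ ball (0 : ℂ) 1, ContMDiffAt 𝓘(ℝ, ℂ) 𝓘(ℝ, E4) ∞ ((c.L p).u j) s :=
    fun j s hs => ((c.L p).disc j).hol.smooth.contMDiffAt (isOpen_ball.mem_nhds hs)
  obtain ⟨ρ, hρ, hρ1, hρs⟩ : ∃ ρ : ℝ, 0 < ρ ∧ ρ ≤ 1 ∧
      ∀ j, ∀ s ∈ ball (0 : ℂ) ρ, (c.L p).u j s ∈ φ.source := by
    have h1 : ∀ j, ∃ r : ℝ, 0 < r ∧ ∀ s ∈ ball (0 : ℂ) r, (c.L p).u j s ∈ φ.source := by
      intro j
      have h2 : (c.L p).u j ⁻¹' φ.source ∈ 𝓝 (0 : ℂ) :=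
        (humd j 0 (mem_ball_self one_pos)).continuousAt.preimage_mem_nhds (by
          rw [(c.L p).centre j]; exact φ.open_source.mem_nhds hps)
      obtain ⟨r, hr, h3⟩ := Metric.mem_nhds_iff.1 h2
      exact ⟨r, hr, fun s hs => h3 hs⟩
    choose r hr hr' using h1
    obtain ⟨r0, h2, h3, h4⟩ := exists_pos_le r hr
    exact ⟨r0, h2, h3, fun j s hs => hr' j s (ball_subset_ball (h4 j) hs)⟩
  have hub : ∀ j, ∀ s ∈ ball (0 : ℂ) ρ, ContDiffAt ℝ ∞ (ub j) s := fun j s hs =>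
    Dm_61.contDiffAt_chart (humd j s (ball_subset_ball hρ1 hs)) (hρs j s hs)
  have hub0 : ∀ j, ub j 0 = y0 := fun j => by
    show φ ((c.L p).u j 0) = y0
    rw [(c.L p).centre j]
  have hubh : ∀ j, ∀ s ∈ ball (0 : ℂ) ρ, ∀ v : ℂ, fderiv ℝ (ub j) s (Complex.I * v) =
      repJ p J (ub j s) (fderiv ℝ (ub j) s v) := fun j s hs v =>
    hol_chart (humd j s (ball_subset_ball hρ1 hs))
      (((c.L p).disc j).hol.jhol s (ball_subset_ball hρ1 hs)) (hρs j s hs) v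
  have hubne : ∀ j, ∀ s ∈ ball (0 : ℂ) ρ, s ≠ 0 → ub j s ≠ y0 := by
    intro j s hs hs0 h
    have h1 : (c.L p).u j s = p := φ.injOn (hρs j s hs) hps h
    exact hs0 (((c.L p).disc j).inj (ball_subset_ball hρ1 hs) (mem_ball_self one_pos)
      (by rw [h1, (c.L p).centre j]))
  choose m A hm hA hlead using fun j => branch_lead hΩ hy0Ω hJt hJt2 hρ
    (fun s hs => (hub j s hs).contDiffWithinAt) (hub0 j) (hubh j) (hubne j)
  -- the foliation
  obtain ⟨G, P, hGs, hG0, hGd, hPJ, hGΩ, hGl, hGA⟩ :=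
    planar hF finrank_E4 hΩ hy0Ω hJt hJt2 A hA
  have hGat : ∀ x ∈ ball (0 : ℂ × ℂ) 1, ContDiffAt ℝ ∞ G x := fun x hx =>
    hGs.contDiffAt (isOpen_ball.mem_nhds hx)
  obtain ⟨Θ0, R, hLD, hR1⟩ := exists_LD (G := G)
    (by filter_upwards [ball_mem_nhds (0 : ℂ × ℂ) one_pos] with x hx using hGat x hx) P hGd
    (ball_mem_nhds (0 : ℂ × ℂ) one_pos)
  have hmem0 : ∀ x ∈ ball (0 : ℂ × ℂ) R, G x ∈ Θ0.target := fun x hx => by
    rw [← hLD.eq]; exact Θ0.map_source (by rw [hLD.source]; exact hx)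
  have hleft0 : ∀ x ∈ ball (0 : ℂ × ℂ) R, Θ0.symm (G x) = x := fun x hx => by
    rw [← hLD.eq]; exact Θ0.left_inv (by rw [hLD.source]; exact hx)
  have hright0 : ∀ y ∈ Θ0.target, G (Θ0.symm y) = y := fun y hy => by
    rw [← hLD.eq]; exact Θ0.right_inv hy
  have hsy : ∀ y ∈ Θ0.target, Θ0.symm y ∈ ball (0 : ℂ × ℂ) R := fun y hy => by
    rw [← hLD.source]; exact Θ0.map_target hy
  -- the coordinates on `M`
  let Θ : OpenPartialHomeomorph (ℂ × ℂ) M := Θ0.trans φ.symm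
  have hΘ : ∀ x, Θ x = φ.symm (G x) := fun x => by
    show φ.symm (Θ0 x) = _
    rw [hLD.eq]
  have hsrc : Θ.source = ball 0 R := by
    show (Θ0.trans φ.symm).source = _
    rw [OpenPartialHomeomorph.trans_source, hLD.source]
    refine inter_eq_left.2 fun x hx => ?_
    show Θ0 x ∈ φ.symm.source
    rw [hLD.eq]
    exact (hGΩ x (hR1 hx)).1
  have hΘs : ∀ x, Θ.symm x = Θ0.symm (φ x) := fun x => rfl
  have hΘVU : ∀ x ∈ ball (0 : ℂ × ℂ) R, Θ x ∈ V ∩ (c.L p).U := fun x hx => by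
    rw [hΘ]; exact (hGΩ x (hR1 hx)).2
  have hΘsrc : ∀ x ∈ ball (0 : ℂ × ℂ) R, Θ x ∈ φ.source := fun x hx => by
    rw [hΘ]; exact φ.map_target (hGΩ x (hR1 hx)).1
  have hφΘ : ∀ x ∈ ball (0 : ℂ × ℂ) R, φ (Θ x) = G x := fun x hx => by
    rw [hΘ]; exact φ.right_inv (hGΩ x (hR1 hx)).1
  have hmemT : ∀ x ∈ ball (0 : ℂ × ℂ) R, Θ x ∈ Θ.target := fun x hx =>
    Θ.map_source (by rw [hsrc]; exact hx)
  have hsymmB : ∀ y ∈ Θ.target, Θ.symm y ∈ ball (0 : ℂ × ℂ) R := fun y hy => by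
    rw [← hsrc]; exact Θ.map_target hy
  have hrightT : ∀ y ∈ Θ.target, Θ (Θ.symm y) = y := fun y hy => Θ.right_inv hy
  have htgt : ∀ y ∈ Θ.target, y ∈ φ.source ∧ φ y ∈ Θ0.target := by
    intro y hy
    have h1 := hsymmB y hy
    have h2 := hΘsrc _ h1
    have h3 := hφΘ _ h1
    rw [hrightT y hy] at h2 h3
    exact ⟨h2, by rw [h3]; exact hmem0 _ h1⟩
  have hΘsm : ∀ x ∈ ball (0 : ℂ × ℂ) R, ContMDiffAt 𝓘(ℝ, ℂ × ℂ) 𝓘(ℝ, E4) ∞ Θ x := by
    intro x hx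
    refine Dm_61.contMDiffAt_of_chart (p := p)
      (Θ.continuousAt (by rw [hsrc]; exact hx)) (hΘsrc x hx) ?_
    refine (hLD.smooth x hx).congr_of_eventuallyEq ?_
    filter_upwards [isOpen_ball.mem_nhds hx] with z hz using hφΘ z hz
  have hfd : ∀ x ∈ ball (0 : ℂ × ℂ) R, ∀ v,
      tcc (Θ x) p (Θ x) (dmap Θ x v) = fderiv ℝ G x v := by
    intro x hx v
    rw [← Dm_61.fderiv_chart (hΘsm x hx) (hΘsrc x hx)]
    have h1 : (fun z => chartAt E4 p (Θ z)) =ᶠ[𝓝 x] G := by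
      filter_upwards [isOpen_ball.mem_nhds hx] with z hz using hφΘ z hz
    rw [h1.fderiv_eq]
  let J' : ℂ × ℂ → ℂ × ℂ →L[ℝ] ℂ × ℂ := fun x =>
    (fderiv ℝ Θ0.symm (G x)).comp ((repJ p J (G x)).comp (fderiv ℝ G x))
  have hJ' : ∀ x y, J' x y = fderiv ℝ Θ0.symm (G x) (repJ p J (G x) (fderiv ℝ G x y)) :=
    fun _ _ => rfl
  -- the branches in the coordinates
  have hut : ∀ j, ∃ r : ℝ, 0 < r ∧ r ≤ ρ ∧ ∀ s ∈ ball (0 : ℂ) r, (c.L p).u j s ∈ Θ.target := by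
    intro j
    have h1 : Θ.target ∈ 𝓝 ((c.L p).u j 0) := by
      rw [(c.L p).centre j]
      refine Θ.open_target.mem_nhds ?_
      have h2 : Θ 0 = p := by rw [hΘ, hG0, hy0, φ.left_inv hps]
      rw [← h2]
      exact hmemT 0 (mem_ball_self hLD.pos)
    have h2 : (c.L p).u j ⁻¹' Θ.target ∈ 𝓝 (0 : ℂ) :=
      (humd j 0 (mem_ball_self one_pos)).continuousAt.preimage_mem_nhds h1
    obtain ⟨r, hr, h3⟩ := Metric.mem_nhds_iff.1 h2
    exact ⟨min r ρ, lt_min hr hρ, min_le_right _ _,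
      fun s hs => h3 (ball_subset_ball (min_le_left _ _) hs)⟩
  choose r hr hrρ hrT using hut
  let v : Fin (c.L p).n → ℂ → ℂ × ℂ := fun j s => Θ.symm ((c.L p).u j s)
  have hv : ∀ j s, v j s = Θ0.symm (ub j s) := fun j s => rfl
  have hubT : ∀ j, ∀ s ∈ ball (0 : ℂ) (r j), ub j s ∈ Θ0.target := fun j s hs =>
    (htgt _ (hrT j s hs)).2
  have hvs : ∀ j, ∀ s ∈ ball (0 : ℂ) (r j), ContDiffAt ℝ ∞ (v j) s := by
    intro j s hs
    have h1 : ContDiffAt ℝ ∞ (fun s => Θ0.symm (ub j s)) s :=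
      ContDiffAt.comp s (hLD.smooth_symm _ (hubT j s hs)) (hub j s (ball_subset_ball (hrρ j) hs))
    exact h1
  have hest : ∀ j, ∃ r' C : ℝ, 0 < r' ∧ r' ≤ r j ∧ r' ≤ 1 ∧ 0 ≤ C ∧ ∀ s ∈ ball (0 : ℂ) r',
      ‖(v j s).1 - (P.symm (A j)).1 * s ^ m j‖ ≤ C * ‖s‖ ^ (m j + 1) ∧
      ‖fderiv ℝ (fun s => (v j s).1) s - mulc (m j * (P.symm (A j)).1 * s ^ (m j - 1))‖
        ≤ C * ‖s‖ ^ m j ∧
      ‖(v j s).2‖ ≤ C * ‖s‖ ^ m j ∧
      ‖fderiv ℝ (fun s => (v j s).2) s‖ ≤ C * ‖s‖ ^ (m j - 1) := fun j =>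
    est (hr j) (fun s hs => (hvs j s hs).contDiffWithinAt) (hm j)
      (lift_lead (Jt := repJ p J) hLD hGd hG0 hPJ
        (hub j 0 (mem_ball_self hρ)).continuousAt (hub0 j) (hlead j))
  choose r' C hr' hr'r _ hC0 hC using hest
  obtain ⟨r1, hr1, hr11, hr1'⟩ := exists_pos_le r' hr'
  obtain ⟨C0, hC00, hC0'⟩ := exists_le C hC0
  have hr1r : ∀ j, r1 ≤ r j := fun j => (hr1' j).trans (hr'r j)
  obtain ⟨N, hN, hN'⟩ := near_lemma c p hr1
  obtain ⟨ρ', hρ', hρ'N⟩ : ∃ ρ' : ℝ, 0 < ρ' ∧ ∀ x ∈ ball (0 : ℂ × ℂ) ρ', Θ x ∈ N := by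
    have h1 : Θ ⁻¹' N ∈ 𝓝 (0 : ℂ × ℂ) := by
      refine (Θ.continuousAt (by rw [hsrc]; exact mem_ball_self hLD.pos)).preimage_mem_nhds ?_
      have h2 : Θ 0 = p := by rw [hΘ, hG0, hy0, φ.left_inv hps]
      rw [h2]; exact hN
    obtain ⟨ρ', h2, h3⟩ := Metric.mem_nhds_iff.1 h1
    exact ⟨ρ', h2, fun x hx => h3 hx⟩
  have hJ2c : ∀ x ∈ ball (0 : ℂ × ℂ) R, ContDiffAt ℝ ∞ (repJ p J) (G x) := fun x hx =>
    hJt.contDiffAt (hΩ.mem_nhds (hGΩ x (hR1 hx)))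
  exact ⟨{
    Θ := Θ
    R := R
    R_pos := hLD.pos
    source := hsrc
    centre := by rw [hΘ, hG0, hy0, φ.left_inv hps]
    target := by
      intro y hy
      have h1 := hΘVU _ (hsymmB y hy)
      rwa [hrightT y hy] at h1
    smooth := fun x hx => (hΘsm x hx).contMDiffWithinAt
    smooth_symm := by
      intro y hy
      have h1 : ContMDiffAt 𝓘(ℝ, E4) 𝓘(ℝ, E4) ∞ φ y :=
        (contMDiffOn_chart (I := 𝓘(ℝ, E4)) (x := p)).contMDiffAt
          (φ.open_source.mem_nhds (htgt y hy).1)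
      have h2 : ContMDiffAt 𝓘(ℝ, E4) 𝓘(ℝ, ℂ × ℂ) ∞ Θ0.symm (φ y) :=
        (hLD.smooth_symm _ (htgt y hy).2).contMDiffAt
      exact (h2.comp y h1).contMDiffWithinAt
    J' := J'
    smoothJ := by
      intro x hx
      have h1 : ContDiffAt ℝ ∞ (fderiv ℝ G) x := (hLD.smooth x hx).fderiv_right (by simp)
      have h2 : ContDiffAt ℝ ∞ (fun x => fderiv ℝ Θ0.symm (G x)) x :=
        ContDiffAt.comp x ((hLD.smooth_symm _ (hmem0 x hx)).fderiv_right (by simp))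
          (hLD.smooth x hx)
      have h3 : ContDiffAt ℝ ∞ (fun x => repJ p J (G x)) x :=
        ContDiffAt.comp x (hJ2c x hx) (hLD.smooth x hx)
      exact (h2.clm_comp (h3.clm_comp h1)).contDiffWithinAt
    conj := by
      intro x hx w
      refine tcc_inj (hΘsrc x hx) (u := dmap Θ x (J' x w)) (v := atJ J (Θ x) (dmap Θ x w)) ?_
      rw [hfd x hx, apply_eq_repJ (hΘsrc x hx), hfd x hx]
      show _ = repJ p J (φ (Θ x)) _
      rw [hφΘ x hx, hJ', hLD.inv' x hx]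
    leaf := by
      intro x hx a
      rw [hJ', ← hGl x (hR1 hx), hLD.inv x hx]
    J0 := by
      intro w
      have h1 : repJ p J (G 0) (fderiv ℝ G 0 w) = fderiv ℝ G 0 (Complex.I • w) := by
        rw [hGd.fderiv, hG0]
        exact (hPJ w).symm
      rw [hJ', h1, hLD.inv 0 (mem_ball_self hLD.pos)]
    r1 := r1
    r1_pos := hr1
    r1_le := hr11
    inT := fun j s hs => hrT j s (ball_subset_ball (hr1r j) hs)
    v := v
    v_eq := fun j s => rfl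
    v_smooth := fun j s hs => (hvs j s (ball_subset_ball (hr1r j) hs)).contDiffWithinAt
    v_hol := by
      intro j s hs
      have hs' := ball_subset_ball (hr1r j) hs
      refine ⟨(hvs j s hs').differentiableAt (by simp), fun w => ?_⟩
      have hT := hubT j s hs'
      have hd : fderiv ℝ (v j) s = (fderiv ℝ Θ0.symm (ub j s)).comp (fderiv ℝ (ub j) s) := by
        have h1 : HasFDerivAt Θ0.symm (fderiv ℝ Θ0.symm (ub j s)) (ub j s) :=
          ((hLD.smooth_symm _ hT).differentiableAt (by simp)).hasFDerivAt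
        have h2 : HasFDerivAt (ub j) (fderiv ℝ (ub j) s) s :=
          ((hub j s (ball_subset_ball (hrρ j) hs')).differentiableAt (by simp)).hasFDerivAt
        exact (h1.comp s h2).fderiv
      have hb := hsy _ hT
      have hGv : G (v j s) = ub j s := hright0 _ hT
      rw [hJ', hd]
      simp only [ContinuousLinearMap.comp_apply]
      rw [hubh j s (ball_subset_ball (hrρ j) hs')]
      have h3 := hLD.inv' (v j s) hb (fderiv ℝ (ub j) s w)
      rw [hGv] at h3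
      rw [hGv, h3]
    m := m
    m_pos := hm
    a := fun j => (P.symm (A j)).1
    a_ne := hGA
    C := C0
    C_nonneg := hC00
    ζ0 := fun j s hs => ((hC j s (ball_subset_ball (hr1' j) hs)).1).trans (by
      have := hC0' j
      gcongr)
    ζ1 := fun j s hs => ((hC j s (ball_subset_ball (hr1' j) hs)).2.1).trans (by
      have := hC0' j
      gcongr)
    z0 := fun j s hs => ((hC j s (ball_subset_ball (hr1' j) hs)).2.2.1).trans (by
      have := hC0' j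
      gcongr)
    z1 := fun j s hs => ((hC j s (ball_subset_ball (hr1' j) hs)).2.2.2).trans (by
      have := hC0' j
      gcongr)
    ρ := min ρ' R
    ρ_pos := lt_min hρ' hLD.pos
    ρ_le := min_le_right _ _
    near := by
      intro x hx hxf
      obtain ⟨j, s, hs, hjs⟩ := hN' (Θ x) (hρ'N x (ball_subset_ball (min_le_left _ _) hx)) hxf
      refine ⟨j, s, hs, ?_⟩
      show Θ.symm ((c.L p).u j s) = x
      rw [hjs]
      exact Θ.left_inv (by rw [hsrc]; exact ball_subset_ball (min_le_right _ _) hx)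
  }⟩

end

end Crest.Agent.R235.FBoxC_130
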