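import Crest.Agent.R235.NWOm_52
import Crest.Agent.R235.NWIface_334

/-!
# Row 235, package NW, leaf H2 (helper52), part 2: superposition on `C1a a G E`, smooth families

* `contDiff_of_isometry` : `f : Z → P` is smooth if `ι ∘ f` is, `ι` a linear isometry, `P` complete;
* `om1 hf : C1a a G E → C1a a G F`, `contDiff_om1`;
* `ofBD` : `BD` functions as elements of `C1a`; `cst1` : constants;
* `fam : FamStmt`.
-/

set_option autoImplicit false
set_option linter.unusedSectionVars false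
set_option maxSynthPendingDepth 3

open Filter Topology Set Metric
open scoped BoundedContinuousFunction ContDiff
open Crest.Agent.R235.NWDefs_334 Crest.Agent.R235.NWHol_952 Crest.Agent.R235.NWOm_52
open Crest.Agent.R235.NWIface_334

namespace Crest.Agent.R235.NWOm2_52

noncomputable section

universe u v

/-! ### lifting smoothness along an isometry -/

section lift

variable {Z P W : Type u} [NormedAddCommGroup Z] [NormedSpace ℝ Z] [NormedAddCommGroup P]
  [NormedSpace ℝ P] [NormedAddCommGroup W] [NormedSpace ℝ W]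

/-- post-composition with an isometry -/
def postI (Z : Type u) [NormedAddCommGroup Z] [NormedSpace ℝ Z] (ι : P →ₗᵢ[ℝ] W) :
    (Z →L[ℝ] P) →ₗᵢ[ℝ] (Z →L[ℝ] W) where
  toLinearMap := (ContinuousLinearMap.compL ℝ Z P W ι.toContinuousLinearMap).toLinearMap
  norm_map' := fun _ => ι.norm_toContinuousLinearMap_comp

theorem postI_apply (ι : P →ₗᵢ[ℝ] W) (L : Z →L[ℝ] P) (z : Z) : postI Z ι L z = ι (L z) := rfl

theorem hasFDerivAt_of_isometry (ι : P →ₗᵢ[ℝ] W) {f : Z → P} {L : Z →L[ℝ] P} {z : Z}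
    (h : HasFDerivAt (fun z => ι (f z)) (postI Z ι L) z) : HasFDerivAt f L z := by
  rw [hasFDerivAt_iff_isLittleO_nhds_zero] at h ⊢
  refine (Asymptotics.isLittleO_norm_left.1 ?_)
  have h1 := Asymptotics.isLittleO_norm_left.2 h
  refine h1.congr_left fun y => ?_
  rw [postI_apply, ← map_sub, ← map_sub, ι.norm_map]

/-- the derivative takes values in the (closed) range -/
theorem exists_der [CompleteSpace P] (ι : P →ₗᵢ[ℝ] W) {f : Z → P} {T : Z →L[ℝ] W} {z : Z}
    (h : HasFDerivAt (fun z => ι (f z)) T z) : ∃ L : Z →L[ℝ] P, postI Z ι L = T := by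
  have hc : IsClosed (LinearMap.range ι.toLinearMap : Set W) := by
    have h1 : IsClosed (Set.range ι) := ι.isometry.isClosedEmbedding.isClosed_range
    convert h1 using 1
    ext y; simp
  have hmem : ∀ v, T v ∈ LinearMap.range ι.toLinearMap := by
    intro v
    have : IsClosed (LinearMap.range ι.toLinearMap : Set W) := hc
    have h2 : HasFDerivAt (fun z => (LinearMap.range ι.toLinearMap).mkQL (ι (f z)))
        ((LinearMap.range ι.toLinearMap).mkQL.comp T) z :=
      (LinearMap.range ι.toLinearMap).mkQL.hasFDerivAt.comp z h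
    have h3 : (fun z => (LinearMap.range ι.toLinearMap).mkQL (ι (f z))) = fun _ => 0 := by
      funext y
      show (LinearMap.range ι.toLinearMap).mkQ (ι (f y)) = 0
      rw [Submodule.mkQ_apply, Submodule.Quotient.mk_eq_zero]
      exact ⟨f y, rfl⟩
    rw [h3] at h2
    have h4 := h2.unique (hasFDerivAt_const _ z)
    have h5 : (LinearMap.range ι.toLinearMap).mkQ (T v) = 0 := by
      have := congrArg (fun A : Z →L[ℝ] _ => A v) h4
      exact this
    rwa [Submodule.mkQ_apply, Submodule.Quotient.mk_eq_zero] at h5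
  choose g hg using hmem
  have hg' : ∀ v, ι (g v) = T v := hg
  refine ⟨LinearMap.mkContinuous
    { toFun := g
      map_add' := fun x y => ι.injective (by rw [hg', map_add, map_add, hg', hg'])
      map_smul' := fun c x => ι.injective (by
        rw [hg', RingHom.id_apply, map_smul, map_smul, hg']) } ‖T‖ (fun x => ?_), ?_⟩
  · show ‖g x‖ ≤ _
    rw [← ι.norm_map, hg']
    exact T.le_opNorm x
  · ext v
    exact hg' v

theorem contDiff_of_isometry_nat (n : ℕ) {P W : Type u} [NormedAddCommGroup P]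
    [NormedSpace ℝ P] [NormedAddCommGroup W] [NormedSpace ℝ W] [CompleteSpace P]
    (ι : P →ₗᵢ[ℝ] W) {f : Z → P} (h : ContDiff ℝ n (fun z => ι (f z))) : ContDiff ℝ n f := by
  induction n generalizing P W with
  | zero =>
    rw [Nat.cast_zero, contDiff_zero] at h ⊢
    exact ι.isometry.isEmbedding.continuous_iff.2 h
  | succ n ih =>
    have hn : ((n + 1 : ℕ) : WithTop ℕ∞) = (n : WithTop ℕ∞) + 1 := by push_cast; rfl
    rw [hn, contDiff_succ_iff_fderiv] at h ⊢
    obtain ⟨h1, -, h2⟩ := h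
    have h3 : ∀ z, ∃ L : Z →L[ℝ] P, postI Z ι L = fderiv ℝ (fun z => ι (f z)) z := fun z =>
      exists_der ι (h1 z).hasFDerivAt
    choose L hL using h3
    have h4 : ∀ z, HasFDerivAt f (L z) z := fun z => hasFDerivAt_of_isometry ι (by
      rw [hL]; exact (h1 z).hasFDerivAt)
    refine ⟨fun z => (h4 z).differentiableAt, ?_, ?_⟩
    · intro h; simp at h
    · have h5 : fderiv ℝ f = L := funext fun z => (h4 z).fderiv
      rw [h5]
      refine ih (postI Z ι) ?_
      have h6 : (fun z => postI Z ι (L z)) = fderiv ℝ (fun z => ι (f z)) := funext hL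
      rw [h6]
      exact h2

/-- **lifting smoothness** -/
theorem contDiff_of_isometry [CompleteSpace P] (ι : P →ₗᵢ[ℝ] W) {f : Z → P} {n : WithTop ℕ∞}
    (hn : n ≤ ∞) (h : ContDiff ℝ n (fun z => ι (f z))) : ContDiff ℝ n f := by
  induction n with
  | top => simp at hn
  | coe n =>
    induction n with
    | top =>
      exact contDiff_infty.2 fun m => contDiff_of_isometry_nat m ι
        (h.of_le (by exact_mod_cast le_top))
    | coe n => exact contDiff_of_isometry_nat n ι h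

/-- smooth maps into a closed subspace -/
theorem contDiff_of_subtype {K : Submodule ℝ W} [CompleteSpace K] {f : Z → K} {n : WithTop ℕ∞}
    (hn : n ≤ ∞) (h : ContDiff ℝ n (fun z => (f z : W))) : ContDiff ℝ n f :=
  contDiff_of_isometry K.subtypeₗᵢ hn h

theorem contDiff_of_subtype_prod {W' : Type u} [NormedAddCommGroup W'] [NormedSpace ℝ W']
    {K : Submodule ℝ (W × W')} [CompleteSpace K] {f : Z → K} {n : WithTop ℕ∞}
    (hn : n ≤ ∞) (h : ContDiff ℝ n (fun z => (f z).1.1)) (h' : ContDiff ℝ n (fun z => (f z).1.2)) :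
    ContDiff ℝ n f :=
  contDiff_of_subtype hn (h.prodMk h')

theorem contDiff_bil {Z X Y W : Type*} [NormedAddCommGroup Z] [NormedSpace ℝ Z]
    [NormedAddCommGroup X] [NormedSpace ℝ X] [NormedAddCommGroup Y] [NormedSpace ℝ Y]
    [NormedAddCommGroup W] [NormedSpace ℝ W] (B : X →L[ℝ] Y →L[ℝ] W) {n : WithTop ℕ∞}
    {f : Z → X} {g : Z → Y} (hf : ContDiff ℝ n f) (hg : ContDiff ℝ n g) :
    ContDiff ℝ n (fun z => B (f z) (g z)) :=
  B.isBoundedBilinearMap.contDiff.comp (hf.prodMk hg)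

end lift

/-! ### `C1a` -/

section c1

variable {a : ℝ} {G : Type v} {E F : Type v} [NormedAddCommGroup G] [NormedSpace ℝ G]
  [NormedAddCommGroup E] [NormedSpace ℝ E] [NormedAddCommGroup F] [NormedSpace ℝ F]

/-- value -/
def vl (a : ℝ) (G E : Type v) [NormedAddCommGroup G] [NormedSpace ℝ G] [NormedAddCommGroup E]
    [NormedSpace ℝ E] : C1a a G E →L[ℝ] Hol a G E :=
  (ContinuousLinearMap.fst ℝ _ _).comp (C1a a G E).subtypeL

/-- derivative -/
def dr (a : ℝ) (G E : Type v) [NormedAddCommGroup G] [NormedSpace ℝ G] [NormedAddCommGroup E]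
    [NormedSpace ℝ E] : C1a a G E →L[ℝ] Hol a G (G →L[ℝ] E) :=
  (ContinuousLinearMap.snd ℝ _ _).comp (C1a a G E).subtypeL

@[simp] theorem vl_apply (w : C1a a G E) : vl a G E w = w.1.1 := rfl
@[simp] theorem dr_apply (w : C1a a G E) : dr a G E w = w.1.2 := rfl

theorem C1f_eq (w : C1a a G E) (x : G) : C1f w x = Hol.fn w.1.1 x := rfl
theorem C1d_eq (w : C1a a G E) (x : G) : C1d w x = Hol.fn w.1.2 x := rfl

theorem hasFDerivAt_C1f (w : C1a a G E) (x : G) : HasFDerivAt (C1f w) (C1d w x) x := w.2 x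

theorem ext1 {u v : C1a a G E} (h : ∀ x, C1f u x = C1f v x) : u = v := by
  apply Subtype.ext
  refine Prod.ext (ext h) (ext fun x => ?_)
  have h1 : C1f u = C1f v := funext h
  have h2 := hasFDerivAt_C1f u x
  rw [h1] at h2
  exact h2.unique (hasFDerivAt_C1f v x)

/-- superposition on `C1a` -/
def om1 {f : E → F} (hf : BD f) (w : C1a a G E) : C1a a G F :=
  ⟨(om hf w.1.1, bl (ContinuousLinearMap.compL ℝ G E F) (om (fd hf) w.1.1) w.1.2), fun x =>
    (hf.smooth.differentiable (by simp) _).hasFDerivAt.comp x (w.2 x)⟩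

@[simp] theorem C1f_om1 {f : E → F} (hf : BD f) (w : C1a a G E) (x : G) :
    C1f (om1 hf w) x = f (C1f w x) := rfl

@[simp] theorem C1d_om1 {f : E → F} (hf : BD f) (w : C1a a G E) (x : G) :
    C1d (om1 hf w) x = (fderiv ℝ f (C1f w x)).comp (C1d w x) := rfl

@[simp] theorem vl_om1 {f : E → F} (hf : BD f) (w : C1a a G E) :
    vl a G F (om1 hf w) = om hf (vl a G E w) := rfl

theorem norm_om1_le {f : E → F} (hf : BD f) (w : C1a a G E) :
    ‖om1 hf w‖ ≤ max ‖om hf w.1.1‖ (2 * ‖om (fd hf) w.1.1‖ * ‖w‖) := by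
  refine max_le (le_max_left _ _) (le_trans ?_ (le_max_right _ _))
  refine (norm_bl_le _ _ _).trans ?_
  have h1 : ‖ContinuousLinearMap.compL ℝ G E F‖ ≤ 1 := ContinuousLinearMap.norm_compL_le ℝ G E F
  have h2 : ‖w.1.2‖ ≤ ‖w‖ := norm_snd_le w.1
  have h3 := norm_nonneg (om (fd hf) w.1.1)
  calc 2 * ‖ContinuousLinearMap.compL ℝ G E F‖ * ‖om (fd hf) w.1.1‖ * ‖w.1.2‖
      ≤ 2 * 1 * ‖om (fd hf) w.1.1‖ * ‖w‖ := by gcongr
    _ = _ := by ring

/-- product `(A, w) ↦ A ∘ w` -/
def cmp (a : ℝ) (G E F : Type v) [NormedAddCommGroup G] [NormedSpace ℝ G] [NormedAddCommGroup E]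
    [NormedSpace ℝ E] [NormedAddCommGroup F] [NormedSpace ℝ F] :
    Hol a G (E →L[ℝ] F) →L[ℝ] Hol a G (G →L[ℝ] E) →L[ℝ] Hol a G (G →L[ℝ] F) :=
  bl (ContinuousLinearMap.compL ℝ G E F)

theorem contDiff_aux1 {f : E → F} (hf : BD f) {n : WithTop ℕ∞}
    (hn : n ≤ ∞) : ContDiff ℝ n (fun w : C1a a G E => om hf (vl a G E w)) :=
  (contDiff_om hf hn).comp (vl a G E).contDiff

theorem contDiff_aux2 {f : E → F} (hf : BD f) {n : WithTop ℕ∞}
    (hn : n ≤ ∞) : ContDiff ℝ n
      (fun w : C1a a G E => cmp a G E F (om (fd hf) (vl a G E w)) (dr a G E w)) :=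
  contDiff_bil (cmp a G E F) (contDiff_aux1 (fd hf) hn) (dr a G E).contDiff

/-- **OMEGA on `C1a`** is smooth -/
theorem contDiff_om1 [CompleteSpace (C1a a G F)] {f : E → F} (hf : BD f) {n : WithTop ℕ∞}
    (hn : n ≤ ∞) : ContDiff ℝ n (om1 hf : C1a a G E → C1a a G F) :=
  contDiff_of_subtype_prod hn (contDiff_aux1 hf hn) (contDiff_aux2 hf hn)

/-- constants -/
def cst1 (a : ℝ) (G E : Type v) [NormedAddCommGroup G] [NormedSpace ℝ G] [NormedAddCommGroup E]
    [NormedSpace ℝ E] : E →L[ℝ] C1a a G E :=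
  ((cst G : E →L[ℝ] Hol a G E).prod (0 : E →L[ℝ] Hol a G (G →L[ℝ] E))).codRestrict (C1a a G E)
    (fun e x => hasFDerivAt_const e x)

@[simp] theorem C1f_cst1 (e : E) (x : G) : C1f (cst1 a G E e) x = e := rfl

theorem C1f_add (u v : C1a a G E) (x : G) : C1f (u + v) x = C1f u x + C1f v x := rfl
theorem C1f_sub (u v : C1a a G E) (x : G) : C1f (u - v) x = C1f u x - C1f v x := rfl
theorem C1f_smul (c : ℝ) (u : C1a a G E) (x : G) : C1f (c • u) x = c • C1f u x := rfl

/-- `BD` functions as elements of `C1a` -/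
def ofBD (ha : 0 < a) (ha1 : a ≤ 1) {f : G → E} (hf : BD f) : C1a a G E :=
  ⟨(mk ha f _ (hb_lip ha ha1 (le_c0 hf) (L := cN hf 1) (fun x y => by
      rw [dist_eq_norm]; exact lip (hf.smooth.differentiable (by simp)) (le_c1 hf) x y)),
    mk ha (fderiv ℝ f) _ (hb_lip ha ha1 (le_c1 hf) (L := cN hf 2) (fun x y => by
      rw [dist_eq_norm]; exact lip ((fd hf).smooth.differentiable (by simp)) (le_c2 hf) x y))),
    fun x => (hf.smooth.differentiable (by simp) x).hasFDerivAt⟩

@[simp] theorem C1f_ofBD (ha : 0 < a) (ha1 : a ≤ 1) {f : G → E} (hf : BD f) (x : G) :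
    C1f (ofBD ha ha1 hf : C1a a G E) x = f x := rfl

theorem isClosed_C1a : IsClosed (C1a a G E : Set (Hol a G E × Hol a G (G →L[ℝ] E))) := by
  refine isClosed_of_closure_subset fun q hq => ?_
  rw [mem_closure_iff_comap_neBot] at hq
  have hl : Tendsto (fun p : C1a a G E => (p : Hol a G E × Hol a G (G →L[ℝ] E)))
      (comap Subtype.val (𝓝 q)) (𝓝 q) := tendsto_comap
  have h1 : TendstoUniformly (fun (p : C1a a G E) (x : G) => Hol.fn p.1.2 x)
      (fun x => Hol.fn q.2 x) (comap Subtype.val (𝓝 q)) := by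
    rw [Metric.tendstoUniformly_iff]
    intro ε hε
    filter_upwards [hl (Metric.ball_mem_nhds q hε)] with p hp x
    rw [dist_eq_norm]
    have h2 : ‖Hol.fn q.2 x - Hol.fn p.1.2 x‖ ≤ ‖q.2 - p.1.2‖ := norm_fn_le (q.2 - p.1.2) x
    have h3 : ‖q.2 - p.1.2‖ ≤ ‖q - p.1‖ := norm_snd_le (q - p.1)
    have h4 : ‖q - p.1‖ < ε := by
      rw [← dist_eq_norm, dist_comm]; exact hp
    exact (h2.trans h3).trans_lt h4
  have h5 : ∀ x : G, Tendsto (fun p : C1a a G E => Hol.fn p.1.1 x)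
      (comap Subtype.val (𝓝 q)) (𝓝 (Hol.fn q.1 x)) := fun x =>
    ((ev x).continuous.comp continuous_fst).continuousAt.tendsto.comp hl
  intro x
  exact hasFDerivAt_of_tendstoUniformly h1 (fun p x => p.2 x) h5 x

theorem completeSpace_C1a [CompleteSpace E] : CompleteSpace (C1a a G E) :=
  isClosed_C1a.completeSpace_coe

end c1

/-! ### smooth families -/

section fam

variable {S E : Type} [NormedAddCommGroup S] [NormedSpace ℝ S] [FiniteDimensional ℝ S]
  [NormedAddCommGroup E] [NormedSpace ℝ E] [FiniteDimensional ℝ E] {a : ℝ}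

theorem contDiff_lin_add {S P Q : Type*} [NormedAddCommGroup S] [NormedSpace ℝ S]
    [NormedAddCommGroup P] [NormedSpace ℝ P] [NormedAddCommGroup Q] [NormedSpace ℝ Q]
    (A : P →L[ℝ] Q) (L : S →L[ℝ] P) (q : Q) : ContDiff ℝ ∞ (fun s => A (L s) + q) :=
  (A.contDiff.comp L.contDiff).add contDiff_const

theorem contDiff_comp' {S P Q : Type*} [NormedAddCommGroup S] [NormedSpace ℝ S]
    [NormedAddCommGroup P] [NormedSpace ℝ P] [NormedAddCommGroup Q] [NormedSpace ℝ Q]
    {f : P → Q} {g : S → P} (hf : ContDiff ℝ ∞ f) (hg : ContDiff ℝ ∞ g) :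
    ContDiff ℝ ∞ (fun s => f (g s)) := hf.comp hg

theorem fam_aux (ha : 0 < a) (ha1 : a ≤ 1) {P : Type} [NormedAddCommGroup P] [NormedSpace ℝ P]
    {f : P → E} (hf : BD f) (L : S →L[ℝ] P) {g : ℂ → P} (hg : BD g) :
    ∃ c : S → C1a a ℂ E, ContDiff ℝ ∞ c ∧ ∀ s z, C1f (c s) z = f (L s + g z) := by
  have : CompleteSpace E := FiniteDimensional.complete ℝ E
  have : CompleteSpace (C1a a ℂ E) := completeSpace_C1a
  have h1 : ContDiff ℝ ∞ (fun s => cst1 a ℂ P (L s) + ofBD ha ha1 hg) :=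
    contDiff_lin_add (cst1 a ℂ P) L (ofBD ha ha1 hg)
  have h2 : ContDiff ℝ ∞ (om1 hf : C1a a ℂ P → C1a a ℂ E) := contDiff_om1 hf le_rfl
  have h3 := contDiff_comp' h2 h1
  exact ⟨_, h3, fun s z => rfl⟩

/-- the case of compact support in all variables -/
theorem fam_cs (ha : 0 < a) (ha1 : a ≤ 1) {H : S × ℂ → E} {R : ℝ} (hH : BD H)
    (hR : ∀ s z, R ≤ ‖z‖ → H (s, z) = 0) :
    ∃ c : S → C1a a ℂ E, ContDiff ℝ ∞ c ∧ ∀ s z, C1f (c s) z = H (s, z) := by
  set R0 : ℝ := max R 1 with hR0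
  have hR1 : 1 ≤ R0 := le_max_right _ _
  let χ : ContDiffBump (0 : ℂ) := ⟨R0, R0 + 1, by linarith, by linarith⟩
  let ρ : ContDiffBump (0 : ℂ) := ⟨R0 + 1, R0 + 2, by linarith, by linarith⟩
  let κ : ContDiffBump (1 : ℝ) := ⟨1 / 4, 1 / 2, by norm_num, by norm_num⟩
  have hκ : BD (fun t : ℝ => κ t) := of_hasCompactSupport κ.contDiff κ.hasCompactSupport
  have hχ : BD (fun z : ℂ => χ z) := of_hasCompactSupport χ.contDiff χ.hasCompactSupport
  have hρz : BD (fun z : ℂ => ρ z • z) := by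
    refine of_hasCompactSupport (ρ.contDiff.smul contDiff_id) ?_
    exact ρ.hasCompactSupport.smul_right
  let T1 : ((S × ℂ) × ℝ) →L[ℝ] S × ℂ := ContinuousLinearMap.fst ℝ _ _
  let T2 : ((S × ℂ) × ℝ) →L[ℝ] ℝ := ContinuousLinearMap.snd ℝ _ _
  have hf : BD (fun p : (S × ℂ) × ℝ => κ p.2 • H p.1) :=
    smul (comp_clm hκ T2) (comp_clm hH T1)
  have hu : BD (fun z : ℂ => (((0 : S), ρ z • z), χ z)) := prodMk (prodMk (const 0) hρz) hχ
  obtain ⟨c, hc, hc'⟩ := fam_aux (S := S) ha ha1 hf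
    ((ContinuousLinearMap.inl ℝ (S × ℂ) ℝ).comp (ContinuousLinearMap.inl ℝ S ℂ)) hu
  refine ⟨c, hc, fun s z => ?_⟩
  rw [hc']
  have e : ((ContinuousLinearMap.inl ℝ (S × ℂ) ℝ).comp (ContinuousLinearMap.inl ℝ S ℂ)) s +
      (((0 : S), ρ z • z), χ z) = ((s, ρ z • z), χ z) := by
    show ((s, (0 : ℂ)), (0 : ℝ)) + (((0 : S), ρ z • z), χ z) = _
    simp
  rw [e]
  show κ (χ z) • H (s, ρ z • z) = H (s, z)
  rcases le_or_gt ‖z‖ R0 with h | h
  · have h1 : χ z = 1 := χ.one_of_mem_closedBall (by simpa using h)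
    have h2 : ρ z = 1 := ρ.one_of_mem_closedBall (by
      rw [mem_closedBall_zero_iff]; show ‖z‖ ≤ R0 + 1; linarith)
    have h3 : κ 1 = 1 := κ.one_of_mem_closedBall (mem_closedBall_self (by norm_num))
    rw [h1, h2, h3, one_smul, one_smul]
  · have h0 : H (s, z) = 0 := hR s z ((le_max_left _ _).trans h.le)
    rcases lt_or_ge ‖z‖ (R0 + 1) with h' | h'
    · have h2 : ρ z = 1 := ρ.one_of_mem_closedBall (by
        rw [mem_closedBall_zero_iff]; show ‖z‖ ≤ R0 + 1; linarith)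
      rw [h2, one_smul, h0, smul_zero]
    · have h1 : χ z = 0 := χ.zero_of_le_dist (by
        rw [dist_zero_right]; exact h')
      have h3 : κ 0 = 0 := κ.zero_of_le_dist (by
        rw [Real.dist_eq]; show (1 / 2 : ℝ) ≤ |0 - 1|; norm_num)
      rw [h1, h3, zero_smul, h0]

end fam

/-- **leaf H2, FamStmt** -/
theorem fam : FamStmt := by
  intro S E _ _ _ _ _ _ a ha ha1 H R hH hR
  have key : ∀ s0 : S, ∃ c : S → C1a a ℂ E, ContDiff ℝ ∞ c ∧
      ∀ s ∈ closedBall s0 1, ∀ z, C1f (c s) z = H (s, z) := by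
    intro s0
    let χ : ContDiffBump s0 := ⟨1, 2, by norm_num, by norm_num⟩
    have hs : ContDiff ℝ ∞ (fun p : S × ℂ => χ p.1 • H p) :=
      (χ.contDiff.comp contDiff_fst).smul hH
    have hc : HasCompactSupport (fun p : S × ℂ => χ p.1 • H p) := by
      have : ProperSpace S := FiniteDimensional.proper ℝ S
      refine HasCompactSupport.intro
        ((isCompact_closedBall s0 2).prod (isCompact_closedBall (0 : ℂ) R)) fun p hp => ?_
      by_cases h1 : p.1 ∈ closedBall s0 2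
      · have h2 : p.2 ∉ closedBall (0 : ℂ) R := fun h => hp ⟨h1, h⟩
        rw [mem_closedBall_zero_iff, not_le] at h2
        have h3 := hR p.1 p.2 h2.le
        show χ p.1 • H (p.1, p.2) = 0
        rw [h3, smul_zero]
      · have h2 : χ p.1 = 0 := χ.zero_of_le_dist (by
          rw [mem_closedBall, not_le] at h1; exact h1.le)
        show χ p.1 • H p = 0
        rw [h2, zero_smul]
    obtain ⟨c, hc1, hc2⟩ := fam_cs ha ha1.le (of_hasCompactSupport hs hc) (R := R)
      (fun s z hz => by show χ s • H (s, z) = 0; rw [hR s z hz, smul_zero])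
    refine ⟨c, hc1, fun s hs' z => ?_⟩
    rw [hc2, χ.one_of_mem_closedBall hs', one_smul]
  choose c hc1 hc2 using key
  refine ⟨fun s => c s s, ?_, fun s z => hc2 s s (mem_closedBall_self (by norm_num)) z⟩
  refine contDiff_iff_contDiffAt.2 fun s0 => ?_
  refine (hc1 s0).contDiffAt.congr_of_eventuallyEq ?_
  filter_upwards [closedBall_mem_nhds s0 one_pos] with s hs
  exact ext1 fun z => by
    rw [hc2 s s (mem_closedBall_self (by norm_num)) z, hc2 s0 s hs z]

end

end Crest.Agent.R235.NWOm2_52
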