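import Crest.Agent.R235.NWHol_952

/-!
# Row 235, package NW, leaf H2 (helper52), part 1: functions with bounded derivatives (`BD`) and the
superposition operator `om` on `Hol a X E`

* `BD` calculus: `cN hf n` (bound of the `n`-th derivative), `fd` (`BD (fderiv ℝ f)`),
  `of_hasCompactSupport`, `const`, `add`, `clm`, `bilin`, `comp`, `comp_clm`, ...
* pointwise estimates `lip`, `est1`, `estQ`, `estQ_sub` from bounds of `Df`, `D²f`, `D³f`;
* `om hf : Hol a X E → Hol a X F`, `fn (om hf u) x = f (fn u x)`; `norm_om_le`, `om_lip`,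
  `hasFDerivAt_om`, `fderiv_om`, `contDiff_om`, and the quantitative versions
  `norm_om_le_of`, `om_lip_of` with given bounds of `f, Df, D²f`.
-/

set_option autoImplicit false
set_option linter.unusedSectionVars false
set_option maxSynthPendingDepth 3

open Filter Topology Set
open scoped BoundedContinuousFunction ContDiff
open Crest.Agent.R235.NWDefs_334 Crest.Agent.R235.NWHol_952

namespace Crest.Agent.R235.NWOm_52

noncomputable section

universe u v w z

/-! ### `BD` functions -/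

section bd

variable {E : Type*} [NormedAddCommGroup E] [NormedSpace ℝ E] {F : Type*} [NormedAddCommGroup F]
  [NormedSpace ℝ F] {G : Type*} [NormedAddCommGroup G] [NormedSpace ℝ G] {H : Type*}
  [NormedAddCommGroup H] [NormedSpace ℝ H]

/-- a bound of the `n`-th derivative -/
def cN {f : E → F} (hf : BD f) (n : ℕ) : ℝ := max (hf.bdd n).choose 0

theorem cN_nonneg {f : E → F} (hf : BD f) (n : ℕ) : 0 ≤ cN hf n := le_max_right _ _

theorem le_cN {f : E → F} (hf : BD f) (n : ℕ) (x : E) : ‖iteratedFDeriv ℝ n f x‖ ≤ cN hf n :=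
  ((hf.bdd n).choose_spec x).trans (le_max_left _ _)

theorem le_c0 {f : E → F} (hf : BD f) (x : E) : ‖f x‖ ≤ cN hf 0 := by
  have h := le_cN hf 0 x
  rwa [norm_iteratedFDeriv_zero] at h

theorem le_c1 {f : E → F} (hf : BD f) (x : E) : ‖fderiv ℝ f x‖ ≤ cN hf 1 := by
  have h := le_cN hf 1 x
  rwa [← zero_add 1, ← norm_iteratedFDeriv_fderiv, norm_iteratedFDeriv_zero] at h

theorem le_c2 {f : E → F} (hf : BD f) (x : E) : ‖fderiv ℝ (fderiv ℝ f) x‖ ≤ cN hf 2 := by
  have h := le_cN hf 2 x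
  rwa [← one_add_one_eq_two, ← norm_iteratedFDeriv_fderiv, ← zero_add 1,
    ← norm_iteratedFDeriv_fderiv, norm_iteratedFDeriv_zero] at h

/-- the derivative of a `BD` function -/
theorem fd {f : E → F} (hf : BD f) : BD (fderiv ℝ f) := by
  refine ⟨hf.smooth.fderiv_right (by simp), fun n => ⟨cN hf (n + 1), fun x => ?_⟩⟩
  rw [norm_iteratedFDeriv_fderiv]
  exact le_cN hf (n + 1) x

theorem le_c3 {f : E → F} (hf : BD f) (x : E) :
    ‖fderiv ℝ (fderiv ℝ (fderiv ℝ f)) x‖ ≤ cN (fd hf) 2 := le_c2 (fd hf) x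

theorem of_hasCompactSupport {f : E → F} (h : ContDiff ℝ ∞ f) (hc : HasCompactSupport f) :
    BD f := by
  refine ⟨h, fun n => ?_⟩
  have h1 : HasCompactSupport (iteratedFDeriv ℝ n f) := hc.iteratedFDeriv n
  have h2 : Continuous (iteratedFDeriv ℝ n f) :=
    h.continuous_iteratedFDeriv (by exact_mod_cast le_top)
  exact h1.exists_bound_of_continuous h2

theorem const (c : F) : BD (fun _ : E => c) := by
  refine ⟨contDiff_const, fun n => ?_⟩
  rcases n with _ | n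
  · exact ⟨‖c‖, fun x => by rw [norm_iteratedFDeriv_zero]⟩
  · refine ⟨0, fun x => ?_⟩
    rw [iteratedFDeriv_const_of_ne (by omega)]
    simp

theorem add {f g : E → F} (hf : BD f) (hg : BD g) : BD (fun x => f x + g x) := by
  refine ⟨hf.smooth.add hg.smooth, fun n => ⟨cN hf n + cN hg n, fun x => ?_⟩⟩
  have h1 : iteratedFDeriv ℝ n (fun x => f x + g x) x =
      iteratedFDeriv ℝ n f x + iteratedFDeriv ℝ n g x :=
    congrFun (fun_iteratedFDeriv_add (hf.smooth.of_le (by exact_mod_cast le_top))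
      (hg.smooth.of_le (by exact_mod_cast le_top))) x
  rw [h1]
  exact (norm_add_le _ _).trans (add_le_add (le_cN hf n x) (le_cN hg n x))

/-- bilinear products -/
theorem bilin (B : E →L[ℝ] F →L[ℝ] G) {f : H → E} {g : H → F} (hf : BD f) (hg : BD g) :
    BD (fun x => B (f x) (g x)) := by
  refine ⟨B.isBoundedBilinearMap.contDiff.comp (hf.smooth.prodMk hg.smooth), fun n =>
    ⟨‖B‖ * ∑ i ∈ Finset.range (n + 1), (n.choose i : ℝ) * cN hf i * cN hg (n - i), fun x => ?_⟩⟩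
  refine (B.norm_iteratedFDeriv_le_of_bilinear hf.smooth hg.smooth x
    (by exact_mod_cast le_top)).trans ?_
  refine mul_le_mul_of_nonneg_left (Finset.sum_le_sum fun i _ => ?_) (norm_nonneg _)
  have h1 := le_cN hf i x
  have h2 := le_cN hg (n - i) x
  have h3 := cN_nonneg hf i
  gcongr

theorem clm (T : F →L[ℝ] G) {f : E → F} (hf : BD f) : BD (fun x => T (f x)) := by
  refine ⟨T.contDiff.comp hf.smooth, fun n => ⟨‖T‖ * cN hf n, fun x => ?_⟩⟩
  have h1 : iteratedFDeriv ℝ n (fun x => T (f x)) x =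
      T.compContinuousMultilinearMap (iteratedFDeriv ℝ n f x) :=
    T.iteratedFDeriv_comp_left hf.smooth.contDiffAt (by exact_mod_cast le_top)
  rw [h1]
  exact (T.norm_compContinuousMultilinearMap_le _).trans
    (mul_le_mul_of_nonneg_left (le_cN hf n x) (norm_nonneg _))

theorem neg {f : E → F} (hf : BD f) : BD (fun x => -f x) := by
  simpa using clm (-ContinuousLinearMap.id ℝ F) hf

theorem sub {f g : E → F} (hf : BD f) (hg : BD g) : BD (fun x => f x - g x) := by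
  simpa only [sub_eq_add_neg] using add hf (neg hg)

theorem prodMk {f : E → F} {g : E → G} (hf : BD f) (hg : BD g) : BD (fun x => (f x, g x)) := by
  have h1 := clm (ContinuousLinearMap.inl ℝ F G) hf
  have h2 := clm (ContinuousLinearMap.inr ℝ F G) hg
  simpa using add h1 h2

/-- multiplication by a scalar `BD` function -/
theorem smul {f : E → ℝ} {g : E → F} (hf : BD f) (hg : BD g) : BD (fun x => f x • g x) := by
  have h := bilin (ContinuousLinearMap.lsmul ℝ ℝ : ℝ →L[ℝ] F →L[ℝ] F) hf hg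
  simpa using h

end bd

/-! ### composition -/

section comp

variable {E F G : Type u} [NormedAddCommGroup E] [NormedSpace ℝ E] [NormedAddCommGroup F]
  [NormedSpace ℝ F] [NormedAddCommGroup G] [NormedSpace ℝ G]

/-- `g ∘ f` is `BD` if `g` is `BD` and `f` is smooth with `BD` derivative. -/
theorem comp' {g : F → G} {f : E → F} (hg : BD g) (hf : ContDiff ℝ ∞ f) (hf' : BD (fderiv ℝ f)) :
    BD (fun x => g (f x)) := by
  refine ⟨hg.smooth.comp hf, fun n => ?_⟩
  induction n using Nat.strong_induction_on generalizing G with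
  | _ n ih =>
    rcases n with _ | n
    · exact ⟨cN hg 0, fun x => by
        rw [norm_iteratedFDeriv_zero]
        exact le_c0 hg (f x)⟩
    · have hd : fderiv ℝ (fun x => g (f x)) = fun x =>
          (ContinuousLinearMap.compL ℝ E F G) (fderiv ℝ g (f x)) (fderiv ℝ f x) := by
        funext x
        exact fderiv_comp x (hg.smooth.differentiable (by simp) _)
          (hf.differentiable (by simp) _)
      have h1 : ContDiff ℝ ∞ (fun x => fderiv ℝ g (f x)) := (fd hg).smooth.comp hf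
      have h2 : ∀ i ≤ n, ∃ C, 0 ≤ C ∧ ∀ x, ‖iteratedFDeriv ℝ i (fun x => fderiv ℝ g (f x)) x‖ ≤ C := by
        intro i hi
        obtain ⟨C, hC⟩ := ih i (by omega) (fd hg)
        exact ⟨max C 0, le_max_right _ _, fun x => (hC x).trans (le_max_left _ _)⟩
      choose! C hC0 hC using h2
      refine ⟨‖ContinuousLinearMap.compL ℝ E F G‖ *
        ∑ i ∈ Finset.range (n + 1), (n.choose i : ℝ) * C i * cN hf' (n - i), fun x => ?_⟩
      rw [← norm_iteratedFDeriv_fderiv, hd]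
      refine ((ContinuousLinearMap.compL ℝ E F G).norm_iteratedFDeriv_le_of_bilinear h1 hf'.smooth x
        (n := n) (N := ∞) (by exact_mod_cast le_top)).trans ?_
      refine mul_le_mul_of_nonneg_left (Finset.sum_le_sum fun i hi => ?_) (norm_nonneg _)
      have hi' : i ≤ n := by have := Finset.mem_range.1 hi; omega
      have h1 := hC i hi' x
      have h2 := le_cN hf' (n - i) x
      have h3 := hC0 i hi'
      gcongr

theorem comp {g : F → G} {f : E → F} (hg : BD g) (hf : BD f) : BD (fun x => g (f x)) :=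
  comp' hg hf.smooth (fd hf)

theorem comp_clm {g : F → G} (hg : BD g) (T : E →L[ℝ] F) : BD (fun x => g (T x)) := by
  refine comp' hg T.contDiff ?_
  have h : fderiv ℝ (fun x => T x) = fun _ => T := by
    funext x; exact T.fderiv
  rw [h]
  exact const _

end comp

/-! ### pointwise estimates -/

section est

variable {E : Type*} [NormedAddCommGroup E] [NormedSpace ℝ E] {F : Type*} [NormedAddCommGroup F]
  [NormedSpace ℝ F]

theorem lip {f : E → F} (hf : Differentiable ℝ f) {C1 : ℝ} (h1 : ∀ x, ‖fderiv ℝ f x‖ ≤ C1)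
    (x y : E) : ‖f x - f y‖ ≤ C1 * ‖x - y‖ :=
  Convex.norm_image_sub_le_of_norm_fderiv_le (𝕜 := ℝ) (fun z _ => hf z) (fun z _ => h1 z)
    convex_univ (mem_univ y) (mem_univ x)

/-- unit interval mean value inequality -/
theorem mv {φ φ' : ℝ → F} {C : ℝ} (h : ∀ t, HasDerivAt φ (φ' t) t)
    (hb : ∀ t, 0 ≤ t → t ≤ 1 → ‖φ' t‖ ≤ C) : ‖φ 1 - φ 0‖ ≤ C :=
  norm_image_sub_le_of_norm_deriv_le_segment_01' (f' := φ')
    (fun t _ => (h t).hasDerivWithinAt) (fun t ht => hb t ht.1 ht.2.le)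

theorem hasDerivAt_line {f : E → F} (hf : Differentiable ℝ f) (q p : E) (t : ℝ) :
    HasDerivAt (fun t : ℝ => f (q + t • p)) (fderiv ℝ f (q + t • p) p) t := by
  have h1 : HasDerivAt (fun t : ℝ => q + t • p) p t := by
    simpa using ((hasDerivAt_id t).smul_const p).const_add q
  exact (hf (q + t • p)).hasFDerivAt.comp_hasDerivAt t h1

/-- double difference -/
theorem est1 {f : E → F} (hf : Differentiable ℝ f) (hf' : Differentiable ℝ (fderiv ℝ f))
    {C1 C2 : ℝ} (h1 : ∀ x, ‖fderiv ℝ f x‖ ≤ C1) (h2 : ∀ x, ‖fderiv ℝ (fderiv ℝ f) x‖ ≤ C2)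
    (q p q' p' : E) :
    ‖f (q + p) - f q - (f (q' + p') - f q')‖ ≤ C1 * ‖p - p'‖ + C2 * ‖q - q'‖ * ‖p‖ := by
  have a1 : ‖(f (q + (1 : ℝ) • p) - f (q' + (1 : ℝ) • p)) -
      (f (q + (0 : ℝ) • p) - f (q' + (0 : ℝ) • p))‖ ≤ C2 * ‖q - q'‖ * ‖p‖ := by
    refine mv (φ := fun t => f (q + t • p) - f (q' + t • p))
      (φ' := fun t => fderiv ℝ f (q + t • p) p - fderiv ℝ f (q' + t • p) p)
      (fun t => (hasDerivAt_line hf q p t).sub (hasDerivAt_line hf q' p t)) fun t _ _ => ?_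
    have h3 := lip hf' h2 (q + t • p) (q' + t • p)
    have h4 : q + t • p - (q' + t • p) = q - q' := by abel
    rw [h4] at h3
    have h5 : fderiv ℝ f (q + t • p) p - fderiv ℝ f (q' + t • p) p =
      (fderiv ℝ f (q + t • p) - fderiv ℝ f (q' + t • p)) p := rfl
    show ‖fderiv ℝ f (q + t • p) p - fderiv ℝ f (q' + t • p) p‖ ≤ _
    rw [h5]
    exact (ContinuousLinearMap.le_opNorm _ _).trans
      (mul_le_mul_of_nonneg_right h3 (norm_nonneg _))
  have a2 := lip hf h1 (q' + p) (q' + p')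
  have a3 : q' + p - (q' + p') = p - p' := by abel
  rw [a3] at a2
  simp only [one_smul, zero_smul, add_zero] at a1
  have e : f (q + p) - f q - (f (q' + p') - f q') =
      (f (q + p) - f (q' + p) - (f q - f q')) + (f (q' + p) - f (q' + p')) := by abel
  rw [e]
  exact (norm_add_le _ _).trans (by linarith)

/-- Taylor remainder -/
theorem estQ {f : E → F} (hf : Differentiable ℝ f) (hf' : Differentiable ℝ (fderiv ℝ f))
    {C2 : ℝ} (h2 : ∀ x, ‖fderiv ℝ (fderiv ℝ f) x‖ ≤ C2) (q p : E) :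
    ‖f (q + p) - f q - fderiv ℝ f q p‖ ≤ C2 * ‖p‖ * ‖p‖ := by
  have hC : 0 ≤ C2 := (norm_nonneg (fderiv ℝ (fderiv ℝ f) q)).trans (h2 q)
  have a1 : ‖(f (q + (1 : ℝ) • p) - (1 : ℝ) • fderiv ℝ f q p) -
      (f (q + (0 : ℝ) • p) - (0 : ℝ) • fderiv ℝ f q p)‖ ≤ C2 * ‖p‖ * ‖p‖ := by
    refine mv (φ := fun t : ℝ => f (q + t • p) - t • fderiv ℝ f q p)
      (φ' := fun t => fderiv ℝ f (q + t • p) p - fderiv ℝ f q p)
      (fun t => (hasDerivAt_line hf q p t).sub ?_) fun t ht0 ht1 => ?_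
    · simpa using (hasDerivAt_id t).smul_const (fderiv ℝ f q p)
    · have h3 := lip hf' h2 (q + t • p) q
      have h4 : q + t • p - q = t • p := by abel
      rw [h4, norm_smul, Real.norm_of_nonneg ht0] at h3
      have h5 : fderiv ℝ f (q + t • p) p - fderiv ℝ f q p =
        (fderiv ℝ f (q + t • p) - fderiv ℝ f q) p := rfl
      show ‖fderiv ℝ f (q + t • p) p - fderiv ℝ f q p‖ ≤ _
      rw [h5]
      refine (ContinuousLinearMap.le_opNorm _ _).trans
        (mul_le_mul_of_nonneg_right (h3.trans ?_) (norm_nonneg _))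
      have h6 : t * ‖p‖ ≤ ‖p‖ := mul_le_of_le_one_left (norm_nonneg _) ht1
      exact mul_le_mul_of_nonneg_left h6 hC
  simp only [one_smul, zero_smul, add_zero, sub_zero] at a1
  have e : f (q + p) - f q - fderiv ℝ f q p = f (q + p) - fderiv ℝ f q p - f q := by abel
  rw [e]
  exact a1

/-- difference of two Taylor remainders -/
theorem estQ_sub {f : E → F} (hf : Differentiable ℝ f) (hf' : Differentiable ℝ (fderiv ℝ f))
    (hf'' : Differentiable ℝ (fderiv ℝ (fderiv ℝ f)))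
    {C2 C3 : ℝ} (h2 : ∀ x, ‖fderiv ℝ (fderiv ℝ f) x‖ ≤ C2)
    (h3 : ∀ x, ‖fderiv ℝ (fderiv ℝ (fderiv ℝ f)) x‖ ≤ C3) (q p q' p' : E) :
    ‖(f (q + p) - f q - fderiv ℝ f q p) - (f (q' + p') - f q' - fderiv ℝ f q' p')‖ ≤
      (C2 * ‖p - p'‖ + C3 * ‖q - q'‖ * ‖p‖) * ‖p‖ + C2 * ‖p'‖ * ‖p - p'‖ := by
  have hC2 : 0 ≤ C2 := (norm_nonneg (fderiv ℝ (fderiv ℝ f) q)).trans (h2 q)
  have hC3 : 0 ≤ C3 := (norm_nonneg (fderiv ℝ (fderiv ℝ (fderiv ℝ f)) q)).trans (h3 q)
  have a1 : ‖((f (q + (1 : ℝ) • p) - (1 : ℝ) • fderiv ℝ f q p) -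
        (f (q' + (1 : ℝ) • p') - (1 : ℝ) • fderiv ℝ f q' p')) -
      ((f (q + (0 : ℝ) • p) - (0 : ℝ) • fderiv ℝ f q p) -
        (f (q' + (0 : ℝ) • p') - (0 : ℝ) • fderiv ℝ f q' p'))‖ ≤
      (C2 * ‖p - p'‖ + C3 * ‖q - q'‖ * ‖p‖) * ‖p‖ + C2 * ‖p'‖ * ‖p - p'‖ := by
    refine mv (φ := fun t : ℝ => (f (q + t • p) - t • fderiv ℝ f q p) -
        (f (q' + t • p') - t • fderiv ℝ f q' p'))
      (φ' := fun t => (fderiv ℝ f (q + t • p) p - fderiv ℝ f q p) -
        (fderiv ℝ f (q' + t • p') p' - fderiv ℝ f q' p'))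
      (fun t => ((hasDerivAt_line hf q p t).sub ?_).sub ((hasDerivAt_line hf q' p' t).sub ?_))
      fun t ht0 ht1 => ?_
    · simpa using (hasDerivAt_id t).smul_const (fderiv ℝ f q p)
    · simpa using (hasDerivAt_id t).smul_const (fderiv ℝ f q' p')
    · have b1 := est1 hf' hf'' h2 h3 q (t • p) q' (t • p')
      have b2 := lip hf' h2 (q' + t • p') q'
      have b3 : q' + t • p' - q' = t • p' := by abel
      rw [b3, norm_smul, Real.norm_of_nonneg ht0] at b2
      rw [← smul_sub, norm_smul, norm_smul, Real.norm_of_nonneg ht0] at b1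
      have e : (fderiv ℝ f (q + t • p) p - fderiv ℝ f q p) -
          (fderiv ℝ f (q' + t • p') p' - fderiv ℝ f q' p') =
          (fderiv ℝ f (q + t • p) - fderiv ℝ f q - (fderiv ℝ f (q' + t • p') - fderiv ℝ f q')) p +
          (fderiv ℝ f (q' + t • p') - fderiv ℝ f q') (p - p') := by
        simp only [map_sub, _root_.sub_apply]
        abel
      show ‖(fderiv ℝ f (q + t • p) p - fderiv ℝ f q p) -
          (fderiv ℝ f (q' + t • p') p' - fderiv ℝ f q' p')‖ ≤ _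
      rw [e]
      refine (norm_add_le _ _).trans (add_le_add ?_ ?_)
      · refine (ContinuousLinearMap.le_opNorm _ _).trans
          (mul_le_mul_of_nonneg_right (b1.trans ?_) (norm_nonneg _))
        have h6 : t * ‖p - p'‖ ≤ ‖p - p'‖ := mul_le_of_le_one_left (norm_nonneg _) ht1
        have h7 : t * ‖p‖ ≤ ‖p‖ := mul_le_of_le_one_left (norm_nonneg _) ht1
        have h8 : 0 ≤ C3 * ‖q - q'‖ := by positivity
        exact add_le_add (mul_le_mul_of_nonneg_left h6 hC2) (mul_le_mul_of_nonneg_left h7 h8)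
      · refine (ContinuousLinearMap.le_opNorm _ _).trans
          (mul_le_mul_of_nonneg_right (b2.trans ?_) (norm_nonneg _))
        have h7 : t * ‖p'‖ ≤ ‖p'‖ := mul_le_of_le_one_left (norm_nonneg _) ht1
        exact mul_le_mul_of_nonneg_left h7 hC2
  simp only [one_smul, zero_smul, add_zero, sub_zero] at a1
  have e : (f (q + p) - f q - fderiv ℝ f q p) - (f (q' + p') - f q' - fderiv ℝ f q' p') =
      ((f (q + p) - fderiv ℝ f q p) - (f (q' + p') - fderiv ℝ f q' p')) - (f q - f q') := by abel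
  rw [e]
  exact a1

end est

/-! ### the superposition operator on `Hol a X E` -/

section om

variable {a : ℝ} {X : Type v} [MetricSpace X] {E F : Type u} [NormedAddCommGroup E]
  [NormedSpace ℝ E] [NormedAddCommGroup F] [NormedSpace ℝ F]

theorem hb_comp {f : E → F} (hf : Differentiable ℝ f) {C0 C1 : ℝ} (h0 : ∀ x, ‖f x‖ ≤ C0)
    (h1 : ∀ x, ‖fderiv ℝ f x‖ ≤ C1) (u : Hol a X E) :
    HB a (max C0 (C1 * ‖u‖)) (fun x => f (Hol.fn u x)) := by
  have hC1 : 0 ≤ C1 := (norm_nonneg (fderiv ℝ f 0)).trans (h1 0)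
  constructor
  · intro x
    exact (h0 _).trans (le_max_left _ _)
  · intro x y
    have h2 := norm_fn_sub_le u x y
    have h3 := lip hf h1 (Hol.fn u x) (Hol.fn u y)
    have h4 := rpow_dist_nonneg (a := a) x y
    calc ‖f (Hol.fn u x) - f (Hol.fn u y)‖ ≤ C1 * (‖u‖ * dist x y ^ a) :=
          h3.trans (mul_le_mul_of_nonneg_left h2 hC1)
      _ = C1 * ‖u‖ * dist x y ^ a := by ring
      _ ≤ _ := mul_le_mul_of_nonneg_right (le_max_right _ _) h4

/-- superposition `u ↦ f ∘ u` -/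
def om {f : E → F} (hf : BD f) (u : Hol a X E) : Hol a X F :=
  mkc (fun x => f (Hol.fn u x)) (hf.smooth.continuous.comp (fn_continuous u)) _
    (hb_comp (hf.smooth.differentiable (by simp)) (le_c0 hf) (le_c1 hf) u)

@[simp] theorem fn_om {f : E → F} (hf : BD f) (u : Hol a X E) (x : X) :
    Hol.fn (om hf u) x = f (Hol.fn u x) := rfl

theorem norm_om_le_of {f : E → F} (hf : BD f) {C0 C1 : ℝ} (h0 : ∀ x, ‖f x‖ ≤ C0)
    (h1 : ∀ x, ‖fderiv ℝ f x‖ ≤ C1) (u : Hol a X E) : ‖om hf u‖ ≤ max C0 (C1 * ‖u‖) := by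
  have hC0 : 0 ≤ C0 := (norm_nonneg (f 0)).trans (h0 0)
  exact norm_le (hC0.trans (le_max_left _ _))
    (hb_comp (hf.smooth.differentiable (by simp)) h0 h1 u)

theorem norm_om_le {f : E → F} (hf : BD f) (u : Hol a X E) :
    ‖om hf u‖ ≤ max (cN hf 0) (cN hf 1 * ‖u‖) := norm_om_le_of hf (le_c0 hf) (le_c1 hf) u

/-- smallness -/
theorem norm_om_le_eta {f : E → F} (hf : BD f) {η : ℝ} (h0 : ∀ x, ‖f x‖ ≤ η)
    (h1 : ∀ x, ‖fderiv ℝ f x‖ ≤ η) (u : Hol a X E) : ‖om hf u‖ ≤ η * (1 + ‖u‖) := by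
  have hη : 0 ≤ η := (norm_nonneg (f 0)).trans (h0 0)
  refine (norm_om_le_of hf h0 h1 u).trans (max_le ?_ ?_)
  · nlinarith [norm_nonneg u, mul_nonneg hη (norm_nonneg u)]
  · nlinarith [norm_nonneg u, mul_nonneg hη (norm_nonneg u)]

/-- Lipschitz bound with given bounds of `Df`, `D²f` -/
theorem om_lip_of {f : E → F} (hf : BD f) {C1 C2 : ℝ} (h1 : ∀ x, ‖fderiv ℝ f x‖ ≤ C1)
    (h2 : ∀ x, ‖fderiv ℝ (fderiv ℝ f) x‖ ≤ C2) (u v : Hol a X E) :
    ‖om hf u - om hf v‖ ≤ (C1 + C2 * ‖v‖) * ‖u - v‖ := by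
  have hd : Differentiable ℝ f := hf.smooth.differentiable (by simp)
  have hd' : Differentiable ℝ (fderiv ℝ f) := (fd hf).smooth.differentiable (by simp)
  have hC1 : 0 ≤ C1 := (norm_nonneg (fderiv ℝ f 0)).trans (h1 0)
  have hC2 : 0 ≤ C2 := (norm_nonneg (fderiv ℝ (fderiv ℝ f) 0)).trans (h2 0)
  have hb0 : 0 ≤ C2 * ‖v‖ * ‖u - v‖ := by positivity
  refine norm_le (by positivity) ⟨fun x => ?_, fun x y => ?_⟩
  · have h3 := lip hd h1 (Hol.fn u x) (Hol.fn v x)
    have h4 : ‖Hol.fn u x - Hol.fn v x‖ ≤ ‖u - v‖ := norm_fn_le (u - v) x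
    rw [fn_sub, fn_om, fn_om]
    calc _ ≤ C1 * ‖u - v‖ := h3.trans (mul_le_mul_of_nonneg_left h4 hC1)
      _ ≤ (C1 + C2 * ‖v‖) * ‖u - v‖ := by linarith
  · have h0 := rpow_dist_nonneg (a := a) x y
    have h3 := est1 hd hd' h1 h2 (Hol.fn v x) (Hol.fn (u - v) x) (Hol.fn v y) (Hol.fn (u - v) y)
    have e1 : Hol.fn v x + Hol.fn (u - v) x = Hol.fn u x := by rw [fn_sub]; abel
    have e2 : Hol.fn v y + Hol.fn (u - v) y = Hol.fn u y := by rw [fn_sub]; abel
    rw [e1, e2] at h3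
    rw [fn_sub, fn_sub, fn_om, fn_om, fn_om, fn_om]
    refine h3.trans ?_
    have h4 := norm_fn_sub_le (u - v) x y
    have h5 := norm_fn_sub_le v x y
    have h6 := norm_fn_le (u - v) x
    calc C1 * ‖Hol.fn (u - v) x - Hol.fn (u - v) y‖ +
          C2 * ‖Hol.fn v x - Hol.fn v y‖ * ‖Hol.fn (u - v) x‖
        ≤ C1 * (‖u - v‖ * dist x y ^ a) + C2 * (‖v‖ * dist x y ^ a) * ‖u - v‖ := by gcongr
      _ = (C1 + C2 * ‖v‖) * ‖u - v‖ * dist x y ^ a := by ring

theorem om_lip {f : E → F} (hf : BD f) (u v : Hol a X E) :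
    ‖om hf u - om hf v‖ ≤ (cN hf 1 + cN hf 2 * ‖v‖) * ‖u - v‖ :=
  om_lip_of hf (le_c1 hf) (le_c2 hf) u v

theorem om_lip_eta {f : E → F} (hf : BD f) {η : ℝ} (h1 : ∀ x, ‖fderiv ℝ f x‖ ≤ η)
    (h2 : ∀ x, ‖fderiv ℝ (fderiv ℝ f) x‖ ≤ η) (u v : Hol a X E) :
    ‖om hf u - om hf v‖ ≤ η * (1 + ‖v‖) * ‖u - v‖ := by
  have h := om_lip_of hf h1 h2 u v
  rwa [show η + η * ‖v‖ = η * (1 + ‖v‖) by ring] at h

/-- evaluation `(E →L F) × E → F`, pointwise -/
def app (a : ℝ) (X : Type v) [MetricSpace X] (E F : Type u) [NormedAddCommGroup E]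
    [NormedSpace ℝ E] [NormedAddCommGroup F] [NormedSpace ℝ F] :
    Hol a X (E →L[ℝ] F) →L[ℝ] Hol a X E →L[ℝ] Hol a X F :=
  bl (ContinuousLinearMap.id ℝ (E →L[ℝ] F))

@[simp] theorem fn_app (A : Hol a X (E →L[ℝ] F)) (u : Hol a X E) (x : X) :
    Hol.fn (app a X E F A u) x = Hol.fn A x (Hol.fn u x) := rfl

theorem norm_app_le (A : Hol a X (E →L[ℝ] F)) (u : Hol a X E) :
    ‖app a X E F A u‖ ≤ 2 * ‖A‖ * ‖u‖ := by
  refine (norm_bl_le _ A u).trans ?_
  have h : ‖ContinuousLinearMap.id ℝ (E →L[ℝ] F)‖ ≤ 1 := ContinuousLinearMap.norm_id_le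
  have h2 : 0 ≤ ‖A‖ * ‖u‖ := by positivity
  nlinarith

/-- quadratic remainder -/
theorem om_quad {f : E → F} (hf : BD f) (u h : Hol a X E) :
    ‖om hf (u + h) - om hf u - app a X E F (om (fd hf) u) h‖ ≤
      (2 * cN hf 2 + cN (fd hf) 2 * ‖u‖) * ‖h‖ * ‖h‖ := by
  have hd : Differentiable ℝ f := hf.smooth.differentiable (by simp)
  have hd' : Differentiable ℝ (fderiv ℝ f) := (fd hf).smooth.differentiable (by simp)
  have hd'' : Differentiable ℝ (fderiv ℝ (fderiv ℝ f)) :=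
    (fd (fd hf)).smooth.differentiable (by simp)
  have c2 := cN_nonneg hf 2
  have c3 := cN_nonneg (fd hf) 2
  refine norm_le (by positivity) ⟨fun x => ?_, fun x y => ?_⟩
  · rw [fn_sub, fn_sub, fn_om, fn_om, fn_app, fn_om, fn_add]
    refine (estQ hd hd' (le_c2 hf) (Hol.fn u x) (Hol.fn h x)).trans ?_
    have h4 := norm_fn_le h x
    have h5 : 0 ≤ cN (fd hf) 2 * ‖u‖ * ‖h‖ * ‖h‖ := by positivity
    have h6 : 0 ≤ cN hf 2 * ‖h‖ * ‖h‖ := by positivity
    calc cN hf 2 * ‖Hol.fn h x‖ * ‖Hol.fn h x‖ ≤ cN hf 2 * ‖h‖ * ‖h‖ := by gcongr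
      _ ≤ _ := by linarith
  · have h0 := rpow_dist_nonneg (a := a) x y
    rw [fn_sub, fn_sub, fn_om, fn_om, fn_app, fn_om, fn_add]
    rw [fn_sub, fn_sub, fn_om, fn_om, fn_app, fn_om, fn_add]
    refine (estQ_sub hd hd' hd'' (le_c2 hf) (le_c3 hf) (Hol.fn u x) (Hol.fn h x) (Hol.fn u y)
      (Hol.fn h y)).trans ?_
    have h4 := norm_fn_le h x
    have h5 := norm_fn_le h y
    have h6 := norm_fn_sub_le h x y
    have h7 := norm_fn_sub_le u x y
    calc (cN hf 2 * ‖Hol.fn h x - Hol.fn h y‖ +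
          cN (fd hf) 2 * ‖Hol.fn u x - Hol.fn u y‖ * ‖Hol.fn h x‖) * ‖Hol.fn h x‖ +
          cN hf 2 * ‖Hol.fn h y‖ * ‖Hol.fn h x - Hol.fn h y‖
        ≤ (cN hf 2 * (‖h‖ * dist x y ^ a) +
          cN (fd hf) 2 * (‖u‖ * dist x y ^ a) * ‖h‖) * ‖h‖ +
          cN hf 2 * ‖h‖ * (‖h‖ * dist x y ^ a) := by gcongr
      _ = _ := by ring

theorem hasFDerivAt_om {f : E → F} (hf : BD f) (u : Hol a X E) :
    HasFDerivAt (om hf : Hol a X E → Hol a X F) (app a X E F (om (fd hf) u)) u := by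
  rw [hasFDerivAt_iff_isLittleO_nhds_zero]
  have hK : (fun h : Hol a X E => om hf (u + h) - om hf u - app a X E F (om (fd hf) u) h)
      =O[𝓝 0] fun h : Hol a X E => ‖h‖ ^ 2 := by
    refine Asymptotics.IsBigO.of_bound (2 * cN hf 2 + cN (fd hf) 2 * ‖u‖)
      (Eventually.of_forall fun h => ?_)
    rw [Real.norm_of_nonneg (by positivity), pow_two, ← mul_assoc]
    exact om_quad hf u h
  refine hK.trans_isLittleO ?_
  exact Asymptotics.isLittleO_norm_pow_id (by norm_num)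

theorem fderiv_om {f : E → F} (hf : BD f) :
    fderiv ℝ (om hf : Hol a X E → Hol a X F) = fun u => app a X E F (om (fd hf) u) :=
  funext fun u => (hasFDerivAt_om hf u).fderiv

theorem contDiff_om_nat (n : ℕ) {f : E → F} (hf : BD f) :
    ContDiff ℝ n (om hf : Hol a X E → Hol a X F) := by
  induction n generalizing F with
  | zero =>
    rw [Nat.cast_zero, contDiff_zero]
    exact continuous_iff_continuousAt.2 fun u => (hasFDerivAt_om hf u).continuousAt
  | succ n ih =>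
    have : ((n + 1 : ℕ) : WithTop ℕ∞) = (n : WithTop ℕ∞) + 1 := by push_cast; rfl
    rw [this, contDiff_succ_iff_fderiv]
    refine ⟨fun u => (hasFDerivAt_om hf u).differentiableAt, ?_, ?_⟩
    · intro h; simp at h
    · rw [fderiv_om]
      exact (app a X E F).contDiff.comp (ih (fd hf))

/-- **OMEGA on `Hol`** is smooth -/
theorem contDiff_om {f : E → F} (hf : BD f) {n : WithTop ℕ∞} (hn : n ≤ ∞) :
    ContDiff ℝ n (om hf : Hol a X E → Hol a X F) :=
  (contDiff_infty.2 fun n => contDiff_om_nat n hf).of_le hn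

end om

end

end Crest.Agent.R235.NWOm_52
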