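import Crest.Agent.R235.NWPsiA_930

/-!
# Row 235 (S0364), package NW, leaf N (helper930), abstract part 2

The right hand side `G (κ, q, M, w) = κ (A(q,w)(Dw(1+M)) + b(q,w)) - ∂̄(Dw M)` with abstract normed
spaces and bilinear maps; size, Lipschitz bound, solution operator.
-/

set_option autoImplicit false

open Set Filter Metric Topology
open scoped ContDiff

namespace Crest.Agent.R235.NWPsiB_930

open Crest.Agent.R235.NWPsiA_930

noncomputable section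

variable (A1 A2 A3 X V D Q HA Y : Type*)
  [NormedAddCommGroup A1] [NormedSpace ℝ A1] [NormedAddCommGroup A2] [NormedSpace ℝ A2]
  [NormedAddCommGroup A3] [NormedSpace ℝ A3] [NormedAddCommGroup X] [NormedSpace ℝ X]
  [NormedAddCommGroup V] [NormedSpace ℝ V] [NormedAddCommGroup D] [NormedSpace ℝ D]
  [NormedAddCommGroup Q] [NormedSpace ℝ Q] [NormedAddCommGroup HA] [NormedSpace ℝ HA]
  [NormedAddCommGroup Y] [NormedSpace ℝ Y]

/-- the linear data -/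
structure Lin where
  vl : X →L[ℝ] V
  dr : X →L[ℝ] D
  pr : (A2 × V) →L[ℝ] Q
  cp : D →L[ℝ] A3 →L[ℝ] D
  ap : HA →L[ℝ] D →L[ℝ] Y
  sm : A1 →L[ℝ] Y →L[ℝ] Y
  db : D →L[ℝ] Y
  one : A3
  n_vl : ∀ w, ‖vl w‖ ≤ ‖w‖
  n_dr : ∀ w, ‖dr w‖ ≤ ‖w‖
  n_pr : ∀ p, ‖pr p‖ ≤ ‖p‖
  n_cp : ∀ d m, ‖cp d m‖ ≤ 2 * ‖d‖ * ‖m‖
  n_ap : ∀ g d, ‖ap g d‖ ≤ 2 * ‖g‖ * ‖d‖
  n_sm : ∀ k y, ‖sm k y‖ ≤ 2 * ‖k‖ * ‖y‖
  n_db : ∀ d, ‖db d‖ ≤ ‖d‖
  n_one : ‖one‖ ≤ 1

variable {A1 A2 A3 X V D Q HA Y}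

namespace Lin

variable (S : Lin A1 A2 A3 X V D Q HA Y)

/-- the parameters -/
abbrev Pr (A1 A2 A3 : Type*) : Type _ := A1 × A2 × A3

/-- the argument of the coefficients -/
def arg (p : Pr A1 A2 A3 × X) : Q := S.pr (p.1.2.1, S.vl p.2)

/-- the right hand side -/
def G (OA : Q → HA) (OB : Q → Y) (p : Pr A1 A2 A3 × X) : Y :=
  S.sm p.1.1 (S.ap (OA (S.arg p)) (S.cp (S.dr p.2) (S.one + p.1.2.2)) + OB (S.arg p)) -
    S.db (S.cp (S.dr p.2) p.1.2.2)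

theorem contDiff_arg : ContDiff ℝ ∞ S.arg :=
  S.pr.contDiff.comp ((contDiff_fst.comp (contDiff_snd.comp contDiff_fst)).prodMk
    (S.vl.contDiff.comp contDiff_snd))

theorem contDiff_bil {Z U V W : Type*} [NormedAddCommGroup Z] [NormedSpace ℝ Z]
    [NormedAddCommGroup U] [NormedSpace ℝ U] [NormedAddCommGroup V]
    [NormedSpace ℝ V] [NormedAddCommGroup W] [NormedSpace ℝ W] (B : U →L[ℝ] V →L[ℝ] W)
    {f : Z → U} {g : Z → V} (hf : ContDiff ℝ ∞ f) (hg : ContDiff ℝ ∞ g) :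
    ContDiff ℝ ∞ (fun y => B (f y) (g y)) :=
  (B.contDiff.comp hf).clm_apply hg

theorem contDiff_G {OA : Q → HA} {OB : Q → Y} (hA : ContDiff ℝ ∞ OA) (hB : ContDiff ℝ ∞ OB) :
    ContDiff ℝ ∞ (S.G OA OB) := by
  have h1 : ContDiff ℝ ∞ (fun p : Pr A1 A2 A3 × X => S.dr p.2) := S.dr.contDiff.comp contDiff_snd
  have h2 : ContDiff ℝ ∞ (fun p : Pr A1 A2 A3 × X => p.1.1) := contDiff_fst.comp contDiff_fst
  have h3 : ContDiff ℝ ∞ (fun p : Pr A1 A2 A3 × X => p.1.2.2) :=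
    contDiff_snd.comp (contDiff_snd.comp contDiff_fst)
  have h4 : ContDiff ℝ ∞ (fun p : Pr A1 A2 A3 × X => OA (S.arg p)) := hA.comp S.contDiff_arg
  have h5 : ContDiff ℝ ∞ (fun p : Pr A1 A2 A3 × X => OB (S.arg p)) := hB.comp S.contDiff_arg
  have h6 := contDiff_bil S.cp h1 (contDiff_const (c := S.one) |>.add h3)
  have h7 := contDiff_bil S.ap h4 h6
  have h8 := contDiff_bil S.sm h2 (h7.add h5)
  have h9 := contDiff_bil S.cp h1 h3
  exact h8.sub (S.db.contDiff.comp h9)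

theorem n_bil {U V W : Type*} [NormedAddCommGroup U] [NormedSpace ℝ U] [NormedAddCommGroup V]
    [NormedSpace ℝ V] [NormedAddCommGroup W] [NormedSpace ℝ W] {B : U →L[ℝ] V →L[ℝ] W}
    (hB : ∀ u v, ‖B u v‖ ≤ 2 * ‖u‖ * ‖v‖) {u : U} {v : V} {s t : ℝ} (hu : ‖u‖ ≤ s)
    (hv : ‖v‖ ≤ t) : ‖B u v‖ ≤ 2 * s * t := by
  have hs : 0 ≤ s := (norm_nonneg u).trans hu
  exact (hB u v).trans (mul_le_mul (by linarith) hv (norm_nonneg _) (by positivity))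

/-- smallness of the composition operators -/
structure Sm (OA : Q → HA) (OB : Q → Y) (η : ℝ) : Prop where
  nA : ∀ u, ‖OA u‖ ≤ η * (1 + ‖u‖)
  nB : ∀ u, ‖OB u‖ ≤ η * (1 + ‖u‖)
  lA : ∀ u u', ‖OA u - OA u'‖ ≤ η * (1 + max ‖u‖ ‖u'‖) * ‖u - u'‖
  lB : ∀ u u', ‖OB u - OB u'‖ ≤ η * (1 + max ‖u‖ ‖u'‖) * ‖u - u'‖

variable {OA : Q → HA} {OB : Q → Y} {η K R : ℝ}

/-- the parameter domain -/
def Uset (A1 A2 A3 : Type*) [NormedAddCommGroup A1] [NormedAddCommGroup A2]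
    [NormedAddCommGroup A3] (K η : ℝ) : Set (Pr A1 A2 A3) :=
  {k | ‖k.1‖ < K ∧ ‖k.2.1‖ < K ∧ ‖k.2.2‖ < η}

theorem isOpen_Uset (K η : ℝ) : IsOpen (Uset A1 A2 A3 K η) := by
  have h1 : IsOpen {k : Pr A1 A2 A3 | ‖k.1‖ < K} :=
    isOpen_lt (continuous_norm.comp continuous_fst) continuous_const
  have h2 : IsOpen {k : Pr A1 A2 A3 | ‖k.2.1‖ < K} :=
    isOpen_lt (continuous_norm.comp (continuous_fst.comp continuous_snd)) continuous_const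
  have h3 : IsOpen {k : Pr A1 A2 A3 | ‖k.2.2‖ < η} :=
    isOpen_lt (continuous_norm.comp (continuous_snd.comp continuous_snd)) continuous_const
  exact h1.inter (h2.inter h3)

/-- the constant -/
def C0 (K R : ℝ) : ℝ := 16 * K * R * (1 + K + R) + 16 * K * (1 + K + R) + 2 * K * (1 + K + R) +
  2 * R + 2

theorem C0_pos (hK : 0 < K) (hR : 0 < R) : 0 < C0 K R := by unfold C0; positivity

theorem norm_arg_le {k : Pr A1 A2 A3} {w : X} (hk : ‖k.2.1‖ ≤ K) (hw : ‖w‖ ≤ R) (hK : 0 ≤ K)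
    (hR : 0 ≤ R) : ‖S.arg (k, w)‖ ≤ K + R := by
  refine (S.n_pr _).trans ?_
  rw [Prod.norm_def]
  exact max_le (hk.trans (by linarith)) (((S.n_vl w).trans hw).trans (by linarith))

theorem norm_arg_sub_le (k : Pr A1 A2 A3) (w w' : X) :
    ‖S.arg (k, w) - S.arg (k, w')‖ ≤ ‖w - w'‖ := by
  have h1 : S.arg (k, w) - S.arg (k, w') = S.pr (0, S.vl (w - w')) := by
    unfold arg
    rw [← map_sub]
    congr 1
    simp
  rw [h1]
  refine (S.n_pr _).trans ?_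
  rw [Prod.norm_def]
  simpa using S.n_vl (w - w')

theorem norm_one_add_le {k : Pr A1 A2 A3} (hM : ‖k.2.2‖ ≤ η) (hη : η ≤ 1) :
    ‖S.one + k.2.2‖ ≤ 2 :=
  (norm_add_le _ _).trans (by linarith [S.n_one])

theorem G_norm (H : Sm OA OB η) (hη0 : 0 ≤ η) (hη : η ≤ 1) (hK : 0 < K) (hR : 0 < R)
    {k : Pr A1 A2 A3} (hk : k ∈ Uset A1 A2 A3 K η) {w : X} (hw : w ∈ ball (0 : X) R) :
    ‖S.G OA OB (k, w)‖ ≤ η * C0 K R := by
  obtain ⟨h1, h2, h3⟩ := hk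
  have hw' : ‖w‖ ≤ R := by
    have : ‖w‖ < R := by simpa using hw
    exact this.le
  have ha := S.norm_arg_le h2.le hw' hK.le hR.le
  have hdr : ‖S.dr w‖ ≤ R := (S.n_dr w).trans hw'
  have hL : 1 + ‖S.arg (k, w)‖ ≤ 1 + K + R := by linarith
  have e1 : ‖OA (S.arg (k, w))‖ ≤ η * (1 + K + R) :=
    (H.nA _).trans (mul_le_mul_of_nonneg_left hL hη0)
  have e2 : ‖OB (S.arg (k, w))‖ ≤ η * (1 + K + R) :=
    (H.nB _).trans (mul_le_mul_of_nonneg_left hL hη0)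
  have e3 : ‖S.cp (S.dr w) (S.one + k.2.2)‖ ≤ 2 * R * 2 :=
    n_bil S.n_cp hdr (S.norm_one_add_le h3.le hη)
  have e4 : ‖S.ap (OA (S.arg (k, w))) (S.cp (S.dr w) (S.one + k.2.2))‖ ≤
      2 * (η * (1 + K + R)) * (2 * R * 2) := n_bil S.n_ap e1 e3
  have e5 : ‖S.sm k.1 (S.ap (OA (S.arg (k, w))) (S.cp (S.dr w) (S.one + k.2.2)) +
      OB (S.arg (k, w)))‖ ≤ 2 * K * (2 * (η * (1 + K + R)) * (2 * R * 2) + η * (1 + K + R)) :=
    n_bil S.n_sm h1.le ((norm_add_le _ _).trans (add_le_add e4 e2))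
  have e6 : ‖S.db (S.cp (S.dr w) k.2.2)‖ ≤ 2 * R * η :=
    (S.n_db _).trans (n_bil S.n_cp hdr h3.le)
  calc ‖S.G OA OB (k, w)‖ ≤ _ := norm_sub_le _ _
    _ ≤ 2 * K * (2 * (η * (1 + K + R)) * (2 * R * 2) + η * (1 + K + R)) + 2 * R * η :=
        add_le_add e5 e6
    _ ≤ η * C0 K R := by
        unfold C0
        have h4 : 0 ≤ η * (16 * K * (1 + K + R) + 2) := by positivity
        nlinarith

theorem G_lip (H : Sm OA OB η) (hη0 : 0 ≤ η) (hη : η ≤ 1) (hK : 0 < K) (hR : 0 < R)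
    {k : Pr A1 A2 A3} (hk : k ∈ Uset A1 A2 A3 K η) {w w' : X} (hw : w ∈ ball (0 : X) R)
    (hw' : w' ∈ ball (0 : X) R) :
    ‖S.G OA OB (k, w) - S.G OA OB (k, w')‖ ≤ η * C0 K R * ‖w - w'‖ := by
  obtain ⟨h1, h2, h3⟩ := hk
  have hn : ‖w‖ ≤ R := by
    have : ‖w‖ < R := by simpa using hw
    exact this.le
  have hn' : ‖w'‖ ≤ R := by
    have : ‖w'‖ < R := by simpa using hw'
    exact this.le
  have ha := S.norm_arg_le h2.le hn hK.le hR.le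
  have ha' := S.norm_arg_le h2.le hn' hK.le hR.le
  have hs := S.norm_arg_sub_le k w w'
  set u := S.arg (k, w) with hu
  set u' := S.arg (k, w') with hu'
  set c := w - w' with hc
  have hc0 := norm_nonneg c
  have hL' : 1 + ‖u'‖ ≤ 1 + K + R := by linarith
  have hLm : 1 + max ‖u‖ ‖u'‖ ≤ 1 + K + R := by
    have := max_le ha ha'
    linarith
  have hLp : 0 < 1 + K + R := by positivity
  have e1 : ‖OA u'‖ ≤ η * (1 + K + R) := (H.nA _).trans (mul_le_mul_of_nonneg_left hL' hη0)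
  have e2 : ‖OA u - OA u'‖ ≤ η * (1 + K + R) * ‖c‖ :=
    (H.lA u u').trans (mul_le_mul (mul_le_mul_of_nonneg_left hLm hη0) hs (norm_nonneg _)
      (by positivity))
  have e3 : ‖OB u - OB u'‖ ≤ η * (1 + K + R) * ‖c‖ :=
    (H.lB u u').trans (mul_le_mul (mul_le_mul_of_nonneg_left hLm hη0) hs (norm_nonneg _)
      (by positivity))
  have e4 : ‖S.cp (S.dr w) (S.one + k.2.2)‖ ≤ 2 * R * 2 :=
    n_bil S.n_cp ((S.n_dr w).trans hn) (S.norm_one_add_le h3.le hη)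
  have e5 : ‖S.cp (S.dr c) (S.one + k.2.2)‖ ≤ 2 * ‖c‖ * 2 :=
    n_bil S.n_cp (S.n_dr c) (S.norm_one_add_le h3.le hη)
  have e6 : ‖S.ap (OA u - OA u') (S.cp (S.dr w) (S.one + k.2.2))‖ ≤
      2 * (η * (1 + K + R) * ‖c‖) * (2 * R * 2) := n_bil S.n_ap e2 e4
  have e7 : ‖S.ap (OA u') (S.cp (S.dr c) (S.one + k.2.2))‖ ≤
      2 * (η * (1 + K + R)) * (2 * ‖c‖ * 2) := n_bil S.n_ap e1 e5
  have e8 : ‖S.db (S.cp (S.dr c) k.2.2)‖ ≤ 2 * ‖c‖ * η :=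
    (S.n_db _).trans (n_bil S.n_cp (S.n_dr c) h3.le)
  have hsplit : S.G OA OB (k, w) - S.G OA OB (k, w') =
      S.sm k.1 ((S.ap (OA u - OA u') (S.cp (S.dr w) (S.one + k.2.2)) +
        S.ap (OA u') (S.cp (S.dr c) (S.one + k.2.2))) + (OB u - OB u')) -
        S.db (S.cp (S.dr c) k.2.2) := by
    have f1 : S.dr c = S.dr w - S.dr w' := by rw [hc, map_sub]
    have f2 : S.G OA OB (k, w) = S.sm k.1 (S.ap (OA u) (S.cp (S.dr w) (S.one + k.2.2)) + OB u) -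
        S.db (S.cp (S.dr w) k.2.2) := rfl
    have f3 : S.G OA OB (k, w') =
        S.sm k.1 (S.ap (OA u') (S.cp (S.dr w') (S.one + k.2.2)) + OB u') -
        S.db (S.cp (S.dr w') k.2.2) := rfl
    rw [f2, f3, f1]
    simp only [map_sub, map_add, sub_apply]
    abel
  rw [hsplit]
  calc _ ≤ _ := norm_sub_le _ _
    _ ≤ 2 * K * ((2 * (η * (1 + K + R) * ‖c‖) * (2 * R * 2) +
          2 * (η * (1 + K + R)) * (2 * ‖c‖ * 2)) + η * (1 + K + R) * ‖c‖) + 2 * ‖c‖ * η := by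
        refine add_le_add (n_bil S.n_sm h1.le ?_) e8
        exact (norm_add_le _ _).trans (add_le_add ((norm_add_le _ _).trans (add_le_add e6 e7)) e3)
    _ ≤ η * C0 K R * ‖c‖ := by
        unfold C0
        have h4 : 0 ≤ η * ‖c‖ * (2 * R) := by positivity
        nlinarith

variable [CompleteSpace A1] [CompleteSpace A2] [CompleteSpace A3] [CompleteSpace X]

/-- **abstract solution operator** -/
theorem solve (T : Y →L[ℝ] X) (hK : 0 < K) (hR : 0 < R) {ε : ℝ} (hε : 0 < ε) :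
    ∃ η : ℝ, 0 < η ∧ ∀ (OA : Q → HA) (OB : Q → Y), ContDiff ℝ ∞ OA → ContDiff ℝ ∞ OB →
      Sm OA OB η → ∃ Φ : Pr A1 A2 A3 × X → X,
        ContDiffOn ℝ ∞ Φ (Uset A1 A2 A3 K η ×ˢ ball (0 : X) R) ∧
        (∀ k ∈ Uset A1 A2 A3 K η, ∀ h ∈ ball (0 : X) R,
          Φ (k, h) = h + T (S.G OA OB (k, Φ (k, h))) ∧ ‖Φ (k, h) - h‖ ≤ ε ∧
          ∀ c, ‖fderiv ℝ Φ (k, h) (0, c) - c‖ ≤ ε * ‖c‖) ∧
        ∀ k ∈ Uset A1 A2 A3 K η, ∀ h ∈ ball (0 : X) R, ∀ w : X, ‖w‖ < 2 * R + 1 →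
          w = h + T (S.G OA OB (k, w)) → w = Φ (k, h) := by
  set R' := 2 * R + 2 with hR'
  have hR'0 : 0 < R' := by positivity
  set C := C0 K R' with hC
  have hCp : 0 < C := C0_pos hK hR'0
  set ε₁ := min (ε / 2) (1 / 2) with hε₁
  have hε₁0 : 0 < ε₁ := lt_min (by positivity) (by norm_num)
  have hTn := norm_nonneg T
  refine ⟨min 1 (ε₁ / ((‖T‖ + 1) * C)), lt_min one_pos (by positivity), ?_⟩
  set η := min 1 (ε₁ / ((‖T‖ + 1) * C)) with hη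
  have hη0 : 0 < η := lt_min one_pos (by positivity)
  have hη1 : η ≤ 1 := min_le_left _ _
  have hη2 : ‖T‖ * (η * C) ≤ ε₁ := by
    have h1 : η ≤ ε₁ / ((‖T‖ + 1) * C) := min_le_right _ _
    have h2 : η * ((‖T‖ + 1) * C) ≤ ε₁ := by
      rwa [le_div_iff₀ (by positivity)] at h1
    have h3 : 0 ≤ η * C := by positivity
    nlinarith
  intro OA OB hA hB H
  have hsm : NWPsiA_930.Small (fun p => T (S.G OA OB p)) (Uset A1 A2 A3 K η) R' ε₁ := by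
    refine Small.of_lip (isOpen_Uset K η) (T.contDiff.comp (S.contDiff_G hA hB)).contDiffOn hε₁0.le
      (min_le_right _ _) ?_ ?_
    · intro k hk w hw
      calc ‖T (S.G OA OB (k, w))‖ ≤ ‖T‖ * ‖S.G OA OB (k, w)‖ := T.le_opNorm _
        _ ≤ ‖T‖ * (η * C) :=
            mul_le_mul_of_nonneg_left (S.G_norm H hη0.le hη1 hK hR'0 hk hw) hTn
        _ ≤ ε₁ := hη2
    · intro k hk w hw w' hw'
      show ‖T (S.G OA OB (k, w)) - T (S.G OA OB (k, w'))‖ ≤ _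
      rw [← map_sub]
      calc ‖T (S.G OA OB (k, w) - S.G OA OB (k, w'))‖
          ≤ ‖T‖ * ‖S.G OA OB (k, w) - S.G OA OB (k, w')‖ := T.le_opNorm _
        _ ≤ ‖T‖ * (η * C * ‖w - w'‖) :=
            mul_le_mul_of_nonneg_left (S.G_lip H hη0.le hη1 hK hR'0 hk hw hw') hTn
        _ = ‖T‖ * (η * C) * ‖w - w'‖ := by ring
        _ ≤ ε₁ * ‖w - w'‖ := mul_le_mul_of_nonneg_right hη2 (norm_nonneg _)
  have hε₁2 : ε₁ ≤ 1 / 2 := min_le_right _ _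
  have hε₁3 : 2 * ε₁ ≤ ε := by
    have : ε₁ ≤ ε / 2 := min_le_left _ _
    linarith
  have hRR : R + ε₁ < R' := by rw [hR']; linarith
  obtain ⟨Φ, h1, h2, h3⟩ := NWPsiA_930.exists_phi hsm hRR
  refine ⟨Φ, h1, ?_, ?_⟩
  · intro k hk h hh
    obtain ⟨-, h5, h6, h7⟩ := h2 k hk h hh
    refine ⟨?_, h6.trans (by linarith), fun c => ?_⟩
    · rw [← sub_eq_iff_eq_add]; exact h5
    · have h8 := ((fderiv ℝ Φ (k, h)).comp (ContinuousLinearMap.inr ℝ (Pr A1 A2 A3) X) -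
        ContinuousLinearMap.id ℝ X).le_opNorm c
      have h9 : ((fderiv ℝ Φ (k, h)).comp (ContinuousLinearMap.inr ℝ (Pr A1 A2 A3) X) -
        ContinuousLinearMap.id ℝ X) c = fderiv ℝ Φ (k, h) (0, c) - c := rfl
      rw [h9] at h8
      exact h8.trans (mul_le_mul_of_nonneg_right (h7.trans hε₁3) (norm_nonneg _))
  · intro k hk h hh w hw h4
    refine h3 k hk h hh w ?_ (sub_eq_iff_eq_add.2 h4)
    simp only [mem_ball, dist_zero_right]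
    rw [hR']; linarith

end Lin

end

end Crest.Agent.R235.NWPsiB_930
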