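import Crest.Agent.R235.NWHol_952
import Crest.Agent.R235.NWOm_52
import Crest.Agent.R235.NWPsiB_930

/-!
# Row 235 (S0364), package NW, leaf N (helper930): the Hölder spaces as linear data

`holLin δ` : the data of `NWPsiB_930.Lin` for `Hol`, `C1a`, real normed spaces `E`, `P`, and a
linear map `δ : (ℂ →L[ℝ] E) →L[ℝ] E` of norm `≤ 1` (later `∂̄`).
-/

set_option autoImplicit false
set_option maxSynthPendingDepth 3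

open Set Filter Metric Topology
open scoped ContDiff

namespace Crest.Agent.R235.NWPsiC_930

open Crest.Agent.R235.NWDefs_334 Crest.Agent.R235.NWHol_952 Crest.Agent.R235.NWOm_52

noncomputable section

variable {a : ℝ} {E P L : Type} [NormedAddCommGroup E] [NormedSpace ℝ E] [NormedAddCommGroup P]
  [NormedSpace ℝ P] [NormedAddCommGroup L] [NormedSpace ℝ L]

theorem bl1 {U V W : Type*} [NormedAddCommGroup U] [NormedSpace ℝ U] [NormedAddCommGroup V]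
    [NormedSpace ℝ V] [NormedAddCommGroup W] [NormedSpace ℝ W] (B : U →L[ℝ] V →L[ℝ] W)
    (hB : ‖B‖ ≤ 1) (u : Hol a ℂ U) (v : Hol a ℂ V) : ‖bl B u v‖ ≤ 2 * ‖u‖ * ‖v‖ := by
  refine (norm_bl_le B u v).trans (mul_le_mul_of_nonneg_right ?_ (norm_nonneg v))
  have := mul_le_mul_of_nonneg_right hB (norm_nonneg u)
  linarith

/-- composition -/
def cP : Hol a ℂ (ℂ →L[ℝ] E) →L[ℝ] Hol a ℂ (ℂ →L[ℝ] ℂ) →L[ℝ] Hol a ℂ (ℂ →L[ℝ] E) :=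
  bl (ContinuousLinearMap.compL ℝ ℂ ℂ E)

theorem n_cP (d : Hol a ℂ (ℂ →L[ℝ] E)) (m : Hol a ℂ (ℂ →L[ℝ] ℂ)) :
    ‖cP d m‖ ≤ 2 * ‖d‖ * ‖m‖ := bl1 _ (ContinuousLinearMap.norm_compL_le ℝ ℂ ℂ E) d m

theorem fn_cP (d : Hol a ℂ (ℂ →L[ℝ] E)) (m : Hol a ℂ (ℂ →L[ℝ] ℂ)) (z : ℂ) :
    Hol.fn (cP d m) z = (Hol.fn d z).comp (Hol.fn m z) := rfl

/-- multiplication -/
def lsB : ℝ →L[ℝ] E →L[ℝ] E := ContinuousLinearMap.lsmul ℝ ℝ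

theorem n_lsB : ‖(lsB : ℝ →L[ℝ] E →L[ℝ] E)‖ ≤ 1 := ContinuousLinearMap.opNorm_lsmul_le

/-- multiplication -/
def sP : Hol a ℂ ℝ →L[ℝ] Hol a ℂ E →L[ℝ] Hol a ℂ E := bl lsB

theorem n_sP (k : Hol a ℂ ℝ) (y : Hol a ℂ E) : ‖sP k y‖ ≤ 2 * ‖k‖ * ‖y‖ :=
  bl1 lsB n_lsB k y

theorem fn_sP (k : Hol a ℂ ℝ) (y : Hol a ℂ E) (z : ℂ) :
    Hol.fn (sP k y) z = Hol.fn k z • Hol.fn y z := rfl

/-- application -/
def aP : Hol a ℂ (L →L[ℝ] E) →L[ℝ] Hol a ℂ L →L[ℝ] Hol a ℂ E := app a ℂ L E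

theorem n_aP (g : Hol a ℂ (L →L[ℝ] E)) (d : Hol a ℂ L) : ‖aP g d‖ ≤ 2 * ‖g‖ * ‖d‖ :=
  norm_app_le g d

theorem fn_aP (g : Hol a ℂ (L →L[ℝ] E)) (d : Hol a ℂ L) (z : ℂ) :
    Hol.fn (aP g d) z = Hol.fn g z (Hol.fn d z) := rfl

/-- post-composition -/
def dP (δ : L →L[ℝ] E) : Hol a ℂ L →L[ℝ] Hol a ℂ E := cl δ

theorem n_dP (δ : L →L[ℝ] E) (hδ : ‖δ‖ ≤ 1) (d : Hol a ℂ L) : ‖dP δ d‖ ≤ ‖d‖ :=
  (norm_cl_apply_le δ d).trans (by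
    have := mul_le_mul_of_nonneg_right hδ (norm_nonneg d)
    linarith)

theorem fn_dP (δ : L →L[ℝ] E) (d : Hol a ℂ L) (z : ℂ) :
    Hol.fn (dP δ d) z = δ (Hol.fn d z) := rfl

/-- the function -/
def vP : C1a a ℂ E →L[ℝ] Hol a ℂ E := (ContinuousLinearMap.fst ℝ _ _).comp (C1a a ℂ E).subtypeL

/-- the derivative -/
def rP : C1a a ℂ E →L[ℝ] Hol a ℂ (ℂ →L[ℝ] E) :=
  (ContinuousLinearMap.snd ℝ _ _).comp (C1a a ℂ E).subtypeL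

theorem n_vP (w : C1a a ℂ E) : ‖vP w‖ ≤ ‖w‖ := norm_fst_le w.1

theorem n_rP (w : C1a a ℂ E) : ‖rP w‖ ≤ ‖w‖ := norm_snd_le w.1

/-- the identity -/
def oP : Hol a ℂ (ℂ →L[ℝ] ℂ) := cst ℂ (ContinuousLinearMap.id ℝ ℂ)

theorem n_oP : ‖(oP : Hol a ℂ (ℂ →L[ℝ] ℂ))‖ ≤ 1 :=
  (norm_cst_le _).trans ContinuousLinearMap.norm_id_le

theorem fn_oP (z : ℂ) : Hol.fn (oP : Hol a ℂ (ℂ →L[ℝ] ℂ)) z = ContinuousLinearMap.id ℝ ℂ := rfl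

/-- the Hölder spaces as linear data -/
def holLin (δ : (ℂ →L[ℝ] E) →L[ℝ] E) (hδ : ‖δ‖ ≤ 1) :
    NWPsiB_930.Lin (Hol a ℂ ℝ) (Hol a ℂ P) (Hol a ℂ (ℂ →L[ℝ] ℂ)) (C1a a ℂ E)
      (Hol a ℂ E) (Hol a ℂ (ℂ →L[ℝ] E)) (Hol a ℂ (P × E))
      (Hol a ℂ ((ℂ →L[ℝ] E) →L[ℝ] E)) (Hol a ℂ E) where
  vl := vP
  dr := rP
  pr := pair
  cp := cP
  ap := aP
  sm := sP
  db := dP δ
  one := oP
  n_vl w := n_vP w
  n_dr w := n_rP w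
  n_pr p := norm_pair_le p
  n_cp d m := n_cP d m
  n_ap g d := n_aP g d
  n_sm k y := n_sP k y
  n_db d := n_dP δ hδ d
  n_one := n_oP

end

end Crest.Agent.R235.NWPsiC_930
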