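import Crest.Agent.R235.NWIface_334
import Crest.Agent.R235.NWPsiC_930

/-!
# Row 235 (S0364), package NW, leaf N (helper930): `NStmt`
-/

set_option autoImplicit false
set_option maxSynthPendingDepth 3

open Set Filter Metric Topology
open scoped ContDiff

namespace Crest.Agent.R235.NWPsi_930

open Crest.Agent.R235.NWDefs_334 Crest.Agent.R235.NWIface_334 Crest.Agent.R235.NWHol_952
  Crest.Agent.R235.NWOm_52 Crest.Agent.R235.NWPsiC_930

noncomputable section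

section Real

variable {a : ℝ} {E P : Type} [NormedAddCommGroup E] [NormedSpace ℝ E] [NormedAddCommGroup P]
  [NormedSpace ℝ P]

theorem sm_om {A : P × E → (ℂ →L[ℝ] E) →L[ℝ] E} {b : P × E → E} (hA : BD A) (hb : BD b) {η : ℝ}
    (h0 : ∀ x, ‖A x‖ ≤ η) (h1 : ∀ x, ‖fderiv ℝ A x‖ ≤ η)
    (h2 : ∀ x, ‖fderiv ℝ (fderiv ℝ A) x‖ ≤ η)
    (g0 : ∀ x, ‖b x‖ ≤ η) (g1 : ∀ x, ‖fderiv ℝ b x‖ ≤ η)
    (g2 : ∀ x, ‖fderiv ℝ (fderiv ℝ b) x‖ ≤ η) :
    NWPsiB_930.Lin.Sm (om hA : Hol a ℂ (P × E) → Hol a ℂ ((ℂ →L[ℝ] E) →L[ℝ] E))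
      (om hb : Hol a ℂ (P × E) → Hol a ℂ E) η := by
  have hη : 0 ≤ η := (norm_nonneg _).trans (h0 0)
  have key : ∀ u v : Hol a ℂ (P × E), η * (1 + ‖v‖) * ‖u - v‖ ≤
      η * (1 + max ‖u‖ ‖v‖) * ‖u - v‖ := fun u v =>
    mul_le_mul_of_nonneg_right (mul_le_mul_of_nonneg_left (by linarith [le_max_right ‖u‖ ‖v‖]) hη)
      (norm_nonneg _)
  exact ⟨norm_om_le_eta hA h0 h1, norm_om_le_eta hb g0 g1,
    fun u v => (om_lip_eta hA h1 h2 u v).trans (key u v),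
    fun u v => (om_lip_eta hb g1 g2 u v).trans (key u v)⟩

theorem fn_G (δ : (ℂ →L[ℝ] E) →L[ℝ] E) (hδ : ‖δ‖ ≤ 1) {A : P × E → (ℂ →L[ℝ] E) →L[ℝ] E}
    {b : P × E → E} (hA : BD A) (hb : BD b) (k : Hol a ℂ ℝ × Hol a ℂ P × Hol a ℂ (ℂ →L[ℝ] ℂ))
    (w : C1a a ℂ E) (z : ℂ) :
    Hol.fn ((holLin (a := a) (P := P) δ hδ).G (om hA) (om hb) (k, w)) z =
      Hol.fn k.1 z • (A (Hol.fn k.2.1 z, Hol.fn w.1.1 z)
        ((Hol.fn w.1.2 z).comp (ContinuousLinearMap.id ℝ ℂ + Hol.fn k.2.2 z)) +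
          b (Hol.fn k.2.1 z, Hol.fn w.1.1 z)) - δ ((Hol.fn w.1.2 z).comp (Hol.fn k.2.2 z)) := by
  rfl

end Real

variable {a : ℝ} {E P : Type} [NormedAddCommGroup E] [NormedSpace ℂ E] [NormedAddCommGroup P]
  [NormedSpace ℝ P]

/-- `L ↦ ∂̄L` as a continuous linear map -/
def dblL : (ℂ →L[ℝ] E) →L[ℝ] E :=
  LinearMap.mkContinuous
    { toFun := fun L => dbl L
      map_add' := fun L L' => by
        simp only [dbl, add_apply, smul_add]; abel
      map_smul' := fun c L => by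
        simp only [dbl, smul_apply, RingHom.id_apply]
        rw [smul_comm Complex.I c, ← smul_add, smul_comm] }
    1 (fun L => by
      show ‖(2 : ℂ)⁻¹ • (L 1 + Complex.I • L Complex.I)‖ ≤ 1 * ‖L‖
      have h1 : ‖L 1‖ ≤ ‖L‖ := by simpa using L.le_opNorm 1
      have h2 : ‖L Complex.I‖ ≤ ‖L‖ := by simpa using L.le_opNorm Complex.I
      rw [norm_smul]
      have h3 : ‖L 1 + Complex.I • L Complex.I‖ ≤ ‖L‖ + ‖L‖ := by
        refine (norm_add_le _ _).trans (add_le_add h1 ?_)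
        rw [norm_smul]; simpa using h2
      have h4 : ‖(2 : ℂ)⁻¹‖ = 1 / 2 := by simp
      rw [h4]; linarith)

theorem dblL_apply (L : ℂ →L[ℝ] E) : dblL L = dbl L := rfl

theorem norm_dblL_le : ‖(dblL : (ℂ →L[ℝ] E) →L[ℝ] E)‖ ≤ 1 :=
  LinearMap.mkContinuous_norm_le _ zero_le_one _

/-- the linear data over a complex space -/
def cLin (a : ℝ) (E P : Type) [NormedAddCommGroup E] [NormedSpace ℂ E] [NormedAddCommGroup P]
    [NormedSpace ℝ P] : NWPsiB_930.Lin (Hol a ℂ ℝ) (Hol a ℂ P) (Hol a ℂ (ℂ →L[ℝ] ℂ)) (C1a a ℂ E)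
      (Hol a ℂ E) (Hol a ℂ (ℂ →L[ℝ] E)) (Hol a ℂ (P × E))
      (Hol a ℂ ((ℂ →L[ℝ] E) →L[ℝ] E)) (Hol a ℂ E) := holLin dblL norm_dblL_le

theorem sol_iff {T : Hol a ℂ E →L[ℝ] C1a a ℂ E} {A : P × E → (ℂ →L[ℝ] E) →L[ℝ] E}
    {b : P × E → E} (hA : BD A) (hb : BD b) (k : Par a P) (h w : C1a a ℂ E) :
    Sol T A b k h w ↔ w = h + T ((cLin a E P).G (om hA) (om hb) (k, w)) := by
  constructor
  · rintro ⟨g, h1, h2⟩
    have h3 : g = (cLin a E P).G (om hA) (om hb) (k, w) := by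
      refine NWHol_952.ext fun z => ?_
      rw [h1 z]
      exact (fn_G dblL norm_dblL_le hA hb k w z).symm
    rw [← h3]; exact h2
  · intro h1
    exact ⟨_, fun z => fn_G dblL norm_dblL_le hA hb k w z, h1⟩

/-- `C1a` is complete -/
theorem complete_C1a (E : Type) [NormedAddCommGroup E] [NormedSpace ℝ E] [CompleteSpace E]
    (a : ℝ) : CompleteSpace (C1a a ℂ E) := by
  have hcl : IsClosed (C1a a ℂ E : Set (Hol a ℂ E × Hol a ℂ (ℂ →L[ℝ] E))) := by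
    refine isSeqClosed_iff_isClosed.1 ?_
    intro q q0 hq hlim
    have l1 : Tendsto (fun n => (q n).1) atTop (𝓝 q0.1) :=
      (continuous_fst.tendsto q0).comp hlim
    have l2 : Tendsto (fun n => (q n).2) atTop (𝓝 q0.2) :=
      (continuous_snd.tendsto q0).comp hlim
    have k2 : TendstoUniformly (fun n => Hol.fn (q n).2) (Hol.fn q0.2) atTop := by
      have h1 : Tendsto (fun n => NWHol_952.toB (q n).2) atTop (𝓝 (NWHol_952.toB q0.2)) :=
        (NWHol_952.toB.continuous.tendsto q0.2).comp l2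
      exact BoundedContinuousFunction.tendsto_iff_tendstoUniformly.1 h1
    exact hasFDerivAt_of_tendstoUniformly k2 (fun n x => hq n x)
      fun x => ((NWHol_952.ev x).continuous.tendsto q0.1).comp l1
  exact hcl.completeSpace_coe

set_option maxHeartbeats 1000000 in
/-- **leaf N**, with the completeness of `C1a` as an instance argument -/
theorem nstmt_of (hcomp : ∀ (E : Type) [NormedAddCommGroup E] [NormedSpace ℝ E] [CompleteSpace E]
    (a : ℝ), 0 < a → CompleteSpace (C1a a ℂ E)) : NStmt := by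
  intro E P _ _ _ _ _ _ a ha _ T K R ε hK hR hε
  have : CompleteSpace E := FiniteDimensional.complete ℂ E
  have : CompleteSpace P := FiniteDimensional.complete ℝ P
  have : CompleteSpace (C1a a ℂ E) := hcomp E a ha
  obtain ⟨η, hη, hS⟩ := (cLin a E P).solve T hK hR hε
  refine ⟨η, hη, fun A b hA hb hsA hsb => ?_⟩
  have hSm := sm_om (a := a) hA hb (fun x => (hsA x).1) (fun x => (hsA x).2.1)
    (fun x => (hsA x).2.2) (fun x => (hsb x).1) (fun x => (hsb x).2.1) (fun x => (hsb x).2.2)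
  obtain ⟨Φ, h1, h2, h3⟩ := hS (om hA) (om hb) (contDiff_om hA le_rfl) (contDiff_om hb le_rfl) hSm
  have hdom : ∀ (k : Par a P) (h : C1a a ℂ E), (k, h) ∈ Dom a E P K R η →
      k ∈ NWPsiB_930.Lin.Uset (Hol a ℂ ℝ) (Hol a ℂ P) (Hol a ℂ (ℂ →L[ℝ] ℂ)) K η ∧
        h ∈ ball (0 : C1a a ℂ E) R := by
    rintro k h ⟨e1, e2, e3, e4⟩
    exact ⟨⟨e1, e2, e3⟩, by simpa using e4⟩
  refine ⟨Φ, h1.mono fun p hp => hdom p.1 p.2 hp, fun k h hkh => ?_⟩
  obtain ⟨hk, hh⟩ := hdom k h hkh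
  obtain ⟨h4, h5, h6⟩ := h2 k hk h hh
  exact ⟨(sol_iff hA hb k h _).2 h4, h5, h6, fun w hw hsol =>
    h3 k hk h hh w hw ((sol_iff hA hb k h w).1 hsol)⟩

/-- **leaf N** -/
theorem nstmt : NStmt := nstmt_of fun E _ _ _ a _ => complete_C1a E a

end

end Crest.Agent.R235.NWPsi_930
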