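import Crest.Agent.R235.NWFol_334
import Crest.Agent.R235.NWKPT_133
import Crest.Agent.R235.NWOm2_52
import Crest.Agent.R235.NWPsi_930

/-!
# Row 235, PACKAGE NW (helper334): unconditional theorems
-/

set_option autoImplicit false

open Set Filter Metric Topology MeasureTheory
open scoped ContDiff Real

namespace Crest.Agent.R235.NWFin_334

open Crest.Agent.R235.NWDefs_334 Crest.Agent.R235.NWIface_334

theorem cauchy : CauchyStmt := NWKPT_133.cauchy_stmt
theorem kp : KPStmt := NWKP_133.kp_stmt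
theorem fam : FamStmt := NWOm2_52.fam
theorem nst : NStmt := NWPsi_930.nstmt
theorem jst : JStmt := NWSet_334.jstmt

/-- local `J`-disc foliations -/
theorem fol_stmt : FolStmt := NWFol_334.fol cauchy nst fam

/-- the solver of families of `J`-discs -/
theorem solver (E : Type) [NormedAddCommGroup E] [NormedSpace ℂ E] [FiniteDimensional ℂ E]
    (ρ M0 : ℝ) (hρ : 0 < ρ) (hM0 : 0 ≤ M0) :
    ∃ N0 : ℝ, ∀ N : ℝ, N0 ≤ N → ∀ ε : ℝ, 0 < ε → ∀ (J : E → E →L[ℝ] E) (r : ℝ), ACS J r →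
      ∃ R0 : ℝ, 0 < R0 ∧ R0 * (N + ε + 1) < r ∧ ∀ R : ℝ, 0 < R → R ≤ R0 →
        ∃ Ψ : C1a (1/2) ℂ E → C1a (1/2) ℂ E, NWSolve_334.Solver J R ρ M0 N0 N ε Ψ :=
  NWSolve_334.exists_solver cauchy nst fam E ρ M0 hρ hM0

end Crest.Agent.R235.NWFin_334
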