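import Crest.Agent.R235.FBoxP_130
import Crest.Agent.R235.FBoxC_130
import Crest.Agent.R235.NWFin_334

/-!
# Row 235 (S0364), PACKAGE ADJ (helper130): foliation boxes, unconditional
-/

set_option autoImplicit false
set_option maxSynthPendingDepth 3

open Set Function Filter MeasureTheory Metric
open scoped Manifold ContDiff Topology

universe u

namespace Crest.Agent.R235.FBoxFin_130

open Crest.Agent.R240 Crest.Agent.R240.Ch
open Crest.Agent.R235 Crest.Agent.R235.Glob_370

theorem fboxp : Adj.FBOXP.{u} := FBoxP_130.fboxp_of NWFin_334.fol_stmt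

theorem fbox : Adj.FBOX.{u} := FBoxC_130.fbox_of NWFin_334.fol_stmt

theorem exists_gbox {M : Type u} [TopologicalSpace M] [ChartedSpace E4 M]
    [IsManifold 𝓘(ℝ, E4) ∞ M] {J : EndF E4 M} (hJs : SmoothJ J)
    (hJ2 : ∀ x v, atJ J x (atJ J x v) = -v) {ι : Type} [Finite ι] (u : ι → ℂ → M) {p : M}
    (hu : ∀ j, IsDisc J (u j)) (hu0 : ∀ j, u j 0 = p) {V : Set M} (hV : IsOpen V) (hpV : p ∈ V) :
    Nonempty (FBoxG_130.GBox J p V u) :=
  FBoxG_130.gbox_of NWFin_334.fol_stmt hJs hJ2 u hu hu0 hV hpV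

end Crest.Agent.R235.FBoxFin_130
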