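import Mathlib
import Crest.Agent.R235.FB10_365
import Crest.Agent.R235.FB5_785
import Crest.Agent.R235.FA7_435

/-!
Row 235 (S0364), package FD-A: the abstract theorem behind `b⁺ = 3` (Seiberg-Witten family over the
ball, Jacobian torus `ℝᵇ/ℤᵇ` included), `FDADef_365.FDHILB`.
Parts: Smith theory FA1-FA7 (helper365, helper435, helper143), B0 Bet_785, B1 FdB1_435, B2 Est_143,
B3 Tot_435, B4 FB1-FB10 (helper365, helper785).
-/

set_option autoImplicit false

namespace Crest.Agent.R235.FDHILB_365

open FDADef_365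

/-- **the abstract theorem** -/
theorem fdhilb : FDHILB := by
  intro b A P Ya Yp _ _ _ _ _ _ _ _ _ _ _ _ S
  obtain ⟨N, y, Fa, _, R', C, δ, Ca, Cp, Dρ, G⟩ := FB5_785.exists_good S
  exact FB10_365.bot G FA7_435.ql FA7_435.fdtop

end Crest.Agent.R235.FDHILB_365
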