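import Crest.Agent.R235.Defs_837
import Crest.Agent.R235.Tau_692
import Crest.Agent.R235.TauA_483

/-!
Row 235 (S0364), SW-TAU (helper483), part B: the differential of `⟨∇_A α, b⟩` on the manifold:
`d⟨∇_A α, b⟩ = -i Φ ⟨α, b⟩ - ⟨∇_A α ∧ ∇_A b⟩`, `Φ = i F_A = 2π c - da`, `c` the Chern form.
-/

set_option autoImplicit false
set_option maxSynthPendingDepth 3
set_option linter.unusedSectionVars false

open Set Function Filter MeasureTheory Matrix Complex
open scoped Manifold ContDiff Topology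

universe u

namespace Crest.Agent.R235.Tau483

open Crest.Agent.R240 Crest.Agent.R240.Ch Crest.Agent.R240.Int

noncomputable section

variable {M : Type u} [TopologicalSpace M] [ChartedSpace E4 M] [IsManifold 𝓘(ℝ, E4) ∞ M]
variable {ι : Type*} [Fintype ι]

/-- smooth complex function. -/
abbrev SmC (f : M → ℂ) : Prop := ContMDiff 𝓘(ℝ, E4) 𝓘(ℝ, ℂ) ∞ f

/-- smooth `ℂ^N`-valued function. -/
def SmV (α : M → ι → ℂ) : Prop := ∀ j, SmC fun x => α x j

/-- the differential of a complex function. -/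
def dC (f : M → ℂ) (x : M) (u : E4) : ℂ :=
  fderiv ℝ (fun y : E4 => f ((chartAt E4 x).symm y)) (chartAt E4 x x) u

/-- the differential of a `ℂ^N`-valued function. -/
def dV (α : M → ι → ℂ) (x : M) (u : E4) : ι → ℂ := fun j => dC (fun y => α y j) x u

theorem SmC.diff {f : M → ℂ} (hf : SmC f) (x : M) :
    DifferentiableAt ℝ (fun y : E4 => f ((chartAt E4 x).symm y)) (chartAt E4 x x) := by
  have hs : ContMDiffAt 𝓘(ℝ, E4) 𝓘(ℝ, E4) ∞ (chartAt E4 x).symm (chartAt E4 x x) :=
    (contMDiffOn_chart_symm (I := 𝓘(ℝ, E4)) (x := x)).contMDiffAt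
      ((chartAt E4 x).open_target.mem_nhds (mem_chart_target E4 x))
  have h := (hf.contMDiffAt.comp (chartAt E4 x x) hs).contDiffAt
  exact h.differentiableAt (by norm_num)

theorem SmC.re {f : M → ℂ} (hf : SmC f) : SmoothF E4 fun x => (f x).re :=
  (smoothF_iff _).1 ((Complex.reCLM.contDiff (n := ∞)).contMDiff.comp hf)

theorem SmC.im {f : M → ℂ} (hf : SmC f) : SmoothF E4 fun x => (f x).im :=
  (smoothF_iff _).1 ((Complex.imCLM.contDiff (n := ∞)).contMDiff.comp hf)

theorem dC_re {f : M → ℂ} (hf : SmC f) (x : M) (u : E4) :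
    (dC f x u).re = at1 (dF (E := E4) fun x => (f x).re) x u := by
  have h := (Complex.reCLM.hasFDerivAt.comp (chartAt E4 x x) (hf.diff x).hasFDerivAt).fderiv
  have h2 : at1 (dF (E := E4) fun x => (f x).re) x =
      Complex.reCLM.comp (fderiv ℝ (fun y : E4 => f ((chartAt E4 x).symm y)) (chartAt E4 x x)) := h
  rw [h2]; rfl

theorem dC_im {f : M → ℂ} (hf : SmC f) (x : M) (u : E4) :
    (dC f x u).im = at1 (dF (E := E4) fun x => (f x).im) x u := by
  have h := (Complex.imCLM.hasFDerivAt.comp (chartAt E4 x x) (hf.diff x).hasFDerivAt).fderiv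
  have h2 : at1 (dF (E := E4) fun x => (f x).im) x =
      Complex.imCLM.comp (fderiv ℝ (fun y : E4 => f ((chartAt E4 x).symm y)) (chartAt E4 x x)) := h
  rw [h2]; rfl

theorem symm_chart (x : M) : (chartAt E4 x).symm (chartAt E4 x x) = x :=
  (chartAt E4 x).left_inv (mem_chart_source E4 x)

theorem dC_mul {f g : M → ℂ} (hf : SmC f) (hg : SmC g) (x : M) (u : E4) :
    dC (fun y => f y * g y) x u = dC f x u * g x + f x * dC g x u := by
  unfold dC
  rw [fderiv_fun_mul (hf.diff x) (hg.diff x)]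
  simp only [_root_.add_apply, _root_.smul_apply, smul_eq_mul, symm_chart]
  ring

theorem dC_sum {κ : Type*} (s : Finset κ) {f : κ → M → ℂ} (hf : ∀ i ∈ s, SmC (f i)) (x : M)
    (u : E4) : dC (fun y => ∑ i ∈ s, f i y) x u = ∑ i ∈ s, dC (f i) x u := by
  unfold dC
  rw [fderiv_fun_sum fun i hi => (hf i hi).diff x]
  simp

theorem SmC.star {f : M → ℂ} (hf : SmC f) : SmC fun x => star (f x) :=
  (Complex.conjCLE.contDiff (n := ∞)).contMDiff.comp hf

theorem dC_star {f : M → ℂ} (hf : SmC f) (x : M) (u : E4) :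
    dC (fun y => star (f y)) x u = star (dC f x u) := by
  have h := (Complex.conjCLE.toContinuousLinearMap.hasFDerivAt.comp (chartAt E4 x x)
    (hf.diff x).hasFDerivAt).fderiv
  unfold dC
  have h2 : fderiv ℝ (fun y : E4 => star (f ((chartAt E4 x).symm y))) (chartAt E4 x x) =
      Complex.conjCLE.toContinuousLinearMap.comp
        (fderiv ℝ (fun y : E4 => f ((chartAt E4 x).symm y)) (chartAt E4 x x)) := h
  rw [h2]; rfl

theorem SmC.mul {f g : M → ℂ} (hf : SmC f) (hg : SmC g) : SmC fun x => f x * g x :=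
  (contDiff_mul (𝕜 := ℝ) (𝔸 := ℂ) (n := ∞)).contMDiff.comp (hf.prodMk_space hg)

theorem SmC.sum {κ : Type*} (s : Finset κ) {f : κ → M → ℂ} (hf : ∀ i ∈ s, SmC (f i)) :
    SmC fun x => ∑ i ∈ s, f i x := by
  classical
  induction s using Finset.induction_on with
  | empty => simpa using (contMDiff_const : SmC fun _ : M => (0 : ℂ))
  | insert i s hi ih =>
    have h1 : SmC fun x => f i x + ∑ j ∈ s, f j x :=
      ContMDiff.add (hf i (Finset.mem_insert_self _ _))
        (ih fun j hj => hf j (Finset.mem_insert_of_mem hj))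
    refine h1.congr fun x => ?_
    rw [Finset.sum_insert hi]

/-- the differential of the hermitian product. -/
theorem dC_hp {α b : M → ι → ℂ} (hα : SmV α) (hb : SmV b) (x : M) (u : E4) :
    dC (fun y => hp (α y) (b y)) x u = hp (dV α x u) (b x) + hp (α x) (dV b x u) := by
  unfold hp dotProduct
  simp only [Pi.star_apply]
  rw [dC_sum _ fun j _ => SmC.mul (hα j) (SmC.star (hb j)), ← Finset.sum_add_distrib]
  refine Finset.sum_congr rfl fun j _ => ?_
  have := dC_mul (hα j) (SmC.star (hb j)) x u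
  rw [dC_star (hb j)] at this
  exact this

theorem smC_hp {α b : M → ι → ℂ} (hα : SmV α) (hb : SmV b) :
    SmC fun y => hp (α y) (b y) := by
  unfold hp dotProduct
  exact SmC.sum _ fun j _ => SmC.mul (hα j) (SmC.star (hb j))

/-! ### line bundles -/

/-- the differential of a matrix valued map. -/
def dmt (p : M → Matrix ι ι ℂ) (x : M) (v : E4) : Matrix ι ι ℂ := fun i j => dC (fun y => p y i j) x v

/-- a smooth complex line bundle inside `ℂ^ι`. -/
structure Ln (p : M → Matrix ι ι ℂ) : Prop where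
  smooth : ∀ i j, SmC fun x => p x i j
  idem : ∀ x, p x * p x = p x
  herm : ∀ x, (p x)ᴴ = p x
  rank : ∀ x, (p x).trace = 1

/-- `a` is the Chern form of the line bundle `p`. -/
def Ch0 (p : M → Matrix ι ι ℂ) (a : Z2 M) : Prop :=
  ∀ (x : M) (u v : E4), val a x u v = ((Complex.I / (2 * Real.pi)) *
      (p x * (dmt p x u * dmt p x v - dmt p x v * dmt p x u)).trace).re

theorem ln_of {N : ℕ} {p : M → Matrix (Fin N) (Fin N) ℂ} (h : IsLine p) : Ln p :=
  ⟨h.smooth, h.idem, h.herm, h.rank⟩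

theorem ch0_of {N : ℕ} {p : M → Matrix (Fin N) (Fin N) ℂ} {a : Z2 M} (h : IsChern p a) : Ch0 p a := h

variable {p : M → Matrix ι ι ℂ}

theorem r1 (h : Ln p) (x : M) : R1 (p x) := ⟨h.idem x, h.herm x, h.rank x⟩

theorem dmt_eq (x : M) (u : E4) (i j : ι) : dmt p x u i j = dC (fun y => p y i j) x u := rfl

theorem dmt_line (h : Ln p) (x : M) (u : E4) :
    dmt p x u = dmt p x u * p x + p x * dmt p x u := by
  ext i k
  have h1 : (fun y => p y i k) = fun y => ∑ j, p y i j * p y j k := by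
    funext y
    conv_lhs => rw [← h.idem y]
    rfl
  rw [dmt_eq, h1, dC_sum _ fun j _ => SmC.mul (h.smooth i j) (h.smooth j k),
    Matrix.add_apply, Matrix.mul_apply, Matrix.mul_apply, ← Finset.sum_add_distrib]
  refine Finset.sum_congr rfl fun j _ => ?_
  rw [dC_mul (h.smooth i j) (h.smooth j k)]
  rfl

theorem dmt_herm (h : Ln p) (x : M) (u : E4) : (dmt p x u)ᴴ = dmt p x u := by
  ext i j
  rw [conjTranspose_apply, dmt_eq, dmt_eq, ← dC_star (h.smooth j i)]
  congr 1
  funext y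
  conv_rhs => rw [← h.herm y]
  rfl

theorem dV_line (h : Ln p) {α : M → ι → ℂ} (hα : SmV α) (hp' : ∀ x, p x *ᵥ α x = α x)
    (x : M) (u : E4) : dV α x u = dmt p x u *ᵥ α x + p x *ᵥ dV α x u := by
  ext i
  have h1 : (fun y => α y i) = fun y => ∑ j, p y i j * α y j := by
    funext y
    conv_lhs => rw [← hp' y]
    rfl
  show dC (fun y => α y i) x u = _
  rw [h1, dC_sum _ fun j _ => SmC.mul (h.smooth i j) (hα j)]
  rw [Pi.add_apply]
  unfold mulVec dotProduct
  rw [← Finset.sum_add_distrib]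
  refine Finset.sum_congr rfl fun j _ => ?_
  rw [dC_mul (h.smooth i j) (hα j)]
  rfl

/-- the trace is imaginary. -/
theorem trace_chern (h : Ln p) {c : Z2 M} (hc : Ch0 p c) (x : M) (u v : E4) :
    (p x * (dmt p x u * dmt p x v - dmt p x v * dmt p x u)).trace =
      - (2 * Real.pi * Complex.I) * (val c x u v : ℂ) := by
  set T := (p x * (dmt p x u * dmt p x v - dmt p x v * dmt p x u)).trace with hT
  have h1 : star T = - T := by
    rw [hT, ← trace_conjTranspose, conjTranspose_mul, conjTranspose_sub, conjTranspose_mul,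
      conjTranspose_mul, dmt_herm h, dmt_herm h, h.herm, trace_mul_comm, ← trace_neg]
    congr 1
    rw [← Matrix.mul_neg, neg_sub]
  have hre : T.re = 0 := by
    have h2 := congrArg Complex.re h1
    have h3 : (star T).re = T.re := rfl
    rw [h3, Complex.neg_re] at h2
    linarith
  have h2 := hc x u v
  rw [← hT] at h2
  have hπ : (Real.pi : ℝ) ≠ 0 := Real.pi_ne_zero
  have h4 : ((Complex.I / (2 * Real.pi)) * T).re = - T.im / (2 * Real.pi) := by
    have h5 : (Complex.I / (2 * Real.pi)) * T = ((1 / (2 * Real.pi) : ℝ) : ℂ) * (Complex.I * T) := by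
      push_cast
      ring
    rw [h5, Complex.re_ofReal_mul, Complex.I_mul_re]
    ring
  rw [h4] at h2
  rw [h2]
  have hc' : (Real.pi : ℂ) ≠ 0 := by exact_mod_cast hπ
  have h6 : T = (T.im : ℂ) * Complex.I := by
    apply Complex.ext
    · rw [hre]; simp
    · simp
  have h7 : -(2 * (Real.pi : ℂ) * Complex.I) * ((-T.im / (2 * Real.pi) : ℝ) : ℂ)
      = (T.im : ℂ) * Complex.I := by
    push_cast
    field_simp
  rw [h7]
  exact h6

/-! ### the one-form `⟨∇_A α, b⟩` -/

/-- `∇_A α = p dα + i a α`. -/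
def nab (p : M → Matrix ι ι ℂ) (a : F1 E4 M) (α : M → ι → ℂ) (x : M) (u : E4) :
    ι → ℂ := p x *ᵥ dV α x u + (Complex.I * (at1 a x u : ℂ)) • α x

/-- the real part of `⟨∇_A α, b⟩`. -/
def lre (a : F1 E4 M) (α b : M → ι → ℂ) : F1 E4 M :=
  (∑ j, (fmul1 (fun x => (b x j).re) (dF fun x => (α x j).re) +
    fmul1 (fun x => (b x j).im) (dF fun x => (α x j).im))) +
    fmul1 (fun x => -(hp (α x) (b x)).im) a

/-- the imaginary part of `⟨∇_A α, b⟩`. -/
def lim (a : F1 E4 M) (α b : M → ι → ℂ) : F1 E4 M :=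
  (∑ j, (fmul1 (fun x => (b x j).re) (dF fun x => (α x j).im) +
    fmul1 (fun x => -(b x j).im) (dF fun x => (α x j).re))) +
    fmul1 (fun x => (hp (α x) (b x)).re) a

theorem hp_re (a b : ι → ℂ) :
    (hp a b).re = ∑ j, ((b j).re * (a j).re + (b j).im * (a j).im) := by
  unfold hp dotProduct
  rw [Complex.re_sum]
  refine Finset.sum_congr rfl fun j _ => ?_
  rw [Pi.star_apply, Complex.mul_re]
  have h1 : (star (b j)).re = (b j).re := rfl
  have h2 : (star (b j)).im = -(b j).im := rfl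
  rw [h1, h2]; ring

theorem hp_im (a b : ι → ℂ) :
    (hp a b).im = ∑ j, ((b j).re * (a j).im + (-(b j).im) * (a j).re) := by
  unfold hp dotProduct
  rw [Complex.im_sum]
  refine Finset.sum_congr rfl fun j _ => ?_
  rw [Pi.star_apply, Complex.mul_im]
  have h1 : (star (b j)).re = (b j).re := rfl
  have h2 : (star (b j)).im = -(b j).im := rfl
  rw [h1, h2]; ring

theorem at1_add (s t : F1 E4 M) (x : M) (u : E4) : at1 (s + t) x u = at1 s x u + at1 t x u := rfl

theorem at1_fmul1 (f : M → ℝ) (s : F1 E4 M) (x : M) (u : E4) :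
    at1 (fmul1 f s) x u = f x * at1 s x u := rfl

theorem at2_add (s t : F2 E4 M) (x : M) (u v : E4) :
    at2 (s + t) x u v = at2 s x u v + at2 t x u v := rfl

theorem at2_fmul (f : M → ℝ) (s : F2 E4 M) (x : M) (u v : E4) :
    at2 (fmul f s) x u v = f x * at2 s x u v := rfl

theorem at2_wedG (s t : F1 E4 M) (x : M) (u v : E4) :
    at2 (wedG s t) x u v = at1 s x u * at1 t x v - at1 t x u * at1 s x v := rfl

theorem hp_proj (h : Ln p) {b : M → ι → ℂ} (hb : ∀ x, p x *ᵥ b x = b x) (x : M)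
    (z : ι → ℂ) : hp (p x *ᵥ z) (b x) = hp z (b x) := by
  rw [hp_mulVec, h.herm, hb]

theorem hp_proj' (h : Ln p) {b : M → ι → ℂ} (hb : ∀ x, p x *ᵥ b x = b x) (x : M)
    (z : ι → ℂ) : hp (b x) (p x *ᵥ z) = hp (b x) z := by
  rw [← hp_conj, hp_proj h hb, hp_conj]

theorem at1_lre (h : Ln p) {a : F1 E4 M} {α b : M → ι → ℂ} (hα : SmV α)
    (hb : ∀ x, p x *ᵥ b x = b x) (x : M) (u : E4) :
    at1 (lre a α b) x u = (hp (nab p a α x u) (b x)).re := by
  unfold lre nab
  rw [hp_add_left, hp_proj h hb, hp_smul_left, Complex.add_re, at1_add, at1_fmul1,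
    Tau_692.at1_sum, hp_re]
  congr 1
  · refine Finset.sum_congr rfl fun j _ => ?_
    rw [at1_add, at1_fmul1, at1_fmul1, ← dC_re (hα j), ← dC_im (hα j)]
    rfl
  · rw [mul_assoc, Complex.I_mul_re, Complex.im_ofReal_mul]
    ring

theorem at1_lim (h : Ln p) {a : F1 E4 M} {α b : M → ι → ℂ} (hα : SmV α)
    (hb : ∀ x, p x *ᵥ b x = b x) (x : M) (u : E4) :
    at1 (lim a α b) x u = (hp (nab p a α x u) (b x)).im := by
  unfold lim nab
  rw [hp_add_left, hp_proj h hb, hp_smul_left, Complex.add_im, at1_add, at1_fmul1,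
    Tau_692.at1_sum, hp_im]
  congr 1
  · refine Finset.sum_congr rfl fun j _ => ?_
    rw [at1_add, at1_fmul1, at1_fmul1, ← dC_re (hα j), ← dC_im (hα j)]
    rfl
  · rw [mul_assoc, Complex.I_mul_im, Complex.re_ofReal_mul]
    ring

theorem smooth_lre {a : F1 E4 M} (ha : Smooth1 a) {α b : M → ι → ℂ} (hα : SmV α)
    (hb : SmV b) : Smooth1 (lre a α b) := by
  refine Smooth1.add (Tau_692.smooth1_sum _ fun j _ => ?_) ?_
  · exact (Smooth1.fmul (hb j).re (Smooth1.dF (hα j).re)).add
      (Smooth1.fmul (hb j).im (Smooth1.dF (hα j).im))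
  · exact Smooth1.fmul (smC_hp hα hb).im.neg ha

theorem smooth_lim {a : F1 E4 M} (ha : Smooth1 a) {α b : M → ι → ℂ} (hα : SmV α)
    (hb : SmV b) : Smooth1 (lim a α b) := by
  refine Smooth1.add (Tau_692.smooth1_sum _ fun j _ => ?_) ?_
  · exact (Smooth1.fmul (hb j).re (Smooth1.dF (hα j).im)).add
      (Smooth1.fmul (hb j).im.neg (Smooth1.dF (hα j).re))
  · exact Smooth1.fmul (smC_hp hα hb).re ha

theorem dF_neg {f : M → ℝ} (hf : SmoothF E4 f) (x : M) (u : E4) :
    at1 (dF (E := E4) fun y => - f y) x u = - at1 (dF (E := E4) f) x u := by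
  have h : at1 (dF (E := E4) fun y => - f y) x = - at1 (dF (E := E4) f) x := by
    show fderiv ℝ (repF x fun y => - f y) (chartAt E4 x x) = - fderiv ℝ (repF x f) (chartAt E4 x x)
    exact fderiv_fun_neg
  rw [h]; rfl

theorem dG_fd {f g : M → ℝ} (hf : SmoothF E4 f) (hg : SmoothF E4 g) :
    dG (fmul1 f (dF (E := E4) g)) = wedG (dF f) (dF g) := by
  rw [dG_fmul1 hf (Smooth1.dF hg), dG_dF hg]
  funext x
  have : fmul f (0 : F2 E4 M) x = 0 := smul_zero _
  show wedG (dF f) (dF g) x + fmul f (0 : F2 E4 M) x = _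
  rw [this, add_zero]

/-- the exterior derivative of the real part. -/
theorem dG_lre {a : F1 E4 M} (ha : Smooth1 a) {α b : M → ι → ℂ} (hα : SmV α)
    (hb : SmV b) (x : M) (u v : E4) :
    at2 (dG (lre a α b)) x u v =
      (hp (dV α x v) (dV b x u) - hp (dV α x u) (dV b x v)
        + Complex.I * (at1 a x v * (hp (dV α x u) (b x) + hp (α x) (dV b x u))
          - at1 a x u * (hp (dV α x v) (b x) + hp (α x) (dV b x v)))
        + Complex.I * at2 (dG a) x u v * hp (α x) (b x)).re := by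
  have hs : ∀ j : ι, Smooth1 (fmul1 (fun x => (b x j).re) (dF fun x => (α x j).re) +
      fmul1 (fun x => (b x j).im) (dF (E := E4) fun x => (α x j).im)) := fun j =>
    (Smooth1.fmul (hb j).re (Smooth1.dF (hα j).re)).add
      (Smooth1.fmul (hb j).im (Smooth1.dF (hα j).im))
  unfold lre
  rw [dG_add (Tau_692.smooth1_sum _ fun j _ => hs j) (Smooth1.fmul (smC_hp hα hb).im.neg ha),
    Tau_692.dG_sum _ fun j _ => hs j, dG_fmul1 (smC_hp hα hb).im.neg ha, at2_add,
    Tau_692.at2_sum, at2_add, at2_wedG, at2_fmul, dF_neg (smC_hp hα hb).im,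
    dF_neg (smC_hp hα hb).im, ← dC_im (smC_hp hα hb), ← dC_im (smC_hp hα hb), dC_hp hα hb,
    dC_hp hα hb]
  have h1 : ∀ j : ι, at2 (dG (fmul1 (fun x => (b x j).re) (dF fun x => (α x j).re) +
      fmul1 (fun x => (b x j).im) (dF (E := E4) fun x => (α x j).im))) x u v =
      ((dV b x u j).re * (dV α x v j).re + (dV b x u j).im * (dV α x v j).im) -
      ((dV b x v j).re * (dV α x u j).re + (dV b x v j).im * (dV α x u j).im) := by
    intro j
    rw [dG_add (Smooth1.fmul (hb j).re (Smooth1.dF (hα j).re))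
      (Smooth1.fmul (hb j).im (Smooth1.dF (hα j).im)), dG_fd (hb j).re (hα j).re,
      dG_fd (hb j).im (hα j).im, at2_add, at2_wedG, at2_wedG, ← dC_re (hα j), ← dC_re (hα j),
      ← dC_im (hα j), ← dC_im (hα j), ← dC_re (hb j), ← dC_re (hb j), ← dC_im (hb j),
      ← dC_im (hb j)]
    show _ = ((dC (fun y => b y j) x u).re * (dC (fun y => α y j) x v).re + _ * _) -
      (_ * (dC (fun y => α y j) x u).re + _ * _)
    show _ = ((dC (fun y => b y j) x u).re * (dC (fun y => α y j) x v).re +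
      (dC (fun y => b y j) x u).im * (dC (fun y => α y j) x v).im) -
      ((dC (fun y => b y j) x v).re * (dC (fun y => α y j) x u).re +
      (dC (fun y => b y j) x v).im * (dC (fun y => α y j) x u).im)
    ring
  rw [Finset.sum_congr rfl fun j _ => h1 j, Finset.sum_sub_distrib, ← hp_re, ← hp_re]
  simp only [Complex.add_re, Complex.sub_re, Complex.mul_re, Complex.I_re, Complex.I_im,
    Complex.add_im, Complex.sub_im, Complex.mul_im, Complex.ofReal_re, Complex.ofReal_im]
  ring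

/-- the exterior derivative of the imaginary part. -/
theorem dG_lim {a : F1 E4 M} (ha : Smooth1 a) {α b : M → ι → ℂ} (hα : SmV α)
    (hb : SmV b) (x : M) (u v : E4) :
    at2 (dG (lim a α b)) x u v =
      (hp (dV α x v) (dV b x u) - hp (dV α x u) (dV b x v)
        + Complex.I * (at1 a x v * (hp (dV α x u) (b x) + hp (α x) (dV b x u))
          - at1 a x u * (hp (dV α x v) (b x) + hp (α x) (dV b x v)))
        + Complex.I * at2 (dG a) x u v * hp (α x) (b x)).im := by
  have hs : ∀ j : ι, Smooth1 (fmul1 (fun x => (b x j).re) (dF fun x => (α x j).im) +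
      fmul1 (fun x => -(b x j).im) (dF (E := E4) fun x => (α x j).re)) := fun j =>
    (Smooth1.fmul (hb j).re (Smooth1.dF (hα j).im)).add
      (Smooth1.fmul (hb j).im.neg (Smooth1.dF (hα j).re))
  unfold lim
  rw [dG_add (Tau_692.smooth1_sum _ fun j _ => hs j) (Smooth1.fmul (smC_hp hα hb).re ha),
    Tau_692.dG_sum _ fun j _ => hs j, dG_fmul1 (smC_hp hα hb).re ha, at2_add,
    Tau_692.at2_sum, at2_add, at2_wedG, at2_fmul,
    ← dC_re (smC_hp hα hb), ← dC_re (smC_hp hα hb), dC_hp hα hb, dC_hp hα hb]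
  have h1 : ∀ j : ι, at2 (dG (fmul1 (fun x => (b x j).re) (dF fun x => (α x j).im) +
      fmul1 (fun x => -(b x j).im) (dF (E := E4) fun x => (α x j).re))) x u v =
      ((dV b x u j).re * (dV α x v j).im + (-(dV b x u j).im) * (dV α x v j).re) -
      ((dV b x v j).re * (dV α x u j).im + (-(dV b x v j).im) * (dV α x u j).re) := by
    intro j
    rw [dG_add (Smooth1.fmul (hb j).re (Smooth1.dF (hα j).im))
      (Smooth1.fmul (hb j).im.neg (Smooth1.dF (hα j).re)), dG_fd (hb j).re (hα j).im,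
      dG_fd (hb j).im.neg (hα j).re, at2_add, at2_wedG, at2_wedG, dF_neg (hb j).im,
      dF_neg (hb j).im, ← dC_re (hα j), ← dC_re (hα j),
      ← dC_im (hα j), ← dC_im (hα j), ← dC_re (hb j), ← dC_re (hb j), ← dC_im (hb j),
      ← dC_im (hb j)]
    show _ = ((dC (fun y => b y j) x u).re * (dC (fun y => α y j) x v).im +
      (-(dC (fun y => b y j) x u).im) * (dC (fun y => α y j) x v).re) -
      ((dC (fun y => b y j) x v).re * (dC (fun y => α y j) x u).im +
      (-(dC (fun y => b y j) x v).im) * (dC (fun y => α y j) x u).re)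
    ring
  rw [Finset.sum_congr rfl fun j _ => h1 j, Finset.sum_sub_distrib, ← hp_im, ← hp_im]
  simp only [Complex.add_re, Complex.sub_re, Complex.mul_re, Complex.I_re, Complex.I_im,
    Complex.add_im, Complex.sub_im, Complex.mul_im, Complex.ofReal_re, Complex.ofReal_im]
  ring

/-- the curvature `Φ = i F_A = 2π c - da`. -/
def Phi (c : Z2 M) (a : F1 E4 M) (x : M) : Bil := (2 * Real.pi) • val c x - at2 (dG a) x

/-- the hermitian wedge `⟨θ ∧ ζ⟩ (u, v) = ⟨θ u, ζ v⟩ - ⟨θ v, ζ u⟩`. -/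
def hw (θ ζ : E4 → ι → ℂ) (u v : E4) : ℂ := hp (θ u) (ζ v) - hp (θ v) (ζ u)

/-- **the curvature identity**. -/
theorem curv (h : Ln p) {c : Z2 M} (hc : Ch0 p c) (a : F1 E4 M)
    {α b : M → ι → ℂ} (hα : SmV α) (hb : SmV b) (hpα : ∀ x, p x *ᵥ α x = α x)
    (hpb : ∀ x, p x *ᵥ b x = b x) (x : M) (u v : E4) :
    hp (dV α x v) (dV b x u) - hp (dV α x u) (dV b x v)
        + Complex.I * (at1 a x v * (hp (dV α x u) (b x) + hp (α x) (dV b x u))
          - at1 a x u * (hp (dV α x v) (b x) + hp (α x) (dV b x v)))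
        + Complex.I * at2 (dG a) x u v * hp (α x) (b x)
      = - Complex.I * (Phi c a x u v : ℂ) * hp (α x) (b x)
        - hw (nab p a α x) (nab p a b x) u v := by
  have h1 := curv_alg (r1 h x) (dmt_line h x u) (dmt_line h x v) (dmt_herm h x u)
    (dmt_herm h x v) (hpα x) (hpb x) (dV_line h hα hpα x u) (dV_line h hα hpα x v)
    (dV_line h hb hpb x u) (dV_line h hb hpb x v) (at1 a x u) (at1 a x v) (at2 (dG a) x u v)
  rw [h1, trace_chern h hc]
  unfold hw nab
  congr 1
  have h2 : (Phi c a x u v : ℂ) =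
      2 * Real.pi * (val c x u v : ℂ) - (at2 (dG a) x u v : ℂ) := by
    unfold Phi
    simp only [_root_.sub_apply, _root_.smul_apply, smul_eq_mul]
    push_cast
    ring
  rw [h2]
  ring

theorem dG_lre_eq (h : Ln p) {c : Z2 M} (hc : Ch0 p c) {a : F1 E4 M} (ha : Smooth1 a)
    {α b : M → ι → ℂ} (hα : SmV α) (hb : SmV b) (hpα : ∀ x, p x *ᵥ α x = α x)
    (hpb : ∀ x, p x *ᵥ b x = b x) (x : M) (u v : E4) :
    at2 (dG (lre a α b)) x u v = Phi c a x u v * (hp (α x) (b x)).im
      - (hw (nab p a α x) (nab p a b x) u v).re := by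
  rw [dG_lre ha hα hb, curv h hc a hα hb hpα hpb]
  simp only [Complex.add_re, Complex.sub_re, Complex.mul_re, Complex.I_re, Complex.I_im,
    Complex.add_im, Complex.sub_im, Complex.mul_im, Complex.ofReal_re, Complex.ofReal_im,
    Complex.neg_re, Complex.neg_im]
  ring

theorem dG_lim_eq (h : Ln p) {c : Z2 M} (hc : Ch0 p c) {a : F1 E4 M} (ha : Smooth1 a)
    {α b : M → ι → ℂ} (hα : SmV α) (hb : SmV b) (hpα : ∀ x, p x *ᵥ α x = α x)
    (hpb : ∀ x, p x *ᵥ b x = b x) (x : M) (u v : E4) :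
    at2 (dG (lim a α b)) x u v = - Phi c a x u v * (hp (α x) (b x)).re
      - (hw (nab p a α x) (nab p a b x) u v).im := by
  rw [dG_lim ha hα hb, curv h hc a hα hb hpα hpb]
  simp only [Complex.add_re, Complex.sub_re, Complex.mul_re, Complex.I_re, Complex.I_im,
    Complex.add_im, Complex.sub_im, Complex.mul_im, Complex.ofReal_re, Complex.ofReal_im,
    Complex.neg_re, Complex.neg_im]
  ring

end

end Crest.Agent.R235.Tau483
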