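import Crest.Agent.R235.TauL_483
import Crest.Agent.R235.TauJ_129

/-!
Row 235 (S0364), package SW, model (helper692): from `JF` (129) to the uniform bounds `O1`, `OO` (483) over
the sphere `|t| = 1`.
-/

set_option autoImplicit false
set_option maxSynthPendingDepth 3
set_option linter.unusedSectionVars false

open scoped ContDiff ENNReal NNReal Topology Manifold Bundle RealInnerProductSpace
open MeasureTheory Set Filter Metric Bundle Matrix

universe v

namespace Crest.Agent.R235.FamR_692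

open Crest.Agent.R240 Crest.Agent.R240.Ch Crest.Agent.R240.Int Crest.Agent.R235.SWDefs_53
open Crest.Agent.R235.Tau483 Crest.Agent.R235.TauJ
open Crest.Agent.R249.Tz805 (ToF)

noncomputable section

/-- the parameters -/
abbrev Sph : Type := {t : E3 // ‖t‖ = 1}

theorem Sph.ne (t : Sph) : t.1 ≠ 0 := fun h => by
  have := t.2
  rw [h, norm_zero] at this
  exact zero_ne_one this

variable {M : Type v} [MetricSpace M] [CompactSpace M] [ConnectedSpace M]
  [ChartedSpace (EuclideanSpace ℝ (Fin 4)) M] [IsManifold (𝓡 4) ∞ M]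
  [RiemannianBundle (fun p : M => TangentSpace (𝓡 4) p)]
  [IsContMDiffRiemannianBundle (𝓡 4) ∞ (EuclideanSpace ℝ (Fin 4))
    (fun p : M => TangentSpace (𝓡 4) p)]
  [IsRiemannianManifold (𝓡 4) M] [MeasurableSpace M] [BorelSpace M]
  [SecondCountableTopology M] [Nonempty M]

theorem oo_of {f : E3 → M → ℝ} (hf : JF f) : OO (fun _ _ => 1) fun (θ : Sph) => f θ.1 := by
  obtain ⟨C, c, h⟩ := hf.bound
  exact ⟨C, c, fun θ z => by rw [mul_one]; exact h θ.1 θ.2 z⟩

theorem sm_of {f : E3 → M → ℝ} (hf : JF f) {t : E3} (ht : t ≠ 0) :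
    ContMDiff (𝓡 4) 𝓘(ℝ, ℝ) ∞ (f t) :=
  (Crest.Agent.R240.Ch.smoothF_iff _).2 (hf.sl ht)

theorem o1_of (T : ToF 4 M) {f : E3 → M → ℝ} (hf : JF f) : O1 fun (θ : Sph) => f θ.1 where
  sm θ := sm_of hf θ.ne
  b0 := oo_of hf
  b1 := by
    obtain ⟨C, c, h⟩ := hf.Gr_bound T
    exact ⟨C, c, fun θ z => by rw [mul_one, abs_norm]; exact h θ.1 θ.2 z⟩

end

end Crest.Agent.R235.FamR_692
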