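import Mathlib

/-!
Row 235 (S0364), PACKAGE FAM / SWJ (leader helper307): DEFINITIONS and the exact Props of the finite
dimensional part (`b₊ = 3`, index `0` over the Jacobian torus).

* `pdθ j p h`      : partial derivative in the torus direction `j`;
* `PPer b m P`     : smooth `ℤ^b`-periodic family of orthogonal projections of rank `m`;
* `tr`             : trace on a finite dimensional space; `trB e X = ∑' ⟨e i, X e i⟩` for a Hilbert basis `e`;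
* `ch2`, `ch4`, `chsq` : `∫ tr(P dP dP)`, `∫ tr(P dP⁴)`, `∫ tr(P dP dP)²` over the unit cube;
* `FSys`           : an `S¹`-equivariant periodic map `f = (fR, fC)` on `T × ℝ^b × range P`, equal dimensions,
                     linear isomorphism on the fixed part `ψ = 0`, without values in `{0} × ℝ≥0 v` for `‖ψ‖ ≥ R`;
* `FDS2`, `FDS4`   : no value on the ray over `‖t‖ = 1`  ⇒  `ch2 P = 0`, `ch4 P + chsq P = 0`;
* `FDH4`           : the ray is hit over `‖t‖ = 1` at one nondegenerate point ⇒ `ch4 P + chsq P ≠ 0`;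
* `GAUSS2`, `GAUSS4` : the Gaussian integrals;
* `FOUR`           : a closed periodic 2-form with vanishing means has `∫ w ∧ w = 0`.
-/

set_option autoImplicit false
set_option maxSynthPendingDepth 3

open Set Filter Module MeasureTheory Function
open scoped ContDiff Topology InnerProductSpace

namespace Crest.Agent.R235.FamDefs_307

noncomputable section

/-- partial derivative in the torus direction `j`. -/
def pdθ {b : ℕ} {V : Type*} [NormedAddCommGroup V] [NormedSpace ℝ V] (j : Fin b)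
    (p : (Fin b → ℝ) → V) (h : Fin b → ℝ) : V := fderiv ℝ p h (Pi.single j 1)

/-- the sign of a permutation as a complex number. -/
def sg {b : ℕ} (σ : Equiv.Perm (Fin b)) : ℂ := ((Equiv.Perm.sign σ : ℤ) : ℂ)

section fd

variable {Y : Type*} [NormedAddCommGroup Y] [InnerProductSpace ℂ Y]

/-- trace of an operator of a finite dimensional space. -/
def tr (X : Y →L[ℂ] Y) : ℂ := LinearMap.trace ℂ Y (X : Y →ₗ[ℂ] Y)

/-- trace in a Hilbert basis. -/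
def trB {ι : Type*} (e : HilbertBasis ι ℂ Y) (X : Y →L[ℂ] Y) : ℂ := ∑' i, ⟪e i, X (e i)⟫_ℂ

/-- a smooth `ℤ^b`-periodic family of orthogonal projections of rank `m`. -/
structure PPer [CompleteSpace Y] (b m : ℕ) (P : (Fin b → ℝ) → Y →L[ℂ] Y) : Prop where
  smooth : ContDiff ℝ ∞ P
  per : ∀ (h : Fin b → ℝ) (k : Fin b → ℤ), P (fun i => h i + k i) = P h
  idem : ∀ h x, P h (P h x) = P h x
  sa : ∀ h x y, ⟪P h x, y⟫_ℂ = ⟪x, P h y⟫_ℂ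
  rank : ∀ h, finrank ℂ (LinearMap.range (P h : Y →ₗ[ℂ] Y)) = m

/-- `∫ tr (P dP dP)` (coefficient of `dθ₀ dθ₁`) for a trace functional `τ`. -/
def ch2 (τ : (Y →L[ℂ] Y) → ℂ) (P : (Fin 2 → ℝ) → Y →L[ℂ] Y) : ℂ :=
  ∫ h in Icc (0 : Fin 2 → ℝ) 1, ∑ σ : Equiv.Perm (Fin 2),
    sg σ * τ (P h * pdθ (σ 0) P h * pdθ (σ 1) P h)

/-- `∫ tr (P dP dP dP dP)` (coefficient of `dθ₀ dθ₁ dθ₂ dθ₃`). -/
def ch4 (τ : (Y →L[ℂ] Y) → ℂ) (P : (Fin 4 → ℝ) → Y →L[ℂ] Y) : ℂ :=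
  ∫ h in Icc (0 : Fin 4 → ℝ) 1, ∑ σ : Equiv.Perm (Fin 4),
    sg σ * τ (P h * pdθ (σ 0) P h * pdθ (σ 1) P h * pdθ (σ 2) P h * pdθ (σ 3) P h)

/-- `∫ tr (P dP dP) ∧ tr (P dP dP)`. -/
def chsq (τ : (Y →L[ℂ] Y) → ℂ) (P : (Fin 4 → ℝ) → Y →L[ℂ] Y) : ℂ :=
  ∫ h in Icc (0 : Fin 4 → ℝ) 1, ∑ σ : Equiv.Perm (Fin 4),
    sg σ * (τ (P h * pdθ (σ 0) P h * pdθ (σ 1) P h) * τ (P h * pdθ (σ 2) P h * pdθ (σ 3) P h))

end fd

/-! ### the finite dimensional theorems -/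

section sys

variable {T H YR YC : Type} [NormedAddCommGroup T] [NormedSpace ℝ T] [FiniteDimensional ℝ T]
  [NormedAddCommGroup H] [InnerProductSpace ℂ H] [FiniteDimensional ℂ H]
  [NormedAddCommGroup YR] [NormedSpace ℝ YR] [FiniteDimensional ℝ YR]
  [NormedAddCommGroup YC] [NormedSpace ℂ YC] [FiniteDimensional ℂ YC]

/-- an equivariant periodic map, `q = 0` (the fixed part is an isomorphism `L`). -/
structure FSys (b m : ℕ) (P : (Fin b → ℝ) → H →L[ℂ] H) (L : T ≃L[ℝ] YR)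
    (fR : T × (Fin b → ℝ) × H → YR) (fC : T × (Fin b → ℝ) × H → YC) (v : YC) (R : ℝ) : Prop where
  proj : PPer b m P
  hdim : b + 2 * m = 2 * finrank ℂ YC
  cR : Continuous fR
  cC : Continuous fC
  eqR : ∀ t h ψ (z : ℂ), ‖z‖ = 1 → fR (t, h, z • ψ) = fR (t, h, ψ)
  eqC : ∀ t h ψ (z : ℂ), ‖z‖ = 1 → fC (t, h, z • ψ) = z • fC (t, h, ψ)
  pR : ∀ t h ψ (k : Fin b → ℤ), fR (t, fun i => h i + k i, ψ) = fR (t, h, ψ)
  pC : ∀ t h ψ (k : Fin b → ℤ), fC (t, fun i => h i + k i, ψ) = fC (t, h, ψ)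
  fix : ∀ t h, ‖t‖ ≤ 1 → fR (t, h, 0) = L t
  vne : v ≠ 0
  big : ∀ t h ψ, ‖t‖ ≤ 1 → P h ψ = ψ → R ≤ ‖ψ‖ → fR (t, h, ψ) = 0 →
    ∀ s : ℝ, 0 ≤ s → fC (t, h, ψ) ≠ (s : ℂ) • v

/-- no value on the ray over `‖t‖ = 1`. -/
def NoRay {b : ℕ} (P : (Fin b → ℝ) → H →L[ℂ] H) (fR : T × (Fin b → ℝ) × H → YR)
    (fC : T × (Fin b → ℝ) × H → YC) (v : YC) : Prop :=
  ∀ t h ψ, ‖t‖ = 1 → P h ψ = ψ → fR (t, h, ψ) = 0 → ∀ s : ℝ, 0 ≤ s → fC (t, h, ψ) ≠ (s : ℂ) • v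

/-- over `‖t‖ = 1` the ray is hit at exactly one point modulo `ℤ^b`, which is nondegenerate
(hypothesis (3) of 778's FDJ, in the form of #1966). -/
def OneRay {b : ℕ} (P : (Fin b → ℝ) → H →L[ℂ] H) (fR : T × (Fin b → ℝ) × H → YR)
    (fC : T × (Fin b → ℝ) × H → YC) (v : YC) : Prop :=
  ∃ (t0 : T) (h0 : Fin b → ℝ) (ψ0 : H) (s0 : ℝ) (L' : T × (Fin b → ℝ) × H →L[ℝ] YR × YC),
    ‖t0‖ = 1 ∧ P h0 ψ0 = ψ0 ∧ 0 < s0 ∧ fR (t0, h0, ψ0) = 0 ∧ fC (t0, h0, ψ0) = (s0 : ℂ) • v ∧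
    (∀ t h ψ (s : ℝ), ‖t‖ = 1 → P h ψ = ψ → 0 ≤ s → fR (t, h, ψ) = 0 → fC (t, h, ψ) = (s : ℂ) • v →
      t = t0 ∧ ψ = ψ0 ∧ s = s0 ∧ ∃ k : Fin b → ℤ, h = fun i => h0 i + k i) ∧
    HasFDerivAt (fun x : T × (Fin b → ℝ) × H =>
      (fR (‖x.1‖⁻¹ • x.1, x.2.1, P x.2.1 x.2.2),
        fC (‖x.1‖⁻¹ • x.1, x.2.1, P x.2.1 x.2.2) - ((‖x.1‖ - 1 : ℝ) : ℂ) • v)) L'
      ((1 + s0) • t0, h0, ψ0) ∧
    ∀ τ κ ξ, P h0 ξ = ξ → L' (τ, κ, ξ) = 0 → τ = 0 ∧ κ = 0 ∧ ξ = 0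

end sys

/-- FDS2. -/
def FDS2 : Prop :=
  ∀ (T H YR YC : Type) [NormedAddCommGroup T] [NormedSpace ℝ T] [FiniteDimensional ℝ T]
    [NormedAddCommGroup H] [InnerProductSpace ℂ H] [FiniteDimensional ℂ H]
    [NormedAddCommGroup YR] [NormedSpace ℝ YR] [FiniteDimensional ℝ YR]
    [NormedAddCommGroup YC] [NormedSpace ℂ YC] [FiniteDimensional ℂ YC]
    (m : ℕ) (P : (Fin 2 → ℝ) → H →L[ℂ] H) (L : T ≃L[ℝ] YR)
    (fR : T × (Fin 2 → ℝ) × H → YR) (fC : T × (Fin 2 → ℝ) × H → YC) (v : YC) (R : ℝ),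
    FSys 2 m P L fR fC v R → NoRay P fR fC v → ch2 tr P = 0

/-- FDS4. -/
def FDS4 : Prop :=
  ∀ (T H YR YC : Type) [NormedAddCommGroup T] [NormedSpace ℝ T] [FiniteDimensional ℝ T]
    [NormedAddCommGroup H] [InnerProductSpace ℂ H] [FiniteDimensional ℂ H]
    [NormedAddCommGroup YR] [NormedSpace ℝ YR] [FiniteDimensional ℝ YR]
    [NormedAddCommGroup YC] [NormedSpace ℂ YC] [FiniteDimensional ℂ YC]
    (m : ℕ) (P : (Fin 4 → ℝ) → H →L[ℂ] H) (L : T ≃L[ℝ] YR)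
    (fR : T × (Fin 4 → ℝ) × H → YR) (fC : T × (Fin 4 → ℝ) × H → YC) (v : YC) (R : ℝ),
    FSys 4 m P L fR fC v R → NoRay P fR fC v → ch4 tr P + chsq tr P = 0

/-- FDH4. -/
def FDH4 : Prop :=
  ∀ (T H YR YC : Type) [NormedAddCommGroup T] [NormedSpace ℝ T] [FiniteDimensional ℝ T]
    [NormedAddCommGroup H] [InnerProductSpace ℂ H] [FiniteDimensional ℂ H]
    [NormedAddCommGroup YR] [NormedSpace ℝ YR] [FiniteDimensional ℝ YR]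
    [NormedAddCommGroup YC] [NormedSpace ℂ YC] [FiniteDimensional ℂ YC]
    (m : ℕ) (P : (Fin 4 → ℝ) → H →L[ℂ] H) (L : T ≃L[ℝ] YR)
    (fR : T × (Fin 4 → ℝ) × H → YR) (fC : T × (Fin 4 → ℝ) × H → YC) (v : YC) (R : ℝ),
    FSys 4 m P L fR fC v R → OneRay P fR fC v → ch4 tr P + chsq tr P ≠ 0

/-! ### the Gaussian integrals -/

section gauss

/-- the real linear map `(κ, ζ) ↦ ∑ κ_j B_j z + B ζ`. -/
def tot {b : ℕ} {Z Y : Type*} [NormedAddCommGroup Z] [InnerProductSpace ℂ Z]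
    [NormedAddCommGroup Y] [InnerProductSpace ℂ Y] (B : Z →L[ℂ] Y) (Bj : Fin b → Z →L[ℂ] Y) (z : Z) :
    ((Fin b → ℝ) × Z) →L[ℝ] Y :=
  (∑ j, ((ContinuousLinearMap.proj j : (Fin b → ℝ) →L[ℝ] ℝ).smulRight (Bj j z))).coprod
    (B.restrictScalars ℝ)

/-- `X_ij = n B_i^* q B_j`, `n = (B^* B)⁻¹`, `q = 1 - B n B^*`. -/
def Xij {Z Y : Type*} [NormedAddCommGroup Z] [InnerProductSpace ℂ Z] [CompleteSpace Z]
    [NormedAddCommGroup Y] [InnerProductSpace ℂ Y] [CompleteSpace Y]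
    (B Bi Bj : Z →L[ℂ] Y) : Z →L[ℂ] Z :=
  let n : Z →L[ℂ] Z := Ring.inverse (B.adjoint ∘L B)
  n ∘L Bi.adjoint ∘L (Bj - B ∘L n ∘L B.adjoint ∘L Bj)

/-- GAUSS2. -/
def GAUSS2 : Prop :=
  ∀ (Z Y : Type) [NormedAddCommGroup Z] [InnerProductSpace ℂ Z] [FiniteDimensional ℂ Z]
    [MeasurableSpace Z] [BorelSpace Z]
    [NormedAddCommGroup Y] [InnerProductSpace ℂ Y] [FiniteDimensional ℂ Y]
    (μ : Measure Z) [μ.IsAddHaarMeasure],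
    finrank ℂ Y = finrank ℂ Z + 1 → ∀ e : Y ≃L[ℝ] (Fin 2 → ℝ) × Z, ∃ c : ℝ, c ≠ 0 ∧
    ∀ (B : Z →L[ℂ] Y) (Bj : Fin 2 → Z →L[ℂ] Y), Injective B →
      Integrable (fun z => Real.exp (-‖B z‖ ^ 2) *
        LinearMap.det ((e : Y →L[ℝ] (Fin 2 → ℝ) × Z) ∘L tot B Bj z :
          ((Fin 2 → ℝ) × Z) →ₗ[ℝ] (Fin 2 → ℝ) × Z)) μ ∧
      ((∫ z, Real.exp (-‖B z‖ ^ 2) *
        LinearMap.det ((e : Y →L[ℝ] (Fin 2 → ℝ) × Z) ∘L tot B Bj z :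
          ((Fin 2 → ℝ) × Z) →ₗ[ℝ] (Fin 2 → ℝ) × Z) ∂μ : ℝ) : ℂ) =
        c * (Complex.I * ∑ σ : Equiv.Perm (Fin 2), sg σ * tr (Xij B (Bj (σ 0)) (Bj (σ 1))))

/-- GAUSS4. -/
def GAUSS4 : Prop :=
  ∀ (Z Y : Type) [NormedAddCommGroup Z] [InnerProductSpace ℂ Z] [FiniteDimensional ℂ Z]
    [MeasurableSpace Z] [BorelSpace Z]
    [NormedAddCommGroup Y] [InnerProductSpace ℂ Y] [FiniteDimensional ℂ Y]
    (μ : Measure Z) [μ.IsAddHaarMeasure],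
    finrank ℂ Y = finrank ℂ Z + 2 → ∀ e : Y ≃L[ℝ] (Fin 4 → ℝ) × Z, ∃ c : ℝ, c ≠ 0 ∧
    ∀ (B : Z →L[ℂ] Y) (Bj : Fin 4 → Z →L[ℂ] Y), Injective B →
      Integrable (fun z => Real.exp (-‖B z‖ ^ 2) *
        LinearMap.det ((e : Y →L[ℝ] (Fin 4 → ℝ) × Z) ∘L tot B Bj z :
          ((Fin 4 → ℝ) × Z) →ₗ[ℝ] (Fin 4 → ℝ) × Z)) μ ∧
      ((∫ z, Real.exp (-‖B z‖ ^ 2) *
        LinearMap.det ((e : Y →L[ℝ] (Fin 4 → ℝ) × Z) ∘L tot B Bj z :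
          ((Fin 4 → ℝ) × Z) →ₗ[ℝ] (Fin 4 → ℝ) × Z) ∂μ : ℝ) : ℂ) =
        c * ∑ σ : Equiv.Perm (Fin 4), sg σ *
          (tr (Xij B (Bj (σ 0)) (Bj (σ 1)) ∘L Xij B (Bj (σ 2)) (Bj (σ 3))) +
            tr (Xij B (Bj (σ 0)) (Bj (σ 1))) * tr (Xij B (Bj (σ 2)) (Bj (σ 3))))

end gauss

/-! ### Fourier -/

/-- FOUR: a closed periodic antisymmetric 2-form with vanishing means has `∫ w ∧ w = 0`. -/
def FOUR : Prop :=
  ∀ w : Fin 4 → Fin 4 → (Fin 4 → ℝ) → ℂ, (∀ i j, ContDiff ℝ ∞ (w i j)) →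
    (∀ i j h, w i j h = - w j i h) →
    (∀ i j h (k : Fin 4 → ℤ), w i j (fun l => h l + k l) = w i j h) →
    (∀ i j k h, pdθ i (w j k) h + pdθ j (w k i) h + pdθ k (w i j) h = 0) →
    (∀ i j, ∫ h in Icc (0 : Fin 4 → ℝ) 1, w i j h = 0) →
    ∫ h in Icc (0 : Fin 4 → ℝ) 1, ∑ σ : Equiv.Perm (Fin 4),
      sg σ * (w (σ 0) (σ 1) h * w (σ 2) (σ 3) h) = 0

end

end Crest.Agent.R235.FamDefs_307
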