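import Crest.Agent.R235.FamC_192
import Crest.Agent.R235.FamDefs_307

/-! Row 235, block FAM/C (helper192), part 2: the square form, embeddings (EMB). -/

set_option autoImplicit false
set_option maxSynthPendingDepth 3

open Set MeasureTheory Filter Topology
open scoped InnerProductSpace

namespace Crest.Agent.R235.FamC_192

section sq

variable {A : Type*} [NormedRing A] [NormedAlgebra ℝ A] {τ : A →L[ℝ] ℂ} {π : A}

/-- `(x₀,..,x₃) ↦ L (x₀ x₁) L' (x₂ x₃)` -/
noncomputable def sqI (L L' : A →L[ℝ] ℂ) : ContinuousMultilinearMap ℝ (fun _ : Fin 4 => A) ℂ :=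
  MultilinearMap.mkContinuous
      (MultilinearMap.mk' (fun X => L (X 0 * X 1) * L' (X 2 * X 3))
        (by
          intro v i x y
          fin_cases i <;> simp [Function.update, add_mul, mul_add])
        (by
          intro v i c x
          fin_cases i <;> simp [Function.update, mul_assoc, mul_left_comm]))
      (‖L‖ * ‖L'‖)
      (fun v => by
        simp only [MultilinearMap.coe_mk, MultilinearMap.mk']
        rw [Fin.prod_univ_four, norm_mul]
        have h1 := (L.le_opNorm (v 0 * v 1)).trans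
          (mul_le_mul_of_nonneg_left (norm_mul_le (v 0) (v 1)) (norm_nonneg L))
        have h2 := (L'.le_opNorm (v 2 * v 3)).trans
          (mul_le_mul_of_nonneg_left (norm_mul_le (v 2) (v 3)) (norm_nonneg L'))
        calc ‖L (v 0 * v 1)‖ * ‖L' (v 2 * v 3)‖
            ≤ (‖L‖ * (‖v 0‖ * ‖v 1‖)) * (‖L'‖ * (‖v 2‖ * ‖v 3‖)) := by gcongr
          _ = _ := by ring)

theorem sqI_apply (L L' : A →L[ℝ] ℂ) (X : Fin 4 → A) :
    sqI L L' X = L (X 0 * X 1) * L' (X 2 * X 3) := rfl

theorem sqI_norm (L L' : A →L[ℝ] ℂ) : ‖sqI L L'‖ ≤ ‖L‖ * ‖L'‖ :=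
  MultilinearMap.mkContinuous_norm_le _ (by positivity) _

/-- `(L, L') ↦ sqI L L'` -/
noncomputable def sqM (A : Type*) [NormedRing A] [NormedAlgebra ℝ A] :
    (A →L[ℝ] ℂ) →L[ℝ] (A →L[ℝ] ℂ) →L[ℝ] ContinuousMultilinearMap ℝ (fun _ : Fin 4 => A) ℂ :=
  LinearMap.mkContinuous₂
    (LinearMap.mk₂ ℝ (fun L L' => sqI L L')
      (by intro L₁ L₂ L'; ext v; simp [sqI_apply, add_mul])
      (by intro c L L'; ext v; simp [sqI_apply, mul_assoc])
      (by intro L L₁ L₂; ext v; simp [sqI_apply, mul_add])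
      (by intro c L L'; ext v; simp [sqI_apply, mul_left_comm]))
    1 (fun L L' => by
      rw [one_mul]
      exact sqI_norm L L')

theorem sqM_apply (L L' : A →L[ℝ] ℂ) : sqM A L L' = sqI L L' := rfl

/-- the square form on `A × A × A` -/
noncomputable def PsiSq (A : Type*) [NormedRing A] [NormedAlgebra ℝ A] :
    (A →L[ℝ] ℂ) →L[ℝ] (A →L[ℝ] ℂ) →L[ℝ] (A × A × A) [⋀^Fin 4]→L[ℝ] ℂ :=
  (ContinuousLinearMap.compL ℝ (A →L[ℝ] ℂ) _ _ ((ContinuousAlternatingMap.compContinuousLinearMapCLM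
    ((ContinuousLinearMap.snd ℝ A A).comp (ContinuousLinearMap.snd ℝ A (A × A)))).comp
      (altL 4))).comp (sqM A)

theorem PsiSq_apply (L L' : A →L[ℝ] ℂ) (X : Fin 4 → A × A × A) :
    PsiSq A L L' X = ∑ σ : Equiv.Perm (Fin 4), Equiv.Perm.sign σ •
      (L ((X (σ 0)).2.2 * (X (σ 1)).2.2) * L' ((X (σ 2)).2.2 * (X (σ 3)).2.2)) := by
  have h : PsiSq A L L' X = altL 4 (sqI L L') (fun i => (X i).2.2) := rfl
  rw [h, altL_apply]
  refine Finset.sum_congr rfl fun σ _ => ?_
  rw [sqI_apply]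
  rfl

/-- the square form -/
noncomputable def OmSq (τ : A →L[ℝ] ℂ) (x : A × A × A) : (A × A × A) [⋀^Fin 4]→L[ℝ] ℂ :=
  PsiSq A (Lam τ x.2.1 x.1) (Lam τ x.2.1 x.1)

theorem Lam_smooth (τ : A →L[ℝ] ℂ) : ContDiff ℝ 1 (fun x : A × A × A => Lam τ x.2.1 x.1) :=
  ((Lam τ).contDiff.comp (contDiff_fst.comp contDiff_snd)).clm_apply contDiff_fst

theorem Lam_fderiv (τ : A →L[ℝ] ℂ) (x y : A × A × A) :
    fderiv ℝ (fun x : A × A × A => Lam τ x.2.1 x.1) x y
      = Lam τ y.2.1 x.1 + Lam τ x.2.1 y.1 := by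
  have h1 : HasFDerivAt (fun x : A × A × A => x.2.1)
      ((ContinuousLinearMap.fst ℝ A A).comp (ContinuousLinearMap.snd ℝ A (A × A))) x :=
    ((ContinuousLinearMap.fst ℝ A A).comp (ContinuousLinearMap.snd ℝ A (A × A))).hasFDerivAt
  have h2 : HasFDerivAt (fun x : A × A × A => x.1) (ContinuousLinearMap.fst ℝ A (A × A)) x :=
    (ContinuousLinearMap.fst ℝ A (A × A)).hasFDerivAt
  have h3 := (Lam τ).hasFDerivAt_of_bilinear h1 h2
  rw [h3.fderiv]
  change Lam τ x.2.1 y.1 + Lam τ y.2.1 x.1 = _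
  rw [add_comm]

theorem OmSq_smooth : ContDiff ℝ 1 (OmSq τ) := by
  have h6 := Lam_smooth τ
  have h7 : ContDiff ℝ 1 (fun x : A × A × A => PsiSq A (Lam τ x.2.1 x.1)) := by
    have h5 : ContDiff ℝ 1 (fun L : A →L[ℝ] ℂ => PsiSq A L) :=
      ContinuousLinearMap.contDiff (𝕜 := ℝ) (E := A →L[ℝ] ℂ)
        (F := (A →L[ℝ] ℂ) →L[ℝ] (A × A × A) [⋀^Fin 4]→L[ℝ] ℂ) (n := 1) (PsiSq A)
    exact h5.comp h6
  exact h7.clm_apply h6

theorem OmSq_fderiv (x y : A × A × A) :
    fderiv ℝ (OmSq τ) x y = PsiSq A (Lam τ x.2.1 x.1) (Lam τ y.2.1 x.1 + Lam τ x.2.1 y.1)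
      + PsiSq A (Lam τ y.2.1 x.1 + Lam τ x.2.1 y.1) (Lam τ x.2.1 x.1) := by
  have h6 := ((Lam_smooth τ).differentiable one_ne_zero x).hasFDerivAt
  have h7 : HasFDerivAt (OmSq τ) _ x :=
    ContinuousLinearMap.hasFDerivAt_of_bilinear (𝕜 := ℝ) (PsiSq A) h6 h6
  rw [h7.fderiv, ← Lam_fderiv]
  rfl

section facts

variable {E : Type*} [NormedAddCommGroup E] [NormedSpace ℝ E] {U W : E → A}

theorem dU_r (hU : Differentiable ℝ U) (hF : ∀ x, Fa π (U x) (W x)) (x w : E) :
    fderiv ℝ U x w * π = fderiv ℝ U x w := by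
  have h1 : HasFDerivAt (fun x => U x * π) _ x := (hU x).hasFDerivAt.mul_const' π
  have h2 : HasFDerivAt (fun x => U x * π) (fderiv ℝ U x) x := by
    rw [show (fun x => U x * π) = U from funext fun x => (hF x).r]; exact (hU x).hasFDerivAt
  have h3 := congrArg (fun L : E →L[ℝ] A => L w) (h1.unique h2)
  simpa using h3

theorem dW_l (hW : Differentiable ℝ W) (hF : ∀ x, Fa π (U x) (W x)) (x w : E) :
    π * fderiv ℝ W x w = fderiv ℝ W x w := by
  have h1 : HasFDerivAt (fun x => π * W x) _ x := (hW x).hasFDerivAt.const_mul π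
  have h2 : HasFDerivAt (fun x => π * W x) (fderiv ℝ W x) x := by
    rw [show (fun x => π * W x) = W from funext fun x => (hF x).l]; exact (hW x).hasFDerivAt
  have h3 := congrArg (fun L : E →L[ℝ] A => L w) (h1.unique h2)
  simpa using h3

theorem dq_odd (hU : Differentiable ℝ U) (hW : Differentiable ℝ W) (hF : ∀ x, Fa π (U x) (W x))
    (x w : E) : Odd (U x * W x) (U x * fderiv ℝ W x w + fderiv ℝ U x w * W x) := by
  have h0 := (hU x).hasFDerivAt.fun_mul' (hW x).hasFDerivAt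
  have h1 := h0.fun_mul' h0
  rw [show (fun x => (U x * W x) * (U x * W x)) = fun x => U x * W x from
      funext fun x => fa_idem (hF x)] at h1
  have h3 := congrArg (fun L : E →L[ℝ] A => L w) (h1.unique h0)
  simpa [Odd, mul_add, add_mul] using h3

theorem dP_zero (hU : Differentiable ℝ U) (hW : Differentiable ℝ W) (hF : ∀ x, Fa π (U x) (W x))
    (x w : E) :
    (W x * U x) * (fderiv ℝ W x w * U x + W x * fderiv ℝ U x w) * (W x * U x) = 0 := by
  have hP : ∀ x, (W x * U x) * (W x * U x) = W x * U x := by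
    intro x; rw [← mul_assoc, (hF x).wuw]
  have h0 := (hW x).hasFDerivAt.fun_mul' (hU x).hasFDerivAt
  have h1 := h0.fun_mul' h0
  rw [show (fun x => (W x * U x) * (W x * U x)) = fun x => W x * U x from funext hP] at h1
  have h3 := congrArg (fun L : E →L[ℝ] A => L w) (h1.unique h0)
  have h4 : W x * U x * (W x * fderiv ℝ U x w + fderiv ℝ W x w * U x)
      + (W x * fderiv ℝ U x w + fderiv ℝ W x w * U x) * (W x * U x)
      = W x * fderiv ℝ U x w + fderiv ℝ W x w * U x := by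
    simpa [mul_add, add_mul] using h3
  have hPP := hP x
  set P := W x * U x with hPdef
  set D := W x * fderiv ℝ U x w + fderiv ℝ W x w * U x with hD
  have h5 : fderiv ℝ W x w * U x + W x * fderiv ℝ U x w = D := by rw [hD, add_comm]
  rw [h5]
  have h6 : P * (P * D + D * P) * P = P * D * P := by rw [h4]
  have h7 : P * (P * D + D * P) * P = (P * P) * D * P + P * D * (P * P) := by noncomm_ring
  rw [h7, hPP] at h6
  simpa using h6

/-- closedness of the square form -/
theorem clP_sq (hτ : PT τ π) (hU : Differentiable ℝ U) (hW : Differentiable ℝ W)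
    (hF : ∀ x, Fa π (U x) (W x)) : ClP (OmSq τ) (tri U W) := by
  intro x v i
  have hZ : ∀ a b : Fin 4, (Lam τ (fderiv ℝ W x (v i)) (U x) + Lam τ (W x) (fderiv ℝ U x (v i)))
      ((i.removeNth (fun j => fderiv ℝ (tri U W) x (v j)) a).2.2
        * (i.removeNth (fun j => fderiv ℝ (tri U W) x (v j)) b).2.2) = 0 := by
    intro a b
    have e1 : ∀ a : Fin 4, (i.removeNth (fun j => fderiv ℝ (tri U W) x (v j)) a)
      = fderiv ℝ (tri U W) x (v (i.succAbove a)) := fun _ => rfl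
    have key := van hτ (hF x) (dU_r hU hF x (v i)) (dW_l hW hF x (v i))
      (Z := (i.removeNth (fun j => fderiv ℝ (tri U W) x (v j)) a).2.2
        * (i.removeNth (fun j => fderiv ℝ (tri U W) x (v j)) b).2.2) (by
          have h1 := (odd_list (q := U x * W x) [(i.removeNth (fun j => fderiv ℝ (tri U W) x (v j)) a).2.2,
            (i.removeNth (fun j => fderiv ℝ (tri U W) x (v j)) b).2.2] (by
              intro e he
              simp only [List.mem_cons, List.not_mem_nil, or_false] at he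
              rcases he with rfl | rfl
              · rw [e1, tri_fderiv (hU x) (hW x)]
                exact dq_odd hU hW hF x _
              · rw [e1, tri_fderiv (hU x) (hW x)]
                exact dq_odd hU hW hF x _)).1 ⟨1, rfl⟩
          simpa using h1)
      (dP_zero hU hW hF x (v i))
    rw [_root_.add_apply, Lam_apply, Lam_apply, add_comm]
    exact key
  rw [OmSq_fderiv]
  have e2 : fderiv ℝ (tri U W) x (v i) = (fderiv ℝ U x (v i), fderiv ℝ W x (v i),
      U x * fderiv ℝ W x (v i) + fderiv ℝ U x (v i) * W x) := tri_fderiv (hU x) (hW x) (v i)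
  rw [e2]
  change PsiSq A _ (Lam τ (fderiv ℝ W x (v i)) (U x) + Lam τ (W x) (fderiv ℝ U x (v i))) _
    + PsiSq A (Lam τ (fderiv ℝ W x (v i)) (U x) + Lam τ (W x) (fderiv ℝ U x (v i))) _ _ = 0
  rw [PsiSq_apply, PsiSq_apply, ← Finset.sum_add_distrib]
  refine Finset.sum_eq_zero fun σ _ => ?_
  rw [hZ, hZ]
  simp

end facts

/-- the square number of `q = U W` with the corner trace `τ` -/
noncomputable def denSq (τ : A →L[ℝ] ℂ) (U W : (Fin 4 → ℝ) → A) : ℂ :=
  ∫ y in Icc (0 : Fin 4 → ℝ) 1, ∑ σ : Equiv.Perm (Fin 4), Equiv.Perm.sign σ •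
    (τ (W y * (fderiv ℝ (fun y => U y * W y) y (Pi.single (σ 0) 1)
        * fderiv ℝ (fun y => U y * W y) y (Pi.single (σ 1) 1)) * U y)
      * τ (W y * (fderiv ℝ (fun y => U y * W y) y (Pi.single (σ 2) 1)
        * fderiv ℝ (fun y => U y * W y) y (Pi.single (σ 3) 1)) * U y))

theorem OmSq_apply (x : A × A × A) (X : Fin 4 → A × A × A) :
    OmSq τ x X = ∑ σ : Equiv.Perm (Fin 4), Equiv.Perm.sign σ •
      (τ (x.2.1 * ((X (σ 0)).2.2 * (X (σ 1)).2.2) * x.1)
        * τ (x.2.1 * ((X (σ 2)).2.2 * (X (σ 3)).2.2) * x.1)) := by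
  rw [OmSq, PsiSq_apply]; rfl

/-- **homotopy invariance of the square number** -/
theorem homotopy_sq (hτ : PT τ π) {U W : (Fin 5 → ℝ) → A}
    (hU : ContDiff ℝ 2 U) (hW : ContDiff ℝ 2 W) (hF : ∀ x, Fa π (U x) (W x))
    (hper : ∀ k : Fin 4, ∃ V V' : A, V' * V = 1 ∧ ∀ x, U (x + Pi.single k.succ 1) = V * U x ∧
      W (x + Pi.single k.succ 1) = W x * V') :
    denSq τ (fun y => U (Fin.cons 1 y)) (fun y => W (Fin.cons 1 y))
      = denSq τ (fun y => U (Fin.cons 0 y)) (fun y => W (Fin.cons 0 y)) := by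
  have hU1 := hU.differentiable two_ne_zero
  have hW1 := hW.differentiable two_ne_zero
  have hf : ContDiff ℝ 2 (tri U W) := hU.prodMk (hW.prodMk (hU.mul hW))
  have key := homotopyC (OmSq_smooth (τ := τ)) (tri U W) hf (clP_sq hτ hU1 hW1 hF) (by
    intro k
    obtain ⟨V, V', hV, hp⟩ := hper k
    refine ⟨(ContinuousLinearMap.mul ℝ A V).prodMap
      (((ContinuousLinearMap.mul ℝ A).flip V').prodMap (ContinuousLinearMap.mulLeftRight ℝ A V V')),
      fun q v => ?_, fun x => ?_⟩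
    · rw [OmSq_apply, OmSq_apply]
      refine Finset.sum_congr rfl fun σ _ => ?_
      have h1 : ∀ a b : Fin 4, q.2.1 * V' * (V * (v a).2.2 * V' * (V * (v b).2.2 * V')) * (V * q.1)
          = q.2.1 * ((v a).2.2 * (v b).2.2) * q.1 := by
        intro a b
        calc q.2.1 * V' * (V * (v a).2.2 * V' * (V * (v b).2.2 * V')) * (V * q.1)
            = q.2.1 * (V' * V) * (v a).2.2 * (V' * V) * (v b).2.2 * (V' * V) * q.1 := by
              noncomm_ring
          _ = _ := by rw [hV]; noncomm_ring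
      congr 1
      change τ (q.2.1 * V' * (V * (v (σ 0)).2.2 * V' * (V * (v (σ 1)).2.2 * V')) * (V * q.1))
        * τ (q.2.1 * V' * (V * (v (σ 2)).2.2 * V' * (V * (v (σ 3)).2.2 * V')) * (V * q.1)) = _
      rw [h1, h1]
    · obtain ⟨h1, h2⟩ := hp x
      simp only [tri, h1, h2]
      refine Prod.ext rfl (Prod.ext rfl ?_)
      change V * U x * (W x * V') = V * (U x * W x) * V'
      simp only [mul_assoc])
  have h2 : ∀ c : ℝ, denSq τ (fun y => U (Fin.cons c y)) (fun y => W (Fin.cons c y))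
      = ∫ y in Icc (0 : Fin 4 → ℝ) 1, OmSq τ (tri U W (Fin.cons c y))
        (fun j => fderiv ℝ (tri U W) (Fin.cons c y) (Pi.single j.succ 1)) := by
    intro c
    unfold denSq
    refine integral_congr_ae (Eventually.of_forall fun y => ?_)
    simp only
    rw [OmSq_apply]
    refine Finset.sum_congr rfl fun σ _ => ?_
    have h5 : ∀ j : Fin 4, fderiv ℝ (fun y => U (Fin.cons c y) * W (Fin.cons c y)) y (Pi.single j 1)
        = (fderiv ℝ (tri U W) (Fin.cons c y) (Pi.single j.succ 1)).2.2 := by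
      intro j
      rw [fderiv_slice (f := fun x => U x * W x) (hU1.mul hW1), tri_fderiv (hU1 _) (hW1 _)]
      have h3 := (hU1 (Fin.cons c y)).hasFDerivAt.fun_mul' (hW1 (Fin.cons c y)).hasFDerivAt
      rw [h3.fderiv]
      rfl
    rw [h5, h5, h5, h5]
    rfl
  rw [h2, h2, key]

end sq

end Crest.Agent.R235.FamC_192
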