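import Crest.Agent.R235.FamC2_192

/-! Row 235, block FAM/C (helper192), part 3: EMB.  Two embeddings of the same bundle have the same
Chern-Weil numbers. -/

set_option autoImplicit false
set_option maxSynthPendingDepth 3

open Set MeasureTheory Filter Topology Module
open scoped InnerProductSpace ContDiff

namespace Crest.Agent.R235.FamC_192

open FamDefs_307

section emb

variable {H1 H2 : Type*} [NormedAddCommGroup H1] [InnerProductSpace ℂ H1] [FiniteDimensional ℂ H1]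
  [NormedAddCommGroup H2] [InnerProductSpace ℂ H2]

theorem norm_tr_le (X : H1 →L[ℂ] H1) : ‖tr X‖ ≤ finrank ℂ H1 * ‖X‖ := by
  have h1 : tr X = ∑ i, ⟪stdOrthonormalBasis ℂ H1 i, X (stdOrthonormalBasis ℂ H1 i)⟫_ℂ := by
    rw [tr, LinearMap.trace_eq_sum_inner _ (stdOrthonormalBasis ℂ H1)]
    rfl
  rw [h1]
  refine (norm_sum_le _ _).trans ?_
  have h2 : ∀ i ∈ Finset.univ, ‖⟪stdOrthonormalBasis ℂ H1 i, X (stdOrthonormalBasis ℂ H1 i)⟫_ℂ‖
      ≤ ‖X‖ := by
    intro i _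
    refine (norm_inner_le_norm _ _).trans ?_
    have h3 : ‖stdOrthonormalBasis ℂ H1 i‖ = 1 := (stdOrthonormalBasis ℂ H1).norm_eq_one i
    have h4 := X.le_opNorm (stdOrthonormalBasis ℂ H1 i)
    rw [h3, mul_one] at h4
    rw [h3, one_mul]
    exact h4
  refine (Finset.sum_le_card_nsmul _ _ _ h2).trans (le_of_eq ?_)
  simp

/-- the trace as a real continuous linear functional -/
noncomputable def trR (H1 : Type*) [NormedAddCommGroup H1] [InnerProductSpace ℂ H1]
    [FiniteDimensional ℂ H1] : (H1 →L[ℂ] H1) →L[ℝ] ℂ :=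
  LinearMap.mkContinuous
    { toFun := fun X => tr X
      map_add' := fun X Y => by simp [tr]
      map_smul' := fun c X => by
        have h : c • X = (c : ℂ) • X := by ext v; simp
        rw [h]
        simp [tr] }
    (finrank ℂ H1) (fun X => norm_tr_le X)

theorem trR_apply (X : H1 →L[ℂ] H1) : trR H1 X = tr X := rfl

omit [FiniteDimensional ℂ H1] in
theorem tr_mul_comm (X Y : H1 →L[ℂ] H1) : tr (X * Y) = tr (Y * X) := by
  simp only [tr]
  exact LinearMap.trace_mul_comm ℂ (X : H1 →ₗ[ℂ] H1) (Y : H1 →ₗ[ℂ] H1)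

/-- the algebra -/
abbrev Al (H1 H2 : Type*) [NormedAddCommGroup H1] [InnerProductSpace ℂ H1]
    [NormedAddCommGroup H2] [InnerProductSpace ℂ H2] := (H1 × H2) →L[ℂ] (H1 × H2)

/-- the corner `X ↦ fst X inl` -/
noncomputable def corner (H1 H2 : Type*) [NormedAddCommGroup H1] [InnerProductSpace ℂ H1]
    [NormedAddCommGroup H2] [InnerProductSpace ℂ H2] : Al H1 H2 →L[ℝ] (H1 →L[ℂ] H1) :=
  ((ContinuousLinearMap.compL ℂ H1 (H1 × H2) H1 (ContinuousLinearMap.fst ℂ H1 H2)).comp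
    ((ContinuousLinearMap.compL ℂ H1 (H1 × H2) (H1 × H2)).flip
      (ContinuousLinearMap.inl ℂ H1 H2))).restrictScalars ℝ

omit [FiniteDimensional ℂ H1] in
theorem corner_apply (X : Al H1 H2) :
    corner H1 H2 X = (ContinuousLinearMap.fst ℂ H1 H2) ∘L X ∘L (ContinuousLinearMap.inl ℂ H1 H2) := rfl

/-- corner trace -/
noncomputable def tau (H1 H2 : Type*) [NormedAddCommGroup H1] [InnerProductSpace ℂ H1]
    [FiniteDimensional ℂ H1] [NormedAddCommGroup H2] [InnerProductSpace ℂ H2] :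
    Al H1 H2 →L[ℝ] ℂ := (trR H1).comp (corner H1 H2)

theorem tau_apply (X : Al H1 H2) :
    tau H1 H2 X = tr ((ContinuousLinearMap.fst ℂ H1 H2) ∘L X ∘L (ContinuousLinearMap.inl ℂ H1 H2)) := rfl

/-- the projection onto the corner -/
noncomputable def pi1 (H1 H2 : Type*) [NormedAddCommGroup H1] [InnerProductSpace ℂ H1]
    [NormedAddCommGroup H2] [InnerProductSpace ℂ H2] : Al H1 H2 :=
  (ContinuousLinearMap.inl ℂ H1 H2) ∘L (ContinuousLinearMap.fst ℂ H1 H2)

theorem pt : PT (tau H1 H2) (pi1 H1 H2) where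
  idem := by ext x <;> simp [pi1]
  cyc := fun x y => by
    rw [tau_apply, tau_apply]
    have h : ∀ x y : Al H1 H2, (ContinuousLinearMap.fst ℂ H1 H2) ∘L
        (pi1 H1 H2 * x * pi1 H1 H2 * y * pi1 H1 H2) ∘L (ContinuousLinearMap.inl ℂ H1 H2)
        = ((ContinuousLinearMap.fst ℂ H1 H2) ∘L x ∘L (ContinuousLinearMap.inl ℂ H1 H2)) *
          ((ContinuousLinearMap.fst ℂ H1 H2) ∘L y ∘L (ContinuousLinearMap.inl ℂ H1 H2)) := by
      intro x y; ext v; simp [pi1]
    rw [h, h, tr_mul_comm]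

/-- `T ↦ a T b` -/
noncomputable def sand {E F G K : Type*} [NormedAddCommGroup E] [NormedSpace ℂ E]
    [NormedAddCommGroup F] [NormedSpace ℂ F] [NormedAddCommGroup G] [NormedSpace ℂ G]
    [NormedAddCommGroup K] [NormedSpace ℂ K] (a : F →L[ℂ] G) (b : K →L[ℂ] E) :
    (E →L[ℂ] F) →L[ℝ] (K →L[ℂ] G) :=
  ((ContinuousLinearMap.compL ℂ K F G a).comp
    ((ContinuousLinearMap.compL ℂ K E F).flip b)).restrictScalars ℝ

theorem sand_apply {E F G K : Type*} [NormedAddCommGroup E] [NormedSpace ℂ E]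
    [NormedAddCommGroup F] [NormedSpace ℂ F] [NormedAddCommGroup G] [NormedSpace ℂ G]
    [NormedAddCommGroup K] [NormedSpace ℂ K] (a : F →L[ℂ] G) (b : K →L[ℂ] E) (T : E →L[ℂ] F) :
    sand a b T = a ∘L T ∘L b := rfl

/-- `(x, y) ↦ (c P x, s A x)` -/
noncomputable def Um (c s : ℝ) (P : H1 →L[ℂ] H1) (Am : H1 →L[ℂ] H2) : Al H1 H2 :=
  c • sand (ContinuousLinearMap.inl ℂ H1 H2) (ContinuousLinearMap.fst ℂ H1 H2) P
    + s • sand (ContinuousLinearMap.inr ℂ H1 H2) (ContinuousLinearMap.fst ℂ H1 H2) Am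

/-- `(x, y) ↦ (c P x + s B y, 0)` -/
noncomputable def Wm (c s : ℝ) (P : H1 →L[ℂ] H1) (B : H2 →L[ℂ] H1) : Al H1 H2 :=
  c • sand (ContinuousLinearMap.inl ℂ H1 H2) (ContinuousLinearMap.fst ℂ H1 H2) P
    + s • sand (ContinuousLinearMap.inl ℂ H1 H2) (ContinuousLinearMap.snd ℂ H1 H2) B

omit [FiniteDimensional ℂ H1] in
theorem Um_apply (c s : ℝ) (P : H1 →L[ℂ] H1) (Am : H1 →L[ℂ] H2) (z : H1 × H2) :
    Um c s P Am z = (c • P z.1, s • Am z.1) := by
  simp [Um, sand_apply]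

omit [FiniteDimensional ℂ H1] in
theorem Wm_apply (c s : ℝ) (P : H1 →L[ℂ] H1) (B : H2 →L[ℂ] H1) (z : H1 × H2) :
    Wm c s P B z = (c • P z.1 + s • B z.2, 0) := by
  simp [Wm, sand_apply]

omit [FiniteDimensional ℂ H1] in
theorem al_ext {X Y : Al H1 H2} (h : ∀ z, X z = Y z) : X = Y := ContinuousLinearMap.ext h

omit [FiniteDimensional ℂ H1] in
theorem fa_uw {P : H1 →L[ℂ] H1} {Am : H1 →L[ℂ] H2} {B : H2 →L[ℂ] H1} {c s : ℝ}
    (hcs : c * c + s * s = 1) (hPP : ∀ x, P (P x) = P x) (hAP : ∀ x, Am (P x) = Am x)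
    (hPB : ∀ y, P (B y) = B y) (hBA : ∀ x, B (Am x) = P x) :
    Fa (pi1 H1 H2) (Um c s P Am) (Wm c s P B) where
  r := al_ext fun z => by simp [Um_apply, pi1]
  l := al_ext fun z => by simp [Wm_apply, pi1]
  uwu := al_ext fun z => by
    have h1 : c • P (c • P z.1) + s • B (s • Am z.1) = P z.1 := by
      rw [ContinuousLinearMap.map_smul_of_tower, ContinuousLinearMap.map_smul_of_tower, hPP, hBA, smul_smul, smul_smul, ← add_smul, hcs,
        one_smul]
    simp only [mul_apply_eq_comp, Um_apply, Wm_apply]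
    rw [h1, hPP, hAP]
  wuw := al_ext fun z => by
    simp only [mul_apply_eq_comp, Um_apply, Wm_apply]
    have h1 : c • P (c • P (c • P z.1 + s • B z.2)) + s • B (s • Am (c • P z.1 + s • B z.2))
        = c • P z.1 + s • B z.2 := by
      rw [ContinuousLinearMap.map_smul_of_tower, ContinuousLinearMap.map_smul_of_tower, hPP, hBA, smul_smul, smul_smul, ← add_smul, hcs,
        one_smul, map_add, ContinuousLinearMap.map_smul_of_tower, ContinuousLinearMap.map_smul_of_tower, hPP, hPB]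
    rw [h1]

/-- `1 ⊕ V` -/
noncomputable def Vh (V : H2 →L[ℂ] H2) : Al H1 H2 :=
  sand (ContinuousLinearMap.inl ℂ H1 H2) (ContinuousLinearMap.fst ℂ H1 H2) (ContinuousLinearMap.id ℂ H1)
    + sand (ContinuousLinearMap.inr ℂ H1 H2) (ContinuousLinearMap.snd ℂ H1 H2) V

omit [FiniteDimensional ℂ H1] in
theorem Vh_apply (V : H2 →L[ℂ] H2) (z : H1 × H2) : Vh V z = (z.1, V z.2) := by
  simp [Vh, sand_apply]

omit [FiniteDimensional ℂ H1] in
theorem Vh_inv {V V' : H2 →L[ℂ] H2} (h : ∀ y, V' (V y) = y) :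
    (Vh V' : Al H1 H2) * Vh V = 1 := al_ext fun z => by
  simp [Vh_apply, h]

omit [FiniteDimensional ℂ H1] in
theorem Vh_Um (V : H2 →L[ℂ] H2) (c s : ℝ) (P : H1 →L[ℂ] H1) (Am : H1 →L[ℂ] H2) :
    Vh V * Um c s P Am = Um c s P (V ∘L Am) := al_ext fun z => by
  simp only [mul_apply_eq_comp, Um_apply, Vh_apply, ContinuousLinearMap.comp_apply]
  rw [ContinuousLinearMap.map_smul_of_tower]

omit [FiniteDimensional ℂ H1] in
theorem Wm_Vh (V' : H2 →L[ℂ] H2) (c s : ℝ) (P : H1 →L[ℂ] H1) (B : H2 →L[ℂ] H1) :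
    Wm c s P B * Vh V' = Wm c s P (B ∘L V') := al_ext fun z => by
  simp only [mul_apply_eq_comp, Wm_apply, Vh_apply, ContinuousLinearMap.comp_apply]

theorem FamR_comp {X E F G : Type*} [NormedAddCommGroup X] [NormedSpace ℝ X]
    [NormedAddCommGroup E] [NormedSpace ℂ E] [NormedAddCommGroup F] [NormedSpace ℂ F]
    [NormedAddCommGroup G] [NormedSpace ℂ G] {r : WithTop ℕ∞} {a : X → F →L[ℂ] G} {b : X → E →L[ℂ] F}
    (ha : ContDiff ℝ r a) (hb : ContDiff ℝ r b) : ContDiff ℝ r (fun x => a x ∘L b x) := by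
  have h : IsBoundedBilinearMap ℝ (fun p : (F →L[ℂ] G) × (E →L[ℂ] F) => p.1 ∘L p.2) :=
    { add_left := fun x₁ x₂ y => by ext v; simp
      smul_left := fun c x y => by ext v; simp
      add_right := fun x y₁ y₂ => by ext v; simp
      smul_right := fun c x y => by ext v; simp
      bound := ⟨1, one_pos, fun x y => by simpa using x.opNorm_comp_le y⟩ }
  exact h.contDiff.comp (ha.prodMk hb)

/-- the data of an embedding: `P = B A`, `A B` the second idempotent -/
structure Em (n : ℕ) (P : (Fin n → ℝ) → H1 →L[ℂ] H1) (Am : (Fin n → ℝ) → H1 →L[ℂ] H2)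
    (B : (Fin n → ℝ) → H2 →L[ℂ] H1) : Prop where
  cP : ContDiff ℝ 2 P
  cA : ContDiff ℝ 2 Am
  cB : ContDiff ℝ 2 B
  PP : ∀ h x, P h (P h x) = P h x
  AP : ∀ h x, Am h (P h x) = Am h x
  PB : ∀ h y, P h (B h y) = B h y
  BA : ∀ h x, B h (Am h x) = P h x
  per : ∀ k : Fin n, ∃ V V' : H2 →L[ℂ] H2, (∀ y, V' (V y) = y) ∧ ∀ h,
    P (h + Pi.single k 1) = P h ∧ Am (h + Pi.single k 1) = V ∘L Am h ∧
      B (h + Pi.single k 1) = B h ∘L V'

/-- the rotation in the first coordinate -/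
noncomputable def UU {n : ℕ} (P : (Fin n → ℝ) → H1 →L[ℂ] H1) (Am : (Fin n → ℝ) → H1 →L[ℂ] H2)
    (x : Fin (n + 1) → ℝ) : Al H1 H2 :=
  Um (Real.cos (x 0 * (Real.pi / 2))) (Real.sin (x 0 * (Real.pi / 2)))
    (P fun i => x i.succ) (Am fun i => x i.succ)

/-- the rotation in the first coordinate -/
noncomputable def WW {n : ℕ} (P : (Fin n → ℝ) → H1 →L[ℂ] H1) (B : (Fin n → ℝ) → H2 →L[ℂ] H1)
    (x : Fin (n + 1) → ℝ) : Al H1 H2 :=
  Wm (Real.cos (x 0 * (Real.pi / 2))) (Real.sin (x 0 * (Real.pi / 2)))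
    (P fun i => x i.succ) (B fun i => x i.succ)

variable {n : ℕ} {P : (Fin n → ℝ) → H1 →L[ℂ] H1} {Am : (Fin n → ℝ) → H1 →L[ℂ] H2}
  {B : (Fin n → ℝ) → H2 →L[ℂ] H1}

theorem tail_smooth {n : ℕ} : ContDiff ℝ 2 (fun (x : Fin (n + 1) → ℝ) (i : Fin n) => x i.succ) :=
  contDiff_pi.2 fun i => contDiff_apply ℝ ℝ i.succ

theorem trig_smooth {n : ℕ} {F : Type*} [NormedAddCommGroup F] [NormedSpace ℝ F]
    {a b : (Fin (n + 1) → ℝ) → F} (ha : ContDiff ℝ 2 a) (hb : ContDiff ℝ 2 b) :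
    ContDiff ℝ 2 (fun x : Fin (n + 1) → ℝ => Real.cos (x 0 * (Real.pi / 2)) • a x
      + Real.sin (x 0 * (Real.pi / 2)) • b x) := by
  have h0 : ContDiff ℝ 2 (fun x : Fin (n + 1) → ℝ => x 0 * (Real.pi / 2)) :=
    (contDiff_apply ℝ ℝ 0).mul contDiff_const
  exact ((Real.contDiff_cos.comp h0).smul ha).add ((Real.contDiff_sin.comp h0).smul hb)

theorem sand_smooth {X E F G K : Type*} [NormedAddCommGroup X] [NormedSpace ℝ X]
    [NormedAddCommGroup E] [NormedSpace ℂ E]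
    [NormedAddCommGroup F] [NormedSpace ℂ F] [NormedAddCommGroup G] [NormedSpace ℂ G]
    [NormedAddCommGroup K] [NormedSpace ℂ K] (a : F →L[ℂ] G) (b : K →L[ℂ] E)
    {T : X → E →L[ℂ] F} (hT : ContDiff ℝ 2 T) : ContDiff ℝ 2 (fun x => sand a b (T x)) :=
  ContDiff.comp (𝕜 := ℝ) (g := fun T : E →L[ℂ] F => sand a b T)
    (ContinuousLinearMap.contDiff (𝕜 := ℝ) (sand a b)) hT

omit [FiniteDimensional ℂ H1] in
theorem UU_smooth (hP : ContDiff ℝ 2 P) (hA : ContDiff ℝ 2 Am) : ContDiff ℝ 2 (UU P Am) := by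
  have h1 : ContDiff ℝ 2 (fun x : Fin (n + 1) → ℝ => P fun i => x i.succ) := hP.comp tail_smooth
  have h2 : ContDiff ℝ 2 (fun x : Fin (n + 1) → ℝ => Am fun i => x i.succ) := hA.comp tail_smooth
  exact trig_smooth
    (sand_smooth (ContinuousLinearMap.inl ℂ H1 H2) (ContinuousLinearMap.fst ℂ H1 H2) h1)
    (sand_smooth (ContinuousLinearMap.inr ℂ H1 H2) (ContinuousLinearMap.fst ℂ H1 H2) h2)

omit [FiniteDimensional ℂ H1] in
theorem WW_smooth (hP : ContDiff ℝ 2 P) (hB : ContDiff ℝ 2 B) : ContDiff ℝ 2 (WW P B) := by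
  have h1 : ContDiff ℝ 2 (fun x : Fin (n + 1) → ℝ => P fun i => x i.succ) := hP.comp tail_smooth
  have h2 : ContDiff ℝ 2 (fun x : Fin (n + 1) → ℝ => B fun i => x i.succ) := hB.comp tail_smooth
  exact trig_smooth
    (sand_smooth (ContinuousLinearMap.inl ℂ H1 H2) (ContinuousLinearMap.fst ℂ H1 H2) h1)
    (sand_smooth (ContinuousLinearMap.inl ℂ H1 H2) (ContinuousLinearMap.snd ℂ H1 H2) h2)

omit [FiniteDimensional ℂ H1] in
theorem Em.fa (h : Em n P Am B) (x : Fin (n + 1) → ℝ) : Fa (pi1 H1 H2) (UU P Am x) (WW P B x) :=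
  fa_uw (by nlinarith [Real.sin_sq_add_cos_sq (x 0 * (Real.pi / 2))]) (h.PP _) (h.AP _) (h.PB _)
    (h.BA _)

omit [FiniteDimensional ℂ H1] in
theorem Em.gauge (h : Em n P Am B) (k : Fin n) : ∃ V V' : Al H1 H2, V' * V = 1 ∧
    ∀ x, UU P Am (x + Pi.single k.succ 1) = V * UU P Am x ∧
      WW P B (x + Pi.single k.succ 1) = WW P B x * V' := by
  obtain ⟨V, V', hV, hp⟩ := h.per k
  refine ⟨Vh V, Vh V', Vh_inv hV, fun x => ?_⟩
  have e1 : (fun i : Fin n => (x + Pi.single k.succ (1 : ℝ) : Fin (n + 1) → ℝ) i.succ)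
      = (fun i => x i.succ) + Pi.single k 1 := by
    funext i
    simp [Pi.single_apply]
  have e0 : (x + Pi.single k.succ (1 : ℝ) : Fin (n + 1) → ℝ) 0 = x 0 := by simp
  obtain ⟨h1, h2, h3⟩ := hp (fun i => x i.succ)
  constructor
  · simp only [UU]
    rw [Vh_Um, e0]
    have e2 : P (fun i : Fin n => (x + Pi.single k.succ (1 : ℝ) : Fin (n + 1) → ℝ) i.succ) = P fun i => x i.succ := by
      rw [e1, h1]
    have e3 : Am (fun i : Fin n => (x + Pi.single k.succ (1 : ℝ) : Fin (n + 1) → ℝ) i.succ)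
        = V ∘L Am fun i => x i.succ := by
      rw [e1, h2]
    rw [e2, e3]
  · simp only [WW]
    rw [Wm_Vh, e0]
    have e2 : P (fun i : Fin n => (x + Pi.single k.succ (1 : ℝ) : Fin (n + 1) → ℝ) i.succ) = P fun i => x i.succ := by
      rw [e1, h1]
    have e3 : B (fun i : Fin n => (x + Pi.single k.succ (1 : ℝ) : Fin (n + 1) → ℝ) i.succ)
        = (B fun i => x i.succ) ∘L V' := by
      rw [e1, h3]
    rw [e2, e3]

/-! ### the two ends -/

omit [FiniteDimensional ℂ H1] in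
theorem U_zero (h : Fin n → ℝ) : UU P Am (Fin.cons 0 h)
    = sand (ContinuousLinearMap.inl ℂ H1 H2) (ContinuousLinearMap.fst ℂ H1 H2) (P h) := by
  simp [UU, Um]

omit [FiniteDimensional ℂ H1] in
theorem W_zero (h : Fin n → ℝ) : WW P B (Fin.cons 0 h)
    = sand (ContinuousLinearMap.inl ℂ H1 H2) (ContinuousLinearMap.fst ℂ H1 H2) (P h) := by
  simp [WW, Wm]

omit [FiniteDimensional ℂ H1] in
theorem U_one (h : Fin n → ℝ) : UU P Am (Fin.cons 1 h)
    = sand (ContinuousLinearMap.inr ℂ H1 H2) (ContinuousLinearMap.fst ℂ H1 H2) (Am h) := by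
  simp [UU, Um]

omit [FiniteDimensional ℂ H1] in
theorem W_one (h : Fin n → ℝ) : WW P B (Fin.cons 1 h)
    = sand (ContinuousLinearMap.inl ℂ H1 H2) (ContinuousLinearMap.snd ℂ H1 H2) (B h) := by
  simp [WW, Wm]

theorem sand_fderiv {X E F G K : Type*} [NormedAddCommGroup X] [NormedSpace ℝ X]
    [NormedAddCommGroup E] [NormedSpace ℂ E]
    [NormedAddCommGroup F] [NormedSpace ℂ F] [NormedAddCommGroup G] [NormedSpace ℂ G]
    [NormedAddCommGroup K] [NormedSpace ℂ K] (a : F →L[ℂ] G) (b : K →L[ℂ] E)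
    {T : X → E →L[ℂ] F} {x : X} (hT : DifferentiableAt ℝ T x) (v : X) :
    fderiv ℝ (fun x => sand a b (T x)) x v = sand a b (fderiv ℝ T x v) := by
  have h5 : HasFDerivAt (fun T : E →L[ℂ] F => sand a b T) (sand a b) (T x) := (sand a b).hasFDerivAt
  have h : HasFDerivAt (fun x => sand a b (T x)) _ x :=
    HasFDerivAt.comp (𝕜 := ℝ) (g := fun T : E →L[ℂ] F => sand a b T) x h5 hT.hasFDerivAt
  rw [h.fderiv]; rfl

omit [FiniteDimensional ℂ H1] in
theorem list_inl (x : H1 →L[ℂ] H1) (l : List (H1 →L[ℂ] H1)) :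
    sand (ContinuousLinearMap.inl ℂ H1 H2) (ContinuousLinearMap.fst ℂ H1 H2) x
      * (l.map fun y => sand (ContinuousLinearMap.inl ℂ H1 H2) (ContinuousLinearMap.fst ℂ H1 H2) y).prod
    = sand (ContinuousLinearMap.inl ℂ H1 H2) (ContinuousLinearMap.fst ℂ H1 H2) (x * l.prod) := by
  induction l generalizing x with
  | nil => simp
  | cons y l ih =>
    rw [List.map_cons, List.prod_cons, List.prod_cons, ← mul_assoc, ← mul_assoc, ← ih]
    congr 1

omit [FiniteDimensional ℂ H1] in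
theorem list_snd (x : H2 →L[ℂ] H1) (l : List (H2 →L[ℂ] H2)) :
    sand (ContinuousLinearMap.inl ℂ H1 H2) (ContinuousLinearMap.snd ℂ H1 H2) x
      * (l.map fun y => sand (ContinuousLinearMap.inr ℂ H1 H2) (ContinuousLinearMap.snd ℂ H1 H2) y).prod
    = sand (ContinuousLinearMap.inl ℂ H1 H2) (ContinuousLinearMap.snd ℂ H1 H2) (x ∘L l.prod) := by
  induction l generalizing x with
  | nil => ext z <;> simp [sand_apply]
  | cons y l ih =>
    rw [List.map_cons, List.prod_cons, List.prod_cons, ← mul_assoc]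
    have h : (x ∘L (y * l.prod)) = ((x ∘L y) ∘L l.prod) := rfl
    rw [h, ← ih]
    congr 1

/-- Chern-Weil number with a trace functional, as a product -/
noncomputable def chG {Y : Type*} [NormedAddCommGroup Y] [InnerProductSpace ℂ Y] (n : ℕ)
    (t : (Y →L[ℂ] Y) → ℂ) (p : (Fin n → ℝ) → Y →L[ℂ] Y) : ℂ :=
  ∫ y in Icc (0 : Fin n → ℝ) 1, ∑ σ : Equiv.Perm (Fin n), Equiv.Perm.sign σ •
    t (p y * (List.ofFn fun i => fderiv ℝ p y (Pi.single (σ i) 1)).prod)

/-- Chern-Weil number of `A B` with the trace taken over `H1` -/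
noncomputable def chE (n : ℕ) (Am : (Fin n → ℝ) → H1 →L[ℂ] H2) (B : (Fin n → ℝ) → H2 →L[ℂ] H1) : ℂ :=
  ∫ y in Icc (0 : Fin n → ℝ) 1, ∑ σ : Equiv.Perm (Fin n), Equiv.Perm.sign σ •
    tr (B y ∘L (List.ofFn fun i => fderiv ℝ (fun y => Am y ∘L B y) y (Pi.single (σ i) 1)).prod
      ∘L Am y)

/-- **EMB, abstract form** -/
theorem emb_gen (hn : Even n) (h : Em n P Am B) : chE n Am B = chG n tr P := by
  have key := homotopy_alg (τ := tau H1 H2) pt hn (UU_smooth h.cP h.cA) (WW_smooth h.cP h.cB)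
    h.fa h.gauge
  have hPd : Differentiable ℝ P := h.cP.differentiable two_ne_zero
  have hABd : Differentiable ℝ (fun y => Am y ∘L B y) :=
    fun x => ((FamR_comp h.cA h.cB).differentiable two_ne_zero x)
  have e1 : den (tau H1 H2) n (fun y => UU P Am (Fin.cons 1 y)) (fun y => WW P B (Fin.cons 1 y))
      = chE n Am B := by
    unfold den chE
    refine integral_congr_ae (Eventually.of_forall fun y => ?_)
    refine Finset.sum_congr rfl fun σ _ => ?_
    congr 1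
    have hq : (fun y => UU P Am (Fin.cons 1 y) * WW P B (Fin.cons 1 y))
        = fun y => sand (ContinuousLinearMap.inr ℂ H1 H2) (ContinuousLinearMap.snd ℂ H1 H2)
          (Am y ∘L B y) := by
      funext y
      rw [U_one, W_one]
      refine al_ext fun z => ?_
      simp [sand_apply]
    simp only [hq]
    have h1 : (List.ofFn fun i => fderiv ℝ (fun y => sand (ContinuousLinearMap.inr ℂ H1 H2)
        (ContinuousLinearMap.snd ℂ H1 H2) (Am y ∘L B y)) y (Pi.single (σ i) 1))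
        = (List.ofFn fun i => fderiv ℝ (fun y => Am y ∘L B y) y (Pi.single (σ i) 1)).map fun y =>
          sand (ContinuousLinearMap.inr ℂ H1 H2) (ContinuousLinearMap.snd ℂ H1 H2) y := by
      rw [List.map_ofFn]
      refine congrArg List.ofFn (funext fun i => ?_)
      exact sand_fderiv _ _ (hABd y) _
    rw [h1, U_one, W_one, list_snd]
    rfl
  have e0 : den (tau H1 H2) n (fun y => UU P Am (Fin.cons 0 y)) (fun y => WW P B (Fin.cons 0 y))
      = chG n tr P := by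
    unfold den chG
    refine integral_congr_ae (Eventually.of_forall fun y => ?_)
    refine Finset.sum_congr rfl fun σ _ => ?_
    congr 1
    have hPP : ∀ h, P h * P h = P h := fun y => ContinuousLinearMap.ext (h.PP y)
    have hq : (fun y => UU P Am (Fin.cons 0 y) * WW P B (Fin.cons 0 y))
        = fun y => sand (ContinuousLinearMap.inl ℂ H1 H2) (ContinuousLinearMap.fst ℂ H1 H2) (P y) := by
      funext y
      rw [U_zero, W_zero]
      have := list_inl (H2 := H2) (P y) [P y]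
      simpa [hPP] using this
    simp only [hq]
    have h1 : (List.ofFn fun i => fderiv ℝ (fun y => sand (ContinuousLinearMap.inl ℂ H1 H2)
        (ContinuousLinearMap.fst ℂ H1 H2) (P y)) y (Pi.single (σ i) 1))
        = (List.ofFn fun i => fderiv ℝ P y (Pi.single (σ i) 1)).map fun y =>
          sand (ContinuousLinearMap.inl ℂ H1 H2) (ContinuousLinearMap.fst ℂ H1 H2) y := by
      rw [List.map_ofFn]
      refine congrArg List.ofFn (funext fun i => ?_)
      exact sand_fderiv _ _ (hPd y) _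
    rw [h1, U_zero, W_zero, list_inl]
    have h2 := list_inl (H2 := H2)
      (P y * (List.ofFn fun i => fderiv ℝ P y (Pi.single (σ i) 1)).prod) [P y]
    simp only [List.map_cons, List.map_nil, List.prod_singleton] at h2
    rw [h2]
    change tr (P y * _ * P y) = _
    rw [tr_mul_comm, ← mul_assoc, hPP]
  rw [← e1, key, e0]

end emb

end Crest.Agent.R235.FamC_192
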