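import Crest.Agent.R235.FamC3_192

/-! Row 235, block FAM/C (helper192), part 4: EMB for `ch2`, `ch4`, `chsq`. -/

set_option autoImplicit false
set_option maxSynthPendingDepth 3

open Set MeasureTheory Filter Topology Module
open scoped InnerProductSpace ContDiff

namespace Crest.Agent.R235.FamC_192

open FamDefs_307

section emb

variable {H1 H2 : Type*} [NormedAddCommGroup H1] [InnerProductSpace ℂ H1] [FiniteDimensional ℂ H1]
  [NormedAddCommGroup H2] [InnerProductSpace ℂ H2]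

/-- the square number with a trace functional -/
noncomputable def chS {Y : Type*} [NormedAddCommGroup Y] [InnerProductSpace ℂ Y]
    (t : (Y →L[ℂ] Y) → ℂ) (p : (Fin 4 → ℝ) → Y →L[ℂ] Y) : ℂ :=
  ∫ y in Icc (0 : Fin 4 → ℝ) 1, ∑ σ : Equiv.Perm (Fin 4), Equiv.Perm.sign σ •
    (t (p y * (fderiv ℝ p y (Pi.single (σ 0) 1) * fderiv ℝ p y (Pi.single (σ 1) 1)))
      * t (p y * (fderiv ℝ p y (Pi.single (σ 2) 1) * fderiv ℝ p y (Pi.single (σ 3) 1))))

/-- the square number of `A B` with the trace taken over `H1` -/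
noncomputable def chES (Am : (Fin 4 → ℝ) → H1 →L[ℂ] H2) (B : (Fin 4 → ℝ) → H2 →L[ℂ] H1) : ℂ :=
  ∫ y in Icc (0 : Fin 4 → ℝ) 1, ∑ σ : Equiv.Perm (Fin 4), Equiv.Perm.sign σ •
    (tr (B y ∘L (fderiv ℝ (fun y => Am y ∘L B y) y (Pi.single (σ 0) 1)
        * fderiv ℝ (fun y => Am y ∘L B y) y (Pi.single (σ 1) 1)) ∘L Am y)
      * tr (B y ∘L (fderiv ℝ (fun y => Am y ∘L B y) y (Pi.single (σ 2) 1)
        * fderiv ℝ (fun y => Am y ∘L B y) y (Pi.single (σ 3) 1)) ∘L Am y))

variable {P : (Fin 4 → ℝ) → H1 →L[ℂ] H1} {Am : (Fin 4 → ℝ) → H1 →L[ℂ] H2}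
  {B : (Fin 4 → ℝ) → H2 →L[ℂ] H1}

/-- **EMB, square form** -/
theorem emb_sq (h : Em 4 P Am B) : chES Am B = chS tr P := by
  have key := homotopy_sq (τ := tau H1 H2) pt (UU_smooth h.cP h.cA) (WW_smooth h.cP h.cB)
    h.fa h.gauge
  have hPd : Differentiable ℝ P := h.cP.differentiable two_ne_zero
  have hABd : Differentiable ℝ (fun y => Am y ∘L B y) :=
    fun x => ((FamR_comp h.cA h.cB).differentiable two_ne_zero x)
  have e1 : denSq (tau H1 H2) (fun y => UU P Am (Fin.cons 1 y)) (fun y => WW P B (Fin.cons 1 y))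
      = chES Am B := by
    unfold denSq chES
    refine integral_congr_ae (Eventually.of_forall fun y => ?_)
    refine Finset.sum_congr rfl fun σ _ => ?_
    have hq : (fun y => UU P Am (Fin.cons 1 y) * WW P B (Fin.cons 1 y))
        = fun y => sand (ContinuousLinearMap.inr ℂ H1 H2) (ContinuousLinearMap.snd ℂ H1 H2)
          (Am y ∘L B y) := by
      funext y
      rw [U_one, W_one]
      refine al_ext fun z => ?_
      simp [sand_apply]
    have h2 : ∀ i j : Fin 4, (tau H1 H2) (WW P B (Fin.cons 1 y) *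
        (fderiv ℝ (fun y => UU P Am (Fin.cons 1 y) * WW P B (Fin.cons 1 y)) y (Pi.single i 1) *
          fderiv ℝ (fun y => UU P Am (Fin.cons 1 y) * WW P B (Fin.cons 1 y)) y (Pi.single j 1)) *
        UU P Am (Fin.cons 1 y))
        = tr (B y ∘L (fderiv ℝ (fun y => Am y ∘L B y) y (Pi.single i 1)
        * fderiv ℝ (fun y => Am y ∘L B y) y (Pi.single j 1)) ∘L Am y) := by
      intro i j
      rw [hq, sand_fderiv _ _ (hABd y), sand_fderiv _ _ (hABd y), U_one, W_one]
      have h3 := list_snd (H1 := H1) (B y) [fderiv ℝ (fun y => Am y ∘L B y) y (Pi.single i 1),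
        fderiv ℝ (fun y => Am y ∘L B y) y (Pi.single j 1)]
      simp only [List.map_cons, List.map_nil, List.prod_cons, List.prod_nil, mul_one] at h3
      rw [h3]
      rfl
    rw [h2, h2]
  have e0 : denSq (tau H1 H2) (fun y => UU P Am (Fin.cons 0 y)) (fun y => WW P B (Fin.cons 0 y))
      = chS tr P := by
    unfold denSq chS
    refine integral_congr_ae (Eventually.of_forall fun y => ?_)
    refine Finset.sum_congr rfl fun σ _ => ?_
    have hPP : ∀ h, P h * P h = P h := fun y => ContinuousLinearMap.ext (h.PP y)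
    have hq : (fun y => UU P Am (Fin.cons 0 y) * WW P B (Fin.cons 0 y))
        = fun y => sand (ContinuousLinearMap.inl ℂ H1 H2) (ContinuousLinearMap.fst ℂ H1 H2) (P y) := by
      funext y
      rw [U_zero, W_zero]
      have := list_inl (H2 := H2) (P y) [P y]
      simpa [hPP] using this
    have h2 : ∀ i j : Fin 4, (tau H1 H2) (WW P B (Fin.cons 0 y) *
        (fderiv ℝ (fun y => UU P Am (Fin.cons 0 y) * WW P B (Fin.cons 0 y)) y (Pi.single i 1) *
          fderiv ℝ (fun y => UU P Am (Fin.cons 0 y) * WW P B (Fin.cons 0 y)) y (Pi.single j 1)) *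
        UU P Am (Fin.cons 0 y))
        = tr (P y * (fderiv ℝ P y (Pi.single i 1) * fderiv ℝ P y (Pi.single j 1))) := by
      intro i j
      rw [hq, sand_fderiv _ _ (hPd y), sand_fderiv _ _ (hPd y), U_zero, W_zero]
      have h3 := list_inl (H2 := H2) (P y) [fderiv ℝ P y (Pi.single i 1),
        fderiv ℝ P y (Pi.single j 1)]
      have h4 := list_inl (H2 := H2) (P y * (fderiv ℝ P y (Pi.single i 1)
        * fderiv ℝ P y (Pi.single j 1))) [P y]
      simp only [List.map_cons, List.map_nil, List.prod_cons, List.prod_nil, mul_one] at h3 h4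
      rw [h3, h4]
      change tr (P y * _ * P y) = _
      rw [tr_mul_comm, ← mul_assoc, hPP]
    rw [h2, h2]
  rw [← e1, key, e0]

end emb

/-! ### conversions -/

section conv

variable {Y : Type*} [NormedAddCommGroup Y] [InnerProductSpace ℂ Y]

theorem sign_smul {n : ℕ} (σ : Equiv.Perm (Fin n)) (z : ℂ) :
    Equiv.Perm.sign σ • z = sg σ * z := by
  rcases Int.units_eq_one_or (Equiv.Perm.sign σ) with h | h <;> simp [sg, h]

theorem chG_two (t : (Y →L[ℂ] Y) → ℂ) (p : (Fin 2 → ℝ) → Y →L[ℂ] Y) : chG 2 t p = ch2 t p := by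
  unfold chG ch2
  refine integral_congr_ae (Eventually.of_forall fun y => Finset.sum_congr rfl fun σ _ => ?_)
  rw [sign_smul]
  simp [List.ofFn_succ, pdθ, mul_assoc]

theorem chG_four (t : (Y →L[ℂ] Y) → ℂ) (p : (Fin 4 → ℝ) → Y →L[ℂ] Y) : chG 4 t p = ch4 t p := by
  unfold chG ch4
  refine integral_congr_ae (Eventually.of_forall fun y => Finset.sum_congr rfl fun σ _ => ?_)
  rw [sign_smul]
  have h : (List.ofFn fun i : Fin 4 => fderiv ℝ p y (Pi.single (σ i) 1)).prod
      = fderiv ℝ p y (Pi.single (σ 0) 1) * (fderiv ℝ p y (Pi.single (σ 1) 1)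
        * (fderiv ℝ p y (Pi.single (σ 2) 1) * fderiv ℝ p y (Pi.single (σ 3) 1))) := by
    simp [List.ofFn_succ]
  rw [h]
  simp only [pdθ, mul_assoc]

theorem chS_eq (t : (Y →L[ℂ] Y) → ℂ) (p : (Fin 4 → ℝ) → Y →L[ℂ] Y) : chS t p = chsq t p := by
  unfold chS chsq
  refine integral_congr_ae (Eventually.of_forall fun y => Finset.sum_congr rfl fun σ _ => ?_)
  rw [sign_smul]
  simp only [pdθ, mul_assoc]

end conv

/-! ### the trace in a Hilbert basis -/

section trB

variable {H1 H2 : Type*} [NormedAddCommGroup H1] [InnerProductSpace ℂ H1] [FiniteDimensional ℂ H1]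
  [NormedAddCommGroup H2] [InnerProductSpace ℂ H2] [CompleteSpace H2]

/-- cyclicity through a finite dimensional space -/
theorem trB_comp {ι : Type*} (e : HilbertBasis ι ℂ H2) (Am : H1 →L[ℂ] H2) (T : H2 →L[ℂ] H1) :
    HasSum (fun i => ⟪e i, Am (T (e i))⟫_ℂ) (tr (T ∘L Am)) := by
  have : CompleteSpace H1 := FiniteDimensional.complete ℂ H1
  set f := stdOrthonormalBasis ℂ H1 with hf
  have h1 : tr (T ∘L Am) = ∑ j, ⟪f j, T (Am (f j))⟫_ℂ := by
    rw [tr, LinearMap.trace_eq_sum_inner _ f]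
    rfl
  rw [h1]
  have h2 : ∀ i, ⟪e i, Am (T (e i))⟫_ℂ = ∑ j, ⟪ContinuousLinearMap.adjoint T (f j), e i⟫_ℂ * ⟪e i, Am (f j)⟫_ℂ := by
    intro i
    conv_lhs => rw [← f.sum_repr' (T (e i))]
    rw [map_sum, inner_sum]
    refine Finset.sum_congr rfl fun j _ => ?_
    rw [map_smul, inner_smul_right, ContinuousLinearMap.adjoint_inner_left]
  simp only [h2]
  refine hasSum_sum fun j _ => ?_
  have h3 := e.hasSum_inner_mul_inner (ContinuousLinearMap.adjoint T (f j)) (Am (f j))
  rwa [ContinuousLinearMap.adjoint_inner_left] at h3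

theorem trB_eq {ι : Type*} (e : HilbertBasis ι ℂ H2) (Am : H1 →L[ℂ] H2) (T : H2 →L[ℂ] H1) :
    trB e (Am ∘L T) = tr (T ∘L Am) := (trB_comp e Am T).tsum_eq

/-- cyclicity through finite dimensional spaces -/
theorem tr_comp_comm {H3 : Type*} [NormedAddCommGroup H3] [InnerProductSpace ℂ H3]
    [FiniteDimensional ℂ H3] (Am : H1 →L[ℂ] H3) (T : H3 →L[ℂ] H1) :
    tr (Am ∘L T) = tr (T ∘L Am) := by
  simp only [tr]
  exact LinearMap.trace_comp_comm' _ _

end trB

end Crest.Agent.R235.FamC_192
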