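import Crest.Agent.R235.DgStk_356

/-! Row 235, block FAM/C (helper192), part 1.  Homotopy invariance of Chern-Weil integrals of periodic
families of idempotents `q = U W` in a Banach algebra `A`; the trace is only taken in a corner:
`τ (W x U)` (no trace class operators).  Everything is Stokes on a box (356) for the pull back of a
form on the Banach space `A × A × A`. -/

set_option autoImplicit false

open Set MeasureTheory Filter Topology

namespace Crest.Agent.R235.FamC_192

/-! ### alternatization as a continuous linear map -/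

section alt

variable {J : Type*} [NormedAddCommGroup J] [NormedSpace ℝ J]

/-- alternatization as a continuous linear map -/
noncomputable def altL (n : ℕ) :
    ContinuousMultilinearMap ℝ (fun _ : Fin n => J) ℂ →L[ℝ] J [⋀^Fin n]→L[ℝ] ℂ :=
  LinearMap.mkContinuous
    { toFun := fun f => ContinuousMultilinearMap.alternatization f
      map_add' := fun f g => map_add _ f g
      map_smul' := fun c f => by
        ext v
        simp only [ContinuousMultilinearMap.alternatization_apply_apply,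
          _root_.smul_apply, ContinuousAlternatingMap.smul_apply,
          RingHom.id_apply, Finset.smul_sum]
        refine Finset.sum_congr rfl fun σ _ => ?_
        rw [smul_comm] }
    (Fintype.card (Equiv.Perm (Fin n)))
    (fun f => by
      refine ContinuousAlternatingMap.opNorm_le_bound _ (by positivity) fun v => ?_
      simp only [LinearMap.coe_mk, AddHom.coe_mk,
        ContinuousMultilinearMap.alternatization_apply_apply]
      refine (norm_sum_le _ _).trans ?_
      have : ∀ σ ∈ (Finset.univ : Finset (Equiv.Perm (Fin n))),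
          ‖Equiv.Perm.sign σ • f (v ∘ σ)‖ ≤ ‖f‖ * ∏ i, ‖v i‖ := by
        intro σ _
        have h1 : ‖Equiv.Perm.sign σ • f (v ∘ σ)‖ = ‖f (v ∘ σ)‖ := by
          rcases Int.units_eq_one_or (Equiv.Perm.sign σ) with h | h <;> rw [h] <;> simp
        rw [h1]
        refine (f.le_opNorm _).trans (le_of_eq ?_)
        congr 1
        exact Equiv.prod_comp σ (fun i => ‖v i‖)
      refine (Finset.sum_le_card_nsmul _ _ _ this).trans (le_of_eq ?_)
      simp [mul_assoc])

theorem altL_apply (n : ℕ) (f : ContinuousMultilinearMap ℝ (fun _ : Fin n => J) ℂ)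
    (v : Fin n → J) : altL n f v = ∑ σ : Equiv.Perm (Fin n), Equiv.Perm.sign σ • f (v ∘ σ) := by
  simp only [altL, LinearMap.mkContinuous_apply, LinearMap.coe_mk, AddHom.coe_mk,
    ContinuousMultilinearMap.alternatization_apply_apply]

theorem continuous_eval_alt {X : Type*} [TopologicalSpace X] {b : ℕ}
    {A : X → J [⋀^Fin b]→L[ℝ] ℂ} {v : X → Fin b → J} (hA : Continuous A) (hv : Continuous v) :
    Continuous fun x => A x (v x) := by
  have h1 : Continuous fun p : (ContinuousMultilinearMap ℝ (fun _ : Fin b => J) ℂ) × (Fin b → J) =>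
      p.1 p.2 := continuous_eval
  exact h1.comp ((ContinuousAlternatingMap.isEmbedding_toContinuousMultilinearMap.continuous.comp hA).prodMk hv)

end alt

/-! ### Stokes on the cube, periodic families -/

section stokes

variable {N : Type*} [NormedAddCommGroup N] [NormedSpace ℝ N]

section closed

variable {G : Type*} [NormedAddCommGroup G] [NormedSpace ℝ G]

/-- the pull back of `Ω` by `f` is closed -/
def ClP {E : Type*} [NormedAddCommGroup E] [NormedSpace ℝ E] {n : ℕ}
    (Ω : N → N [⋀^Fin n]→L[ℝ] G) (f : E → N) : Prop :=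
  ∀ x (v : Fin (n + 1) → E) (i : Fin (n + 1)),
    fderiv ℝ Ω (f x) (fderiv ℝ f x (v i)) (i.removeNth fun j => fderiv ℝ f x (v j)) = 0

theorem extDeriv_zero {E : Type*} [NormedAddCommGroup E] [NormedSpace ℝ E] {n : ℕ}
    {Ω : N → N [⋀^Fin n]→L[ℝ] G} (hΩ : ContDiff ℝ 1 Ω) {f : E → N} (hcl : ClP Ω f)
    {x : E} (hf : ContDiffAt ℝ 2 f x) :
    extDeriv (fun x => (Ω (f x)).compContinuousLinearMap (fderiv ℝ f x)) x = 0 := by
  rw [extDeriv_pullback (r := 2) (hΩ.differentiable one_ne_zero (f x)) hf (by simp)]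
  ext v
  have hd := hΩ.differentiable one_ne_zero (f x)
  have h1 := extDeriv_apply hd (fun j => fderiv ℝ f x (v j))
  change extDeriv Ω (f x) (fun j => fderiv ℝ f x (v j)) = 0
  rw [h1]
  refine Finset.sum_eq_zero fun i _ => ?_
  have h2 : HasFDerivAt (fun y => Ω y (i.removeNth fun j => fderiv ℝ f x (v j)))
      ((ContinuousAlternatingMap.apply ℝ N G (i.removeNth fun j => fderiv ℝ f x (v j))).comp
        (fderiv ℝ Ω (f x))) (f x) :=
    (ContinuousAlternatingMap.apply ℝ N G (i.removeNth fun j => fderiv ℝ f x (v j))).hasFDerivAt.comp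
      (f x) hd.hasFDerivAt
  rw [h2.fderiv]
  simp only [ContinuousLinearMap.comp_apply]
  have h3 := hcl x v i
  rw [show (ContinuousAlternatingMap.apply ℝ N G (i.removeNth fun j => fderiv ℝ f x (v j)))
    ((fderiv ℝ Ω (f x)) (fderiv ℝ f x (v i))) = (fderiv ℝ Ω (f x)) (fderiv ℝ f x (v i))
      (i.removeNth fun j => fderiv ℝ f x (v j)) from rfl, h3, smul_zero]

end closed

theorem fderiv_shift {E : Type*} [NormedAddCommGroup E] [NormedSpace ℝ E] {f : E → N}
    (hf : Differentiable ℝ f) (c : E) (α : N →L[ℝ] N) (hp : ∀ x, f (x + c) = α (f x)) (x : E) :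
    fderiv ℝ f (x + c) = α.comp (fderiv ℝ f x) := by
  rw [← fderiv_comp_add_right c, funext hp]
  exact (α.hasFDerivAt.comp x (hf x).hasFDerivAt).fderiv

theorem insertNth_shift {b : ℕ} (k : Fin (b + 1)) (y : Fin b → ℝ) :
    (k.insertNth (1 : ℝ) y : Fin (b + 1) → ℝ) = k.insertNth (0 : ℝ) y + Pi.single k 1 := by
  funext j
  refine Fin.succAboveCases k ?_ ?_ j
  · simp
  · intro i
    simp [Fin.succAbove_ne]

/-- **homotopy invariance**, real valued forms -/
theorem homotopyR {b : ℕ} {Ω : N → N [⋀^Fin b]→L[ℝ] ℝ} (hΩ : ContDiff ℝ 1 Ω)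
    (f : (Fin (b + 1) → ℝ) → N) (hf : ContDiff ℝ 2 f) (hcl : ClP Ω f)
    (hper : ∀ k : Fin b, ∃ α : N →L[ℝ] N, (∀ q (v : Fin b → N), Ω (α q) (fun j => α (v j)) = Ω q v) ∧
      ∀ x, f (x + Pi.single k.succ 1) = α (f x)) :
    ∫ y in Icc (0 : Fin b → ℝ) 1, Ω (f (Fin.cons 1 y))
        (fun j => fderiv ℝ f (Fin.cons 1 y) (Pi.single j.succ 1)) =
      ∫ y in Icc (0 : Fin b → ℝ) 1, Ω (f (Fin.cons 0 y))
        (fun j => fderiv ℝ f (Fin.cons 0 y) (Pi.single j.succ 1)) := by
  let ω : (Fin (b + 1) → ℝ) → (Fin (b + 1) → ℝ) [⋀^Fin b]→L[ℝ] ℝ := fun x =>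
    (Ω (f x)).compContinuousLinearMap (fderiv ℝ f x)
  have hωa : ∀ x v, ω x v = Ω (f x) (fun j => fderiv ℝ f x (v j)) := fun x v => rfl
  have hωd : ∀ x, DifferentiableAt ℝ ω x := by
    intro x
    have h1 : DifferentiableAt ℝ (fun x => Ω (f x)) x :=
      (hΩ.differentiable one_ne_zero (f x)).comp x (hf.differentiable two_ne_zero x)
    have h2 : DifferentiableAt ℝ (fderiv ℝ f) x :=
      ((hf.contDiffAt).fderiv_right (m := 1) (by norm_num)).differentiableAt one_ne_zero
    exact h1.continuousAlternatingMapCompContinuousLinearMap h2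
  have key := DgStk_356.stokes_box (n := b) 0 1 (by intro i; simp) ω
    (fun x _ => (hωd x).continuousAt.continuousWithinAt) (fun x _ => hωd x)
    (fun x _ => extDeriv_zero hΩ hcl hf.contDiffAt)
  have hk : ∀ k : Fin b, DgStk_356.face 0 1 ω k.succ 1 = DgStk_356.face 0 1 ω k.succ 0 := by
    intro k
    obtain ⟨α, hα, hp⟩ := hper k
    unfold DgStk_356.face
    refine integral_congr_ae (Eventually.of_forall fun y => ?_)
    simp only [hωa]
    rw [insertNth_shift, fderiv_shift (hf.differentiable two_ne_zero) _ α hp, hp]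
    exact hα _ _
  have h0 : DgStk_356.face 0 1 ω 0 1 = DgStk_356.face 0 1 ω 0 0 := by
    rw [Fin.sum_univ_succ] at key
    have h2 : ∑ i : Fin b, (-1 : ℝ) ^ (i.succ : ℕ) *
        (DgStk_356.face 0 1 ω i.succ ((1 : Fin (b + 1) → ℝ) i.succ)
          - DgStk_356.face 0 1 ω i.succ ((0 : Fin (b + 1) → ℝ) i.succ)) = 0 := by
      refine Finset.sum_eq_zero fun k _ => ?_
      rw [show ((1 : Fin (b + 1) → ℝ) k.succ) = 1 from rfl,
        show ((0 : Fin (b + 1) → ℝ) k.succ) = 0 from rfl, hk, sub_self, mul_zero]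
    rw [h2, add_zero] at key
    simpa [sub_eq_zero] using key
  have h3 : ∀ c : ℝ, DgStk_356.face 0 1 ω 0 c = ∫ y in Icc (0 : Fin b → ℝ) 1, Ω (f (Fin.cons c y))
        (fun j => fderiv ℝ f (Fin.cons c y) (Pi.single j.succ 1)) := by
    intro c
    unfold DgStk_356.face
    have hs : Icc ((0 : Fin (b + 1) → ℝ) ∘ (0 : Fin (b + 1)).succAbove)
        ((1 : Fin (b + 1) → ℝ) ∘ (0 : Fin (b + 1)).succAbove) = Icc (0 : Fin b → ℝ) 1 := rfl
    rw [hs]
    refine integral_congr_ae (Eventually.of_forall fun y => ?_)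
    simp only [hωa, Fin.insertNth_zero', Fin.zero_succAbove]
  rw [← h3, ← h3, h0]

/-- homotopy invariance, complex valued forms -/
theorem homotopyC {b : ℕ} {Ω : N → N [⋀^Fin b]→L[ℝ] ℂ} (hΩ : ContDiff ℝ 1 Ω)
    (f : (Fin (b + 1) → ℝ) → N) (hf : ContDiff ℝ 2 f) (hcl : ClP Ω f)
    (hper : ∀ k : Fin b, ∃ α : N →L[ℝ] N, (∀ q (v : Fin b → N), Ω (α q) (fun j => α (v j)) = Ω q v) ∧
      ∀ x, f (x + Pi.single k.succ 1) = α (f x)) :
    ∫ y in Icc (0 : Fin b → ℝ) 1, Ω (f (Fin.cons 1 y))
        (fun j => fderiv ℝ f (Fin.cons 1 y) (Pi.single j.succ 1)) =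
      ∫ y in Icc (0 : Fin b → ℝ) 1, Ω (f (Fin.cons 0 y))
        (fun j => fderiv ℝ f (Fin.cons 0 y) (Pi.single j.succ 1)) := by
  have hsm : ∀ L : ℂ →L[ℝ] ℝ, ContDiff ℝ 1 (fun q => L.compContinuousAlternatingMap (Ω q)) :=
    fun L => (ContinuousLinearMap.compContinuousAlternatingMapCLM ℝ N ℂ ℝ (Fin b) L).contDiff.comp hΩ
  have hclL : ∀ L : ℂ →L[ℝ] ℝ, ClP (fun q => L.compContinuousAlternatingMap (Ω q)) f := by
    intro L x v i
    have h1 : HasFDerivAt (fun q => L.compContinuousAlternatingMap (Ω q))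
        ((ContinuousLinearMap.compContinuousAlternatingMapCLM ℝ N ℂ ℝ (Fin b) L).comp
          (fderiv ℝ Ω (f x))) (f x) :=
      (ContinuousLinearMap.compContinuousAlternatingMapCLM ℝ N ℂ ℝ (Fin b) L).hasFDerivAt.comp (f x)
        (hΩ.differentiable one_ne_zero (f x)).hasFDerivAt
    rw [h1.fderiv]
    change L (fderiv ℝ Ω (f x) (fderiv ℝ f x (v i)) (i.removeNth fun j => fderiv ℝ f x (v j))) = 0
    rw [hcl x v i, map_zero]
  have hc : ∀ c : ℝ, Continuous fun y : Fin b → ℝ => Ω (f (Fin.cons c y))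
        (fun j => fderiv ℝ f (Fin.cons c y) (Pi.single j.succ 1)) := by
    intro c
    have h1 : Continuous fun y : Fin b → ℝ => (Fin.cons c y : Fin (b + 1) → ℝ) :=
      Continuous.finCons continuous_const continuous_id
    have h2 : Continuous fun y : Fin b → ℝ => Ω (f (Fin.cons c y)) :=
      hΩ.continuous.comp (hf.continuous.comp h1)
    have h3 : Continuous fun y : Fin b → ℝ =>
        (fun j : Fin b => fderiv ℝ f (Fin.cons c y) (Pi.single j.succ 1)) := by
      refine continuous_pi fun j => ?_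
      exact ((hf.continuous_fderiv two_ne_zero).comp h1).clm_apply continuous_const
    exact (continuous_eval_alt h2 h3)
  have hi : ∀ c : ℝ, IntegrableOn (fun y : Fin b → ℝ => Ω (f (Fin.cons c y))
        (fun j => fderiv ℝ f (Fin.cons c y) (Pi.single j.succ 1))) (Icc 0 1) := fun c =>
    (hc c).continuousOn.integrableOn_compact isCompact_Icc
  have key : ∀ L : ℂ →L[ℝ] ℝ, L (∫ y in Icc (0 : Fin b → ℝ) 1, Ω (f (Fin.cons 1 y))
        (fun j => fderiv ℝ f (Fin.cons 1 y) (Pi.single j.succ 1))) =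
      L (∫ y in Icc (0 : Fin b → ℝ) 1, Ω (f (Fin.cons 0 y))
        (fun j => fderiv ℝ f (Fin.cons 0 y) (Pi.single j.succ 1))) := by
    intro L
    rw [← L.integral_comp_comm (hi 1), ← L.integral_comp_comm (hi 0)]
    refine homotopyR (hsm L) f hf (hclL L) fun k => ?_
    obtain ⟨α, hα, hp⟩ := hper k
    refine ⟨α, fun q v => ?_, hp⟩
    change L (Ω (α q) fun j => α (v j)) = L (Ω q v)
    rw [hα]
  exact Complex.ext (key Complex.reCLM) (key Complex.imCLM)

end stokes

/-! ### the algebra -/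

section algebra

variable {A : Type*} [NormedRing A] [NormedAlgebra ℝ A]

/-- a trace on the corner `π A π` -/
structure PT (τ : A →L[ℝ] ℂ) (π : A) : Prop where
  idem : π * π = π
  cyc : ∀ x y, τ (π * x * π * y * π) = τ (π * y * π * x * π)

variable {τ : A →L[ℝ] ℂ} {π : A}

/-- a factorized idempotent `q = U W` -/
structure Fa (π U W : A) : Prop where
  r : U * π = U
  l : π * W = W
  uwu : U * W * U = U
  wuw : W * U * W = W

theorem van (h : PT τ π) {U W U0 W0 Z : A} (hF : Fa π U W) (hU0 : U0 * π = U0)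
    (hW0 : π * W0 = W0) (hZ : U * W * Z = Z * (U * W))
    (hP : (W * U) * (W0 * U + W * U0) * (W * U) = 0) :
    τ (W * Z * U0) + τ (W0 * Z * U) = 0 := by
  obtain ⟨hr, hl, h3, h4⟩ := hF
  have a1 : W * Z * U0 = π * (W * Z * U) * π * (W * U0) * π := by
    have e1 : W * Z * U0 = (W * Z * U) * (W * U0) := by
      calc W * Z * U0 = W * U * W * Z * U0 := by rw [h4]
        _ = W * (U * W * Z) * U0 := by simp only [mul_assoc]
        _ = W * (Z * (U * W)) * U0 := by rw [hZ]
        _ = _ := by simp only [mul_assoc]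
    rw [e1]
    calc (W * Z * U) * (W * U0) = ((π * W) * Z * (U * π)) * (W * (U0 * π)) := by rw [hl, hr, hU0]
      _ = _ := by simp only [mul_assoc]
  have a2 : W0 * Z * U = π * (W0 * U) * π * (W * Z * U) * π := by
    have e1 : W0 * Z * U = (W0 * U) * (W * Z * U) := by
      calc W0 * Z * U = W0 * Z * (U * W * U) := by rw [h3]
        _ = W0 * (Z * (U * W)) * U := by simp only [mul_assoc]
        _ = W0 * (U * W * Z) * U := by rw [hZ]
        _ = _ := by simp only [mul_assoc]
    rw [e1]
    calc (W0 * U) * (W * Z * U) = ((π * W0) * (U * π)) * (W * Z * (U * π)) := by rw [hW0, hr]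
      _ = _ := by simp only [mul_assoc]
  rw [a1, a2, h.cyc (W0 * U), ← map_add]
  have a3 : π * (W * Z * U) * π * (W * U0) * π + π * (W * Z * U) * π * (W0 * U) * π
      = π * (W * U) * π * ((W * Z * U) * (W * U) * (W0 * U + W * U0)) * π := by
    have e1 : W * Z * U = (W * U) * (W * Z * U) * (W * U) := by
      calc W * Z * U = (W * U * W) * Z * (U * W * U) := by rw [h3, h4]
        _ = _ := by simp only [mul_assoc]
    have e2 : (W * U) * π = W * U := by rw [mul_assoc, hr]
    have e3 : ∀ x : A, π * (W * Z * U) * π * x * π = π * (W * U) * π * ((W * Z * U) * (W * U) * x) * π := by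
      intro x
      calc π * (W * Z * U) * π * x * π
          = π * ((W * U) * (W * Z * U) * (W * U)) * π * x * π := by rw [← e1]
        _ = π * (((W * U) * π) * (W * Z * U) * ((W * U) * π)) * x * π := by
            rw [e2]; simp only [mul_assoc]; rw [← mul_assoc U π, hr]
        _ = π * (((W * U) * π) * (W * Z * U) * (W * U)) * x * π := by rw [e2]
        _ = _ := by simp only [mul_assoc]
    rw [e3, e3, ← add_mul, ← mul_add, ← mul_add, add_comm (W * U0)]
  rw [a3, h.cyc]
  have a4 : π * ((W * Z * U) * (W * U) * (W0 * U + W * U0)) * π * (W * U) * π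
      = π * (W * Z * U) * ((W * U) * (W0 * U + W * U0) * (W * U)) * π := by
    have e2 : π * (W * U) = W * U := by rw [← mul_assoc, hl]
    calc π * ((W * Z * U) * (W * U) * (W0 * U + W * U0)) * π * (W * U) * π
        = π * ((W * Z * U) * (W * U) * (W0 * U + W * U0)) * (π * (W * U)) * π := by
          simp only [mul_assoc]
      _ = _ := by rw [e2]; simp only [mul_assoc]
  rw [a4, hP]
  simp

/-- odd elements with respect to an idempotent -/
def Odd (q e : A) : Prop := q * e + e * q = e

omit [NormedAlgebra ℝ A] in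
theorem Odd.left {q e : A} (h : Odd q e) : q * e = e * (1 - q) := by
  rw [mul_sub, mul_one, eq_sub_iff_add_eq]; exact h

omit [NormedAlgebra ℝ A] in
theorem odd_list {q : A} (l : List A) (hl : ∀ e ∈ l, Odd q e) :
    (Even l.length → q * l.prod = l.prod * q) ∧
      (¬ Even l.length → q * l.prod = l.prod * (1 - q)) := by
  induction l with
  | nil => simp
  | cons e l ih =>
    obtain ⟨ih1, ih2⟩ := ih fun x hx => hl x (List.mem_cons_of_mem _ hx)
    have he : q * e = e * (1 - q) := (hl e List.mem_cons_self).left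
    constructor
    · intro hev
      have hl' : ¬ Even l.length := by
        rw [List.length_cons, Nat.even_add_one] at hev
        exact hev
      have h2 := ih2 hl'
      rw [List.prod_cons, ← mul_assoc, he]
      calc e * (1 - q) * l.prod = e * (l.prod - q * l.prod) := by noncomm_ring
        _ = e * (l.prod - l.prod * (1 - q)) := by rw [h2]
        _ = _ := by noncomm_ring
    · intro hev
      have hl' : Even l.length := by
        rw [List.length_cons, Nat.even_add_one, not_not] at hev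
        exact hev
      have h2 := ih1 hl'
      rw [List.prod_cons, ← mul_assoc, he]
      calc e * (1 - q) * l.prod = e * (l.prod - q * l.prod) := by noncomm_ring
        _ = e * (l.prod - l.prod * q) := by rw [h2]
        _ = _ := by noncomm_ring

/-- `(W, U) ↦ (x ↦ τ (W x U))` -/
noncomputable def Lam (τ : A →L[ℝ] ℂ) : A →L[ℝ] A →L[ℝ] A →L[ℝ] ℂ :=
  (ContinuousLinearMap.compL ℝ A (A →L[ℝ] A) (A →L[ℝ] ℂ)
    (ContinuousLinearMap.compL ℝ A A ℂ τ)).comp (ContinuousLinearMap.mulLeftRight ℝ A)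

theorem Lam_apply (W U x : A) : Lam τ W U x = τ (W * x * U) := rfl

/-- a functional on `A` gives a form on `A × A × A` -/
noncomputable def Psi (A : Type*) [NormedRing A] [NormedAlgebra ℝ A] (n : ℕ) :
    (A →L[ℝ] ℂ) →L[ℝ] (A × A × A) [⋀^Fin n]→L[ℝ] ℂ :=
  ((ContinuousAlternatingMap.compContinuousLinearMapCLM
    ((ContinuousLinearMap.snd ℝ A A).comp (ContinuousLinearMap.snd ℝ A (A × A)))).comp (altL n)).comp
    ((ContinuousLinearMap.compContinuousMultilinearMapL ℝ (fun _ : Fin n => A) A ℂ).flip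
      (ContinuousMultilinearMap.mkPiAlgebraFin ℝ n A))

theorem Psi_apply (n : ℕ) (L : A →L[ℝ] ℂ) (X : Fin n → A × A × A) :
    Psi A n L X = ∑ σ : Equiv.Perm (Fin n), Equiv.Perm.sign σ •
      L ((List.ofFn fun i => (X (σ i)).2.2).prod) := by
  have h : Psi A n L X = altL n (L.compContinuousMultilinearMap
      (ContinuousMultilinearMap.mkPiAlgebraFin ℝ n A)) (fun i => (X i).2.2) := rfl
  rw [h, altL_apply]
  refine Finset.sum_congr rfl fun σ _ => ?_
  congr 1

/-- the form `(U, W, q) ↦ alt τ (W dq ... dq U)` -/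
noncomputable def Om (τ : A →L[ℝ] ℂ) (n : ℕ) (x : A × A × A) : (A × A × A) [⋀^Fin n]→L[ℝ] ℂ :=
  Psi A n (Lam τ x.2.1 x.1)

theorem Om_apply (n : ℕ) (x : A × A × A) (X : Fin n → A × A × A) :
    Om τ n x X = ∑ σ : Equiv.Perm (Fin n), Equiv.Perm.sign σ •
      τ (x.2.1 * (List.ofFn fun i => (X (σ i)).2.2).prod * x.1) := by
  rw [Om, Psi_apply]; rfl

theorem Om_smooth (n : ℕ) : ContDiff ℝ 1 (Om τ n) := by
  have h5 : ContDiff ℝ 1 (fun L : A →L[ℝ] ℂ => Psi A n L) :=
    ContinuousLinearMap.contDiff (𝕜 := ℝ) (E := A →L[ℝ] ℂ) (F := (A × A × A) [⋀^Fin n]→L[ℝ] ℂ) (n := 1) (Psi A n)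
  have h6 : ContDiff ℝ 1 (fun x : A × A × A => Lam τ x.2.1 x.1) :=
    ((Lam τ).contDiff.comp (contDiff_fst.comp contDiff_snd)).clm_apply contDiff_fst
  exact h5.comp h6

theorem Om_fderiv (n : ℕ) (x y : A × A × A) :
    fderiv ℝ (Om τ n) x y = Psi A n (Lam τ y.2.1 x.1) + Psi A n (Lam τ x.2.1 y.1) := by
  have h1 : HasFDerivAt (fun x : A × A × A => x.2.1)
      ((ContinuousLinearMap.fst ℝ A A).comp (ContinuousLinearMap.snd ℝ A (A × A))) x :=
    ((ContinuousLinearMap.fst ℝ A A).comp (ContinuousLinearMap.snd ℝ A (A × A))).hasFDerivAt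
  have h2 : HasFDerivAt (fun x : A × A × A => x.1) (ContinuousLinearMap.fst ℝ A (A × A)) x :=
    (ContinuousLinearMap.fst ℝ A (A × A)).hasFDerivAt
  have h3 := (Lam τ).hasFDerivAt_of_bilinear h1 h2
  have h5 : HasFDerivAt (fun L => Psi A n L) (Psi A n) (Lam τ x.2.1 x.1) := (Psi A n).hasFDerivAt
  have h4 : HasFDerivAt (Om τ n) _ x :=
    HasFDerivAt.comp (𝕜 := ℝ) (g := fun L => Psi A n L) (g' := Psi A n) x h5 h3
  rw [h4.fderiv, ← map_add]
  change Psi A n (_ + _) = _
  congr 1
  rw [add_comm]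
  rfl

/-- the triple `(U, W, U W)` -/
def tri {E : Type*} (U W : E → A) (x : E) : A × A × A := (U x, W x, U x * W x)

/-- derivative of the triple -/
theorem tri_fderiv {E : Type*} [NormedAddCommGroup E] [NormedSpace ℝ E] {U W : E → A} {x : E}
    (hU : DifferentiableAt ℝ U x) (hW : DifferentiableAt ℝ W x) (v : E) :
    fderiv ℝ (tri U W) x v = (fderiv ℝ U x v, fderiv ℝ W x v,
      U x * fderiv ℝ W x v + fderiv ℝ U x v * W x) := by
  have h := hU.hasFDerivAt.prodMk (hW.hasFDerivAt.prodMk (hU.hasFDerivAt.mul' hW.hasFDerivAt))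
  have h' : HasFDerivAt (tri U W) _ x := h
  rw [h'.fderiv]
  rfl

omit [NormedAlgebra ℝ A] in
theorem fa_idem {U W : A} (h : Fa π U W) : (U * W) * (U * W) = U * W := by
  rw [← mul_assoc, h.uwu]

/-- **closedness** -/
theorem clP {E : Type*} [NormedAddCommGroup E] [NormedSpace ℝ E] (hτ : PT τ π) {n : ℕ}
    (hn : Even n) {U W : E → A} (hU : Differentiable ℝ U) (hW : Differentiable ℝ W)
    (hF : ∀ x, Fa π (U x) (W x)) : ClP (Om τ n) (tri U W) := by
  intro x v i
  -- directional derivatives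
  have dU : ∀ w, fderiv ℝ U x w * π = fderiv ℝ U x w := by
    intro w
    have h1 : HasFDerivAt (fun x => U x * π) _ x := (hU x).hasFDerivAt.mul_const' π
    have h2 : HasFDerivAt (fun x => U x * π) (fderiv ℝ U x) x := by
      rw [show (fun x => U x * π) = U from funext fun x => (hF x).r]; exact (hU x).hasFDerivAt
    have h3 := congrArg (fun L : E →L[ℝ] A => L w) (h1.unique h2)
    simpa using h3
  have dW : ∀ w, π * fderiv ℝ W x w = fderiv ℝ W x w := by
    intro w
    have h1 : HasFDerivAt (fun x => π * W x) _ x := (hW x).hasFDerivAt.const_mul π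
    have h2 : HasFDerivAt (fun x => π * W x) (fderiv ℝ W x) x := by
      rw [show (fun x => π * W x) = W from funext fun x => (hF x).l]; exact (hW x).hasFDerivAt
    have h3 := congrArg (fun L : E →L[ℝ] A => L w) (h1.unique h2)
    simpa using h3
  have dq : ∀ w, Odd (U x * W x) (U x * fderiv ℝ W x w + fderiv ℝ U x w * W x) := by
    intro w
    have h0 := (hU x).hasFDerivAt.fun_mul' (hW x).hasFDerivAt
    have h1 := h0.fun_mul' h0
    rw [show (fun x => (U x * W x) * (U x * W x)) = fun x => U x * W x from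
        funext fun x => fa_idem (hF x)] at h1
    have h3 := congrArg (fun L : E →L[ℝ] A => L w) (h1.unique h0)
    simpa [Odd, mul_add, add_mul] using h3
  have dP : ∀ w, (W x * U x) * (fderiv ℝ W x w * U x + W x * fderiv ℝ U x w) * (W x * U x) = 0 := by
    intro w
    have hP : ∀ x, (W x * U x) * (W x * U x) = W x * U x := by
      intro x; rw [← mul_assoc, (hF x).wuw]
    have h0 := (hW x).hasFDerivAt.fun_mul' (hU x).hasFDerivAt
    have h1 := h0.fun_mul' h0
    rw [show (fun x => (W x * U x) * (W x * U x)) = fun x => W x * U x from funext hP] at h1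
    have h3 := congrArg (fun L : E →L[ℝ] A => L w) (h1.unique h0)
    have h4 : W x * U x * (W x * fderiv ℝ U x w + fderiv ℝ W x w * U x)
        + (W x * fderiv ℝ U x w + fderiv ℝ W x w * U x) * (W x * U x)
        = W x * fderiv ℝ U x w + fderiv ℝ W x w * U x := by
      simpa [mul_add, add_mul] using h3
    have hPP := hP x
    set P := W x * U x with hPdef
    set D := W x * fderiv ℝ U x w + fderiv ℝ W x w * U x with hD
    have h5 : fderiv ℝ W x w * U x + W x * fderiv ℝ U x w = D := by rw [hD, add_comm]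
    rw [h5]
    have h6 : P * (P * D + D * P) * P = P * D * P := by rw [h4]
    have h7 : P * (P * D + D * P) * P = (P * P) * D * P + P * D * (P * P) := by noncomm_ring
    rw [h7, hPP] at h6
    simpa using h6
  rw [Om_fderiv]
  change Psi A n _ _ + Psi A n _ _ = 0
  rw [Psi_apply, Psi_apply, ← Finset.sum_add_distrib]
  refine Finset.sum_eq_zero fun σ _ => ?_
  rw [← smul_add]
  have hZ : U x * W x * (List.ofFn fun j => (i.removeNth (fun j => fderiv ℝ (tri U W) x (v j)) (σ j)).2.2).prod
      = (List.ofFn fun j => (i.removeNth (fun j => fderiv ℝ (tri U W) x (v j)) (σ j)).2.2).prod * (U x * W x) := by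
    refine (odd_list (List.ofFn _) ?_).1 (by simpa using hn)
    intro e he
    rw [List.mem_ofFn] at he
    obtain ⟨j, rfl⟩ := he
    rw [show i.removeNth (fun j => fderiv ℝ (tri U W) x (v j)) (σ j)
      = fderiv ℝ (tri U W) x (v (i.succAbove (σ j))) from rfl, tri_fderiv (hU x) (hW x)]
    exact dq _
  have key := van hτ (hF x) (dU (v i)) (dW (v i)) hZ (dP (v i))
  rw [Lam_apply, Lam_apply, tri_fderiv (hU x) (hW x) (v i)]
  change Equiv.Perm.sign σ • (τ (fderiv ℝ W x (v i) * _ * U x) + τ (W x * _ * fderiv ℝ U x (v i))) = 0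
  rw [add_comm, key, smul_zero]

omit [NormedAlgebra ℝ A] in
theorem conj_list {V V' : A} (h : V' * V = 1) (l : List A) :
    V' * (l.map fun q => V * q * V').prod * V = l.prod := by
  induction l with
  | nil => simpa using h
  | cons e l ih =>
    rw [List.map_cons, List.prod_cons, List.prod_cons]
    calc V' * (V * e * V' * (l.map fun q => V * q * V').prod) * V
        = (V' * V) * e * (V' * (l.map fun q => V * q * V').prod * V) := by noncomm_ring
      _ = e * l.prod := by rw [h, ih, one_mul]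

/-- the Chern-Weil number of `q = U W` with the corner trace `τ` -/
noncomputable def den (τ : A →L[ℝ] ℂ) (n : ℕ) (U W : (Fin n → ℝ) → A) : ℂ :=
  ∫ y in Icc (0 : Fin n → ℝ) 1, ∑ σ : Equiv.Perm (Fin n), Equiv.Perm.sign σ •
    τ (W y * (List.ofFn fun i => fderiv ℝ (fun y => U y * W y) y (Pi.single (σ i) 1)).prod * U y)

theorem fderiv_slice {F : Type*} [NormedAddCommGroup F] [NormedSpace ℝ F] {n : ℕ}
    {f : (Fin (n + 1) → ℝ) → F} (hf : Differentiable ℝ f) (c : ℝ) (y : Fin n → ℝ) (j : Fin n) :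
    fderiv ℝ (fun y => f (Fin.cons c y)) y (Pi.single j 1)
      = fderiv ℝ f (Fin.cons c y) (Pi.single j.succ 1) := by
  have h1 : HasFDerivAt (fun y : Fin n → ℝ => (Fin.cons c y : Fin (n + 1) → ℝ))
      (ContinuousLinearMap.pi fun i : Fin (n + 1) =>
        Fin.cases (motive := fun _ => (Fin n → ℝ) →L[ℝ] ℝ) 0 (fun j => ContinuousLinearMap.proj j) i)
      y := by
    rw [hasFDerivAt_pi]
    intro i
    refine Fin.cases ?_ (fun j => ?_) i
    · simpa using hasFDerivAt_const c y
    · simpa using hasFDerivAt_apply (𝕜 := ℝ) j y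
  have h2 := (hf (Fin.cons c y)).hasFDerivAt.comp y h1
  have h3 : HasFDerivAt (fun y => f (Fin.cons c y)) _ y := h2
  rw [h3.fderiv, ContinuousLinearMap.comp_apply]
  congr 1
  funext i
  refine Fin.cases ?_ (fun k => ?_) i
  · simp
  · simp [Pi.single_apply]

/-- **homotopy invariance in a Banach algebra** -/
theorem homotopy_alg (hτ : PT τ π) {n : ℕ} (hn : Even n) {U W : (Fin (n + 1) → ℝ) → A}
    (hU : ContDiff ℝ 2 U) (hW : ContDiff ℝ 2 W) (hF : ∀ x, Fa π (U x) (W x))
    (hper : ∀ k : Fin n, ∃ V V' : A, V' * V = 1 ∧ ∀ x, U (x + Pi.single k.succ 1) = V * U x ∧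
      W (x + Pi.single k.succ 1) = W x * V') :
    den τ n (fun y => U (Fin.cons 1 y)) (fun y => W (Fin.cons 1 y))
      = den τ n (fun y => U (Fin.cons 0 y)) (fun y => W (Fin.cons 0 y)) := by
  have hU1 := hU.differentiable two_ne_zero
  have hW1 := hW.differentiable two_ne_zero
  have hf : ContDiff ℝ 2 (tri U W) := hU.prodMk (hW.prodMk (hU.mul hW))
  have key := homotopyC (Om_smooth (τ := τ) n) (tri U W) hf (clP hτ hn hU1 hW1 hF) (by
    intro k
    obtain ⟨V, V', hV, hp⟩ := hper k
    refine ⟨(ContinuousLinearMap.mul ℝ A V).prodMap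
      (((ContinuousLinearMap.mul ℝ A).flip V').prodMap (ContinuousLinearMap.mulLeftRight ℝ A V V')),
      fun q v => ?_, fun x => ?_⟩
    · rw [Om_apply, Om_apply]
      refine Finset.sum_congr rfl fun σ _ => ?_
      congr 2
      change q.2.1 * V' * (List.ofFn fun i => V * (v (σ i)).2.2 * V').prod * (V * q.1) = _
      have h1 : (List.ofFn fun i => V * (v (σ i)).2.2 * V')
          = (List.ofFn fun i => (v (σ i)).2.2).map fun q => V * q * V' := by
        rw [List.map_ofFn]; rfl
      rw [h1]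
      conv_rhs => rw [← conj_list hV (List.ofFn fun i => (v (σ i)).2.2)]
      simp only [mul_assoc]
    · obtain ⟨h1, h2⟩ := hp x
      simp only [tri, h1, h2]
      refine Prod.ext rfl (Prod.ext rfl ?_)
      change V * U x * (W x * V') = V * (U x * W x) * V'
      simp only [mul_assoc])
  have h2 : ∀ c : ℝ, den τ n (fun y => U (Fin.cons c y)) (fun y => W (Fin.cons c y))
      = ∫ y in Icc (0 : Fin n → ℝ) 1, Om τ n (tri U W (Fin.cons c y))
        (fun j => fderiv ℝ (tri U W) (Fin.cons c y) (Pi.single j.succ 1)) := by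
    intro c
    unfold den
    refine integral_congr_ae (Eventually.of_forall fun y => ?_)
    simp only
    rw [Om_apply]
    refine Finset.sum_congr rfl fun σ _ => ?_
    congr 5
    refine congrArg List.ofFn (funext fun i => ?_)
    rw [fderiv_slice (f := fun x => U x * W x) (hU1.mul hW1), tri_fderiv (hU1 _) (hW1 _)]
    have h3 := (hU1 (Fin.cons c y)).hasFDerivAt.fun_mul' (hW1 (Fin.cons c y)).hasFDerivAt
    rw [h3.fderiv]
    rfl
  rw [h2, h2, key]

end algebra

end Crest.Agent.R235.FamC_192
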