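import Crest.Agent.R235.FamDefs_307

/-!
Row 235 (S0364), package FAM, leaf FOUR (helper504): a closed periodic two-form with vanishing
means has `∫ w ∧ w = 0`.

No Fourier series: `∫ dη ∧ w = 0` for a periodic `η`, so `∫ (τ_a w) ∧ w` does not depend on the
translation `a`; its mean over `a` vanishes.
-/

set_option autoImplicit false
set_option maxSynthPendingDepth 3

open Set Filter Module MeasureTheory Function
open scoped ContDiff Topology InnerProductSpace

namespace Crest.Agent.R235.FamFour_504

open Crest.Agent.R235.FamDefs_307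

noncomputable section

/-- the torus coordinates. -/
abbrev C4 : Type := Fin 4 → ℝ

/-- the cube. -/
abbrev Q4 : Set C4 := Icc (0 : C4) 1

/-- periodic functions. -/
def Per (F : C4 → ℂ) : Prop := ∀ (h : C4) (k : Fin 4 → ℤ), F (fun l => h l + k l) = F h

theorem vol_Q4 : volume.real Q4 = 1 := by
  rw [Measure.real, Real.volume_Icc_pi]
  simp

theorem per_pdθ {F : C4 → ℂ} (hp : Per F) (j : Fin 4) : Per (pdθ j F) := by
  intro h k
  have h1 : (fun x : C4 => F (x + fun l => (k l : ℝ))) = F := by
    funext x; exact hp x k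
  have h2 := congrArg (fun G : C4 → ℂ => fderiv ℝ G h (Pi.single j 1)) h1
  simp only [fderiv_comp_add_right] at h2
  exact h2

theorem cont_pdθ {F : C4 → ℂ} (hF : ContDiff ℝ ∞ F) (j : Fin 4) : Continuous (pdθ j F) :=
  (hF.continuous_fderiv (by simp)).clm_apply continuous_const

/-- the integral of a derivative over the torus. -/
theorem int_pdθ {F : C4 → ℂ} (hF : ContDiff ℝ 1 F) (hp : Per F) (j : Fin 4) :
    ∫ h in Q4, pdθ j F h = 0 := by
  have key := integral_divergence_of_hasFDerivAt_off_countable' (0 : C4) 1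
    (by intro i; simp) (fun i => if i = j then F else 0)
    (fun i => if i = j then fderiv ℝ F else 0) ∅ countable_empty
    (by
      intro i
      by_cases h : i = j
      · simp only [h, if_true]; exact hF.continuous.continuousOn
      · simp only [h, if_false]; exact continuousOn_const)
    (by
      intro x _ i
      by_cases h : i = j
      · simp only [h, if_true]
        exact (hF.differentiable (by simp) x).hasFDerivAt
      · simp only [h, if_false]
        exact hasFDerivAt_const 0 x)
    (by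
      apply ContinuousOn.integrableOn_Icc
      refine (continuous_finsetSum _ fun i _ => ?_).continuousOn
      by_cases h : i = j
      · simp only [h, if_true]
        exact (hF.continuous_fderiv (by simp)).clm_apply continuous_const
      · simp only [h, if_false]
        exact continuous_const)
  have hL : ∀ x : C4, ∑ i, (if i = j then fderiv ℝ F else 0) x (Pi.single i 1) = pdθ j F x := by
    intro x
    rw [Finset.sum_eq_single j]
    · simp [pdθ]
    · intro i _ hi; simp [hi]
    · intro h; exact absurd (Finset.mem_univ j) h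
  simp only [hL] at key
  rw [key]
  refine Finset.sum_eq_zero fun i _ => ?_
  by_cases h : i = j
  · subst h
    simp only [if_true]
    rw [sub_eq_zero]
    refine setIntegral_congr_fun measurableSet_Icc fun x _ => ?_
    have h1 := hp (Fin.insertNth i ((0 : C4) i) x) (Pi.single i 1)
    rw [← h1]
    congr 1
    funext l
    rcases eq_or_ne l i with rfl | hl
    · simp
    · obtain ⟨m, rfl⟩ := Fin.exists_succAbove_eq hl
      simp
  · simp [h]

/-! ### antisymmetrisation -/

/-- the antisymmetrised sum. -/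
def S4 (A : Fin 4 → Fin 4 → Fin 4 → Fin 4 → ℂ) : ℂ :=
  ∑ σ : Equiv.Perm (Fin 4), sg σ * A (σ 0) (σ 1) (σ 2) (σ 3)

theorem sg_mul (σ τ : Equiv.Perm (Fin 4)) : sg (σ * τ) = sg σ * sg τ := by
  unfold sg
  rw [Equiv.Perm.sign_mul]
  push_cast
  ring

theorem S4_comp (τ : Equiv.Perm (Fin 4)) (A : Fin 4 → Fin 4 → Fin 4 → Fin 4 → ℂ) :
    ∑ σ : Equiv.Perm (Fin 4), sg σ * A (σ (τ 0)) (σ (τ 1)) (σ (τ 2)) (σ (τ 3)) =
      sg τ * S4 A := by
  have h := Equiv.sum_comp (Equiv.mulRight τ)
    (fun σ : Equiv.Perm (Fin 4) => sg σ * A (σ 0) (σ 1) (σ 2) (σ 3))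
  unfold S4
  rw [← h, Finset.mul_sum]
  refine Finset.sum_congr rfl fun σ _ => ?_
  have h1 : sg τ * sg τ = 1 := by
    unfold sg
    rcases Int.units_eq_one_or (Equiv.Perm.sign τ) with h | h <;> simp [h]
  simp only [Equiv.coe_mulRight, sg_mul, Equiv.Perm.mul_apply]
  calc sg σ * A (σ (τ 0)) (σ (τ 1)) (σ (τ 2)) (σ (τ 3))
      = (sg τ * sg τ) * (sg σ * A (σ (τ 0)) (σ (τ 1)) (σ (τ 2)) (σ (τ 3))) := by
        rw [h1, one_mul]
    _ = _ := by ring

theorem S4_add (A B : Fin 4 → Fin 4 → Fin 4 → Fin 4 → ℂ) :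
    S4 (fun a b c d => A a b c d + B a b c d) = S4 A + S4 B := by
  unfold S4
  rw [← Finset.sum_add_distrib]
  exact Finset.sum_congr rfl fun σ _ => by ring

theorem S4_sub (A B : Fin 4 → Fin 4 → Fin 4 → Fin 4 → ℂ) :
    S4 (fun a b c d => A a b c d - B a b c d) = S4 A - S4 B := by
  unfold S4
  rw [← Finset.sum_sub_distrib]
  exact Finset.sum_congr rfl fun σ _ => by ring

/-- exchange of the first two entries. -/
theorem S4_swap (A : Fin 4 → Fin 4 → Fin 4 → Fin 4 → ℂ) :
    S4 (fun a b c d => A b a c d) = - S4 A := by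
  have h := S4_comp (Equiv.swap 0 1) A
  have h0 : (Equiv.swap (0 : Fin 4) 1) 0 = 1 := by decide
  have h1 : (Equiv.swap (0 : Fin 4) 1) 1 = 0 := by decide
  have h2 : (Equiv.swap (0 : Fin 4) 1) 2 = 2 := by decide
  have h3 : (Equiv.swap (0 : Fin 4) 1) 3 = 3 := by decide
  have h4 : sg (Equiv.swap (0 : Fin 4) 1) = -1 := by
    unfold sg
    rw [Equiv.Perm.sign_swap (by decide)]
    simp
  rw [h0, h1, h2, h3, h4, neg_one_mul] at h
  exact h

/-- cyclic permutation of the entries `0, 2, 3`. -/
theorem S4_cyc (A : Fin 4 → Fin 4 → Fin 4 → Fin 4 → ℂ) :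
    S4 (fun a b c d => A c b d a) = S4 A := by
  have h := S4_comp (Equiv.swap 0 2 * Equiv.swap 2 3) A
  have h0 : (Equiv.swap 0 2 * Equiv.swap 2 3 : Equiv.Perm (Fin 4)) 0 = 2 := by decide
  have h1 : (Equiv.swap 0 2 * Equiv.swap 2 3 : Equiv.Perm (Fin 4)) 1 = 1 := by decide
  have h2 : (Equiv.swap 0 2 * Equiv.swap 2 3 : Equiv.Perm (Fin 4)) 2 = 3 := by decide
  have h3 : (Equiv.swap 0 2 * Equiv.swap 2 3 : Equiv.Perm (Fin 4)) 3 = 0 := by decide
  have h4 : sg (Equiv.swap 0 2 * Equiv.swap 2 3 : Equiv.Perm (Fin 4)) = 1 := by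
    rw [sg_mul]
    unfold sg
    rw [Equiv.Perm.sign_swap (by decide), Equiv.Perm.sign_swap (by decide)]
    simp
  rw [h0, h1, h2, h3, h4, one_mul] at h
  exact h

theorem S4_congr {A B : Fin 4 → Fin 4 → Fin 4 → Fin 4 → ℂ} (h : ∀ a b c d, A a b c d = B a b c d) :
    S4 A = S4 B := by
  unfold S4
  exact Finset.sum_congr rfl fun σ _ => by rw [h]

/-- the algebraic part of `dη ∧ w = d (η ∧ w)`. -/
theorem S4_exact {p : Fin 4 → Fin 4 → ℂ} {η : Fin 4 → ℂ} {w : Fin 4 → Fin 4 → ℂ}
    {dw : Fin 4 → Fin 4 → Fin 4 → ℂ} (hcl : ∀ i j k, dw i j k + dw j k i + dw k i j = 0) :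
    S4 (fun a b c d => (p a b - p b a) * w c d) =
      2 * S4 (fun a b c d => p a b * w c d + η b * dw a c d) := by
  have h1 : S4 (fun a b c d => (p a b - p b a) * w c d) = 2 * S4 (fun a b c d => p a b * w c d) := by
    have e1 : S4 (fun a b c d => (p a b - p b a) * w c d) =
        S4 (fun a b c d => p a b * w c d) - S4 (fun a b c d => p b a * w c d) := by
      rw [← S4_sub]
      exact S4_congr fun a b c d => by ring
    rw [e1, S4_swap (fun a b c d => p a b * w c d)]
    ring
  have h2 : S4 (fun a b c d => η b * dw a c d) = 0 := by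
    have e1 : S4 (fun a b c d => η b * dw c d a) = S4 (fun a b c d => η b * dw a c d) :=
      S4_cyc (fun a b c d => η b * dw a c d)
    have e2 : S4 (fun a b c d => η b * dw d a c) = S4 (fun a b c d => η b * dw c d a) :=
      S4_cyc (fun a b c d => η b * dw c d a)
    have e3 : S4 (fun a b c d => η b * dw a c d) + S4 (fun a b c d => η b * dw c d a) +
        S4 (fun a b c d => η b * dw d a c) = 0 := by
      rw [← S4_add, ← S4_add]
      unfold S4
      refine Finset.sum_eq_zero fun σ _ => ?_
      have h3 := hcl (σ 0) (σ 2) (σ 3)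
      have : η (σ 1) * dw (σ 0) (σ 2) (σ 3) + η (σ 1) * dw (σ 2) (σ 3) (σ 0) +
          η (σ 1) * dw (σ 3) (σ 0) (σ 2) = 0 := by
        rw [← mul_add, ← mul_add, h3, mul_zero]
      beta_reduce
      rw [this, mul_zero]
    rw [e2, e1] at e3
    have h4 : (3 : ℂ) * S4 (fun a b c d => η b * dw a c d) = 0 := by
      rw [← e3]; ring
    exact (mul_eq_zero.1 h4).resolve_left (by norm_num)
  rw [h1, S4_add (fun a b c d => p a b * w c d) (fun a b c d => η b * dw a c d), h2, add_zero]

/-! ### calculus on the torus -/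

/-- the Fubini theorem used below. -/
theorem swap_int {G : C4 → ℝ → ℂ} (hG : Continuous fun z : C4 × ℝ => G z.1 z.2) :
    ∫ h in Q4, ∫ t in (0 : ℝ)..1, G h t = ∫ t in (0 : ℝ)..1, ∫ h in Q4, G h t := by
  simp only [intervalIntegral.integral_of_le zero_le_one]
  refine integral_integral_swap ?_
  rw [Measure.prod_restrict]
  have h1 : IntegrableOn (uncurry G) (Q4 ×ˢ Icc (0 : ℝ) 1) (volume.prod volume) :=
    hG.continuousOn.integrableOn_compact (isCompact_Icc.prod isCompact_Icc)
  exact h1.mono_set (prod_mono_right Ioc_subset_Icc_self)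

theorem swap_int' {G : C4 → C4 → ℂ} (hG : Continuous fun z : C4 × C4 => G z.1 z.2) :
    ∫ h in Q4, ∫ a in Q4, G h a = ∫ a in Q4, ∫ h in Q4, G h a := by
  refine integral_integral_swap ?_
  rw [Measure.prod_restrict]
  exact hG.continuousOn.integrableOn_compact (isCompact_Icc.prod isCompact_Icc)

theorem fderiv_eq_sum {F : C4 → ℂ} (x a : C4) : fderiv ℝ F x a = ∑ k, (a k : ℂ) * pdθ k F x := by
  have h1 : a = ∑ k, a k • (Pi.single k 1 : C4) := by
    funext l
    simp [Finset.sum_apply, Pi.single_apply]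
  conv_lhs => rw [h1]
  rw [map_sum]
  refine Finset.sum_congr rfl fun k _ => ?_
  rw [map_smul, Complex.real_smul]
  rfl

/-- the fundamental theorem along a segment. -/
theorem sub_eq_int {F : C4 → ℂ} (hF : ContDiff ℝ ∞ F) (h a : C4) :
    F (h + a) - F h = ∫ t in (0 : ℝ)..1, fderiv ℝ F (h + t • a) a := by
  have h1 : ∀ t : ℝ, HasDerivAt (fun t : ℝ => F (h + t • a)) (fderiv ℝ F (h + t • a) a) t := by
    intro t
    have h2 : HasDerivAt (fun t : ℝ => h + t • a) a t := by
      have h3 : HasDerivAt (fun t : ℝ => t • a) ((1 : ℝ) • a) t := (hasDerivAt_id t).smul_const a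
      rw [one_smul] at h3
      exact h3.const_add h
    exact ((hF.differentiable (by simp) (h + t • a)).hasFDerivAt).comp_hasDerivAt t h2
  have h4 : Continuous fun t : ℝ => fderiv ℝ F (h + t • a) a :=
    ((hF.continuous_fderiv (by simp)).comp (by fun_prop)).clm_apply continuous_const
  rw [intervalIntegral.integral_eq_sub_of_hasDerivAt (fun t _ => h1 t) (h4.intervalIntegrable 0 1)]
  simp

theorem Per.shift {F : C4 → ℂ} (hF : Per F) (a : C4) : Per fun h => F (h + a) := by
  intro h k
  have h1 := hF (h + a) k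
  beta_reduce
  rw [← h1]
  congr 1
  funext l
  simp only [Pi.add_apply]
  ring

theorem smooth_shift {F : C4 → ℂ} (hF : ContDiff ℝ ∞ F) (a : C4) :
    ContDiff ℝ ∞ fun h => F (h + a) := hF.comp (contDiff_id.add contDiff_const)

theorem pdθ_shift {F : C4 → ℂ} (j : Fin 4) (a h : C4) :
    pdθ j (fun x => F (x + a)) h = pdθ j F (h + a) := by
  unfold pdθ
  rw [fderiv_comp_add_right]

/-- translation invariance. -/
theorem int_shift {F : C4 → ℂ} (hF : ContDiff ℝ ∞ F) (hp : Per F) (a : C4) :
    ∫ h in Q4, F (h + a) = ∫ h in Q4, F h := by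
  have hi1 : IntegrableOn (fun h => F (h + a)) Q4 :=
    ContinuousOn.integrableOn_Icc (hF.continuous.comp (by fun_prop)).continuousOn
  have hi2 : IntegrableOn F Q4 := ContinuousOn.integrableOn_Icc hF.continuous.continuousOn
  rw [← sub_eq_zero, ← integral_sub hi1 hi2]
  simp only [sub_eq_int hF]
  have hc : Continuous fun z : C4 × ℝ => fderiv ℝ F (z.1 + z.2 • a) a :=
    ((hF.continuous_fderiv (by simp)).comp (by fun_prop)).clm_apply continuous_const
  rw [swap_int (G := fun h t => fderiv ℝ F (h + t • a) a) hc]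
  have h1 : ∀ t : ℝ, ∫ h in Q4, fderiv ℝ F (h + t • a) a = 0 := by
    intro t
    simp only [fderiv_eq_sum]
    rw [integral_finsetSum]
    · refine Finset.sum_eq_zero fun k _ => ?_
      rw [integral_const_mul]
      simp only [← pdθ_shift]
      rw [int_pdθ ((smooth_shift hF _).of_le (by simp)) (hp.shift _), mul_zero]
    · intro k _
      apply ContinuousOn.integrableOn_Icc
      exact (continuous_const.mul ((cont_pdθ hF k).comp (by fun_prop))).continuousOn
  simp only [h1]
  simp

theorem cont_S4 {X : Type*} [TopologicalSpace X] {A : X → Fin 4 → Fin 4 → Fin 4 → Fin 4 → ℂ}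
    (hA : ∀ a b c d, Continuous fun x => A x a b c d) : Continuous fun x => S4 (A x) := by
  unfold S4
  exact continuous_finsetSum _ fun σ _ => continuous_const.mul (hA _ _ _ _)

theorem int_S4 {A : C4 → Fin 4 → Fin 4 → Fin 4 → Fin 4 → ℂ}
    (hA : ∀ a b c d, Continuous fun x => A x a b c d)
    (h0 : ∀ a b c d, ∫ h in Q4, A h a b c d = 0) : ∫ h in Q4, S4 (A h) = 0 := by
  unfold S4
  rw [integral_finsetSum]
  · refine Finset.sum_eq_zero fun σ _ => ?_
    rw [integral_const_mul, h0, mul_zero]
  · intro σ _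
    exact ContinuousOn.integrableOn_Icc (continuous_const.mul (hA _ _ _ _)).continuousOn

/-- closed periodic two-forms. -/
structure Cl (w : Fin 4 → Fin 4 → C4 → ℂ) : Prop where
  sm : ∀ i j, ContDiff ℝ ∞ (w i j)
  alt : ∀ i j h, w i j h = - w j i h
  per : ∀ i j, Per (w i j)
  cl : ∀ i j k h, pdθ i (w j k) h + pdθ j (w k i) h + pdθ k (w i j) h = 0

theorem cont_dη {η : Fin 4 → C4 → ℂ} (hη : ∀ i, ContDiff ℝ ∞ (η i)) (a b : Fin 4) :
    Continuous fun h => pdθ a (η b) h - pdθ b (η a) h :=
  (cont_pdθ (hη b) a).sub (cont_pdθ (hη a) b)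

/-- `∫ dη ∧ w = 0`. -/
theorem int_exact {η : Fin 4 → C4 → ℂ} (hη : ∀ i, ContDiff ℝ ∞ (η i)) (hp : ∀ i, Per (η i))
    {w : Fin 4 → Fin 4 → C4 → ℂ} (hw : Cl w) :
    ∫ h in Q4, S4 (fun a b c d => (pdθ a (η b) h - pdθ b (η a) h) * w c d h) = 0 := by
  have h1 : ∀ h, S4 (fun a b c d => (pdθ a (η b) h - pdθ b (η a) h) * w c d h) =
      2 * S4 (fun a b c d => pdθ a (fun x => η b x * w c d x) h) := by
    intro h
    rw [S4_exact (p := fun a b => pdθ a (η b) h) (η := fun i => η i h) (w := fun i j => w i j h)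
      (dw := fun i j k => pdθ i (w j k) h) (fun i j k => hw.cl i j k h)]
    congr 1
    refine S4_congr fun a b c d => ?_
    have h2 : DifferentiableAt ℝ (η b) h := (hη b).differentiable (by simp) h
    have h3 : DifferentiableAt ℝ (w c d) h := (hw.sm c d).differentiable (by simp) h
    have h4 : fderiv ℝ (fun x => η b x * w c d x) h =
        η b h • fderiv ℝ (w c d) h + w c d h • fderiv ℝ (η b) h := fderiv_fun_mul h2 h3
    unfold pdθ
    rw [h4]
    simp only [add_apply, smul_apply, smul_eq_mul]
    ring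
  simp only [h1]
  rw [integral_const_mul, int_S4, mul_zero]
  · intro a b c d
    exact cont_pdθ ((hη b).mul (hw.sm c d)) a
  · intro a b c d
    refine int_pdθ (((hη b).mul (hw.sm c d)).of_le (by simp)) (fun h k => ?_) a
    show η b _ * w c d _ = _
    rw [hp b h k, hw.per c d h k]

/-- the pairing with a translate does not depend on the translation. -/
theorem int_translate {w : Fin 4 → Fin 4 → C4 → ℂ} (hw : Cl w) (v : C4) :
    ∫ h in Q4, S4 (fun a b c d => w a b (h + v) * w c d h) =
      ∫ h in Q4, S4 (fun a b c d => w a b h * w c d h) := by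
  have hi : ∀ u : C4, IntegrableOn (fun h => S4 (fun a b c d => w a b (h + u) * w c d h)) Q4 := by
    intro u
    apply ContinuousOn.integrableOn_Icc
    refine (cont_S4 fun a b c d => ?_).continuousOn
    exact ((smooth_shift (hw.sm a b) u).continuous).mul (hw.sm c d).continuous
  have hi0 := hi 0
  simp only [add_zero] at hi0
  rw [← sub_eq_zero, ← integral_sub (hi v) hi0]
  let η : ℝ → Fin 4 → C4 → ℂ := fun t j x => ∑ k, (v k : ℂ) * w k j (x + t • v)
  have hη : ∀ t j, ContDiff ℝ ∞ (η t j) := by
    intro t j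
    exact ContDiff.sum fun k _ => contDiff_const.mul (smooth_shift (hw.sm k j) _)
  have hp : ∀ t j, Per (η t j) := by
    intro t j h k
    exact Finset.sum_congr rfl fun l _ =>
      congrArg (fun z => (v l : ℂ) * z) ((hw.per l j).shift (t • v) h k)
  have hD : ∀ t a b h, fderiv ℝ (w a b) (h + t • v) v = pdθ a (η t b) h - pdθ b (η t a) h := by
    intro t a b h
    have h1 : ∀ i j, pdθ i (η t j) h = ∑ k, (v k : ℂ) * pdθ i (w k j) (h + t • v) := by
      intro i j
      have h2 : HasFDerivAt (η t j)
          (∑ k, (v k : ℂ) • fderiv ℝ (fun x => w k j (x + t • v)) h) h := by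
        refine HasFDerivAt.fun_sum fun k _ => ?_
        exact (((smooth_shift (hw.sm k j) (t • v)).differentiable (by simp)
          h).hasFDerivAt).const_mul (v k : ℂ)
      unfold pdθ
      rw [h2.fderiv]
      simp only [sum_apply, smul_apply, smul_eq_mul,
        fderiv_comp_add_right]
    rw [fderiv_eq_sum, h1, h1, ← Finset.sum_sub_distrib]
    refine Finset.sum_congr rfl fun k _ => ?_
    have h3 := hw.cl k a b (h + t • v)
    have h4 : pdθ a (w b k) (h + t • v) = - pdθ a (w k b) (h + t • v) := by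
      have e : w b k = fun x => - w k b x := by funext x; exact hw.alt b k x
      unfold pdθ
      rw [e, fderiv_fun_neg]
      rfl
    rw [h4] at h3
    have h5 : pdθ k (w a b) (h + t • v) = pdθ a (w k b) (h + t • v) - pdθ b (w k a) (h + t • v) := by
      linear_combination h3
    rw [h5]
    ring
  have h1 : ∀ h, S4 (fun a b c d => w a b (h + v) * w c d h) -
      S4 (fun a b c d => w a b h * w c d h) =
      ∫ t in (0 : ℝ)..1, S4 (fun a b c d => fderiv ℝ (w a b) (h + t • v) v * w c d h) := by
    intro h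
    unfold S4
    rw [intervalIntegral.integral_finsetSum]
    · rw [← Finset.sum_sub_distrib]
      refine Finset.sum_congr rfl fun σ _ => ?_
      rw [intervalIntegral.integral_const_mul, intervalIntegral.integral_mul_const,
        ← sub_eq_int (hw.sm _ _)]
      ring
    · intro σ _
      apply Continuous.intervalIntegrable
      exact continuous_const.mul (((((hw.sm _ _).continuous_fderiv (by simp)).comp
        (by fun_prop)).clm_apply continuous_const).mul continuous_const)
  simp only [h1]
  have hc : Continuous fun z : C4 × ℝ =>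
      S4 (fun a b c d => fderiv ℝ (w a b) (z.1 + z.2 • v) v * w c d z.1) := by
    refine cont_S4 fun a b c d => ?_
    exact ((((hw.sm _ _).continuous_fderiv (by simp)).comp
        (by fun_prop)).clm_apply continuous_const).mul ((hw.sm c d).continuous.comp continuous_fst)
  rw [swap_int (G := fun h t => S4 (fun a b c d => fderiv ℝ (w a b) (h + t • v) v * w c d h)) hc]
  have h2 : ∀ t : ℝ,
      ∫ h in Q4, S4 (fun a b c d => fderiv ℝ (w a b) (h + t • v) v * w c d h) = 0 := by
    intro t
    simp only [hD t]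
    exact int_exact (hη t) (hp t) hw
  simp only [h2]
  simp

/-- FOUR. -/
theorem four : FOUR := by
  intro w hs ha hp hcl h0
  have hw : Cl w := ⟨hs, ha, hp, hcl⟩
  show ∫ h in Q4, S4 (fun a b c d => w a b h * w c d h) = 0
  have h1 : ∫ v in Q4, ∫ h in Q4, S4 (fun a b c d => w a b (h + v) * w c d h) =
      ∫ h in Q4, S4 (fun a b c d => w a b h * w c d h) := by
    simp only [int_translate hw]
    rw [setIntegral_const, vol_Q4, one_smul]
  rw [← h1]
  have hc : Continuous fun z : C4 × C4 =>
      S4 (fun a b c d => w a b (z.2 + z.1) * w c d z.2) := by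
    refine cont_S4 fun a b c d => ?_
    exact ((hs a b).continuous.comp (by fun_prop)).mul ((hs c d).continuous.comp continuous_snd)
  rw [swap_int' (G := fun v h => S4 (fun a b c d => w a b (h + v) * w c d h)) hc]
  have h2 : ∀ h : C4, ∫ v in Q4, S4 (fun a b c d => w a b (h + v) * w c d h) = 0 := by
    intro h
    refine int_S4 (fun a b c d => ?_) (fun a b c d => ?_)
    · exact ((hs a b).continuous.comp (by fun_prop)).mul continuous_const
    · rw [integral_mul_const]
      have h3 : ∀ v : C4, w a b (h + v) = w a b (v + h) := fun v => by rw [add_comm]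
      simp only [h3]
      rw [int_shift (hs a b) (hp a b), h0, zero_mul]
  simp only [h2]
  simp

end

end Crest.Agent.R235.FamFour_504
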