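import Crest.Agent.R235.FamEmbC_842
import Crest.Agent.R235.FamFour_504

/-!
Row 235, PACKAGE FAM (helper842): CONST, the mean of `tr (p [∂ᵢp, ∂ⱼp])` over the 4-torus is its integral
over any coordinate 2-torus; hence `chsq = 0` if all these vanish.
-/

set_option autoImplicit false
set_option linter.unusedSectionVars false
set_option linter.unusedVariables false
set_option maxSynthPendingDepth 3

open Set Filter Module MeasureTheory Function
open scoped ContDiff Topology InnerProductSpace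

namespace Crest.Agent.R235.FamEmb_842

open Crest.Agent.R235.FamDefs_307 Crest.Agent.R235.FamF_842

noncomputable section

variable {b m n N : ℕ} {ι κ : Type*} {Y Z : Type*}
  [NormedAddCommGroup Y] [InnerProductSpace ℂ Y] [CompleteSpace Y]
  [NormedAddCommGroup Z] [InnerProductSpace ℂ Z] [FiniteDimensional ℂ Z]

/-! ### Fubini -/

theorem fub (i : Fin (n + 1)) {G : (Fin (n + 1) → ℝ) → ℂ} (hG : Continuous G) :
    ∫ h in Icc (0 : Fin (n + 1) → ℝ) 1, G h =
      ∫ c in Icc (0 : Fin n → ℝ) 1, ∫ t in Icc (0 : ℝ) 1, G (i.insertNth t c) := by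
  have hE := volume_preserving_piFinSuccAbove (fun _ : Fin (n + 1) => ℝ) i
  have h1 : (MeasurableEquiv.piFinSuccAbove (fun _ : Fin (n + 1) => ℝ) i) ⁻¹'
      (Icc (0 : ℝ) 1 ×ˢ Icc (0 : Fin n → ℝ) 1) = Icc 0 1 := by
    ext x
    simp only [mem_preimage, MeasurableEquiv.piFinSuccAbove_apply, mem_prod, mem_Icc, Pi.le_def]
    constructor
    · rintro ⟨⟨h1, h2⟩, h3, h4⟩
      refine ⟨fun l => ?_, fun l => ?_⟩
      · exact Fin.succAboveCases i h1 (fun l => h3 l) l
      · exact Fin.succAboveCases i h2 (fun l => h4 l) l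
    · rintro ⟨h1, h2⟩
      exact ⟨⟨h1 i, h2 i⟩, fun l => h1 _, fun l => h2 _⟩
  have h2 := hE.setIntegral_preimage_emb
    (MeasurableEquiv.measurableEmbedding _) (fun p => G (i.insertNth p.1 p.2))
    (Icc (0 : ℝ) 1 ×ˢ Icc (0 : Fin n → ℝ) 1)
  rw [h1] at h2
  have h3 : ∀ x : Fin (n + 1) → ℝ, G (i.insertNth
      ((MeasurableEquiv.piFinSuccAbove (fun _ : Fin (n + 1) => ℝ) i) x).1
      ((MeasurableEquiv.piFinSuccAbove (fun _ : Fin (n + 1) => ℝ) i) x).2) = G x := by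
    intro x
    congr 1
    simp
  simp only [h3] at h2
  rw [h2]
  have hc : Continuous fun p : ℝ × (Fin n → ℝ) => G (i.insertNth p.1 p.2) :=
    hG.comp (Continuous.finInsertNth (A := fun _ => ℝ) i continuous_fst continuous_snd)
  have hi : IntegrableOn (fun p : ℝ × (Fin n → ℝ) => G (i.insertNth p.1 p.2))
      (Icc (0 : ℝ) 1 ×ˢ Icc (0 : Fin n → ℝ) 1) (volume.prod volume) :=
    hc.continuousOn.integrableOn_compact (isCompact_Icc.prod isCompact_Icc)
  rw [IntegrableOn, ← Measure.prod_restrict] at hi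
  have h5 : (volume : Measure (ℝ × (Fin n → ℝ))) = volume.prod volume := rfl
  rw [h5, ← Measure.prod_restrict]
  exact integral_prod_symm _ hi

/-- averaging in one coordinate. -/
theorem resample (i : Fin (n + 1)) {F : (Fin (n + 1) → ℝ) → ℂ} (hF : Continuous F) :
    ∫ h in Icc (0 : Fin (n + 1) → ℝ) 1, F h =
      ∫ c in Icc (0 : Fin (n + 1) → ℝ) 1, ∫ t in Icc (0 : ℝ) 1, F (update c i t) := by
  have hc : Continuous fun c : Fin (n + 1) → ℝ => ∫ t in Icc (0 : ℝ) 1, F (update c i t) :=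
    continuous_parametric_integral_of_continuous (by
      show Continuous (fun p : (Fin (n + 1) → ℝ) × ℝ => F (update p.1 i p.2))
      exact hF.comp (continuous_fst.update i continuous_snd)) isCompact_Icc
  rw [fub i hF, fub i hc]
  refine integral_congr_ae (Eventually.of_forall fun c => ?_)
  have h1 : ∀ s t : ℝ, update (i.insertNth s c : Fin (n + 1) → ℝ) i t =
      (i.insertNth t c : Fin (n + 1) → ℝ) := by
    intro s t
    funext l
    refine Fin.succAboveCases i ?_ (fun l => ?_) l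
    · simp
    · simp [Fin.succAbove_ne]
  simp only [h1]
  simp

/-! ### slices -/

/-- the point with coordinates `i`, `j` replaced by `a 0`, `a 1`. -/
def sl (i j : Fin n) (c : Fin n → ℝ) (a : Fin 2 → ℝ) : Fin n → ℝ := fun l =>
  if l = j then a 1 else if l = i then a 0 else c l

theorem sl_update (i j : Fin n) (hij : i ≠ j) (c : Fin n → ℝ) (a : Fin 2 → ℝ) :
    sl i j c a = update (update c i (a 0)) j (a 1) := by
  funext l
  by_cases h1 : l = j
  · subst h1; simp [sl]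
  · by_cases h2 : l = i
    · subst h2; simp [sl, h1]
    · simp [sl, h1, h2]

theorem fub2 {G : (Fin 2 → ℝ) → ℂ} (hG : Continuous G) :
    ∫ a in Icc (0 : Fin 2 → ℝ) 1, G a =
      ∫ t in Icc (0 : ℝ) 1, ∫ s in Icc (0 : ℝ) 1, G ![t, s] := by
  have hE := volume_preserving_finTwoArrow ℝ
  have h1 : (MeasurableEquiv.finTwoArrow : (Fin 2 → ℝ) ≃ᵐ ℝ × ℝ) ⁻¹'
      (Icc (0 : ℝ) 1 ×ˢ Icc (0 : ℝ) 1) = Icc 0 1 := by
    ext x
    simp only [mem_preimage, MeasurableEquiv.finTwoArrow_apply, mem_prod, mem_Icc, Pi.le_def,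
      Fin.forall_fin_two]
    simp
    tauto
  have h2 := hE.setIntegral_preimage_emb
    (MeasurableEquiv.measurableEmbedding _) (fun p => G ![p.1, p.2])
    (Icc (0 : ℝ) 1 ×ˢ Icc (0 : ℝ) 1)
  rw [h1] at h2
  have h3 : ∀ x : Fin 2 → ℝ, G ![((MeasurableEquiv.finTwoArrow : (Fin 2 → ℝ) ≃ᵐ ℝ × ℝ) x).1,
      ((MeasurableEquiv.finTwoArrow : (Fin 2 → ℝ) ≃ᵐ ℝ × ℝ) x).2] = G x := by
    intro x
    congr 1
    funext l
    fin_cases l <;> rfl
  simp only [h3] at h2
  rw [h2]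
  have hc : Continuous fun p : ℝ × ℝ => G ![p.1, p.2] := by
    refine hG.comp (continuous_pi fun l => ?_)
    fin_cases l
    · exact continuous_fst
    · exact continuous_snd
  exact setIntegral_prod _ (hc.continuousOn.integrableOn_compact
    (isCompact_Icc.prod isCompact_Icc))

/-- averaging over the 2-tori. -/
theorem resample2 {i j : Fin (n + 1)} (hij : i ≠ j) {F : (Fin (n + 1) → ℝ) → ℂ}
    (hF : Continuous F) : ∫ h in Icc (0 : Fin (n + 1) → ℝ) 1, F h =
      ∫ c in Icc (0 : Fin (n + 1) → ℝ) 1, ∫ a in Icc (0 : Fin 2 → ℝ) 1, F (sl i j c a) := by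
  have hc : Continuous fun c : Fin (n + 1) → ℝ => ∫ t in Icc (0 : ℝ) 1, F (update c j t) :=
    continuous_parametric_integral_of_continuous (by
      show Continuous (fun p : (Fin (n + 1) → ℝ) × ℝ => F (update p.1 j p.2))
      exact hF.comp (continuous_fst.update j continuous_snd)) isCompact_Icc
  rw [resample j hF, resample i hc]
  refine integral_congr_ae (Eventually.of_forall fun c => ?_)
  have hs : Continuous fun a : Fin 2 → ℝ => F (sl i j c a) := by
    refine hF.comp (continuous_pi fun l => ?_)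
    unfold sl
    split_ifs
    · exact continuous_apply 1
    · exact continuous_apply 0
    · exact continuous_const
  show _ = ∫ a in Icc (0 : Fin 2 → ℝ) 1, F (sl i j c a)
  rw [fub2 hs]
  simp only [sl_update i j hij]
  rfl

theorem sum_perm2 (f : Fin 2 → Fin 2 → ℂ) :
    ∑ σ : Equiv.Perm (Fin 2), sg σ * f (σ 0) (σ 1) = f 0 1 - f 1 0 := by
  have h1 : (Finset.univ : Finset (Equiv.Perm (Fin 2))) = {1, Equiv.swap 0 1} := by decide
  rw [h1, Finset.sum_pair (by decide)]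
  have h2 : sg (Equiv.swap (0 : Fin 2) 1) = -1 := by
    unfold sg
    rw [Equiv.Perm.sign_swap (by decide)]
    simp
  have h3 : sg (1 : Equiv.Perm (Fin 2)) = 1 := by
    unfold sg
    simp
  rw [h2, h3]
  simp
  ring

theorem sl_fd {i j : Fin n} (hij : i ≠ j) (c : Fin n → ℝ) (a : Fin 2 → ℝ) :
    ∃ L : (Fin 2 → ℝ) →L[ℝ] (Fin n → ℝ), HasFDerivAt (sl i j c) L a ∧
      L (Pi.single 0 1) = Pi.single i 1 ∧ L (Pi.single 1 1) = Pi.single j 1 := by
  refine ⟨ContinuousLinearMap.pi (fun l => if l = j then ContinuousLinearMap.proj 1 else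
    if l = i then ContinuousLinearMap.proj 0 else 0), ?_, ?_, ?_⟩
  · rw [hasFDerivAt_pi]
    intro l
    unfold sl
    split_ifs with h1 h2
    · exact hasFDerivAt_apply (𝕜 := ℝ) (1 : Fin 2) a
    · exact hasFDerivAt_apply (𝕜 := ℝ) (0 : Fin 2) a
    · exact hasFDerivAt_const _ _
  · funext l
    by_cases h1 : l = j
    · subst h1; simp [hij.symm]
    · by_cases h2 : l = i
      · subst h2; simp [hij]
      · simp [h1, h2]
  · funext l
    by_cases h1 : l = j
    · subst h1; simp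
    · by_cases h2 : l = i
      · subst h2; simp [hij]
      · simp [h1, h2]

theorem pd_sl {i j : Fin n} (hij : i ≠ j) {V : Type*} [NormedAddCommGroup V] [NormedSpace ℝ V]
    {F : (Fin n → ℝ) → V} (hF : ContDiff ℝ ∞ F) (c : Fin n → ℝ) (a : Fin 2 → ℝ) :
    pdθ 0 (fun a => F (sl i j c a)) a = pdθ i F (sl i j c a) ∧
      pdθ 1 (fun a => F (sl i j c a)) a = pdθ j F (sl i j c a) := by
  obtain ⟨L, hL, h0, h1⟩ := sl_fd hij c a
  have h2 : HasFDerivAt (fun a => F (sl i j c a)) (fderiv ℝ F (sl i j c a) ∘L L) a :=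
    (((hF.differentiable (by simp)) _).hasFDerivAt).comp a hL
  unfold pdθ
  rw [h2.fderiv, ContinuousLinearMap.comp_apply, ContinuousLinearMap.comp_apply, h0, h1]
  exact ⟨rfl, rfl⟩

variable (e : HilbertBasis ι ℂ Y)

/-- `w i j = tr (Q [∂ᵢQ, ∂ⱼQ])`. -/
def ww (Q : (Fin n → ℝ) → Y →L[ℂ] Y) (e : HilbertBasis ι ℂ Y) (i j : Fin n) (x : Fin n → ℝ) : ℂ :=
  E2 Q e i j x - E2 Q e j i x

theorem ch2_sl {Q : (Fin n → ℝ) → Y →L[ℂ] Y} (hQ : Fac Z Q) {i j : Fin n} (hij : i ≠ j)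
    (c : Fin n → ℝ) : ch2 (trB e) (fun a => Q (sl i j c a)) =
      ∫ a in Icc (0 : Fin 2 → ℝ) 1, ww Q e i j (sl i j c a) := by
  unfold ch2
  refine integral_congr_ae (Eventually.of_forall fun a => ?_)
  show (∑ σ : Equiv.Perm (Fin 2), sg σ * trB e (Q (sl i j c a) *
    pdθ (σ 0) (fun a => Q (sl i j c a)) a * pdθ (σ 1) (fun a => Q (sl i j c a)) a)) = _
  rw [sum_perm2 (fun u v => trB e (Q (sl i j c a) *
    pdθ u (fun a => Q (sl i j c a)) a * pdθ v (fun a => Q (sl i j c a)) a))]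
  rw [(pd_sl hij hQ.smooth c a).1, (pd_sl hij hQ.smooth c a).2, mul_assoc, mul_assoc]
  rfl

theorem Fac.comp {Q : (Fin n → ℝ) → Y →L[ℂ] Y} (hQ : Fac Z Q) {g : (Fin N → ℝ) → (Fin n → ℝ)}
    (hg : ContDiff ℝ ∞ g) : Fac Z (fun x => Q (g x)) := by
  obtain ⟨C, R, hC, hR, h⟩ := hQ.fac
  exact ⟨hQ.smooth.comp hg, fun x => hQ.idem _, _, _, hC.comp hg, hR.comp hg, fun x => h _⟩

/-- the homotopy of slices. -/
def gg (i j : Fin n) (c c' : Fin n → ℝ) (x : Fin 3 → ℝ) : Fin n → ℝ :=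
  sl i j (fun l => c l + x 0 * (c' l - c l)) (Fin.tail x)

theorem gg_smooth (i j : Fin n) (c c' : Fin n → ℝ) : ContDiff ℝ ∞ (gg i j c c') := by
  refine contDiff_pi.2 fun l => ?_
  unfold gg sl
  split_ifs
  · exact contDiff_apply ℝ ℝ 2
  · exact contDiff_apply ℝ ℝ 1
  · exact contDiff_const.add ((contDiff_apply ℝ ℝ 0).mul contDiff_const)

theorem gg_shift {i j : Fin n} (hij : i ≠ j) (c c' : Fin n → ℝ) (x : Fin 3 → ℝ) (u : Fin 2) :
    gg i j c c' (x + Pi.single u.succ 1) =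
      gg i j c c' x + Pi.single (if u = 0 then i else j) 1 := by
  funext l
  have h0 : (x + Pi.single u.succ 1 : Fin 3 → ℝ) 0 = x 0 := by simp
  unfold gg sl
  rw [h0]
  fin_cases u
  · by_cases h1 : l = j
    · subst h1; simp [Fin.tail, hij.symm]
    · by_cases h2 : l = i
      · subst h2; simp [Fin.tail, hij]
      · simp [h1, h2]
  · by_cases h1 : l = j
    · subst h1; simp [Fin.tail]
    · by_cases h2 : l = i
      · subst h2; simp [Fin.tail, hij]
      · simp [h1, h2]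

/-- **slices have the same number.** -/
theorem slice_const {Q : (Fin n → ℝ) → Y →L[ℂ] Y} (hQ : Fac Z Q) (hS : ∀ j, Sh Q j) {i j : Fin n}
    (hij : i ≠ j) (c c' : Fin n → ℝ) : ch2 (trB e) (fun a => Q (sl i j c' a)) =
      ch2 (trB e) (fun a => Q (sl i j c a)) := by
  have h1 := hom2 e (hQ.comp (gg_smooth i j c c')) (fun u => by
    obtain ⟨V, W, h1, h2⟩ := hS (if u = 0 then i else j)
    refine ⟨V, W, h1, fun x => ?_⟩
    show Q (gg i j c c' (x + Pi.single u.succ 1)) = V * Q (gg i j c c' x) * W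
    rw [gg_shift hij, h2])
  have h2 : slice (fun x => Q (gg i j c c' x)) 1 = fun a => Q (sl i j c' a) := by
    funext a
    unfold slice gg
    simp
  have h3 : slice (fun x => Q (gg i j c c' x)) 0 = fun a => Q (sl i j c a) := by
    funext a
    unfold slice gg
    simp
  rw [h2, h3] at h1
  exact h1

/-- **CONST.** -/
theorem cst {Q : (Fin (n + 1) → ℝ) → Y →L[ℂ] Y} (hQ : Fac Z Q) (hS : ∀ j, Sh Q j)
    {i j : Fin (n + 1)} (hij : i ≠ j) (c : Fin (n + 1) → ℝ) :
    ∫ h in Icc (0 : Fin (n + 1) → ℝ) 1, ww Q e i j h =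
      ch2 (trB e) (fun a => Q (sl i j c a)) := by
  have hw : Continuous (ww Q e i j) :=
    (E2_smooth hQ e i j).continuous.sub (E2_smooth hQ e j i).continuous
  rw [resample2 hij hw]
  have h1 : ∀ c', ∫ a in Icc (0 : Fin 2 → ℝ) 1, ww Q e i j (sl i j c' a) =
      ch2 (trB e) (fun a => Q (sl i j c a)) := by
    intro c'
    rw [← ch2_sl e hQ hij c', slice_const e hQ hS hij c c']
  simp only [h1]
  rw [setIntegral_const]
  have h2 : volume.real (Icc (0 : Fin (n + 1) → ℝ) 1) = 1 := by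
    rw [Measure.real, Real.volume_Icc_pi]
    simp
  rw [h2, one_smul]

/-! ### `chsq` -/

theorem per_all {F : (Fin n → ℝ) → ℂ} (h : ∀ (j : Fin n) x, F (x + Pi.single j 1) = F x)
    (x : Fin n → ℝ) (k : Fin n → ℤ) : F (fun l => x l + k l) = F x := by
  have h1 : ∀ j : Fin n, Function.Periodic F (k j • (Pi.single j (1 : ℝ) : Fin n → ℝ)) :=
    fun j => (show Function.Periodic F (Pi.single j (1 : ℝ) : Fin n → ℝ) from h j).zsmul (k j)
  have h2 : Function.Periodic F (∑ j, k j • (Pi.single j (1 : ℝ) : Fin n → ℝ)) := by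
    refine Finset.sum_induction _ (Function.Periodic F) (fun a b ha hb => ha.add_period hb) ?_
      fun j _ => h1 j
    intro y
    rw [add_zero]
  have h3 : (fun l => x l + (k l : ℝ)) = x + ∑ j, k j • (Pi.single j (1 : ℝ) : Fin n → ℝ) := by
    funext l
    simp [Finset.sum_apply, Pi.single_apply]
  rw [h3, h2]

theorem ww_closed {Q : (Fin n → ℝ) → Y →L[ℂ] Y} (hQ : Fac Z Q) (i j k : Fin n) (x : Fin n → ℝ) :
    pdθ i (ww Q e j k) x + pdθ j (ww Q e k i) x + pdθ k (ww Q e i j) x = 0 := by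
  have h1 : ∀ s a c : Fin n, pdθ s (ww Q e a c) x =
      T1 Q e s a c x + T2 Q e s a c x - (T1 Q e s c a x + T2 Q e s c a x) := by
    intro s a c
    have h2 : HasFDerivAt (ww Q e a c) _ x :=
      (((E2_smooth hQ e a c).differentiable (by simp)) x).hasFDerivAt.sub
        (((E2_smooth hQ e c a).differentiable (by simp)) x).hasFDerivAt
    have e1 := E2_pd hQ e s a c x
    have e2 := E2_pd hQ e s c a x
    unfold pdθ at e1 e2 ⊢
    rw [h2.fderiv, sub_apply, e1, e2]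
  rw [h1, h1, h1, T1_symm hQ e i j k, T1_symm hQ e i k j, T1_symm hQ e j k i, T2_symm hQ e i j k,
    T2_symm hQ e i k j, T2_symm hQ e j i k]
  ring

theorem sum_swap4 {i j : Fin 4} (hij : i ≠ j) (g : Equiv.Perm (Fin 4) → ℂ) :
    ∑ τ, sg τ * g (τ * Equiv.swap i j) = - ∑ τ, sg τ * g τ := by
  have h1 : ∑ τ, sg τ * g τ = ∑ τ, sg (τ * Equiv.swap i j) * g (τ * Equiv.swap i j) :=
    (Fintype.sum_equiv (Equiv.mulRight (Equiv.swap i j)) _ _ fun τ => rfl).symm
  have h2 : sg (Equiv.swap i j) = -1 := by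
    unfold sg
    rw [Equiv.Perm.sign_swap hij]
    simp
  rw [h1, ← Finset.sum_neg_distrib]
  refine Finset.sum_congr rfl fun τ _ => ?_
  rw [sg_mul, h2]
  ring

theorem chsq_eq {Q : (Fin 4 → ℝ) → Y →L[ℂ] Y} (hQ : Fac Z Q) :
    ∫ h in Icc (0 : Fin 4 → ℝ) 1, ∑ σ : Equiv.Perm (Fin 4),
      sg σ * (ww Q e (σ 0) (σ 1) h * ww Q e (σ 2) (σ 3) h) = 4 * chsq (trB e) Q := by
  unfold chsq
  rw [← integral_const_mul]
  refine integral_congr_ae (Eventually.of_forall fun h => ?_)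
  show (∑ σ : Equiv.Perm (Fin 4), sg σ * ((E2 Q e (σ 0) (σ 1) h - E2 Q e (σ 1) (σ 0) h) *
    (E2 Q e (σ 2) (σ 3) h - E2 Q e (σ 3) (σ 2) h))) =
    4 * ∑ σ : Equiv.Perm (Fin 4), sg σ * (trB e (Q h * pdθ (σ 0) Q h * pdθ (σ 1) Q h) *
      trB e (Q h * pdθ (σ 2) Q h * pdθ (σ 3) Q h))
  have h0 : ∀ σ : Equiv.Perm (Fin 4), sg σ * (trB e (Q h * pdθ (σ 0) Q h * pdθ (σ 1) Q h) *
      trB e (Q h * pdθ (σ 2) Q h * pdθ (σ 3) Q h)) =
      sg σ * (E2 Q e (σ 0) (σ 1) h * E2 Q e (σ 2) (σ 3) h) := by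
    intro σ
    unfold E2
    rw [mul_assoc (Q h), mul_assoc (Q h)]
  simp only [h0]
  have a1 := sum_swap4 (i := 0) (j := 1) (by decide)
    (fun σ => E2 Q e (σ 0) (σ 1) h * E2 Q e (σ 2) (σ 3) h)
  have a2 := sum_swap4 (i := 2) (j := 3) (by decide)
    (fun σ => E2 Q e (σ 0) (σ 1) h * E2 Q e (σ 2) (σ 3) h)
  have a3 := sum_swap4 (i := 2) (j := 3) (by decide)
    (fun σ => E2 Q e (σ 1) (σ 0) h * E2 Q e (σ 2) (σ 3) h)
  simp only [Equiv.Perm.mul_apply] at a1 a2 a3
  have e1 : ∑ σ : Equiv.Perm (Fin 4), sg σ * (E2 Q e (σ 1) (σ 0) h * E2 Q e (σ 2) (σ 3) h) =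
      - ∑ σ : Equiv.Perm (Fin 4), sg σ * (E2 Q e (σ 0) (σ 1) h * E2 Q e (σ 2) (σ 3) h) := a1
  have e2 : ∑ σ : Equiv.Perm (Fin 4), sg σ * (E2 Q e (σ 0) (σ 1) h * E2 Q e (σ 3) (σ 2) h) =
      - ∑ σ : Equiv.Perm (Fin 4), sg σ * (E2 Q e (σ 0) (σ 1) h * E2 Q e (σ 2) (σ 3) h) := a2
  have e3 : ∑ σ : Equiv.Perm (Fin 4), sg σ * (E2 Q e (σ 1) (σ 0) h * E2 Q e (σ 3) (σ 2) h) =
      - ∑ σ : Equiv.Perm (Fin 4), sg σ * (E2 Q e (σ 1) (σ 0) h * E2 Q e (σ 2) (σ 3) h) := a3
  simp only [sub_mul, mul_sub, Finset.sum_sub_distrib]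
  rw [e3, e2, e1]
  ring

/-- **`chsq = 0` if all slices have the number `0`.** -/
theorem chsq_zero {Q : (Fin 4 → ℝ) → Y →L[ℂ] Y} (hQ : Fac Z Q) (hS : ∀ j, Sh Q j)
    (hz : ∀ i j : Fin 4, i < j → ∃ c, ch2 (trB e) (fun a => Q (sl i j c a)) = 0) :
    chsq (trB e) Q = 0 := by
  have hm : ∀ i j : Fin 4, i < j → ∫ h in Icc (0 : Fin 4 → ℝ) 1, ww Q e i j h = 0 := by
    intro i j hij
    obtain ⟨c, hc⟩ := hz i j hij
    rw [cst e hQ hS hij.ne c, hc]
  have hanti : ∀ i j h, ww Q e i j h = - ww Q e j i h := by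
    intro i j h
    unfold ww
    ring
  have h1 := FamFour_504.four (ww Q e) (fun i j => (E2_smooth hQ e i j).sub (E2_smooth hQ e j i))
    hanti (fun i j h k => per_all (fun l x => by
      unfold ww
      rw [E2_per e hQ (hS l), E2_per e hQ (hS l)]) h k)
    (fun i j k h => ww_closed e hQ i j k h) (fun i j => by
      rcases lt_trichotomy i j with h | h | h
      · exact hm i j h
      · subst h
        have : ∀ h, ww Q e i i h = 0 := fun h => by unfold ww; ring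
        simp [this]
      · have h2 : ∀ h, ww Q e i j h = - ww Q e j i h := hanti i j
        simp only [h2]
        rw [integral_neg, hm j i h, neg_zero])
  rw [chsq_eq e hQ] at h1
  exact (mul_eq_zero.1 h1).resolve_left (by norm_num)

end

end Crest.Agent.R235.FamEmb_842
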