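import Crest.Agent.R281.Mc5_673

/-!
# Row 235, TOR / FIB-B1b (helper153, helper384): the node `FAM` (no manifold)

`x`, `z` are closed two-forms on `{(y, v) : |v| < r}`, periodic in `y`, zero on the horizontal
vectors along `v = 0`.  Output: a smooth family `a (·, c)` of periodic graphs which are isotropic
for `x` and `z`.
-/

set_option autoImplicit false
set_option maxSynthPendingDepth 3

open Set Function Filter
open scoped ContDiff Topology

namespace Crest.Agent.R235.Fam_153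

open Crest.Agent.R281.Mc673

/-- two closed forms on the tube, isotropic along the zero section, `x` normalised there, the pair
elliptic there -/
structure FamIn (r : ℝ) (x z : Fo 2) : Prop where
  pos : 0 < r
  cx : ClF r x
  cz : ClF r z
  hx : ∀ y u v : V 2, x (y, 0) (u, 0) (v, 0) = 0
  hz : ∀ y u v : V 2, z (y, 0) (u, 0) (v, 0) = 0
  nx : ∀ y u v : V 2, x (y, 0) (0, v) (u, 0) = inner ℝ v u
  ell : ∀ (y : V 2) (a b : ℝ), (a ≠ 0 ∨ b ≠ 0) → ∀ u : W 2,
    (∀ v : W 2, a * x (y, 0) u v + b * z (y, 0) u v = 0) → u = 0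

/-- a smooth family of graphs isotropic for `x` and `z`; the mean of `a (·, c)` is `c` -/
structure FamOut (r : ℝ) (x z : Fo 2) (d : ℝ) (a : W 2 → V 2) : Prop where
  pos : 0 < d
  sm : ContDiffOn ℝ ∞ a (tube 2 d)
  per : ∀ (n : Fin 2 → ℤ), ∀ p ∈ tube 2 d, a (p.1 + kv n, p.2) = a p
  zero : ∀ y : V 2, a (y, 0) = 0
  bd : ∀ p ∈ tube 2 d, ‖a p‖ < r
  ix : ∀ p ∈ tube 2 d, ∀ u v : V 2,
    x (p.1, a p) (u, fderiv ℝ a p (u, 0)) (v, fderiv ℝ a p (v, 0)) = 0
  iz : ∀ p ∈ tube 2 d, ∀ u v : V 2,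
    z (p.1, a p) (u, fderiv ℝ a p (u, 0)) (v, fderiv ℝ a p (v, 0)) = 0
  mean : ∀ c : V 2, ‖c‖ < d → ∀ i : Fin 2, mn (fun y => a (y, c) i) = c i

/-- **FAM** (B1b) -/
def FAM : Prop :=
  ∀ (r : ℝ) (x z : Fo 2), FamIn r x z → ∃ (d : ℝ) (a : W 2 → V 2), FamOut r x z d a

end Crest.Agent.R235.Fam_153
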