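import Crest.Agent.R235.Hopf_143

/-!
Row 235 (S0364), helper151. Block FAM: reparametrisation of the parameter ball. An abstract
"Hopf map" `pi : S³ → S²` is replaced by the standard one, and the family is made constant near the
base point, by a continuous map `th` of the ball.
-/

set_option autoImplicit false
set_option linter.unusedSectionVars false

open Set Filter Topology Module

namespace Crest.Agent.R235.FamE_151

open Hopf_143

section rad

variable {𝕜 E V : Type*} [RCLike 𝕜] [NormedAddCommGroup E] [NormedSpace 𝕜 E] [ProperSpace E]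
  [NormedAddCommGroup V] [NormedSpace ℝ V]

/-- radial extension of a map on the sphere. -/
noncomputable def rad (𝕜 : Type*) {E V : Type*} [RCLike 𝕜] [NormedAddCommGroup E]
    [NormedSpace 𝕜 E] [NormedAddCommGroup V] [NormedSpace ℝ V] (F : E → V) (s : E) : V :=
  ‖s‖ • F (((‖s‖⁻¹ : ℝ) : 𝕜) • s)

theorem norm_unit {s : E} (hs : s ≠ 0) : ‖((‖s‖⁻¹ : ℝ) : 𝕜) • s‖ = 1 := by
  rw [norm_smul, RCLike.norm_ofReal, abs_of_nonneg (inv_nonneg.2 (norm_nonneg s)),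
    inv_mul_cancel₀ (norm_ne_zero_iff.2 hs)]

theorem continuous_rad {F : E → V} (hc : ContinuousOn F (Metric.sphere 0 1)) :
    Continuous (rad 𝕜 F) := by
  rw [continuous_iff_continuousAt]
  intro s
  by_cases hs : s = 0
  · subst hs
    obtain ⟨C, hC⟩ := (isCompact_sphere (0 : E) 1).exists_bound_of_continuousOn hc
    have h0 : rad 𝕜 F 0 = 0 := by simp [rad]
    rw [ContinuousAt, h0]
    have hb : ∀ s : E, ‖rad 𝕜 F s‖ ≤ ‖s‖ * |C| := by
      intro s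
      by_cases hs : s = 0
      · subst hs
        simp [rad]
      · unfold rad
        rw [norm_smul, norm_norm]
        refine mul_le_mul_of_nonneg_left ((hC _ ?_).trans (le_abs_self C)) (norm_nonneg _)
        rw [mem_sphere_zero_iff_norm]
        exact norm_unit hs
    refine squeeze_zero_norm hb ?_
    have : Tendsto (fun s : E => ‖s‖ * |C|) (𝓝 0) (𝓝 (‖(0 : E)‖ * |C|)) :=
      (continuous_norm.mul continuous_const).tendsto 0
    simpa using this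
  · have hopen : IsOpen {s : E | s ≠ 0} := isOpen_ne
    have hco : ContinuousOn (rad 𝕜 F) {s : E | s ≠ 0} := by
      have h0 : ContinuousOn (fun s : E => ((‖s‖⁻¹ : ℝ) : 𝕜)) {s : E | s ≠ 0} := by
        refine RCLike.continuous_ofReal.comp_continuousOn ?_
        exact continuous_norm.continuousOn.inv₀ fun s hs => norm_ne_zero_iff.2 hs
      have h1 : ContinuousOn (fun s : E => ((‖s‖⁻¹ : ℝ) : 𝕜) • s) {s : E | s ≠ 0} :=
        h0.smul continuousOn_id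
      have h2 : MapsTo (fun s : E => ((‖s‖⁻¹ : ℝ) : 𝕜) • s) {s : E | s ≠ 0}
          (Metric.sphere 0 1) := by
        intro s hs
        rw [mem_sphere_zero_iff_norm]
        exact norm_unit hs
      exact continuous_norm.continuousOn.smul (hc.comp h1 h2)
    exact hco.continuousAt (hopen.mem_nhds hs)

theorem rad_of_norm {F : E → V} {s : E} (hs : ‖s‖ = 1) : rad 𝕜 F s = F s := by
  simp [rad, hs]

end rad

/-! ### descending through the Hopf map -/

section desc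

variable {V : Type*} [NormedAddCommGroup V] [NormedSpace ℝ V]

/-- the function on `E3` which descends a phase invariant function on `S³`. -/
noncomputable def desc (f : C2 → V) (t : E3) : V :=
  (1 / 4 : ℝ) • (‖sig t‖ • rad ℂ f (sig t) + ‖sig' t‖ • rad ℂ f (sig' t))

theorem continuous_desc {f : C2 → V} (hc : ContinuousOn f (Metric.sphere 0 1)) :
    Continuous (desc f) := by
  have h1 : Continuous (rad ℂ f) := continuous_rad hc
  unfold desc
  exact continuous_const.smul ((continuous_sig.norm.smul (h1.comp continuous_sig)).add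
    (continuous_sig'.norm.smul (h1.comp continuous_sig')))

theorem rad_smul {f : C2 → V} (hz : ∀ z : ℂ, ‖z‖ = 1 → ∀ s, ‖s‖ = 1 → f (z • s) = f s)
    (c : ℂ) {s : C2} (hs : ‖s‖ = 1) : rad ℂ f (c • s) = ‖c‖ • f s := by
  by_cases hc : c = 0
  · subst hc; simp [rad]
  · have hc0 : (0 : ℝ) < ‖c‖ := norm_pos_iff.2 hc
    have h1 : ‖c • s‖ = ‖c‖ := by rw [norm_smul, hs, mul_one]
    unfold rad
    rw [h1, smul_smul, hz _ _ s hs]
    rw [norm_mul, RCLike.norm_ofReal, abs_of_pos (inv_pos.2 hc0), inv_mul_cancel₀ hc0.ne']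

theorem desc_hopf {f : C2 → V} (hz : ∀ z : ℂ, ‖z‖ = 1 → ∀ s, ‖s‖ = 1 → f (z • s) = f s)
    {s : C2} (hs : ‖s‖ = 1) : desc f (hopf s) = f s := by
  have h := norm_sq2 s
  rw [hs, one_pow] at h
  have n1 : ‖(2 : ℂ) * (starRingEnd ℂ) (s 0)‖ = 2 * ‖s 0‖ := by
    rw [norm_mul, RCLike.norm_conj]; norm_num
  have n2 : ‖(2 : ℂ) * (starRingEnd ℂ) (s 1)‖ = 2 * ‖s 1‖ := by
    rw [norm_mul, RCLike.norm_conj]; norm_num
  unfold desc
  rw [sig_hopf hs, sig'_hopf hs, rad_smul hz _ hs, rad_smul hz _ hs, norm_smul, norm_smul, hs,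
    mul_one, mul_one, n1, n2, smul_smul, smul_smul, ← add_smul, smul_smul]
  have : (1 / 4 : ℝ) * (2 * ‖s 0‖ * (2 * ‖s 0‖) + 2 * ‖s 1‖ * (2 * ‖s 1‖)) = 1 := by
    nlinarith
  rw [this, one_smul]

/-- the Hopf map is onto the sphere. -/
theorem hopf_surj {t : E3} (ht : ‖t‖ = 1) : ∃ s : C2, ‖s‖ = 1 ∧ hopf s = t := by
  by_cases h0 : 0 < 1 + t 0
  · exact exists_hopf ht h0
  · have h := norm_sq3 t
    rw [ht, one_pow] at h
    have h1 : t 0 ≤ -1 := by linarith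
    have h2 : t 0 = -1 := by nlinarith [sq_nonneg (t 1), sq_nonneg (t 2)]
    have h3 : t 1 = 0 := by
      have : t 1 ^ 2 = 0 := by nlinarith [sq_nonneg (t 1), sq_nonneg (t 2)]
      exact pow_eq_zero_iff (two_ne_zero) |>.1 this
    have h4 : t 2 = 0 := by
      have : t 2 ^ 2 = 0 := by nlinarith [sq_nonneg (t 1), sq_nonneg (t 2)]
      exact pow_eq_zero_iff (two_ne_zero) |>.1 this
    refine ⟨WithLp.toLp 2 ![0, 1], ?_, ?_⟩
    · have h5 := norm_sq2 (WithLp.toLp 2 ![0, 1])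
      have h6 : (WithLp.toLp 2 ![(0 : ℂ), 1] : C2) 0 = 0 := rfl
      have h7 : (WithLp.toLp 2 ![(0 : ℂ), 1] : C2) 1 = 1 := rfl
      rw [h6, h7, norm_zero, norm_one] at h5
      nlinarith [norm_nonneg (WithLp.toLp 2 ![(0 : ℂ), 1] : C2)]
    · have h6 : (WithLp.toLp 2 ![(0 : ℂ), 1] : C2) 0 = 0 := rfl
      have h7 : (WithLp.toLp 2 ![(0 : ℂ), 1] : C2) 1 = 1 := rfl
      refine ext3 ?_ ?_ ?_
      · rw [hopf_0, h6, h7, h2]; simp
      · rw [hopf_1, h6, h7, h3]; simp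
      · rw [hopf_2, h6, h7, h4]; simp

theorem norm_hopf (s : C2) : ‖hopf s‖ = ‖s‖ ^ 2 := by
  have h1 := norm_sq3 (hopf s)
  have h2 := norm_sq2 s
  have h3 : (s 0 * star (s 1)).re ^ 2 + (s 0 * star (s 1)).im ^ 2 = (‖s 0‖ * ‖s 1‖) ^ 2 := by
    have : ‖s 0 * star (s 1)‖ ^ 2 = (s 0 * star (s 1)).re ^ 2 + (s 0 * star (s 1)).im ^ 2 := by
      rw [← Complex.normSq_eq_norm_sq, Complex.normSq_apply]; ring
    rw [← this, norm_mul, norm_star]
  have h4 : ‖hopf s‖ ^ 2 = (‖s‖ ^ 2) ^ 2 := by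
    rw [h1, h2, hopf_0, hopf_1, hopf_2]
    nlinarith
  exact (pow_left_inj₀ (norm_nonneg _) (by positivity) two_ne_zero).1 h4

/-- the fibres of the Hopf map. -/
theorem hopf_fib {s s' : C2} (hs : ‖s‖ = 1) (hs' : ‖s'‖ = 1) (h : hopf s = hopf s') :
    ∃ z : ℂ, ‖z‖ = 1 ∧ s' = z • s := by
  have h1 := sig_hopf hs
  have h2 := sig_hopf hs'
  have h1' := sig'_hopf hs
  have h2' := sig'_hopf hs'
  rw [← h] at h2 h2'
  have key : ∀ a a' : ℂ, a ≠ 0 → a • s = a' • s' → ∃ z : ℂ, ‖z‖ = 1 ∧ s' = z • s := by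
    intro a a' ha haa
    have hn : ‖a‖ = ‖a'‖ := by
      have := congrArg norm haa
      rwa [norm_smul, norm_smul, hs, hs', mul_one, mul_one] at this
    have ha' : a' ≠ 0 := by
      intro h0
      rw [h0, norm_zero] at hn
      exact ha (norm_eq_zero.1 hn)
    refine ⟨a'⁻¹ * a, ?_, ?_⟩
    · rw [norm_mul, norm_inv, hn, inv_mul_cancel₀ (norm_ne_zero_iff.2 ha')]
    · rw [mul_smul, haa, smul_smul, inv_mul_cancel₀ ha', one_smul]
  by_cases h0 : s 0 = 0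
  · have h3 : s 1 ≠ 0 := by
      intro h4
      have := norm_sq2 s
      rw [hs, h0, h4] at this
      norm_num at this
    refine key (2 * (starRingEnd ℂ) (s 1)) (2 * (starRingEnd ℂ) (s' 1)) ?_ (h1'.symm.trans h2')
    simpa using h3
  · refine key (2 * (starRingEnd ℂ) (s 0)) (2 * (starRingEnd ℂ) (s' 0)) ?_ (h1.symm.trans h2)
    simpa using h0

end desc

/-! ### the pinch map -/

section pinch

variable (δ : ℝ)

/-- the factor. -/
noncomputable def mu (s : C2) : ℝ := min 1 (max 0 (‖s 1‖ ^ 2 / δ - 1))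

theorem mu_nonneg (s : C2) : 0 ≤ mu δ s := le_min zero_le_one (le_max_left _ _)

theorem mu_le (s : C2) : mu δ s ≤ 1 := min_le_left _ _

/-- the unnormalised pinch map. -/
noncomputable def nn (s : C2) : C2 := WithLp.toLp 2 ![s 0, (mu δ s : ℂ) * s 1]

theorem nn_0 (s : C2) : nn δ s 0 = s 0 := rfl
theorem nn_1 (s : C2) : nn δ s 1 = (mu δ s : ℂ) * s 1 := rfl

/-- the pinch map of `S³`: constant (up to phase) near `s0`. -/
noncomputable def ph (s : C2) : C2 := ((‖nn δ s‖⁻¹ : ℝ) : ℂ) • nn δ s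

variable {δ}

theorem nn_ne (hδ : 0 < δ) (hδ1 : δ < 1) {s : C2} (hs : ‖s‖ = 1) : nn δ s ≠ 0 := by
  intro h
  have h0 : s 0 = 0 := by rw [← nn_0 δ s, h]; rfl
  have h1 : (mu δ s : ℂ) * s 1 = 0 := by rw [← nn_1 δ s, h]; rfl
  have h2 := norm_sq2 s
  rw [hs, h0, norm_zero] at h2
  have h3 : ‖s 1‖ ^ 2 = 1 := by linarith
  rcases mul_eq_zero.1 h1 with h4 | h4
  · have h5 : mu δ s = 0 := Complex.ofReal_eq_zero.1 h4
    unfold mu at h5
    rw [h3] at h5
    have h6 : 0 < 1 / δ - 1 := by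
      rw [sub_pos, lt_div_iff₀ hδ]; linarith
    have h7 : 0 < min 1 (max 0 (1 / δ - 1)) := lt_min one_pos (lt_of_lt_of_le h6 (le_max_right _ _))
    linarith
  · rw [h4, norm_zero] at h3
    norm_num at h3

theorem continuous_mu (δ : ℝ) : Continuous (mu δ) := by
  unfold mu
  fun_prop

theorem continuous_nn (δ : ℝ) : Continuous (nn δ) := by
  have h1 := continuous_mu δ
  unfold nn
  refine (PiLp.continuous_toLp 2 _).comp (continuous_pi fun i => ?_)
  fin_cases i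
  · show Continuous fun s : C2 => s 0
    fun_prop
  · show Continuous fun s : C2 => (mu δ s : ℂ) * s 1
    fun_prop

theorem norm_ph (hδ : 0 < δ) (hδ1 : δ < 1) {s : C2} (hs : ‖s‖ = 1) : ‖ph δ s‖ = 1 :=
  norm_unit (𝕜 := ℂ) (nn_ne hδ hδ1 hs)

theorem continuousOn_ph (hδ : 0 < δ) (hδ1 : δ < 1) :
    ContinuousOn (ph δ) (Metric.sphere 0 1) := by
  unfold ph
  have h0 : ContinuousOn (fun s : C2 => ((‖nn δ s‖⁻¹ : ℝ) : ℂ)) (Metric.sphere 0 1) := by
    refine Complex.continuous_ofReal.comp_continuousOn ?_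
    exact (continuous_nn δ).norm.continuousOn.inv₀ fun s hs =>
      norm_ne_zero_iff.2 (nn_ne hδ hδ1 (mem_sphere_zero_iff_norm.1 hs))
  exact h0.smul (continuous_nn δ).continuousOn

theorem mu_smul {z : ℂ} (hz : ‖z‖ = 1) (s : C2) : mu δ (z • s) = mu δ s := by
  unfold mu
  have : ‖(z • s) 1‖ = ‖s 1‖ := by
    show ‖z * s 1‖ = _
    rw [norm_mul, hz, one_mul]
  rw [this]

theorem nn_smul {z : ℂ} (hz : ‖z‖ = 1) (s : C2) : nn δ (z • s) = z • nn δ s := by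
  refine ext2 ?_ ?_
  · rfl
  · show (mu δ (z • s) : ℂ) * (z * s 1) = z * ((mu δ s : ℂ) * s 1)
    rw [mu_smul hz]; ring

theorem ph_smul {z : ℂ} (hz : ‖z‖ = 1) (s : C2) : ph δ (z • s) = z • ph δ s := by
  unfold ph
  rw [nn_smul hz, norm_smul, hz, one_mul, smul_comm]

theorem ph_near (hδ : 0 < δ) (hδ1 : δ < 1) {s : C2} (hs : ‖s‖ = 1) (h : ‖s 1‖ ^ 2 ≤ δ) :
    ∃ z : ℂ, ‖z‖ = 1 ∧ ph δ s = z • s0 := by
  have hm : mu δ s = 0 := by
    unfold mu
    have : ‖s 1‖ ^ 2 / δ - 1 ≤ 0 := by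
      rw [sub_nonpos, div_le_one hδ]; exact h
    rw [max_eq_left this]
    simp
  have hn : nn δ s = s 0 • s0 := by
    refine ext2 ?_ ?_
    · show s 0 = s 0 * s0 0
      rw [s0_0, mul_one]
    · show (mu δ s : ℂ) * s 1 = s 0 * s0 1
      rw [hm, s0_1]; simp
  by_cases h0 : s 0 = 0
  · exfalso
    have h2 := norm_sq2 s
    rw [hs, h0, norm_zero] at h2
    linarith
  · refine ⟨((‖s 0‖⁻¹ : ℝ) : ℂ) * s 0, ?_, ?_⟩
    · rw [norm_mul, Complex.norm_real, norm_inv, norm_norm, inv_mul_cancel₀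
        (norm_ne_zero_iff.2 h0)]
    · unfold ph
      rw [hn, norm_smul, norm_s0, mul_one, smul_smul]

theorem ph_far (hδ : 0 < δ) {s : C2} (hs : ‖s‖ = 1) (h : 2 * δ ≤ ‖s 1‖ ^ 2) : ph δ s = s := by
  have hm : mu δ s = 1 := by
    unfold mu
    have : 1 ≤ ‖s 1‖ ^ 2 / δ - 1 := by
      rw [le_sub_iff_add_le, le_div_iff₀ hδ]; linarith
    exact min_eq_left (this.trans (le_max_right _ _))
  have hn : nn δ s = s := by
    refine ext2 rfl ?_
    show (mu δ s : ℂ) * s 1 = s 1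
    rw [hm]; simp
  unfold ph
  rw [hn, hs]; simp

end pinch

theorem dist_hopf {s : C2} (hs : ‖s‖ = 1) : ‖hopf s - hopf s0‖ ^ 2 = 4 * ‖s 1‖ ^ 2 := by
  have h1 := norm_sq3 (hopf s - hopf s0)
  have h2 := norm_sq3 (hopf s)
  have h3 := norm_sq2 s
  rw [hs, one_pow] at h3
  rw [norm_hopf, hs, one_pow] at h2
  have e0 : (hopf s - hopf s0) 0 = hopf s 0 - 1 := by
    show hopf s 0 - hopf s0 0 = _
    rw [hopf_s0_0]
  have e1 : (hopf s - hopf s0) 1 = hopf s 1 := by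
    show hopf s 1 - hopf s0 1 = _
    rw [hopf_s0_1, sub_zero]
  have e2 : (hopf s - hopf s0) 2 = hopf s 2 := by
    show hopf s 2 - hopf s0 2 = _
    rw [hopf_s0_2, sub_zero]
  have e3 : hopf s 0 = ‖s 0‖ ^ 2 - ‖s 1‖ ^ 2 := rfl
  rw [h1, e0, e1, e2]
  nlinarith

theorem ph_close {η : ℝ} (hη : 0 < η) : ∃ δ : ℝ, 0 < δ ∧ δ < 1 ∧
    ∀ s : C2, ‖s‖ = 1 → ‖hopf (ph δ s) - hopf s‖ ≤ η := by
  set δ : ℝ := min (1 / 4) (η ^ 2 / 64) with hδdef
  have hδ : 0 < δ := by positivity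
  have hδ4 : δ ≤ 1 / 4 := min_le_left _ _
  have hδη : δ ≤ η ^ 2 / 64 := min_le_right _ _
  refine ⟨δ, hδ, by linarith, fun s hs => ?_⟩
  by_cases h : 2 * δ ≤ ‖s 1‖ ^ 2
  · rw [ph_far hδ hs h, sub_self, norm_zero]
    exact hη.le
  · push Not at h
    have hs' := norm_ph hδ (by linarith : δ < 1) hs
    have h1 := dist_hopf hs
    have h2 := dist_hopf hs'
    have h3 := norm_sq2 s
    rw [hs, one_pow] at h3
    -- the second coordinate of `ph δ s`
    have h4 : ‖(ph δ s) 1‖ ^ 2 ≤ 2 * ‖s 1‖ ^ 2 := by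
      have e1 : (ph δ s) 1 = ((‖nn δ s‖⁻¹ : ℝ) : ℂ) * ((mu δ s : ℂ) * s 1) := rfl
      have e2 : ‖(ph δ s) 1‖ = ‖nn δ s‖⁻¹ * (mu δ s * ‖s 1‖) := by
        rw [e1, norm_mul, norm_mul, Complex.norm_real, Complex.norm_real, norm_inv, norm_norm,
          Real.norm_eq_abs, abs_of_nonneg (mu_nonneg δ s)]
      have h5 := norm_sq2 (nn δ s)
      rw [nn_0, nn_1] at h5
      have h6 : 1 / 2 ≤ ‖nn δ s‖ ^ 2 := by
        rw [h5]
        nlinarith [sq_nonneg ‖(mu δ s : ℂ) * s 1‖]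
      have h7 : (‖nn δ s‖⁻¹) ^ 2 ≤ 2 := by
        rw [inv_pow]
        rw [inv_le_comm₀ (by linarith) (by norm_num)]
        linarith
      have h8 : (mu δ s * ‖s 1‖) ^ 2 ≤ ‖s 1‖ ^ 2 := by
        rw [mul_pow]
        have : mu δ s ^ 2 ≤ 1 := pow_le_one₀ (mu_nonneg δ s) (mu_le δ s)
        nlinarith [sq_nonneg ‖s 1‖]
      rw [e2, mul_pow]
      calc (‖nn δ s‖⁻¹) ^ 2 * (mu δ s * ‖s 1‖) ^ 2 ≤ 2 * ‖s 1‖ ^ 2 :=
            mul_le_mul h7 h8 (sq_nonneg _) (by norm_num)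
        _ = _ := rfl
    have h9 : ‖hopf s - hopf s0‖ ≤ η / 2 := by
      refine abs_le_of_sq_le_sq' ?_ (by positivity) |>.2
      rw [h1]
      nlinarith
    have h10 : ‖hopf (ph δ s) - hopf s0‖ ≤ η / 2 := by
      refine abs_le_of_sq_le_sq' ?_ (by positivity) |>.2
      rw [h2]
      nlinarith
    have h11 : hopf (ph δ s) - hopf s = (hopf (ph δ s) - hopf s0) - (hopf s - hopf s0) := by abel
    rw [h11]
    exact (norm_sub_le _ _).trans (by linarith)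

/-- **the reparametrisation of the ball.** -/
theorem exists_theta {pi : C2 → E3} (hc : ContinuousOn pi (Metric.sphere 0 1))
    (hn : ∀ s, ‖s‖ = 1 → ‖pi s‖ = 1)
    (hz : ∀ z : ℂ, ‖z‖ = 1 → ∀ s, ‖s‖ = 1 → pi (z • s) = pi s) {δ : ℝ} (hδ : 0 < δ)
    (hδ1 : δ < 1) :
    ∃ th : E3 → E3, Continuous th ∧ (∀ t, ‖t‖ ≤ 1 → ‖th t‖ ≤ 1) ∧ (∀ t, ‖t‖ = 1 → ‖th t‖ = 1) ∧
      (∀ s, ‖s‖ = 1 → th (hopf s) = pi (ph δ s)) ∧ (∀ t, th t = ‖t‖ • th (‖t‖⁻¹ • t)) ∧
      (∃ η > 0, ∀ t, ‖t‖ = 1 → ‖t - hopf s0‖ < η → th t = pi s0) := by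
  set f : C2 → E3 := fun s => pi (ph δ s) with hf
  have hfc : ContinuousOn f (Metric.sphere 0 1) := by
    refine hc.comp (continuousOn_ph hδ hδ1) ?_
    intro s hs
    rw [mem_sphere_zero_iff_norm] at hs ⊢
    exact norm_ph hδ hδ1 hs
  have hfz : ∀ z : ℂ, ‖z‖ = 1 → ∀ s, ‖s‖ = 1 → f (z • s) = f s := by
    intro z hz' s hs
    show pi (ph δ (z • s)) = pi (ph δ s)
    rw [ph_smul hz', hz z hz' _ (norm_ph hδ hδ1 hs)]
  have hth1 : ∀ s : C2, ‖s‖ = 1 → rad ℝ (desc f) (hopf s) = f s := by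
    intro s hs
    rw [rad_of_norm (by rw [norm_hopf, hs, one_pow]), desc_hopf hfz hs]
  have hth2 : ∀ t : E3, ‖t‖ = 1 → ‖rad ℝ (desc f) t‖ = 1 := by
    intro t ht
    obtain ⟨s, hs, rfl⟩ := hopf_surj ht
    rw [hth1 s hs]
    exact hn _ (norm_ph hδ hδ1 hs)
  have hth3 : ∀ t : E3, rad ℝ (desc f) t = ‖t‖ • rad ℝ (desc f) (‖t‖⁻¹ • t) := by
    intro t
    by_cases ht : t = 0
    · subst ht; simp [rad]
    · have h1 : ‖‖t‖⁻¹ • t‖ = 1 := by
        rw [norm_smul, norm_inv, norm_norm, inv_mul_cancel₀ (norm_ne_zero_iff.2 ht)]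
      rw [rad_of_norm h1]
      rfl
  refine ⟨rad ℝ (desc f), continuous_rad (continuous_desc hfc).continuousOn, ?_, hth2, hth1, hth3,
    ?_⟩
  · intro t ht
    by_cases ht0 : t = 0
    · subst ht0; simp [rad]
    · rw [hth3, norm_smul, norm_norm, hth2, mul_one]
      · exact ht
      · rw [norm_smul, norm_inv, norm_norm, inv_mul_cancel₀ (norm_ne_zero_iff.2 ht0)]
  · refine ⟨√(4 * δ), Real.sqrt_pos.2 (by positivity), fun t ht hd => ?_⟩
    obtain ⟨s, hs, rfl⟩ := hopf_surj ht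
    have h1 := dist_hopf hs
    have h2 : ‖hopf s - hopf s0‖ ^ 2 < 4 * δ := by
      have h3 := Real.lt_sqrt (norm_nonneg (hopf s - hopf s0)) |>.1 hd
      exact h3
    have h4 : ‖s 1‖ ^ 2 ≤ δ := by linarith
    obtain ⟨z, hz', hz2⟩ := ph_near hδ hδ1 hs h4
    rw [hth1 s hs]
    show pi (ph δ s) = pi s0
    rw [hz2, hz z hz' _ norm_s0]

end Crest.Agent.R235.FamE_151
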