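import Crest.Agent.R235.FamF_842

/-!
Row 235, PACKAGE FAM, EMB (helper842): traces of finite rank operators in a Hilbert basis, and Stokes'
formula on `[0,1] × [0,1]^n`.
-/

set_option autoImplicit false
set_option linter.unusedSectionVars false
set_option linter.unusedVariables false
set_option maxSynthPendingDepth 3

open Set Filter Module MeasureTheory Function
open scoped ContDiff Topology InnerProductSpace

namespace Crest.Agent.R235.FamEmb_842

open Crest.Agent.R235.FamDefs_307 Crest.Agent.R235.FamF_842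

noncomputable section

variable {n : ℕ} {ι κ : Type*} {Y Y' Z Z' : Type*}
  [NormedAddCommGroup Y] [InnerProductSpace ℂ Y] [CompleteSpace Y]
  [NormedAddCommGroup Y'] [InnerProductSpace ℂ Y'] [CompleteSpace Y']
  [NormedAddCommGroup Z] [InnerProductSpace ℂ Z] [FiniteDimensional ℂ Z]
  [NormedAddCommGroup Z'] [InnerProductSpace ℂ Z'] [FiniteDimensional ℂ Z']

/-! ### traces -/

theorem hasSum_comp (e : HilbertBasis ι ℂ Y) (C : Z →L[ℂ] Y) (S : Y →L[ℂ] Z) :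
    HasSum (fun i => ⟪e i, (C ∘L S) (e i)⟫_ℂ) (tr (S ∘L C)) := by
  have f := stdOrthonormalBasis ℂ Z
  have h1 : ∀ i, ⟪e i, (C ∘L S) (e i)⟫_ℂ = ∑ k, ⟪S.adjoint (f k), e i⟫_ℂ * ⟪e i, C (f k)⟫_ℂ := by
    intro i
    have h2 : S (e i) = ∑ k, ⟪f k, S (e i)⟫_ℂ • f k := (f.sum_repr' (S (e i))).symm
    rw [ContinuousLinearMap.comp_apply]
    conv_lhs => rw [h2]
    rw [map_sum, inner_sum]
    refine Finset.sum_congr rfl fun k _ => ?_
    rw [map_smul, inner_smul_right, ContinuousLinearMap.adjoint_inner_left]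
  have h3 : tr (S ∘L C) = ∑ k, ⟪S.adjoint (f k), C (f k)⟫_ℂ := by
    unfold tr
    rw [LinearMap.trace_eq_sum_inner _ f]
    refine Finset.sum_congr rfl fun k _ => ?_
    rw [ContinuousLinearMap.adjoint_inner_left]
    rfl
  rw [h3]
  simp only [h1]
  exact hasSum_sum fun k _ => e.hasSum_inner_mul_inner _ _

theorem trB_comp (e : HilbertBasis ι ℂ Y) (C : Z →L[ℂ] Y) (S : Y →L[ℂ] Z) :
    trB e (C ∘L S) = tr (S ∘L C) := (hasSum_comp e C S).tsum_eq

/-- finite rank operators. -/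
def FR (X : Y →L[ℂ] Y) : Prop :=
  ∃ (k : ℕ) (C : EuclideanSpace ℂ (Fin k) →L[ℂ] Y) (S : Y →L[ℂ] EuclideanSpace ℂ (Fin k)), X = C ∘L S

theorem FR.of (C : Z →L[ℂ] Y) (S : Y →L[ℂ] Z) : FR (C ∘L S) := by
  let f := (stdOrthonormalBasis ℂ Z).repr
  refine ⟨finrank ℂ Z,
    C ∘L (f.symm.toContinuousLinearEquiv : EuclideanSpace ℂ (Fin (finrank ℂ Z)) →L[ℂ] Z),
    (f.toContinuousLinearEquiv : Z →L[ℂ] EuclideanSpace ℂ (Fin (finrank ℂ Z))) ∘L S, ?_⟩
  ext x
  simp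

theorem FR.mul_left {X : Y →L[ℂ] Y} (h : FR X) (W : Y →L[ℂ] Y) : FR (W * X) := by
  obtain ⟨k, C, S, rfl⟩ := h
  exact ⟨k, W ∘L C, S, rfl⟩

theorem FR.mul_right {X : Y →L[ℂ] Y} (h : FR X) (W : Y →L[ℂ] Y) : FR (X * W) := by
  obtain ⟨k, C, S, rfl⟩ := h
  exact ⟨k, C, S ∘L W, rfl⟩

theorem FR.summable {X : Y →L[ℂ] Y} (h : FR X) (e : HilbertBasis ι ℂ Y) :
    Summable (fun i => ⟪e i, X (e i)⟫_ℂ) := by
  obtain ⟨k, C, S, rfl⟩ := h
  exact (hasSum_comp e C S).summable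

theorem trB_cyc {Q : Y →L[ℂ] Y} (h : FR Q) (e : HilbertBasis ι ℂ Y) (X : Y →L[ℂ] Y) :
    trB e (Q * X) = trB e (X * Q) := by
  obtain ⟨k, C, S, rfl⟩ := h
  have h1 : (C ∘L S) * X = C ∘L (S ∘L X) := rfl
  have h2 : X * (C ∘L S) = (X ∘L C) ∘L S := rfl
  rw [h1, h2, trB_comp, trB_comp]
  rfl

theorem trB_add {X X' : Y →L[ℂ] Y} (h : FR X) (h' : FR X') (e : HilbertBasis ι ℂ Y) :
    trB e (X + X') = trB e X + trB e X' := by
  unfold trB
  rw [← (h.summable e).tsum_add (h'.summable e)]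
  refine tsum_congr fun i => ?_
  rw [add_apply, inner_add_right]

theorem trB_neg (X : Y →L[ℂ] Y) (e : HilbertBasis ι ℂ Y) : trB e (-X) = - trB e X := by
  unfold trB
  rw [← tsum_neg]
  refine tsum_congr fun i => ?_
  rw [neg_apply, inner_neg_right]

/-- the trace is independent of the basis and of the embedding of the finite rank operators. -/
theorem trB_conj (e : HilbertBasis ι ℂ Y) (e' : HilbertBasis κ ℂ Y') {X : Y →L[ℂ] Y} (h : FR X)
    {J : Y →L[ℂ] Y'} {R : Y' →L[ℂ] Y} (hJ : ∀ y, R (J y) = y) :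
    trB e' (J ∘L X ∘L R) = trB e X := by
  obtain ⟨k, C, S, rfl⟩ := h
  have h1 : J ∘L (C ∘L S) ∘L R = (J ∘L C) ∘L (S ∘L R) := rfl
  rw [h1, trB_comp, trB_comp]
  congr 1
  ext z
  show S (R (J (C z))) _ = S (C z) _
  rw [hJ]

/-- finite dimension: `trB = tr`. -/
theorem trB_fd (e : HilbertBasis ι ℂ Z) (X : Z →L[ℂ] Z) : trB e X = tr X := by
  have h1 := trB_comp e X (ContinuousLinearMap.id ℂ Z)
  simpa using h1

/-! ### derivatives of traces -/

section der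

variable {E : Type*} [NormedAddCommGroup E] [NormedSpace ℝ E]

theorem tr_lin : IsBoundedLinearMap ℝ (tr : (Z →L[ℂ] Z) → ℂ) := by
  have h1 : (tr : (Z →L[ℂ] Z) → ℂ) = fun X => (((LinearMap.trace ℂ Z) ∘ₗ
    (ContinuousLinearMap.coeLM ℂ : (Z →L[ℂ] Z) →ₗ[ℂ] (Z →ₗ[ℂ] Z))).restrictScalars ℝ) X := rfl
  rw [h1]
  exact (LinearMap.toContinuousLinearMap _).isBoundedLinearMap

/-- a smooth factorization through a finite dimensional space. -/
theorem trB_smooth (e : HilbertBasis ι ℂ Y) {C : E → Z →L[ℂ] Y} {S : E → Y →L[ℂ] Z}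
    (hC : ContDiff ℝ ∞ C) (hS : ContDiff ℝ ∞ S) : ContDiff ℝ ∞ (fun x => trB e (C x ∘L S x)) := by
  simp only [trB_comp]
  exact (tr_lin (Z := Z)).contDiff.comp
    ((bcomp (Z := Z) (Y := Y) (W := Z)).contDiff.comp (hS.prodMk hC))

end der

theorem pd_comp {Z Y W : Type*} [NormedAddCommGroup Z] [NormedSpace ℂ Z] [NormedAddCommGroup Y]
    [NormedSpace ℂ Y] [NormedAddCommGroup W] [NormedSpace ℂ W] {f : (Fin n → ℝ) → Y →L[ℂ] W}
    {g : (Fin n → ℝ) → Z →L[ℂ] Y} (hf : ContDiff ℝ ∞ f) (hg : ContDiff ℝ ∞ g) (a : Fin n)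
    (x : Fin n → ℝ) :
    pdθ a (fun x => f x ∘L g x) x = pdθ a f x ∘L g x + f x ∘L pdθ a g x := by
  have h1 := ((bcomp (Z := Z) (Y := Y) (W := W)).hasFDerivAt (f x, g x)).comp x
    (((hf.differentiable (by simp)) x).hasFDerivAt.prodMk
      ((hg.differentiable (by simp)) x).hasFDerivAt)
  unfold pdθ
  have h2 : HasFDerivAt (fun x => f x ∘L g x) _ x := h1
  rw [h2.fderiv]
  simp [IsBoundedBilinearMap.deriv, add_comm]

theorem pd_mul {f g : (Fin n → ℝ) → Y →L[ℂ] Y} (hf : ContDiff ℝ ∞ f) (hg : ContDiff ℝ ∞ g)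
    (a : Fin n) (x : Fin n → ℝ) :
    pdθ a (fun x => f x * g x) x = pdθ a f x * g x + f x * pdθ a g x := pd_comp hf hg a x

theorem pd_smooth {V : Type*} [NormedAddCommGroup V] [NormedSpace ℝ V] {f : (Fin n → ℝ) → V}
    (hf : ContDiff ℝ ∞ f) (a : Fin n) : ContDiff ℝ ∞ (pdθ a f) :=
  (hf.fderiv_right (m := ∞) (by simp)).clm_apply contDiff_const

theorem pd_symm {V : Type*} [NormedAddCommGroup V] [NormedSpace ℝ V] {f : (Fin n → ℝ) → V}
    (hf : ContDiff ℝ ∞ f) (a c : Fin n) (x : Fin n → ℝ) :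
    pdθ a (pdθ c f) x = pdθ c (pdθ a f) x := by
  have hd : DifferentiableAt ℝ (fderiv ℝ f) x :=
    ((hf.fderiv_right (m := ∞) (by simp)).differentiable (by simp)) x
  have h1 : ∀ u v : Fin n, pdθ u (pdθ v f) x =
      fderiv ℝ (fderiv ℝ f) x (Pi.single u 1) (Pi.single v 1) := by
    intro u v
    have h2 : HasFDerivAt (fun y => fderiv ℝ f y (Pi.single v 1)) _ x :=
      hd.hasFDerivAt.clm_apply (hasFDerivAt_const (Pi.single v (1 : ℝ) : Fin n → ℝ) x)
    have h3 : pdθ u (pdθ v f) x = fderiv ℝ (fun y => fderiv ℝ f y (Pi.single v 1)) x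
      (Pi.single u 1) := rfl
    rw [h3, h2.fderiv]
    simp
  rw [h1, h1]
  exact (hf.contDiffAt.isSymmSndFDerivAt
    (by rw [minSmoothness_of_isRCLikeNormedField]; exact WithTop.coe_le_coe.2 (le_top : (2 : ℕ∞) ≤ ⊤))).eq _ _

/-- smooth families with a factorization of the projection. -/
structure Fac (Z : Type*) [NormedAddCommGroup Z] [InnerProductSpace ℂ Z] [FiniteDimensional ℂ Z]
    (Q : (Fin n → ℝ) → Y →L[ℂ] Y) : Prop where
  smooth : ContDiff ℝ ∞ Q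
  idem : ∀ x, Q x * Q x = Q x
  fac : ∃ (C : (Fin n → ℝ) → Z →L[ℂ] Y) (R : (Fin n → ℝ) → Y →L[ℂ] Z),
    ContDiff ℝ ∞ C ∧ ContDiff ℝ ∞ R ∧ ∀ x, Q x = C x ∘L R x

namespace Fac

variable {Q : (Fin n → ℝ) → Y →L[ℂ] Y} (hQ : Fac Z Q)

include hQ

theorem fr (x : Fin n → ℝ) : FR (Q x) := by
  obtain ⟨C, R, -, -, h⟩ := hQ.fac
  rw [h]
  exact FR.of _ _

theorem leib (a : Fin n) (x : Fin n → ℝ) : pdθ a Q x * Q x + Q x * pdθ a Q x = pdθ a Q x := by
  have h1 := pd_mul hQ.smooth hQ.smooth a x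
  have h2 : (fun x => Q x * Q x) = Q := funext hQ.idem
  rw [h2] at h1
  exact h1.symm

theorem qdq (a : Fin n) (x : Fin n → ℝ) : Q x * pdθ a Q x * Q x = 0 := by
  have h1 := congrArg (fun T => Q x * T) (hQ.leib a x)
  simp only [mul_add] at h1
  rw [← mul_assoc, ← mul_assoc, hQ.idem] at h1
  have h2 : Q x * pdθ a Q x * Q x + Q x * pdθ a Q x = 0 + Q x * pdθ a Q x := by
    rw [zero_add]; exact h1
  exact add_right_cancel h2

/-- two derivatives commute with the projection. -/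
theorem comm2 (a c : Fin n) (x : Fin n → ℝ) :
    Q x * (pdθ a Q x * pdθ c Q x) = pdθ a Q x * pdθ c Q x * Q x := by
  have h1 := hQ.leib a x
  have h2 := hQ.leib c x
  have e1 : pdθ a Q x * pdθ c Q x = pdθ a Q x * Q x * pdθ c Q x + Q x * (pdθ a Q x * pdθ c Q x) := by
    conv_lhs => rw [← h1]
    rw [add_mul, mul_assoc (Q x)]
  have e2 : pdθ a Q x * pdθ c Q x = pdθ a Q x * pdθ c Q x * Q x + pdθ a Q x * Q x * pdθ c Q x := by
    conv_lhs => rw [← h2]
    rw [mul_add, ← mul_assoc, ← mul_assoc]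
  have e3 := e1.symm.trans e2
  rw [add_comm] at e3
  exact add_right_cancel e3

/-- odd operators have no trace. -/
theorem odd (e : HilbertBasis ι ℂ Y) (a : Fin n) (x : Fin n → ℝ) {K : Y →L[ℂ] Y}
    (hK : Q x * K = K * Q x) : trB e (pdθ a Q x * K) = 0 := by
  have f := hQ.fr x
  have h1 : pdθ a Q x * K = Q x * (K * pdθ a Q x * 0 + pdθ a Q x * K) + pdθ a Q x * Q x * K := by
    conv_lhs => rw [← hQ.leib a x]
    rw [mul_zero, zero_add, add_mul, mul_assoc (Q x), add_comm]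
  have z0 : Q x * (pdθ a Q x * K) * Q x = 0 := by
    have : Q x * (pdθ a Q x * K) * Q x = Q x * pdθ a Q x * (K * Q x) := by
      simp only [mul_assoc]
    rw [this, ← hK, ← mul_assoc, hQ.qdq, zero_mul]
  have z1 : trB e (Q x * (pdθ a Q x * K)) = 0 := by
    have : Q x * (pdθ a Q x * K) = Q x * (Q x * (pdθ a Q x * K)) := by
      rw [← mul_assoc (Q x) (Q x), hQ.idem]
    rw [this, trB_cyc f, z0]
    simp [trB]
  have z2 : trB e (pdθ a Q x * Q x * K) = 0 := by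
    have : pdθ a Q x * Q x * K = pdθ a Q x * K * Q x := by
      rw [mul_assoc, hK, mul_assoc]
    rw [this, ← trB_cyc f, z1]
  rw [h1, mul_zero, zero_add, trB_add (f.mul_right _) ((f.mul_left _).mul_right _), z1, z2,
    add_zero]

theorem smooth_tr (e : HilbertBasis ι ℂ Y) {K : (Fin n → ℝ) → Y →L[ℂ] Y} (hK : ContDiff ℝ ∞ K) :
    ContDiff ℝ ∞ (fun x => trB e (Q x * K x)) := by
  obtain ⟨C, R, hC, hR, h⟩ := hQ.fac
  have h1 : (fun x => trB e (Q x * K x)) = fun x => trB e (C x ∘L (R x ∘L K x)) := by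
    funext x
    rw [h]; rfl
  rw [h1]
  exact trB_smooth e hC ((bcomp (Z := Y) (Y := Y) (W := Z)).contDiff.comp (hR.prodMk hK))

/-- the derivative of `tr (Q K)` for `K` commuting with `Q`. -/
theorem pd_tr (e : HilbertBasis ι ℂ Y) {K : (Fin n → ℝ) → Y →L[ℂ] Y} (hK : ContDiff ℝ ∞ K)
    (hc : ∀ x, Q x * K x = K x * Q x) (a : Fin n) (x : Fin n → ℝ) :
    pdθ a (fun x => trB e (Q x * K x)) x = trB e (Q x * pdθ a K x) := by
  obtain ⟨C, R, hC, hR, h⟩ := hQ.fac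
  have hRK : ContDiff ℝ ∞ (fun x => R x ∘L K x) :=
    (bcomp (Z := Y) (Y := Y) (W := Z)).contDiff.comp (hR.prodMk hK)
  have h1 : (fun x => trB e (Q x * K x)) = fun x => tr ((R x ∘L K x) ∘L C x) := by
    funext x
    have : Q x * K x = C x ∘L (R x ∘L K x) := by rw [h]; rfl
    rw [this, trB_comp]
  have h2 : ContDiff ℝ ∞ (fun x => (R x ∘L K x) ∘L C x) :=
    (bcomp (Z := Z) (Y := Y) (W := Z)).contDiff.comp (hRK.prodMk hC)
  have h3 : pdθ a (fun x => tr ((R x ∘L K x) ∘L C x)) x =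
      tr (pdθ a (fun x => (R x ∘L K x) ∘L C x) x) := by
    have h4 : HasFDerivAt (fun x => tr ((R x ∘L K x) ∘L C x))
        ((tr_lin (Z := Z)).toContinuousLinearMap ∘L fderiv ℝ (fun x => (R x ∘L K x) ∘L C x) x) x :=
      (tr_lin (Z := Z)).hasFDerivAt.comp x ((h2.differentiable (by simp)) x).hasFDerivAt
    unfold pdθ
    rw [h4.fderiv]
    rfl
  have h5 : pdθ a Q x = pdθ a C x ∘L R x + C x ∘L pdθ a R x := by
    have : Q = fun x => C x ∘L R x := funext h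
    rw [this]
    exact pd_comp hC hR a x
  have h6 : trB e (pdθ a Q x * K x) + trB e (Q x * pdθ a K x) =
      tr (pdθ a (fun x => (R x ∘L K x) ∘L C x) x) := by
    have t0 : pdθ a Q x * K x = pdθ a C x ∘L (R x ∘L K x) + C x ∘L (pdθ a R x ∘L K x) := by
      rw [h5]; rfl
    have t1 : Q x * pdθ a K x = C x ∘L (R x ∘L pdθ a K x) := by rw [h]; rfl
    rw [pd_comp hRK hC, pd_comp hR hK, t0, t1, trB_add (FR.of _ _) (FR.of _ _), trB_comp, trB_comp,
      trB_comp, ContinuousLinearMap.add_comp, tr_lin.map_add, tr_lin.map_add]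
    ring_nf
  rw [h1, h3, ← h6, hQ.odd e a x (hc x), zero_add]

end Fac

end

end Crest.Agent.R235.FamEmb_842
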