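import Crest.Agent.R235.FamEmbA_842

/-!
Row 235, PACKAGE FAM, EMB (helper842): Stokes on `[0,1] × [0,1]^n` and homotopy invariance of the Chern
numbers of smooth families of finite rank projections of a Hilbert space.
-/

set_option autoImplicit false
set_option linter.unusedSectionVars false
set_option linter.unusedVariables false
set_option maxSynthPendingDepth 3

open Set Filter Module MeasureTheory Function
open scoped ContDiff Topology InnerProductSpace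

namespace Crest.Agent.R235.FamEmb_842

open Crest.Agent.R235.FamDefs_307 Crest.Agent.R235.FamF_842

noncomputable section

variable {n N : ℕ} {ι κ : Type*} {Y Y' Z Z' : Type*}
  [NormedAddCommGroup Y] [InnerProductSpace ℂ Y] [CompleteSpace Y]
  [NormedAddCommGroup Z] [InnerProductSpace ℂ Z] [FiniteDimensional ℂ Z]

/-! ### permutations -/

theorem sg_mul (σ τ : Equiv.Perm (Fin n)) : sg (σ * τ) = sg σ * sg τ := by
  unfold sg
  rw [Equiv.Perm.sign_mul]
  push_cast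
  rfl

theorem sum_sg_zero {i j : Fin n} (hij : i ≠ j) (g : Equiv.Perm (Fin n) → ℂ)
    (hg : ∀ τ, g (τ * Equiv.swap i j) = g τ) : ∑ τ, sg τ * g τ = 0 := by
  have h1 : ∑ τ, sg τ * g τ = ∑ τ, sg (τ * Equiv.swap i j) * g (τ * Equiv.swap i j) :=
    (Fintype.sum_equiv (Equiv.mulRight (Equiv.swap i j)) _ _ fun τ => rfl).symm
  have h2 : sg (Equiv.swap i j) = -1 := by
    unfold sg
    rw [Equiv.Perm.sign_swap hij]
    simp
  have h3 : ∑ τ, sg (τ * Equiv.swap i j) * g (τ * Equiv.swap i j) = -∑ τ, sg τ * g τ := by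
    rw [← Finset.sum_neg_distrib]
    refine Finset.sum_congr rfl fun τ _ => ?_
    rw [hg, sg_mul, h2]
    ring
  rw [h3] at h1
  exact self_eq_neg.1 h1

/-! ### Stokes -/

theorem stokes (G : (Fin n → Fin (n + 1)) → (Fin (n + 1) → ℝ) → ℂ)
    (hG : ∀ a, ContDiff ℝ ∞ (G a))
    (per : ∀ a (j : Fin n) x, G a (x + Pi.single j.succ 1) = G a x)
    (closed : ∀ x, ∑ τ : Equiv.Perm (Fin (n + 1)),
      sg τ * pdθ (τ 0) (G fun i => τ i.succ) x = 0) :
    (∫ h in Icc (0 : Fin n → ℝ) 1, ∑ σ : Equiv.Perm (Fin n),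
      sg σ * G (fun i => (σ i).succ) (Fin.cons 1 h)) =
    ∫ h in Icc (0 : Fin n → ℝ) 1, ∑ σ : Equiv.Perm (Fin n),
      sg σ * G (fun i => (σ i).succ) (Fin.cons 0 h) := by
  let f : Fin (n + 1) → (Fin (n + 1) → ℝ) → ℂ := fun p x =>
    ∑ e : Equiv.Perm (Fin n), ((if p = 0 then 1 else -1) * sg e) *
      G (fun i => Equiv.swap 0 p (e i).succ) x
  have hf : ∀ p, ContDiff ℝ ∞ (f p) := fun p =>
    ContDiff.sum fun e _ => contDiff_const.mul (hG _)
  have hdiv : ∀ x, ∑ p, pdθ p (f p) x = 0 := by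
    intro x
    rw [← closed x]
    have h1 : ∀ p, pdθ p (f p) x = ∑ e : Equiv.Perm (Fin n),
        ((if p = 0 then 1 else -1) * sg e) *
          pdθ p (G (fun i => Equiv.swap 0 p (e i).succ)) x := by
      intro p
      have h2 : HasFDerivAt (f p) (∑ e : Equiv.Perm (Fin n),
          ((if p = 0 then 1 else -1 : ℂ) * sg e) •
            fderiv ℝ (G (fun i => Equiv.swap 0 p (e i).succ)) x) x := by
        refine HasFDerivAt.fun_sum fun e _ => ?_
        exact ((((hG _).differentiable (by simp)) x).hasFDerivAt).const_mul _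
      unfold pdθ
      rw [h2.fderiv]
      simp only [FunLike.coe_sum, Finset.sum_apply]
      rfl
    simp only [h1]
    rw [← Fintype.sum_prod_type']
    refine Fintype.sum_equiv Equiv.Perm.decomposeFin.symm _ _ ?_
    rintro ⟨p, e⟩
    simp only [Equiv.Perm.decomposeFin_symm_apply_zero, Equiv.Perm.decomposeFin_symm_apply_succ]
    congr 1
    unfold sg
    rw [Equiv.Perm.decomposeFin.symm_sign]
    split_ifs <;> simp
  have key := integral_divergence_of_hasFDerivAt_off_countable' (0 : Fin (n + 1) → ℝ) 1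
    (by intro i; simp) f (fun i => fderiv ℝ (f i)) ∅ countable_empty
    (fun i => (hf i).continuous.continuousOn)
    (fun x _ i => (((hf i).differentiable (by simp)) x).hasFDerivAt)
    (ContinuousOn.integrableOn_Icc (continuous_finsetSum _ fun i _ =>
      ((hf i).continuous_fderiv (by simp)).clm_apply continuous_const).continuousOn)
  have hL : ∀ x : Fin (n + 1) → ℝ, ∑ i, fderiv ℝ (f i) x (Pi.single i 1) = 0 := hdiv
  simp only [hL, integral_zero] at key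
  rw [Fin.sum_univ_succ] at key
  have hper : ∀ (j : Fin n) (h : Fin n → ℝ),
      f j.succ (j.succ.insertNth (1 : ℝ) h) = f j.succ (j.succ.insertNth (0 : ℝ) h) := by
    intro j h
    have h1 : (j.succ.insertNth (1 : ℝ) h : Fin (n + 1) → ℝ) =
        (j.succ.insertNth (0 : ℝ) h : Fin (n + 1) → ℝ) + Pi.single j.succ 1 := by
      funext l
      refine Fin.succAboveCases j.succ ?_ (fun l => ?_) l
      · simp
      · simp [Fin.succAbove_ne]
    rw [h1]
    exact Finset.sum_congr rfl fun e _ => by rw [per]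
  have hz : ∀ j : Fin n, ((∫ x in Icc ((0 : Fin (n + 1) → ℝ) ∘ j.succ.succAbove)
      ((1 : Fin (n + 1) → ℝ) ∘ j.succ.succAbove),
        f j.succ (j.succ.insertNth ((1 : Fin (n + 1) → ℝ) j.succ) x)) -
      ∫ x in Icc ((0 : Fin (n + 1) → ℝ) ∘ j.succ.succAbove)
        ((1 : Fin (n + 1) → ℝ) ∘ j.succ.succAbove),
        f j.succ (j.succ.insertNth ((0 : Fin (n + 1) → ℝ) j.succ) x)) = 0 := by
    intro j
    rw [sub_eq_zero]
    exact integral_congr_ae (Eventually.of_forall fun x => hper j x)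
  rw [Finset.sum_congr rfl fun j _ => hz j] at key
  rw [Finset.sum_const_zero, add_zero] at key
  have key2 := sub_eq_zero.1 key.symm
  have hf0 : ∀ (c : ℝ) (h : Fin n → ℝ), f 0 ((0 : Fin (n + 1)).insertNth c h) =
      ∑ σ : Equiv.Perm (Fin n), sg σ * G (fun i => (σ i).succ) (Fin.cons c h) := by
    intro c h
    simp only [f, Equiv.swap_self, Equiv.refl_apply, if_true, one_mul, Fin.insertNth_zero']
  simp only [hf0] at key2
  exact key2

/-! ### closedness of the Chern forms -/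

section closed

variable {Q : (Fin n → ℝ) → Y →L[ℂ] Y} (hQ : Fac Z Q) (e : HilbertBasis ι ℂ Y)

/-- `tr (Q ∂ₐQ ∂_cQ)`. -/
def E2 (Q : (Fin n → ℝ) → Y →L[ℂ] Y) (e : HilbertBasis ι ℂ Y) (a c : Fin n) (x : Fin n → ℝ) : ℂ :=
  trB e (Q x * (pdθ a Q x * pdθ c Q x))

/-- `tr (Q ∂ₐQ ∂_cQ ∂_dQ ∂_gQ)`. -/
def E4 (Q : (Fin n → ℝ) → Y →L[ℂ] Y) (e : HilbertBasis ι ℂ Y) (a c d g : Fin n)
    (x : Fin n → ℝ) : ℂ :=
  trB e (Q x * (pdθ a Q x * pdθ c Q x * (pdθ d Q x * pdθ g Q x)))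

def T1 (Q : (Fin n → ℝ) → Y →L[ℂ] Y) (e : HilbertBasis ι ℂ Y) (s a c : Fin n) (x : Fin n → ℝ) : ℂ :=
  trB e (Q x * (pdθ s (pdθ a Q) x * pdθ c Q x))

def T2 (Q : (Fin n → ℝ) → Y →L[ℂ] Y) (e : HilbertBasis ι ℂ Y) (s a c : Fin n) (x : Fin n → ℝ) : ℂ :=
  trB e (Q x * (pdθ a Q x * pdθ s (pdθ c Q) x))

def U1 (Q : (Fin n → ℝ) → Y →L[ℂ] Y) (e : HilbertBasis ι ℂ Y) (s a c d g : Fin n)
    (x : Fin n → ℝ) : ℂ :=
  trB e (Q x * (pdθ s (pdθ a Q) x * pdθ c Q x * (pdθ d Q x * pdθ g Q x)))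

def U2 (Q : (Fin n → ℝ) → Y →L[ℂ] Y) (e : HilbertBasis ι ℂ Y) (s a c d g : Fin n)
    (x : Fin n → ℝ) : ℂ :=
  trB e (Q x * (pdθ a Q x * pdθ s (pdθ c Q) x * (pdθ d Q x * pdθ g Q x)))

def U3 (Q : (Fin n → ℝ) → Y →L[ℂ] Y) (e : HilbertBasis ι ℂ Y) (s a c d g : Fin n)
    (x : Fin n → ℝ) : ℂ :=
  trB e (Q x * (pdθ a Q x * pdθ c Q x * (pdθ s (pdθ d Q) x * pdθ g Q x)))

def U4 (Q : (Fin n → ℝ) → Y →L[ℂ] Y) (e : HilbertBasis ι ℂ Y) (s a c d g : Fin n)
    (x : Fin n → ℝ) : ℂ :=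
  trB e (Q x * (pdθ a Q x * pdθ c Q x * (pdθ d Q x * pdθ s (pdθ g Q) x)))

include hQ

theorem E2_smooth (a c : Fin n) : ContDiff ℝ ∞ (E2 Q e a c) :=
  hQ.smooth_tr e ((pd_smooth hQ.smooth a).mul (pd_smooth hQ.smooth c))

theorem E4_smooth (a c d g : Fin n) : ContDiff ℝ ∞ (E4 Q e a c d g) :=
  hQ.smooth_tr e (((pd_smooth hQ.smooth a).mul (pd_smooth hQ.smooth c)).mul
    ((pd_smooth hQ.smooth d).mul (pd_smooth hQ.smooth g)))

theorem E2_pd (s a c : Fin n) (x : Fin n → ℝ) :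
    pdθ s (E2 Q e a c) x = T1 Q e s a c x + T2 Q e s a c x := by
  have ha := pd_smooth hQ.smooth a
  have hc := pd_smooth hQ.smooth c
  have f := hQ.fr x
  have h1 : pdθ s (E2 Q e a c) x =
      trB e (Q x * pdθ s (fun x => pdθ a Q x * pdθ c Q x) x) :=
    hQ.pd_tr e (ha.mul hc) (fun x => hQ.comm2 a c x) s x
  rw [h1, pd_mul ha hc, mul_add, trB_add (f.mul_right _) (f.mul_right _)]
  rfl

theorem E4_pd (s a c d g : Fin n) (x : Fin n → ℝ) :
    pdθ s (E4 Q e a c d g) x = U1 Q e s a c d g x + U2 Q e s a c d g x + U3 Q e s a c d g x +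
      U4 Q e s a c d g x := by
  have ha := pd_smooth hQ.smooth a
  have hc := pd_smooth hQ.smooth c
  have hd := pd_smooth hQ.smooth d
  have hg := pd_smooth hQ.smooth g
  have f := hQ.fr x
  have h1 : pdθ s (E4 Q e a c d g) x =
      trB e (Q x * pdθ s (fun x => pdθ a Q x * pdθ c Q x * (pdθ d Q x * pdθ g Q x)) x) :=
    hQ.pd_tr e ((ha.mul hc).mul (hd.mul hg)) (fun x => by
      rw [← mul_assoc, hQ.comm2 a c x, mul_assoc, hQ.comm2 d g x, mul_assoc (pdθ a Q x * pdθ c Q x)])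
      s x
  rw [h1, pd_mul (ha.mul hc) (hd.mul hg), pd_mul ha hc, pd_mul hd hg]
  rw [mul_add (Q x), trB_add (f.mul_right _) (f.mul_right _),
    add_mul (pdθ s (pdθ a Q) x * pdθ c Q x), mul_add (Q x),
    trB_add (f.mul_right _) (f.mul_right _), mul_add (pdθ a Q x * pdθ c Q x), mul_add (Q x),
    trB_add (f.mul_right _) (f.mul_right _), ← add_assoc]
  rfl

theorem T1_symm (s a c : Fin n) (x : Fin n → ℝ) : T1 Q e s a c x = T1 Q e a s c x := by
  unfold T1; rw [pd_symm hQ.smooth]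

theorem T2_symm (s a c : Fin n) (x : Fin n → ℝ) : T2 Q e s a c x = T2 Q e c a s x := by
  unfold T2; rw [pd_symm hQ.smooth]

theorem U1_symm (s a c d g : Fin n) (x : Fin n → ℝ) :
    U1 Q e s a c d g x = U1 Q e a s c d g x := by
  unfold U1; rw [pd_symm hQ.smooth]

theorem U2_symm (s a c d g : Fin n) (x : Fin n → ℝ) :
    U2 Q e s a c d g x = U2 Q e c a s d g x := by
  unfold U2; rw [pd_symm hQ.smooth]

theorem U3_symm (s a c d g : Fin n) (x : Fin n → ℝ) :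
    U3 Q e s a c d g x = U3 Q e d a c s g x := by
  unfold U3; rw [pd_symm hQ.smooth]

theorem U4_symm (s a c d g : Fin n) (x : Fin n → ℝ) :
    U4 Q e s a c d g x = U4 Q e g a c d s x := by
  unfold U4; rw [pd_symm hQ.smooth]

end closed

section

variable (e : HilbertBasis ι ℂ Y)

theorem closed2 {Q : (Fin 3 → ℝ) → Y →L[ℂ] Y} (hQ : Fac Z Q) (x : Fin 3 → ℝ) :
    ∑ τ : Equiv.Perm (Fin 3), sg τ * pdθ (τ 0) (E2 Q e (τ 1) (τ 2)) x = 0 := by
  simp only [E2_pd hQ, mul_add, Finset.sum_add_distrib]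
  rw [sum_sg_zero (i := 0) (j := 1) (by decide), sum_sg_zero (i := 0) (j := 2) (by decide),
    add_zero]
  · intro τ
    simp only [Equiv.Perm.mul_apply]
    rw [T2_symm hQ]
    rfl
  · intro τ
    simp only [Equiv.Perm.mul_apply]
    rw [T1_symm hQ]
    rfl

theorem closed4 {Q : (Fin 5 → ℝ) → Y →L[ℂ] Y} (hQ : Fac Z Q) (x : Fin 5 → ℝ) :
    ∑ τ : Equiv.Perm (Fin 5), sg τ * pdθ (τ 0) (E4 Q e (τ 1) (τ 2) (τ 3) (τ 4)) x = 0 := by
  simp only [E4_pd hQ, mul_add, Finset.sum_add_distrib]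
  rw [sum_sg_zero (i := 0) (j := 1) (by decide), sum_sg_zero (i := 0) (j := 2) (by decide),
    sum_sg_zero (i := 0) (j := 3) (by decide), sum_sg_zero (i := 0) (j := 4) (by decide)]
  · simp
  · intro τ
    simp only [Equiv.Perm.mul_apply]
    rw [U4_symm hQ]
    rfl
  · intro τ
    simp only [Equiv.Perm.mul_apply]
    rw [U3_symm hQ]
    rfl
  · intro τ
    simp only [Equiv.Perm.mul_apply]
    rw [U2_symm hQ]
    rfl
  · intro τ
    simp only [Equiv.Perm.mul_apply]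
    rw [U1_symm hQ]
    rfl

theorem closedsq {Q : (Fin 5 → ℝ) → Y →L[ℂ] Y} (hQ : Fac Z Q) (x : Fin 5 → ℝ) :
    ∑ τ : Equiv.Perm (Fin 5), sg τ *
      pdθ (τ 0) (fun x => E2 Q e (τ 1) (τ 2) x * E2 Q e (τ 3) (τ 4) x) x = 0 := by
  have h1 : ∀ s a c d g : Fin 5, pdθ s (fun x => E2 Q e a c x * E2 Q e d g x) x =
      T1 Q e s a c x * E2 Q e d g x + T2 Q e s a c x * E2 Q e d g x +
        E2 Q e a c x * T1 Q e s d g x + E2 Q e a c x * T2 Q e s d g x := by
    intro s a c d g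
    have h2 : HasFDerivAt (fun x => E2 Q e a c x * E2 Q e d g x) _ x :=
      ((((E2_smooth hQ e a c).differentiable (by simp)) x).hasFDerivAt).mul
        ((((E2_smooth hQ e d g).differentiable (by simp)) x).hasFDerivAt)
    have e1 := E2_pd hQ e s a c x
    have e2 := E2_pd hQ e s d g x
    unfold pdθ at e1 e2 ⊢
    rw [h2.fderiv]
    simp only [add_apply, smul_apply, smul_eq_mul]
    rw [e1, e2]
    ring
  simp only [h1, mul_add, Finset.sum_add_distrib]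
  rw [sum_sg_zero (i := 0) (j := 1) (by decide), sum_sg_zero (i := 0) (j := 2) (by decide),
    sum_sg_zero (i := 0) (j := 3) (by decide), sum_sg_zero (i := 0) (j := 4) (by decide)]
  · simp
  · intro τ
    simp only [Equiv.Perm.mul_apply]
    rw [T2_symm hQ]
    rfl
  · intro τ
    simp only [Equiv.Perm.mul_apply]
    rw [T1_symm hQ]
    rfl
  · intro τ
    simp only [Equiv.Perm.mul_apply]
    rw [T2_symm hQ]
    rfl
  · intro τ
    simp only [Equiv.Perm.mul_apply]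
    rw [T1_symm hQ]
    rfl

end

/-! ### periodicity and slices -/

/-- conjugation invariance under the unit shift in the direction `j`. -/
def Sh (Q : (Fin n → ℝ) → Y →L[ℂ] Y) (j : Fin n) : Prop :=
  ∃ V W : Y →L[ℂ] Y, (∀ y, W (V y) = y) ∧ ∀ x, Q (x + Pi.single j 1) = V * Q x * W

theorem pd_const {V : Type*} [NormedAddCommGroup V] [NormedSpace ℝ V] (c : V) (a : Fin n)
    (x : Fin n → ℝ) : pdθ a (fun _ => c) x = 0 := by
  unfold pdθ; simp

theorem sh_pd {Q : (Fin n → ℝ) → Y →L[ℂ] Y} (hQ : ContDiff ℝ ∞ Q) {v : Fin n → ℝ}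
    {V W : Y →L[ℂ] Y} (h : ∀ x, Q (x + v) = V * Q x * W) (a : Fin n) (x : Fin n → ℝ) :
    pdθ a Q (x + v) = V * pdθ a Q x * W := by
  have h1 : pdθ a (fun y => Q (y + v)) x = pdθ a Q (x + v) := by
    unfold pdθ
    rw [fderiv_comp_add_right]
  have h2 : (fun y => Q (y + v)) = fun y => V * Q y * W := funext h
  rw [← h1, h2, pd_mul (contDiff_const.mul hQ) contDiff_const, pd_mul contDiff_const hQ, pd_const,
    pd_const, mul_zero, zero_mul, add_zero, zero_add]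

section

variable (e : HilbertBasis ι ℂ Y)

theorem E2_per {Q : (Fin n → ℝ) → Y →L[ℂ] Y} (hQ : Fac Z Q) {j : Fin n} (h : Sh Q j) (a c : Fin n)
    (x : Fin n → ℝ) : E2 Q e a c (x + Pi.single j 1) = E2 Q e a c x := by
  obtain ⟨V, W, hVW, h⟩ := h
  unfold E2
  rw [h, sh_pd hQ.smooth h, sh_pd hQ.smooth h]
  rw [← trB_conj e e ((hQ.fr x).mul_right (pdθ a Q x * pdθ c Q x)) hVW]
  congr 1
  ext y
  show V (Q x (W (V (pdθ a Q x (W (V (pdθ c Q x (W y)))))))) = V (Q x (pdθ a Q x (pdθ c Q x (W y))))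
  rw [hVW, hVW]

theorem E4_per {Q : (Fin n → ℝ) → Y →L[ℂ] Y} (hQ : Fac Z Q) {j : Fin n} (h : Sh Q j)
    (a c d g : Fin n) (x : Fin n → ℝ) :
    E4 Q e a c d g (x + Pi.single j 1) = E4 Q e a c d g x := by
  obtain ⟨V, W, hVW, h⟩ := h
  unfold E4
  rw [h, sh_pd hQ.smooth h, sh_pd hQ.smooth h, sh_pd hQ.smooth h, sh_pd hQ.smooth h]
  rw [← trB_conj e e ((hQ.fr x).mul_right
    (pdθ a Q x * pdθ c Q x * (pdθ d Q x * pdθ g Q x))) hVW]
  congr 1
  ext y
  show V (Q x (W (V (pdθ a Q x (W (V (pdθ c Q x (W (V (pdθ d Q x (W (V (pdθ g Q x (W y))))))))))))))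
    = V (Q x (pdθ a Q x (pdθ c Q x (pdθ d Q x (pdθ g Q x (W y))))))
  rw [hVW, hVW, hVW, hVW]

/-- the slice at `x 0 = s`. -/
def slice (Q : (Fin (n + 1) → ℝ) → Y →L[ℂ] Y) (s : ℝ) (h : Fin n → ℝ) : Y →L[ℂ] Y :=
  Q (Fin.cons s h)

theorem cons_fd (s : ℝ) (h : Fin n → ℝ) (j : Fin n) :
    ∃ L : (Fin n → ℝ) →L[ℝ] (Fin (n + 1) → ℝ),
      HasFDerivAt (fun h : Fin n → ℝ => (Fin.cons s h : Fin (n + 1) → ℝ)) L h ∧
      L (Pi.single j 1) = Pi.single j.succ 1 := by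
  refine ⟨ContinuousLinearMap.pi (Fin.cons (0 : (Fin n → ℝ) →L[ℝ] ℝ)
    fun i => ContinuousLinearMap.proj i), ?_, ?_⟩
  · rw [hasFDerivAt_pi]
    intro i
    refine Fin.cases ?_ (fun i => ?_) i
    · simpa using hasFDerivAt_const s h
    · simpa using hasFDerivAt_apply (𝕜 := ℝ) i h
  · funext i
    refine Fin.cases ?_ (fun i => ?_) i
    · simp [Pi.single_apply]
    · simp [Pi.single_apply]

theorem pd_slice {V : Type*} [NormedAddCommGroup V] [NormedSpace ℝ V]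
    {F : (Fin (n + 1) → ℝ) → V} (hF : ContDiff ℝ ∞ F) (s : ℝ) (j : Fin n) (h : Fin n → ℝ) :
    pdθ j (fun h => F (Fin.cons s h)) h = pdθ j.succ F (Fin.cons s h) := by
  obtain ⟨L, hL, hL2⟩ := cons_fd s h j
  have h1 : HasFDerivAt (fun h => F (Fin.cons s h)) (fderiv ℝ F (Fin.cons s h) ∘L L) h :=
    (((hF.differentiable (by simp)) _).hasFDerivAt).comp h hL
  unfold pdθ
  rw [h1.fderiv, ContinuousLinearMap.comp_apply, hL2]

theorem ch2_slice {Q : (Fin 3 → ℝ) → Y →L[ℂ] Y} (hQ : Fac Z Q) (s : ℝ) :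
    ch2 (trB e) (slice Q s) = ∫ h in Icc (0 : Fin 2 → ℝ) 1, ∑ σ : Equiv.Perm (Fin 2),
      sg σ * E2 Q e (σ 0).succ (σ 1).succ (Fin.cons s h) := by
  unfold ch2
  refine integral_congr_ae (Eventually.of_forall fun h => ?_)
  refine Finset.sum_congr rfl fun σ _ => ?_
  unfold slice
  rw [pd_slice hQ.smooth, pd_slice hQ.smooth, mul_assoc]
  rfl

theorem ch4_slice {Q : (Fin 5 → ℝ) → Y →L[ℂ] Y} (hQ : Fac Z Q) (s : ℝ) :
    ch4 (trB e) (slice Q s) = ∫ h in Icc (0 : Fin 4 → ℝ) 1, ∑ σ : Equiv.Perm (Fin 4),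
      sg σ * E4 Q e (σ 0).succ (σ 1).succ (σ 2).succ (σ 3).succ (Fin.cons s h) := by
  unfold ch4
  refine integral_congr_ae (Eventually.of_forall fun h => ?_)
  refine Finset.sum_congr rfl fun σ _ => ?_
  unfold slice E4
  rw [pd_slice hQ.smooth, pd_slice hQ.smooth, pd_slice hQ.smooth, pd_slice hQ.smooth]
  simp only [mul_assoc]

theorem chsq_slice {Q : (Fin 5 → ℝ) → Y →L[ℂ] Y} (hQ : Fac Z Q) (s : ℝ) :
    chsq (trB e) (slice Q s) = ∫ h in Icc (0 : Fin 4 → ℝ) 1, ∑ σ : Equiv.Perm (Fin 4),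
      sg σ * (E2 Q e (σ 0).succ (σ 1).succ (Fin.cons s h) *
        E2 Q e (σ 2).succ (σ 3).succ (Fin.cons s h)) := by
  unfold chsq
  refine integral_congr_ae (Eventually.of_forall fun h => ?_)
  refine Finset.sum_congr rfl fun σ _ => ?_
  unfold slice E2
  rw [pd_slice hQ.smooth, pd_slice hQ.smooth, pd_slice hQ.smooth, pd_slice hQ.smooth]
  simp only [mul_assoc]

/-- **homotopy invariance of `ch2`.** -/
theorem hom2 {Q : (Fin 3 → ℝ) → Y →L[ℂ] Y} (hQ : Fac Z Q) (h : ∀ j : Fin 2, Sh Q j.succ) :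
    ch2 (trB e) (slice Q 1) = ch2 (trB e) (slice Q 0) := by
  rw [ch2_slice e hQ, ch2_slice e hQ]
  exact stokes (fun a => E2 Q e (a 0) (a 1)) (fun a => E2_smooth hQ e _ _)
    (fun a j x => E2_per e hQ (h j) _ _ x) (fun x => closed2 e hQ x)

/-- **homotopy invariance of `ch4`.** -/
theorem hom4 {Q : (Fin 5 → ℝ) → Y →L[ℂ] Y} (hQ : Fac Z Q) (h : ∀ j : Fin 4, Sh Q j.succ) :
    ch4 (trB e) (slice Q 1) = ch4 (trB e) (slice Q 0) := by
  rw [ch4_slice e hQ, ch4_slice e hQ]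
  exact stokes (fun a => E4 Q e (a 0) (a 1) (a 2) (a 3)) (fun a => E4_smooth hQ e _ _ _ _)
    (fun a j x => E4_per e hQ (h j) _ _ _ _ x) (fun x => closed4 e hQ x)

/-- **homotopy invariance of `chsq`.** -/
theorem homsq {Q : (Fin 5 → ℝ) → Y →L[ℂ] Y} (hQ : Fac Z Q) (h : ∀ j : Fin 4, Sh Q j.succ) :
    chsq (trB e) (slice Q 1) = chsq (trB e) (slice Q 0) := by
  rw [chsq_slice e hQ, chsq_slice e hQ]
  exact stokes (fun a => fun x => E2 Q e (a 0) (a 1) x * E2 Q e (a 2) (a 3) x)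
    (fun a => (E2_smooth hQ e _ _).mul (E2_smooth hQ e _ _))
    (fun a j x => by
      show E2 Q e _ _ _ * E2 Q e _ _ _ = _
      rw [E2_per e hQ (h j), E2_per e hQ (h j)]) (fun x => closedsq e hQ x)

end

end

end Crest.Agent.R235.FamEmb_842
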