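import Crest.Agent.R235.FamEmbB_842

/-!
Row 235, PACKAGE FAM, EMB (helper842): two embeddings of the same bundle have the same Chern numbers.
-/

set_option autoImplicit false
set_option linter.unusedSectionVars false
set_option linter.unusedVariables false
set_option maxSynthPendingDepth 3

open Set Filter Module MeasureTheory Function
open scoped ContDiff Topology InnerProductSpace

namespace Crest.Agent.R235.FamEmb_842

open Crest.Agent.R235.FamDefs_307 Crest.Agent.R235.FamF_842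

noncomputable section

variable {b m n : ℕ} {ι κ : Type*} {Y Y' H : Type*}
  [NormedAddCommGroup Y] [InnerProductSpace ℂ Y] [CompleteSpace Y]
  [NormedAddCommGroup Y'] [InnerProductSpace ℂ Y'] [CompleteSpace Y']
  [NormedAddCommGroup H] [InnerProductSpace ℂ H] [FiniteDimensional ℂ H]

/-! ### pushing one projection -/

theorem badj' : IsBoundedLinearMap ℝ (fun B : H →L[ℂ] Y => B.adjoint) := by
  refine ⟨⟨fun x y => map_add _ x y, fun c x => ?_⟩, 1, one_pos, fun x => ?_⟩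
  · have h1 : c • x = (c : ℂ) • x := rfl
    have h2 : c • x.adjoint = (c : ℂ) • x.adjoint := rfl
    rw [h1, h2]
    exact (map_smulₛₗ (ContinuousLinearMap.adjoint : (H →L[ℂ] Y) ≃ₗᵢ⋆[ℂ] (Y →L[ℂ] H)) _ _).trans
      (by rw [Complex.conj_ofReal])
  · simp

/-- an orthogonal projection. -/
structure OP (p : Y →L[ℂ] Y) : Prop where
  idem : ∀ x, p (p x) = p x
  sa : ∀ x y, ⟪p x, y⟫_ℂ = ⟪x, p y⟫_ℂ

theorem OP.ext {p q : Y →L[ℂ] Y} (hp : OP p) (hq : OP q) (h12 : ∀ x, p (q x) = q x)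
    (h21 : ∀ x, q (p x) = p x) : p = q := by
  ext x
  refine ext_inner_right ℂ fun y => ?_
  rw [← h21, hq.sa, hp.sa, h12, ← hq.sa]

/-- `M = C^* C + (1 - p)`, `C = A p`. -/
def M1 (A : H →L[ℂ] Y) (p : H →L[ℂ] H) : H →L[ℂ] H :=
  (A ∘L p).adjoint ∘L (A ∘L p) + (1 - p)

/-- `R = M⁻¹ C^*`. -/
def R1 (A : H →L[ℂ] Y) (p : H →L[ℂ] H) : Y →L[ℂ] H :=
  Ring.inverse (M1 A p) ∘L (A ∘L p).adjoint

/-- the orthogonal projection onto `A (range p)`. -/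
def push1 (A : H →L[ℂ] Y) (p : H →L[ℂ] H) : Y →L[ℂ] Y := (A ∘L p) ∘L R1 A p

section basic

variable {A : H →L[ℂ] Y} {p : H →L[ℂ] H} (hp : OP p) (hA : ∀ ψ, p ψ = ψ → A ψ = 0 → ψ = 0)

include hp

theorem pCa (y : Y) : p ((A ∘L p).adjoint y) = (A ∘L p).adjoint y := by
  refine ext_inner_right ℂ fun w => ?_
  rw [hp.sa, ContinuousLinearMap.adjoint_inner_left, ContinuousLinearMap.adjoint_inner_left]
  show ⟪y, A (p (p w))⟫_ℂ = ⟪y, A (p w)⟫_ℂ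
  rw [hp.idem]

theorem M1_p (x : H) : M1 A p (p x) = (A ∘L p).adjoint (A (p x)) := by
  show (A ∘L p).adjoint (A (p (p x))) + (p x - p (p x)) = _
  rw [hp.idem, sub_self, add_zero]

theorem p_M1 (x : H) : p (M1 A p x) = (A ∘L p).adjoint (A (p x)) := by
  show p ((A ∘L p).adjoint (A (p x)) + (x - p x)) = _
  rw [map_add, pCa hp, map_sub, hp.idem, sub_self, add_zero]

theorem M1_sa (x y : H) : ⟪M1 A p x, y⟫_ℂ = ⟪x, M1 A p y⟫_ℂ := by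
  show ⟪(A ∘L p).adjoint ((A ∘L p) x) + (x - p x), y⟫_ℂ =
    ⟪x, (A ∘L p).adjoint ((A ∘L p) y) + (y - p y)⟫_ℂ
  rw [inner_add_left, inner_add_right, ContinuousLinearMap.adjoint_inner_left,
    ContinuousLinearMap.adjoint_inner_right, inner_sub_left, inner_sub_right, hp.sa]

include hA

theorem M1_unit : IsUnit (M1 A p) := by
  refine isUnit_of_inj ?_
  rw [injective_iff_map_eq_zero]
  intro x hx
  have h1 : (A ∘L p).adjoint (A (p x)) = 0 := by rw [← p_M1 hp, hx, map_zero]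
  have h2 : A (p x) = 0 := by
    rw [← inner_self_eq_zero (𝕜 := ℂ)]
    have := ContinuousLinearMap.adjoint_inner_right (A ∘L p) x (A (p x))
    rw [h1, inner_zero_right] at this
    exact this.symm
  have h3 : p x = 0 := hA _ (hp.idem x) h2
  have h4 : M1 A p x = (A ∘L p).adjoint (A (p x)) + (x - p x) := rfl
  rw [hx, h1, h3, zero_add, sub_zero] at h4
  exact h4.symm

theorem inv_M1 (x : H) : Ring.inverse (M1 A p) (M1 A p x) = x :=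
  congrArg (fun T : H →L[ℂ] H => T x) (Ring.inverse_mul_cancel _ (M1_unit hp hA))

theorem M1_inv (x : H) : M1 A p (Ring.inverse (M1 A p) x) = x :=
  congrArg (fun T : H →L[ℂ] H => T x) (Ring.mul_inverse_cancel _ (M1_unit hp hA))

theorem inv1_sa (x y : H) :
    ⟪Ring.inverse (M1 A p) x, y⟫_ℂ = ⟪x, Ring.inverse (M1 A p) y⟫_ℂ := by
  conv_lhs => rw [← M1_inv hp hA y]
  conv_rhs => rw [← M1_inv hp hA x]
  rw [M1_sa hp]

theorem push1_A (x : H) (hx : p x = x) : push1 A p (A x) = A x := by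
  show A (p (Ring.inverse (M1 A p) ((A ∘L p).adjoint (A x)))) = A x
  have h1 : (A ∘L p).adjoint (A x) = M1 A p x := by
    have := M1_p (A := A) hp x
    rw [hx] at this
    exact this.symm
  rw [h1, inv_M1 hp hA, hx]

omit hA in
theorem push1_rng (y : Y) : ∃ x, p x = x ∧ push1 A p y = A x :=
  ⟨p (R1 A p y), hp.idem _, rfl⟩

theorem push1_op : OP (push1 A p) where
  idem y := by
    obtain ⟨x, hx, h⟩ := push1_rng (A := A) hp y
    rw [h, push1_A hp hA x hx]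
  sa x y := by
    show ⟪(A ∘L p) (Ring.inverse (M1 A p) ((A ∘L p).adjoint x)), y⟫_ℂ =
      ⟪x, (A ∘L p) (Ring.inverse (M1 A p) ((A ∘L p).adjoint y))⟫_ℂ
    rw [← ContinuousLinearMap.adjoint_inner_right, inv1_sa hp hA,
      ContinuousLinearMap.adjoint_inner_left]

/-- characterization of `push1`. -/
theorem push1_eq {q : Y →L[ℂ] Y} (hq : OP q) (h1 : ∀ x, p x = x → q (A x) = A x)
    (h2 : ∀ y, ∃ x, p x = x ∧ q y = A x) : push1 A p = q := by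
  refine (push1_op hp hA).ext hq (fun y => ?_) fun y => ?_
  · obtain ⟨x, hx, h⟩ := h2 y
    rw [h, push1_A hp hA x hx]
  · obtain ⟨x, hx, h⟩ := push1_rng (A := A) hp y
    rw [h, h1 x hx]

end basic

/-- conjugation by a unitary. -/
theorem push1_conj {A A' : H →L[ℂ] Y} {p : H →L[ℂ] H} (hp : OP p)
    (hA : ∀ ψ, p ψ = ψ → A ψ = 0 → ψ = 0) (U : Y ≃ₗᵢ[ℂ] Y)
    (h : ∀ ψ, p ψ = ψ → A' ψ = U (A ψ)) (y : Y) :
    push1 A' p y = U (push1 A p (U.symm y)) := by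
  have hA' : ∀ ψ, p ψ = ψ → A' ψ = 0 → ψ = 0 := by
    intro ψ h1 h2
    refine hA ψ h1 ?_
    rw [h ψ h1] at h2
    simpa using h2
  let q : Y →L[ℂ] Y := (U.toContinuousLinearEquiv : Y →L[ℂ] Y) ∘L push1 A p ∘L
    (U.symm.toContinuousLinearEquiv : Y →L[ℂ] Y)
  have hq0 : ∀ y, q y = U (push1 A p (U.symm y)) := fun y => rfl
  have hop := push1_op hp hA
  have hq : OP q := by
    refine ⟨fun y => ?_, fun x y => ?_⟩
    · rw [hq0, hq0, U.symm_apply_apply, hop.idem]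
    · rw [hq0, hq0]
      conv_lhs => rw [← U.apply_symm_apply y]
      conv_rhs => rw [← U.apply_symm_apply x]
      rw [U.inner_map_map, U.inner_map_map, hop.sa]
  have := push1_eq hp hA' hq (fun x hx => by
    rw [hq0, h x hx, U.symm_apply_apply, push1_A hp hA x hx]) (fun y => by
    obtain ⟨x, hx, h2⟩ := push1_rng (A := A) hp (U.symm y)
    exact ⟨x, hx, by rw [hq0, h2, h x hx]⟩)
  rw [this]
  exact hq0 y

/-! ### families -/

section fam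

variable {A : (Fin n → ℝ) → H →L[ℂ] Y} {p : (Fin n → ℝ) → H →L[ℂ] H}

theorem R1_smooth (hp : ∀ x, OP (p x)) (hA : ∀ x ψ, p x ψ = ψ → A x ψ = 0 → ψ = 0)
    (hAs : ContDiff ℝ ∞ A) (hps : ContDiff ℝ ∞ p) : ContDiff ℝ ∞ (fun x => R1 (A x) (p x)) := by
  have h1 : ContDiff ℝ ∞ (fun x => A x ∘L p x) :=
    (bcomp (Z := H) (Y := H) (W := Y)).contDiff.comp (hAs.prodMk hps)
  have h2 : ContDiff ℝ ∞ (fun x => (A x ∘L p x).adjoint) :=
    (badj' (H := H) (Y := Y)).contDiff.comp h1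
  have h3 : ContDiff ℝ ∞ (fun x => M1 (A x) (p x)) :=
    ((bcomp (Z := H) (Y := Y) (W := H)).contDiff.comp (h2.prodMk h1)).add
      (contDiff_const.sub hps)
  have h4 : ContDiff ℝ ∞ (fun x => Ring.inverse (M1 (A x) (p x))) := by
    rw [contDiff_iff_contDiffAt]
    intro x
    obtain ⟨u, hu⟩ := M1_unit (hp x) (hA x)
    have h5 : ContDiffAt ℝ ∞ Ring.inverse (M1 (A x) (p x)) := hu ▸ contDiffAt_ringInverse ℝ u
    exact h5.comp x h3.contDiffAt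
  exact (bcomp (Z := Y) (Y := H) (W := H)).contDiff.comp (h4.prodMk h2)

/-- the pushed family has a factorization. -/
theorem push1_fac (hp : ∀ x, OP (p x)) (hA : ∀ x ψ, p x ψ = ψ → A x ψ = 0 → ψ = 0)
    (hAs : ContDiff ℝ ∞ A) (hps : ContDiff ℝ ∞ p) : Fac H (fun x => push1 (A x) (p x)) := by
  have h1 : ContDiff ℝ ∞ (fun x => A x ∘L p x) :=
    (bcomp (Z := H) (Y := H) (W := Y)).contDiff.comp (hAs.prodMk hps)
  have h2 := R1_smooth hp hA hAs hps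
  refine ⟨(bcomp (Z := Y) (Y := H) (W := Y)).contDiff.comp (h1.prodMk h2), fun x => ?_,
    _, _, h1, h2, fun x => rfl⟩
  ext y
  exact (push1_op (hp x) (hA x)).idem y

end fam

/-! ### the sum space -/

/-- the sum space. -/
abbrev ES (H Y : Type*) := WithLp 2 (H × Y)

def I1 : H →L[ℂ] ES H Y :=
  ((WithLp.prodContinuousLinearEquiv 2 ℂ H Y).symm : (H × Y) →L[ℂ] ES H Y) ∘L
    ContinuousLinearMap.inl ℂ H Y

def I2 : Y →L[ℂ] ES H Y :=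
  ((WithLp.prodContinuousLinearEquiv 2 ℂ H Y).symm : (H × Y) →L[ℂ] ES H Y) ∘L
    ContinuousLinearMap.inr ℂ H Y

theorem I1_inner (x y : H) : ⟪(I1 : H →L[ℂ] ES H Y) x, I1 y⟫_ℂ = ⟪x, y⟫_ℂ := by
  simp [I1, WithLp.prod_inner_apply]

theorem I2_inner (x y : Y) : ⟪(I2 : Y →L[ℂ] ES H Y) x, I2 y⟫_ℂ = ⟪x, y⟫_ℂ := by
  simp [I2, WithLp.prod_inner_apply]

/-- conjugation by an isometry. -/
def cn (J : Y →L[ℂ] Y') (Q : Y →L[ℂ] Y) : Y' →L[ℂ] Y' := J ∘L Q ∘L J.adjoint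

theorem adj_self {J : Y →L[ℂ] Y'} (hJ : ∀ x y, ⟪J x, J y⟫_ℂ = ⟪x, y⟫_ℂ) (x : Y) :
    J.adjoint (J x) = x := by
  refine ext_inner_right ℂ fun y => ?_
  rw [ContinuousLinearMap.adjoint_inner_left, hJ]

theorem cn_mul {J : Y →L[ℂ] Y'} (hJ : ∀ x y, ⟪J x, J y⟫_ℂ = ⟪x, y⟫_ℂ) (Q D : Y →L[ℂ] Y) :
    cn J Q * cn J D = cn J (Q * D) := by
  ext x
  show J (Q (J.adjoint (J (D (J.adjoint x))))) = J (Q (D (J.adjoint x)))
  rw [adj_self hJ]

theorem cn_tr {J : Y →L[ℂ] Y'} (hJ : ∀ x y, ⟪J x, J y⟫_ℂ = ⟪x, y⟫_ℂ) (e : HilbertBasis ι ℂ Y)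
    (e' : HilbertBasis κ ℂ Y') {Q : Y →L[ℂ] Y} (hQ : FR Q) : trB e' (cn J Q) = trB e Q :=
  trB_conj e e' hQ (adj_self hJ)

theorem cn_op {J : Y →L[ℂ] Y'} (hJ : ∀ x y, ⟪J x, J y⟫_ℂ = ⟪x, y⟫_ℂ) {q : Y →L[ℂ] Y} (hq : OP q) :
    OP (cn J q) where
  idem x := by
    show J (q (J.adjoint (J (q (J.adjoint x))))) = J (q (J.adjoint x))
    rw [adj_self hJ, hq.idem]
  sa x y := by
    show ⟪J (q (J.adjoint x)), y⟫_ℂ = ⟪x, J (q (J.adjoint y))⟫_ℂ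
    rw [← ContinuousLinearMap.adjoint_inner_right, hq.sa, ContinuousLinearMap.adjoint_inner_left]

theorem cn_lin (J : Y →L[ℂ] Y') : IsBoundedLinearMap ℝ (cn J) := by
  have h1 := (bcomp (Z := Y') (Y := Y) (W := Y')).isBoundedLinearMap_right J
  have h2 := (bcomp (Z := Y') (Y := Y) (W := Y)).isBoundedLinearMap_left J.adjoint
  exact h1.comp h2

theorem cn_pd (J : Y →L[ℂ] Y') {Q : (Fin b → ℝ) → Y →L[ℂ] Y} (hQ : ContDiff ℝ ∞ Q) (j : Fin b)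
    (h : Fin b → ℝ) : pdθ j (fun x => cn J (Q x)) h = cn J (pdθ j Q h) := by
  have h1 : HasFDerivAt (fun x => cn J (Q x))
      ((cn_lin J).toContinuousLinearMap ∘L fderiv ℝ Q h) h :=
    (cn_lin J).hasFDerivAt.comp h ((hQ.differentiable (by simp)) h).hasFDerivAt
  unfold pdθ
  rw [h1.fderiv]
  rfl

section cnch

variable {J : Y →L[ℂ] Y'} (hJ : ∀ x y, ⟪J x, J y⟫_ℂ = ⟪x, y⟫_ℂ) (e : HilbertBasis ι ℂ Y)
    (e' : HilbertBasis κ ℂ Y')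

include hJ

theorem cn_ch2 {Q : (Fin 2 → ℝ) → Y →L[ℂ] Y} (hQ : ContDiff ℝ ∞ Q) (hf : ∀ h, FR (Q h)) :
    ch2 (trB e') (fun h => cn J (Q h)) = ch2 (trB e) Q := by
  unfold ch2
  simp only [cn_pd J hQ, cn_mul hJ]
  refine integral_congr_ae (Eventually.of_forall fun h => ?_)
  refine Finset.sum_congr rfl fun σ _ => ?_
  rw [cn_tr hJ e e' (((hf h).mul_right _).mul_right _)]

theorem cn_ch4 {Q : (Fin 4 → ℝ) → Y →L[ℂ] Y} (hQ : ContDiff ℝ ∞ Q) (hf : ∀ h, FR (Q h)) :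
    ch4 (trB e') (fun h => cn J (Q h)) = ch4 (trB e) Q := by
  unfold ch4
  simp only [cn_pd J hQ, cn_mul hJ]
  refine integral_congr_ae (Eventually.of_forall fun h => ?_)
  refine Finset.sum_congr rfl fun σ _ => ?_
  rw [cn_tr hJ e e' (((((hf h).mul_right _).mul_right _).mul_right _).mul_right _)]

theorem cn_chsq {Q : (Fin 4 → ℝ) → Y →L[ℂ] Y} (hQ : ContDiff ℝ ∞ Q) (hf : ∀ h, FR (Q h)) :
    chsq (trB e') (fun h => cn J (Q h)) = chsq (trB e) Q := by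
  unfold chsq
  simp only [cn_pd J hQ, cn_mul hJ]
  refine integral_congr_ae (Eventually.of_forall fun h => ?_)
  refine Finset.sum_congr rfl fun σ _ => ?_
  rw [cn_tr hJ e e' (((hf h).mul_right _).mul_right _),
    cn_tr hJ e e' (((hf h).mul_right _).mul_right _)]

end cnch

/-- `diag (1, V)`. -/
def UU (V : Y ≃ₗᵢ[ℂ] Y) : ES H Y ≃ₗᵢ[ℂ] ES H Y where
  toLinearEquiv := (WithLp.linearEquiv 2 ℂ (H × Y)).trans
    (((LinearEquiv.refl ℂ H).prodCongr V.toLinearEquiv).trans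
      (WithLp.linearEquiv 2 ℂ (H × Y)).symm)
  norm_map' x := by
    rw [WithLp.prod_norm_eq_of_L2, WithLp.prod_norm_eq_of_L2]
    simp

theorem UU_I1 (V : Y ≃ₗᵢ[ℂ] Y) (x : H) : (UU V : ES H Y ≃ₗᵢ[ℂ] ES H Y) (I1 x) = I1 x := by
  apply (WithLp.linearEquiv 2 ℂ (H × Y)).injective
  simp [UU, I1]

theorem UU_I2 (V : Y ≃ₗᵢ[ℂ] Y) (y : Y) : (UU V : ES H Y ≃ₗᵢ[ℂ] ES H Y) (I2 y) = I2 (V y) := by
  apply (WithLp.linearEquiv 2 ℂ (H × Y)).injective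
  simp [UU, I2]

/-! ### the homotopy -/

section hom

variable (J : (Fin n → ℝ) → H →L[ℂ] Y) (P : (Fin n → ℝ) → H →L[ℂ] H)

/-- `(1 - s) I1 + s I2 J`. -/
def AA (x : Fin (n + 1) → ℝ) : H →L[ℂ] ES H Y :=
  (1 - x 0) • I1 + x 0 • (I2 ∘L J (Fin.tail x))

/-- the homotopy of projections. -/
def QQ (x : Fin (n + 1) → ℝ) : ES H Y →L[ℂ] ES H Y := push1 (AA J x) (P (Fin.tail x))

variable {J P}

theorem AA_inj (hA : ∀ h ψ, P h ψ = ψ → J h ψ = 0 → ψ = 0) (x : Fin (n + 1) → ℝ) (ψ : H)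
    (h1 : P (Fin.tail x) ψ = ψ) (h2 : AA J x ψ = 0) : ψ = 0 := by
  have h3 := congrArg (fun q : ES H Y => (WithLp.prodContinuousLinearEquiv 2 ℂ H Y q).1) h2
  have h4 := congrArg (fun q : ES H Y => (WithLp.prodContinuousLinearEquiv 2 ℂ H Y q).2) h2
  simp [AA, I1, I2] at h3 h4
  rcases h3 with h3 | h3
  · have h5 : x 0 ≠ 0 := by intro h; rw [h] at h3; simp at h3
    exact hA _ ψ h1 (h4.resolve_left h5)
  · exact h3

theorem tail_smooth {V : Type*} [NormedAddCommGroup V] [NormedSpace ℝ V] {f : (Fin n → ℝ) → V}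
    (hf : ContDiff ℝ ∞ f) : ContDiff ℝ ∞ (fun x : Fin (n + 1) → ℝ => f (Fin.tail x)) :=
  hf.comp (contDiff_pi.2 fun i => contDiff_apply ℝ ℝ i.succ)

theorem AA_smooth (hJ : ContDiff ℝ ∞ J) :
    ContDiff ℝ ∞ (AA J : (Fin (n + 1) → ℝ) → H →L[ℂ] ES H Y) := by
  have h0 : ContDiff ℝ ∞ (fun x : Fin (n + 1) → ℝ => x 0) := contDiff_apply ℝ ℝ 0
  have h1 : ContDiff ℝ ∞ (fun x : Fin (n + 1) → ℝ => (I2 : Y →L[ℂ] ES H Y) ∘L J (Fin.tail x)) :=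
    (bcomp (Z := H) (Y := Y) (W := ES H Y)).contDiff.comp
      (contDiff_const.prodMk (tail_smooth hJ))
  exact ((contDiff_const.sub h0).smul contDiff_const).add (h0.smul h1)

theorem QQ_fac (hP : ∀ h, OP (P h)) (hPs : ContDiff ℝ ∞ P)
    (hA : ∀ h ψ, P h ψ = ψ → J h ψ = 0 → ψ = 0) (hJ : ContDiff ℝ ∞ J) :
    Fac H (QQ J P : (Fin (n + 1) → ℝ) → ES H Y →L[ℂ] ES H Y) :=
  push1_fac (fun x => hP (Fin.tail x)) (fun x => AA_inj hA x) (AA_smooth hJ) (tail_smooth hPs)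

theorem QQ_sh (hP : ∀ h, OP (P h)) (hA : ∀ h ψ, P h ψ = ψ → J h ψ = 0 → ψ = 0) (j : Fin n)
    (hPp : ∀ h, P (h + Pi.single j 1) = P h) (V : Y ≃ₗᵢ[ℂ] Y)
    (hV : ∀ h ψ, P h ψ = ψ → J (h + Pi.single j 1) ψ = V (J h ψ)) :
    Sh (QQ J P : (Fin (n + 1) → ℝ) → ES H Y →L[ℂ] ES H Y) j.succ := by
  refine ⟨((UU V : ES H Y ≃ₗᵢ[ℂ] ES H Y).toContinuousLinearEquiv : ES H Y →L[ℂ] ES H Y),
    ((UU V : ES H Y ≃ₗᵢ[ℂ] ES H Y).symm.toContinuousLinearEquiv : ES H Y →L[ℂ] ES H Y), ?_,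
    fun x => ?_⟩
  · intro y
    exact (UU V).symm_apply_apply y
  have ht : Fin.tail (x + Pi.single j.succ 1) = Fin.tail x + Pi.single j 1 := by
    funext i
    simp [Fin.tail, Pi.single_apply]
  have h0 : (x + Pi.single j.succ 1 : Fin (n + 1) → ℝ) 0 = x 0 := by simp
  ext1 y
  unfold QQ
  rw [ht, hPp]
  refine push1_conj (hP (Fin.tail x)) (AA_inj hA x) (UU V) (fun ψ hψ => ?_) y
  unfold AA
  rw [ht, h0]
  simp only [add_apply, smul_apply, ContinuousLinearMap.comp_apply, map_add]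
  rw [hV _ _ hψ]
  have s1 : ∀ (c : ℝ) (z : ES H Y), (UU V) (c • z) = c • (UU V) z := fun c z =>
    (UU V : ES H Y ≃ₗᵢ[ℂ] ES H Y).toLinearEquiv.toLinearMap.map_smul_of_tower c z
  rw [s1, s1, UU_I1, UU_I2]

theorem QQ_zero (hP : ∀ h, OP (P h)) (hA : ∀ h ψ, P h ψ = ψ → J h ψ = 0 → ψ = 0) :
    slice (QQ J P) 0 = fun h => cn (I1 : H →L[ℂ] ES H Y) (P h) := by
  funext h
  refine push1_eq (hP _) (AA_inj hA (Fin.cons 0 h)) (cn_op I1_inner (hP h)) (fun x hx => ?_)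
    fun y => ⟨P h ((I1 : H →L[ℂ] ES H Y).adjoint y), ?_, ?_⟩
  · have h1 : AA J (Fin.cons 0 h) x = I1 x := by simp [AA]
    rw [h1]
    show I1 (P h ((I1 : H →L[ℂ] ES H Y).adjoint (I1 x))) = I1 x
    rw [adj_self I1_inner]
    rw [Fin.tail_cons] at hx
    rw [hx]
  · rw [Fin.tail_cons]
    exact (hP h).idem _
  · simp [AA]
    rfl

theorem QQ_one (hP : ∀ h, OP (P h)) (hA : ∀ h ψ, P h ψ = ψ → J h ψ = 0 → ψ = 0)
    {p2 : (Fin n → ℝ) → Y →L[ℂ] Y} (h2 : ∀ h, OP (p2 h))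
    (h3 : ∀ h ψ, P h ψ = ψ → p2 h (J h ψ) = J h ψ)
    (h4 : ∀ h y, ∃ ψ, P h ψ = ψ ∧ p2 h y = J h ψ) :
    slice (QQ J P) 1 = fun h => cn (I2 : Y →L[ℂ] ES H Y) (p2 h) := by
  funext h
  refine push1_eq (hP _) (AA_inj hA (Fin.cons 1 h)) (cn_op I2_inner (h2 h)) (fun x hx => ?_)
    fun y => ?_
  · have h1 : AA J (Fin.cons 1 h) x = I2 (J h x) := by simp [AA]
    rw [h1]
    show I2 (p2 h ((I2 : Y →L[ℂ] ES H Y).adjoint (I2 (J h x)))) = I2 (J h x)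
    rw [adj_self I2_inner]
    rw [Fin.tail_cons] at hx
    rw [h3 h x hx]
  · obtain ⟨ψ, h5, h6⟩ := h4 h ((I2 : Y →L[ℂ] ES H Y).adjoint y)
    refine ⟨ψ, by rw [Fin.tail_cons]; exact h5, ?_⟩
    have h7 : AA J (Fin.cons 1 h) ψ = I2 (J h ψ) := by simp [AA]
    rw [h7, ← h6]
    rfl

end hom

/-! ### EMB -/

section emb

theorem fr_fd {Z : Type*} [NormedAddCommGroup Z] [InnerProductSpace ℂ Z] [FiniteDimensional ℂ Z]
    (X : Z →L[ℂ] Z) : FR X := FR.of X (ContinuousLinearMap.id ℂ Z)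

/-- data of two realizations of a bundle. -/
structure Emb (n : ℕ) (P : (Fin n → ℝ) → H →L[ℂ] H) (p2 : (Fin n → ℝ) → Y →L[ℂ] Y)
    (J : (Fin n → ℝ) → H →L[ℂ] Y) : Prop where
  Ps : ContDiff ℝ ∞ P
  Pop : ∀ h, OP (P h)
  Pp : ∀ h (j : Fin n), P (h + Pi.single j 1) = P h
  qs : ContDiff ℝ ∞ p2
  qop : ∀ h, OP (p2 h)
  Js : ContDiff ℝ ∞ J
  inj : ∀ h ψ, P h ψ = ψ → J h ψ = 0 → ψ = 0
  qJ : ∀ h ψ, P h ψ = ψ → p2 h (J h ψ) = J h ψ
  surj : ∀ h y, p2 h y = y → ∃ ψ, P h ψ = ψ ∧ J h ψ = y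
  V : ∀ j : Fin n, ∃ V : Y ≃ₗᵢ[ℂ] Y, ∀ h ψ, P h ψ = ψ → J (h + Pi.single j 1) ψ = V (J h ψ)

namespace Emb

variable {P : (Fin n → ℝ) → H →L[ℂ] H} {p2 : (Fin n → ℝ) → Y →L[ℂ] Y} {J : (Fin n → ℝ) → H →L[ℂ] Y}

theorem rng (d : Emb n P p2 J) (h : Fin n → ℝ) (y : Y) : ∃ ψ, P h ψ = ψ ∧ p2 h y = J h ψ := by
  obtain ⟨ψ, h1, h2⟩ := d.surj h (p2 h y) ((d.qop h).idem y)
  exact ⟨ψ, h1, h2.symm⟩

theorem push (d : Emb n P p2 J) (h : Fin n → ℝ) : push1 (J h) (P h) = p2 h :=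
  push1_eq (d.Pop h) (d.inj h) (d.qop h) (d.qJ h) (d.rng h)

theorem fr (d : Emb n P p2 J) (h : Fin n → ℝ) : FR (p2 h) := by
  rw [← d.push h]
  exact FR.of _ _

theorem sh (d : Emb n P p2 J) (j : Fin n) :
    Sh (QQ J P : (Fin (n + 1) → ℝ) → ES H Y →L[ℂ] ES H Y) j.succ := by
  obtain ⟨V, hV⟩ := d.V j
  exact QQ_sh d.Pop d.inj j (fun h => d.Pp h j) V hV

end Emb

theorem emb2 (e : HilbertBasis ι ℂ Y) {P : (Fin 2 → ℝ) → H →L[ℂ] H}
    {p2 : (Fin 2 → ℝ) → Y →L[ℂ] Y} {J : (Fin 2 → ℝ) → H →L[ℂ] Y} (d : Emb 2 P p2 J) :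
    ch2 (trB e) p2 = ch2 tr P := by
  obtain ⟨w, e', -⟩ := exists_hilbertBasis ℂ (ES H Y)
  have f := (stdOrthonormalBasis ℂ H).toHilbertBasis
  have h1 := hom2 e' (QQ_fac d.Pop d.Ps d.inj d.Js) d.sh
  rw [QQ_zero d.Pop d.inj, QQ_one d.Pop d.inj d.qop d.qJ d.rng, cn_ch2 I2_inner e e' d.qs d.fr,
    cn_ch2 I1_inner f e' d.Ps (fun h => fr_fd _)] at h1
  rw [h1]
  congr 1
  funext X
  exact trB_fd f X

theorem emb4 (e : HilbertBasis ι ℂ Y) {P : (Fin 4 → ℝ) → H →L[ℂ] H}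
    {p2 : (Fin 4 → ℝ) → Y →L[ℂ] Y} {J : (Fin 4 → ℝ) → H →L[ℂ] Y} (d : Emb 4 P p2 J) :
    ch4 (trB e) p2 = ch4 tr P ∧ chsq (trB e) p2 = chsq tr P := by
  obtain ⟨w, e', -⟩ := exists_hilbertBasis ℂ (ES H Y)
  have f := (stdOrthonormalBasis ℂ H).toHilbertBasis
  have ht : trB f = tr := funext fun X => trB_fd f X
  have h1 := hom4 e' (QQ_fac d.Pop d.Ps d.inj d.Js) d.sh
  have h2 := homsq e' (QQ_fac d.Pop d.Ps d.inj d.Js) d.sh
  rw [QQ_zero d.Pop d.inj, QQ_one d.Pop d.inj d.qop d.qJ d.rng, cn_ch4 I2_inner e e' d.qs d.fr,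
    cn_ch4 I1_inner f e' d.Ps (fun h => fr_fd _), ht] at h1
  rw [QQ_zero d.Pop d.inj, QQ_one d.Pop d.inj d.qop d.qJ d.rng, cn_chsq I2_inner e e' d.qs d.fr,
    cn_chsq I1_inner f e' d.Ps (fun h => fr_fd _), ht] at h2
  exact ⟨h1, h2⟩

end emb

end

end Crest.Agent.R235.FamEmb_842
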