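import Crest.Agent.R235.FdsE_143

/-!
Row 235 (S0364), FAM-FDS (task 421), assembly (helper143): FDS2, FDS4, FDH4 from

* `GAUSS2`, `GAUSS4` (355 / 895);
* `EMB2`, `EMB4` : the numbers of the bundle `A (range P)` are those of `P` (192 / 842);
* `Out` : the output of (D) (778, `fds_d`, `fdh_d`).
-/

set_option autoImplicit false
set_option maxSynthPendingDepth 3
set_option linter.unusedSectionVars false
set_option linter.unusedVariables false

open Set Filter Module MeasureTheory Function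
open scoped ContDiff Topology InnerProductSpace

namespace Crest.Agent.R235.FdsAsm_143

open FamDefs_307 FdsF_143 FdsE_143 DgInv_778

noncomputable section

/-- the numbers of `A (range P)`, constant `A`, `b = 2`. -/
def EMB2 : Prop :=
  ∀ (H Y : Type) [NormedAddCommGroup H] [InnerProductSpace ℂ H] [FiniteDimensional ℂ H]
    [NormedAddCommGroup Y] [InnerProductSpace ℂ Y] [FiniteDimensional ℂ Y]
    (m : ℕ) (P : (Fin 2 → ℝ) → H →L[ℂ] H) (A : H →L[ℂ] Y), PPer 2 m P →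
    (∀ h ψ, P h ψ = ψ → A ψ = 0 → ψ = 0) → ch2 tr (fun h => proj A (P h)) = ch2 tr P

/-- the numbers of `A (range P)`, constant `A`, `b = 4`. -/
def EMB4 : Prop :=
  ∀ (H Y : Type) [NormedAddCommGroup H] [InnerProductSpace ℂ H] [FiniteDimensional ℂ H]
    [NormedAddCommGroup Y] [InnerProductSpace ℂ Y] [FiniteDimensional ℂ Y]
    (m : ℕ) (P : (Fin 4 → ℝ) → H →L[ℂ] H) (A : H →L[ℂ] Y), PPer 4 m P →
    (∀ h ψ, P h ψ = ψ → A ψ = 0 → ψ = 0) → ch4 tr (fun h => proj A (P h)) = ch4 tr P ∧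
      chsq tr (fun h => proj A (P h)) = chsq tr P

/-- the output of (D): `rel` is `= 0` or `≠ 0`. -/
def Out {b : ℕ} (m M : ℕ) {H : Type} [NormedAddCommGroup H] [InnerProductSpace ℂ H]
    [FiniteDimensional ℂ H] (P : (Fin b → ℝ) → H →L[ℂ] H) (rel : ℝ → Prop) : Prop :=
  ∃ (A : H →L[ℂ] EuclideanSpace ℂ (Fin M)) (e : (Fin b → ℝ) → EuclideanSpace ℂ (Fin m) →L[ℂ] H),
    (∀ h ψ, P h ψ = ψ → A ψ = 0 → ψ = 0) ∧ ContDiff ℝ ∞ e ∧ (∀ h z, P h (e h z) = e h z) ∧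
    (∀ h, ‖h‖ ≤ 2 → Injective (e h)) ∧
    ∀ e' : EuclideanSpace ℂ (Fin M) ≃L[ℝ] (Fin b → ℝ) × EuclideanSpace ℂ (Fin m),
    ∃ (i1 : MeasurableSpace (EuclideanSpace ℂ (Fin m)))
      (i2 : @BorelSpace (EuclideanSpace ℂ (Fin m)) _ i1)
      (μ : @Measure (EuclideanSpace ℂ (Fin m)) i1) (i3 : μ.IsAddHaarMeasure),
    ∃ δ : ℝ, 0 < δ ∧ ∀ u : ℝ → ℝ, ContDiff ℝ ∞ u → (∀ r, 0 ≤ u r) → 0 < u 0 →
      (∀ r, δ ≤ r → u r = 0) →
      rel (∫ θ : Fin b → ℝ, rho θ * (∫ z, u (‖A (e θ z)‖ ^ 2) *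
        LinearMap.det ((e' : EuclideanSpace ℂ (Fin M) →L[ℝ]
          (Fin b → ℝ) × EuclideanSpace ℂ (Fin m)) ∘L
          tot (A ∘L e θ) (fun j => pdθ j (fun θ => A ∘L e θ) θ) z :
            ((Fin b → ℝ) × EuclideanSpace ℂ (Fin m)) →ₗ[ℝ]
              (Fin b → ℝ) × EuclideanSpace ℂ (Fin m)) ∂μ))

lemma exists_u {δ : ℝ} (hδ : 0 < δ) : ∃ u : ℝ → ℝ, ContDiff ℝ ∞ u ∧ (∀ r, 0 ≤ u r) ∧ 0 < u 0 ∧
    ∀ r, δ ≤ r → u r = 0 := by
  refine ⟨fun r => Real.smoothTransition (1 - r / δ), ?_, fun r => Real.smoothTransition.nonneg _,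
    ?_, fun r hr => ?_⟩
  · exact Real.smoothTransition.contDiff.comp (contDiff_const.sub (contDiff_id.div_const δ))
  · show 0 < Real.smoothTransition (1 - 0 / δ)
    rw [zero_div, sub_zero, Real.smoothTransition.one_of_one_le le_rfl]
    exact one_pos
  · refine Real.smoothTransition.zero_of_nonpos ?_
    rw [sub_nonpos, le_div_iff₀ hδ, one_mul]
    exact hr

lemma exists_e' {b m M : ℕ} (h : b + 2 * m = 2 * M) :
    Nonempty (EuclideanSpace ℂ (Fin M) ≃L[ℝ] (Fin b → ℝ) × EuclideanSpace ℂ (Fin m)) := by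
  have : FiniteDimensional ℝ (EuclideanSpace ℂ (Fin M)) := FiniteDimensional.complexToReal _
  have : FiniteDimensional ℝ (EuclideanSpace ℂ (Fin m)) := FiniteDimensional.complexToReal _
  refine FiniteDimensional.nonempty_continuousLinearEquiv_of_finrank_eq ?_
  rw [finrank_real_of_complex, finrank_prod, finrank_real_of_complex, finrank_euclideanSpace_fin,
    finrank_euclideanSpace_fin, finrank_fin_fun]
  omega

section

variable {H : Type} [NormedAddCommGroup H] [InnerProductSpace ℂ H] [FiniteDimensional ℂ H]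
  {m M : ℕ}

theorem out4 (hG : GAUSS4) (hE : EMB4) {P : (Fin 4 → ℝ) → H →L[ℂ] H} (hP : PPer 4 m P)
    (hdim : 4 + 2 * m = 2 * M) {rel : ℝ → Prop} (hO : Out m M P rel) :
    ∃ x : ℝ, rel x ∧ ∃ c : ℂ, c ≠ 0 ∧ (x : ℂ) = c * (ch4 tr P + chsq tr P) := by
  obtain ⟨A, e, hA, he, hPe, hei, h1⟩ := hO
  obtain ⟨e'⟩ := exists_e' (b := 4) hdim
  obtain ⟨i1, i2, μ, i3, δ, hδ, h2⟩ := h1 e'
  obtain ⟨u, u1, u2, u3, u4⟩ := exists_u hδ
  obtain ⟨c, hc, h3⟩ := val4 (Z := EuclideanSpace ℂ (Fin m)) (Y := EuclideanSpace ℂ (Fin M)) hG hP A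
    hA finrank_euclideanSpace_fin (by rw [finrank_euclideanSpace_fin]; omega) e he hPe hei μ e'
  obtain ⟨a, ha, h4⟩ := h3 u u1.continuous u2 u3 δ u4
  obtain ⟨h5, h6⟩ := hE H _ m P A hP hA
  refine ⟨_, h2 u u1 u2 u3 u4, a * c, mul_ne_zero (by exact_mod_cast ha.ne') hc, ?_⟩
  rw [← h5, ← h6, mul_assoc]
  exact h4

theorem out2 (hG : GAUSS2) (hE : EMB2) {P : (Fin 2 → ℝ) → H →L[ℂ] H} (hP : PPer 2 m P)
    (hdim : 2 + 2 * m = 2 * M) {rel : ℝ → Prop} (hO : Out m M P rel) :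
    ∃ x : ℝ, rel x ∧ ∃ c : ℂ, c ≠ 0 ∧ (x : ℂ) = c * ch2 tr P := by
  obtain ⟨A, e, hA, he, hPe, hei, h1⟩ := hO
  obtain ⟨e'⟩ := exists_e' (b := 2) hdim
  obtain ⟨i1, i2, μ, i3, δ, hδ, h2⟩ := h1 e'
  obtain ⟨u, u1, u2, u3, u4⟩ := exists_u hδ
  obtain ⟨c, hc, h3⟩ := val2 (Z := EuclideanSpace ℂ (Fin m)) (Y := EuclideanSpace ℂ (Fin M)) hG hP A
    hA finrank_euclideanSpace_fin (by rw [finrank_euclideanSpace_fin]; omega) e he hPe hei μ e'
  obtain ⟨a, ha, h4⟩ := h3 u u1.continuous u2 u3 δ u4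
  have h5 := hE H _ m P A hP hA
  refine ⟨_, h2 u u1 u2 u3 u4, a * c, mul_ne_zero (by exact_mod_cast ha.ne') hc, ?_⟩
  rw [← h5, mul_assoc]
  exact h4

end

/-- (D), the system without values on the ray. -/
def DN (b : ℕ) : Prop :=
  ∀ (T H YR YC : Type) [NormedAddCommGroup T] [NormedSpace ℝ T] [FiniteDimensional ℝ T]
    [NormedAddCommGroup H] [InnerProductSpace ℂ H] [FiniteDimensional ℂ H]
    [NormedAddCommGroup YR] [NormedSpace ℝ YR] [FiniteDimensional ℝ YR]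
    [NormedAddCommGroup YC] [NormedSpace ℂ YC] [FiniteDimensional ℂ YC]
    (m : ℕ) (P : (Fin b → ℝ) → H →L[ℂ] H) (L : T ≃L[ℝ] YR)
    (fR : T × (Fin b → ℝ) × H → YR) (fC : T × (Fin b → ℝ) × H → YC) (v : YC) (R : ℝ),
    FSys b m P L fR fC v R → NoRay P fR fC v → Out m (finrank ℂ YC) P (fun x => x = 0)

/-- (D), the system with one nondegenerate value on the ray. -/
def DH (b : ℕ) : Prop :=
  ∀ (T H YR YC : Type) [NormedAddCommGroup T] [NormedSpace ℝ T] [FiniteDimensional ℝ T]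
    [NormedAddCommGroup H] [InnerProductSpace ℂ H] [FiniteDimensional ℂ H]
    [NormedAddCommGroup YR] [NormedSpace ℝ YR] [FiniteDimensional ℝ YR]
    [NormedAddCommGroup YC] [NormedSpace ℂ YC] [FiniteDimensional ℂ YC]
    (m : ℕ) (P : (Fin b → ℝ) → H →L[ℂ] H) (L : T ≃L[ℝ] YR)
    (fR : T × (Fin b → ℝ) × H → YR) (fC : T × (Fin b → ℝ) × H → YC) (v : YC) (R : ℝ),
    FSys b m P L fR fC v R → OneRay P fR fC v → Out m (finrank ℂ YC) P (fun x => x ≠ 0)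

theorem fds2_of (hG : GAUSS2) (hE : EMB2) (hD : DN 2) : FDS2 := by
  intro T H YR YC _ _ _ _ _ _ _ _ _ _ _ _ m P L fR fC v R hS hN
  obtain ⟨x, hx, c, hc, h⟩ := out2 hG hE hS.proj hS.hdim (hD T H YR YC m P L fR fC v R hS hN)
  rw [hx, Complex.ofReal_zero] at h
  exact (mul_eq_zero.1 h.symm).resolve_left hc

theorem fds4_of (hG : GAUSS4) (hE : EMB4) (hD : DN 4) : FDS4 := by
  intro T H YR YC _ _ _ _ _ _ _ _ _ _ _ _ m P L fR fC v R hS hN
  obtain ⟨x, hx, c, hc, h⟩ := out4 hG hE hS.proj hS.hdim (hD T H YR YC m P L fR fC v R hS hN)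
  rw [hx, Complex.ofReal_zero] at h
  exact (mul_eq_zero.1 h.symm).resolve_left hc

theorem fdh4_of (hG : GAUSS4) (hE : EMB4) (hD : DH 4) : FDH4 := by
  intro T H YR YC _ _ _ _ _ _ _ _ _ _ _ _ m P L fR fC v R hS hN h0
  obtain ⟨x, hx, c, hc, h⟩ := out4 hG hE hS.proj hS.hdim (hD T H YR YC m P L fR fC v R hS hN)
  rw [h0, mul_zero] at h
  exact hx (by exact_mod_cast h)

end

end Crest.Agent.R235.FdsAsm_143
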