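import Crest.Agent.R235.FamEmbC_842
import Crest.Agent.R235.FdsAsm_143

/-!
Row 235, PACKAGE FAM (helper842): EMB2 / EMB4 of FdsAsm_143 (constant `A`, finite dimension), the form of
EMB with ranks, and CONST (slices of `tr (p dp dp)`).
-/

set_option autoImplicit false
set_option linter.unusedSectionVars false
set_option linter.unusedVariables false
set_option maxSynthPendingDepth 3

open Set Filter Module MeasureTheory Function
open scoped ContDiff Topology InnerProductSpace

namespace Crest.Agent.R235.FamEmb_842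

open Crest.Agent.R235.FamDefs_307

noncomputable section

variable {b m n : ℕ} {ι κ : Type*} {Y Y' H : Type*}
  [NormedAddCommGroup Y] [InnerProductSpace ℂ Y] [CompleteSpace Y]
  [NormedAddCommGroup H] [InnerProductSpace ℂ H] [FiniteDimensional ℂ H]

theorem pper_op {P : (Fin b → ℝ) → H →L[ℂ] H} (hP : PPer b m P) (h : Fin b → ℝ) : OP (P h) :=
  ⟨hP.idem h, hP.sa h⟩

theorem pper_shift {P : (Fin b → ℝ) → H →L[ℂ] H} (hP : PPer b m P) (h : Fin b → ℝ) (j : Fin b) :
    P (h + Pi.single j 1) = P h := by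
  rw [← hP.per h (Pi.single j 1)]
  congr 1
  funext i
  simp [Pi.single_apply]

theorem dt_of {P : (Fin b → ℝ) → H →L[ℂ] H} (hP : PPer b m P) {Y : Type*} [NormedAddCommGroup Y]
    [InnerProductSpace ℂ Y] [FiniteDimensional ℂ Y] {A : H →L[ℂ] Y}
    (hA : ∀ h ψ, P h ψ = ψ → A ψ = 0 → ψ = 0) (h : Fin b → ℝ) : FdsF_143.Dt A (P h) where
  idem := hP.idem h
  sa := by
    ext x
    refine ext_inner_right ℂ fun y => ?_
    rw [ContinuousLinearMap.adjoint_inner_left, hP.sa]
  inj := hA h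

theorem emb_proj {P : (Fin b → ℝ) → H →L[ℂ] H} (hP : PPer b m P) {Y : Type*}
    [NormedAddCommGroup Y] [InnerProductSpace ℂ Y] [FiniteDimensional ℂ Y] {A : H →L[ℂ] Y}
    (hA : ∀ h ψ, P h ψ = ψ → A ψ = 0 → ψ = 0) :
    Emb b P (fun h => FdsF_143.proj A (P h)) (fun _ => A) where
  Ps := hP.smooth
  Pop := pper_op hP
  Pp := pper_shift hP
  qs := FdsF_143.contDiff_proj contDiff_const hP.smooth (dt_of hP hA)
  qop h := ⟨(dt_of hP hA h).proj_idem, fun x y => by
    conv_lhs => rw [← (dt_of hP hA h).proj_sa]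
    rw [ContinuousLinearMap.adjoint_inner_left]⟩
  Js := contDiff_const
  inj := hA
  qJ h ψ hψ := by
    have := (dt_of hP hA h).proj_A ψ
    rwa [hψ] at this
  surj h y hy := by
    obtain ⟨x, hx⟩ := FdsF_143.Dt.proj_rg (A := A) (P := P h) y
    exact ⟨P h x, hP.idem h x, by rw [← hx]; exact hy⟩
  V j := ⟨LinearIsometryEquiv.refl ℂ Y, fun _ _ _ => rfl⟩

theorem EMB2 : FdsAsm_143.EMB2 := by
  intro H Y _ _ _ _ _ _ m P A hP hA
  have f := (stdOrthonormalBasis ℂ Y).toHilbertBasis
  have ht : trB f = tr := funext fun X => trB_fd f X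
  have h1 := emb2 f (emb_proj hP hA)
  rwa [ht] at h1

theorem EMB4 : FdsAsm_143.EMB4 := by
  intro H Y _ _ _ _ _ _ m P A hP hA
  have f := (stdOrthonormalBasis ℂ Y).toHilbertBasis
  have ht : trB f = tr := funext fun X => trB_fd f X
  have h1 := emb4 f (emb_proj hP hA)
  rwa [ht] at h1

end

end Crest.Agent.R235.FamEmb_842
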