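import Crest.Agent.R235.FamC4_192
import Crest.Agent.R235.FamR_151

/-! Row 235, block FAM/C (helper192): **EMB** (`EmbData.ch2_eq`, `ch4_eq`, `chsq_eq`): the Chern-Weil
numbers of a finite dimensional family `P` and of its image `p2` under smooth embeddings `J h` in a
Hilbert space (gauge isometries `V k`) agree. -/

set_option autoImplicit false
set_option maxSynthPendingDepth 3

open Set MeasureTheory Filter Topology Module
open scoped InnerProductSpace ContDiff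

namespace Crest.Agent.R235.FamC_192

open FamDefs_307 ContinuousLinearMap

variable {H1 H2 : Type*} [NormedAddCommGroup H1] [InnerProductSpace ℂ H1] [FiniteDimensional ℂ H1]
  [NormedAddCommGroup H2] [InnerProductSpace ℂ H2] [CompleteSpace H2]

/-- `p2 h` is the orthogonal projection onto `J h (range (P h))`, `J h` injective on `range (P h)`. -/
structure EmbData (b m : ℕ) (P : (Fin b → ℝ) → H1 →L[ℂ] H1) (p2 : (Fin b → ℝ) → H2 →L[ℂ] H2)
    (J : (Fin b → ℝ) → H1 →L[ℂ] H2) (V : (Fin b → ℤ) → H2 →L[ℂ] H2) : Prop where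
  proj : PPer b m P
  smJ : ContDiff ℝ ∞ J
  idem2 : ∀ h y, p2 h (p2 h y) = p2 h y
  sa2 : ∀ h x y, ⟪p2 h x, y⟫_ℂ = ⟪x, p2 h y⟫_ℂ
  fix : ∀ h x, P h x = x → p2 h (J h x) = J h x
  inj : ∀ h x, P h x = x → J h x = 0 → x = 0
  surj : ∀ h y, ∃ x, P h x = x ∧ J h x = p2 h y
  iso : ∀ k x y, ⟪V k x, V k y⟫_ℂ = ⟪x, y⟫_ℂ
  per : ∀ (h : Fin b → ℝ) (k : Fin b → ℤ) x, P h x = x → J (fun i => h i + k i) x = V k (J h x)

section constr

variable (P : H1 →L[ℂ] H1) (A : H1 →L[ℂ] H2)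

/-- `A^* A + 1 - P` -/
noncomputable def Gg : H1 →L[ℂ] H1 :=
  haveI := FiniteDimensional.complete ℂ H1
  adjoint A ∘L A + (ContinuousLinearMap.id ℂ H1 - P)

/-- the left inverse `(A^* A + 1 - P)⁻¹ A^*` -/
noncomputable def Bb : H2 →L[ℂ] H1 :=
  haveI := FiniteDimensional.complete ℂ H1
  Ring.inverse (Gg P A) ∘L adjoint A

variable {P A}

theorem Gg_unit (hsa : ∀ x y, ⟪P x, y⟫_ℂ = ⟪x, P y⟫_ℂ) (hPP : ∀ x, P (P x) = P x)
    (hinj : ∀ x, P x = x → A x = 0 → x = 0) : IsUnit (Gg P A) := by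
  have hc := FiniteDimensional.complete ℂ H1
  have hi : Function.Injective (Gg P A) := by
    rw [injective_iff_map_eq_zero]
    intro x hx
    have h1 : ⟪x, Gg P A x⟫_ℂ = 0 := by rw [hx, inner_zero_right]
    have h2 : ⟪x, Gg P A x⟫_ℂ = ⟪A x, A x⟫_ℂ + ⟪x - P x, x - P x⟫_ℂ := by
      simp only [Gg, _root_.add_apply, ContinuousLinearMap.comp_apply, inner_add_right,
        adjoint_inner_right, _root_.sub_apply, ContinuousLinearMap.id_apply]
      congr 1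
      rw [inner_sub_left, inner_sub_right (P x), hsa x x, hsa x (P x), hPP, sub_self, sub_zero]
    have h3 : RCLike.re ⟪A x, A x⟫_ℂ + RCLike.re ⟪x - P x, x - P x⟫_ℂ = 0 := by
      rw [← map_add, ← h2, h1, map_zero]
    rw [inner_self_eq_norm_sq, inner_self_eq_norm_sq] at h3
    have h4 : ‖A x‖ = 0 := by nlinarith [sq_nonneg ‖A x‖, sq_nonneg ‖x - P x‖]
    have h5 : ‖x - P x‖ = 0 := by nlinarith [sq_nonneg ‖A x‖, sq_nonneg ‖x - P x‖]
    exact hinj x (sub_eq_zero.1 (norm_eq_zero.1 h5)).symm (norm_eq_zero.1 h4)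
  rw [isUnit_iff_bijective]
  exact ⟨hi, (LinearMap.injective_iff_surjective (f := (Gg P A : H1 →ₗ[ℂ] H1))).1 hi⟩

theorem Gg_Bb (hG : IsUnit (Gg P A)) (y : H2) :
    haveI := FiniteDimensional.complete ℂ H1
    Gg P A (Bb P A y) = adjoint A y := by
  have hc := FiniteDimensional.complete ℂ H1
  have h1 := congrArg (fun T : H1 →L[ℂ] H1 => T (adjoint A y)) (Ring.mul_inverse_cancel _ hG)
  simpa [Bb] using h1

theorem Gg_inj (hG : IsUnit (Gg P A)) {x y : H1} (h : Gg P A x = Gg P A y) : x = y := by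
  have hc := FiniteDimensional.complete ℂ H1
  exact (isUnit_iff_bijective.1 hG).1 h

theorem Gg_P (hPP : ∀ x, P (P x) = P x) (hAP : ∀ x, A (P x) = A x) (x : H1) :
    haveI := FiniteDimensional.complete ℂ H1
    Gg P A (P x) = adjoint A (A x) := by
  simp [Gg, hPP, hAP]

theorem Bb_A (hG : IsUnit (Gg P A)) (hPP : ∀ x, P (P x) = P x) (hAP : ∀ x, A (P x) = A x) (x : H1) :
    Bb P A (A x) = P x := by
  apply Gg_inj hG
  rw [Gg_Bb hG, Gg_P hPP hAP]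

theorem P_adj (hsa : ∀ x y, ⟪P x, y⟫_ℂ = ⟪x, P y⟫_ℂ) (hAP : ∀ x, A (P x) = A x) (y : H2) :
    haveI := FiniteDimensional.complete ℂ H1
    P (adjoint A y) = adjoint A y := by
  have hc := FiniteDimensional.complete ℂ H1
  refine ext_inner_left ℂ fun x => ?_
  rw [← hsa, adjoint_inner_right, adjoint_inner_right, hAP]

theorem P_Bb (hG : IsUnit (Gg P A)) (hsa : ∀ x y, ⟪P x, y⟫_ℂ = ⟪x, P y⟫_ℂ)
    (hPP : ∀ x, P (P x) = P x) (hAP : ∀ x, A (P x) = A x) (y : H2) :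
    P (Bb P A y) = Bb P A y := by
  have hc := FiniteDimensional.complete ℂ H1
  apply Gg_inj hG
  rw [Gg_P hPP hAP]
  have h1 : P (Gg P A (Bb P A y)) = adjoint A (A (Bb P A y)) := by
    simp only [Gg, _root_.add_apply, ContinuousLinearMap.comp_apply, _root_.sub_apply,
      ContinuousLinearMap.id_apply,
      map_add, map_sub, hPP, sub_self, add_zero]
    exact P_adj hsa hAP _
  rw [← h1, Gg_Bb hG, P_adj hsa hAP]

theorem A_Bb {p : H2 →L[ℂ] H2} (hG : IsUnit (Gg P A)) (hsa : ∀ x y, ⟪P x, y⟫_ℂ = ⟪x, P y⟫_ℂ)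
    (hPP : ∀ x, P (P x) = P x) (hAP : ∀ x, A (P x) = A x)
    (hp : ∀ y, p (p y) = p y) (hps : ∀ x y, ⟪p x, y⟫_ℂ = ⟪x, p y⟫_ℂ)
    (hfix : ∀ x, p (A x) = A x) (hsurj : ∀ y, ∃ x, A x = p y) (y : H2) :
    A (Bb P A y) = p y := by
  have hc := FiniteDimensional.complete ℂ H1
  obtain ⟨x, hx⟩ := hsurj y
  -- `y - A B y ⟂ range A`
  have h1 : ∀ x, ⟪A x, y - A (Bb P A y)⟫_ℂ = 0 := by
    intro x
    have h2 : adjoint A (A (Bb P A y)) = adjoint A y := by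
      rw [← Gg_P hPP hAP, P_Bb hG hsa hPP hAP, Gg_Bb hG]
    rw [inner_sub_right, ← adjoint_inner_right, ← adjoint_inner_right, h2, sub_self]
  have h2 : ∀ x, ⟪A x, y - p y⟫_ℂ = 0 := by
    intro x
    rw [← hfix, hps, map_sub, hp, sub_self, inner_zero_right]
  have h3 : ⟪A (Bb P A y - x), A (Bb P A y) - p y⟫_ℂ = 0 := by
    have h4 := h2 (Bb P A y - x)
    have h5 := h1 (Bb P A y - x)
    have h6 : A (Bb P A y) - p y = (y - p y) - (y - A (Bb P A y)) := by abel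
    rw [h6, inner_sub_right, h4, h5, sub_zero]
  rw [map_sub, hx] at h3
  exact sub_eq_zero.1 (inner_self_eq_zero.1 h3)

end constr

/-! ### the theorem -/

variable {b m : ℕ} {P : (Fin b → ℝ) → H1 →L[ℂ] H1} {p2 : (Fin b → ℝ) → H2 →L[ℂ] H2}
    {J : (Fin b → ℝ) → H1 →L[ℂ] H2} {V : (Fin b → ℤ) → H2 →L[ℂ] H2}

namespace EmbData

omit [CompleteSpace H2] in
theorem hAP (h : EmbData b m P p2 J V) (θ : Fin b → ℝ) (x : H1) :
    (J θ ∘L P θ) (P θ x) = (J θ ∘L P θ) x := by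
  simp [h.proj.idem θ x]

theorem unit (h : EmbData b m P p2 J V) (θ : Fin b → ℝ) : IsUnit (Gg (P θ) (J θ ∘L P θ)) := by
  refine Gg_unit (h.proj.sa θ) (h.proj.idem θ) fun x hx h0 => ?_
  rw [ContinuousLinearMap.comp_apply, hx] at h0
  exact h.inj θ x hx h0

theorem AB (h : EmbData b m P p2 J V) (θ : Fin b → ℝ) :
    (J θ ∘L P θ) ∘L Bb (P θ) (J θ ∘L P θ) = p2 θ := by
  ext y
  exact A_Bb (h.unit θ) (h.proj.sa θ) (h.proj.idem θ) (h.hAP θ) (h.idem2 θ) (h.sa2 θ)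
    (fun x => h.fix θ (P θ x) (h.proj.idem θ x))
    (fun y => by
      obtain ⟨x, hx, hy⟩ := h.surj θ y
      exact ⟨x, by rw [ContinuousLinearMap.comp_apply, hx, hy]⟩) y

omit [CompleteSpace H2] in
theorem smA (h : EmbData b m P p2 J V) : ContDiff ℝ ∞ (fun θ => J θ ∘L P θ) :=
  FamR_comp h.smJ h.proj.smooth

theorem smB (h : EmbData b m P p2 J V) : ContDiff ℝ ∞ (fun θ => Bb (P θ) (J θ ∘L P θ)) := by
  have hc := FiniteDimensional.complete ℂ H1
  rw [contDiff_iff_contDiffAt]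
  intro θ
  rw [← contDiffWithinAt_univ]
  have h1 : ContDiffWithinAt ℝ ∞ (fun θ => J θ ∘L P θ) univ θ := h.smA.contDiffAt.contDiffWithinAt
  have h2 : ContDiffWithinAt ℝ ∞ (fun θ => adjoint (J θ ∘L P θ)) univ θ := FamR_151.cd_adj h1
  have h3 : ContDiffWithinAt ℝ ∞ (fun θ => Gg (P θ) (J θ ∘L P θ)) univ θ := by
    unfold Gg
    exact (FamR_151.cd_comp h2 h1).add
      (contDiffWithinAt_const.sub h.proj.smooth.contDiffAt.contDiffWithinAt)
  exact FamR_151.cd_comp (FamR_151.cd_inv h3 (h.unit θ)) h2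

theorem em (h : EmbData b m P p2 J V) :
    Em b P (fun θ => J θ ∘L P θ) (fun θ => Bb (P θ) (J θ ∘L P θ)) where
  cP := h.proj.smooth.of_le ENat.LEInfty.out
  cA := h.smA.of_le ENat.LEInfty.out
  cB := h.smB.of_le ENat.LEInfty.out
  PP := h.proj.idem
  AP := h.hAP
  PB := fun θ y => P_Bb (h.unit θ) (h.proj.sa θ) (h.proj.idem θ) (h.hAP θ) y
  BA := fun θ x => Bb_A (h.unit θ) (h.proj.idem θ) (h.hAP θ) x
  per := fun k => by
    have hc := FiniteDimensional.complete ℂ H1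
    refine ⟨V (Pi.single k 1), adjoint (V (Pi.single k 1)), fun y => ?_, fun θ => ?_⟩
    · refine ext_inner_left ℂ fun x => ?_
      rw [adjoint_inner_right, h.iso]
    · have e : θ + Pi.single k 1 = fun i => θ i + ((Pi.single k 1 : Fin b → ℤ) i : ℝ) := by
        funext i
        by_cases hi : i = k
        · subst hi; simp
        · simp [hi]
      have eP : P (θ + Pi.single k 1) = P θ := by rw [e, h.proj.per]
      have eA : J (θ + Pi.single k 1) ∘L P (θ + Pi.single k 1)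
          = V (Pi.single k 1) ∘L (J θ ∘L P θ) := by
        rw [eP, e]
        ext x
        exact h.per θ _ (P θ x) (h.proj.idem θ x)
      refine ⟨eP, eA, ?_⟩
      rw [eA, eP]
      have hV : adjoint (V (Pi.single k 1)) ∘L V (Pi.single k 1) = ContinuousLinearMap.id ℂ H2 := by
        ext y
        refine ext_inner_left ℂ fun x => ?_
        rw [ContinuousLinearMap.comp_apply, adjoint_inner_right, h.iso]
        rfl
      have eG : Gg (P θ) (V (Pi.single k 1) ∘L (J θ ∘L P θ)) = Gg (P θ) (J θ ∘L P θ) := by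
        unfold Gg
        rw [adjoint_comp]
        congr 1
        rw [ContinuousLinearMap.comp_assoc, ← ContinuousLinearMap.comp_assoc _ _ (J θ ∘L P θ), hV,
          ContinuousLinearMap.id_comp]
      unfold Bb
      rw [eG, adjoint_comp, ContinuousLinearMap.comp_assoc]

/-- the numbers of `p2` computed over `H1` -/
theorem chE_trB (h : EmbData b m P p2 J V) {ι : Type*} (e : HilbertBasis ι ℂ H2) :
    chG b (trB e) p2 = chE b (fun θ => J θ ∘L P θ) (fun θ => Bb (P θ) (J θ ∘L P θ)) := by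
  unfold chG chE
  refine integral_congr_ae (Eventually.of_forall fun y => Finset.sum_congr rfl fun σ _ => ?_)
  congr 1
  have hp : (fun y => (J y ∘L P y) ∘L Bb (P y) (J y ∘L P y)) = p2 := funext h.AB
  simp only [hp]
  conv_lhs => rw [← h.AB y]
  exact trB_eq e (J y ∘L P y) (Bb (P y) (J y ∘L P y) ∘L
    (List.ofFn fun i => (fderiv ℝ p2 y) (Pi.single (σ i) 1)).prod)

theorem chES_trB {P : (Fin 4 → ℝ) → H1 →L[ℂ] H1} {p2 : (Fin 4 → ℝ) → H2 →L[ℂ] H2}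
    {J : (Fin 4 → ℝ) → H1 →L[ℂ] H2} {V : (Fin 4 → ℤ) → H2 →L[ℂ] H2}
    (h : EmbData 4 m P p2 J V) {ι : Type*} (e : HilbertBasis ι ℂ H2) :
    chS (trB e) p2 = chES (fun θ => J θ ∘L P θ) (fun θ => Bb (P θ) (J θ ∘L P θ)) := by
  unfold chS chES
  refine integral_congr_ae (Eventually.of_forall fun y => Finset.sum_congr rfl fun σ _ => ?_)
  have hp : (fun y => (J y ∘L P y) ∘L Bb (P y) (J y ∘L P y)) = p2 := funext h.AB
  simp only [hp]
  have h1 : ∀ T : H2 →L[ℂ] H2, trB e (p2 y * T)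
      = tr (Bb (P y) (J y ∘L P y) ∘L T ∘L (J y ∘L P y)) := by
    intro T
    conv_lhs => rw [← h.AB y]
    exact trB_eq e (J y ∘L P y) (Bb (P y) (J y ∘L P y) ∘L T)
  rw [h1, h1]

/-- **EMB2** -/
theorem ch2_eq {P : (Fin 2 → ℝ) → H1 →L[ℂ] H1} {p2 : (Fin 2 → ℝ) → H2 →L[ℂ] H2}
    {J : (Fin 2 → ℝ) → H1 →L[ℂ] H2} {V : (Fin 2 → ℤ) → H2 →L[ℂ] H2}
    (h : EmbData 2 m P p2 J V) {ι : Type*} (e : HilbertBasis ι ℂ H2) :
    ch2 (trB e) p2 = ch2 tr P := by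
  rw [← chG_two, ← chG_two, h.chE_trB e, emb_gen (by decide) h.em]

/-- **EMB4** -/
theorem ch4_eq {P : (Fin 4 → ℝ) → H1 →L[ℂ] H1} {p2 : (Fin 4 → ℝ) → H2 →L[ℂ] H2}
    {J : (Fin 4 → ℝ) → H1 →L[ℂ] H2} {V : (Fin 4 → ℤ) → H2 →L[ℂ] H2}
    (h : EmbData 4 m P p2 J V) {ι : Type*} (e : HilbertBasis ι ℂ H2) :
    ch4 (trB e) p2 = ch4 tr P := by
  rw [← chG_four, ← chG_four, h.chE_trB e, emb_gen (by decide) h.em]

/-- **EMBSQ** -/
theorem chsq_eq {P : (Fin 4 → ℝ) → H1 →L[ℂ] H1} {p2 : (Fin 4 → ℝ) → H2 →L[ℂ] H2}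
    {J : (Fin 4 → ℝ) → H1 →L[ℂ] H2} {V : (Fin 4 → ℤ) → H2 →L[ℂ] H2}
    (h : EmbData 4 m P p2 J V) {ι : Type*} (e : HilbertBasis ι ℂ H2) :
    chsq (trB e) p2 = chsq tr P := by
  rw [← chS_eq, ← chS_eq, h.chES_trB e, emb_sq h.em]

end EmbData

/-! ### finite dimensional target -/

theorem trB_tr {H3 : Type*} [NormedAddCommGroup H3] [InnerProductSpace ℂ H3]
    [FiniteDimensional ℂ H3] [CompleteSpace H3] {ι : Type*} (e : HilbertBasis ι ℂ H3) :
    trB e = tr := by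
  funext X
  have h := trB_eq e (ContinuousLinearMap.id ℂ H3) X
  simpa using h

/-- a Hilbert basis of a finite dimensional space -/
noncomputable def fdBasis (H3 : Type*) [NormedAddCommGroup H3] [InnerProductSpace ℂ H3]
    [FiniteDimensional ℂ H3] [CompleteSpace H3] :
    HilbertBasis (Fin (finrank ℂ H3)) ℂ H3 :=
  (stdOrthonormalBasis ℂ H3).toHilbertBasis

section fd

variable [FiniteDimensional ℂ H2]

theorem EmbData.ch2_fd {P : (Fin 2 → ℝ) → H1 →L[ℂ] H1} {p2 : (Fin 2 → ℝ) → H2 →L[ℂ] H2}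
    {J : (Fin 2 → ℝ) → H1 →L[ℂ] H2} {V : (Fin 2 → ℤ) → H2 →L[ℂ] H2}
    (h : EmbData 2 m P p2 J V) : ch2 tr p2 = ch2 tr P := by
  rw [← trB_tr (fdBasis H2)]; rw [h.ch2_eq]

theorem EmbData.ch4_fd {P : (Fin 4 → ℝ) → H1 →L[ℂ] H1} {p2 : (Fin 4 → ℝ) → H2 →L[ℂ] H2}
    {J : (Fin 4 → ℝ) → H1 →L[ℂ] H2} {V : (Fin 4 → ℤ) → H2 →L[ℂ] H2}
    (h : EmbData 4 m P p2 J V) : ch4 tr p2 = ch4 tr P := by
  rw [← trB_tr (fdBasis H2)]; rw [h.ch4_eq]

theorem EmbData.chsq_fd {P : (Fin 4 → ℝ) → H1 →L[ℂ] H1} {p2 : (Fin 4 → ℝ) → H2 →L[ℂ] H2}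
    {J : (Fin 4 → ℝ) → H1 →L[ℂ] H2} {V : (Fin 4 → ℤ) → H2 →L[ℂ] H2}
    (h : EmbData 4 m P p2 J V) : chsq tr p2 = chsq tr P := by
  rw [← trB_tr (fdBasis H2)]; rw [h.chsq_eq]

end fd

end Crest.Agent.R235.FamC_192
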