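import Crest.Agent.R235.SWGeo_659

/-!
Row 235 (S0364), PACKAGE FAM (leader helper307): the data `d` with `ϑ = 0` of a family of Taubes data
(no flatness): `mkx ww τ r` is admissible and fits the family for `r ≥ r0`.
-/

set_option autoImplicit false
set_option maxSynthPendingDepth 3
set_option linter.unusedSectionVars false

open scoped ContDiff ENNReal NNReal Topology Manifold Bundle RealInnerProductSpace
open MeasureTheory Set Filter Metric Bundle Module

universe v

namespace Crest.Agent.R235.FamEndA_307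

open Crest.Agent.R249.Tv57 Crest.Agent.R247.Ms322 Crest.Agent.R247.Dir593
open Crest.Agent.R235.SWDefs_53 Crest.Agent.R235.SWEnd_53 Crest.Agent.R235.SWGeo_659

noncomputable section

variable {M : Type v} [MetricSpace M] [CompactSpace M] [ConnectedSpace M]
  [ChartedSpace (EuclideanSpace ℝ (Fin 4)) M] [IsManifold (𝓡 4) ∞ M]
  [RiemannianBundle (fun p : M => TangentSpace (𝓡 4) p)]
  [IsContMDiffRiemannianBundle (𝓡 4) ∞ (EuclideanSpace ℝ (Fin 4))
    (fun p : M => TangentSpace (𝓡 4) p)]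
  [IsRiemannianManifold (𝓡 4) M] [MeasurableSpace M] [BorelSpace M]
  [SecondCountableTopology M] [Nonempty M] [IsFiniteMeasureOnCompacts (μHE[4] : Measure M)]
  {κ0 κ1 κT : Type} [Fintype κ0] [Fintype κ1] [Fintype κT]

/-- the data with `ϑ = 0` of a family of Taubes data. -/
def mkx (ww : Fin 3 → Fin 3 → M → ℝ) (τ : E3 → TD M κT) (r : ℝ) : SWD M κT where
  th := fun _ _ _ => 0
  mu := fun t z => (nwt ww t z + (1 - ‖t‖)) ^ (-(1 / 2) : ℝ)
  ww := ww
  et := fun t k z => -(‖t‖ * (τ (‖t‖⁻¹ • t)).fE k z)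
  r := r

/-- the part of the family used here. -/
structure FX (S : SWS M κ0 κ1 κT) (ww : Fin 3 → Fin 3 → M → ℝ) (τ : E3 → TD M κT) (C : ℝ) :
    Prop where
  smw : ∀ i k, ContMDiff (𝓡 4) 𝓘(ℝ, ℝ) ∞ (ww i k)
  harm : ∀ i x z, S.H.A (Fin.cons (fun _ => 0) (ww i)) x z = 0
  rr : ∀ (t : E3) z, ‖t‖ = 1 → (τ t).rr z = √(∑ k, (∑ i, t i * ww i k z) ^ 2)
  nn : ∀ (t : E3) k z, ‖t‖ = 1 → (τ t).rr z * (τ t).n k z = ∑ i, t i * ww i k z
  tau : ∀ t : E3, ‖t‖ = 1 → (τ t).OK S C
  cfE : ∀ k, ContinuousOn (fun q : E3 × M => (τ q.1).fE k q.2) {q | ‖q.1‖ = 1}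

variable {S : SWS M κ0 κ1 κT} {ww : Fin 3 → Fin 3 → M → ℝ} {τ : E3 → TD M κT} {C : ℝ}

theorem nwt_contx (F : FX S ww τ C) : Continuous fun q : E3 × M => nwt ww q.1 q.2 := by
  refine Real.continuous_sqrt.comp (continuous_finsetSum _ fun k _ => ?_)
  refine (continuous_finsetSum _ fun i _ => ?_).pow 2
  refine Continuous.mul ?_ ((F.smw i k).continuous.comp continuous_snd)
  exact (EuclideanSpace.proj (𝕜 := ℝ) i).continuous.comp continuous_fst

theorem nwt_smul (c : ℝ) (hc : 0 ≤ c) (t : E3) (z : M) : nwt ww (c • t) z = c * nwt ww t z := by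
  unfold nwt
  have h1 : ∑ k, (∑ i, (c • t) i * ww i k z) ^ 2 = c ^ 2 * ∑ k, (∑ i, t i * ww i k z) ^ 2 := by
    rw [Finset.mul_sum]
    refine Finset.sum_congr rfl fun k _ => ?_
    rw [← mul_pow, Finset.mul_sum]
    congr 1
    refine Finset.sum_congr rfl fun i _ => ?_
    rw [PiLp.smul_apply, smul_eq_mul]
    ring
  rw [h1, Real.sqrt_mul (sq_nonneg c), Real.sqrt_sq hc]

theorem nwt_posx (F : FX S ww τ C) {t : E3} (z : M) (ht : t ≠ 0) : 0 < nwt ww t z := by
  have hn : 0 < ‖t‖ := norm_pos_iff.2 ht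
  have h1 : ‖(‖t‖⁻¹ • t : E3)‖ = 1 := norm_inv_smul ht
  have h2 := (F.tau _ h1).pos z
  rw [F.rr _ z h1] at h2
  have h3 : 0 < nwt ww (‖t‖⁻¹ • t) z := h2
  have h4 : ‖t‖ • (‖t‖⁻¹ • t) = t := by
    rw [smul_smul, mul_inv_cancel₀ hn.ne', one_smul]
  have h5 := nwt_smul (ww := ww) ‖t‖ (norm_nonneg _) (‖t‖⁻¹ • t) z
  rw [h4] at h5
  rw [h5]
  exact mul_pos hn h3

theorem int_wt_posx (F : FX S ww τ C) {t : E3} (ht : ‖t‖ = 1) :
    0 < ∫ z, nwt ww t z ^ 2 ∂(μHE[4] : Measure M) := by
  have hopen := isOpenPosMeasure 4 M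
  have hcont : Continuous fun z => nwt ww t z ^ 2 :=
    ((nwt_contx F).comp (Continuous.prodMk_right t)).pow 2
  have hint : Integrable (fun z => nwt ww t z ^ 2) (μHE[4] : Measure M) :=
    hcont.integrable_of_hasCompactSupport (HasCompactSupport.of_compactSpace _)
  refine integral_pos_of_integrable_nonneg_nonzero hcont hint (fun z => sq_nonneg _)
    (x := Classical.arbitrary M) ?_
  exact pow_ne_zero 2 (nwt_posx F _ (ne_of_norm ht)).ne'

set_option maxHeartbeats 1000000 in
/-- **the data**: admissible and fitting for all large `r`. -/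
theorem exists_adm (F : FX S ww τ C) : ∃ r0 : ℝ, 0 < r0 ∧ ∀ r : ℝ, r0 ≤ r →
    (mkx ww τ r).Adm S ∧ ∀ t : E3, ‖t‖ = 1 → (τ t).Fit S (mkx ww τ r) t := by
  classical
  set K : Set (E3 × M) := {q | ‖q.1‖ = 1} with hK
  have hKc : IsCompact K := by
    have h1 : K = Metric.sphere (0 : E3) 1 ×ˢ (univ : Set M) := by
      ext q
      simp [hK]
    rw [h1]
    exact (isCompact_sphere _ _).prod isCompact_univ
  obtain ⟨m, hm0, hm⟩ : ∃ m : ℝ, 0 < m ∧ ∀ (t : E3) (z : M), ‖t‖ = 1 → m ≤ nwt ww t z := by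
    by_cases hKe : K.Nonempty
    · obtain ⟨q, hq, hmin⟩ := hKc.exists_isMinOn (f := fun q : E3 × M => nwt ww q.1 q.2) hKe
        (nwt_contx F).continuousOn
      refine ⟨nwt ww q.1 q.2, nwt_posx F q.2 (ne_of_norm hq), fun t z ht => ?_⟩
      have h2 : (t, z) ∈ K := ht
      exact isMinOn_iff.1 hmin (t, z) h2
    · refine ⟨1, one_pos, fun t z ht => ?_⟩
      exact absurd ⟨(t, z), (ht : (t, z) ∈ K)⟩ hKe
  obtain ⟨B, hB0, hB⟩ : ∃ B : ℝ, 0 ≤ B ∧ ∀ (t : E3) (k : Fin 3) (z : M), ‖t‖ = 1 →
      |(τ t).fE k z| ≤ B := by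
    have h1 : ∀ k : Fin 3, ∃ B : ℝ, ∀ q ∈ K, |(τ q.1).fE k q.2| ≤ B := by
      intro k
      obtain ⟨B, hB⟩ := hKc.exists_bound_of_continuousOn (F.cfE k)
      exact ⟨B, fun q hq => hB q hq⟩
    choose B hB using h1
    refine ⟨∑ k, |B k|, Finset.sum_nonneg fun k _ => abs_nonneg _, fun t k z ht => ?_⟩
    refine (hB k (t, z) ht).trans ((le_abs_self _).trans ?_)
    exact Finset.single_le_sum (f := fun k => |B k|) (fun k _ => abs_nonneg _) (Finset.mem_univ k)
  refine ⟨3 * B / m + 1, by positivity, fun r hr => ?_⟩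
  have hr0 : 0 < r := lt_of_lt_of_le (by positivity) hr
  have hbase : ∀ (t : E3) (z : M), ‖t‖ ≤ 1 → 0 < nwt ww t z + (1 - ‖t‖) := by
    intro t z ht
    by_cases h0 : t = 0
    · subst h0
      have := nwt_nonneg (ww := ww) (0 : E3) z
      simp only [norm_zero, sub_zero]
      linarith
    · have := nwt_posx F z h0
      linarith
  have hth : ∀ t, (mkx ww τ r).th t = fun _ _ => 0 := fun t => rfl
  refine ⟨?_, ?_⟩
  · refine
      { smth := fun t => smV_zero
        secth := fun t => sec_zero _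
        cth := fun A => continuousOn_const
        cdth := fun k => ?_
        smw := F.smw
        cmu := ?_
        pmu := fun t z ht => Real.rpow_pos_of_pos (hbase t z ht) _
        cet := fun k => ?_
        harm := F.harm
        big := fun t ht => ?_ }
    · have h1 := S.H.smB _ (smV_zero (M := M) (κ := κT)) (sec_zero S.DT) k
      exact (h1.continuous.comp continuous_snd).continuousOn
    · refine ContinuousOn.rpow_const ?_ fun q hq => Or.inl (hbase q.1 q.2 hq).ne'
      exact ((nwt_contx F).add (continuous_const.sub continuous_fst.norm)).continuousOn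
    · exact (cone_cont (f := fun t z => (τ t).fE k z) (F.cfE k)).neg.continuousOn
    · have hcont : Continuous fun z => nwt ww t z ^ 2 :=
        ((nwt_contx F).comp (Continuous.prodMk_right t)).pow 2
      have hint : Integrable (fun z => nwt ww t z ^ 2) (μHE[4] : Measure M) :=
        hcont.integrable_of_hasCompactSupport (HasCompactSupport.of_compactSpace _)
      have hpos := int_wt_posx F ht
      have hpt : ∀ z, |∑ k, (mkx ww τ r).et t k z * (mkx ww τ r).wt t k z| ≤
          (3 * B / m) * nwt ww t z ^ 2 := by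
        intro z
        have h1 : ∀ k, |(mkx ww τ r).et t k z * (mkx ww τ r).wt t k z| ≤ B * nwt ww t z := by
          intro k
          rw [abs_mul]
          have h2 : |(mkx ww τ r).et t k z| ≤ B := by
            show |-(‖t‖ * (τ (‖t‖⁻¹ • t)).fE k z)| ≤ B
            rw [ht, inv_one, one_smul, one_mul, abs_neg]
            exact hB t k z ht
          have h3 : |(mkx ww τ r).wt t k z| ≤ nwt ww t z := by
            refine Real.abs_le_sqrt ?_
            exact Finset.single_le_sum (f := fun k => (∑ i, t i * ww i k z) ^ 2)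
              (fun k _ => sq_nonneg _) (Finset.mem_univ k)
          exact mul_le_mul h2 h3 (abs_nonneg _) hB0
        calc |∑ k, (mkx ww τ r).et t k z * (mkx ww τ r).wt t k z|
            ≤ ∑ k, |(mkx ww τ r).et t k z * (mkx ww τ r).wt t k z| :=
              Finset.abs_sum_le_sum_abs _ _
          _ ≤ ∑ _k : Fin 3, B * nwt ww t z := Finset.sum_le_sum fun k _ => h1 k
          _ = 3 * B * nwt ww t z := by simp; ring
          _ ≤ (3 * B / m) * nwt ww t z ^ 2 := by
              have h4 := hm t z ht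
              have h5 : 3 * B * nwt ww t z = (3 * B / m) * (m * nwt ww t z) := by field_simp
              rw [h5, sq]
              exact mul_le_mul_of_nonneg_left
                (mul_le_mul_of_nonneg_right h4 (nwt_nonneg t z)) (by positivity)
      have h6 : |∫ z, ∑ k, (mkx ww τ r).et t k z * (mkx ww τ r).wt t k z ∂(μHE[4] : Measure M)| ≤
          (3 * B / m) * ∫ z, nwt ww t z ^ 2 ∂(μHE[4] : Measure M) := by
        rw [← integral_const_mul]
        have h61 : ‖∫ z, (∑ k, (mkx ww τ r).et t k z * (mkx ww τ r).wt t k z : ℝ)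
            ∂(μHE[4] : Measure M)‖ ≤
            ∫ z, (3 * B / m) * nwt ww t z ^ 2 ∂(μHE[4] : Measure M) :=
          norm_integral_le_of_norm_le (hint.const_mul _) (Eventually.of_forall fun z => hpt z)
        exact h61
      have h7 : ∫ z, ∑ k, (mkx ww τ r).wt t k z ^ 2 ∂(μHE[4] : Measure M) =
          ∫ z, nwt ww t z ^ 2 ∂(μHE[4] : Measure M) := by
        refine integral_congr_ae (Eventually.of_forall fun z => ?_)
        exact nwt_sq t z
      rw [h7]
      refine lt_of_le_of_lt h6 ?_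
      refine mul_lt_mul_of_pos_right ?_ hpos
      show 3 * B / m < |r|
      rw [abs_of_pos hr0]
      linarith
  · intro t ht
    refine
      { mu := fun z => ?_
        wt := fun k z => (F.nn t k z ht).symm
        et := fun k z => ?_
        smth := smV_zero
        secth := sec_zero _ }
    · show (nwt ww t z + (1 - ‖t‖)) ^ (-(1 / 2) : ℝ) = _
      rw [F.rr t z ht, ht, sub_self, add_zero]
      rfl
    · show -(‖t‖ * (τ (‖t‖⁻¹ • t)).fE k z) = _
      have h1 : S.H.B ((mkx ww τ r).th t) k.succ z = 0 := B_zero S.H k.succ z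
      rw [h1, ht, inv_one, one_smul, one_mul, add_zero]

end

end Crest.Agent.R235.FamEndA_307
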