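import Crest.Agent.R235.SWJDefs_53

/-!
Row 235 (S0364), PACKAGE SW, leaf SW-REG (helper915): `reg : REG`, elliptic regularity of
`A + c(th) i` with a smooth form `th`.

Proof: the Weitzenboeck identity of `S.OK` says that `A' = A + c(th) i` has the energy of the bundle
data `twD` (connection `∇ + i th`, potential `Q + ∑ (d^+ th)_k ρ_k`).  For its eigensections
`B' A' φ_k = μ_k φ_k`; a weak solution `u` is orthogonal to all `B' w`, so `μ_k ⟨u, φ_k⟩ = 0` and `u` is
a finite combination of smooth sections (Parseval).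

* `smooth_of_weak` : the abstract statement, for `Spec D`.
-/

set_option autoImplicit false
set_option maxSynthPendingDepth 3
set_option linter.unusedSectionVars false

open scoped ContDiff ENNReal NNReal Topology Manifold Bundle RealInnerProductSpace
open MeasureTheory Set Filter Metric Bundle

universe v

namespace Crest.Agent.R235.SWReg_915

open Crest.Agent.R249.Tv57 Crest.Agent.R247.Ms322 Crest.Agent.R247.Dir593
open Crest.Agent.R235.SWDefs_53 Crest.Agent.R235.SWSym_451

noncomputable section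

section gen

variable {n : ℕ} {M : Type*} [MetricSpace M] [ChartedSpace (EuclideanSpace ℝ (Fin n)) M]
  [IsManifold (𝓡 n) ∞ M]
  [RiemannianBundle (fun p : M => TangentSpace (𝓡 n) p)]
  [IsContMDiffRiemannianBundle (𝓡 n) ∞ (EuclideanSpace ℝ (Fin n)) (fun p : M => TangentSpace (𝓡 n) p)]
  [IsRiemannianManifold (𝓡 n) M] [MeasurableSpace M] [BorelSpace M]
  [SecondCountableTopology M] [Nonempty M]
  [CompactSpace M] [IsFiniteMeasureOnCompacts (μHE[n] : Measure M)]
  {κ : Type} [Fintype κ]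

local notation "ipn" => Crest.Agent.R249.Tv57.ip n

/-- `L²` vector functions -/
def L2V (u : κ → M → ℝ) : Prop := ∀ a, MemLp (u a) 2 (μHE[n] : Measure M)

theorem l2V_smooth {u : κ → M → ℝ} (hu : SmV (n := n) u) : L2V (n := n) u :=
  fun a => memLp_smooth (hu a)

theorem integrable_l2 {u w : κ → M → ℝ} (hu : L2V (n := n) u) (hw : L2V (n := n) w) :
    Integrable (fun z => ∑ a, u a z * w a z) (μHE[n] : Measure M) :=
  integrable_finsetSum _ fun a _ => (hu a).integrable_mul (hw a)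

theorem ip_add_l {u v w : κ → M → ℝ} (hu : L2V (n := n) u) (hv : L2V (n := n) v)
    (hw : L2V (n := n) w) : ipn (fun a z => u a z + v a z) w = ipn u w + ipn v w := by
  have h := integral_add (integrable_l2 hu hw) (integrable_l2 hv hw)
  rw [Crest.Agent.R249.Tv57.ip, Crest.Agent.R249.Tv57.ip, Crest.Agent.R249.Tv57.ip, ← h]
  refine integral_congr_ae (Eventually.of_forall fun z => ?_)
  simp only [add_mul, Finset.sum_add_distrib]

theorem ip_sub_l {u v w : κ → M → ℝ} (hu : L2V (n := n) u) (hv : L2V (n := n) v)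
    (hw : L2V (n := n) w) : ipn (fun a z => u a z - v a z) w = ipn u w - ipn v w := by
  have h := integral_sub (integrable_l2 hu hw) (integrable_l2 hv hw)
  rw [Crest.Agent.R249.Tv57.ip, Crest.Agent.R249.Tv57.ip, Crest.Agent.R249.Tv57.ip, ← h]
  refine integral_congr_ae (Eventually.of_forall fun z => ?_)
  simp only [sub_mul, Finset.sum_sub_distrib]

theorem ip_mul_l (c : ℝ) (u w : κ → M → ℝ) : ipn (fun a z => c * u a z) w = c * ipn u w := by
  rw [Crest.Agent.R249.Tv57.ip, Crest.Agent.R249.Tv57.ip, ← integral_const_mul]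
  refine integral_congr_ae (Eventually.of_forall fun z => ?_)
  simp only [Finset.mul_sum, mul_assoc]

theorem ip_sum_l {ι : Type*} (s : Finset ι) (c : ι → ℝ) (f : ι → κ → M → ℝ) {w : κ → M → ℝ}
    (hf : ∀ i ∈ s, L2V (n := n) (f i)) (hw : L2V (n := n) w) :
    ipn (fun a z => ∑ i ∈ s, c i * f i a z) w = ∑ i ∈ s, c i * ipn (f i) w := by
  have h1 : ∀ i ∈ s, Integrable (fun z => c i * ∑ a, f i a z * w a z) (μHE[n] : Measure M) :=
    fun i hi => (integrable_l2 (hf i hi) hw).const_mul _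
  have h2 := integral_finsetSum s h1
  rw [Crest.Agent.R249.Tv57.ip]
  have e1 : ∑ i ∈ s, c i * ipn (f i) w =
      ∑ i ∈ s, ∫ z, c i * ∑ a, f i a z * w a z ∂(μHE[n] : Measure M) := by
    refine Finset.sum_congr rfl fun i _ => ?_
    rw [integral_const_mul]
    rfl
  rw [e1, ← h2]
  refine integral_congr_ae (Eventually.of_forall fun z => ?_)
  simp only [Finset.sum_mul, Finset.mul_sum]
  rw [Finset.sum_comm]
  refine Finset.sum_congr rfl fun i _ => Finset.sum_congr rfl fun a _ => by ring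

/-- **weak solutions are smooth**: `T k = B' A' φ_k`. -/
theorem smooth_of_weak {D : Dat n M κ} (S : Spec D) (T : ℕ → κ → M → ℝ)
    (hT : ∀ k, SmV (n := n) (T k)) (hTs : ∀ k, D.Sec (T k))
    (hE : ∀ k v, SmV (n := n) v → D.Sec v →
      ipn (T k) v = ∫ z, D.ed (S.φ k) v z ∂(μHE[n] : Measure M))
    {u : κ → M → ℝ} (hu : L2V (n := n) u)
    (hus : ∀ᵐ z ∂(μHE[n] : Measure M), ∀ a, ∑ b, D.p a b z * u b z = u a z)
    (h0 : ∀ k, ipn u (T k) = 0) :
    ∃ u' : κ → M → ℝ, SmV (n := n) u' ∧ D.Sec u' ∧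
      ∀ᵐ z ∂(μHE[n] : Measure M), ∀ a, u a z = u' a z := by
  -- `T k = μ_k φ_k`
  have h1 : ∀ k, T k = fun a z => S.μ k * S.φ k a z := by
    intro k
    set g : κ → M → ℝ := fun a z => T k a z - S.μ k * S.φ k a z with hg
    have hgs : SmV (n := n) g := fun a => (hT k a).sub (contMDiff_const.mul (S.smooth k a))
    have hgS : D.Sec g := by
      intro a z
      have e1 := hTs k a z
      have e2 := S.sec k a z
      simp only [hg]
      have e3 : ∀ b, D.p a b z * (T k b z - S.μ k * S.φ k b z) =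
          D.p a b z * T k b z - S.μ k * (D.p a b z * S.φ k b z) := fun b => by ring
      simp only [e3, Finset.sum_sub_distrib, ← Finset.mul_sum, e1, e2]
    have hz : ipn g g = 0 := by
      have e1 : ipn g g = ipn (T k) g - ipn (fun a z => S.μ k * S.φ k a z) g :=
        ip_sub_l (l2V_smooth (hT k))
          (l2V_smooth (fun a => contMDiff_const.mul (S.smooth k a))) (l2V_smooth hgs)
      rw [e1, ip_mul_l, hE k g hgs hgS, S.eig k g hgs]
      rw [Crest.Agent.R249.Tv57.ip, sub_self]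
    funext a z
    have := eq_zero_of_ip hgs hz a z
    simp only [hg] at this
    linarith
  have h2 : ∀ k, S.μ k * ipn u (S.φ k) = 0 := by
    intro k
    have e1 := h0 k
    rw [ip_comm, h1 k, ip_mul_l, ip_comm] at e1
    exact e1
  set u' : κ → M → ℝ := fun a z => ∑ k ∈ S.ker, ipn u (S.φ k) * S.φ k a z with hu'
  have hu's : SmV (n := n) u' := fun a =>
    contMDiff_finsetSum fun k _ => contMDiff_const.mul (S.smooth k a)
  have hu'S : D.Sec u' := by
    intro a z
    simp only [hu', Finset.mul_sum]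
    rw [Finset.sum_comm]
    refine Finset.sum_congr rfl fun k _ => ?_
    have e2 := S.sec k a z
    have e3 : ∀ b, D.p a b z * (ipn u (S.φ k) * S.φ k b z) =
        ipn u (S.φ k) * (D.p a b z * S.φ k b z) := fun b => by ring
    simp only [e3, ← Finset.mul_sum, e2]
  refine ⟨u', hu's, hu'S, ?_⟩
  set f : κ → M → ℝ := fun a z => u a z - u' a z with hf
  have hfL : L2V (n := n) f := fun a => (hu a).sub (memLp_smooth (hu's a))
  have hfS : ∀ᵐ z ∂(μHE[n] : Measure M), ∀ a, ∑ b, D.p a b z * f b z = f a z := by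
    filter_upwards [hus] with z hz a
    have e1 := hz a
    have e2 := hu'S a z
    simp only [hf, mul_sub, Finset.sum_sub_distrib, e1, e2]
  have hcoef : ∀ l, ipn f (S.φ l) = 0 := by
    intro l
    have e1 : ipn f (S.φ l) = ipn u (S.φ l) - ipn u' (S.φ l) :=
      ip_sub_l hu (l2V_smooth hu's) (l2V_smooth (S.smV l))
    have e2 : ipn u' (S.φ l) = ∑ k ∈ S.ker, ipn u (S.φ k) * ipn (S.φ k) (S.φ l) :=
      ip_sum_l S.ker (fun k => ipn u (S.φ k)) S.φ (fun k _ => l2V_smooth (S.smV k))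
        (l2V_smooth (S.smV l))
    have e3 : ∀ k, ipn (S.φ k) (S.φ l) = if k = l then 1 else 0 := fun k => S.ortho k l
    rw [e1, e2]
    simp only [e3, mul_ite, mul_one, mul_zero, Finset.sum_ite_eq']
    split_ifs with h
    · rw [sub_self]
    · rcases mul_eq_zero.1 (h2 l) with h3 | h3
      · exact absurd (S.mem_ker.2 h3) h
      · rw [h3, sub_self]
  have hp := S.pars f hfL hfS
  have hp0 : (fun k => (∫ z, ∑ a, f a z * S.φ k a z ∂(μHE[n] : Measure M)) ^ 2) = fun _ => 0 := by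
    funext k
    have : (∫ z, ∑ a, f a z * S.φ k a z ∂(μHE[n] : Measure M)) = 0 := hcoef k
    rw [this]
    norm_num
  rw [hp0] at hp
  have hint : (∫ z, ∑ a, f a z ^ 2 ∂(μHE[n] : Measure M)) = 0 := hp.unique hasSum_zero
  have hI : Integrable (fun z => ∑ a, f a z ^ 2) (μHE[n] : Measure M) :=
    integrable_finsetSum _ fun a _ => (hfL a).integrable_sq
  have h5 := (integral_eq_zero_iff_of_nonneg
    (fun z => Finset.sum_nonneg fun a _ => sq_nonneg (f a z)) hI).1 hint
  filter_upwards [h5] with z hz a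
  have h6 : ∑ a, f a z ^ 2 = 0 := hz
  have h7 := (Finset.sum_eq_zero_iff_of_nonneg fun a _ => sq_nonneg (f a z)).1 h6 a
    (Finset.mem_univ a)
  have h8 : f a z = 0 := pow_eq_zero_iff two_ne_zero |>.1 h7
  simp only [hf] at h8
  linarith

end gen

section four

variable {M : Type v} [MetricSpace M] [CompactSpace M] [ConnectedSpace M]
  [ChartedSpace (EuclideanSpace ℝ (Fin 4)) M] [IsManifold (𝓡 4) ∞ M]
  [RiemannianBundle (fun p : M => TangentSpace (𝓡 4) p)]
  [IsContMDiffRiemannianBundle (𝓡 4) ∞ (EuclideanSpace ℝ (Fin 4))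
    (fun p : M => TangentSpace (𝓡 4) p)]
  [IsRiemannianManifold (𝓡 4) M] [MeasurableSpace M] [BorelSpace M]
  [SecondCountableTopology M] [Nonempty M] [IsFiniteMeasureOnCompacts (μHE[4] : Measure M)]
  {κ0 κ1 κT : Type} [Fintype κ0] [Fintype κ1] [Fintype κT]
  {S : SWS M κ0 κ1 κT} {cc : κ1 → κ0 → M → EuclideanSpace ℝ (Fin 4)}

local notation "ipp" => Crest.Agent.R249.Tv57.ip 4

theorem smF_vf (hS : S.OK) {th : κT → M → ℝ} (hth : SmV (n := 4) th) : SmF (S.vf th) :=
  SmF.sum _ fun A _ => SmF.smul (hth A) (hS.sms A)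

/-- `p J = J` -/
theorem pJ' (hY : Sym S cc) (a b : κ0) (z : M) :
    ∑ c, S.D0.p a c z * S.J c b z = S.J a b z := hY.pJ a b z

/-- `J p = J` -/
theorem Jp' (hY : Sym S cc) (a b : κ0) (z : M) :
    ∑ c, S.D0.p c b z * S.J a c z = S.J a b z := by
  have h1 : ∀ c, S.D0.p c b z * S.J a c z = -(S.D0.p b c z * S.J c a z) := by
    intro c
    rw [S.D0.symmp c b z, hY.skewJ a c z]
    ring
  simp only [h1, Finset.sum_neg_distrib, pJ' hY b a z]
  rw [hY.skewJ a b z]

/-- `ρ p = ρ` -/
theorem rp' (hY : Sym S cc) (k : Fin 3) (a b : κ0) (z : M) :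
    ∑ c, S.rho k a c z * S.D0.p c b z = S.rho k a b z := by
  have h1 : ∀ c, S.rho k a c z * S.D0.p c b z = S.D0.p b c z * S.rho k c a z := by
    intro c
    rw [S.D0.symmp c b z, hY.symrho k a c z]
    ring
  simp only [h1, hY.prho k b a z]
  exact hY.symrho k b a z

/-- the bundle data of the connection `∇ + i th`. -/
def twD (hS : S.OK) (hY : Sym S cc) {th : κT → M → ℝ} (hth : SmV (n := 4) th)
    (hsec : S.DT.Sec th) : Dat 4 M κ0 where
  X a b z := S.D0.X a b z + S.J a b z • S.vf th z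
  Q a b z := S.D0.Q a b z + ∑ k : Fin 3, S.H.B th k.succ z * S.rho k a b z
  p := S.D0.p
  smX a b := (S.D0.smX a b).add (SmF.smul (hS.smJ a b) (smF_vf hS hth))
  skew a b z := by
    rw [S.D0.skew a b z, hY.skewJ a b z, neg_smul, neg_add]
  smQ a b := (S.D0.smQ a b).add (contMDiff_finsetSum fun k _ =>
    (S.H.smB th hth hsec k.succ).mul (hS.smrho k a b))
  symmQ a b z := by
    rw [S.D0.symmQ a b z]
    congr 1
    exact Finset.sum_congr rfl fun k _ => by rw [hY.symrho k a b z]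
  smp := S.D0.smp
  symmp := S.D0.symmp
  idem := S.D0.idem
  par a b z := by
    have h := S.D0.par a b z
    have e1 : ∀ c, (S.D0.p c b z • (S.D0.X a c z + S.J a c z • S.vf th z) -
        S.D0.p a c z • (S.D0.X c b z + S.J c b z • S.vf th z)) =
        (S.D0.p c b z • S.D0.X a c z - S.D0.p a c z • S.D0.X c b z) +
          ((S.D0.p c b z * S.J a c z) • S.vf th z -
            (S.D0.p a c z * S.J c b z) • S.vf th z) := by
      intro c
      rw [smul_add, smul_add, smul_smul, smul_smul]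
      abel
    simp only [e1, Finset.sum_add_distrib]
    rw [← add_assoc, h, zero_add, Finset.sum_sub_distrib, ← Finset.sum_smul, ← Finset.sum_smul,
      pJ' hY, Jp' hY, sub_self]
  comm a b z := by
    have h := S.D0.comm a b z
    simp only [add_mul, mul_add, Finset.sum_add_distrib, h]
    congr 1
    simp only [Finset.sum_mul, Finset.mul_sum]
    rw [Finset.sum_comm, Finset.sum_comm (s := (Finset.univ : Finset κ0))]
    refine Finset.sum_congr rfl fun k _ => ?_
    have e1 : ∀ c, S.H.B th k.succ z * S.rho k a c z * S.D0.p c b z =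
        S.H.B th k.succ z * (S.rho k a c z * S.D0.p c b z) := fun c => by ring
    have e2 : ∀ c, S.D0.p a c z * (S.H.B th k.succ z * S.rho k c b z) =
        S.H.B th k.succ z * (S.D0.p a c z * S.rho k c b z) := fun c => by ring
    simp only [e1, e2, ← Finset.mul_sum, rp' hY k a b z, hY.prho k a b z]

theorem cv_twD (hS : S.OK) (hY : Sym S cc) {th : κT → M → ℝ} (hth : SmV (n := 4) th)
    (hsec : S.DT.Sec th) (u : κ0 → M → ℝ) (a : κ0) (z : M) :
    (twD hS hY hth hsec).cv u a z = S.nab th u a z := by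
  simp only [Dat.cv, SWS.nab, twD]
  have e : ∀ b, u b z • (S.D0.X a b z + S.J a b z • S.vf th z) =
      u b z • S.D0.X a b z + (S.J a b z * u b z) • S.vf th z := by
    intro b
    rw [smul_add, smul_smul, mul_comm (u b z)]
  simp only [e, Finset.sum_add_distrib, ← Finset.sum_smul, ← add_assoc]
  rfl

/-- the energy identity of `A' = A + c(th) i` -/
theorem en_twD (hS : S.OK) (hY : Sym S cc) {th : κT → M → ℝ} (hth : SmV (n := 4) th)
    (hsec : S.DT.Sec th) (u w : κ0 → M → ℝ) (hu : SmV (n := 4) u) (hus : S.D0.Sec u)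
    (hw : SmV (n := 4) w) (hws : S.D0.Sec w) :
    ∫ z, (twD hS hY hth hsec).ed u w z ∂(μHE[4] : Measure M) =
      ipp (S.P.A u + S.cm th u) (S.P.A w + S.cm th w) := by
  rw [hS.weitz th u w hth hsec hu hus hw hws]
  refine integral_congr_ae (Eventually.of_forall fun z => ?_)
  simp only [Dat.ed, cv_twD]
  rw [add_assoc]
  congr 1
  simp only [twD, add_mul, Finset.sum_add_distrib]
  congr 1
  simp only [Finset.sum_mul, Finset.mul_sum]
  have e1 : ∀ (a b : κ0) (k : Fin 3), S.H.B th k.succ z * S.rho k a b z * u b z * w a z =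
      S.H.B th k.succ z * (S.rho k b a z * u b z * w a z) := by
    intro a b k
    rw [hY.symrho k a b z]
    ring
  simp only [e1]
  have e2 : ∀ a : κ0, ∑ b : κ0, ∑ k : Fin 3,
      S.H.B th k.succ z * (S.rho k b a z * u b z * w a z) =
      ∑ k : Fin 3, ∑ b : κ0, S.H.B th k.succ z * (S.rho k b a z * u b z * w a z) := by
    intro a
    exact Finset.sum_comm
  simp only [e2]
  rw [Finset.sum_comm]
  refine Finset.sum_congr rfl fun k _ => Finset.sum_comm

/-- the transpose of `c(th) i` -/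
def cmT (S : SWS M κ0 κ1 κT) (th : κT → M → ℝ) (w : κ1 → M → ℝ) : κ0 → M → ℝ :=
  fun y z => ∑ A, ∑ x, th A z * w x z * S.cl A x y z

theorem sm_cm (hS : S.OK) {th : κT → M → ℝ} (hth : SmV (n := 4) th) {u : κ0 → M → ℝ}
    (hu : SmV (n := 4) u) : SmV (n := 4) (S.cm th u) := fun x =>
  contMDiff_finsetSum fun A _ => contMDiff_finsetSum fun y _ =>
    ((hth A).mul (hu y)).mul (hS.smcl A x y)

theorem sm_cmT (hS : S.OK) {th : κT → M → ℝ} (hth : SmV (n := 4) th) {w : κ1 → M → ℝ}
    (hw : SmV (n := 4) w) : SmV (n := 4) (cmT S th w) := fun y =>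
  contMDiff_finsetSum fun A _ => contMDiff_finsetSum fun x _ =>
    ((hth A).mul (hw x)).mul (hS.smcl A x y)

theorem sec_cm (hS : S.OK) (th : κT → M → ℝ) (u : κ0 → M → ℝ) : S.D1.Sec (S.cm th u) := by
  intro x z
  simp only [SWS.cm, Finset.mul_sum]
  rw [Finset.sum_comm]
  refine Finset.sum_congr rfl fun A _ => ?_
  rw [Finset.sum_comm]
  refine Finset.sum_congr rfl fun y _ => ?_
  have e : ∀ x', S.D1.p x x' z * (th A z * u y z * S.cl A x' y z) =
      th A z * u y z * (S.D1.p x x' z * S.cl A x' y z) := fun x' => by ring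
  simp only [e, ← Finset.mul_sum, hS.clsec A x y z]

theorem cl_p (hY : Sym S cc) (A : κT) (x : κ1) (y : κ0) (z : M) :
    ∑ y', S.D0.p y y' z * S.cl A x y' z = S.cl A x y z := by
  simp only [hY.cl_eq, Finset.mul_sum]
  rw [Finset.sum_comm]
  refine Finset.sum_congr rfl fun b _ => ?_
  have e : ∀ y', S.D0.p y y' z * (⟪cc x b z, S.s A z⟫ * S.J b y' z) =
      ⟪cc x b z, S.s A z⟫ * (S.D0.p y' y z * S.J b y' z) := by
    intro y'
    rw [S.D0.symmp y y' z]
    ring
  simp only [e, ← Finset.mul_sum, Jp' hY b y z]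

theorem sec_cmT (hY : Sym S cc) (th : κT → M → ℝ) (w : κ1 → M → ℝ) :
    S.D0.Sec (cmT S th w) := by
  intro y z
  simp only [cmT, Finset.mul_sum]
  rw [Finset.sum_comm]
  refine Finset.sum_congr rfl fun A _ => ?_
  rw [Finset.sum_comm]
  refine Finset.sum_congr rfl fun x _ => ?_
  have e : ∀ y', S.D0.p y y' z * (th A z * w x z * S.cl A x y' z) =
      th A z * w x z * (S.D0.p y y' z * S.cl A x y' z) := fun x' => by ring
  simp only [e, ← Finset.mul_sum, cl_p hY A x y z]

/-- adjointness, pointwise -/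
theorem cm_adj (S : SWS M κ0 κ1 κT) (th : κT → M → ℝ) (u : κ0 → M → ℝ) (w : κ1 → M → ℝ) (z : M) :
    ∑ x, S.cm th u x z * w x z = ∑ y, u y z * cmT S th w y z := by
  simp only [SWS.cm, cmT, Finset.sum_mul, Finset.mul_sum]
  rw [Finset.sum_comm]
  conv_rhs => rw [Finset.sum_comm]
  refine Finset.sum_congr rfl fun A _ => ?_
  rw [Finset.sum_comm]
  refine Finset.sum_congr rfl fun y _ => Finset.sum_congr rfl fun x _ => ?_
  ring

theorem ip_cm (S : SWS M κ0 κ1 κT) (th : κT → M → ℝ) (u : κ0 → M → ℝ) (w : κ1 → M → ℝ) :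
    ipp (S.cm th u) w = ipp u (cmT S th w) :=
  integral_congr_ae (Eventually.of_forall fun z => cm_adj S th u w z)

theorem reg_aux (hS : S.OK) (hY : Sym S cc) {th : κT → M → ℝ} (hth : SmV (n := 4) th)
    (hsec : S.DT.Sec th) : S.Reg th := by
  intro u hu hwk
  obtain ⟨k, hk, hRic⟩ := Crest.Agent.R249.Grn324.exists_ricciLowerBound 4 M
  obtain ⟨z0⟩ := ‹Nonempty M›
  have hz0 : ∃ a, S.D0.p a a z0 ≠ 0 := by
    by_contra hcon
    push Not at hcon
    have h := hY.rk0 z0
    simp only [hcon, Finset.sum_const_zero] at h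
    norm_num at h
  obtain ⟨a0, ha0⟩ := hz0
  obtain ⟨Sp⟩ := exists_spec (by norm_num) hk hRic (twD hS hY hth hsec) (a := a0) (z := z0) ha0
  -- the class of `u`
  obtain ⟨w0, hw0⟩ := hu
  have huL : L2V (n := 4) u := fun a => (memLp_congr_ae (hw0 a)).1 (Lp.memLp _)
  have hus : ∀ᵐ z ∂(μHE[4] : Measure M), ∀ a, ∑ b, S.D0.p a b z * u b z = u a z := by
    have h0 : S.D0.toAD.P (S.D0.toAD.i1 w0) = S.D0.toAD.i1 w0 := (S.D0.toAD.jj w0).2
    have h1 := S.D0.toAD.coe_P (S.D0.toAD.i1 w0)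
    rw [h0] at h1
    have h2 : ∀ᵐ z ∂(μHE[4] : Measure M), ∀ a, (S.D0.toAD.i1 w0 a : M → ℝ) z = u a z := by
      rw [ae_all_iff]
      exact hw0
    filter_upwards [h1, h2] with z e1 e2 a
    have h3 := e1 a
    simp only [e2] at h3
    exact h3.symm
  -- `B' w`
  set Bp : (κ1 → M → ℝ) → κ0 → M → ℝ := fun w y z => S.P.B w y z + cmT S th w y z with hBp
  set Ap : (κ0 → M → ℝ) → κ1 → M → ℝ := fun v x z => S.P.A v x z + S.cm th v x z with hAp
  have hApS : ∀ v, SmV (n := 4) v → S.D0.Sec v → SmV (n := 4) (Ap v) ∧ S.D1.Sec (Ap v) := by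
    intro v hv hvs
    refine ⟨fun x => (S.P.smA v hv hvs x).add (sm_cm hS hth hv x), fun x z => ?_⟩
    have e1 := S.P.secA v hv hvs x z
    have e2 := sec_cm hS th v x z
    simp only [hAp, mul_add, Finset.sum_add_distrib, e1, e2]
  have hBpS : ∀ w, SmV (n := 4) w → S.D1.Sec w → SmV (n := 4) (Bp w) ∧ S.D0.Sec (Bp w) := by
    intro w hw hws
    refine ⟨fun x => (S.P.smB w hw hws x).add (sm_cmT hS hth hw x), fun x z => ?_⟩
    have e1 := S.P.secB w hw hws x z
    have e2 := sec_cmT hY th w x z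
    simp only [hBp, mul_add, Finset.sum_add_distrib, e1, e2]
  -- adjointness
  have hadj : ∀ v w, SmV (n := 4) v → S.D0.Sec v → SmV (n := 4) w → S.D1.Sec w →
      ipp (Ap v) w = ipp v (Bp w) := by
    intro v w hv hvs hw hws
    have e1 : ipp (Ap v) w = ipp (S.P.A v) w + ipp (S.cm th v) w :=
      ip_add_l (l2V_smooth (S.P.smA v hv hvs)) (l2V_smooth (sm_cm hS hth hv)) (l2V_smooth hw)
    have e2 : ipp (Bp w) v = ipp (S.P.B w) v + ipp (cmT S th w) v :=
      ip_add_l (l2V_smooth (S.P.smB w hw hws)) (l2V_smooth (sm_cmT hS hth hw)) (l2V_smooth hv)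
    rw [e1, ip_comm v (Bp w), e2, S.P.adj v w hv hvs hw hws, ip_cm, ip_comm v, ip_comm v]
  -- the weak equation
  have hweak : ∀ w, SmV (n := 4) w → S.D1.Sec w → ipp u (Bp w) = 0 := by
    intro w hw hws
    obtain ⟨-, -, h3⟩ := hwk
    have e1 := h3 w hw hws
    have e2 : ipp (Bp w) u = ipp (S.P.B w) u + ipp (cmT S th w) u :=
      ip_add_l (l2V_smooth (S.P.smB w hw hws)) (l2V_smooth (sm_cmT hS hth hw)) huL
    have e3 : ipp (fun x z => - S.cm th u x z) w = - ipp (S.cm th u) w := by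
      have := ip_mul_l (n := 4) (-1) (S.cm th u) w
      simp only [neg_mul, one_mul] at this
      exact this
    rw [e3, ip_cm] at e1
    rw [ip_comm u (Bp w), e2, ip_comm (S.P.B w) u, ip_comm (cmT S th w) u, ← e1]
    ring
  refine smooth_of_weak Sp (fun k => Bp (Ap (Sp.φ k))) (fun k => ?_) (fun k => ?_) ?_ huL hus
    (fun k => ?_)
  · obtain ⟨h1, h2⟩ := hApS _ (Sp.smV k) (Sp.sec k)
    exact (hBpS _ h1 h2).1
  · obtain ⟨h1, h2⟩ := hApS _ (Sp.smV k) (Sp.sec k)
    exact (hBpS _ h1 h2).2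
  · intro k v hv hvs
    obtain ⟨h1, h2⟩ := hApS _ (Sp.smV k) (Sp.sec k)
    have e1 := hadj v (Ap (Sp.φ k)) hv hvs h1 h2
    have e2 := en_twD hS hY hth hsec (Sp.φ k) v (Sp.smV k) (Sp.sec k) hv hvs
    rw [e2, ip_comm, ← e1, ip_comm]
    rfl
  · obtain ⟨h1, h2⟩ := hApS _ (Sp.smV k) (Sp.sec k)
    exact hweak _ h1 h2

end four

/-- **REG** -/
theorem reg : REG.{v} := by
  intro M _ _ _ _ _ _ _ _ _ _ _ _ _ κ0 κ1 κT _ _ _ S cc hS hY th hth hsec
  exact reg_aux hS hY hth hsec

end

end Crest.Agent.R235.SWReg_915
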