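import Crest.Agent.R235.FamEndA_307
import Crest.Agent.R235.SWReg_915
import Crest.Agent.R235.Dens_433

/-!
Row 235 (S0364), PACKAGE FAM (leader helper307): from a solution with the twist `h` in the unit cube
to a solution with bounded harmonic part: `a ↦ a + j.fm h`.
-/

set_option autoImplicit false
set_option maxSynthPendingDepth 3
set_option linter.unusedSectionVars false

open scoped ContDiff ENNReal NNReal Topology Manifold Bundle RealInnerProductSpace
open MeasureTheory Set Filter Metric Bundle Module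

universe v

namespace Crest.Agent.R235.FamEndB_307

open Crest.Agent.R249.Tv57 Crest.Agent.R247.Ms322 Crest.Agent.R247.Dir593
open Crest.Agent.R235.SWDefs_53 Crest.Agent.R235.SWEnd_53 Crest.Agent.R235.SWGeo_659
open Crest.Agent.R235.Dens_433 (secW coe_secW)

noncomputable section

local notation "ipp" => Crest.Agent.R249.Tv57.ip 4

variable {M : Type v} [MetricSpace M] [CompactSpace M] [ConnectedSpace M]
  [ChartedSpace (EuclideanSpace ℝ (Fin 4)) M] [IsManifold (𝓡 4) ∞ M]
  [RiemannianBundle (fun p : M => TangentSpace (𝓡 4) p)]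
  [IsContMDiffRiemannianBundle (𝓡 4) ∞ (EuclideanSpace ℝ (Fin 4))
    (fun p : M => TangentSpace (𝓡 4) p)]
  [IsRiemannianManifold (𝓡 4) M] [MeasurableSpace M] [BorelSpace M]
  [SecondCountableTopology M] [Nonempty M] [IsFiniteMeasureOnCompacts (μHE[4] : Measure M)]
  {κ0 κ1 κT : Type} [Fintype κ0] [Fintype κ1] [Fintype κT]

/-- Cauchy-Schwarz. -/
theorem ip_le {κ : Type} [Fintype κ] {f w : κ → M → ℝ}
    (hf : ∀ a, MemLp (f a) 2 (μHE[4] : Measure M)) (hw : ∀ a, MemLp (w a) 2 (μHE[4] : Measure M)) :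
    |ipp f w| ≤ √(ipp f f) * √(ipp w w) := by
  have hff : Integrable (fun z => ∑ a, f a z * f a z) (μHE[4] : Measure M) :=
    integrable_finsetSum _ fun a _ => (hf a).integrable_mul (hf a)
  have hww : Integrable (fun z => ∑ a, w a z * w a z) (μHE[4] : Measure M) :=
    integrable_finsetSum _ fun a _ => (hw a).integrable_mul (hw a)
  have hfw : Integrable (fun z => ∑ a, f a z * w a z) (μHE[4] : Measure M) :=
    integrable_finsetSum _ fun a _ => (hf a).integrable_mul (hw a)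
  have hA : 0 ≤ ipp f f := integral_nonneg fun z => Finset.sum_nonneg fun a _ => mul_self_nonneg _
  have key : ∀ x : ℝ, 0 ≤ ipp f f * (x * x) + (2 * ipp f w) * x + ipp w w := by
    intro x
    have h1 : ipp f f * (x * x) + (2 * ipp f w) * x + ipp w w =
        ∫ z, ∑ a, (x * f a z + w a z) ^ 2 ∂(μHE[4] : Measure M) := by
      have h2 : (fun z => ∑ a, (x * f a z + w a z) ^ 2) = fun z =>
          (x * x) * (∑ a, f a z * f a z) + (2 * x) * (∑ a, f a z * w a z) +
            ∑ a, w a z * w a z := by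
        funext z
        rw [Finset.mul_sum, Finset.mul_sum, ← Finset.sum_add_distrib, ← Finset.sum_add_distrib]
        exact Finset.sum_congr rfl fun a _ => by ring
      have e1 := integral_add ((hff.const_mul (x * x)).add (hfw.const_mul (2 * x))) hww
      have e2 := integral_add (hff.const_mul (x * x)) (hfw.const_mul (2 * x))
      simp only [Pi.add_apply] at e1 e2
      rw [h2, e1, e2, integral_const_mul, integral_const_mul]
      show _ = (x * x) * ipp f f + (2 * x) * ipp f w + ipp w w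
      ring
    rw [h1]
    exact integral_nonneg fun z => Finset.sum_nonneg fun a _ => sq_nonneg _
  have hdis := discrim_le_zero key
  rw [discrim] at hdis
  have h3 : (ipp f w) ^ 2 ≤ ipp f f * ipp w w := by nlinarith
  rw [← Real.sqrt_mul hA]
  exact Real.abs_le_sqrt h3

theorem inW_memLp {κ : Type} [Fintype κ] {D : Dat 4 M κ} {u : κ → M → ℝ} (h : InW D u) (a : κ) :
    MemLp (u a) 2 (μHE[4] : Measure M) := by
  obtain ⟨w, hw⟩ := h
  exact (memLp_congr_ae (hw a)).1 (Lp.memLp _)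

theorem smV_memLp {κ : Type} [Fintype κ] {u : κ → M → ℝ} (h : SmV (n := 4) u) (a : κ) :
    MemLp (u a) 2 (μHE[4] : Measure M) :=
  (h a).continuous.memLp_of_hasCompactSupport (HasCompactSupport.of_compactSpace _)

theorem inW_add_sm {κ : Type} [Fintype κ] {D : Dat 4 M κ} {u v : κ → M → ℝ} (hu : InW D u)
    (hv : SmV (n := 4) v) (hs : D.Sec v) : InW D (u + v) := by
  obtain ⟨w, hw⟩ := hu
  refine ⟨w + secW D hv hs, fun a => ?_⟩
  have h1 := coe_secW D hv hs
  have h2 : D.toAD.i1 (w + secW D hv hs) a = D.toAD.i1 w a + D.toAD.i1 (secW D hv hs) a := by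
    rw [map_add]
    rfl
  rw [h2]
  filter_upwards [hw a, h1, Lp.coeFn_add (D.toAD.i1 w a) (D.toAD.i1 (secW D hv hs) a)]
    with z e1 e2 e3
  rw [e3, Pi.add_apply, e1, e2 a]
  rfl

variable {S : SWS M κ0 κ1 κT} {b : ℕ} {j : JD M κT b}

theorem fm_eq (h : Fin b → ℝ) : j.fm h = ∑ i, (2 * Real.pi * h i) • j.al i := by
  funext A z
  simp only [JD.fm, Finset.sum_apply, Pi.smul_apply, smul_eq_mul, Finset.mul_sum, mul_assoc]

theorem fm_all (hj : j.OK S) (h : Fin b → ℝ) : SmV (n := 4) (j.fm h) ∧ S.DT.Sec (j.fm h) ∧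
    (∀ k z, S.H.B (j.fm h) k z = 0) ∧ ∀ w : κT → M → ℝ, SmV (n := 4) w →
      ipp (j.fm h) w = ∑ i, (2 * Real.pi * h i) * ipp (j.al i) w := by
  obtain ⟨h1, h2, h3, h4⟩ := sum_all S.H.swap Finset.univ (fun i => 2 * Real.pi * h i) j.al
    hj.sm hj.sec
  rw [← fm_eq] at h1 h2 h3 h4
  refine ⟨h1, h2, fun k z => ?_, h4⟩
  have h5 := h3 k z
  have h6 : ∀ i, S.H.swap.A (j.al i) k z = 0 := fun i => hj.harm i k z
  simp only [h6, mul_zero, Finset.sum_const_zero] at h5
  exact h5

/-- the bound of the harmonic part. -/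
def Hbd (j : JD M κT b) : ℝ := 2 * Real.pi * ∑ i, √(ipp (j.al i) (j.al i))

theorem fm_bd (hj : j.OK S) {h : Fin b → ℝ} (hh : ∀ i, 0 ≤ h i ∧ h i ≤ 1) {w : κT → M → ℝ}
    (hw : SmV (n := 4) w) : |ipp (j.fm h) w| ≤ Hbd j * √(ipp w w) := by
  rw [(fm_all hj h).2.2.2 w hw, Hbd, mul_assoc, Finset.sum_mul, Finset.mul_sum]
  refine (Finset.abs_sum_le_sum_abs _ _).trans (Finset.sum_le_sum fun i _ => ?_)
  have h1 := ip_le (f := j.al i) (w := w) (smV_memLp (hj.sm i)) (smV_memLp hw)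
  rw [abs_mul, abs_mul, abs_of_pos (by positivity : (0 : ℝ) < 2 * Real.pi),
    abs_of_nonneg (hh i).1]
  have h2 : 2 * Real.pi * h i ≤ 2 * Real.pi := by
    have := mul_le_mul_of_nonneg_left (hh i).2 (by positivity : (0 : ℝ) ≤ 2 * Real.pi)
    linarith
  exact mul_le_mul h2 h1 (abs_nonneg _) (by positivity)

/-- **the twist becomes a harmonic part.** -/
theorem solB_all (hj : j.OK S) {d : SWD M κT} {h : Fin b → ℝ} (hh : ∀ i, 0 ≤ h i ∧ h i ≤ 1)
    {t : E3} {a : κT → M → ℝ} {u : κ0 → M → ℝ} (hs : Sol S (d.tw j h) t a u) :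
    InW S.DT (a + j.fm h) ∧ InW S.D0 u ∧
    (∃ C : ℝ, ∀ᵐ z ∂(μHE[4] : Measure M), ∑ y, u y z ^ 2 ≤ C) ∧
    WkA S.P u (fun x z => - S.cm ((a + j.fm h) + d.th t) u x z) ∧
    WkA S.H.swap (a + j.fm h) (rhs S d t u) ∧
    (∀ w : κT → M → ℝ, SmV (n := 4) w → S.DT.Sec w → (∀ k z, S.H.B w k z = 0) →
      |ipp (a + j.fm h) w| ≤ Hbd j * √(ipp w w)) := by
  obtain ⟨f1, f2, f3, f4⟩ := fm_all hj h
  have hadd : ∀ w : κT → M → ℝ, SmV (n := 4) w →
      ipp (a + j.fm h) w = ipp a w + ipp (j.fm h) w := by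
    intro w hw
    exact Crest.Agent.R235.SWReg_915.ip_add_l (n := 4) (u := a) (v := j.fm h)
      (fun A => inW_memLp hs.wa A) (fun A => smV_memLp f1 A) (fun A => smV_memLp hw A)
  refine ⟨inW_add_sm hs.wa f1 f2, hs.wu, hs.bd, ?_, ?_, ?_⟩
  · have h1 : (a + j.fm h) + d.th t = a + (d.tw j h).th t := by
      show (a + j.fm h) + d.th t = a + (d.th t + j.fm h)
      abel
    rw [h1]
    exact hs.dir
  · obtain ⟨g1, g2, g3⟩ := hs.cur
    refine ⟨g1, g2, fun w hw hsw => ?_⟩
    have h1 : ipp (rhs S d t u) w = ipp a (S.H.swap.B w) := g3 w hw hsw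
    have h2 := hadd (S.H.swap.B w) (S.H.smA w hw hsw)
    rw [h1, h2]
    have h3 : ipp (j.fm h) (S.H.swap.B w) = 0 := by
      have h4 := S.H.adj w (j.fm h) hw hsw f1 f2
      rw [ip_comm]
      refine h4.trans ?_
      unfold Crest.Agent.R249.Tv57.ip
      simp only [f3, mul_zero, Finset.sum_const_zero, integral_zero]
    rw [h3, add_zero]
  · intro w hw hsw hB
    rw [hadd w hw, hs.har w hw hsw hB, zero_add]
    exact fm_bd hj hh hw

end

end Crest.Agent.R235.FamEndB_307
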