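import Mathlib

/-!
Row 235 (S0364), PACKAGE FAM (leader helper307): linear algebra.  `b⁺ = 3` from the splitting and
the negativity of the orthogonal complement of a positive triple.
-/

set_option autoImplicit false

namespace Crest.Agent.R235.FamLin_307

open Module

theorem bp_eq {V : Type*} [AddCommGroup V] [Module ℝ V] [FiniteDimensional ℝ V]
    (B : V →ₗ[ℝ] V →ₗ[ℝ] ℝ) (P N : Submodule ℝ V) (hs : P ⊔ N = ⊤)
    (hP : ∀ x ∈ P, x ≠ 0 → 0 < B x x) (hN : ∀ x ∈ N, x ≠ 0 → B x x < 0) (b : Fin 3 → V)
    (hb : ∀ a : Fin 3 → ℝ, a ≠ 0 → 0 < B (∑ i, a i • b i) (∑ i, a i • b i))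
    (hneg : ∀ c : V, (∀ i, B c (b i) = 0) → c ≠ 0 → B c c < 0) : finrank ℝ P = 3 := by
  apply le_antisymm
  · -- at most three
    by_contra hcon
    push Not at hcon
    let ψ : P →ₗ[ℝ] (Fin 3 → ℝ) :=
      { toFun := fun x i => B x (b i)
        map_add' := fun x y => by
          funext i
          simp
        map_smul' := fun r x => by
          funext i
          simp }
    have h1 : ¬ Function.Injective ψ := by
      intro hinj
      have h2 := LinearMap.finrank_le_finrank_of_injective hinj
      simp only [finrank_pi, Fintype.card_fin] at h2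
      omega
    rw [← LinearMap.ker_eq_bot, Submodule.eq_bot_iff] at h1
    push Not at h1
    obtain ⟨x, hx, hx0⟩ := h1
    have h3 : ∀ i, B (x : V) (b i) = 0 := fun i => by
      have := LinearMap.mem_ker.1 hx
      exact congrFun this i
    have h4 : (x : V) ≠ 0 := fun h => hx0 (Subtype.ext h)
    exact absurd (hneg x h3 h4) (not_lt.2 (hP x x.2 h4).le)
  · -- at least three
    let φ : (Fin 3 → ℝ) →ₗ[ℝ] V :=
      { toFun := fun a => ∑ i, a i • b i
        map_add' := fun a a' => by
          simp only [Pi.add_apply, add_smul, Finset.sum_add_distrib]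
        map_smul' := fun r a => by
          simp only [Pi.smul_apply, smul_eq_mul, mul_smul, RingHom.id_apply, Finset.smul_sum] }
    have hφ : ∀ a, φ a = ∑ i, a i • b i := fun _ => rfl
    have hinj : Function.Injective φ := by
      refine (injective_iff_map_eq_zero φ).2 fun a ha => ?_
      by_contra h
      have h1 := hb a h
      rw [← hφ, ha, map_zero] at h1
      exact lt_irrefl _ h1
    have hdis : Disjoint (LinearMap.range φ) N := by
      rw [Submodule.disjoint_def]
      rintro x ⟨a, rfl⟩ hx
      by_contra h
      have h1 : a ≠ 0 := by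
        rintro rfl
        exact h (map_zero φ)
      exact absurd (hN _ hx h) (not_lt.2 (by rw [hφ]; exact (hb a h1).le))
    have h1 := Submodule.finrank_add_finrank_le_of_disjoint hdis
    have h2 : finrank ℝ (LinearMap.range φ) = 3 := by
      rw [LinearMap.finrank_range_of_inj hinj]
      simp
    have h3 : finrank ℝ V ≤ finrank ℝ P + finrank ℝ N := by
      have h4 := Submodule.finrank_add_le_finrank_add_finrank P N
      rw [hs, finrank_top] at h4
      exact h4
    omega

end Crest.Agent.R235.FamLin_307
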