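import Crest.Agent.R235.SWModel_53

/-!
Row 235 (S0364), PACKAGE SW (helper53): `geox_of : SWX → TAUX → TAUF → GEOX`.
-/

set_option autoImplicit false
set_option maxSynthPendingDepth 3
set_option linter.unusedSectionVars false

open scoped ContDiff ENNReal NNReal Topology Manifold Bundle RealInnerProductSpace
open MeasureTheory Set Filter Metric Bundle

universe v

namespace Crest.Agent.R235.SWEnd_53

open Crest.Agent.R235.SWDefs_53
open Crest.Agent.R249.Tv57 Crest.Agent.R247.Ms322 Crest.Agent.R247.Dir593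

noncomputable section

local notation "ipp" => Crest.Agent.R249.Tv57.ip 4

section

variable {M : Type v} [MetricSpace M] [CompactSpace M] [ConnectedSpace M]
  [ChartedSpace (EuclideanSpace ℝ (Fin 4)) M] [IsManifold (𝓡 4) ∞ M]
  [RiemannianBundle (fun p : M => TangentSpace (𝓡 4) p)]
  [IsContMDiffRiemannianBundle (𝓡 4) ∞ (EuclideanSpace ℝ (Fin 4))
    (fun p : M => TangentSpace (𝓡 4) p)]
  [IsRiemannianManifold (𝓡 4) M] [MeasurableSpace M] [BorelSpace M]
  [SecondCountableTopology M] [Nonempty M] [IsFiniteMeasureOnCompacts (μHE[4] : Measure M)]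
  {κ κ' : Type} [Fintype κ] [Fintype κ']

theorem smV_zero : SmV (n := 4) (fun (_ : κ) (_ : M) => (0 : ℝ)) := fun _ => contMDiff_const

theorem sec_zero (D : Dat 4 M κ) : D.Sec (fun (_ : κ) (_ : M) => (0 : ℝ)) := by
  intro a z
  simp

/-- `B 0 = 0`. -/
theorem B_zero {D0 : Dat 4 M κ} {D1 : Dat 4 M κ'} (P : OpPair D0 D1) (y : κ) (z : M) :
    P.B (fun _ _ => 0) y z = 0 := by
  have hs := P.smB _ (smV_zero (M := M) (κ := κ')) (sec_zero D1)
  have hS := P.secB _ (smV_zero (M := M) (κ := κ')) (sec_zero D1)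
  have h := P.adj _ _ hs hS (smV_zero (M := M) (κ := κ')) (sec_zero D1)
  have h0 : ipp (P.A (P.B fun _ _ => 0)) (fun (_ : κ') (_ : M) => (0 : ℝ)) = 0 := by
    unfold Crest.Agent.R249.Tv57.ip
    simp
  rw [h0] at h
  exact eq_zero_of_ip hs h.symm y z

end

set_option maxHeartbeats 2000000 in
theorem geox_of (hx : SWX.{v}) (hX : TAUX.{v}) (hF : TAUF.{v}) : GEOX.{v} := by
  intro M _ _ _ _ _ _ _ _ _ _ _ _ _ κ0 κ1 κT _ _ _ S ww τ C e2 F he d0 d1 hk0 hk1 hd hk
  classical
  have hopen := isOpenPosMeasure 4 M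
  -- the norm of `w_t`
  set N : E3 → M → ℝ := fun t z => √(∑ k, (∑ i, t i * ww i k z) ^ 2) with hN
  have hNc : Continuous fun q : E3 × M => N q.1 q.2 := by
    refine Real.continuous_sqrt.comp (continuous_finsetSum _ fun k _ => ?_)
    refine (continuous_finsetSum _ fun i _ => ?_).pow 2
    refine Continuous.mul ?_ ((F.smw i k).continuous.comp continuous_snd)
    exact (EuclideanSpace.proj (𝕜 := ℝ) i).continuous.comp continuous_fst
  have hNpos : ∀ (t : E3) (z : M), t ≠ 0 → 0 < N t z := by
    intro t z ht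
    obtain ⟨k, hk⟩ := F.ndeg t z ht
    refine Real.sqrt_pos.2 ?_
    refine lt_of_lt_of_le (by positivity) (Finset.single_le_sum (f := fun k =>
      (∑ i, t i * ww i k z) ^ 2) (fun k _ => sq_nonneg _) (Finset.mem_univ k))
  have hN0 : ∀ (t : E3) (z : M), 0 ≤ N t z := fun t z => Real.sqrt_nonneg _
  -- the sphere times `M`
  set K : Set (E3 × M) := {q | ‖q.1‖ = 1} with hK
  have hKc : IsCompact K := by
    have h1 : K = Metric.sphere (0 : E3) 1 ×ˢ (univ : Set M) := by
      ext q
      simp [hK]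
    rw [h1]
    exact (isCompact_sphere _ _).prod isCompact_univ
  have hne : ∀ t : E3, ‖t‖ = 1 → t ≠ 0 := by
    rintro t ht rfl
    simp at ht
  -- lower bound of `N`
  obtain ⟨m, hm0, hm⟩ : ∃ m : ℝ, 0 < m ∧ ∀ (t : E3) (z : M), ‖t‖ = 1 → m ≤ N t z := by
    by_cases hKe : K.Nonempty
    · obtain ⟨q, hq, hmin⟩ := hKc.exists_isMinOn hKe hNc.continuousOn
      exact ⟨N q.1 q.2, hNpos _ _ (hne _ hq), fun t z ht => hmin (show (t, z) ∈ K from ht)⟩
    · refine ⟨1, one_pos, fun t z ht => ?_⟩
      exact absurd ⟨(t, z), (ht : (t, z) ∈ K)⟩ hKe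
  -- upper bound of `fE`
  obtain ⟨B, hB0, hB⟩ : ∃ B : ℝ, 0 ≤ B ∧ ∀ (t : E3) (k : Fin 3) (z : M), ‖t‖ = 1 →
      |(τ t).fE k z| ≤ B := by
    have h1 : ∀ k : Fin 3, ∃ B : ℝ, ∀ q ∈ K, |(τ q.1).fE k q.2| ≤ B := by
      intro k
      obtain ⟨B, hB⟩ := hKc.exists_bound_of_continuousOn (F.cfE k)
      exact ⟨B, fun q hq => hB q hq⟩
    choose B hB using h1
    refine ⟨∑ k, |B k|, Finset.sum_nonneg fun k _ => abs_nonneg _, fun t k z ht => ?_⟩
    refine (hB k (t, z) ht).trans ((le_abs_self _).trans ?_)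
    exact Finset.single_le_sum (f := fun k => |B k|) (fun k _ => abs_nonneg _) (Finset.mem_univ k)
  -- the constant `r`
  set r : ℝ := C ^ 2 / m ^ 3 + 3 * B / m + 1 with hr
  have hr0 : 0 < r := by positivity
  -- the data
  set d : SWD M κT :=
    { th := fun _ _ _ => 0
      mu := fun t z => (N t z + (1 - ‖t‖)) ^ (-(1 / 2) : ℝ)
      ww := ww
      et := fun t k z => - (‖t‖ * (τ (‖t‖⁻¹ • t)).fE k z)
      r := r } with hdd
  have hbase : ∀ (t : E3) (z : M), ‖t‖ ≤ 1 → 0 < N t z + (1 - ‖t‖) := by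
    intro t z ht
    by_cases h0 : t = 0
    · subst h0
      have := hN0 (0 : E3) z
      simp only [norm_zero, sub_zero]
      linarith
    · have := hNpos t z h0
      linarith
  have hsum : ∀ (t : E3) (z : M), ∑ k, d.wt t k z ^ 2 = N t z ^ 2 := by
    intro t z
    rw [hN, Real.sq_sqrt (Finset.sum_nonneg fun k _ => sq_nonneg _)]
    rfl
  have hadm : d.Adm S := by
    refine
      { smth := fun t => smV_zero
        secth := fun t => sec_zero _
        cth := fun A => continuousOn_const
        cdth := fun k => ?_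
        smw := F.smw
        cmu := ?_
        pmu := fun t z ht => Real.rpow_pos_of_pos (hbase t z ht) _
        cet := fun k => ?_
        harm := F.harm
        big := fun t ht => ?_ }
    · have h1 := S.H.smB _ (smV_zero (M := M) (κ := κT)) (sec_zero S.DT) k
      exact (h1.continuous.comp continuous_snd).continuousOn
    · refine ContinuousOn.rpow_const ?_ fun q hq => Or.inl (hbase q.1 q.2 hq).ne'
      exact (hNc.add (continuous_const.sub continuous_fst.norm)).continuousOn
    · -- continuity of `et`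
      intro q hq
      by_cases h0 : q.1 = 0
      · -- at zero
        have hval : d.et q.1 k q.2 = 0 := by
          simp [hdd, h0]
        refine Metric.continuousWithinAt_iff.2 ?_
        intro ε hε
        refine ⟨ε / (B + 1), by positivity, ?_⟩
        intro q' hq' hdist
        rw [hval, Real.dist_eq, sub_zero]
        by_cases h0' : q'.1 = 0
        · have : d.et q'.1 k q'.2 = 0 := by simp [hdd, h0']
          rw [this, abs_zero]
          exact hε
        · have hn : ‖q'.1‖ ≠ 0 := norm_ne_zero_iff.2 h0'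
          have h1 : ‖(‖q'.1‖⁻¹ • q'.1 : E3)‖ = 1 := by
            rw [norm_smul, norm_inv, norm_norm, inv_mul_cancel₀ hn]
          have h2 := hB (‖q'.1‖⁻¹ • q'.1) k q'.2 h1
          have h3 : |d.et q'.1 k q'.2| ≤ ‖q'.1‖ * B := by
            show |-(‖q'.1‖ * (τ (‖q'.1‖⁻¹ • q'.1)).fE k q'.2)| ≤ _
            rw [abs_neg, abs_mul, abs_norm]
            exact mul_le_mul_of_nonneg_left h2 (norm_nonneg _)
          have h4 : ‖q'.1‖ < ε / (B + 1) := by
            have h5 : dist q'.1 q.1 ≤ dist q' q := by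
              rw [Prod.dist_eq]
              exact le_max_left _ _
            rw [h0, dist_zero_right] at h5
            exact lt_of_le_of_lt h5 hdist
          calc |d.et q'.1 k q'.2| ≤ ‖q'.1‖ * B := h3
            _ ≤ ‖q'.1‖ * (B + 1) := mul_le_mul_of_nonneg_left (by linarith) (norm_nonneg _)
            _ < ε / (B + 1) * (B + 1) := by
                exact mul_lt_mul_of_pos_right h4 (by linarith)
            _ = ε := by field_simp
      · -- away from zero
        have hn : ‖q.1‖ ≠ 0 := norm_ne_zero_iff.2 h0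
        refine ContinuousAt.continuousWithinAt ?_
        have hg : ContinuousAt (fun q : E3 × M => ((‖q.1‖⁻¹ • q.1 : E3), q.2)) q := by
          refine ContinuousAt.prodMk ?_ continuousAt_snd
          exact (continuousAt_fst.norm.inv₀ hn).smul continuousAt_fst
        have hmem : ∀ᶠ q' : E3 × M in 𝓝 q, ((‖q'.1‖⁻¹ • q'.1 : E3), q'.2) ∈ K := by
          have h1 : ∀ᶠ q' : E3 × M in 𝓝 q, ‖q'.1‖ ≠ 0 :=
            continuousAt_fst.norm.eventually_ne hn
          filter_upwards [h1] with q' hq'
          show ‖(‖q'.1‖⁻¹ • q'.1 : E3)‖ = 1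
          rw [norm_smul, norm_inv, norm_norm, inv_mul_cancel₀ hq']
        have hc : ContinuousWithinAt (fun q : E3 × M => (τ q.1).fE k q.2) K
            ((‖q.1‖⁻¹ • q.1 : E3), q.2) := F.cfE k _ (by
          show ‖(‖q.1‖⁻¹ • q.1 : E3)‖ = 1
          rw [norm_smul, norm_inv, norm_norm, inv_mul_cancel₀ hn])
        have h2 : ContinuousAt (fun q : E3 × M => (τ (‖q.1‖⁻¹ • q.1)).fE k q.2) q :=
          hc.tendsto.comp (tendsto_nhdsWithin_iff.2 ⟨hg, hmem⟩)
        exact (continuousAt_fst.norm.mul h2).neg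
    · -- big
      have hcont : Continuous fun z => N t z ^ 2 :=
        (hNc.comp (Continuous.prodMk_right t)).pow 2
      have hint : Integrable (fun z => N t z ^ 2) (μHE[4] : Measure M) :=
        hcont.integrable_of_hasCompactSupport (HasCompactSupport.of_compactSpace _)
      have hpos : 0 < ∫ z, N t z ^ 2 ∂(μHE[4] : Measure M) := by
        refine integral_pos_of_integrable_nonneg_nonzero hcont hint (fun z => sq_nonneg _)
          (x := Classical.arbitrary M) ?_
        exact pow_ne_zero 2 (hNpos t _ (hne t ht)).ne'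
      have hpt : ∀ z, |∑ k, d.et t k z * d.wt t k z| ≤ (3 * B / m) * N t z ^ 2 := by
        intro z
        have h1 : ∀ k, |d.et t k z * d.wt t k z| ≤ B * N t z := by
          intro k
          rw [abs_mul]
          have h2 : |d.et t k z| ≤ B := by
            show |-(‖t‖ * (τ (‖t‖⁻¹ • t)).fE k z)| ≤ B
            rw [ht, inv_one, one_smul, one_mul, abs_neg]
            exact hB t k z ht
          have h3 : |d.wt t k z| ≤ N t z := by
            refine Real.abs_le_sqrt ?_
            exact Finset.single_le_sum (f := fun k => (∑ i, t i * ww i k z) ^ 2)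
              (fun k _ => sq_nonneg _) (Finset.mem_univ k)
          exact mul_le_mul h2 h3 (abs_nonneg _) hB0
        calc |∑ k, d.et t k z * d.wt t k z| ≤ ∑ k, |d.et t k z * d.wt t k z| :=
              Finset.abs_sum_le_sum_abs _ _
          _ ≤ ∑ _k : Fin 3, B * N t z := Finset.sum_le_sum fun k _ => h1 k
          _ = 3 * B * N t z := by simp; ring
          _ ≤ (3 * B / m) * N t z ^ 2 := by
              have h4 := hm t z ht
              have h5 : 3 * B * N t z = (3 * B / m) * (m * N t z) := by field_simp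
              rw [h5, sq]
              exact mul_le_mul_of_nonneg_left (mul_le_mul_of_nonneg_right h4 (hN0 t z))
                (by positivity)
      have h6 : |∫ z, ∑ k, d.et t k z * d.wt t k z ∂(μHE[4] : Measure M)| ≤
          (3 * B / m) * ∫ z, N t z ^ 2 ∂(μHE[4] : Measure M) := by
        rw [← integral_const_mul]
        have h61 : ‖∫ z, (∑ k, d.et t k z * d.wt t k z : ℝ) ∂(μHE[4] : Measure M)‖ ≤
            ∫ z, (3 * B / m) * N t z ^ 2 ∂(μHE[4] : Measure M) :=
          norm_integral_le_of_norm_le (hint.const_mul _) (Eventually.of_forall fun z => hpt z)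
        exact h61
      have h7 : ∫ z, ∑ k, d.wt t k z ^ 2 ∂(μHE[4] : Measure M) =
          ∫ z, N t z ^ 2 ∂(μHE[4] : Measure M) := by
        refine integral_congr_ae (Eventually.of_forall fun z => ?_)
        exact hsum t z
      rw [h7]
      refine lt_of_le_of_lt h6 ?_
      refine mul_lt_mul_of_pos_right ?_ hpos
      show 3 * B / m < |r|
      rw [abs_of_pos hr0, hr]
      have : 0 ≤ C ^ 2 / m ^ 3 := by positivity
      linarith
  obtain ⟨t, a, u, ht, hsol⟩ := hx M κ0 κ1 κT S d F.ok hadm d0 d1 hk0 hk1 hd hk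
  have hfit : (τ t).Fit S d t := by
    refine
      { mu := fun z => ?_
        wt := fun k z => (F.nn t k z ht).symm
        et := fun k z => ?_
        smth := smV_zero
        secth := sec_zero _ }
    · show (N t z + (1 - ‖t‖)) ^ (-(1 / 2) : ℝ) = _
      rw [F.rr t z ht, ht, sub_self, add_zero]
    · show -(‖t‖ * (τ (‖t‖⁻¹ • t)).fE k z) = _
      have h1 : S.H.B (d.th t) k.succ z = 0 := B_zero S.H k.succ z
      rw [h1, ht, inv_one, one_smul, one_mul, add_zero]
  have hC : ∀ z, C ^ 2 ≤ d.r * (τ t).rr z ^ 3 := by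
    intro z
    have h1 : m ≤ (τ t).rr z := by
      rw [F.rr t z ht]
      exact hm t z ht
    have h2 : C ^ 2 / m ^ 3 ≤ r := by
      have : 0 ≤ 3 * B / m := by positivity
      rw [hr]
      linarith
    calc C ^ 2 = C ^ 2 / m ^ 3 * m ^ 3 := by field_simp
      _ ≤ r * m ^ 3 := mul_le_mul_of_nonneg_right h2 (by positivity)
      _ ≤ r * (τ t).rr z ^ 3 :=
          mul_le_mul_of_nonneg_left (pow_le_pow_left₀ hm0.le h1 3) hr0.le
  obtain ⟨w, hw⟩ := hX M κ0 κ1 κT S d (τ t) C t F.ok (F.tau t ht) hfit hr0 hC (F.top t ht) a u hsol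
  obtain ⟨fF, g, h3, hfe⟩ := F.t3 t ht
  have h4 := hF M κ0 κ1 κT S d (τ t) C C t fF g F.ok (F.tau t ht) h3 hfit hr0 a u hsol.wa w hw
  exact he (hfe.symm.trans h4)

end

end Crest.Agent.R235.SWEnd_53
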