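import Crest.Agent.R235.SWJDefs_53
import Crest.Agent.R235.SWEnd_53

/-!
Row 235 (S0364), PACKAGE SW, task SW-GEOFL + BPF (helper659):
* `A_lin`, `A_sum`   : the operators of an `OpPair` are linear on smooth sections;
* `mkd`, `mkd_ffit`  : the data of a flat family;
* `geofl_of`         : `SWX → REG → UNI → GEOFL`;
* `bpf_of`           : `SWJA → BPF`.
-/

set_option autoImplicit false
set_option maxSynthPendingDepth 3
set_option linter.unusedSectionVars false

open scoped ContDiff ENNReal NNReal Topology Manifold Bundle RealInnerProductSpace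
open MeasureTheory Set Filter Metric Bundle

universe v

namespace Crest.Agent.R235.SWGeo_659

open Crest.Agent.R235.SWDefs_53 Crest.Agent.R235.SWSym_451 Crest.Agent.R235.SWEnd_53
open Crest.Agent.R249.Tv57 Crest.Agent.R247.Ms322 Crest.Agent.R247.Dir593

noncomputable section

local notation "ipp" => Crest.Agent.R249.Tv57.ip 4

section lin

variable {M : Type v} [MetricSpace M] [CompactSpace M] [ConnectedSpace M]
  [ChartedSpace (EuclideanSpace ℝ (Fin 4)) M] [IsManifold (𝓡 4) ∞ M]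
  [RiemannianBundle (fun p : M => TangentSpace (𝓡 4) p)]
  [IsContMDiffRiemannianBundle (𝓡 4) ∞ (EuclideanSpace ℝ (Fin 4))
    (fun p : M => TangentSpace (𝓡 4) p)]
  [IsRiemannianManifold (𝓡 4) M] [MeasurableSpace M] [BorelSpace M]
  [SecondCountableTopology M] [Nonempty M] [IsFiniteMeasureOnCompacts (μHE[4] : Measure M)]
  {κ κ' : Type} [Fintype κ] [Fintype κ']

theorem smV_add {u v : κ → M → ℝ} (hu : SmV (n := 4) u) (hv : SmV (n := 4) v) :
    SmV (n := 4) (u + v) := fun a => (hu a).add (hv a)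

theorem smV_smul {u : κ → M → ℝ} (c : ℝ) (hu : SmV (n := 4) u) :
    SmV (n := 4) (c • u) := fun a => contMDiff_const.mul (hu a)

theorem sec_add {D : Dat 4 M κ} {u v : κ → M → ℝ} (hu : D.Sec u) (hv : D.Sec v) :
    D.Sec (u + v) := by
  intro a z
  simp only [Pi.add_apply, mul_add, Finset.sum_add_distrib, hu a z, hv a z]

theorem sec_smul {D : Dat 4 M κ} {u : κ → M → ℝ} (c : ℝ) (hu : D.Sec u) :
    D.Sec (c • u) := by
  intro a z
  have h : ∀ b, D.p a b z * (c • u) b z = c * (D.p a b z * u b z) := fun b => by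
    simp only [Pi.smul_apply, smul_eq_mul]
    ring
  simp only [h, ← Finset.mul_sum, hu a z]
  rfl

theorem ip_lin {u v w : κ → M → ℝ} (c c' : ℝ) (hu : SmV (n := 4) u) (hv : SmV (n := 4) v)
    (hw : SmV (n := 4) w) : ipp (c • u + c' • v) w = c * ipp u w + c' * ipp v w := by
  unfold Crest.Agent.R249.Tv57.ip
  rw [← integral_const_mul, ← integral_const_mul,
    ← integral_add ((integrable_ip hu hw).const_mul c) ((integrable_ip hv hw).const_mul c')]
  refine integral_congr_ae (Eventually.of_forall fun z => ?_)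
  simp only [Pi.add_apply, Pi.smul_apply, smul_eq_mul, Finset.mul_sum, ← Finset.sum_add_distrib]
  exact Finset.sum_congr rfl fun a _ => by ring

theorem A_lin {D0 : Dat 4 M κ} {D1 : Dat 4 M κ'} (P : OpPair D0 D1) {u v : κ → M → ℝ} (c c' : ℝ)
    (hu : SmV (n := 4) u) (hsu : D0.Sec u) (hv : SmV (n := 4) v) (hsv : D0.Sec v) (b : κ')
    (z : M) : P.A (c • u + c' • v) b z = c * P.A u b z + c' * P.A v b z := by
  have h1 := smV_add (smV_smul c hu) (smV_smul c' hv)
  have h2 := sec_add (sec_smul c hsu) (sec_smul c' hsv)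
  have hA := P.smA _ h1 h2
  have hsA := P.secA _ h1 h2
  have hB := smV_add (smV_smul c (P.smA _ hu hsu)) (smV_smul c' (P.smA _ hv hsv))
  have hsB := sec_add (sec_smul c (P.secA _ hu hsu)) (sec_smul c' (P.secA _ hv hsv))
  set e : κ' → M → ℝ := (1 : ℝ) • P.A (c • u + c' • v) + (-1 : ℝ) • (c • P.A u + c' • P.A v)
    with he
  have he1 : SmV (n := 4) e := smV_add (smV_smul 1 hA) (smV_smul (-1) hB)
  have he2 : D1.Sec e := sec_add (sec_smul 1 hsA) (sec_smul (-1) hsB)
  have h0 : ipp e e = 0 := by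
    have e0 : ipp e e = ipp ((1 : ℝ) • P.A (c • u + c' • v) +
      (-1 : ℝ) • (c • P.A u + c' • P.A v)) e := rfl
    rw [e0, ip_lin 1 (-1) hA hB he1, ip_lin c c' (P.smA _ hu hsu) (P.smA _ hv hsv) he1,
      P.adj _ _ h1 h2 he1 he2, P.adj _ _ hu hsu he1 he2, P.adj _ _ hv hsv he1 he2,
      ip_lin c c' hu hv (P.smB _ he1 he2)]
    ring
  have h3 := eq_zero_of_ip he1 h0 b z
  simp only [he, Pi.add_apply, Pi.smul_apply, smul_eq_mul] at h3
  linarith

theorem A_smul {D0 : Dat 4 M κ} {D1 : Dat 4 M κ'} (P : OpPair D0 D1) {u : κ → M → ℝ} (c : ℝ)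
    (hu : SmV (n := 4) u) (hsu : D0.Sec u) (b : κ')
    (z : M) : P.A (c • u) b z = c * P.A u b z := by
  have h := A_lin P c 0 hu hsu hu hsu b z
  rw [zero_smul, add_zero, zero_mul, add_zero] at h
  exact h

theorem sum_all {D0 : Dat 4 M κ} {D1 : Dat 4 M κ'} (P : OpPair D0 D1) {ι : Type*} (s : Finset ι)
    (c : ι → ℝ) (u : ι → κ → M → ℝ) (hu : ∀ i, SmV (n := 4) (u i)) (hs : ∀ i, D0.Sec (u i)) :
    SmV (n := 4) (∑ i ∈ s, c i • u i) ∧ D0.Sec (∑ i ∈ s, c i • u i) ∧
      (∀ b z, P.A (∑ i ∈ s, c i • u i) b z = ∑ i ∈ s, c i * P.A (u i) b z) ∧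
      ∀ w : κ → M → ℝ, SmV (n := 4) w → ipp (∑ i ∈ s, c i • u i) w = ∑ i ∈ s, c i * ipp (u i) w := by
  classical
  induction s using Finset.induction_on with
  | empty =>
    simp only [Finset.sum_empty]
    refine ⟨smV_zero, sec_zero _, fun b z => B_zero P.swap b z, fun w _ => ?_⟩
    unfold Crest.Agent.R249.Tv57.ip
    simp
  | insert i s hi ih =>
    obtain ⟨i1, i2, i3, i4⟩ := ih
    rw [Finset.sum_insert hi]
    have e : c i • u i + ∑ i ∈ s, c i • u i = c i • u i + (1 : ℝ) • ∑ i ∈ s, c i • u i := by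
      rw [one_smul]
    refine ⟨smV_add (smV_smul _ (hu i)) i1, sec_add (sec_smul _ (hs i)) i2, fun b z => ?_,
      fun w hw => ?_⟩
    · rw [e, A_lin P (c i) 1 (hu i) (hs i) i1 i2, i3, one_mul, Finset.sum_insert hi]
    · rw [e, ip_lin (c i) 1 (hu i) i1 hw, i4 w hw, one_mul, Finset.sum_insert hi]

end lin

/-! ### the cone over a family on the sphere -/

theorem norm_inv_smul {t : E3} (h : t ≠ 0) : ‖(‖t‖⁻¹ • t : E3)‖ = 1 := by
  have hn : ‖t‖ ≠ 0 := norm_ne_zero_iff.2 h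
  rw [norm_smul, norm_inv, norm_norm, inv_mul_cancel₀ hn]

theorem cone_cont {X : Type*} [MetricSpace X] [CompactSpace X] {f : E3 → X → ℝ}
    (hf : ContinuousOn (fun q : E3 × X => f q.1 q.2) {q | ‖q.1‖ = 1}) :
    Continuous (fun q : E3 × X => ‖q.1‖ * f (‖q.1‖⁻¹ • q.1) q.2) := by
  set K : Set (E3 × X) := {q | ‖q.1‖ = 1} with hK
  have hKc : IsCompact K := by
    have h1 : K = Metric.sphere (0 : E3) 1 ×ˢ (univ : Set X) := by
      ext q
      simp [hK]
    rw [h1]
    exact (isCompact_sphere _ _).prod isCompact_univ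
  obtain ⟨B0, hB0⟩ := hKc.exists_bound_of_continuousOn hf
  set B : ℝ := |B0| with hBdef
  have hBn : 0 ≤ B := abs_nonneg _
  have hB : ∀ (t : E3) (z : X), ‖t‖ = 1 → |f t z| ≤ B := fun t z ht =>
    (hB0 (t, z) ht).trans (le_abs_self _)
  rw [continuous_iff_continuousAt]
  intro q
  by_cases h0 : q.1 = 0
  · have hval : ‖q.1‖ * f (‖q.1‖⁻¹ • q.1) q.2 = 0 := by
      rw [h0, norm_zero, zero_mul]
    refine Metric.continuousAt_iff.2 ?_
    intro ε hε
    refine ⟨ε / (B + 1), by positivity, ?_⟩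
    intro q' hdist
    rw [hval, Real.dist_eq, sub_zero]
    by_cases h0' : q'.1 = 0
    · rw [h0', norm_zero, zero_mul, abs_zero]
      exact hε
    · have h2 := hB (‖q'.1‖⁻¹ • q'.1) q'.2 (norm_inv_smul h0')
      have h3 : |‖q'.1‖ * f (‖q'.1‖⁻¹ • q'.1) q'.2| ≤ ‖q'.1‖ * B := by
        rw [abs_mul, abs_norm]
        exact mul_le_mul_of_nonneg_left h2 (norm_nonneg _)
      have h4 : ‖q'.1‖ < ε / (B + 1) := by
        have h5 : dist q'.1 q.1 ≤ dist q' q := by
          rw [Prod.dist_eq]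
          exact le_max_left _ _
        rw [h0, dist_zero_right] at h5
        exact lt_of_le_of_lt h5 hdist
      calc |‖q'.1‖ * f (‖q'.1‖⁻¹ • q'.1) q'.2| ≤ ‖q'.1‖ * B := h3
        _ ≤ ‖q'.1‖ * (B + 1) := mul_le_mul_of_nonneg_left (by linarith) (norm_nonneg _)
        _ < ε / (B + 1) * (B + 1) := mul_lt_mul_of_pos_right h4 (by linarith)
        _ = ε := by field_simp
  · have hn : ‖q.1‖ ≠ 0 := norm_ne_zero_iff.2 h0
    have hg : ContinuousAt (fun q : E3 × X => ((‖q.1‖⁻¹ • q.1 : E3), q.2)) q := by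
      refine ContinuousAt.prodMk ?_ continuousAt_snd
      exact (continuousAt_fst.norm.inv₀ hn).smul continuousAt_fst
    have hmem : ∀ᶠ q' : E3 × X in 𝓝 q, ((‖q'.1‖⁻¹ • q'.1 : E3), q'.2) ∈ K := by
      have h1 : ∀ᶠ q' : E3 × X in 𝓝 q, ‖q'.1‖ ≠ 0 :=
        continuousAt_fst.norm.eventually_ne hn
      filter_upwards [h1] with q' hq'
      exact norm_inv_smul (norm_ne_zero_iff.1 hq')
    have hc : ContinuousWithinAt (fun q : E3 × X => f q.1 q.2) K
        ((‖q.1‖⁻¹ • q.1 : E3), q.2) := hf _ (norm_inv_smul h0)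
    have h2 : ContinuousAt (fun q : E3 × X => f (‖q.1‖⁻¹ • q.1) q.2) q :=
      hc.tendsto.comp (tendsto_nhdsWithin_iff.2 ⟨hg, hmem⟩)
    exact continuousAt_fst.norm.mul h2

section fam

variable {M : Type v} [MetricSpace M] [CompactSpace M] [ConnectedSpace M]
  [ChartedSpace (EuclideanSpace ℝ (Fin 4)) M] [IsManifold (𝓡 4) ∞ M]
  [RiemannianBundle (fun p : M => TangentSpace (𝓡 4) p)]
  [IsContMDiffRiemannianBundle (𝓡 4) ∞ (EuclideanSpace ℝ (Fin 4))
    (fun p : M => TangentSpace (𝓡 4) p)]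
  [IsRiemannianManifold (𝓡 4) M] [MeasurableSpace M] [BorelSpace M]
  [SecondCountableTopology M] [Nonempty M] [IsFiniteMeasureOnCompacts (μHE[4] : Measure M)]
  {κ0 κ1 κT : Type} [Fintype κ0] [Fintype κ1] [Fintype κT]

/-- the norm of `w_t` -/
def nwt (ww : Fin 3 → Fin 3 → M → ℝ) (t : E3) (z : M) : ℝ :=
  √(∑ k, (∑ i, t i * ww i k z) ^ 2)

/-- the data of a flat family. -/
def mkd (ww : Fin 3 → Fin 3 → M → ℝ) (th : E3 → κT → M → ℝ) (et : E3 → Fin 3 → M → ℝ) (r : ℝ) :
    SWD M κT where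
  th := fun t A z => ‖t‖ * th (‖t‖⁻¹ • t) A z
  mu := fun t z => (nwt ww t z + (1 - ‖t‖)) ^ (-(1 / 2) : ℝ)
  ww := ww
  et := et
  r := r

variable {S : SWS M κ0 κ1 κT} {ww : Fin 3 → Fin 3 → M → ℝ} {τ : E3 → TD M κT} {C : ℝ}
  {th : E3 → κT → M → ℝ}

theorem nwt_cont (F : FFam S ww τ C th) : Continuous fun q : E3 × M => nwt ww q.1 q.2 := by
  refine Real.continuous_sqrt.comp (continuous_finsetSum _ fun k _ => ?_)
  refine (continuous_finsetSum _ fun i _ => ?_).pow 2
  refine Continuous.mul ?_ ((F.smw i k).continuous.comp continuous_snd)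
  exact (EuclideanSpace.proj (𝕜 := ℝ) i).continuous.comp continuous_fst

theorem nwt_pos (F : FFam S ww τ C th) {t : E3} (z : M) (ht : t ≠ 0) : 0 < nwt ww t z := by
  obtain ⟨k, hk⟩ := F.ndeg t z ht
  refine Real.sqrt_pos.2 ?_
  refine lt_of_lt_of_le (by positivity) (Finset.single_le_sum (f := fun k =>
    (∑ i, t i * ww i k z) ^ 2) (fun k _ => sq_nonneg _) (Finset.mem_univ k))

theorem nwt_nonneg (t : E3) (z : M) : 0 ≤ nwt ww t z := Real.sqrt_nonneg _

theorem nwt_sq (t : E3) (z : M) : ∑ k, (∑ i, t i * ww i k z) ^ 2 = nwt ww t z ^ 2 := by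
  rw [nwt, Real.sq_sqrt (Finset.sum_nonneg fun k _ => sq_nonneg _)]

theorem ne_of_norm {t : E3} (ht : ‖t‖ = 1) : t ≠ 0 := by
  rintro rfl
  simp at ht

theorem exists_r (F : FFam S ww τ C th) : ∃ r : ℝ, 0 < r ∧ ∀ (t : E3), ‖t‖ = 1 → ∀ z,
    C ^ 2 ≤ r * (τ t).rr z ^ 3 := by
  set K : Set (E3 × M) := {q | ‖q.1‖ = 1} with hK
  have hKc : IsCompact K := by
    have h1 : K = Metric.sphere (0 : E3) 1 ×ˢ (univ : Set M) := by
      ext q
      simp [hK]
    rw [h1]
    exact (isCompact_sphere _ _).prod isCompact_univ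
  obtain ⟨m, hm0, hm⟩ : ∃ m : ℝ, 0 < m ∧ ∀ (t : E3) (z : M), ‖t‖ = 1 → m ≤ nwt ww t z := by
    by_cases hKe : K.Nonempty
    · obtain ⟨q, hq, hmin⟩ := hKc.exists_isMinOn (f := fun q : E3 × M => nwt ww q.1 q.2) hKe
        (nwt_cont F).continuousOn
      refine ⟨nwt ww q.1 q.2, nwt_pos F q.2 (ne_of_norm hq), fun t z ht => ?_⟩
      have h2 : (t, z) ∈ K := ht
      have h3 := isMinOn_iff.1 hmin (t, z) h2
      exact h3
    · refine ⟨1, one_pos, fun t z ht => ?_⟩
      exact absurd ⟨(t, z), (ht : (t, z) ∈ K)⟩ hKe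
  refine ⟨C ^ 2 / m ^ 3 + 1, by positivity, fun t ht z => ?_⟩
  have h1 : m ≤ (τ t).rr z := by
    rw [F.rr t z ht]
    exact hm t z ht
  calc C ^ 2 = C ^ 2 / m ^ 3 * m ^ 3 := by field_simp
    _ ≤ (C ^ 2 / m ^ 3 + 1) * m ^ 3 :=
        mul_le_mul_of_nonneg_right (by linarith) (by positivity)
    _ ≤ (C ^ 2 / m ^ 3 + 1) * (τ t).rr z ^ 3 :=
        mul_le_mul_of_nonneg_left (pow_le_pow_left₀ hm0.le h1 3) (by positivity)

theorem mkd_th (et : E3 → Fin 3 → M → ℝ) (r : ℝ) {t : E3} (ht : ‖t‖ = 1) :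
    (mkd ww th et r).th t = th t := by
  funext A z
  show ‖t‖ * th (‖t‖⁻¹ • t) A z = th t A z
  rw [ht, inv_one, one_smul, one_mul]

theorem mkd_th_smul (et : E3 → Fin 3 → M → ℝ) (r : ℝ) (t : E3) :
    (mkd ww th et r).th t = ‖t‖ • th (‖t‖⁻¹ • t) := rfl

theorem mkd_th_zero (et : E3 → Fin 3 → M → ℝ) (r : ℝ) :
    (mkd ww th et r).th 0 = fun _ _ => 0 := by
  funext A z
  show ‖(0 : E3)‖ * _ = 0
  rw [norm_zero, zero_mul]

theorem int_wt_pos (F : FFam S ww τ C th) {t : E3} (ht : ‖t‖ = 1) :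
    0 < ∫ z, ∑ k, (∑ i, t i * ww i k z) ^ 2 ∂(μHE[4] : Measure M) := by
  have hopen := isOpenPosMeasure 4 M
  have hcont : Continuous fun z => nwt ww t z ^ 2 :=
    ((nwt_cont F).comp (Continuous.prodMk_right t)).pow 2
  have hint : Integrable (fun z => nwt ww t z ^ 2) (μHE[4] : Measure M) :=
    hcont.integrable_of_hasCompactSupport (HasCompactSupport.of_compactSpace _)
  have hpos : 0 < ∫ z, nwt ww t z ^ 2 ∂(μHE[4] : Measure M) := by
    refine integral_pos_of_integrable_nonneg_nonzero hcont hint (fun z => sq_nonneg _)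
      (x := Classical.arbitrary M) ?_
    exact pow_ne_zero 2 (nwt_pos F _ (ne_of_norm ht)).ne'
  simp only [nwt_sq]
  exact hpos

theorem mkd_ffit (F : FFam S ww τ C th) {et : E3 → Fin 3 → M → ℝ} {r : ℝ} (hr : 0 < r)
    (hC : ∀ (t : E3), ‖t‖ = 1 → ∀ z, C ^ 2 ≤ r * (τ t).rr z ^ 3)
    (cet : ∀ k, Continuous (fun q : E3 × M => et q.1 k q.2))
    (het : ∀ (t : E3), ‖t‖ = 1 → ∀ k z, et t k z = 0) : (mkd ww th et r).FFit S ww τ C th := by
  have hbase : ∀ (t : E3) (z : M), ‖t‖ ≤ 1 → 0 < nwt ww t z + (1 - ‖t‖) := by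
    intro t z ht
    by_cases h0 : t = 0
    · subst h0
      have := nwt_nonneg (ww := ww) (0 : E3) z
      simp only [norm_zero, sub_zero]
      linarith
    · have := nwt_pos F z h0
      linarith
  refine
    { adm := ?_
      ww := rfl
      rpos := hr
      mu := fun t ht z => ?_
      et := het
      th := fun t ht => mkd_th et r ht
      rbig := hC }
  swap
  · show (nwt ww t z + (1 - ‖t‖)) ^ (-(1 / 2) : ℝ) = _
    rw [F.rr t z ht, ht, sub_self, add_zero]
    rfl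
  refine
    { smth := fun t => ?_
      secth := fun t => ?_
      cth := fun A => (cone_cont (f := fun t z => th t A z) (F.cth A)).continuousOn
      cdth := fun k => ?_
      smw := F.smw
      cmu := ?_
      pmu := fun t z ht => Real.rpow_pos_of_pos (hbase t z ht) _
      cet := fun k => (cet k).continuousOn
      harm := F.harm
      big := fun t ht => ?_ }
  · by_cases h0 : t = 0
    · subst h0
      rw [mkd_th_zero]
      exact smV_zero
    · rw [mkd_th_smul]
      exact smV_smul _ (F.smth _ (norm_inv_smul h0))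
  · by_cases h0 : t = 0
    · subst h0
      rw [mkd_th_zero]
      exact sec_zero _
    · rw [mkd_th_smul]
      exact sec_smul _ (F.secth _ (norm_inv_smul h0))
  · have h1 := (cone_cont (f := fun t z => S.H.B (th t) k z) (F.cdth k)).continuousOn
      (s := {q : E3 × M | ‖q.1‖ ≤ 1})
    refine h1.congr fun q _ => ?_
    show S.H.B ((mkd ww th et r).th q.1) k q.2 = ‖q.1‖ * S.H.B (th (‖q.1‖⁻¹ • q.1)) k q.2
    by_cases h0 : q.1 = 0
    · rw [h0, mkd_th_zero, B_zero, norm_zero, zero_mul]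
    · rw [mkd_th_smul]
      exact A_smul S.H.swap ‖q.1‖ (F.smth _ (norm_inv_smul h0)) (F.secth _ (norm_inv_smul h0)) k q.2
  · refine ContinuousOn.rpow_const ?_ fun q hq => Or.inl (hbase q.1 q.2 hq).ne'
    exact ((nwt_cont F).add (continuous_const.sub continuous_fst.norm)).continuousOn
  · have h1 : ∀ z, ∑ k, (mkd ww th et r).et t k z * (mkd ww th et r).wt t k z = 0 := by
      intro z
      refine Finset.sum_eq_zero fun k _ => ?_
      show et t k z * _ = 0
      rw [het t ht k z, zero_mul]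
    simp only [h1, integral_zero, abs_zero]
    refine mul_pos (abs_pos.2 hr.ne') ?_
    exact int_wt_pos F ht

/-- scaling of parallel sections -/
theorem psec_smul {τ : TD M κT} {a : κT → M → ℝ} {r : ℝ} {s : κ0 → M → ℝ}
    (h : τ.PSec S a r s) (c : ℝ) : τ.PSec S a (c ^ 2 * r) (c • s) := by
  have hcv : ∀ y z, S.D0.cv (c • s) y z = c • S.D0.cv s y z := by
    intro y z
    have h1 : (c • s) y = fun z => c * s y z := rfl
    rw [Dat.cv, Dat.cv, h1, Gr_const_mul c ((h.sm y z).mdifferentiableAt (by simp)), smul_add,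
      Finset.smul_sum]
    congr 1
    refine Finset.sum_congr rfl fun b _ => ?_
    rw [smul_smul]
    rfl
  have hJ : ∀ y z, ∑ y', S.J y y' z * (c • s) y' z = c * ∑ y', S.J y y' z * s y' z := by
    intro y z
    rw [Finset.mul_sum]
    refine Finset.sum_congr rfl fun y' _ => ?_
    simp only [Pi.smul_apply, smul_eq_mul]
    ring
  have hnab : ∀ y z, S.nab a (c • s) y z = c • S.nab a s y z := by
    intro y z
    rw [SWS.nab, SWS.nab, hcv, hJ, smul_add, smul_smul]
  refine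
    { sm := smV_smul c h.sm
      sec := ⟨sec_smul c h.sec.1, fun y z => ?_⟩
      nrm := fun z => ?_
      par := fun y z => ?_ }
  · have h1 : τ.R S (c • s) y z = c * τ.R S s y z := by
      unfold TD.R
      simp only [Finset.mul_sum]
      refine Finset.sum_congr rfl fun k _ => Finset.sum_congr rfl fun y' _ => ?_
      simp only [Pi.smul_apply, smul_eq_mul]
      ring
    rw [h1, h.sec.2 y z]
    simp only [Pi.smul_apply, smul_eq_mul]
    ring
  · have h1 : ∀ y, (c • s) y z ^ 2 = c ^ 2 * s y z ^ 2 := fun y => by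
      simp only [Pi.smul_apply, smul_eq_mul]
      ring
    simp only [h1]
    rw [← Finset.mul_sum, h.nrm z]
    ring
  · have h1 : τ.nE S a (c • s) y z = c • τ.nE S a s y z := by
      have h2 : ∀ y', ((1 / 2) * (S.D0.p y y' z - ∑ k, τ.n k z * S.rho k y y' z)) •
          S.nab a (c • s) y' z = c • (((1 / 2) * (S.D0.p y y' z -
            ∑ k, τ.n k z * S.rho k y y' z)) • S.nab a s y' z) := fun y' => by
        rw [hnab, smul_comm]
      unfold TD.nE TD.prE
      simp only [h2]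
      rw [hJ, ← Finset.smul_sum, smul_add, smul_smul]
    rw [h1, h.par y z, smul_zero]

/-- the data at `|t| = 1` fit the Taubes data. -/
theorem fit_of (F : FFam S ww τ C th) {d : SWD M κT} (hd : d.FFit S ww τ C th) {t : E3}
    (ht : ‖t‖ = 1) : (τ t).Fit S d t where
  mu := hd.mu t ht
  wt := fun k z => by
    rw [F.nn t k z ht, SWD.wt, hd.ww]
  et := fun k z => by
    rw [hd.et t ht, hd.th t ht, F.flat t ht k z, neg_zero]
  smth := hd.adm.smth t
  secth := hd.adm.secth t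

end fam

/-- **GEOFL.** -/
theorem geofl_of (hx : SWX.{v}) (hR : REG.{v}) (hU : UNI.{v}) : GEOFL.{v} := by
  intro M _ _ _ _ _ _ _ _ _ _ _ _ _ κ0 κ1 κT _ _ _ S cc ww τ C th F hS d0 d1 hk0 hk1 hd hk
  obtain ⟨r, hr, hC⟩ := exists_r F
  set d : SWD M κT := mkd ww th (fun _ _ _ => 0) r with hdd
  have hfit : d.FFit S ww τ C th := mkd_ffit F hr hC (fun k => continuous_const)
    (fun t ht k z => rfl)
  obtain ⟨t, a, u, ht, hsol⟩ := hx M κ0 κ1 κT S d F.ok hfit.adm d0 d1 hk0 hk1 hd hk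
  have hth : d.th t = th t := hfit.th t ht
  have hreg := hR M κ0 κ1 κT S cc F.ok hS (d.th t) (hfit.adm.smth t) (hfit.adm.secth t)
  obtain ⟨_, s, hs, _⟩ := hU M κ0 κ1 κT S d (τ t) C t F.ok (F.tau t ht) (fit_of F hfit ht) hr
    (hC t ht) (by rw [hth]; exact F.flat t ht) hreg a u hsol
  refine ⟨t, (1 / √(2 * r)) • s, ht, ?_⟩
  have h1 := psec_smul hs (1 / √(2 * r))
  have h2 : (1 / √(2 * r)) ^ 2 * d.r = 1 / 2 := by
    show (1 / √(2 * r)) ^ 2 * r = 1 / 2
    rw [div_pow, Real.sq_sqrt (by positivity)]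
    field_simp
  rw [h2, hth] at h1
  exact h1

section bp

variable {M : Type v} [MetricSpace M] [CompactSpace M] [ConnectedSpace M]
  [ChartedSpace (EuclideanSpace ℝ (Fin 4)) M] [IsManifold (𝓡 4) ∞ M]
  [RiemannianBundle (fun p : M => TangentSpace (𝓡 4) p)]
  [IsContMDiffRiemannianBundle (𝓡 4) ∞ (EuclideanSpace ℝ (Fin 4))
    (fun p : M => TangentSpace (𝓡 4) p)]
  [IsRiemannianManifold (𝓡 4) M] [MeasurableSpace M] [BorelSpace M]
  [SecondCountableTopology M] [Nonempty M] [IsFiniteMeasureOnCompacts (μHE[4] : Measure M)]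
  {κ0 κ1 κT : Type} [Fintype κ0] [Fintype κ1] [Fintype κT]

/-- `(0, g)` -/
def vec (g : Fin 3 → M → ℝ) : Fin 4 → M → ℝ := Fin.cons (fun _ => 0) g

/-- `(1, 0)` -/
def one4 : Fin 4 → M → ℝ := Fin.cons (fun _ => 1) fun _ _ => 0

theorem smV_vec {g : Fin 3 → M → ℝ} (hg : SmV (n := 4) g) : SmV (n := 4) (vec g) := by
  intro a
  refine Fin.cases ?_ (fun k => ?_) a
  · exact contMDiff_const
  · exact hg k

theorem smV_one4 : SmV (n := 4) (one4 (M := M)) := by
  intro a
  refine Fin.cases ?_ (fun k => ?_) a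
  · exact contMDiff_const
  · exact contMDiff_const

theorem sec_all {S : SWS M κ0 κ1 κT} (hS : S.OK) (φ : Fin 4 → M → ℝ) : S.DL.Sec φ := by
  intro a z
  simp only [hS.fullL, ite_mul, one_mul, zero_mul, Finset.sum_ite_eq, Finset.mem_univ, if_true]

theorem ip_vec (g : Fin 3 → M → ℝ) (φ : Fin 4 → M → ℝ) :
    ipp (vec g) φ = ∫ z, ∑ k, g k z * φ k.succ z ∂(μHE[4] : Measure M) := by
  unfold Crest.Agent.R249.Tv57.ip
  refine integral_congr_ae (Eventually.of_forall fun z => ?_)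
  simp only [Fin.sum_univ_succ (n := 3), vec, Fin.cons_zero, Fin.cons_succ, zero_mul, zero_add]

theorem ip_one (φ : Fin 4 → M → ℝ) : ipp (one4 (M := M)) φ = ∫ z, φ 0 z ∂(μHE[4] : Measure M) := by
  unfold Crest.Agent.R249.Tv57.ip
  refine integral_congr_ae (Eventually.of_forall fun z => ?_)
  simp only [Fin.sum_univ_succ (n := 3), one4, Fin.cons_zero, Fin.cons_succ, zero_mul, one_mul,
    Finset.sum_const_zero, add_zero]

/-- a harmonic element of `ℝ ⊕ Λ⁺` orthogonal to `1` with vanishing form part vanishes -/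
theorem form_ne {S : SWS M κ0 κ1 κT} {cc : κ1 → κ0 → M → EuclideanSpace ℝ (Fin 4)}
    (hS : Sym S cc) (hG : GrdH S) {φ : Fin 4 → M → ℝ}
    (hs : SmV (n := 4) φ) (hA : ∀ x z, S.H.A φ x z = 0) (h1 : ipp (one4 (M := M)) φ = 0)
    (hg : ∀ (k : Fin 3) z, φ k.succ z = 0) (a : Fin 4) (z : M) : φ a z = 0 := by
  have e : φ = Fin.cons (φ 0) fun _ _ => 0 := by
    funext a
    refine Fin.cases ?_ (fun k => ?_) a
    · rfl
    · funext z
      rw [Fin.cons_succ]
      exact hg k z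
  obtain ⟨c, hc, hgr⟩ := hG
  have h2 : ∀ z, Gr (n := 4) (φ 0) z = 0 := by
    intro z
    rw [← hS.tight z (Gr (n := 4) (φ 0) z)]
    refine Finset.sum_eq_zero fun A _ => ?_
    have h3 := hgr (φ 0) (hs 0) A z
    rw [← e, hA] at h3
    rcases mul_eq_zero.1 h3.symm with h4 | h4
    · exact absurd h4 hc
    · rw [h4, zero_smul]
  have h3 : ∀ p q, φ 0 p = φ 0 q := by
    refine Crest.Agent.R249.Grn324.const_of_mGam_zero (n := 4) ((hs 0).of_le (by simp)) ?_
    intro p
    rw [← norm_Gr_sq_eq_mGam, h2 p, norm_zero]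
    norm_num
  have h4 : ipp φ φ = 0 := by
    have h5 : ipp φ φ = ∫ z', φ 0 z * φ 0 z' ∂(μHE[4] : Measure M) := by
      unfold Crest.Agent.R249.Tv57.ip
      refine integral_congr_ae (Eventually.of_forall fun z' => ?_)
      simp only [Fin.sum_univ_succ (n := 3), hg, zero_mul, Finset.sum_const_zero, add_zero]
      rw [h3 z' z]
    rw [h5, integral_const_mul, ← ip_one, h1, mul_zero]
  exact eq_zero_of_ip hs h4 a z

/-- a fourth direction -/
theorem exists_four {S : SWS M κ0 κ1 κT} {ww : Fin 3 → Fin 3 → M → ℝ} {bp : ℕ} (hk : Nonempty (KerD S.DL S.H.A (1 + bp)))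
    (hb : 3 < bp) (hw : ∀ i, SmV (n := 4) (ww i)) :
    ∃ φ : Fin 4 → M → ℝ, SmV (n := 4) φ ∧ (∀ x z, S.H.A φ x z = 0) ∧ ipp (one4 (M := M)) φ = 0 ∧
      (∀ i, ipp (vec (ww i)) φ = 0) ∧ ¬ ∀ a z, φ a z = 0 := by
  obtain ⟨K⟩ := hk
  set f : (Fin (1 + bp) → ℝ) →ₗ[ℝ] (Fin 4 → ℝ) :=
    LinearMap.pi fun j => ∑ i, (Fin.cons (ipp (K.u i) one4) (fun l => ipp (K.u i) (vec (ww l))) :
      Fin 4 → ℝ) j • LinearMap.proj i with hf
  have hker : LinearMap.ker f ≠ ⊥ := by
    apply LinearMap.ker_ne_bot_of_finrank_lt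
    simp only [Module.finrank_fin_fun]
    omega
  obtain ⟨c, hc, hc0⟩ := (Submodule.ne_bot_iff _).1 hker
  have hcf : ∀ j, ∑ i, (Fin.cons (ipp (K.u i) one4) (fun l => ipp (K.u i) (vec (ww l))) :
      Fin 4 → ℝ) j * c i = 0 := by
    intro j
    have h1 := congrFun (LinearMap.mem_ker.1 hc) j
    simpa [hf] using h1
  obtain ⟨i1, i2, i3, i4⟩ := sum_all S.H Finset.univ c K.u K.smooth K.sec
  refine ⟨∑ i, c i • K.u i, i1, fun x z => ?_, ?_, fun l => ?_, fun h => hc0 ?_⟩
  · rw [i3]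
    refine Finset.sum_eq_zero fun i _ => ?_
    rw [K.ker, mul_zero]
  · rw [ip_comm, i4 _ smV_one4]
    have h1 := hcf 0
    simp only [Fin.cons_zero] at h1
    rw [← h1]
    exact Finset.sum_congr rfl fun i _ => mul_comm _ _
  · rw [ip_comm, i4 _ (smV_vec (hw l))]
    have h1 := hcf l.succ
    simp only [Fin.cons_succ] at h1
    rw [← h1]
    exact Finset.sum_congr rfl fun i _ => mul_comm _ _
  · have h1 : ∑ i, c i • K.u i = 0 := by
      funext a z
      exact h a z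
    funext i
    exact (Fintype.linearIndependent_iff.1 K.li) c h1 i

end bp

/-- **BPF.** -/
theorem bpf_of (hx : SWJA.{v}) : BPF.{v} := by
  intro M _ _ _ _ _ _ _ _ _ _ _ _ _ κ0 κ1 κT _ _ _ S cc b j ww τ C th pi U hS hG hj hH d0 d1 bp
    hk0 hk1 hk hi
  by_contra hbp
  have F := hH.fam
  have hsw : ∀ i, SmV (n := 4) (ww i) := fun i k => F.smw i k
  obtain ⟨φ, φ1, φ2, φ3, φ4, φ5⟩ := exists_four hk (not_le.1 hbp) hsw
  set g : Fin 3 → M → ℝ := fun k => φ k.succ with hg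
  have hgs : SmV (n := 4) g := fun k => φ1 k.succ
  have hg0 : 0 < ipp (vec g) φ := by
    have h1 : 0 ≤ ipp (vec g) φ := by
      rw [ip_vec]
      exact integral_nonneg fun z => Finset.sum_nonneg fun k _ => mul_self_nonneg _
    refine lt_of_le_of_ne h1 fun h2 => φ5 ?_
    have h3 : ipp g g = 0 := by
      rw [ip_vec] at h2
      exact h2.symm
    exact form_ne hS hG φ1 φ2 φ3 (fun k z => eq_zero_of_ip hgs h3 k z)
  obtain ⟨r, hr, hC⟩ := exists_r F
  set d : SWD M κT := mkd ww th (fun t k z => (1 - ‖t‖ ^ 2) * g k z) r with hdd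
  have hfit : d.FFit S ww τ C th := by
    refine mkd_ffit F hr hC (fun k => ?_) (fun t ht k z => ?_)
    · exact (continuous_const.sub (continuous_fst.norm.pow 2)).mul
        ((hgs k).continuous.comp continuous_snd)
    · show (1 - ‖t‖ ^ 2) * g k z = 0
      rw [ht]
      ring
  refine hx M κ0 κ1 κT S cc b j d ww τ C th pi U hS hG hj hH hfit ?_ d0 d1 bp hk0 hk1 hk hi
  intro t ht
  -- `w_t`
  set wt : Fin 4 → M → ℝ := ∑ i, t i • vec (ww i) with hwt
  obtain ⟨i1, i2, i3, i4⟩ := sum_all S.H Finset.univ (fun i => t i) (fun i => vec (ww i))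
    (fun i => smV_vec (hsw i)) (fun i => sec_all F.ok _)
  have hrhs : rhs S d t 0 = r • wt + (1 - ‖t‖ ^ 2) • vec g := by
    funext a z
    refine Fin.cases ?_ (fun k => ?_) a
    · simp [rhs, vec, hwt]
    · have h1 : S.rq k (0 : κ0 → M → ℝ) z = 0 := by
        simp [SWS.rq]
      have h2 : wt k.succ z = ∑ i, t i * ww i k z := by
        simp [hwt, vec]
      have h3 : vec g k.succ z = g k z := rfl
      have h4 : d.wt t k z = ∑ i, t i * ww i k z := rfl
      have h5 : d.et t k z = (1 - ‖t‖ ^ 2) * g k z := rfl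
      have h6 : rhs S d t 0 k.succ z =
        d.mu t z * ((1 / 2) * S.rq k 0 z) + d.r * d.wt t k z + d.et t k z := rfl
      rw [h6, h1, h4, h5]
      simp only [Pi.add_apply, Pi.smul_apply, smul_eq_mul]
      rw [h2, h3]
      show _ + r * _ + _ = _
      ring
  by_cases h1 : ‖t‖ = 1
  · refine ⟨wt, i1, fun x z => ?_, ?_⟩
    · rw [i3]
      refine Finset.sum_eq_zero fun i _ => ?_
      rw [show S.H.A (vec (ww i)) x z = 0 from F.harm i x z, mul_zero]
    · rw [hrhs, ip_lin _ _ i1 (smV_vec hgs) i1, h1]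
      have h2 : ipp wt wt = ∫ z, ∑ k, (∑ i, t i * ww i k z) ^ 2 ∂(μHE[4] : Measure M) := by
        unfold Crest.Agent.R249.Tv57.ip
        refine integral_congr_ae (Eventually.of_forall fun z => ?_)
        simp only [Fin.sum_univ_succ (n := 3)]
        simp [hwt, vec, sq]
      rw [h2]
      have h3 := int_wt_pos F h1
      have h4 := mul_pos hr h3
      intro h5
      norm_num at h5
      rcases h5 with h5 | h5
      · exact hr.ne' h5
      · exact h3.ne' h5
  · refine ⟨φ, φ1, φ2, ?_⟩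
    rw [hrhs, ip_lin _ _ i1 (smV_vec hgs) φ1, i4 _ φ1]
    simp only [φ4, mul_zero, Finset.sum_const_zero, zero_add]
    refine mul_ne_zero ?_ hg0.ne'
    have h2 : ‖t‖ < 1 := lt_of_le_of_ne ht h1
    have h3 : 0 ≤ ‖t‖ := norm_nonneg _
    nlinarith

end

end Crest.Agent.R235.SWGeo_659
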