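import Crest.Agent.R235.T4R_837

/-!
Row 235 (S0364), PACKAGE TOR (leader helper225): definitions and nodes (v2: real torus type `T4R`).
From one embedded `J`-torus to a hyperkaehler triple:
`LOCTUBE, INTT, TORLIM ⇒ ATLAS` (foliation by tori, product charts),
`COFRAME` (charts ⇒ closed coframe), `FLATC` (coframe ⇒ straight segments).
Coordinates of `E4`: `y 0, y 1` base, `y 2, y 3` leaf.
-/

set_option autoImplicit false
set_option maxSynthPendingDepth 3

open Set Function Filter MeasureTheory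
open scoped Manifold ContDiff Topology

universe u

namespace Crest.Agent.R235

open Crest.Agent.R240 Crest.Agent.R240.Ch

noncomputable section

/-- the vector `(0, 0, s, t)` (leaf direction). -/
def lv (s t : ℝ) : E4 := WithLp.toLp 2 ![0, 0, s, t]

/-- the vector `(s, t, 0, 0)` (base direction). -/
def bv (s t : ℝ) : E4 := WithLp.toLp 2 ![s, t, 0, 0]

section Defs

variable {M : Type u}

/-- the leaf of `Φ` through `Φ y`, parametrised by the plane. -/
def slice (Φ : E4 → M) (y : E4) : Ep → M := fun q => Φ (y + lv (q 0) (q 1))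

variable [TopologicalSpace M] [ChartedSpace E4 M] [IsManifold 𝓘(ℝ, E4) ∞ M]

/-- the differential of a self-map of `M`, in the preferred charts. -/
def dself (τ : M → M) (x : M) : E4 →L[ℝ] E4 := mfderiv 𝓘(ℝ, E4) 𝓘(ℝ, E4) τ x

/-- a smooth involution preserving the triple. -/
structure Invol (w : Trip M) (τ : M → M) : Prop where
  smooth : ContMDiff 𝓘(ℝ, E4) 𝓘(ℝ, E4) ∞ τ
  inv : ∀ x, τ (τ x) = x
  pres : ∀ i x u v, val (w i) (τ x) (dself τ x u) (dself τ x v) = val (w i) x u v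

/-- an odd one-form. -/
def Odd1 (τ : M → M) (s : F1 E4 M) : Prop := ∀ x v, at1 s (τ x) (dself τ x v) = - at1 s x v

/-- the involution acts by `-1` on the first cohomology. -/
def MinusOne (τ : M → M) : Prop :=
  ∀ s : F1 E4 M, Closed1 s → ∃ f : M → ℝ, SmoothF E4 f ∧
    ∀ x v, at1 s (τ x) (dself τ x v) + at1 s x v = at1 (dF f) x v

/-- a closed coframe `(l 0, l 1, a 0, a 1)` adapted to the pair:
`w 1 = a 0 ∧ l 0 + a 1 ∧ l 1 + h • l 0 ∧ l 1`, and `w 2` vanishes on `ker l 0 ∩ ker l 1`. -/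
structure Cofr (w : Trip M) (l a : Fin 2 → F1 E4 M) : Prop where
  cl : ∀ k, Closed1 (l k)
  ca : ∀ k, Closed1 (a k)
  ind : ∀ (x : M) (v : E4), (∀ k, at1 (l k) x v = 0) → (∀ k, at1 (a k) x v = 0) → v = 0
  w1 : ∀ x, ∃ h : ℝ, val (w 1) x = wed (at1 (a 0) x) (at1 (l 0) x)
    + wed (at1 (a 1) x) (at1 (l 1) x) + h • wed (at1 (l 0) x) (at1 (l 1) x)
  w2 : ∀ x u v, (∀ k, at1 (l k) x u = 0) → (∀ k, at1 (l k) x v = 0) → val (w 2) x u v = 0

end Defs

section Closed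

variable {M : Type u} [TopologicalSpace M] [T2Space M] [CompactSpace M]
  [ChartedSpace E4 M] [IsManifold 𝓘(ℝ, E4) ∞ M]

/-- a product chart `T² × ℝ² → M` all of whose leaves are `J`-tori in the class `f`. -/
structure Tube (w : Trip M) (f : H2 M) (Φ : E4 → M) : Prop where
  smooth : ContMDiff 𝓘(ℝ, E4) 𝓘(ℝ, E4) ∞ Φ
  per : ∀ (y : E4) (m n : ℤ), Φ (y + lv m n) = Φ y
  inj : ∀ y z : E4, Φ y = Φ z → ∃ m n : ℤ, z = y + lv m n
  imm : ∀ y v : E4, dmap Φ y v = 0 → v = 0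
  leaf : ∀ y : E4, JTor w (slice Φ y) f

/-- a foliation of `M` by `J`-tori of class `f`, given by product charts. -/
structure TAtlas (w : Trip M) (f : H2 M) (T : Set (E4 → M)) : Prop where
  tube : ∀ Φ ∈ T, Tube w f Φ
  cover : ∀ x : M, ∃ Φ ∈ T, Φ 0 = x
  cons : ∀ Φ ∈ T, ∀ Ψ ∈ T, ∀ y z : E4, Φ y = Ψ z → range (slice Φ y) = range (slice Ψ z)

/-- the points on `J`-tori of class `f`. -/
def TorPts (w : Trip M) (f : H2 M) : Set M := {x | ∃ σ : Ep → M, JTor w σ f ∧ x ∈ range σ}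

end Closed

/-- B1 (helper384, helper153): around every `J`-torus there is a product chart. -/
def LOCTUBE : Prop :=
  ∀ (M : Type u) [TopologicalSpace M] [T2Space M] [CompactSpace M] [ConnectedSpace M]
    [ChartedSpace E4 M] [IsManifold 𝓘(ℝ, E4) ∞ M] (w : Trip M), Pos3 w →
    ∀ (f : H2 M) (σ : Ep → M), JTor w σ f →
    ∃ Φ : E4 → M, Tube w f Φ ∧ ∀ q : Ep, Φ (lv (q 0) (q 1)) = σ q

/-- INTT (ADJ): two `J`-tori of intersection number `≤ 0` with a common point coincide. -/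
def INTT : Prop :=
  ∀ (M : Type u) [TopologicalSpace M] [T2Space M] [CompactSpace M] [ConnectedSpace M]
    [ChartedSpace E4 M] [IsManifold 𝓘(ℝ, E4) ∞ M] (w : Trip M), Pos3 w →
    ∀ (f g : H2 M) (σ τ : Ep → M), JTor w σ f → JTor w τ g → ip (w 0) f g ≤ 0 →
    (range σ ∩ range τ).Nonempty → range σ = range τ ∧ f = g

/-- TORLIM (SWC/CUR/REG/ADJ): limits of `J`-tori of a fixed class lie on `J`-tori of class `k e`. -/
def TORLIM : Prop :=
  ∀ (M : Type u) [TopologicalSpace M] [T2Space M] [CompactSpace M] [ConnectedSpace M]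
    [ChartedSpace E4 M] [IsManifold 𝓘(ℝ, E4) ∞ M] (w : Trip M) (e : H2 M), Pos3 w →
    T4R (w 0) → TorPos (w 0) e (clw w) → ∀ f : H2 M, ∀ x ∈ closure (TorPts w f),
    ∃ k : ℕ, 0 < k ∧ x ∈ TorPts w ((k : ℝ) • e)

/-- TORUSR (SWC): some positive multiple of `e` is the class of a `J`-torus. -/
def TORUSR : Prop :=
  ∀ (M : Type u) [TopologicalSpace M] [T2Space M] [CompactSpace M] [ConnectedSpace M]
    [ChartedSpace E4 M] [IsManifold 𝓘(ℝ, E4) ∞ M] (w : Trip M) (e : H2 M), Pos3 w →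
    T4R (w 0) → TorPos (w 0) e (clw w) → ∃ k : ℕ, 0 < k ∧ (TorPts w ((k : ℝ) • e)).Nonempty

/-- TORUSX (SWC): through every point passes a `J`-torus of class `k e`. -/
def TORUSX : Prop :=
  ∀ (M : Type u) [TopologicalSpace M] [T2Space M] [CompactSpace M] [ConnectedSpace M]
    [ChartedSpace E4 M] [IsManifold 𝓘(ℝ, E4) ∞ M] (w : Trip M) (e : H2 M), Pos3 w →
    T4R (w 0) → TorPos (w 0) e (clw w) → ∀ x : M, ∃ k : ℕ, 0 < k ∧ x ∈ TorPts w ((k : ℝ) • e)

/-- ATLAS (B2): one `J`-torus of class `k₀ e` ⇒ foliation. -/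
def ATLAS : Prop :=
  ∀ (M : Type u) [TopologicalSpace M] [T2Space M] [CompactSpace M] [ConnectedSpace M]
    [ChartedSpace E4 M] [IsManifold 𝓘(ℝ, E4) ∞ M] (w : Trip M) (e : H2 M), Pos3 w →
    T4R (w 0) → TorPos (w 0) e (clw w) → ∀ k : ℕ, 0 < k → (TorPts w ((k : ℝ) • e)).Nonempty →
    ∃ T : Set (E4 → M), TAtlas w ((k : ℝ) • e) T

/-- COFRAME (A2, helper129): foliation ⇒ closed coframe. -/
def COFRAME : Prop :=
  ∀ (M : Type u) [TopologicalSpace M] [T2Space M] [CompactSpace M] [ConnectedSpace M]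
    [ChartedSpace E4 M] [IsManifold 𝓘(ℝ, E4) ∞ M] (w : Trip M) (f : H2 M), Pos3 w →
    T4R (w 0) → ∀ T : Set (E4 → M), TAtlas w f T →
    ∃ l a : Fin 2 → F1 E4 M, Cofr w l a

/-- COFRAMEI (A2, for KUM): the same, odd for an involution acting by `-1` on `H¹` and preserving
the leaves. -/
def COFRAMEI : Prop :=
  ∀ (M : Type u) [TopologicalSpace M] [T2Space M] [CompactSpace M] [ConnectedSpace M]
    [ChartedSpace E4 M] [IsManifold 𝓘(ℝ, E4) ∞ M] (w : Trip M) (f : H2 M), Pos3 w →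
    T4R (w 0) → ∀ T : Set (E4 → M), TAtlas w f T → ∀ τ : M → M, Invol w τ → MinusOne τ →
    (∀ Φ ∈ T, ∀ y, ∃ Ψ ∈ T, ∃ z, τ '' range (slice Φ y) = range (slice Ψ z)) →
    ∃ l a : Fin 2 → F1 E4 M, Cofr w l a ∧ (∀ k, Odd1 τ (l k)) ∧ ∀ k, Odd1 τ (a k)

/-- FLATC (A1, helper68/helper129): closed coframe ⇒ hyperkaehler triple by two segments. -/
def FLATC : Prop :=
  ∀ (M : Type u) [TopologicalSpace M] [T2Space M] [CompactSpace M] [ConnectedSpace M]
    [ChartedSpace E4 M] [IsManifold 𝓘(ℝ, E4) ∞ M] (w : Trip M), Pos3 w →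
    ∀ l a : Fin 2 → F1 E4 M, Cofr w l a →
    ∃ w1 w' : Trip M, Seg w w1 ∧ Seg w1 w' ∧ HK w' ∧
      (∃ K : ℝ, w1 1 = w 1 ∧ w1 2 = w 2 ∧
        ∀ x, val (w1 0) x = val (w 0) x + K • wed (at1 (l 0) x) (at1 (l 1) x)) ∧
      ∃ (K c : ℝ), (∀ x, val (w' 0) x = K • wed (at1 (l 0) x) (at1 (l 1) x)
          + c • wed (at1 (a 0) x) (at1 (a 1) x)) ∧
        (∀ x, val (w' 1) x = wed (at1 (a 0) x) (at1 (l 0) x) + wed (at1 (a 1) x) (at1 (l 1) x)) ∧
        ∃ s : ℝ, (s = 1 ∨ s = -1) ∧ ∀ x, val (w' 2) x =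
          s • (wed (at1 (a 1) x) (at1 (l 0) x) - wed (at1 (a 0) x) (at1 (l 1) x))

end

end Crest.Agent.R235
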