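import Crest.Agent.R235.KT_604
import Crest.Agent.R235.Props_844
import Crest.Agent.R235.TorDefs_225
import Crest.Agent.R235.T4R_837

/-!
Row 235 (S0364), PACKAGE KUM (leader helper152): definitions and nodes.

`Neck` = `KT_604.KIn` without the double-valued function; `Twist` = the double-valued function
(with prescribed signs of the monodromy); `NeckT` = Thom forms of the removed spheres and smooth
discs transversal to them.

Nodes: `FLATK` (SW: line bundles of real class `0` are trivial), `KTW` (square root of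
`O(∑ C i)`), `K4T` (`b₁ = 4` for the double cover), `MINUSX` (the involution acts by `-1` on
`H¹`), `EVMOVE` (even class moves), `EVT` (equivariant torus theorem), `YAUK`.
-/

set_option autoImplicit false
set_option maxSynthPendingDepth 3

open Set Function Filter MeasureTheory
open scoped Manifold ContDiff Topology

universe u

namespace Crest.Agent.R235

open Crest.Agent.R240 Crest.Agent.R240.Ch Crest.Agent.R235.KT_604

noncomputable section

/-- left multiplication by `i` on `E4 = ℍ`, `z = z₀ + z₁ i + z₂ j + z₃ k`. -/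
def qi (z : E4) : E4 := WithLp.toLp 2 ![-z 1, z 0, -z 3, z 2]

/-- left multiplication by `j`. -/
def qj (z : E4) : E4 := WithLp.toLp 2 ![-z 2, z 3, z 0, -z 1]

/-- left multiplication by `k`. -/
def qk (z : E4) : E4 := WithLp.toLp 2 ![-z 3, -z 2, z 1, z 0]

/-- the connection form `θ = 2 ⟨i z, dz⟩ / |z|²` on `E4 ∖ 0` (`dθ = b₁ ∧ b₂` is the pull-back of
the area form of the unit sphere, `d(|z|² θ) / 4` is the standard Kaehler form). -/
def thL (z : E4) : E4 →L[ℝ] ℝ := (2 / ‖z‖ ^ 2) • innerSL ℝ (qi z)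

/-- compact sets `C i` with necks `phi i : ball ∖ 0 → M ∖ ⋃ C` (two-to-one). -/
structure Neck (M : Type u) [TopologicalSpace M] [ChartedSpace E4 M] (m : ℕ) where
  C : Fin m → Set M
  cpt : ∀ i, IsCompact (C i)
  disj : ∀ i j, i ≠ j → Disjoint (C i) (C j)
  phi : Fin m → E4 → M
  smooth : ∀ i, ContMDiffOn 𝓘(ℝ, E4) 𝓘(ℝ, E4) ∞ (phi i) (PB 1)
  even : ∀ i, ∀ z ∈ PB 1, phi i (-z) = phi i z
  inj : ∀ i, ∀ z ∈ PB 1, ∀ z' ∈ PB 1, phi i z = phi i z' → z' = z ∨ z' = -z
  imm : ∀ i, ∀ z ∈ PB 1, ∀ v : E4, dmap (phi i) z v = 0 → v = 0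
  out : ∀ i j, ∀ z ∈ PB 1, phi i z ∉ C j
  sep : ∀ i j, i ≠ j → ∀ z ∈ PB 1, ∀ z' ∈ PB 1, phi i z ≠ phi j z'
  nbh : ∀ i (r : ℝ), 0 < r → r ≤ 1 → IsOpen (C i ∪ phi i '' PB r)
  shrink : ∀ i (O : Set M), IsOpen O → C i ⊆ O → ∃ r : ℝ, 0 < r ∧ r ≤ 1 ∧ phi i '' PB r ⊆ O

/-- a double-valued function on `M ∖ ⋃ C`, `{v, -v}` locally, with monodromy `s i` on the neck
`i`. -/
structure Twist {M : Type u} [TopologicalSpace M] [ChartedSpace E4 M] {m : ℕ} (K : Neck M m)
    (s : Fin m → ℝ) where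
  N : ℕ
  tw : M → Set (CN N)
  tw_loc : ∀ x, (∀ i, x ∉ K.C i) → ∃ U ∈ 𝓝 x, ∃ v : M → CN N, ContinuousOn v U ∧
    ∀ y ∈ U, v y ≠ 0 ∧ tw y = {v y, - v y}
  psi : Fin m → E4 → CN N
  psi_cont : ∀ i, ContinuousOn (psi i) (PB 1)
  psi_mem : ∀ i, ∀ z ∈ PB 1, psi i z ∈ tw (K.phi i z)
  psi_par : ∀ i, ∀ z ∈ PB 1, psi i (-z) = s i • psi i z

/-- the input of `KT_604`. -/
def Neck.kin {M : Type u} [TopologicalSpace M] [ChartedSpace E4 M] {m : ℕ} (K : Neck M m)
    (t : Twist K (fun _ => -1)) : KIn M m where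
  C := K.C
  cpt := K.cpt
  disj := K.disj
  phi := K.phi
  smooth := K.smooth
  even := K.even
  inj := K.inj
  imm := K.imm
  out := K.out
  sep := K.sep
  nbh := K.nbh
  shrink := K.shrink
  N := t.N
  tw := t.tw
  tw_loc := t.tw_loc
  psi := t.psi
  psi_cont := t.psi_cont
  psi_mem := t.psi_mem
  psi_odd := fun i z hz => by rw [t.psi_par i z hz, neg_one_smul]

section Closed

variable {M : Type u} [TopologicalSpace M] [T2Space M] [CompactSpace M]
  [ChartedSpace E4 M] [IsManifold 𝓘(ℝ, E4) ∞ M]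

/-- `T` is a Thom form of the `i`-th removed sphere in the class `d`: supported in the closed
half neck, `phi i ^* T = d(f(|z|²) θ)` with `f = -1/(2π)` near `0`. -/
def IsThom {m : ℕ} (K : Neck M m) (i : Fin m) (d : H2 M) (T : Z2 M) : Prop :=
  cls T = d ∧ (∀ x, x ∉ K.C i → (∀ z ∈ PB (1 / 2), x ≠ K.phi i z) → val T x = 0) ∧
  ∃ f : ℝ → ℝ, ContDiff ℝ ∞ f ∧ (∃ r > 0, ∀ t < r, f t = -1 / (2 * Real.pi)) ∧
    (∀ t, 1 / 4 ≤ t → f t = 0) ∧
    ∀ z ∈ PB 1, ∀ u v, val T (K.phi i z) (dmap (K.phi i) z u) (dmap (K.phi i) z v) =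
      d1 (fun y => f (‖y‖ ^ 2) • thL y) z u v

/-- a smooth disc `D` through `C i`, `D(r e^{it}) = phi i (√r e^{it/2} v)`. -/
def IsDisc {m : ℕ} (K : Neck M m) (i : Fin m) : Prop :=
  ∃ (v : E4) (D : Ep → M) (r₀ : ℝ), ‖v‖ = 1 ∧ 0 < r₀ ∧ r₀ ≤ 1 ∧
    ContMDiffOn 𝓘(ℝ, Ep) 𝓘(ℝ, E4) ∞ D (Metric.ball 0 r₀) ∧ D 0 ∈ K.C i ∧
    ∀ r t : ℝ, 0 < r → r < r₀ →
      D (WithLp.toLp 2 ![r * Real.cos t, r * Real.sin t]) =
        K.phi i (√r • (Real.cos (t / 2) • v + Real.sin (t / 2) • qi v))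

/-- Thom forms and discs for all the removed spheres. -/
structure NeckT {m : ℕ} (K : Neck M m) (d : Fin m → H2 M) : Prop where
  thom : ∀ i, ∃ T : Z2 M, IsThom K i (d i) T
  disc : ∀ i, IsDisc K i

/-- even triples. -/
def EvenT (τ : M → M) (w : Trip M) : Prop :=
  ∀ i x u v, val (w i) (τ x) (dself τ x u) (dself τ x v) = val (w i) x u v

/-- polygonal paths of positive triples which are even for `τ`. -/
def PLE (τ : M → M) (w w' : Trip M) : Prop :=
  Relation.ReflTransGen (fun a b => Seg a b ∧ EvenT τ a ∧ EvenT τ b) w w'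

/-- `w` has constant coefficients in the closed coframe `s`. -/
def FlatIn (w : Trip M) (s : Fin 4 → F1 E4 M) : Prop :=
  (∀ i, Closed1 (s i)) ∧ (∀ (x : M) (v : E4), (∀ i, at1 (s i) x v = 0) → v = 0) ∧
  ∃ c : Fin 3 → Fin 4 → Fin 4 → ℝ, ∀ k x,
    val (w k) x = ∑ i, ∑ j, c k i j • wed (at1 (s i) x) (at1 (s j) x)

end Closed

/-! ### nodes -/

/-- FLATK (SW): for K3 type a complex line bundle of real class `0` is trivial. -/
def FLATK : Prop :=
  ∀ (M : Type u) [TopologicalSpace M] [T2Space M] [CompactSpace M] [ConnectedSpace M]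
    [ChartedSpace E4 M] [IsManifold 𝓘(ℝ, E4) ∞ M] (w : Trip M), Pos3 w → K3Type (w 0) →
    ∀ (N : ℕ) (p : M → Matrix (Fin N) (Fin N) ℂ) (a : Z2 M), IsLine p → IsChern p a → cls a = 0 →
    ∃ s : M → (Fin N → ℂ), (∀ j, ContMDiff 𝓘(ℝ, E4) 𝓘(ℝ, ℂ) ∞ (fun x => s x j)) ∧
      ∀ x, s x ≠ 0 ∧ (p x).mulVec (s x) = s x

/-- KTW (from FLATK): if half the sum of the Thom classes of the spheres `i ∈ I` is integral,
there is a double-valued function with monodromy `-1` exactly on the necks `i ∈ I`. -/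
def KTW : Prop :=
  ∀ (M : Type u) [TopologicalSpace M] [T2Space M] [CompactSpace M] [ConnectedSpace M]
    [ChartedSpace E4 M] [IsManifold 𝓘(ℝ, E4) ∞ M] (w : Trip M), Pos3 w → K3Type (w 0) →
    ∀ (m : ℕ) (K : Neck M m) (d : Fin m → H2 M), NeckT K d → ∀ I : Finset (Fin m),
    ((1 : ℝ) / 2) • ∑ i ∈ I, d i ∈ HZ M → Nonempty (Twist K (fun i => if i ∈ I then -1 else 1))

/-- K4T (from DICH and FLATK on `X`): the double cover is of torus type, if there is a
double-valued function with monodromy `-1` exactly on the necks `i ∈ I`, `I` proper and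
non-empty. -/
def K4T : Prop :=
  ∀ (M : Type u) [TopologicalSpace M] [T2Space M] [CompactSpace M] [ConnectedSpace M]
    [ChartedSpace E4 M] [IsManifold 𝓘(ℝ, E4) ∞ M] (m : ℕ) (K : Neck M m)
    (t : Twist K (fun _ => -1)) (I : Finset (Fin m)), I.Nonempty → I ≠ Finset.univ →
    Nonempty (Twist K (fun i => if i ∈ I then -1 else 1)) →
    ∀ (X : Type u) [TopologicalSpace X] [T2Space X] [CompactSpace X] [ConnectedSpace X]
    [ChartedSpace E4 X] [IsManifold 𝓘(ℝ, E4) ∞ X], KOut (K.kin t) X →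
    ∀ u : Trip X, Pos3 u → T4R (u 0)

/-- MINUSX: if `b₁(M) = 0` the involution of `X` acts by `-1` on `H¹(X)`. -/
def MINUSX : Prop :=
  ∀ (M : Type u) [TopologicalSpace M] [T2Space M] [CompactSpace M] [ConnectedSpace M]
    [ChartedSpace E4 M] [IsManifold 𝓘(ℝ, E4) ∞ M], B1Zero M → ∀ (m : ℕ) (K : KIn M m)
    (X : Type u) [TopologicalSpace X] [T2Space X] [CompactSpace X] [ConnectedSpace X]
    [ChartedSpace E4 X] [IsManifold 𝓘(ℝ, E4) ∞ X] (O : KOut K X), MinusOne O.io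

/-- EVMOVE: on a manifold of torus type with an involution acting by `-1` on `H¹` every positive
frame of classes in the right component is reached through even triples. -/
def EVMOVE : Prop :=
  ∀ (X : Type u) [TopologicalSpace X] [T2Space X] [CompactSpace X] [ConnectedSpace X]
    [ChartedSpace E4 X] [IsManifold 𝓘(ℝ, E4) ∞ X] (w : Trip X) (τ : X → X), Pos3 w →
    T4R (w 0) → Invol w τ → MinusOne τ → ∃ (e : H2 X) (w' : Trip X),
    TorPos (w' 0) e (clw w') ∧ PLE τ w w' ∧ Pos3 w' ∧ EvenT τ w' ∧ T4R (w' 0)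

/-- EVT: the equivariant torus theorem. -/
def EVT : Prop :=
  ∀ (X : Type u) [TopologicalSpace X] [T2Space X] [CompactSpace X] [ConnectedSpace X]
    [ChartedSpace E4 X] [IsManifold 𝓘(ℝ, E4) ∞ X] (w : Trip X) (τ : X → X), Pos3 w →
    T4R (w 0) → Invol w τ → MinusOne τ →
    ∃ (w' : Trip X) (s : Fin 4 → F1 E4 X), PLE τ w w' ∧ Pos3 w' ∧ EvenT τ w' ∧ FlatIn w' s ∧
      ∀ i, Odd1 τ (s i)

/-- YAUK (package YAU): a closed pair with the algebraic relations of a holomorphic symplectic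
form and a closed positive `(1,1)` form can be joined to a hyperkaehler triple. -/
def YAUK : Prop :=
  ∀ (M : Type u) [TopologicalSpace M] [T2Space M] [CompactSpace M] [ConnectedSpace M]
    [ChartedSpace E4 M] [IsManifold 𝓘(ℝ, E4) ∞ M] (w : Trip M), Pos3 w →
    (∀ x, W (val (w 1) x) (val (w 1) x) = W (val (w 2) x) (val (w 2) x) ∧
      W (val (w 1) x) (val (w 2) x) = 0 ∧ W (val (w 0) x) (val (w 1) x) = 0 ∧
      W (val (w 0) x) (val (w 2) x) = 0) →
    ∃ w' : Trip M, Seg w w' ∧ HK w'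

end

end Crest.Agent.R235
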