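import Crest.Agent.R235.RiemB_399

/-!
Row 235, package IND, node IND-2 (RIEM), part 3 (helper399): the Riemannian volume form of a compatible
pair `(F, J)` is a volume form in the sense of R249 (`Tz805.IsVol`).  No orientation of the charts is needed.

`volF F z v = (F ∧ F)(v 0, .., v 3) / 2`; `exists_pos_onf` (positive smooth orthonormal frames),
`volAt_volF`, `isVol_volF`.
-/

set_option autoImplicit false
set_option maxSynthPendingDepth 3
set_option linter.unusedSectionVars false
set_option linter.unusedVariables false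
set_option linter.style.haveILetI false

open Set Function Filter Bundle Manifold
open scoped Manifold ContDiff Topology ENNReal
open Crest.GeometryTopology.CoordMetric Crest.GeometryTopology.ChartCurvature
open Crest.Agent.R240 Crest.Agent.R240.Ch
open Crest.Agent.R202.Tens
open Crest.Agent.R247.Bo84 hiding trans
open Crest.Agent.R249.Vf281 Crest.Agent.R249.Tz2_805 Crest.Agent.R249.FrmB_285
open Crest.Agent.R249.FrmC_285 Crest.Agent.R249.Fr129 Crest.Agent.R249.Sg129
open Crest.Agent.R235.IndVol_57 Crest.Agent.R235.RiemB_399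

universe u

namespace Crest.Agent.R235.RiemC_399

noncomputable section

/-! ### linear algebra -/

theorem WF_mat {b c : Bil} (hb : Alt b) (hc : Alt c) (v : Fin 4 → E4) :
    WF b c v = (mat v).det * W b c := by
  rw [WF_det hb hc, Crest.Agent.R240.det_eq]
  congr 1
  show Matrix.det _ = Matrix.det _
  congr 1
  ext i j
  rw [mat_apply]
  exact congrArg (fun w : E4 => w i) (colM_ee v j)

theorem WF_change {b c : Bil} (hb : Alt b) (hc : Alt c) (e : Fin 4 → E4)
    (O : Matrix (Fin 4) (Fin 4) ℝ) :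
    WF b c (fun i => ∑ a, O i a • e a) = O.det * WF b c e := by
  rw [WF_mat hb hc, WF_mat hb hc, det_change, mul_assoc]

variable {M : Type u} [TopologicalSpace M] [ChartedSpace E4 M] [IsManifold 𝓘(ℝ, E4) ∞ M]
  [RiemannianBundle (fun x : M => TangentSpace 𝓘(ℝ, E4) x)]
  [IsContMDiffRiemannianBundle 𝓘(ℝ, E4) ∞ E4 (fun x : M => TangentSpace 𝓘(ℝ, E4) x)]

/-- the volume form of `F`. -/
def volF (F : F2 E4 M) (z : M) (v : Fin 4 → TangentSpace 𝓘(ℝ, E4) z) : ℝ :=
  WF (at2 F z) (at2 F z) (v : Fin 4 → E4) / 2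

theorem volF_rep (F : F2 E4 M) (p : M) {y : E4} (hy : y ∈ (chartAt E4 p).target)
    (X : Fin 4 → (q : M) → TangentSpace 𝓘(ℝ, E4) q) :
    volF F ((chartAt E4 p).symm y) (fun i => X i ((chartAt E4 p).symm y)) =
      WF (rep p F y) (rep p F y) (fun i => vCh 4 p (X i) y) / 2 := by
  have h : ∀ i j, rep p F y (vCh 4 p (X i) y) (vCh 4 p (X j) y) =
      at2 F ((chartAt E4 p).symm y) (X i ((chartAt E4 p).symm y)) (X j ((chartAt E4 p).symm y)) := by
    intro i j
    rw [vCh_repV p hy, vCh_repV p hy]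
    exact rep_repV hy F (X i : VF E4 M) (X j : VF E4 M)
  unfold volF WF
  simp only [h]

/-- `(F, J)` is compatible with the metric. -/
structure Comp (F : F2 E4 M) (J : EndF E4 M) : Prop where
  alt : ∀ x, Alt (at2 F x)
  cont : ∀ p : M, ContinuousOn (rep p F) (chartAt E4 p).target
  sq : ∀ x v, atJ J x (atJ J x v) = -v
  met : ∀ (x : M) (u v : TangentSpace 𝓘(ℝ, E4) x), inner ℝ u v = at2 F x u (atJ J x v)

variable {F : F2 E4 M} {J : EndF E4 M}

theorem Comp.rep_met (h : Comp F J) (p : M) {y : E4} (hy : y ∈ (chartAt E4 p).target) (u v : E4) :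
    rep p F y u (repJ p J y v) = bil (chartMetric 4 M p y) u v := by
  have h1 := bil_chartMetric (n := 4) p y u v
  have h2 := dSy_tcc p hy u
  have h3 := dSy_tcc p hy v
  refine Eq.trans ?_ h1.symm
  refine Eq.trans ?_ (h.met _ _ _).symm
  rw [rep_apply, h2, h3, repJ_apply, tcc_cancel' (symm_mem hy)]

theorem Comp.repJ_sq (h : Comp F J) (p : M) {y : E4} (hy : y ∈ (chartAt E4 p).target) (v : E4) :
    repJ p J y (repJ p J y v) = -v := by
  have hx := symm_mem hy
  rw [repJ_apply, repJ_apply, tcc_cancel' hx, h.sq, map_neg, tcc_cancel hx]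

theorem Comp.abs_WF (h : Comp F J) (p : M) {y : E4} (hy : y ∈ (chartAt E4 p).target)
    {e : Fin 4 → E4} (he : Orth (chartMetric 4 M p y) e) :
    |WF (rep p F y) (rep p F y) e| = 2 :=
  WF_abs (Int.rep_alt h.alt p y) (h.repJ_sq p hy) fun i j => by rw [h.rep_met p hy, he i j]

/-! ### frames -/

theorem contAt_WF (h : Comp F J) (z : M) {e : Fin 4 → E4 → E4}
    (he : ∀ i, ContinuousAt (e i) (chartCentre 4 M z)) :
    ContinuousAt (fun y => WF (rep z F y) (rep z F y) fun i => e i y) (chartCentre 4 M z) := by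
  have hr : ContinuousAt (rep z F) (chartCentre 4 M z) :=
    (h.cont z).continuousAt ((chartAt E4 z).open_target.mem_nhds (mem_chart_target E4 z))
  have h2 : ∀ i j, ContinuousAt (fun y => rep z F y (e i y) (e j y)) (chartCentre 4 M z) :=
    fun i j => (hr.clm_apply (he i)).clm_apply (he j)
  unfold WF
  exact ((((((h2 _ _).mul (h2 _ _)).sub ((h2 _ _).mul (h2 _ _))).add ((h2 _ _).mul (h2 _ _))).add
    ((h2 _ _).mul (h2 _ _))).sub ((h2 _ _).mul (h2 _ _))).add ((h2 _ _).mul (h2 _ _))

/-- an orthonormal frame which is positive at the centre is positive near the centre. -/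
theorem eventually_two (h : Comp F J) (z : M) {e : Fin 4 → E4 → E4}
    (ho : ONF (chartMetric 4 M z) (chartAt E4 z).target (chartCentre 4 M z) e)
    (hp : 0 < WF (rep z F (chartCentre 4 M z)) (rep z F (chartCentre 4 M z))
      fun i => e i (chartCentre 4 M z)) :
    ∀ᶠ y in 𝓝 (chartCentre 4 M z), Orth (chartMetric 4 M z y) (fun i => e i y) ∧
      WF (rep z F y) (rep z F y) (fun i => e i y) = 2 := by
  have h1 := (contAt_WF h z fun i => (ho.smooth i).continuousAt).eventually (lt_mem_nhds hp)
  filter_upwards [h1, ho.orth, (chartAt E4 z).open_target.mem_nhds (centre_mem (n := 4) z)]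
    with y hy hor hyt
  have h2 := h.abs_WF z hyt (e := fun i => e i y) hor
  rw [abs_of_pos hy] at h2
  exact ⟨hor, h2⟩

/-- **`VolAt`** for positive frames. -/
theorem volAt_volF (h : Comp F J) (z : M) {e : Fin 4 → E4 → E4}
    (ho : ONF (chartMetric 4 M z) (chartAt E4 z).target (chartCentre 4 M z) e)
    (hp : 0 < WF (rep z F (chartCentre 4 M z)) (rep z F (chartCentre 4 M z))
      fun i => e i (chartCentre 4 M z)) : R249.Tz805.VolAt (volF F) z e := by
  filter_upwards [eventually_two h z ho hp, (chartAt E4 z).open_target.mem_nhds (centre_mem (n := 4) z)]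
    with y hy hyt
  intro X
  refine (volF_rep F z hyt X).trans ?_
  have h1 : (fun i => vCh 4 z (X i) y) = fun i =>
      ∑ a, (Matrix.of fun i j => bil (chartMetric 4 M z y) (vCh 4 z (X i) y) (e j y)) i a • e a y := by
    funext i
    exact hy.1.isFrame.expand (isRiemannianOn_chartMetric (n := 4) z) hyt (vCh 4 z (X i) y)
  rw [h1, WF_change (Int.rep_alt h.alt z y) (Int.rep_alt h.alt z y) (fun a => e a y), hy.2]
  ring

/-- **positive smooth orthonormal frames.** -/
theorem exists_pos_onf (h : Comp F J) (z : M) : ∃ e : Fin 4 → E4 → E4,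
    ONF (chartMetric 4 M z) (chartAt E4 z).target (chartCentre 4 M z) e ∧
      0 < WF (rep z F (chartCentre 4 M z)) (rep z F (chartCentre 4 M z))
        fun i => e i (chartCentre 4 M z) := by
  obtain ⟨e, ho, hpos⟩ := R249.Trw_285.exists_onf (n := 4) z (centre_mem (n := 4) z)
  obtain ⟨e', ho', hneg⟩ := R249.Vol_285.exists_onf_neg (M := M) z
  have hr := Int.rep_alt h.alt z (chartCentre 4 M z)
  have h1 := hpos.self_of_nhds
  have h2 := hneg.self_of_nhds
  have h3 := h.abs_WF z (centre_mem (n := 4) z) (e := fun i => e i (chartCentre 4 M z)) h1.1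
  rcases lt_or_ge 0 (WF (rep z F (chartCentre 4 M z)) (rep z F (chartCentre 4 M z))
      fun i => e i (chartCentre 4 M z)) with h4 | h4
  · exact ⟨e, ho, h4⟩
  · refine ⟨e', ho', ?_⟩
    rw [WF_mat hr hr] at h4 h3 ⊢
    have h5 : W (rep z F (chartCentre 4 M z)) (rep z F (chartCentre 4 M z)) < 0 := by
      by_contra h6
      push Not at h6
      have h7 := mul_nonneg h1.2.le h6
      have h8 := le_antisymm h4 h7
      rw [h8, abs_zero] at h3
      norm_num at h3
    exact mul_pos_of_neg_of_neg h2.2 h5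

/-- **`volF F` is a volume form in the sense of R249.** -/
theorem isVol_volF (h : Comp F J) : R249.Tz805.IsVol (volF (M := M) F) := by
  intro z
  obtain ⟨e, ho, hp⟩ := exists_pos_onf h z
  exact ⟨e, ho, volAt_volF h z ho hp⟩

/-- `F` is nondegenerate. -/
theorem Comp.vol (h : Comp F J) : Int.Vol F where
  alt := h.alt
  cont := h.cont
  ne x := by
    intro h0
    obtain ⟨e, ho, hp⟩ := exists_pos_onf h x
    have hr := Int.rep_alt h.alt x (chartCentre 4 M x)
    have h1 : rep x F (chartCentre 4 M x) = at2 F x := by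
      ext u v
      exact rep_self x F u v
    rw [WF_mat hr hr, h1, h0, mul_zero] at hp
    exact lt_irrefl _ hp

/-- the data of `exists_riem` for the metric `F(u, J v)`. -/
theorem comp_of {F : F2 E4 M} {J : EndF E4 M} (hF : Smooth2 F) (hsq : ∀ x v, atJ J x (atJ J x v) = -v)
    (hin : ∀ (x : M) (u v : TangentSpace 𝓘(ℝ, E4) x), inner ℝ u v = at2 (Riem_399.gF F J) x u v) :
    Comp F J where
  alt := hF.1
  cont p := (hF.2 p).continuousOn
  sq := hsq
  met := hin

end

/-! ### the form `Cpt` of `IndVol_57` -/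

section

variable {M : Type u} [MetricSpace M] [ChartedSpace E4 M] [IsManifold 𝓘(ℝ, E4) ∞ M]
  [RiemannianBundle (fun x : M => TangentSpace 𝓘(ℝ, E4) x)]
  [IsContMDiffRiemannianBundle 𝓘(ℝ, E4) ∞ E4 (fun x : M => TangentSpace 𝓘(ℝ, E4) x)]

theorem Comp.cpt {F : F2 E4 M} {J : EndF E4 M} (h : Comp F J) : Cpt F J where
  vol := h.vol
  sq := h.sq
  met := h.met

end

end Crest.Agent.R235.RiemC_399
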