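import Crest.Agent.R235.IndTri_451
import Crest.Agent.R235.IndQS_167
import Crest.Agent.R235.RiemB_399
import Crest.Agent.R235.RiemC_399

/-!
Row 235 (helper451): the bridge from the Gram-Schmidt triple `IsTri w e` (IND-1) to the quaternionic
structure `QS M` of helper167, over a Riemannian metric which is `gg e`.
-/

set_option autoImplicit false
set_option maxSynthPendingDepth 3
set_option linter.unusedSectionVars false

open Set Function Filter Bundle Manifold
open scoped Manifold ContDiff Topology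

universe u

namespace Crest.Agent.R235.QSTri_451

open Crest.Agent.R240 Crest.Agent.R240.Ch
open Crest.Agent.R235.IndTri_451 Crest.Agent.R235.Ind167
open Crest.Agent.R249.Tz2_805

noncomputable section

section top

variable {M : Type u} [TopologicalSpace M] [ChartedSpace E4 M] [IsManifold 𝓘(ℝ, E4) ∞ M]

/-- the metric of a triple is a `Met` of helper399. -/
theorem met_gg {w e : Fin 3 → F2 E4 M} (h : IsTri w e) : Riem_399.Met (gg e) :=
  ⟨h.g_smooth, h.g_symm, h.pos⟩

end top

variable {M : Type u} [TopologicalSpace M] [ChartedSpace E4 M] [IsManifold 𝓘(ℝ, E4) ∞ M]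
  [RiemannianBundle (fun x : M => TangentSpace 𝓘(ℝ, E4) x)]
  [IsContMDiffRiemannianBundle 𝓘(ℝ, E4) ∞ E4 (fun x : M => TangentSpace 𝓘(ℝ, E4) x)]

/-- the quaternionic structure of a triple. -/
def qs {w e : Fin 3 → F2 E4 M} (h : IsTri w e)
    (hin : ∀ (x : M) (u v : TangentSpace 𝓘(ℝ, E4) x), inner ℝ u v = at2 (gg e) x u v) : QS M where
  I b p := atJ (II e b) p
  sm b X z hX := RiemB_399.VSm_endo (h.I_smooth b) hX
  skew b p u v := by
    rw [hin, hin]
    exact h.g_skew b p u v
  sq b p u := h.I_sq b p u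
  mul p u := h.I_mul 0 p u

theorem qs_I {w e : Fin 3 → F2 E4 M} (h : IsTri w e)
    (hin : ∀ (x : M) (u v : TangentSpace 𝓘(ℝ, E4) x), inner ℝ u v = at2 (gg e) x u v)
    (b : Fin 3) (p : M) : (qs h hin).I b p = atJ (II e b) p := rfl

/-- `e_b (u, v) = ⟨I_b u, v⟩`. -/
theorem e_eq_inner {w e : Fin 3 → F2 E4 M} (h : IsTri w e)
    (hin : ∀ (x : M) (u v : TangentSpace 𝓘(ℝ, E4) x), inner ℝ u v = at2 (gg e) x u v)
    (b : Fin 3) (x : M) (u v : TangentSpace 𝓘(ℝ, E4) x) :
    at2 (e b) x u v = inner ℝ ((qs h hin).op b x u) v := by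
  rw [hin]
  exact h.e_eq b x u v

/-- `(e_i, I_i)` is compatible with the metric, for every `i`. -/
theorem comp {w e : Fin 3 → F2 E4 M} (h : IsTri w e)
    (hin : ∀ (x : M) (u v : TangentSpace 𝓘(ℝ, E4) x), inner ℝ u v = at2 (gg e) x u v)
    (i : Fin 3) : RiemC_399.Comp (e i) (II e i) where
  alt := (h.smooth i).1
  cont p := ((h.smooth i).2 p).continuousOn
  sq := h.I_sq i
  met x u v := by rw [hin]; exact h.g_eq i x u v

/-- `(w_0, I_0)` is compatible with the metric. -/
theorem comp_w {w e : Fin 3 → F2 E4 M} (h : IsTri w e)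
    (hin : ∀ (x : M) (u v : TangentSpace 𝓘(ℝ, E4) x), inner ℝ u v = at2 (gg e) x u v) :
    RiemC_399.Comp (w 0) (II e 0) := by
  rw [← h.e_zero]; exact comp h hin 0

end

end Crest.Agent.R235.QSTri_451
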