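import Crest.Agent.R235.SWJDefs_53
import Crest.Agent.R235.Top_837
import Crest.Agent.R235.KumDefs_152
import Crest.Agent.R235.BPlus_723
import Crest.Agent.R235.RiemC_399
import Crest.Agent.R235.QSTri_451
import Crest.Agent.R247.Gs2_939

/-!
Row 235 (S0364), PACKAGE SW (helper53): the THREE ENDS of the package.

* `MODR` : the model for a root orthogonal to the triple;       `root_of  : GEOX → MODR → ROOT.{0}`
* `MODF` : the model for a line bundle of real class zero;       `flatk_of : GEOFL → MODF → FLATK.{0}`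
* `MODB` : the model for the trivial bundle, over the Jacobian;  `bplus_of : BPF → MODB → BPLUS.{0}`

The Props `MOD*` are what MODEL (344, 755, 451, 483, 453, 399, 470), IND (167, 692, 723) and HODGE (194)
have to deliver.
-/

set_option autoImplicit false
set_option maxSynthPendingDepth 3
set_option linter.unusedSectionVars false
set_option linter.style.haveILetI false

open scoped ContDiff ENNReal NNReal Topology Manifold Bundle RealInnerProductSpace
open MeasureTheory Set Filter Metric Bundle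

namespace Crest.Agent.R235.SWTop_53

open Crest.Agent.R240 Crest.Agent.R240.Ch
open Crest.Agent.R249.Tv57 Crest.Agent.R247.Ms322 Crest.Agent.R247.Dir593
open Crest.Agent.R235.SWDefs_53 Crest.Agent.R235.SWSym_451
open Crest.Agent.R235.IndTri_451

noncomputable section

/-- **MODR** : root orthogonal to the triple. -/
def MODR : Prop :=
  ∀ (M : Type) [MetricSpace M] [CompactSpace M] [ConnectedSpace M]
    [ChartedSpace (EuclideanSpace ℝ (Fin 4)) M] [IsManifold (𝓡 4) ∞ M]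
    [RiemannianBundle (fun p : M => TangentSpace (𝓡 4) p)]
    [IsContMDiffRiemannianBundle (𝓡 4) ∞ (EuclideanSpace ℝ (Fin 4))
      (fun p : M => TangentSpace (𝓡 4) p)]
    [IsRiemannianManifold (𝓡 4) M] [MeasurableSpace M] [BorelSpace M]
    [SecondCountableTopology M] [Nonempty M] [IsFiniteMeasureOnCompacts (μHE[4] : Measure M)]
    (w : Trip M) (e : Fin 3 → F2 E4 M), Pos3 w → IsTri (und w) e →
    (∀ (x : M) (u v : TangentSpace 𝓘(ℝ, E4) x), inner ℝ u v = at2 (gg e) x u v) →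
    K3Type (w 0) → ∀ d ∈ Root (w 0), (∀ i, ip (w 0) d (cls (w i)) = 0) →
    ∃ (κ0 κ1 κT : Type) (_ : Fintype κ0) (_ : Fintype κ1) (_ : Fintype κT)
      (S : SWS M κ0 κ1 κT) (ww : Fin 3 → Fin 3 → M → ℝ) (τ : E3 → TD M κT) (C e2 : ℝ)
      (d0 d1 : ℕ), Fam S ww τ C e2 ∧ e2 ≠ 0 ∧
      Nonempty (KerD S.D0 S.P.A d0) ∧ Nonempty (KerD S.D1 S.P.B d1) ∧ d1 < d0 ∧
      Nonempty (KerD S.DL S.H.A 4)

/-- **MODF** : line bundle of real class zero, `b₁ = 0`. -/
def MODF : Prop :=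
  ∀ (M : Type) [MetricSpace M] [CompactSpace M] [ConnectedSpace M]
    [ChartedSpace (EuclideanSpace ℝ (Fin 4)) M] [IsManifold (𝓡 4) ∞ M]
    [RiemannianBundle (fun p : M => TangentSpace (𝓡 4) p)]
    [IsContMDiffRiemannianBundle (𝓡 4) ∞ (EuclideanSpace ℝ (Fin 4))
      (fun p : M => TangentSpace (𝓡 4) p)]
    [IsRiemannianManifold (𝓡 4) M] [MeasurableSpace M] [BorelSpace M]
    [SecondCountableTopology M] [Nonempty M] [IsFiniteMeasureOnCompacts (μHE[4] : Measure M)]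
    (w : Trip M) (e : Fin 3 → F2 E4 M), Pos3 w → IsTri (und w) e →
    (∀ (x : M) (u v : TangentSpace 𝓘(ℝ, E4) x), inner ℝ u v = at2 (gg e) x u v) →
    K3Type (w 0) → ∀ (N : ℕ) (p : M → Matrix (Fin N) (Fin N) ℂ) (a : Z2 M),
    IsLine p → IsChern p a → cls a = 0 →
    ∃ (κ0 κ1 κT : Type) (_ : Fintype κ0) (_ : Fintype κ1) (_ : Fintype κT)
      (S : SWS M κ0 κ1 κT) (cc : κ1 → κ0 → M → EuclideanSpace ℝ (Fin 4))
      (ww : Fin 3 → Fin 3 → M → ℝ) (τ : E3 → TD M κT) (C : ℝ)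
      (th : E3 → κT → M → ℝ) (d0 d1 : ℕ), FFam S ww τ C th ∧ Sym S cc ∧
      Nonempty (KerD S.D0 S.P.A d0) ∧ Nonempty (KerD S.D1 S.P.B d1) ∧ d1 < d0 ∧
      Nonempty (KerD S.DL S.H.A 4) ∧
      ∀ (t : E3) (s : κ0 → M → ℝ), ‖t‖ = 1 → (τ t).PSec S (th t) (1 / 2) s →
        ∃ v : M → (Fin N → ℂ), (∀ j, ContMDiff 𝓘(ℝ, E4) 𝓘(ℝ, ℂ) ∞ (fun x => v x j)) ∧
          ∀ x, v x ≠ 0 ∧ (p x).mulVec (v x) = v x

/-- **MODB** : the trivial bundle, with the Jacobian torus; `bp = b⁺`. -/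
def MODB : Prop :=
  ∀ (M : Type) [MetricSpace M] [CompactSpace M] [ConnectedSpace M]
    [ChartedSpace (EuclideanSpace ℝ (Fin 4)) M] [IsManifold (𝓡 4) ∞ M]
    [RiemannianBundle (fun p : M => TangentSpace (𝓡 4) p)]
    [IsContMDiffRiemannianBundle (𝓡 4) ∞ (EuclideanSpace ℝ (Fin 4))
      (fun p : M => TangentSpace (𝓡 4) p)]
    [IsRiemannianManifold (𝓡 4) M] [MeasurableSpace M] [BorelSpace M]
    [SecondCountableTopology M] [Nonempty M] [IsFiniteMeasureOnCompacts (μHE[4] : Measure M)]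
    (w : Trip M) (e : Fin 3 → F2 E4 M), Pos3 w → IsTri (und w) e →
    (∀ (x : M) (u v : TangentSpace 𝓘(ℝ, E4) x), inner ℝ u v = at2 (gg e) x u v) →
    ∃ (κ0 κ1 κT : Type) (_ : Fintype κ0) (_ : Fintype κ1) (_ : Fintype κT)
      (S : SWS M κ0 κ1 κT) (cc : κ1 → κ0 → M → EuclideanSpace ℝ (Fin 4)) (b : ℕ) (j : JD M κT b)
      (ww : Fin 3 → Fin 3 → M → ℝ) (τ : E3 → TD M κT) (C : ℝ)
      (th : E3 → κT → M → ℝ) (pi : EuclideanSpace ℂ (Fin 2) → E3)
      (U : EuclideanSpace ℂ (Fin 2) → κ0 → M → ℝ) (d0 d1 bp : ℕ),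
      Sym S cc ∧ GrdH S ∧ j.OK S ∧ HopfD S ww τ C th pi U ∧
      Nonempty (KerD S.D0 S.P.A d0) ∧ Nonempty (KerD S.D1 S.P.B d1) ∧
      Nonempty (KerD S.DL S.H.A (1 + bp)) ∧ d0 + b = d1 + 1 + bp ∧
      ∃ P N : Submodule ℝ (H2 M), FiniteDimensional ℝ (H2 M) ∧ P ⊔ N = ⊤ ∧
        Module.finrank ℝ P = bp ∧
        (∀ x ∈ P, x ≠ 0 → 0 < ip (w 0) x x) ∧ (∀ x ∈ N, x ≠ 0 → ip (w 0) x x < 0) ∧
        (∀ x ∈ P, ∀ y ∈ N, ip (w 0) x y = 0)

/-- **ROOT** from `GEOX` and the model. -/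
theorem root_of (hG : GEOX.{0}) (hM : MODR) : ROOT.{0} := by
  intro M tM _ _ _ _ _ w hw hK d hd
  by_contra hcon
  push Not at hcon
  obtain ⟨e, he⟩ := IndTri_451.exists_tri hw
  obtain ⟨rb, crb, mM, rfl, hdd, hin⟩ := Riem_399.exists_riem (QSTri_451.met_gg he)
  haveI : IsRiemannianManifold (𝓡 4) M := ⟨hdd⟩
  letI : MeasurableSpace M := borel M
  haveI : BorelSpace M := ⟨rfl⟩
  haveI := Riem_399.secondCountable (M := M)
  haveI : IsFiniteMeasureOnCompacts (μHE[4] : Measure M) :=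
    Crest.Agent.R247.Gs939.finOnCompacts (n := 4) (M := M)
  obtain ⟨κ0, κ1, κT, i0, i1, iT, S, ww, τ, C, e2, d0, d1, hF, he2, h0, h1, hlt, h4⟩ :=
    hM M w e hw he hin hK d hd hcon
  exact hG M κ0 κ1 κT S ww τ C e2 hF he2 d0 d1 h0 h1 hlt h4

/-- **FLATK** from `GEOFL` and the model. -/
theorem flatk_of (hG : GEOFL.{0}) (hM : MODF) : FLATK.{0} := by
  intro M tM _ _ _ _ _ w hw hK N p a hp hc ha
  obtain ⟨e, he⟩ := IndTri_451.exists_tri hw
  obtain ⟨rb, crb, mM, rfl, hdd, hin⟩ := Riem_399.exists_riem (QSTri_451.met_gg he)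
  haveI : IsRiemannianManifold (𝓡 4) M := ⟨hdd⟩
  letI : MeasurableSpace M := borel M
  haveI : BorelSpace M := ⟨rfl⟩
  haveI := Riem_399.secondCountable (M := M)
  haveI : IsFiniteMeasureOnCompacts (μHE[4] : Measure M) :=
    Crest.Agent.R247.Gs939.finOnCompacts (n := 4) (M := M)
  obtain ⟨κ0, κ1, κT, i0, i1, iT, S, cc, ww, τ, C, th, d0, d1, hF, hS, h0, h1, hlt, h4, hl⟩ :=
    hM M w e hw he hin hK N p a hp hc ha
  obtain ⟨t, s, ht, hs⟩ := hG M κ0 κ1 κT S cc ww τ C th hF hS d0 d1 h0 h1 hlt h4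
  exact hl t s ht hs

/-- linear algebra: if the positive part of a form has dimension at most three, the orthogonal
complement of a positive three-space is negative. -/
theorem neg_of_split {V : Type*} [AddCommGroup V] [Module ℝ V] [FiniteDimensional ℝ V]
    (B : V →ₗ[ℝ] V →ₗ[ℝ] ℝ) (hB : ∀ x y, B x y = B y x) (P N : Submodule ℝ V) (hs : P ⊔ N = ⊤)
    (hP : Module.finrank ℝ P ≤ 3) (hN : ∀ x ∈ N, x ≠ 0 → B x x < 0) (b : Fin 3 → V)
    (hb : ∀ a : Fin 3 → ℝ, a ≠ 0 → 0 < B (∑ i, a i • b i) (∑ i, a i • b i)) (c : V)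
    (hc : ∀ i, B c (b i) = 0) (h0 : c ≠ 0) : B c c < 0 := by
  by_contra hcon
  push Not at hcon
  let φ : ((Fin 3 → ℝ) × ℝ) →ₗ[ℝ] V :=
    { toFun := fun q => ∑ i, q.1 i • b i + q.2 • c
      map_add' := fun q q' => by
        simp only [Prod.fst_add, Prod.snd_add, Pi.add_apply, add_smul, Finset.sum_add_distrib]
        abel
      map_smul' := fun r q => by
        simp only [Prod.smul_fst, Prod.smul_snd, Pi.smul_apply, smul_eq_mul, mul_smul,
          RingHom.id_apply, smul_add, Finset.smul_sum] }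
  have hφ : ∀ q, φ q = ∑ i, q.1 i • b i + q.2 • c := fun _ => rfl
  have hcs : ∀ a : Fin 3 → ℝ, B c (∑ i, a i • b i) = 0 := by
    intro a
    rw [map_sum]
    exact Finset.sum_eq_zero fun i _ => by rw [map_smul, hc i, smul_zero]
  have hsq : ∀ q, B (φ q) (φ q) = B (∑ i, q.1 i • b i) (∑ i, q.1 i • b i) + q.2 ^ 2 * B c c := by
    intro q
    rw [hφ]
    have e1 : B (∑ i, q.1 i • b i) c = 0 := by rw [hB, hcs]
    simp only [map_add, LinearMap.add_apply, map_smul, LinearMap.smul_apply, smul_eq_mul, hcs, e1]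
    ring
  have hnn : ∀ q, 0 ≤ B (φ q) (φ q) := by
    intro q
    rw [hsq]
    have h1 : 0 ≤ B (∑ i, q.1 i • b i) (∑ i, q.1 i • b i) := by
      rcases eq_or_ne q.1 0 with h | h
      · rw [h]; simp
      · exact (hb _ h).le
    have h2 := mul_nonneg (sq_nonneg q.2) hcon
    linarith
  have hinj : Function.Injective φ := by
    refine (injective_iff_map_eq_zero φ).2 fun q hq => ?_
    have h1 := hsq q
    rw [hq, map_zero] at h1
    have h2 : q.1 = 0 := by
      by_contra h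
      have h3 := hb _ h
      have h4 := mul_nonneg (sq_nonneg q.2) hcon
      linarith
    have h3 : q.2 • c = 0 := by
      have := hφ q
      rw [hq, h2] at this
      simpa using this.symm
    have h4 : q.2 = 0 := (smul_eq_zero.1 h3).resolve_right h0
    exact Prod.ext h2 h4
  have hdis : Disjoint (LinearMap.range φ) N := by
    rw [Submodule.disjoint_def]
    rintro x ⟨q, rfl⟩ hx
    by_contra h
    exact absurd (hN _ hx h) (not_lt.2 (hnn q))
  have h1 := Submodule.finrank_add_finrank_le_of_disjoint hdis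
  have h2 : Module.finrank ℝ (LinearMap.range φ) = 4 := by
    rw [LinearMap.finrank_range_of_inj hinj]
    simp
  have h3 : Module.finrank ℝ V ≤ Module.finrank ℝ P + Module.finrank ℝ N := by
    have h4 := Submodule.finrank_add_le_finrank_add_finrank P N
    rw [hs, finrank_top] at h4
    exact h4
  omega

/-- **BPLUS** from `BPF` and the model. -/
theorem bplus_of (hG : BPF.{0}) (hM : MODB) : BPLUS.{0} := by
  intro M tM _ _ _ _ _ w hw c hc h0
  obtain ⟨e, he⟩ := IndTri_451.exists_tri hw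
  obtain ⟨rb, crb, mM, rfl, hdd, hin⟩ := Riem_399.exists_riem (QSTri_451.met_gg he)
  haveI : IsRiemannianManifold (𝓡 4) M := ⟨hdd⟩
  letI : MeasurableSpace M := borel M
  haveI : BorelSpace M := ⟨rfl⟩
  haveI := Riem_399.secondCountable (M := M)
  haveI : IsFiniteMeasureOnCompacts (μHE[4] : Measure M) :=
    Crest.Agent.R247.Gs939.finOnCompacts (n := 4) (M := M)
  obtain ⟨κ0, κ1, κT, i0, i1, iT, S, cc, b, j, ww, τ, C, th, pi, U, d0, d1, bp, hS, hg, hj, hH,
    k0, k1, k4, hd, P, N, hfin, hs, hP, -, hN, -⟩ := hM M w e hw he hin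
  have hbp := hG M κ0 κ1 κT S cc b j ww τ C th pi U hS hg hj hH d0 d1 bp k0 k1 k4 hd
  have hV := hw.vol 0
  exact neg_of_split (ipB (w 0) hV) (fun x y => ip_comm (w 0) x y) P N hs (hP.trans_le hbp)
    (fun x hx hx0 => hN x hx hx0) (fun i => cls (w i)) (fun a ha => hw.ip_comb_pos 0 ha) c
    (fun i => hc i) h0

end

end Crest.Agent.R235.SWTop_53
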