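import Crest.Agent.R235.FamModT_307
import Crest.Agent.R235.FamLin_307
import Crest.Agent.R235.SWGeo_659
import Crest.Agent.R235.SWTop_53

/-!
Row 235 (S0364), PACKAGE FAM (leader helper307): the END of `FAM4W`:
`fam4w_of : FAMHX → BPLUS → MODT → FAM4W`.
-/

set_option autoImplicit false
set_option maxSynthPendingDepth 3
set_option linter.unusedSectionVars false
set_option linter.style.haveILetI false

open scoped ContDiff ENNReal NNReal Topology Manifold Bundle RealInnerProductSpace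
open MeasureTheory Set Filter Metric Bundle Module

namespace Crest.Agent.R235.FamEndT_307

open Crest.Agent.R240 Crest.Agent.R240.Ch Crest.Agent.R235
open Crest.Agent.R235.SWDefs_53 Crest.Agent.R235.SWSym_451 Crest.Agent.R235.SWGeo_659
open Crest.Agent.R235.IndTri_451
open Crest.Agent.R235.FamTop_307 Crest.Agent.R235.FamModT_307

noncomputable section

/-- `b⁺ = 3` for a positive triple, from `BPLUS` and a splitting. -/
theorem bp_three {M : Type} [TopologicalSpace M] [T2Space M] [CompactSpace M] [ConnectedSpace M]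
    [ChartedSpace E4 M] [IsManifold 𝓘(ℝ, E4) ∞ M] (hB : BPLUS.{0}) {w : Trip M} (hw : Pos3 w)
    {bp : ℕ} {P N : Submodule ℝ (H2 M)} (hfin : FiniteDimensional ℝ (H2 M)) (hs : P ⊔ N = ⊤)
    (hP : Module.finrank ℝ P = bp) (hPp : ∀ x ∈ P, x ≠ 0 → 0 < ip (w 0) x x)
    (hN : ∀ x ∈ N, x ≠ 0 → ip (w 0) x x < 0) : bp = 3 := by
  have hV := hw.vol 0
  rw [← hP]
  exact FamLin_307.bp_eq (ipB (w 0) hV) P N hs (fun x hx h0 => hPp x hx h0)
    (fun x hx h0 => hN x hx h0) (fun i => cls (w i)) (fun c hc => hw.ip_comb_pos 0 hc)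
    (fun c hc h0 => hB M w hw c hc h0)

/-- **FAM4W.** -/
theorem fam4w_of (hF : FAMHX.{0}) (hB : BPLUS.{0}) (hM : MODT) : DichProps_723.FAM4W.{0} := by
  intro M tM _ _ _ _ _ w hw s hs a b ha hb
  obtain ⟨e, he⟩ := IndTri_451.exists_tri hw
  obtain ⟨rb, crb, mM, rfl, hdd, hin⟩ := Riem_399.exists_riem (QSTri_451.met_gg he)
  haveI : IsRiemannianManifold (𝓡 4) M := ⟨hdd⟩
  letI : MeasurableSpace M := borel M
  haveI : BorelSpace M := ⟨rfl⟩
  haveI := Riem_399.secondCountable (M := M)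
  haveI : IsFiniteMeasureOnCompacts (μHE[4] : Measure M) :=
    Crest.Agent.R247.Gs939.finOnCompacts (n := 4) (M := M)
  obtain ⟨κ0, κ1, κT, i0, i1, iT, S, cc, J1, j, ww, τ, C, th, pi, U, d0, d1, bp, hS, hJ1, hG, hj,
    hH, hA, k0, k1, k4, hd, ⟨P, N, hfin, hPN, hP, hPp, hN, -⟩, hnum⟩ :=
    hM M w e hw he hin s hs a b ha hb
  have hbp : bp = 3 := bp_three hB hw hfin hPN hP hPp hN
  subst hbp
  have e01 : d1 = d0 := by omega
  subst e01
  obtain ⟨r, hr, hC⟩ := exists_r hH.fam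
  have hfit : (mkd ww th (fun _ _ _ => 0) r).FFit S ww τ C th :=
    mkd_ffit hH.fam hr hC (fun k => continuous_const) (fun t ht k z => rfl)
  exact hnum (hF M κ0 κ1 κT S cc J1 j (mkd ww th (fun _ _ _ => 0) r) ww τ C th pi U d1 hS hJ1 hG hj
    hH hfit hA k0 k1 k4)

end

end Crest.Agent.R235.FamEndT_307
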