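import Crest.Agent.R235.FamModX_307
import Crest.Agent.R235.FamEndT_307
import Crest.Agent.R235.FamEndB_307

/-!
Row 235 (S0364), PACKAGE FAM (leader helper307): the END of `MODX`:
`modx_of : FAMXC → BPLUS → MODXG → MODX`.
-/

set_option autoImplicit false
set_option maxSynthPendingDepth 3
set_option linter.unusedSectionVars false
set_option linter.style.haveILetI false

open scoped ContDiff ENNReal NNReal Topology Manifold Bundle RealInnerProductSpace
open MeasureTheory Set Filter Metric Bundle Module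

namespace Crest.Agent.R235.FamEndX_307

open Crest.Agent.R240 Crest.Agent.R240.Ch Crest.Agent.R235
open Crest.Agent.R235.SWDefs_53 Crest.Agent.R235.SWSym_451
open Crest.Agent.R235.IndTri_451
open Crest.Agent.R235.FamTop_307 Crest.Agent.R235.FamTop2_307 Crest.Agent.R235.FamModX_307
open Crest.Agent.R235.FamEndA_307 Crest.Agent.R235.FamEndB_307 Crest.Agent.R235.FamEndT_307

noncomputable section

/-- **MODX.** -/
theorem modx_of (hF : FAMXC.{0}) (hB : BPLUS.{0}) (hM : MODXG) : SwcProd_215.MODX.{0} := by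
  intro M _ _ _ _ _ _ _ _ _ _ _ _ _ w e hw hT he hin c hc hcc hc0
  obtain ⟨κ0, κ1, κT, i0, i1, iT, S, T, cc, W, sT, ι, ww, τ, C, K, ccS, J1, j, d0, d1, bp, hD,
    hcf, hS, hJ1, hj, k0, k1, k4, hd, ⟨P, N, hfin, hPN, hP, hPp, hN, -⟩, hnum⟩ :=
    hM M w e hw hT he hin c hc hcc hc0
  have hbp : bp = 3 := bp_three hB hw hfin hPN hP hPp hN
  subst hbp
  have e01 : d1 = d0 := by omega
  subst e01
  have hX : FX S ww τ C := ⟨hD.smw, hD.harm, hD.rr, hD.nn, hD.tau, hcf⟩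
  obtain ⟨r0, hr0, hr⟩ := exists_adm hX
  refine ⟨κ0, κ1, κT, i0, i1, iT, S, T, cc, W, sT, ι, ww, τ, C, K, hD, Hbd j, r0, fun r h => ?_⟩
  obtain ⟨hadm, hfit⟩ := hr r h
  obtain ⟨t, hh, a, u, ht, hcube, hsol⟩ := hF M κ0 κ1 κT S ccS J1 j (mkx ww τ r) d1 hD.ok hS hJ1 hj
    hadm k0 k1 k4 hnum
  obtain ⟨s1, s2, s3, s4, s5, s6⟩ := solB_all hj hcube hsol
  exact ⟨t, mkx ww τ r, a + j.fm hh, u, ht, hfit t ht, rfl, fun A z => rfl,
    ⟨s1, s2, s3, s4, s5, s6⟩⟩

end

end Crest.Agent.R235.FamEndX_307
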