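import Crest.Agent.R235.FamDefs_307

/-!
Row 235, PACKAGE FAM, step (f) of FDS (helper842).

* `tr2`, `tr4`  : `tr (Q ∂ᵢQ ∂ⱼQ) = tr X_ij`, `tr (Q ∂ᵢQ ∂ⱼQ ∂ₖQ ∂ₗQ) = tr (X_ij X_kl)` for the orthogonal
                  projections `Q h` onto the ranges of `B h`;
* `push A P h`  : the orthogonal projection onto `A h (range (P h))`, a `PPer` family.
-/

set_option autoImplicit false
set_option linter.unusedSectionVars false
set_option linter.unusedVariables false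
set_option maxSynthPendingDepth 3

open Set Filter Module MeasureTheory Function
open scoped ContDiff Topology InnerProductSpace

namespace Crest.Agent.R235.FamF_842

open Crest.Agent.R235.FamDefs_307

noncomputable section

variable {b : ℕ} {Z Y H : Type*} [NormedAddCommGroup Z] [InnerProductSpace ℂ Z]
  [FiniteDimensional ℂ Z]
  [NormedAddCommGroup Y] [InnerProductSpace ℂ Y] [FiniteDimensional ℂ Y]
  [NormedAddCommGroup H] [InnerProductSpace ℂ H] [FiniteDimensional ℂ H]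

/-! ### pointwise algebra -/

/-- `n = (B^* B)⁻¹`. -/
def nn (B : Z →L[ℂ] Y) : Z →L[ℂ] Z := Ring.inverse (B.adjoint ∘L B)

theorem isUnit_of_inj {T : Z →L[ℂ] Z} (h : Injective T) : IsUnit T := by
  have h1 : IsUnit (T : Z →ₗ[ℂ] Z) := by
    rw [LinearMap.isUnit_iff_ker_eq_bot, LinearMap.ker_eq_bot]
    exact h
  obtain ⟨u, hu⟩ := h1
  refine ⟨⟨T, LinearMap.toContinuousLinearMap (u⁻¹ : (Z →ₗ[ℂ] Z)ˣ).1, ?_, ?_⟩, rfl⟩
  · ext z
    have : (u.1 * (u⁻¹).1) z = z := by rw [Units.mul_inv]; rfl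
    rw [hu] at this
    exact this
  · ext z
    have : ((u⁻¹).1 * u.1) z = z := by rw [Units.inv_mul]; rfl
    rw [hu] at this
    exact this

theorem inj_adj {B : Z →L[ℂ] Y} (hB : Injective B) : Injective (B.adjoint ∘L B) := by
  rw [injective_iff_map_eq_zero]
  intro z hz
  have h1 : ⟪(B.adjoint ∘L B) z, z⟫_ℂ = ⟪B z, B z⟫_ℂ := by
    rw [ContinuousLinearMap.comp_apply, ContinuousLinearMap.adjoint_inner_left]
  rw [hz, inner_zero_left] at h1
  have h2 : B z = 0 := inner_self_eq_zero.1 h1.symm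
  exact (injective_iff_map_eq_zero B).1 hB z h2

theorem nn_left {B : Z →L[ℂ] Y} (hB : Injective B) (z : Z) : nn B (B.adjoint (B z)) = z := by
  have h1 := Ring.inverse_mul_cancel _ (isUnit_of_inj (inj_adj hB))
  have h2 := congrArg (fun T : Z →L[ℂ] Z => T z) h1
  exact h2

theorem nn_right {B : Z →L[ℂ] Y} (hB : Injective B) (z : Z) : B.adjoint (B (nn B z)) = z := by
  have h1 := Ring.mul_inverse_cancel _ (isUnit_of_inj (inj_adj hB))
  have h2 := congrArg (fun T : Z →L[ℂ] Z => T z) h1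
  exact h2

theorem nn_sa {B : Z →L[ℂ] Y} (hB : Injective B) (a c : Z) : ⟪nn B a, c⟫_ℂ = ⟪a, nn B c⟫_ℂ := by
  conv_lhs => rw [← nn_right hB c]
  conv_rhs => rw [← nn_right hB a]
  rw [ContinuousLinearMap.adjoint_inner_left, ContinuousLinearMap.adjoint_inner_right]

/-- data at a point: an orthogonal projection `Q` onto the range of `B`, and derivatives. -/
structure Dat (Q : Y →L[ℂ] Y) (B : Z →L[ℂ] Y) : Prop where
  inj : Injective B
  QB : ∀ z, Q (B z) = B z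
  sa : ∀ u v, ⟪Q u, v⟫_ℂ = ⟪u, Q v⟫_ℂ
  rng : ∀ y, ∃ z, Q y = B z

namespace Dat

variable {Q : Y →L[ℂ] Y} {B : Z →L[ℂ] Y} (d : Dat Q B)

include d

theorem eq (y : Y) : Q y = B (nn B (B.adjoint y)) := by
  obtain ⟨z, hz⟩ := d.rng y
  have h1 : B.adjoint y = B.adjoint (B z) := by
    refine ext_inner_right ℂ fun w => ?_
    rw [ContinuousLinearMap.adjoint_inner_left, ContinuousLinearMap.adjoint_inner_left, ← hz,
      d.sa, d.QB]
  rw [h1, nn_left d.inj, hz]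

theorem adj (y : Y) : B.adjoint y = B.adjoint (Q y) := by
  rw [d.eq, nn_right d.inj]

omit [FiniteDimensional ℂ Z] [FiniteDimensional ℂ Y] in
theorem idem (y : Y) : Q (Q y) = Q y := by
  obtain ⟨z, hz⟩ := d.rng y
  rw [hz, d.QB]

end Dat

/-- first order data. -/
structure Dat1 (Q D : Y →L[ℂ] Y) (B B' : Z →L[ℂ] Y) : Prop where
  DB : ∀ z, D (B z) = B' z - Q (B' z)
  sa : ∀ u v, ⟪D u, v⟫_ℂ = ⟪u, D v⟫_ℂ
  leib : ∀ u, D (Q u) + Q (D u) = D u

namespace Dat1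

variable {Q D D1 D2 D3 D4 : Y →L[ℂ] Y} {B B' B1 B2 B3 B4 : Z →L[ℂ] Y}

theorem QD (d : Dat Q B) (h : Dat1 Q D B B') (y : Y) :
    Q (D y) = B (nn B (B'.adjoint (y - Q y))) := by
  refine ext_inner_right ℂ fun u => ?_
  rw [d.sa, h.sa, d.eq u, h.DB, ← ContinuousLinearMap.adjoint_inner_right, nn_sa d.inj,
    ContinuousLinearMap.adjoint_inner_left, inner_sub_right, inner_sub_left, ← d.sa]

/-- `Q Dᵢ Dⱼ Q = B X_ij n B^*`. -/
theorem main (d : Dat Q B) (h1 : Dat1 Q D1 B B1) (h2 : Dat1 Q D2 B B2) (y : Y) :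
    Q (D1 (D2 (Q y))) = B (Xij B B1 B2 (nn B (B.adjoint y))) := by
  have e : D2 (Q y) = B2 (nn B (B.adjoint y)) - Q (B2 (nn B (B.adjoint y))) := by
    conv_lhs => rw [d.eq y]
    rw [h2.DB]
  have e0 : Q (B2 (nn B (B.adjoint y)) - Q (B2 (nn B (B.adjoint y)))) = 0 := by
    rw [map_sub, d.idem, sub_self]
  rw [QD d h1, e, e0, sub_zero]
  have e2 := d.eq (B2 (nn B (B.adjoint y)))
  conv_lhs => rw [e2]
  rfl

omit [FiniteDimensional ℂ Z] [FiniteDimensional ℂ Y] in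
theorem comm (h1 : Dat1 Q D1 B B1) (h2 : Dat1 Q D2 B B2) (y : Y) :
    Q (D1 (D2 y)) = D1 (D2 (Q y)) := by
  have e1 := h1.leib (D2 y)
  have e2 := congrArg D1 (h2.leib y)
  rw [map_add] at e2
  have e3 : D1 (D2 (Q y)) + D1 (Q (D2 y)) = D1 (Q (D2 y)) + Q (D1 (D2 y)) := by
    rw [e2, e1]
  have e4 : D1 (D2 (Q y)) = Q (D1 (D2 y)) := by
    have := e3
    rw [add_comm] at this
    exact add_left_cancel this
  exact e4.symm

theorem comm' (d : Dat Q B) (h1 : Dat1 Q D1 B B1) (h2 : Dat1 Q D2 B B2) (y : Y) :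
    Q (D1 (D2 y)) = B (Xij B B1 B2 (nn B (B.adjoint y))) := by
  rw [← main d h1 h2, comm h1 h2, comm h1 h2, d.idem]

theorem trX (d : Dat Q B) (X : Z →L[ℂ] Z) (T : Y →L[ℂ] Y)
    (hT : ∀ y, T y = B (X (nn B (B.adjoint y)))) : tr T = tr X := by
  unfold tr
  have e1 : (T : Y →ₗ[ℂ] Y) = (B : Z →ₗ[ℂ] Y) ∘ₗ
      ((X : Z →ₗ[ℂ] Z) ∘ₗ (nn B : Z →ₗ[ℂ] Z) ∘ₗ (B.adjoint : Y →ₗ[ℂ] Z)) := by
    ext y; exact hT y
  have e2 : (X : Z →ₗ[ℂ] Z) = ((X : Z →ₗ[ℂ] Z) ∘ₗ (nn B : Z →ₗ[ℂ] Z) ∘ₗ (B.adjoint : Y →ₗ[ℂ] Z)) ∘ₗ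
      (B : Z →ₗ[ℂ] Y) := by
    ext z
    show X z = X (nn B (B.adjoint (B z)))
    rw [nn_left d.inj]
  rw [e1, LinearMap.trace_comp_comm', ← e2]

theorem tr2 (d : Dat Q B) (h1 : Dat1 Q D1 B B1) (h2 : Dat1 Q D2 B B2) :
    tr (Q * D1 * D2) = tr (Xij B B1 B2) :=
  trX d _ _ fun y => comm' d h1 h2 y

theorem tr4 (d : Dat Q B) (h1 : Dat1 Q D1 B B1) (h2 : Dat1 Q D2 B B2) (h3 : Dat1 Q D3 B B3)
    (h4 : Dat1 Q D4 B B4) :
    tr (Q * D1 * D2 * D3 * D4) = tr (Xij B B1 B2 ∘L Xij B B3 B4) := by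
  refine trX d _ _ fun y => ?_
  show Q (D1 (D2 (D3 (D4 y)))) = B (Xij B B1 B2 (Xij B B3 B4 (nn B (B.adjoint y))))
  rw [comm' d h1 h2, d.adj (D3 (D4 y)), comm' d h3 h4, nn_left d.inj]

end Dat1

/-! ### derivatives -/

section der

variable {E : Type*} [NormedAddCommGroup E] [NormedSpace ℝ E]
variable {G1 G2 : Type*} [NormedAddCommGroup G1] [NormedSpace ℂ G1] [NormedAddCommGroup G2]
  [NormedSpace ℂ G2]

theorem bb : IsBoundedBilinearMap ℝ (fun q : (G1 →L[ℂ] G2) × G1 => q.1 q.2) := by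
  refine ⟨fun x₁ x₂ y => by simp, fun c x y => by simp, fun x y₁ y₂ => by simp, fun c x y => ?_, 1,
    one_pos, fun x y => ?_⟩
  · exact (x.restrictScalars ℝ).map_smul c y
  · simpa using x.le_opNorm y

theorem fd_apply {Q : E → G1 →L[ℂ] G2} {g : E → G1} {Q' : E →L[ℝ] G1 →L[ℂ] G2} {g' : E →L[ℝ] G1}
    {h : E} (hQ : HasFDerivAt Q Q' h) (hg : HasFDerivAt g g' h) (v : E) :
    ∃ L : E →L[ℝ] G2, HasFDerivAt (fun x => Q x (g x)) L h ∧ ∀ v, L v = Q' v (g h) + Q h (g' v) := by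
  have h1 := (bb (G1 := G1) (G2 := G2)).hasFDerivAt (Q h, g h)
  have h2 := h1.comp h (hQ.prodMk hg)
  refine ⟨_, h2, fun v => ?_⟩
  simp [IsBoundedBilinearMap.deriv, add_comm]

theorem pd_apply {b : ℕ} {Q : (Fin b → ℝ) → G1 →L[ℂ] G2} {g : (Fin b → ℝ) → G1} {h : Fin b → ℝ}
    (hQ : DifferentiableAt ℝ Q h) (hg : DifferentiableAt ℝ g h) (j : Fin b) :
    pdθ j (fun x => Q x (g x)) h = pdθ j Q h (g h) + Q h (pdθ j g h) := by
  obtain ⟨L, hL, hL2⟩ := fd_apply hQ.hasFDerivAt hg.hasFDerivAt (Pi.single j 1)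
  unfold pdθ
  rw [hL.fderiv, hL2]

theorem pd_apply' {b : ℕ} {Q : (Fin b → ℝ) → G1 →L[ℂ] G2} {h : Fin b → ℝ}
    (hQ : DifferentiableAt ℝ Q h) (g : G1) (j : Fin b) :
    pdθ j (fun x => Q x g) h = pdθ j Q h g := by
  rw [pd_apply hQ (differentiableAt_const g)]
  unfold pdθ
  simp

theorem diff_apply {Q : E → G1 →L[ℂ] G2} {g : E → G1} {h : E}
    (hQ : DifferentiableAt ℝ Q h) (hg : DifferentiableAt ℝ g h) :
    DifferentiableAt ℝ (fun x => Q x (g x)) h := by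
  obtain ⟨L, hL, -⟩ := fd_apply hQ.hasFDerivAt hg.hasFDerivAt 0
  exact hL.differentiableAt

theorem pd_congr {b : ℕ} {V : Type*} [NormedAddCommGroup V] [NormedSpace ℝ V]
    {f g : (Fin b → ℝ) → V} {h : Fin b → ℝ} (hfg : f =ᶠ[𝓝 h] g) (j : Fin b) :
    pdθ j f h = pdθ j g h := by
  unfold pdθ; rw [hfg.fderiv_eq]

end der

theorem dat1_of {Q : (Fin b → ℝ) → Y →L[ℂ] Y} {B : (Fin b → ℝ) → Z →L[ℂ] Y} {h : Fin b → ℝ}
    (hQ : DifferentiableAt ℝ Q h) (hB : DifferentiableAt ℝ B h)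
    (hQB : ∀ᶠ x in 𝓝 h, ∀ z, Q x (B x z) = B x z)
    (hsa : ∀ x u v, ⟪Q x u, v⟫_ℂ = ⟪u, Q x v⟫_ℂ) (hid : ∀ x y, Q x (Q x y) = Q x y) (j : Fin b) :
    Dat1 (Q h) (pdθ j Q h) (B h) (pdθ j B h) where
  DB z := by
    have h1 : pdθ j (fun x => Q x (B x z)) h = pdθ j (fun x => B x z) h :=
      pd_congr (by filter_upwards [hQB] with x hx using hx z) j
    rw [pd_apply hQ (diff_apply hB (differentiableAt_const z)), pd_apply' hB] at h1
    exact eq_sub_of_add_eq h1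
  sa u v := by
    have h1 : HasFDerivAt (fun x => ⟪Q x u, v⟫_ℂ) _ h :=
      ((diff_apply hQ (differentiableAt_const u)).hasFDerivAt.inner ℂ (hasFDerivAt_const v h))
    have h2 : HasFDerivAt (fun x => ⟪u, Q x v⟫_ℂ) _ h :=
      ((hasFDerivAt_const u h).inner ℂ (diff_apply hQ (differentiableAt_const v)).hasFDerivAt)
    have h3 : (fun x => ⟪Q x u, v⟫_ℂ) = fun x => ⟪u, Q x v⟫_ℂ := funext fun x => hsa x u v
    rw [h3] at h1
    have h4 := h1.unique h2
    have h5 := congrArg (fun L : (Fin b → ℝ) →L[ℝ] ℂ => L (Pi.single j 1)) h4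
    have e1 := pd_apply' hQ u j
    have e2 := pd_apply' hQ v j
    unfold pdθ at e1 e2 ⊢
    simp only [fderivInnerCLM_apply, ContinuousLinearMap.comp_apply,
      ContinuousLinearMap.prod_apply, zero_apply, inner_zero_left, inner_zero_right,
      zero_add, add_zero, e1, e2] at h5
    exact h5
  leib u := by
    have h1 : pdθ j (fun x => Q x (Q x u)) h = pdθ j (fun x => Q x u) h :=
      pd_congr (Eventually.of_forall fun x => hid x u) j
    rw [pd_apply hQ (diff_apply hQ (differentiableAt_const u)), pd_apply' hQ] at h1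
    exact h1

/-! ### the pushed projection -/

section push

theorem bcomp {Z Y W : Type*} [NormedAddCommGroup Z] [NormedSpace ℂ Z] [NormedAddCommGroup Y]
    [NormedSpace ℂ Y] [NormedAddCommGroup W] [NormedSpace ℂ W] :
    IsBoundedBilinearMap ℝ (fun q : (Y →L[ℂ] W) × (Z →L[ℂ] Y) => q.1 ∘L q.2) := by
  refine ⟨fun x₁ x₂ y => by ext; simp, fun c x y => by ext; simp, fun x y₁ y₂ => by ext; simp,
    fun c x y => ?_, 1, one_pos, fun x y => ?_⟩
  · ext z
    exact (x.restrictScalars ℝ).map_smul c (y z)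
  · simpa using x.opNorm_comp_le y

theorem badj : IsBoundedLinearMap ℝ (fun B : Z →L[ℂ] Y => B.adjoint) := by
  refine ⟨⟨fun x y => map_add _ x y, fun c x => ?_⟩, 1, one_pos, fun x => ?_⟩
  · have h1 : c • x = (c : ℂ) • x := rfl
    have h2 : c • x.adjoint = (c : ℂ) • x.adjoint := rfl
    rw [h1, h2]
    exact (map_smulₛₗ (ContinuousLinearMap.adjoint : (Z →L[ℂ] Y) ≃ₗᵢ⋆[ℂ] (Y →L[ℂ] Z)) _ _).trans
      (by rw [Complex.conj_ofReal])
  · simp

variable (A : (Fin b → ℝ) → H →L[ℂ] Y) (P : (Fin b → ℝ) → H →L[ℂ] H)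

/-- `C = A P`. -/
def CC (h : Fin b → ℝ) : H →L[ℂ] Y := A h ∘L P h

/-- `M = C^* C + (1 - P)`. -/
def MM (h : Fin b → ℝ) : H →L[ℂ] H := (CC A P h).adjoint ∘L CC A P h + (1 - P h)

/-- the orthogonal projection onto `A h (range (P h))`. -/
def push (h : Fin b → ℝ) : Y →L[ℂ] Y := CC A P h ∘L Ring.inverse (MM A P h) ∘L (CC A P h).adjoint

variable {A P} {m : ℕ}

section basic

variable (hP : PPer b m P) (hA : ∀ h ψ, P h ψ = ψ → A h ψ = 0 → ψ = 0) (h : Fin b → ℝ)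

include hP

theorem CC_P (x : H) : CC A P h (P h x) = CC A P h x := by
  show A h (P h (P h x)) = A h (P h x)
  rw [hP.idem]

theorem P_CCa (y : Y) : P h ((CC A P h).adjoint y) = (CC A P h).adjoint y := by
  refine ext_inner_right ℂ fun w => ?_
  rw [hP.sa, ContinuousLinearMap.adjoint_inner_left, ContinuousLinearMap.adjoint_inner_left,
    CC_P hP]

theorem MM_P (x : H) : MM A P h (P h x) = (CC A P h).adjoint (CC A P h x) := by
  show (CC A P h).adjoint (CC A P h (P h x)) + (P h x - P h (P h x)) = _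
  rw [CC_P hP, hP.idem, sub_self, add_zero]

theorem P_MM (x : H) : P h (MM A P h x) = (CC A P h).adjoint (CC A P h x) := by
  show P h ((CC A P h).adjoint (CC A P h x) + (x - P h x)) = _
  rw [map_add, P_CCa hP, map_sub, hP.idem, sub_self, add_zero]

theorem MM_sa (x y : H) : ⟪MM A P h x, y⟫_ℂ = ⟪x, MM A P h y⟫_ℂ := by
  show ⟪(CC A P h).adjoint (CC A P h x) + (x - P h x), y⟫_ℂ =
    ⟪x, (CC A P h).adjoint (CC A P h y) + (y - P h y)⟫_ℂ
  rw [inner_add_left, inner_add_right, ContinuousLinearMap.adjoint_inner_left,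
    ContinuousLinearMap.adjoint_inner_right, inner_sub_left, inner_sub_right, hP.sa]

include hA

theorem MM_inj : Injective (MM A P h) := by
  rw [injective_iff_map_eq_zero]
  intro x hx
  have h1 : (CC A P h).adjoint (CC A P h x) = 0 := by rw [← P_MM hP, hx, map_zero]
  have h2 : CC A P h x = 0 := by
    rw [← inner_self_eq_zero (𝕜 := ℂ), ← ContinuousLinearMap.adjoint_inner_right, h1,
      inner_zero_right]
  have h3 : P h x = 0 := hA h _ (hP.idem h x) h2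
  have h4 : MM A P h x = (CC A P h).adjoint (CC A P h x) + (x - P h x) := rfl
  rw [hx, h1, h3, zero_add, sub_zero] at h4
  exact h4.symm

theorem MM_unit : IsUnit (MM A P h) := isUnit_of_inj (MM_inj hP hA h)

theorem inv_MM (x : H) : Ring.inverse (MM A P h) (MM A P h x) = x :=
  congrArg (fun T : H →L[ℂ] H => T x) (Ring.inverse_mul_cancel _ (MM_unit hP hA h))

theorem MM_inv (x : H) : MM A P h (Ring.inverse (MM A P h) x) = x :=
  congrArg (fun T : H →L[ℂ] H => T x) (Ring.mul_inverse_cancel _ (MM_unit hP hA h))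

theorem P_inv (x : H) : P h (Ring.inverse (MM A P h) x) = Ring.inverse (MM A P h) (P h x) := by
  conv_rhs => rw [← MM_inv hP hA h x, P_MM hP, ← MM_P hP, inv_MM hP hA]

theorem inv_CC (x : H) : Ring.inverse (MM A P h) ((CC A P h).adjoint (CC A P h x)) = P h x := by
  rw [← MM_P hP, inv_MM hP hA]

theorem inv_sa (x y : H) :
    ⟪Ring.inverse (MM A P h) x, y⟫_ℂ = ⟪x, Ring.inverse (MM A P h) y⟫_ℂ := by
  conv_lhs => rw [← MM_inv hP hA h y]
  conv_rhs => rw [← MM_inv hP hA h x]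
  rw [MM_sa hP]

theorem push_CC (x : H) : push A P h (CC A P h x) = CC A P h x := by
  show CC A P h (Ring.inverse (MM A P h) ((CC A P h).adjoint (CC A P h x))) = _
  rw [inv_CC hP hA, CC_P hP]

theorem push_A (x : H) (hx : P h x = x) : push A P h (A h x) = A h x := by
  have := push_CC hP hA h x
  change push A P h (A h (P h x)) = A h (P h x) at this
  rwa [hx] at this

omit hA in
theorem push_rng (y : Y) : ∃ x, P h x = x ∧ push A P h y = A h x :=
  ⟨P h (Ring.inverse (MM A P h) ((CC A P h).adjoint y)), hP.idem h _, rfl⟩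

theorem push_idem (y : Y) : push A P h (push A P h y) = push A P h y :=
  push_CC hP hA h _

theorem push_sa (x y : Y) : ⟪push A P h x, y⟫_ℂ = ⟪x, push A P h y⟫_ℂ := by
  show ⟪CC A P h (Ring.inverse (MM A P h) ((CC A P h).adjoint x)), y⟫_ℂ =
    ⟪x, CC A P h (Ring.inverse (MM A P h) ((CC A P h).adjoint y))⟫_ℂ
  rw [← ContinuousLinearMap.adjoint_inner_right, inv_sa hP hA,
    ContinuousLinearMap.adjoint_inner_left]

theorem push_range : LinearMap.range (push A P h : Y →ₗ[ℂ] Y) =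
    (LinearMap.range (P h : H →ₗ[ℂ] H)).map (A h : H →ₗ[ℂ] Y) := by
  ext y
  constructor
  · rintro ⟨z, rfl⟩
    obtain ⟨x, hx, hx2⟩ := push_rng (A := A) hP h z
    exact ⟨x, ⟨x, hx⟩, hx2.symm⟩
  · rintro ⟨x, ⟨w, rfl⟩, rfl⟩
    exact ⟨A h (P h w), push_CC hP hA h w⟩

theorem push_rank : finrank ℂ (LinearMap.range (push A P h : Y →ₗ[ℂ] Y)) = m := by
  rw [push_range hP hA, ← hP.rank h, ← LinearMap.range_domRestrict]
  refine LinearMap.finrank_range_of_inj ?_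
  rw [← LinearMap.ker_eq_bot, LinearMap.ker_eq_bot']
  rintro ⟨x, w, rfl⟩ hx
  exact Subtype.ext (hA h (P h w) (hP.idem h w) hx)

end basic

/-- `push` is smooth. -/
theorem push_smooth (hP : PPer b m P) (hAs : ContDiff ℝ ∞ A)
    (hA : ∀ h ψ, P h ψ = ψ → A h ψ = 0 → ψ = 0) : ContDiff ℝ ∞ (push A P) := by
  have h1 : ContDiff ℝ ∞ (CC A P) :=
    (bcomp (Z := H) (Y := H) (W := Y)).contDiff.comp (hAs.prodMk hP.smooth)
  have h2 : ContDiff ℝ ∞ (fun h => (CC A P h).adjoint) :=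
    (badj (Z := H) (Y := Y)).contDiff.comp h1
  have h3 : ContDiff ℝ ∞ (MM A P) :=
    ((bcomp (Z := H) (Y := Y) (W := H)).contDiff.comp (h2.prodMk h1)).add
      (contDiff_const.sub hP.smooth)
  have h4 : ContDiff ℝ ∞ (fun h => Ring.inverse (MM A P h)) := by
    rw [contDiff_iff_contDiffAt]
    intro h
    obtain ⟨u, hu⟩ := MM_unit hP hA h
    have h5 : ContDiffAt ℝ ∞ Ring.inverse (MM A P h) := hu ▸ contDiffAt_ringInverse ℝ u
    exact h5.comp h h3.contDiffAt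
  exact (bcomp (Z := Y) (Y := H) (W := Y)).contDiff.comp
    (h1.prodMk ((bcomp (Z := Y) (Y := H) (W := H)).contDiff.comp (h4.prodMk h2)))

/-- **`push A P` is a `PPer` family.** -/
theorem push_pper (hP : PPer b m P) (hAs : ContDiff ℝ ∞ A)
    (hAp : ∀ (h : Fin b → ℝ) (k : Fin b → ℤ), A (fun i => h i + k i) = A h)
    (hA : ∀ h ψ, P h ψ = ψ → A h ψ = 0 → ψ = 0) : PPer b m (push A P) where
  smooth := push_smooth hP hAs hA
  per h k := by
    have h1 : CC A P (fun i => h i + k i) = CC A P h := by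
      unfold CC; rw [hAp, hP.per]
    have h2 : MM A P (fun i => h i + k i) = MM A P h := by
      unfold MM; rw [h1, hP.per]
    unfold push; rw [h1, h2]
  idem h x := push_idem hP hA h x
  sa h x y := push_sa hP hA h x y
  rank h := push_rank hP hA h

/-- the pair `push A P h`, `A h ∘L e` for a frame `e` of `range (P h)`. -/
theorem push_dat (hP : PPer b m P) (hA : ∀ h ψ, P h ψ = ψ → A h ψ = 0 → ψ = 0) {h : Fin b → ℝ}
    {e : Z →L[ℂ] H} (he : Injective e) (he1 : ∀ z, P h (e z) = e z)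
    (he2 : ∀ x, P h x = x → ∃ z, x = e z) : Dat (push A P h) (A h ∘L e) where
  inj := by
    rw [injective_iff_map_eq_zero]
    intro z hz
    exact (injective_iff_map_eq_zero e).1 he z (hA h (e z) (he1 z) hz)
  QB z := push_A hP hA h (e z) (he1 z)
  sa u v := push_sa hP hA h u v
  rng y := by
    obtain ⟨x, hx, hx2⟩ := push_rng (A := A) hP h y
    obtain ⟨z, rfl⟩ := he2 x hx
    exact ⟨z, hx2⟩

end push

/-! ### the densities in a frame -/

section dens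

variable {A : (Fin b → ℝ) → H →L[ℂ] Y} {P : (Fin b → ℝ) → H →L[ℂ] H} {m : ℕ}

/-- differentiability of `B = A e`. -/
theorem diff_comp {Z Y H : Type*} [NormedAddCommGroup Z] [InnerProductSpace ℂ Z]
    [NormedAddCommGroup Y] [InnerProductSpace ℂ Y] [NormedAddCommGroup H] [InnerProductSpace ℂ H]
    {A : (Fin b → ℝ) → H →L[ℂ] Y} {e : (Fin b → ℝ) → Z →L[ℂ] H} {h : Fin b → ℝ}
    (hA : DifferentiableAt ℝ A h) (he : DifferentiableAt ℝ e h) :
    DifferentiableAt ℝ (fun x => A x ∘L e x) h := by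
  have h1 := ((bcomp (Z := Z) (Y := H) (W := Y)).differentiableAt (A h, e h)).comp h
    (hA.prodMk he)
  exact h1

/-- first order data of `push A P` and `A e` for a local frame `e` of `range P`. -/
theorem push_dat1 (hP : PPer b m P) (hAs : ContDiff ℝ ∞ A)
    (hA : ∀ h ψ, P h ψ = ψ → A h ψ = 0 → ψ = 0) {h : Fin b → ℝ} {e : (Fin b → ℝ) → Z →L[ℂ] H}
    (hes : DifferentiableAt ℝ e h) (he1 : ∀ᶠ x in 𝓝 h, ∀ z, P x (e x z) = e x z) (j : Fin b) :
    Dat1 (push A P h) (pdθ j (push A P) h) (A h ∘L e h) (pdθ j (fun x => A x ∘L e x) h) :=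
  dat1_of (Q := push A P) (B := fun x => A x ∘L e x)
    (((push_smooth hP hAs hA).differentiable (by simp)) h)
    (diff_comp ((hAs.differentiable (by simp)) h) hes)
    (by filter_upwards [he1] with x hx z using push_A hP hA x (e x z) (hx z))
    (fun x u v => push_sa hP hA x u v) (fun x y => push_idem hP hA x y) j

/-- the integrand of `ch2` of `push A P` in a local frame. -/
theorem push_ch2 {A : (Fin 2 → ℝ) → H →L[ℂ] Y} {P : (Fin 2 → ℝ) → H →L[ℂ] H} (hP : PPer 2 m P)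
    (hAs : ContDiff ℝ ∞ A) (hA : ∀ h ψ, P h ψ = ψ → A h ψ = 0 → ψ = 0) {h : Fin 2 → ℝ}
    {e : (Fin 2 → ℝ) → Z →L[ℂ] H} (hes : DifferentiableAt ℝ e h)
    (he1 : ∀ᶠ x in 𝓝 h, ∀ z, P x (e x z) = e x z) (he : Injective (e h))
    (he2 : ∀ x, P h x = x → ∃ z, x = e h z) :
    (∑ σ : Equiv.Perm (Fin 2),
      sg σ * tr (push A P h * pdθ (σ 0) (push A P) h * pdθ (σ 1) (push A P) h)) =
    ∑ σ : Equiv.Perm (Fin 2), sg σ * tr (Xij (A h ∘L e h) (pdθ (σ 0) (fun x => A x ∘L e x) h)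
      (pdθ (σ 1) (fun x => A x ∘L e x) h)) := by
  have d := push_dat hP hA he he1.self_of_nhds he2
  have d1 := push_dat1 hP hAs hA hes he1
  refine Finset.sum_congr rfl fun σ _ => ?_
  rw [Dat1.tr2 d (d1 (σ 0)) (d1 (σ 1))]

/-- the integrand of `ch4 + chsq` of `push A P` in a local frame. -/
theorem push_ch4 {A : (Fin 4 → ℝ) → H →L[ℂ] Y} {P : (Fin 4 → ℝ) → H →L[ℂ] H} (hP : PPer 4 m P)
    (hAs : ContDiff ℝ ∞ A) (hA : ∀ h ψ, P h ψ = ψ → A h ψ = 0 → ψ = 0) {h : Fin 4 → ℝ}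
    {e : (Fin 4 → ℝ) → Z →L[ℂ] H} (hes : DifferentiableAt ℝ e h)
    (he1 : ∀ᶠ x in 𝓝 h, ∀ z, P x (e x z) = e x z) (he : Injective (e h))
    (he2 : ∀ x, P h x = x → ∃ z, x = e h z) :
    (∑ σ : Equiv.Perm (Fin 4),
      sg σ * tr (push A P h * pdθ (σ 0) (push A P) h * pdθ (σ 1) (push A P) h *
        pdθ (σ 2) (push A P) h * pdθ (σ 3) (push A P) h)) +
    (∑ σ : Equiv.Perm (Fin 4),
      sg σ * (tr (push A P h * pdθ (σ 0) (push A P) h * pdθ (σ 1) (push A P) h) *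
        tr (push A P h * pdθ (σ 2) (push A P) h * pdθ (σ 3) (push A P) h))) =
    ∑ σ : Equiv.Perm (Fin 4), sg σ *
      (tr (Xij (A h ∘L e h) (pdθ (σ 0) (fun x => A x ∘L e x) h)
          (pdθ (σ 1) (fun x => A x ∘L e x) h) ∘L
        Xij (A h ∘L e h) (pdθ (σ 2) (fun x => A x ∘L e x) h)
          (pdθ (σ 3) (fun x => A x ∘L e x) h)) +
      tr (Xij (A h ∘L e h) (pdθ (σ 0) (fun x => A x ∘L e x) h)
          (pdθ (σ 1) (fun x => A x ∘L e x) h)) *
        tr (Xij (A h ∘L e h) (pdθ (σ 2) (fun x => A x ∘L e x) h)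
          (pdθ (σ 3) (fun x => A x ∘L e x) h))) := by
  have d := push_dat hP hA he he1.self_of_nhds he2
  have d1 := push_dat1 hP hAs hA hes he1
  rw [← Finset.sum_add_distrib]
  refine Finset.sum_congr rfl fun σ _ => ?_
  rw [Dat1.tr2 d (d1 (σ 0)) (d1 (σ 1)), Dat1.tr2 d (d1 (σ 2)) (d1 (σ 3)),
    Dat1.tr4 d (d1 (σ 0)) (d1 (σ 1)) (d1 (σ 2)) (d1 (σ 3)), mul_add]

end dens

/-! ### continuity of the densities -/

section cont

variable {m : ℕ}

theorem tr_cont : Continuous (tr : (Y →L[ℂ] Y) → ℂ) := by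
  have h1 : (tr : (Y →L[ℂ] Y) → ℂ) = fun X => ((LinearMap.trace ℂ Y) ∘ₗ
    (ContinuousLinearMap.coeLM ℂ : (Y →L[ℂ] Y) →ₗ[ℂ] (Y →ₗ[ℂ] Y))) X := rfl
  rw [h1]
  exact LinearMap.continuous_of_finiteDimensional _

theorem pd_cont {V : Type*} [NormedAddCommGroup V] [NormedSpace ℝ V] {Q : (Fin b → ℝ) → V}
    (hQ : ContDiff ℝ ∞ Q) (j : Fin b) : Continuous (pdθ j Q) :=
  (hQ.continuous_fderiv (by simp)).clm_apply continuous_const

/-- `ch4 + chsq` as one integral. -/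
theorem ch4_add {Q : (Fin 4 → ℝ) → Y →L[ℂ] Y} (hQ : ContDiff ℝ ∞ Q) :
    ch4 tr Q + chsq tr Q = ∫ h in Icc (0 : Fin 4 → ℝ) 1,
      ((∑ σ : Equiv.Perm (Fin 4),
        sg σ * tr (Q h * pdθ (σ 0) Q h * pdθ (σ 1) Q h * pdθ (σ 2) Q h * pdθ (σ 3) Q h)) +
      (∑ σ : Equiv.Perm (Fin 4),
        sg σ * (tr (Q h * pdθ (σ 0) Q h * pdθ (σ 1) Q h) *
          tr (Q h * pdθ (σ 2) Q h * pdθ (σ 3) Q h)))) := by
  have c0 := hQ.continuous
  have cj := fun j => pd_cont hQ j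
  have ct := tr_cont (Y := Y)
  unfold ch4 chsq
  rw [integral_add]
  · refine (Continuous.continuousOn ?_).integrableOn_compact isCompact_Icc
    exact continuous_finsetSum _ fun σ _ => continuous_const.mul (ct.comp
      ((((c0.mul (cj _)).mul (cj _)).mul (cj _)).mul (cj _)))
  · refine (Continuous.continuousOn ?_).integrableOn_compact isCompact_Icc
    exact continuous_finsetSum _ fun σ _ => continuous_const.mul
      ((ct.comp ((c0.mul (cj _)).mul (cj _))).mul (ct.comp ((c0.mul (cj _)).mul (cj _))))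

end cont

end

end Crest.Agent.R235.FamF_842
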