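import Crest.Agent.R235.FamDefs_307

/-!
Row 235 (S0364), PACKAGE FAM (leader helper307): the finite dimensional output format of the reduction
over the Jacobian torus (index `0`), and the Props between it and `FDS2`, `FDS4`, `FDH4`, `FOUR`.

* `FW b m P L fR fW R` : `S¹`-equivariant periodic map `(fR, fW)` on `T × ℝ^b × range P` with values in
  `YR × YW`, `dim YW = m = rank P`; linear isomorphism on `ψ = 0`; no zeros for `‖ψ‖ ≥ R`.
* `NZ P fR fW s` : no zeros over `‖t‖ = 1`, `h ∈ s`.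
* `OneRayW`  : `C²`-valued functional `g`, `(fR, fW, g)` hits the ray exactly once (`OneRay`).
* `FIN4`     : `NZ` everywhere ⇒ `ch4 P = 0`;   `FINH4` : `OneRayW` + `NZ` on `h ∉ ℤ⁴` ⇒ `ch4 P ≠ 0`.
-/

set_option autoImplicit false
set_option maxSynthPendingDepth 3

open Set Filter Module MeasureTheory Function
open scoped ContDiff Topology InnerProductSpace

namespace Crest.Agent.R235.FamW_307

open Crest.Agent.R235.FamDefs_307

noncomputable section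

section sys

variable {T H YR YW : Type} [NormedAddCommGroup T] [NormedSpace ℝ T] [FiniteDimensional ℝ T]
  [NormedAddCommGroup H] [InnerProductSpace ℂ H] [FiniteDimensional ℂ H]
  [NormedAddCommGroup YR] [NormedSpace ℝ YR] [FiniteDimensional ℝ YR]
  [NormedAddCommGroup YW] [NormedSpace ℂ YW] [FiniteDimensional ℂ YW]

/-- output of the reduction, index `0`. -/
structure FW (b m : ℕ) (P : (Fin b → ℝ) → H →L[ℂ] H) (L : T ≃L[ℝ] YR)
    (fR : T × (Fin b → ℝ) × H → YR) (fW : T × (Fin b → ℝ) × H → YW) (R : ℝ) : Prop where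
  proj : PPer b m P
  wdim : finrank ℂ YW = m
  cR : Continuous fR
  cW : Continuous fW
  eqR : ∀ t h ψ (z : ℂ), ‖z‖ = 1 → fR (t, h, z • ψ) = fR (t, h, ψ)
  eqW : ∀ t h ψ (z : ℂ), ‖z‖ = 1 → fW (t, h, z • ψ) = z • fW (t, h, ψ)
  pR : ∀ t h ψ (k : Fin b → ℤ), fR (t, fun i => h i + k i, ψ) = fR (t, h, ψ)
  pW : ∀ t h ψ (k : Fin b → ℤ), fW (t, fun i => h i + k i, ψ) = fW (t, h, ψ)
  fix : ∀ t h, ‖t‖ ≤ 1 → fR (t, h, 0) = L t
  big : ∀ t h ψ, ‖t‖ ≤ 1 → P h ψ = ψ → R ≤ ‖ψ‖ → fR (t, h, ψ) = 0 → fW (t, h, ψ) ≠ 0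

/-- no zeros over `‖t‖ = 1`, `h ∈ s`. -/
def NZ {b : ℕ} (P : (Fin b → ℝ) → H →L[ℂ] H) (fR : T × (Fin b → ℝ) × H → YR)
    (fW : T × (Fin b → ℝ) × H → YW) (s : Set (Fin b → ℝ)) : Prop :=
  ∀ t h ψ, ‖t‖ = 1 → h ∈ s → P h ψ = ψ → fR (t, h, ψ) = 0 → fW (t, h, ψ) ≠ 0

/-- an equivariant periodic `ℂ²`-valued functional `g` such that `(fR, fW, g)` hits the ray
`ℝ≥0 (0, e₀)` over `‖t‖ = 1` at exactly one point, which is nondegenerate. -/
def OneRayW {b : ℕ} (P : (Fin b → ℝ) → H →L[ℂ] H) (fR : T × (Fin b → ℝ) × H → YR)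
    (fW : T × (Fin b → ℝ) × H → YW) : Prop :=
  ∃ g : T × (Fin b → ℝ) × H → EuclideanSpace ℂ (Fin 2), Continuous g ∧
    (∀ t h ψ (z : ℂ), ‖z‖ = 1 → g (t, h, z • ψ) = z • g (t, h, ψ)) ∧
    (∀ t h ψ (k : Fin b → ℤ), g (t, fun i => h i + k i, ψ) = g (t, h, ψ)) ∧
    OneRay P fR (fun x => (fW x, g x)) ((0 : YW), EuclideanSpace.single (0 : Fin 2) (1 : ℂ))

end sys

/-- the vectors with integral coordinates. -/
def ZZ (b : ℕ) : Set (Fin b → ℝ) := {h | ∃ k : Fin b → ℤ, h = fun i => (k i : ℝ)}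

/-- FIN4. -/
def FIN4 : Prop :=
  ∀ (T H YR YW : Type) [NormedAddCommGroup T] [NormedSpace ℝ T] [FiniteDimensional ℝ T]
    [NormedAddCommGroup H] [InnerProductSpace ℂ H] [FiniteDimensional ℂ H]
    [NormedAddCommGroup YR] [NormedSpace ℝ YR] [FiniteDimensional ℝ YR]
    [NormedAddCommGroup YW] [NormedSpace ℂ YW] [FiniteDimensional ℂ YW]
    (m : ℕ) (P : (Fin 4 → ℝ) → H →L[ℂ] H) (L : T ≃L[ℝ] YR)
    (fR : T × (Fin 4 → ℝ) × H → YR) (fW : T × (Fin 4 → ℝ) × H → YW) (R : ℝ),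
    FW 4 m P L fR fW R → NZ P fR fW univ → ch4 tr P = 0

/-- FINH4. -/
def FINH4 : Prop :=
  ∀ (T H YR YW : Type) [NormedAddCommGroup T] [NormedSpace ℝ T] [FiniteDimensional ℝ T]
    [NormedAddCommGroup H] [InnerProductSpace ℂ H] [FiniteDimensional ℂ H]
    [NormedAddCommGroup YR] [NormedSpace ℝ YR] [FiniteDimensional ℝ YR]
    [NormedAddCommGroup YW] [NormedSpace ℂ YW] [FiniteDimensional ℂ YW]
    (m : ℕ) (P : (Fin 4 → ℝ) → H →L[ℂ] H) (L : T ≃L[ℝ] YR)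
    (fR : T × (Fin 4 → ℝ) × H → YR) (fW : T × (Fin 4 → ℝ) × H → YW) (R : ℝ),
    FW 4 m P L fR fW R → OneRayW P fR fW →
    (∀ i j : Fin 4, i ≠ j → NZ P fR fW {h | ∀ k, k ≠ i → k ≠ j → h k = 1 / 2}) →
    ch4 tr P ≠ 0

end

end Crest.Agent.R235.FamW_307
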