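import Mathlib
import Crest.Agent.R235.FamDefs_307

/-!
Row 235 (S0364), package FAM, block F (helper692, text helper307 #2092): a closed periodic
two-form on `ℝ⁴` with zero means has `∫ w ∧ w' = 0` for every closed periodic two-form `w'`.
-/

set_option autoImplicit false
set_option maxSynthPendingDepth 3

open Set Function Filter MeasureTheory
open scoped Topology

namespace Crest.Agent.R235.TorF_692

noncomputable section

/-! ### periodic functions -/

section Gen

variable {n : ℕ}

/-- the integral of a derivative of a periodic function over the cube. -/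
theorem integral_fderiv_periodic {f : (Fin (n + 1) → ℝ) → ℂ} (hf : ContDiff ℝ 1 f)
    (i : Fin (n + 1)) (hp : ∀ x, f (x + Pi.single i 1) = f x) :
    ∫ x in Icc (0 : Fin (n + 1) → ℝ) 1, fderiv ℝ f x (Pi.single i 1) = 0 := by
  classical
  have hd : ∀ x, HasFDerivAt f (fderiv ℝ f x) x := fun x =>
    (hf.differentiable one_ne_zero x).hasFDerivAt
  have hc : Continuous fun x => fderiv ℝ f x (Pi.single i 1) :=
    (hf.continuous_fderiv one_ne_zero).clm_apply continuous_const
  have h := integral_divergence_of_hasFDerivAt_off_countable' (0 : Fin (n + 1) → ℝ) 1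
    (fun _ => zero_le_one) (fun j => if j = i then f else fun _ => 0)
    (fun j x => if j = i then fderiv ℝ f x else 0) ∅ countable_empty
    (fun j => by
      by_cases hj : j = i
      · simp only [hj, if_true]; exact hf.continuous.continuousOn
      · simp only [hj, if_false]; exact continuousOn_const)
    (fun x _ j => by
      by_cases hj : j = i
      · simp only [hj, if_true]; exact hd x
      · simp only [hj, if_false]; exact hasFDerivAt_const _ _)
    (by
      refine (Continuous.continuousOn ?_).integrableOn_compact isCompact_Icc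
      refine continuous_finsetSum _ fun j _ => ?_
      by_cases hj : j = i
      · simp only [hj, if_true]; exact hc
      · simp only [hj, if_false]; exact continuous_const)
  have e1 : ∀ x : Fin (n + 1) → ℝ, ∑ j, (if j = i then fderiv ℝ f x else 0) (Pi.single j 1) =
      fderiv ℝ f x (Pi.single i 1) := by
    intro x
    rw [Finset.sum_eq_single i]
    · simp
    · intro j _ hj; simp [hj]
    · intro h; exact absurd (Finset.mem_univ i) h
  simp only [e1] at h
  rw [h]
  refine Finset.sum_eq_zero fun j _ => ?_
  by_cases hj : j = i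
  · subst hj
    simp only [if_true]
    rw [sub_eq_zero]
    refine integral_congr_ae (Eventually.of_forall fun y => ?_)
    beta_reduce
    have e2 : (j.insertNth ((1 : Fin (n + 1) → ℝ) j) y : Fin (n + 1) → ℝ) =
        j.insertNth ((0 : Fin (n + 1) → ℝ) j) y + Pi.single j 1 := by
      funext k
      rcases eq_or_ne k j with rfl | hk
      · simp
      · obtain ⟨m, rfl⟩ := Fin.exists_succAbove_eq hk
        simp
    rw [e2, hp]
  · simp [hj]

/-- differentiation under the integral over the cube. -/
theorem hasDerivAt_cube {F F' : ℝ → (Fin n → ℝ) → ℂ} (hF : Continuous (uncurry F))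
    (hF' : Continuous (uncurry F')) (hd : ∀ t x, HasDerivAt (fun t => F t x) (F' t x) t) (t₀ : ℝ) :
    HasDerivAt (fun t => ∫ x in Icc (0 : Fin n → ℝ) 1, F t x)
      (∫ x in Icc (0 : Fin n → ℝ) 1, F' t₀ x) t₀ := by
  obtain ⟨C, hC⟩ := ((isCompact_Icc (a := t₀ - 1) (b := t₀ + 1)).prod
    (isCompact_Icc (a := (0 : Fin n → ℝ)) (b := 1))).exists_bound_of_continuousOn
    hF'.continuousOn
  have hc : ∀ t, Continuous (F t) := fun t => hF.comp (by fun_prop : Continuous fun x => (t, x))
  have hc' : ∀ t, Continuous (F' t) := fun t => hF'.comp (by fun_prop : Continuous fun x => (t, x))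
  refine (hasDerivAt_integral_of_dominated_loc_of_deriv_le (s := Icc (t₀ - 1) (t₀ + 1))
    (bound := fun _ => C) (F := F) (F' := F') (Icc_mem_nhds (by linarith) (by linarith))
    (Eventually.of_forall fun t => (hc t).aestronglyMeasurable)
    ((hc t₀).continuousOn.integrableOn_compact isCompact_Icc)
    (hc' t₀).aestronglyMeasurable ?_ ?_ ?_).2
  · refine ae_restrict_of_forall_mem measurableSet_Icc fun x hx t ht => ?_
    exact hC (t, x) ⟨ht, hx⟩
  · exact (continuous_const.continuousOn).integrableOn_compact isCompact_Icc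
  · exact Eventually.of_forall fun x t _ => hd t x

theorem deriv_expand {f : (Fin n → ℝ) → ℂ} (x v : Fin n → ℝ) :
    fderiv ℝ f x v = ∑ l, (v l : ℂ) * fderiv ℝ f x (Pi.single l 1) := by
  conv_lhs => rw [show v = ∑ l, v l • (Pi.single l 1 : Fin n → ℝ) by
    simpa using (pi_eq_sum_univ' v)]
  rw [map_sum]
  refine Finset.sum_congr rfl fun l _ => ?_
  rw [map_smul, Complex.real_smul]

/-- translation invariance of the integral of a periodic function over the cube. -/
theorem integral_translate {f : (Fin (n + 1) → ℝ) → ℂ} (hf : ContDiff ℝ 1 f)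
    (hp : ∀ (i : Fin (n + 1)) x, f (x + Pi.single i 1) = f x) (y : Fin (n + 1) → ℝ) :
    ∫ x in Icc (0 : Fin (n + 1) → ℝ) 1, f (y + x) = ∫ x in Icc (0 : Fin (n + 1) → ℝ) 1, f x := by
  have hd : ∀ x, HasFDerivAt f (fderiv ℝ f x) x := fun x =>
    (hf.differentiable one_ne_zero x).hasFDerivAt
  have hcf := hf.continuous_fderiv one_ne_zero
  have hder : ∀ t : ℝ, HasDerivAt (fun t : ℝ => ∫ x in Icc (0 : Fin (n + 1) → ℝ) 1, f (t • y + x))
      0 t := by
    intro t
    have h1 := hasDerivAt_cube (F := fun t x => f (t • y + x))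
      (F' := fun t x => fderiv ℝ f (t • y + x) y)
      (hf.continuous.comp (by fun_prop : Continuous fun p : ℝ × (Fin (n + 1) → ℝ) => p.1 • y + p.2))
      ((hcf.comp (by fun_prop : Continuous fun p : ℝ × (Fin (n + 1) → ℝ) => p.1 • y + p.2)).clm_apply
        continuous_const)
      (fun t x => by
        have h2 : HasDerivAt (fun t : ℝ => t • y + x) y t := by
          simpa using ((hasDerivAt_id t).smul_const y).add_const x
        exact (hd _).comp_hasDerivAt t h2) t
    have h3 : ∫ x in Icc (0 : Fin (n + 1) → ℝ) 1, fderiv ℝ f (t • y + x) y = 0 := by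
      simp only [fun x => deriv_expand (f := f) (t • y + x) y]
      rw [integral_finsetSum]
      · refine Finset.sum_eq_zero fun l _ => ?_
        rw [integral_const_mul]
        have h4 := integral_fderiv_periodic (f := fun x => f (t • y + x))
          (hf.comp (contDiff_const.add contDiff_id)) l (fun x => by
            rw [← add_assoc, hp l])
        have h5 : ∀ x, fderiv ℝ (fun x => f (t • y + x)) x = fderiv ℝ f (t • y + x) := fun x =>
          fderiv_comp_add_left _
        simp only [h5] at h4
        rw [h4, mul_zero]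
      · intro l _
        refine (Continuous.continuousOn ?_).integrableOn_compact isCompact_Icc
        exact continuous_const.mul ((hcf.comp (by fun_prop)).clm_apply continuous_const)
    rw [h3] at h1
    exact h1
  have hconst := is_const_of_deriv_eq_zero (fun t => (hder t).differentiableAt)
    (fun t => (hder t).deriv) 1 0
  simpa using hconst

end Gen

/-! ### alternating sums -/

section Alt

open Equiv

/-- the alternating sum. -/
def S (A : Fin 4 → Fin 4 → Fin 4 → Fin 4 → ℂ) : ℂ :=
  ∑ σ : Perm (Fin 4), ((Perm.sign σ : ℤ) : ℂ) * A (σ 0) (σ 1) (σ 2) (σ 3)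

theorem S_swap (A : Fin 4 → Fin 4 → Fin 4 → Fin 4 → ℂ) :
    S (fun a b c d => A a b d c) = - S A := by
  unfold S
  rw [← Equiv.sum_comp (Equiv.mulRight (swap (2 : Fin 4) 3)) fun σ : Perm (Fin 4) =>
    ((Perm.sign σ : ℤ) : ℂ) * A (σ 0) (σ 1) (σ 2) (σ 3), ← Finset.sum_neg_distrib]
  refine Finset.sum_congr rfl fun σ _ => ?_
  have e0 : swap (2 : Fin 4) 3 0 = 0 := by decide
  have e1 : swap (2 : Fin 4) 3 1 = 1 := by decide
  have e2 : swap (2 : Fin 4) 3 2 = 3 := by decide
  have e3 : swap (2 : Fin 4) 3 3 = 2 := by decide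
  simp only [Equiv.coe_mulRight, Perm.mul_apply, e0, e1, e2, e3, Perm.sign_mul]
  rw [Perm.sign_swap (by decide)]
  simp

theorem S_cyc (A : Fin 4 → Fin 4 → Fin 4 → Fin 4 → ℂ) :
    S (fun a b c d => A b c a d) = S A := by
  unfold S
  rw [← Equiv.sum_comp (Equiv.mulRight (swap (0 : Fin 4) 1 * swap (1 : Fin 4) 2))
    fun σ : Perm (Fin 4) => ((Perm.sign σ : ℤ) : ℂ) * A (σ 0) (σ 1) (σ 2) (σ 3)]
  refine Finset.sum_congr rfl fun σ _ => ?_
  have e0 : (swap (0 : Fin 4) 1 * swap (1 : Fin 4) 2) 0 = 1 := by decide
  have e1 : (swap (0 : Fin 4) 1 * swap (1 : Fin 4) 2) 1 = 2 := by decide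
  have e2 : (swap (0 : Fin 4) 1 * swap (1 : Fin 4) 2) 2 = 0 := by decide
  have e3 : (swap (0 : Fin 4) 1 * swap (1 : Fin 4) 2) 3 = 3 := by decide
  have es : Perm.sign (swap (0 : Fin 4) 1 * swap (1 : Fin 4) 2) = 1 := by
    rw [Perm.sign_mul, Perm.sign_swap (by decide), Perm.sign_swap (by decide)]
    decide
  simp only [Equiv.coe_mulRight, Perm.mul_apply (f := σ), e0, e1, e2, e3,
    Perm.sign_mul (σ), es, mul_one]

theorem S_add (A B : Fin 4 → Fin 4 → Fin 4 → Fin 4 → ℂ) :
    S (fun a b c d => A a b c d + B a b c d) = S A + S B := by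
  unfold S
  simp only [mul_add, Finset.sum_add_distrib]

theorem S_sub (A B : Fin 4 → Fin 4 → Fin 4 → Fin 4 → ℂ) :
    S (fun a b c d => A a b c d - B a b c d) = S A - S B := by
  unfold S
  simp only [mul_sub, Finset.sum_sub_distrib]

theorem S_neg (A : Fin 4 → Fin 4 → Fin 4 → Fin 4 → ℂ) :
    S (fun a b c d => - A a b c d) = - S A := by
  unfold S
  simp only [mul_neg, Finset.sum_neg_distrib]

theorem S_zero : S (fun _ _ _ _ => 0) = 0 := by
  unfold S
  simp

/-- `S` commutes with integrals of continuous functions over compact sets. -/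
theorem S_integral {α : Type*} [MeasurableSpace α] {μ : Measure α}
    {A : Fin 4 → Fin 4 → Fin 4 → Fin 4 → α → ℂ} (hA : ∀ a b c d, Integrable (A a b c d) μ) :
    ∫ x, S (fun a b c d => A a b c d x) ∂μ = S (fun a b c d => ∫ x, A a b c d x ∂μ) := by
  unfold S
  rw [integral_finsetSum _ fun _ _ => (hA _ _ _ _).const_mul _]
  refine Finset.sum_congr rfl fun σ _ => ?_
  rw [integral_const_mul]

theorem continuous_S {X : Type*} [TopologicalSpace X] {A : Fin 4 → Fin 4 → Fin 4 → Fin 4 → X → ℂ}
    (hA : ∀ a b c d, Continuous (A a b c d)) : Continuous fun x => S (fun a b c d => A a b c d x) :=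
  continuous_finsetSum _ fun _ _ => continuous_const.mul (hA _ _ _ _)

end Alt

/-! ### two-forms on the torus -/

section Forms

/-- points of `ℝ⁴`. -/
abbrev V4 := Fin 4 → ℝ

/-- a closed periodic two-form. -/
structure CP (w : Fin 4 → Fin 4 → V4 → ℂ) : Prop where
  sm : ∀ i j, ContDiff ℝ 1 (w i j)
  alt : ∀ i j x, w i j x = - w j i x
  per : ∀ i j l x, w i j (x + Pi.single l 1) = w i j x
  cl : ∀ i j k x, fderiv ℝ (w j k) x (Pi.single i 1) + fderiv ℝ (w k i) x (Pi.single j 1) +
    fderiv ℝ (w i j) x (Pi.single k 1) = 0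

variable {w w' : Fin 4 → Fin 4 → V4 → ℂ}

theorem CP.alt_d (h : CP w) (i j : Fin 4) (x v : V4) :
    fderiv ℝ (w i j) x v = - fderiv ℝ (w j i) x v := by
  have e : w i j = fun x => - w j i x := by funext x; exact h.alt i j x
  rw [e, fderiv_fun_neg]
  rfl

theorem int_of_cont {f : V4 → ℂ} (hf : Continuous f) :
    Integrable f (volume.restrict (Icc (0 : V4) 1)) :=
  hf.continuousOn.integrableOn_compact isCompact_Icc

/-- integration by parts. -/
theorem parts {f g : V4 → ℂ} (hf : ContDiff ℝ 1 f) (hg : ContDiff ℝ 1 g) (i : Fin 4)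
    (hfp : ∀ x, f (x + Pi.single i 1) = f x) (hgp : ∀ x, g (x + Pi.single i 1) = g x) :
    ∫ x in Icc (0 : V4) 1, f x * fderiv ℝ g x (Pi.single i 1) =
      - ∫ x in Icc (0 : V4) 1, fderiv ℝ f x (Pi.single i 1) * g x := by
  have h := integral_fderiv_periodic (hf.mul hg) i (fun x => by
    show f _ * g _ = f x * g x
    rw [hfp, hgp])
  have e1 : ∀ x : V4, fderiv ℝ (fun x => f x * g x) x (Pi.single i 1) =
      f x * fderiv ℝ g x (Pi.single i 1) + fderiv ℝ f x (Pi.single i 1) * g x := by
    intro x
    rw [fderiv_fun_mul (hf.differentiable one_ne_zero x) (hg.differentiable one_ne_zero x)]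
    simp only [add_apply, smul_apply, smul_eq_mul]
    ring
  simp only [e1] at h
  rw [integral_add] at h
  · exact eq_neg_of_add_eq_zero_left h
  · exact int_of_cont (hf.continuous.mul ((hg.continuous_fderiv one_ne_zero).clm_apply
      continuous_const))
  · exact int_of_cont (((hf.continuous_fderiv one_ne_zero).clm_apply
      continuous_const).mul hg.continuous)

/-- the translate of a form. -/
theorem CP.translate (h : CP w) (z : V4) : CP (fun i j x => w i j (x + z)) where
  sm i j := (h.sm i j).comp (contDiff_id.add contDiff_const)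
  alt i j x := h.alt i j _
  per i j l x := by
    rw [show x + Pi.single l 1 + z = x + z + Pi.single l 1 by abel, h.per]
  cl i j k x := by
    simp only [fderiv_comp_add_right]
    exact h.cl i j k _

/-- the key identity: `∫ w ∧ ∂_l w' = 0`. -/
theorem key (h : CP w) (h' : CP w') (l : Fin 4) :
    ∫ x in Icc (0 : V4) 1, S (fun a b c d => w a b x * fderiv ℝ (w' c d) x (Pi.single l 1)) = 0 := by
  have hcd : ∀ i j v, Continuous fun x => fderiv ℝ (w' i j) x v := fun i j v =>
    ((h'.sm i j).continuous_fderiv one_ne_zero).clm_apply continuous_const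
  have hcd1 : ∀ i j v, Continuous fun x => fderiv ℝ (w i j) x v := fun i j v =>
    ((h.sm i j).continuous_fderiv one_ne_zero).clm_apply continuous_const
  have e1 : ∀ x c d, fderiv ℝ (w' c d) x (Pi.single l 1) =
      fderiv ℝ (w' l d) x (Pi.single c 1) - fderiv ℝ (w' l c) x (Pi.single d 1) := by
    intro x c d
    have h1 := h'.cl l c d x
    rw [h'.alt_d d l] at h1
    linear_combination h1
  simp only [e1, mul_sub, S_sub]
  have e2 : ∀ x, S (fun a b c d => w a b x * fderiv ℝ (w' l c) x (Pi.single d 1)) =
      - S (fun a b c d => w a b x * fderiv ℝ (w' l d) x (Pi.single c 1)) := fun x =>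
    S_swap (fun a b c d => w a b x * fderiv ℝ (w' l d) x (Pi.single c 1))
  simp only [e2, sub_neg_eq_add]
  have hint : Integrable (fun x => S (fun a b c d => w a b x * fderiv ℝ (w' l d) x (Pi.single c 1)))
      (volume.restrict (Icc (0 : V4) 1)) :=
    int_of_cont (continuous_S fun a b c d => (h.sm a b).continuous.mul (hcd l d _))
  rw [integral_add hint hint, S_integral
    (A := fun a b c d x => w a b x * fderiv ℝ (w' l d) x (Pi.single c 1)) fun a b c d =>
    int_of_cont ((h.sm a b).continuous.mul (hcd l d _))]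
  have e3 : ∀ a b c d, ∫ x in Icc (0 : V4) 1, w a b x * fderiv ℝ (w' l d) x (Pi.single c 1) =
      - ∫ x in Icc (0 : V4) 1, fderiv ℝ (w a b) x (Pi.single c 1) * w' l d x := fun a b c d =>
    parts (h.sm a b) (h'.sm l d) c (h.per a b c) (h'.per l d c)
  simp only [e3]
  rw [S_neg]
  have e4 : S (fun a b c d => ∫ x in Icc (0 : V4) 1, fderiv ℝ (w a b) x (Pi.single c 1) *
      w' l d x) = 0 := by
    set A : Fin 4 → Fin 4 → Fin 4 → Fin 4 → ℂ := fun a b c d =>
      ∫ x in Icc (0 : V4) 1, fderiv ℝ (w a b) x (Pi.single c 1) * w' l d x with hA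
    have c1 : S (fun a b c d => A b c a d) = S A := S_cyc A
    have c2 : S (fun a b c d => A c a b d) = S (fun a b c d => A b c a d) :=
      S_cyc (fun a b c d => A b c a d)
    have c3 : S (fun a b c d => A a b c d + A b c a d + A c a b d) = 0 := by
      have c4 : ∀ a b c d, A a b c d + A b c a d + A c a b d = 0 := by
        intro a b c d
        have i1 : ∀ a b c, Integrable (fun x => fderiv ℝ (w a b) x (Pi.single c 1) * w' l d x)
            (volume.restrict (Icc (0 : V4) 1)) := fun a b c =>
          int_of_cont ((hcd1 a b _).mul (h'.sm l d).continuous)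
        rw [hA]
        beta_reduce
        have i2 : Integrable (fun x => fderiv ℝ (w a b) x (Pi.single c 1) * w' l d x +
            fderiv ℝ (w b c) x (Pi.single a 1) * w' l d x)
            (volume.restrict (Icc (0 : V4) 1)) := (i1 a b c).add (i1 b c a)
        rw [← integral_add (i1 a b c) (i1 b c a), ← integral_add i2 (i1 c a b)]
        rw [integral_eq_zero_of_ae]
        refine Eventually.of_forall fun x => ?_
        have h1 := h.cl a b c x
        show fderiv ℝ (w a b) x (Pi.single c 1) * w' l d x +
          fderiv ℝ (w b c) x (Pi.single a 1) * w' l d x +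
          fderiv ℝ (w c a) x (Pi.single b 1) * w' l d x = 0
        linear_combination (w' l d x) * h1
      simp only [c4]
      exact S_zero
    rw [S_add (fun a b c d => A a b c d + A b c a d) (fun a b c d => A c a b d),
      S_add A (fun a b c d => A b c a d), c2, c1] at c3
    have c5 : 3 * S A = 0 := by linear_combination c3
    exact (mul_eq_zero.1 c5).resolve_left (by norm_num)
  rw [e4]
  simp

/-- the pairing of `w` and a translate of `w'` is constant. -/
theorem pair_const (h : CP w) (h' : CP w') (y : V4) :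
    ∫ x in Icc (0 : V4) 1, S (fun a b c d => w a b x * w' c d (x + y)) =
      ∫ x in Icc (0 : V4) 1, S (fun a b c d => w a b x * w' c d x) := by
  have hder : ∀ t : ℝ, HasDerivAt (fun t : ℝ => ∫ x in Icc (0 : V4) 1,
      S (fun a b c d => w a b x * w' c d (x + t • y))) 0 t := by
    intro t
    have h1 := hasDerivAt_cube (n := 4)
      (F := fun t x => S (fun a b c d => w a b x * w' c d (x + t • y)))
      (F' := fun t x => S (fun a b c d => w a b x * fderiv ℝ (w' c d) (x + t • y) y))
      (continuous_S (X := ℝ × V4) (A := fun a b c d p => w a b p.2 * w' c d (p.2 + p.1 • y))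
        fun a b c d => ((h.sm a b).continuous.comp continuous_snd).mul
          ((h'.sm c d).continuous.comp (by fun_prop)))
      (continuous_S (X := ℝ × V4)
        (A := fun a b c d p => w a b p.2 * fderiv ℝ (w' c d) (p.2 + p.1 • y) y)
        fun a b c d => ((h.sm a b).continuous.comp continuous_snd).mul
          ((((h'.sm c d).continuous_fderiv one_ne_zero).comp (by fun_prop)).clm_apply
            continuous_const))
      (fun t x => by
        unfold S
        refine HasDerivAt.fun_sum fun σ _ => ?_
        refine HasDerivAt.const_mul _ (HasDerivAt.const_mul _ ?_)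
        have h2 : HasDerivAt (fun t : ℝ => x + t • y) y t := by
          simpa using ((hasDerivAt_id t).smul_const y).const_add x
        exact (((h'.sm _ _).differentiable one_ne_zero _).hasFDerivAt).comp_hasDerivAt t h2) t
    have h3 : ∫ x in Icc (0 : V4) 1,
        S (fun a b c d => w a b x * fderiv ℝ (w' c d) (x + t • y) y) = 0 := by
      have hT := h'.translate (t • y)
      have e1 : ∀ x, S (fun a b c d => w a b x * fderiv ℝ (w' c d) (x + t • y) y) =
          ∑ l, (y l : ℂ) * S (fun a b c d => w a b x *
            fderiv ℝ (fun x => w' c d (x + t • y)) x (Pi.single l 1)) := by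
        intro x
        unfold S
        simp only [fderiv_comp_add_right, Finset.mul_sum]
        rw [Finset.sum_comm]
        refine Finset.sum_congr rfl fun σ _ => ?_
        rw [deriv_expand (f := w' (σ 2) (σ 3)) (x + t • y) y, Finset.mul_sum, Finset.mul_sum]
        refine Finset.sum_congr rfl fun l _ => ?_
        ring
      simp only [e1]
      rw [integral_finsetSum]
      · refine Finset.sum_eq_zero fun l _ => ?_
        rw [integral_const_mul, key h hT l, mul_zero]
      · intro l _
        refine int_of_cont (continuous_const.mul (continuous_S fun a b c d =>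
          (h.sm a b).continuous.mul ((((hT.sm c d).continuous_fderiv one_ne_zero)).clm_apply
            continuous_const)))
    rw [h3] at h1
    exact h1
  have hconst := is_const_of_deriv_eq_zero (fun t => (hder t).differentiableAt)
    (fun t => (hder t).deriv) 1 0
  simpa using hconst

/-- **block F**, two forms. -/
theorem integral_wedge_eq_zero' (h : CP w) (h' : CP w')
    (h0 : ∀ i j, ∫ x in Icc (0 : V4) 1, w' i j x = 0) :
    ∫ x in Icc (0 : V4) 1, S (fun a b c d => w a b x * w' c d x) = 0 := by
  set J : ℂ := ∫ x in Icc (0 : V4) 1, S (fun a b c d => w a b x * w' c d x) with hJ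
  have hvol : (volume.restrict (Icc (0 : V4) 1)) univ = 1 := by
    rw [Measure.restrict_apply_univ, Real.volume_Icc_pi]
    simp
  have hprob : IsProbabilityMeasure (volume.restrict (Icc (0 : V4) 1)) := ⟨hvol⟩
  have h1 : ∫ y in Icc (0 : V4) 1, ∫ x in Icc (0 : V4) 1,
      S (fun a b c d => w a b x * w' c d (x + y)) = J := by
    simp only [pair_const h h']
    rw [integral_const, ← hJ]
    simp [measureReal_def]
  have hcont : Continuous (uncurry fun (y x : V4) => S (fun a b c d => w a b x * w' c d (x + y))) :=
    continuous_S (X := V4 × V4) (A := fun a b c d p => w a b p.2 * w' c d (p.2 + p.1))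
      fun a b c d => ((h.sm a b).continuous.comp continuous_snd).mul
          ((h'.sm c d).continuous.comp (by fun_prop))
  have hint : Integrable (uncurry fun (y x : V4) => S (fun a b c d => w a b x * w' c d (x + y)))
      ((volume.restrict (Icc (0 : V4) 1)).prod (volume.restrict (Icc (0 : V4) 1))) := by
    rw [Measure.prod_restrict]
    exact hcont.continuousOn.integrableOn_compact (isCompact_Icc.prod isCompact_Icc)
  rw [integral_integral_swap hint] at h1
  rw [← h1]
  rw [integral_eq_zero_of_ae]
  refine Eventually.of_forall fun x => ?_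
  show ∫ y in Icc (0 : V4) 1, S (fun a b c d => w a b x * w' c d (x + y)) = 0
  rw [S_integral (A := fun a b c d y => w a b x * w' c d (x + y)) fun a b c d =>
    int_of_cont (continuous_const.mul ((h'.sm c d).continuous.comp (by fun_prop)))]
  have h2 : ∀ a b c d, ∫ y in Icc (0 : V4) 1, w a b x * w' c d (x + y) = 0 := by
    intro a b c d
    rw [integral_const_mul, integral_translate (n := 3) (h'.sm c d) (fun l => h'.per c d l) x,
      h0, mul_zero]
  simp only [h2]
  exact S_zero

/-- **block F** (text of helper307 #2092). -/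
theorem integral_wedge_eq_zero {w : Fin 4 → Fin 4 → (Fin 4 → ℝ) → ℂ}
    (sm : ∀ i j, ContDiff ℝ 1 (w i j)) (alt : ∀ i j x, w i j x = - w j i x)
    (per : ∀ i j l x, w i j (x + Pi.single l 1) = w i j x)
    (cl : ∀ i j k x, fderiv ℝ (w j k) x (Pi.single i 1) + fderiv ℝ (w k i) x (Pi.single j 1) +
      fderiv ℝ (w i j) x (Pi.single k 1) = 0)
    (h0 : ∀ i j, ∫ x in Icc (0 : Fin 4 → ℝ) 1, w i j x = 0) :
    ∫ x in Icc (0 : Fin 4 → ℝ) 1, ∑ σ : Equiv.Perm (Fin 4),
      ((Equiv.Perm.sign σ : ℤ) : ℂ) * (w (σ 0) (σ 1) x * w (σ 2) (σ 3) x) = 0 :=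
  integral_wedge_eq_zero' (⟨sm, alt, per, cl⟩ : CP w) ⟨sm, alt, per, cl⟩ h0

open scoped ContDiff in
/-- **FOUR** of `FamDefs_307`. -/
theorem four : FamDefs_307.FOUR := by
  intro w sm alt per cl h0
  refine integral_wedge_eq_zero (fun i j => (sm i j).of_le (by simp)) alt (fun i j l x => ?_)
    cl h0
  have h := per i j x (Pi.single l 1)
  rw [← h]
  congr 1
  funext a
  rw [Pi.add_apply]
  congr 1
  rcases eq_or_ne a l with rfl | ha
  · simp
  · simp [ha]

end Forms

end

end Crest.Agent.R235.TorF_692
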