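import Crest.Agent.R235.FdsE_143
import Crest.Agent.R235.TorF_692
import Crest.Agent.R235.FamW_307

/-!
Row 235 (S0364), package FAM (helper143): FIN4 and FINH4 of `FamW_307` from FDS2, FDS4, FDH4, FOUR.

* `ww P i j = tr (P [d_iP, d_jP])` is closed, periodic, antisymmetric (`ww_cl`, `tr_odd`);
* `int_red` : its integral over the cube is the integral over the slice `h_k = 1/2`;
* `slice`   : no zeros over the slice ⇒ `∫ ww P i j = 0` (FDS2);
* `fin4_of`, `finh4_of`.
-/

set_option autoImplicit false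
set_option maxSynthPendingDepth 3
set_option linter.unusedSectionVars false
set_option linter.unusedVariables false

open Set Filter Module MeasureTheory Function
open scoped ContDiff Topology InnerProductSpace

namespace Crest.Agent.R235.FamFin_143

open FamDefs_307 FamW_307 FdsF_143 FdsE_143

noncomputable section

section forms

variable {H : Type*} [NormedAddCommGroup H] [InnerProductSpace ℂ H] [FiniteDimensional ℂ H]

/-- the trace as a real linear map. -/
def trL : (H →L[ℂ] H) →L[ℝ] ℂ :=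
  { toFun := tr
    map_add' := fun X Y => by unfold tr; simp
    map_smul' := fun c X => by
      have h : ((c • X : H →L[ℂ] H) : H →ₗ[ℂ] H) = (c : ℂ) • (X : H →ₗ[ℂ] H) := by
        ext x; simp
      unfold tr
      rw [h, map_smul]; simp
    cont := tr_cont }

@[simp] lemma trL_apply (X : H →L[ℂ] H) : trL X = tr X := rfl

lemma tr_add (X Y : H →L[ℂ] H) : tr (X + Y) = tr X + tr Y := trL.map_add X Y
lemma tr_sub (X Y : H →L[ℂ] H) : tr (X - Y) = tr X - tr Y := trL.map_sub X Y
lemma tr_mul (X Y : H →L[ℂ] H) : tr (X * Y) = tr (Y * X) := tr_comm X Y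

/-- the trace of a product of three odd operators vanishes. -/
lemma tr_odd {P A B C : H →L[ℂ] H} (hP : P * P = P) (hA : A * P + P * A = A)
    (hB : B * P + P * B = B) (hC : C * P + P * C = C) : tr (A * B * C) = 0 := by
  have h1 : A * B * C * P = A * B * C - P * (A * B * C) := by
    have e1 : C * P = C - P * C := eq_sub_of_add_eq hC
    have e2 : B * P = B - P * B := eq_sub_of_add_eq hB
    have e3 : A * P = A - P * A := eq_sub_of_add_eq hA
    calc A * B * C * P = A * B * (C * P) := by rw [mul_assoc]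
      _ = A * B * C - A * (B * P) * C := by rw [e1]; noncomm_ring
      _ = A * P * (B * C) := by rw [e2]; noncomm_ring
      _ = A * B * C - P * (A * B * C) := by rw [e3]; noncomm_ring
  have h2 : tr (A * B * C * P) = 0 := by
    have h3 : tr (A * B * C * P) = tr (P * (A * B * C * P)) := by
      rw [tr_mul P, mul_assoc (A * B * C) P P, hP]
    rw [h3, h1, mul_sub, ← mul_assoc P P, hP, sub_self]
    exact trL.map_zero
  have h4 : tr (P * (A * B * C)) = 0 := by rw [← tr_mul]; exact h2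
  have h5 := congrArg tr h1
  rw [tr_sub, h2, h4, sub_zero] at h5
  exact h5.symm

variable {n : ℕ}

lemma two_le : (2 : ℕ∞ω) ≤ ∞ := ENat.LEInfty.out

/-- smooth periodic families of idempotents. -/
structure PS (P : (Fin n → ℝ) → H →L[ℂ] H) : Prop where
  smooth : ContDiff ℝ ∞ P
  per : ∀ (h : Fin n → ℝ) (k : Fin n → ℤ), P (fun i => h i + k i) = P h
  idem : ∀ h, P h * P h = P h

/-- `tr (P [d_iP, d_jP])`. -/
def ww (P : (Fin n → ℝ) → H →L[ℂ] H) (i j : Fin n) (h : Fin n → ℝ) : ℂ :=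
  tr (P h * (pdθ i P h * pdθ j P h - pdθ j P h * pdθ i P h))

lemma pd_smooth {V : Type*} [NormedAddCommGroup V] [NormedSpace ℝ V] {P : (Fin n → ℝ) → V}
    (hP : ContDiff ℝ ∞ P) (i : Fin n) : ContDiff ℝ ∞ (pdθ i P) :=
  (hP.fderiv_right (m := ∞) (by exact le_rfl)).clm_apply contDiff_const

lemma pd_symm {V : Type*} [NormedAddCommGroup V] [NormedSpace ℝ V] {P : (Fin n → ℝ) → V}
    (hP : ContDiff ℝ ∞ P) (i j : Fin n) (h : Fin n → ℝ) :
    pdθ i (pdθ j P) h = pdθ j (pdθ i P) h := by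
  have h1 : ∀ (i j : Fin n), pdθ i (pdθ j P) h =
      fderiv ℝ (fderiv ℝ P) h (Pi.single i 1) (Pi.single j 1) := by
    intro i j
    have h2 : DifferentiableAt ℝ (fderiv ℝ P) h :=
      ((hP.fderiv_right (m := 1) (by rw [one_add_one_eq_two]; exact two_le)).differentiable (by simp)) h
    have h3 : pdθ j P = fun x => fderiv ℝ P x (Pi.single j 1) := rfl
    unfold pdθ
    rw [fderiv_clm_apply h2 (differentiableAt_const _)]
    simp
  rw [h1, h1]
  have h4 : IsSymmSndFDerivAt ℝ P h :=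
    hP.contDiffAt.isSymmSndFDerivAt (by simp; exact two_le)
  exact h4.eq _ _

lemma mul_contDiff {P Q : (Fin n → ℝ) → H →L[ℂ] H} {k : ℕ∞ω} (hP : ContDiff ℝ k P)
    (hQ : ContDiff ℝ k Q) : ContDiff ℝ k (fun x => P x * Q x) :=
  comp_contDiff hP hQ

lemma mul_fderiv {P Q : (Fin n → ℝ) → H →L[ℂ] H} {h : Fin n → ℝ} (hP : DifferentiableAt ℝ P h)
    (hQ : DifferentiableAt ℝ Q h) (v : Fin n → ℝ) :
    fderiv ℝ (fun x => P x * Q x) h v = P h * fderiv ℝ Q h v + fderiv ℝ P h v * Q h :=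
  comp_fderiv hP hQ v

lemma ww_smooth {P : (Fin n → ℝ) → H →L[ℂ] H} (hP : ContDiff ℝ ∞ P) (i j : Fin n) :
    ContDiff ℝ ∞ (ww P i j) := by
  have h1 := pd_smooth hP i
  have h2 := pd_smooth hP j
  exact trL.contDiff.comp (mul_contDiff hP ((mul_contDiff h1 h2).sub (mul_contDiff h2 h1)))

lemma ww_alt (P : (Fin n → ℝ) → H →L[ℂ] H) (i j : Fin n) (h : Fin n → ℝ) :
    ww P i j h = - ww P j i h := by
  unfold ww
  rw [← neg_sub (pdθ j P h * pdθ i P h), mul_neg]
  exact map_neg (trL (H := H)) _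

lemma PS.ww_per {P : (Fin n → ℝ) → H →L[ℂ] H} (hP : PS P) (i j : Fin n) (h : Fin n → ℝ)
    (k : Fin n → ℤ) : ww P i j (fun l => h l + k l) = ww P i j h := by
  unfold ww
  rw [hP.per, pd_per hP.per, pd_per hP.per]

lemma PS.odd {P : (Fin n → ℝ) → H →L[ℂ] H} (hP : PS P) (i : Fin n) (h : Fin n → ℝ) :
    pdθ i P h * P h + P h * pdθ i P h = pdθ i P h := by
  have hd : DifferentiableAt ℝ P h := hP.smooth.contDiffAt.differentiableAt (by simp)
  have h1 := mul_fderiv hd hd (Pi.single i 1)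
  have h2 : (fun x => P x * P x) = P := funext hP.idem
  rw [h2] at h1
  rw [add_comm]
  exact h1.symm

lemma ww_fderiv {P : (Fin n → ℝ) → H →L[ℂ] H} (hP : ContDiff ℝ ∞ P) (i j k : Fin n)
    (h : Fin n → ℝ) : fderiv ℝ (ww P i j) h (Pi.single k 1) =
      tr (P h * (pdθ i P h * pdθ k (pdθ j P) h + pdθ k (pdθ i P) h * pdθ j P h -
        (pdθ j P h * pdθ k (pdθ i P) h + pdθ k (pdθ j P) h * pdθ i P h)) +
        pdθ k P h * (pdθ i P h * pdθ j P h - pdθ j P h * pdθ i P h)) := by
  have d0 : DifferentiableAt ℝ P h := hP.contDiffAt.differentiableAt (by simp)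
  have di : ∀ i, DifferentiableAt ℝ (pdθ i P) h := fun i =>
    (pd_smooth hP i).contDiffAt.differentiableAt (by simp)
  have dm : ∀ i j, DifferentiableAt ℝ (fun x => pdθ i P x * pdθ j P x) h := fun i j =>
    (mul_contDiff (pd_smooth hP i) (pd_smooth hP j)).contDiffAt.differentiableAt (by simp)
  have e1 : ww P i j = fun x => trL (P x * (pdθ i P x * pdθ j P x - pdθ j P x * pdθ i P x)) := rfl
  have d1 : DifferentiableAt ℝ
      (fun x => P x * (pdθ i P x * pdθ j P x - pdθ j P x * pdθ i P x)) h :=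
    (mul_contDiff hP ((mul_contDiff (pd_smooth hP i) (pd_smooth hP j)).sub
      (mul_contDiff (pd_smooth hP j) (pd_smooth hP i)))).contDiffAt.differentiableAt (by simp)
  rw [e1, fderiv_fun_comp h trL.differentiableAt d1]
  simp only [ContinuousLinearMap.fderiv, ContinuousLinearMap.comp_apply, trL_apply]
  rw [mul_fderiv d0 ((dm i j).fun_sub (dm j i)), fderiv_fun_sub (dm i j) (dm j i),
    sub_apply, mul_fderiv (di i) (di j), mul_fderiv (di j) (di i)]
  rfl

lemma PS.ww_cl {P : (Fin n → ℝ) → H →L[ℂ] H} (hP : PS P) (i j k : Fin n) (h : Fin n → ℝ) :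
    fderiv ℝ (ww P j k) h (Pi.single i 1) + fderiv ℝ (ww P k i) h (Pi.single j 1) +
      fderiv ℝ (ww P i j) h (Pi.single k 1) = 0 := by
  rw [ww_fderiv hP.smooth, ww_fderiv hP.smooth, ww_fderiv hP.smooth, ← tr_add, ← tr_add,
    pd_symm hP.smooth k j, pd_symm hP.smooth k i, pd_symm hP.smooth j i]
  set A := pdθ i P h
  set B := pdθ j P h
  set C := pdθ k P h
  set Q := P h
  have hA : A * Q + Q * A = A := hP.odd i h
  have hB : B * Q + Q * B = B := hP.odd j h
  have hC : C * Q + Q * C = C := hP.odd k h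
  have hQ : Q * Q = Q := hP.idem h
  have e : ∀ X Y Z : H →L[ℂ] H,
      Q * (B * Y + X * C - (C * X + Y * B)) + A * (B * C - C * B) +
      (Q * (C * X + Z * A - (A * Z + X * C)) + B * (C * A - A * C)) +
      (Q * (A * Z + Y * B - (B * Y + Z * A)) + C * (A * B - B * A)) =
      A * B * C - A * C * B + (B * C * A - B * A * C) + (C * A * B - C * B * A) := by
    intro X Y Z; noncomm_ring
  rw [e, tr_add, tr_add, tr_sub, tr_sub, tr_sub, tr_odd hQ hA hB hC, tr_odd hQ hA hC hB,
    tr_odd hQ hB hC hA, tr_odd hQ hB hA hC, tr_odd hQ hC hA hB, tr_odd hQ hC hB hA]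
  simp

end forms

/-! ### slices -/

section slices

variable {V : Type*} [NormedAddCommGroup V] [NormedSpace ℝ V] {n : ℕ}

/-- the linear part of `insertNth`. -/
def insL (k : Fin (n + 1)) : (Fin n → ℝ) →L[ℝ] (Fin (n + 1) → ℝ) :=
  LinearMap.toContinuousLinearMap
    { toFun := fun y => k.insertNth (0 : ℝ) y
      map_add' := fun x y => by
        funext j
        refine Fin.succAboveCases k ?_ (fun i => ?_) j <;> simp
      map_smul' := fun c y => by
        funext j
        refine Fin.succAboveCases k ?_ (fun i => ?_) j <;> simp }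

lemma ins_eq (k : Fin (n + 1)) (c : ℝ) (y : Fin n → ℝ) :
    (k.insertNth c y : Fin (n + 1) → ℝ) = insL k y + Pi.single k c := by
  funext j
  show _ = (k.insertNth (0 : ℝ) y : Fin (n + 1) → ℝ) j + (Pi.single k c : Fin (n + 1) → ℝ) j
  refine Fin.succAboveCases k ?_ (fun i => ?_) j <;> simp

lemma insL_single (k : Fin (n + 1)) (i : Fin n) :
    insL k (Pi.single i (1 : ℝ)) = Pi.single (k.succAbove i) 1 := by
  funext j
  show (k.insertNth (0 : ℝ) (Pi.single i (1 : ℝ)) : Fin (n + 1) → ℝ) j = _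
  refine Fin.succAboveCases k ?_ (fun l => ?_) j
  · simp
  · by_cases h : l = i
    · subst h; simp
    · simp [h]

lemma ins_hasFDerivAt (k : Fin (n + 1)) (c : ℝ) (y : Fin n → ℝ) :
    HasFDerivAt (fun y : Fin n → ℝ => (k.insertNth c y : Fin (n + 1) → ℝ)) (insL k) y := by
  have h : (fun y : Fin n → ℝ => (k.insertNth c y : Fin (n + 1) → ℝ)) =
      fun y => insL k y + Pi.single k c := funext fun y => ins_eq k c y
  rw [h]
  exact (insL k).hasFDerivAt.add_const _

lemma ins_contDiff (k : Fin (n + 1)) (c : ℝ) {m : ℕ∞ω} :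
    ContDiff ℝ m (fun y : Fin n → ℝ => (k.insertNth c y : Fin (n + 1) → ℝ)) := by
  have h : (fun y : Fin n → ℝ => (k.insertNth c y : Fin (n + 1) → ℝ)) =
      fun y => insL k y + Pi.single k c := funext fun y => ins_eq k c y
  rw [h]
  exact (insL k).contDiff.add contDiff_const

/-- restriction to the slice `h_k = 1/2`. -/
def rs (P : (Fin (n + 1) → ℝ) → V) (k : Fin (n + 1)) (y : Fin n → ℝ) : V :=
  P (k.insertNth (1 / 2 : ℝ) y)

lemma fderiv_ins {f : (Fin (n + 1) → ℝ) → V} (k : Fin (n + 1)) (c : ℝ) (y : Fin n → ℝ)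
    (hf : DifferentiableAt ℝ f (k.insertNth c y)) (i : Fin n) :
    fderiv ℝ (fun y : Fin n → ℝ => f (k.insertNth c y)) y (Pi.single i 1) =
      fderiv ℝ f (k.insertNth c y) (Pi.single (k.succAbove i) 1) := by
  have h := (hf.hasFDerivAt.comp y (ins_hasFDerivAt k c y)).fderiv
  have h2 : (f ∘ fun y : Fin n → ℝ => (k.insertNth c y : Fin (n + 1) → ℝ)) =
    fun y : Fin n → ℝ => f (k.insertNth c y) := rfl
  rw [h2] at h
  rw [h, ContinuousLinearMap.comp_apply, insL_single]

lemma pd_rs {P : (Fin (n + 1) → ℝ) → V} (hP : ContDiff ℝ ∞ P) (k : Fin (n + 1)) (i : Fin n)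
    (y : Fin n → ℝ) : pdθ i (rs P k) y = pdθ (k.succAbove i) P (k.insertNth (1 / 2 : ℝ) y) :=
  fderiv_ins k _ y (hP.contDiffAt.differentiableAt (by simp)) i

lemma ins_add (k : Fin (n + 1)) (c : ℝ) (y : Fin n → ℝ) (κ : Fin n → ℤ) :
    (k.insertNth c (fun i => y i + κ i) : Fin (n + 1) → ℝ) =
      fun i => (k.insertNth c y : Fin (n + 1) → ℝ) i +
        ((k.insertNth (0 : ℤ) κ : Fin (n + 1) → ℤ) i : ℝ) := by
  funext j
  refine Fin.succAboveCases k ?_ (fun i => ?_) j <;> simp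

lemma rs_per {P : (Fin (n + 1) → ℝ) → V}
    (hper : ∀ (h : Fin (n + 1) → ℝ) (k : Fin (n + 1) → ℤ), P (fun i => h i + k i) = P h)
    (k : Fin (n + 1)) (y : Fin n → ℝ) (κ : Fin n → ℤ) :
    rs P k (fun i => y i + κ i) = rs P k y := by
  unfold rs
  rw [ins_add, hper]

end slices

section red

variable {H : Type*} [NormedAddCommGroup H] [InnerProductSpace ℂ H] [FiniteDimensional ℂ H]

lemma PS.rs {n : ℕ} {P : (Fin (n + 1) → ℝ) → H →L[ℂ] H} (hP : PS P) (k : Fin (n + 1)) :
    PS (rs P k) where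
  smooth := hP.smooth.comp (ins_contDiff k _)
  per := rs_per hP.per k
  idem y := hP.idem _

lemma ww_rs {n : ℕ} {P : (Fin (n + 1) → ℝ) → H →L[ℂ] H} (hP : PS P) (k : Fin (n + 1))
    (i j : Fin n) (y : Fin n → ℝ) : ww (FamFin_143.rs P k) i j y =
      ww P (k.succAbove i) (k.succAbove j) (k.insertNth (1 / 2 : ℝ) y) := by
  unfold ww
  rw [pd_rs hP.smooth, pd_rs hP.smooth]
  rfl

lemma int_cont {n : ℕ} {f : (Fin n → ℝ) → ℂ} (hf : Continuous f) :
    Integrable f (volume.restrict (Icc (0 : Fin n → ℝ) 1)) :=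
  hf.continuousOn.integrableOn_compact isCompact_Icc

lemma per_single {n : ℕ} {V : Type*} {f : (Fin n → ℝ) → V}
    (h : ∀ (x : Fin n → ℝ) (k : Fin n → ℤ), f (fun l => x l + k l) = f x) (i : Fin n)
    (x : Fin n → ℝ) : f (x + Pi.single i 1) = f x := by
  have h1 := h x (Pi.single i 1)
  rw [← h1]
  congr 1
  funext l
  by_cases hl : l = i
  · subst hl; simp
  · simp [hl]

/-- the slice integral does not depend on the slice. -/
lemma const_slice {n : ℕ} {P : (Fin (n + 2) → ℝ) → H →L[ℂ] H} (hP : PS P) (k : Fin (n + 2))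
    (i j : Fin (n + 1)) (t : ℝ) :
    ∫ y in Icc (0 : Fin (n + 1) → ℝ) 1, ww P (k.succAbove i) (k.succAbove j) (k.insertNth t y) =
    ∫ y in Icc (0 : Fin (n + 1) → ℝ) 1,
      ww P (k.succAbove i) (k.succAbove j) (k.insertNth (1 / 2 : ℝ) y) := by
  set a := k.succAbove i with ha
  set b := k.succAbove j with hb
  have hs : ∀ i j, ContDiff ℝ ∞ (ww P i j) := fun i j => ww_smooth hP.smooth i j
  have hdiff : ∀ i j x, DifferentiableAt ℝ (ww P i j) x := fun i j x =>
    (hs i j).contDiffAt.differentiableAt (by simp)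
  have hcins : Continuous fun p : ℝ × (Fin (n + 1) → ℝ) =>
      (k.insertNth p.1 p.2 : Fin (n + 2) → ℝ) := by
    have h : (fun p : ℝ × (Fin (n + 1) → ℝ) => (k.insertNth p.1 p.2 : Fin (n + 2) → ℝ)) =
        fun p => insL k p.2 + Pi.single k p.1 := funext fun p => ins_eq k p.1 p.2
    rw [h]
    exact ((insL k).continuous.comp continuous_snd).add
      ((continuous_single k).comp continuous_fst)
  have hcd : ∀ i j v, Continuous fun x => fderiv ℝ (ww P i j) x v := fun i j v =>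
    ((hs i j).continuous_fderiv (by simp)).clm_apply continuous_const
  have hder : ∀ t : ℝ, HasDerivAt
      (fun t : ℝ => ∫ y in Icc (0 : Fin (n + 1) → ℝ) 1, ww P a b (k.insertNth t y)) 0 t := by
    intro t
    have h1 := TorF_692.hasDerivAt_cube (n := n + 1) (F := fun t y => ww P a b (k.insertNth t y))
      (F' := fun t y => fderiv ℝ (ww P a b) (k.insertNth t y) (Pi.single k 1))
      ((hs a b).continuous.comp hcins) ((hcd a b (Pi.single k 1)).comp hcins)
      (fun t y => by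
        have h2 : HasDerivAt (fun t : ℝ => (k.insertNth t y : Fin (n + 2) → ℝ))
            (Pi.single k 1) t := by
          have h3 : (fun t : ℝ => (k.insertNth t y : Fin (n + 2) → ℝ)) =
              fun t => t • (Pi.single k 1 : Fin (n + 2) → ℝ) + insL k y := by
            funext t
            rw [ins_eq, add_comm (insL k y)]
            congr 1
            rw [← Pi.single_smul]; simp
          rw [h3]
          simpa using ((hasDerivAt_id t).smul_const (Pi.single k 1 : Fin (n + 2) → ℝ)).add_const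
            (insL k y)
        exact (hdiff a b _).hasFDerivAt.comp_hasDerivAt t h2) t
    have h0 : ∀ (c d : Fin (n + 2)) (i : Fin (n + 1)),
        ∫ y in Icc (0 : Fin (n + 1) → ℝ) 1,
          fderiv ℝ (ww P c d) (k.insertNth t y) (Pi.single (k.succAbove i) 1) = 0 := by
      intro c d i
      have h4 := TorF_692.integral_fderiv_periodic (n := n)
        (f := fun y : Fin (n + 1) → ℝ => ww P c d (k.insertNth t y))
        (((hs c d).comp (ins_contDiff k t)).of_le (by exact_mod_cast le_top)) i (fun y => by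
          refine per_single (f := fun y : Fin (n + 1) → ℝ => ww P c d (k.insertNth t y))
            (fun x κ => ?_) i y
          show ww P c d (k.insertNth t fun l => x l + κ l) = ww P c d (k.insertNth t x)
          rw [ins_add, hP.ww_per])
      rw [← h4]
      refine integral_congr_ae (Eventually.of_forall fun y => ?_)
      exact (fderiv_ins k t y (hdiff c d _) i).symm
    have h5 : ∀ y : Fin (n + 1) → ℝ, fderiv ℝ (ww P a b) (k.insertNth t y) (Pi.single k 1) =
        - (fderiv ℝ (ww P b k) (k.insertNth t y) (Pi.single a 1) +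
          fderiv ℝ (ww P k a) (k.insertNth t y) (Pi.single b 1)) := fun y => by
      have := hP.ww_cl a b k (k.insertNth t y)
      exact (neg_eq_of_add_eq_zero_right this).symm
    have h6 : ∫ y in Icc (0 : Fin (n + 1) → ℝ) 1,
        fderiv ℝ (ww P a b) (k.insertNth t y) (Pi.single k 1) = 0 := by
      simp only [h5]
      rw [integral_neg, integral_add (int_cont ?_) (int_cont ?_), ha, hb, h0, h0, add_zero,
        neg_zero]
      · exact (hcd b k _).comp (ins_contDiff (m := 0) k t).continuous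
      · exact (hcd k a _).comp (ins_contDiff (m := 0) k t).continuous
    rw [h6] at h1
    exact h1
  exact is_const_of_deriv_eq_zero (fun t => (hder t).differentiableAt) (fun t => (hder t).deriv) _ _

/-- the integral over the cube is the integral over the slice. -/
theorem int_red {n : ℕ} {P : (Fin (n + 2) → ℝ) → H →L[ℂ] H} (hP : PS P) (k : Fin (n + 2))
    (i j : Fin (n + 1)) :
    ∫ h in Icc (0 : Fin (n + 2) → ℝ) 1, ww P (k.succAbove i) (k.succAbove j) h =
    ∫ y in Icc (0 : Fin (n + 1) → ℝ) 1, ww (FamFin_143.rs P k) i j y := by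
  set W := ww P (k.succAbove i) (k.succAbove j) with hW
  have hWc : Continuous W := (ww_smooth hP.smooth _ _).continuous
  have hmp := (volume_preserving_piFinSuccAbove (fun _ : Fin (n + 2) => ℝ) k).symm
  have h1 := hmp.setIntegral_preimage_emb (MeasurableEquiv.measurableEmbedding _) W
    (Icc (0 : Fin (n + 2) → ℝ) 1)
  have h2 : ((MeasurableEquiv.piFinSuccAbove (fun _ : Fin (n + 2) => ℝ) k).symm ⁻¹'
      (Icc (0 : Fin (n + 2) → ℝ) 1)) = Icc (0 : ℝ) 1 ×ˢ Icc (0 : Fin (n + 1) → ℝ) 1 := by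
    ext ⟨t, y⟩
    show (k.insertNth t y : Fin (n + 2) → ℝ) ∈ Icc (0 : Fin (n + 2) → ℝ) 1 ↔
      (t, y) ∈ Icc (0 : ℝ) 1 ×ˢ Icc (0 : Fin (n + 1) → ℝ) 1
    simp only [mem_Icc, mem_prod, Pi.le_def, Fin.forall_iff_succAbove k, Fin.insertNth_apply_same,
      Fin.insertNth_apply_succAbove, Pi.zero_apply, Pi.one_apply]
    tauto
  rw [h2] at h1
  rw [← h1, Measure.volume_eq_prod, setIntegral_prod]
  · have h3 : ∀ t : ℝ, ∫ y in Icc (0 : Fin (n + 1) → ℝ) 1,
        W ((MeasurableEquiv.piFinSuccAbove (fun _ : Fin (n + 2) => ℝ) k).symm (t, y)) =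
        ∫ y in Icc (0 : Fin (n + 1) → ℝ) 1, ww (FamFin_143.rs P k) i j y := by
      intro t
      have h4 := const_slice hP k i j t
      simp only [ww_rs hP]
      exact h4
    simp only [h3]
    rw [integral_const]
    simp
  · rw [← Measure.volume_eq_prod]
    refine Continuous.continuousOn ?_ |>.integrableOn_compact (isCompact_Icc.prod isCompact_Icc)
    refine hWc.comp ?_
    show Continuous fun p : ℝ × (Fin (n + 1) → ℝ) => (k.insertNth p.1 p.2 : Fin (n + 2) → ℝ)
    have h : (fun p : ℝ × (Fin (n + 1) → ℝ) => (k.insertNth p.1 p.2 : Fin (n + 2) → ℝ)) =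
        fun p => insL k p.2 + Pi.single k p.1 := funext fun p => ins_eq k p.1 p.2
    rw [h]
    exact ((insL k).continuous.comp continuous_snd).add
      ((continuous_single k).comp continuous_fst)

/-! ### the numbers -/

lemma sum_perm2 (f : Fin 2 → Fin 2 → ℂ) :
    ∑ σ : Equiv.Perm (Fin 2), sg σ * f (σ 0) (σ 1) = f 0 1 - f 1 0 := by
  have h : (Finset.univ : Finset (Equiv.Perm (Fin 2))) = {1, Equiv.swap 0 1} := by decide
  rw [h, Finset.sum_insert (by decide), Finset.sum_singleton]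
  unfold sg
  rw [Equiv.Perm.sign_one, Equiv.Perm.sign_swap (by decide)]
  simp
  ring

lemma ch2_eq (P : (Fin 2 → ℝ) → H →L[ℂ] H) :
    ch2 tr P = ∫ h in Icc (0 : Fin 2 → ℝ) 1, ww P 0 1 h := by
  unfold ch2
  refine integral_congr_ae (Eventually.of_forall fun h => ?_)
  have h1 := sum_perm2 (fun i j => tr (P h * pdθ i P h * pdθ j P h))
  refine h1.trans ?_
  show _ = tr (P h * (pdθ 0 P h * pdθ 1 P h - pdθ 1 P h * pdθ 0 P h))
  rw [mul_sub, tr_sub, mul_assoc, mul_assoc]

lemma S_swap01 (A : Fin 4 → Fin 4 → Fin 4 → Fin 4 → ℂ) :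
    TorF_692.S (fun a b c d => A b a c d) = - TorF_692.S A := by
  unfold TorF_692.S
  rw [← Equiv.sum_comp (Equiv.mulRight (Equiv.swap (0 : Fin 4) 1)) fun σ : Equiv.Perm (Fin 4) =>
    ((Equiv.Perm.sign σ : ℤ) : ℂ) * A (σ 0) (σ 1) (σ 2) (σ 3), ← Finset.sum_neg_distrib]
  refine Finset.sum_congr rfl fun σ _ => ?_
  have e0 : Equiv.swap (0 : Fin 4) 1 0 = 1 := by decide
  have e1 : Equiv.swap (0 : Fin 4) 1 1 = 0 := by decide
  have e2 : Equiv.swap (0 : Fin 4) 1 2 = 2 := by decide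
  have e3 : Equiv.swap (0 : Fin 4) 1 3 = 3 := by decide
  simp only [Equiv.coe_mulRight, Equiv.Perm.mul_apply, e0, e1, e2, e3, Equiv.Perm.sign_mul]
  rw [Equiv.Perm.sign_swap (by decide)]
  simp

lemma S_four (A : Fin 4 → Fin 4 → ℂ) :
    TorF_692.S (fun a b c d => (A a b - A b a) * (A c d - A d c)) =
      4 * TorF_692.S (fun a b c d => A a b * A c d) := by
  have e1 : (fun a b c d : Fin 4 => (A a b - A b a) * (A c d - A d c)) = fun a b c d =>
      (A a b * A c d - A b a * A c d) - (A a b * A d c - A b a * A d c) := by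
    funext a b c d; ring
  have e2 := S_swap01 (fun a b c d => A a b * A c d)
  have e3 := TorF_692.S_swap (fun a b c d => A a b * A c d)
  have e4 := TorF_692.S_swap (fun a b c d => A b a * A c d)
  rw [e1, TorF_692.S_sub (fun a b c d => A a b * A c d - A b a * A c d)
    (fun a b c d => A a b * A d c - A b a * A d c), TorF_692.S_sub, TorF_692.S_sub]
  rw [e4, e3]
  rw [e2]
  ring

/-- **all periods zero ⇒ `chsq = 0`.** -/
theorem chsq_zero (hFo : FOUR) {P : (Fin 4 → ℝ) → H →L[ℂ] H} (hP : PS P)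
    (h0 : ∀ i j : Fin 4, i ≠ j → ∫ h in Icc (0 : Fin 4 → ℝ) 1, ww P i j h = 0) :
    chsq tr P = 0 := by
  have h1 := hFo (ww P) (ww_smooth hP.smooth) (ww_alt P) (fun i j => hP.ww_per i j)
    (fun i j k h => hP.ww_cl i j k h) (fun i j => by
      by_cases hij : i = j
      · subst hij
        have : ∀ h, ww P i i h = 0 := fun h => by
          unfold ww
          rw [sub_self, mul_zero]
          exact trL.map_zero
        simp [this]
      · exact h0 i j hij)
  have h2 : ∀ h : Fin 4 → ℝ, ∑ σ : Equiv.Perm (Fin 4),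
      sg σ * (ww P (σ 0) (σ 1) h * ww P (σ 2) (σ 3) h) =
      4 * ∑ σ : Equiv.Perm (Fin 4), sg σ * (tr (P h * pdθ (σ 0) P h * pdθ (σ 1) P h) *
        tr (P h * pdθ (σ 2) P h * pdθ (σ 3) P h)) := by
    intro h
    have h3 := S_four (fun i j => tr (P h * pdθ i P h * pdθ j P h))
    have h4 : ∀ i j, ww P i j h = tr (P h * pdθ i P h * pdθ j P h) -
        tr (P h * pdθ j P h * pdθ i P h) := fun i j => by
      unfold ww
      rw [mul_sub, tr_sub, mul_assoc, mul_assoc]
    simp only [h4]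
    exact h3
  simp only [h2] at h1
  rw [integral_const_mul] at h1
  unfold chsq
  exact (mul_eq_zero.1 h1).resolve_left (by norm_num)

end red

/-! ### the slice systems -/

section sys

variable {T H YR YW : Type} [NormedAddCommGroup T] [NormedSpace ℝ T] [FiniteDimensional ℝ T]
  [NormedAddCommGroup H] [InnerProductSpace ℂ H] [FiniteDimensional ℂ H]
  [NormedAddCommGroup YR] [NormedSpace ℝ YR] [FiniteDimensional ℝ YR]
  [NormedAddCommGroup YW] [NormedSpace ℂ YW] [FiniteDimensional ℂ YW]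

lemma ps_of {b m : ℕ} {P : (Fin b → ℝ) → H →L[ℂ] H} (hP : PPer b m P) : PS P :=
  ⟨hP.smooth, hP.per, fun h => by ext x; exact hP.idem h x⟩

lemma pper_rs {n m : ℕ} {P : (Fin (n + 1) → ℝ) → H →L[ℂ] H} (hP : PPer (n + 1) m P)
    (k : Fin (n + 1)) : PPer n m (rs P k) where
  smooth := hP.smooth.comp (ins_contDiff k _)
  per := rs_per hP.per k
  idem y := hP.idem _
  sa y := hP.sa _
  rank y := hP.rank _

/-- the embedding of the 2-torus. -/
def io (k : Fin 4) (l : Fin 3) (y : Fin 2 → ℝ) : Fin 4 → ℝ :=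
  k.insertNth (1 / 2 : ℝ) (l.insertNth (1 / 2 : ℝ) y : Fin 3 → ℝ)

lemma io_cont (k : Fin 4) (l : Fin 3) : Continuous (io k l) :=
  (ins_contDiff (m := 0) k _).continuous.comp (ins_contDiff (m := 0) l _).continuous

lemma io_add (k : Fin 4) (l : Fin 3) (y : Fin 2 → ℝ) (κ : Fin 2 → ℤ) :
    io k l (fun i => y i + κ i) = fun i => io k l y i +
      ((k.insertNth (0 : ℤ) (l.insertNth (0 : ℤ) κ : Fin 3 → ℤ) : Fin 4 → ℤ) i : ℝ) := by
  unfold io
  rw [ins_add l, ins_add k]

lemma io_mem (k : Fin 4) (l : Fin 3) (y : Fin 2 → ℝ) (q : Fin 4)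
    (h0 : q ≠ k.succAbove (l.succAbove 0)) (h1 : q ≠ k.succAbove (l.succAbove 1)) :
    io k l y q = 1 / 2 := by
  unfold io
  rcases eq_or_ne q k with rfl | hk
  · simp
  · obtain ⟨r, rfl⟩ := Fin.exists_succAbove_eq hk
    rw [Fin.insertNth_apply_succAbove]
    rcases eq_or_ne r l with rfl | hl
    · simp
    · obtain ⟨u, rfl⟩ := Fin.exists_succAbove_eq hl
      fin_cases u
      · exact absurd rfl h0
      · exact absurd rfl h1

variable {m : ℕ} {P : (Fin 4 → ℝ) → H →L[ℂ] H} {L : T ≃L[ℝ] YR}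
  {fR : T × (Fin 4 → ℝ) × H → YR} {fW : T × (Fin 4 → ℝ) × H → YW} {R : ℝ}

lemma ray_ne {Y2 : Type} [NormedAddCommGroup Y2] [NormedSpace ℂ Y2] {w : YW} {g v : Y2}
    (hw : w ≠ 0) (s : ℝ) : ((w, g) : YW × Y2) ≠ (s : ℂ) • ((0 : YW), v) := by
  intro h
  have := congrArg Prod.fst h
  simp at this
  exact hw this

theorem ch2_slice (hF : FDS2) (hW : FW 4 m P L fR fW R) (k : Fin 4) (l : Fin 3)
    (hN : NZ P fR fW {h | ∀ q, q ≠ k.succAbove (l.succAbove 0) →
      q ≠ k.succAbove (l.succAbove 1) → h q = 1 / 2}) :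
    ch2 tr (rs (rs P k) l) = 0 := by
  have hzero : ∀ (s : ℝ) (w : YW), w ≠ 0 → ((w, (0 : ℂ)) : YW × ℂ) ≠ (s : ℂ) • ((0 : YW), (1 : ℂ)) :=
    fun s w hw => ray_ne hw s
  have hmap : Continuous fun x : T × (Fin 2 → ℝ) × H => (x.1, io k l x.2.1, x.2.2) :=
    continuous_fst.prodMk (((io_cont k l).comp (continuous_fst.comp continuous_snd)).prodMk
      (continuous_snd.comp continuous_snd))
  refine hF T H YR (YW × ℂ) m (rs (rs P k) l) L (fun x => fR (x.1, io k l x.2.1, x.2.2))
    (fun x => (fW (x.1, io k l x.2.1, x.2.2), 0)) ((0 : YW), (1 : ℂ)) R ?_ ?_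
  · exact
      { proj := pper_rs (pper_rs hW.proj k) l
        hdim := by rw [finrank_prod, hW.wdim, finrank_self]; ring
        cR := hW.cR.comp hmap
        cC := (hW.cW.comp hmap).prodMk continuous_const
        eqR := fun t h ψ z hz => hW.eqR _ _ _ _ hz
        eqC := fun t h ψ z hz => by
          show (fW (t, io k l h, z • ψ), (0 : ℂ)) = z • (fW (t, io k l h, ψ), (0 : ℂ))
          rw [hW.eqW _ _ _ _ hz]
          simp
        pR := fun t h ψ κ => by
          show fR (t, io k l _, ψ) = _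
          rw [io_add, hW.pR]
        pC := fun t h ψ κ => by
          show (fW (t, io k l _, ψ), (0 : ℂ)) = _
          rw [io_add, hW.pW]
        fix := fun t h ht => hW.fix _ _ ht
        vne := by simp
        big := fun t h ψ ht hψ hR h0 s hs => hzero s _ (hW.big t _ ψ ht hψ hR h0) }
  · intro t h ψ ht hψ h0 s hs
    refine hzero s _ (hN t _ ψ ht ?_ hψ h0)
    intro q h1 h2
    exact io_mem k l h q h1 h2

/-- all periods vanish. -/
theorem periods (hF : FDS2) (hW : FW 4 m P L fR fW R)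
    (hN : ∀ i j : Fin 4, i ≠ j → NZ P fR fW {h | ∀ k, k ≠ i → k ≠ j → h k = 1 / 2})
    (i j : Fin 4) (hij : i ≠ j) : ∫ h in Icc (0 : Fin 4 → ℝ) 1, ww P i j h = 0 := by
  have hPS := ps_of hW.proj
  obtain ⟨k, hki, hkj⟩ : ∃ k : Fin 4, k ≠ i ∧ k ≠ j := by
    revert i j; decide
  obtain ⟨i1, rfl⟩ := Fin.exists_succAbove_eq hki.symm
  obtain ⟨j1, rfl⟩ := Fin.exists_succAbove_eq hkj.symm
  have hij1 : i1 ≠ j1 := fun h => hij (by rw [h])
  obtain ⟨l, hli, hlj⟩ : ∃ l : Fin 3, l ≠ i1 ∧ l ≠ j1 := by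
    clear hki hkj hij
    revert i1 j1; decide
  obtain ⟨i2, rfl⟩ := Fin.exists_succAbove_eq hli.symm
  obtain ⟨j2, rfl⟩ := Fin.exists_succAbove_eq hlj.symm
  have hij2 : i2 ≠ j2 := fun h => hij1 (by rw [h])
  have hc : ch2 tr (rs (rs P k) l) = 0 := ch2_slice hF hW k l (hN _ _ (by
    intro h
    have h1 := Fin.succAbove_right_injective (Fin.succAbove_right_injective h)
    exact absurd h1 (by decide)))
  rw [ch2_eq] at hc
  rw [int_red hPS k, int_red (hPS.rs k) l]
  have h01 : (i2 = 0 ∧ j2 = 1) ∨ (i2 = 1 ∧ j2 = 0) := by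
    clear * - hij2
    revert i2 j2; decide
  rcases h01 with ⟨rfl, rfl⟩ | ⟨rfl, rfl⟩
  · exact hc
  · have h2 : ∀ y, ww (rs (rs P k) l) 1 0 y = - ww (rs (rs P k) l) 0 1 y := ww_alt _ 1 0
    simp only [h2]
    rw [integral_neg, hc, neg_zero]

lemma fsys4 (hW : FW 4 m P L fR fW R) {g : T × (Fin 4 → ℝ) × H → EuclideanSpace ℂ (Fin 2)}
    (cg : Continuous g)
    (eg : ∀ t h ψ (z : ℂ), ‖z‖ = 1 → g (t, h, z • ψ) = z • g (t, h, ψ))
    (pg : ∀ t h ψ (k : Fin 4 → ℤ), g (t, fun i => h i + k i, ψ) = g (t, h, ψ)) :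
    FSys 4 m P L fR (fun x => (fW x, g x))
      ((0 : YW), EuclideanSpace.single (0 : Fin 2) (1 : ℂ)) R where
  proj := hW.proj
  hdim := by rw [finrank_prod, hW.wdim, finrank_euclideanSpace_fin]; ring
  cR := hW.cR
  cC := hW.cW.prodMk cg
  eqR := hW.eqR
  eqC t h ψ z hz := by
    show (fW (t, h, z • ψ), g (t, h, z • ψ)) = z • (fW (t, h, ψ), g (t, h, ψ))
    rw [hW.eqW _ _ _ _ hz, eg _ _ _ _ hz]; rfl
  pR := hW.pR
  pC t h ψ k := by
    show (fW (t, _, ψ), g (t, _, ψ)) = _
    rw [hW.pW, pg]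
  fix := hW.fix
  vne := by
    intro h
    have h1 := congrArg Prod.snd h
    have h2 : EuclideanSpace.single (0 : Fin 2) (1 : ℂ) = 0 := h1
    rw [PiLp.single_eq_zero_iff] at h2
    exact one_ne_zero h2
  big t h ψ ht hψ hR h0 s hs := ray_ne (hW.big t h ψ ht hψ hR h0) s

end sys

/-- **FIN4.** -/
theorem fin4_of (h2 : FDS2) (h4 : FDS4) (hF : FOUR) : FIN4 := by
  intro T H YR YW _ _ _ _ _ _ _ _ _ _ _ _ m P L fR fW R hW hN
  have h0 := chsq_zero hF (ps_of hW.proj) (periods h2 hW fun i j _ t h ψ ht _ hψ hz =>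
    hN t h ψ ht (mem_univ _) hψ hz)
  have h1 := h4 T H YR (YW × EuclideanSpace ℂ (Fin 2)) m P L fR (fun x => (fW x, 0))
    ((0 : YW), EuclideanSpace.single (0 : Fin 2) (1 : ℂ)) R
    (fsys4 hW continuous_const (fun _ _ _ z _ => (smul_zero z).symm) (fun _ _ _ _ => rfl))
    (fun t h ψ ht hψ hz s hs => ray_ne (hN t h ψ ht (mem_univ _) hψ hz) s)
  rw [h0, add_zero] at h1
  exact h1

/-- **FINH4.** -/
theorem finh4_of (h2 : FDS2) (h4 : FDH4) (hF : FOUR) : FINH4 := by
  intro T H YR YW _ _ _ _ _ _ _ _ _ _ _ _ m P L fR fW R hW hO hN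
  have h0 := chsq_zero hF (ps_of hW.proj) (periods h2 hW hN)
  obtain ⟨g, cg, eg, pg, hR⟩ := hO
  have h1 := h4 T H YR (YW × EuclideanSpace ℂ (Fin 2)) m P L fR (fun x => (fW x, g x))
    ((0 : YW), EuclideanSpace.single (0 : Fin 2) (1 : ℂ)) R (fsys4 hW cg eg pg) hR
  rw [h0, add_zero] at h1
  exact h1

end

end Crest.Agent.R235.FamFin_143
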