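import Mathlib.Analysis.InnerProductSpace.Projection.FiniteDimensional
import Mathlib.Analysis.Normed.Operator.Banach
import Mathlib.Analysis.InnerProductSpace.Adjoint
import Mathlib.Topology.Sequences

/-!
Row 235 (S0364), package SW, task 170 (general Galerkin reduction of a compact perturbation of a
Fredholm map, #1539 (5)); pure Hilbert space, no symmetry assumed, arbitrary compact parameter
space `T`, arbitrary closed "boundary" set `S`.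

* `isCompact_pre`  : `{x | ‖x‖ ≤ R ∧ L x ∈ Q}` is compact (`L` with finite dimensional kernel and
                     closed range, `Q` compact);
* `exists_eps`     : lower bound of a proper map on a closed set without zeros;
* `exists_findim`  : finite dimensional approximation of a compact set;
* `finrank_comap`  : the dimension count;
* `galerkin`       : the reduction (real part `X1 → Y1`, complex part `X2 → Y2`).
-/

set_option autoImplicit false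

open Set Metric Module Filter Topology

open scoped NNReal

namespace Crest.Agent.R235.Gal_936

section Key

variable {𝕜 X Y : Type*} [RCLike 𝕜] [NormedAddCommGroup X] [InnerProductSpace 𝕜 X]
  [CompleteSpace X] [NormedAddCommGroup Y] [InnerProductSpace 𝕜 Y] [CompleteSpace Y]

/-- `L` is bounded below on the orthogonal complement of its kernel. -/
theorem exists_anti (L : X →L[𝕜] Y) [FiniteDimensional 𝕜 (LinearMap.ker (L : X →ₗ[𝕜] Y))]
    (hc : IsClosed (range L)) :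
    ∃ c : ℝ≥0, ∀ x ∈ (LinearMap.ker (L : X →ₗ[𝕜] Y))ᗮ, ‖x‖ ≤ c * ‖L x‖ := by
  set N : Submodule 𝕜 X := (LinearMap.ker (L : X →ₗ[𝕜] Y))ᗮ with hN
  have : CompleteSpace N := (Submodule.isClosed_orthogonal _).completeSpace_coe
  let L' : N →L[𝕜] Y := L.comp N.subtypeL
  have hinj : Function.Injective L' := by
    intro x y hxy
    have h1 : L (x - y : X) = 0 := by
      have : L x = L y := hxy
      rw [map_sub, this, sub_self]
    have h2 : (x - y : X) ∈ LinearMap.ker (L : X →ₗ[𝕜] Y) := h1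
    have h3 : (x - y : X) ∈ N := N.sub_mem x.2 y.2
    have h4 : (x - y : X) = 0 := by
      have := (Submodule.mem_orthogonal _ _).1 h3 _ h2
      exact inner_self_eq_zero.1 this
    exact Subtype.ext (sub_eq_zero.1 h4)
  have hran : range L' = range L := by
    apply le_antisymm
    · rintro _ ⟨x, rfl⟩
      exact ⟨x, rfl⟩
    · rintro _ ⟨x, rfl⟩
      let k := (LinearMap.ker (L : X →ₗ[𝕜] Y)).starProjection x
      have hk : k ∈ LinearMap.ker (L : X →ₗ[𝕜] Y) :=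
        Submodule.starProjection_apply_mem _ _
      have h1 : x - k ∈ N := Submodule.sub_starProjection_mem_orthogonal x
      refine ⟨⟨x - k, h1⟩, ?_⟩
      change L (x - k) = L x
      have h2 : L k = 0 := hk
      rw [map_sub, h2, sub_zero]
  obtain ⟨c, hcL⟩ := L'.antilipschitz_of_injective_of_isClosed_range hinj (hran ▸ hc)
  refine ⟨c, fun x hx => ?_⟩
  have := hcL.le_mul_dist ⟨x, hx⟩ 0
  simpa [dist_eq_norm, L'] using this

/-- properness on bounded sets -/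
theorem isCompact_pre (L : X →L[𝕜] Y) [FiniteDimensional 𝕜 (LinearMap.ker (L : X →ₗ[𝕜] Y))]
    (hc : IsClosed (range L)) {R : ℝ} {Q : Set Y} (hQ : IsCompact Q) :
    IsCompact {x : X | ‖x‖ ≤ R ∧ L x ∈ Q} := by
  obtain ⟨c, hcL⟩ := exists_anti L hc
  rw [isCompact_iff_isSeqCompact]
  intro x hx
  obtain ⟨q, hq, φ, hφ, hlim⟩ := hQ.isSeqCompact (fun n => (hx n).2)
  set Kr : Submodule 𝕜 X := LinearMap.ker (L : X →ₗ[𝕜] Y) with hKr
  have : ProperSpace Kr := FiniteDimensional.proper_rclike 𝕜 Kr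
  let k : ℕ → Kr := fun n => Kr.orthogonalProjectionOnto (x n)
  have hk : ∀ n, k n ∈ closedBall (0 : Kr) R := by
    intro n
    rw [mem_closedBall_zero_iff]
    exact (Submodule.norm_orthogonalProjectionOnto_apply_le _ _).trans (hx n).1
  obtain ⟨k0, -, ψ, hψ, hk0⟩ := (isCompact_closedBall (0 : Kr) R).isSeqCompact
    (fun n => hk (φ n))
  let z : ℕ → X := fun n => x n - k n
  have hz : ∀ n, z n ∈ Krᗮ := fun n => Submodule.sub_starProjection_mem_orthogonal (x n)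
  have hLz : ∀ n, L (z n) = L (x n) := by
    intro n
    have h2 : L (k n : X) = 0 := (k n).2
    change L (x n - k n) = _
    rw [map_sub, h2, sub_zero]
  have hlim' : Tendsto (fun n => L (x (φ (ψ n)))) atTop (𝓝 q) := hlim.comp hψ.tendsto_atTop
  have hcau : CauchySeq fun n => z (φ (ψ n)) := by
    have h1 := hlim'.cauchySeq
    rw [Metric.cauchySeq_iff] at h1 ⊢
    intro ε hε
    obtain ⟨n0, hn0⟩ := h1 (ε / (c + 1)) (by positivity)
    refine ⟨n0, fun m hm n hn => ?_⟩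
    have h2 := hn0 m hm n hn
    have h3 := hcL _ (Krᗮ.sub_mem (hz (φ (ψ m))) (hz (φ (ψ n))))
    rw [map_sub, hLz, hLz, ← dist_eq_norm, ← dist_eq_norm] at h3
    have h4 : (0 : ℝ) < (c : ℝ) + 1 := by positivity
    rw [lt_div_iff₀ h4] at h2
    refine h3.trans_lt (lt_of_le_of_lt ?_ h2)
    have := dist_nonneg (x := L (x (φ (ψ m)))) (y := L (x (φ (ψ n))))
    nlinarith
  obtain ⟨z0, hz0⟩ := cauchySeq_tendsto_of_complete hcau
  have hx0 : Tendsto (fun n => x (φ (ψ n))) atTop (𝓝 ((k0 : X) + z0)) := by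
    have h1 : Tendsto (fun n => ((k (φ (ψ n)) : Kr) : X)) atTop (𝓝 (k0 : X)) :=
      (continuous_subtype_val.tendsto k0).comp hk0
    have h2 := h1.add hz0
    refine h2.congr fun n => ?_
    change (k (φ (ψ n)) : X) + (x (φ (ψ n)) - k (φ (ψ n))) = _
    abel
  refine ⟨(k0 : X) + z0, ⟨?_, ?_⟩, φ ∘ ψ, hφ.comp hψ, hx0⟩
  · exact le_of_tendsto' hx0.norm fun n => (hx _).1
  · have h1 : Tendsto (fun n => L (x (φ (ψ n)))) atTop (𝓝 (L ((k0 : X) + z0))) :=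
      (L.continuous.tendsto _).comp hx0
    rw [tendsto_nhds_unique h1 hlim']
    exact hq

omit [CompleteSpace Y] in
/-- finite dimensional approximation of a compact set -/
theorem exists_findim {C : Set Y} (hC : IsCompact C) (W0 : Submodule 𝕜 Y)
    [FiniteDimensional 𝕜 W0] {ε : ℝ} (hε : 0 < ε) :
    ∃ (W : Submodule 𝕜 Y) (_ : FiniteDimensional 𝕜 W), W0 ≤ W ∧
      ∀ c ∈ C, ‖c - W.starProjection c‖ < ε := by
  obtain ⟨t, -, ht, htC⟩ := (Metric.totallyBounded_iff.1 hC.totallyBounded ε hε)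
    |> fun ⟨t, h1, h2⟩ => (⟨t, trivial, h1, h2⟩ : ∃ t : Set Y, True ∧ t.Finite ∧
      C ⊆ ⋃ y ∈ t, ball y ε)
  have : FiniteDimensional 𝕜 (Submodule.span 𝕜 t) := FiniteDimensional.span_of_finite 𝕜 ht
  have hfd : FiniteDimensional 𝕜 (W0 ⊔ Submodule.span 𝕜 t : Submodule 𝕜 Y) := inferInstance
  refine ⟨W0 ⊔ Submodule.span 𝕜 t, hfd, le_sup_left, fun c hc => ?_⟩
  obtain ⟨y, hy, hcy⟩ := mem_iUnion₂.1 (htC hc)
  have hyW : y ∈ (W0 ⊔ Submodule.span 𝕜 t : Submodule 𝕜 Y) :=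
    (le_sup_right : Submodule.span 𝕜 t ≤ _) (Submodule.subset_span hy)
  rw [Submodule.starProjection_minimal]
  refine lt_of_le_of_lt (ciInf_le ⟨0, ?_⟩ ⟨y, hyW⟩) ?_
  · rintro _ ⟨x, rfl⟩
    exact norm_nonneg _
  · rw [← dist_eq_norm]
    exact hcy

omit [CompleteSpace X] in
/-- the dimension count -/
theorem finrank_comap (L : X →L[𝕜] Y) [FiniteDimensional 𝕜 (LinearMap.ker (L : X →ₗ[𝕜] Y))]
    (hc : IsClosed (range L)) (W : Submodule 𝕜 Y) [FiniteDimensional 𝕜 W]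
    (hW : (LinearMap.range (L : X →ₗ[𝕜] Y))ᗮ ≤ W) :
    FiniteDimensional 𝕜 (W.comap (L : X →ₗ[𝕜] Y)) ∧
      finrank 𝕜 (W.comap (L : X →ₗ[𝕜] Y)) +
        finrank 𝕜 (LinearMap.range (L : X →ₗ[𝕜] Y))ᗮ =
      finrank 𝕜 W + finrank 𝕜 (LinearMap.ker (L : X →ₗ[𝕜] Y)) := by
  set f : X →ₗ[𝕜] Y := (L : X →ₗ[𝕜] Y) with hf
  set V : Submodule 𝕜 X := W.comap f with hV
  have hkV : LinearMap.ker f ≤ V := by
    intro x hx
    rw [hV, Submodule.mem_comap, LinearMap.mem_ker.1 hx]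
    exact W.zero_mem
  have hmap : V.map f = LinearMap.range f ⊓ W := Submodule.map_comap_eq _ _
  have h1 : FiniteDimensional 𝕜 (V.map f) := by
    rw [hmap]
    exact Submodule.finiteDimensional_of_le inf_le_right
  have hVfd : FiniteDimensional 𝕜 V := by
    rw [← Submodule.fg_iff_finiteDimensional]
    refine Submodule.fg_of_fg_map_of_fg_inf_ker f ?_ ?_
    · exact (Submodule.fg_iff_finiteDimensional _).2 h1
    · rw [inf_eq_right.2 hkV]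
      exact (Submodule.fg_iff_finiteDimensional _).2 inferInstance
  refine ⟨hVfd, ?_⟩
  have hrk := LinearMap.finrank_range_add_finrank_ker (f.domRestrict V)
  rw [LinearMap.range_domRestrict] at hrk
  have hker : finrank 𝕜 (LinearMap.ker (f.domRestrict V)) = finrank 𝕜 (LinearMap.ker f) := by
    rw [LinearMap.ker_domRestrict]
    exact (Submodule.comapSubtypeEquivOfLe hkV).finrank_eq
  rw [hker, hmap] at hrk
  -- decomposition of `W`
  have : CompleteSpace (LinearMap.range f) := by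
    have : IsClosed ((LinearMap.range f : Submodule 𝕜 Y) : Set Y) := by
      rw [LinearMap.coe_range]
      exact hc
    exact this.completeSpace_coe
  have : FiniteDimensional 𝕜 (LinearMap.range f)ᗮ := Submodule.finiteDimensional_of_le hW
  have : FiniteDimensional 𝕜 (LinearMap.range f ⊓ W : Submodule 𝕜 Y) :=
    Submodule.finiteDimensional_of_le inf_le_right
  have hsup : (LinearMap.range f ⊓ W) ⊔ (LinearMap.range f)ᗮ = W := by
    apply le_antisymm (sup_le inf_le_right hW)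
    intro w hw
    have hp : (LinearMap.range f).starProjection w ∈ LinearMap.range f :=
      Submodule.starProjection_apply_mem _ _
    have ho : w - (LinearMap.range f).starProjection w ∈ (LinearMap.range f)ᗮ :=
      Submodule.sub_starProjection_mem_orthogonal w
    have hpW : (LinearMap.range f).starProjection w ∈ W := by
      have := W.sub_mem hw (hW ho)
      rwa [sub_sub_cancel] at this
    have : w = (LinearMap.range f).starProjection w +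
      (w - (LinearMap.range f).starProjection w) := by abel
    rw [this]
    exact Submodule.add_mem_sup ⟨hp, hpW⟩ ho
  have hinf : (LinearMap.range f ⊓ W) ⊓ (LinearMap.range f)ᗮ = ⊥ := by
    rw [eq_bot_iff, ← Submodule.inf_orthogonal_eq_bot (LinearMap.range f)]
    exact inf_le_inf_right _ inf_le_left
  have hdim := Submodule.finrank_sup_add_finrank_inf_eq (LinearMap.range f ⊓ W)
    (LinearMap.range f)ᗮ
  rw [hsup, hinf, finrank_bot, add_zero] at hdim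
  omega

end Key

/-- lower bound of a proper map without zeros on a closed set -/
theorem exists_eps {T X Y : Type*} [TopologicalSpace T] [CompactSpace T] [TopologicalSpace X]
    [NormedAddCommGroup Y] {F : T × X → Y} {S : Set (T × X)} (hS : IsClosed S)
    (hF : ContinuousOn F S)
    (hprop : ∀ Q : Set Y, IsCompact Q → ∃ D : Set X, IsCompact D ∧ ∀ p ∈ S, F p ∈ Q → p.2 ∈ D)
    (h0 : ∀ p ∈ S, F p ≠ 0) : ∃ ε > 0, ∀ p ∈ S, ε ≤ ‖F p‖ := by
  by_contra hcon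
  push Not at hcon
  have h1 : ∀ n : ℕ, ∃ p ∈ S, ‖F p‖ < 1 / ((n : ℝ) + 1) := fun n => hcon _ (by positivity)
  choose p hpS hp using h1
  have hlim : Tendsto (fun n => F (p n)) atTop (𝓝 0) := by
    rw [tendsto_zero_iff_norm_tendsto_zero]
    exact squeeze_zero (fun n => norm_nonneg _) (fun n => (hp n).le)
      tendsto_one_div_add_atTop_nhds_zero_nat
  obtain ⟨D, hD, hDp⟩ := hprop _ hlim.isCompact_insert_range
  have hK : IsCompact (S ∩ (univ ×ˢ D)) := (isCompact_univ.prod hD).inter_left hS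
  have hK' : IsCompact (F '' (S ∩ (univ ×ˢ D))) :=
    hK.image_of_continuousOn (hF.mono inter_subset_left)
  have hmem : (0 : Y) ∈ F '' (S ∩ (univ ×ˢ D)) :=
    hK'.isClosed.mem_of_tendsto hlim (Eventually.of_forall fun n =>
      ⟨p n, ⟨hpS n, mem_univ _, hDp _ (hpS n) (Or.inr ⟨n, rfl⟩)⟩, rfl⟩)
  obtain ⟨q, hq, hq0⟩ := hmem
  exact h0 q hq.1 hq0

section Main

variable {T X1 X2 Y1 Y2 : Type*} [TopologicalSpace T] [CompactSpace T]
  [NormedAddCommGroup X1] [InnerProductSpace ℝ X1] [CompleteSpace X1]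
  [NormedAddCommGroup Y1] [InnerProductSpace ℝ Y1] [CompleteSpace Y1]
  [NormedAddCommGroup X2] [InnerProductSpace ℂ X2] [CompleteSpace X2]
  [NormedAddCommGroup Y2] [InnerProductSpace ℂ Y2] [CompleteSpace Y2]

/-- GALERKIN REDUCTION. `S` is the "boundary": the two components
`L1 x1 + K1 t x1 x2`, `L2 x2 + K2 t x1 x2` have no common zero there. -/
theorem galerkin (L1 : X1 →L[ℝ] Y1) (L2 : X2 →L[ℂ] Y2)
    [FiniteDimensional ℝ (LinearMap.ker (L1 : X1 →ₗ[ℝ] Y1))]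
    [FiniteDimensional ℂ (LinearMap.ker (L2 : X2 →ₗ[ℂ] Y2))]
    (hc1 : IsClosed (range L1)) (hc2 : IsClosed (range L2))
    [FiniteDimensional ℝ (LinearMap.range (L1 : X1 →ₗ[ℝ] Y1))ᗮ]
    [FiniteDimensional ℂ (LinearMap.range (L2 : X2 →ₗ[ℂ] Y2))ᗮ]
    (K1 : T → X1 → X2 → Y1) (K2 : T → X1 → X2 → Y2) {R1 R2 : ℝ}
    {S : Set (T × X1 × X2)} (hS : IsClosed S)
    (hSR : ∀ p ∈ S, ‖p.2.1‖ ≤ R1 ∧ ‖p.2.2‖ ≤ R2)
    (hK1 : ContinuousOn (fun p : T × X1 × X2 => K1 p.1 p.2.1 p.2.2) S)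
    (hK2 : ContinuousOn (fun p : T × X1 × X2 => K2 p.1 p.2.1 p.2.2) S)
    {C1 : Set Y1} (hC1 : IsCompact C1) {C2 : Set Y2} (hC2 : IsCompact C2)
    (hKC1 : ∀ p ∈ S, K1 p.1 p.2.1 p.2.2 ∈ C1) (hKC2 : ∀ p ∈ S, K2 p.1 p.2.1 p.2.2 ∈ C2)
    (h0 : ∀ p ∈ S, ¬ (L1 p.2.1 + K1 p.1 p.2.1 p.2.2 = 0 ∧ L2 p.2.2 + K2 p.1 p.2.1 p.2.2 = 0))
    (W01 : Submodule ℝ Y1) [FiniteDimensional ℝ W01] (W02 : Submodule ℂ Y2)
    [FiniteDimensional ℂ W02] :
    ∃ ε > 0, (∀ p ∈ S, ε ≤ ‖L1 p.2.1 + K1 p.1 p.2.1 p.2.2‖ ∨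
        ε ≤ ‖L2 p.2.2 + K2 p.1 p.2.1 p.2.2‖) ∧
      ∃ (W1 : Submodule ℝ Y1) (W2 : Submodule ℂ Y2) (_ : FiniteDimensional ℝ W1)
        (_ : FiniteDimensional ℂ W2), W01 ≤ W1 ∧ W02 ≤ W2 ∧
        (LinearMap.range (L1 : X1 →ₗ[ℝ] Y1))ᗮ ≤ W1 ∧ (LinearMap.range (L2 : X2 →ₗ[ℂ] Y2))ᗮ ≤ W2 ∧
        FiniteDimensional ℝ (W1.comap (L1 : X1 →ₗ[ℝ] Y1)) ∧
        FiniteDimensional ℂ (W2.comap (L2 : X2 →ₗ[ℂ] Y2)) ∧
        finrank ℝ (W1.comap (L1 : X1 →ₗ[ℝ] Y1)) +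
            finrank ℝ (LinearMap.range (L1 : X1 →ₗ[ℝ] Y1))ᗮ =
          finrank ℝ W1 + finrank ℝ (LinearMap.ker (L1 : X1 →ₗ[ℝ] Y1)) ∧
        finrank ℂ (W2.comap (L2 : X2 →ₗ[ℂ] Y2)) +
            finrank ℂ (LinearMap.range (L2 : X2 →ₗ[ℂ] Y2))ᗮ =
          finrank ℂ W2 + finrank ℂ (LinearMap.ker (L2 : X2 →ₗ[ℂ] Y2)) ∧
        (∀ c ∈ C1, ‖c - W1.starProjection c‖ < ε / 2) ∧
        (∀ c ∈ C2, ‖c - W2.starProjection c‖ < ε / 2) ∧
        (∀ p ∈ S, L1 p.2.1 ∈ W1 → L2 p.2.2 ∈ W2 →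
          ε / 2 < ‖L1 p.2.1 + W1.starProjection (K1 p.1 p.2.1 p.2.2)‖ ∨
          ε / 2 < ‖L2 p.2.2 + W2.starProjection (K2 p.1 p.2.1 p.2.2)‖) := by
  -- the lower bound
  obtain ⟨ε, hε, hεS⟩ : ∃ ε > 0, ∀ p ∈ S, ε ≤ ‖(L1 p.2.1 + K1 p.1 p.2.1 p.2.2,
      L2 p.2.2 + K2 p.1 p.2.1 p.2.2)‖ := by
    refine exists_eps (F := fun p : T × X1 × X2 => (L1 p.2.1 + K1 p.1 p.2.1 p.2.2,
      L2 p.2.2 + K2 p.1 p.2.1 p.2.2)) hS ?_ ?_ ?_
    · exact ((L1.continuous.comp (continuous_fst.comp continuous_snd)).continuousOn.add hK1).prodMk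
        ((L2.continuous.comp (continuous_snd.comp continuous_snd)).continuousOn.add hK2)
    · intro Q hQ
      have hQ1 : IsCompact ((fun q : Y1 × Y1 => q.1 - q.2) '' ((Prod.fst '' Q) ×ˢ C1)) :=
        ((hQ.image continuous_fst).prod hC1).image (continuous_fst.sub continuous_snd)
      have hQ2 : IsCompact ((fun q : Y2 × Y2 => q.1 - q.2) '' ((Prod.snd '' Q) ×ˢ C2)) :=
        ((hQ.image continuous_snd).prod hC2).image (continuous_fst.sub continuous_snd)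
      refine ⟨_, (isCompact_pre L1 hc1 (R := R1) hQ1).prod (isCompact_pre L2 hc2 (R := R2) hQ2),
        fun p hp hpQ => ⟨⟨(hSR p hp).1, ?_⟩, ⟨(hSR p hp).2, ?_⟩⟩⟩
      · exact ⟨(L1 p.2.1 + K1 p.1 p.2.1 p.2.2, K1 p.1 p.2.1 p.2.2),
          ⟨⟨_, hpQ, rfl⟩, hKC1 p hp⟩, by simp⟩
      · exact ⟨(L2 p.2.2 + K2 p.1 p.2.1 p.2.2, K2 p.1 p.2.1 p.2.2),
          ⟨⟨_, hpQ, rfl⟩, hKC2 p hp⟩, by simp⟩
    · intro p hp h
      exact h0 p hp (Prod.mk.inj h)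
  have hor : ∀ p ∈ S, ε ≤ ‖L1 p.2.1 + K1 p.1 p.2.1 p.2.2‖ ∨
      ε ≤ ‖L2 p.2.2 + K2 p.1 p.2.1 p.2.2‖ := by
    intro p hp
    have := hεS p hp
    rwa [Prod.norm_mk, le_max_iff] at this
  have : FiniteDimensional ℝ
    (W01 ⊔ (LinearMap.range (L1 : X1 →ₗ[ℝ] Y1))ᗮ : Submodule ℝ Y1) := inferInstance
  have : FiniteDimensional ℂ
    (W02 ⊔ (LinearMap.range (L2 : X2 →ₗ[ℂ] Y2))ᗮ : Submodule ℂ Y2) := inferInstance
  obtain ⟨W1, hW1fd, hW1, hW1C⟩ := exists_findim hC1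
    (W01 ⊔ (LinearMap.range (L1 : X1 →ₗ[ℝ] Y1))ᗮ) (half_pos hε)
  obtain ⟨W2, hW2fd, hW2, hW2C⟩ := exists_findim hC2
    (W02 ⊔ (LinearMap.range (L2 : X2 →ₗ[ℂ] Y2))ᗮ) (half_pos hε)
  have e1 := finrank_comap L1 hc1 W1 (le_sup_right.trans hW1)
  have e2 := finrank_comap L2 hc2 W2 (le_sup_right.trans hW2)
  refine ⟨ε, hε, hor, W1, W2, hW1fd, hW2fd, le_sup_left.trans hW1, le_sup_left.trans hW2,
    le_sup_right.trans hW1, le_sup_right.trans hW2, e1.1, e2.1, e1.2, e2.2, hW1C, hW2C,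
    fun p hp hp1 hp2 => ?_⟩
  rcases hor p hp with h | h
  · left
    have h1 := hW1C _ (hKC1 p hp)
    have h2 : L1 p.2.1 + K1 p.1 p.2.1 p.2.2 =
        (L1 p.2.1 + W1.starProjection (K1 p.1 p.2.1 p.2.2)) +
        (K1 p.1 p.2.1 p.2.2 - W1.starProjection (K1 p.1 p.2.1 p.2.2)) := by abel
    rw [h2] at h
    have h3 := h.trans (norm_add_le _ _)
    linarith
  · right
    have h1 := hW2C _ (hKC2 p hp)
    have h2 : L2 p.2.2 + K2 p.1 p.2.1 p.2.2 =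
        (L2 p.2.2 + W2.starProjection (K2 p.1 p.2.1 p.2.2)) +
        (K2 p.1 p.2.1 p.2.2 - W2.starProjection (K2 p.1 p.2.1 p.2.2)) := by abel
    rw [h2] at h
    have h3 := h.trans (norm_add_le _ _)
    linarith

/-- the standard boundary: `t ∈ T0` or `‖x1‖ = R1` or `‖x2‖ = R2`. -/
def Bd (T0 : Set T) (R1 R2 : ℝ) : Set (T × X1 × X2) :=
  {p | ‖p.2.1‖ ≤ R1 ∧ ‖p.2.2‖ ≤ R2 ∧ (p.1 ∈ T0 ∨ ‖p.2.1‖ = R1 ∨ ‖p.2.2‖ = R2)}

omit [CompactSpace T] [InnerProductSpace ℝ X1] [CompleteSpace X1] [InnerProductSpace ℂ X2]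
  [CompleteSpace X2] in
theorem isClosed_Bd {T0 : Set T} (hT0 : IsClosed T0) (R1 R2 : ℝ) :
    IsClosed (Bd T0 R1 R2 : Set (T × X1 × X2)) := by
  have h1 : Continuous fun p : T × X1 × X2 => ‖p.2.1‖ :=
    (continuous_fst.comp continuous_snd).norm
  have h2 : Continuous fun p : T × X1 × X2 => ‖p.2.2‖ :=
    (continuous_snd.comp continuous_snd).norm
  exact (isClosed_le h1 continuous_const).inter ((isClosed_le h2 continuous_const).inter
    ((hT0.preimage continuous_fst).union ((isClosed_eq h1 continuous_const).union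
      (isClosed_eq h2 continuous_const))))

/-- GALERKIN REDUCTION on `T × {‖x1‖ ≤ R1} × {‖x2‖ ≤ R2}` with the standard boundary: for some
finite dimensional `W1`, `W2` containing given subspaces and the cokernels, the projected maps
have no common zero on the boundary, and the dimension count holds. -/
theorem galerkin_bd (L1 : X1 →L[ℝ] Y1) (L2 : X2 →L[ℂ] Y2)
    [FiniteDimensional ℝ (LinearMap.ker (L1 : X1 →ₗ[ℝ] Y1))]
    [FiniteDimensional ℂ (LinearMap.ker (L2 : X2 →ₗ[ℂ] Y2))]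
    (hc1 : IsClosed (range L1)) (hc2 : IsClosed (range L2))
    [FiniteDimensional ℝ (LinearMap.range (L1 : X1 →ₗ[ℝ] Y1))ᗮ]
    [FiniteDimensional ℂ (LinearMap.range (L2 : X2 →ₗ[ℂ] Y2))ᗮ]
    (K1 : T → X1 → X2 → Y1) (K2 : T → X1 → X2 → Y2) {R1 R2 : ℝ}
    {T0 : Set T} (hT0 : IsClosed T0)
    (hK1 : ContinuousOn (fun p : T × X1 × X2 => K1 p.1 p.2.1 p.2.2)
      {p | ‖p.2.1‖ ≤ R1 ∧ ‖p.2.2‖ ≤ R2})
    (hK2 : ContinuousOn (fun p : T × X1 × X2 => K2 p.1 p.2.1 p.2.2)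
      {p | ‖p.2.1‖ ≤ R1 ∧ ‖p.2.2‖ ≤ R2})
    {C1 : Set Y1} (hC1 : IsCompact C1) {C2 : Set Y2} (hC2 : IsCompact C2)
    (hKC1 : ∀ t x1 x2, ‖x1‖ ≤ R1 → ‖x2‖ ≤ R2 → K1 t x1 x2 ∈ C1)
    (hKC2 : ∀ t x1 x2, ‖x1‖ ≤ R1 → ‖x2‖ ≤ R2 → K2 t x1 x2 ∈ C2)
    (h0 : ∀ t x1 x2, ‖x1‖ ≤ R1 → ‖x2‖ ≤ R2 → (t ∈ T0 ∨ ‖x1‖ = R1 ∨ ‖x2‖ = R2) →
      ¬ (L1 x1 + K1 t x1 x2 = 0 ∧ L2 x2 + K2 t x1 x2 = 0))
    (W01 : Submodule ℝ Y1) [FiniteDimensional ℝ W01] (W02 : Submodule ℂ Y2)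
    [FiniteDimensional ℂ W02] :
    ∃ (W1 : Submodule ℝ Y1) (W2 : Submodule ℂ Y2) (_ : FiniteDimensional ℝ W1)
        (_ : FiniteDimensional ℂ W2), W01 ≤ W1 ∧ W02 ≤ W2 ∧
        (LinearMap.range (L1 : X1 →ₗ[ℝ] Y1))ᗮ ≤ W1 ∧ (LinearMap.range (L2 : X2 →ₗ[ℂ] Y2))ᗮ ≤ W2 ∧
        FiniteDimensional ℝ (W1.comap (L1 : X1 →ₗ[ℝ] Y1)) ∧
        FiniteDimensional ℂ (W2.comap (L2 : X2 →ₗ[ℂ] Y2)) ∧
        finrank ℝ (W1.comap (L1 : X1 →ₗ[ℝ] Y1)) +
            finrank ℝ (LinearMap.range (L1 : X1 →ₗ[ℝ] Y1))ᗮ =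
          finrank ℝ W1 + finrank ℝ (LinearMap.ker (L1 : X1 →ₗ[ℝ] Y1)) ∧
        finrank ℂ (W2.comap (L2 : X2 →ₗ[ℂ] Y2)) +
            finrank ℂ (LinearMap.range (L2 : X2 →ₗ[ℂ] Y2))ᗮ =
          finrank ℂ W2 + finrank ℂ (LinearMap.ker (L2 : X2 →ₗ[ℂ] Y2)) ∧
        (∀ t x1 x2, ‖x1‖ ≤ R1 → ‖x2‖ ≤ R2 → (t ∈ T0 ∨ ‖x1‖ = R1 ∨ ‖x2‖ = R2) →
          L1 x1 ∈ W1 → L2 x2 ∈ W2 →
          ¬ (L1 x1 + W1.starProjection (K1 t x1 x2) = 0 ∧
            L2 x2 + W2.starProjection (K2 t x1 x2) = 0)) := by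
  have hsub : (Bd T0 R1 R2 : Set (T × X1 × X2)) ⊆ {p | ‖p.2.1‖ ≤ R1 ∧ ‖p.2.2‖ ≤ R2} :=
    fun p hp => ⟨hp.1, hp.2.1⟩
  obtain ⟨ε, hε, -, W1, W2, i1, i2, h1, h2, h3, h4, h5, h6, h7, h8, -, -, h9⟩ :=
    galerkin L1 L2 hc1 hc2 K1 K2 (isClosed_Bd hT0 R1 R2) hsub (hK1.mono hsub) (hK2.mono hsub)
      hC1 hC2 (fun p hp => hKC1 _ _ _ hp.1 hp.2.1) (fun p hp => hKC2 _ _ _ hp.1 hp.2.1)
      (fun p hp => h0 _ _ _ hp.1 hp.2.1 hp.2.2) W01 W02
  refine ⟨W1, W2, i1, i2, h1, h2, h3, h4, h5, h6, h7, h8, ?_⟩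
  rintro t x1 x2 hx1 hx2 hb hm1 hm2 ⟨e1, e2⟩
  rcases h9 (t, x1, x2) ⟨hx1, hx2, hb⟩ hm1 hm2 with h | h
  · rw [e1, norm_zero] at h
    linarith
  · rw [e2, norm_zero] at h
    linarith

end Main

end Crest.Agent.R235.Gal_936
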