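import Crest.Agent.R235.FamP_151
import Crest.Agent.R235.FamDefs_307
import Crest.Agent.R235.GalA_755
import Crest.Agent.R235.Gal_936

/-!
Row 235 (S0364), helper151. Block FAM: the nonlinear part of the reduction over the torus.
-/

set_option autoImplicit false
set_option linter.unusedSectionVars false

open Set Filter Topology Module
open scoped ContDiff

namespace Crest.Agent.R235.FamR_151

namespace PFam

variable {b : ℕ} {X Y : Type*} [NormedAddCommGroup X] [InnerProductSpace ℂ X]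
  [CompleteSpace X] [NormedAddCommGroup Y] [InnerProductSpace ℂ Y] [CompleteSpace Y]
  (Φ : PFam b X Y)

theorem pb_D (h : Fin b → ℝ) : GalA_755.PB (fun x => Φ.D h x) := by
  have hk := Φ.ker_fin h
  intro x R y hx hy
  have hQ : IsCompact (insert y (Set.range fun n => Φ.D h (x n))) := hy.isCompact_insert_range
  have hc := Gal_936.isCompact_pre (Φ.D h) (Φ.range_closed h) (R := R) hQ
  obtain ⟨x0, -, φ, hφ, hx0⟩ := hc.tendsto_subseq (x := x)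
    (fun n => ⟨hx n, Or.inr ⟨n, rfl⟩⟩)
  exact ⟨x0, φ, hφ, hx0⟩

theorem D_cont : Continuous Φ.D := Φ.smD.continuous

theorem app_cont {P E F : Type*} [TopologicalSpace P] [NormedAddCommGroup E] [NormedSpace ℂ E]
    [NormedAddCommGroup F] [NormedSpace ℂ F] {T : P → E →L[ℂ] F} {v : P → E} (hT : Continuous T)
    (hv : Continuous v) : Continuous (fun p => T p (v p)) :=
  isBoundedBilinearMap_apply.continuous.comp (hT.prodMk hv)

theorem D_app_cont : Continuous (fun q : (Fin b → ℝ) × X => Φ.D q.1 q.2) :=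
  app_cont (Φ.D_cont.comp continuous_fst) continuous_snd

theorem Th_cont : Continuous Φ.Th := Φ.smTh.continuous

theorem Th_app_cont : Continuous (fun q : (Fin b → ℝ) × Y => Φ.Th q.1 q.2) :=
  app_cont (Φ.Th_cont.comp continuous_fst) continuous_snd

/-- **properness.** -/
theorem proper {T : Type*} [NormedAddCommGroup T] [NormedSpace ℝ T] [FiniteDimensional ℝ T]
    (K : T → X → Y) (hKc : ContinuousOn (fun q : T × X => K q.1 q.2) {q | ‖q.1‖ ≤ 1})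
    (hKp : ∀ R : ℝ, ∃ C, IsCompact C ∧ ∀ t x, ‖t‖ ≤ 1 → ‖x‖ ≤ R → K t x ∈ C)
    {S : Set (T × (Fin b → ℝ) × X)} (hS : IsClosed S) {Q : Set (Fin b → ℝ)} (hQ : IsCompact Q)
    {R : ℝ} (hSR : ∀ q ∈ S, ‖q.1‖ ≤ 1 ∧ q.2.1 ∈ Q ∧ ‖q.2.2‖ ≤ R)
    (hne : ∀ q ∈ S, Φ.D q.2.1 q.2.2 + K q.1 q.2.2 ≠ 0) :
    ∃ ε > 0, ∀ q ∈ S, ε ≤ ‖Φ.D q.2.1 q.2.2 + K q.1 q.2.2‖ := by
  have : ProperSpace T := FiniteDimensional.proper ℝ T
  by_contra hcon
  push Not at hcon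
  have h1 : ∀ n : ℕ, ∃ q ∈ S, ‖Φ.D q.2.1 q.2.2 + K q.1 q.2.2‖ < 1 / ((n : ℝ) + 1) := fun n =>
    hcon _ (by positivity)
  choose q hqS hq using h1
  obtain ⟨C, hC, hCK⟩ := hKp R
  -- compactness in `t`, `h` and the value of `K`
  have hcpt : IsCompact ((Metric.closedBall (0 : T) 1 ×ˢ Q) ×ˢ C) :=
    ((isCompact_closedBall _ _).prod hQ).prod hC
  obtain ⟨⟨⟨t, h⟩, y⟩, -, φ, hφ, hlim⟩ := hcpt.tendsto_subseq
    (x := fun n => (((q n).1, (q n).2.1), K (q n).1 (q n).2.2)) (fun n => by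
      obtain ⟨a1, a2, a3⟩ := hSR _ (hqS n)
      exact ⟨⟨mem_closedBall_zero_iff.2 a1, a2⟩, hCK _ _ a1 a3⟩)
  have ht : Tendsto (fun n => (q (φ n)).1) atTop (𝓝 t) :=
    ((continuous_fst.comp continuous_fst).tendsto _).comp hlim
  have hh : Tendsto (fun n => (q (φ n)).2.1) atTop (𝓝 h) :=
    ((continuous_snd.comp continuous_fst).tendsto _).comp hlim
  have hy : Tendsto (fun n => K (q (φ n)).1 (q (φ n)).2.2) atTop (𝓝 y) :=
    (continuous_snd.tendsto _).comp hlim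
  have h0 : Tendsto (fun n => Φ.D (q n).2.1 (q n).2.2 + K (q n).1 (q n).2.2) atTop (𝓝 0) := by
    rw [tendsto_zero_iff_norm_tendsto_zero]
    exact squeeze_zero (fun n => norm_nonneg _) (fun n => (hq n).le)
      tendsto_one_div_add_atTop_nhds_zero_nat
  have h0' := h0.comp hφ.tendsto_atTop
  have hD : Tendsto (fun n => Φ.D (q (φ n)).2.1 (q (φ n)).2.2) atTop (𝓝 (-y)) := by
    have := h0'.sub hy
    simpa using this
  have hDD : Tendsto (fun n => (Φ.D (q (φ n)).2.1 - Φ.D h) (q (φ n)).2.2) atTop (𝓝 0) := by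
    rw [tendsto_zero_iff_norm_tendsto_zero]
    have h2 : Tendsto (fun n => ‖Φ.D (q (φ n)).2.1 - Φ.D h‖ * R) atTop (𝓝 0) := by
      have h3 : Tendsto (fun n => Φ.D (q (φ n)).2.1 - Φ.D h) atTop (𝓝 0) := by
        have := ((Φ.D_cont.tendsto h).comp hh).sub_const (Φ.D h)
        simpa using this
      have := h3.norm.mul_const R
      simpa using this
    refine squeeze_zero (fun n => norm_nonneg _) (fun n => ?_) h2
    exact (ContinuousLinearMap.le_opNorm _ _).trans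
      (mul_le_mul_of_nonneg_left (hSR _ (hqS _)).2.2 (norm_nonneg _))
  have hDh : Tendsto (fun n => Φ.D h (q (φ n)).2.2) atTop (𝓝 (-y)) := by
    have := hD.sub hDD
    simpa using this
  obtain ⟨x, χ, hχ, hx⟩ := Φ.pb_D h (fun n => (q (φ n)).2.2) R (-y)
    (fun n => (hSR _ (hqS _)).2.2) hDh
  have hq2 : Tendsto (fun n => q (φ (χ n))) atTop (𝓝 (t, h, x)) :=
    (ht.comp hχ.tendsto_atTop).prodMk_nhds ((hh.comp hχ.tendsto_atTop).prodMk_nhds hx)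
  have hmem : (t, h, x) ∈ S := hS.mem_of_tendsto hq2 (Eventually.of_forall fun n => hqS _)
  have hFc : ContinuousOn (fun q : T × (Fin b → ℝ) × X => Φ.D q.2.1 q.2.2 + K q.1 q.2.2) S := by
    refine (Φ.D_app_cont.comp continuous_snd).continuousOn.add ?_
    exact hKc.comp (f := fun q : T × (Fin b → ℝ) × X => (q.1, q.2.2))
      (continuous_fst.prodMk (continuous_snd.comp continuous_snd)).continuousOn
      (fun q hq => (hSR q hq).1)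
  have hlim2 : Tendsto (fun n => Φ.D (q (φ (χ n))).2.1 (q (φ (χ n))).2.2 +
      K (q (φ (χ n))).1 (q (φ (χ n))).2.2) atTop (𝓝 (Φ.D h x + K t x)) := by
    have := hFc (t, h, x) hmem
    exact this.tendsto.comp (tendsto_nhdsWithin_iff.2 ⟨hq2, Eventually.of_forall fun n => hqS _⟩)
  exact hne _ hmem (tendsto_nhds_unique hlim2 (h0'.comp hχ.tendsto_atTop))

/-- an invariant norm on `X`, depending on `h`. -/
theorem exists_N {Q : Set (Fin b → ℝ)} (hQ : IsCompact Q) :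
    ∃ N : (Fin b → ℝ) → X → ℝ, Continuous (fun q : (Fin b → ℝ) × X => N q.1 q.2) ∧
      (∀ h x, 0 ≤ N h x) ∧ (∀ h (a : ℂ) x, N h (a • x) = ‖a‖ * N h x) ∧
      (∀ h k x, N (h + zv k) (Φ.U k x) = N h x) ∧
      (∃ c > 0, ∀ h ∈ Q, ∀ x, c * ‖x‖ ≤ N h x) ∧ (∃ C, 0 ≤ C ∧ ∀ h ∈ Q, ∀ x, N h x ≤ C * ‖x‖) := by
  have hd0 : (0 : ℝ) < 1 / 4 := by norm_num
  have hd1 : (1 / 4 : ℝ) < 1 / 2 := by norm_num
  have hnh : ∀ h0 : Fin b → ℝ, {h : Fin b → ℝ | 1 / 2 < cb h0 (1 / 4) h ∧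
      ∀ j, |h j - h0 j| < 1 / 2} ∈ 𝓝 h0 := by
    intro h0
    have h1 : ∀ᶠ h in 𝓝 h0, 1 / 2 < cb h0 (1 / 4) h := by
      have hc := (cb_smooth h0 (1 / 4)).continuous.continuousAt (x := h0)
      refine hc.eventually_const_lt ?_
      rw [cb_one hd0 hd1]; norm_num
    have h2 : ∀ᶠ h in 𝓝 h0, ∀ j, |h j - h0 j| < 1 / 2 := by
      have : Metric.ball h0 (1 / 2) ∈ 𝓝 h0 := Metric.ball_mem_nhds _ (by norm_num)
      filter_upwards [this] with h hh j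
      rw [Metric.mem_ball, dist_pi_lt_iff (by norm_num)] at hh
      have := hh j
      rwa [Real.dist_eq] at this
    filter_upwards [h1, h2] with h a1 a2
    exact ⟨a1, a2⟩
  obtain ⟨t, -, ht⟩ := hQ.elim_nhds_subcover _ (fun x _ => hnh x)
  refine ⟨fun h x => ∑ i ∈ t, cb i (1 / 4) h * ‖Φ.U (kb i h) x‖, ?_, ?_, ?_, ?_, ?_, ?_⟩
  · refine continuous_finsetSum _ fun i _ => ?_
    exact cont_bump hd0 hd1 i (fun q : (Fin b → ℝ) × X => q.1) continuous_fst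
      (fun k q => ‖Φ.U k q.2‖) (fun k => ((Φ.U k).continuous.comp continuous_snd).norm)
  · intro h x
    exact Finset.sum_nonneg fun i _ => mul_nonneg (cb_nonneg _ _ _) (norm_nonneg _)
  · intro h a x
    simp only [map_smul, norm_smul, Finset.mul_sum]
    exact Finset.sum_congr rfl fun i _ => by ring
  · intro h k x
    refine Finset.sum_congr rfl fun i _ => ?_
    rw [cb_shift, kb_shift]
    congr 2
    have : Φ.U (kb i h) = (Φ.U (kb i h - k)).comp (Φ.U k) := by rw [← Φ.U_add, sub_add_cancel]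
    rw [this]; rfl
  · refine ⟨1 / 2, by norm_num, fun h hh x => ?_⟩
    obtain ⟨i, hi, hx⟩ := mem_iUnion₂.1 (ht hh)
    have h1 : cb i (1 / 4) h * ‖Φ.U (kb i h) x‖ ≤ ∑ i ∈ t, cb i (1 / 4) h * ‖Φ.U (kb i h) x‖ :=
      Finset.single_le_sum (f := fun i => cb i (1 / 4) h * ‖Φ.U (kb i h) x‖)
        (fun i _ => mul_nonneg (cb_nonneg _ _ _) (norm_nonneg _)) hi
    refine le_trans ?_ h1
    rw [kb_zero hx.2, Φ.U_zero]
    exact mul_le_mul_of_nonneg_right hx.1.le (norm_nonneg _)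
  · have hc : Continuous (fun h => ∑ i ∈ t, cb i (1 / 4) h * ‖Φ.U (kb i h)‖) := by
      refine continuous_finsetSum _ fun i _ => ?_
      exact cont_bump hd0 hd1 i (fun q : (Fin b → ℝ) => q) continuous_id
        (fun k _ => ‖Φ.U k‖) (fun k => continuous_const)
    obtain ⟨C, hC⟩ := (hQ.image hc).isBounded.exists_norm_le
    refine ⟨max C 0, le_max_right _ _, fun h hh x => ?_⟩
    have h1 := hC _ ⟨h, hh, rfl⟩
    have h2 : ∑ i ∈ t, cb i (1 / 4) h * ‖Φ.U (kb i h) x‖ ≤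
        (∑ i ∈ t, cb i (1 / 4) h * ‖Φ.U (kb i h)‖) * ‖x‖ := by
      rw [Finset.sum_mul]
      refine Finset.sum_le_sum fun i _ => ?_
      rw [mul_assoc]
      exact mul_le_mul_of_nonneg_left ((Φ.U (kb i h)).le_opNorm x) (cb_nonneg _ _ _)
    refine h2.trans (mul_le_mul_of_nonneg_right ?_ (norm_nonneg _))
    exact ((le_abs_self _).trans h1).trans (le_max_left _ _)

end PFam

section core

variable {b : ℕ} {X Y : Type*} [NormedAddCommGroup X] [InnerProductSpace ℂ X]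
  [CompleteSpace X] [NormedAddCommGroup Y] [InnerProductSpace ℂ Y] [CompleteSpace Y]

/-- the data of the reduction: compact nonlinearity `K`, curvature equation `Ec`, the functional
`g`, an invariant norm `N` and a radius `R1` such that there is no zero with `N h x = R1`. -/
structure Core (Φ : PFam b X Y) (T YR G : Type*) [NormedAddCommGroup T] [NormedSpace ℝ T]
    [NormedAddCommGroup YR] [NormedSpace ℝ YR] [NormedAddCommGroup G] [NormedSpace ℂ G] where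
  K : T → X → Y
  Ec : T → (Fin b → ℝ) → X → YR
  g : T → (Fin b → ℝ) → X → G
  N : (Fin b → ℝ) → X → ℝ
  R1 : ℝ
  c : ℝ
  v : G
  K_cont : ContinuousOn (fun q : T × X => K q.1 q.2) {q | ‖q.1‖ ≤ 1}
  K_cpt : ∀ R : ℝ, ∃ C, IsCompact C ∧ ∀ t x, ‖t‖ ≤ 1 → ‖x‖ ≤ R → K t x ∈ C
  K_eq : ∀ t x (z : ℂ), ‖z‖ = 1 → K t (z • x) = z • K t x
  K_U : ∀ t k x, K t (Φ.U k x) = Φ.Th (zv k) (K t x)
  Ec_cont : ContinuousOn (fun q : T × (Fin b → ℝ) × X => Ec q.1 q.2.1 q.2.2) {q | ‖q.1‖ ≤ 1}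
  Ec_eq : ∀ t h x (z : ℂ), ‖z‖ = 1 → Ec t h (z • x) = Ec t h x
  Ec_U : ∀ t h k x, Ec t (h + zv k) (Φ.U k x) = Ec t h x
  g_cont : ContinuousOn (fun q : T × (Fin b → ℝ) × X => g q.1 q.2.1 q.2.2) {q | ‖q.1‖ ≤ 1}
  g_eq : ∀ t h x (z : ℂ), ‖z‖ = 1 → g t h (z • x) = z • g t h x
  g_U : ∀ t h k x, g t (h + zv k) (Φ.U k x) = g t h x
  N_cont : Continuous (fun q : (Fin b → ℝ) × X => N q.1 q.2)
  N_nonneg : ∀ h x, 0 ≤ N h x
  N_smul : ∀ h (a : ℂ) x, N h (a • x) = ‖a‖ * N h x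
  N_U : ∀ h k x, N (h + zv k) (Φ.U k x) = N h x
  c_pos : 0 < c
  N_low : ∀ h ∈ Icc (-1 : Fin b → ℝ) 1, ∀ x, c * ‖x‖ ≤ N h x
  R1_pos : 0 < R1
  v_ne : v ≠ 0
  bd : ∀ t h x, ‖t‖ ≤ 1 → N h x = R1 → Ec t h x = 0 → Φ.D h x + K t x ≠ 0

section cl

variable {T : Type*} [NormedAddCommGroup T] [NormedSpace ℝ T]

/-- radial retraction onto the unit ball. -/
noncomputable def cl (t : T) : T := (max 1 ‖t‖)⁻¹ • t

theorem cl_cont : Continuous (cl : T → T) := by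
  have h1 : Continuous (fun t : T => (max 1 ‖t‖)⁻¹) :=
    (continuous_const.max continuous_norm).inv₀ (fun t => by
      have : (1 : ℝ) ≤ max 1 ‖t‖ := le_max_left _ _
      linarith)
  exact h1.smul continuous_id

theorem cl_norm (t : T) : ‖cl t‖ ≤ 1 := by
  have h1 : (1 : ℝ) ≤ max 1 ‖t‖ := le_max_left _ _
  have h2 : ‖t‖ ≤ max 1 ‖t‖ := le_max_right _ _
  rw [cl, norm_smul, norm_inv, Real.norm_eq_abs, abs_of_pos (by linarith)]
  rw [inv_mul_le_iff₀ (by linarith)]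
  linarith

theorem cl_of_le {t : T} (ht : ‖t‖ ≤ 1) : cl t = t := by
  rw [cl, max_eq_left ht, inv_one, one_smul]

end cl

namespace Core

variable {Φ : PFam b X Y} {T YR G : Type*} [NormedAddCommGroup T] [NormedSpace ℝ T]
  [NormedAddCommGroup YR] [NormedSpace ℝ YR] [NormedAddCommGroup G] [NormedSpace ℂ G]
  (Γ : Core Φ T YR G)

/-- the scaling factor. -/
noncomputable def rr (h : Fin b → ℝ) (x : X) : ℝ := Γ.R1 / max (Γ.N h x) Γ.R1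

theorem max_pos (h : Fin b → ℝ) (x : X) : 0 < max (Γ.N h x) Γ.R1 :=
  lt_of_lt_of_le Γ.R1_pos (le_max_right _ _)

theorem rr_pos (h : Fin b → ℝ) (x : X) : 0 < Γ.rr h x := div_pos Γ.R1_pos (Γ.max_pos h x)

theorem rr_ne (h : Fin b → ℝ) (x : X) : ((Γ.rr h x : ℝ) : ℂ) ≠ 0 :=
  Complex.ofReal_ne_zero.2 (Γ.rr_pos h x).ne'

theorem rr_of_le {h : Fin b → ℝ} {x : X} (hx : Γ.N h x ≤ Γ.R1) : Γ.rr h x = 1 := by
  rw [rr, max_eq_right hx, div_self Γ.R1_pos.ne']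

theorem N_rr (h : Fin b → ℝ) (x : X) :
    Γ.N h (((Γ.rr h x : ℝ) : ℂ) • x) = min (Γ.N h x) Γ.R1 := by
  rw [Γ.N_smul, Complex.norm_real, Real.norm_eq_abs, abs_of_pos (Γ.rr_pos h x)]
  rcases le_total (Γ.N h x) Γ.R1 with h1 | h1
  · rw [Γ.rr_of_le h1, min_eq_left h1, one_mul]
  · rw [min_eq_right h1, rr, max_eq_left h1, div_mul_cancel₀ _ (Γ.R1_pos.trans_le h1).ne']

theorem rr_cont : Continuous (fun q : (Fin b → ℝ) × X => Γ.rr q.1 q.2) :=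
  continuous_const.div (Γ.N_cont.max continuous_const) (fun q => (Γ.max_pos q.1 q.2).ne')

theorem rr_U (h : Fin b → ℝ) (k : Fin b → ℤ) (x : X) :
    Γ.rr (h + zv k) (Φ.U k x) = Γ.rr h x := by rw [rr, rr, Γ.N_U]

theorem rr_smul (h : Fin b → ℝ) (x : X) {z : ℂ} (hz : ‖z‖ = 1) :
    Γ.rr h (z • x) = Γ.rr h x := by rw [rr, rr, Γ.N_smul, hz, one_mul]

/-- the extended nonlinearity. -/
noncomputable def Kh (t : T) (h : Fin b → ℝ) (x : X) : Y :=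
  ((Γ.rr h x : ℝ) : ℂ)⁻¹ • Γ.K (cl t) (((Γ.rr h x : ℝ) : ℂ) • x)

/-- the extended curvature equation. -/
noncomputable def Eh (t : T) (h : Fin b → ℝ) (x : X) : YR :=
  Γ.Ec (cl t) h (((Γ.rr h x : ℝ) : ℂ) • x)

theorem aux_cont : Continuous (fun q : T × (Fin b → ℝ) × X =>
    ((cl q.1, ((Γ.rr q.2.1 q.2.2 : ℝ) : ℂ) • q.2.2) : T × X)) :=
  (cl_cont.comp continuous_fst).prodMk ((Complex.continuous_ofReal.comp
    (Γ.rr_cont.comp continuous_snd)).smul (continuous_snd.comp continuous_snd))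

theorem Eh_cont : Continuous (fun q : T × (Fin b → ℝ) × X => Γ.Eh q.1 q.2.1 q.2.2) :=
  Γ.Ec_cont.comp_continuous (f := fun q : T × (Fin b → ℝ) × X =>
    ((cl q.1, q.2.1, ((Γ.rr q.2.1 q.2.2 : ℝ) : ℂ) • q.2.2) : T × (Fin b → ℝ) × X))
    ((continuous_fst.comp Γ.aux_cont).prodMk ((continuous_fst.comp continuous_snd).prodMk
      (continuous_snd.comp Γ.aux_cont))) (fun _ => cl_norm _)

theorem Kh_cont : Continuous (fun q : T × (Fin b → ℝ) × X => Γ.Kh q.1 q.2.1 q.2.2) := by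
  have h1 : Continuous (fun q : T × (Fin b → ℝ) × X => ((Γ.rr q.2.1 q.2.2 : ℝ) : ℂ)⁻¹) :=
    (Complex.continuous_ofReal.comp (Γ.rr_cont.comp continuous_snd)).inv₀
      (fun _ => Γ.rr_ne _ _)
  exact h1.smul (Γ.K_cont.comp_continuous Γ.aux_cont (fun q => cl_norm _))

theorem Eh_U (t : T) (h : Fin b → ℝ) (k : Fin b → ℤ) (x : X) :
    Γ.Eh t (h + zv k) (Φ.U k x) = Γ.Eh t h x := by
  rw [Eh, Eh, Γ.rr_U, ← map_smul, Γ.Ec_U]

theorem Kh_U (t : T) (h : Fin b → ℝ) (k : Fin b → ℤ) (x : X) :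
    Γ.Kh t (h + zv k) (Φ.U k x) = Φ.Th (zv k) (Γ.Kh t h x) := by
  rw [Kh, Kh, Γ.rr_U, ← map_smul, Γ.K_U, map_smul]

theorem Eh_smul (t : T) (h : Fin b → ℝ) (x : X) {z : ℂ} (hz : ‖z‖ = 1) :
    Γ.Eh t h (z • x) = Γ.Eh t h x := by
  rw [Eh, Eh, Γ.rr_smul h x hz, smul_comm, Γ.Ec_eq _ _ _ _ hz]

theorem Kh_smul (t : T) (h : Fin b → ℝ) (x : X) {z : ℂ} (hz : ‖z‖ = 1) :
    Γ.Kh t h (z • x) = z • Γ.Kh t h x := by
  rw [Kh, Kh, Γ.rr_smul h x hz, smul_comm, Γ.K_eq _ _ _ hz, smul_comm]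

section red

variable (W : Submodule ℂ Y) [FiniteDimensional ℂ W] {n : ℕ} (fr : Φ.Fr W n)

/-- coordinates on `W`. -/
noncomputable def rep : W ≃ₗᵢ[ℂ] EuclideanSpace ℂ (Fin (finrank ℂ W)) :=
  (stdOrthonormalBasis ℂ W).repr

/-- the `X`-component. -/
noncomputable def xx (h : Fin b → ℝ) (ψ : EuclideanSpace ℂ (Fin n)) : X := (fr.J h ψ).fst

/-- the `W`-component. -/
noncomputable def ww (h : Fin b → ℝ) (ψ : EuclideanSpace ℂ (Fin n)) : W := (fr.J h ψ).snd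

theorem xx_cont : Continuous (fun q : (Fin b → ℝ) × EuclideanSpace ℂ (Fin n) =>
    xx W fr q.1 q.2) := by
  have h1 : Continuous (fun q : (Fin b → ℝ) × EuclideanSpace ℂ (Fin n) => fr.J q.1 q.2) :=
    PFam.app_cont (fr.smJ.continuous.comp continuous_fst) continuous_snd
  exact (continuous_fst.comp (WithLp.prod_continuous_ofLp 2 X W)).comp h1

theorem ww_cont : Continuous (fun q : (Fin b → ℝ) × EuclideanSpace ℂ (Fin n) =>
    ww W fr q.1 q.2) := by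
  have h1 : Continuous (fun q : (Fin b → ℝ) × EuclideanSpace ℂ (Fin n) => fr.J q.1 q.2) :=
    PFam.app_cont (fr.smJ.continuous.comp continuous_fst) continuous_snd
  exact (continuous_snd.comp (WithLp.prod_continuous_ofLp 2 X W)).comp h1

theorem xx_per (h : Fin b → ℝ) (k : Fin b → ℤ) (ψ : EuclideanSpace ℂ (Fin n)) :
    xx W fr (h + zv k) ψ = Φ.U k (xx W fr h ψ) := by
  rw [xx, fr.J_per]; rfl

theorem ww_per (h : Fin b → ℝ) (k : Fin b → ℤ) (ψ : EuclideanSpace ℂ (Fin n)) :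
    ww W fr (h + zv k) ψ = ww W fr h ψ := by
  rw [ww, fr.J_per]; rfl

theorem xx_smul (h : Fin b → ℝ) (z : ℂ) (ψ : EuclideanSpace ℂ (Fin n)) :
    xx W fr h (z • ψ) = z • xx W fr h ψ := by
  rw [xx, map_smul]; rfl

theorem ww_smul (h : Fin b → ℝ) (z : ℂ) (ψ : EuclideanSpace ℂ (Fin n)) :
    ww W fr h (z • ψ) = z • ww W fr h ψ := by
  rw [ww, map_smul]; rfl

theorem D_xx (h : Fin b → ℝ) (ψ : EuclideanSpace ℂ (Fin n)) :
    Φ.D h (xx W fr h ψ) + Φ.Th h (ww W fr h ψ : Y) = 0 := fr.A_J h ψ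

/-- the reduced curvature equation. -/
noncomputable def fR (q : T × (Fin b → ℝ) × EuclideanSpace ℂ (Fin n)) : YR :=
  Γ.Eh q.1 q.2.1 (xx W fr q.2.1 q.2.2)

/-- the reduced Dirac equation. -/
noncomputable def fW (q : T × (Fin b → ℝ) × EuclideanSpace ℂ (Fin n)) : W :=
  -(ww W fr q.2.1 q.2.2) +
    W.orthogonalProjectionOnto (Φ.Th (-q.2.1) (Γ.Kh q.1 q.2.1 (xx W fr q.2.1 q.2.2)))

/-- the reduced complex equations. -/
noncomputable def fC (q : T × (Fin b → ℝ) × EuclideanSpace ℂ (Fin n)) :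
    EuclideanSpace ℂ (Fin (finrank ℂ W)) × G :=
  (rep W (Γ.fW W fr q), Γ.g (cl q.1) q.2.1 (xx W fr q.2.1 q.2.2))

theorem fR_cont : Continuous (Γ.fR W fr) :=
  Γ.Eh_cont.comp (continuous_fst.prodMk ((continuous_fst.comp continuous_snd).prodMk
    ((xx_cont W fr).comp continuous_snd)))

theorem fW_cont : Continuous (Γ.fW W fr) := by
  have h1 : Continuous (fun q : T × (Fin b → ℝ) × EuclideanSpace ℂ (Fin n) =>
      Γ.Kh q.1 q.2.1 (xx W fr q.2.1 q.2.2)) :=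
    Γ.Kh_cont.comp (continuous_fst.prodMk ((continuous_fst.comp continuous_snd).prodMk
      ((xx_cont W fr).comp continuous_snd)))
  have h2 : Continuous (fun q : T × (Fin b → ℝ) × EuclideanSpace ℂ (Fin n) =>
      Φ.Th (-q.2.1) (Γ.Kh q.1 q.2.1 (xx W fr q.2.1 q.2.2))) :=
    PFam.app_cont (Φ.Th_cont.comp (continuous_fst.comp continuous_snd).neg) h1
  exact ((ww_cont W fr).comp continuous_snd).neg.add
    (W.orthogonalProjectionOnto.continuous.comp h2)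

theorem fC_cont : Continuous (Γ.fC W fr) := by
  refine ((rep W).continuous.comp (Γ.fW_cont W fr)).prodMk ?_
  exact Γ.g_cont.comp_continuous (f := fun q : T × (Fin b → ℝ) × EuclideanSpace ℂ (Fin n) =>
    (cl q.1, q.2.1, xx W fr q.2.1 q.2.2)) ((cl_cont.comp continuous_fst).prodMk
    ((continuous_fst.comp continuous_snd).prodMk ((xx_cont W fr).comp continuous_snd)))
    (fun _ => cl_norm _)

theorem fR_per (t : T) (h : Fin b → ℝ) (k : Fin b → ℤ) (ψ : EuclideanSpace ℂ (Fin n)) :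
    Γ.fR W fr (t, h + zv k, ψ) = Γ.fR W fr (t, h, ψ) := by
  simp only [fR, xx_per, Γ.Eh_U]

theorem fW_per (t : T) (h : Fin b → ℝ) (k : Fin b → ℤ) (ψ : EuclideanSpace ℂ (Fin n)) :
    Γ.fW W fr (t, h + zv k, ψ) = Γ.fW W fr (t, h, ψ) := by
  simp only [fW, xx_per, ww_per, Γ.Kh_U]
  have h1 : Φ.Th (-(h + zv k)) (Φ.Th (zv k) (Γ.Kh t h (xx W fr h ψ))) =
      Φ.Th (-h) (Γ.Kh t h (xx W fr h ψ)) := by
    have h2 : Φ.Th (-h) = (Φ.Th (-(h + zv k))).comp (Φ.Th (zv k)) := by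
      rw [← Φ.Th_add]
      congr 1
      abel
    rw [h2]; rfl
  rw [h1]

theorem fC_per (t : T) (h : Fin b → ℝ) (k : Fin b → ℤ) (ψ : EuclideanSpace ℂ (Fin n)) :
    Γ.fC W fr (t, h + zv k, ψ) = Γ.fC W fr (t, h, ψ) := by
  simp only [fC, fW_per, xx_per, Γ.g_U]

theorem fR_smul (t : T) (h : Fin b → ℝ) (ψ : EuclideanSpace ℂ (Fin n)) {z : ℂ} (hz : ‖z‖ = 1) :
    Γ.fR W fr (t, h, z • ψ) = Γ.fR W fr (t, h, ψ) := by
  simp only [fR, xx_smul, Γ.Eh_smul _ _ _ hz]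

theorem fC_smul (t : T) (h : Fin b → ℝ) (ψ : EuclideanSpace ℂ (Fin n)) {z : ℂ} (hz : ‖z‖ = 1) :
    Γ.fC W fr (t, h, z • ψ) = z • Γ.fC W fr (t, h, ψ) := by
  have h1 : Γ.fW W fr (t, h, z • ψ) = z • Γ.fW W fr (t, h, ψ) := by
    simp only [fW, xx_smul, ww_smul, Γ.Kh_smul _ _ _ hz, map_smul, smul_add, smul_neg]
  simp only [fC, h1, xx_smul, Γ.g_eq _ _ _ _ hz, map_smul]
  rfl

/-- the key identity: an approximate zero. -/
theorem zero_of {t : T} {h : Fin b → ℝ} {ψ : EuclideanSpace ℂ (Fin n)}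
    (hf : Γ.fW W fr (t, h, ψ) = 0) :
    ‖Φ.D h (((Γ.rr h (xx W fr h ψ) : ℝ) : ℂ) • xx W fr h ψ) +
      Γ.K (cl t) (((Γ.rr h (xx W fr h ψ) : ℝ) : ℂ) • xx W fr h ψ)‖ =
    ‖Φ.Th (-h) (Γ.K (cl t) (((Γ.rr h (xx W fr h ψ) : ℝ) : ℂ) • xx W fr h ψ)) -
      W.starProjection (Φ.Th (-h) (Γ.K (cl t) (((Γ.rr h (xx W fr h ψ) : ℝ) : ℂ) •
        xx W fr h ψ)))‖ := by
  set x := xx W fr h ψ with hx
  set r : ℂ := ((Γ.rr h x : ℝ) : ℂ) with hr
  have hr0 : r ≠ 0 := Γ.rr_ne h x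
  set k := Γ.K (cl t) (r • x) with hk
  have h1 : ww W fr h ψ = W.orthogonalProjectionOnto (Φ.Th (-h) (r⁻¹ • k)) := by
    have : -(ww W fr h ψ) + W.orthogonalProjectionOnto (Φ.Th (-h) (r⁻¹ • k)) = 0 := hf
    exact (neg_add_eq_zero.1 this)
  have h2 : (ww W fr h ψ : Y) = r⁻¹ • W.starProjection (Φ.Th (-h) k) := by
    rw [h1, map_smul, map_smul]; rfl
  have h3 : Φ.D h x = -(r⁻¹ • Φ.Th h (W.starProjection (Φ.Th (-h) k))) := by
    have := D_xx W fr h ψ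
    rw [h2, map_smul] at this
    exact eq_neg_of_add_eq_zero_left this
  have h4 : Φ.D h (r • x) + k = Φ.Th h (Φ.Th (-h) k - W.starProjection (Φ.Th (-h) k)) := by
    rw [map_smul, h3, smul_neg, smul_smul, mul_inv_cancel₀ hr0, one_smul, map_sub, Φ.Th_neg]
    abel
  rw [h4, Φ.Th_norm]

end red

theorem g_ray_closed (v : G) : IsClosed {y : G | ∃ s : ℝ, 0 ≤ s ∧ y = (s : ℂ) • v} := by
  rcases eq_or_ne v 0 with rfl | hv
  · have : {y : G | ∃ s : ℝ, 0 ≤ s ∧ y = (s : ℂ) • (0 : G)} = {0} := by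
      ext y
      constructor
      · rintro ⟨s, -, hs⟩
        rw [smul_zero] at hs
        exact hs
      · intro hy
        exact ⟨0, le_rfl, by rw [smul_zero]; exact hy⟩
    rw [this]
    exact isClosed_singleton
  refine IsSeqClosed.isClosed ?_
  intro u y hu hy
  choose s hs0 hs using hu
  have hv' : 0 < ‖v‖ := norm_pos_iff.2 hv
  have h1 : ∀ n, s n = ‖u n‖ / ‖v‖ := by
    intro n
    rw [hs n, norm_smul, Complex.norm_real, Real.norm_eq_abs, abs_of_nonneg (hs0 n),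
      mul_div_cancel_right₀ _ hv'.ne']
  have h2 : Tendsto s atTop (𝓝 (‖y‖ / ‖v‖)) := by
    have : s = fun n => ‖u n‖ / ‖v‖ := funext h1
    rw [this]
    exact hy.norm.div_const _
  refine ⟨‖y‖ / ‖v‖, by positivity, ?_⟩
  have h3 : Tendsto (fun n => ((s n : ℝ) : ℂ) • v) atTop (𝓝 (((‖y‖ / ‖v‖ : ℝ) : ℂ) • v)) :=
    ((Complex.continuous_ofReal.tendsto _).comp h2).smul_const v
  have h4 : u = fun n => ((s n : ℝ) : ℂ) • v := funext hs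
  rw [h4] at hy
  exact tendsto_nhds_unique hy h3

/-- the unit cube with center `0`, twice enlarged. -/
abbrev QQ (b : ℕ) : Set (Fin b → ℝ) := Icc (-1 : Fin b → ℝ) 1

theorem norm_le_of_N {h : Fin b → ℝ} (hh : h ∈ QQ b) {x : X} (hx : Γ.N h x ≤ Γ.R1) :
    ‖x‖ ≤ Γ.R1 / Γ.c := by
  rw [le_div_iff₀ Γ.c_pos, mul_comm]
  exact (Γ.N_low h hh x).trans hx

theorem low_bound [FiniteDimensional ℝ T] {S0 : Set (T × (Fin b → ℝ) × X)} (hS0 : IsClosed S0)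
    (hne : ∀ q ∈ S0, ‖q.1‖ ≤ 1 → q.2.1 ∈ QQ b → Γ.N q.2.1 q.2.2 ≤ Γ.R1 → Γ.Ec q.1 q.2.1 q.2.2 = 0 →
      Φ.D q.2.1 q.2.2 + Γ.K q.1 q.2.2 ≠ 0) :
    ∃ ε > 0, ∀ q ∈ S0, ‖q.1‖ ≤ 1 → q.2.1 ∈ QQ b → Γ.N q.2.1 q.2.2 ≤ Γ.R1 →
      Γ.Ec q.1 q.2.1 q.2.2 = 0 → ε ≤ ‖Φ.D q.2.1 q.2.2 + Γ.K q.1 q.2.2‖ := by
  let A : Set (T × (Fin b → ℝ) × X) := {q | ‖q.1‖ ≤ 1}
  have hA : IsClosed A := isClosed_le continuous_fst.norm continuous_const
  have hEc : ContinuousOn (fun q : T × (Fin b → ℝ) × X => Γ.Ec q.1 q.2.1 q.2.2) A := Γ.Ec_cont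
  have hE : IsClosed (A ∩ (fun q : T × (Fin b → ℝ) × X => Γ.Ec q.1 q.2.1 q.2.2) ⁻¹' {0}) :=
    hEc.preimage_isClosed_of_isClosed hA isClosed_singleton
  have hQc : IsClosed {q : T × (Fin b → ℝ) × X | q.2.1 ∈ QQ b} :=
    isClosed_Icc.preimage (continuous_fst.comp continuous_snd)
  have hNc : IsClosed {q : T × (Fin b → ℝ) × X | Γ.N q.2.1 q.2.2 ≤ Γ.R1} :=
    isClosed_le (Γ.N_cont.comp continuous_snd) continuous_const
  obtain ⟨ε, hε, h⟩ := Φ.proper Γ.K Γ.K_cont Γ.K_cpt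
    (S := S0 ∩ ((A ∩ (fun q : T × (Fin b → ℝ) × X => Γ.Ec q.1 q.2.1 q.2.2) ⁻¹' {0}) ∩
      ({q : T × (Fin b → ℝ) × X | q.2.1 ∈ QQ b} ∩
      {q : T × (Fin b → ℝ) × X | Γ.N q.2.1 q.2.2 ≤ Γ.R1})))
    (hS0.inter (hE.inter (hQc.inter hNc))) (Q := QQ b) isCompact_Icc (R := Γ.R1 / Γ.c)
    (fun q hq => ⟨hq.2.1.1, hq.2.2.1, Γ.norm_le_of_N hq.2.2.1 hq.2.2.2⟩)
    (fun q hq => hne q hq.1 hq.2.1.1 hq.2.2.1 hq.2.2.2 hq.2.1.2)
  exact ⟨ε, hε, fun q h0 h1 h2 h3 h4 => h q ⟨h0, ⟨h1, h4⟩, h2, h3⟩⟩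

/-- the space `W` approximates the values of the nonlinearity. -/
def Appr (W : Submodule ℂ Y) [FiniteDimensional ℂ W] (ε : ℝ) : Prop :=
  ∀ t h x, ‖t‖ ≤ 1 → h ∈ QQ b → ‖x‖ ≤ Γ.R1 / Γ.c →
    ‖Φ.Th (-h) (Γ.K t x) - W.starProjection (Φ.Th (-h) (Γ.K t x))‖ < ε

theorem exists_W (ε : ℝ) (hε : 0 < ε) (y0 : Y) :
    ∃ (W : Submodule ℂ Y) (_ : FiniteDimensional ℂ W), (∀ h, Function.Surjective (Φ.A W h)) ∧
      y0 ∈ W ∧ Γ.Appr W ε := by
  obtain ⟨W0, hW0, hs⟩ := Φ.exists_W0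
  obtain ⟨C, hC, hCK⟩ := Γ.K_cpt (Γ.R1 / Γ.c)
  have hC' : IsCompact ((fun q : (Fin b → ℝ) × Y => Φ.Th (-q.1) q.2) '' (QQ b ×ˢ C)) := by
    refine (isCompact_Icc.prod hC).image ?_
    exact PFam.app_cont (Φ.Th_cont.comp continuous_fst.neg) continuous_snd
  have : FiniteDimensional ℂ (W0 ⊔ Submodule.span ℂ {y0} : Submodule ℂ Y) := inferInstance
  obtain ⟨W, hW, hle, h⟩ := Gal_936.exists_findim hC' (W0 ⊔ Submodule.span ℂ {y0}) hε
  refine ⟨W, hW, hs W (le_sup_left.trans hle), hle ((le_sup_right : Submodule.span ℂ {y0} ≤ _)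
    (Submodule.mem_span_singleton_self y0)), ?_⟩
  intro t hh x ht hh1 hx
  exact h _ ⟨(hh, Γ.K t x), ⟨hh1, hCK t x ht hx⟩, rfl⟩

section red2

variable (W : Submodule ℂ Y) [FiniteDimensional ℂ W] {n : ℕ} (fr : Φ.Fr W n)

theorem small {ε : ℝ} (hW : Γ.Appr W ε) {t : T} {h : Fin b → ℝ} (hh : h ∈ QQ b)
    {ψ : EuclideanSpace ℂ (Fin n)} (hf : Γ.fW W fr (t, h, ψ) = 0) :
    ‖Φ.D h (((Γ.rr h (xx W fr h ψ) : ℝ) : ℂ) • xx W fr h ψ) +
      Γ.K (cl t) (((Γ.rr h (xx W fr h ψ) : ℝ) : ℂ) • xx W fr h ψ)‖ < ε := by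
  rw [Γ.zero_of W fr hf]
  exact hW _ _ _ (cl_norm t) hh (Γ.norm_le_of_N hh (by rw [Γ.N_rr]; exact min_le_right _ _))

/-- an approximate zero lies in the region where nothing is changed. -/
theorem inside {ε : ℝ} (hW : Γ.Appr W ε)
    (hε : ∀ t h x, ‖t‖ ≤ 1 → h ∈ QQ b → Γ.N h x = Γ.R1 → Γ.Ec t h x = 0 →
      ε ≤ ‖Φ.D h x + Γ.K t x‖) {t : T} (ht : ‖t‖ ≤ 1) {h : Fin b → ℝ} (hh : h ∈ QQ b)
    {ψ : EuclideanSpace ℂ (Fin n)} (hfR : Γ.fR W fr (t, h, ψ) = 0)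
    (hf : Γ.fW W fr (t, h, ψ) = 0) :
    Γ.N h (xx W fr h ψ) < Γ.R1 ∧ Γ.Ec t h (xx W fr h ψ) = 0 ∧
      ‖Φ.D h (xx W fr h ψ) + Γ.K t (xx W fr h ψ)‖ < ε ∧
      ww W fr h ψ = W.orthogonalProjectionOnto (Φ.Th (-h) (Γ.K t (xx W fr h ψ))) := by
  have h1 := Γ.small W fr hW hh hf
  have h2 : Γ.Ec (cl t) h (((Γ.rr h (xx W fr h ψ) : ℝ) : ℂ) • xx W fr h ψ) = 0 := hfR
  have hN : Γ.N h (xx W fr h ψ) < Γ.R1 := by
    by_contra hcon
    push Not at hcon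
    have h3 := hε (cl t) h _ (cl_norm t) hh
      (by rw [Γ.N_rr, min_eq_right hcon]) h2
    linarith
  have hr : Γ.rr h (xx W fr h ψ) = 1 := Γ.rr_of_le hN.le
  rw [cl_of_le ht, hr, Complex.ofReal_one, one_smul] at h1 h2
  refine ⟨hN, h2, h1, ?_⟩
  have h4 : -(ww W fr h ψ) + W.orthogonalProjectionOnto (Φ.Th (-h)
    (Γ.Kh t h (xx W fr h ψ))) = 0 := hf
  have h5 : Γ.Kh t h (xx W fr h ψ) = Γ.K t (xx W fr h ψ) := by
    rw [Kh, hr, cl_of_le ht]; simp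
  rw [h5] at h4
  exact neg_add_eq_zero.1 h4

/-- no solutions on the ray for large `ψ`. -/
theorem big {ε : ℝ} (hW : Γ.Appr W ε)
    (hε : ∀ t h x, ‖t‖ ≤ 1 → h ∈ QQ b → Γ.N h x = Γ.R1 → Γ.Ec t h x = 0 →
      ε ≤ ‖Φ.D h x + Γ.K t x‖) :
    ∃ R : ℝ, ∀ t h ψ, ‖t‖ ≤ 1 → fr.P h ψ = ψ → R ≤ ‖ψ‖ → Γ.fR W fr (t, h, ψ) = 0 →
      Γ.fW W fr (t, h, ψ) ≠ 0 := by
  obtain ⟨C, hC, hCK⟩ := Γ.K_cpt (Γ.R1 / Γ.c)
  obtain ⟨CK, hCK2⟩ := hC.isBounded.exists_norm_le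
  obtain ⟨Cl, hCl⟩ := ((isCompact_Icc (a := (-1 : Fin b → ℝ)) (b := 1)).image
    fr.sml.continuous).isBounded.exists_norm_le
  refine ⟨Cl * (Γ.R1 / Γ.c + CK) + 1, ?_⟩
  have key : ∀ t h ψ, h ∈ QQ b → ‖t‖ ≤ 1 → fr.P h ψ = ψ → Γ.fR W fr (t, h, ψ) = 0 →
      Γ.fW W fr (t, h, ψ) = 0 → ‖ψ‖ ≤ Cl * (Γ.R1 / Γ.c + CK) := by
    intro t h ψ hh ht hP hfR hfW
    obtain ⟨a1, a2, a3, a4⟩ := Γ.inside W fr hW hε ht hh hfR hfW
    have hx : ‖xx W fr h ψ‖ ≤ Γ.R1 / Γ.c := Γ.norm_le_of_N hh a1.le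
    have hw : ‖ww W fr h ψ‖ ≤ CK := by
      rw [a4]
      refine (Submodule.norm_orthogonalProjectionOnto_apply_le W _).trans ?_
      rw [Φ.Th_norm]
      exact hCK2 _ (hCK _ _ ht hx)
    have h1 : ψ = fr.l h (fr.J h ψ) := by rw [fr.l_J, hP]
    have h2 : ‖fr.J h ψ‖ ≤ ‖xx W fr h ψ‖ + ‖ww W fr h ψ‖ := by
      rw [WithLp.prod_norm_eq_of_L2]
      apply Real.sqrt_le_iff.2
      have n1 := norm_nonneg (xx W fr h ψ)
      have n2 := norm_nonneg (ww W fr h ψ)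
      refine ⟨by positivity, ?_⟩
      show ‖xx W fr h ψ‖ ^ 2 + ‖ww W fr h ψ‖ ^ 2 ≤ (‖xx W fr h ψ‖ + ‖ww W fr h ψ‖) ^ 2
      nlinarith
    have h3 : ‖fr.l h‖ ≤ Cl := hCl _ ⟨h, hh, rfl⟩
    rw [h1]
    refine ((fr.l h).le_opNorm _).trans ?_
    have h4 : 0 ≤ Cl := (norm_nonneg (fr.l h)).trans h3
    exact mul_le_mul h3 (h2.trans (add_le_add hx hw)) (norm_nonneg _) h4
  intro t h ψ ht hP hR hfR hfW
  obtain ⟨k, h', hh', rfl⟩ := exists_cube h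
  have hh : h' ∈ QQ b := ⟨fun j => by
    have := hh'.1 j
    simp only [Pi.zero_apply] at this
    show (-1 : ℝ) ≤ h' j
    linarith, hh'.2⟩
  rw [fr.P_per] at hP
  rw [Γ.fR_per] at hfR
  rw [Γ.fW_per] at hfW
  have := key t h' ψ hh ht hP hfR hfW
  linarith

end red2

end Core

/-- the output of the reduction (the common part). -/
structure RSys {T H YR YC : Type*} [NormedAddCommGroup T] [NormedSpace ℝ T]
    [NormedAddCommGroup H] [InnerProductSpace ℂ H] [FiniteDimensional ℂ H] [CompleteSpace H]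
    [NormedAddCommGroup YR] [NormedSpace ℝ YR] [NormedAddCommGroup YC] [NormedSpace ℂ YC]
    (b m : ℕ) (P : (Fin b → ℝ) → H →L[ℂ] H) (fR : T × (Fin b → ℝ) × H → YR)
    (fC : T × (Fin b → ℝ) × H → YC) (v : YC) (R : ℝ) : Prop where
  proj : FamDefs_307.PPer b m P
  cR : Continuous fR
  cC : Continuous fC
  eqR : ∀ t h ψ (z : ℂ), ‖z‖ = 1 → fR (t, h, z • ψ) = fR (t, h, ψ)
  eqC : ∀ t h ψ (z : ℂ), ‖z‖ = 1 → fC (t, h, z • ψ) = z • fC (t, h, ψ)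
  pR : ∀ t h ψ (k : Fin b → ℤ), fR (t, fun i => h i + k i, ψ) = fR (t, h, ψ)
  pC : ∀ t h ψ (k : Fin b → ℤ), fC (t, fun i => h i + k i, ψ) = fC (t, h, ψ)
  vne : v ≠ 0
  big : ∀ t h ψ, ‖t‖ ≤ 1 → P h ψ = ψ → R ≤ ‖ψ‖ → fR (t, h, ψ) = 0 →
    ∀ s : ℝ, 0 ≤ s → fC (t, h, ψ) ≠ (s : ℂ) • v

namespace Core

variable {Φ : PFam b X Y} {T YR G : Type*} [NormedAddCommGroup T] [NormedSpace ℝ T]
  [NormedAddCommGroup YR] [NormedSpace ℝ YR] [NormedAddCommGroup G] [NormedSpace ℂ G]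
  (Γ : Core Φ T YR G)

theorem rsys (W : Submodule ℂ Y) [FiniteDimensional ℂ W] {n : ℕ} (fr : Φ.Fr W n)
    {ε : ℝ} (hW : Γ.Appr W ε)
    (hε : ∀ t h x, ‖t‖ ≤ 1 → h ∈ QQ b → Γ.N h x = Γ.R1 → Γ.Ec t h x = 0 →
      ε ≤ ‖Φ.D h x + Γ.K t x‖) :
    ∃ R : ℝ, RSys b (finrank ℂ (kn (Φ.A W 0))) fr.P (Γ.fR W fr) (Γ.fC W fr) (0, Γ.v) R := by
  obtain ⟨R, hR⟩ := Γ.big W fr hW hε
  refine ⟨R, {
    proj := {
      smooth := fr.smP
      per := fun h k => fr.P_per h k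
      idem := fr.P_P
      sa := fr.P_sa
      rank := fr.rank }
    cR := Γ.fR_cont W fr
    cC := Γ.fC_cont W fr
    eqR := fun t h ψ z hz => Γ.fR_smul W fr t h ψ hz
    eqC := fun t h ψ z hz => Γ.fC_smul W fr t h ψ hz
    pR := fun t h ψ k => Γ.fR_per W fr t h k ψ
    pC := fun t h ψ k => Γ.fC_per W fr t h k ψ
    vne := fun h => Γ.v_ne (congrArg Prod.snd h)
    big := fun t h ψ ht hP hRψ hfR s hs hC => by
      refine hR t h ψ ht hP hRψ hfR ?_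
      have h1 : rep W (Γ.fW W fr (t, h, ψ)) = 0 := by
        have h2 : (Γ.fC W fr (t, h, ψ)).1 = ((s : ℂ) • ((0, Γ.v) :
          EuclideanSpace ℂ (Fin (finrank ℂ W)) × G)).1 := congrArg Prod.fst hC
        rw [Prod.smul_fst, smul_zero] at h2
        exact h2
      exact (map_eq_zero_iff (rep W) (rep W).injective).1 h1 }⟩

end Core

end core

end Crest.Agent.R235.FamR_151
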