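import Mathlib

/-!
# Row 235, package FAM, block B (GAUSS), part 1 (helper355): complex Gaussian moments

`ι → ℂ` with Lebesgue measure.

* `mom1` : `∫ conj w ^ p * w ^ q * exp (-‖w‖²) = δ_pq π p!`;
* `mom4` : fourth moments; `mom_one`, `mom_two` : `∫ (w*Cw) e = π^m tr C`,
  `∫ (w*Cw)(w*Dw) e = π^m (tr C tr D + tr (C D))`;
* `gauss_one`, `gauss_two` : the same for the weight `exp (-‖B z‖²)`.
-/

set_option autoImplicit false

open MeasureTheory Matrix Complex
open scoped ComplexConjugate Nat

namespace Crest.Agent.R235.FamGaussA_355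

noncomputable section

/-- the weight on `ℂ`. -/
def ew (w : ℂ) : ℝ := Real.exp (-‖w‖ ^ 2)

lemma integral_norm_pow (n : ℕ) :
    ∫ w : ℂ, ‖w‖ ^ (2 * n) * ew w = Real.pi * n ! := by
  have h := Complex.integral_rpow_mul_exp_neg_rpow (p := 2) (q := (2 * n : ℕ)) (by norm_num)
    (by have : (0 : ℝ) ≤ ((2 * n : ℕ) : ℝ) := Nat.cast_nonneg _
        linarith)
  have h2 : ∀ w : ℂ, ‖w‖ ^ ((2 * n : ℕ) : ℝ) * Real.exp (-‖w‖ ^ (2 : ℝ)) = ‖w‖ ^ (2 * n) * ew w := by
    intro w
    rw [Real.rpow_natCast, ew]
    norm_num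
  simp_rw [h2] at h
  rw [h]
  have h3 : (((2 * n : ℕ) : ℝ) + 2) / 2 = (n : ℝ) + 1 := by push_cast; ring
  rw [h3, Real.Gamma_nat_eq_factorial]
  ring

lemma integrable_norm_pow (n : ℕ) : Integrable fun w : ℂ => ‖w‖ ^ (2 * n) * ew w := by
  by_contra h
  have h1 := integral_norm_pow n
  rw [integral_undef h] at h1
  have : (0 : ℝ) < Real.pi * n ! := by positivity
  linarith

lemma ew_pos (w : ℂ) : 0 < ew w := Real.exp_pos _

lemma continuous_ew : Continuous ew := by
  unfold ew
  fun_prop

lemma integrable_mom (p q : ℕ) :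
    Integrable fun w : ℂ => conj w ^ p * w ^ q * (ew w : ℂ) := by
  have h1 : Integrable fun w : ℂ => ‖w‖ ^ (2 * 0) * ew w + ‖w‖ ^ (2 * (p + q)) * ew w :=
    (integrable_norm_pow 0).add (integrable_norm_pow (p + q))
  refine h1.mono' ?_ (Filter.Eventually.of_forall fun w => ?_)
  · exact Continuous.aestronglyMeasurable
      (((Complex.continuous_conj.pow p).mul (continuous_id.pow q)).mul
        (Complex.continuous_ofReal.comp continuous_ew))
  · rw [norm_mul, norm_mul, norm_pow, norm_pow, Complex.norm_conj, Complex.norm_real,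
      Real.norm_of_nonneg (ew_pos w).le, ← pow_add, ← add_mul]
    refine mul_le_mul_of_nonneg_right ?_ (ew_pos w).le
    have h2 : ‖w‖ ^ (p + q) ≤ 1 + ‖w‖ ^ (2 * (p + q)) := by
      rw [mul_comm 2, pow_mul]
      nlinarith [sq_nonneg (‖w‖ ^ (p + q) - 1), pow_nonneg (norm_nonneg w) (p + q)]
    simpa using h2

lemma mom1 (p q : ℕ) :
    ∫ w : ℂ, conj w ^ p * w ^ q * (ew w : ℂ) = if p = q then ((Real.pi * p ! : ℝ) : ℂ) else 0 := by
  split_ifs with h
  · subst h
    have h1 : ∀ w : ℂ, conj w ^ p * w ^ p * (ew w : ℂ) = ((‖w‖ ^ (2 * p) * ew w : ℝ) : ℂ) := by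
      intro w
      rw [← mul_pow, ← Complex.normSq_eq_conj_mul_self, Complex.normSq_eq_norm_sq]
      push_cast
      rw [← pow_mul]
    simp_rw [h1]
    rw [integral_complex_ofReal, integral_norm_pow]
  · -- rotation
    have hrot : ∀ u : Circle, ∫ w : ℂ, conj w ^ p * w ^ q * (ew w : ℂ) =
        (conj (u : ℂ) ^ p * (u : ℂ) ^ q) * ∫ w : ℂ, conj w ^ p * w ^ q * (ew w : ℂ) := by
      intro u
      have h1 := (rotation u).measurePreserving.integral_comp
        (rotation u).toHomeomorph.measurableEmbedding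
        (fun w : ℂ => conj w ^ p * w ^ q * (ew w : ℂ))
      calc ∫ w : ℂ, conj w ^ p * w ^ q * (ew w : ℂ)
          = ∫ w : ℂ, conj (rotation u w) ^ p * (rotation u w) ^ q * (ew (rotation u w) : ℂ) :=
            h1.symm
        _ = ∫ w : ℂ, (conj (u : ℂ) ^ p * (u : ℂ) ^ q) * (conj w ^ p * w ^ q * (ew w : ℂ)) := by
            refine integral_congr_ae (Filter.Eventually.of_forall fun w => ?_)
            simp only [rotation_apply, map_mul, mul_pow, ew, norm_mul, Circle.norm_coe, one_mul]
            ring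
        _ = _ := integral_const_mul _ _
    set I0 := ∫ w : ℂ, conj w ^ p * w ^ q * (ew w : ℂ) with hI0
    -- a rotation for which the factor is not one
    obtain ⟨θ, hθ⟩ : ∃ θ : ℝ, Complex.exp (θ * I) ^ q ≠ Complex.exp (θ * I) ^ p := by
      refine ⟨1, fun hc => ?_⟩
      rw [← Complex.exp_nat_mul, ← Complex.exp_nat_mul, Complex.exp_eq_exp_iff_exists_int] at hc
      obtain ⟨n, hn⟩ := hc
      have h2 : ((q : ℂ) - p) = 2 * Real.pi * n := by
        have h3 : ((q : ℂ) - p) * I = (2 * Real.pi * n) * I := by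
          push_cast at hn
          linear_combination hn
        exact mul_right_cancel₀ I_ne_zero h3
      have h4 : ((q : ℝ) - p) = 2 * Real.pi * n := by exact_mod_cast h2
      have h5 : n ≠ 0 := by
        rintro rfl
        apply h
        have : (q : ℝ) = p := by push_cast at h4; linarith
        exact_mod_cast this.symm
      have h6 : Real.pi = (((q : ℤ) - p : ℤ) : ℝ) / ((2 * n : ℤ) : ℝ) := by
        have : ((2 * n : ℤ) : ℝ) ≠ 0 := by
          have : (2 * n : ℤ) ≠ 0 := by omega
          exact_mod_cast this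
        rw [eq_div_iff this]
        push_cast
        linarith
      refine irrational_pi ⟨(((q : ℤ) - p : ℤ) : ℚ) / ((2 * n : ℤ) : ℚ), ?_⟩
      rw [h6]
      push_cast
      rfl
    have h7 := hrot (Circle.exp θ)
    rw [Circle.coe_exp] at h7
    have h8 : conj (Complex.exp (θ * I)) ^ p * Complex.exp (θ * I) ^ q ≠ 1 := by
      intro hc
      apply hθ
      have h9 : Complex.exp (θ * I) ^ p * conj (Complex.exp (θ * I)) ^ p = 1 := by
        rw [← mul_pow, Complex.mul_conj, Complex.normSq_eq_norm_sq, Complex.norm_exp_ofReal_mul_I]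
        simp
      calc Complex.exp (θ * I) ^ q
          = (Complex.exp (θ * I) ^ p * conj (Complex.exp (θ * I)) ^ p) * Complex.exp (θ * I) ^ q := by
            rw [h9, one_mul]
        _ = Complex.exp (θ * I) ^ p * (conj (Complex.exp (θ * I)) ^ p * Complex.exp (θ * I) ^ q) := by
            ring
        _ = _ := by rw [hc, mul_one]
    have h10 : (1 - conj (Complex.exp (θ * I)) ^ p * Complex.exp (θ * I) ^ q) * I0 = 0 := by
      rw [sub_mul, one_mul, ← h7, sub_self]
    exact (mul_eq_zero.1 h10).resolve_left (sub_ne_zero.2 (Ne.symm h8))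

/-! ### product measure -/

section prod

set_option linter.unusedSectionVars false

variable {ι : Type*} [Fintype ι] [DecidableEq ι]

/-- the weight on `ι → ℂ`. -/
def EW (w : ι → ℂ) : ℝ := Real.exp (-∑ i, ‖w i‖ ^ 2)

lemma EW_eq (w : ι → ℂ) : ((EW w : ℝ) : ℂ) = ∏ i, (ew (w i) : ℂ) := by
  unfold EW ew
  rw [← Finset.sum_neg_distrib, Real.exp_sum]
  push_cast
  rfl

/-- a monomial times the weight. -/
def mon (p q : ι → ℕ) (w : ι → ℂ) : ℂ := ∏ i, (conj (w i) ^ p i * w i ^ q i * (ew (w i) : ℂ))

lemma integrable_mon (p q : ι → ℕ) : Integrable (mon p q) := by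
  unfold mon
  exact Integrable.fintype_prod fun i => integrable_mom (p i) (q i)

lemma integral_mon (p q : ι → ℕ) : ∫ w, mon p q w =
    if p = q then ((Real.pi ^ Fintype.card ι * ∏ i, (p i) ! : ℝ) : ℂ) else 0 := by
  unfold mon
  rw [integral_fintype_prod_volume_eq_prod (𝕜 := ℂ) (ι := ι) (E := fun _ => ℂ)
    (fun i u => conj u ^ p i * u ^ q i * (ew u : ℂ))]
  simp_rw [mom1]
  split_ifs with h
  · subst h
    simp only [if_true]
    push_cast
    rw [Finset.prod_mul_distrib, Finset.prod_const, Finset.card_univ]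
  · obtain ⟨i, hi⟩ := Function.ne_iff.1 h
    exact Finset.prod_eq_zero (Finset.mem_univ i) (if_neg hi)

lemma prod_pow_single (x : ι → ℂ) (i : ι) : ∏ a, x a ^ (Pi.single i 1 : ι → ℕ) a = x i := by
  rw [Finset.prod_eq_single i]
  · simp
  · intro b _ hb
    simp [Pi.single_eq_of_ne hb]
  · simp

lemma mon_four (i j k l : ι) (w : ι → ℂ) :
    mon (Pi.single i 1 + Pi.single k 1) (Pi.single j 1 + Pi.single l 1) w =
      conj (w i) * w j * (conj (w k) * w l) * (EW w : ℂ) := by
  unfold mon
  rw [EW_eq, Finset.prod_mul_distrib, Finset.prod_mul_distrib]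
  simp only [Pi.add_apply, pow_add, Finset.prod_mul_distrib]
  rw [prod_pow_single (fun a => conj (w a)), prod_pow_single (fun a => conj (w a)),
    prod_pow_single w, prod_pow_single w]
  ring

lemma mon_two (i j : ι) (w : ι → ℂ) :
    mon (Pi.single i 1) (Pi.single j 1) w = conj (w i) * w j * (EW w : ℂ) := by
  unfold mon
  rw [EW_eq, Finset.prod_mul_distrib, Finset.prod_mul_distrib]
  rw [prod_pow_single (fun a => conj (w a)), prod_pow_single w]

lemma single_add_eq {i j k l : ι} :
    (Pi.single i 1 + Pi.single k 1 : ι → ℕ) = Pi.single j 1 + Pi.single l 1 ↔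
      (i = j ∧ k = l) ∨ (i = l ∧ k = j) := by
  constructor
  · intro h
    have hi := congrFun h i
    have hk := congrFun h k
    have hj := congrFun h j
    have hl := congrFun h l
    simp only [Pi.add_apply, Pi.single_apply] at hi hk hj hl
    by_cases h1 : i = j
    · subst h1
      by_cases h2 : k = l
      · exact Or.inl ⟨rfl, h2⟩
      · exfalso
        simp only [if_true] at hi hk hl
        rw [if_neg h2] at hk
        split_ifs at hk <;> omega
    · by_cases h2 : i = l
      · subst h2
        by_cases h3 : k = j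
        · exact Or.inr ⟨rfl, h3⟩
        · exfalso
          simp only [if_true] at hi hk hj
          rw [if_neg h3] at hk
          split_ifs at hk <;> omega
      · exfalso
        rw [if_neg h1, if_neg h2] at hi
        simp at hi
  · rintro (⟨rfl, rfl⟩ | ⟨rfl, rfl⟩)
    · rfl
    · exact add_comm _ _

lemma prod_fact (i k : ι) :
    ∏ a, ((Pi.single i 1 + Pi.single k 1 : ι → ℕ) a) ! = if i = k then 2 else 1 := by
  split_ifs with h
  · subst h
    rw [Finset.prod_eq_single i]
    · simp
    · intro b _ hb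
      simp [Pi.single_eq_of_ne hb]
    · simp
  · refine Finset.prod_eq_one fun a _ => ?_
    by_cases h1 : a = i
    · subst h1
      simp [Pi.single_eq_of_ne h]
    · by_cases h2 : a = k
      · subst h2
        simp [Pi.single_eq_of_ne h1]
      · simp [Pi.single_eq_of_ne h1, Pi.single_eq_of_ne h2]

lemma prod_fact_one (i : ι) : ∏ a, ((Pi.single i 1 : ι → ℕ) a) ! = 1 := by
  refine Finset.prod_eq_one fun a _ => ?_
  by_cases h1 : a = i
  · subst h1; simp
  · simp [Pi.single_eq_of_ne h1]

/-- fourth moments. -/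
theorem mom4 (i j k l : ι) :
    ∫ w : ι → ℂ, conj (w i) * w j * (conj (w k) * w l) * (EW w : ℂ) =
      (Real.pi : ℂ) ^ Fintype.card ι *
        ((if i = j then 1 else 0) * (if k = l then 1 else 0) +
          (if i = l then 1 else 0) * (if k = j then 1 else 0)) := by
  have h := integral_mon (Pi.single i 1 + Pi.single k 1) (Pi.single j 1 + Pi.single l 1)
  simp_rw [mon_four] at h
  rw [h, prod_fact]
  simp only [single_add_eq]
  by_cases h1 : i = j <;> by_cases h2 : k = l <;> by_cases h3 : i = l <;> by_cases h4 : k = j <;>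
    by_cases h5 : i = k <;> simp_all
  all_goals norm_num

theorem mom2 (i j : ι) :
    ∫ w : ι → ℂ, conj (w i) * w j * (EW w : ℂ) =
      (Real.pi : ℂ) ^ Fintype.card ι * (if i = j then 1 else 0) := by
  have h := integral_mon (Pi.single i 1) (Pi.single j 1)
  simp_rw [mon_two] at h
  rw [h, prod_fact_one]
  by_cases h1 : i = j
  · subst h1; simp
  · have : ¬ ((Pi.single i 1 : ι → ℕ) = Pi.single j 1) := by
      intro hc
      have := congrFun hc i
      simp [Pi.single_apply, h1] at this
    simp [h1, this]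

lemma integrable_four (i j k l : ι) :
    Integrable fun w : ι → ℂ => conj (w i) * w j * (conj (w k) * w l) * (EW w : ℂ) := by
  have h := integrable_mon (Pi.single i 1 + Pi.single k 1 : ι → ℕ) (Pi.single j 1 + Pi.single l 1)
  have e : mon (Pi.single i 1 + Pi.single k 1 : ι → ℕ) (Pi.single j 1 + Pi.single l 1) =
      fun w : ι → ℂ => conj (w i) * w j * (conj (w k) * w l) * (EW w : ℂ) := by
    funext w; exact mon_four i j k l w
  rwa [e] at h

lemma integrable_two (i j : ι) :
    Integrable fun w : ι → ℂ => conj (w i) * w j * (EW w : ℂ) := by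
  have h := integrable_mon (Pi.single i 1 : ι → ℕ) (Pi.single j 1)
  have e : mon (Pi.single i 1 : ι → ℕ) (Pi.single j 1) =
      fun w : ι → ℂ => conj (w i) * w j * (EW w : ℂ) := by
    funext w; exact mon_two i j w
  rwa [e] at h

/-- the quadratic form `w* C w`. -/
def qf (C : Matrix ι ι ℂ) (w : ι → ℂ) : ℂ := star w ⬝ᵥ (C *ᵥ w)

lemma qf_eq (C : Matrix ι ι ℂ) (w : ι → ℂ) : qf C w = ∑ i, ∑ j, C i j * (conj (w i) * w j) := by
  unfold qf dotProduct mulVec dotProduct
  refine Finset.sum_congr rfl fun i _ => ?_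
  rw [Finset.mul_sum]
  refine Finset.sum_congr rfl fun j _ => ?_
  simp only [Pi.star_apply, RCLike.star_def]
  ring

theorem mom_one (C : Matrix ι ι ℂ) :
    Integrable (fun w : ι → ℂ => qf C w * (EW w : ℂ)) ∧
    ∫ w : ι → ℂ, qf C w * (EW w : ℂ) = (Real.pi : ℂ) ^ Fintype.card ι * C.trace := by
  have e : (fun w : ι → ℂ => qf C w * (EW w : ℂ)) =
      fun w => ∑ i, ∑ j, C i j * (conj (w i) * w j * (EW w : ℂ)) := by
    funext w
    rw [qf_eq, Finset.sum_mul]
    refine Finset.sum_congr rfl fun i _ => ?_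
    rw [Finset.sum_mul]
    refine Finset.sum_congr rfl fun j _ => ?_
    ring
  rw [e]
  have hint : ∀ i j, Integrable fun w : ι → ℂ => C i j * (conj (w i) * w j * (EW w : ℂ)) :=
    fun i j => (integrable_two i j).const_mul _
  refine ⟨integrable_finsetSum _ fun i _ => integrable_finsetSum _ fun j _ => hint i j, ?_⟩
  rw [integral_finsetSum _ fun i _ => integrable_finsetSum _ fun j _ => hint i j]
  simp_rw [integral_finsetSum _ fun j _ => hint _ j, integral_const_mul, mom2]
  simp only [mul_ite, mul_one, mul_zero, Finset.sum_ite_eq, Finset.mem_univ, if_true]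
  rw [← Finset.sum_mul, mul_comm]
  rfl

theorem mom_two (C D : Matrix ι ι ℂ) :
    Integrable (fun w : ι → ℂ => qf C w * qf D w * (EW w : ℂ)) ∧
    ∫ w : ι → ℂ, qf C w * qf D w * (EW w : ℂ) =
      (Real.pi : ℂ) ^ Fintype.card ι * (C.trace * D.trace + (C * D).trace) := by
  have e : (fun w : ι → ℂ => qf C w * qf D w * (EW w : ℂ)) =
      fun w => ∑ i, ∑ j, ∑ k, ∑ l, (C i j * D k l) *
        (conj (w i) * w j * (conj (w k) * w l) * (EW w : ℂ)) := by
    funext w
    rw [qf_eq, qf_eq, Finset.sum_mul, Finset.sum_mul]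
    refine Finset.sum_congr rfl fun i _ => ?_
    rw [Finset.sum_mul, Finset.sum_mul]
    refine Finset.sum_congr rfl fun j _ => ?_
    rw [Finset.mul_sum, Finset.sum_mul]
    refine Finset.sum_congr rfl fun k _ => ?_
    rw [Finset.mul_sum, Finset.sum_mul]
    refine Finset.sum_congr rfl fun l _ => ?_
    ring
  rw [e]
  have hint : ∀ i j k l, Integrable fun w : ι → ℂ => (C i j * D k l) *
        (conj (w i) * w j * (conj (w k) * w l) * (EW w : ℂ)) :=
    fun i j k l => (integrable_four i j k l).const_mul _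
  have h3 : ∀ i j k, Integrable fun w : ι → ℂ => ∑ l, (C i j * D k l) *
        (conj (w i) * w j * (conj (w k) * w l) * (EW w : ℂ)) :=
    fun i j k => integrable_finsetSum _ fun l _ => hint i j k l
  have h2 : ∀ i j, Integrable fun w : ι → ℂ => ∑ k, ∑ l, (C i j * D k l) *
        (conj (w i) * w j * (conj (w k) * w l) * (EW w : ℂ)) :=
    fun i j => integrable_finsetSum _ fun k _ => h3 i j k
  have h1 : ∀ i, Integrable fun w : ι → ℂ => ∑ j, ∑ k, ∑ l, (C i j * D k l) *
        (conj (w i) * w j * (conj (w k) * w l) * (EW w : ℂ)) :=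
    fun i => integrable_finsetSum _ fun j _ => h2 i j
  refine ⟨integrable_finsetSum _ fun i _ => h1 i, ?_⟩
  rw [integral_finsetSum _ fun i _ => h1 i]
  have e2 : ∀ i, ∫ w : ι → ℂ, ∑ j, ∑ k, ∑ l, (C i j * D k l) *
        (conj (w i) * w j * (conj (w k) * w l) * (EW w : ℂ)) =
      ∑ j, ∑ k, ∑ l, (C i j * D k l) * ((Real.pi : ℂ) ^ Fintype.card ι *
        ((if i = j then 1 else 0) * (if k = l then 1 else 0) +
          (if i = l then 1 else 0) * (if k = j then 1 else 0))) := by
    intro i
    rw [integral_finsetSum _ fun j _ => h2 i j]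
    refine Finset.sum_congr rfl fun j _ => ?_
    rw [integral_finsetSum _ fun k _ => h3 i j k]
    refine Finset.sum_congr rfl fun k _ => ?_
    rw [integral_finsetSum _ fun l _ => hint i j k l]
    refine Finset.sum_congr rfl fun l _ => ?_
    rw [integral_const_mul, mom4]
  simp_rw [e2]
  have e3 : ∀ i j k l : ι, (C i j * D k l) * ((Real.pi : ℂ) ^ Fintype.card ι *
        ((if i = j then 1 else 0) * (if k = l then 1 else 0) +
          (if i = l then 1 else 0) * (if k = j then 1 else 0))) =
      (Real.pi : ℂ) ^ Fintype.card ι *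
        ((if i = j then (if k = l then C i j * D k l else 0) else 0) +
          (if k = j then (if i = l then C i j * D k l else 0) else 0)) := by
    intro i j k l
    split_ifs <;> simp <;> ring
  simp_rw [e3, ← Finset.mul_sum, Finset.sum_add_distrib]
  congr 1
  congr 1
  · have s1 : ∀ i j : ι, ∑ k, ∑ l, (if i = j then (if k = l then C i j * D k l else 0) else 0) =
        if i = j then ∑ k, C i j * D k k else 0 := by
      intro i j
      split_ifs <;> simp
    simp_rw [s1]
    simp only [Finset.sum_ite_eq, Finset.mem_univ, if_true, trace, diag_apply, Finset.sum_mul_sum]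
  · have s1 : ∀ i j : ι, ∑ k, ∑ l, (if k = j then (if i = l then C i j * D k l else 0) else 0) =
        C i j * D j i := by
      intro i j
      rw [Finset.sum_eq_single j]
      · simp
      · intro k _ hk
        simp [hk]
      · simp
    simp_rw [s1]
    simp only [trace, diag_apply, mul_apply]

end prod

end

end Crest.Agent.R235.FamGaussA_355
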