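import Crest.Agent.R235.FamGaussA_355

/-!
# Row 235, package FAM, block B (GAUSS), part 2 (helper355): moments on a complex inner product space

* `moments` : for a Haar measure `μ` on `Z` there is `c > 0` with
  `∫ ⟪y, C y⟫ e^{-‖y‖²} = c tr C`, `∫ ⟪y, C y⟫⟪y, D y⟫ e^{-‖y‖²} = c (tr C tr D + tr (C D))`;
* `integral_comp_lin` : change of variables by a linear equivalence.
-/

set_option autoImplicit false

open MeasureTheory Matrix Complex Module
open scoped ComplexConjugate InnerProductSpace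

namespace Crest.Agent.R235.FamGaussB_355

open FamGaussA_355

noncomputable section

variable {Z : Type*} [NormedAddCommGroup Z] [InnerProductSpace ℂ Z] [FiniteDimensional ℂ Z]

/-- coordinates. -/
def coor {ι : Type*} [Fintype ι] (b : OrthonormalBasis ι ℂ Z) : (ι → ℂ) ≃ₗ[ℂ] Z :=
  b.toBasis.equivFun.symm

lemma coor_apply {ι : Type*} [Fintype ι] (b : OrthonormalBasis ι ℂ Z) (w : ι → ℂ) :
    coor b w = ∑ i, w i • b i := by
  unfold coor
  rw [Basis.equivFun_symm_apply]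
  simp

lemma inner_coor {ι : Type*} [Fintype ι] (b : OrthonormalBasis ι ℂ Z) (w : ι → ℂ) (i : ι) :
    ⟪b i, coor b w⟫_ℂ = w i := by
  classical
  rw [coor_apply, inner_sum]
  simp only [inner_smul_right, b.inner_eq_ite]
  simp

lemma norm_coor {ι : Type*} [Fintype ι] (b : OrthonormalBasis ι ℂ Z) (w : ι → ℂ) :
    ‖coor b w‖ ^ 2 = ∑ i, ‖w i‖ ^ 2 := by
  rw [← b.sum_sq_norm_inner_right]
  simp only [inner_coor]

lemma inner_coor_map {ι : Type*} [Fintype ι] [DecidableEq ι] (b : OrthonormalBasis ι ℂ Z)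
    (C : Z →ₗ[ℂ] Z) (w : ι → ℂ) :
    ⟪coor b w, C (coor b w)⟫_ℂ = qf (LinearMap.toMatrix b.toBasis b.toBasis C) w := by
  have h1 : ∀ i j, LinearMap.toMatrix b.toBasis b.toBasis C i j = ⟪b i, C (b j)⟫_ℂ := by
    intro i j
    rw [LinearMap.toMatrix_apply, b.coe_toBasis, b.coe_toBasis_repr_apply, b.repr_apply_apply]
  rw [qf_eq]
  conv_lhs => rw [coor_apply, map_sum, sum_inner]
  refine Finset.sum_congr rfl fun i _ => ?_
  rw [inner_sum]
  refine Finset.sum_congr rfl fun j _ => ?_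
  rw [map_smul, inner_smul_left, inner_smul_right, h1]
  ring

variable [MeasurableSpace Z] [BorelSpace Z]

theorem moments (μ : Measure Z) [μ.IsAddHaarMeasure] : ∃ c : ℝ, 0 < c ∧
    (∀ C : Z →ₗ[ℂ] Z, Integrable (fun y : Z => ⟪y, C y⟫_ℂ * (Real.exp (-‖y‖ ^ 2) : ℂ)) μ ∧
      ∫ y : Z, ⟪y, C y⟫_ℂ * (Real.exp (-‖y‖ ^ 2) : ℂ) ∂μ = c * LinearMap.trace ℂ Z C) ∧
    (∀ C D : Z →ₗ[ℂ] Z,
      Integrable (fun y : Z => ⟪y, C y⟫_ℂ * ⟪y, D y⟫_ℂ * (Real.exp (-‖y‖ ^ 2) : ℂ)) μ ∧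
      ∫ y : Z, ⟪y, C y⟫_ℂ * ⟪y, D y⟫_ℂ * (Real.exp (-‖y‖ ^ 2) : ℂ) ∂μ =
        c * (LinearMap.trace ℂ Z C * LinearMap.trace ℂ Z D + LinearMap.trace ℂ Z (C ∘ₗ D))) := by
  classical
  set b := stdOrthonormalBasis ℂ Z with hb
  set r := finrank ℂ Z with hr
  set φ : (Fin r → ℂ) ≃L[ℝ] Z := ((coor b).restrictScalars ℝ).toContinuousLinearEquiv with hφ
  have hφa : ∀ w, φ w = coor b w := fun w => rfl
  set ν : Measure Z := Measure.map φ (volume : Measure (Fin r → ℂ)) with hν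
  haveI : ν.IsAddHaarMeasure := φ.isAddHaarMeasure_map volume
  have h1 : μ = Measure.addHaarScalarFactor μ ν • ν := Measure.isAddLeftInvariant_eq_smul μ ν
  have h2 : 0 < Measure.addHaarScalarFactor μ ν := Measure.addHaarScalarFactor_pos_of_isAddHaarMeasure μ ν
  set s := Measure.addHaarScalarFactor μ ν with hs
  have hme : MeasurableEmbedding φ := φ.toHomeomorph.measurableEmbedding
  have key : ∀ (F : Z → ℂ) (G : (Fin r → ℂ) → ℂ) (I : ℂ), (∀ w, F (φ w) = G w) → Integrable G →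
      ∫ w, G w = I → Integrable F μ ∧ ∫ y, F y ∂μ = (s : ℝ) * I := by
    intro F G I hFG hG hI
    have e : F ∘ φ = G := funext hFG
    constructor
    · rw [h1]
      refine Integrable.smul_measure_nnreal ?_
      rw [hν, hme.integrable_map_iff, e]
      exact hG
    · rw [h1, integral_smul_nnreal_measure, hν, hme.integral_map]
      simp_rw [hFG]
      rw [hI]
      rfl
  refine ⟨s * Real.pi ^ r, by positivity, fun C => ?_, fun C D => ?_⟩
  · obtain ⟨g1, g2⟩ := mom_one (LinearMap.toMatrix b.toBasis b.toBasis C)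
    obtain ⟨k1, k2⟩ := key (fun y : Z => ⟪y, C y⟫_ℂ * (Real.exp (-‖y‖ ^ 2) : ℂ)) _ _ (fun w => by
      simp only [hφa]
      rw [inner_coor_map, norm_coor]
      rfl) g1 g2
    refine ⟨k1, ?_⟩
    rw [k2, LinearMap.trace_eq_matrix_trace ℂ b.toBasis C, Fintype.card_fin]
    push_cast
    ring
  · obtain ⟨g1, g2⟩ := mom_two (LinearMap.toMatrix b.toBasis b.toBasis C)
      (LinearMap.toMatrix b.toBasis b.toBasis D)
    obtain ⟨k1, k2⟩ := key (fun y : Z => ⟪y, C y⟫_ℂ * ⟪y, D y⟫_ℂ * (Real.exp (-‖y‖ ^ 2) : ℂ)) _ _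
      (fun w => by
        simp only [hφa]
        rw [inner_coor_map, inner_coor_map, norm_coor]
        rfl) g1 g2
    refine ⟨k1, ?_⟩
    rw [k2, LinearMap.trace_eq_matrix_trace ℂ b.toBasis C, LinearMap.trace_eq_matrix_trace ℂ b.toBasis D,
      LinearMap.trace_eq_matrix_trace ℂ b.toBasis (C ∘ₗ D), LinearMap.toMatrix_comp _ b.toBasis,
      Fintype.card_fin]
    push_cast
    ring

/-- change of variables by a linear equivalence. -/
theorem integral_comp_lin (μ : Measure Z) [μ.IsAddHaarMeasure] (g : Z ≃ₗ[ℝ] Z) (F : Z → ℝ)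
    (hF : Integrable (fun y => F (g y)) μ) :
    Integrable F μ ∧ ∫ z, F z ∂μ = |LinearMap.det (g : Z →ₗ[ℝ] Z)| * ∫ y, F (g y) ∂μ := by
  have hdet : LinearMap.det (g : Z →ₗ[ℝ] Z) ≠ 0 := g.isUnit_det'.ne_zero
  have h1 := Measure.map_linearMap_addHaar_eq_smul_addHaar μ hdet
  set gl := g.toContinuousLinearEquiv with hgl
  have hme : MeasurableEmbedding gl := gl.toHomeomorph.measurableEmbedding
  have hco : (((g : Z →ₗ[ℝ] Z)) : Z → Z) = gl := rfl
  rw [hco] at h1
  have hpos : 0 < |(LinearMap.det (g : Z →ₗ[ℝ] Z))⁻¹| := abs_pos.2 (inv_ne_zero hdet)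
  have h2 : Integrable F (Measure.map gl μ) := by
    rw [hme.integrable_map_iff]
    exact hF
  have h3 : ∫ z, F z ∂(Measure.map gl μ) = ∫ y, F (g y) ∂μ := by
    rw [hme.integral_map]
    rfl
  rw [h1] at h2 h3
  rw [integral_smul_measure] at h3
  constructor
  · rwa [integrable_smul_measure (by simpa using hpos.ne') ENNReal.ofReal_ne_top] at h2
  · rw [← h3, ENNReal.toReal_ofReal hpos.le, smul_eq_mul, ← mul_assoc, ← abs_mul,
      mul_inv_cancel₀ hdet, abs_one, one_mul]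

end

end Crest.Agent.R235.FamGaussB_355
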