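import Crest.Agent.R235.FamGaussB_355
import Crest.Agent.R235.FamDefs_307

/-!
# Row 235, package FAM, block B (GAUSS), part 3 (helper355): the determinant

* `det_isom`   : the real determinant of a complex isometry is `1`;
* `det_block`  : block triangular maps;
* `Adapted`    : `G : ℂ^M × Z ≃ Y` isometric with `G (0, ζ) = V ζ`;
* `det_tot`    : `det (e ∘ tot V Bj z) = det (e ∘ G ∘ (J × 1)) * det (J⁻¹ x_j)`, `x_j = (G⁻¹ (Bj z))₁`;
* `det_const`  : the first factor does not depend on `G`.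
-/

set_option autoImplicit false
set_option maxSynthPendingDepth 3

open MeasureTheory Matrix Complex Module
open scoped ComplexConjugate InnerProductSpace

namespace Crest.Agent.R235.FamGaussC_355

open FamGaussA_355 FamGaussB_355 FamDefs_307

noncomputable section

variable {Z : Type*} [NormedAddCommGroup Z] [InnerProductSpace ℂ Z] [FiniteDimensional ℂ Z]
variable {Y : Type*} [NormedAddCommGroup Y] [InnerProductSpace ℂ Y] [FiniteDimensional ℂ Y]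

lemma det_isom (f : Y ≃ₗ[ℂ] Y) (hf : ∀ y, ‖f y‖ = ‖y‖) :
    LinearMap.det ((f : Y →ₗ[ℂ] Y).restrictScalars ℝ) = 1 := by
  rw [LinearMap.det_restrictScalars, Algebra.norm_complex_apply, Complex.normSq_eq_norm_sq]
  have h : ‖LinearMap.det (f : Y →ₗ[ℂ] Y)‖ = 1 := by
    rw [← LinearMap.normDet_eq_norm_det]
    exact LinearIsometry.normDet_eq_one ⟨(f : Y →ₗ[ℂ] Y), hf⟩
  rw [h]
  norm_num

lemma det_pos (g : Z ≃ₗ[ℂ] Z) : 0 < LinearMap.det ((g : Z →ₗ[ℂ] Z).restrictScalars ℝ) := by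
  rw [LinearMap.det_restrictScalars, Algebra.norm_complex_apply]
  exact Complex.normSq_pos.2 g.isUnit_det'.ne_zero

section block

variable {E F : Type*} [NormedAddCommGroup E] [NormedSpace ℝ E] [FiniteDimensional ℝ E]
  [NormedAddCommGroup F] [NormedSpace ℝ F] [FiniteDimensional ℝ F]

/-- the unipotent map `(x, y) ↦ (x, y + S x)`. -/
def uni (S : E →ₗ[ℝ] F) : (E × F) →ₗ[ℝ] (E × F) :=
  LinearMap.id + (LinearMap.inr ℝ E F) ∘ₗ S ∘ₗ (LinearMap.fst ℝ E F)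

lemma uni_apply (S : E →ₗ[ℝ] F) (p : E × F) : uni S p = (p.1, p.2 + S p.1) := by
  unfold uni
  ext <;> simp

lemma uni_comp (S S' : E →ₗ[ℝ] F) : uni S * uni S' = uni (S + S') := by
  refine LinearMap.ext fun p => ?_
  rw [Module.End.mul_apply, uni_apply, uni_apply, uni_apply]
  ext
  · rfl
  · simp only [LinearMap.add_apply]
    abel

lemma det_uni (S : E →ₗ[ℝ] F) : LinearMap.det (uni S) = 1 := by
  have h1 : LinearMap.det (uni S) * LinearMap.det (uni (-S)) = 1 := by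
    rw [← map_mul, uni_comp, add_neg_cancel]
    have : uni (0 : E →ₗ[ℝ] F) = LinearMap.id := by
      refine LinearMap.ext fun p => ?_
      rw [uni_apply]
      simp
    rw [this, LinearMap.det_id]
  have h2 : LinearMap.det (uni S) = LinearMap.det (uni (-S)) := by
    have e : (LinearMap.prodMap (-LinearMap.id) LinearMap.id : (E × F) →ₗ[ℝ] (E × F)) * uni S *
        (LinearMap.prodMap (-LinearMap.id) LinearMap.id) = uni (-S) := by
      refine LinearMap.ext fun p => ?_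
      rw [Module.End.mul_apply, Module.End.mul_apply, uni_apply, uni_apply]
      ext <;> simp
    have e2 : (LinearMap.prodMap (-LinearMap.id) LinearMap.id : (E × F) →ₗ[ℝ] (E × F)) *
        (LinearMap.prodMap (-LinearMap.id) LinearMap.id) = 1 := by
      refine LinearMap.ext fun p => ?_
      rw [Module.End.mul_apply]
      ext <;> simp
    rw [← e, map_mul, map_mul, mul_comm, ← mul_assoc, ← map_mul, e2, map_one, one_mul]
  have h3 : LinearMap.det (uni S) = LinearMap.det (uni ((1 / 2 : ℝ) • S)) ^ 2 := by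
    rw [pow_two, ← map_mul, uni_comp, ← add_smul]
    norm_num
  rw [← h2] at h1
  have h4 : 0 ≤ LinearMap.det (uni S) := by rw [h3]; positivity
  nlinarith

lemma det_block (A : E →ₗ[ℝ] E) (S : E →ₗ[ℝ] F) (T : (E × F) →ₗ[ℝ] (E × F))
    (hT : ∀ p, T p = (A p.1, p.2 + S p.1)) : LinearMap.det T = LinearMap.det A := by
  have e : T = (A.prodMap LinearMap.id) * uni S := by
    refine LinearMap.ext fun p => ?_
    rw [Module.End.mul_apply, uni_apply, hT]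
    rfl
  rw [e, map_mul, det_uni, LinearMap.det_prodMap, LinearMap.det_id]
  ring

end block

/-! ### adapted isometries -/

/-- `G : ℂ^M × Z ≃ Y` isometric, equal to `V` on `Z`. -/
structure Adapted (M : ℕ) (V : Z →ₗᵢ[ℂ] Y) (G : ((Fin M → ℂ) × Z) ≃ₗ[ℂ] Y) : Prop where
  map : ∀ ζ, G (0, ζ) = V ζ
  inn : ∀ p p', ⟪G p, G p'⟫_ℂ = ∑ i, conj (p.1 i) * p'.1 i + ⟪p.2, p'.2⟫_ℂ

lemma inner_coor2 {ι : Type*} [Fintype ι] (b : OrthonormalBasis ι ℂ Z) (w w' : ι → ℂ) :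
    ⟪coor b w, coor b w'⟫_ℂ = ∑ i, conj (w i) * w' i := by
  conv_lhs => rw [coor_apply b w, sum_inner]
  refine Finset.sum_congr rfl fun i _ => ?_
  rw [inner_smul_left, inner_coor]

lemma exists_adapted {M : ℕ} (hM : finrank ℂ Y = finrank ℂ Z + M) (V : Z →ₗᵢ[ℂ] Y) :
    ∃ G : ((Fin M → ℂ) × Z) ≃ₗ[ℂ] Y, Adapted M V G := by
  set R := LinearMap.range V.toLinearMap with hR
  have h1 : finrank ℂ R = finrank ℂ Z := LinearMap.finrank_range_of_inj V.injective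
  have h2 : finrank ℂ Rᗮ = M := by
    have := R.finrank_add_finrank_orthogonal
    omega
  set k : OrthonormalBasis (Fin M) ℂ Rᗮ := (stdOrthonormalBasis ℂ Rᗮ).reindex (finCongr h2) with hk
  set G0 : ((Fin M → ℂ) × Z) →ₗ[ℂ] Y :=
    (Rᗮ.subtype ∘ₗ (coor k : (Fin M → ℂ) →ₗ[ℂ] Rᗮ)).coprod V.toLinearMap with hG0
  have hG : ∀ p, G0 p = (coor k p.1 : Y) + V p.2 := fun p => by
    simp [hG0]
  have hin : ∀ p p', ⟪G0 p, G0 p'⟫_ℂ = ∑ i, conj (p.1 i) * p'.1 i + ⟪p.2, p'.2⟫_ℂ := by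
    intro p p'
    have o1 : ⟪(coor k p.1 : Y), V p'.2⟫_ℂ = 0 :=
      (Submodule.mem_orthogonal' _ _).1 (coor k p.1).2 _ ⟨p'.2, rfl⟩
    have o2 : ⟪V p.2, (coor k p'.1 : Y)⟫_ℂ = 0 :=
      (Submodule.mem_orthogonal _ _).1 (coor k p'.1).2 _ ⟨p.2, rfl⟩
    rw [hG, hG, inner_add_left, inner_add_right, inner_add_right, o1, o2, V.inner_map_map,
      ← inner_coor2 k, Submodule.coe_inner]
    ring
  have hinj : Function.Injective G0 := by
    rw [injective_iff_map_eq_zero]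
    intro p hp
    have h3 := hin p p
    rw [hp, inner_zero_left] at h3
    have h4 : (∑ i, conj (p.1 i) * p.1 i + ⟪p.2, p.2⟫_ℂ) =
        ((∑ i, ‖p.1 i‖ ^ 2 + ‖p.2‖ ^ 2 : ℝ) : ℂ) := by
      rw [inner_self_eq_norm_sq_to_K]
      push_cast
      congr 1
      refine Finset.sum_congr rfl fun i _ => ?_
      rw [← Complex.normSq_eq_conj_mul_self, Complex.normSq_eq_norm_sq]
      push_cast
      rfl
    rw [h4] at h3
    have h5 : (∑ i, ‖p.1 i‖ ^ 2 + ‖p.2‖ ^ 2 : ℝ) = 0 := by exact_mod_cast h3.symm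
    have h6 : 0 ≤ ∑ i, ‖p.1 i‖ ^ 2 := Finset.sum_nonneg fun i _ => by positivity
    have h7 : ∑ i, ‖p.1 i‖ ^ 2 = 0 := by nlinarith [sq_nonneg ‖p.2‖]
    have h8 : ‖p.2‖ ^ 2 = 0 := by nlinarith [sq_nonneg ‖p.2‖]
    have h9 := (Finset.sum_eq_zero_iff_of_nonneg fun i _ => by positivity).1 h7
    ext i
    · simpa using h9 i (Finset.mem_univ i)
    · simpa using h8
  have hfr : finrank ℂ ((Fin M → ℂ) × Z) = finrank ℂ Y := by
    rw [Module.finrank_prod, Module.finrank_fin_fun, hM]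
    ring
  refine ⟨LinearMap.linearEquivOfInjective G0 hinj hfr, ⟨fun ζ => ?_, fun p p' => ?_⟩⟩
  · rw [LinearMap.linearEquivOfInjective_apply, hG]
    simp
  · rw [LinearMap.linearEquivOfInjective_apply, LinearMap.linearEquivOfInjective_apply, hin]

/-- the projection on the complement in coordinates. -/
lemma Adapted.inner_fst {M : ℕ} {V : Z →ₗᵢ[ℂ] Y} {G : ((Fin M → ℂ) × Z) ≃ₗ[ℂ] Y}
    (h : Adapted M V G) (y y' : Y) :
    ∑ i, conj ((G.symm y).1 i) * (G.symm y').1 i =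
      ⟪y, y' - V.toContinuousLinearMap (V.toContinuousLinearMap.adjoint y')⟫_ℂ := by
  have h1 : ∀ y : Y, (G.symm y).2 = V.toContinuousLinearMap.adjoint y := by
    intro y
    refine ext_inner_left ℂ fun ζ => ?_
    rw [ContinuousLinearMap.adjoint_inner_right]
    have h2 := h.inn (0, ζ) (G.symm y)
    rw [h.map, G.apply_symm_apply] at h2
    simpa using h2.symm
  have h2 : y' - V.toContinuousLinearMap (V.toContinuousLinearMap.adjoint y') =
      G ((G.symm y').1, 0) := by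
    have h3 : G ((G.symm y').1, 0) + G (0, (G.symm y').2) = y' := by
      rw [← map_add]
      simp
    rw [h.map, h1] at h3
    exact sub_eq_iff_eq_add.2 h3.symm
  rw [h2]
  conv_rhs => rw [← G.apply_symm_apply y]
  rw [h.inn]
  simp

/-! ### the determinant of `e ∘ tot` -/

variable {b M : ℕ}

/-- `e ∘ G ∘ (J × 1)`. -/
def egj (J : (Fin b → ℝ) ≃ₗ[ℝ] (Fin M → ℂ)) (e : Y ≃L[ℝ] (Fin b → ℝ) × Z)
    (G : ((Fin M → ℂ) × Z) ≃ₗ[ℂ] Y) : ((Fin b → ℝ) × Z) ≃ₗ[ℝ] ((Fin b → ℝ) × Z) :=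
  ((J.prodCongr (LinearEquiv.refl ℝ Z)).trans (G.restrictScalars ℝ)).trans e.toLinearEquiv

lemma egj_apply (J : (Fin b → ℝ) ≃ₗ[ℝ] (Fin M → ℂ)) (e : Y ≃L[ℝ] (Fin b → ℝ) × Z)
    (G : ((Fin M → ℂ) × Z) ≃ₗ[ℂ] Y) (p : (Fin b → ℝ) × Z) :
    egj J e G p = e (G (J p.1, p.2)) := rfl

lemma tot_apply (B : Z →L[ℂ] Y) (Bj : Fin b → Z →L[ℂ] Y) (z : Z) (p : (Fin b → ℝ) × Z) :
    tot B Bj z p = ∑ j, p.1 j • Bj j z + B p.2 := by
  simp [tot]

theorem det_const (J : (Fin b → ℝ) ≃ₗ[ℝ] (Fin M → ℂ)) (e : Y ≃L[ℝ] (Fin b → ℝ) × Z)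
    {V V' : Z →ₗᵢ[ℂ] Y} {G G' : ((Fin M → ℂ) × Z) ≃ₗ[ℂ] Y} (hG : Adapted M V G)
    (hG' : Adapted M V' G') :
    LinearMap.det (egj J e G : ((Fin b → ℝ) × Z) →ₗ[ℝ] ((Fin b → ℝ) × Z)) =
      LinearMap.det (egj J e G' : ((Fin b → ℝ) × Z) →ₗ[ℝ] ((Fin b → ℝ) × Z)) := by
  set f : Y ≃ₗ[ℂ] Y := G'.symm.trans G with hf
  have hiso : ∀ y, ‖f y‖ = ‖y‖ := by
    intro y
    have h1 := hG.inn (G'.symm y) (G'.symm y)
    have h2 := hG'.inn (G'.symm y) (G'.symm y)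
    rw [G'.apply_symm_apply] at h2
    rw [← h2, inner_self_eq_norm_sq_to_K, inner_self_eq_norm_sq_to_K] at h1
    have h3 : ‖G (G'.symm y)‖ ^ 2 = ‖y‖ ^ 2 := by exact_mod_cast h1
    have h4 := (sq_eq_sq₀ (norm_nonneg _) (norm_nonneg _)).1 h3
    exact h4
  have h1 := det_isom f hiso
  have e1 : (egj J e G : ((Fin b → ℝ) × Z) →ₗ[ℝ] ((Fin b → ℝ) × Z)) =
      ((e.toLinearEquiv : Y →ₗ[ℝ] _) ∘ₗ ((f : Y →ₗ[ℂ] Y).restrictScalars ℝ) ∘ₗ
        (e.toLinearEquiv.symm : _ →ₗ[ℝ] Y)) *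
      (egj J e G' : ((Fin b → ℝ) × Z) →ₗ[ℝ] ((Fin b → ℝ) × Z)) := by
    refine LinearMap.ext fun p => ?_
    rw [Module.End.mul_apply]
    simp [egj_apply, hf]
  rw [e1, map_mul, LinearMap.det_conj, h1, one_mul]

theorem det_tot (J : (Fin b → ℝ) ≃ₗ[ℝ] (Fin M → ℂ)) (e : Y ≃L[ℝ] (Fin b → ℝ) × Z)
    {V : Z →ₗᵢ[ℂ] Y} {G : ((Fin M → ℂ) × Z) ≃ₗ[ℂ] Y} (hG : Adapted M V G)
    (Bj : Fin b → Z →L[ℂ] Y) (z : Z) :
    LinearMap.det ((e : Y →L[ℝ] (Fin b → ℝ) × Z) ∘L tot V.toContinuousLinearMap Bj z :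
          ((Fin b → ℝ) × Z) →ₗ[ℝ] (Fin b → ℝ) × Z) =
      LinearMap.det (egj J e G : ((Fin b → ℝ) × Z) →ₗ[ℝ] ((Fin b → ℝ) × Z)) *
        Matrix.det (Matrix.of fun i j => J.symm ((G.symm (Bj j z)).1) i) := by
  set x : Fin b → Fin M → ℂ := fun j => (G.symm (Bj j z)).1 with hx
  set A : (Fin b → ℝ) →ₗ[ℝ] (Fin b → ℝ) :=
    Matrix.toLin' (Matrix.of fun i j => J.symm (x j) i) with hA
  set S : (Fin b → ℝ) →ₗ[ℝ] Z :=
    (∑ j, (LinearMap.proj j : (Fin b → ℝ) →ₗ[ℝ] ℝ).smulRight (G.symm (Bj j z)).2) with hS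
  have hAa : ∀ κ : Fin b → ℝ, A κ = J.symm (∑ j, κ j • x j) := by
    intro κ
    rw [map_sum]
    ext i
    simp only [hA, Matrix.toLin'_apply, Matrix.mulVec, dotProduct, Matrix.of_apply, map_smul,
      Finset.sum_apply, Pi.smul_apply, smul_eq_mul]
    exact Finset.sum_congr rfl fun j _ => mul_comm _ _
  have hSa : ∀ κ : Fin b → ℝ, S κ = ∑ j, κ j • (G.symm (Bj j z)).2 := by
    intro κ
    simp [hS]
  have e1 : ((e : Y →L[ℝ] (Fin b → ℝ) × Z) ∘L tot V.toContinuousLinearMap Bj z :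
          ((Fin b → ℝ) × Z) →ₗ[ℝ] (Fin b → ℝ) × Z) =
      (egj J e G : ((Fin b → ℝ) × Z) →ₗ[ℝ] ((Fin b → ℝ) × Z)) *
        ((A.prodMap LinearMap.id) * uni S) := by
    refine LinearMap.ext fun p => ?_
    rw [Module.End.mul_apply, Module.End.mul_apply, uni_apply, LinearMap.prodMap_apply]
    change e (tot V.toContinuousLinearMap Bj z p) = e (G (J (A p.1), p.2 + S p.1))
    congr 1
    rw [tot_apply, hAa, J.apply_symm_apply, hSa]
    have h1 : ((∑ j, p.1 j • x j, p.2 + ∑ j, p.1 j • (G.symm (Bj j z)).2) : (Fin M → ℂ) × Z) =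
        ∑ j, (p.1 j : ℂ) • (G.symm (Bj j z)) + (0, p.2) := by
      ext i
      · simp [Prod.fst_sum, hx]
      · simp [Prod.snd_sum]
        rw [add_comm]
    rw [h1, map_add, map_sum, hG.map]
    congr 1
    refine Finset.sum_congr rfl fun j _ => ?_
    rw [map_smul, G.apply_symm_apply]
    simp
  rw [e1, map_mul, map_mul, det_uni, LinearMap.det_prodMap, LinearMap.det_id, hA,
    LinearMap.det_toLin']
  ring

end

end Crest.Agent.R235.FamGaussC_355
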