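import Crest.Agent.R235.FamGaussC_355

/-!
# Row 235, package FAM, block B (GAUSS), part 4 (helper355): `GAUSS2` and `GAUSS4`
-/

set_option autoImplicit false
set_option maxSynthPendingDepth 3

open MeasureTheory Matrix Complex Module
open scoped ComplexConjugate InnerProductSpace

namespace Crest.Agent.R235.FamGaussD_355

open FamGaussA_355 FamGaussB_355 FamGaussC_355 FamDefs_307

noncomputable section

/-! ### the identities for `ℂ` and `ℂ²` -/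

/-- `ℝ² = ℂ`. -/
def J2 : (Fin 2 → ℝ) ≃ₗ[ℝ] (Fin 1 → ℂ) where
  toFun κ := ![⟨κ 0, κ 1⟩]
  invFun a := ![(a 0).re, (a 0).im]
  map_add' κ κ' := by
    ext i
    fin_cases i
    simp [Complex.ext_iff]
  map_smul' s κ := by
    ext i
    fin_cases i
    simp [Complex.ext_iff]
  left_inv κ := by
    ext i
    fin_cases i <;> simp
  right_inv a := by
    ext i
    fin_cases i
    simp

/-- `ℝ⁴ = ℂ²`. -/
def J4 : (Fin 4 → ℝ) ≃ₗ[ℝ] (Fin 2 → ℂ) where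
  toFun κ := ![⟨κ 0, κ 1⟩, ⟨κ 2, κ 3⟩]
  invFun a := ![(a 0).re, (a 0).im, (a 1).re, (a 1).im]
  map_add' κ κ' := by
    ext i
    fin_cases i <;> simp [Complex.ext_iff]
  map_smul' s κ := by
    ext i
    fin_cases i <;> simp [Complex.ext_iff]
  left_inv κ := by
    ext i
    fin_cases i <;> simp
  right_inv a := by
    ext i
    fin_cases i <;> simp

lemma J2_symm (a : Fin 1 → ℂ) : J2.symm a = ![(a 0).re, (a 0).im] := rfl

lemma J4_symm (a : Fin 2 → ℂ) : J4.symm a = ![(a 0).re, (a 0).im, (a 1).re, (a 1).im] := rfl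

lemma sum2 (x : Fin 2 → Fin 1 → ℂ) :
    ((Matrix.det (Matrix.of fun i j => J2.symm (x j) i) : ℝ) : ℂ) =
      -(I / 2) * ∑ σ : Equiv.Perm (Fin 2), sg σ * ∑ a, conj (x (σ 0) a) * x (σ 1) a := by
  have h1 : ∑ σ : Equiv.Perm (Fin 2), sg σ * ∑ a, conj (x (σ 0) a) * x (σ 1) a =
      Matrix.det (Matrix.of fun i (k : Fin 2) => ![conj (x i 0), x i 0] k) := by
    rw [Matrix.det_apply']
    refine Finset.sum_congr rfl fun σ _ => ?_
    simp [sg, Fin.prod_univ_two]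
  rw [h1, Matrix.det_fin_two, Matrix.det_fin_two]
  simp only [J2_symm]
  apply Complex.ext <;> simp <;> ring

/-- the change of basis `(re, im) → (conj, id)`. -/
def T4 : Matrix (Fin 4) (Fin 4) ℂ :=
  !![1, 1, 0, 0; -I, I, 0, 0; 0, 0, 1, 1; 0, 0, -I, I]

lemma det_T4 : T4.det = -4 := by
  unfold T4
  simp [Matrix.det_succ_row_zero, Fin.sum_univ_succ, Fin.succAbove]
  ring_nf
  simp

lemma det4 (x : Fin 4 → Fin 2 → ℂ) :
    Matrix.det (Matrix.of fun i (k : Fin 4) => ![conj (x i 0), x i 0, conj (x i 1), x i 1] k) =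
      -4 * ((Matrix.det (Matrix.of fun i j => J4.symm (x j) i) : ℝ) : ℂ) := by
  have h : (Matrix.of fun i (k : Fin 4) => ![conj (x i 0), x i 0, conj (x i 1), x i 1] k) =
      ((Matrix.of fun i j => J4.symm (x j) i).map (algebraMap ℝ ℂ))ᵀ * T4 := by
    ext i k
    rw [Matrix.mul_apply, Fin.sum_univ_four]
    fin_cases k <;> simp [T4, J4_symm] <;> apply Complex.ext <;> simp
  rw [h, Matrix.det_mul, Matrix.det_transpose, det_T4, ← RingHom.mapMatrix_apply, ← RingHom.map_det]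
  simp only [Complex.coe_algebraMap]
  ring

lemma sum4 (x : Fin 4 → Fin 2 → ℂ) :
    ((Matrix.det (Matrix.of fun i j => J4.symm (x j) i) : ℝ) : ℂ) =
      -(1 / 8) * ∑ σ : Equiv.Perm (Fin 4), sg σ * ((∑ a, conj (x (σ 0) a) * x (σ 1) a) *
        (∑ a, conj (x (σ 2) a) * x (σ 3) a)) := by
  have h0 : ∀ a c : Fin 2, ∑ σ : Equiv.Perm (Fin 4), sg σ * ((conj (x (σ 0) a) * x (σ 1) a) *
        (conj (x (σ 2) c) * x (σ 3) c)) =
      Matrix.det (Matrix.of fun i (k : Fin 4) => ![conj (x i a), x i a, conj (x i c), x i c] k) := by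
    intro a c
    rw [Matrix.det_apply']
    refine Finset.sum_congr rfl fun σ _ => ?_
    simp [sg, Fin.prod_univ_four]
    ring
  have h1 : ∀ a : Fin 2,
      Matrix.det (Matrix.of fun i (k : Fin 4) => ![conj (x i a), x i a, conj (x i a), x i a] k) = 0 := by
    intro a
    refine Matrix.det_zero_of_column_eq (i := 0) (j := 2) (by decide) fun k => ?_
    simp
  have h2 : Matrix.det (Matrix.of fun i (k : Fin 4) => ![conj (x i 1), x i 1, conj (x i 0), x i 0] k) =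
      Matrix.det (Matrix.of fun i (k : Fin 4) => ![conj (x i 0), x i 0, conj (x i 1), x i 1] k) := by
    rw [← h0, ← h0]
    -- reindex by the double transposition
    refine Fintype.sum_equiv (Equiv.mulRight (Equiv.swap (0 : Fin 4) 2 * Equiv.swap 1 3)) _ _
      fun σ => ?_
    have s1 : sg (σ * (Equiv.swap (0 : Fin 4) 2 * Equiv.swap 1 3)) = sg σ := by
      unfold sg
      rw [Equiv.Perm.sign_mul, Equiv.Perm.sign_mul, Equiv.Perm.sign_swap (by decide),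
        Equiv.Perm.sign_swap (by decide)]
      simp
    rw [Equiv.coe_mulRight, s1]
    have t0 : (Equiv.swap (0 : Fin 4) 2 * Equiv.swap 1 3 : Equiv.Perm (Fin 4)) 0 = 2 := by decide
    have t1 : (Equiv.swap (0 : Fin 4) 2 * Equiv.swap 1 3 : Equiv.Perm (Fin 4)) 1 = 3 := by decide
    have t2 : (Equiv.swap (0 : Fin 4) 2 * Equiv.swap 1 3 : Equiv.Perm (Fin 4)) 2 = 0 := by decide
    have t3 : (Equiv.swap (0 : Fin 4) 2 * Equiv.swap 1 3 : Equiv.Perm (Fin 4)) 3 = 1 := by decide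
    rw [Equiv.Perm.mul_apply σ, Equiv.Perm.mul_apply σ, Equiv.Perm.mul_apply σ,
      Equiv.Perm.mul_apply σ, t0, t1, t2, t3]
    ring
  have h3 : ∑ σ : Equiv.Perm (Fin 4), sg σ * ((∑ a, conj (x (σ 0) a) * x (σ 1) a) *
        (∑ a, conj (x (σ 2) a) * x (σ 3) a)) =
      ∑ a, ∑ c, ∑ σ : Equiv.Perm (Fin 4), sg σ * ((conj (x (σ 0) a) * x (σ 1) a) *
        (conj (x (σ 2) c) * x (σ 3) c)) := by
    simp only [Fin.sum_univ_two, ← Finset.sum_add_distrib]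
    refine Finset.sum_congr rfl fun σ _ => ?_
    ring
  rw [h3]
  simp only [h0, Fin.sum_univ_two, h1, h2, det4]
  ring

/-! ### the integrals -/

section main

variable {Z : Type} [NormedAddCommGroup Z] [InnerProductSpace ℂ Z] [FiniteDimensional ℂ Z]
variable {Y : Type} [NormedAddCommGroup Y] [InnerProductSpace ℂ Y] [FiniteDimensional ℂ Y]

lemma exists_iso (B : Z →L[ℂ] Y) (hB : Function.Injective B) :
    ∃ (V : Z →ₗᵢ[ℂ] Y) (g : Z ≃ₗ[ℂ] Z), ∀ y, B (g y) = V y := by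
  set R := LinearMap.range (B : Z →ₗ[ℂ] Y) with hR
  have h1 : finrank ℂ R = finrank ℂ Z :=
    LinearMap.finrank_range_of_inj (f := (B : Z →ₗ[ℂ] Y)) hB
  set V' : Z ≃ₗᵢ[ℂ] R := (stdOrthonormalBasis ℂ Z).equiv (stdOrthonormalBasis ℂ R)
    (finCongr h1.symm) with hV'
  set Bi : Z ≃ₗ[ℂ] R := LinearEquiv.ofInjective (B : Z →ₗ[ℂ] Y) hB with hBi
  refine ⟨R.subtypeₗᵢ.comp V'.toLinearIsometry, V'.toLinearEquiv.trans Bi.symm, fun y => ?_⟩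
  have h2 : ((Bi (Bi.symm (V' y)) : R) : Y) = B (Bi.symm (V' y)) := rfl
  rw [Bi.apply_symm_apply] at h2
  exact h2.symm

/-- `C_ij = g* B_i* (1 - V V*) B_j g`. -/
def Cij (V : Z →ₗᵢ[ℂ] Y) (g : Z →L[ℂ] Z) (Bi Bj : Z →L[ℂ] Y) : Z →L[ℂ] Z :=
  g.adjoint ∘L Bi.adjoint ∘L (Bj - V.toContinuousLinearMap ∘L V.toContinuousLinearMap.adjoint ∘L Bj)
    ∘L g

lemma inner_Cij (V : Z →ₗᵢ[ℂ] Y) (g : Z →L[ℂ] Z) (Bi Bj : Z →L[ℂ] Y) (y : Z) :
    ⟪y, Cij V g Bi Bj y⟫_ℂ = ⟪Bi (g y), Bj (g y) -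
      V.toContinuousLinearMap (V.toContinuousLinearMap.adjoint (Bj (g y)))⟫_ℂ := by
  unfold Cij
  simp only [ContinuousLinearMap.comp_apply, ContinuousLinearMap.adjoint_inner_right,
    _root_.sub_apply]

lemma inverse_eq (B : Z →L[ℂ] Y) (V : Z →ₗᵢ[ℂ] Y) (g : Z ≃L[ℂ] Z) (h : ∀ y, B (g y) = V y) :
    Ring.inverse (B.adjoint ∘L B) = (g : Z →L[ℂ] Z) ∘L (g : Z →L[ℂ] Z).adjoint := by
  set gc : Z →L[ℂ] Z := (g : Z →L[ℂ] Z) with hgc
  set hc : Z →L[ℂ] Z := (g.symm : Z →L[ℂ] Z) with hhc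
  have g1 : gc ∘L hc = ContinuousLinearMap.id ℂ Z := g.coe_comp_coe_symm
  have g2 : hc ∘L gc = ContinuousLinearMap.id ℂ Z := g.coe_symm_comp_coe
  have g3 : hc.adjoint ∘L gc.adjoint = ContinuousLinearMap.id ℂ Z := by
    rw [← ContinuousLinearMap.adjoint_comp, g1, ContinuousLinearMap.adjoint_id]
  have g4 : gc.adjoint ∘L hc.adjoint = ContinuousLinearMap.id ℂ Z := by
    rw [← ContinuousLinearMap.adjoint_comp, g2, ContinuousLinearMap.adjoint_id]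
  have hV : V.toContinuousLinearMap.adjoint ∘L V.toContinuousLinearMap =
      ContinuousLinearMap.id ℂ Z :=
    (ContinuousLinearMap.norm_map_iff_adjoint_comp_self _).1 V.norm_map
  have hBV : B = V.toContinuousLinearMap ∘L hc := by
    refine ContinuousLinearMap.ext fun z => ?_
    have := h (g.symm z)
    rw [g.apply_symm_apply] at this
    exact this
  have hBB : B.adjoint ∘L B = hc.adjoint ∘L hc := by
    rw [hBV, ContinuousLinearMap.adjoint_comp]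
    calc (hc.adjoint ∘L V.toContinuousLinearMap.adjoint) ∘L V.toContinuousLinearMap ∘L hc
        = hc.adjoint ∘L (V.toContinuousLinearMap.adjoint ∘L V.toContinuousLinearMap) ∘L hc := rfl
      _ = _ := by rw [hV]; rfl
  have k1 : (B.adjoint ∘L B) * (gc ∘L gc.adjoint) = 1 := by
    rw [hBB]
    calc (hc.adjoint ∘L hc) * (gc ∘L gc.adjoint)
        = hc.adjoint ∘L (hc ∘L gc) ∘L gc.adjoint := rfl
      _ = hc.adjoint ∘L gc.adjoint := by rw [g2]; rfl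
      _ = 1 := g3
  have k2 : (gc ∘L gc.adjoint) * (B.adjoint ∘L B) = 1 := by
    rw [hBB]
    calc (gc ∘L gc.adjoint) * (hc.adjoint ∘L hc)
        = gc ∘L (gc.adjoint ∘L hc.adjoint) ∘L hc := rfl
      _ = gc ∘L hc := by rw [g4]; rfl
      _ = 1 := g1
  exact Ring.inverse_unit (⟨B.adjoint ∘L B, gc ∘L gc.adjoint, k1, k2⟩ : (Z →L[ℂ] Z)ˣ)

lemma Xij_eq (B : Z →L[ℂ] Y) (V : Z →ₗᵢ[ℂ] Y) (g : Z ≃L[ℂ] Z) (h : ∀ y, B (g y) = V y)
    (Bi Bj : Z →L[ℂ] Y) :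
    Xij B Bi Bj = (g : Z →L[ℂ] Z) ∘L (g : Z →L[ℂ] Z).adjoint ∘L Bi.adjoint ∘L
      (Bj - V.toContinuousLinearMap ∘L V.toContinuousLinearMap.adjoint ∘L Bj) := by
  have hV : V.toContinuousLinearMap = B ∘L (g : Z →L[ℂ] Z) := by
    refine ContinuousLinearMap.ext fun z => ?_
    exact (h z).symm
  have h1 : Xij B Bi Bj = Ring.inverse (B.adjoint ∘L B) ∘L Bi.adjoint ∘L
      (Bj - B ∘L Ring.inverse (B.adjoint ∘L B) ∘L B.adjoint ∘L Bj) := rfl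
  rw [h1, inverse_eq B V g h, hV, ContinuousLinearMap.adjoint_comp]
  rfl

lemma trace_Cij (B : Z →L[ℂ] Y) (V : Z →ₗᵢ[ℂ] Y) (g : Z ≃L[ℂ] Z) (h : ∀ y, B (g y) = V y)
    (Bi Bj : Z →L[ℂ] Y) :
    LinearMap.trace ℂ Z (Cij V g Bi Bj : Z →ₗ[ℂ] Z) = tr (Xij B Bi Bj) := by
  unfold tr
  rw [Xij_eq B V g h]
  set A : Z →L[ℂ] Z := (g : Z →L[ℂ] Z).adjoint ∘L Bi.adjoint ∘L
      (Bj - V.toContinuousLinearMap ∘L V.toContinuousLinearMap.adjoint ∘L Bj) with hA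
  exact LinearMap.trace_mul_comm ℂ (A : Z →ₗ[ℂ] Z) ((g : Z →L[ℂ] Z) : Z →ₗ[ℂ] Z)

lemma trace_Cij2 (B : Z →L[ℂ] Y) (V : Z →ₗᵢ[ℂ] Y) (g : Z ≃L[ℂ] Z) (h : ∀ y, B (g y) = V y)
    (Bi Bj Bk Bl : Z →L[ℂ] Y) :
    LinearMap.trace ℂ Z ((Cij V g Bi Bj : Z →ₗ[ℂ] Z) ∘ₗ (Cij V g Bk Bl : Z →ₗ[ℂ] Z)) =
      tr (Xij B Bi Bj ∘L Xij B Bk Bl) := by
  unfold tr
  rw [Xij_eq B V g h, Xij_eq B V g h]
  set A : Z →L[ℂ] Z := (g : Z →L[ℂ] Z).adjoint ∘L Bi.adjoint ∘L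
      (Bj - V.toContinuousLinearMap ∘L V.toContinuousLinearMap.adjoint ∘L Bj) with hA
  set A' : Z →L[ℂ] Z := (g : Z →L[ℂ] Z).adjoint ∘L Bk.adjoint ∘L
      (Bl - V.toContinuousLinearMap ∘L V.toContinuousLinearMap.adjoint ∘L Bl) with hA'
  exact LinearMap.trace_mul_comm ℂ (((A ∘L (g : Z →L[ℂ] Z) ∘L A' : Z →L[ℂ] Z)) : Z →ₗ[ℂ] Z)
    ((g : Z →L[ℂ] Z) : Z →ₗ[ℂ] Z)

variable [MeasurableSpace Z] [BorelSpace Z] {b M : ℕ}

/-- the integrand after the change of variables. -/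
theorem core (μ : Measure Z) [μ.IsAddHaarMeasure] (J : (Fin b → ℝ) ≃ₗ[ℝ] (Fin M → ℂ))
    (e : Y ≃L[ℝ] (Fin b → ℝ) × Z) (B : Z →L[ℂ] Y) (Bj : Fin b → Z →L[ℂ] Y)
    (V : Z →ₗᵢ[ℂ] Y) (g : Z ≃ₗ[ℂ] Z) (h : ∀ y, B (g y) = V y)
    {G : ((Fin M → ℂ) × Z) ≃ₗ[ℂ] Y} (hG : Adapted M V G) (I0 : ℂ)
    (hint : Integrable (fun y : Z =>
      ((Matrix.det (Matrix.of fun i j => J.symm ((G.symm (Bj j (g y))).1) i) : ℝ) : ℂ) *
        (Real.exp (-‖y‖ ^ 2) : ℂ)) μ)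
    (hI : ∫ y : Z, ((Matrix.det (Matrix.of fun i j => J.symm ((G.symm (Bj j (g y))).1) i) : ℝ) : ℂ) *
        (Real.exp (-‖y‖ ^ 2) : ℂ) ∂μ = I0) :
    Integrable (fun z => Real.exp (-‖B z‖ ^ 2) *
        LinearMap.det ((e : Y →L[ℝ] (Fin b → ℝ) × Z) ∘L tot B Bj z :
          ((Fin b → ℝ) × Z) →ₗ[ℝ] (Fin b → ℝ) × Z)) μ ∧
      ((∫ z, Real.exp (-‖B z‖ ^ 2) *
        LinearMap.det ((e : Y →L[ℝ] (Fin b → ℝ) × Z) ∘L tot B Bj z :
          ((Fin b → ℝ) × Z) →ₗ[ℝ] (Fin b → ℝ) × Z) ∂μ : ℝ) : ℂ) =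
      ((LinearMap.det (egj J e G : ((Fin b → ℝ) × Z) →ₗ[ℝ] ((Fin b → ℝ) × Z)) : ℝ) : ℂ) * I0 := by
  set Dl : Z → ℝ := fun y => Matrix.det (Matrix.of fun i j => J.symm ((G.symm (Bj j (g y))).1) i)
    with hDl
  set ce := LinearMap.det (egj J e G : ((Fin b → ℝ) × Z) →ₗ[ℝ] ((Fin b → ℝ) × Z)) with hce
  set dg := LinearMap.det ((g : Z →ₗ[ℂ] Z).restrictScalars ℝ) with hdg
  have hdgpos : 0 < dg := det_pos g
  set gr : Z ≃ₗ[ℝ] Z := g.restrictScalars ℝ with hgr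
  have hdgr : LinearMap.det (gr : Z →ₗ[ℝ] Z) = dg := rfl
  set F : Z → ℝ := fun z => Real.exp (-‖B z‖ ^ 2) *
        LinearMap.det ((e : Y →L[ℝ] (Fin b → ℝ) × Z) ∘L tot B Bj z :
          ((Fin b → ℝ) × Z) →ₗ[ℝ] (Fin b → ℝ) × Z) with hF
  have hdet : ∀ z, LinearMap.det ((e : Y →L[ℝ] (Fin b → ℝ) × Z) ∘L tot B Bj z :
          ((Fin b → ℝ) × Z) →ₗ[ℝ] (Fin b → ℝ) × Z) * dg =
      ce * Matrix.det (Matrix.of fun i j => J.symm ((G.symm (Bj j z)).1) i) := by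
    intro z
    rw [← det_tot J e hG Bj z]
    have e1 : ((e : Y →L[ℝ] (Fin b → ℝ) × Z) ∘L tot V.toContinuousLinearMap Bj z :
          ((Fin b → ℝ) × Z) →ₗ[ℝ] (Fin b → ℝ) × Z) =
        ((e : Y →L[ℝ] (Fin b → ℝ) × Z) ∘L tot B Bj z :
          ((Fin b → ℝ) × Z) →ₗ[ℝ] (Fin b → ℝ) × Z) * (LinearMap.id.prodMap (gr : Z →ₗ[ℝ] Z)) := by
      refine LinearMap.ext fun p => ?_
      rw [Module.End.mul_apply, LinearMap.prodMap_apply]
      change e (tot V.toContinuousLinearMap Bj z p) = e (tot B Bj z (p.1, g p.2))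
      rw [tot_apply, tot_apply]
      congr 2
      exact (h p.2).symm
    rw [e1, map_mul, LinearMap.det_prodMap, LinearMap.det_id, hdgr, one_mul]
  have hFg : ∀ y, F (g y) = (ce / dg) * (Dl y * Real.exp (-‖y‖ ^ 2)) := by
    intro y
    have h1 : ‖B (g y)‖ = ‖y‖ := by rw [h, V.norm_map]
    have h2 := hdet (g y)
    simp only [hF, h1]
    have h3 : LinearMap.det ((e : Y →L[ℝ] (Fin b → ℝ) × Z) ∘L tot B Bj (g y) :
          ((Fin b → ℝ) × Z) →ₗ[ℝ] (Fin b → ℝ) × Z) = ce / dg * Dl y := by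
      rw [eq_comm, div_mul_eq_mul_div, div_eq_iff hdgpos.ne', ← h2]
    rw [h3]
    ring
  have hcast : (fun y : Z => ((Dl y : ℝ) : ℂ) * (Real.exp (-‖y‖ ^ 2) : ℂ)) =
      fun y => ((Dl y * Real.exp (-‖y‖ ^ 2) : ℝ) : ℂ) := by
    funext y
    push_cast
    rfl
  have hr : Integrable (fun y : Z => Dl y * Real.exp (-‖y‖ ^ 2)) μ := by
    have h4 : Integrable (fun y : Z => ((Dl y * Real.exp (-‖y‖ ^ 2) : ℝ) : ℂ)) μ := by
      rw [← hcast]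
      exact hint
    exact h4.re
  have hI2 : ((∫ y : Z, Dl y * Real.exp (-‖y‖ ^ 2) ∂μ : ℝ) : ℂ) = I0 := by
    rw [← hI, ← integral_complex_ofReal]
    exact congrArg (fun f : Z → ℂ => ∫ y, f y ∂μ) hcast.symm
  have hFgi : Integrable (fun y => F (gr y)) μ := by
    have : (fun y => F (gr y)) = fun y => (ce / dg) * (Dl y * Real.exp (-‖y‖ ^ 2)) := funext hFg
    rw [this]
    exact hr.const_mul _
  obtain ⟨k1, k2⟩ := integral_comp_lin μ gr F hFgi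
  refine ⟨k1, ?_⟩
  rw [k2, hdgr, abs_of_pos hdgpos]
  have h6 : ∫ y, F (gr y) ∂μ = (ce / dg) * ∫ y : Z, Dl y * Real.exp (-‖y‖ ^ 2) ∂μ := by
    rw [← integral_const_mul]
    exact congrArg (fun f : Z → ℝ => ∫ y, f y ∂μ) (funext hFg)
  rw [h6, ← hI2]
  push_cast
  have : (dg : ℂ) ≠ 0 := by exact_mod_cast hdgpos.ne'
  field_simp

lemma egj_ne (J : (Fin b → ℝ) ≃ₗ[ℝ] (Fin M → ℂ)) (e : Y ≃L[ℝ] (Fin b → ℝ) × Z)
    (G : ((Fin M → ℂ) × Z) ≃ₗ[ℂ] Y) :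
    LinearMap.det (egj J e G : ((Fin b → ℝ) × Z) →ₗ[ℝ] ((Fin b → ℝ) × Z)) ≠ 0 :=
  (egj J e G).isUnit_det'.ne_zero

end main

theorem gauss2 : GAUSS2 := by
  intro Z Y _ _ _ _ _ _ _ _ μ _ hdim e
  obtain ⟨c, hc, m1, -⟩ := moments (Z := Z) μ
  rcases isEmpty_or_nonempty (Z →ₗᵢ[ℂ] Y) with hempty | ⟨⟨V0⟩⟩
  · exact ⟨1, one_ne_zero, fun B _ hB => (hempty.false (exists_iso B hB).choose).elim⟩
  obtain ⟨G0, hG0⟩ := exists_adapted hdim V0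
  refine ⟨LinearMap.det (egj J2 e G0 : ((Fin 2 → ℝ) × Z) →ₗ[ℝ] ((Fin 2 → ℝ) × Z)) * (-(1 / 2) * c),
    mul_ne_zero (egj_ne J2 e G0) (mul_ne_zero (by norm_num) hc.ne'), fun B Bj hB => ?_⟩
  obtain ⟨V, g, h⟩ := exists_iso B hB
  obtain ⟨G, hG⟩ := exists_adapted hdim V
  set gc : Z ≃L[ℂ] Z := g.toContinuousLinearEquiv with hgc
  have hx : ∀ y i j, ∑ a, conj ((G.symm (Bj i (g y))).1 a) * (G.symm (Bj j (g y))).1 a =
      ⟪y, (Cij V gc (Bj i) (Bj j) : Z →ₗ[ℂ] Z) y⟫_ℂ := by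
    intro y i j
    rw [hG.inner_fst]
    exact (inner_Cij V gc (Bj i) (Bj j) y).symm
  have hD : ∀ y : Z,
      ((Matrix.det (Matrix.of fun i j => J2.symm ((G.symm (Bj j (g y))).1) i) : ℝ) : ℂ) *
        (Real.exp (-‖y‖ ^ 2) : ℂ) =
      ∑ σ : Equiv.Perm (Fin 2), -(I / 2) * sg σ *
        (⟪y, (Cij V gc (Bj (σ 0)) (Bj (σ 1)) : Z →ₗ[ℂ] Z) y⟫_ℂ * (Real.exp (-‖y‖ ^ 2) : ℂ)) := by
    intro y
    rw [sum2, Finset.mul_sum, Finset.sum_mul]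
    refine Finset.sum_congr rfl fun σ _ => ?_
    rw [hx]
    ring
  obtain ⟨k1, k2⟩ := core μ J2 e B Bj V g h hG _ (by
    simp_rw [hD]
    exact integrable_finsetSum _ fun σ _ => ((m1 _).1.const_mul _)) rfl
  refine ⟨k1, ?_⟩
  rw [k2]
  simp_rw [hD]
  rw [integral_finsetSum _ fun σ _ => ((m1 _).1.const_mul _)]
  simp_rw [integral_const_mul, (m1 _).2, trace_Cij B V gc h]
  rw [det_const J2 e hG hG0]
  push_cast
  rw [Finset.mul_sum, Finset.mul_sum, Finset.mul_sum]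
  refine Finset.sum_congr rfl fun σ _ => ?_
  ring

theorem gauss4 : GAUSS4 := by
  intro Z Y _ _ _ _ _ _ _ _ μ _ hdim e
  obtain ⟨c, hc, -, m2⟩ := moments (Z := Z) μ
  rcases isEmpty_or_nonempty (Z →ₗᵢ[ℂ] Y) with hempty | ⟨⟨V0⟩⟩
  · exact ⟨1, one_ne_zero, fun B _ hB => (hempty.false (exists_iso B hB).choose).elim⟩
  obtain ⟨G0, hG0⟩ := exists_adapted hdim V0
  refine ⟨LinearMap.det (egj J4 e G0 : ((Fin 4 → ℝ) × Z) →ₗ[ℝ] ((Fin 4 → ℝ) × Z)) * (-(1 / 8) * c),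
    mul_ne_zero (egj_ne J4 e G0) (mul_ne_zero (by norm_num) hc.ne'), fun B Bj hB => ?_⟩
  obtain ⟨V, g, h⟩ := exists_iso B hB
  obtain ⟨G, hG⟩ := exists_adapted hdim V
  set gc : Z ≃L[ℂ] Z := g.toContinuousLinearEquiv with hgc
  have hx : ∀ y i j, ∑ a, conj ((G.symm (Bj i (g y))).1 a) * (G.symm (Bj j (g y))).1 a =
      ⟪y, (Cij V gc (Bj i) (Bj j) : Z →ₗ[ℂ] Z) y⟫_ℂ := by
    intro y i j
    rw [hG.inner_fst]
    exact (inner_Cij V gc (Bj i) (Bj j) y).symm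
  have hD : ∀ y : Z,
      ((Matrix.det (Matrix.of fun i j => J4.symm ((G.symm (Bj j (g y))).1) i) : ℝ) : ℂ) *
        (Real.exp (-‖y‖ ^ 2) : ℂ) =
      ∑ σ : Equiv.Perm (Fin 4), -(1 / 8) * sg σ *
        (⟪y, (Cij V gc (Bj (σ 0)) (Bj (σ 1)) : Z →ₗ[ℂ] Z) y⟫_ℂ *
          ⟪y, (Cij V gc (Bj (σ 2)) (Bj (σ 3)) : Z →ₗ[ℂ] Z) y⟫_ℂ * (Real.exp (-‖y‖ ^ 2) : ℂ)) := by
    intro y
    rw [sum4, Finset.mul_sum, Finset.sum_mul]
    refine Finset.sum_congr rfl fun σ _ => ?_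
    rw [hx, hx]
    ring
  obtain ⟨k1, k2⟩ := core μ J4 e B Bj V g h hG _ (by
    simp_rw [hD]
    exact integrable_finsetSum _ fun σ _ => ((m2 _ _).1.const_mul _)) rfl
  refine ⟨k1, ?_⟩
  rw [k2]
  simp_rw [hD]
  rw [integral_finsetSum _ fun σ _ => ((m2 _ _).1.const_mul _)]
  simp_rw [integral_const_mul, (m2 _ _).2, trace_Cij B V gc h, trace_Cij2 B V gc h]
  rw [det_const J4 e hG hG0]
  push_cast
  rw [Finset.mul_sum, Finset.mul_sum]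
  refine Finset.sum_congr rfl fun σ _ => ?_
  ring

end

end Crest.Agent.R235.FamGaussD_355
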