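import Crest.Agent.R235.FamDefs_307

/-!
Row 235 (S0364), PACKAGE FAM: the Gaussian integrals `GAUSS2`, `GAUSS4` of `FamDefs_307`
(task 420, helper895).

* `gaussZ`   : second and fourth moments of the complex Gaussian on a finite dimensional Hilbert space
* `exists_gu`: `B g = u w` with `u` unitary, `w` a fixed isometry, `g` invertible
* `Xij_eq`   : `X_ij = g C_i^* C_j g⁻¹`
* `det_tot`  : the real determinant is a constant times the determinant of the vectors `C_j y`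
-/

set_option autoImplicit false
set_option maxSynthPendingDepth 3

open Set Filter Module MeasureTheory Function
open scoped ContDiff Topology InnerProductSpace ComplexConjugate

namespace Crest.Agent.R235.FamGauss_895

open Crest.Agent.R235.FamDefs_307

noncomputable section

/-! ### moments of the complex Gaussian -/

/-- Gaussian weight times a monomial. -/
def gf (p q : ℕ) (z : ℂ) : ℂ := (Real.exp (-‖z‖ ^ 2) : ℂ) * (conj z) ^ p * z ^ q

theorem int_pow (n : ℕ) :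
    ∫ z : ℂ, ‖z‖ ^ n * Real.exp (-‖z‖ ^ 2) = Real.pi * Real.Gamma (((n : ℝ) + 2) / 2) := by
  have h := Complex.integral_rpow_mul_exp_neg_rpow (p := 2) (q := n) (by norm_num)
    (by have : (0 : ℝ) ≤ n := Nat.cast_nonneg n
        linarith)
  have h2 : ∀ x : ℝ, x ^ (2 : ℝ) = x ^ 2 := fun x => by
    rw [← Real.rpow_natCast]; norm_num
  simp only [Real.rpow_natCast, h2] at h
  rw [h]
  ring

theorem integrable_pow (n : ℕ) : Integrable (fun z : ℂ => ‖z‖ ^ n * Real.exp (-‖z‖ ^ 2)) := by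
  by_contra h
  have h1 := int_pow n
  rw [integral_undef h] at h1
  have h2 : 0 < Real.Gamma (((n : ℝ) + 2) / 2) := Real.Gamma_pos_of_pos (by positivity)
  have h3 := mul_pos Real.pi_pos h2
  linarith

theorem gf_cont (p q : ℕ) : Continuous (gf p q) := by
  unfold gf
  have h1 : Continuous fun z : ℂ => (conj z : ℂ) := Complex.continuous_conj
  fun_prop

theorem gf_norm (p q : ℕ) (z : ℂ) : ‖gf p q z‖ = ‖z‖ ^ (p + q) * Real.exp (-‖z‖ ^ 2) := by
  unfold gf
  rw [norm_mul, norm_mul, norm_pow, norm_pow, RCLike.norm_conj, Complex.norm_real,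
    Real.norm_of_nonneg (Real.exp_pos _).le]
  ring

theorem gf_int (p q : ℕ) : Integrable (gf p q) := by
  refine (integrable_pow (p + q)).mono' (gf_cont p q).aestronglyMeasurable ?_
  exact Eventually.of_forall fun z => (gf_norm p q z).le

theorem gf_rot (p q : ℕ) (z : ℂ) :
    gf p q (Complex.I * z) = (-Complex.I) ^ p * Complex.I ^ q * gf p q z := by
  unfold gf
  rw [norm_mul, Complex.norm_I, one_mul, map_mul, Complex.conj_I, mul_pow, mul_pow]
  ring

theorem gf_rot_int (p q : ℕ) :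
    ∫ z, gf p q z = (-Complex.I) ^ p * Complex.I ^ q * ∫ z, gf p q z := by
  let ρ : ℂ ≃ₗᵢ[ℝ] ℂ := rotation ⟨Complex.I, by simp [Submonoid.unitSphere, Complex.norm_I]⟩
  have h1 : ∫ z, gf p q (ρ z) = ∫ z, gf p q z :=
    ρ.measurePreserving.integral_comp ρ.toHomeomorph.measurableEmbedding _
  have h2 : ∀ z, ρ z = Complex.I * z := fun z => rfl
  have h3 : ∫ z, gf p q (ρ z) = (-Complex.I) ^ p * Complex.I ^ q * ∫ z, gf p q z := by
    simp only [h2, gf_rot]
    exact integral_const_mul _ _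
  exact h1.symm.trans h3

theorem gf_zero {p q : ℕ} (hp : p ≤ 2) (hq : q ≤ 2) (h : p ≠ q) : ∫ z, gf p q z = 0 := by
  have h1 := gf_rot_int p q
  have h2 : (1 - (-Complex.I) ^ p * Complex.I ^ q) * ∫ z, gf p q z = 0 := by
    rw [sub_mul, one_mul, ← h1, sub_self]
  rcases mul_eq_zero.1 h2 with h3 | h3
  · exfalso
    interval_cases p <;> interval_cases q <;> simp [Complex.ext_iff] at h h3
  · exact h3

theorem gf_diag (p : ℕ) : ∫ z, gf p p z = (Real.pi : ℂ) * (p.factorial : ℂ) := by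
  have h1 : ∀ z, gf p p z = ((‖z‖ ^ (2 * p) * Real.exp (-‖z‖ ^ 2) : ℝ) : ℂ) := by
    intro z
    unfold gf
    rw [mul_assoc, ← mul_pow, Complex.conj_mul', ← pow_mul]
    push_cast
    ring
  simp only [h1]
  rw [integral_complex_ofReal, int_pow]
  have : (((2 * p : ℕ) : ℝ) + 2) / 2 = p + 1 := by push_cast; ring
  rw [this, Real.Gamma_nat_eq_factorial]
  push_cast
  ring


section prod

variable {m : ℕ}

/-- product of one dimensional factors. -/
def gp (p q : Fin m → ℕ) (y : Fin m → ℂ) : ℂ := ∏ i, gf (p i) (q i) (y i)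

theorem gp_int (p q : Fin m → ℕ) : Integrable (gp p q) :=
  Integrable.fintype_prod_dep fun i => gf_int (p i) (q i)

theorem gp_val {p q : Fin m → ℕ} (hp : ∀ i, p i ≤ 2) (hq : ∀ i, q i ≤ 2) :
    ∫ y, gp p q y = if p = q then (Real.pi : ℂ) ^ m * ((∏ i, (p i).factorial : ℕ) : ℂ) else 0 := by
  have h1 : ∫ y, gp p q y = ∏ i, ∫ z, gf (p i) (q i) z :=
    integral_fintype_prod_volume_eq_prod (fun i => gf (p i) (q i))
  rw [h1]
  split_ifs with h
  · subst h
    simp only [gf_diag]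
    rw [Finset.prod_mul_distrib]
    simp
  · obtain ⟨i, hi⟩ := Function.ne_iff.1 h
    exact Finset.prod_eq_zero (Finset.mem_univ i) (gf_zero (hp i) (hq i) hi)

theorem gp_eq (p q : Fin m → ℕ) (y : Fin m → ℂ) :
    gp p q y = (Real.exp (-∑ i, ‖y i‖ ^ 2) : ℂ) * ((∏ i, (conj (y i)) ^ p i) * ∏ i, y i ^ q i) := by
  unfold gp gf
  rw [Finset.prod_mul_distrib, Finset.prod_mul_distrib, ← Finset.sum_neg_distrib, Real.exp_sum]
  push_cast
  ring

theorem prod_single (z : Fin m → ℂ) (a : Fin m) :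
    ∏ i, z i ^ (Pi.single a 1 : Fin m → ℕ) i = z a := by
  rw [Finset.prod_eq_single a]
  · simp
  · intro b _ hb
    simp [hb]
  · simp

theorem prod_single2 (z : Fin m → ℂ) (a c : Fin m) :
    ∏ i, z i ^ (Pi.single a 1 + Pi.single c 1 : Fin m → ℕ) i = z a * z c := by
  simp only [Pi.add_apply, pow_add]
  rw [Finset.prod_mul_distrib, prod_single, prod_single]

theorem gp_one (a b : Fin m) (y : Fin m → ℂ) :
    gp (Pi.single a 1) (Pi.single b 1) y =
      (Real.exp (-∑ i, ‖y i‖ ^ 2) : ℂ) * (conj (y a) * y b) := by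
  rw [gp_eq, prod_single (fun i => conj (y i)), prod_single]

theorem gp_two (a b c d : Fin m) (y : Fin m → ℂ) :
    gp (Pi.single a 1 + Pi.single c 1) (Pi.single b 1 + Pi.single d 1) y =
      (Real.exp (-∑ i, ‖y i‖ ^ 2) : ℂ) * ((conj (y a) * y b) * (conj (y c) * y d)) := by
  rw [gp_eq, prod_single2 (fun i => conj (y i)), prod_single2]
  ring

theorem single_le (a : Fin m) (i : Fin m) : (Pi.single a 1 : Fin m → ℕ) i ≤ 1 := by
  rw [Pi.single_apply]; split_ifs <;> norm_num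

theorem prod_fac (a c : Fin m) :
    ∏ i, ((Pi.single a 1 + Pi.single c 1 : Fin m → ℕ) i).factorial = if a = c then 2 else 1 := by
  split_ifs with h
  · subst h
    rw [Finset.prod_eq_single a]
    · simp
    · intro b _ hb
      simp [hb]
    · simp
  · refine Finset.prod_eq_one fun i _ => ?_
    have : (Pi.single a 1 + Pi.single c 1 : Fin m → ℕ) i ≤ 1 := by
      simp only [Pi.add_apply, Pi.single_apply]
      by_cases h1 : i = a
      · have h2 : i ≠ c := fun h2 => h (h1.symm.trans h2)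
        simp [h1, h]
      · simp [h1]; split_ifs <;> norm_num
    interval_cases (Pi.single a 1 + Pi.single c 1 : Fin m → ℕ) i <;> rfl

theorem pq_iff (a b c d : Fin m) :
    (Pi.single a 1 + Pi.single c 1 : Fin m → ℕ) = Pi.single b 1 + Pi.single d 1 ↔
      (a = b ∧ c = d) ∨ (a = d ∧ c = b) := by
  constructor
  · intro h
    have h1 : ∀ x y : Fin m, (Pi.single x 1 : Fin m → ℕ) = Pi.single y 1 → x = y := by
      intro x y hxy
      have := congrFun hxy x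
      simp only [Pi.single_apply, if_true] at this
      by_contra hne
      simp [hne] at this
    have h2 := congrFun h a
    simp only [Pi.add_apply, Pi.single_apply, if_true] at h2
    by_cases hb : a = b
    · subst hb
      exact Or.inl ⟨rfl, h1 _ _ (add_left_cancel h)⟩
    · by_cases hd : a = d
      · subst hd
        rw [add_comm (Pi.single b 1)] at h
        exact Or.inr ⟨rfl, h1 _ _ (add_left_cancel h)⟩
      · simp [hb, hd] at h2
  · rintro (⟨rfl, rfl⟩ | ⟨rfl, rfl⟩)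
    · rfl
    · exact add_comm _ _

theorem mom1 (a b : Fin m) :
    ∫ y : Fin m → ℂ, (Real.exp (-∑ i, ‖y i‖ ^ 2) : ℂ) * (conj (y a) * y b) =
      (Real.pi : ℂ) ^ m * (if a = b then 1 else 0) := by
  simp only [← gp_one]
  rw [gp_val (fun i => (single_le a i).trans (by norm_num))
    (fun i => (single_le b i).trans (by norm_num))]
  by_cases h : a = b
  · subst h
    simp only [if_true]
    congr 1
    have : ∀ i, ((Pi.single a 1 : Fin m → ℕ) i).factorial = 1 := by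
      intro i
      rw [Pi.single_apply]; split_ifs <;> rfl
    simp [this]
  · rw [if_neg, if_neg h, mul_zero]
    intro h2
    have := congrFun h2 a
    simp only [Pi.single_apply, if_true] at this
    simp [h] at this

theorem mom2 (a b c d : Fin m) :
    ∫ y : Fin m → ℂ, (Real.exp (-∑ i, ‖y i‖ ^ 2) : ℂ) * ((conj (y a) * y b) * (conj (y c) * y d)) =
      (Real.pi : ℂ) ^ m * ((if a = b then 1 else 0) * (if c = d then 1 else 0) +
        (if a = d then 1 else 0) * (if c = b then 1 else 0)) := by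
  simp only [← gp_two]
  rw [gp_val (p := Pi.single a 1 + Pi.single c 1) (q := Pi.single b 1 + Pi.single d 1)
    (fun i => add_le_add (single_le a i) (single_le c i))
    (fun i => add_le_add (single_le b i) (single_le d i))]
  rw [prod_fac]
  simp only [pq_iff]
  by_cases h1 : a = b
  · subst h1
    by_cases h2 : c = d
    · subst h2
      by_cases h3 : a = c
      · subst h3; norm_num
      · have h4 : ¬ c = a := fun h => h3 h.symm
        simp [h3, h4]
    · by_cases h3 : a = d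
      · subst h3
        simp [h2]
      · simp [h2, h3]
  · by_cases h2 : a = d
    · subst h2
      by_cases h3 : c = b
      · subst h3
        simp [h1]
      · simp [h1, h3]
    · simp [h1, h2]

theorem mom1_int (a b : Fin m) :
    Integrable fun y : Fin m → ℂ => (Real.exp (-∑ i, ‖y i‖ ^ 2) : ℂ) * (conj (y a) * y b) := by
  simp only [← gp_one]
  exact gp_int _ _

theorem mom2_int (a b c d : Fin m) :
    Integrable fun y : Fin m → ℂ =>
      (Real.exp (-∑ i, ‖y i‖ ^ 2) : ℂ) * ((conj (y a) * y b) * (conj (y c) * y d)) := by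
  simp only [← gp_two]
  exact gp_int _ _

end prod

section haar

variable {Z : Type} [NormedAddCommGroup Z] [InnerProductSpace ℂ Z]

theorem inner_expand {ι : Type} [Fintype ι] (b : OrthonormalBasis ι ℂ Z) (A : Z →L[ℂ] Z) (y : Z) :
    ⟪y, A y⟫_ℂ = ∑ i, ∑ j, ⟪b i, A (b j)⟫_ℂ * (conj (b.toBasis.equivFun y i) * b.toBasis.equivFun y j) := by
  have hx : ∀ i, b.toBasis.equivFun y i = ⟪b i, y⟫_ℂ := by
    intro i
    rw [Basis.equivFun_apply, b.coe_toBasis_repr_apply, b.repr_apply_apply]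
  have h1 : ∀ i, ⟪b i, A y⟫_ℂ = ∑ j, ⟪b j, y⟫_ℂ * ⟪b i, A (b j)⟫_ℂ := by
    intro i
    conv_lhs => rw [← b.sum_repr' y]
    rw [map_sum, inner_sum]
    refine Finset.sum_congr rfl fun j _ => ?_
    rw [map_smul, inner_smul_right]
  rw [← b.sum_inner_mul_inner y (A y)]
  refine Finset.sum_congr rfl fun i _ => ?_
  rw [h1, Finset.mul_sum]
  refine Finset.sum_congr rfl fun j _ => ?_
  rw [hx, hx, inner_conj_symm]
  ring

theorem norm_expand {ι : Type} [Fintype ι] (b : OrthonormalBasis ι ℂ Z) (y : Z) :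
    ‖y‖ ^ 2 = ∑ i, ‖b.toBasis.equivFun y i‖ ^ 2 := by
  have hx : ∀ i, b.toBasis.equivFun y i = ⟪b i, y⟫_ℂ := by
    intro i
    rw [Basis.equivFun_apply, b.coe_toBasis_repr_apply, b.repr_apply_apply]
  simp only [hx]
  rw [b.sum_sq_norm_inner_right]

theorem tr_expand {ι : Type} [Fintype ι] (b : OrthonormalBasis ι ℂ Z) (A : Z →L[ℂ] Z) :
    tr A = ∑ i, ⟪b i, A (b i)⟫_ℂ := by
  unfold tr
  rw [LinearMap.trace_eq_sum_inner _ b]
  rfl

theorem tr_mul_expand {ι : Type} [Fintype ι] (b : OrthonormalBasis ι ℂ Z) (A A' : Z →L[ℂ] Z) :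
    tr (A ∘L A') = ∑ i, ∑ j, ⟪b i, A (b j)⟫_ℂ * ⟪b j, A' (b i)⟫_ℂ := by
  rw [tr_expand b]
  refine Finset.sum_congr rfl fun i _ => ?_
  have h1 : A' (b i) = ∑ j, ⟪b j, A' (b i)⟫_ℂ • b j := (b.sum_repr' _).symm
  rw [ContinuousLinearMap.comp_apply]
  conv_lhs => rw [h1]
  rw [map_sum, inner_sum]
  refine Finset.sum_congr rfl fun j _ => ?_
  rw [map_smul, inner_smul_right]
  ring

variable [FiniteDimensional ℂ Z] [MeasurableSpace Z] [BorelSpace Z]

/-- the coordinates. -/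
def co {ι : Type} [Fintype ι] (b : OrthonormalBasis ι ℂ Z) : Z ≃L[ℝ] (ι → ℂ) :=
  (b.toBasis.equivFun.restrictScalars ℝ).toContinuousLinearEquiv

theorem gaussZ (μ : Measure Z) [μ.IsAddHaarMeasure] : ∃ c : ℝ, 0 < c ∧
    (∀ A : Z →L[ℂ] Z, Integrable (fun y => (Real.exp (-‖y‖ ^ 2) : ℂ) * ⟪y, A y⟫_ℂ) μ ∧
      ∫ y, (Real.exp (-‖y‖ ^ 2) : ℂ) * ⟪y, A y⟫_ℂ ∂μ = c * tr A) ∧
    ∀ A A' : Z →L[ℂ] Z,
      Integrable (fun y => (Real.exp (-‖y‖ ^ 2) : ℂ) * (⟪y, A y⟫_ℂ * ⟪y, A' y⟫_ℂ)) μ ∧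
      ∫ y, (Real.exp (-‖y‖ ^ 2) : ℂ) * (⟪y, A y⟫_ℂ * ⟪y, A' y⟫_ℂ) ∂μ =
        c * (tr A * tr A' + tr (A ∘L A')) := by
  set m := finrank ℂ Z with hm
  let b : OrthonormalBasis (Fin m) ℂ Z := stdOrthonormalBasis ℂ Z
  let ψ : Z ≃L[ℝ] (Fin m → ℂ) := co b
  have hψ : ∀ y i, ψ y i = b.toBasis.equivFun y i := fun y i => rfl
  have : (μ.map ψ).IsAddHaarMeasure := ψ.isAddHaarMeasure_map μ
  let k := Measure.addHaarScalarFactor (μ.map ψ) (volume : Measure (Fin m → ℂ))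
  have hkp : 0 < k := Measure.addHaarScalarFactor_pos_of_isAddHaarMeasure ..
  have hk : μ.map ψ = k • (volume : Measure (Fin m → ℂ)) := Measure.isAddLeftInvariant_eq_smul ..
  have hI : ∀ F : (Fin m → ℂ) → ℂ, Integrable F → Integrable (fun y => F (ψ y)) μ ∧
      ∫ y, F (ψ y) ∂μ = (k : ℝ) * ∫ x, F x := by
    intro F hF
    have he := ψ.toHomeomorph.measurableEmbedding
    have h1 : Integrable F (μ.map ψ) := by
      rw [hk]; exact hF.smul_measure_nnreal
    refine ⟨(he.integrable_map_iff).1 h1, ?_⟩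
    have h2 : ∫ x, F x ∂(μ.map ψ) = ∫ y, F (ψ y) ∂μ := he.integral_map F
    rw [← h2, hk, integral_smul_nnreal_measure]
    rfl
  refine ⟨(k : ℝ) * Real.pi ^ m, mul_pos (by exact_mod_cast hkp) (by positivity), ?_, ?_⟩
  · intro A
    have h1 := hI (fun x => ∑ i, ∑ j, ⟪b i, A (b j)⟫_ℂ *
      ((Real.exp (-∑ l, ‖x l‖ ^ 2) : ℂ) * (conj (x i) * x j)))
      (integrable_finsetSum _ fun i _ => integrable_finsetSum _ fun j _ =>
        (mom1_int i j).const_mul _)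
    have h2 : (fun y => (Real.exp (-‖y‖ ^ 2) : ℂ) * ⟪y, A y⟫_ℂ) = fun y =>
        (fun x : Fin m → ℂ => ∑ i, ∑ j, ⟪b i, A (b j)⟫_ℂ *
      ((Real.exp (-∑ l, ‖x l‖ ^ 2) : ℂ) * (conj (x i) * x j))) (ψ y) := by
      funext y
      rw [inner_expand b, norm_expand b, Finset.mul_sum]
      refine Finset.sum_congr rfl fun i _ => ?_
      rw [Finset.mul_sum]
      refine Finset.sum_congr rfl fun j _ => ?_
      simp only [hψ]
      ring
    rw [h2]
    refine ⟨h1.1, h1.2.trans ?_⟩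
    have h3 : ∫ x : Fin m → ℂ, ∑ i, ∑ j, ⟪b i, A (b j)⟫_ℂ *
      ((Real.exp (-∑ l, ‖x l‖ ^ 2) : ℂ) * (conj (x i) * x j)) =
        ∑ i, ∑ j, ⟪b i, A (b j)⟫_ℂ * ((Real.pi : ℂ) ^ m * (if i = j then 1 else 0)) := by
      rw [integral_finsetSum _ fun i _ => integrable_finsetSum _ fun j _ =>
        (mom1_int i j).const_mul _]
      refine Finset.sum_congr rfl fun i _ => ?_
      rw [integral_finsetSum _ fun j _ => (mom1_int i j).const_mul _]
      refine Finset.sum_congr rfl fun j _ => ?_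
      rw [integral_const_mul, mom1]
    rw [h3, tr_expand b]
    push_cast
    rw [mul_assoc]
    congr 1
    rw [Finset.mul_sum]
    refine Finset.sum_congr rfl fun i _ => ?_
    rw [Finset.sum_eq_single i]
    · simp; ring
    · intro j _ hj
      simp [hj.symm]
    · simp
  · intro A A'
    have hint : ∀ i j i' j', Integrable fun x : Fin m → ℂ =>
        (⟪b i, A (b j)⟫_ℂ * ⟪b i', A' (b j')⟫_ℂ) * ((Real.exp (-∑ l, ‖x l‖ ^ 2) : ℂ) *
          ((conj (x i) * x j) * (conj (x i') * x j'))) := fun i j i' j' =>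
      (mom2_int i j i' j').const_mul _
    have h1 := hI (fun x => ∑ i, ∑ j, ∑ i', ∑ j', (⟪b i, A (b j)⟫_ℂ * ⟪b i', A' (b j')⟫_ℂ) *
      ((Real.exp (-∑ l, ‖x l‖ ^ 2) : ℂ) * ((conj (x i) * x j) * (conj (x i') * x j'))))
      (integrable_finsetSum _ fun i _ => integrable_finsetSum _ fun j _ =>
        integrable_finsetSum _ fun i' _ => integrable_finsetSum _ fun j' _ => hint i j i' j')
    have h2 : (fun y => (Real.exp (-‖y‖ ^ 2) : ℂ) * (⟪y, A y⟫_ℂ * ⟪y, A' y⟫_ℂ)) = fun y =>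
        (fun x : Fin m → ℂ => ∑ i, ∑ j, ∑ i', ∑ j', (⟪b i, A (b j)⟫_ℂ * ⟪b i', A' (b j')⟫_ℂ) *
      ((Real.exp (-∑ l, ‖x l‖ ^ 2) : ℂ) * ((conj (x i) * x j) * (conj (x i') * x j')))) (ψ y) := by
      funext y
      rw [inner_expand b A y, inner_expand b A' y, norm_expand b, Finset.sum_mul, Finset.mul_sum]
      refine Finset.sum_congr rfl fun i _ => ?_
      rw [Finset.sum_mul, Finset.mul_sum]
      refine Finset.sum_congr rfl fun j _ => ?_
      rw [Finset.mul_sum, Finset.mul_sum]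
      refine Finset.sum_congr rfl fun i' _ => ?_
      rw [Finset.mul_sum, Finset.mul_sum]
      refine Finset.sum_congr rfl fun j' _ => ?_
      simp only [hψ]
      ring
    rw [h2]
    refine ⟨h1.1, h1.2.trans ?_⟩
    have h3 : ∫ x : Fin m → ℂ, ∑ i, ∑ j, ∑ i', ∑ j', (⟪b i, A (b j)⟫_ℂ * ⟪b i', A' (b j')⟫_ℂ) *
      ((Real.exp (-∑ l, ‖x l‖ ^ 2) : ℂ) * ((conj (x i) * x j) * (conj (x i') * x j'))) =
        ∑ i, ∑ j, ∑ i', ∑ j', (⟪b i, A (b j)⟫_ℂ * ⟪b i', A' (b j')⟫_ℂ) *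
          ((Real.pi : ℂ) ^ m * ((if i = j then 1 else 0) * (if i' = j' then 1 else 0) +
        (if i = j' then 1 else 0) * (if i' = j then 1 else 0))) := by
      rw [integral_finsetSum _ fun i _ => integrable_finsetSum _ fun j _ =>
        integrable_finsetSum _ fun i' _ => integrable_finsetSum _ fun j' _ => hint i j i' j']
      refine Finset.sum_congr rfl fun i _ => ?_
      rw [integral_finsetSum _ fun j _ =>
        integrable_finsetSum _ fun i' _ => integrable_finsetSum _ fun j' _ => hint i j i' j']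
      refine Finset.sum_congr rfl fun j _ => ?_
      rw [integral_finsetSum _ fun i' _ => integrable_finsetSum _ fun j' _ => hint i j i' j']
      refine Finset.sum_congr rfl fun i' _ => ?_
      rw [integral_finsetSum _ fun j' _ => hint i j i' j']
      refine Finset.sum_congr rfl fun j' _ => ?_
      rw [integral_const_mul, mom2]
    rw [h3, tr_expand b, tr_expand b, tr_mul_expand b]
    push_cast
    rw [mul_assoc]
    congr 1
    have h4 : ∀ i j i' j', (⟪b i, A (b j)⟫_ℂ * ⟪b i', A' (b j')⟫_ℂ) *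
          ((Real.pi : ℂ) ^ m * ((if i = j then 1 else 0) * (if i' = j' then 1 else 0) +
        (if i = j' then 1 else 0) * (if i' = j then 1 else 0))) =
        (Real.pi : ℂ) ^ m * ((if i = j then (if i' = j' then
            ⟪b i, A (b j)⟫_ℂ * ⟪b i', A' (b j')⟫_ℂ else 0) else 0) +
          (if i = j' then (if i' = j then ⟪b i, A (b j)⟫_ℂ * ⟪b i', A' (b j')⟫_ℂ else 0) else 0)) := by
      intro i j i' j'
      split_ifs <;> ring
    simp only [h4, ← Finset.mul_sum, Finset.sum_add_distrib]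
    congr 2
    · rw [Finset.sum_mul]
      refine Finset.sum_congr rfl fun i _ => ?_
      rw [Finset.sum_eq_single i]
      · rw [Finset.mul_sum]
        refine Finset.sum_congr rfl fun i' _ => ?_
        rw [Finset.sum_eq_single i']
        · simp
        · intro j' _ hj; simp [hj.symm]
        · simp
      · intro j _ hj; simp [hj.symm]
      · simp
    · refine Finset.sum_congr rfl fun i _ => ?_
      refine Finset.sum_congr rfl fun j _ => ?_
      rw [Finset.sum_eq_single j]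
      · rw [Finset.sum_eq_single i]
        · simp
        · intro j' _ hj; simp [hj.symm]
        · simp
      · intro i' _ hi; simp [hi]
      · simp

end haar

section lin

variable {Z Y F : Type} [NormedAddCommGroup Z] [InnerProductSpace ℂ Z] [FiniteDimensional ℂ Z]
  [NormedAddCommGroup Y] [InnerProductSpace ℂ Y] [FiniteDimensional ℂ Y]
  [NormedAddCommGroup F] [InnerProductSpace ℂ F] [FiniteDimensional ℂ F]

theorem exists_isometryEquiv {V W : Type} [NormedAddCommGroup V] [InnerProductSpace ℂ V]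
    [FiniteDimensional ℂ V] [NormedAddCommGroup W] [InnerProductSpace ℂ W] [FiniteDimensional ℂ W]
    (h : finrank ℂ V = finrank ℂ W) : Nonempty (V ≃ₗᵢ[ℂ] W) :=
  ⟨(stdOrthonormalBasis ℂ V).equiv (stdOrthonormalBasis ℂ W) (finCongr h)⟩

/-- a splitting `Y = F ⊕ Z`. -/
structure Spl (w : Z →ₗᵢ[ℂ] Y) (f : F →ₗᵢ[ℂ] Y) : Prop where
  sum : ∀ y : Y, f ((f.toContinuousLinearMap.adjoint) y) + w (w.toContinuousLinearMap.adjoint y) = y
  fw : ∀ z, f.toContinuousLinearMap.adjoint (w z) = 0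
  wf : ∀ u, w.toContinuousLinearMap.adjoint (f u) = 0

theorem adj_self {V W : Type} [NormedAddCommGroup V] [InnerProductSpace ℂ V]
    [FiniteDimensional ℂ V] [NormedAddCommGroup W] [InnerProductSpace ℂ W] [FiniteDimensional ℂ W]
    (w : V →ₗᵢ[ℂ] W) (z : V) : w.toContinuousLinearMap.adjoint (w z) = z := by
  refine ext_inner_left ℂ fun x => ?_
  rw [ContinuousLinearMap.adjoint_inner_right]
  exact w.inner_map_map x z

theorem exists_spl (h : finrank ℂ Y = finrank ℂ Z + finrank ℂ F) :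
    ∃ (w : Z →ₗᵢ[ℂ] Y) (f : F →ₗᵢ[ℂ] Y), Spl w f := by
  have h1 : finrank ℂ (WithLp 2 (F × Z)) = finrank ℂ Y := by
    rw [(WithLp.linearEquiv 2 ℂ (F × Z)).finrank_eq, finrank_prod, h, add_comm]
  obtain ⟨Ψ⟩ := exists_isometryEquiv h1
  let w : Z →ₗᵢ[ℂ] Y :=
    { toLinearMap := Ψ.toLinearEquiv.toLinearMap ∘ₗ
        ((WithLp.linearEquiv 2 ℂ (F × Z)).symm.toLinearMap ∘ₗ LinearMap.inr ℂ F Z)
      norm_map' := fun z => by simp }
  let f : F →ₗᵢ[ℂ] Y :=
    { toLinearMap := Ψ.toLinearEquiv.toLinearMap ∘ₗ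
        ((WithLp.linearEquiv 2 ℂ (F × Z)).symm.toLinearMap ∘ₗ LinearMap.inl ℂ F Z)
      norm_map' := fun z => by simp }
  have hw : ∀ z, w z = Ψ (WithLp.toLp 2 ((0 : F), z)) := fun z => rfl
  have hf : ∀ u, f u = Ψ (WithLp.toLp 2 (u, (0 : Z))) := fun u => rfl
  have o : ∀ u z, ⟪f u, w z⟫_ℂ = 0 := by
    intro u z
    rw [hw, hf, Ψ.inner_map_map, WithLp.prod_inner_apply]
    simp
  have fw : ∀ z, f.toContinuousLinearMap.adjoint (w z) = 0 := by
    intro z
    refine ext_inner_left ℂ fun x => ?_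
    rw [ContinuousLinearMap.adjoint_inner_right, inner_zero_right]
    exact o x z
  have wf : ∀ u, w.toContinuousLinearMap.adjoint (f u) = 0 := by
    intro u
    refine ext_inner_left ℂ fun x => ?_
    rw [ContinuousLinearMap.adjoint_inner_right, inner_zero_right, ← inner_conj_symm]
    rw [show ⟪f u, w.toContinuousLinearMap x⟫_ℂ = 0 from o u x, map_zero]
  refine ⟨w, f, ⟨fun y => ?_, fw, wf⟩⟩
  obtain ⟨x, rfl⟩ := Ψ.surjective y
  have h2 : Ψ x = f x.fst + w x.snd := by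
    rw [hw, hf, ← map_add]
    congr 1
    refine (WithLp.linearEquiv 2 ℂ (F × Z)).injective ?_
    rw [map_add]
    exact Prod.ext (by simp) (by simp)
  rw [h2]
  simp only [map_add, adj_self, fw, wf, add_zero, zero_add]

theorem exists_gu (w : Z →ₗᵢ[ℂ] Y) (B : Z →L[ℂ] Y) (hB : Injective B) :
    ∃ (u : Y ≃ₗᵢ[ℂ] Y) (g : Z ≃L[ℂ] Z), ∀ z, B (g z) = u (w z) := by
  let R0 : Submodule ℂ Y := LinearMap.range w.toLinearMap
  let R : Submodule ℂ Y := LinearMap.range (B : Z →ₗ[ℂ] Y)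
  have h1 : finrank ℂ R0 = finrank ℂ R := by
    rw [LinearMap.finrank_range_of_inj (f := w.toLinearMap) w.injective,
      LinearMap.finrank_range_of_inj (f := (B : Z →ₗ[ℂ] Y)) hB]
  obtain ⟨i0⟩ := exists_isometryEquiv h1
  let L : R0 →ₗᵢ[ℂ] Y := R.subtypeₗᵢ.comp i0.toLinearIsometry
  let u : Y ≃ₗᵢ[ℂ] Y := L.extend.toLinearIsometryEquiv rfl
  have hu : ∀ z, u (w z) ∈ R := by
    intro z
    have h2 : u (w z) = L ⟨w z, z, rfl⟩ := L.extend_apply ⟨w z, z, rfl⟩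
    rw [h2]
    exact (i0 ⟨w z, z, rfl⟩).2
  let eB := LinearEquiv.ofInjective (B : Z →ₗ[ℂ] Y) hB
  let g' : Z →ₗ[ℂ] Z := eB.symm.toLinearMap ∘ₗ
    LinearMap.codRestrict R (u.toLinearEquiv.toLinearMap ∘ₗ w.toLinearMap) hu
  have hg : ∀ z, B (g' z) = u (w z) := by
    intro z
    have h3 : eB (eB.symm ⟨u (w z), hu z⟩) = ⟨u (w z), hu z⟩ := eB.apply_symm_apply _
    have h4 := congrArg (Subtype.val) h3
    exact h4
  have hinj : Injective g' := by
    intro x y hxy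
    have h5 : u (w x) = u (w y) := by rw [← hg, ← hg, hxy]
    exact w.injective (u.injective h5)
  refine ⟨u, (LinearEquiv.ofInjectiveEndo g' hinj).toContinuousLinearEquiv, fun z => hg z⟩

/-- the transported family. -/
def Cj (f : F →ₗᵢ[ℂ] Y) (u : Y ≃ₗᵢ[ℂ] Y) (g : Z ≃L[ℂ] Z) (Bj : Z →L[ℂ] Y) : Z →L[ℂ] F :=
  f.toContinuousLinearMap.adjoint ∘L (u.symm.toContinuousLinearEquiv : Y →L[ℂ] Y) ∘L Bj ∘L
    (g : Z →L[ℂ] Z)

theorem Xij_eq {w : Z →ₗᵢ[ℂ] Y} {f : F →ₗᵢ[ℂ] Y} (hS : Spl w f) {B : Z →L[ℂ] Y}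
    {u : Y ≃ₗᵢ[ℂ] Y} {g : Z ≃L[ℂ] Z} (h : ∀ z, B (g z) = u (w z)) (Bi Bj : Z →L[ℂ] Y) :
    Xij B Bi Bj = (g : Z →L[ℂ] Z) ∘L ((Cj f u g Bi).adjoint ∘L Cj f u g Bj) ∘L
      (g.symm : Z →L[ℂ] Z) := by
  have hB : ∀ z, B z = u (w (g.symm z)) := fun z => by
    rw [← h, g.apply_symm_apply]
  -- adjoints
  have hua : ∀ y, ((u.toContinuousLinearEquiv : Y →L[ℂ] Y)).adjoint y = u.symm y := by
    intro y
    refine ext_inner_left ℂ fun x => ?_
    rw [ContinuousLinearMap.adjoint_inner_right]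
    show ⟪u x, y⟫_ℂ = _
    rw [← u.inner_map_map x (u.symm y), u.apply_symm_apply]
  have hBa : ∀ y, B.adjoint y = (g.symm : Z →L[ℂ] Z).adjoint
      (w.toContinuousLinearMap.adjoint (u.symm y)) := by
    intro y
    refine ext_inner_left ℂ fun x => ?_
    rw [ContinuousLinearMap.adjoint_inner_right, ContinuousLinearMap.adjoint_inner_right,
      ContinuousLinearMap.adjoint_inner_right, hB]
    show ⟪u (w (g.symm x)), y⟫_ℂ = ⟪w (g.symm x), u.symm y⟫_ℂ
    rw [← u.inner_map_map (w (g.symm x)) (u.symm y), u.apply_symm_apply]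
  have hgg : ∀ z, (g : Z →L[ℂ] Z).adjoint ((g.symm : Z →L[ℂ] Z).adjoint z) = z := by
    intro z
    refine ext_inner_left ℂ fun x => ?_
    rw [ContinuousLinearMap.adjoint_inner_right, ContinuousLinearMap.adjoint_inner_right]
    show ⟪g.symm (g x), z⟫_ℂ = _
    rw [g.symm_apply_apply]
  have hgg' : ∀ z, (g.symm : Z →L[ℂ] Z).adjoint ((g : Z →L[ℂ] Z).adjoint z) = z := by
    intro z
    refine ext_inner_left ℂ fun x => ?_
    rw [ContinuousLinearMap.adjoint_inner_right, ContinuousLinearMap.adjoint_inner_right]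
    show ⟪g (g.symm x), z⟫_ℂ = _
    rw [g.apply_symm_apply]
  have hn : Ring.inverse (B.adjoint ∘L B) =
      (g : Z →L[ℂ] Z) ∘L (g : Z →L[ℂ] Z).adjoint := by
    have h1 : (B.adjoint ∘L B) * ((g : Z →L[ℂ] Z) ∘L (g : Z →L[ℂ] Z).adjoint) = 1 := by
      ext1 z
      show B.adjoint (B (g ((g : Z →L[ℂ] Z).adjoint z))) = z
      rw [hBa, h, u.symm_apply_apply, adj_self, hgg']
    have h2 : ((g : Z →L[ℂ] Z) ∘L (g : Z →L[ℂ] Z).adjoint) * (B.adjoint ∘L B) = 1 := by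
      ext1 z
      show g ((g : Z →L[ℂ] Z).adjoint (B.adjoint (B z))) = z
      rw [hBa, hgg, hB, u.symm_apply_apply, adj_self, g.apply_symm_apply]
    exact Ring.inverse_unit (⟨B.adjoint ∘L B, _, h1, h2⟩ : (Z →L[ℂ] Z)ˣ)
  have hCa : ∀ v, (Cj f u g Bi).adjoint v = (g : Z →L[ℂ] Z).adjoint (Bi.adjoint (u (f v))) := by
    intro v
    refine ext_inner_left ℂ fun x => ?_
    rw [ContinuousLinearMap.adjoint_inner_right, ContinuousLinearMap.adjoint_inner_right,
      ContinuousLinearMap.adjoint_inner_right]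
    show ⟪f.toContinuousLinearMap.adjoint (u.symm (Bi (g x))), v⟫_ℂ = ⟪Bi (g x), u (f v)⟫_ℂ
    rw [ContinuousLinearMap.adjoint_inner_left, ← u.inner_map_map, u.apply_symm_apply]
    rfl
  unfold Xij
  simp only [hn]
  ext1 z
  show g ((g : Z →L[ℂ] Z).adjoint (Bi.adjoint (Bj z - B (g ((g : Z →L[ℂ] Z).adjoint
    (B.adjoint (Bj z))))))) = g ((Cj f u g Bi).adjoint
      (f.toContinuousLinearMap.adjoint (u.symm (Bj (g (g.symm z))))))
  rw [hCa, hBa, hgg, h, g.apply_symm_apply]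
  congr 4
  have h3 := hS.sum (u.symm (Bj z))
  have h4 := congrArg u h3
  rw [map_add, u.apply_symm_apply] at h4
  rw [sub_eq_iff_eq_add]
  exact h4.symm

end lin

section det

variable {Z Y F : Type} [NormedAddCommGroup Z] [InnerProductSpace ℂ Z] [FiniteDimensional ℂ Z]
  [NormedAddCommGroup Y] [InnerProductSpace ℂ Y] [FiniteDimensional ℂ Y]
  [NormedAddCommGroup F] [InnerProductSpace ℂ F] [FiniteDimensional ℂ F]

theorem det_real (T : Z →ₗ[ℂ] Z) :
    LinearMap.det (T.restrictScalars ℝ) = Complex.normSq (LinearMap.det T) := by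
  rw [LinearMap.det_restrictScalars, Algebra.norm_complex_apply]

theorem det_real_unitary (u : Y ≃ₗᵢ[ℂ] Y) :
    LinearMap.det ((u.toLinearEquiv.toLinearMap).restrictScalars ℝ) = 1 := by
  rw [det_real]
  let b := stdOrthonormalBasis ℂ Y
  have h1 := b.det_to_matrix_orthonormalBasis (b.map u)
  have h2 : ⇑(b.map u) = u.toLinearEquiv.toLinearMap ∘ b := by
    funext i
    rfl
  rw [h2, Basis.det_comp, ← b.coe_toBasis, Basis.det_self, mul_one] at h1
  rw [Complex.normSq_eq_norm_sq, h1, one_pow]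

theorem det_shear {V W : Type} [NormedAddCommGroup V] [NormedSpace ℝ V] [FiniteDimensional ℝ V]
    [NormedAddCommGroup W] [NormedSpace ℝ W] [FiniteDimensional ℝ W] (P : V →ₗ[ℝ] W) :
    LinearMap.det ((LinearMap.fst ℝ V W).prod (LinearMap.snd ℝ V W + P ∘ₗ LinearMap.fst ℝ V W)) = 1 := by
  let S : (V →ₗ[ℝ] W) → (V × W →ₗ[ℝ] V × W) := fun P =>
    (LinearMap.fst ℝ V W).prod (LinearMap.snd ℝ V W + P ∘ₗ LinearMap.fst ℝ V W)
  have hS : ∀ P Q, S P ∘ₗ S Q = S (P + Q) := by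
    intro P Q
    refine LinearMap.ext fun x => ?_
    show (x.1, (x.2 + Q x.1) + P x.1) = (x.1, x.2 + (P x.1 + Q x.1))
    rw [add_assoc, add_comm (Q x.1)]
  have h0 : S 0 = LinearMap.id := by
    refine LinearMap.ext fun x => ?_
    show (x.1, x.2 + 0) = x
    rw [add_zero]
  let e : (V × W) ≃ₗ[ℝ] (V × W) :=
    (LinearEquiv.smulOfNeZero ℝ V (2 : ℝ) (by norm_num)).prodCongr (LinearEquiv.refl ℝ W)
  have hc : (e.toLinearMap ∘ₗ S P ∘ₗ e.symm.toLinearMap) ∘ₗ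
      (e.toLinearMap ∘ₗ S P ∘ₗ e.symm.toLinearMap) = S P := by
    have h1 : e.toLinearMap ∘ₗ S P ∘ₗ e.symm.toLinearMap = S ((1 / 2 : ℝ) • P) := by
      refine LinearMap.ext fun x => ?_
      obtain ⟨y, rfl⟩ := e.surjective x
      show e (S P (e.symm (e y))) = _
      rw [e.symm_apply_apply]
      show ((2 : ℝ) • y.1, y.2 + P y.1) = ((2 : ℝ) • y.1, y.2 + (1 / 2 : ℝ) • P ((2 : ℝ) • y.1))
      rw [map_smul, smul_smul]
      norm_num
    rw [h1, hS, ← add_smul]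
    norm_num
  have h2 := congrArg LinearMap.det hc
  rw [LinearMap.det_comp] at h2
  have h3 : LinearMap.det (e.toLinearMap ∘ₗ S P ∘ₗ e.symm.toLinearMap) = LinearMap.det (S P) :=
    LinearMap.det_conj (S P) e
  rw [h3] at h2
  have h4 : LinearMap.det (S P) * LinearMap.det (S (-P)) = 1 := by
    rw [← LinearMap.det_comp, hS, add_neg_cancel, h0, LinearMap.det_id]
  have h5 : LinearMap.det (S P) ≠ 0 := left_ne_zero_of_mul_eq_one h4
  exact mul_left_cancel₀ h5 (h2.trans (mul_one _).symm)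

/-- the determinant of the coordinates. -/
def Dx {b : ℕ} (ε : F ≃ₗ[ℝ] (Fin b → ℝ)) (x : Fin b → F) : ℝ :=
  Matrix.det (Matrix.of fun i j => ε (x j) i)

theorem det_tot {b : ℕ} {w : Z →ₗᵢ[ℂ] Y} {f : F →ₗᵢ[ℂ] Y} (hS : Spl w f)
    (ε : F ≃ₗ[ℝ] (Fin b → ℝ)) (e : Y ≃L[ℝ] (Fin b → ℝ) × Z) : ∃ k : ℝ, k ≠ 0 ∧
    ∀ (B : Z →L[ℂ] Y) (Bj : Fin b → Z →L[ℂ] Y) (u : Y ≃ₗᵢ[ℂ] Y) (g : Z ≃L[ℂ] Z),
      (∀ z, B (g z) = u (w z)) → ∀ y,
      LinearMap.det ((e : Y →L[ℝ] (Fin b → ℝ) × Z) ∘L tot B Bj (g y) :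
          ((Fin b → ℝ) × Z) →ₗ[ℝ] (Fin b → ℝ) × Z) *
        LinearMap.det ((g : Z →L[ℂ] Z).toLinearMap.restrictScalars ℝ) =
        k * Dx ε (fun j => Cj f u g (Bj j) y) := by
  -- the model
  let Θ : ((Fin b → ℝ) × Z) →ₗ[ℝ] Y :=
    ((f.toLinearMap.restrictScalars ℝ) ∘ₗ ε.symm.toLinearMap).coprod (w.toLinearMap.restrictScalars ℝ)
  let Θi : Y →ₗ[ℝ] (Fin b → ℝ) × Z :=
    (ε.toLinearMap ∘ₗ (f.toContinuousLinearMap.adjoint.toLinearMap.restrictScalars ℝ)).prod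
      (w.toContinuousLinearMap.adjoint.toLinearMap.restrictScalars ℝ)
  have h1 : ∀ y, Θ (Θi y) = y := by
    intro y
    show f (ε.symm (ε (f.toContinuousLinearMap.adjoint y))) +
      w (w.toContinuousLinearMap.adjoint y) = y
    rw [ε.symm_apply_apply]
    exact hS.sum y
  have h2 : ∀ x, Θi (Θ x) = x := by
    intro x
    show (ε (f.toContinuousLinearMap.adjoint (f (ε.symm x.1) + w x.2)),
      w.toContinuousLinearMap.adjoint (f (ε.symm x.1) + w x.2)) = x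
    simp only [map_add, adj_self, hS.fw, hS.wf, add_zero, zero_add, ε.apply_symm_apply]
  let Θe : ((Fin b → ℝ) × Z) ≃ₗ[ℝ] Y := LinearEquiv.ofLinearMap Θ Θi (LinearMap.ext h1) (LinearMap.ext h2)
  let E : ((Fin b → ℝ) × Z) ≃ₗ[ℝ] (Fin b → ℝ) × Z := Θe.trans e.toLinearEquiv
  refine ⟨LinearMap.det E.toLinearMap, (LinearEquiv.isUnit_det' E).ne_zero, ?_⟩
  intro B Bj u g hg y
  let x : Fin b → F := fun j => Cj f u g (Bj j) y
  let N : (Fin b → ℝ) →ₗ[ℝ] (Fin b → ℝ) := Matrix.toLin' (Matrix.of fun i j => ε (x j) i)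
  let P : (Fin b → ℝ) →ₗ[ℝ] Z := ∑ j, (LinearMap.proj j : (Fin b → ℝ) →ₗ[ℝ] ℝ).smulRight
    (w.toContinuousLinearMap.adjoint (u.symm (Bj j (g y))))
  let S : ((Fin b → ℝ) × Z) →ₗ[ℝ] (Fin b → ℝ) × Z :=
    (N.prodMap LinearMap.id) ∘ₗ ((LinearMap.fst ℝ (Fin b → ℝ) Z).prod
      (LinearMap.snd ℝ (Fin b → ℝ) Z + P ∘ₗ LinearMap.fst ℝ (Fin b → ℝ) Z))
  let u' : Y →ₗ[ℝ] Y := (u.toLinearEquiv.toLinearMap).restrictScalars ℝ
  let gR : Z →ₗ[ℝ] Z := (g : Z →L[ℂ] Z).toLinearMap.restrictScalars ℝ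
  have hmain : ((e : Y →L[ℝ] (Fin b → ℝ) × Z) ∘L tot B Bj (g y) :
          ((Fin b → ℝ) × Z) →ₗ[ℝ] (Fin b → ℝ) × Z) ∘ₗ (LinearMap.id.prodMap gR) =
      E.toLinearMap ∘ₗ (Θe.symm.toLinearMap ∘ₗ u' ∘ₗ Θe.toLinearMap) ∘ₗ S := by
    refine LinearMap.ext fun c => ?_
    show e (tot B Bj (g y) (c.1, g c.2)) = e (Θe (Θe.symm (u (Θe (S c)))))
    rw [Θe.apply_symm_apply]
    congr 1
    have hS1 : Θe (S c) = f (ε.symm (N c.1)) + w (c.2 + P c.1) := rfl
    have hN : ε.symm (N c.1) = ∑ j, c.1 j • x j := by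
      rw [LinearEquiv.symm_apply_eq, map_sum]
      simp only [map_smul]
      funext i
      simp only [N, Matrix.toLin'_apply, Matrix.mulVec, dotProduct, Matrix.of_apply,
        Finset.sum_apply, Pi.smul_apply, smul_eq_mul]
      exact Finset.sum_congr rfl fun j _ => mul_comm _ _
    have hP : P c.1 = ∑ j, c.1 j • w.toContinuousLinearMap.adjoint (u.symm (Bj j (g y))) := by
      simp [P]
    have ht : tot B Bj (g y) (c.1, g c.2) = ∑ j, c.1 j • Bj j (g y) + B (g c.2) := by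
      simp [tot]
    have hrs : ∀ (r : ℝ) (v : F), f (r • v) = r • f v := fun r v => by
      rw [← Complex.coe_smul, f.map_smul, Complex.coe_smul]
    have hrw : ∀ (r : ℝ) (v : Z), w (r • v) = r • w v := fun r v => by
      rw [← Complex.coe_smul, w.map_smul, Complex.coe_smul]
    have hru : ∀ (r : ℝ) (v : Y), u (r • v) = r • u v := fun r v => by
      rw [← Complex.coe_smul, u.map_smul, Complex.coe_smul]
    rw [hS1, hN, hP, ht, hg, map_add w, ← add_assoc, add_right_comm, map_add u]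
    congr 1
    rw [map_sum f, map_sum w, ← Finset.sum_add_distrib, map_sum u]
    refine Finset.sum_congr rfl fun j _ => ?_
    rw [hrs, hrw, ← smul_add, hru]
    congr 1
    have h5 := hS.sum (u.symm (Bj j (g y)))
    have h6 : x j = f.toContinuousLinearMap.adjoint (u.symm (Bj j (g y))) := rfl
    rw [h6, h5, u.apply_symm_apply]
  have hdet := congrArg LinearMap.det hmain
  rw [LinearMap.det_comp, LinearMap.det_comp, LinearMap.det_comp, LinearMap.det_comp,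
    LinearMap.det_prodMap, LinearMap.det_prodMap, LinearMap.det_id, LinearMap.det_id, one_mul,
    mul_one, det_shear, mul_one] at hdet
  have hc : LinearMap.det (Θe.symm.toLinearMap ∘ₗ u' ∘ₗ Θe.toLinearMap) = 1 := by
    have := LinearMap.det_conj u' Θe.symm
    rw [LinearEquiv.symm_symm] at this
    rw [this]
    exact det_real_unitary u
  rw [hc, one_mul, LinearMap.det_toLin'] at hdet
  exact hdet

end det

theorem sum_permS {n : ℕ} (f : Equiv.Perm (Fin (n + 1)) → ℂ) :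
    ∑ σ, f σ = ∑ p : Fin (n + 1), ∑ e : Equiv.Perm (Fin n),
      f (Equiv.Perm.decomposeFin.symm (p, e)) := by
  rw [← Fintype.sum_prod_type', ← Equiv.Perm.decomposeFin.symm.sum_comp]

theorem sum_perm2 (F : Fin 2 → Fin 2 → ℂ) :
    ∑ σ : Equiv.Perm (Fin 2), sg σ * F (σ 0) (σ 1) = F 0 1 - F 1 0 := by
  simp only [sum_permS, Fin.sum_univ_succ, Fintype.sum_unique, sg]
  have h01 : (1 : Fin 2) = Fin.succ 0 := rfl
  rw [h01]
  simp only [Equiv.Perm.decomposeFin_symm_apply_zero, Equiv.Perm.decomposeFin_symm_apply_succ,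
    Equiv.Perm.decomposeFin.symm_sign]
  simp
  try ring

theorem sum_perm4 (F : Fin 4 → Fin 4 → Fin 4 → Fin 4 → ℂ) :
    ∑ σ : Equiv.Perm (Fin 4), sg σ * F (σ 0) (σ 1) (σ 2) (σ 3) =
      F 0 1 2 3 - F 0 1 3 2 - F 0 2 1 3 + F 0 2 3 1 + F 0 3 1 2 - F 0 3 2 1
      - F 1 0 2 3 + F 1 0 3 2 + F 1 2 0 3 - F 1 2 3 0 - F 1 3 0 2 + F 1 3 2 0
      + F 2 0 1 3 - F 2 0 3 1 - F 2 1 0 3 + F 2 1 3 0 + F 2 3 0 1 - F 2 3 1 0
      - F 3 0 1 2 + F 3 0 2 1 + F 3 1 0 2 - F 3 1 2 0 - F 3 2 0 1 + F 3 2 1 0 := by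
  simp only [sum_permS, Fin.sum_univ_succ, Fintype.sum_unique, sg]
  have h01 : (1 : Fin 4) = Fin.succ 0 := rfl
  have h02 : (2 : Fin 4) = Fin.succ (Fin.succ 0) := rfl
  have h03 : (3 : Fin 4) = Fin.succ (Fin.succ (Fin.succ 0)) := rfl
  rw [h01, h02, h03]
  simp only [Equiv.Perm.decomposeFin_symm_apply_zero, Equiv.Perm.decomposeFin_symm_apply_succ,
    Equiv.Perm.decomposeFin.symm_sign]
  simp [Equiv.swap_apply_def, Fin.ext_iff]
  ring

section fin

/-- real coordinates of `ℂ`. -/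
def ε1 : ℂ ≃ₗ[ℝ] (Fin 2 → ℝ) := Complex.basisOneI.equivFun

/-- real coordinates of `ℂ²`. -/
def ε2 : EuclideanSpace ℂ (Fin 2) ≃ₗ[ℝ] (Fin 4 → ℝ) where
  toFun u := ![(u 0).re, (u 0).im, (u 1).re, (u 1).im]
  invFun v := WithLp.toLp 2 ![⟨v 0, v 1⟩, ⟨v 2, v 3⟩]
  map_add' u v := by
    ext i; fin_cases i <;> simp
  map_smul' r u := by
    ext i; fin_cases i <;> simp
  left_inv u := by
    ext i; fin_cases i <;> simp
  right_inv v := by
    ext i; fin_cases i <;> simp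

theorem dx_one (x : Fin 2 → ℂ) :
    ((Dx ε1 x : ℝ) : ℂ) = -(Complex.I / 2) * ∑ σ : Equiv.Perm (Fin 2), sg σ * ⟪x (σ 0), x (σ 1)⟫_ℂ := by
  rw [sum_perm2 (fun i j => ⟪x i, x j⟫_ℂ)]
  unfold Dx
  rw [Matrix.det_fin_two]
  simp only [Matrix.of_apply, ε1, Complex.coe_basisOneI_repr, Basis.equivFun_apply,
    Matrix.cons_val_zero, Matrix.cons_val_one, RCLike.inner_apply]
  apply Complex.ext
  · simp
    ring
  · simp
    ring

theorem dx_two (x : Fin 4 → EuclideanSpace ℂ (Fin 2)) :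
    ((Dx ε2 x : ℝ) : ℂ) = -(1 / 8 : ℂ) * ∑ σ : Equiv.Perm (Fin 4),
      sg σ * (⟪x (σ 0), x (σ 1)⟫_ℂ * ⟪x (σ 2), x (σ 3)⟫_ℂ) := by
  rw [sum_perm4 (fun i j k l => ⟪x i, x j⟫_ℂ * ⟪x k, x l⟫_ℂ)]
  let om : Fin 4 → Fin 4 → ℝ := fun i j =>
    (x i 0).re * (x j 0).im - (x i 0).im * (x j 0).re +
      ((x i 1).re * (x j 1).im - (x i 1).im * (x j 1).re)
  have h1 : ∀ i j, ⟪x i, x j⟫_ℂ - ⟪x j, x i⟫_ℂ = 2 * Complex.I * (om i j : ℂ) := by
    intro i j
    simp only [PiLp.inner_apply, RCLike.inner_apply, Fin.sum_univ_two, om]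
    apply Complex.ext
    · simp
      ring
    · simp
      ring
  have h2 : Dx ε2 x = om 0 1 * om 2 3 - om 0 2 * om 1 3 + om 0 3 * om 1 2 := by
    unfold Dx
    rw [Matrix.det_succ_row_zero]
    simp [Fin.sum_univ_succ, Matrix.det_fin_three, ε2, om, Fin.succAbove, Matrix.submatrix]
    ring
  rw [h2]
  have e01 := h1 0 1
  have e23 := h1 2 3
  have e02 := h1 0 2
  have e13 := h1 1 3
  have e03 := h1 0 3
  have e12 := h1 1 2
  have h3 : ((om 0 1 * om 2 3 - om 0 2 * om 1 3 + om 0 3 * om 1 2 : ℝ) : ℂ) =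
      -(1 / 4 : ℂ) * ((2 * Complex.I * (om 0 1 : ℂ)) * (2 * Complex.I * (om 2 3 : ℂ)) -
        (2 * Complex.I * (om 0 2 : ℂ)) * (2 * Complex.I * (om 1 3 : ℂ)) +
        (2 * Complex.I * (om 0 3 : ℂ)) * (2 * Complex.I * (om 1 2 : ℂ))) := by
    push_cast
    linear_combination (om 0 1 * om 2 3 - om 0 2 * om 1 3 + om 0 3 * om 1 2 : ℂ) * Complex.I_sq
  rw [h3, ← e01, ← e23, ← e02, ← e13, ← e03, ← e12]
  ring

variable {Z Y F : Type} [NormedAddCommGroup Z] [InnerProductSpace ℂ Z] [FiniteDimensional ℂ Z]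
  [MeasurableSpace Z] [BorelSpace Z]
  [NormedAddCommGroup Y] [InnerProductSpace ℂ Y] [FiniteDimensional ℂ Y]
  [NormedAddCommGroup F] [InnerProductSpace ℂ F] [FiniteDimensional ℂ F]

/-- the integrand. -/
def Fz {b : ℕ} (e : Y ≃L[ℝ] (Fin b → ℝ) × Z) (B : Z →L[ℂ] Y) (Bj : Fin b → Z →L[ℂ] Y) (z : Z) : ℝ :=
  Real.exp (-‖B z‖ ^ 2) *
        LinearMap.det ((e : Y →L[ℝ] (Fin b → ℝ) × Z) ∘L tot B Bj z :
          ((Fin b → ℝ) × Z) →ₗ[ℝ] (Fin b → ℝ) × Z)

theorem gauss_red {b : ℕ} (h : finrank ℂ Y = finrank ℂ Z + finrank ℂ F)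
    (ε : F ≃ₗ[ℝ] (Fin b → ℝ)) (e : Y ≃L[ℝ] (Fin b → ℝ) × Z) (μ : Measure Z) [μ.IsAddHaarMeasure] :
    ∃ k : ℝ, k ≠ 0 ∧ ∀ (B : Z →L[ℂ] Y) (Bj : Fin b → Z →L[ℂ] Y), Injective B →
      ∃ (C : Fin b → Z →L[ℂ] F) (g : Z ≃L[ℂ] Z),
        (∀ i j, Xij B (Bj i) (Bj j) = (g : Z →L[ℂ] Z) ∘L ((C i).adjoint ∘L C j) ∘L
          (g.symm : Z →L[ℂ] Z)) ∧
        (Integrable (fun y => Real.exp (-‖y‖ ^ 2) * Dx ε (fun j => C j y)) μ →
          Integrable (Fz e B Bj) μ ∧
          ∫ z, Fz e B Bj z ∂μ = k * ∫ y, Real.exp (-‖y‖ ^ 2) * Dx ε (fun j => C j y) ∂μ) := by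
  obtain ⟨w, f, hS⟩ := exists_spl (Z := Z) (Y := Y) (F := F) h
  obtain ⟨k, hk, hk2⟩ := det_tot hS ε e
  refine ⟨k, hk, fun B Bj hB => ?_⟩
  obtain ⟨u, g, hg⟩ := exists_gu w B hB
  refine ⟨fun j => Cj f u g (Bj j), g, fun i j => Xij_eq hS hg _ _, fun hint => ?_⟩
  let gR : Z →ₗ[ℝ] Z := (g : Z →L[ℂ] Z).toLinearMap.restrictScalars ℝ
  set d : ℝ := LinearMap.det gR with hd
  have hd0 : 0 < d := by
    rw [hd, det_real, Complex.normSq_pos]
    exact (LinearEquiv.isUnit_det' g.toLinearEquiv).ne_zero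
  have h1 : ∀ y, Fz e B Bj (g y) =
      (k / d) * (Real.exp (-‖y‖ ^ 2) * Dx ε (fun j => Cj f u g (Bj j) y)) := by
    intro y
    have h2 := hk2 B Bj u g hg y
    have h3 : ‖B (g y)‖ = ‖y‖ := by rw [hg, u.norm_map, w.norm_map]
    unfold Fz
    rw [h3]
    field_simp
    exact h2
  have he : MeasurableEmbedding g := g.toHomeomorph.measurableEmbedding
  have hmap : μ.map g = ENNReal.ofReal |d⁻¹| • μ :=
    Measure.map_linearMap_addHaar_eq_smul_addHaar μ (f := gR) hd0.ne'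
  have hI : Integrable (Fz e B Bj) (μ.map g) := by
    rw [he.integrable_map_iff]
    have : Fz e B Bj ∘ g = fun y => (k / d) * (Real.exp (-‖y‖ ^ 2) *
        Dx ε (fun j => Cj f u g (Bj j) y)) := funext h1
    rw [this]
    exact hint.const_mul _
  have hdi : 0 < d⁻¹ := inv_pos.2 hd0
  have hint2 := hI
  rw [hmap, integrable_smul_measure (by
    rw [ne_eq, ENNReal.ofReal_eq_zero, not_le, abs_of_pos hdi]; exact hdi) ENNReal.ofReal_ne_top] at hint2
  refine ⟨hint2, ?_⟩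
  have h4 : ∫ z, Fz e B Bj z ∂(μ.map g) = ∫ y, Fz e B Bj (g y) ∂μ := he.integral_map _
  rw [hmap, integral_smul_measure, ENNReal.toReal_ofReal (abs_nonneg _), abs_of_pos hdi] at h4
  simp only [h1] at h4
  rw [integral_const_mul, smul_eq_mul] at h4
  field_simp at h4
  linarith [h4]

omit [FiniteDimensional ℂ Z] [MeasurableSpace Z] [BorelSpace Z] in
theorem tr_conj (g : Z ≃L[ℂ] Z) (A : Z →L[ℂ] Z) :
    tr ((g : Z →L[ℂ] Z) ∘L A ∘L (g.symm : Z →L[ℂ] Z)) = tr A := by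
  unfold tr
  exact LinearMap.trace_conj' (A : Z →ₗ[ℂ] Z) g.toLinearEquiv

omit [MeasurableSpace Z] [BorelSpace Z] in
theorem inner_C (Ci Cj' : Z →L[ℂ] F) (y : Z) :
    ⟪Ci y, Cj' y⟫_ℂ = ⟪y, (Ci.adjoint ∘L Cj') y⟫_ℂ := by
  rw [ContinuousLinearMap.comp_apply, ContinuousLinearMap.adjoint_inner_right]

theorem gauss2 : GAUSS2 := by
  intro Z Y _ _ _ _ _ _ _ _ μ _ hdim e
  obtain ⟨c, hc, hc1, -⟩ := gaussZ (Z := Z) μ
  have hF : finrank ℂ Y = finrank ℂ Z + finrank ℂ ℂ := by rw [hdim, finrank_self]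
  obtain ⟨k, hk, hk2⟩ := gauss_red hF ε1 e μ
  refine ⟨-(k * c / 2), by
    have := mul_ne_zero hk hc.ne'
    simpa using this, fun B Bj hB => ?_⟩
  obtain ⟨C, g, hX, hint⟩ := hk2 B Bj hB
  have h1 : ∀ y, ((Real.exp (-‖y‖ ^ 2) * Dx ε1 (fun j => C j y) : ℝ) : ℂ) =
      ∑ σ : Equiv.Perm (Fin 2), (-(Complex.I / 2) * sg σ) * ((Real.exp (-‖y‖ ^ 2) : ℂ) *
        ⟪y, ((C (σ 0)).adjoint ∘L C (σ 1)) y⟫_ℂ) := by
    intro y
    rw [Complex.ofReal_mul, dx_one, Finset.mul_sum, Finset.mul_sum]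
    refine Finset.sum_congr rfl fun σ _ => ?_
    rw [inner_C]
    ring
  have h2 : Integrable (fun y => ((Real.exp (-‖y‖ ^ 2) * Dx ε1 (fun j => C j y) : ℝ) : ℂ)) μ := by
    simp only [h1]
    exact integrable_finsetSum _ fun σ _ => (hc1 _).1.const_mul _
  have h3 : Integrable (fun y => Real.exp (-‖y‖ ^ 2) * Dx ε1 (fun j => C j y)) μ := by
    have := h2.re
    simpa only [RCLike.re_to_complex, Complex.ofReal_re] using this
  obtain ⟨h4, h5⟩ := hint h3
  refine ⟨h4, ?_⟩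
  show ((∫ z, Fz e B Bj z ∂μ : ℝ) : ℂ) = _
  rw [h5, Complex.ofReal_mul, ← integral_complex_ofReal]
  simp only [h1]
  rw [integral_finsetSum _ fun σ _ => (hc1 _).1.const_mul _]
  simp only [integral_const_mul, (hc1 _).2, hX, tr_conj]
  push_cast
  rw [Finset.mul_sum, Finset.mul_sum, Finset.mul_sum]
  refine Finset.sum_congr rfl fun σ _ => ?_
  ring

theorem gauss4 : GAUSS4 := by
  intro Z Y _ _ _ _ _ _ _ _ μ _ hdim e
  obtain ⟨c, hc, -, hc1⟩ := gaussZ (Z := Z) μ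
  have hF : finrank ℂ Y = finrank ℂ Z + finrank ℂ (EuclideanSpace ℂ (Fin 2)) := by
    rw [hdim, finrank_euclideanSpace_fin]
  obtain ⟨k, hk, hk2⟩ := gauss_red hF ε2 e μ
  refine ⟨-(k * c / 8), by
    have := mul_ne_zero hk hc.ne'
    simpa using this, fun B Bj hB => ?_⟩
  obtain ⟨C, g, hX, hint⟩ := hk2 B Bj hB
  have h1 : ∀ y, ((Real.exp (-‖y‖ ^ 2) * Dx ε2 (fun j => C j y) : ℝ) : ℂ) =
      ∑ σ : Equiv.Perm (Fin 4), (-(1 / 8) * sg σ) * ((Real.exp (-‖y‖ ^ 2) : ℂ) *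
        (⟪y, ((C (σ 0)).adjoint ∘L C (σ 1)) y⟫_ℂ * ⟪y, ((C (σ 2)).adjoint ∘L C (σ 3)) y⟫_ℂ)) := by
    intro y
    rw [Complex.ofReal_mul, dx_two, Finset.mul_sum, Finset.mul_sum]
    refine Finset.sum_congr rfl fun σ _ => ?_
    rw [inner_C, inner_C]
    ring
  have h2 : Integrable (fun y => ((Real.exp (-‖y‖ ^ 2) * Dx ε2 (fun j => C j y) : ℝ) : ℂ)) μ := by
    simp only [h1]
    exact integrable_finsetSum _ fun σ _ => (hc1 _ _).1.const_mul _
  have h3 : Integrable (fun y => Real.exp (-‖y‖ ^ 2) * Dx ε2 (fun j => C j y)) μ := by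
    have := h2.re
    simpa only [RCLike.re_to_complex, Complex.ofReal_re] using this
  obtain ⟨h4, h5⟩ := hint h3
  refine ⟨h4, ?_⟩
  show ((∫ z, Fz e B Bj z ∂μ : ℝ) : ℂ) = _
  rw [h5, Complex.ofReal_mul, ← integral_complex_ofReal]
  simp only [h1]
  rw [integral_finsetSum _ fun σ _ => (hc1 _ _).1.const_mul _]
  have hXX : ∀ i j i' j', Xij B (Bj i) (Bj j) ∘L Xij B (Bj i') (Bj j') =
      (g : Z →L[ℂ] Z) ∘L (((C i).adjoint ∘L C j) ∘L ((C i').adjoint ∘L C j')) ∘L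
        (g.symm : Z →L[ℂ] Z) := by
    intro i j i' j'
    rw [hX, hX]
    ext1 z
    simp
  simp only [integral_const_mul, (hc1 _ _).2, hXX, tr_conj]
  simp only [hX, tr_conj]
  push_cast
  rw [Finset.mul_sum, Finset.mul_sum]
  refine Finset.sum_congr rfl fun σ _ => ?_
  ring

end fin

end

end Crest.Agent.R235.FamGauss_895
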