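import Crest.Agent.R235.SWLnk_451

/-!
Row 235 (S0364), PACKAGE SW/SWC, `Lnk` of `SwcProd_215` (helper451), part B: the identity
`2 |c(η)|² = ∑ |η(v_i) + J η(J_t v_i)|²` (`dbar`) and the structure `Lnk` (`lnk`).
-/

set_option autoImplicit false
set_option maxSynthPendingDepth 3
set_option linter.unusedSectionVars false

open scoped ContDiff ENNReal NNReal Topology Manifold Bundle RealInnerProductSpace
open MeasureTheory Set Filter Metric Bundle Matrix

universe v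

namespace Crest.Agent.R235.SWLnkB_451

open Crest.Agent.R240 Crest.Agent.R240.Ch Crest.Agent.R235 Crest.Agent.R235.SWDefs_53
open Crest.Agent.R235.IndTri_451 Crest.Agent.R235.Tau483 Crest.Agent.R235.SWLnk_451
open Crest.Agent.R249.Tv57 (Dat OpPair SmF)
open Crest.Agent.R249.Tz805 (ToF)
open Crest.Agent.R249.Vf281 (VSm)
open Crest.Agent.R235.SwcProd_215 (zv zet pi0 Jn thE Lnk)

noncomputable section

/-- the matrix of `J_t` in an adapted frame. -/
def AA (n : Fin 3 → ℝ) : Matrix (Fin 4) (Fin 4) ℝ :=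
  !![0, n 0, n 1, n 2; - n 0, 0, n 2, - n 1; - n 1, - n 2, 0, n 0; - n 2, n 1, - n 0, 0]

theorem AA_orth {n : Fin 3 → ℝ} (hn : ∑ k, n k ^ 2 = 1) (j k : Fin 4) :
    ∑ i, AA n i j * AA n i k = if j = k then 1 else 0 := by
  rw [Fin.sum_univ_three] at hn
  rw [Fin.sum_univ_four]
  fin_cases j <;> fin_cases k <;> simp [AA] <;> linarith

/-- the abstract identity. -/
theorem dbar_alg {κ0 : Type*} [Fintype κ0] {P J : Matrix κ0 κ0 ℝ} {ρ : Fin 3 → Matrix κ0 κ0 ℝ}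
    {n : Fin 3 → ℝ} {ι : ℝ} (h : Al P J ρ n ι) {G : Fin 4 → κ0 → ℝ}
    (hG : ∀ i, InE P ρ n (G i)) :
    ∑ i, (G i + J *ᵥ (∑ j, AA n i j • G j)) ⬝ᵥ (G i + J *ᵥ (∑ j, AA n i j • G j)) =
      2 * (∑ i, G i ⬝ᵥ G i + ∑ i, ∑ j, AA n i j * (G i ⬝ᵥ (J *ᵥ G j))) := by
  have hPH : ∀ i, P *ᵥ (∑ j, AA n i j • G j) = ∑ j, AA n i j • G j := by
    intro i
    rw [mulVec_sum]
    exact Finset.sum_congr rfl fun j _ => by rw [mulVec_smul, (hG j).1]
  have h1 : ∀ i, (J *ᵥ (∑ j, AA n i j • G j)) ⬝ᵥ (J *ᵥ (∑ j, AA n i j • G j)) =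
      (∑ j, AA n i j • G j) ⬝ᵥ (∑ j, AA n i j • G j) := by
    intro i
    rw [h.J_dot, h.JJG (hPH i), dotProduct_neg, neg_neg]
  have h2 : ∑ i, (∑ j, AA n i j • G j) ⬝ᵥ (∑ j, AA n i j • G j) = ∑ i, G i ⬝ᵥ G i := by
    have e1 : ∀ i, (∑ j, AA n i j • G j) ⬝ᵥ (∑ j, AA n i j • G j) =
        ∑ j, ∑ k, (AA n i j * AA n i k) * (G j ⬝ᵥ G k) := by
      intro i
      rw [sum_dotProduct]
      refine Finset.sum_congr rfl fun j _ => ?_
      rw [dotProduct_sum]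
      refine Finset.sum_congr rfl fun k _ => ?_
      rw [smul_dotProduct, dotProduct_smul, smul_eq_mul, smul_eq_mul]
      ring
    simp only [e1]
    rw [Finset.sum_comm]
    refine Finset.sum_congr rfl fun j _ => ?_
    rw [Finset.sum_comm]
    have e2 : ∀ k, ∑ i, AA n i j * AA n i k * (G j ⬝ᵥ G k) =
        if j = k then G j ⬝ᵥ G k else 0 := by
      intro k
      rw [← Finset.sum_mul, AA_orth h.nn]
      split_ifs <;> simp
    simp only [e2, Finset.sum_ite_eq, Finset.mem_univ, if_true]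
  have h3 : ∀ i, (G i + J *ᵥ (∑ j, AA n i j • G j)) ⬝ᵥ (G i + J *ᵥ (∑ j, AA n i j • G j)) =
      G i ⬝ᵥ G i + 2 * (∑ j, AA n i j * (G i ⬝ᵥ (J *ᵥ G j))) +
        (∑ j, AA n i j • G j) ⬝ᵥ (∑ j, AA n i j • G j) := by
    intro i
    rw [add_dotProduct, dotProduct_add, dotProduct_add, h1 i,
      dotProduct_comm (J *ᵥ (∑ j, AA n i j • G j)) (G i)]
    have e1 : G i ⬝ᵥ (J *ᵥ (∑ j, AA n i j • G j)) = ∑ j, AA n i j * (G i ⬝ᵥ (J *ᵥ G j)) := by
      rw [mulVec_sum, dotProduct_sum]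
      refine Finset.sum_congr rfl fun j _ => ?_
      rw [mulVec_smul, dotProduct_smul, smul_eq_mul]
    rw [e1]
    ring
  simp only [h3, Finset.sum_add_distrib, h2, ← Finset.mul_sum]
  ring

variable {M : Type v} [MetricSpace M] [CompactSpace M] [ConnectedSpace M]
  [ChartedSpace (EuclideanSpace ℝ (Fin 4)) M] [IsManifold (𝓡 4) ∞ M]
  [RiemannianBundle (fun p : M => TangentSpace (𝓡 4) p)]
  [IsContMDiffRiemannianBundle (𝓡 4) ∞ (EuclideanSpace ℝ (Fin 4))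
    (fun p : M => TangentSpace (𝓡 4) p)]
  [IsRiemannianManifold (𝓡 4) M] [MeasurableSpace M] [BorelSpace M]
  [SecondCountableTopology M] [Nonempty M] [IsFiniteMeasureOnCompacts (μHE[4] : Measure M)]
  {κ0 κ1 κT : Type} [Fintype κ0] [Fintype κ1] [Fintype κT]
  {τ : TD M κT} {S : SWS M κ0 κ1 κT} {T : ToF 4 M}
    {cc : κ1 → κ0 → (z : M) → TangentSpace (𝓡 4) z}
    {W : κ0 → κ0 → (z : M) → TangentSpace (𝓡 4) z}
    {sT : κT → (z : M) → TangentSpace (𝓡 4) z} {w : Trip M} {e : Fin 3 → F2 E4 M}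
    {σ ι : ℝ}

theorem sum_ek (h : IsTri (fun i => (w i).1.1) e) (z : M) (n : Fin 3 → ℝ) (i j : Fin 4) :
    ∑ k, n k * ek e z k i j = AA n i j := by
  have hF := fr_of h z
  have e0 : ek e z 0 i j = _ := hF.e0 (ee i) (ee j)
  have e1 : ek e z 1 i j = _ := hF.e1 (ee i) (ee j)
  have e2 : ek e z 2 i j = _ := hF.e2 (ee i) (ee j)
  rw [Fin.sum_univ_three, e0, e1, e2]
  simp only [ee_apply]
  fin_cases i <;> fin_cases j <;> simp [AA]

theorem Jn_g (h : IsTri (fun i => (w i).1.1) e) (x : M) (u v : E4) :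
    at2 (gg e) x (Jn τ e x u) v = ∑ k, τ.n k x * at2 (e k) x u v := by
  have e1 : Jn τ e x u = ∑ k, τ.n k x • atJ (II e k) x u := by
    unfold Jn
    simp
  rw [e1, map_sum, _root_.sum_apply]
  refine Finset.sum_congr rfl fun k _ => ?_
  rw [map_smul, _root_.smul_apply, ← h.e_eq, smul_eq_mul]

theorem Jn_vf (h : TG S T cc W sT w e σ ι) (x : M) (i : Fin 4) :
    (Jn τ e x (vf e x i : E4) : TangentSpace (𝓡 4) x) = ∑ j, AA (nv τ x) i j • vf e x j := by
  have h1 := sum_vf h.tri h.met x (Jn τ e x (vf e x i : E4) : TangentSpace (𝓡 4) x)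
  rw [← h1]
  refine Finset.sum_congr rfl fun j _ => ?_
  congr 1
  refine (h.met x _ _).trans ((h.tri.g_symm x _ _).trans ?_)
  refine (Jn_g h.tri x _ _).trans ?_
  exact sum_ek h.tri x (nv τ x) i j

/-- **dbar** -/
theorem dbar (hS : S.OK) (h : TG S T cc W sT w e (-1) ι) (nn : ∀ z, ∑ k, τ.n k z ^ 2 = 1)
    {K : ℝ} (hK : 2 ≤ K) (x : M) (η : κ0 → TangentSpace (𝓡 4) x)
    (hη : ∀ y, ∑ y', pi0 τ S y y' x • η y' = η y) (v : TangentSpace (𝓡 4) x) :
    ∑ y, (inner ℝ (η y) v +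
      ∑ y', S.J y y' x * inner ℝ (η y') (Jn τ e x v : TangentSpace (𝓡 4) x)) ^ 2 ≤
      K * inner ℝ v v * ∑ x', (∑ y, inner ℝ (η y) (cc x' y x)) ^ 2 := by
  have hA := al_of hS h (n := nv τ x) x (nn x)
  -- components
  let G : Fin 4 → κ0 → ℝ := fun i y => inner ℝ (η y) (vf e x i)
  have hG : ∀ i, InE (Pm S x) (Rm S x) (nv τ x) (G i) := by
    intro i
    rw [hA.inE_iff]
    refine P0_mem_iff (τ := τ) (S := S) (G i) x fun y => ?_
    show ∑ y', pi0 τ S y y' x * inner ℝ (η y') (vf e x i) = inner ℝ (η y) (vf e x i)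
    conv_rhs => rw [← hη y]
    rw [sum_inner]
    exact Finset.sum_congr rfl fun y' _ => (real_inner_smul_left _ _ _).symm
  -- the Clifford product
  have hc : ∀ x', ∑ y, (inner ℝ (η y) (cc x' y x) : ℝ) = (∑ i, Cm cc e x i *ᵥ G i) x' := by
    intro x'
    have h1 := congrFun (clG_eq h x (fun y => T.toF x (η y))) x'
    have h2 : ∀ i, Gf T e x (fun y => T.toF x (η y)) i = G i := by
      intro i; funext y; exact T.inner_toF x _ _
    simp only [h2] at h1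
    rw [← h1]
    unfold clG
    exact Finset.sum_congr rfl fun y _ => (T.inner_toF x _ _).symm
  have hsq : ∑ x', (∑ y, (inner ℝ (η y) (cc x' y x) : ℝ)) ^ 2 =
      ∑ i, G i ⬝ᵥ G i + ∑ i, ∑ j, AA (nv τ x) i j * (G i ⬝ᵥ (Jm S x *ᵥ G j)) := by
    have h1 := hA.clif_sq (Cm_mul h x) (G := G) (K := G) hG hG
    have h2 : ∑ x', (∑ y, (inner ℝ (η y) (cc x' y x) : ℝ)) ^ 2 =
        (∑ i, Cm cc e x i *ᵥ G i) ⬝ᵥ (∑ i, Cm cc e x i *ᵥ G i) := by
      simp only [hc]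
      exact Finset.sum_congr rfl fun x' _ => sq _
    rw [h2, h1]
    have h3 : ∑ k, nv τ x k * ∑ i, ∑ j, ek e x k i j * (G i ⬝ᵥ (Jm S x *ᵥ G j)) =
        ∑ i, ∑ j, AA (nv τ x) i j * (G i ⬝ᵥ (Jm S x *ᵥ G j)) := by
      simp only [Finset.mul_sum]
      rw [Finset.sum_comm]
      refine Finset.sum_congr rfl fun i _ => ?_
      rw [Finset.sum_comm]
      refine Finset.sum_congr rfl fun j _ => ?_
      rw [← sum_ek h.tri x (nv τ x) i j, Finset.sum_mul]
      exact Finset.sum_congr rfl fun k _ => by ring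
    rw [h3]
    ring
  -- the vectors `A_i`
  let A : Fin 4 → κ0 → ℝ := fun i => G i + Jm S x *ᵥ (∑ j, AA (nv τ x) i j • G j)
  have hAi : ∑ i, A i ⬝ᵥ A i = 2 * ∑ x', (∑ y, (inner ℝ (η y) (cc x' y x) : ℝ)) ^ 2 := by
    rw [hsq]
    exact dbar_alg hA hG
  have hv := sum_vf h.tri h.met x v
  set c : Fin 4 → ℝ := fun i => inner ℝ (vf e x i) v with hcdef
  have hAv : ∀ y, (inner ℝ (η y) v : ℝ) +
      ∑ y', S.J y y' x * inner ℝ (η y') (Jn τ e x v : TangentSpace (𝓡 4) x) =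
      ∑ i, c i * A i y := by
    intro y
    have e1 : ∀ y, (inner ℝ (η y) v : ℝ) = ∑ i, c i * G i y := by
      intro y
      conv_lhs => rw [← hv]
      rw [inner_sum]
      exact Finset.sum_congr rfl fun i _ => real_inner_smul_right _ _ _
    have e2 : (Jn τ e x v : TangentSpace (𝓡 4) x) =
        ∑ i, c i • (∑ j, AA (nv τ x) i j • vf e x j : TangentSpace (𝓡 4) x) := by
      have h1 : (Jn τ e x v : E4) = Jn τ e x (∑ i, c i • (vf e x i : E4)) :=
        congrArg (Jn τ e x) hv.symm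
      refine h1.trans ((map_sum (Jn τ e x) _ _).trans ?_)
      refine Finset.sum_congr rfl fun i _ => ?_
      rw [← Jn_vf h x i]
      exact map_smul (Jn τ e x) (c i) _
    have e3 : ∀ y', (inner ℝ (η y') (Jn τ e x v : TangentSpace (𝓡 4) x) : ℝ) =
        ∑ i, c i * ∑ j, AA (nv τ x) i j * G j y' := by
      intro y'
      rw [e2, inner_sum]
      refine Finset.sum_congr rfl fun i _ => ?_
      rw [real_inner_smul_right, inner_sum]
      congr 1
      exact Finset.sum_congr rfl fun j _ => real_inner_smul_right _ _ _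
    rw [e1 y]
    simp only [e3]
    have e4 : ∑ y', S.J y y' x * ∑ i, c i * ∑ j, AA (nv τ x) i j * G j y' =
        ∑ i, c i * (Jm S x *ᵥ (∑ j, AA (nv τ x) i j • G j)) y := by
      have e5 : ∀ i, (Jm S x *ᵥ (∑ j, AA (nv τ x) i j • G j)) y =
          ∑ y', S.J y y' x * ∑ j, AA (nv τ x) i j * G j y' := by
        intro i
        show ∑ y', S.J y y' x * (∑ j, AA (nv τ x) i j • G j) y' = _
        refine Finset.sum_congr rfl fun y' _ => ?_
        rw [Finset.sum_apply]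
        rfl
      simp only [e5, Finset.mul_sum]
      rw [Finset.sum_comm]
      refine Finset.sum_congr rfl fun i _ => Finset.sum_congr rfl fun y' _ =>
        Finset.sum_congr rfl fun j _ => by ring
    rw [e4, ← Finset.sum_add_distrib]
    exact Finset.sum_congr rfl fun i _ => by
      show c i * G i y + c i * _ = c i * (G i y + _)
      ring
  have hvv : (inner ℝ v v : ℝ) = ∑ i, c i ^ 2 := by
    conv_lhs => rw [← hv]
    rw [sum_inner]
    refine Finset.sum_congr rfl fun i _ => ?_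
    rw [real_inner_smul_left, hv, sq]
  simp only [hAv]
  have hcs : ∀ y, (∑ i, c i * A i y) ^ 2 ≤ (∑ i, A i y ^ 2) * ∑ i, c i ^ 2 := fun y =>
    cs4 c fun i => A i y
  have hsum : ∑ y, ∑ i, A i y ^ 2 = ∑ i, A i ⬝ᵥ A i := by
    rw [Finset.sum_comm]
    exact Finset.sum_congr rfl fun i _ => Finset.sum_congr rfl fun y _ => sq _
  calc ∑ y, (∑ i, c i * A i y) ^ 2 ≤ ∑ y, (∑ i, A i y ^ 2) * ∑ i, c i ^ 2 :=
        Finset.sum_le_sum fun y _ => hcs y
    _ = (∑ i, c i ^ 2) * (2 * ∑ x', (∑ y, (inner ℝ (η y) (cc x' y x) : ℝ)) ^ 2) := by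
        rw [← Finset.sum_mul, hsum, hAi, mul_comm]
    _ ≤ K * inner ℝ v v * ∑ x', (∑ y, (inner ℝ (η y) (cc x' y x) : ℝ)) ^ 2 := by
        rw [hvv]
        have p1 : 0 ≤ ∑ i, c i ^ 2 := Finset.sum_nonneg fun _ _ => sq_nonneg _
        have p2 : 0 ≤ ∑ x', (∑ y, (inner ℝ (η y) (cc x' y x) : ℝ)) ^ 2 :=
          Finset.sum_nonneg fun _ _ => sq_nonneg _
        nlinarith [mul_nonneg p1 p2]

/-- **the dictionary.** -/
theorem lnk (hS : S.OK) (h : TG S T cc W sT w e (-1) ι) {Z : κ1 → κ0 → M → ℝ}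
    (hE : TE τ S T cc Z) {a0 : Z2 M} (hc : Ch0 (PEf τ S) a0)
    (hfE : ∀ k x, τ.fE k x = 2 * qG (w 0).1.1 (e k) (PhiF a0 (bF τ S W sT e)) x)
    {K : ℝ} (hK : 2 ≤ K)
    (hβ : ∀ x v, (at1 (bF τ S W sT e) x v) ^ 2 ≤ K * at2 (gg e) x v v)
    (ha : ∀ x u v, (val a0 x u v) ^ 2 ≤ K * (at2 (gg e) x u u * at2 (gg e) x v v)) :
    Lnk S T cc sT w e τ a0 (bF τ S W sT e) K where
  line := line hS h hE.smn hE.norm
  chern := chern hc
  smβ := smooth_bF hS h hE.smn hE.smsh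
  bdβ := hβ
  bda := ha
  con a _ _ _ hs hsE x v y := con hS h hE.norm a hs hsE x v y
  cur _ hsm hsec k x := cur h (smooth_bF hS h hE.smn hE.smsh) hfE hsm hsec k x
  dbar x η hη v := dbar hS h hE.norm hK x η hη v

end

end Crest.Agent.R235.SWLnkB_451
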