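import Crest.Agent.R235.TauF_483
import Crest.Agent.R235.QSTri_451

/-!
Row 235 (S0364), SW-TAU (helper483), part H: the curvature of `E`, the first identity `T1`.
-/

set_option autoImplicit false
set_option maxSynthPendingDepth 3
set_option linter.unusedSectionVars false

open scoped ContDiff ENNReal NNReal Topology Manifold Bundle RealInnerProductSpace
open MeasureTheory Set Filter Metric Bundle Matrix

universe v

namespace Crest.Agent.R235.Tau483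

open Crest.Agent.R240 Crest.Agent.R240.Ch Crest.Agent.R240.Int Crest.Agent.R235.SWDefs_53
open Crest.Agent.R235.IndTri_451
open Crest.Agent.R249.Tv57 (Dat OpPair SmF Spec)
open Crest.Agent.R247.Ms322 (Gr)
open Crest.Agent.R249.Vf281 (VSm mCov)
open Crest.Agent.R247.Bo84 (mgrad inner_mgrad)
open Crest.Agent.R249.Tz805 (ToF)

noncomputable section

variable {M : Type v} [MetricSpace M] [CompactSpace M] [ConnectedSpace M]
  [ChartedSpace (EuclideanSpace ℝ (Fin 4)) M] [IsManifold (𝓡 4) ∞ M]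
  [RiemannianBundle (fun p : M => TangentSpace (𝓡 4) p)]
  [IsContMDiffRiemannianBundle (𝓡 4) ∞ (EuclideanSpace ℝ (Fin 4))
    (fun p : M => TangentSpace (𝓡 4) p)]
  [IsRiemannianManifold (𝓡 4) M] [MeasurableSpace M] [BorelSpace M]
  [SecondCountableTopology M] [Nonempty M]
  {κ0 κ1 κT : Type} [Fintype κ0] [Fintype κ1] [Fintype κT]

/-- the form `w_t = ∑ rr n_k e_k` is closed. -/
def WT (τ : TD M κT) (e : Fin 3 → F2 E4 M) (wt : Z2 M) : Prop :=
  ∀ x, val wt x = ∑ k, (τ.rr x * τ.n k x) • at2 (e k) x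

/-- the curvature of `E`: `c_E` is the Chern form of `P_E`, `fE_k = -2σ q(e_k, 2π c_E - dβ)`. -/
structure TC (τ : TD M κT) (S : SWS M κ0 κ1 κT) (W : κ0 → κ0 → (z : M) → TangentSpace (𝓡 4) z)
    (sT : κT → (z : M) → TangentSpace (𝓡 4) z) (w : Trip M) (e : Fin 3 → F2 E4 M) (σ : ℝ)
    (cE : Z2 M) : Prop where
  ch : Ch0 (PEf τ S) cE
  fE : ∀ k z, τ.fE k z = -2 * σ *
    q (at2 ((w 0).1.1 : F2 E4 M) z) (at2 (e k) z) (Phi cE (bF τ S W sT e) z)

section gl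

variable [IsFiniteMeasureOnCompacts (μHE[4] : Measure M)]
  {τ : TD M κT} {S : SWS M κ0 κ1 κT} {T : ToF 4 M}
    {cc : κ1 → κ0 → (z : M) → TangentSpace (𝓡 4) z}
    {W : κ0 → κ0 → (z : M) → TangentSpace (𝓡 4) z}
    {sT : κT → (z : M) → TangentSpace (𝓡 4) z} {w : Trip M} {e : Fin 3 → F2 E4 M}
    {σ ι : ℝ} {Z : κ1 → κ0 → M → ℝ}

theorem int_cont {f : M → ℝ} (hf : Continuous f) : Integrable f (μHE[4] : Measure M) :=
  hf.integrable_of_hasCompactSupport (HasCompactSupport.of_compactSpace f)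

theorem cpt_w (h : TG S T cc W sT w e σ ι) :
    IndVol_57.Cpt ((w 0).1.1 : F2 E4 M) (II e 0) :=
  (QSTri_451.comp_w h.tri h.met).cpt

theorem vol_w (h : TG S T cc W sT w e σ ι) : Vol ((w 0).1.1 : F2 E4 M) := (cpt_w h).vol

theorem int_mu (h : TG S T cc W sT w e σ ι) (f : M → ℝ) :
    ∫ x, f x ∂(mu ((w 0).1.1 : F2 E4 M)) = 2 * ∫ x, f x ∂(μHE[4] : Measure M) :=
  IndVol_57.integral_mu_eq (cpt_w h) f

/-! ### smoothness of the connection forms -/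

theorem VSm_sum' {κ : Type} [Fintype κ] {X : κ → (x : M) → TangentSpace (𝓡 4) x} {z : M}
    (h : ∀ A, VSm 4 ∞ (X A) z) : VSm 4 ∞ (fun x => ∑ A, X A x) z := RiemB_399.VSm_sum h

theorem VSm_fldA (h : TG S T cc W sT w e σ ι) {a : κT → M → ℝ}
    (ha : Crest.Agent.R249.Tv57.SmV (n := 4) a) (z : M) : VSm 4 ∞ (fld sT a) z :=
  VSm_sum' fun A => VSm.smul le_rfl (ha A z) (h.smsT A z)

theorem VSm_bV0 (hS : S.OK) (h : TG S T cc W sT w e σ ι)
    (hn : ∀ k, ContMDiff (𝓡 4) 𝓘(ℝ, ℝ) ∞ (τ.n k)) (z : M) : VSm 4 ∞ (bV0 τ S W) z :=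
  VSm_sum' fun y => VSm_sum' fun y' =>
    VSm.smul le_rfl (sm_mul (sm_const _) (sm_JP0f hS hn y y') z) (h.smW y' y z)

theorem smooth_flG_fld (h : TG S T cc W sT w e σ ι) {a : κT → M → ℝ}
    (ha : Crest.Agent.R249.Tv57.SmV (n := 4) a) : Smooth1 (RiemB_399.flG (gg e) (fld sT a)) :=
  RiemB_399.smooth1_flG (QSTri_451.met_gg h.tri) (VSm_fldA h ha)

theorem smooth_bF (hS : S.OK) (h : TG S T cc W sT w e σ ι) (ht : TE τ S T cc Z) :
    Smooth1 (bF τ S W sT e) :=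
  RiemB_399.smooth1_flG (QSTri_451.met_gg h.tri) fun z =>
    (VSm_fldA h ht.smsh z).add (VSm_bV0 hS h ht.smn z)

theorem smooth_tF (hS : S.OK) (h : TG S T cc W sT w e σ ι) (ht : TE τ S T cc Z) {a : κT → M → ℝ}
    (ha : Crest.Agent.R249.Tv57.SmV (n := 4) a) : Smooth1 (tF τ S W sT e a) :=
  (smooth_flG_fld h ha).add (smooth_bF hS h ht)

/-- `Φ_a = Φ_0 - d a`. -/
theorem Phi_tF (hS : S.OK) (h : TG S T cc W sT w e σ ι) (ht : TE τ S T cc Z) {a : κT → M → ℝ}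
    (ha : Crest.Agent.R249.Tv57.SmV (n := 4) a) (cE : Z2 M) (z : M) :
    Phi cE (tF τ S W sT e a) z = Phi cE (bF τ S W sT e) z -
      at2 (dG (RiemB_399.flG (gg e) (fld sT a))) z := by
  unfold Phi tF
  rw [dG_add (smooth_flG_fld h ha) (smooth_bF hS h ht)]
  have : at2 (dG (RiemB_399.flG (gg e) (fld sT a)) + dG (bF τ S W sT e)) z =
    at2 (dG (RiemB_399.flG (gg e) (fld sT a))) z + at2 (dG (bF τ S W sT e)) z := rfl
  rw [this]
  abel

/-- **the self-dual curvature.** -/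
theorem curv_eq (hS : S.OK) (h : TG S T cc W sT w e σ ι) (ht : TE τ S T cc Z) {cE : Z2 M}
    (hc : TC τ S W sT w e σ cE) {a : κT → M → ℝ}
    (ha : Crest.Agent.R249.Tv57.SmV (n := 4) a) (hsa : S.DT.Sec a) (k : Fin 3) (z : M) :
    S.H.B a k.succ z + τ.fE k z = -2 * σ *
      q (at2 ((w 0).1.1 : F2 E4 M) z) (at2 (e k) z) (Phi cE (tF τ S W sT e a) z) := by
  rw [h.HB a ha hsa, hc.fE, Phi_tF hS h ht ha, q_sub_right]
  show 2 * σ * q (at2 ((w 0).1.1 : F2 E4 M) z) (at2 (e k) z)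
    (at2 (dG (RiemB_399.flG (gg e) (fld sT a))) z) + _ = _
  ring

/-! ### powers -/

theorem sm_rpow {f : M → ℝ} (hf : ContMDiff (𝓡 4) 𝓘(ℝ, ℝ) ∞ f) (hp : ∀ z, 0 < f z) (p : ℝ) :
    ContMDiff (𝓡 4) 𝓘(ℝ, ℝ) ∞ fun z => f z ^ p := by
  intro z
  have h1 : ContDiffAt ℝ ∞ (fun r : ℝ => r ^ p) (f z) :=
    Real.contDiffAt_rpow_const_of_ne (hp z).ne'
  exact h1.contMDiffAt.comp z (hf z)

theorem rr_pow {r : ℝ} (hr : 0 < r) : r ^ (-(1 / 2) : ℝ) * (r ^ (3 / 4 : ℝ) * r ^ (3 / 4 : ℝ)) = r := by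
  rw [← Real.rpow_add hr, ← Real.rpow_add hr]
  norm_num

theorem sm_sc (ht : TE τ S T cc Z) (p : ℝ) {s : κ0 → M → ℝ}
    (hs : Crest.Agent.R249.Tv57.SmV (n := 4) s) :
    Crest.Agent.R249.Tv57.SmV (n := 4) (τ.sc p s) :=
  fun y => sm_mul (sm_rpow ht.smrr ht.pos p) (hs y)

theorem sec_sc (p : ℝ) {s : κ0 → M → ℝ} (hs : S.D0.Sec s) : S.D0.Sec (τ.sc p s) := by
  intro y z
  show ∑ y', S.D0.p y y' z * (τ.rr z ^ p * s y' z) = τ.rr z ^ p * s y z
  rw [← hs y z, Finset.mul_sum]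
  exact Finset.sum_congr rfl fun y' _ => by ring

/-- the Dirac operator on a smooth section is smooth. -/
theorem sm_D (hS : S.OK) {a : κT → M → ℝ} {u : κ0 → M → ℝ}
    (ha : Crest.Agent.R249.Tv57.SmV (n := 4) a) (hu : Crest.Agent.R249.Tv57.SmV (n := 4) u)
    (hs : S.D0.Sec u) (x : κ1) :
    ContMDiff (𝓡 4) 𝓘(ℝ, ℝ) ∞ ((S.P.A u + S.cm a u) x) := by
  have h1 := S.P.smA u hu hs x
  have h2 : ContMDiff (𝓡 4) 𝓘(ℝ, ℝ) ∞ (S.cm a u x) :=
    sm_sum fun A => sm_sum fun y => sm_mul (sm_mul (ha A) (hu y)) (hS.smcl A x y)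
  exact h1.add h2

theorem hp_hatf (hS : S.OK) (h : TG S T cc W sT w e σ ι) (nn : ∀ z, ∑ k, τ.n k z ^ 2 = 1)
    {s b : κ0 → M → ℝ} (hb : τ.SecE S b) (z : M) :
    hp (hatf S s z) (hatf S b z) = ((sv s z ⬝ᵥ sv b z : ℝ) : ℂ) +
      Complex.I * ((sv s z ⬝ᵥ (Jm S z *ᵥ sv b z) : ℝ) : ℂ) :=
  (al_of hS h z (nn z)).hp_hat (inE_of hb z).1

theorem hp_hatf_self (hS : S.OK) (h : TG S T cc W sT w e σ ι) (nn : ∀ z, ∑ k, τ.n k z ^ 2 = 1)
    {s : κ0 → M → ℝ} (hs : τ.SecE S s) (z : M) :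
    (hp (hatf S s z) (hatf S s z)).re = ∑ y, s y z ^ 2 := by
  rw [hp_hatf hS h nn hs]
  simp only [Complex.add_re, Complex.ofReal_re, Complex.mul_re, Complex.I_re, Complex.I_im,
    Complex.ofReal_im]
  have : sv s z ⬝ᵥ sv s z = ∑ y, s y z ^ 2 :=
    Finset.sum_congr rfl fun y _ => (sq (s y z)).symm
  rw [this]; ring

theorem q_sum_right (F b : Bil) {κ : Type*} (t : Finset κ) (c : κ → Bil) :
    q F b (∑ k ∈ t, c k) = ∑ k ∈ t, q F b (c k) := by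
  classical
  induction t using Finset.induction_on with
  | empty =>
    rw [Finset.sum_empty, Finset.sum_empty]
    have := q_smul_right F 0 b 0
    rw [zero_smul, zero_mul] at this
    exact this
  | insert a t ha ih => rw [Finset.sum_insert ha, Finset.sum_insert ha, q_add_right, ih]

theorem q_sum_left (F c : Bil) {κ : Type*} (t : Finset κ) (b : κ → Bil) :
    q F (∑ k ∈ t, b k) c = ∑ k ∈ t, q F (b k) c := by
  rw [q_comm, q_sum_right]
  exact Finset.sum_congr rfl fun k _ => q_comm _ _ _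

/-- pointwise form of `T1`. -/
theorem t1_pt (hS : S.OK) (h : TG S T cc W sT w e σ ι) (ht : TE τ S T cc Z) {wt : Z2 M}
    (hwt : WT τ e wt) {a : κT → M → ℝ} (ha : Crest.Agent.R249.Tv57.SmV (n := 4) a)
    (hsa : S.DT.Sec a) {s : κ0 → M → ℝ} (hsm : Crest.Agent.R249.Tv57.SmV (n := 4) s)
    (hs : τ.SecE S s) (z : M) :
    τ.rr z ^ (-(1 / 2) : ℝ) * ∑ x, ((S.P.A (τ.sc (3 / 4) s) + S.cm a (τ.sc (3 / 4) s)) x z) ^ 2 =
      τ.rr z * (∑ y, ‖τ.nE S a s y z‖ ^ 2) +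
        2 * σ * q (at2 ((w 0).1.1 : F2 E4 M) z) ((2 : ℝ) • ∑ j,
          wed (nX (PEf τ S) (tF τ S W sT e a) (hatf S s) z j)
            (nY (PEf τ S) (tF τ S W sT e a) (hatf S s) z j)) (val wt z) := by
  have h1 : ∑ x, ((S.P.A (τ.sc (3 / 4) s) + S.cm a (τ.sc (3 / 4) s)) x z) ^ 2 =
      (τ.rr z ^ (3 / 4 : ℝ) * τ.rr z ^ (3 / 4 : ℝ)) *
        ∑ x, clG T cc z (fun y => τ.nE S a s y z) x * clG T cc z (fun y => τ.nE S a s y z) x := by
    rw [Finset.mul_sum]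
    refine Finset.sum_congr rfl fun x _ => ?_
    rw [ht.dir a s ha hsa hsm hs x z]
    unfold clG
    ring
  rw [h1, ← mul_assoc, rr_pow (ht.pos z), cl_sq hS h ht.norm a hsm hs hsm hs z, hwt z,
    q_sum_right]
  have h2 : ∀ k, q (at2 ((w 0).1.1 : F2 E4 M) z) (at2 (e k) z) (HI τ S W sT e a s s z) =
      - q (at2 ((w 0).1.1 : F2 E4 M) z) ((2 : ℝ) • ∑ j,
          wed (nX (PEf τ S) (tF τ S W sT e a) (hatf S s) z j)
            (nY (PEf τ S) (tF τ S W sT e a) (hatf S s) z j)) (at2 (e k) z) := by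
    intro k
    unfold HI
    rw [hwI_self, q_comm, neg_smul, ← neg_one_smul ℝ ((2 : ℝ) • _), q_smul_left]
    ring
  simp only [h2, q_smul_right, real_inner_self_eq_norm_sq]
  rw [mul_sub, sub_eq_add_neg]
  congr 1
  rw [← mul_assoc, ← neg_mul, Finset.mul_sum, Finset.mul_sum]
  exact Finset.sum_congr rfl fun k _ => by ring

/-- **(T1)**. -/
theorem t1 (hS : S.OK) (h : TG S T cc W sT w e σ ι) (ht : TE τ S T cc Z) {wt : Z2 M}
    (hwt : WT τ e wt) {cE : Z2 M} (hc : TC τ S W sT w e σ cE) {a : κT → M → ℝ}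
    (ha : Crest.Agent.R249.Tv57.SmV (n := 4) a)
    (hsa : S.DT.Sec a) {s : κ0 → M → ℝ} (hsm : Crest.Agent.R249.Tv57.SmV (n := 4) s)
    (hs : τ.SecE S s) :
    ∫ z, τ.rr z ^ (-(1 / 2) : ℝ) * ∑ x, ((S.P.A (τ.sc (3 / 4) s) + S.cm a (τ.sc (3 / 4) s)) x z) ^ 2
      ∂(μHE[4] : Measure M) =
    ∫ z, (τ.rr z * (∑ y, ‖τ.nE S a s y z‖ ^ 2) -
      τ.rr z * (∑ k, (S.H.B a k.succ z + τ.fE k z) * τ.n k z) * ∑ y, s y z ^ 2)
      ∂(μHE[4] : Measure M) := by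
  set F : F2 E4 M := ((w 0).1.1 : F2 E4 M) with hF
  set θ := tF τ S W sT e a with hθ
  have hln := ln_PEf (T := T) (cc := cc) hS h ht.smn ht.norm
  have hα := smV_hatf hS hsm
  have hpα := PEf_hatf hS h ht.norm hs
  have hθs : Smooth1 θ := smooth_tF hS h ht ha
  have hφ : Smooth2 (wt.1.1 : F2 E4 M) := wt.1.2
  have hcl : Closed2 (wt.1.1 : F2 E4 M) := wt.2
  set g1 : M → ℝ := fun z => q (at2 F z) ((2 : ℝ) • ∑ j, wed (nX (PEf τ S) θ (hatf S s) z j)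
            (nY (PEf τ S) θ (hatf S s) z j)) (val wt z) with hg1
  set g2 : M → ℝ := fun z => (hp (hatf S s z) (hatf S s z)).re * q (at2 F z) (Phi cE θ z) (val wt z)
    with hg2
  set A : M → ℝ := fun z => τ.rr z ^ (-(1 / 2) : ℝ) *
    ∑ x, ((S.P.A (τ.sc (3 / 4) s) + S.cm a (τ.sc (3 / 4) s)) x z) ^ 2 with hA
  have hT : ∫ z, g1 z ∂(μHE[4] : Measure M) = ∫ z, g2 z ∂(μHE[4] : Measure M) := by
    have h1 := T1 (vol_w h) hln hc.ch hθs hα hpα hφ hcl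
    rw [int_mu h, int_mu h] at h1
    exact mul_left_cancel₀ two_ne_zero h1
  have cg2 : Continuous g2 :=
    (SmoothF.cont (smC_hp hα hα).re).mul (cont_Phi (vol_w h) cE hθs hφ)
  have cg1 : Continuous g1 := by
    have h1 := cont_hwI (vol_w h) hln hc.ch hθs hα hα hpα hpα hφ
    have h2 : g1 = fun z => - q (at2 F z) (hwI (nX (PEf τ S) θ (hatf S s) z)
        (nY (PEf τ S) θ (hatf S s) z) (nX (PEf τ S) θ (hatf S s) z)
        (nY (PEf τ S) θ (hatf S s) z)) (at2 (wt.1.1 : F2 E4 M) z) := by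
      funext z
      rw [hwI_self, neg_smul, ← neg_one_smul ℝ ((2 : ℝ) • _), q_smul_left]
      show _ = -(-1 * q (at2 F z) _ (val wt z))
      rw [hg1]; ring
    rw [h2]
    exact h1.neg
  have cA : Continuous A := by
    refine (sm_rpow ht.smrr ht.pos _).continuous.mul (continuous_finsetSum _ fun x _ => ?_)
    exact (sm_D hS ha (sm_sc ht _ hsm) (sec_sc _ hs.1) x).continuous.pow 2
  have key : ∀ z, τ.rr z * (∑ y, ‖τ.nE S a s y z‖ ^ 2) -
      τ.rr z * (∑ k, (S.H.B a k.succ z + τ.fE k z) * τ.n k z) * ∑ y, s y z ^ 2 =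
      (A z - 2 * σ * g1 z) + 2 * σ * g2 z := by
    intro z
    have h1 : A z = τ.rr z * (∑ y, ‖τ.nE S a s y z‖ ^ 2) + 2 * σ * g1 z :=
      t1_pt hS h ht hwt ha hsa hsm hs z
    have h2 : τ.rr z * (∑ k, (S.H.B a k.succ z + τ.fE k z) * τ.n k z) =
        -(2 * σ) * q (at2 F z) (Phi cE θ z) (val wt z) := by
      rw [hwt z, q_sum_right, Finset.mul_sum, Finset.mul_sum]
      refine Finset.sum_congr rfl fun k _ => ?_
      rw [curv_eq hS h ht hc ha hsa, q_smul_right, q_comm _ (Phi cE θ z)]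
      ring
    have h3 : g2 z = (hp (hatf S s z) (hatf S s z)).re * q (at2 F z) (Phi cE θ z) (val wt z) := rfl
    rw [h2, h1, h3, hp_hatf_self hS h ht.norm hs]
    ring
  rw [integral_congr_ae (Filter.Eventually.of_forall key), integral_add, integral_sub,
    integral_const_mul, integral_const_mul, hT]
  · show ∫ z, A z ∂(μHE[4] : Measure M) = _
    ring
  · exact int_cont cA
  · exact int_cont (continuous_const.mul cg1)
  · exact int_cont (cA.sub (continuous_const.mul cg1))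
  · exact int_cont (continuous_const.mul cg2)

end gl

end

end Crest.Agent.R235.Tau483
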