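import Crest.Agent.R235.FamR_692
import Crest.Agent.R235.FamB_692
import Crest.Agent.R235.SWData_451

/-!
Row 235 (S0364), package SW, model (helper692): the family from 451's `Hyp`.

* `gfm_of` : `Hyp`, `S.OK`, harmonicity, classes, `T2P` give `GFm`;
* `fam_of` : `Fam` for a class orthogonal to the triple.
-/

set_option autoImplicit false
set_option maxSynthPendingDepth 3
set_option linter.unusedSectionVars false

open scoped ContDiff ENNReal NNReal Topology Manifold Bundle RealInnerProductSpace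
open MeasureTheory Set Filter Metric Bundle Matrix

universe v

namespace Crest.Agent.R235.FamR_692

open Crest.Agent.R240 Crest.Agent.R240.Ch Crest.Agent.R240.Int Crest.Agent.R235.SWDefs_53
open Crest.Agent.R235.IndTri_451 Crest.Agent.R235.Tau483 Crest.Agent.R235.TauOK_692
open Crest.Agent.R235.SWData_451 Crest.Agent.R235.SWTn_451
open Crest.Agent.R249.Tz805 (ToF)

noncomputable section

variable {M : Type v} [MetricSpace M] [CompactSpace M] [ConnectedSpace M]
  [ChartedSpace (EuclideanSpace ℝ (Fin 4)) M] [IsManifold (𝓡 4) ∞ M]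
  [RiemannianBundle (fun p : M => TangentSpace (𝓡 4) p)]
  [IsContMDiffRiemannianBundle (𝓡 4) ∞ (EuclideanSpace ℝ (Fin 4))
    (fun p : M => TangentSpace (𝓡 4) p)]
  [IsRiemannianManifold (𝓡 4) M] [MeasurableSpace M] [BorelSpace M]
  [SecondCountableTopology M] [Nonempty M] [IsFiniteMeasureOnCompacts (μHE[4] : Measure M)]
  {κ0 κ1 κT : Type} [Fintype κ0] [Fintype κ1] [Fintype κT]
  {S : SWS M κ0 κ1 κT} {T : ToF 4 M}
    {c : κ1 → κ0 → (z : M) → TangentSpace (𝓡 4) z}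
    {W : κ0 → κ0 → (z : M) → TangentSpace (𝓡 4) z}
    {sT : κT → (z : M) → TangentSpace (𝓡 4) z} {w : Trip M} {e : Fin 3 → F2 E4 M}
    {σ ι : ℝ} {cE : E3 → Z2 M} {a : Z2 M}

/-- **the family.** -/
theorem gfm_of (h : Hyp S T c W sT w e σ ι (wwf (fun i => (w i).1.1) e) cE) (hS : S.OK)
    (harm : ∀ i x z, S.H.A (Fin.cons (fun _ => 0) (wwf (fun i => (w i).1.1) e i)) x z = 0)
    (cl : ∀ t : E3, ‖t‖ = 1 → cls (cE t) = cls a)
    (hT2 : ∃ C, ∀ t : E3, ‖t‖ = 1 →
      T2P (tauF S T c W sT w e σ (wwf (fun i => (w i).1.1) e) cE t) S C) :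
    ∃ B C2, GFm S T c W sT w e σ ι (wwf (fun i => (w i).1.1) e)
      (tauF S T c W sT w e σ (wwf (fun i => (w i).1.1) e) cE) a cE B C2 := by
  obtain ⟨B, -, hB⟩ := h.bPhi
  obtain ⟨C2, h2⟩ := hT2
  exact ⟨B, C2,
    { ok := hS
      tg := h.tg
      smw := h.smw
      harm := harm
      ndeg := fun t z ht => h.lt.ndeg t z ht
      rr := fun t z _ => rfl
      nn := fun t k z ht => h.lt.mul_nt (Hyp.ne_of ht) k z
      wwe := fun i x => wwf_eq h.tg.tri i x
      te := fun t ht => ⟨_, h.te (Hyp.ne_of ht)⟩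
      tc := fun t ht => h.tc (Hyp.ne_of ht)
      cl := cl
      cfE := h.cfE
      bd := fun t ht z u v => hB t ht z u v
      t2 := h2 }⟩

/-- **`Fam`** for a class orthogonal to the triple. -/
theorem fam_of (h : Hyp S T c W sT w e σ ι (wwf (fun i => (w i).1.1) e) cE) (hS : S.OK)
    (harm : ∀ i x z, S.H.A (Fin.cons (fun _ => 0) (wwf (fun i => (w i).1.1) e i)) x z = 0)
    (cl : ∀ t : E3, ‖t‖ = 1 → cls (cE t) = cls a)
    (hT2 : ∃ C, ∀ t : E3, ‖t‖ = 1 →
      T2P (tauF S T c W sT w e σ (wwf (fun i => (w i).1.1) e) cE t) S C)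
    (hort : ∀ i, ip (w 0) (cls a) (cls (w i)) = 0) :
    ∃ C, Fam S (wwf (fun i => (w i).1.1) e)
      (tauF S T c W sT w e σ (wwf (fun i => (w i).1.1) e) cE) C
      (4 * Real.pi ^ 2 * pI (w 0) a a) := by
  obtain ⟨B, C2, G⟩ := gfm_of h hS harm cl hT2
  exact ⟨_, G.fam hort⟩

/-- **`TD.OK`** with a uniform constant. -/
theorem tau_ok (h : Hyp S T c W sT w e σ ι (wwf (fun i => (w i).1.1) e) cE) (hS : S.OK)
    (harm : ∀ i x z, S.H.A (Fin.cons (fun _ => 0) (wwf (fun i => (w i).1.1) e i)) x z = 0)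
    (cl : ∀ t : E3, ‖t‖ = 1 → cls (cE t) = cls a)
    (hT2 : ∃ C, ∀ t : E3, ‖t‖ = 1 →
      T2P (tauF S T c W sT w e σ (wwf (fun i => (w i).1.1) e) cE t) S C) :
    ∃ C, ∀ t : E3, ‖t‖ = 1 →
      (tauF S T c W sT w e σ (wwf (fun i => (w i).1.1) e) cE t).OK S C := by
  obtain ⟨B, C2, G⟩ := gfm_of h hS harm cl hT2
  exact ⟨C2, fun t ht => G.tauOK le_rfl t ht⟩

end

end Crest.Agent.R235.FamR_692
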