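import Crest.Agent.R235.FamT_151

/-!
Row 235 (S0364), helper151. Block FAM: the output for index `0`, `b₊ = 3`: `FW`, `NZ`, `OneRayW`
of `FamW_307`.
-/

set_option autoImplicit false
set_option linter.unusedSectionVars false

open Set Filter Topology Module
open scoped ContDiff

namespace Crest.Agent.R235.FamR_151

section sw

open FamDefs_307 FamW_307 Hopf_143

variable {b : ℕ} {X Y : Type*} [NormedAddCommGroup X] [InnerProductSpace ℂ X]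
  [CompleteSpace X] [NormedAddCommGroup Y] [InnerProductSpace ℂ Y] [CompleteSpace Y]
  {Φ : PFam b X Y} {T YR G : Type} [NormedAddCommGroup T] [NormedSpace ℝ T]
  [FiniteDimensional ℝ T] [NormedAddCommGroup YR] [NormedSpace ℝ YR] [FiniteDimensional ℝ YR]
  [NormedAddCommGroup G] [NormedSpace ℂ G] [FiniteDimensional ℂ G]

/-- the reduced system for index `0`. -/
theorem Core.fw (Γ : Core Φ T YR G) (L : T ≃L[ℝ] YR)
    (hL : ∀ t h, ‖t‖ ≤ 1 → Γ.Ec t h 0 = L t)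
    (hind : finrank ℂ (LinearMap.ker (Φ.D 0 : X →ₗ[ℂ] Y)) =
      finrank ℂ ((LinearMap.range (Φ.D 0 : X →ₗ[ℂ] Y))ᗮ : Submodule ℂ Y))
    (W : Submodule ℂ Y) [FiniteDimensional ℂ W] (hs : ∀ h, Function.Surjective (Φ.A W h))
    {n : ℕ} (fr : Φ.Fr W n) {ε : ℝ} (hW : Γ.Appr W ε)
    (hε : ∀ t h x, ‖t‖ ≤ 1 → h ∈ QQ b → Γ.N h x = Γ.R1 → Γ.Ec t h x = 0 →
      ε ≤ ‖Φ.D h x + Γ.K t x‖) :
    ∃ R : ℝ, FW b (finrank ℂ W) fr.P L (Γ.fR W fr) (fun q => Core.rep W (Γ.fW W fr q)) R := by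
  obtain ⟨R, hR⟩ := Γ.rsys W fr hW hε
  obtain ⟨R', hR'⟩ := Γ.big W fr hW hε
  have hnc := Φ.kn_finrank W hs 0
  have hm : finrank ℂ (kn (Φ.A W 0)) = finrank ℂ W := by omega
  refine ⟨R', {
    proj := by rw [← hm]; exact hR.proj
    wdim := finrank_euclideanSpace_fin
    cR := hR.cR
    cW := (Core.rep W).continuous.comp (Γ.fW_cont W fr)
    eqR := hR.eqR
    eqW := fun t h ψ z hz => congrArg Prod.fst (Γ.fC_smul W fr t h ψ hz)
    pR := hR.pR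
    pW := fun t h ψ k => congrArg Prod.fst (Γ.fC_per W fr t h k ψ)
    fix := fun t h ht => by
      show Γ.Ec (cl t) h (((Γ.rr h (Core.xx W fr h 0) : ℝ) : ℂ) • Core.xx W fr h 0) = _
      have e4 : Core.xx W fr h 0 = 0 := by
        rw [Core.xx, map_zero]; rfl
      rw [e4, smul_zero, cl_of_le ht, hL t h ht]
    big := fun t h ψ ht hP hRψ hfR h0 =>
      hR' t h ψ ht hP hRψ hfR ((map_eq_zero_iff (Core.rep W) (Core.rep W).injective).1 h0) }⟩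

/-- **no solutions over the boundary.** -/
theorem fw_nz {K : T → X → Y} {Ec : T → X → YR} (hS : SWd Φ K Ec) (L : T ≃L[ℝ] YR)
    (hseg : ∀ t, ‖t‖ = 1 → ∀ s ∈ Icc (0 : ℝ) 1, (1 - s) • Ec t 0 + s • L t ≠ 0)
    (hind : finrank ℂ (LinearMap.ker (Φ.D 0 : X →ₗ[ℂ] Y)) =
      finrank ℂ ((LinearMap.range (Φ.D 0 : X →ₗ[ℂ] Y))ᗮ : Submodule ℂ Y))
    (hno : ∀ t h x, ‖t‖ = 1 → Ec t x = 0 → Φ.D h x + K t x ≠ 0) :
    ∃ (W : Submodule ℂ Y) (_ : FiniteDimensional ℂ W), (∀ h, Function.Surjective (Φ.A W h)) ∧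
      ∃ (n : ℕ) (fr : Φ.Fr W n) (fR : T × (Fin b → ℝ) × EuclideanSpace ℂ (Fin n) → YR)
        (fW : T × (Fin b → ℝ) × EuclideanSpace ℂ (Fin n) →
          EuclideanSpace ℂ (Fin (finrank ℂ W))) (R : ℝ),
        FW b (finrank ℂ W) fr.P L fR fW R ∧ NZ fr.P fR fW univ := by
  obtain ⟨Γ, hK, hg, hv, hE0, hE1, -, hin⟩ := hS.exists_core (G := ℂ) (fun t => L t)
    L.continuous.continuousOn hseg (fun _ _ _ => 0) continuousOn_const
    (fun t h x z hz => by simp) (fun t h k x => rfl) 1 one_ne_zero 0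
  obtain ⟨ε1, hε1, hnz⟩ := Γ.nz (s := univ) isClosed_univ (fun _ _ _ => mem_univ _)
    (fun t h x ht _ h1 => by
      rw [hK]
      exact hno t h x ht (hE1 t h x ht h1))
  obtain ⟨ε2, hε2, hgood⟩ := Γ.good
  obtain ⟨W, hWf, hWs, -, hWA⟩ := Γ.exists_W (min ε1 ε2) (lt_min hε1 hε2) 0
  obtain ⟨n, ⟨fr⟩⟩ := Φ.exists_Fr W hWs
  obtain ⟨R, hR⟩ := Γ.fw L (fun t h _ => hE0 t h) hind W hWs fr (hWA.mono (min_le_right _ _)) hgood
  refine ⟨W, hWf, hWs, n, fr, _, _, R, hR, fun t h ψ ht _ hψ h1 h2 => ?_⟩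
  exact hnz W (hWA.mono (min_le_left _ _)) fr t h ψ ht (mem_univ _) h1
    ((map_eq_zero_iff (Core.rep W) (Core.rep W).injective).1 h2)

/-- points with a half-integral coordinate. -/
def Half (b : ℕ) : Set (Fin b → ℝ) := {h | ∃ k, Real.cos (2 * Real.pi * h k) = -1}

theorem half_closed (b : ℕ) : IsClosed (Half b) := by
  have : Half b = ⋃ k : Fin b, {h : Fin b → ℝ | Real.cos (2 * Real.pi * h k) = -1} := by
    ext h; simp [Half]
  rw [this]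
  refine isClosed_iUnion_of_finite fun k => ?_
  exact isClosed_eq (by fun_prop) continuous_const

theorem half_per {b : ℕ} (h : Fin b → ℝ) (k : Fin b → ℤ) (hh : h + zv k ∈ Half b) :
    h ∈ Half b := by
  obtain ⟨j, hj⟩ := hh
  refine ⟨j, ?_⟩
  have : 2 * Real.pi * (h + zv k) j = 2 * Real.pi * h j + (k j : ℝ) * (2 * Real.pi) := by
    simp [zv]; ring
  rwa [this, Real.cos_add_int_mul_two_pi] at hj

theorem zv_not_half {b : ℕ} (k : Fin b → ℤ) : zv k ∉ Half b := by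
  rintro ⟨j, hj⟩
  have h1 : 2 * Real.pi * zv k j = (k j : ℝ) * (2 * Real.pi) := by simp [zv]; ring
  rw [h1] at hj
  have h2 : Real.cos ((k j : ℝ) * (2 * Real.pi)) = 1 := Real.cos_int_mul_two_pi _
  rw [h2] at hj
  norm_num at hj

theorem slice_half {i j : Fin 4} {h : Fin 4 → ℝ}
    (hh : ∀ k, k ≠ i → k ≠ j → h k = 1 / 2) : h ∈ Half 4 := by
  have hex : ∀ i j : Fin 4, ∃ k : Fin 4, k ≠ i ∧ k ≠ j := by decide
  obtain ⟨k, hk⟩ := hex i j
  refine ⟨k, ?_⟩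
  rw [hh k hk.1 hk.2]
  have : 2 * Real.pi * (1 / 2) = Real.pi := by ring
  rw [this, Real.cos_pi]

theorem s0_eq : s0 = EuclideanSpace.single (0 : Fin 2) (1 : ℂ) := by
  refine Hopf_143.ext2 ?_ ?_
  · simp
  · simp

/-- the value `C²` functional gives `OneRayW`. -/
theorem oneRayW_of {Γ : Core Φ E3 YR C2} (hv : Γ.v = s0)
    (W : Submodule ℂ Y) [FiniteDimensional ℂ W] {n : ℕ} (fr : Φ.Fr W n)
    (h : OneRay fr.P (Γ.fR W fr) (Γ.fC W fr)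
      ((0, Γ.v) : EuclideanSpace ℂ (Fin (finrank ℂ W)) × C2)) :
    OneRayW fr.P (Γ.fR W fr) (fun q => Core.rep W (Γ.fW W fr q)) := by
  refine ⟨fun q => (Γ.fC W fr q).2, continuous_snd.comp (Γ.fC_cont W fr), ?_, ?_, ?_⟩
  · intro t h ψ z hz
    exact congrArg Prod.snd (Γ.fC_smul W fr t h ψ hz)
  · intro t h ψ k
    exact congrArg Prod.snd (Γ.fC_per W fr t h k ψ)
  · rw [hv, s0_eq] at h
    exact h

/-- the lower bound of a segment. -/
theorem seg_bound {Ec : E3 → X → YR} (hc : ContinuousOn (fun q : E3 × X => Ec q.1 q.2)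
    {q | ‖q.1‖ ≤ 1}) (Lm : E3 → YR) (hLm : ContinuousOn Lm {t | ‖t‖ ≤ 1})
    (hseg : ∀ t, ‖t‖ = 1 → ∀ s ∈ Icc (0 : ℝ) 1, (1 - s) • Ec t 0 + s • Lm t ≠ 0) :
    ∃ m0 > 0, ∀ t, ‖t‖ = 1 → ∀ s ∈ Icc (0 : ℝ) 1, m0 ≤ ‖(1 - s) • Ec t 0 + s • Lm t‖ := by
  have hcpt : IsCompact (Metric.sphere (0 : E3) 1 ×ˢ Icc (0 : ℝ) 1) :=
    (isCompact_sphere _ _).prod isCompact_Icc
  have hcont : ContinuousOn (fun q : E3 × ℝ => ‖(1 - q.2) • Ec q.1 0 + q.2 • Lm q.1‖)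
      (Metric.sphere (0 : E3) 1 ×ˢ Icc (0 : ℝ) 1) := by
    have e1 : ContinuousOn (fun q : E3 × ℝ => Ec q.1 0)
        (Metric.sphere (0 : E3) 1 ×ˢ Icc (0 : ℝ) 1) :=
      hc.comp (f := fun q : E3 × ℝ => (q.1, (0 : X)))
        (continuous_fst.prodMk continuous_const).continuousOn
        (fun q hq => (mem_sphere_zero_iff_norm.1 hq.1).le)
    have e2 : ContinuousOn (fun q : E3 × ℝ => Lm q.1)
        (Metric.sphere (0 : E3) 1 ×ˢ Icc (0 : ℝ) 1) :=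
      hLm.comp continuous_fst.continuousOn (fun q hq => (mem_sphere_zero_iff_norm.1 hq.1).le)
    exact (((continuous_const.sub continuous_snd).continuousOn.smul e1).add
      (continuous_snd.continuousOn.smul e2)).norm
  have hE : (Metric.sphere (0 : E3) 1 ×ˢ Icc (0 : ℝ) 1).Nonempty :=
    ⟨(hopf s0, 0), mem_sphere_zero_iff_norm.2 norm_hopf_s0, ⟨le_rfl, zero_le_one⟩⟩
  obtain ⟨q, hq, hmin⟩ := hcpt.exists_isMinOn hE hcont
  exact ⟨_, norm_pos_iff.2 (hseg q.1 (mem_sphere_zero_iff_norm.1 hq.1) q.2 hq.2),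
    fun t ht s hs => hmin (⟨mem_sphere_zero_iff_norm.2 ht, hs⟩ :
      (t, s) ∈ Metric.sphere (0 : E3) 1 ×ˢ Icc (0 : ℝ) 1)⟩

open FamE_151 in
/-- **the Hopf family over the boundary**, index `0`. -/
theorem fw_hopf {K : E3 → X → Y} {Ec : E3 → X → YR} {Ψ : C2 → X} (hS : SWd Φ K Ec)
    (A : E3 ≃ₗᵢ[ℝ] E3) (hP : HopfP Φ K Ec (fun s => A (hopf s)) Ψ) (L0 : E3 ≃L[ℝ] YR)
    (hseg : ∀ t, ‖t‖ = 1 → ∀ s ∈ Icc (0 : ℝ) 1, (1 - s) • Ec t 0 + s • L0 t ≠ 0)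
    (hind : finrank ℂ (LinearMap.ker (Φ.D 0 : X →ₗ[ℂ] Y)) =
      finrank ℂ ((LinearMap.range (Φ.D 0 : X →ₗ[ℂ] Y))ᗮ : Submodule ℂ Y)) :
    ∃ (W : Submodule ℂ Y) (_ : FiniteDimensional ℂ W), (∀ h, Function.Surjective (Φ.A W h)) ∧
      ∃ (n : ℕ) (fr : Φ.Fr W n) (fR : E3 × (Fin b → ℝ) × EuclideanSpace ℂ (Fin n) → YR)
        (fW : E3 × (Fin b → ℝ) × EuclideanSpace ℂ (Fin n) →
          EuclideanSpace ℂ (Fin (finrank ℂ W))) (R : ℝ),
        FW b (finrank ℂ W) fr.P (A.toContinuousLinearEquiv.trans L0) fR fW R ∧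
        OneRayW fr.P fR fW ∧ NZ fr.P fR fW (Half b) := by
  obtain ⟨m0, hm0, hm⟩ := seg_bound hS.Ec_cont (fun t => L0 t) L0.continuous.continuousOn hseg
  set η : ℝ := m0 / (2 * (‖(L0 : E3 →L[ℝ] YR)‖ + 1)) with hηdef
  have hη : 0 < η := by positivity
  obtain ⟨δ, hδ, hδ1, hclose⟩ := ph_close hη
  obtain ⟨th, thc, th1, th2, th3, th4, th5⟩ := exists_theta hP.cpi hP.npi hP.piz hδ hδ1
  have hS' := hS.comp thc th1
  have hZ := hP.toZ hδ hδ1 th2 th3 th5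
  have hthA : ∀ t, ‖t‖ = 1 → ‖A t - th t‖ ≤ η := by
    intro t ht
    obtain ⟨s, hs, rfl⟩ := hopf_surj ht
    rw [th3 s hs, ← map_sub, A.norm_map, norm_sub_rev]
    exact hclose s hs
  obtain ⟨Γ, hK, hv, hE0, hE1, r0, hpt⟩ := hS'.exists_pt hZ (fun t => L0 (A t))
    (L0.continuous.comp A.continuous).continuousOn (by
      intro t ht s hs h0
      have e1 := hm (th t) (th2 t ht) s hs
      have e2 : (1 - s) • Ec (th t) 0 + s • L0 (th t) = -(s • L0 (A t - th t)) := by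
        have e3 : (1 - s) • Ec (th t) 0 + s • L0 (th t) + s • L0 (A t - th t) = 0 := by
          rw [map_sub, smul_sub, ← h0]
          abel
        exact eq_neg_of_add_eq_zero_left e3
      rw [e2, norm_neg, norm_smul, Real.norm_eq_abs, abs_of_nonneg hs.1] at e1
      have e4 : ‖L0 (A t - th t)‖ ≤ ‖(L0 : E3 →L[ℝ] YR)‖ * η :=
        ((L0 : E3 →L[ℝ] YR).le_opNorm _).trans
          (mul_le_mul_of_nonneg_left (hthA t ht) (norm_nonneg _))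
      have e5 : ‖(L0 : E3 →L[ℝ] YR)‖ * η ≤ m0 / 2 := by
        have e6 : (‖(L0 : E3 →L[ℝ] YR)‖ + 1) * η = m0 / 2 := by
          rw [hηdef]; field_simp
        nlinarith
      have e7 : s * ‖L0 (A t - th t)‖ ≤ m0 / 2 := by
        calc s * ‖L0 (A t - th t)‖ ≤ 1 * ‖L0 (A t - th t)‖ :=
              mul_le_mul_of_nonneg_right hs.2 (norm_nonneg _)
          _ ≤ m0 / 2 := by rw [one_mul]; exact e4.trans e5
      linarith)
  obtain ⟨ε1, hε1, hone⟩ := Γ.one_ray hpt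
  obtain ⟨ε2, hε2, hgood⟩ := Γ.good
  obtain ⟨ε3, hε3, hnz⟩ := Γ.nz (half_closed b) half_per (fun t h x ht hh h1 h2 => by
    rw [hK] at h2
    obtain ⟨s, hs, -, k, hk, -⟩ := hZ.zz t h x ht (hE1 t h x ht h1) h2
    rw [hk] at hh
    exact zv_not_half k hh)
  obtain ⟨W, hWf, hWs, hWK, hWA⟩ := Γ.exists_W (min ε1 (min ε2 ε3))
    (lt_min hε1 (lt_min hε2 hε3)) (Γ.K (hopf s0) (Ψ (FamE_151.ph δ s0)))
  obtain ⟨n, ⟨fr⟩⟩ := Φ.exists_Fr W hWs
  obtain ⟨R, hR⟩ := Γ.fw (A.toContinuousLinearEquiv.trans L0) (fun t h _ => hE0 t h) hind W hWs fr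
    (hWA.mono ((min_le_right _ _).trans (min_le_left _ _))) hgood
  refine ⟨W, hWf, hWs, n, fr, _, _, R, hR,
    oneRayW_of hv W fr (hone W hWK (hWA.mono (min_le_left _ _)) fr), ?_⟩
  intro t h ψ ht hh hψ h1 h2
  exact hnz W (hWA.mono ((min_le_right _ _).trans (min_le_right _ _))) fr t h ψ ht hh h1
    ((map_eq_zero_iff (Core.rep W) (Core.rep W).injective).1 h2)

end sw

end Crest.Agent.R235.FamR_151
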