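import Crest.Agent.R235.SupbA_433
import Crest.Agent.R235.Cpt_755

/-!
# Row 235, SW-WTZ (helper86): the Weitzenboeck identity on `W^{1,2}`

`wtzH : S.OK → Emb4 S.DT.toAD.i1 → Emb4 S.D0.toAD.i1 → WtzH S` (`Emb4` = the Sobolev embedding
`W^{1,2} ⊂ L⁴`, `Cpt_755`): every term is continuous on `W^{1,2}(DT) × W^{1,2}(D0) × W^{1,2}(D0)`,
smooth sections are dense (`Dns_433.dns`).
* `bilin_pr` : the product `L⁴ × L⁴ → L²` on `W^{1,2}` spaces is a bounded bilinear map;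
* `CM`, `NM`, `RM` : the products `c(a) i u`, `(J u) a`, `⟨ρ_k u, w⟩` as elements of `L²`.
-/

set_option autoImplicit false
set_option linter.unusedSectionVars false
set_option maxSynthPendingDepth 3
open scoped ContDiff ENNReal NNReal Topology Manifold Bundle RealInnerProductSpace
open MeasureTheory Set Filter Metric Bundle

noncomputable section
namespace Crest.Agent.R235.WtzW_86

open Crest.Agent.R249.Tv57 Crest.Agent.R247.Ms322 Crest.Agent.R247.Dir593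
open Crest.Agent.R235.SWDefs_53 Crest.Agent.R235.Fs4_546 Crest.Agent.R235.Cpt_755
open Crest.Agent.R235.CptC_755 Crest.Agent.R235.SupbA_433 Crest.Agent.R235.Dns_433

universe v

/-! ### products of `L⁴` functions -/

section prod
variable {X : Type*} [MeasurableSpace X] {μ : Measure X}

theorem pr_add_left {u u' v : Lp ℝ 2 μ} (hu : MemLp (u : X → ℝ) 4 μ)
    (hu' : MemLp (u' : X → ℝ) 4 μ) (hv : MemLp (v : X → ℝ) 4 μ) :
    pr (u + u') v = pr u v + pr u' v := by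
  have hs : MemLp ((u + u' : Lp ℝ 2 μ) : X → ℝ) 4 μ :=
    (memLp_congr_ae (Lp.coeFn_add u u')).2 (hu.add hu')
  ext1
  filter_upwards [coe_pr hs hv, coe_pr hu hv, coe_pr hu' hv, Lp.coeFn_add (pr u v) (pr u' v),
    Lp.coeFn_add u u'] with x e1 e2 e3 e4 e5
  rw [e1, e4, Pi.add_apply, e2, e3, e5, Pi.add_apply, add_mul]

theorem pr_smul_left (c : ℝ) {u v : Lp ℝ 2 μ} (hu : MemLp (u : X → ℝ) 4 μ)
    (hv : MemLp (v : X → ℝ) 4 μ) : pr (c • u) v = c • pr u v := by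
  have hs : MemLp ((c • u : Lp ℝ 2 μ) : X → ℝ) 4 μ :=
    (memLp_congr_ae (Lp.coeFn_smul c u)).2 (hu.const_smul c)
  ext1
  filter_upwards [coe_pr hs hv, coe_pr hu hv, Lp.coeFn_smul c (pr u v), Lp.coeFn_smul c u]
    with x e1 e2 e3 e4
  rw [e1, e3, Pi.smul_apply, e2, e4, Pi.smul_apply, smul_mul_assoc]

variable {W WA : Type*} [NormedAddCommGroup W] [NormedSpace ℝ W] [NormedAddCommGroup WA]
  [NormedSpace ℝ WA] {κ α : Type} [Fintype κ] [Fintype α]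

theorem bilin_pr {jA : WA →L[ℝ] HH μ α} (hA : Emb4 jA) {j : W →L[ℝ] HH μ κ} (hj : Emb4 j)
    (b : α) (y : κ) :
    IsBoundedBilinearMap ℝ fun q : WA × W => pr ((jA q.1) b) ((j q.2) y) := by
  obtain ⟨CA, hCA0, hCA⟩ := hA
  obtain ⟨C, hC0, hC⟩ := hj
  refine ⟨fun x x' z => ?_, fun c x z => ?_, fun x z z' => ?_, fun c x z => ?_,
    CA * C + 1, by positivity, fun x z => ?_⟩
  · have h : (jA (x + x')) b = (jA x) b + (jA x') b := by rw [map_add]; rfl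
    show pr ((jA (x + x')) b) ((j z) y) = _
    rw [h]
    exact pr_add_left (hCA _ _).1 (hCA _ _).1 (hC _ _).1
  · have h : (jA (c • x)) b = c • (jA x) b := by rw [map_smul]; rfl
    show pr ((jA (c • x)) b) ((j z) y) = _
    rw [h]
    exact pr_smul_left c (hCA _ _).1 (hC _ _).1
  · have h : (j (z + z')) y = (j z) y + (j z') y := by rw [map_add]; rfl
    show pr ((jA x) b) ((j (z + z')) y) = pr ((jA x) b) ((j z) y) + pr ((jA x) b) ((j z') y)
    rw [h, pr_comm, pr_add_left (hC _ _).1 (hC _ _).1 (hCA _ _).1, pr_comm, pr_comm ((j z') y)]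
  · have h : (j (c • z)) y = c • (j z) y := by rw [map_smul]; rfl
    show pr ((jA x) b) ((j (c • z)) y) = c • pr ((jA x) b) ((j z) y)
    rw [h, pr_comm, pr_smul_left c (hC _ _).1 (hCA _ _).1, pr_comm]
  · show ‖pr ((jA x) b) ((j z) y)‖ ≤ _
    have h1 := norm_pr_le (hCA x b).1 (hC z y).1
    have h2 := (hCA x b).2
    have h3 := (hC z y).2
    have h4 := N4_nonneg (μ := μ) ((jA x) b : X → ℝ)
    have h5 := N4_nonneg (μ := μ) ((j z) y : X → ℝ)
    have h6 : ‖pr ((jA x) b) ((j z) y)‖ ≤ (CA * ‖x‖) * (C * ‖z‖) :=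
      h1.trans (mul_le_mul h2 h3 h5 (by positivity))
    have h7 : 0 ≤ ‖x‖ * ‖z‖ := by positivity
    nlinarith

theorem cont_pr {jA : WA →L[ℝ] HH μ α} (hA : Emb4 jA) {j : W →L[ℝ] HH μ κ} (hj : Emb4 j)
    (b : α) (y : κ) : Continuous fun q : WA × W => pr ((jA q.1) b) ((j q.2) y) :=
  (bilin_pr hA hj b y).continuous

/-- the pairing in `L²(X; F)^κ` -/
theorem inner_GG {F : Type*} [NormedAddCommGroup F] [InnerProductSpace ℝ F]
    (u v : GG F μ κ) {f g : κ → X → F} (hf : ∀ᵐ x ∂μ, ∀ a, (u a : X → F) x = f a x)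
    (hg : ∀ᵐ x ∂μ, ∀ a, (v a : X → F) x = g a x) :
    ⟪u, v⟫ = ∫ x, ∑ a, ⟪f a x, g a x⟫ ∂μ ∧ Integrable (fun x => ∑ a, (⟪f a x, g a x⟫ : ℝ)) μ := by
  have h0 : (fun x => ∑ a, (⟪(u a : X → F) x, (v a : X → F) x⟫ : ℝ)) =ᵐ[μ]
      fun x => ∑ a, (⟪f a x, g a x⟫ : ℝ) := by
    filter_upwards [hf, hg] with x e1 e2
    exact Finset.sum_congr rfl fun a _ => by rw [e1 a, e2 a]
  have h1 : Integrable (fun x => ∑ a, (⟪(u a : X → F) x, (v a : X → F) x⟫ : ℝ)) μ :=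
    integrable_finsetSum _ fun a _ => L2.integrable_inner _ _
  refine ⟨?_, h1.congr h0⟩
  rw [PiLp.inner_apply]
  simp only [L2.inner_def]
  rw [← integral_finsetSum]
  · exact integral_congr_ae h0
  · intro a _
    exact L2.integrable_inner _ _

theorem inner_HH' (u v : HH μ κ) {f g : κ → X → ℝ} (hf : ∀ᵐ x ∂μ, ∀ a, (u a : X → ℝ) x = f a x)
    (hg : ∀ᵐ x ∂μ, ∀ a, (v a : X → ℝ) x = g a x) :
    ⟪u, v⟫ = ∫ x, ∑ a, f a x * g a x ∂μ ∧ Integrable (fun x => ∑ a, f a x * g a x) μ := by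
  have h0 : (fun x => ∑ a, (u a : X → ℝ) x * (v a : X → ℝ) x) =ᵐ[μ]
      fun x => ∑ a, f a x * g a x := by
    filter_upwards [hf, hg] with x e1 e2
    exact Finset.sum_congr rfl fun a _ => by rw [e1 a, e2 a]
  have h1 : Integrable (fun x => ∑ a, (u a : X → ℝ) x * (v a : X → ℝ) x) μ :=
    integrable_finsetSum _ fun a _ => (Lp.memLp (u a)).integrable_mul (Lp.memLp (v a))
  exact ⟨inner_HH u v hf hg, h1.congr h0⟩

end prod

/-! ### the terms of the identity -/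

section main
variable {M : Type v} [MetricSpace M] [CompactSpace M] [ConnectedSpace M]
  [ChartedSpace (EuclideanSpace ℝ (Fin 4)) M] [IsManifold (𝓡 4) ∞ M]
  [RiemannianBundle (fun p : M => TangentSpace (𝓡 4) p)]
  [IsContMDiffRiemannianBundle (𝓡 4) ∞ (EuclideanSpace ℝ (Fin 4))
    (fun p : M => TangentSpace (𝓡 4) p)]
  [IsRiemannianManifold (𝓡 4) M] [MeasurableSpace M] [BorelSpace M]
  [SecondCountableTopology M] [Nonempty M] [IsFiniteMeasureOnCompacts (μHE[4] : Measure M)]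
  {κ0 κ1 κT : Type} [Fintype κ0] [Fintype κ1] [Fintype κT] (S : SWS M κ0 κ1 κT)

local notation "𝔼" => EuclideanSpace ℝ (Fin 4)

theorem bmJs (hOK : S.OK) (y y' : κ0) (A : κT) :
    BM (μHE[4] : Measure M) (fun z => S.J y y' z • S.s A z) :=
  (SmF.smul (hOK.smJ y y') (hOK.sms A)).bm

/-- `c(α) i U` in `L²` -/
def CM (hOK : S.OK) (α : S.DT.toAD.WE) (U : S.D0.toAD.WE) : HH (μHE[4] : Measure M) κ1 :=
  WithLp.toLp 2 fun x => ∑ A, ∑ y,
    mulF (bm_smooth (hOK.smcl A x y)) (pr ((S.DT.toAD.i1 α) A) ((S.D0.toAD.i1 U) y))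

/-- `(J U) α` in `L²` -/
def NM (hOK : S.OK) (α : S.DT.toAD.WE) (U : S.D0.toAD.WE) : GG 𝔼 (μHE[4] : Measure M) κ0 :=
  WithLp.toLp 2 fun y => ∑ A, ∑ y',
    mulF (bmJs S hOK y y' A) (pr ((S.DT.toAD.i1 α) A) ((S.D0.toAD.i1 U) y'))

/-- `⟨ρ_k U, W⟩` in `L²` -/
def RM (hOK : S.OK) (k : Fin 3) (U W : S.D0.toAD.WE) : Lp ℝ 2 (μHE[4] : Measure M) :=
  ∑ y, ∑ y', mulF (bm_smooth (hOK.smrho k y y')) (pr ((S.D0.toAD.i1 U) y) ((S.D0.toAD.i1 W) y'))

variable {S}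

theorem cont_CM (hOK : S.OK) (hT : Emb4 S.DT.toAD.i1) (h0 : Emb4 S.D0.toAD.i1) :
    Continuous fun q : S.DT.toAD.WE × S.D0.toAD.WE => CM S hOK q.1 q.2 := by
  refine (PiLp.continuous_toLp 2 (fun _ : κ1 => Lp ℝ 2 (μHE[4] : Measure M))).comp
    (continuous_pi fun x => ?_)
  refine continuous_finsetSum _ fun A _ => continuous_finsetSum _ fun y _ => ?_
  exact (mulF _).continuous.comp (cont_pr hT h0 A y)

theorem cont_NM (hOK : S.OK) (hT : Emb4 S.DT.toAD.i1) (h0 : Emb4 S.D0.toAD.i1) :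
    Continuous fun q : S.DT.toAD.WE × S.D0.toAD.WE => NM S hOK q.1 q.2 := by
  refine (PiLp.continuous_toLp 2 (fun _ : κ0 => Lp 𝔼 2 (μHE[4] : Measure M))).comp
    (continuous_pi fun x => ?_)
  refine continuous_finsetSum _ fun A _ => continuous_finsetSum _ fun y _ => ?_
  exact (mulF _).continuous.comp (cont_pr hT h0 A y)

theorem cont_RM (hOK : S.OK) (h0 : Emb4 S.D0.toAD.i1) (k : Fin 3) :
    Continuous fun q : S.D0.toAD.WE × S.D0.toAD.WE => RM S hOK k q.1 q.2 := by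
  refine continuous_finsetSum _ fun A _ => continuous_finsetSum _ fun y _ => ?_
  exact (mulF _).continuous.comp (cont_pr h0 h0 A y)

/-- values of a double sum of products -/
theorem coe_sum_pr {ι ι' : Type} [Fintype ι] [Fintype ι'] {F : Type*} [NormedAddCommGroup F]
    [InnerProductSpace ℝ F] {μ : Measure M} {m : ι → ι' → M → F} (hm : ∀ i i', BM μ (m i i'))
    {f : ι → Lp ℝ 2 μ} {g : ι' → Lp ℝ 2 μ} (hf : ∀ i, MemLp (f i : M → ℝ) 4 μ)
    (hg : ∀ i, MemLp (g i : M → ℝ) 4 μ) :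
    ((∑ i, ∑ i', mulF (hm i i') (pr (f i) (g i')) : Lp F 2 μ) : M → F) =ᵐ[μ]
      fun z => ∑ i, ∑ i', ((f i : M → ℝ) z * (g i' : M → ℝ) z) • m i i' z := by
  have h1 : ∀ᵐ z ∂μ, ∀ i i', (mulF (hm i i') (pr (f i) (g i')) : M → F) z =
      ((f i : M → ℝ) z * (g i' : M → ℝ) z) • m i i' z := by
    rw [ae_all_iff]; intro i; rw [ae_all_iff]; intro i'
    filter_upwards [coe_mulF (hm i i') (pr (f i) (g i')), coe_pr (hf i) (hg i')] with z e1 e2
    rw [e1, e2]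
  have h2 : ∀ᵐ z ∂μ, ∀ i, ((∑ i', mulF (hm i i') (pr (f i) (g i')) : Lp F 2 μ) : M → F) z =
      ∑ i', (mulF (hm i i') (pr (f i) (g i')) : M → F) z :=
    ae_all_iff.2 fun i => Lp.coeFn_fun_finsetSum Finset.univ _
  filter_upwards [h1, h2, Lp.coeFn_fun_finsetSum Finset.univ
    (fun i => ∑ i', mulF (hm i i') (pr (f i) (g i')))] with z e1 e2 e3
  rw [e3]
  refine Finset.sum_congr rfl fun i _ => ?_
  rw [e2 i]
  exact Finset.sum_congr rfl fun i' _ => e1 i i'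

theorem coe_CM (hOK : S.OK) (hT : Emb4 S.DT.toAD.i1) (h0 : Emb4 S.D0.toAD.i1)
    (α : S.DT.toAD.WE) (U : S.D0.toAD.WE) :
    ∀ᵐ z ∂(μHE[4] : Measure M), ∀ x, (CM S hOK α U x : M → ℝ) z = S.cm (rp α) (rp U) x z := by
  obtain ⟨_, _, hT⟩ := hT
  obtain ⟨_, _, h0⟩ := h0
  rw [ae_all_iff]
  intro x
  filter_upwards [coe_sum_pr (fun A y => bm_smooth (hOK.smcl A x y))
    (f := fun A => (S.DT.toAD.i1 α) A) (g := fun y => (S.D0.toAD.i1 U) y)
    (fun A => (hT α A).1) (fun y => (h0 U y).1)] with z e1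
  exact e1

theorem coe_NM (hOK : S.OK) (hT : Emb4 S.DT.toAD.i1) (h0 : Emb4 S.D0.toAD.i1)
    (α : S.DT.toAD.WE) (U : S.D0.toAD.WE) :
    ∀ᵐ z ∂(μHE[4] : Measure M), ∀ y, (NM S hOK α U y : M → 𝔼) z =
      (∑ y', S.J y y' z * rp U y' z) • ∑ A, rp α A z • S.s A z := by
  obtain ⟨_, _, hT⟩ := hT
  obtain ⟨_, _, h0⟩ := h0
  rw [ae_all_iff]
  intro y
  filter_upwards [coe_sum_pr (fun A y' => bmJs S hOK y y' A)
    (f := fun A => (S.DT.toAD.i1 α) A) (g := fun y => (S.D0.toAD.i1 U) y)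
    (fun A => (hT α A).1) (fun y => (h0 U y).1)] with z e1
  refine e1.trans ?_
  rw [Finset.smul_sum]
  refine Finset.sum_congr rfl fun A _ => ?_
  rw [smul_smul, Finset.sum_mul, Finset.sum_smul]
  refine Finset.sum_congr rfl fun y' _ => ?_
  rw [smul_smul]
  congr 1
  show (rp α A z * rp U y' z) * S.J y y' z = S.J y y' z * rp U y' z * rp α A z
  ring

theorem coe_RM (hOK : S.OK) (h0 : Emb4 S.D0.toAD.i1) (k : Fin 3) (U W : S.D0.toAD.WE) :
    (RM S hOK k U W : M → ℝ) =ᵐ[(μHE[4] : Measure M)]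
      fun z => ∑ y, ∑ y', S.rho k y y' z * rp U y z * rp W y' z := by
  obtain ⟨_, _, h0⟩ := h0
  filter_upwards [coe_sum_pr (fun y y' => bm_smooth (hOK.smrho k y y'))
    (f := fun y => (S.D0.toAD.i1 U) y) (g := fun y => (S.D0.toAD.i1 W) y)
    (fun y => (h0 U y).1) (fun y => (h0 W y).1)] with z e1
  refine e1.trans ?_
  refine Finset.sum_congr rfl fun y _ => Finset.sum_congr rfl fun y' _ => ?_
  show (rp U y z * rp W y' z) * S.rho k y y' z = _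
  ring

theorem cont3 {A B C : Type*} [TopologicalSpace A] [TopologicalSpace B] [TopologicalSpace C]
    {f : A → B → C} (hf : Continuous fun q : A × B => f q.1 q.2) :
    (Continuous fun q : A × B × B => f q.1 q.2.1) ∧ Continuous fun q : A × B × B => f q.1 q.2.2 := by
  constructor
  · exact hf.comp (continuous_fst.prodMk (continuous_fst.comp continuous_snd))
  · exact hf.comp (continuous_fst.prodMk (continuous_snd.comp continuous_snd))

/-- the left hand side -/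
def LH (hOK : S.OK) (q : S.DT.toAD.WE × S.D0.toAD.WE × S.D0.toAD.WE) : ℝ :=
  ⟪((Ah S.P q.2.1 : S.D1.toAD.HE) : HH (μHE[4] : Measure M) κ1) + CM S hOK q.1 q.2.1,
    ((Ah S.P q.2.2 : S.D1.toAD.HE) : HH (μHE[4] : Measure M) κ1) + CM S hOK q.1 q.2.2⟫

/-- the gradient part -/
def RH1 (hOK : S.OK) (q : S.DT.toAD.WE × S.D0.toAD.WE × S.D0.toAD.WE) : ℝ :=
  ⟪S.D0.toAD.c1 q.2.1 + NM S hOK q.1 q.2.1, S.D0.toAD.c1 q.2.2 + NM S hOK q.1 q.2.2⟫

/-- the potential part -/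
def RH2 (q : S.DT.toAD.WE × S.D0.toAD.WE × S.D0.toAD.WE) : ℝ :=
  ⟪S.D0.toAD.qL (S.D0.toAD.i1 q.2.1), S.D0.toAD.i1 q.2.2⟫

/-- the curvature part -/
def RH3 (hOK : S.OK) (q : S.DT.toAD.WE × S.D0.toAD.WE × S.D0.toAD.WE) : ℝ :=
  ∑ k : Fin 3, ⟪((Ah S.H.swap q.1 : S.DL.toAD.HE) : HH (μHE[4] : Measure M) (Fin 4)) k.succ,
    RM S hOK k q.2.1 q.2.2⟫

theorem cont_LH (hOK : S.OK) (hT : Emb4 S.DT.toAD.i1) (h0 : Emb4 S.D0.toAD.i1) :
    Continuous (LH (S := S) hOK) := by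
  have h1 : Continuous fun q : S.DT.toAD.WE × S.D0.toAD.WE × S.D0.toAD.WE =>
      ((Ah S.P q.2.1 : S.D1.toAD.HE) : HH (μHE[4] : Measure M) κ1) :=
    continuous_subtype_val.comp ((Ah S.P).continuous.comp (continuous_fst.comp continuous_snd))
  have h2 : Continuous fun q : S.DT.toAD.WE × S.D0.toAD.WE × S.D0.toAD.WE =>
      ((Ah S.P q.2.2 : S.D1.toAD.HE) : HH (μHE[4] : Measure M) κ1) :=
    continuous_subtype_val.comp ((Ah S.P).continuous.comp (continuous_snd.comp continuous_snd))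
  have h3 : Continuous fun q : S.DT.toAD.WE × S.D0.toAD.WE × S.D0.toAD.WE =>
      CM S hOK q.1 q.2.1 := (cont3 (f := CM S hOK) (cont_CM hOK hT h0)).1
  have h4 : Continuous fun q : S.DT.toAD.WE × S.D0.toAD.WE × S.D0.toAD.WE =>
      CM S hOK q.1 q.2.2 := (cont3 (f := CM S hOK) (cont_CM hOK hT h0)).2
  exact (h1.add h3).inner (h2.add h4)

theorem cont_RH1 (hOK : S.OK) (hT : Emb4 S.DT.toAD.i1) (h0 : Emb4 S.D0.toAD.i1) :
    Continuous (RH1 (S := S) hOK) := by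
  have h1 : Continuous fun q : S.DT.toAD.WE × S.D0.toAD.WE × S.D0.toAD.WE =>
      S.D0.toAD.c1 q.2.1 := S.D0.toAD.c1.continuous.comp (continuous_fst.comp continuous_snd)
  have h2 : Continuous fun q : S.DT.toAD.WE × S.D0.toAD.WE × S.D0.toAD.WE =>
      S.D0.toAD.c1 q.2.2 := S.D0.toAD.c1.continuous.comp (continuous_snd.comp continuous_snd)
  have h3 : Continuous fun q : S.DT.toAD.WE × S.D0.toAD.WE × S.D0.toAD.WE =>
      NM S hOK q.1 q.2.1 := (cont3 (f := NM S hOK) (cont_NM hOK hT h0)).1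
  have h4 : Continuous fun q : S.DT.toAD.WE × S.D0.toAD.WE × S.D0.toAD.WE =>
      NM S hOK q.1 q.2.2 := (cont3 (f := NM S hOK) (cont_NM hOK hT h0)).2
  exact (h1.add h3).inner (h2.add h4)

theorem cont_RH2 : Continuous (RH2 (S := S)) := by
  have h1 : Continuous fun q : S.DT.toAD.WE × S.D0.toAD.WE × S.D0.toAD.WE =>
      S.D0.toAD.qL (S.D0.toAD.i1 q.2.1) :=
    S.D0.toAD.qL.continuous.comp (S.D0.toAD.i1.continuous.comp
      (continuous_fst.comp continuous_snd))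
  have h2 : Continuous fun q : S.DT.toAD.WE × S.D0.toAD.WE × S.D0.toAD.WE =>
      S.D0.toAD.i1 q.2.2 := S.D0.toAD.i1.continuous.comp (continuous_snd.comp continuous_snd)
  exact h1.inner h2

theorem cont_RH3 (hOK : S.OK) (h0 : Emb4 S.D0.toAD.i1) : Continuous (RH3 (S := S) hOK) := by
  refine continuous_finsetSum _ fun k _ => ?_
  have h1 : Continuous fun q : S.DT.toAD.WE × S.D0.toAD.WE × S.D0.toAD.WE =>
      ((Ah S.H.swap q.1 : S.DL.toAD.HE) : HH (μHE[4] : Measure M) (Fin 4)) k.succ :=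
    (PiLp.continuous_apply 2 (fun _ : Fin 4 => Lp ℝ 2 (μHE[4] : Measure M)) k.succ).comp
      (continuous_subtype_val.comp ((Ah S.H.swap).continuous.comp continuous_fst))
  have h2 : Continuous fun q : S.DT.toAD.WE × S.D0.toAD.WE × S.D0.toAD.WE =>
      RM S hOK k q.2.1 q.2.2 := (cont_RM hOK h0 k).comp continuous_snd
  exact h1.inner h2

theorem coe_dirW (hOK : S.OK) (hT : Emb4 S.DT.toAD.i1) (h0 : Emb4 S.D0.toAD.i1)
    (α : S.DT.toAD.WE) (U : S.D0.toAD.WE) :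
    ∀ᵐ z ∂(μHE[4] : Measure M), ∀ x,
      ((((Ah S.P U : S.D1.toAD.HE) : HH (μHE[4] : Measure M) κ1) + CM S hOK α U) x : M → ℝ) z =
        dirW S α U x z := by
  have h1 : ∀ᵐ z ∂(μHE[4] : Measure M), ∀ x,
      ((((Ah S.P U : S.D1.toAD.HE) : HH (μHE[4] : Measure M) κ1) + CM S hOK α U) x : M → ℝ) z =
      (((Ah S.P U : S.D1.toAD.HE) : HH (μHE[4] : Measure M) κ1) x : M → ℝ) z +
        (CM S hOK α U x : M → ℝ) z := ae_all_iff.2 fun x => Lp.coeFn_add _ _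
  filter_upwards [h1, coe_CM hOK hT h0 α U] with z e1 e2 x
  rw [e1 x, e2 x, dirW]

theorem coe_nabW (hOK : S.OK) (hT : Emb4 S.DT.toAD.i1) (h0 : Emb4 S.D0.toAD.i1)
    (α : S.DT.toAD.WE) (U : S.D0.toAD.WE) :
    ∀ᵐ z ∂(μHE[4] : Measure M), ∀ y,
      ((S.D0.toAD.c1 U + NM S hOK α U) y : M → 𝔼) z = nabW S α U y z := by
  have h1 : ∀ᵐ z ∂(μHE[4] : Measure M), ∀ y,
      ((S.D0.toAD.c1 U + NM S hOK α U) y : M → 𝔼) z =
      (S.D0.toAD.c1 U y : M → 𝔼) z + (NM S hOK α U y : M → 𝔼) z :=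
    ae_all_iff.2 fun x => Lp.coeFn_add _ _
  filter_upwards [h1, coe_NM hOK hT h0 α U] with z e1 e2 y
  rw [e1 y, e2 y, nabW]

theorem LH_eq (hOK : S.OK) (hT : Emb4 S.DT.toAD.i1) (h0 : Emb4 S.D0.toAD.i1)
    (α : S.DT.toAD.WE) (U W : S.D0.toAD.WE) :
    LH hOK (α, U, W) = ∫ z, ∑ x, dirW S α U x z * dirW S α W x z ∂(μHE[4] : Measure M) :=
  (inner_HH' _ _ (coe_dirW hOK hT h0 α U) (coe_dirW hOK hT h0 α W)).1

theorem RH_eq (hOK : S.OK) (hT : Emb4 S.DT.toAD.i1) (h0 : Emb4 S.D0.toAD.i1)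
    (α : S.DT.toAD.WE) (U W : S.D0.toAD.WE) :
    Integrable (wInt S α U W) (μHE[4] : Measure M) ∧
      RH1 hOK (α, U, W) + RH2 (α, U, W) + RH3 hOK (α, U, W) =
        ∫ z, wInt S α U W z ∂(μHE[4] : Measure M) := by
  obtain ⟨h1, i1⟩ := inner_GG _ _ (coe_nabW hOK hT h0 α U) (coe_nabW hOK hT h0 α W)
  have hq : ∀ᵐ z ∂(μHE[4] : Measure M), ∀ y, (S.D0.toAD.qL (S.D0.toAD.i1 U) y : M → ℝ) z =
      ∑ y', S.D0.Q y y' z * rp U y' z := by
    filter_upwards [coe_matF S.D0.toAD.hq (S.D0.toAD.i1 U)] with z e1 y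
    refine (e1 y).trans (Finset.sum_congr rfl fun y' _ => ?_)
    rw [smul_eq_mul, mul_comm]
    rfl
  obtain ⟨h2, i2⟩ := inner_HH' (S.D0.toAD.qL (S.D0.toAD.i1 U)) (S.D0.toAD.i1 W) hq
    (g := rp W) (Eventually.of_forall fun _ _ => rfl)
  have h3 : ∀ k : Fin 3,
      ⟪((Ah S.H.swap α : S.DL.toAD.HE) : HH (μHE[4] : Measure M) (Fin 4)) k.succ,
        RM S hOK k U W⟫ = ∫ z,
        (((Ah S.H.swap α : S.DL.toAD.HE) : HH (μHE[4] : Measure M) (Fin 4)) k.succ : M → ℝ) z *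
          ∑ y, ∑ y', S.rho k y y' z * rp U y z * rp W y' z ∂(μHE[4] : Measure M) ∧
      Integrable (fun z =>
        (((Ah S.H.swap α : S.DL.toAD.HE) : HH (μHE[4] : Measure M) (Fin 4)) k.succ : M → ℝ) z *
          ∑ y, ∑ y', S.rho k y y' z * rp U y z * rp W y' z) (μHE[4] : Measure M) := by
    intro k
    set F := ((Ah S.H.swap α : S.DL.toAD.HE) : HH (μHE[4] : Measure M) (Fin 4)) k.succ with hF
    have e0 : (fun z => (⟪(F : M → ℝ) z, (RM S hOK k U W : M → ℝ) z⟫ : ℝ))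
        =ᵐ[(μHE[4] : Measure M)]
        fun z => (F : M → ℝ) z * ∑ y, ∑ y', S.rho k y y' z * rp U y z * rp W y' z := by
      filter_upwards [coe_RM hOK h0 k U W] with z e1
      rw [e1, Real.inner_apply]
    refine ⟨?_, (L2.integrable_inner F (RM S hOK k U W)).congr e0⟩
    rw [L2.inner_def]
    exact integral_congr_ae e0
  have i3 : Integrable (fun z => ∑ k : Fin 3,
        (((Ah S.H.swap α : S.DL.toAD.HE) : HH (μHE[4] : Measure M) (Fin 4)) k.succ : M → ℝ) z *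
          ∑ y, ∑ y', S.rho k y y' z * rp U y z * rp W y' z) (μHE[4] : Measure M) :=
    integrable_finsetSum _ fun k _ => (h3 k).2
  have e2 : (fun z => ∑ y, (∑ y', S.D0.Q y y' z * rp U y' z) * rp W y z) =
      fun z => ∑ y, ∑ y', S.D0.Q y y' z * rp U y' z * rp W y z := by
    funext z
    exact Finset.sum_congr rfl fun y _ => Finset.sum_mul _ _ _
  rw [e2] at i2
  have h2' : RH2 (α, U, W) = ∫ z, ∑ y, ∑ y', S.D0.Q y y' z * rp U y' z * rp W y z
      ∂(μHE[4] : Measure M) := by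
    rw [← e2]
    exact h2
  refine ⟨(i1.add i2).add i3, ?_⟩
  have h1' : RH1 hOK (α, U, W) = ∫ z, ∑ y, (⟪nabW S α U y z, nabW S α W y z⟫ : ℝ)
      ∂(μHE[4] : Measure M) := h1
  have h3' : RH3 hOK (α, U, W) = ∫ z, ∑ k : Fin 3,
        (((Ah S.H.swap α : S.DL.toAD.HE) : HH (μHE[4] : Measure M) (Fin 4)) k.succ : M → ℝ) z *
          ∑ y, ∑ y', S.rho k y y' z * rp U y z * rp W y' z ∂(μHE[4] : Measure M) := by
    rw [integral_finsetSum _ fun k _ => (h3 k).2]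
    exact Finset.sum_congr rfl fun k _ => (h3 k).1
  have s1 := integral_add (i1.add i2) i3
  have s2 := integral_add i1 i2
  rw [h1', h2', h3']
  exact (s1.trans (congrArg (· + _) s2)).symm

/-- the Dirac operator on smooth sections -/
theorem dirW_sm (a : SmS S.DT) (u : SmS S.D0) : ∀ᵐ z ∂(μHE[4] : Measure M), ∀ x,
    dirW S (cW S.DT a) (cW S.D0 u) x z = S.P.A u.1 x z + S.cm a.1 u.1 x z := by
  have ha : ∀ᵐ z ∂(μHE[4] : Measure M), ∀ A, rp (cW S.DT a) A z = a.1 A z := coe_clH a.1 a.2.1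
  have hu : ∀ᵐ z ∂(μHE[4] : Measure M), ∀ y, rp (cW S.D0 u) y z = u.1 y z := coe_clH u.1 u.2.1
  have h1 : ∀ᵐ z ∂(μHE[4] : Measure M), ∀ x,
      (((Ah S.P (cW S.D0 u) : S.D1.toAD.HE) : HH (μHE[4] : Measure M) κ1) x : M → ℝ) z =
        S.P.A u.1 x z := by
    rw [Ah_cW (dns S.D0 (by norm_num))]
    exact coe_clH _ (lA S.P u).2.1
  filter_upwards [h1, ha, hu] with z e1 e2 e3 x
  rw [dirW, e1 x]
  congr 1
  exact Finset.sum_congr rfl fun A _ => Finset.sum_congr rfl fun y _ => by rw [e2 A, e3 y]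

/-- the covariant derivative on smooth sections -/
theorem nabW_sm (a : SmS S.DT) (u : SmS S.D0) : ∀ᵐ z ∂(μHE[4] : Measure M), ∀ y,
    nabW S (cW S.DT a) (cW S.D0 u) y z = S.nab a.1 u.1 y z := by
  have ha : ∀ᵐ z ∂(μHE[4] : Measure M), ∀ A, rp (cW S.DT a) A z = a.1 A z := coe_clH a.1 a.2.1
  have hu : ∀ᵐ z ∂(μHE[4] : Measure M), ∀ y, rp (cW S.D0 u) y z = u.1 y z := coe_clH u.1 u.2.1
  have h1 : ∀ᵐ z ∂(μHE[4] : Measure M), ∀ y,
      (S.D0.toAD.c1 (cW S.D0 u) y : M → 𝔼) z = S.D0.cv u.1 y z :=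
    Crest.Agent.R235.Dens_433.coe_c1_secW S.D0 u.2.1 u.2.2
  filter_upwards [h1, ha, hu] with z e1 e2 e3 y
  rw [nabW, SWS.nab, e1 y]
  congr 1
  congr 1
  · exact Finset.sum_congr rfl fun y' _ => by rw [e3 y']
  · exact Finset.sum_congr rfl fun A _ => by rw [e2 A]

/-- the curvature on smooth sections -/
theorem curW_sm (a : SmS S.DT) : ∀ᵐ z ∂(μHE[4] : Measure M), ∀ k,
    (((Ah S.H.swap (cW S.DT a) : S.DL.toAD.HE) : HH (μHE[4] : Measure M) (Fin 4)) k : M → ℝ) z =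
      S.H.B a.1 k z := by
  rw [Ah_cW (dns S.DT (by norm_num))]
  exact coe_clH _ (lA S.H.swap a).2.1

/-- the right hand side on smooth sections -/
theorem wInt_sm (a : SmS S.DT) (u w : SmS S.D0) :
    wInt S (cW S.DT a) (cW S.D0 u) (cW S.D0 w) =ᵐ[(μHE[4] : Measure M)] fun z =>
      (∑ y, ⟪S.nab a.1 u.1 y z, S.nab a.1 w.1 y z⟫) +
        (∑ y, ∑ y', S.D0.Q y y' z * u.1 y' z * w.1 y z) +
        ∑ k : Fin 3, S.H.B a.1 k.succ z * ∑ y, ∑ y', S.rho k y y' z * u.1 y z * w.1 y' z := by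
  have hu : ∀ u : SmS S.D0, ∀ᵐ z ∂(μHE[4] : Measure M), ∀ y, rp (cW S.D0 u) y z = u.1 y z :=
    fun u => coe_clH u.1 u.2.1
  filter_upwards [nabW_sm a u, nabW_sm a w, curW_sm a, hu u, hu w] with z e1 e2 e3 e4 e5
  unfold wInt
  congr 1
  · congr 1
    · exact Finset.sum_congr rfl fun y _ => by rw [e1 y, e2 y]
    · exact Finset.sum_congr rfl fun y _ => Finset.sum_congr rfl fun y' _ => by rw [e4 y', e5 y]
  · refine Finset.sum_congr rfl fun k _ => ?_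
    rw [e3 k.succ]
    congr 1
    exact Finset.sum_congr rfl fun y _ => Finset.sum_congr rfl fun y' _ => by rw [e4 y, e5 y']

/-- the identity for smooth sections -/
theorem smooth_eq (hOK : S.OK) (hT : Emb4 S.DT.toAD.i1) (h0 : Emb4 S.D0.toAD.i1)
    (a : SmS S.DT) (u w : SmS S.D0) :
    LH hOK (cW S.DT a, cW S.D0 u, cW S.D0 w) =
      RH1 hOK (cW S.DT a, cW S.D0 u, cW S.D0 w) + RH2 (cW S.DT a, cW S.D0 u, cW S.D0 w) +
        RH3 hOK (cW S.DT a, cW S.D0 u, cW S.D0 w) := by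
  rw [LH_eq hOK hT h0, (RH_eq hOK hT h0 _ _ _).2]
  have h1 := hOK.weitz a.1 u.1 w.1 a.2.1 a.2.2 u.2.1 u.2.2 w.2.1 w.2.2
  have h2 : (fun z => ∑ x, dirW S (cW S.DT a) (cW S.D0 u) x z *
      dirW S (cW S.DT a) (cW S.D0 w) x z) =ᵐ[(μHE[4] : Measure M)]
      fun z => ∑ x, (S.P.A u.1 + S.cm a.1 u.1) x z * (S.P.A w.1 + S.cm a.1 w.1) x z := by
    filter_upwards [dirW_sm a u, dirW_sm a w] with z e1 e2
    exact Finset.sum_congr rfl fun x _ => by rw [e1 x, e2 x]; rfl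
  rw [integral_congr_ae h2, integral_congr_ae (wInt_sm a u w)]
  exact h1

/-- **the Weitzenboeck identity on `W^{1,2}`** (task 335) -/
theorem wtzH (hOK : S.OK) (hT : Emb4 S.DT.toAD.i1) (h0 : Emb4 S.D0.toAD.i1) : WtzH S := by
  intro α U W
  obtain ⟨h1, h2⟩ := RH_eq hOK hT h0 α U W
  refine ⟨h1, ?_⟩
  rw [← h2, ← LH_eq hOK hT h0]
  have hc1 := cont_LH hOK hT h0
  have hc2 : Continuous fun q : S.DT.toAD.WE × S.D0.toAD.WE × S.D0.toAD.WE =>
      RH1 hOK q + RH2 q + RH3 hOK q :=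
    ((cont_RH1 hOK hT h0).add cont_RH2).add (cont_RH3 hOK h0)
  have hd := DenseRange.prodMap (dns S.DT (by norm_num))
    (DenseRange.prodMap (dns S.D0 (by norm_num)) (dns S.D0 (by norm_num)))
  have h3 := hd.equalizer hc1 hc2 (by
    funext q
    exact smooth_eq hOK hT h0 q.1 q.2.1 q.2.2)
  exact congrFun h3 (α, U, W)

end main

end Crest.Agent.R235.WtzW_86
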