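import Crest.Agent.R235.Supc_433
import Crest.Agent.R235.WtzW_86
import Crest.Agent.R235.Sob4_984

/-!
# Row 235 (helper433): `SUPB`, unconditional
-/

set_option autoImplicit false
set_option linter.unusedSectionVars false
set_option linter.unusedVariables false
set_option maxSynthPendingDepth 3
open scoped ContDiff ENNReal NNReal Topology Manifold Bundle RealInnerProductSpace
open MeasureTheory Set Filter Metric Bundle

universe v

noncomputable section
namespace Crest.Agent.R235.SupbF_433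

open Crest.Agent.R247.Dir593 Crest.Agent.R247.Ms322 Crest.Agent.R247.Frd657
open Crest.Agent.R249.Tv57 Crest.Agent.R235.SWDefs_53 Crest.Agent.R235.SupbA_433

section mfd
variable {M : Type v} [MetricSpace M] [CompactSpace M] [ConnectedSpace M]
  [ChartedSpace (EuclideanSpace ℝ (Fin 4)) M] [IsManifold (𝓡 4) ∞ M]
  [RiemannianBundle (fun p : M => TangentSpace (𝓡 4) p)]
  [IsContMDiffRiemannianBundle (𝓡 4) ∞ (EuclideanSpace ℝ (Fin 4))
    (fun p : M => TangentSpace (𝓡 4) p)]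
  [IsRiemannianManifold (𝓡 4) M] [MeasurableSpace M] [BorelSpace M]
  [SecondCountableTopology M] [Nonempty M] [IsFiniteMeasureOnCompacts (μHE[4] : Measure M)]
  {κ0 κ1 κT : Type} [Fintype κ0] [Fintype κ1] [Fintype κT] (S : SWS M κ0 κ1 κT)

/-- the Weitzenboeck identity on `W^{1,2}` -/
theorem wtz (hOK : S.OK) : WtzH S :=
  WtzW_86.wtzH hOK (Sob4_984.emb4_Dat S.DT) (Sob4_984.emb4_Dat S.D0)

/-- the general sup bound -/
theorem supc (hOK : S.OK) {C0 : ℝ} (hC0 : 0 ≤ C0) {a : κT → M → ℝ}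
    {u : κ0 → M → ℝ} {b : Fin 4 → M → ℝ} (ha : InW S.DT a) (hu : InW S.D0 u)
    (hdir : WkA S.P u (fun x z => - S.cm a u x z)) (hb : WkA S.H.swap a b)
    (hpos : ∀ᵐ z ∂(μHE[4] : Measure M), C0 < ∑ y, u y z ^ 2 →
      0 < (∑ y, ∑ y', S.D0.Q y y' z * u y' z * u y z) + ∑ k : Fin 3, b k.succ z * S.rq k u z) :
    ∀ᵐ z ∂(μHE[4] : Measure M), ∑ y, u y z ^ 2 ≤ C0 :=
  Supc_433.supc S hOK (wtz S hOK) hC0 ha hu hdir hb hpos

end mfd

/-- **SUPB** -/
theorem supb : SUPB.{v} :=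
  Supb_433.supb_of fun M _ _ _ _ _ _ _ _ _ _ _ _ _ κ0 κ1 κT _ _ _ S hOK => wtz S hOK

end Crest.Agent.R235.SupbF_433
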