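import Crest.Agent.R235.SWJc_365
import Crest.Agent.R235.SupbF_433
import Crest.Agent.R235.Apx_649

/-!
Row 235 (S0364), node SWJA, leaf (b) of #2675 (helper900):

* `B_fm`   : `H.B (j.fm h) = 0`;  `B_tw` : `H.B ((d.tw j h).th t) = H.B (d.th t)`;
* `adm_tw` : `(d.tw j h).Adm S`;
* `supJ`   : the sup bound of the solutions of the twisted truncated systems, uniform in `h`;
* `bddJ`   : the norm bound of the zeros, uniform for `h ∈ [0,1]^b`, from `zero => TSol`.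
-/

set_option autoImplicit false
set_option maxSynthPendingDepth 3
set_option linter.unusedSectionVars false

open scoped ContDiff ENNReal NNReal Topology Manifold Bundle RealInnerProductSpace
open MeasureTheory Set Filter Metric Bundle

universe v

noncomputable section

namespace Crest.Agent.R235.SWJn_900

open Crest.Agent.R249.Tv57 Crest.Agent.R247.Ms322 Crest.Agent.R247.Dir593
open Crest.Agent.R235.SWDefs_53 Crest.Agent.R235.CptB_755 Crest.Agent.R235.Fs4_546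
open Crest.Agent.R235.CptC_755 Crest.Agent.R235.Cpt_755 Crest.Agent.R235.Fred_649
open Crest.Agent.R235.Swx_333 Crest.Agent.R235.SWSym_451 Crest.Agent.R235.SWJc_365
open Crest.Agent.R235.Supb_433

section main

variable {M : Type v} [MetricSpace M] [CompactSpace M] [ConnectedSpace M]
  [ChartedSpace (EuclideanSpace ℝ (Fin 4)) M] [IsManifold (𝓡 4) ∞ M]
  [RiemannianBundle (fun p : M => TangentSpace (𝓡 4) p)]
  [IsContMDiffRiemannianBundle (𝓡 4) ∞ (EuclideanSpace ℝ (Fin 4))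
    (fun p : M => TangentSpace (𝓡 4) p)]
  [IsRiemannianManifold (𝓡 4) M] [MeasurableSpace M] [BorelSpace M]
  [SecondCountableTopology M] [Nonempty M] [IsFiniteMeasureOnCompacts (μHE[4] : Measure M)]
  {κ0 κ1 κT : Type} [Fintype κ0] [Fintype κ1] [Fintype κT] {b : ℕ}

/-! ### the twisted data -/

/-- `j.fm h` as a smooth section. -/
def fS {S : SWS M κ0 κ1 κT} {j : JD M κT b} (hj : j.OK S) (h : Fin b → ℝ) : SmS S.DT :=
  ⟨j.fm h, sm_fm hj h, sec_fm hj h⟩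

theorem lA_fS {S : SWS M κ0 κ1 κT} {j : JD M κT b} (hj : j.OK S) (h : Fin b → ℝ) :
    lA S.H.swap (fS hj h) = 0 := by
  have h1 : fS hj h = ∑ i, (2 * Real.pi * h i) • (⟨j.al i, hj.sm i, hj.sec i⟩ : SmS S.DT) := by
    apply Subtype.ext
    rw [Submodule.coe_sum]
    funext A z
    simp only [fS, JD.fm, Submodule.coe_smul, Finset.sum_apply, Pi.smul_apply, smul_eq_mul,
      Finset.mul_sum]
    exact Finset.sum_congr rfl fun i _ => by ring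
  have h2 : ∀ i, lA S.H.swap (⟨j.al i, hj.sm i, hj.sec i⟩ : SmS S.DT) = 0 := by
    intro i
    apply Subtype.ext
    funext k z
    exact hj.harm i k z
  rw [h1, map_sum]
  exact Finset.sum_eq_zero fun i _ => by rw [map_smul, h2 i, smul_zero]

/-- **`H.B (j.fm h) = 0`**. -/
theorem B_fm {S : SWS M κ0 κ1 κT} {j : JD M κT b} (hj : j.OK S) (h : Fin b → ℝ) (k : Fin 4)
    (z : M) : S.H.B (j.fm h) k z = 0 := by
  have h1 := congrArg (fun v : SmS S.DL => v.1 k z) (lA_fS hj h)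
  exact h1

/-- additivity of `H.B`. -/
theorem B_add {S : SWS M κ0 κ1 κT} {u v : κT → M → ℝ} (hu : SmV (n := 4) u) (hsu : S.DT.Sec u)
    (hv : SmV (n := 4) v) (hsv : S.DT.Sec v) (k : Fin 4) (z : M) :
    S.H.B (u + v) k z = S.H.B u k z + S.H.B v k z := by
  have h1 := congrArg (fun w : SmS S.DL => w.1 k z)
    (map_add (lA S.H.swap) (⟨u, hu, hsu⟩ : SmS S.DT) ⟨v, hv, hsv⟩)
  exact h1

/-- **`H.B` of the twisted form**. -/
theorem B_tw {S : SWS M κ0 κ1 κT} {j : JD M κT b} {d : SWD M κT} (hj : j.OK S) (hd : d.Adm S)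
    (h : Fin b → ℝ) (t : E3) (k : Fin 4) (z : M) :
    S.H.B ((d.tw j h).th t) k z = S.H.B (d.th t) k z := by
  have h1 : (d.tw j h).th t = d.th t + j.fm h := rfl
  rw [h1, B_add (hd.smth t) (hd.secth t) (sm_fm hj h) (sec_fm hj h), B_fm hj, add_zero]

/-- **ADM**. -/
theorem adm_tw {S : SWS M κ0 κ1 κT} {j : JD M κT b} {d : SWD M κT} (hj : j.OK S) (hd : d.Adm S)
    (h : Fin b → ℝ) : (d.tw j h).Adm S where
  smth t A := (hd.smth t A).add (sm_fm hj h A)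
  secth t A z := by
    have h1 := hd.secth t A z
    have h2 := sec_fm hj h A z
    show ∑ B, S.DT.p A B z * (d.th t B z + j.fm h B z) = d.th t A z + j.fm h A z
    simp only [mul_add, Finset.sum_add_distrib]
    exact congrArg₂ (· + ·) h1 h2
  cth A := (hd.cth A).add (((sm_fm hj h A).continuous.comp continuous_snd).continuousOn)
  cdth k := (hd.cdth k).congr fun q _ => B_tw hj hd h q.1 k q.2
  smw := hd.smw
  cmu := hd.cmu
  pmu := hd.pmu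
  cet := hd.cet
  harm := hd.harm
  big := hd.big

/-! ### the sup bound -/

theorem rhs_tw {S : SWS M κ0 κ1 κT} {j : JD M κT b} {d : SWD M κT} (h : Fin b → ℝ) (t : E3)
    (u : κ0 → M → ℝ) : rhs S (d.tw j h) t u = rhs S d t u := rfl

/-- sum of a `W^{1,2}` section and a smooth one. -/
theorem inW_add {κ : Type} [Fintype κ] {D : Dat 4 M κ} {a : κ → M → ℝ} {α0 : D.toAD.WE}
    (h0 : ∀ A, Fred_649.rp α0 A =ᵐ[(μHE[4] : Measure M)] a A) {θ : κ → M → ℝ}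
    (h1 : SmV (n := 4) θ) (h2 : D.Sec θ) :
    ∀ A, Fred_649.rp (α0 + cW D ⟨θ, h1, h2⟩) A =ᵐ[(μHE[4] : Measure M)] (a + θ) A := by
  intro A
  have e : D.toAD.i1 (α0 + cW D ⟨θ, h1, h2⟩) A =
      D.toAD.i1 α0 A + D.toAD.i1 (cW D ⟨θ, h1, h2⟩) A := by
    rw [map_add]; rfl
  have e1 : (D.toAD.i1 (α0 + cW D ⟨θ, h1, h2⟩) A : M → ℝ) =ᵐ[(μHE[4] : Measure M)]
      (D.toAD.i1 α0 A : M → ℝ) + (D.toAD.i1 (cW D ⟨θ, h1, h2⟩) A : M → ℝ) := by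
    rw [e]
    exact Lp.coeFn_add _ _
  filter_upwards [e1, h0 A, Apx_649.coe_cW (⟨θ, h1, h2⟩ : SmS D)] with z f1 f2 f3
  show (D.toAD.i1 (α0 + cW D ⟨θ, h1, h2⟩) A : M → ℝ) z = _
  rw [f1, Pi.add_apply, f3 A, Pi.add_apply, Pi.add_apply]
  exact congrArg (· + θ A z) f2

/-- `WkA` of the sum with a smooth section. -/
theorem wkA_add {κ κ' : Type} [Fintype κ] [Fintype κ'] {D0 : Dat 4 M κ} {D1 : Dat 4 M κ'}
    {P : OpPair D0 D1} {a : κ → M → ℝ} {f : κ' → M → ℝ} (ha : InW D0 a) (h : WkA P a f)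
    {θ : κ → M → ℝ} (h1 : SmV (n := 4) θ) (h2 : D0.Sec θ) : WkA P (a + θ) (f + P.A θ) := by
  obtain ⟨α0, h0⟩ := ha
  have h3 := (wkA_iff (P := P) h0).1 h
  refine (wkA_iff (P := P) (inW_add h0 h1 h2)).2 fun k => ?_
  have e : Ah P (α0 + cW D0 ⟨θ, h1, h2⟩) = Ah P α0 + Ah P (cW D0 ⟨θ, h1, h2⟩) := map_add _ _ _
  have e' : (((Ah P (α0 + cW D0 ⟨θ, h1, h2⟩) : D1.toAD.HE) : HH (μHE[4] : Measure M) κ') k :
      Lp ℝ 2 (μHE[4] : Measure M)) = ((Ah P α0 : D1.toAD.HE) : HH (μHE[4] : Measure M) κ') k +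
      ((Ah P (cW D0 ⟨θ, h1, h2⟩) : D1.toAD.HE) : HH (μHE[4] : Measure M) κ') k := by
    rw [e]; rfl
  rw [e']
  filter_upwards [Lp.coeFn_add (((Ah P α0 : D1.toAD.HE) : HH (μHE[4] : Measure M) κ') k)
    (((Ah P (cW D0 ⟨θ, h1, h2⟩) : D1.toAD.HE) : HH (μHE[4] : Measure M) κ') k), h3 k,
    Apx_649.coe_Ah P (⟨θ, h1, h2⟩ : SmS D0)] with z f1 f2 f3
  rw [f1, Pi.add_apply, f2, f3 k]
  rfl

/-- the pointwise positivity behind `supJ`. -/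
theorem supJ_pos {S : SWS M κ0 κ1 κT} {j : JD M κT b} {d : SWD M κT} (hS : S.OK) (hj : j.OK S)
    (hd : d.Adm S) {Kq K μ0 C0 R : ℝ} (hKq : ∀ y y' z, |S.D0.Q y y' z| ≤ Kq)
    (hK : ∀ (t : E3) (z : M) (k : Fin 3), ‖t‖ ≤ 1 →
      |d.r * d.wt t k z + d.et t k z + S.H.B (d.th t) k.succ z| ≤ K)
    (hμ00 : 0 < μ0) (hμ0 : ∀ (t : E3) (z : M), ‖t‖ ≤ 1 → μ0 ≤ d.mu t z) (hC0 : 0 ≤ C0)
    (hbig : Kq * (Fintype.card κ0) ^ 2 + 3 * K + 1 ≤ 1 / 2 * μ0 * C0) (hR : C0 < R ^ 2)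
    (h : Fin b → ℝ) {t : E3} (ht : ‖t‖ ≤ 1) {u : κ0 → M → ℝ} {z : M}
    (e4 : ∀ y, ∑ y', S.D0.p y y' z * u y' z = u y z) (hs : C0 < ∑ y, u y z ^ 2) :
    0 < (∑ y, ∑ y', S.D0.Q y y' z * u y' z * u y z) +
      ∑ k : Fin 3, (rhs S (d.tw j h) t (trc R u) + S.H.B ((d.tw j h).th t)) k.succ z *
        S.rq k u z := by
  have hfz : ∑ k, S.rq k u z ^ 2 = (∑ y, u y z ^ 2) ^ 2 := hS.fierz z (fun y => u y z) e4
  have hs0 : 0 ≤ ∑ y, u y z ^ 2 := Finset.sum_nonneg fun y _ => sq_nonneg _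
  have h6 := zero_order (h := 1) (s := ∑ y, u y z ^ 2)
    (Qu := ∑ y, ∑ y', S.D0.Q y y' z * u y' z * u y z)
    (μ := d.mu t z) (μ0 := μ0) (τ2 := tau2 R u z) (C0 := C0)
    (Kq := Kq * (Fintype.card κ0) ^ 2) (K := K)
    (r := fun k => S.rq k u z)
    (c := fun k => d.r * d.wt t k z + d.et t k z + S.H.B (d.th t) k.succ z) zero_le_one hs0
    (quad_bound (Q := fun y y' => S.D0.Q y y' z) (fun y y' => hKq y y' z) (fun y => u y z))
    (hμ0 t z ht) hμ00 (tau2_lower hR hC0 u z hs) hC0 hfz (fun k => hK t z k ht) hbig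
  have h7 : ∑ k : Fin 3, (rhs S (d.tw j h) t (trc R u) + S.H.B ((d.tw j h).th t)) k.succ z *
      S.rq k u z =
      ∑ k : Fin 3, (d.mu t z * ((1 / 2) * (tau2 R u z * S.rq k u z)) +
        (d.r * d.wt t k z + d.et t k z + S.H.B (d.th t) k.succ z)) * (1 * S.rq k u z) := by
    refine Finset.sum_congr rfl fun k _ => ?_
    have e6 : (rhs S (d.tw j h) t (trc R u) + S.H.B ((d.tw j h).th t)) k.succ z =
        (d.mu t z * ((1 / 2) * S.rq k (trc R u) z) + d.r * d.wt t k z + d.et t k z) +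
          S.H.B ((d.tw j h).th t) k.succ z := rfl
    rw [e6, B_tw hj hd, rq_trc]
    ring
  rw [h7]
  have h8 : 0 < ∑ y, u y z ^ 2 := lt_of_le_of_lt hC0 hs
  linarith

/-- **SUPJ** : the sup bound, uniform in `h` and `R`. -/
theorem supJ {S : SWS M κ0 κ1 κT} {j : JD M κT b} {d : SWD M κT} (hS : S.OK) (hj : j.OK S)
    (hd : d.Adm S) : ∃ C0 : ℝ, 0 ≤ C0 ∧ ∀ (h : Fin b → ℝ) (R : ℝ), C0 < R ^ 2 → 0 < R →
      ∀ (t : E3) (a : κT → M → ℝ) (u : κ0 → M → ℝ), ‖t‖ ≤ 1 → TSol S (d.tw j h) R t a u →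
        ∀ᵐ z ∂(μHE[4] : Measure M), ∑ y, u y z ^ 2 ≤ C0 := by
  obtain ⟨Kq, hKq0, hKq⟩ := exists_Q S
  obtain ⟨K, hK0, hK⟩ := exists_K S d hd
  obtain ⟨μ0, hμ00, hμ0⟩ := exists_mu S d hd
  have hbig : Kq * (Fintype.card κ0) ^ 2 + 3 * K + 1 ≤
      1 / 2 * μ0 * (2 * (Kq * (Fintype.card κ0) ^ 2 + 3 * K + 1) / μ0) := by
    apply le_of_eq
    field_simp
  refine ⟨2 * (Kq * (Fintype.card κ0) ^ 2 + 3 * K + 1) / μ0, by positivity,
    fun h R hR _ t a u ht hT => ?_⟩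
  have hC0 : 0 ≤ 2 * (Kq * (Fintype.card κ0) ^ 2 + 3 * K + 1) / μ0 := by positivity
  have hadm := adm_tw hj hd h
  have hcur : WkA S.H.swap (a + (d.tw j h).th t)
      (rhs S (d.tw j h) t (trc R u) + S.H.B ((d.tw j h).th t)) :=
    wkA_add (P := S.H.swap) hT.wa hT.cur (hadm.smth t) (hadm.secth t)
  have ha' : InW S.DT (a + (d.tw j h).th t) := by
    obtain ⟨α0, h0⟩ := hT.wa
    exact ⟨α0 + cW S.DT ⟨_, hadm.smth t, hadm.secth t⟩, inW_add h0 (hadm.smth t) (hadm.secth t)⟩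
  obtain ⟨U, hU⟩ := hT.wu
  have hUe : ∀ᵐ z ∂(μHE[4] : Measure M), ∀ y, Fred_649.rp U y z = u y z := ae_all_iff.2 hU
  have hsec : ∀ᵐ z ∂(μHE[4] : Measure M), ∀ y, ∑ y', S.D0.p y y' z * Fred_649.rp U y' z =
      Fred_649.rp U y z := sec_rp S U
  refine SupbF_433.supc S hS hC0 ha' hT.wu hT.dir hcur ?_
  filter_upwards [hsec, hUe] with z e4 e5 hs
  refine supJ_pos hS hj hd hKq hK hμ00 hμ0 hC0 hbig hR h ht (fun y => ?_) hs
  have := e4 y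
  simp only [e5] at this
  exact this

/-! ### the norm bound -/

set_option maxHeartbeats 1600000 in
/-- **the norm bound of the solutions of the perturbed equation** (cf. `Swx_333.zero_bound`). -/
theorem zero_bound' {S : SWS M κ0 κ1 κT} {d : SWD M κT} (hS : S.OK) (hd : d.Adm S)
    (s0 : Spec S.DL) (h4 : Emb4 S.D0.toAD.i1) (hT4 : Emb4 S.DT.toAD.i1) {R : ℝ}
    (hR : 0 < R) (C0 E0 : ℝ) : ∃ r : ℝ, 0 < r ∧ ∀ t : E3, ‖t‖ ≤ 1 →
      ∀ (p : S.D0.toAD.WE) (e : S.D1.toAD.HE), ‖e‖ ≤ E0 * ‖S.D0.toAD.i1 p‖ →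
      Ah S.P p + e + Swx_333.PL S.D1 (KKt hS hd s0 R t p) = 0 →
      (∀ᵐ z ∂(μHE[4] : Measure M), ∑ y, rp p y z ^ 2 ≤ C0) → ‖p‖ ≤ r := by
  have := finM (M := M)
  obtain ⟨B, hB0, hB⟩ := (nemOK hS hd hR (μHE[4] : Measure M)).bd
  obtain ⟨Θ, hΘ0, hΘ⟩ := th_bdd hd
  obtain ⟨C, hC, hG⟩ := garding (P := S.P) (dns4 S.D0)
  have hv : 0 ≤ vol M := ENNReal.toReal_nonneg
  set C1 := max C0 0 with hC1
  have hC10 : 0 ≤ C1 := le_max_right _ _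
  set N := ‖S.DT.toAD.i1‖ * ‖(GG1 S s0)‖ with hN
  have hN0 : 0 ≤ N := by positivity
  set Q := C * (2 * (C1 * (2 * (N ^ 2 * ((4 * B ^ 2) * vol M)) + 2 * (Θ * vol M))) +
    2 * (E0 ^ 2 * (C1 * vol M)) + C1 * vol M) with hQ
  refine ⟨√Q + 1, by positivity, fun t ht' p ee hee hz hb => ?_⟩
  have ht : t ∈ BB := ht'
  have hb1 : ∀ᵐ z ∂(μHE[4] : Measure M), ∑ y, rp p y z ^ 2 ≤ C1 := by
    filter_upwards [hb] with z hz
    exact hz.trans (le_max_left _ _)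
  -- the `L²` norm
  have h1 : ‖S.D0.toAD.jj p‖ ^ 2 ≤ C1 * vol M := norm_sq_le (S.D0.toAD.i1 p) hb1
  have h1' : ‖S.D0.toAD.i1 p‖ ^ 2 ≤ C1 * vol M := norm_sq_le (S.D0.toAD.i1 p) hb1
  -- the right hand side
  have h2 : ‖Fq d R t p‖ ^ 2 ≤ (4 * B ^ 2) * vol M := by
    refine norm_sq_le _ ?_
    filter_upwards [coe_nem (nemOK hS hd hR (μHE[4] : Measure M)) ht (S.D0.toAD.i1 p)] with z e1
    have e2 : ∀ l, (Fq d R t p l : M → ℝ) z ^ 2 ≤ B ^ 2 := by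
      intro l
      have e3 : (Fq d R t p l : M → ℝ) z =
        Qf S d R t z (fun a => (S.D0.toAD.i1 p a : M → ℝ) z) l := e1 l
      rw [e3, ← sq_abs]
      exact pow_le_pow_left₀ (abs_nonneg _) (hB t ht z _ l) 2
    refine (Finset.sum_le_sum fun l _ => e2 l).trans (le_of_eq ?_)
    rw [Finset.sum_const, Finset.card_univ, Fintype.card_fin, nsmul_eq_mul]
    norm_num
  set a := GG1 S s0 (Fq d R t p) with ha
  have h3 : ‖S.DT.toAD.i1 a‖ ^ 2 ≤ N ^ 2 * ((4 * B ^ 2) * vol M) := by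
    have e1 : ‖S.DT.toAD.i1 a‖ ≤ N * ‖Fq d R t p‖ := by
      refine (S.DT.toAD.i1.le_opNorm a).trans ?_
      rw [hN, mul_assoc]
      exact mul_le_mul_of_nonneg_left ((GG1 S s0).le_opNorm _) (norm_nonneg _)
    calc ‖S.DT.toAD.i1 a‖ ^ 2 ≤ (N * ‖Fq d R t p‖) ^ 2 :=
          pow_le_pow_left₀ (norm_nonneg _) e1 2
      _ = N ^ 2 * ‖Fq d R t p‖ ^ 2 := mul_pow _ _ _
      _ ≤ _ := mul_le_mul_of_nonneg_left h2 (sq_nonneg _)
  -- the Dirac term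
  have h5' : ‖KKt hS hd s0 R t p‖ ^ 2 ≤
      C1 * (2 * (N ^ 2 * ((4 * B ^ 2) * vol M)) + 2 * (Θ * vol M)) := by
    rw [norm_sq_HH]
    have e2 : ∀ᵐ z ∂(μHE[4] : Measure M), ∑ x, (KKt hS hd s0 R t p x : M → ℝ) z ^ 2 ≤
        C1 * (2 * (∑ A, (S.DT.toAD.i1 a A : M → ℝ) z ^ 2) + 2 * Θ) := by
      filter_upwards [coe_KKt hS hd s0 h4 hT4 R t p, hb1] with z f1 f2
      simp only [f1]
      have g1 : ∑ x, S.cm (rp (GG1 S s0 (Fq d R t p)) + d.th t) (rp p) x z ^ 2 ≤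
          (∑ A, ((rp (GG1 S s0 (Fq d R t p)) + d.th t) A z) ^ 2) * ∑ y, rp p y z ^ 2 :=
        hS.clbd z (fun A => (rp (GG1 S s0 (Fq d R t p)) + d.th t) A z) (fun y => rp p y z)
      have g2 : ∑ A, ((rp (GG1 S s0 (Fq d R t p)) + d.th t) A z) ^ 2 ≤
          2 * (∑ A, (S.DT.toAD.i1 a A : M → ℝ) z ^ 2) + 2 * Θ := by
        have g3 : ∀ A, ((rp (GG1 S s0 (Fq d R t p)) + d.th t) A z) ^ 2 ≤
            2 * (S.DT.toAD.i1 a A : M → ℝ) z ^ 2 + 2 * d.th t A z ^ 2 := by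
          intro A
          have g4 : (rp (GG1 S s0 (Fq d R t p)) + d.th t) A z =
              (S.DT.toAD.i1 a A : M → ℝ) z + d.th t A z := rfl
          rw [g4]
          nlinarith [sq_nonneg ((S.DT.toAD.i1 a A : M → ℝ) z - d.th t A z)]
        refine (Finset.sum_le_sum fun A _ => g3 A).trans ?_
        rw [Finset.sum_add_distrib, ← Finset.mul_sum, ← Finset.mul_sum]
        have := hΘ t ht z
        linarith
      have g5 : 0 ≤ ∑ A, ((rp (GG1 S s0 (Fq d R t p)) + d.th t) A z) ^ 2 :=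
        Finset.sum_nonneg fun A _ => sq_nonneg _
      calc _ ≤ _ := g1
        _ ≤ (∑ A, ((rp (GG1 S s0 (Fq d R t p)) + d.th t) A z) ^ 2) * C1 :=
            mul_le_mul_of_nonneg_left f2 g5
        _ ≤ (2 * (∑ A, (S.DT.toAD.i1 a A : M → ℝ) z ^ 2) + 2 * Θ) * C1 :=
            mul_le_mul_of_nonneg_right g2 hC10
        _ = _ := mul_comm _ _
    have e3 : Integrable (fun z => C1 * (2 * (∑ A, (S.DT.toAD.i1 a A : M → ℝ) z ^ 2) + 2 * Θ))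
        (μHE[4] : Measure M) :=
      (((int_sq (S.DT.toAD.i1 a)).const_mul 2).add (integrable_const _)).const_mul C1
    refine (integral_mono_ae (int_sq (KKt hS hd s0 R t p)) e3 e2).trans ?_
    rw [integral_const_mul, integral_add ((int_sq (S.DT.toAD.i1 a)).const_mul 2)
      (integrable_const _), integral_const_mul, ← norm_sq_HH, integral_const, smul_eq_mul]
    refine mul_le_mul_of_nonneg_left (add_le_add ?_ (le_of_eq ?_)) hC10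
    · exact mul_le_mul_of_nonneg_left h3 (by norm_num)
    · have : (μHE[4] : Measure M).real univ = vol M := rfl
      rw [this]; ring
  have h5 : ‖Ah S.P p‖ ^ 2 ≤ 2 * (C1 * (2 * (N ^ 2 * ((4 * B ^ 2) * vol M)) + 2 * (Θ * vol M))) +
      2 * (E0 ^ 2 * (C1 * vol M)) := by
    have e0 : Ah S.P p = -(ee + Swx_333.PL S.D1 (KKt hS hd s0 R t p)) := by
      rw [add_assoc] at hz
      exact eq_neg_of_add_eq_zero_left hz
    have e1 : ‖Swx_333.PL S.D1 (KKt hS hd s0 R t p)‖ = ‖KKt hS hd s0 R t p‖ := by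
      have : ‖Swx_333.PL S.D1 (KKt hS hd s0 R t p)‖ = ‖S.D1.toAD.P (KKt hS hd s0 R t p)‖ := rfl
      rw [this, P_KKt hS hd s0 h4 hT4]
    have e2 : ‖Ah S.P p‖ ≤ ‖ee‖ + ‖KKt hS hd s0 R t p‖ := by
      rw [e0, norm_neg, ← e1]
      exact norm_add_le _ _
    have e3 : ‖ee‖ ^ 2 ≤ E0 ^ 2 * (C1 * vol M) := by
      calc ‖ee‖ ^ 2 ≤ (E0 * ‖S.D0.toAD.i1 p‖) ^ 2 := pow_le_pow_left₀ (norm_nonneg _) hee 2
        _ = E0 ^ 2 * ‖S.D0.toAD.i1 p‖ ^ 2 := mul_pow _ _ _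
        _ ≤ _ := mul_le_mul_of_nonneg_left h1' (sq_nonneg _)
    calc ‖Ah S.P p‖ ^ 2 ≤ (‖ee‖ + ‖KKt hS hd s0 R t p‖) ^ 2 :=
          pow_le_pow_left₀ (norm_nonneg _) e2 2
      _ ≤ 2 * ‖KKt hS hd s0 R t p‖ ^ 2 + 2 * ‖ee‖ ^ 2 := by
          nlinarith [sq_nonneg (‖ee‖ - ‖KKt hS hd s0 R t p‖)]
      _ ≤ _ := by linarith
  have h6 : ‖p‖ ^ 2 ≤ Q := by
    refine (hG p).trans ?_
    rw [hQ]
    exact mul_le_mul_of_nonneg_left (add_le_add h5 h1) hC.le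
  have h7 : ‖p‖ ≤ √Q := Real.le_sqrt_of_sq_le h6
  linarith

/-- the linear terms. -/
theorem norm_sum_LI {S : SWS M κ0 κ1 κT} {j : JD M κT b} (hS : S.OK) (hj : j.OK S) :
    ∃ E0 : ℝ, ∀ (h : Fin b → ℝ), (∀ i, h i ∈ Icc (0 : ℝ) 1) → ∀ p : S.D0.toAD.WE,
      ‖∑ i, h i • LI hS hj i p‖ ≤ E0 * ‖S.D0.toAD.i1 p‖ := by
  refine ⟨∑ i, ‖Swx_333.PL S.D1‖ * ‖matR (bm_ml hS hj i)‖, fun h hh p => ?_⟩
  rw [Finset.sum_mul]
  refine (norm_sum_le _ _).trans (Finset.sum_le_sum fun i _ => ?_)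
  rw [norm_smul]
  have h1 : ‖h i‖ ≤ 1 := by
    rw [Real.norm_eq_abs, abs_of_nonneg (hh i).1]
    exact (hh i).2
  have h2 : ‖LI hS hj i p‖ ≤ ‖Swx_333.PL S.D1‖ * ‖matR (bm_ml hS hj i)‖ * ‖S.D0.toAD.i1 p‖ := by
    have e : LI hS hj i p = Swx_333.PL S.D1 (matR (bm_ml hS hj i) (S.D0.toAD.i1 p)) := rfl
    rw [e, mul_assoc]
    refine ((Swx_333.PL S.D1).le_opNorm _).trans ?_
    exact mul_le_mul_of_nonneg_left ((matR (bm_ml hS hj i)).le_opNorm _) (norm_nonneg _)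
  calc ‖h i‖ * ‖LI hS hj i p‖ ≤ 1 * ‖LI hS hj i p‖ :=
        mul_le_mul_of_nonneg_right h1 (norm_nonneg _)
    _ = ‖LI hS hj i p‖ := one_mul _
    _ ≤ _ := h2

/-- **BDD** : the norm bound of the zeros, uniform for `h` in the cell, from `hz : zero ⇒ TSol`. -/
theorem bddJ {S : SWS M κ0 κ1 κT} {j : JD M κT b} {d : SWD M κT} {bp : ℕ} (hS : S.OK)
    (hj : j.OK S) (hd : d.Adm S) (s0 : Spec S.DL) (H : HarB hS bp)
    (h4 : Emb4 S.D0.toAD.i1) (hT4 : Emb4 S.DT.toAD.i1) {R : ℝ} (hR : 0 < R) {C0 : ℝ}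
    (hsup : ∀ (h : Fin b → ℝ) (t : E3) (a : κT → M → ℝ) (u : κ0 → M → ℝ), ‖t‖ ≤ 1 →
      TSol S (d.tw j h) R t a u → ∀ᵐ z ∂(μHE[4] : Measure M), ∑ y, u y z ^ 2 ≤ C0)
    (hz : ∀ (h : Fin b → ℝ) (t : E3) (x : S.D0.toAD.WE), ‖t‖ ≤ 1 → KA H d R t x = 0 →
      Ah S.P x + ∑ i, h i • LI hS hj i x + KP hS hd s0 R t x = 0 →
      TSol S (d.tw j h) R t (rp (GG1 S s0 (Fq d R t x))) (rp x)) :
    ∃ r : ℝ, 0 < r ∧ ∀ (t : E3) (h : Fin b → ℝ) (x : S.D0.toAD.WE), ‖t‖ ≤ 1 →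
      (∀ i, h i ∈ Icc (0 : ℝ) 1) → KA H d R t x = 0 →
      Ah S.P x + ∑ i, h i • LI hS hj i x + KP hS hd s0 R t x = 0 → ‖x‖ ≤ r := by
  obtain ⟨E0, hE⟩ := norm_sum_LI hS hj
  obtain ⟨r, hr, hb⟩ := zero_bound' hS hd s0 h4 hT4 hR C0 E0
  refine ⟨r, hr, fun t h x ht hh h1 h2 => ?_⟩
  exact hb t ht x _ (hE h hh x) h2 (hsup h t _ _ ht (hz h t x ht h1 h2))

end main

end Crest.Agent.R235.SWJn_900

end
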