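import Crest.Agent.R235.SWJn_333

/-!
Row 235 (S0364), node SWJA (owner helper365), leaf (b) (helper333), part 2.

* `zero_iff`       : zeros = solutions of the truncated twisted system;
* `conv`           : bounded solutions of the true twisted system are zeros.
-/

set_option autoImplicit false
set_option maxSynthPendingDepth 3
set_option linter.unusedSectionVars false

open scoped ContDiff ENNReal NNReal Topology Manifold Bundle RealInnerProductSpace
open MeasureTheory Set Filter Metric Bundle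

universe v

noncomputable section

namespace Crest.Agent.R235.SWJn_333

open Crest.Agent.R249.Tv57 Crest.Agent.R247.Ms322 Crest.Agent.R247.Dir593
open Crest.Agent.R235.SWDefs_53 Crest.Agent.R235.CptB_755 Crest.Agent.R235.Fs4_546
open Crest.Agent.R235.CptC_755 Crest.Agent.R235.Cpt_755 Crest.Agent.R235.Fred_649
open Crest.Agent.R235.Swx_333 Crest.Agent.R235.SWSym_451 Crest.Agent.R235.SWJc_365

local notation "ipp" => Crest.Agent.R249.Tv57.ip 4

section main

variable {M : Type v} [MetricSpace M] [CompactSpace M] [ConnectedSpace M]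
  [ChartedSpace (EuclideanSpace ℝ (Fin 4)) M] [IsManifold (𝓡 4) ∞ M]
  [RiemannianBundle (fun p : M => TangentSpace (𝓡 4) p)]
  [IsContMDiffRiemannianBundle (𝓡 4) ∞ (EuclideanSpace ℝ (Fin 4))
    (fun p : M => TangentSpace (𝓡 4) p)]
  [IsRiemannianManifold (𝓡 4) M] [MeasurableSpace M] [BorelSpace M]
  [SecondCountableTopology M] [Nonempty M] [IsFiniteMeasureOnCompacts (μHE[4] : Measure M)]
  {κ0 κ1 κT : Type} [Fintype κ0] [Fintype κ1] [Fintype κT] {b bp : ℕ}

/-! ### coordinates of the Dirac part -/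

theorem coe_lin {κ ι : Type} [Fintype κ] [DecidableEq ι] (s : Finset ι) (c : ι → ℝ)
    (F : ι → HH (μHE[4] : Measure M) κ) (g : ι → κ → M → ℝ)
    (hF : ∀ i, ∀ᵐ z ∂(μHE[4] : Measure M), ∀ y, (F i y : M → ℝ) z = g i y z) :
    ∀ᵐ z ∂(μHE[4] : Measure M), ∀ y,
      (((∑ i ∈ s, c i • F i : HH (μHE[4] : Measure M) κ) y : Lp ℝ 2 (μHE[4] : Measure M)) :
        M → ℝ) z = ∑ i ∈ s, c i * g i y z := by
  induction s using Finset.induction_on with
  | empty =>
    rw [ae_all_iff]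
    intro y
    simp only [Finset.sum_empty]
    exact Lp.coeFn_zero ℝ 2 (μHE[4] : Measure M)
  | insert a s ha ih =>
    have h1 : ∀ᵐ z ∂(μHE[4] : Measure M), ∀ y,
        (((c a • F a + ∑ i ∈ s, c i • F i : HH (μHE[4] : Measure M) κ) y :
          Lp ℝ 2 (μHE[4] : Measure M)) : M → ℝ) z =
        (((c a • F a : HH (μHE[4] : Measure M) κ) y : Lp ℝ 2 (μHE[4] : Measure M)) : M → ℝ) z +
        (((∑ i ∈ s, c i • F i : HH (μHE[4] : Measure M) κ) y :
          Lp ℝ 2 (μHE[4] : Measure M)) : M → ℝ) z := by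
      rw [ae_all_iff]
      intro y
      exact Lp.coeFn_add ((c a • F a : HH (μHE[4] : Measure M) κ) y)
        ((∑ i ∈ s, c i • F i : HH (μHE[4] : Measure M) κ) y)
    have h2 : ∀ᵐ z ∂(μHE[4] : Measure M), ∀ y,
        (((c a • F a : HH (μHE[4] : Measure M) κ) y : Lp ℝ 2 (μHE[4] : Measure M)) : M → ℝ) z =
        c a * (F a y : M → ℝ) z := by
      rw [ae_all_iff]
      intro y
      exact Lp.coeFn_smul (c a) (F a y)
    filter_upwards [h1, h2, ih, hF a] with z e1 e2 e3 e4 y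
    rw [Finset.sum_insert ha, Finset.sum_insert ha, e1 y, e2 y, e3 y, e4 y]

theorem cm_add {S : SWS M κ0 κ1 κT} (a a' : κT → M → ℝ) (u : κ0 → M → ℝ) (x : κ1) (z : M) :
    S.cm (a + a') u x z = S.cm a u x z + S.cm a' u x z := by
  unfold SWS.cm
  simp only [Pi.add_apply, add_mul, Finset.sum_add_distrib]

theorem cm_fm {S : SWS M κ0 κ1 κT} (j : JD M κT b) (h : Fin b → ℝ) (u : κ0 → M → ℝ) (x : κ1)
    (z : M) : S.cm (j.fm h) u x z = ∑ i, h i * S.cm (fi j i) u x z := by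
  unfold SWS.cm
  simp only [fm_eq, Finset.mul_sum, Finset.sum_mul]
  rw [Finset.sum_comm]
  rw [Finset.sum_congr rfl fun y _ => Finset.sum_comm]
  rw [Finset.sum_comm]
  refine Finset.sum_congr rfl fun i _ => ?_
  rw [Finset.sum_comm]
  exact Finset.sum_congr rfl fun A _ => Finset.sum_congr rfl fun y _ => by ring

/-- the sum of the linear terms. -/
theorem coe_sumLI {S : SWS M κ0 κ1 κT} {j : JD M κT b} (hS : S.OK) (hj : j.OK S)
    (h : Fin b → ℝ) (x : S.D0.toAD.WE) : ∀ᵐ z ∂(μHE[4] : Measure M), ∀ y,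
      (((∑ i, h i • LI hS hj i x : S.D1.toAD.HE) : HH (μHE[4] : Measure M) κ1) y : M → ℝ) z =
        S.cm (j.fm h) (rp x) y z := by
  have h1 := coe_lin Finset.univ h
    (fun i => ((LI hS hj i x : S.D1.toAD.HE) : HH (μHE[4] : Measure M) κ1))
    (fun i y z => S.cm (fi j i) (rp x) y z) (fun i => coe_LI hS hj i x)
  have h2 : ((∑ i, h i • LI hS hj i x : S.D1.toAD.HE) : HH (μHE[4] : Measure M) κ1) =
      ∑ i, h i • ((LI hS hj i x : S.D1.toAD.HE) : HH (μHE[4] : Measure M) κ1) := by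
    rw [Submodule.coe_sum]
    rfl
  rw [h2]
  filter_upwards [h1] with z e1 y
  rw [e1 y, cm_fm]

/-- **the nonlinear side of the twisted Dirac equation**. -/
theorem coe_tot {S : SWS M κ0 κ1 κT} {j : JD M κT b} {d : SWD M κT} (hS : S.OK) (hj : j.OK S)
    (hd : d.Adm S) (s0 : Spec S.DL) (R : ℝ) (h : Fin b → ℝ) (t : E3) (x : S.D0.toAD.WE) :
    ∀ᵐ z ∂(μHE[4] : Measure M), ∀ y,
      (((-(∑ i, h i • LI hS hj i x + KP hS hd s0 R t x) : S.D1.toAD.HE) :
        HH (μHE[4] : Measure M) κ1) y : M → ℝ) z =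
      - S.cm (rp (GG1 S s0 (Fq d R t x)) + (d.tw j h).th t) (rp x) y z := by
  have h1 : ((-(∑ i, h i • LI hS hj i x + KP hS hd s0 R t x) : S.D1.toAD.HE) :
      HH (μHE[4] : Measure M) κ1) =
      -(((∑ i, h i • LI hS hj i x : S.D1.toAD.HE) : HH (μHE[4] : Measure M) κ1) +
        KKt hS hd s0 R t x) := by
    have h2 : ((KP hS hd s0 R t x : S.D1.toAD.HE) : HH (μHE[4] : Measure M) κ1) =
        KKt hS hd s0 R t x := P_KKt hS hd s0 (e4 S.D0) (e4 S.DT) R t x
    rw [← h2]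
    rfl
  rw [h1]
  set A := ((∑ i, h i • LI hS hj i x : S.D1.toAD.HE) : HH (μHE[4] : Measure M) κ1) with hA
  set K := KKt hS hd s0 R t x with hK
  have h3 : ∀ᵐ z ∂(μHE[4] : Measure M), ∀ y,
      (((-(A + K) : HH (μHE[4] : Measure M) κ1) y : Lp ℝ 2 (μHE[4] : Measure M)) : M → ℝ) z =
        -((A + K : HH (μHE[4] : Measure M) κ1) y : M → ℝ) z := by
    rw [ae_all_iff]
    intro y
    exact Lp.coeFn_neg ((A + K : HH (μHE[4] : Measure M) κ1) y)
  have h4 : ∀ᵐ z ∂(μHE[4] : Measure M), ∀ y,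
      (((A + K : HH (μHE[4] : Measure M) κ1) y : Lp ℝ 2 (μHE[4] : Measure M)) : M → ℝ) z =
        (A y : M → ℝ) z + (K y : M → ℝ) z := by
    rw [ae_all_iff]
    intro y
    exact Lp.coeFn_add (A y) (K y)
  filter_upwards [h3, h4, coe_sumLI hS hj h x,
    coe_KKt hS hd s0 (e4 S.D0) (e4 S.DT) R t x] with z f1 f2 f3 f4 y
  rw [f1 y, f2 y, f3 y, f4 y]
  have h5 : (rp (GG1 S s0 (Fq d R t x)) + (d.tw j h).th t : κT → M → ℝ) =
      j.fm h + (rp (GG1 S s0 (Fq d R t x)) + d.th t) := by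
    have : (d.tw j h).th t = d.th t + j.fm h := rfl
    rw [this]
    abel
  rw [h5, cm_add (j.fm h) (rp (GG1 S s0 (Fq d R t x)) + d.th t)]

/-- the harmonic part vanishes if the curvature equation has a solution. -/
theorem KA_of_wk {S : SWS M κ0 κ1 κT} {hS : S.OK} {d : SWD M κT} (H : HarB hS bp) {R : ℝ}
    {t : E3} {x : S.D0.toAD.WE} {a : κT → M → ℝ} {f : Fin 4 → M → ℝ}
    (hf : ∀ᵐ z ∂(μHE[4] : Measure M), ∀ l, (Fq d R t x l : M → ℝ) z = f l z)
    (h : WkA S.H.swap a f) : KA H d R t x = 0 := by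
  ext i
  show H.har (Fq d R t x) i = 0
  rw [H.har_apply, real_inner_comm, inner_HH (Fq d R t x) (clH (H.ph i) (H.sm i)) hf
    (coe_clH (H.ph i) (H.sm i))]
  have h1 := h.2.2 (H.ph i) (H.sm i) (sec_full hS _)
  have h2 : S.H.swap.B (H.ph i) = 0 := by
    funext b z
    exact H.ker i b z
  rw [h2] at h1
  have h3 : ipp a (0 : κT → M → ℝ) = 0 := by
    unfold Crest.Agent.R249.Tv57.ip
    simp
  exact h1.trans h3

/-- the curvature equation, solved by the Green operator. -/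
theorem cur_of_KA {S : SWS M κ0 κ1 κT} {hS : S.OK} {d : SWD M κT} (hd : d.Adm S)
    (s0 : Spec S.DL) (H : HarB hS bp) {R : ℝ} (hR : 0 < R) {t : E3} (ht : ‖t‖ ≤ 1)
    {x : S.D0.toAD.WE} (h : KA H d R t x = 0) :
    WkA S.H.swap (rp (GG1 S s0 (Fq d R t x))) (rhs S d t (trc R (rp x))) ∧
      NoHarm S (rp (GG1 S s0 (Fq d R t x))) := by
  obtain ⟨sT⟩ := spec4 S.DT (exists_p_ne S.H s0)
  refine (cur_iff S s0 sT (a := rp (GG1 S s0 (Fq d R t x))) (A := GG1 S s0 (Fq d R t x))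
    (fun _ => EventuallyEq.rfl) (f := rhs S d t (trc R (rp x)))
    (F := (⟨Fq d R t x, dl_P hS _⟩ : S.DL.toAD.HE)) (fun b => by
      filter_upwards [coe_Fq hS hd hR ht x] with z e
      exact e b)).2 ⟨rfl, fun l hl => ?_⟩
  exact H.perp (Fq d R t x) (Fq_cst hS hd hR ht x) h (s0.φ l) (s0.smooth l) (by
    intro b z
    exact congrArg (fun v : SmS S.DT => v.1 b z) (lA_ker S.H s0 (s0.mem_ker.1 hl)))

/-- **zeros are solutions of the truncated twisted system**. -/
theorem zero_iff {S : SWS M κ0 κ1 κT} {j : JD M κT b} {d : SWD M κT} (hS : S.OK) (hj : j.OK S)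
    (hd : d.Adm S) (s0 : Spec S.DL) (H : HarB hS bp) {R : ℝ} (hR : 0 < R) (h : Fin b → ℝ)
    {t : E3} (ht : ‖t‖ ≤ 1) (x : S.D0.toAD.WE) :
    (KA H d R t x = 0 ∧ Ah S.P x + ∑ i, h i • LI hS hj i x + KP hS hd s0 R t x = 0) ↔
      TSol S (d.tw j h) R t (rp (GG1 S s0 (Fq d R t x))) (rp x) := by
  have hdir := wkA_iff_eq (P := S.P) (u := rp x) (U := x) (fun _ => EventuallyEq.rfl)
    (f := fun y z => - S.cm (rp (GG1 S s0 (Fq d R t x)) + (d.tw j h).th t) (rp x) y z)
    (F := -(∑ i, h i • LI hS hj i x + KP hS hd s0 R t x)) (fun y => by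
      filter_upwards [coe_tot hS hj hd s0 R h t x] with z e
      exact e y)
  have hsum : Ah S.P x + ∑ i, h i • LI hS hj i x + KP hS hd s0 R t x = 0 ↔
      Ah S.P x = -(∑ i, h i • LI hS hj i x + KP hS hd s0 R t x) := by
    rw [add_assoc]
    exact add_eq_zero_iff_eq_neg
  constructor
  · rintro ⟨h1, h2⟩
    have hc := cur_of_KA hd s0 H hR ht h1
    exact ⟨inW_rp _, inW_rp _, hdir.2 (hsum.1 h2), hc.1, hc.2⟩
  · intro hT
    refine ⟨KA_of_wk H (coe_Fq hS hd hR ht x) hT.cur, hsum.2 (hdir.1 hT.dir)⟩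

/-- **bounded solutions of the true twisted system are zeros**. -/
theorem conv {S : SWS M κ0 κ1 κT} {j : JD M κT b} {d : SWD M κT} (hS : S.OK) (hj : j.OK S)
    (hd : d.Adm S) (s0 : Spec S.DL) (H : HarB hS bp) {R : ℝ} (hR : 0 < R) {h : Fin b → ℝ}
    {t : E3} (ht : ‖t‖ ≤ 1) {a : κT → M → ℝ} {u : κ0 → M → ℝ} (hsol : Sol S (d.tw j h) t a u)
    (hb : ∀ᵐ z ∂(μHE[4] : Measure M), ∑ y, u y z ^ 2 ≤ R ^ 2) {x : S.D0.toAD.WE}
    (hx : ∀ᵐ z ∂(μHE[4] : Measure M), ∀ y, rp x y z = u y z) :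
    KA H d R t x = 0 ∧ Ah S.P x + ∑ i, h i • LI hS hj i x + KP hS hd s0 R t x = 0 := by
  obtain ⟨sT⟩ := spec4 S.DT (exists_p_ne S.H s0)
  -- the truncation is inactive
  have hF : ∀ᵐ z ∂(μHE[4] : Measure M), ∀ l,
      (Fq d R t x l : M → ℝ) z = rhs S (d.tw j h) t u l z := by
    filter_upwards [coe_Fq hS hd hR ht x, hb, hx] with z e1 e2 e3 l
    rw [e1 l]
    have h2 : ∀ y, trc R (rp x) y z = u y z := by
      intro y
      have h3 : (fun y => rp x y z) = fun y => u y z := funext e3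
      have h4 := congrFun (tv_eq hR (fun y => u y z) e2) y
      have h5 : trc R (rp x) y z = tv R (fun y => rp x y z) y := rfl
      rw [h5, h3, h4]
    refine Fin.cases ?_ (fun k => ?_) l
    · rfl
    · show d.mu t z * ((1 / 2) * S.rq k (trc R (rp x)) z) + d.r * d.wt t k z + d.et t k z =
        d.mu t z * ((1 / 2) * S.rq k u z) + d.r * d.wt t k z + d.et t k z
      have h3 : S.rq k (trc R (rp x)) z = S.rq k u z := by
        unfold SWS.rq
        simp only [h2]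
      rw [h3]
  refine ⟨KA_of_wk H hF hsol.cur, ?_⟩
  -- `a` is given by the Green operator
  obtain ⟨A, hA⟩ := hsol.wa
  have hcur := (cur_iff S s0 sT (a := a) (A := A) hA (f := rhs S (d.tw j h) t u)
    (F := (⟨Fq d R t x, dl_P hS _⟩ : S.DL.toAD.HE)) (fun b => by
      filter_upwards [hF] with z e
      exact e b)).1 ⟨hsol.cur, hsol.har⟩
  have hG : A = GG1 S s0 (Fq d R t x) := hcur.1
  have hA' : ∀ᵐ z ∂(μHE[4] : Measure M), ∀ B, rp (GG1 S s0 (Fq d R t x)) B z = a B z := by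
    rw [← hG, ae_all_iff]
    exact hA
  have hU : ∀ y, rp x y =ᵐ[(μHE[4] : Measure M)] u y := fun y => by
    filter_upwards [hx] with z e
    exact e y
  have hdir := (wkA_iff_eq (P := S.P) (u := u) (U := x) hU
    (f := fun y z => - S.cm (a + (d.tw j h).th t) u y z)
    (F := -(∑ i, h i • LI hS hj i x + KP hS hd s0 R t x)) (fun y => by
      filter_upwards [coe_tot hS hj hd s0 R h t x, hA', hx] with z e e1 e2
      rw [e y]
      unfold SWS.cm
      simp only [Pi.add_apply, e1, e2])).1 hsol.dir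
  rw [add_assoc, hdir]
  exact neg_add_cancel _

end main

end Crest.Agent.R235.SWJn_333

end
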