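import Crest.Agent.R235.SWJu_435

/-!
Row 235 (S0364), nodes FWX0 / FWXH (helper133): equivariance of `Fq`, `KP`, `KA`, `Ah P`, `LI` under
the constant phases `z = c + e i` of `W^{1,2}(D0)` and `L²(D1)`.
-/

set_option autoImplicit false
set_option maxSynthPendingDepth 3
set_option linter.unusedSectionVars false

open scoped ContDiff ENNReal NNReal Topology Manifold Bundle RealInnerProductSpace
open MeasureTheory Set Filter Metric Bundle

universe v

noncomputable section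

namespace Crest.Agent.R235.SWPh_133

open Crest.Agent.R249.Tv57 Crest.Agent.R247.Ms322 Crest.Agent.R247.Dir593
open Crest.Agent.R235.SWDefs_53 Crest.Agent.R235.CptB_755 Crest.Agent.R235.Fs4_546
open Crest.Agent.R235.CptC_755 Crest.Agent.R235.Cpt_755 Crest.Agent.R235.Fred_649
open Crest.Agent.R235.Swx_333 Crest.Agent.R235.SWSym_451 Crest.Agent.R235.SWPf_435
open Crest.Agent.R235.FamR_151 Crest.Agent.R235.SWJu_435

section main

variable {M : Type v} [MetricSpace M] [CompactSpace M] [ConnectedSpace M]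
  [ChartedSpace (EuclideanSpace ℝ (Fin 4)) M] [IsManifold (𝓡 4) ∞ M]
  [RiemannianBundle (fun p : M => TangentSpace (𝓡 4) p)]
  [IsContMDiffRiemannianBundle (𝓡 4) ∞ (EuclideanSpace ℝ (Fin 4))
    (fun p : M => TangentSpace (𝓡 4) p)]
  [IsRiemannianManifold (𝓡 4) M] [MeasurableSpace M] [BorelSpace M]
  [SecondCountableTopology M] [Nonempty M] [IsFiniteMeasureOnCompacts (μHE[4] : Measure M)]
  {κ0 κ1 κT : Type} [Fintype κ0] [Fintype κ1] [Fintype κT]
  {S : SWS M κ0 κ1 κT} {cc : κ1 → κ0 → M → EuclideanSpace ℝ (Fin 4)} {J1 : κ1 → κ1 → M → ℝ}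
  {b bp : ℕ} {j : JD M κT b} {d : SWD M κT}

local notation "μM" => (μHE[4] : Measure M)

/-- the complex structure of `L²(D1)`. -/
def IH (C : CJ1 S cc J1) : S.D1.toAD.HE →L[ℝ] S.D1.toAD.HE := JH (cs1 C)

/-- the phase `z` on `W^{1,2}(D0)`. -/
theorem coe_ph (H : Sym S cc) (z : ℂ) (x : S.D0.toAD.WE) :
    ∀ᵐ p ∂μM, ∀ y, rp (z.re • x + z.im • II H x) y p =
      z.re * rp x y p + z.im * S.iu (rp x) y p := by
  filter_upwards [rp_add (z.re • x) (z.im • II H x), rp_smul z.re x, rp_smul z.im (II H x),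
    coe_II H x] with p e1 e2 e3 e4 y
  rw [e1 y, e2 y, e3 y, e4 y]

theorem ce {z : ℂ} (hz : ‖z‖ = 1) : z.re ^ 2 + z.im ^ 2 = 1 := by
  have h := Complex.sq_norm z
  rw [hz, Complex.normSq_apply] at h
  linarith

/-- **phA**: the quadratic term is invariant. -/
theorem phA (hS : S.OK) (hd : d.Adm S) (H : Sym S cc) {R : ℝ} (hR : 0 < R) {t : E3}
    (ht : ‖t‖ ≤ 1) {z : ℂ} (hz : ‖z‖ = 1) (x : S.D0.toAD.WE) :
    Fq d R t (z.re • x + z.im • II H x) = Fq d R t x :=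
  SWJu_133.Fq_rot hS hd H hR ht (c := fun _ => z.re) (e := fun _ => z.im) (fun _ => ce hz)
    (coe_ph H z x)

/-- **phKA** -/
theorem phKA (hS : S.OK) (HB : SWJc_365.HarB hS bp) (hd : d.Adm S) (H : Sym S cc) {R : ℝ}
    (hR : 0 < R) {t : E3} (ht : ‖t‖ ≤ 1) {z : ℂ} (hz : ‖z‖ = 1) (x : S.D0.toAD.WE) :
    SWJc_365.KA HB d R t (z.re • x + z.im • II H x) = SWJc_365.KA HB d R t x := by
  unfold SWJc_365.KA
  rw [phA hS hd H hR ht hz]

/-- **phP**: `KP` is equivariant. -/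
theorem phP (hS : S.OK) (hd : d.Adm S) (s0 : Spec S.DL) (H : Sym S cc) (C : CJ1 S cc J1) {R : ℝ}
    (hR : 0 < R) {t : E3} (ht : ‖t‖ ≤ 1) {z : ℂ} (hz : ‖z‖ = 1) (x : S.D0.toAD.WE) :
    SWJc_365.KP hS hd s0 R t (z.re • x + z.im • II H x) =
      z.re • SWJc_365.KP hS hd s0 R t x + z.im • IH C (SWJc_365.KP hS hd s0 R t x) := by
  refine SWJu_133.PL_KKt_rot hS hd H C s0 hR ht (c := fun _ => z.re) (e := fun _ => z.im)
    (fun _ => ce hz) (coe_ph H z x) ?_
  filter_upwards [rf_add (z.re • SWJc_365.KP hS hd s0 R t x)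
    (z.im • IH C (SWJc_365.KP hS hd s0 R t x)), rf_smul z.re (SWJc_365.KP hS hd s0 R t x),
    rf_smul z.im (IH C (SWJc_365.KP hS hd s0 R t x)),
    coe_JH (cs1 C) (SWJc_365.KP hS hd s0 R t x)] with p e1 e2 e3 e4 y
  refine (e1 y).trans ?_
  rw [e2 y, e3 y]
  have e5 : rf (IH C (SWJc_365.KP hS hd s0 R t x)) y p = _ := e4 y
  rw [e5]
  rfl

end main

end Crest.Agent.R235.SWPh_133
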