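import Crest.Agent.R235.FamTop2_307
import Crest.Agent.R235.FamU_151
import Crest.Agent.R235.SWPh_133
import Crest.Agent.R235.SWJn_900
import Crest.Agent.R235.SWJz_333

/-!
Row 235 (S0364), package FAM (helper53, insurance): the data `SWd` of `FamT_151` from `Rep`
(`SWHil_53`) and the real maps `KA`, `KP` of `SWJc_365`.
-/

set_option autoImplicit false
set_option maxSynthPendingDepth 3
set_option linter.unusedSectionVars false

open scoped ContDiff ENNReal NNReal Topology Manifold Bundle RealInnerProductSpace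
open MeasureTheory Set Filter Metric Bundle Module

universe v

noncomputable section

namespace Crest.Agent.R235.FamI_53

open Crest.Agent.R249.Tv57 Crest.Agent.R247.Ms322 Crest.Agent.R247.Dir593
open Crest.Agent.R235.SWDefs_53 Crest.Agent.R235.CptB_755 Crest.Agent.R235.Fs4_546
open Crest.Agent.R235.CptC_755 Crest.Agent.R235.Cpt_755 Crest.Agent.R235.Fred_649
open Crest.Agent.R235.Swx_333 Crest.Agent.R235.SWSym_451 Crest.Agent.R235.SWPf_435
open Crest.Agent.R235.FamR_151 Crest.Agent.R235.SWJu_435 Crest.Agent.R235.SWPh_133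
open Crest.Agent.R235.SWJc_365

section cx

variable {E : Type*} [NormedAddCommGroup E] [InnerProductSpace ℂ E]

theorem smul_dec (z : ℂ) (x : E) : z • x = z.re • x + z.im • (Complex.I • x) := by
  have h1 : z.im • (Complex.I • x) = ((z.im : ℂ) * Complex.I) • x := by
    rw [mul_smul, Complex.coe_smul]
  rw [h1, ← Complex.coe_smul z.re x, ← add_smul, Complex.re_add_im]

end cx

section main

variable {M : Type v} [MetricSpace M] [CompactSpace M] [ConnectedSpace M]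
  [ChartedSpace (EuclideanSpace ℝ (Fin 4)) M] [IsManifold (𝓡 4) ∞ M]
  [RiemannianBundle (fun p : M => TangentSpace (𝓡 4) p)]
  [IsContMDiffRiemannianBundle (𝓡 4) ∞ (EuclideanSpace ℝ (Fin 4))
    (fun p : M => TangentSpace (𝓡 4) p)]
  [IsRiemannianManifold (𝓡 4) M] [MeasurableSpace M] [BorelSpace M]
  [SecondCountableTopology M] [Nonempty M] [IsFiniteMeasureOnCompacts (μHE[4] : Measure M)]
  {κ0 κ1 κT : Type} [Fintype κ0] [Fintype κ1] [Fintype κT]
  {S : SWS M κ0 κ1 κT} {cc : κ1 → κ0 → M → EuclideanSpace ℝ (Fin 4)} {J1 : κ1 → κ1 → M → ℝ}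
  {b bp : ℕ} {j : JD M κT b} {d : SWD M κT}
  {X Y : Type v} [NormedAddCommGroup X] [InnerProductSpace ℂ X] [CompleteSpace X]
  [NormedAddCommGroup Y] [InnerProductSpace ℂ Y] [CompleteSpace Y]
  {Φ : PFam b X Y} {eX : X ≃L[ℝ] S.D0.toAD.WE} {eY : Y ≃L[ℝ] S.D1.toAD.HE} {φ : Fin b → M → ℝ}

local notation "μM" => (μHE[4] : Measure M)

/-! ### the translation -/

theorem eX_I (hr : Rep S j J1 Φ eX eY φ) (hc : Sym S cc) (x : X) :
    eX (Complex.I • x) = II hc (eX x) := by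
  refine WE_ext ?_
  filter_upwards [hr.iX x, coe_II hc (eX x)] with z e1 e2 y
  rw [e1 y, e2 y]

theorem eX_smul (hr : Rep S j J1 Φ eX eY φ) (hc : Sym S cc) (z : ℂ) (x : X) :
    eX (z • x) = z.re • eX x + z.im • II hc (eX x) := by
  rw [smul_dec, map_add, map_smul, map_smul, eX_I hr hc]

theorem eY_I (hr : Rep S j J1 Φ eX eY φ) (C : CJ1 S cc J1) (f : Y) :
    eY (Complex.I • f) = IH C (eY f) := by
  refine HE_ext ?_
  filter_upwards [hr.iY f, coe_JH (cs1 C) (eY f)] with z e1 e2 y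
  exact (e1 y).trans (e2 y).symm

theorem eY_smul (hr : Rep S j J1 Φ eX eY φ) (C : CJ1 S cc J1) (z : ℂ) (f : Y) :
    eY (z • f) = z.re • eY f + z.im • IH C (eY f) := by
  rw [smul_dec, map_add, map_smul, map_smul, eY_I hr C]

theorem eX_U (hr : Rep S j J1 Φ eX eY φ) (hc : Sym S cc) (hj : j.OK S) (k : Fin b → ℤ) (x : X) :
    eX (Φ.U k x) = UU hc hj k (eX x) := by
  refine WE_ext ?_
  filter_upwards [hr.U k x, coe_UU hc hj k (eX x)] with z e1 e2 y
  rw [e1 y, e2 y]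

theorem eY_D (hr : Rep S j J1 Φ eX eY φ) (hS : S.OK) (hc : Sym S cc) (hj : j.OK S)
    (h : Fin b → ℝ) (x : X) :
    eY (Φ.D h x) = Ah S.P (eX x) + ∑ i, h i • LI hS hj i (eX x) := by
  rw [← DR_LI hS hc hj]
  refine HE_ext ?_
  filter_upwards [hr.D h x, coe_DR hc hj h (eX x)] with z e1 e2 y
  exact (e1 y).trans (e2 y).symm

theorem gg_exp (hr : Rep S j J1 Φ eX eY φ) (k : Fin b → ℤ) (z : M) :
    (∏ i, ((j.gc i z : ℂ) + (j.gs i z : ℂ) * Complex.I) ^ (-k i)) =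
      Complex.exp (((-(2 * Real.pi * ∑ i, zv k i * φ i z) : ℝ) : ℂ) * Complex.I) := by
  have h2 : ∀ i, ((j.gc i z : ℂ) + (j.gs i z : ℂ) * Complex.I) ^ (-k i) =
      Complex.exp (((-k i : ℤ) : ℂ) * ((2 * Real.pi * φ i z : ℝ) * Complex.I)) := fun i => by
    rw [Complex.exp_int_mul, hr.cphi i z, hr.sphi i z, Complex.exp_mul_I, Complex.ofReal_cos,
      Complex.ofReal_sin]
  simp only [h2]
  rw [← Complex.exp_sum]
  congr 1
  push_cast
  rw [Finset.mul_sum, ← Finset.sum_neg_distrib, Finset.sum_mul]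
  refine Finset.sum_congr rfl fun i _ => ?_
  simp only [zv]
  push_cast
  ring

theorem eY_Th (hr : Rep S j J1 Φ eX eY φ) (C : CJ1 S cc J1) (hj : j.OK S) (k : Fin b → ℤ)
    (f : Y) : eY (Φ.Th (zv k) f) = VV C hj k (eY f) := by
  refine HE_ext ?_
  filter_upwards [hr.Th (zv k) f, coe_VV C hj k (eY f)] with z e1 e2 y
  refine (e1 y).trans (Eq.trans ?_ (e2 y).symm)
  have h1 := gg_exp hr k z
  have h2 : SWJu_133.gre j (fun i => - k i) z =
      Real.cos (2 * Real.pi * ∑ i, zv k i * φ i z) := by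
    show (∏ i, ((j.gc i z : ℂ) + (j.gs i z : ℂ) * Complex.I) ^ (-k i)).re = _
    rw [h1, Complex.exp_ofReal_mul_I_re, Real.cos_neg]
  have h3 : SWJu_133.gim j (fun i => - k i) z =
      - Real.sin (2 * Real.pi * ∑ i, zv k i * φ i z) := by
    show (∏ i, ((j.gc i z : ℂ) + (j.gs i z : ℂ) * Complex.I) ^ (-k i)).im = _
    rw [h1, Complex.exp_ofReal_mul_I_im, Real.sin_neg]
  rw [h2, h3]
  ring

/-! ### the data -/

variable (eX eY) in
/-- the Dirac part on `X`. -/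
def KX (hS : S.OK) (hd : d.Adm S) (s0 : Spec S.DL) (R : ℝ) (t : E3) (x : X) : Y :=
  if ‖t‖ ≤ 1 then eY.symm (KP hS hd s0 R t (eX x)) else 0

variable (eX) in
/-- the curvature part on `X`. -/
def EX {hS : S.OK} (H : HarB hS bp) (d : SWD M κT) (R : ℝ) (t : E3) (x : X) :
    EuclideanSpace ℝ (Fin bp) :=
  if ‖t‖ ≤ 1 then KA H d R t (eX x) else 0

theorem KX_of {hS : S.OK} {hd : d.Adm S} {s0 : Spec S.DL} {R : ℝ} {t : E3} (ht : ‖t‖ ≤ 1)
    (x : X) : KX eX eY hS hd s0 R t x = eY.symm (KP hS hd s0 R t (eX x)) := if_pos ht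

theorem EX_of {hS : S.OK} {H : HarB hS bp} {R : ℝ} {t : E3} (ht : ‖t‖ ≤ 1)
    (x : X) : EX eX H d R t x = KA H d R t (eX x) := if_pos ht

/-- the equations on `X` and on `W^{1,2}`. -/
theorem zero_X (hr : Rep S j J1 Φ eX eY φ) (hS : S.OK) (hc : Sym S cc) (hj : j.OK S)
    {hd : d.Adm S} {s0 : Spec S.DL} {R : ℝ} {t : E3} (ht : ‖t‖ ≤ 1) {h : Fin b → ℝ} {x : X} :
    Φ.D h x + KX eX eY hS hd s0 R t x = 0 ↔
      Ah S.P (eX x) + ∑ i, h i • LI hS hj i (eX x) + KP hS hd s0 R t (eX x) = 0 := by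
  rw [KX_of ht, ← eY_D hr hS hc hj, ← eY.map_eq_zero_iff, map_add, eY.apply_symm_apply]

/-- **the Seiberg-Witten data over the torus**. -/
theorem swd (hr : Rep S j J1 Φ eX eY φ) (hS : S.OK) (hc : Sym S cc) (C : CJ1 S cc J1)
    (hj : j.OK S) (hd : d.Adm S) (s0 : Spec S.DL) (H : HarB hS bp) {R C0 : ℝ} (hR : 0 < R)
    (hsup : ∀ (h : Fin b → ℝ) (t : E3) (a : κT → M → ℝ) (u : κ0 → M → ℝ), ‖t‖ ≤ 1 →
      TSol S (d.tw j h) R t a u → ∀ᵐ z ∂(μHE[4] : Measure M), ∑ y, u y z ^ 2 ≤ C0) :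
    SWd Φ (KX eX eY hS hd s0 R) (EX eX H d R) where
  K_cont := by
    have h1 : ContinuousOn (fun q : E3 × X => eY.symm (KP hS hd s0 R q.1 (eX q.2)))
        {q | ‖q.1‖ ≤ 1} :=
      eY.symm.continuous.comp_continuousOn ((SWJn_333.cKP hS hd s0 hR).comp
        (f := fun q : E3 × X => ((q.1, eX q.2) : E3 × S.D0.toAD.WE))
        (continuous_fst.prodMk (eX.continuous.comp continuous_snd)).continuousOn
        (fun q hq => hq))
    exact h1.congr fun q hq => KX_of hq q.2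
  K_cpt ρ := by
    obtain ⟨C', hC', h1⟩ := SWJn_333.cptP hS hd s0 hR (‖(eX : X →L[ℝ] S.D0.toAD.WE)‖ * ρ)
    refine ⟨eY.symm '' C', hC'.image eY.symm.continuous, fun t x ht hx => ?_⟩
    rw [KX_of ht]
    refine ⟨_, h1 t (eX x) ht ?_, rfl⟩
    exact ((eX : X →L[ℝ] S.D0.toAD.WE).le_opNorm x).trans
      (mul_le_mul_of_nonneg_left hx (norm_nonneg _))
  K_eq t x z hz := by
    by_cases ht : ‖t‖ ≤ 1
    · rw [KX_of ht, KX_of ht]
      apply eY.injective
      rw [eY.apply_symm_apply, eX_smul hr hc, phP hS hd s0 hc C hR ht hz, eY_smul hr C,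
        eY.apply_symm_apply]
    · simp only [KX, if_neg ht, smul_zero]
  K_U t k x := by
    by_cases ht : ‖t‖ ≤ 1
    · rw [KX_of ht, KX_of ht]
      apply eY.injective
      rw [eY.apply_symm_apply, eX_U hr hc hj, latP hS hd s0 hc C hj hR ht, eY_Th hr C hj,
        eY.apply_symm_apply]
    · simp only [KX, if_neg ht, map_zero]
  Ec_cont := by
    have h1 : ContinuousOn (fun q : E3 × X => KA H d R q.1 (eX q.2)) {q | ‖q.1‖ ≤ 1} :=
      (SWJn_333.cKA hd H hR).comp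
        (f := fun q : E3 × X => ((q.1, eX q.2) : E3 × S.D0.toAD.WE))
        (continuous_fst.prodMk (eX.continuous.comp continuous_snd)).continuousOn
        (fun q hq => hq)
    exact h1.congr fun q hq => EX_of hq q.2
  Ec_eq t x z hz := by
    by_cases ht : ‖t‖ ≤ 1
    · rw [EX_of ht, EX_of ht, eX_smul hr hc, phKA hS H hd hc hR ht hz]
    · simp only [EX, if_neg ht]
  Ec_U t k x := by
    by_cases ht : ‖t‖ ≤ 1
    · rw [EX_of ht, EX_of ht, eX_U hr hc hj, latKA hS H hd hc hj hR ht]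
    · simp only [EX, if_neg ht]
  bdd := by
    obtain ⟨ρ, hρ0, hρ⟩ := SWJn_900.bddJ hS hj hd s0 H (SWJn_333.e4 _) (SWJn_333.e4 _) hR hsup
      fun h t x ht h1 h2 => (SWJn_333.zero_iff hS hj hd s0 H hR h ht x).1 ⟨h1, h2⟩
    refine ⟨‖(eX.symm : S.D0.toAD.WE →L[ℝ] X)‖ * ρ, fun t h x ht hh h1 h2 => ?_⟩
    rw [EX_of ht] at h1
    have h3 := hρ t h (eX x) ht (fun i => ⟨hh.1 i, hh.2 i⟩) h1 ((zero_X hr hS hc hj ht).1 h2)
    calc ‖x‖ = ‖(eX.symm : S.D0.toAD.WE →L[ℝ] X) (eX x)‖ := by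
          rw [ContinuousLinearEquiv.coe_coe, eX.symm_apply_apply]
      _ ≤ ‖(eX.symm : S.D0.toAD.WE →L[ℝ] X)‖ * ‖eX x‖ :=
          (eX.symm : S.D0.toAD.WE →L[ℝ] X).le_opNorm _
      _ ≤ _ := mul_le_mul_of_nonneg_left h3 (norm_nonneg _)

/-! ### the official harmonic basis -/

/-- the basis `w_i`. -/
def hb (hS : S.OK) (hd : d.Adm S) (K : Nonempty (KerD S.DL S.H.A 4)) : HarB hS 3 where
  Φ i := el hS hd i.succ
  span v := by
    obtain ⟨K⟩ := K
    obtain ⟨hfin, hrank⟩ := finrank_KrS K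
    have hspan : Submodule.span ℝ (Set.range (el hS hd)) = ⊤ :=
      (el_li hS hd).span_eq_top_of_card_eq_finrank' (by rw [hrank, Fintype.card_fin])
    have hv : v ∈ Submodule.span ℝ (Set.range (el hS hd)) := by rw [hspan]; trivial
    obtain ⟨c, hc⟩ := (Submodule.mem_span_range_iff_exists_fun ℝ).1 hv
    refine ⟨c 0, fun i => c i.succ, ?_⟩
    rw [← hc, Fin.sum_univ_succ]
    rfl

theorem har_hb (hS : S.OK) (hd : d.Adm S) (K : Nonempty (KerD S.DL S.H.A 4))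
    (f : HH (μHE[4] : Measure M) (Fin 4)) : (hb hS hd K).har f = hpr hd f := by
  ext i
  rw [(hb hS hd K).har_apply, hpr_apply]
  rfl

/-- the linear isomorphism `L`. -/
def LL {S : SWS M κ0 κ1 κT} (hd : d.Adm S) : E3 ≃L[ℝ] E3 :=
  (LinearEquiv.ofBijective (gA d) (gA_bij hd)).toContinuousLinearEquiv

theorem LL_apply {S : SWS M κ0 κ1 κT} (hd : d.Adm S) (t : E3) : LL hd t = gA d t := rfl

/-- the segment. -/
theorem seg (hS : S.OK) (hd : d.Adm S) (K : Nonempty (KerD S.DL S.H.A 4)) {R : ℝ} (hR : 0 < R) :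
    ∀ t, ‖t‖ = 1 → ∀ s ∈ Icc (0 : ℝ) 1,
      (1 - s) • EX eX (hb hS hd K) d R t 0 + s • LL hd t ≠ 0 := by
  intro t ht s hs
  rw [EX_of ht.le, LL_apply, map_zero]
  refine hred hd hs.1 hs.2 ht (V := KA (hb hS hd K) d R t (0 : S.D0.toAD.WE)) fun i => ?_
  unfold KA
  rw [har_hb]
  exact hpr_zero hS hd hR ht.le i

end main

/-- **FWX0C**. -/
theorem fwx0c : FamTop2_307.FWX0C.{v} := by
  intro M _ _ _ _ _ _ _ _ _ _ _ _ _ κ0 κ1 κT _ _ _ S cc J1 j d hS hc C hj hd X Y _ _ _ _ _ _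
    Φ eX eY φ hr hind K hno
  obtain ⟨s0⟩ := spec_DL hS
  obtain ⟨C0, hC00, hC0⟩ := SWJn_900.supJ hS hj hd
  have hm : 0 ≤ √C0 := Real.sqrt_nonneg _
  have hR : 0 < √C0 + 1 := by positivity
  have hCR : C0 < (√C0 + 1) ^ 2 := by
    have h1 := Real.sq_sqrt hC00
    nlinarith
  have hsup : ∀ (h : Fin 4 → ℝ) (t : E3) (a : κT → M → ℝ) (u : κ0 → M → ℝ), ‖t‖ ≤ 1 →
      TSol S (d.tw j h) (√C0 + 1) t a u →
      ∀ᵐ z ∂(μHE[4] : Measure M), ∑ y, u y z ^ 2 ≤ C0 := fun h t a u ht hT =>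
    hC0 h _ hCR hR t a u ht hT
  have hW := swd hr hS hc C hj hd s0 (hb hS hd K) hR hsup
  obtain ⟨W, hWf, hWs, n, fr, fR, fW, R', h1, h2⟩ := fw_nz hW (LL hd) (seg hS hd K hR) hind
    (fun t h x ht h1 h2 => by
      obtain ⟨k, h', hh', rfl⟩ := exists_cube h
      have h3 := hW.shift h2
      have h4 : EX eX (hb hS hd K) d (√C0 + 1) t (Φ.U (-k) x) = 0 := by rw [hW.Ec_U, h1]
      rw [EX_of ht.le] at h4
      have h5 := (SWJn_333.zero_iff hS hj hd s0 (hb hS hd K) hR h' ht.le _).1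
        ⟨h4, (zero_X hr hS hc hj ht.le).1 h3⟩
      exact hno t h' _ _ ht (fun i => ⟨hh'.1 i, hh'.2 i⟩)
        (sol_of_tsol hR hCR h5 (hsup h' t _ _ ht.le h5)))
  exact ⟨W, hWf, n, _, fr, LL hd, fR, fW, R', hWs, h1, h2⟩

end Crest.Agent.R235.FamI_53

end
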