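import Crest.Agent.R235.RcMain_820
import Crest.Agent.R235.FamEmbC_842

/-!
Row 235, PACKAGE FAM (helper842): LINK of 820's RC-ABS with EMB: the Chern numbers of the kernel bundle in
the Hilbert space `J.HH W` are those of 151's finite dimensional projection `fr.P`.
-/

set_option autoImplicit false
set_option linter.unusedSectionVars false
set_option linter.unusedVariables false
set_option maxSynthPendingDepth 3

open Set Filter Module MeasureTheory Function
open scoped ContDiff Topology InnerProductSpace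

namespace Crest.Agent.R235.FamLnk_842

open Crest.Agent.R235.FamDefs_307 Crest.Agent.R235.FamEmb_842
open Crest.Agent.R235.Rc0_820 Crest.Agent.R235.Rc1_820
open Crest.Agent.R235.FamR_151
open Crest.Agent.R235.RCDefs_746 (Base Fam KerF Inf Gr RC)

noncomputable section

section link

variable {X Y : Type*} [NormedAddCommGroup X] [InnerProductSpace ℂ X] [CompleteSpace X]
  [NormedAddCommGroup Y] [InnerProductSpace ℂ Y] [CompleteSpace Y]
  {Φ : PFam 4 X Y} {H0 : Type*} [NormedAddCommGroup H0] [InnerProductSpace ℂ H0]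
  [CompleteSpace H0] (J : JF Φ H0) (W : Submodule ℂ Y) [FiniteDimensional ℂ W]
  {n : ℕ} (fr : Φ.Fr W n)

/-- the gauge unitary of the unit shift. -/
def Ue (a : Fin 4) : J.HH W ≃ₗᵢ[ℂ] J.HH W :=
  LinearIsometryEquiv.ofSurjective
    { toLinearMap := (J.UU W a : J.HH W →ₗ[ℂ] J.HH W)
      norm_map' := fun x => by
        have h1 := J.innerU W (Pi.single a 1) x x
        rw [inner_self_eq_norm_sq_to_K, inner_self_eq_norm_sq_to_K] at h1
        have h2 : ‖J.UU W a x‖ ^ 2 = ‖x‖ ^ 2 := by exact_mod_cast h1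
        exact (pow_left_inj₀ (norm_nonneg _) (norm_nonneg _) two_ne_zero).1 h2 }
    (J.surjU W (Pi.single a 1))

theorem Ue_apply (a : Fin 4) (x : J.HH W) : Ue J W a x = J.UU W a x := rfl

/-- the two realizations of the kernel bundle. -/
theorem emb (hs : ∀ h, Function.Surjective (Φ.A W h)) :
    Emb 4 fr.P (J.PK W fr) (J.J2 W fr) where
  Ps := fr.smP
  Pop h := ⟨fr.P_P h, fr.P_sa h⟩
  Pp h j := by
    have h1 := fr.P_per h (Pi.single j 1)
    rwa [JF.zv_single] at h1
  qs := (J.kerF' W fr hs).1.smooth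
  qop h := by
    have k := (J.kerF' W fr hs).1
    refine ⟨fun x => congrArg (fun T : J.HH W →L[ℂ] J.HH W => T x) (k.idem h), fun x y => ?_⟩
    have h1 := k.sa h
    rw [ContinuousLinearMap.star_eq_adjoint] at h1
    conv_lhs => rw [← h1]
    rw [ContinuousLinearMap.adjoint_inner_left]
  Js := J.cd_J2 W fr
  inj h v h1 h2 := by
    rw [← h1]
    exact J.J2_inj W fr h v h2
  qJ h v _ := (J.kerF' W fr hs).2 h v
  surj h y hy := by
    obtain ⟨v, hv⟩ := J.PK_mem W fr h y
    exact ⟨fr.P h v, fr.P_P h v, by rw [J.J2_P, ← hv, hy]⟩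
  V j := ⟨Ue J W j, fun h v _ => by
    have h1 := J.J2_per W fr (Pi.single j 1) h v
    rwa [JF.zv_single] at h1⟩

/-- **LINK**: the numbers of the kernel bundle in the Hilbert space are those of `fr.P`. -/
theorem link (hs : ∀ h, Function.Surjective (Φ.A W h)) :
    ch4 RCTr_746.tr (J.PK W fr) = ch4 tr fr.P ∧
      chsq RCTr_746.tr (J.PK W fr) = chsq tr fr.P :=
  emb4 (RCTr_746.hb (J.HH W)) (emb J W fr hs)

end link

/-- the number of `fr.P`. -/
theorem ch4_fr (hRC : RC) {X Y H0 : Type} [NormedAddCommGroup X] [InnerProductSpace ℂ X]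
    [CompleteSpace X] [NormedAddCommGroup Y] [InnerProductSpace ℂ Y] [CompleteSpace Y]
    {Φ : PFam 4 X Y} [NormedAddCommGroup H0] [InnerProductSpace ℂ H0] [CompleteSpace H0]
    (J : JF Φ H0) (W : Submodule ℂ Y) [FiniteDimensional ℂ W]
    (hs : ∀ h, Function.Surjective (Φ.A W h)) {n : ℕ} (fr : Φ.Fr W n)
    (hA : ∃ c, RCTr_746.App J.K0 c (1 / 4)) {L : ℂ}
    (hI : Inf (gr H0 Y) J.K0 (fun a => Complex.I • od (J.B a)) L) : ch4 tr fr.P = L / 2 := by
  rw [← (link J W fr hs).1]
  exact (JF.main hRC J W hs fr hA hI).2.2.1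

end

end Crest.Agent.R235.FamLnk_842
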