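import Crest.Agent.R235.FamTop2_307
import Crest.Agent.R235.IndTri_451
import Crest.Agent.R235.DichProps_723

/-!
Row 235 (S0364), PACKAGE FAM (leader helper307): the GEOMETRIC MODEL for `L` trivial and `b₁ = 4`.
EXACT PROP (489, 766, 344, 399, 930, 692, 723); consumer `FamEndT_307.fam4w_of`.
-/

set_option autoImplicit false
set_option maxSynthPendingDepth 3
set_option linter.unusedSectionVars false

open scoped ContDiff ENNReal NNReal Topology Manifold Bundle RealInnerProductSpace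
open MeasureTheory Set Filter Metric Bundle Module

namespace Crest.Agent.R235.FamModT_307

open Crest.Agent.R240 Crest.Agent.R240.Ch Crest.Agent.R235
open Crest.Agent.R249.Tv57 (Dat OpPair SmF SmV KerD)
open Crest.Agent.R235.SWDefs_53 Crest.Agent.R235.SWSym_451
open Crest.Agent.R235.IndTri_451
open Crest.Agent.R235.FamTop_307
open Crest.Agent.R235.Hopf_143 (hopf)

noncomputable section

/-- **MODT**: `L` trivial, an integral basis of `H¹` of length four. -/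
def MODT : Prop :=
  ∀ (M : Type) [MetricSpace M] [CompactSpace M] [ConnectedSpace M]
    [ChartedSpace (EuclideanSpace ℝ (Fin 4)) M] [IsManifold (𝓡 4) ∞ M]
    [RiemannianBundle (fun p : M => TangentSpace (𝓡 4) p)]
    [IsContMDiffRiemannianBundle (𝓡 4) ∞ (EuclideanSpace ℝ (Fin 4))
      (fun p : M => TangentSpace (𝓡 4) p)]
    [IsRiemannianManifold (𝓡 4) M] [MeasurableSpace M] [BorelSpace M]
    [SecondCountableTopology M] [Nonempty M] [IsFiniteMeasureOnCompacts (μHE[4] : Measure M)]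
    (w : Trip M) (e : Fin 3 → F2 E4 M), Pos3 w → IsTri (und w) e →
    (∀ (x : M) (u v : TangentSpace 𝓘(ℝ, E4) x), inner ℝ u v = at2 (gg e) x u v) →
    ∀ s : Fin 4 → F1 E4 M, DichProps_723.H1Bas s → ∀ a b : Z2 M,
    (a.1.1 : F2 E4 M) = wedG (s 0) (s 1) → (b.1.1 : F2 E4 M) = wedG (s 2) (s 3) →
    ∃ (κ0 κ1 κT : Type) (_ : Fintype κ0) (_ : Fintype κ1) (_ : Fintype κT)
      (S : SWS M κ0 κ1 κT) (cc : κ1 → κ0 → M → EuclideanSpace ℝ (Fin 4))
      (J1 : κ1 → κ1 → M → ℝ) (j : JD M κT 4)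
      (ww : Fin 3 → Fin 3 → M → ℝ) (τ : E3 → TD M κT) (C : ℝ)
      (th : E3 → κT → M → ℝ) (pi : EuclideanSpace ℂ (Fin 2) → E3)
      (U : EuclideanSpace ℂ (Fin 2) → κ0 → M → ℝ) (d0 d1 bp : ℕ),
      Sym S cc ∧ CJ1 S cc J1 ∧ GrdH S ∧ j.OK S ∧ HopfD S ww τ C th pi U ∧
      (∃ A : E3 ≃ₗᵢ[ℝ] E3, ∀ s, ‖s‖ = 1 → pi s = A (hopf s)) ∧
      Nonempty (KerD S.D0 S.P.A d0) ∧ Nonempty (KerD S.D1 S.P.B d1) ∧
      Nonempty (KerD S.DL S.H.A (1 + bp)) ∧ d0 + 4 = d1 + 1 + bp ∧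
      (∃ P N : Submodule ℝ (H2 M), FiniteDimensional ℝ (H2 M) ∧ P ⊔ N = ⊤ ∧
        Module.finrank ℝ P = bp ∧
        (∀ x ∈ P, x ≠ 0 → 0 < ip (w 0) x x) ∧ (∀ x ∈ N, x ≠ 0 → ip (w 0) x x < 0) ∧
        (∀ x ∈ P, ∀ y ∈ N, ip (w 0) x y = 0)) ∧
      (numJ S j ≠ 0 → pI (w 0) a b ≠ 0)

end

end Crest.Agent.R235.FamModT_307
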