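import Crest.Agent.R235.FamTop2_307
import Crest.Agent.R235.SwcProd_215

/-!
Row 235 (S0364), PACKAGE FAM (leader helper307): the GEOMETRIC MODEL for a class `c ≠ 0`, `c·c = 0`,
on a manifold of torus type.  EXACT PROP (399, 344, 453, 451, 483, 692, 930, 723); consumer
`FamEndX_307.modx_of`.
-/

set_option autoImplicit false
set_option maxSynthPendingDepth 3
set_option linter.unusedSectionVars false

open scoped ContDiff ENNReal NNReal Topology Manifold Bundle RealInnerProductSpace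
open MeasureTheory Set Filter Metric Bundle Module

namespace Crest.Agent.R235.FamModX_307

open Crest.Agent.R240 Crest.Agent.R240.Ch Crest.Agent.R235
open Crest.Agent.R249.Tv57 (Dat OpPair SmF SmV KerD)
open Crest.Agent.R249.Tz805 (ToF)
open Crest.Agent.R235.SWDefs_53 Crest.Agent.R235.SWSym_451
open Crest.Agent.R235.IndTri_451 Crest.Agent.R235.Tau483
open Crest.Agent.R235.SwcProd_215 (SwcData Sols)
open Crest.Agent.R235.FamTop_307

noncomputable section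

/-- **MODXG**: the model for a class `c ≠ 0`, `c · c = 0`, of a manifold of torus type. -/
def MODXG : Prop :=
  ∀ (M : Type) [MetricSpace M] [CompactSpace M] [ConnectedSpace M]
    [ChartedSpace (EuclideanSpace ℝ (Fin 4)) M] [IsManifold (𝓡 4) ∞ M]
    [RiemannianBundle (fun p : M => TangentSpace (𝓡 4) p)]
    [IsContMDiffRiemannianBundle (𝓡 4) ∞ (EuclideanSpace ℝ (Fin 4))
      (fun p : M => TangentSpace (𝓡 4) p)]
    [IsRiemannianManifold (𝓡 4) M] [MeasurableSpace M] [BorelSpace M]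
    [SecondCountableTopology M] [Nonempty M] [IsFiniteMeasureOnCompacts (μHE[4] : Measure M)]
    (w : Trip M) (e : Fin 3 → F2 E4 M), Pos3 w → T4R (w 0) →
    IsTri (fun i => (w i).1.1) e →
    (∀ (x : M) (u v : TangentSpace (𝓡 4) x), inner ℝ u v = at2 (gg e) x u v) →
    ∀ c ∈ HZ M, ip (w 0) c c = 0 → c ≠ 0 →
    ∃ (κ0 κ1 κT : Type) (_ : Fintype κ0) (_ : Fintype κ1) (_ : Fintype κT)
      (S : SWS M κ0 κ1 κT) (T : ToF 4 M) (cc : κ1 → κ0 → (z : M) → TangentSpace (𝓡 4) z)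
      (W : κ0 → κ0 → (z : M) → TangentSpace (𝓡 4) z)
      (sT : κT → (z : M) → TangentSpace (𝓡 4) z) (ι : ℝ)
      (ww : Fin 3 → Fin 3 → M → ℝ) (τ : E3 → TD M κT) (C K : ℝ)
      (ccS : κ1 → κ0 → M → EuclideanSpace ℝ (Fin 4)) (J1 : κ1 → κ1 → M → ℝ) (j : JD M κT 4)
      (d0 d1 bp : ℕ),
      SwcData S T cc W sT w e ι ww τ C K c ∧
      (∀ k, ContinuousOn (fun q : E3 × M => (τ q.1).fE k q.2) {q | ‖q.1‖ = 1}) ∧
      Sym S ccS ∧ CJ1 S ccS J1 ∧ j.OK S ∧
      Nonempty (KerD S.D0 S.P.A d0) ∧ Nonempty (KerD S.D1 S.P.B d1) ∧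
      Nonempty (KerD S.DL S.H.A (1 + bp)) ∧ d0 + 4 = d1 + 1 + bp ∧
      (∃ P N : Submodule ℝ (H2 M), FiniteDimensional ℝ (H2 M) ∧ P ⊔ N = ⊤ ∧
        Module.finrank ℝ P = bp ∧
        (∀ x ∈ P, x ≠ 0 → 0 < ip (w 0) x x) ∧ (∀ x ∈ N, x ≠ 0 → ip (w 0) x x < 0) ∧
        (∀ x ∈ P, ∀ y ∈ N, ip (w 0) x y = 0)) ∧
      numJ S j ≠ 0

end

end Crest.Agent.R235.FamModX_307
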