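import Crest.Agent.R235.FamG_151

/-!
Row 235 (S0364), helper151. Block FAM: the nondegenerate point over the boundary survives the
reduction (`OneRay`).
-/

set_option autoImplicit false
set_option linter.unusedSectionVars false

open Set Filter Topology Module
open scoped ContDiff

namespace Crest.Agent.R235.FamR_151

section gen

variable {E F : Type*} [NormedAddCommGroup E] [NormedSpace ℝ E] [NormedAddCommGroup F]
  [NormedSpace ℝ F]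

theorem near_of {f : E → F} {L : E →L[ℝ] F} {p : E} (hf : HasFDerivAt f L p) {η : ℝ}
    (hη : 0 < η) : ∃ ρ > 0, ∀ q, ‖q - p‖ ≤ ρ → ‖f q - f p - L (q - p)‖ ≤ η * ‖q - p‖ := by
  have h1 := hf.isLittleO.def hη
  obtain ⟨ρ, hρ, hsub⟩ := Metric.eventually_nhds_iff.1 h1
  refine ⟨ρ / 2, half_pos hρ, fun q hq => ?_⟩
  refine hsub ?_
  rw [dist_eq_norm]
  linarith

theorem below_of {f : E → F} {L : E →L[ℝ] F} {p : E} (hf : HasFDerivAt f L p) (h0 : f p = 0)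
    {c : ℝ} (hc : 0 < c) (hL : ∀ w, c * ‖w‖ ≤ ‖L w‖) :
    ∃ ρ > 0, ∀ q, ‖q - p‖ ≤ ρ → c / 2 * ‖q - p‖ ≤ ‖f q‖ := by
  obtain ⟨ρ, hρ, h⟩ := near_of hf (half_pos hc)
  refine ⟨ρ, hρ, fun q hq => ?_⟩
  have h1 := h q hq
  rw [h0, sub_zero] at h1
  have h2 := hL (q - p)
  have h3 : ‖L (q - p)‖ ≤ ‖f q‖ + ‖f q - L (q - p)‖ := by
    have : L (q - p) = f q - (f q - L (q - p)) := by abel
    calc ‖L (q - p)‖ = ‖f q - (f q - L (q - p))‖ := by rw [← this]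
      _ ≤ _ := norm_sub_le _ _
  linarith

end gen

section gen2

variable {E Y : Type*} [NormedAddCommGroup E] [NormedSpace ℝ E] [NormedAddCommGroup Y]
  [InnerProductSpace ℂ Y]

/-- the part orthogonal to `W` of a differentiable map is small of first order, uniformly. -/
theorem tail_le {f : E → Y} {L : E →L[ℝ] Y} {p : E} (hf : HasFDerivAt f L p) {η : ℝ}
    (hη : 0 < η) : ∃ ρ0 > 0, ∀ ρ, 0 < ρ → ρ ≤ ρ0 → ∀ (W : Submodule ℂ Y) [FiniteDimensional ℂ W],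
      f p ∈ W → (∀ q, ‖q - p‖ ≤ ρ → ‖f q - W.starProjection (f q)‖ ≤ η * ρ) →
      ∀ q, ‖q - p‖ ≤ ρ → ‖f q - W.starProjection (f q)‖ ≤ 3 * η * ‖q - p‖ := by
  obtain ⟨ρ0, hρ0, h⟩ := near_of hf hη
  refine ⟨ρ0, hρ0, fun ρ hρ hle W _ hpW hW q hq => ?_⟩
  -- the complementary projection
  have hnT : ∀ y : Y, ‖y - W.starProjection y‖ ≤ ‖y‖ := by
    intro y
    have h1 : y - W.starProjection y = Wᗮ.starProjection y :=
      (Submodule.starProjection_orthogonal_val y).symm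
    rw [h1]
    exact Submodule.norm_starProjection_apply_le _ _
  have hfp : f p - W.starProjection (f p) = 0 := by
    rw [Submodule.starProjection_eq_self_iff.2 hpW, sub_self]
  rcases eq_or_ne q p with rfl | hne
  · rw [hfp]; simp
  set u := q - p with hu
  have hu0 : 0 < ‖u‖ := norm_pos_iff.2 (sub_ne_zero.2 hne)
  set lam : ℝ := ‖u‖ / ρ with hlam
  have hlam0 : 0 < lam := div_pos hu0 hρ
  set q1 : E := p + lam⁻¹ • u with hq1
  have hq1p : q1 - p = lam⁻¹ • u := by rw [hq1]; abel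
  have hn1 : ‖q1 - p‖ = ρ := by
    rw [hq1p, norm_smul, norm_inv, Real.norm_eq_abs, abs_of_pos hlam0, hlam]
    field_simp
  have hLu : L u = lam • L (q1 - p) := by
    rw [hq1p, map_smul, smul_smul, mul_inv_cancel₀ hlam0.ne', one_smul]
  have hR := h q (hq.trans hle)
  have hR1 := h q1 (hn1.le.trans hle)
  rw [← hu] at hR
  have hT1 : ∀ y y' : Y, (y + y') - W.starProjection (y + y') =
      (y - W.starProjection y) + (y' - W.starProjection y') := by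
    intro y y'; rw [map_add]; abel
  -- decompose
  have e1 : f q = f p + (f q - f p - L u) + L u := by abel
  have e2 : L u = lam • (f q1 - f p - (f q1 - f p - L (q1 - p))) := by
    rw [hLu]; congr 1; abel
  have e3 : ‖L u - W.starProjection (L u)‖ ≤ 2 * η * ‖u‖ := by
    have h5 : L u - W.starProjection (L u) =
        (lam : ℂ) • ((f q1 - W.starProjection (f q1)) -
        ((f q1 - f p - L (q1 - p)) - W.starProjection (f q1 - f p - L (q1 - p)))) := by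
      have h6 : L u = (lam : ℂ) • (f q1 - f p - (f q1 - f p - L (q1 - p))) := by
        rw [e2]; exact (Complex.coe_smul lam _).symm
      rw [h6, map_smul, ← smul_sub]
      congr 1
      have h7 : W.starProjection (f p) = f p := Submodule.starProjection_eq_self_iff.2 hpW
      generalize f q1 - f p - L (q1 - p) = z
      have h8 : W.starProjection (f q1 - f p - z) =
          W.starProjection (f q1) - f p - W.starProjection z := by
        rw [map_sub, map_sub, h7]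
      rw [h8]
      abel
    rw [h5, norm_smul, Complex.norm_real, Real.norm_eq_abs, abs_of_pos hlam0]
    have h8 : ‖(f q1 - W.starProjection (f q1)) -
        ((f q1 - f p - L (q1 - p)) - W.starProjection (f q1 - f p - L (q1 - p)))‖ ≤
        η * ρ + η * ρ := by
      refine (norm_sub_le _ _).trans (add_le_add (hW q1 hn1.le) ?_)
      refine (hnT _).trans (hR1.trans ?_)
      rw [hn1]
    have h9 : lam * ρ = ‖u‖ := by rw [hlam]; field_simp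
    calc lam * _ ≤ lam * (η * ρ + η * ρ) := mul_le_mul_of_nonneg_left h8 hlam0.le
      _ = 2 * η * (lam * ρ) := by ring
      _ = 2 * η * ‖u‖ := by rw [h9]
  have e4 : f q - W.starProjection (f q) = (f p - W.starProjection (f p)) +
      ((f q - f p - L u) - W.starProjection (f q - f p - L u)) +
      (L u - W.starProjection (L u)) := by
    rw [← hT1, ← hT1, ← e1]
  rw [e4, hfp, zero_add]
  refine (norm_add_le _ _).trans ?_
  have := (hnT (f q - f p - L u)).trans hR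
  linarith

theorem da_apply {E' F' : Type*} [NormedAddCommGroup E'] [NormedSpace ℂ E']
    [NormedAddCommGroup F'] [NormedSpace ℂ F'] {S : E → E' →L[ℂ] F'} {v : E → E'} {p : E}
    (hS : DifferentiableAt ℝ S p) (hv : DifferentiableAt ℝ v p) :
    DifferentiableAt ℝ (fun q => S q (v q)) p :=
  DifferentiableAt.comp (g := fun r : (E' →L[ℂ] F') × E' => r.1 r.2) p
    ((bil_apply (E := E') (F := F')).differentiableAt (S p, v p)) (hS.prodMk hv)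

end gen2

section one

open FamDefs_307

variable {b : ℕ} {X Y : Type*} [NormedAddCommGroup X] [InnerProductSpace ℂ X]
  [CompleteSpace X] [NormedAddCommGroup Y] [InnerProductSpace ℂ Y] [CompleteSpace Y]
  {Φ : PFam b X Y} {T YR G : Type} [NormedAddCommGroup T] [NormedSpace ℝ T]
  [FiniteDimensional ℝ T] [NormedAddCommGroup YR] [NormedSpace ℝ YR] [FiniteDimensional ℝ YR]
  [NormedAddCommGroup G] [NormedSpace ℂ G] [FiniteDimensional ℂ G]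

namespace Core

variable (Γ : Core Φ T YR G)

/-- the collar map `(Ec, F, g - (|t| - 1) v)` at `(t/|t|, h, x)`. -/
noncomputable def FF (q : T × ((Fin b → ℝ) × X)) : (YR × Y) × G :=
  ((Γ.Ec (‖q.1‖⁻¹ • q.1) q.2.1 q.2.2, Φ.D q.2.1 q.2.2 + Γ.K (‖q.1‖⁻¹ • q.1) q.2.2),
    Γ.g (‖q.1‖⁻¹ • q.1) q.2.1 q.2.2 - ((‖q.1‖ - 1 : ℝ) : ℂ) • Γ.v)

/-- the only zero over the boundary on the ray, nondegenerate. -/
structure Pt (t0 : T) (x0 : X) (r0 : ℝ) : Prop where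
  t0_norm : ‖t0‖ = 1
  r0_pos : 0 < r0
  zero1 : Γ.Ec t0 0 x0 = 0
  zero2 : Φ.D 0 x0 + Γ.K t0 x0 = 0
  g0 : Γ.g t0 0 x0 = (r0 : ℂ) • Γ.v
  inside : Γ.N 0 x0 < Γ.R1
  uniq : ∀ t h x (s : ℝ), ‖t‖ = 1 → 0 ≤ s → Γ.N h x ≤ Γ.R1 → Γ.Ec t h x = 0 →
    Φ.D h x + Γ.K t x = 0 → Γ.g t h x = (s : ℂ) • Γ.v → t = t0 ∧ ∃ k, h = zv k ∧ x = Φ.U k x0
  der : ∃ (L : T × ((Fin b → ℝ) × X) →L[ℝ] (YR × Y) × G),
    HasFDerivAt Γ.FF L ((1 + r0) • t0, (0, x0)) ∧ ∃ c > 0, ∀ w, c * ‖w‖ ≤ ‖L w‖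

/-- the nonlinearity in the collar. -/
noncomputable def Gq (q : T × ((Fin b → ℝ) × X)) : Y :=
  Φ.Th (-q.2.1) (Γ.K (‖q.1‖⁻¹ • q.1) q.2.2)

theorem norm_inv_smul {t0 : T} (ht : ‖t0‖ = 1) {r : ℝ} (hr : 0 < r) :
    ‖r • t0‖⁻¹ • (r • t0) = t0 := by
  rw [norm_smul, ht, Real.norm_eq_abs, abs_of_pos hr, mul_one, smul_smul,
    inv_mul_cancel₀ hr.ne', one_smul]

theorem norm_bar_le (t : T) : ‖‖t‖⁻¹ • t‖ ≤ 1 := by
  rcases eq_or_ne t 0 with rfl | h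
  · simp
  · rw [norm_smul, norm_inv, norm_norm, inv_mul_cancel₀ (norm_ne_zero_iff.2 h)]

theorem nbhd {t0 : T} {x0 : X} {r0 : ℝ} (hp : Γ.Pt t0 x0 r0) :
    ∃ c > 0, ∃ ρ > 0, ρ ≤ 1 / 2 ∧
      (∀ q, ‖q - ((1 + r0) • t0, ((0 : Fin b → ℝ), x0))‖ ≤ ρ → Γ.N q.2.1 q.2.2 < Γ.R1) ∧
      (∀ q, ‖q - ((1 + r0) • t0, ((0 : Fin b → ℝ), x0))‖ ≤ ρ →
        c / 2 * ‖q - ((1 + r0) • t0, ((0 : Fin b → ℝ), x0))‖ ≤ ‖Γ.FF q‖) ∧
      (∃ C, 0 ≤ C ∧ ∀ q, ‖q - ((1 + r0) • t0, ((0 : Fin b → ℝ), x0))‖ ≤ ρ →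
        ‖Γ.Gq q - Γ.Gq ((1 + r0) • t0, ((0 : Fin b → ℝ), x0))‖ ≤
          C * ‖q - ((1 + r0) • t0, ((0 : Fin b → ℝ), x0))‖) ∧
      (∀ (W : Submodule ℂ Y) [FiniteDimensional ℂ W],
        Γ.Gq ((1 + r0) • t0, ((0 : Fin b → ℝ), x0)) ∈ W →
        (∀ q, ‖q - ((1 + r0) • t0, ((0 : Fin b → ℝ), x0))‖ ≤ ρ →
          ‖Γ.Gq q - W.starProjection (Γ.Gq q)‖ ≤ c / 12 * ρ) →
        ∀ q, ‖q - ((1 + r0) • t0, ((0 : Fin b → ℝ), x0))‖ ≤ ρ →
          ‖Γ.Gq q - W.starProjection (Γ.Gq q)‖ ≤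
            c / 4 * ‖q - ((1 + r0) • t0, ((0 : Fin b → ℝ), x0))‖) ∧
      DifferentiableAt ℝ Γ.Gq ((1 + r0) • t0, ((0 : Fin b → ℝ), x0)) := by
  set p : T × ((Fin b → ℝ) × X) := ((1 + r0) • t0, ((0 : Fin b → ℝ), x0)) with hpdef
  obtain ⟨L, hL, c, hc, hcL⟩ := hp.der
  have hr : 0 < 1 + r0 := by have := hp.r0_pos; linarith
  have hpbar : ‖p.1‖⁻¹ • p.1 = t0 := norm_inv_smul hp.t0_norm hr
  have hFp : Γ.FF p = 0 := by
    have h1 : ‖p.1‖ - 1 = r0 := by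
      show ‖(1 + r0) • t0‖ - 1 = r0
      rw [norm_smul, hp.t0_norm, Real.norm_eq_abs, abs_of_pos hr]; ring
    unfold FF
    rw [hpbar, h1]
    show ((Γ.Ec t0 0 x0, Φ.D 0 x0 + Γ.K t0 x0), Γ.g t0 0 x0 - (r0 : ℂ) • Γ.v) = 0
    rw [hp.zero1, hp.zero2, hp.g0, sub_self]; rfl
  -- differentiability of `Gq`
  have hFd : DifferentiableAt ℝ Γ.FF p := hL.differentiableAt
  have hDd : DifferentiableAt ℝ (fun q : T × ((Fin b → ℝ) × X) => Φ.D q.2.1 q.2.2) p := by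
    refine da_apply ?_ (differentiableAt_snd.snd)
    exact (Φ.smD.differentiable (by simp)).differentiableAt.comp p differentiableAt_snd.fst
  have hKd : DifferentiableAt ℝ
      (fun q : T × ((Fin b → ℝ) × X) => Γ.K (‖q.1‖⁻¹ • q.1) q.2.2) p := by
    have h1 : (fun q : T × ((Fin b → ℝ) × X) => Γ.K (‖q.1‖⁻¹ • q.1) q.2.2) =
        fun q => (Γ.FF q).1.2 - Φ.D q.2.1 q.2.2 := by
      funext q
      show _ = Φ.D q.2.1 q.2.2 + Γ.K (‖q.1‖⁻¹ • q.1) q.2.2 - Φ.D q.2.1 q.2.2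
      abel
    rw [h1]
    exact (hFd.fst.snd).sub hDd
  have hGd : DifferentiableAt ℝ Γ.Gq p := by
    refine da_apply ?_ hKd
    exact (Φ.smTh.differentiable (by simp)).differentiableAt.comp p
      (differentiableAt_snd.fst.neg)
  obtain ⟨ρ1, hρ1, h1⟩ := below_of hL hFp hc hcL
  obtain ⟨ρ2, hρ2, h2⟩ := tail_le hGd.hasFDerivAt (η := c / 12) (by positivity)
  obtain ⟨ρ3, hρ3, h3⟩ := near_of hGd.hasFDerivAt one_pos
  have h4 : ∀ᶠ q in 𝓝 p, Γ.N q.2.1 q.2.2 < Γ.R1 := by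
    have hc' : ContinuousAt (fun q : T × ((Fin b → ℝ) × X) => Γ.N q.2.1 q.2.2) p :=
      (Γ.N_cont.comp continuous_snd).continuousAt
    exact hc'.eventually_lt_const hp.inside
  obtain ⟨ρ4, hρ4, h4⟩ := Metric.eventually_nhds_iff.1 h4
  set ρ : ℝ := min (min ρ1 ρ2) (min (min ρ3 (ρ4 / 2)) (1 / 2)) with hρdef
  have hρpos : 0 < ρ := by positivity
  have l1 : ρ ≤ ρ1 := (min_le_left _ _).trans (min_le_left _ _)
  have l2 : ρ ≤ ρ2 := (min_le_left _ _).trans (min_le_right _ _)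
  have l3 : ρ ≤ ρ3 := (min_le_right _ _).trans ((min_le_left _ _).trans (min_le_left _ _))
  have l4 : ρ ≤ ρ4 / 2 := (min_le_right _ _).trans ((min_le_left _ _).trans (min_le_right _ _))
  have l5 : ρ ≤ 1 / 2 := (min_le_right _ _).trans (min_le_right _ _)
  refine ⟨c, hc, ρ, hρpos, l5, ?_, ?_, ?_, ?_, hGd⟩
  · intro q hq
    exact h4 (by rw [dist_eq_norm]; linarith)
  · intro q hq
    exact h1 q (hq.trans l1)
  · refine ⟨‖fderiv ℝ Γ.Gq p‖ + 1, by positivity, fun q hq => ?_⟩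
    have h5 := h3 q (hq.trans l3)
    have h6 : Γ.Gq q - Γ.Gq p = (Γ.Gq q - Γ.Gq p - fderiv ℝ Γ.Gq p (q - p)) +
      fderiv ℝ Γ.Gq p (q - p) := by abel
    rw [h6]
    refine (norm_add_le _ _).trans ?_
    have h7 := (fderiv ℝ Γ.Gq p).le_opNorm (q - p)
    linarith
  · intro W _ hpW hW q hq
    have := h2 ρ hρpos l2 W hpW hW q hq
    linarith

theorem exists_cube' {b : ℕ} (h : Fin b → ℝ) :
    ∃ (k : Fin b → ℤ) (h' : Fin b → ℝ), ‖h'‖ ≤ 1 / 2 ∧ h = h' + zv k := by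
  refine ⟨fun j => round (h j), fun j => h j - round (h j), ?_, ?_⟩
  · rw [pi_norm_le_iff_of_nonneg (by norm_num)]
    intro j
    rw [Real.norm_eq_abs]
    exact abs_sub_round _
  · funext j
    simp [zv]

theorem mem_QQ {b : ℕ} {h : Fin b → ℝ} (hh : ‖h‖ ≤ 1 / 2) : h ∈ QQ b := by
  refine ⟨fun j => ?_, fun j => ?_⟩
  · have h4 := (norm_le_pi_norm h j).trans hh
    rw [Real.norm_eq_abs] at h4
    have := (abs_le.1 h4).1
    show (-1 : ℝ) ≤ h j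
    linarith
  · have h4 := (norm_le_pi_norm h j).trans hh
    rw [Real.norm_eq_abs] at h4
    have := (abs_le.1 h4).2
    show h j ≤ (1 : ℝ)
    linarith

section red3

variable (W : Submodule ℂ Y) [FiniteDimensional ℂ W] {n : ℕ} (fr : Φ.Fr W n)

theorem xx_P (h : Fin b → ℝ) (ψ : EuclideanSpace ℂ (Fin n)) :
    xx W fr h (fr.P h ψ) = xx W fr h ψ := by rw [xx, fr.J_P]; rfl

theorem ww_P (h : Fin b → ℝ) (ψ : EuclideanSpace ℂ (Fin n)) :
    ww W fr h (fr.P h ψ) = ww W fr h ψ := by rw [ww, fr.J_P]; rfl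

theorem fR_eval {t : T} (ht : ‖t‖ ≤ 1) {h : Fin b → ℝ} {ψ : EuclideanSpace ℂ (Fin n)}
    (hN : Γ.N h (xx W fr h ψ) ≤ Γ.R1) :
    Γ.fR W fr (t, h, ψ) = Γ.Ec t h (xx W fr h ψ) := by
  show Γ.Ec (cl t) h (((Γ.rr h (xx W fr h ψ) : ℝ) : ℂ) • xx W fr h ψ) = _
  rw [cl_of_le ht, Γ.rr_of_le hN, Complex.ofReal_one, one_smul]

theorem fW_eval {t : T} (ht : ‖t‖ ≤ 1) {h : Fin b → ℝ} {ψ : EuclideanSpace ℂ (Fin n)}
    (hN : Γ.N h (xx W fr h ψ) ≤ Γ.R1) :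
    Γ.fW W fr (t, h, ψ) = -(ww W fr h ψ) +
      W.orthogonalProjectionOnto (Φ.Th (-h) (Γ.K t (xx W fr h ψ))) := by
  have h5 : Γ.Kh t h (xx W fr h ψ) = Γ.K t (xx W fr h ψ) := by
    rw [Kh, Γ.rr_of_le hN, cl_of_le ht]; simp
  show -(ww W fr h ψ) + W.orthogonalProjectionOnto (Φ.Th (-h) (Γ.Kh t h (xx W fr h ψ))) = _
  rw [h5]

/-- the point in the infinite dimensional space. -/
noncomputable def Qm (u : T × (Fin b → ℝ) × EuclideanSpace ℂ (Fin n)) :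
    T × ((Fin b → ℝ) × X) := (u.1, (u.2.1, xx W fr u.2.1 u.2.2))

/-- the collar map of the reduced system. -/
noncomputable def fh (u : T × (Fin b → ℝ) × EuclideanSpace ℂ (Fin n)) :
    YR × (EuclideanSpace ℂ (Fin (finrank ℂ W)) × G) :=
  (Γ.fR W fr (‖u.1‖⁻¹ • u.1, u.2.1, fr.P u.2.1 u.2.2),
    Γ.fC W fr (‖u.1‖⁻¹ • u.1, u.2.1, fr.P u.2.1 u.2.2) -
      ((‖u.1‖ - 1 : ℝ) : ℂ) • ((0, Γ.v) : EuclideanSpace ℂ (Fin (finrank ℂ W)) × G))

/-- the collar map in the region where nothing is changed. -/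
theorem fh_eval {u : T × (Fin b → ℝ) × EuclideanSpace ℂ (Fin n)}
    (hN : Γ.N u.2.1 (xx W fr u.2.1 u.2.2) ≤ Γ.R1) :
    Γ.fh W fr u = ((Γ.FF (Qm W fr u)).1.1,
      (rep W (-(ww W fr u.2.1 u.2.2) + W.orthogonalProjectionOnto (Γ.Gq (Qm W fr u))),
        (Γ.FF (Qm W fr u)).2)) := by
  have hb := norm_bar_le u.1
  have h1 : Γ.fR W fr (‖u.1‖⁻¹ • u.1, u.2.1, fr.P u.2.1 u.2.2) = (Γ.FF (Qm W fr u)).1.1 := by
    rw [Γ.fR_eval W fr hb (by rw [xx_P]; exact hN), xx_P]; rfl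
  have h2 : Γ.fW W fr (‖u.1‖⁻¹ • u.1, u.2.1, fr.P u.2.1 u.2.2) =
      -(ww W fr u.2.1 u.2.2) + W.orthogonalProjectionOnto (Γ.Gq (Qm W fr u)) := by
    rw [Γ.fW_eval W fr hb (by rw [xx_P]; exact hN), xx_P, ww_P]; rfl
  unfold fh
  rw [h1]
  refine Prod.ext rfl (Prod.ext ?_ ?_)
  · show rep W (Γ.fW W fr (‖u.1‖⁻¹ • u.1, u.2.1, fr.P u.2.1 u.2.2)) -
      ((‖u.1‖ - 1 : ℝ) : ℂ) • (0 : EuclideanSpace ℂ (Fin (finrank ℂ W))) = _
    rw [h2, smul_zero, sub_zero]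
  · show Γ.g (cl (‖u.1‖⁻¹ • u.1)) u.2.1 (xx W fr u.2.1 (fr.P u.2.1 u.2.2)) -
      ((‖u.1‖ - 1 : ℝ) : ℂ) • Γ.v = _
    rw [xx_P, cl_of_le hb]; rfl

/-- the Dirac component of the collar map in terms of the reduced one. -/
theorem FF_dirac (u : T × (Fin b → ℝ) × EuclideanSpace ℂ (Fin n)) :
    (Γ.FF (Qm W fr u)).1.2 = Φ.Th u.2.1
      (((-(ww W fr u.2.1 u.2.2) + W.orthogonalProjectionOnto (Γ.Gq (Qm W fr u)) : W) : Y) +
        (Γ.Gq (Qm W fr u) - W.starProjection (Γ.Gq (Qm W fr u)))) := by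
  have h1 := D_xx W fr u.2.1 u.2.2
  have h2 : Φ.Th u.2.1 (Γ.Gq (Qm W fr u)) =
      Γ.K (‖u.1‖⁻¹ • u.1) (xx W fr u.2.1 u.2.2) := Φ.Th_neg _ _
  have h3 : ((-(ww W fr u.2.1 u.2.2) + W.orthogonalProjectionOnto (Γ.Gq (Qm W fr u)) : W) : Y) =
      -(ww W fr u.2.1 u.2.2 : Y) + W.starProjection (Γ.Gq (Qm W fr u)) := rfl
  show Φ.D u.2.1 (xx W fr u.2.1 u.2.2) + Γ.K (‖u.1‖⁻¹ • u.1) (xx W fr u.2.1 u.2.2) = _
  rw [h3, map_add, map_add, map_sub, map_neg, h2, eq_neg_of_add_eq_zero_left h1]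
  abel

/-- the reduced collar map controls the distance. -/
theorem control {t0 : T} {x0 : X} {r0 c ρ C : ℝ} (hc : 0 < c) (hC : 0 ≤ C)
    (hN : ∀ q, ‖q - ((1 + r0) • t0, ((0 : Fin b → ℝ), x0))‖ ≤ ρ → Γ.N q.2.1 q.2.2 < Γ.R1)
    (h1 : ∀ q, ‖q - ((1 + r0) • t0, ((0 : Fin b → ℝ), x0))‖ ≤ ρ →
        c / 2 * ‖q - ((1 + r0) • t0, ((0 : Fin b → ℝ), x0))‖ ≤ ‖Γ.FF q‖)
    (h2 : ∀ q, ‖q - ((1 + r0) • t0, ((0 : Fin b → ℝ), x0))‖ ≤ ρ →
        ‖Γ.Gq q - Γ.Gq ((1 + r0) • t0, ((0 : Fin b → ℝ), x0))‖ ≤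
          C * ‖q - ((1 + r0) • t0, ((0 : Fin b → ℝ), x0))‖)
    (h3 : ∀ q, ‖q - ((1 + r0) • t0, ((0 : Fin b → ℝ), x0))‖ ≤ ρ →
          ‖Γ.Gq q - W.starProjection (Γ.Gq q)‖ ≤
            c / 4 * ‖q - ((1 + r0) • t0, ((0 : Fin b → ℝ), x0))‖)
    {u : T × (Fin b → ℝ) × EuclideanSpace ℂ (Fin n)}
    (hu : ‖Qm W fr u - ((1 + r0) • t0, ((0 : Fin b → ℝ), x0))‖ ≤ ρ) :
    ‖Qm W fr u - ((1 + r0) • t0, ((0 : Fin b → ℝ), x0))‖ ≤ 4 / c * ‖Γ.fh W fr u‖ ∧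
    ‖ww W fr u.2.1 u.2.2 - W.orthogonalProjectionOnto
      (Γ.Gq ((1 + r0) • t0, ((0 : Fin b → ℝ), x0)))‖ ≤ (1 + C * (4 / c)) * ‖Γ.fh W fr u‖ := by
  set p : T × ((Fin b → ℝ) × X) := ((1 + r0) • t0, ((0 : Fin b → ℝ), x0)) with hpdef
  set q := Qm W fr u with hq
  have hNq : Γ.N u.2.1 (xx W fr u.2.1 u.2.2) ≤ Γ.R1 := (hN q hu).le
  have he := Γ.fh_eval W fr hNq
  rw [← hq] at he
  set w' : W := -(ww W fr u.2.1 u.2.2) + W.orthogonalProjectionOnto (Γ.Gq q) with hw'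
  have n1 : ‖(Γ.FF q).1.1‖ ≤ ‖Γ.fh W fr u‖ := by
    have h0 : (Γ.fh W fr u).1 = (Γ.FF q).1.1 := by rw [he]
    rw [← h0]
    exact norm_fst_le (Γ.fh W fr u)
  have hz : (Γ.fh W fr u).2 = (rep W w', (Γ.FF q).2) := by rw [he]
  have nz := norm_snd_le (Γ.fh W fr u)
  rw [hz] at nz
  have n2 : ‖w'‖ ≤ ‖Γ.fh W fr u‖ := by
    have := norm_fst_le ((rep W w', (Γ.FF q).2) : EuclideanSpace ℂ (Fin (finrank ℂ W)) × G)
    have h8 : ‖rep W w'‖ = ‖w'‖ := (rep W).norm_map w'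
    rw [← h8]
    exact this.trans nz
  have n3 : ‖(Γ.FF q).2‖ ≤ ‖Γ.fh W fr u‖ := by
    have := norm_snd_le ((rep W w', (Γ.FF q).2) : EuclideanSpace ℂ (Fin (finrank ℂ W)) × G)
    exact this.trans nz
  have n4 : ‖(Γ.FF q).1.2‖ ≤ ‖Γ.fh W fr u‖ + c / 4 * ‖q - p‖ := by
    have := Γ.FF_dirac W fr u
    rw [← hq, ← hw'] at this
    rw [this, Φ.Th_norm]
    exact (norm_add_le _ _).trans (add_le_add n2 (h3 q hu))
  have n5 : ‖Γ.FF q‖ ≤ ‖Γ.fh W fr u‖ + c / 4 * ‖q - p‖ := by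
    have h0 : 0 ≤ c / 4 * ‖q - p‖ := by positivity
    have e1 : ‖Γ.FF q‖ = max (max ‖(Γ.FF q).1.1‖ ‖(Γ.FF q).1.2‖) ‖(Γ.FF q).2‖ := rfl
    rw [e1]
    exact max_le (max_le (by linarith) n4) (by linarith)
  have n6 := h1 q hu
  have n7 : ‖q - p‖ ≤ 4 / c * ‖Γ.fh W fr u‖ := by
    have h8 : c / 4 * ‖q - p‖ ≤ ‖Γ.fh W fr u‖ := by linarith
    rw [div_mul_eq_mul_div, le_div_iff₀ hc]
    linarith
  refine ⟨n7, ?_⟩
  have e2 : ww W fr u.2.1 u.2.2 - W.orthogonalProjectionOnto (Γ.Gq p) =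
      -w' + W.orthogonalProjectionOnto (Γ.Gq q - Γ.Gq p) := by
    rw [hw', map_sub]; abel
  rw [e2]
  refine (norm_add_le _ _).trans ?_
  rw [norm_neg]
  have e3 : ‖W.orthogonalProjectionOnto (Γ.Gq q - Γ.Gq p)‖ ≤ C * (4 / c) * ‖Γ.fh W fr u‖ := by
    refine (Submodule.norm_orthogonalProjectionOnto_apply_le W _).trans ((h2 q hu).trans ?_)
    rw [mul_assoc]
    exact mul_le_mul_of_nonneg_left n7 hC
  linarith

theorem fh_diff {t0 : T} {x0 : X} {r0 : ℝ} {ψ0 : EuclideanSpace ℂ (Fin n)}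
    (hψ : xx W fr 0 ψ0 = x0) (hN : Γ.N 0 x0 < Γ.R1)
    (hF : DifferentiableAt ℝ Γ.FF ((1 + r0) • t0, ((0 : Fin b → ℝ), x0)))
    (hG : DifferentiableAt ℝ Γ.Gq ((1 + r0) • t0, ((0 : Fin b → ℝ), x0))) :
    DifferentiableAt ℝ (Γ.fh W fr) ((1 + r0) • t0, ((0 : Fin b → ℝ), ψ0)) := by
  set p' : T × (Fin b → ℝ) × EuclideanSpace ℂ (Fin n) :=
    ((1 + r0) • t0, ((0 : Fin b → ℝ), ψ0)) with hp'
  have hJ : DifferentiableAt ℝ
      (fun u : T × (Fin b → ℝ) × EuclideanSpace ℂ (Fin n) => fr.J u.2.1 u.2.2) p' := by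
    refine da_apply ?_ (differentiableAt_snd.snd)
    exact (fr.smJ.differentiable (by simp)).differentiableAt.comp p' differentiableAt_snd.fst
  have hx : DifferentiableAt ℝ
      (fun u : T × (Fin b → ℝ) × EuclideanSpace ℂ (Fin n) => xx W fr u.2.1 u.2.2) p' :=
    da_apply (differentiableAt_const ((ContinuousLinearMap.fst ℂ X W).comp
      ((WithLp.prodContinuousLinearEquiv 2 ℂ X W : WithLp 2 (X × W) ≃L[ℂ] X × W) :
        WithLp 2 (X × W) →L[ℂ] X × W))) hJ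
  have hw : DifferentiableAt ℝ
      (fun u : T × (Fin b → ℝ) × EuclideanSpace ℂ (Fin n) => ww W fr u.2.1 u.2.2) p' :=
    da_apply (differentiableAt_const ((ContinuousLinearMap.snd ℂ X W).comp
      ((WithLp.prodContinuousLinearEquiv 2 ℂ X W : WithLp 2 (X × W) ≃L[ℂ] X × W) :
        WithLp 2 (X × W) →L[ℂ] X × W))) hJ
  have hQ : DifferentiableAt ℝ (Qm (T := T) W fr) p' :=
    differentiableAt_fst.prodMk (differentiableAt_snd.fst.prodMk hx)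
  have hQp : Qm W fr p' = ((1 + r0) • t0, ((0 : Fin b → ℝ), x0)) := by
    show ((1 + r0) • t0, ((0 : Fin b → ℝ), xx W fr 0 ψ0)) = _
    rw [hψ]
  rw [← hQp] at hF hG
  have hF' : DifferentiableAt ℝ (fun u => Γ.FF (Qm W fr u)) p' := hF.comp p' hQ
  have hG' : DifferentiableAt ℝ (fun u => Γ.Gq (Qm W fr u)) p' := hG.comp p' hQ
  have h1 : DifferentiableAt ℝ (fun u : T × (Fin b → ℝ) × EuclideanSpace ℂ (Fin n) =>
      rep W (-(ww W fr u.2.1 u.2.2) + W.orthogonalProjectionOnto (Γ.Gq (Qm W fr u)))) p' :=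
    da_apply (differentiableAt_const ((rep W).toContinuousLinearEquiv :
      W →L[ℂ] EuclideanSpace ℂ (Fin (finrank ℂ W))))
      (hw.neg.add (da_apply (differentiableAt_const (W.orthogonalProjectionOnto)) hG'))
  have h2 : DifferentiableAt ℝ (fun u : T × (Fin b → ℝ) × EuclideanSpace ℂ (Fin n) =>
      ((Γ.FF (Qm W fr u)).1.1,
      (rep W (-(ww W fr u.2.1 u.2.2) + W.orthogonalProjectionOnto (Γ.Gq (Qm W fr u))),
        (Γ.FF (Qm W fr u)).2))) p' :=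
    (hF'.fst.fst).prodMk (h1.prodMk hF'.snd)
  refine h2.congr_of_eventuallyEq ?_
  have h3 : ∀ᶠ u in 𝓝 p', Γ.N u.2.1 (xx W fr u.2.1 u.2.2) < Γ.R1 := by
    have hc' : ContinuousAt (fun u : T × (Fin b → ℝ) × EuclideanSpace ℂ (Fin n) =>
        Γ.N u.2.1 (xx W fr u.2.1 u.2.2)) p' :=
      (Γ.N_cont.comp ((continuous_fst.comp continuous_snd).prodMk
        ((xx_cont W fr).comp continuous_snd))).continuousAt
    refine hc'.eventually_lt_const ?_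
    show Γ.N 0 (xx W fr 0 ψ0) < Γ.R1
    rw [hψ]; exact hN
  filter_upwards [h3] with u hu
  exact Γ.fh_eval W fr hu.le

/-- injectivity of the derivative of the reduced collar map. -/
theorem inj_of_control {t0 : T} {x0 : X} {r0 ρ c1 c2 : ℝ} (hρ : 0 < ρ) {w0 : W}
    {ψ0 : EuclideanSpace ℂ (Fin n)} (hx : xx W fr 0 ψ0 = x0) (hw : ww W fr 0 ψ0 = w0)
    (h1 : ∀ u : T × (Fin b → ℝ) × EuclideanSpace ℂ (Fin n),
      ‖Qm W fr u - ((1 + r0) • t0, ((0 : Fin b → ℝ), x0))‖ ≤ ρ →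
      ‖Qm W fr u - ((1 + r0) • t0, ((0 : Fin b → ℝ), x0))‖ ≤ c1 * ‖Γ.fh W fr u‖ ∧
      ‖ww W fr u.2.1 u.2.2 - w0‖ ≤ c2 * ‖Γ.fh W fr u‖)
    (hc1 : 0 < c1) (hc2 : 0 < c2)
    {L : T × (Fin b → ℝ) × EuclideanSpace ℂ (Fin n) →L[ℝ]
      YR × (EuclideanSpace ℂ (Fin (finrank ℂ W)) × G)}
    (hL : HasFDerivAt (Γ.fh W fr) L ((1 + r0) • t0, ((0 : Fin b → ℝ), ψ0)))
    (h0 : Γ.fh W fr ((1 + r0) • t0, ((0 : Fin b → ℝ), ψ0)) = 0)
    {τ : T} {κ : Fin b → ℝ} {ξ : EuclideanSpace ℂ (Fin n)} (hξ : fr.P 0 ξ = ξ)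
    (hv : L (τ, κ, ξ) = 0) : τ = 0 ∧ κ = 0 ∧ ξ = 0 := by
  set p' : T × (Fin b → ℝ) × EuclideanSpace ℂ (Fin n) :=
    ((1 + r0) • t0, ((0 : Fin b → ℝ), ψ0)) with hp'
  set p : T × ((Fin b → ℝ) × X) := ((1 + r0) • t0, ((0 : Fin b → ℝ), x0)) with hp
  set vv : T × (Fin b → ℝ) × EuclideanSpace ℂ (Fin n) := (τ, κ, ξ) with hvv
  have hQc : Continuous (Qm (T := T) W fr) :=
    continuous_fst.prodMk ((continuous_fst.comp continuous_snd).prodMk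
      ((xx_cont W fr).comp continuous_snd))
  have hQp : Qm W fr p' = p := by
    show ((1 + r0) • t0, ((0 : Fin b → ℝ), xx W fr 0 ψ0)) = _
    rw [hx]
  have key : ∀ η > 0, ∃ e : ℝ, 0 < e ∧ ‖Qm W fr (p' + e • vv) - p‖ ≤ e * η ∧
      ‖ww W fr (p' + e • vv).2.1 (p' + e • vv).2.2 - w0‖ ≤ e * η := by
    intro η hη
    have hM : 0 < (c1 + c2) * (‖vv‖ + 1) := by positivity
    obtain ⟨ρ1, hρ1, h2⟩ := near_of hL (div_pos hη hM)
    have hcont : ContinuousAt (fun e : ℝ => Qm W fr (p' + e • vv)) 0 := by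
      have : Continuous (fun e : ℝ => Qm W fr (p' + e • vv)) :=
        hQc.comp (continuous_const.add (continuous_id.smul continuous_const))
      exact this.continuousAt
    have hev : ∀ᶠ e : ℝ in 𝓝 0, ‖Qm W fr (p' + e • vv) - p‖ < ρ := by
      have h3 : Metric.ball p ρ ∈ 𝓝 (Qm W fr (p' + (0 : ℝ) • vv)) := by
        rw [zero_smul, add_zero, hQp]; exact Metric.ball_mem_nhds _ hρ
      filter_upwards [hcont.preimage_mem_nhds h3] with e he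
      rwa [mem_preimage, mem_ball_iff_norm] at he
    obtain ⟨ρ2, hρ2, h4⟩ := Metric.eventually_nhds_iff.1 hev
    set e : ℝ := min (ρ1 / (‖vv‖ + 1)) (ρ2 / 2) with he
    have he0 : 0 < e := by positivity
    have he1 : e * (‖vv‖ + 1) ≤ ρ1 := by
      have : e ≤ ρ1 / (‖vv‖ + 1) := min_le_left _ _
      rwa [le_div_iff₀ (by positivity)] at this
    have he2 : e ≤ ρ2 / 2 := min_le_right _ _
    have h5 : p' + e • vv - p' = e • vv := by abel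
    have h6 : ‖e • vv‖ = e * ‖vv‖ := by rw [norm_smul, Real.norm_eq_abs, abs_of_pos he0]
    have h7 := h2 (p' + e • vv) (by rw [h5, h6]; nlinarith [norm_nonneg vv])
    rw [h0, sub_zero, h5, map_smul, hv, smul_zero, sub_zero, h6] at h7
    have h8 := h1 (p' + e • vv) (h4 (by
      rw [Real.dist_eq, sub_zero, abs_of_pos he0]; linarith)).le
    have h9 : (c1 + c2) * (η / ((c1 + c2) * (‖vv‖ + 1)) * (e * ‖vv‖)) ≤ e * η := by
      have : (c1 + c2) * (η / ((c1 + c2) * (‖vv‖ + 1)) * (e * ‖vv‖)) =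
          e * η * (‖vv‖ / (‖vv‖ + 1)) := by
        field_simp
      rw [this]
      have h10 : ‖vv‖ / (‖vv‖ + 1) ≤ 1 := by
        rw [div_le_one (by positivity)]; linarith
      calc e * η * (‖vv‖ / (‖vv‖ + 1)) ≤ e * η * 1 :=
            mul_le_mul_of_nonneg_left h10 (by positivity)
        _ = e * η := mul_one _
    have h11 : c1 * ‖Γ.fh W fr (p' + e • vv)‖ ≤ e * η := by
      refine le_trans ?_ h9
      calc c1 * ‖Γ.fh W fr (p' + e • vv)‖ ≤ (c1 + c2) * ‖Γ.fh W fr (p' + e • vv)‖ :=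
            mul_le_mul_of_nonneg_right (by linarith) (norm_nonneg _)
        _ ≤ _ := mul_le_mul_of_nonneg_left h7 (by linarith)
    have h12 : c2 * ‖Γ.fh W fr (p' + e • vv)‖ ≤ e * η := by
      refine le_trans ?_ h9
      calc c2 * ‖Γ.fh W fr (p' + e • vv)‖ ≤ (c1 + c2) * ‖Γ.fh W fr (p' + e • vv)‖ :=
            mul_le_mul_of_nonneg_right (by linarith) (norm_nonneg _)
        _ ≤ _ := mul_le_mul_of_nonneg_left h7 (by linarith)
    exact ⟨e, he0, h8.1.trans h11, h8.2.trans h12⟩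
  -- `τ = 0`, `κ = 0`
  have hτκ : τ = 0 ∧ κ = 0 := by
    have h13 : ∀ η > 0, ‖τ‖ ≤ η ∧ ‖κ‖ ≤ η := by
      intro η hη
      obtain ⟨e, he0, h8, -⟩ := key η hη
      have e1 : ‖(Qm W fr (p' + e • vv) - p).1‖ ≤ e * η := (norm_fst_le _).trans h8
      have e2 : ‖(Qm W fr (p' + e • vv) - p).2.1‖ ≤ e * η :=
        (norm_fst_le _).trans ((norm_snd_le _).trans h8)
      have e3 : (Qm W fr (p' + e • vv) - p).1 = e • τ := by
        show (1 + r0) • t0 + e • τ - (1 + r0) • t0 = _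
        abel
      have e4 : (Qm W fr (p' + e • vv) - p).2.1 = e • κ := by
        show (0 : Fin b → ℝ) + e • κ - 0 = _
        abel
      rw [e3, norm_smul, Real.norm_eq_abs, abs_of_pos he0] at e1
      rw [e4, norm_smul, Real.norm_eq_abs, abs_of_pos he0] at e2
      exact ⟨le_of_mul_le_mul_left e1 he0, le_of_mul_le_mul_left e2 he0⟩
    refine ⟨norm_le_zero_iff.1 (le_of_forall_pos_le_add fun η hη => ?_),
      norm_le_zero_iff.1 (le_of_forall_pos_le_add fun η hη => ?_)⟩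
    · rw [zero_add]; exact (h13 η hη).1
    · rw [zero_add]; exact (h13 η hη).2
  obtain ⟨rfl, rfl⟩ := hτκ
  refine ⟨rfl, rfl, ?_⟩
  have h14 : ∀ η > 0, ‖xx W fr 0 ξ‖ ≤ η ∧ ‖ww W fr 0 ξ‖ ≤ η := by
    intro η hη
    obtain ⟨e, he0, h8, h8'⟩ := key η hη
    have e2 : ‖(Qm W fr (p' + e • vv) - p).2.2‖ ≤ e * η :=
      (norm_snd_le _).trans ((norm_snd_le _).trans h8)
    have e0 : (p' + e • vv).2.1 = 0 := by
      show (0 : Fin b → ℝ) + e • (0 : Fin b → ℝ) = 0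
      simp
    have e00 : (p' + e • vv).2.2 = ψ0 + (e : ℂ) • ξ := by
      show ψ0 + e • ξ = _
      rw [← Complex.coe_smul e ξ]
    have e4 : (Qm W fr (p' + e • vv) - p).2.2 = (e : ℂ) • xx W fr 0 ξ := by
      show xx W fr (p' + e • vv).2.1 (p' + e • vv).2.2 - x0 = _
      rw [e0, e00, ← xx_smul, ← hx]
      show (fr.J 0 (ψ0 + (e : ℂ) • ξ)).fst - (fr.J 0 ψ0).fst = (fr.J 0 ((e : ℂ) • ξ)).fst
      rw [map_add]
      show (fr.J 0 ψ0).fst + (fr.J 0 ((e : ℂ) • ξ)).fst - (fr.J 0 ψ0).fst = _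
      abel
    have e5 : ww W fr (p' + e • vv).2.1 (p' + e • vv).2.2 - w0 = (e : ℂ) • ww W fr 0 ξ := by
      rw [e0, e00, ← ww_smul, ← hw]
      show (fr.J 0 (ψ0 + (e : ℂ) • ξ)).snd - (fr.J 0 ψ0).snd = (fr.J 0 ((e : ℂ) • ξ)).snd
      rw [map_add]
      show (fr.J 0 ψ0).snd + (fr.J 0 ((e : ℂ) • ξ)).snd - (fr.J 0 ψ0).snd = _
      abel
    rw [e4, norm_smul, Complex.norm_real, Real.norm_eq_abs, abs_of_pos he0] at e2
    rw [e5, norm_smul, Complex.norm_real, Real.norm_eq_abs, abs_of_pos he0] at h8'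
    exact ⟨le_of_mul_le_mul_left e2 he0, le_of_mul_le_mul_left h8' he0⟩
  have hx0 : xx W fr 0 ξ = 0 := norm_le_zero_iff.1 (le_of_forall_pos_le_add fun η hη => by
    rw [zero_add]; exact (h14 η hη).1)
  have hw0 : ww W fr 0 ξ = 0 := norm_le_zero_iff.1 (le_of_forall_pos_le_add fun η hη => by
    rw [zero_add]; exact (h14 η hη).2)
  have hJ : fr.J 0 ξ = 0 := PFam.ext2 hx0 hw0
  rw [← hξ, ← fr.l_J, hJ, map_zero]

end red3

/-- **the nondegenerate point over the boundary survives the reduction.** -/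
theorem one_ray {t0 : T} {x0 : X} {r0 : ℝ} (hp : Γ.Pt t0 x0 r0) :
    ∃ ε > 0, ∀ (W : Submodule ℂ Y) [FiniteDimensional ℂ W], Γ.K t0 x0 ∈ W → Γ.Appr W ε →
      ∀ {n : ℕ} (fr : Φ.Fr W n), OneRay fr.P (Γ.fR W fr) (Γ.fC W fr)
        ((0, Γ.v) : EuclideanSpace ℂ (Fin (finrank ℂ W)) × G) := by
  obtain ⟨c, hc, ρ, hρ, hρ1, hN, hF, ⟨C, hC, hGC⟩, htail, hGd⟩ := Γ.nbhd hp
  set p : T × ((Fin b → ℝ) × X) := ((1 + r0) • t0, ((0 : Fin b → ℝ), x0)) with hpdef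
  have hr0 := hp.r0_pos
  have hr : 0 < 1 + r0 := by linarith
  have hv0 : 0 < ‖Γ.v‖ := norm_pos_iff.2 Γ.v_ne
  -- the bound on the sphere
  obtain ⟨εa, hεa, ha⟩ := Γ.low_bound (S0 := {q | Γ.N q.2.1 q.2.2 = Γ.R1})
    (isClosed_eq (Γ.N_cont.comp continuous_snd) continuous_const)
    (fun q hq h1 _ _ h4 => Γ.bd q.1 q.2.1 q.2.2 h1 hq h4)
  have ha' : ∀ t h x, ‖t‖ ≤ 1 → h ∈ QQ b → Γ.N h x = Γ.R1 → Γ.Ec t h x = 0 →
      εa ≤ ‖Φ.D h x + Γ.K t x‖ := fun t h x h1 h2 h3 h4 => ha (t, h, x) h3 h1 h2 h3.le h4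
  -- the radius in `(t, h, x)`
  obtain ⟨ρ2, hρ2, hclose⟩ : ∃ ρ2 > 0, ∀ t h x (s : ℝ), ‖t‖ = 1 → 0 ≤ s →
      ‖((t, h, x) : T × (Fin b → ℝ) × X) - (t0, 0, x0)‖ < ρ2 → Γ.g t h x = (s : ℂ) • Γ.v →
      ‖(((1 + s) • t, (h, x)) : T × ((Fin b → ℝ) × X)) - p‖ ≤ ρ := by
    have hgc : ContinuousWithinAt (fun q : T × (Fin b → ℝ) × X => Γ.g q.1 q.2.1 q.2.2)
        {q | ‖q.1‖ ≤ 1} (t0, 0, x0) := Γ.g_cont _ hp.t0_norm.le
    obtain ⟨δ, hδ, hδg⟩ := Metric.continuousWithinAt_iff.1 hgc (‖Γ.v‖ * (ρ / 4)) (by positivity)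
    refine ⟨min δ (min ρ (ρ / (4 * (1 + r0)))), by positivity, fun t h x s ht hs hd hg => ?_⟩
    have d1 := hd.trans_le (min_le_left _ _)
    have d2 := hd.trans_le ((min_le_right _ _).trans (min_le_left _ _))
    have d3 := hd.trans_le ((min_le_right _ _).trans (min_le_right _ _))
    have e1 := hδg (x := (t, h, x)) ht.le (by rw [dist_eq_norm]; exact d1)
    rw [dist_eq_norm] at e1
    have e2 : Γ.g t h x - Γ.g t0 0 x0 = ((s - r0 : ℝ) : ℂ) • Γ.v := by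
      rw [hg, hp.g0, Complex.ofReal_sub, sub_smul]
    rw [e2, norm_smul, Complex.norm_real, Real.norm_eq_abs, mul_comm] at e1
    have e3 : |s - r0| < ρ / 4 := lt_of_mul_lt_mul_left e1 hv0.le
    have e4 : ‖t - t0‖ < ρ / (4 * (1 + r0)) := (norm_fst_le _).trans_lt d3
    have e5 : ‖((h, x) : (Fin b → ℝ) × X) - (0, x0)‖ < ρ := (norm_snd_le _).trans_lt d2
    have e6 : ‖(1 + s) • t - (1 + r0) • t0‖ ≤ ρ := by
      have : (1 + s) • t - (1 + r0) • t0 = (s - r0) • t + (1 + r0) • (t - t0) := by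
        rw [smul_sub, sub_smul, add_smul, add_smul]; abel_nf
        rw [add_smul, one_smul]; abel
      rw [this]
      refine (norm_add_le _ _).trans ?_
      rw [norm_smul, norm_smul, ht, Real.norm_eq_abs, Real.norm_eq_abs, abs_of_pos hr]
      have h7 : (1 + r0) * ‖t - t0‖ ≤ ρ / 4 := by
        have h8 : (1 + r0) * ‖t - t0‖ ≤ (1 + r0) * (ρ / (4 * (1 + r0))) :=
          mul_le_mul_of_nonneg_left e4.le hr.le
        have h9 : (1 + r0) * (ρ / (4 * (1 + r0))) = ρ / 4 := by field_simp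
        linarith
      linarith
    exact max_le e6 e5.le
  -- the bound away from the point
  let A : Set (T × (Fin b → ℝ) × X) := {q | ‖q.1‖ ≤ 1}
  have hA : IsClosed A := isClosed_le continuous_fst.norm continuous_const
  have hgray : IsClosed (A ∩ (fun q : T × (Fin b → ℝ) × X => Γ.g q.1 q.2.1 q.2.2) ⁻¹'
      {y : G | ∃ s : ℝ, 0 ≤ s ∧ y = (s : ℂ) • Γ.v}) :=
    Γ.g_cont.preimage_isClosed_of_isClosed hA (g_ray_closed Γ.v)
  have hcl1 : IsClosed {q : T × (Fin b → ℝ) × X | ‖q.1‖ = 1} :=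
    isClosed_eq continuous_fst.norm continuous_const
  have hcl2 : IsClosed {q : T × (Fin b → ℝ) × X | ‖q.2.1‖ ≤ 1 / 2} :=
    isClosed_le (continuous_fst.comp continuous_snd).norm continuous_const
  have hcl3 : IsClosed {q : T × (Fin b → ℝ) × X | ρ2 ≤ ‖q - (t0, 0, x0)‖} :=
    isClosed_le continuous_const (continuous_id.sub continuous_const).norm
  obtain ⟨εc, hεc, hcc⟩ := Γ.low_bound
    (hgray.inter (hcl1.inter (hcl2.inter hcl3)))
    (fun q hq h1 h2 h3 h4 h5 => by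
      obtain ⟨⟨-, s, hs, hg⟩, ht1, hh, hd⟩ := hq
      obtain ⟨e1, k, e2, e3⟩ := hp.uniq q.1 q.2.1 q.2.2 s ht1 hs h3 h4 h5 hg
      have hk : k = 0 := by
        funext j
        have hh' : ‖q.2.1‖ ≤ 1 / 2 := hh
        have h6 : ‖q.2.1 j‖ ≤ 1 / 2 := (norm_le_pi_norm _ j).trans hh'
        rw [e2, Real.norm_eq_abs] at h6
        have h7 : |(k j : ℝ)| ≤ 1 / 2 := h6
        have h8 : |k j| < 1 := by
          have : ((|k j| : ℤ) : ℝ) < 1 := by rw [Int.cast_abs]; linarith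
          exact_mod_cast this
        simpa using Int.abs_lt_one_iff.1 h8
      rw [hk, zv_zero] at e2
      rw [hk, Φ.U_zero] at e3
      have e4 : q = (t0, 0, x0) := Prod.ext e1 (Prod.ext e2 e3)
      have hd' : ρ2 ≤ ‖q - (t0, 0, x0)‖ := hd
      rw [e4, sub_self, norm_zero] at hd'
      linarith)
  refine ⟨min εa (min εc (c / 12 * ρ)), by positivity, fun W _ hKW hW n fr => ?_⟩
  have hWa : Γ.Appr W εa := fun t h x h1 h2 h3 => (hW t h x h1 h2 h3).trans_le (min_le_left _ _)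
  have hWc : Γ.Appr W εc := fun t h x h1 h2 h3 =>
    (hW t h x h1 h2 h3).trans_le ((min_le_right _ _).trans (min_le_left _ _))
  have hWr : Γ.Appr W (c / 12 * ρ) := fun t h x h1 h2 h3 =>
    (hW t h x h1 h2 h3).trans_le ((min_le_right _ _).trans (min_le_right _ _))
  -- the tail estimate
  have hGp : Γ.Gq p = Γ.K t0 x0 := by
    show Φ.Th (-(0 : Fin b → ℝ)) (Γ.K (‖(1 + r0) • t0‖⁻¹ • ((1 + r0) • t0)) x0) = _
    rw [norm_inv_smul hp.t0_norm hr, neg_zero, Φ.Th_zero]; rfl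
  have hQQ : ∀ q : T × ((Fin b → ℝ) × X), ‖q - p‖ ≤ ρ → q.2.1 ∈ QQ b := by
    intro q hq
    have h1 : ‖q.2.1‖ ≤ ρ := by
      have h2 : ‖(q - p).2.1‖ ≤ ρ := (norm_fst_le _).trans ((norm_snd_le _).trans hq)
      have h3 : (q - p).2.1 = q.2.1 := by
        show q.2.1 - 0 = q.2.1
        rw [sub_zero]
      rwa [h3] at h2
    refine ⟨fun j => ?_, fun j => ?_⟩
    · have h4 := (norm_le_pi_norm q.2.1 j).trans h1
      rw [Real.norm_eq_abs] at h4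
      have := (abs_le.1 h4).1
      show (-1 : ℝ) ≤ q.2.1 j
      linarith
    · have h4 := (norm_le_pi_norm q.2.1 j).trans h1
      rw [Real.norm_eq_abs] at h4
      have := (abs_le.1 h4).2
      show q.2.1 j ≤ (1 : ℝ)
      linarith
  have ht := htail W (by rw [hGp]; exact hKW) (fun q hq =>
    (hWr _ _ _ (norm_bar_le q.1) (hQQ q hq)
      (Γ.norm_le_of_N (hQQ q hq) (hN q hq).le)).le)
  -- the point
  set w0 : W := ⟨Γ.K t0 x0, hKW⟩ with hw0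
  set z0 : WithLp 2 (X × W) := WithLp.toLp 2 (x0, w0) with hz0
  have hAz : Φ.A W 0 z0 = 0 := by
    rw [PFam.A_apply]
    show Φ.D 0 x0 + Φ.Th 0 (Γ.K t0 x0) = 0
    rw [Φ.Th_zero]
    exact hp.zero2
  set ψ0 := fr.l 0 z0 with hψ0
  have hJ : fr.J 0 ψ0 = z0 := fr.J_l 0 z0 hAz
  have hxx : xx W fr 0 ψ0 = x0 := by rw [xx, hJ]; rfl
  have hww : ww W fr 0 ψ0 = w0 := by rw [ww, hJ]; rfl
  have hPψ : fr.P 0 ψ0 = ψ0 := fr.P_l 0 z0 hAz
  have hpr : W.orthogonalProjectionOnto (Γ.Gq p) = w0 := by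
    rw [hGp]
    exact Submodule.orthogonalProjectionOnto_mem_subspace_eq_self w0
  have hctrl : ∀ u : T × (Fin b → ℝ) × EuclideanSpace ℂ (Fin n), ‖Qm W fr u - p‖ ≤ ρ →
      ‖Qm W fr u - p‖ ≤ 4 / c * ‖Γ.fh W fr u‖ ∧
      ‖ww W fr u.2.1 u.2.2 - w0‖ ≤ (1 + C * (4 / c)) * ‖Γ.fh W fr u‖ := by
    intro u hu
    have := Γ.control W fr hc hC hN hF hGC ht hu
    rwa [hpr] at this
  -- the values at the point
  have hN0 : Γ.N 0 (xx W fr 0 ψ0) ≤ Γ.R1 := by rw [hxx]; exact hp.inside.le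
  have hfR0 : Γ.fR W fr (t0, 0, ψ0) = 0 := by
    rw [Γ.fR_eval W fr hp.t0_norm.le hN0, hxx, hp.zero1]
  have hfW0 : Γ.fW W fr (t0, 0, ψ0) = 0 := by
    rw [Γ.fW_eval W fr hp.t0_norm.le hN0, hxx, hww]
    have h1 : Φ.Th (-(0 : Fin b → ℝ)) (Γ.K t0 x0) = (w0 : Y) := by
      rw [neg_zero, Φ.Th_zero]; rfl
    rw [h1, Submodule.orthogonalProjectionOnto_mem_subspace_eq_self, neg_add_cancel]
  have hfC0 : Γ.fC W fr (t0, 0, ψ0) =
      (r0 : ℂ) • ((0, Γ.v) : EuclideanSpace ℂ (Fin (finrank ℂ W)) × G) := by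
    refine Prod.ext ?_ ?_
    · show rep W (Γ.fW W fr (t0, 0, ψ0)) = (r0 : ℂ) • (0 : EuclideanSpace ℂ (Fin (finrank ℂ W)))
      rw [hfW0, map_zero, smul_zero]
    · show Γ.g (cl t0) 0 (xx W fr 0 ψ0) = (r0 : ℂ) • Γ.v
      rw [hxx, cl_of_le hp.t0_norm.le, hp.g0]
  -- the collar map at a solution on the ray
  have hfh : ∀ (t : T) (h : Fin b → ℝ) (ψ : EuclideanSpace ℂ (Fin n)) (s : ℝ), ‖t‖ = 1 →
      0 ≤ s → fr.P h ψ = ψ → Γ.fR W fr (t, h, ψ) = 0 → Γ.fC W fr (t, h, ψ) =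
        (s : ℂ) • ((0, Γ.v) : EuclideanSpace ℂ (Fin (finrank ℂ W)) × G) →
      Γ.fh W fr ((1 + s) • t, (h, ψ)) = 0 := by
    intro t h ψ s ht1 hs hP hR hCC
    have hs' : 0 < 1 + s := by linarith
    have e1 : ‖(1 + s) • t‖ - 1 = s := by
      rw [norm_smul, ht1, Real.norm_eq_abs, abs_of_pos hs']; ring
    show (Γ.fR W fr (‖(1 + s) • t‖⁻¹ • ((1 + s) • t), h, fr.P h ψ),
      Γ.fC W fr (‖(1 + s) • t‖⁻¹ • ((1 + s) • t), h, fr.P h ψ) -
      ((‖(1 + s) • t‖ - 1 : ℝ) : ℂ) •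
        ((0, Γ.v) : EuclideanSpace ℂ (Fin (finrank ℂ W)) × G)) = 0
    rw [norm_inv_smul ht1 hs', e1, hP, hR, hCC, sub_self]
    rfl
  have hFd : DifferentiableAt ℝ Γ.FF p := hp.der.choose_spec.1.differentiableAt
  have hLd := Γ.fh_diff W fr (t0 := t0) (r0 := r0) hxx hp.inside hFd hGd
  refine ⟨t0, 0, ψ0, r0, fderiv ℝ (Γ.fh W fr) ((1 + r0) • t0, ((0 : Fin b → ℝ), ψ0)),
    hp.t0_norm, hPψ, hr0, hfR0, hfC0, ?_, hLd.hasFDerivAt, ?_⟩
  · intro t h ψ s ht1 hP hs hR hCC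
    obtain ⟨k, h', hh', rfl⟩ := exists_cube' h
    rw [fr.P_per] at hP
    rw [Γ.fR_per] at hR
    rw [Γ.fC_per] at hCC
    have hQ' : h' ∈ QQ b := mem_QQ hh'
    have hfW : Γ.fW W fr (t, h', ψ) = 0 := by
      have h2 : (Γ.fC W fr (t, h', ψ)).1 = ((s : ℂ) • ((0, Γ.v) :
        EuclideanSpace ℂ (Fin (finrank ℂ W)) × G)).1 := congrArg Prod.fst hCC
      rw [Prod.smul_fst, smul_zero] at h2
      exact (map_eq_zero_iff (rep W) (rep W).injective).1 h2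
    obtain ⟨b1, b2, b3, b4⟩ := Γ.inside W fr hWa ha' ht1.le hQ' hR hfW
    have b5 : ‖Φ.D h' (xx W fr h' ψ) + Γ.K t (xx W fr h' ψ)‖ < εc := by
      have := Γ.small W fr hWc hQ' hfW
      rwa [cl_of_le ht1.le, Γ.rr_of_le b1.le, Complex.ofReal_one, one_smul] at this
    have hg : Γ.g t h' (xx W fr h' ψ) = (s : ℂ) • Γ.v := by
      have h2 : Γ.g (cl t) h' (xx W fr h' ψ) = (s : ℂ) • Γ.v := congrArg Prod.snd hCC
      rwa [cl_of_le ht1.le] at h2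
    have b6 : ‖((t, h', xx W fr h' ψ) : T × (Fin b → ℝ) × X) - (t0, 0, x0)‖ < ρ2 := by
      by_contra hcon
      push Not at hcon
      have := hcc (t, h', xx W fr h' ψ) ⟨⟨ht1.le, s, hs, hg⟩, ht1, hh', hcon⟩ ht1.le hQ' b1.le b2
      exact absurd b5 (not_lt.2 this)
    have b7 := hclose t h' (xx W fr h' ψ) s ht1 hs b6 hg
    have b8 := hctrl ((1 + s) • t, (h', ψ)) b7
    rw [hfh t h' ψ s ht1 hs hP hR hCC, norm_zero, mul_zero, mul_zero] at b8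
    have b9 : Qm W fr ((1 + s) • t, (h', ψ)) = p :=
      sub_eq_zero.1 (norm_le_zero_iff.1 b8.1)
    have b10 : ww W fr h' ψ = w0 := sub_eq_zero.1 (norm_le_zero_iff.1 b8.2)
    have c1 : (1 + s) • t = (1 + r0) • t0 := congrArg Prod.fst b9
    have c2 : h' = 0 := congrArg (fun q : T × ((Fin b → ℝ) × X) => q.2.1) b9
    have c3 : xx W fr h' ψ = x0 := congrArg (fun q : T × ((Fin b → ℝ) × X) => q.2.2) b9
    subst c2
    have hs' : 0 < 1 + s := by linarith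
    have c4 : s = r0 := by
      have := congrArg norm c1
      rw [norm_smul, norm_smul, ht1, hp.t0_norm, Real.norm_eq_abs, Real.norm_eq_abs,
        abs_of_pos hs', abs_of_pos hr] at this
      linarith
    subst c4
    have c5 : t = t0 := by
      have := congrArg (fun y : T => (1 + s)⁻¹ • y) c1
      simpa [smul_smul, inv_mul_cancel₀ hs'.ne'] using this
    have c6 : ψ = ψ0 := by
      have h1 : fr.J 0 ψ = z0 := PFam.ext2 c3 b10
      rw [hψ0, ← h1, fr.l_J, hP]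
    refine ⟨c5, c6, rfl, k, ?_⟩
    funext i
    rfl
  · intro τ κ ξ hξ hv
    have hfh0 := hfh t0 0 ψ0 r0 hp.t0_norm hr0.le hPψ hfR0 hfC0
    exact Γ.inj_of_control W fr hρ hxx hww hctrl (by positivity) (by positivity)
      hLd.hasFDerivAt hfh0 hξ hv

end Core

end one

end Crest.Agent.R235.FamR_151
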