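import Crest.Agent.R235.FamR_151

/-!
Row 235 (S0364), helper151. Block FAM: the kernel bundle of a stabilised family, its embedding in
a finite dimensional space, the projection `P h` and the inverse map `J h`.
-/

set_option autoImplicit false
set_option linter.unusedSectionVars false

open Set Filter Topology Module
open scoped ContDiff

namespace Crest.Agent.R235.FamR_151

section ker

open ContinuousLinearMap

variable {E F H V : Type*} [NormedAddCommGroup E] [InnerProductSpace ℂ E] [CompleteSpace E]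
  [NormedAddCommGroup F] [InnerProductSpace ℂ F] [CompleteSpace F]
  [NormedAddCommGroup H] [InnerProductSpace ℂ H] [FiniteDimensional ℂ H]
  [NormedAddCommGroup V] [NormedSpace ℝ V]

/-- the kernel as a submodule. -/
abbrev kn (A : E →L[ℂ] F) : Submodule ℂ E := LinearMap.ker (A : E →ₗ[ℂ] F)

theorem mem_kn {A : E →L[ℂ] F} {x : E} : x ∈ kn A ↔ A x = 0 := Iff.rfl

theorem kp_inj {A A' : E →L[ℂ] F} (h : ‖kp A - kp A'‖ < 1) {x : E} (hx : A x = 0)
    (h0 : kp A' x = 0) : x = 0 := by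
  by_contra hne
  have h1 : ‖(kp A - kp A') x‖ ≤ ‖kp A - kp A'‖ * ‖x‖ := ContinuousLinearMap.le_opNorm _ _
  rw [sub_apply, h0, kp_fix hx, sub_zero] at h1
  have := norm_pos_iff.2 hne
  nlinarith

theorem finrank_le {A A' : E →L[ℂ] F} (hA' : Function.Surjective A')
    (h : ‖kp A - kp A'‖ < 1) [FiniteDimensional ℂ (kn A')] :
    finrank ℂ (kn A) ≤ finrank ℂ (kn A') := by
  let f : kn A →ₗ[ℂ] kn A' := ((kp A' : E →ₗ[ℂ] E).comp (kn A).subtype).codRestrict (kn A')
    (fun x => kp_mem hA' _)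
  refine LinearMap.finrank_le_finrank_of_injective (f := f) ?_
  rw [← LinearMap.ker_eq_bot, LinearMap.ker_eq_bot']
  intro x hx
  have h1 : kp A' (x : E) = 0 := congrArg Subtype.val hx
  exact Subtype.ext (kp_inj h x.2 h1)

theorem finrank_eq {A A' : E →L[ℂ] F} (hA : Function.Surjective A)
    (hA' : Function.Surjective A') (h : ‖kp A - kp A'‖ < 1) [FiniteDimensional ℂ (kn A)]
    [FiniteDimensional ℂ (kn A')] : finrank ℂ (kn A) = finrank ℂ (kn A') :=
  le_antisymm (finrank_le hA' h) (finrank_le hA (by rwa [norm_sub_rev]))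

theorem finrank_const [Nonempty V] {A : V → E →L[ℂ] F} (hA : ContDiff ℝ ∞ A)
    (hs : ∀ h, Function.Surjective (A h)) (hf : ∀ h, FiniteDimensional ℂ (kn (A h))) (h h' : V) :
    finrank ℂ (kn (A h)) = finrank ℂ (kn (A h')) := by
  have hlc : IsLocallyConstant (fun h => finrank ℂ (kn (A h))) := by
    rw [IsLocallyConstant.iff_eventually_eq]
    intro h0
    have hc : ContinuousAt (fun h => kp (A h)) h0 := by
      have := cd_kp (s := univ) (x := h0) (hA.contDiffAt.contDiffWithinAt (n := ∞)) (hs h0)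
      exact (contDiffWithinAt_univ.1 this).continuousAt
    have := hc.preimage_mem_nhds (Metric.ball_mem_nhds _ one_pos)
    filter_upwards [this] with h1 hh1
    have hh : ‖kp (A h1) - kp (A h0)‖ < 1 := by
      have := mem_preimage.1 hh1
      rwa [mem_ball_iff_norm] at this
    have := hf h1
    have := hf h0
    exact finrank_eq (hs h1) (hs h0) hh
  exact hlc.apply_eq_of_preconnectedSpace h h'

theorem adj_surj {N : Type*} [NormedAddCommGroup N] [InnerProductSpace ℂ N]
    [FiniteDimensional ℂ N] [CompleteSpace N] [CompleteSpace H] (b : N →L[ℂ] H)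
    (hb : Function.Injective b) : Function.Surjective (adjoint b) := by
  have h1 : ((adjoint b).range)ᗮ = ⊥ := by
    rw [ContinuousLinearMap.orthogonal_range, adjoint_adjoint]
    exact LinearMap.ker_eq_bot.2 hb
  have h2 : (adjoint b).range = ⊤ := Submodule.orthogonal_eq_bot_iff.1 h1
  exact LinearMap.range_eq_top.1 h2

theorem inj_of_adj {N : Type*} [NormedAddCommGroup N] [InnerProductSpace ℂ N]
    [CompleteSpace N] [CompleteSpace H] (b : N →L[ℂ] H)
    (hb : Function.Surjective (adjoint b)) : Function.Injective b := by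
  rw [injective_iff_map_eq_zero]
  intro u hu
  obtain ⟨v, hv⟩ := hb u
  have : inner ℂ u u = 0 := by
    nth_rw 1 [← hv]
    rw [adjoint_inner_left, hu, inner_zero_right]
  exact inner_self_eq_zero.1 this

/-- the orthogonal projection onto the range of an injective map. -/
theorem pr_eq {N : Type*} [NormedAddCommGroup N] [InnerProductSpace ℂ N]
    [CompleteSpace N] [CompleteSpace H] (b : N →L[ℂ] H) (R : Submodule ℂ H)
    (hb : Function.Surjective (adjoint b)) (hR : R = b.range) :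
    R.starProjection = ContinuousLinearMap.id ℂ H - kp (adjoint b) := by
  subst hR
  ext1 v
  have h1 : adjoint b (kp (adjoint b) v) = 0 := kp_mem hb v
  refine Submodule.eq_starProjection_of_mem_orthogonal ?_ ?_
  · have h2 : (ContinuousLinearMap.id ℂ H - kp (adjoint b)) v =
        b (Ring.inverse ((adjoint b).comp b) (adjoint b v)) := by
      simp [kp]
    rw [h2]
    exact ⟨_, rfl⟩
  · have h2 : v - (ContinuousLinearMap.id ℂ H - kp (adjoint b)) v = kp (adjoint b) v := by simp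
    rw [h2, ContinuousLinearMap.orthogonal_range]
    exact h1

/-- the image of the kernel in the finite dimensional space. -/
def RR (A : E →L[ℂ] F) (l : E →L[ℂ] H) : Submodule ℂ H := (kn A).map (l : E →ₗ[ℂ] H)

/-- the projection onto the image of the kernel. -/
noncomputable def PP (A : E →L[ℂ] F) (l : E →L[ℂ] H) : H →L[ℂ] H := (RR A l).starProjection

theorem RR_range {A : E →L[ℂ] F} (hA : Function.Surjective A) (l : E →L[ℂ] H) :
    RR A l = (l.comp (kp A)).range := by
  ext v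
  constructor
  · rintro ⟨z, hz, rfl⟩
    exact ⟨z, by
      show l (kp A z) = l z
      rw [kp_fix hz]⟩
  · rintro ⟨z, rfl⟩
    exact ⟨kp A z, kp_mem hA z, rfl⟩

theorem PP_apply_mem (A : E →L[ℂ] F) (l : E →L[ℂ] H) (v : H) : PP A l v ∈ RR A l :=
  Submodule.starProjection_apply_mem _ v

theorem PP_fix {A : E →L[ℂ] F} {l : E →L[ℂ] H} {v : H} (hv : v ∈ RR A l) : PP A l v = v :=
  Submodule.starProjection_eq_self_iff.2 hv

theorem PP_idem (A : E →L[ℂ] F) (l : E →L[ℂ] H) (v : H) : PP A l (PP A l v) = PP A l v :=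
  PP_fix (PP_apply_mem A l v)

theorem PP_range (A : E →L[ℂ] F) (l : E →L[ℂ] H) : (PP A l).range = RR A l := by
  apply le_antisymm
  · rintro _ ⟨v, rfl⟩
    exact PP_apply_mem A l v
  · intro v hv
    exact ⟨v, PP_fix hv⟩

theorem RR_finrank {A : E →L[ℂ] F} {l : E →L[ℂ] H}
    (hinj : ∀ z, A z = 0 → l z = 0 → z = 0) : finrank ℂ (RR A l) = finrank ℂ (kn A) := by
  let f : kn A →ₗ[ℂ] H := (l : E →ₗ[ℂ] H).comp (kn A).subtype
  have hf : Function.Injective f := by
    rw [← LinearMap.ker_eq_bot, LinearMap.ker_eq_bot']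
    intro x hx
    exact Subtype.ext (hinj _ x.2 hx)
  have h1 : RR A l = LinearMap.range f := by
    unfold RR
    rw [LinearMap.range_comp, Submodule.range_subtype]
  rw [h1]
  exact LinearMap.finrank_range_of_inj hf

theorem kn_fin {A : E →L[ℂ] F} {l : E →L[ℂ] H}
    (hinj : ∀ z, A z = 0 → l z = 0 → z = 0) : FiniteDimensional ℂ (kn A) := by
  let f : kn A →ₗ[ℂ] H := (l : E →ₗ[ℂ] H).comp (kn A).subtype
  have hf : Function.Injective f := by
    rw [← LinearMap.ker_eq_bot, LinearMap.ker_eq_bot']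
    intro x hx
    exact Subtype.ext (hinj _ x.2 hx)
  exact FiniteDimensional.of_injective f hf

theorem cd_PP [CompleteSpace H] {A : V → E →L[ℂ] F} (hA : ContDiff ℝ ∞ A)
    (hs : ∀ h, Function.Surjective (A h)) {l : V → E →L[ℂ] H} (hl : ContDiff ℝ ∞ l)
    (hinj : ∀ h z, A h z = 0 → l h z = 0 → z = 0) :
    ContDiff ℝ ∞ (fun h => PP (A h) (l h)) := by
  rw [contDiff_iff_contDiffAt]
  intro h0
  have hfin : ∀ h, FiniteDimensional ℂ (kn (A h)) := fun h => kn_fin (hinj h)
  have := hfin h0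
  have : CompleteSpace (kn (A h0)) := FiniteDimensional.complete ℂ _
  have hkp : ContDiffAt ℝ ∞ (fun h => kp (A h)) h0 :=
    contDiffWithinAt_univ.1 (cd_kp (s := univ) (x := h0) (hA.contDiffAt.contDiffWithinAt (n := ∞))
      (hs h0))
  let b : V → kn (A h0) →L[ℂ] H := fun h => ((l h).comp (kp (A h))).comp (kn (A h0)).subtypeL
  have hb : ContDiffWithinAt ℝ ∞ b univ h0 :=
    cd_comp (cd_comp hl.contDiffAt.contDiffWithinAt hkp.contDiffWithinAt) contDiffWithinAt_const
  have hbinj : Function.Injective (b h0) := by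
    rw [injective_iff_map_eq_zero]
    intro u hu
    have h1 : l h0 (kp (A h0) (u : E)) = 0 := hu
    rw [kp_fix u.2] at h1
    exact Subtype.ext (hinj h0 _ u.2 h1)
  have hbs : Function.Surjective (adjoint (b h0)) := adj_surj _ hbinj
  have hev : ∀ᶠ h in 𝓝 h0, Function.Surjective (adjoint (b h)) := by
    have := surj_nhds (s := univ) (x := h0) (cd_adj hb).continuousWithinAt hbs
    rwa [nhdsWithin_univ] at this
  have hev2 : ∀ᶠ h in 𝓝 h0, ‖kp (A h) - kp (A h0)‖ < 1 := by
    have := hkp.continuousAt.preimage_mem_nhds (Metric.ball_mem_nhds _ one_pos)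
    filter_upwards [this] with h1 hh1
    have := mem_preimage.1 hh1
    rwa [mem_ball_iff_norm] at this
  have h1 : ContDiffAt ℝ ∞ (fun h => ContinuousLinearMap.id ℂ H - kp (adjoint (b h))) h0 := by
    have h2 := cd_kp (cd_adj hb) hbs
    rw [contDiffWithinAt_univ] at h2
    exact contDiffAt_const.sub h2
  refine h1.congr_of_eventuallyEq ?_
  filter_upwards [hev, hev2] with h hh hh2
  refine pr_eq (b h) _ hh ?_
  have hle : (b h).range ≤ RR (A h) (l h) := by
    rw [RR_range (hs h)]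
    rintro _ ⟨u, rfl⟩
    exact ⟨(u : E), rfl⟩
  have := hfin h
  have h3 : finrank ℂ (b h).range = finrank ℂ (kn (A h0)) :=
    LinearMap.finrank_range_of_inj (inj_of_adj _ hh)
  refine (Submodule.eq_of_le_of_finrank_eq hle ?_).symm
  rw [h3, RR_finrank (hinj h)]
  exact (finrank_eq (hs h) (hs h0) hh2).symm

/-- the inverse of `l` on the kernel. -/
noncomputable def JJ [CompleteSpace H] (A : E →L[ℂ] F) (l : E →L[ℂ] H) : H →L[ℂ] E :=
  (kp A).comp ((adjoint (l.comp (kp A))).comp ((Ring.inverse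
    ((l.comp (kp A)).comp (adjoint (l.comp (kp A))) +
      (ContinuousLinearMap.id ℂ H - PP A l))).comp (PP A l)))

section JJ

variable [CompleteSpace H] {A : E →L[ℂ] F} {l : E →L[ℂ] H}

theorem adj_PP (hA : Function.Surjective A) (v : H) :
    adjoint (l.comp (kp A)) (PP A l v) = adjoint (l.comp (kp A)) v := by
  have h1 : v - PP A l v ∈ (RR A l)ᗮ := Submodule.sub_starProjection_mem_orthogonal v
  rw [RR_range hA, ContinuousLinearMap.orthogonal_range] at h1
  have h2 : adjoint (l.comp (kp A)) (v - PP A l v) = 0 := h1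
  rw [map_sub, sub_eq_zero] at h2
  exact h2.symm

theorem PP_B (hA : Function.Surjective A) (z : E) :
    PP A l ((l.comp (kp A)) z) = (l.comp (kp A)) z := by
  apply PP_fix
  rw [RR_range hA]
  exact ⟨z, rfl⟩

theorem M_unit (hA : Function.Surjective A) : IsUnit
    ((l.comp (kp A)).comp (adjoint (l.comp (kp A))) +
      (ContinuousLinearMap.id ℂ H - PP A l)) := by
  set B := l.comp (kp A) with hB
  set M : H →L[ℂ] H := B.comp (adjoint B) + (ContinuousLinearMap.id ℂ H - PP A l) with hM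
  have hinjM : Function.Injective M := by
    rw [injective_iff_map_eq_zero]
    intro v hv
    have h1 : B (adjoint B v) + (v - PP A l v) = 0 := hv
    have h2 := congrArg (PP A l) h1
    rw [map_add, map_sub, PP_idem, sub_self, add_zero, map_zero, PP_B hA] at h2
    rw [h2, zero_add, sub_eq_zero] at h1
    have h3 : adjoint B v = 0 := by
      have : inner ℂ (adjoint B v) (adjoint B v) = 0 := by
        rw [adjoint_inner_left, h2, inner_zero_right]
      exact inner_self_eq_zero.1 this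
    have h4 : v ∈ (RR A l)ᗮ := by
      rw [RR_range hA, ContinuousLinearMap.orthogonal_range]
      exact h3
    have h5 : v ∈ RR A l := by rw [h1]; exact PP_apply_mem A l v
    have := (Submodule.mem_orthogonal _ _).1 h4 v h5
    exact inner_self_eq_zero.1 this
  rw [isUnit_iff_bijective]
  exact ⟨hinjM, (LinearMap.injective_iff_surjective (f := (M : H →ₗ[ℂ] H))).1 hinjM⟩

theorem A_JJ (hA : Function.Surjective A) (v : H) : A (JJ A l v) = 0 := kp_mem hA _

theorem l_JJ (hA : Function.Surjective A) (v : H) : l (JJ A l v) = PP A l v := by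
  set B := l.comp (kp A) with hB
  set M : H →L[ℂ] H := B.comp (adjoint B) + (ContinuousLinearMap.id ℂ H - PP A l) with hM
  have hu : IsUnit M := M_unit hA
  have h1 : l (JJ A l v) = B (adjoint B (Ring.inverse M (PP A l v))) := rfl
  rw [h1]
  set w := Ring.inverse M (PP A l v) with hw
  have h2 : M w = PP A l v := by
    have := congrArg (fun T : H →L[ℂ] H => T (PP A l v)) (Ring.mul_inverse_cancel _ hu)
    simpa using this
  have h3 : B (adjoint B w) + (w - PP A l w) = PP A l v := h2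
  have h4 := congrArg (PP A l) h3
  rw [map_add, map_sub, PP_idem, PP_idem, sub_self, add_zero, PP_B hA] at h4
  exact h4

theorem JJ_l (hA : Function.Surjective A) (hinj : ∀ z, A z = 0 → l z = 0 → z = 0) {z : E}
    (hz : A z = 0) : JJ A l (l z) = z := by
  have h1 : PP A l (l z) = l z := PP_fix ⟨z, hz, rfl⟩
  have h2 := l_JJ (l := l) hA (l z)
  rw [h1] at h2
  have h3 := hinj (JJ A l (l z) - z) (by rw [map_sub, A_JJ hA, hz, sub_zero])
    (by rw [map_sub, h2, sub_self])
  exact sub_eq_zero.1 h3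

theorem JJ_PP (v : H) : JJ A l (PP A l v) = JJ A l v := by
  simp [JJ, PP_idem]

end JJ

theorem cd_JJ [CompleteSpace H] {A : V → E →L[ℂ] F} (hA : ContDiff ℝ ∞ A)
    (hs : ∀ h, Function.Surjective (A h)) {l : V → E →L[ℂ] H} (hl : ContDiff ℝ ∞ l)
    (hinj : ∀ h z, A h z = 0 → l h z = 0 → z = 0) :
    ContDiff ℝ ∞ (fun h => JJ (A h) (l h)) := by
  have hP := cd_PP hA hs hl hinj
  rw [contDiff_iff_contDiffAt]
  intro h0
  rw [← contDiffWithinAt_univ]
  have h1 : ContDiffWithinAt ℝ ∞ (fun h => kp (A h)) univ h0 :=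
    cd_kp (hA.contDiffAt.contDiffWithinAt) (hs h0)
  have h2 : ContDiffWithinAt ℝ ∞ (fun h => (l h).comp (kp (A h))) univ h0 :=
    cd_comp hl.contDiffAt.contDiffWithinAt h1
  have h3 : ContDiffWithinAt ℝ ∞ (fun h => PP (A h) (l h)) univ h0 :=
    hP.contDiffAt.contDiffWithinAt
  unfold JJ
  exact cd_comp h1 (cd_comp (cd_adj h2) (cd_comp (cd_inv ((cd_comp h2 (cd_adj h2)).add
    (contDiffWithinAt_const.sub h3)) (M_unit (hs h0))) h3))

end ker

section fin

/-- a linear map with finite dimensional kernel into a finite dimensional space. -/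
theorem fin_of_ker {M N : Type*} [AddCommGroup M] [Module ℂ M] [AddCommGroup N] [Module ℂ N]
    [FiniteDimensional ℂ N] (f : M →ₗ[ℂ] N) [FiniteDimensional ℂ (LinearMap.ker f)] :
    FiniteDimensional ℂ M := by
  have : FiniteDimensional ℂ (M ⧸ LinearMap.ker f) :=
    Module.Finite.equiv f.quotKerEquivRange.symm
  exact Module.Finite.of_submodule_quotient (LinearMap.ker f)

/-- finite dimensional spaces embed jointly in one Euclidean space. -/
theorem exists_inc {ι : Type*} [Fintype ι] [DecidableEq ι] (N : ι → Type*)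
    [∀ i, NormedAddCommGroup (N i)] [∀ i, NormedSpace ℂ (N i)] [∀ i, FiniteDimensional ℂ (N i)] :
    ∃ (n : ℕ) (inc : ∀ i, N i →L[ℂ] EuclideanSpace ℂ (Fin n)),
      ∀ u : ∀ i, N i, ∑ i, inc i (u i) = 0 → u = 0 := by
  let n := finrank ℂ (∀ i, N i)
  have hn : finrank ℂ (∀ i, N i) = finrank ℂ (EuclideanSpace ℂ (Fin n)) := by
    rw [finrank_euclideanSpace_fin]
  let e : (∀ i, N i) ≃ₗ[ℂ] EuclideanSpace ℂ (Fin n) := LinearEquiv.ofFinrankEq _ _ hn
  refine ⟨n, fun i => ((e : (∀ i, N i) →ₗ[ℂ] EuclideanSpace ℂ (Fin n)).comp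
    (LinearMap.single ℂ N i)).toContinuousLinearMap, fun u hu => ?_⟩
  have h1 : e u = 0 := by
    rw [← hu, ← Finset.univ_sum_single u, map_sum]
    refine Finset.sum_congr rfl fun i _ => ?_
    rw [Finset.univ_sum_single u]
    rfl
  exact (LinearEquiv.map_eq_zero_iff e).1 h1

end fin

namespace PFam

variable {b : ℕ} {X Y : Type*} [NormedAddCommGroup X] [InnerProductSpace ℂ X]
  [CompleteSpace X] [NormedAddCommGroup Y] [InnerProductSpace ℂ Y] [CompleteSpace Y]
  (Φ : PFam b X Y) (W : Submodule ℂ Y) [FiniteDimensional ℂ W]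

/-- the map `(x, w) ↦ w` on the kernel. -/
noncomputable def sndN (h : Fin b → ℝ) : kn (Φ.A W h) →ₗ[ℂ] W :=
  (((ContinuousLinearMap.snd ℂ X W).comp
    ((WithLp.prodContinuousLinearEquiv 2 ℂ X W : WithLp 2 (X × W) ≃L[ℂ] X × W) :
      WithLp 2 (X × W) →L[ℂ] X × W) : WithLp 2 (X × W) →L[ℂ] W) : WithLp 2 (X × W) →ₗ[ℂ] W).comp
    (kn (Φ.A W h)).subtype

theorem sndN_apply (h : Fin b → ℝ) (z : kn (Φ.A W h)) :
    Φ.sndN W h z = (z : WithLp 2 (X × W)).snd := rfl

/-- the kernel of `sndN` is the kernel of `D`. -/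
noncomputable def kerEquiv (h : Fin b → ℝ) :
    LinearMap.ker (Φ.sndN W h) ≃ₗ[ℂ] LinearMap.ker (Φ.D h : X →ₗ[ℂ] Y) where
  toFun z := ⟨(z.1 : WithLp 2 (X × W)).fst, by
    have h1 : Φ.A W h (z.1 : WithLp 2 (X × W)) = 0 := z.1.2
    have h2 : (z.1 : WithLp 2 (X × W)).snd = 0 := z.2
    rw [A_apply, h2] at h1
    simpa using h1⟩
  map_add' z z' := rfl
  map_smul' c z := rfl
  invFun x := ⟨⟨WithLp.toLp 2 (x.1, 0), by
    rw [mem_kn, A_apply]
    show Φ.D h x.1 + Φ.Th h ((0 : W) : Y) = 0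
    have : Φ.D h x.1 = 0 := x.2
    rw [this]; simp⟩, rfl⟩
  left_inv z := by
    apply Subtype.ext
    apply Subtype.ext
    exact ext2 rfl (show (0 : W) = _ from (show (z.1 : WithLp 2 (X × W)).snd = 0 from z.2).symm)
  right_inv x := rfl

theorem kn_finite (h : Fin b → ℝ) : FiniteDimensional ℂ (kn (Φ.A W h)) := by
  have := Φ.ker_fin h
  have : FiniteDimensional ℂ (LinearMap.ker (Φ.sndN W h)) :=
    Module.Finite.equiv (Φ.kerEquiv W h).symm
  exact fin_of_ker (Φ.sndN W h)

/-- **the index formula** for the kernel of the stabilised family. -/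
theorem kn_finrank (hs : ∀ h, Function.Surjective (Φ.A W h)) (h : Fin b → ℝ) :
    finrank ℂ (kn (Φ.A W h)) +
      finrank ℂ ((LinearMap.range (Φ.D h : X →ₗ[ℂ] Y))ᗮ : Submodule ℂ Y) =
    finrank ℂ W + finrank ℂ (LinearMap.ker (Φ.D h : X →ₗ[ℂ] Y)) := by
  have := Φ.ker_fin h
  have := Φ.coker_fin h
  have := Φ.kn_finite W h
  have h1 := LinearMap.finrank_range_add_finrank_ker (Φ.sndN W h)
  have h2 : finrank ℂ (LinearMap.ker (Φ.sndN W h)) =
      finrank ℂ (LinearMap.ker (Φ.D h : X →ₗ[ℂ] Y)) := (Φ.kerEquiv W h).finrank_eq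
  -- the map `w ↦ [Θ w]` onto the orthogonal complement of the range
  set R : Submodule ℂ Y := LinearMap.range (Φ.D h : X →ₗ[ℂ] Y) with hR
  have hcl : IsClosed (R : Set Y) := by
    have : (R : Set Y) = Set.range (Φ.D h) := by
      ext y; simp [hR]
    rw [this]; exact Φ.range_closed h
  have : CompleteSpace R := hcl.completeSpace_coe
  let q : W →ₗ[ℂ] Rᗮ := ((Rᗮ.orthogonalProjectionOnto : Y →L[ℂ] Rᗮ) : Y →ₗ[ℂ] Rᗮ).comp
    ((Φ.Th h : Y →ₗ[ℂ] Y).comp W.subtype)
  have hq : ∀ w : W, q w = Rᗮ.orthogonalProjectionOnto (Φ.Th h (w : Y)) := fun w => rfl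
  have hqs : LinearMap.range q = ⊤ := by
    rw [LinearMap.range_eq_top]
    intro v
    obtain ⟨z, hz⟩ := hs h (v : Y)
    refine ⟨z.snd, ?_⟩
    rw [hq]
    rw [A_apply] at hz
    have h3 : Φ.Th h (z.snd : Y) = (v : Y) - Φ.D h z.fst := by rw [← hz]; abel
    rw [h3, map_sub, Submodule.orthogonalProjectionOnto_mem_subspace_eq_self]
    have h4 : Rᗮ.orthogonalProjectionOnto (Φ.D h z.fst) = 0 := by
      rw [Submodule.orthogonalProjectionOnto_eq_zero_iff]
      exact R.le_orthogonal_orthogonal ⟨z.fst, rfl⟩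
    rw [h4, sub_zero]
  have hqk : LinearMap.ker q = LinearMap.range (Φ.sndN W h) := by
    ext w
    rw [LinearMap.mem_ker, hq, Submodule.orthogonalProjectionOnto_eq_zero_iff,
      Submodule.orthogonal_orthogonal]
    constructor
    · rintro ⟨x, hx⟩
      have hx' : Φ.D h x = Φ.Th h (w : Y) := hx
      refine ⟨⟨WithLp.toLp 2 (-x, w), ?_⟩ , rfl⟩
      rw [mem_kn, A_apply]
      show Φ.D h (-x) + Φ.Th h (w : Y) = 0
      rw [map_neg, hx', neg_add_cancel]
    · rintro ⟨z, rfl⟩
      have h1 : Φ.A W h (z : WithLp 2 (X × W)) = 0 := z.2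
      rw [A_apply] at h1
      refine ⟨-(z : WithLp 2 (X × W)).fst, ?_⟩
      show Φ.D h (-(z : WithLp 2 (X × W)).fst) = Φ.Th h ((z : WithLp 2 (X × W)).snd : Y)
      rw [map_neg]
      exact (eq_neg_of_add_eq_zero_right h1).symm
  have h5 := LinearMap.finrank_range_add_finrank_ker q
  rw [hqs, hqk, finrank_top] at h5
  omega

/-- **embedding of the kernel bundle.** -/
theorem exists_ell (hs : ∀ h, Function.Surjective (Φ.A W h)) :
    ∃ (n : ℕ) (l : (Fin b → ℝ) → WithLp 2 (X × W) →L[ℂ] EuclideanSpace ℂ (Fin n)),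
      ContDiff ℝ ∞ l ∧ (∀ h k z, l (h + zv k) (Φ.GU W k z) = l h z) ∧
      (∀ h z, Φ.A W h z = 0 → l h z = 0 → z = 0) := by
  have hfin := Φ.kn_finite W
  -- radii
  have hloc : ∀ h0 : Fin b → ℝ, ∃ δ : ℝ, 0 < δ ∧ δ < 1 / 2 ∧ ∀ h : Fin b → ℝ,
      (∀ j, |h j - h0 j| < δ) → ‖kp (Φ.A W h) - kp (Φ.A W h0)‖ < 1 := by
    intro h0
    have hkp : ContinuousAt (fun h => kp (Φ.A W h)) h0 :=
      (contDiffWithinAt_univ.1 (cd_kp (s := univ) (x := h0)
        ((Φ.sm_A W).contDiffAt.contDiffWithinAt (n := ∞)) (hs h0))).continuousAt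
    have h1 := hkp.preimage_mem_nhds (Metric.ball_mem_nhds _ one_pos)
    obtain ⟨r, hr, hsub⟩ := Metric.mem_nhds_iff.1 h1
    refine ⟨min r (1 / 4), lt_min hr (by norm_num), (min_le_right _ _).trans_lt (by norm_num),
      fun h hh => ?_⟩
    have h2 : h ∈ Metric.ball h0 r := by
      rw [Metric.mem_ball, dist_pi_lt_iff hr]
      intro j
      rw [Real.dist_eq]
      exact (hh j).trans_le (min_le_left _ _)
    have := hsub h2
    rwa [mem_preimage, mem_ball_iff_norm] at this
  choose δ hδ0 hδ hδn using hloc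
  have hopen : ∀ h0 : Fin b → ℝ, {h : Fin b → ℝ | ∀ j, |h j - h0 j| < δ h0} ∈ 𝓝 h0 := by
    intro h0
    have : Metric.ball h0 (δ h0) ∈ 𝓝 h0 := Metric.ball_mem_nhds _ (hδ0 h0)
    filter_upwards [this] with h hh j
    rw [Metric.mem_ball, dist_pi_lt_iff (hδ0 h0)] at hh
    have := hh j
    rwa [Real.dist_eq] at this
  obtain ⟨t, -, ht⟩ := (isCompact_Icc (a := (0 : Fin b → ℝ)) (b := 1)).elim_nhds_subcover
    (fun h0 => {h : Fin b → ℝ | ∀ j, |h j - h0 j| < δ h0}) (fun x _ => hopen x)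
  -- the local pieces
  let pr : ∀ i : t, WithLp 2 (X × W) →L[ℂ] kn (Φ.A W i) := fun i =>
    (kp (Φ.A W i)).codRestrict (kn (Φ.A W i)) (fun z => kp_mem (hs _) z)
  classical
  obtain ⟨n, inc, hinc⟩ := exists_inc (fun i : t => kn (Φ.A W i))
  let f : ∀ i : t, (Fin b → ℝ) → WithLp 2 (X × W) →L[ℂ] EuclideanSpace ℂ (Fin n) := fun i h =>
    cb (i : Fin b → ℝ) (δ i) h • ((inc i).comp ((pr i).comp (Φ.GU W (kb (i : Fin b → ℝ) h))))
  let l : (Fin b → ℝ) → WithLp 2 (X × W) →L[ℂ] EuclideanSpace ℂ (Fin n) :=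
    fun h => ∑ i : t, f i h
  have hl0 : ContDiff ℝ ∞ l := by
    refine ContDiff.sum fun i _ => ?_
    exact cd_bump (hδ0 _) (hδ _) _ (fun k _ => (inc i).comp ((pr i).comp (Φ.GU W k)))
      (fun k => contDiff_const)
  have happ2 : ∀ h z, l h z = ∑ i : t, inc i (((cb (i : Fin b → ℝ) (δ i) h : ℝ) : ℂ) •
      pr i (Φ.GU W (kb (i : Fin b → ℝ) h) z)) := by
    intro h z
    simp only [l, f, sum_apply]
    refine Finset.sum_congr rfl fun i _ => ?_
    rw [map_smul]
    rfl
  refine ⟨_, l, hl0, ?_, ?_⟩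
  · intro h k z
    rw [happ2, happ2]
    refine Finset.sum_congr rfl fun i _ => ?_
    rw [cb_shift, kb_shift]
    congr 3
    have : Φ.GU W (kb (i : Fin b → ℝ) h) =
        (Φ.GU W (kb (i : Fin b → ℝ) h - k)).comp (Φ.GU W k) := by
      rw [← GU_add, sub_add_cancel]
    rw [this]
    rfl
  · intro h z hz hl
    rw [happ2] at hl
    have h2 := hinc _ hl
    obtain ⟨k, h', hh', rfl⟩ := exists_cube h
    obtain ⟨i, hi, hx⟩ := mem_iUnion₂.1 (ht hh')
    have hx' : ∀ j, |h' j - i j| < δ i := hx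
    have h3 := congrFun h2 ⟨i, hi⟩
    simp only [Pi.zero_apply] at h3
    have hcb : cb i (δ i) (h' + zv k) ≠ 0 := by
      rw [cb_shift]
      exact (cb_pos (hδ0 i) (hδ i) hx').ne'
    have hkb : kb i (h' + zv k) = -k := by
      rw [kb_shift, kb_zero (fun j => (hx' j).trans (hδ i)), zero_sub]
    rw [smul_eq_zero] at h3
    rcases h3 with h3 | h3
    · exact absurd (Complex.ofReal_eq_zero.1 h3) hcb
    · rw [hkb] at h3
      have h4 : kp (Φ.A W i) (Φ.GU W (-k) z) = 0 := congrArg Subtype.val h3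
      have h5 : Φ.A W h' (Φ.GU W (-k) z) = 0 := by
        have := Φ.A_GU W (h' + zv k) (-k) z
        rw [hz, map_zero, zv_neg, add_assoc, add_neg_cancel, add_zero] at this
        exact this
      have h6 := kp_inj (hδn i h' hx') h5 h4
      have h7 : z = Φ.GU W k (Φ.GU W (-k) z) := by
        have : (Φ.GU W k).comp (Φ.GU W (-k)) = ContinuousLinearMap.id ℂ _ := by
          rw [← GU_add, add_neg_cancel, GU_zero]
        exact (congrArg (fun T : WithLp 2 (X × W) →L[ℂ] WithLp 2 (X × W) => T z) this).symm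
      rw [h7, h6, map_zero]

/-- **the kernel bundle of the stabilised family as a bundle of projections**: `P h` is an
idempotent of `ℂⁿ`, `J h : ℂⁿ → X × W` is an isomorphism of its range with `ker (A h)`, with
inverse `l h`. -/
structure Fr (n : ℕ) where
  P : (Fin b → ℝ) → EuclideanSpace ℂ (Fin n) →L[ℂ] EuclideanSpace ℂ (Fin n)
  J : (Fin b → ℝ) → EuclideanSpace ℂ (Fin n) →L[ℂ] WithLp 2 (X × W)
  l : (Fin b → ℝ) → WithLp 2 (X × W) →L[ℂ] EuclideanSpace ℂ (Fin n)
  smP : ContDiff ℝ ∞ P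
  smJ : ContDiff ℝ ∞ J
  sml : ContDiff ℝ ∞ l
  P_P : ∀ h v, P h (P h v) = P h v
  P_sa : ∀ h x y, inner ℂ (P h x) y = inner ℂ x (P h y)
  P_per : ∀ h k, P (h + zv k) = P h
  A_J : ∀ h v, Φ.A W h (J h v) = 0
  l_J : ∀ h v, l h (J h v) = P h v
  J_l : ∀ h z, Φ.A W h z = 0 → J h (l h z) = z
  J_P : ∀ h v, J h (P h v) = J h v
  P_l : ∀ h z, Φ.A W h z = 0 → P h (l h z) = l h z
  J_per : ∀ h k v, J (h + zv k) v = Φ.GU W k (J h v)
  l_per : ∀ h k z, l (h + zv k) (Φ.GU W k z) = l h z
  rank : ∀ h, finrank ℂ (P h).range = finrank ℂ (kn (Φ.A W 0))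

theorem exists_Fr (hs : ∀ h, Function.Surjective (Φ.A W h)) : ∃ n, Nonempty (Φ.Fr W n) := by
  obtain ⟨n, l, hl, hper, hinj⟩ := Φ.exists_ell W hs
  have hA := Φ.sm_A W
  have hR : ∀ h k, RR (Φ.A W (h + zv k)) (l (h + zv k)) = RR (Φ.A W h) (l h) := by
    have h1 : ∀ h k, RR (Φ.A W h) (l h) ≤ RR (Φ.A W (h + zv k)) (l (h + zv k)) := by
      rintro h k _ ⟨z, hz, rfl⟩
      refine ⟨Φ.GU W k z, ?_, hper h k z⟩
      show Φ.A W (h + zv k) (Φ.GU W k z) = 0
      have hz' : Φ.A W h z = 0 := hz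
      rw [A_GU, hz', map_zero]
    intro h k
    refine le_antisymm ?_ (h1 h k)
    have h2 := h1 (h + zv k) (-k)
    rwa [add_assoc, zv_neg, add_neg_cancel, add_zero] at h2
  have hP : ∀ h k, PP (Φ.A W (h + zv k)) (l (h + zv k)) = PP (Φ.A W h) (l h) := by
    intro h k
    unfold PP
    simp only [hR]
  refine ⟨n, ⟨{
    P := fun h => PP (Φ.A W h) (l h)
    J := fun h => JJ (Φ.A W h) (l h)
    l := l
    smP := cd_PP hA hs hl hinj
    smJ := cd_JJ hA hs hl hinj
    sml := hl
    P_P := fun h v => PP_idem _ _ v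
    P_sa := fun h x y => Submodule.inner_starProjection_left_eq_right _ x y
    P_per := hP
    A_J := fun h v => A_JJ (hs h) v
    l_J := fun h v => l_JJ (hs h) v
    J_l := fun h z hz => JJ_l (hs h) (hinj h) hz
    J_P := fun h v => JJ_PP v
    P_l := fun h z hz => PP_fix ⟨z, hz, rfl⟩
    J_per := ?_
    l_per := hper
    rank := ?_ }⟩⟩
  · intro h k v
    have h1 : Φ.A W (h + zv k) (JJ (Φ.A W (h + zv k)) (l (h + zv k)) v -
        Φ.GU W k (JJ (Φ.A W h) (l h) v)) = 0 := by
      rw [map_sub, A_JJ (hs _), A_GU, A_JJ (hs _), map_zero, sub_zero]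
    have h2 := hinj _ _ h1 (by
      rw [map_sub, l_JJ (hs _), hper, l_JJ (hs _), hP, sub_self])
    exact sub_eq_zero.1 h2
  · intro h
    have h1 := RR_finrank (A := Φ.A W h) (l := l h) (hinj h)
    rw [← finrank_const hA hs (Φ.kn_finite W) h 0, ← h1, ← PP_range]

end PFam

end Crest.Agent.R235.FamR_151
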