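import Crest.Agent.R235.SWTf_451

/-!
Row 235 (S0364), PACKAGE SW, MODEL-4 (helper451): the functions `ρ_t = |w_t|` and `n_t = w_t/|w_t|`
of a positive triple in its orthonormal frame `e` (`IsTri w e`).

* `wwf w e i k`  : component of `w_i` along `e_k` (lower triangular, nonzero on the diagonal);
* `wtk ww t k = ∑ t_i ww i k`, `rrt ww t = |wtk|`, `nt ww t k = wtk/rrt`.
-/

set_option autoImplicit false
set_option maxSynthPendingDepth 3
set_option linter.unusedSectionVars false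

open scoped ContDiff ENNReal NNReal Topology Manifold Bundle RealInnerProductSpace
open MeasureTheory Set Filter Metric Bundle

universe v

namespace Crest.Agent.R235.SWTn_451

open Crest.Agent.R240 Crest.Agent.R240.Ch Crest.Agent.R235 Crest.Agent.R235.SWDefs_53
open Crest.Agent.R235.IndTri_451
open Crest.Agent.R240.En4 (smoothF_qG)

noncomputable section

section comp

variable {M : Type v} [TopologicalSpace M] [ChartedSpace E4 M] [IsManifold 𝓘(ℝ, E4) ∞ M]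
  {w e : Fin 3 → F2 E4 M}

/-- the component of `w_i` along `e_k`. -/
def wwf (w e : Fin 3 → F2 E4 M) (i k : Fin 3) (x : M) : ℝ := qG (w 0) (e k) (w i) x

theorem wwf_coef (h : IsTri w e) {B : Fin 3 → Fin 3 → M → ℝ}
    (hB : ∀ i x, at2 (w i) x = ∑ j, B i j x • at2 (e j) x) (i k : Fin 3) (x : M) :
    wwf w e i k x = B i k x := by
  have h1 : ∀ k, W (at2 (e k) x) (at2 (w i) x) = W (at2 (w 0) x) (at2 (w 0) x) * B i k x := by
    intro k
    rw [hB i x, Fin.sum_univ_three, W_comm, W_add_left, W_add_left, W_smul_left, W_smul_left,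
      W_smul_left, h.W_e, h.W_e, h.W_e]
    fin_cases k <;> simp <;> ring
  unfold wwf qG q
  rw [h1, mul_comm, mul_div_assoc, div_self (h.W_ne x), mul_one]

theorem wwf_eq (h : IsTri w e) (i : Fin 3) (x : M) :
    at2 (w i) x = ∑ k, wwf w e i k x • at2 (e k) x := by
  obtain ⟨A, B, -, -, -, hB, -, -⟩ := h.coef
  rw [hB i x]
  exact Finset.sum_congr rfl fun k _ => by rw [wwf_coef h hB]

theorem wwf_lt (h : IsTri w e) (i k : Fin 3) (x : M) (hik : i < k) : wwf w e i k x = 0 := by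
  obtain ⟨A, B, -, -, -, hB, h0, -⟩ := h.coef
  rw [wwf_coef h hB]
  exact (h0 i k x hik).2

theorem wwf_diag (h : IsTri w e) (i : Fin 3) (x : M) : wwf w e i i x ≠ 0 := by
  obtain ⟨A, B, -, -, -, hB, -, h1⟩ := h.coef
  rw [wwf_coef h hB]
  exact right_ne_zero_of_mul_eq_one (h1 i x)

theorem smooth_wwf (hs : ∀ i, Smooth2 (w i)) (h : IsTri w e)
    (i k : Fin 3) : SmoothF E4 (wwf w e i k) := smoothF_qG (hs 0) h.W_ne (h.smooth k) (hs i)

end comp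

/-! ### length and direction -/

section len

variable {M : Type v}

/-- `w_t` in the frame. -/
def wtk (ww : Fin 3 → Fin 3 → M → ℝ) (t : E3) (k : Fin 3) (z : M) : ℝ := ∑ i, t i * ww i k z

/-- `|w_t|`. -/
def rrt (ww : Fin 3 → Fin 3 → M → ℝ) (t : E3) (z : M) : ℝ := √(∑ k, wtk ww t k z ^ 2)

/-- `w_t / |w_t|`. -/
def nt (ww : Fin 3 → Fin 3 → M → ℝ) (t : E3) (k : Fin 3) (z : M) : ℝ :=
  wtk ww t k z * (rrt ww t z)⁻¹

variable {ww : Fin 3 → Fin 3 → M → ℝ}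

/-- a lower triangular matrix of functions without zeros on the diagonal. -/
structure LT (ww : Fin 3 → Fin 3 → M → ℝ) : Prop where
  lt : ∀ i k z, i < k → ww i k z = 0
  diag : ∀ i z, ww i i z ≠ 0

theorem LT.ndeg (h : LT ww) (t : E3) (z : M) (ht : t ≠ 0) : ∃ k, wtk ww t k z ≠ 0 := by
  by_contra hc
  push Not at hc
  have e01 := h.lt 0 1 z (by decide)
  have e02 := h.lt 0 2 z (by decide)
  have e12 := h.lt 1 2 z (by decide)
  have h2 := hc 2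
  have h1 := hc 1
  have h0 := hc 0
  simp only [wtk, Fin.sum_univ_three, e01, e02, e12, mul_zero, zero_add] at h0 h1 h2
  have t2 : t 2 = 0 := (mul_eq_zero.1 h2).resolve_right (h.diag 2 z)
  rw [t2, zero_mul, add_zero] at h1
  have t1 : t 1 = 0 := (mul_eq_zero.1 h1).resolve_right (h.diag 1 z)
  rw [t2, t1, zero_mul, zero_mul, add_zero, add_zero] at h0
  have t0 : t 0 = 0 := (mul_eq_zero.1 h0).resolve_right (h.diag 0 z)
  apply ht
  ext i
  fin_cases i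
  · exact t0
  · exact t1
  · exact t2

theorem LT.pos (h : LT ww) {t : E3} (ht : t ≠ 0) (z : M) : 0 < rrt ww t z := by
  obtain ⟨k, hk⟩ := h.ndeg t z ht
  refine Real.sqrt_pos.2 (lt_of_lt_of_le (pow_pos (abs_pos.2 hk) 2) ?_)
  rw [sq_abs]
  exact Finset.single_le_sum (f := fun k => wtk ww t k z ^ 2) (fun _ _ => sq_nonneg _)
    (Finset.mem_univ k)

theorem LT.mul_nt (h : LT ww) {t : E3} (ht : t ≠ 0) (k : Fin 3) (z : M) :
    rrt ww t z * nt ww t k z = wtk ww t k z := by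
  unfold nt
  rw [mul_comm, mul_assoc, inv_mul_cancel₀ (h.pos ht z).ne', mul_one]

theorem LT.norm_nt (h : LT ww) {t : E3} (ht : t ≠ 0) (z : M) : ∑ k, nt ww t k z ^ 2 = 1 := by
  have h0 := (h.pos ht z).ne'
  have h1 : rrt ww t z ^ 2 = ∑ k, wtk ww t k z ^ 2 :=
    Real.sq_sqrt (Finset.sum_nonneg fun _ _ => sq_nonneg _)
  unfold nt
  simp only [mul_pow]
  rw [← Finset.sum_mul, ← h1, inv_pow, mul_inv_cancel₀ (pow_ne_zero 2 h0)]

end len

section smooth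

variable {M : Type v} [TopologicalSpace M] [ChartedSpace (EuclideanSpace ℝ (Fin 4)) M]
  {ww : Fin 3 → Fin 3 → M → ℝ}

theorem smooth_wtk (hs : ∀ i k, ContMDiff (𝓡 4) 𝓘(ℝ, ℝ) ∞ (ww i k)) (t : E3) (k : Fin 3) :
    ContMDiff (𝓡 4) 𝓘(ℝ, ℝ) ∞ (wtk ww t k) :=
  contMDiff_finsetSum fun i _ => contMDiff_const.mul (hs i k)

theorem smooth_rrt (h : LT ww) (hs : ∀ i k, ContMDiff (𝓡 4) 𝓘(ℝ, ℝ) ∞ (ww i k)) {t : E3}
    (ht : t ≠ 0) : ContMDiff (𝓡 4) 𝓘(ℝ, ℝ) ∞ (rrt ww t) := by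
  have h1 : ContMDiff (𝓡 4) 𝓘(ℝ, ℝ) ∞ fun z => ∑ k, wtk ww t k z ^ 2 :=
    contMDiff_finsetSum fun k _ => by
      simp only [sq]
      exact (smooth_wtk hs t k).mul (smooth_wtk hs t k)
  intro z
  have h2 : (∑ k, wtk ww t k z ^ 2) ≠ 0 := fun h0 => by
    have := h.pos ht z
    unfold rrt at this
    rw [h0, Real.sqrt_zero] at this
    exact lt_irrefl _ this
  have h3 : ContDiffAt ℝ ∞ (fun s : ℝ => √s) (∑ k, wtk ww t k z ^ 2) :=
    Real.contDiffAt_sqrt h2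
  exact h3.contMDiffAt.comp z (h1 z)

theorem smooth_rrt_inv (h : LT ww) (hs : ∀ i k, ContMDiff (𝓡 4) 𝓘(ℝ, ℝ) ∞ (ww i k)) {t : E3}
    (ht : t ≠ 0) : ContMDiff (𝓡 4) 𝓘(ℝ, ℝ) ∞ fun z => (rrt ww t z)⁻¹ := by
  intro z
  have h3 : ContDiffAt ℝ ∞ (fun s : ℝ => s⁻¹) (rrt ww t z) := contDiffAt_inv ℝ (h.pos ht z).ne'
  exact h3.contMDiffAt.comp z (smooth_rrt h hs ht z)

theorem smooth_nt (h : LT ww) (hs : ∀ i k, ContMDiff (𝓡 4) 𝓘(ℝ, ℝ) ∞ (ww i k)) {t : E3}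
    (ht : t ≠ 0) (k : Fin 3) : ContMDiff (𝓡 4) 𝓘(ℝ, ℝ) ∞ (nt ww t k) :=
  (smooth_wtk hs t k).mul (smooth_rrt_inv h hs ht)

end smooth

section tri

variable {M : Type v} [TopologicalSpace M] [ChartedSpace E4 M] [IsManifold 𝓘(ℝ, E4) ∞ M]
  {w e : Fin 3 → F2 E4 M}

theorem lt_wwf (h : IsTri w e) : LT (wwf w e) := ⟨fun i k z => wwf_lt h i k z, wwf_diag h⟩

theorem cm_wwf (hs : ∀ i, Smooth2 (w i)) (h : IsTri w e) (i k : Fin 3) :
    ContMDiff (𝓡 4) 𝓘(ℝ, ℝ) ∞ (wwf w e i k) :=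
  (Crest.Agent.R240.Ch.smoothF_iff _).2 (smooth_wwf hs h i k)

end tri

section data

variable {M : Type v} [MetricSpace M] [CompactSpace M] [ConnectedSpace M]
  [ChartedSpace (EuclideanSpace ℝ (Fin 4)) M] [IsManifold (𝓡 4) ∞ M]
  [RiemannianBundle (fun p : M => TangentSpace (𝓡 4) p)]
  [IsContMDiffRiemannianBundle (𝓡 4) ∞ (EuclideanSpace ℝ (Fin 4))
    (fun p : M => TangentSpace (𝓡 4) p)]
  [IsRiemannianManifold (𝓡 4) M] [MeasurableSpace M] [BorelSpace M]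
  [SecondCountableTopology M] [Nonempty M]
  {κ0 κ1 κT : Type} [Fintype κ0] [Fintype κ1] [Fintype κT]

/-- the family of Taubes data. -/
def tauT (S : SWS M κ0 κ1 κT) (cc : κ1 → κ0 → M → EuclideanSpace ℝ (Fin 4))
    (ww : Fin 3 → Fin 3 → M → ℝ) (fE : E3 → Fin 3 → M → ℝ) (t : E3) : TD M κT :=
  SWTf_451.mkT S cc (rrt ww t) (nt ww t) (fE t)

/-- **`TE` for the family.** -/
theorem te_tauT {S : SWS M κ0 κ1 κT} (T : Crest.Agent.R249.Tz805.ToF 4 M)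
    {c : κ1 → κ0 → (z : M) → TangentSpace (𝓡 4) z}
    (H : SWSym_451.Sym S fun x y z => T.toF z (c x y z)) {ww : Fin 3 → Fin 3 → M → ℝ} (h : LT ww)
    (hs : ∀ i k, ContMDiff (𝓡 4) 𝓘(ℝ, ℝ) ∞ (ww i k)) (fE : E3 → Fin 3 → M → ℝ) {t : E3}
    (ht : t ≠ 0) :
    ∃ Z, Tau483.TE (tauT S (fun x y z => T.toF z (c x y z)) ww fE t) S T c Z :=
  ⟨_, SWTf_451.te T H (smooth_rrt h hs ht) (h.pos ht) (smooth_nt h hs ht) (h.norm_nt ht) (fE t)⟩

end data

end

end Crest.Agent.R235.SWTn_451
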