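import Crest.Agent.R235.TauF_483
import Crest.Agent.R235.QSTri_451

/-!
Row 235 (S0364), SW-TAU, leaf STAR of #2443 (helper734): the pairing of `d (∑ a_A s_A)♭` with a
two-form is a pairing with the covariant derivative of `a`.
-/

set_option autoImplicit false
set_option maxSynthPendingDepth 3
set_option linter.unusedSectionVars false

open scoped ContDiff ENNReal NNReal Topology Manifold Bundle RealInnerProductSpace
open MeasureTheory Set Filter Metric Bundle Matrix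

universe v

namespace Crest.Agent.R235.TauStar_734

open Crest.Agent.R240 Crest.Agent.R240.Ch Crest.Agent.R235.SWDefs_53 Crest.Agent.R235.IndTri_451
open Crest.Agent.R235.Tau483
open Crest.Agent.R249.Tv57 (Dat OpPair SmF Spec)
open Crest.Agent.R247.Ms322 (Gr)
open Crest.Agent.R249.Vf281 (VSm mCov)
open Crest.Agent.R249.Tz805 (ToF)

noncomputable section

/-! ### linear algebra -/

theorem bil_sum (b : Bil) (c : Fin 4 → ℝ) (x : Fin 4 → E4) (v : E4) :
    b (∑ j, c j • x j) v = ∑ j, c j * b (x j) v := by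
  simp [Fin.sum_univ_four]

/-- the pairing `q` in a frame: `2 q(ψ,Φ) = ½ ∑ ψ(v_i,v_j) (⋆Φ)(v_i,v_j)`. -/
theorem q_star {g : Bil} {e : Fin 3 → Bil} {I : Fin 3 → E4 →L[ℝ] E4} {T : E4 →L[ℝ] E4}
    (H : Fr g e I T) (he : ∀ k, Alt (e k)) {ψ Φ : Bil} (hψ : Alt ψ) (hΦ : Alt Φ) :
    2 * q (e 0) ψ Φ = (1 / 2) * ∑ i, ∑ j, ψ (T (ee i)) (T (ee j)) *
      (2 * ∑ k, q (e 0) (e k) Φ * e k (T (ee i)) (T (ee j)) - Φ (T (ee i)) (T (ee j))) := by
  have h3 : W (e 0) (e 0) ≠ 0 := by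
    intro h0
    have h2 := H.det
    rw [h0, zero_mul] at h2
    exact two_ne_zero h2.symm
  have key : ∀ {b : Bil}, Alt b → W (pull T b) (pull T Φ) = 2 * q (e 0) b Φ := by
    intro b hb
    rw [W_pull hb hΦ]
    unfold q
    have h2 := H.det
    field_simp
    linear_combination (W b Φ) * h2
  have hψ' : Alt (pull T ψ) := fun v => by rw [pull_apply]; exact hψ _
  have hΦ' : Alt (pull T Φ) := fun v => by rw [pull_apply]; exact hΦ _
  have b1 : ∀ i j, ψ (T (ee i)) (T (ee j)) = ent (pull T ψ) i j := fun i j => (pull_apply _ _ _ _).symm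
  have b2 : ∀ i j, Φ (T (ee i)) (T (ee j)) = ent (pull T Φ) i j := fun i j => (pull_apply _ _ _ _).symm
  have k0 := key (he 0)
  have k1 := key (he 1)
  have k2 := key (he 2)
  have hk : ∀ k i j, ent (pull T (e k)) i j = e k (T (ee i)) (T (ee j)) :=
    fun k i j => pull_apply _ _ _ _
  rw [← key hψ]
  unfold W at k0 k1 k2 ⊢
  simp only [hk, H.e0, H.e1, H.e2, ee_apply] at k0 k1 k2
  simp at k0 k1 k2
  simp only [b1, b2, H.e0, H.e1, H.e2, ee_apply, Fin.sum_univ_four, Fin.sum_univ_three]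
  simp [hψ'.ent_swap 1 0, hψ'.ent_swap 2 0, hψ'.ent_swap 3 0, hψ'.ent_swap 2 1, hψ'.ent_swap 3 1,
    hψ'.ent_swap 3 2, hΦ'.ent_swap 1 0, hΦ'.ent_swap 2 0, hΦ'.ent_swap 3 0, hΦ'.ent_swap 2 1,
    hΦ'.ent_swap 3 1, hΦ'.ent_swap 3 2, hψ'.ent_self, hΦ'.ent_self]
  have c0 : q (e 0) (e 0) Φ = (ent (pull T Φ) 2 3 + ent (pull T Φ) 0 1) / 2 := by linarith
  have c1 : q (e 0) (e 1) Φ = (- ent (pull T Φ) 1 3 + ent (pull T Φ) 0 2) / 2 := by linarith
  have c2 : q (e 0) (e 2) Φ = (ent (pull T Φ) 1 2 + ent (pull T Φ) 0 3) / 2 := by linarith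
  rw [c0, c1, c2]
  ring

/-! ### the star of a two-form -/

section star

variable {M : Type v} [MetricSpace M] [CompactSpace M] [ConnectedSpace M]
  [ChartedSpace (EuclideanSpace ℝ (Fin 4)) M] [IsManifold (𝓡 4) ∞ M]
  [RiemannianBundle (fun p : M => TangentSpace (𝓡 4) p)]
  [IsContMDiffRiemannianBundle (𝓡 4) ∞ (EuclideanSpace ℝ (Fin 4))
    (fun p : M => TangentSpace (𝓡 4) p)]
  [IsRiemannianManifold (𝓡 4) M] [MeasurableSpace M] [BorelSpace M]
  [SecondCountableTopology M] [Nonempty M]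

/-- `∑ q(e_k, Φ) e_k`. -/
def pF (w0 : F2 E4 M) (e : Fin 3 → F2 E4 M) (Φ : F2 E4 M) : F2 E4 M :=
  fmul (qG w0 (e 0) Φ) (e 0) + fmul (qG w0 (e 1) Φ) (e 1) + fmul (qG w0 (e 2) Φ) (e 2)

/-- minus the star of `Φ`. -/
def nst (w0 : F2 E4 M) (e : Fin 3 → F2 E4 M) (Φ : F2 E4 M) : F2 E4 M :=
  Φ - pF w0 e Φ - pF w0 e Φ

theorem nst_apply (w0 : F2 E4 M) (e : Fin 3 → F2 E4 M) (Φ : F2 E4 M) (z : M) (u v : E4) :
    at2 (nst w0 e Φ) z u v =
      at2 Φ z u v - 2 * ∑ k, q (at2 w0 z) (at2 (e k) z) (at2 Φ z) * at2 (e k) z u v := by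
  have h1 : at2 (nst w0 e Φ) z u v = at2 Φ z u v -
      (qG w0 (e 0) Φ z * at2 (e 0) z u v + qG w0 (e 1) Φ z * at2 (e 1) z u v +
        qG w0 (e 2) Φ z * at2 (e 2) z u v) -
      (qG w0 (e 0) Φ z * at2 (e 0) z u v + qG w0 (e 1) Φ z * at2 (e 1) z u v +
        qG w0 (e 2) Φ z * at2 (e 2) z u v) := rfl
  rw [h1, Fin.sum_univ_three]
  unfold qG
  ring

theorem smooth_nst {w e : Fin 3 → F2 E4 M} (h : IsTri w e) {Φ : F2 E4 M} (hΦ : Smooth2 Φ) :
    Smooth2 (nst (w 0) e Φ) := by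
  have hw : Smooth2 (w 0) := h.e_zero ▸ h.smooth 0
  have hq : ∀ k, SmoothF E4 (qG (w 0) (e k) Φ) := fun k =>
    En4.smoothF_qG hw (fun x => h.W_ne x) (h.smooth k) hΦ
  have hp : Smooth2 (pF (w 0) e Φ) :=
    ((En4.smooth2_fmul (hq 0) (h.smooth 0)).add (En4.smooth2_fmul (hq 1) (h.smooth 1))).add
      (En4.smooth2_fmul (hq 2) (h.smooth 2))
  exact smooth2_sub (smooth2_sub hΦ hp) hp

theorem smooth1_flG' {b : F2 E4 M} (hb : Smooth2 b) {X : (x : M) → TangentSpace 𝓘(ℝ, E4) x}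
    (hX : ∀ z, VSm 4 ∞ X z) : Smooth1 (RiemB_399.flG b X) := by
  intro p
  have h1 : ContDiffOn ℝ ∞ (fun y => rep p b y (repV p (X : VF E4 M) y)) (chartAt E4 p).target :=
    (hb.2 p).clm_apply ((RiemB_399.smoothV_iff X).2 hX p)
  exact h1.congr fun y hy => RiemB_399.rep1_flG b X p hy

variable {κ0 κ1 κT : Type} [Fintype κ0] [Fintype κ1] [Fintype κT]
  [IsFiniteMeasureOnCompacts (μHE[4] : Measure M)]
  {S : SWS M κ0 κ1 κT} {T : ToF 4 M}
    {cc : κ1 → κ0 → (z : M) → TangentSpace (𝓡 4) z}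
    {W : κ0 → κ0 → (z : M) → TangentSpace (𝓡 4) z}
    {sT : κT → (z : M) → TangentSpace (𝓡 4) z} {w : Trip M} {e : Fin 3 → F2 E4 M}
    {σ ι : ℝ}

theorem VSm_fld (hsT : ∀ A z, VSm 4 ∞ (sT A) z) {a : κT → M → ℝ}
    (ha : Crest.Agent.R249.Tv57.SmV (n := 4) a) (z : M) : VSm 4 ∞ (fld sT a) z :=
  RiemB_399.VSm_sum fun A => VSm.smul le_rfl (ha A z) (hsT A z)

/-- **(STAR)** -/
theorem star_g (h : TG S T cc W sT w e σ ι) {Φ : F2 E4 M} (hΦ : Smooth2 Φ) :
    ∃ g : κT → M → EuclideanSpace ℝ (Fin 4), (∀ A, SmF (g A)) ∧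
      ∀ a : κT → M → ℝ, Crest.Agent.R249.Tv57.SmV (n := 4) a → S.DT.Sec a → ∀ z,
        ∑ A, ⟪S.DT.cv a A z, g A z⟫ =
          2 * q (at2 ((w 0).1.1 : F2 E4 M) z) (at2 (dG (RiemB_399.flG (gg e) (fld sT a))) z)
            (at2 Φ z) := by
  set N : F2 E4 M := nst ((w 0).1.1 : F2 E4 M) e Φ with hN
  have hNs : Smooth2 N := smooth_nst h.tri hΦ
  set Y : κT → (z : M) → TangentSpace (𝓡 4) z := fun A => RiemB_399.shp (RiemB_399.flG N (sT A))
    with hY
  refine ⟨fun A z => T.toF z (Y A z), fun A => T.smooth _ fun z =>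
    RiemB_399.VSm_shp (smooth1_flG' hNs (h.smsT A)) z, ?_⟩
  intro a ha hsec z
  have hYi : ∀ (A : κT) (v : TangentSpace (𝓡 4) z), inner ℝ (Y A z) v = at2 N z (sT A z) v := by
    intro A v
    exact RiemB_399.inner_shp _ _ _
  -- the matrix of the covariant derivative
  set m : Fin 4 → Fin 4 → ℝ := fun i j =>
    inner ℝ (mCov 4 (fld sT a) z (vf e z i)) (vf e z j) with hm
  set P : Fin 4 → Fin 4 → ℝ := fun i j => - at2 N z (vf e z i) (vf e z j) with hP
  have hPs : ∀ i j, P i j = - P j i := by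
    intro i j
    have := Alt.swap (hNs.1 z) (vf e z i : E4) (vf e z j)
    simp only [hP]
    linarith
  have hX : VSm 4 ∞ (fld sT a) z := VSm_fld h.smsT ha z
  have hψ : ∀ i j, at2 (dG (RiemB_399.flG (gg e) (fld sT a))) z (vf e z i) (vf e z j) =
      m i j - m j i := fun i j => RiemB_399.dG_mCov h.met (QSTri_451.met_gg h.tri) hX _ _
  -- right hand side
  have hr : 2 * q (at2 ((w 0).1.1 : F2 E4 M) z) (at2 (dG (RiemB_399.flG (gg e) (fld sT a))) z)
      (at2 Φ z) = ∑ i, ∑ j, P i j * m i j := by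
    have hal : Alt (at2 (dG (RiemB_399.flG (gg e) (fld sT a))) z) := by
      intro v
      have h1 := RiemB_399.dG_mCov h.met (QSTri_451.met_gg h.tri) hX
        (v : TangentSpace (𝓡 4) z) v
      exact h1.trans (sub_self _)
    have h1 := q_star (fr_of h.tri z) (fun k => (h.tri.smooth k).1 z) hal (hΦ.1 z)
    have e0 : at2 (e 0) z = at2 ((w 0).1.1 : F2 E4 M) z := by rw [h.tri.e_zero]
    rw [e0] at h1
    rw [h1, antisym hPs]
    congr 1
    refine Finset.sum_congr rfl fun i _ => Finset.sum_congr rfl fun j _ => ?_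
    rw [mul_comm (P i j)]
    refine congrArg₂ (· * ·) (hψ i j) ?_
    have h2 := nst_apply ((w 0).1.1 : F2 E4 M) e Φ z (vf e z i : E4) (vf e z j)
    simp only [hP, hN]
    show _ = - at2 (nst ((w 0).1.1 : F2 E4 M) e Φ) z (vf e z i) (vf e z j)
    rw [h2]
    simp only [vf]
    ring
  rw [hr]
  -- left hand side
  have hsA : ∀ (A : κT) (i : Fin 4), at2 N z (sT A z) (vf e z i) =
      ∑ j, (inner ℝ (sT A z) (vf e z j) : ℝ) * P i j := by
    intro A i
    have h1 := sum_vf h.tri h.met z (sT A z)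
    have h2 : at2 N z (sT A z) (vf e z i) =
        at2 N z (∑ j, (inner ℝ (vf e z j) (sT A z) : ℝ) • vf e z j : TangentSpace (𝓡 4) z)
          (vf e z i) := by rw [h1]
    rw [h2]
    have h3 : ∀ c : Fin 4 → ℝ, at2 N z ((∑ j, c j • vf e z j : TangentSpace (𝓡 4) z) : E4)
        (vf e z i) = ∑ j, c j * at2 N z (vf e z j) (vf e z i) := by
      intro c
      exact bil_sum (at2 N z) c (fun j => (vf e z j : E4)) (vf e z i)
    rw [h3]
    refine Finset.sum_congr rfl fun j _ => ?_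
    rw [real_inner_comm]
    congr 1
    have := Alt.swap (hNs.1 z) (vf e z i : E4) (vf e z j)
    simp only [hP]
    linarith
  have hl : ∀ A, ⟪S.DT.cv a A z, T.toF z (Y A z)⟫ =
      ∑ i, ∑ j, ⟪S.DT.cv a A z, T.toF z (vf e z i)⟫ *
        ((inner ℝ (sT A z) (vf e z j) : ℝ) * P i j) := by
    intro A
    rw [inner_toF_sum h.tri h.met T z]
    refine Finset.sum_congr rfl fun i _ => ?_
    rw [hYi, hsA, Finset.mul_sum]
  simp only [hl]
  rw [Finset.sum_comm]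
  refine Finset.sum_congr rfl fun i _ => ?_
  rw [Finset.sum_comm]
  refine Finset.sum_congr rfl fun j _ => ?_
  have h1 := h.cvT a ha hsec z (vf e z i) (vf e z j)
  simp only [hm]
  rw [← h1, Finset.mul_sum]
  exact Finset.sum_congr rfl fun A _ => by ring

end star

end

end Crest.Agent.R235.TauStar_734
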