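import Crest.Agent.R235.TauH_483
import Crest.Agent.R235.TauStar_734

/-!
Row 235 (S0364), SW-TAU (helper734): the third identity `T3` and the topological term `top`.
-/

set_option autoImplicit false
set_option maxSynthPendingDepth 3
set_option linter.unusedSectionVars false

open scoped ContDiff ENNReal NNReal Topology Manifold Bundle RealInnerProductSpace
open MeasureTheory Set Filter Metric Bundle Matrix

universe v

namespace Crest.Agent.R235.Tau483

open Crest.Agent.R240 Crest.Agent.R240.Ch Crest.Agent.R240.Int Crest.Agent.R235.SWDefs_53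
open Crest.Agent.R235.IndTri_451
open Crest.Agent.R249.Tv57 (Dat OpPair SmF Spec)
open Crest.Agent.R247.Ms322 (Gr)
open Crest.Agent.R249.Vf281 (VSm mCov)
open Crest.Agent.R247.Bo84 (mgrad inner_mgrad)
open Crest.Agent.R249.Tz805 (ToF)

noncomputable section

theorem dot_le_734 {κ : Type*} [Fintype κ] (x y : κ → ℝ) : |x ⬝ᵥ y| ≤ (x ⬝ᵥ x + y ⬝ᵥ y) / 2 := by
  have h1 : 0 ≤ ∑ i, (x i - y i) ^ 2 := Finset.sum_nonneg fun i _ => sq_nonneg _
  have h2 : 0 ≤ ∑ i, (x i + y i) ^ 2 := Finset.sum_nonneg fun i _ => sq_nonneg _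
  have e1 : ∑ i, (x i - y i) ^ 2 = x ⬝ᵥ x + y ⬝ᵥ y - 2 * (x ⬝ᵥ y) := by
    simp only [dotProduct, Finset.mul_sum, ← Finset.sum_add_distrib, ← Finset.sum_sub_distrib]
    exact Finset.sum_congr rfl fun i _ => by ring
  have e2 : ∑ i, (x i + y i) ^ 2 = x ⬝ᵥ x + y ⬝ᵥ y + 2 * (x ⬝ᵥ y) := by
    simp only [dotProduct, Finset.mul_sum, ← Finset.sum_add_distrib]
    exact Finset.sum_congr rfl fun i _ => by ring
  rw [abs_le]
  constructor <;> linarith

theorem ent_bound_734 {g : Bil} {e : Fin 3 → Bil} {I : Fin 3 → E4 →L[ℝ] E4} {T : E4 →L[ℝ] E4}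
    (H : Fr g e I T) (k : Fin 3) (i j : Fin 4) : |e k (T (ee i)) (T (ee j))| ≤ 1 := by
  fin_cases k
  · have h1 := H.e0 (ee i) (ee j)
    show |e 0 (T (ee i)) (T (ee j))| ≤ 1
    rw [h1]
    fin_cases i <;> fin_cases j <;> simp [ee_apply]
  · have h1 := H.e1 (ee i) (ee j)
    show |e 1 (T (ee i)) (T (ee j))| ≤ 1
    rw [h1]
    fin_cases i <;> fin_cases j <;> simp [ee_apply]
  · have h1 := H.e2 (ee i) (ee j)
    show |e 2 (T (ee i)) (T (ee j))| ≤ 1
    rw [h1]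
    fin_cases i <;> fin_cases j <;> simp [ee_apply]

/-- the pairing in a frame: bound. -/
theorem q_bound_734 {g : Bil} {e : Fin 3 → Bil} {I : Fin 3 → E4 →L[ℝ] E4} {T : E4 →L[ℝ] E4}
    (H : Fr g e I T) (he : ∀ k, Alt (e k)) {ψ Φ : Bil} (hψ : Alt ψ) (hΦ : Alt Φ) {B : ℝ}
    (hB : ∀ i j, |Φ (T (ee i)) (T (ee j))| ≤ B) {x : Fin 4 → ℝ}
    (hx : ∀ i j, |ψ (T (ee i)) (T (ee j))| ≤ x i + x j) :
    |2 * q (e 0) ψ Φ| ≤ 100 * B * ∑ i, x i := by
  have hq : ∀ k, |q (e 0) (e k) Φ| ≤ 4 * B := by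
    intro k
    have h1 := q_frame H he k hΦ
    have h2 : |∑ i, ∑ j, e k (T (ee i)) (T (ee j)) * Φ (T (ee i)) (T (ee j))| ≤ 16 * B := by
      calc _ ≤ ∑ i : Fin 4, |∑ j, e k (T (ee i)) (T (ee j)) * Φ (T (ee i)) (T (ee j))| :=
            Finset.abs_sum_le_sum_abs _ _
        _ ≤ ∑ i : Fin 4, ∑ j : Fin 4, |e k (T (ee i)) (T (ee j)) * Φ (T (ee i)) (T (ee j))| :=
            Finset.sum_le_sum fun i _ => Finset.abs_sum_le_sum_abs _ _
        _ ≤ ∑ i : Fin 4, ∑ j : Fin 4, B := by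
            refine Finset.sum_le_sum fun i _ => Finset.sum_le_sum fun j _ => ?_
            rw [abs_mul]
            have a1 := ent_bound_734 H k i j
            have a2 := hB i j
            have a3 := abs_nonneg (Φ (T (ee i)) (T (ee j)))
            nlinarith [abs_nonneg (e k (T (ee i)) (T (ee j)))]
        _ = 16 * B := by simp; ring
    rw [h1, abs_mul] at h2
    norm_num at h2
    linarith
  have hst : ∀ i j, |2 * ∑ k, q (e 0) (e k) Φ * e k (T (ee i)) (T (ee j)) -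
      Φ (T (ee i)) (T (ee j))| ≤ 25 * B := by
    intro i j
    have h1 : |∑ k, q (e 0) (e k) Φ * e k (T (ee i)) (T (ee j))| ≤ 12 * B := by
      calc _ ≤ ∑ k : Fin 3, |q (e 0) (e k) Φ * e k (T (ee i)) (T (ee j))| :=
            Finset.abs_sum_le_sum_abs _ _
        _ ≤ ∑ k : Fin 3, 4 * B := by
            refine Finset.sum_le_sum fun k _ => ?_
            rw [abs_mul]
            have a1 := ent_bound_734 H k i j
            have a2 := hq k
            nlinarith [abs_nonneg (q (e 0) (e k) Φ), abs_nonneg (e k (T (ee i)) (T (ee j)))]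
        _ = 12 * B := by simp; ring
    have h2 := hB i j
    rw [abs_le] at h1 h2 ⊢
    constructor <;> linarith
  have h0 := TauStar_734.q_star H he hψ hΦ
  rw [h0, abs_mul]
  have h1 : |∑ i, ∑ j, ψ (T (ee i)) (T (ee j)) *
      (2 * ∑ k, q (e 0) (e k) Φ * e k (T (ee i)) (T (ee j)) - Φ (T (ee i)) (T (ee j)))| ≤
      ∑ i, ∑ j, (x i + x j) * (25 * B) := by
    calc _ ≤ ∑ i : Fin 4, |∑ j, ψ (T (ee i)) (T (ee j)) *
      (2 * ∑ k, q (e 0) (e k) Φ * e k (T (ee i)) (T (ee j)) - Φ (T (ee i)) (T (ee j)))| :=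
            Finset.abs_sum_le_sum_abs _ _
      _ ≤ ∑ i : Fin 4, ∑ j : Fin 4, |ψ (T (ee i)) (T (ee j)) *
      (2 * ∑ k, q (e 0) (e k) Φ * e k (T (ee i)) (T (ee j)) - Φ (T (ee i)) (T (ee j)))| :=
            Finset.sum_le_sum fun i _ => Finset.abs_sum_le_sum_abs _ _
      _ ≤ _ := by
            refine Finset.sum_le_sum fun i _ => Finset.sum_le_sum fun j _ => ?_
            rw [abs_mul]
            exact mul_le_mul (hx i j) (hst i j) (abs_nonneg _) ((abs_nonneg _).trans (hx i j))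
  have h2 : ∑ i, ∑ j, (x i + x j) * (25 * B) = 200 * B * ∑ i, x i := by
    simp only [Fin.sum_univ_four]
    ring
  rw [h2] at h1
  norm_num
  linarith

variable {M : Type v} [MetricSpace M] [CompactSpace M] [ConnectedSpace M]
  [ChartedSpace (EuclideanSpace ℝ (Fin 4)) M] [IsManifold (𝓡 4) ∞ M]
  [RiemannianBundle (fun p : M => TangentSpace (𝓡 4) p)]
  [IsContMDiffRiemannianBundle (𝓡 4) ∞ (EuclideanSpace ℝ (Fin 4))
    (fun p : M => TangentSpace (𝓡 4) p)]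
  [IsRiemannianManifold (𝓡 4) M] [MeasurableSpace M] [BorelSpace M]
  [SecondCountableTopology M] [Nonempty M]
  {κ0 κ1 κT : Type} [Fintype κ0] [Fintype κ1] [Fintype κT]
  [IsFiniteMeasureOnCompacts (μHE[4] : Measure M)]
  {τ : TD M κT} {S : SWS M κ0 κ1 κT} {T : ToF 4 M}
    {cc : κ1 → κ0 → (z : M) → TangentSpace (𝓡 4) z}
    {W : κ0 → κ0 → (z : M) → TangentSpace (𝓡 4) z}
    {sT : κT → (z : M) → TangentSpace (𝓡 4) z} {w : Trip M} {e : Fin 3 → F2 E4 M}
    {σ ι : ℝ} {Z : κ1 → κ0 → M → ℝ}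

/-- `Φ_0 = 2π c_E - dβ` is closed. -/
theorem closed_PhiF_734 (c : Z2 M) {a : F1 E4 M} (ha : Smooth1 a) : Closed2 (PhiF c a) :=
  ((2 * Real.pi) • c + (-1 : ℝ) • (⟨⟨dG a, Smooth2.dG ha⟩, Closed2.dG ha⟩ : Z2 M)).2

theorem norm_vf_734 (h : TG S T cc W sT w e σ ι) (z : M) (i : Fin 4) : ‖vf e z i‖ = 1 := by
  have h1 := inner_vf h.tri h.met z i i
  rw [if_pos rfl, real_inner_self_eq_norm_sq] at h1
  have h2 := norm_nonneg (vf e z i)
  nlinarith

theorem smF_nE_734 (hS : S.OK) (ht : TE τ S T cc Z)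
    {a : κT → M → ℝ} (ha : Crest.Agent.R249.Tv57.SmV (n := 4) a) {s : κ0 → M → ℝ}
    (hs : Crest.Agent.R249.Tv57.SmV (n := 4) s) (y : κ0) :
    SmF (fun z => τ.nE S a s y z) := by
  have hJ : ∀ y, ContMDiff (𝓡 4) 𝓘(ℝ, ℝ) ∞ fun z => ∑ y', S.J y y' z * s y' z := fun y =>
    contMDiff_finsetSum fun y' _ => (hS.smJ y y').mul (hs y')
  have h1 : ∀ {b : κT → M → ℝ}, Crest.Agent.R249.Tv57.SmV (n := 4) b →
      SmF (fun z => ∑ A, b A z • S.s A z) :=
    fun hb => SmF.sum _ fun A _ => SmF.smul (hb A) (hS.sms A)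
  have h2 : ∀ y, SmF (fun z => S.nab a s y z) := fun y =>
    (Crest.Agent.R249.Tv57.smF_cv S.D0 hs y).add (SmF.smul (hJ y) (h1 ha))
  have h3 : SmF (fun z => ∑ y', ((1 / 2) * (S.D0.p y y' z - ∑ k, τ.n k z * S.rho k y y' z)) •
      S.nab a s y' z) := by
    refine SmF.sum _ fun y' _ => SmF.smul ?_ (h2 y')
    exact contMDiff_const.mul ((S.D0.smp y y').sub
      (contMDiff_finsetSum fun k _ => (ht.smn k).mul (hS.smrho k y y')))
  exact h3.add (SmF.smul (hJ y) (h1 ht.smsh))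

theorem cont_nE_734 (hS : S.OK) (ht : TE τ S T cc Z)
    {a : κT → M → ℝ} (ha : Crest.Agent.R249.Tv57.SmV (n := 4) a) {s : κ0 → M → ℝ}
    (hs : Crest.Agent.R249.Tv57.SmV (n := 4) s) :
    Continuous fun z => ∑ y, ‖τ.nE S a s y z‖ ^ 2 :=
  continuous_finsetSum _ fun y _ => by
    have h1 := (smF_nE_734 hS ht ha hs y).inner (smF_nE_734 hS ht ha hs y)
    have h2 := h1.continuous
    simpa only [real_inner_self_eq_norm_sq] using h2

/-- the pointwise bound. -/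
theorem t3_pt_734 (hS : S.OK) (h : TG S T cc W sT w e σ ι) (nn : ∀ z, ∑ k, τ.n k z ^ 2 = 1)
    (a : κT → M → ℝ) {s : κ0 → M → ℝ} (hsm : Crest.Agent.R249.Tv57.SmV (n := 4) s)
    (hs : τ.SecE S s) (z : M) {Φ : Bil} (hΦ : Alt Φ) {B : ℝ}
    (hB : ∀ u v : TangentSpace (𝓡 4) z, |Φ u v| ≤ B * ‖u‖ * ‖v‖) :
    |2 * q (at2 ((w 0).1.1 : F2 E4 M) z) ((2 : ℝ) • ∑ j,
          wed (nX (PEf τ S) (tF τ S W sT e a) (hatf S s) z j)
            (nY (PEf τ S) (tF τ S W sT e a) (hatf S s) z j)) Φ| ≤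
      100 * B * ∑ y, ‖τ.nE S a s y z‖ ^ 2 := by
  have hA := al_of hS h (n := nv τ z) z (nn z)
  have e0 : (2 : ℝ) • ∑ j, wed (nX (PEf τ S) (tF τ S W sT e a) (hatf S s) z j)
      (nY (PEf τ S) (tF τ S W sT e a) (hatf S s) z j) = (-1 : ℝ) • HI τ S W sT e a s s z := by
    unfold HI
    rw [hwI_self, smul_smul]
    norm_num
  rw [e0, q_smul_left]
  have e1 : |2 * (-1 * q (at2 ((w 0).1.1 : F2 E4 M) z) (HI τ S W sT e a s s z) Φ)| =
      |2 * q (at2 (e 0) z) (HI τ S W sT e a s s z) Φ| := by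
    rw [h.tri.e_zero, ← abs_neg]
    congr 1
    ring
  rw [e1, sum_norm_sq h z]
  have hal : Alt (HI τ S W sT e a s s z) := fun v => by
    have := HI_apply hS h nn a hsm hs hsm hs z (v : TangentSpace (𝓡 4) z) v
    rw [sub_self] at this
    exact this
  have hJn : ∀ i, (Jm S z *ᵥ gE τ S T a s z (vf e z i)) ⬝ᵥ
      (Jm S z *ᵥ gE τ S T a s z (vf e z i)) =
      gE τ S T a s z (vf e z i) ⬝ᵥ gE τ S T a s z (vf e z i) := by
    intro i
    have hE := inE_gE hS h nn a hs z (vf e z i)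
    rw [hA.J_dot, hA.JJG hE.1, dotProduct_neg, neg_neg]
  refine q_bound_734 (fr_of h.tri z) (fun k => (h.tri.smooth k).1 z) hal hΦ (B := B) ?_ ?_
  · intro i j
    have h1 := hB (vf e z i) (vf e z j)
    rw [norm_vf_734 h, norm_vf_734 h, mul_one, mul_one] at h1
    exact h1
  · intro i j
    have h1 := HI_apply hS h nn a hsm hs hsm hs z (vf e z i) (vf e z j)
    have h2 : |HI τ S W sT e a s s z (vf e z i) (vf e z j)| ≤
        gE τ S T a s z (vf e z i) ⬝ᵥ gE τ S T a s z (vf e z i) +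
        gE τ S T a s z (vf e z j) ⬝ᵥ gE τ S T a s z (vf e z j) := by
      rw [h1]
      have h3 := dot_le_734 (gE τ S T a s z (vf e z i)) (Jm S z *ᵥ gE τ S T a s z (vf e z j))
      have h4 := dot_le_734 (gE τ S T a s z (vf e z j)) (Jm S z *ᵥ gE τ S T a s z (vf e z i))
      rw [hJn] at h3 h4
      rw [abs_le] at h3 h4 ⊢
      constructor <;> linarith
    exact h2

/-- **(T3)**. -/
theorem t3 (hS : S.OK) (h : TG S T cc W sT w e σ ι) (ht : TE τ S T cc Z) {cE : Z2 M}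
    (hc : TC τ S W sT w e σ cE) {B : ℝ}
    (hB : ∀ (z : M) (u v : TangentSpace (𝓡 4) z),
      |Phi cE (bF τ S W sT e) z u v| ≤ B * ‖u‖ * ‖v‖) :
    ∃ (fF : M → ℝ) (g : κT → M → EuclideanSpace ℝ (Fin 4)),
      (∀ C, 100 * B ≤ C → τ.T3 S C fF g) ∧
      ∫ z, fF z ∂(μHE[4] : Measure M) = 4 * Real.pi ^ 2 * pI (w 0) cE cE := by
  set F : F2 E4 M := ((w 0).1.1 : F2 E4 M) with hF
  have hbs : Smooth1 (bF τ S W sT e) := smooth_bF hS h ht
  set Φ0 : F2 E4 M := PhiF cE (bF τ S W sT e) with hΦ0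
  have hΦs : Smooth2 Φ0 := smooth_PhiF cE hbs
  have hΦc : Closed2 Φ0 := closed_PhiF_734 cE hbs
  have hΦn : Smooth2 ((-1 : ℝ) • Φ0) := Smooth2.smul _ hΦs
  have hw : Smooth2 F := (w 0).1.2
  have hne := fun x => h.tri.W_ne x
  obtain ⟨g, hg1, hg2⟩ := TauStar_734.star_g h hΦn
  have hg3 : ∀ a : κT → M → ℝ, Crest.Agent.R249.Tv57.SmV (n := 4) a → S.DT.Sec a → ∀ z,
      ∑ A, ⟪S.DT.cv a A z, g A z⟫ =
        - (2 * qG F (dG (RiemB_399.flG (gg e) (fld sT a))) Φ0 z) := by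
    intro a ha hsa z
    rw [hg2 a ha hsa z]
    have h1 : at2 ((-1 : ℝ) • Φ0) z = (-1 : ℝ) • at2 Φ0 z := rfl
    rw [h1, q_smul_right]
    unfold qG
    ring
  refine ⟨fun z => 2 * qG F Φ0 Φ0 z, g, ?_, ?_⟩
  · intro C hC
    refine ⟨?_, hg1, ?_, ?_⟩
    · exact contMDiff_const.mul ((RiemB_399.smoothF_iff _).1 (En4.smoothF_qG hw hne hΦs hΦs))
    · intro a ha hsa
      have h1 : ∫ z, ∑ A, ⟪S.DT.cv a A z, g A z⟫ ∂(μHE[4] : Measure M) =
          - ∫ z, 2 * qG F (dG (RiemB_399.flG (gg e) (fld sT a))) Φ0 z ∂(μHE[4] : Measure M) := by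
        rw [← integral_neg]
        exact integral_congr_ae (Filter.Eventually.of_forall fun z => hg3 a ha hsa z)
      rw [h1, ← IndVol_57.I_eq (cpt_w h), stokes_zero (vol_w h) (smooth_flG_fld h ha) hΦs hΦc,
        neg_zero]
    · intro a s ha hsa hsm hs
      have hln := ln_PEf (T := T) (cc := cc) hS h ht.smn ht.norm
      have hα := smV_hatf hS hsm
      have hpα := PEf_hatf hS h ht.norm hs
      have hθs : Smooth1 (tF τ S W sT e a) := smooth_tF hS h ht ha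
      have hT := T1 (vol_w h) hln hc.ch hθs hα hpα hΦs hΦc
      rw [int_mu h, int_mu h] at hT
      have hT' := mul_left_cancel₀ two_ne_zero hT
      have h1 : ∫ z, (∑ y, s y z ^ 2) * (2 * qG F Φ0 Φ0 z + ∑ A, ⟪S.DT.cv a A z, g A z⟫)
          ∂(μHE[4] : Measure M) =
          ∫ z, 2 * q (at2 F z) ((2 : ℝ) • ∑ j,
          wed (nX (PEf τ S) (tF τ S W sT e a) (hatf S s) z j)
            (nY (PEf τ S) (tF τ S W sT e a) (hatf S s) z j)) (at2 Φ0 z)
            ∂(μHE[4] : Measure M) := by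
        rw [integral_const_mul, hT', ← integral_const_mul]
        refine integral_congr_ae (Filter.Eventually.of_forall fun z => ?_)
        show (∑ y, s y z ^ 2) * (2 * qG F Φ0 Φ0 z + ∑ A, ⟪S.DT.cv a A z, g A z⟫) =
          2 * ((hp (hatf S s z) (hatf S s z)).re *
            q (at2 F z) (Phi cE (tF τ S W sT e a) z) (at2 Φ0 z))
        rw [hp_hatf_self hS h ht.norm hs, hg3 a ha hsa z, Phi_tF hS h ht ha, q_sub_left,
          ← at2_PhiF]
        unfold qG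
        ring
      rw [h1, ← Real.norm_eq_abs, ← integral_const_mul]
      refine norm_integral_le_of_norm_le ?_ (Filter.Eventually.of_forall fun z => ?_)
      · exact int_cont (continuous_const.mul (cont_nE_734 hS ht ha hsm))
      · rw [Real.norm_eq_abs]
        have h2 := t3_pt_734 hS h ht.norm a hsm hs z (hΦs.1 z) (B := B) (fun u v => by
          have := hB z u v
          rw [← at2_PhiF] at this
          exact this)
        refine h2.trans ?_
        exact mul_le_mul_of_nonneg_right hC (Finset.sum_nonneg fun y _ => sq_nonneg _)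
  · rw [← IndVol_57.I_eq (cpt_w h), T3 (vol_w h) cE hbs hΦs hΦc, Int.I_comm,
      T3 (vol_w h) cE hbs cE.1.2 cE.2, IndVol_57.pI_eq_I]
    ring

/-- **(top)**. -/
theorem top (hS : S.OK) (h : TG S T cc W sT w e σ ι) (ht : TE τ S T cc Z) {cE : Z2 M}
    (hc : TC τ S W sT w e σ cE) {wt : Z2 M} (hwt : WT τ e wt) :
    ∫ z, ∑ k, τ.rr z * τ.n k z * τ.fE k z ∂(μHE[4] : Measure M) =
      -2 * Real.pi * σ * pI (w 0) wt cE := by
  have hbs : Smooth1 (bF τ S W sT e) := smooth_bF hS h ht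
  have h1 : ∀ z, ∑ k, τ.rr z * τ.n k z * τ.fE k z =
      -σ * (2 * qG ((w 0).1.1 : F2 E4 M) (PhiF cE (bF τ S W sT e)) (wt.1.1 : F2 E4 M) z) := by
    intro z
    have h2 : qG ((w 0).1.1 : F2 E4 M) (PhiF cE (bF τ S W sT e)) (wt.1.1 : F2 E4 M) z =
        q (at2 ((w 0).1.1 : F2 E4 M) z) (Phi cE (bF τ S W sT e) z) (val wt z) := by
      unfold qG
      rw [at2_PhiF]
      rfl
    rw [h2, hwt z, q_sum_right, Finset.mul_sum, Finset.mul_sum]
    refine Finset.sum_congr rfl fun k _ => ?_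
    rw [hc.fE, q_smul_right, q_comm _ (Phi cE (bF τ S W sT e) z)]
    ring
  simp only [h1]
  rw [integral_const_mul, ← IndVol_57.I_eq (cpt_w h), T3 (vol_w h) cE hbs wt.1.2 wt.2, Int.I_comm,
    IndVol_57.pI_eq_I]
  ring

end

end Crest.Agent.R235.Tau483
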