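import Crest.Agent.R235.TauOK_692
import Crest.Agent.R235.TauT3_734
import Crest.Agent.R235.SWGeo_659
import Crest.Agent.R235.SWTn_451
import Crest.Agent.R235.Ip_288

/-!
Row 235 (S0364), package SW, model (helper692): THE FAMILY over a fixed system, abstractly.

* `GFm`      : the data of the family over `|t| = 1` (fixed `S`, `TG`; `TE`, `TC`, classes, bounds);
* `GFm.tau`  : `∃ C, ∀ |t| = 1, (τ t).OK S C`;
* `GFm.fam`  : `∃ C, Fam S ww τ C (4π² (a·a))` if `a·w_i = 0`;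
* `harm_t`   : `w_t` is harmonic.
-/

set_option autoImplicit false
set_option maxSynthPendingDepth 3
set_option linter.unusedSectionVars false

open scoped ContDiff ENNReal NNReal Topology Manifold Bundle RealInnerProductSpace
open MeasureTheory Set Filter Metric Bundle Matrix

universe v

namespace Crest.Agent.R235.FamR_692

open Crest.Agent.R240 Crest.Agent.R240.Ch Crest.Agent.R240.Int Crest.Agent.R235.SWDefs_53
open Crest.Agent.R235.IndTri_451 Crest.Agent.R235.Tau483 Crest.Agent.R235.TauOK_692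
open Crest.Agent.R249.Tv57 (Dat OpPair SmF Spec)
open Crest.Agent.R247.Ms322 (Gr)
open Crest.Agent.R249.Tz805 (ToF)

noncomputable section

variable {M : Type v} [MetricSpace M] [CompactSpace M] [ConnectedSpace M]
  [ChartedSpace (EuclideanSpace ℝ (Fin 4)) M] [IsManifold (𝓡 4) ∞ M]
  [RiemannianBundle (fun p : M => TangentSpace (𝓡 4) p)]
  [IsContMDiffRiemannianBundle (𝓡 4) ∞ (EuclideanSpace ℝ (Fin 4))
    (fun p : M => TangentSpace (𝓡 4) p)]
  [IsRiemannianManifold (𝓡 4) M] [MeasurableSpace M] [BorelSpace M]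
  [SecondCountableTopology M] [Nonempty M] [IsFiniteMeasureOnCompacts (μHE[4] : Measure M)]
  {κ0 κ1 κT : Type} [Fintype κ0] [Fintype κ1] [Fintype κT]

/-- `w_t = ∑ t_i w_i` is harmonic. -/
theorem harm_t {S : SWS M κ0 κ1 κT} (hS : S.OK) {ww : Fin 3 → Fin 3 → M → ℝ}
    (smw : ∀ i k, ContMDiff (𝓡 4) 𝓘(ℝ, ℝ) ∞ (ww i k))
    (harm : ∀ i x z, S.H.A (Fin.cons (fun _ => 0) (ww i)) x z = 0) (t : E3) (x : κT) (z : M) :
    S.H.A (Fin.cons (fun _ => 0) fun k z => ∑ i, t i * ww i k z) x z = 0 := by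
  have h1 := (SWGeo_659.sum_all S.H Finset.univ (fun i : Fin 3 => t i)
    (fun i => (Fin.cons (fun _ => 0) (ww i) : Fin 4 → M → ℝ)) (fun i => by
      intro k
      refine Fin.cases ?_ (fun j => ?_) k
      · exact contMDiff_const
      · exact smw i j) (fun i a z => by
      simp only [hS.fullL, ite_mul, one_mul, zero_mul, Finset.sum_ite_eq, Finset.mem_univ,
        if_true])).2.2.1 x z
  have h2 : (∑ i : Fin 3, t i • (Fin.cons (fun _ => 0) (ww i) : Fin 4 → M → ℝ)) =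
      Fin.cons (fun _ => 0) fun k z => ∑ i, t i * ww i k z := by
    funext k y
    rw [Finset.sum_apply, Finset.sum_apply]
    refine Fin.cases ?_ (fun j => ?_) k
    · simp
    · simp
  rw [h2] at h1
  rw [h1]
  simp only [harm, mul_zero, Finset.sum_const_zero]

/-- the data of the family. -/
structure GFm (S : SWS M κ0 κ1 κT) (T : ToF 4 M)
    (cc : κ1 → κ0 → (z : M) → TangentSpace (𝓡 4) z)
    (W : κ0 → κ0 → (z : M) → TangentSpace (𝓡 4) z)
    (sT : κT → (z : M) → TangentSpace (𝓡 4) z) (w : Trip M) (e : Fin 3 → F2 E4 M)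
    (σ ι : ℝ) (ww : Fin 3 → Fin 3 → M → ℝ) (τ : E3 → TD M κT) (a : Z2 M) (cE : E3 → Z2 M)
    (B C2 : ℝ) : Prop where
  ok : S.OK
  tg : TG S T cc W sT w e σ ι
  smw : ∀ i k, ContMDiff (𝓡 4) 𝓘(ℝ, ℝ) ∞ (ww i k)
  harm : ∀ i x z, S.H.A (Fin.cons (fun _ => 0) (ww i)) x z = 0
  ndeg : ∀ (t : E3) z, t ≠ 0 → ∃ k, ∑ i, t i * ww i k z ≠ 0
  rr : ∀ (t : E3) z, ‖t‖ = 1 → (τ t).rr z = √(∑ k, (∑ i, t i * ww i k z) ^ 2)
  nn : ∀ (t : E3) k z, ‖t‖ = 1 → (τ t).rr z * (τ t).n k z = ∑ i, t i * ww i k z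
  /-- `w_i` in the frame -/
  wwe : ∀ i x, val (w i) x = ∑ k, ww i k x • at2 (e k) x
  te : ∀ t : E3, ‖t‖ = 1 → ∃ Z, TE (τ t) S T cc Z
  tc : ∀ t : E3, ‖t‖ = 1 → TC (τ t) S W sT w e σ (cE t)
  cl : ∀ t : E3, ‖t‖ = 1 → cls (cE t) = cls a
  cfE : ∀ k, ContinuousOn (fun q : E3 × M => (τ q.1).fE k q.2) {q | ‖q.1‖ = 1}
  bd : ∀ t : E3, ‖t‖ = 1 → ∀ (z : M) (u v : TangentSpace (𝓡 4) z),
    |Phi (cE t) (bF (τ t) S W sT e) z u v| ≤ B * ‖u‖ * ‖v‖
  t2 : ∀ t : E3, ‖t‖ = 1 → T2P (τ t) S C2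

/-- the closed form `w_t`. -/
def wtF (w : Trip M) (t : E3) : Z2 M := ∑ i, t i • w i

theorem val_wtF (w : Trip M) (t : E3) (x : M) : val (wtF w t) x = ∑ i, t i • val (w i) x := by
  simp only [wtF, Fin.sum_univ_three]
  rfl

variable {S : SWS M κ0 κ1 κT} {T : ToF 4 M}
    {cc : κ1 → κ0 → (z : M) → TangentSpace (𝓡 4) z}
    {W : κ0 → κ0 → (z : M) → TangentSpace (𝓡 4) z}
    {sT : κT → (z : M) → TangentSpace (𝓡 4) z} {w : Trip M} {e : Fin 3 → F2 E4 M}
    {σ ι : ℝ} {ww : Fin 3 → Fin 3 → M → ℝ} {τ : E3 → TD M κT} {a : Z2 M} {cE : E3 → Z2 M}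
    {B C2 : ℝ} (G : GFm S T cc W sT w e σ ι ww τ a cE B C2)

include G

theorem GFm.wt {t : E3} (ht : ‖t‖ = 1) : WT (τ t) e (wtF w t) := by
  intro x
  rw [val_wtF]
  have h1 : ∀ k, ((τ t).rr x * (τ t).n k x) • at2 (e k) x =
      ∑ i, (t i * ww i k x) • at2 (e k) x := fun k => by
    rw [G.nn t k x ht, Finset.sum_smul]
  simp only [h1, G.wwe, Finset.smul_sum, smul_smul]
  rw [Finset.sum_comm]

theorem GFm.harmt {t : E3} (ht : ‖t‖ = 1) (x : κT) (z : M) :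
    S.H.A (Fin.cons (fun _ => 0) fun k z => (τ t).rr z * (τ t).n k z) x z = 0 := by
  have h1 : (fun (k : Fin 3) (z : M) => (τ t).rr z * (τ t).n k z) =
      fun k z => ∑ i, t i * ww i k z := by
    funext k z
    exact G.nn t k z ht
  rw [h1]
  exact harm_t G.ok G.smw G.harm t x z

theorem GFm.tauOK {C : ℝ} (hC : C2 ≤ C) (t : E3) (ht : ‖t‖ = 1) : (τ t).OK S C := by
  obtain ⟨Z, hE⟩ := G.te t ht
  exact TauOK_692.ok_of G.ok G.tg hE (G.wt ht) (G.tc t ht) (fun x z => G.harmt ht x z)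
    ((G.t2 t ht).mono hC)

/-- **the family `Fam`** for a class orthogonal to the triple. -/
theorem GFm.fam (hort : ∀ i, ip (w 0) (cls a) (cls (w i)) = 0) :
    Fam S ww τ (max C2 (100 * B)) (4 * Real.pi ^ 2 * pI (w 0) a a) where
  ok := G.ok
  smw := G.smw
  harm := G.harm
  ndeg := G.ndeg
  rr := G.rr
  nn := G.nn
  cfE := G.cfE
  tau := fun t ht => G.tauOK (le_max_left _ _) t ht
  top := fun t ht => by
    obtain ⟨Z, hE⟩ := G.te t ht
    have hV := vol_w G.tg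
    rw [top G.ok G.tg hE (G.tc t ht) (G.wt ht)]
    have h1 : pI (w 0) (wtF w t) (cE t) = 0 := by
      rw [← ip_cls hV, G.cl t ht]
      have h2 : cls (wtF w t) = ∑ i, t i • cls (w i) := by
        rw [wtF, map_sum]
        exact Finset.sum_congr rfl fun i _ => map_smul _ _ _
      rw [h2, ip_sum_left hV]
      refine Finset.sum_eq_zero fun i _ => ?_
      rw [ip_smul_left hV, ip_comm, hort i, mul_zero]
    rw [h1, mul_zero]
  t3 := fun t ht => by
    obtain ⟨Z, hE⟩ := G.te t ht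
    have hV := vol_w G.tg
    obtain ⟨fF, g, h1, h2⟩ := Tau483.t3 G.ok G.tg hE (G.tc t ht) (G.bd t ht)
    refine ⟨fF, g, h1 _ (le_max_right _ _), ?_⟩
    rw [h2, ← ip_cls hV, ← ip_cls hV, G.cl t ht]

end

end Crest.Agent.R235.FamR_692
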