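import Crest.Agent.R235.FdJb_778
import Crest.Agent.R235.EqPert_356

/-!
Row 235 (S0364), block FDJ (helper778): **the finite dimensional theorem over the Jacobian torus**.

`T` real (`= R^3`), `E_h = range (P h) ⊆ H` a smooth `Z^b`-periodic family of complex subspaces of
dimension `m`, `(fR, fC) : T × R^b × H → YR × YC` continuous, periodic, `S¹`-equivariant,
`dim T + b + 2 m = dim YR + 2 dim_C YC`, `v ≠ 0` in `YC`.

1. no zero with `|t| ≤ 1`, `ψ = 0`;
2. no point with `|t| ≤ 1`, `|ψ| ≥ R`, `fR = 0`, `fC ∈ R_{≥0} v`;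
3. on `|t| = 1` the equations `fR = 0`, `fC = s v`, `s ≥ 0` have the only solution
   `(t₀, h₀, ψ₀)` (mod `Z^b`), with `s = s₀ > 0`, nondegenerate in the collar.

These are contradictory.
-/

set_option autoImplicit false

open Set Filter Topology Module
open scoped ContDiff

noncomputable section

namespace Crest.Agent.R235.FdJ_778

variable {T H YR YC : Type*} [NormedAddCommGroup T] [NormedSpace ℝ T] [FiniteDimensional ℝ T]
  [NormedAddCommGroup H] [InnerProductSpace ℂ H] [FiniteDimensional ℂ H]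
  [NormedAddCommGroup YR] [NormedSpace ℝ YR] [FiniteDimensional ℝ YR]
  [NormedAddCommGroup YC] [NormedSpace ℂ YC] [FiniteDimensional ℂ YC] {b m : ℕ}

/-- radial retraction to the unit ball -/
def th (t : T) : T := (max 1 ‖t‖)⁻¹ • t

theorem continuous_th : Continuous (th (T := T)) := by
  refine Continuous.smul (Continuous.inv₀ (continuous_const.max continuous_norm) fun t => ?_)
    continuous_id
  exact (lt_of_lt_of_le one_pos (le_max_left _ _)).ne'

theorem th_small {t : T} (ht : ‖t‖ ≤ 1) : th t = t := by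
  unfold th
  rw [max_eq_left ht, inv_one, one_smul]

theorem th_large {t : T} (ht : 1 ≤ ‖t‖) : th t = ‖t‖⁻¹ • t := by
  unfold th
  rw [max_eq_right ht]

theorem norm_th_large {t : T} (ht : 1 ≤ ‖t‖) : ‖th t‖ = 1 := by
  rw [th_large ht, norm_smul, norm_inv, norm_norm, inv_mul_cancel₀]
  exact (lt_of_lt_of_le one_pos ht).ne'

/-- **FDJ** -/
theorem fdj (P : (Fin b → ℝ) → H →L[ℂ] H) (hP : ContDiff ℝ ∞ P)
    (hPp : ∀ (h : Fin b → ℝ) (k : Fin b → ℤ), P (fun i => h i + k i) = P h)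
    (hPP : ∀ h x, P h (P h x) = P h x)
    (hr : ∀ h, finrank ℂ (LinearMap.range (P h : H →ₗ[ℂ] H)) = m)
    (hdim : finrank ℝ T + b + 2 * m = finrank ℝ YR + 2 * finrank ℂ YC)
    (fR : T × (Fin b → ℝ) × H → YR) (fC : T × (Fin b → ℝ) × H → YC)
    (cR : Continuous fR) (cC : Continuous fC)
    (eqR : ∀ t h ψ (z : ℂ), ‖z‖ = 1 → fR (t, h, z • ψ) = fR (t, h, ψ))
    (eqC : ∀ t h ψ (z : ℂ), ‖z‖ = 1 → fC (t, h, z • ψ) = z • fC (t, h, ψ))
    (pR : ∀ t h ψ (k : Fin b → ℤ), fR (t, fun i => h i + k i, ψ) = fR (t, h, ψ))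
    (pC : ∀ t h ψ (k : Fin b → ℤ), fC (t, fun i => h i + k i, ψ) = fC (t, h, ψ))
    (v : YC) (hv : v ≠ 0) (R : ℝ)
    (h1 : ∀ t h ψ, ‖t‖ ≤ 1 → P h ψ = ψ → fR (t, h, ψ) = 0 → fC (t, h, ψ) = 0 → ψ ≠ 0)
    (h2 : ∀ t h ψ (s : ℝ), ‖t‖ ≤ 1 → P h ψ = ψ → R ≤ ‖ψ‖ → 0 ≤ s → fR (t, h, ψ) = 0 →
      fC (t, h, ψ) ≠ (s : ℂ) • v)
    (t₀ : T) (h₀ : Fin b → ℝ) (ψ₀ : H) (s₀ : ℝ) (ht₀ : ‖t₀‖ = 1) (hs₀ : 0 < s₀)
    (hψ₀ : P h₀ ψ₀ = ψ₀) (hR₀ : fR (t₀, h₀, ψ₀) = 0) (hC₀ : fC (t₀, h₀, ψ₀) = (s₀ : ℂ) • v)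
    (h3 : ∀ t h ψ (s : ℝ), ‖t‖ = 1 → P h ψ = ψ → 0 ≤ s → fR (t, h, ψ) = 0 →
      fC (t, h, ψ) = (s : ℂ) • v →
      t = t₀ ∧ ψ = ψ₀ ∧ s = s₀ ∧ ∃ k : Fin b → ℤ, h = fun i => h₀ i + k i)
    (L : T × (Fin b → ℝ) × H →L[ℝ] YR × YC)
    (hL : HasFDerivAt (fun x : T × (Fin b → ℝ) × H =>
      ((fR (‖x.1‖⁻¹ • x.1, x.2.1, P x.2.1 x.2.2),
        fC (‖x.1‖⁻¹ • x.1, x.2.1, P x.2.1 x.2.2) - ((‖x.1‖ - 1 : ℝ) : ℂ) • v) : YR × YC)) L
      ((1 + s₀) • t₀, h₀, ψ₀))
    (hLi : ∀ τ κ ξ, P h₀ ξ = ξ → L (τ, κ, ξ) = 0 → τ = 0 ∧ κ = 0 ∧ ξ = 0) : False := by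
  -- removal of the zeros
  obtain ⟨gR, gC, cgR, cgC, pgR, pgC, -, -, hgf, hgz⟩ := EqPert_356.eqPert P
    (hP.differentiable (by simp)) hPp hPP hr hdim fR fC cR cC eqR eqC pR pC (max R 0) (by
      intro t h ψ ht hψ hfR hfC
      refine ⟨?_, h1 t h ψ ht hψ hfR hfC, ?_⟩
      · by_contra hcon
        have ht1 : ‖t‖ = 1 := le_antisymm ht (not_lt.1 hcon)
        have := (h3 t h ψ 0 ht1 hψ le_rfl hfR (by rw [hfC]; simp)).2.2.1
        linarith
      · by_contra hcon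
        push Not at hcon
        have h4 := h2 t h ψ 0 ht hψ ((le_max_left _ _).trans hcon) le_rfl hfR
        exact h4 (by rw [hfC]; simp)) one_pos
  -- the extended map
  let cc : T → ℝ := fun t => max 0 (‖t‖ - 1)
  have hcc : Continuous cc := continuous_const.max (continuous_norm.sub continuous_const)
  let G : T × (Fin b → ℝ) × H → YR × YC := fun x =>
    (gR (th x.1, fun i => x.2.1 i + h₀ i, x.2.2),
      gC (th x.1, fun i => x.2.1 i + h₀ i, x.2.2) - ((cc x.1 : ℝ) : ℂ) • v)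
  have hsh : Continuous fun x : T × (Fin b → ℝ) × H =>
      ((th x.1, fun i => x.2.1 i + h₀ i, x.2.2) : T × (Fin b → ℝ) × H) := by
    refine (continuous_th.comp continuous_fst).prodMk (Continuous.prodMk ?_
      (continuous_snd.comp continuous_snd))
    exact continuous_pi fun i =>
      ((continuous_apply i).comp (continuous_fst.comp continuous_snd)).add continuous_const
  have cG : Continuous G := by
    refine (cgR.comp hsh).prodMk ((cgC.comp hsh).sub ?_)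
    exact (Complex.continuous_ofReal.comp (hcc.comp continuous_fst)).smul continuous_const
  let V : YR × YC := (0, v)
  have hV : V ≠ 0 := fun h => hv (congrArg Prod.snd h)
  let P' : (Fin b → ℝ) → H →L[ℂ] H := fun h => P fun i => h i + h₀ i
  have hshift : ∀ (h : Fin b → ℝ) (k : Fin b → ℤ),
      (fun i => (h i + k i) + h₀ i) = fun i => (h i + h₀ i) + (k i : ℝ) := by
    intro h k
    funext i
    ring
  set R' : ℝ := max (max R 0) (‖ψ₀‖ + 1) + (2 + s₀) with hR'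
  have hR'1 : R ≤ R' := by
    have := (le_max_left R 0).trans (le_max_left (max R 0) (‖ψ₀‖ + 1))
    linarith
  have hR'0 : max R 0 ≤ R' := by
    have := le_max_left (max R 0) (‖ψ₀‖ + 1)
    linarith
  have hR'2 : ‖ψ₀‖ < R' := by
    have := le_max_right (max R 0) (‖ψ₀‖ + 1)
    linarith
  have hR'3 : 1 + s₀ < R' := by
    have := (le_max_right R 0).trans (le_max_left (max R 0) (‖ψ₀‖ + 1))
    linarith
  -- solutions in the collar
  have hcol : ∀ (t : T) (h : Fin b → ℝ) (ψ : H) (s : ℝ), P' h ψ = ψ → 1 < ‖t‖ → 0 ≤ s →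
      G (t, h, ψ) = s • V → th t = t₀ ∧ ψ = ψ₀ ∧ s + (‖t‖ - 1) = s₀ ∧
        ∃ k : Fin b → ℤ, h = fun i => (k i : ℝ) := by
    intro t h ψ s hψ ht hs hG
    have e1 : gR (th t, fun i => h i + h₀ i, ψ) = 0 := by
      have := congrArg Prod.fst hG
      simpa [G, V] using this
    have e2 : gC (th t, fun i => h i + h₀ i, ψ) - ((cc t : ℝ) : ℂ) • v = (s : ℂ) • v := by
      have := congrArg Prod.snd hG
      simpa [G, V] using this
    have e3 : cc t = ‖t‖ - 1 := max_eq_right (by linarith)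
    obtain ⟨e4, e5⟩ := hgf (th t) (fun i => h i + h₀ i) ψ (Or.inl (norm_th_large ht.le).ge)
    rw [e4] at e1
    rw [e5] at e2
    have e6 : fC (th t, fun i => h i + h₀ i, ψ) = ((s + (‖t‖ - 1) : ℝ) : ℂ) • v := by
      rw [sub_eq_iff_eq_add] at e2
      rw [e2, e3, ← add_smul]
      push_cast
      rfl
    obtain ⟨e7, e8, e9, k, hk⟩ := h3 (th t) (fun i => h i + h₀ i) ψ (s + (‖t‖ - 1))
      (norm_th_large ht.le) hψ (by linarith) e1 e6
    refine ⟨e7, e8, e9, k, ?_⟩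
    funext i
    have := congrFun hk i
    linarith
  -- the contradiction
  refine FdJb_778.core (T := T) (H := H) (Y := YR × YC) (b := b) (m := m) P' ?_ ?_
    (fun h x => hPP _ x) (fun h => hr _) ?_ G cG ?_ V hV R' ?_ ((1 + s₀) • t₀) ψ₀ ?_ hR'2 ?_ ?_
    ?_ L ?_ ?_
  · refine hP.comp ?_
    exact contDiff_pi' fun i => (contDiff_apply ℝ ℝ i).add contDiff_const
  · intro h k
    show P (fun i => (h i + k i) + h₀ i) = P fun i => h i + h₀ i
    rw [hshift]
    exact hPp _ k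
  · rw [finrank_prod, finrank_real_of_complex, hdim]
  · intro t h ψ k
    show (gR (th t, fun i => (h i + k i) + h₀ i, ψ),
      gC (th t, fun i => (h i + k i) + h₀ i, ψ) - ((cc t : ℝ) : ℂ) • v) = _
    rw [hshift, pgR, pgC]
  · -- the ray
    intro t h ψ hψ hbig s hs hG
    rcases le_or_gt ‖t‖ 1 with ht | ht
    · have e0 : R' ≤ ‖ψ‖ := by
        rcases hbig with hb | hb
        · linarith
        · exact hb
      have e1 : gR (th t, fun i => h i + h₀ i, ψ) = 0 := by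
        have := congrArg Prod.fst hG
        simpa [G, V] using this
      have e2 : gC (th t, fun i => h i + h₀ i, ψ) - ((cc t : ℝ) : ℂ) • v = (s : ℂ) • v := by
        have := congrArg Prod.snd hG
        simpa [G, V] using this
      have e3 : cc t = 0 := max_eq_left (by linarith)
      rw [th_small ht] at e1 e2
      obtain ⟨e4, e5⟩ := hgf t (fun i => h i + h₀ i) ψ (Or.inr (hR'0.trans e0))
      rw [e4] at e1
      rw [e5, e3] at e2
      simp only [Complex.ofReal_zero, zero_smul, sub_zero] at e2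
      exact h2 t _ ψ s ht hψ (hR'1.trans e0) hs e1 e2
    · obtain ⟨e1, e2, e3, -⟩ := hcol t h ψ s hψ ht hs hG
      rcases hbig with hb | hb
      · linarith
      · rw [e2] at hb
        linarith
  · rw [norm_smul, ht₀, mul_one, Real.norm_of_nonneg (by linarith)]
    exact hR'3
  · show P (fun i => (0 : Fin b → ℝ) i + h₀ i) ψ₀ = ψ₀
    simpa using hψ₀
  · -- value at the point
    have e1 : ‖(1 + s₀) • t₀‖ = 1 + s₀ := by
      rw [norm_smul, ht₀, mul_one, Real.norm_of_nonneg (by linarith)]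
    have e2 : th ((1 + s₀) • t₀) = t₀ := by
      rw [th_large (by rw [e1]; linarith), e1, smul_smul, inv_mul_cancel₀ (by linarith), one_smul]
    have e3 : cc ((1 + s₀) • t₀) = s₀ := by
      show max 0 (‖(1 + s₀) • t₀‖ - 1) = s₀
      rw [e1, max_eq_right (by linarith)]
      ring
    have e4 : (fun i => (0 : Fin b → ℝ) i + h₀ i) = h₀ := by
      funext i
      simp
    obtain ⟨e5, e6⟩ := hgf t₀ h₀ ψ₀ (Or.inl ht₀.ge)
    show (gR (th ((1 + s₀) • t₀), fun i => (0 : Fin b → ℝ) i + h₀ i, ψ₀),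
      gC (th ((1 + s₀) • t₀), fun i => (0 : Fin b → ℝ) i + h₀ i, ψ₀)
        - ((cc ((1 + s₀) • t₀) : ℝ) : ℂ) • v) = 0
    rw [e2, e3, e4, e5, e6, hR₀, hC₀, sub_self]
    rfl
  · -- zeros
    intro t h ψ hψ hh hG
    rcases le_or_gt ‖t‖ 1 with ht | ht
    · exfalso
      have e1 : gR (th t, fun i => h i + h₀ i, ψ) = 0 := congrArg Prod.fst hG
      have e2 : gC (th t, fun i => h i + h₀ i, ψ) - ((cc t : ℝ) : ℂ) • v = 0 :=
        congrArg Prod.snd hG
      have e3 : cc t = 0 := max_eq_left (by linarith)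
      rw [th_small ht] at e1 e2
      rw [e3] at e2
      simp only [Complex.ofReal_zero, zero_smul, sub_zero] at e2
      exact hgz t _ ψ ht hψ e1 e2
    · obtain ⟨e1, e2, e3, k, hk⟩ := hcol t h ψ 0 hψ ht le_rfl (by rw [hG, zero_smul])
      have e4 : ‖t‖ = 1 + s₀ := by linarith
      have e5 : t = (1 + s₀) • t₀ := by
        rw [← e1, th_large ht.le, ← e4, smul_smul, mul_inv_cancel₀ (by linarith), one_smul]
      refine ⟨e5, ?_, e2⟩
      funext i
      have e6 := hh i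
      rw [hk] at e6 ⊢
      have e7 : (k i : ℤ) = 0 := by
        by_contra hne
        have e8 : (1 : ℝ) ≤ |(k i : ℝ)| := by
          have := Int.one_le_abs hne
          exact_mod_cast this
        have e9 : |(k i : ℝ)| ≤ 3 / 4 := e6
        linarith
      show ((k i : ℤ) : ℝ) = 0
      rw [e7]
      simp
  · -- the derivative
    have e1 : ‖(1 + s₀) • t₀‖ = 1 + s₀ := by
      rw [norm_smul, ht₀, mul_one, Real.norm_of_nonneg (by linarith)]
    let sh : T × (Fin b → ℝ) × H → T × (Fin b → ℝ) × H := fun x => x + (0, h₀, 0)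
    have e2 : HasFDerivAt sh (ContinuousLinearMap.id ℝ _) ((1 + s₀) • t₀, 0, ψ₀) :=
      (hasFDerivAt_id _).add_const _
    have e3 : sh ((1 + s₀) • t₀, 0, ψ₀) = ((1 + s₀) • t₀, h₀, ψ₀) := by
      simp [sh]
    have e4 := hL
    rw [← e3] at e4
    have e5 := HasFDerivAt.comp ((1 + s₀) • t₀, (0 : Fin b → ℝ), ψ₀) e4 e2
    rw [ContinuousLinearMap.comp_id] at e5
    refine e5.congr_of_eventuallyEq ?_
    have e6 : ∀ᶠ x : T × (Fin b → ℝ) × H in 𝓝 ((1 + s₀) • t₀, 0, ψ₀), 1 < ‖x.1‖ := by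
      refine (isOpen_lt continuous_const continuous_fst.norm).mem_nhds ?_
      show 1 < ‖(1 + s₀) • t₀‖
      rw [e1]
      linarith
    filter_upwards [e6] with x hx
    have e7 : th x.1 = ‖x.1‖⁻¹ • x.1 := th_large hx.le
    have e8 : cc x.1 = ‖x.1‖ - 1 := max_eq_right (by linarith)
    obtain ⟨e9, e10⟩ := hgf (th x.1) (fun i => x.2.1 i + h₀ i)
      (P (fun i => x.2.1 i + h₀ i) x.2.2) (Or.inl (norm_th_large hx.le).ge)
    have e11 : (sh x).1 = x.1 := by simp [sh]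
    have e12 : (sh x).2.1 = fun i => x.2.1 i + h₀ i := by
      funext i
      simp [sh]
    have e13 : (sh x).2.2 = x.2.2 := by simp [sh]
    show (gR (th x.1, fun i => x.2.1 i + h₀ i, P (fun i => x.2.1 i + h₀ i) x.2.2),
      gC (th x.1, fun i => x.2.1 i + h₀ i, P (fun i => x.2.1 i + h₀ i) x.2.2)
        - ((cc x.1 : ℝ) : ℂ) • v)
      = (fR (‖(sh x).1‖⁻¹ • (sh x).1, (sh x).2.1, P (sh x).2.1 (sh x).2.2),
        fC (‖(sh x).1‖⁻¹ • (sh x).1, (sh x).2.1, P (sh x).2.1 (sh x).2.2)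
          - ((‖(sh x).1‖ - 1 : ℝ) : ℂ) • v)
    rw [e9, e10, e8, e7, e11, e12, e13]
  · intro τ κ ξ hξ
    refine hLi τ κ ξ ?_
    have e4 : (fun i => (0 : Fin b → ℝ) i + h₀ i) = h₀ := by
      funext i
      simp
    have e5 : P (fun i => (0 : Fin b → ℝ) i + h₀ i) ξ = ξ := hξ
    rwa [e4] at e5

end Crest.Agent.R235.FdJ_778
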