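import Crest.Agent.R235.FamO_151
import Crest.Agent.R235.FamE_151
import Crest.Agent.R235.FdJ_778
import Crest.Agent.R235.FamW_307

/-!
Row 235 (S0364), helper151. Block FAM: from the Seiberg-Witten data over the torus to the finite
dimensional theorems.
-/

set_option autoImplicit false
set_option linter.unusedSectionVars false

open Set Filter Topology Module
open scoped ContDiff

namespace Crest.Agent.R235.FamR_151

section sw

open FamDefs_307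

variable {b : ℕ} {X Y : Type*} [NormedAddCommGroup X] [InnerProductSpace ℂ X]
  [CompleteSpace X] [NormedAddCommGroup Y] [InnerProductSpace ℂ Y] [CompleteSpace Y]
  {Φ : PFam b X Y} {T YR G : Type} [NormedAddCommGroup T] [NormedSpace ℝ T]
  [FiniteDimensional ℝ T] [NormedAddCommGroup YR] [NormedSpace ℝ YR]
  [NormedAddCommGroup G] [NormedSpace ℂ G]

/-- **the Seiberg-Witten data over the torus**: `K` compact, `Ec` the curvature equation. -/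
structure SWd (Φ : PFam b X Y) (K : T → X → Y) (Ec : T → X → YR) : Prop where
  K_cont : ContinuousOn (fun q : T × X => K q.1 q.2) {q | ‖q.1‖ ≤ 1}
  K_cpt : ∀ R : ℝ, ∃ C, IsCompact C ∧ ∀ t x, ‖t‖ ≤ 1 → ‖x‖ ≤ R → K t x ∈ C
  K_eq : ∀ t x (z : ℂ), ‖z‖ = 1 → K t (z • x) = z • K t x
  K_U : ∀ t k x, K t (Φ.U k x) = Φ.Th (zv k) (K t x)
  Ec_cont : ContinuousOn (fun q : T × X => Ec q.1 q.2) {q | ‖q.1‖ ≤ 1}
  Ec_eq : ∀ t x (z : ℂ), ‖z‖ = 1 → Ec t (z • x) = Ec t x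
  Ec_U : ∀ t k x, Ec t (Φ.U k x) = Ec t x
  bdd : ∃ R0 : ℝ, ∀ t h x, ‖t‖ ≤ 1 → h ∈ Icc (0 : Fin b → ℝ) 1 → Ec t x = 0 →
    Φ.D h x + K t x = 0 → ‖x‖ ≤ R0

namespace SWd

variable {K : T → X → Y} {Ec : T → X → YR}

theorem comp (hS : SWd Φ K Ec) {th : T → T} (hc : Continuous th)
    (hb : ∀ t, ‖t‖ ≤ 1 → ‖th t‖ ≤ 1) :
    SWd Φ (fun t => K (th t)) (fun t => Ec (th t)) where
  K_cont := hS.K_cont.comp (f := fun q : T × X => (th q.1, q.2))
    ((hc.comp continuous_fst).prodMk continuous_snd).continuousOn (fun q hq => hb _ hq)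
  K_cpt R := by
    obtain ⟨C, hC, h⟩ := hS.K_cpt R
    exact ⟨C, hC, fun t x ht hx => h _ _ (hb t ht) hx⟩
  K_eq t x z hz := hS.K_eq _ _ _ hz
  K_U t k x := hS.K_U _ _ _
  Ec_cont := hS.Ec_cont.comp (f := fun q : T × X => (th q.1, q.2))
    ((hc.comp continuous_fst).prodMk continuous_snd).continuousOn (fun q hq => hb _ hq)
  Ec_eq t x z hz := hS.Ec_eq _ _ _ hz
  Ec_U t k x := hS.Ec_U _ _ _
  bdd := by
    obtain ⟨R0, h⟩ := hS.bdd
    exact ⟨R0, fun t h' x ht hh h1 h2 => h _ _ _ (hb t ht) hh h1 h2⟩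

/-- a zero is moved to the cube. -/
theorem shift (hS : SWd Φ K Ec) {t : T} {h' : Fin b → ℝ} {k : Fin b → ℤ} {x : X}
    (h2 : Φ.D (h' + zv k) x + K t x = 0) : Φ.D h' (Φ.U (-k) x) + K t (Φ.U (-k) x) = 0 := by
  have h3 := Φ.D_U (h' + zv k) (-k) x
  rw [zv_neg, add_assoc, add_neg_cancel, add_zero] at h3
  rw [h3, hS.K_U, zv_neg, ← map_add, h2, map_zero]

/-- **the core data** of a Seiberg-Witten family; near `x = 0` the curvature equation is modified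
so that its value at `x = 0` is the given function `Lm`. -/
theorem exists_core (hS : SWd Φ K Ec) (Lm : T → YR) (hLm : ContinuousOn Lm {t | ‖t‖ ≤ 1})
    (hseg : ∀ t, ‖t‖ = 1 → ∀ s ∈ Icc (0 : ℝ) 1, (1 - s) • Ec t 0 + s • Lm t ≠ 0)
    (g : T → (Fin b → ℝ) → X → G)
    (hgc : ContinuousOn (fun q : T × (Fin b → ℝ) × X => g q.1 q.2.1 q.2.2) {q | ‖q.1‖ ≤ 1})
    (hge : ∀ t h x (z : ℂ), ‖z‖ = 1 → g t h (z • x) = z • g t h x)
    (hgU : ∀ t h k x, g t (h + zv k) (Φ.U k x) = g t h x) (v : G) (hv : v ≠ 0) (x0 : X) :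
    ∃ Γ : Core Φ T YR G, Γ.K = K ∧ Γ.g = g ∧ Γ.v = v ∧ (∀ t h, Γ.Ec t h 0 = Lm t) ∧
      (∀ t h x, ‖t‖ = 1 → Γ.Ec t h x = 0 → Ec t x = 0) ∧
      (x0 ≠ 0 → ∀ᶠ w in 𝓝 (((0 : Fin b → ℝ), x0) : (Fin b → ℝ) × X), ∀ t,
        Γ.Ec t w.1 w.2 = Ec t w.2) ∧
      (∀ t h x, ‖t‖ ≤ 1 → Ec t x = 0 → Φ.D h x + K t x = 0 → Γ.N h x < Γ.R1) := by
  obtain ⟨N, hNc, hN0, hNs, hNU, ⟨c, hc, hNl⟩, C, hC, hNu⟩ :=
    Φ.exists_N (isCompact_Icc (a := (-1 : Fin b → ℝ)) (b := 1))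
  obtain ⟨R0, hR0⟩ := hS.bdd
  have hcube : Icc (0 : Fin b → ℝ) 1 ⊆ Icc (-1) 1 := Icc_subset_Icc_left (by
    intro j; show (-1 : ℝ) ≤ 0; norm_num)
  set R1 : ℝ := C * max R0 0 + 1 with hR1
  have hR1pos : 0 < R1 := by positivity
  have hzero : ∀ t h x, ‖t‖ ≤ 1 → Ec t x = 0 → Φ.D h x + K t x = 0 → N h x < R1 := by
    intro t h x ht h1 h2
    obtain ⟨k, h', hh', rfl⟩ := exists_cube h
    have h3 := hS.shift h2
    have h4 : ‖Φ.U (-k) x‖ ≤ R0 := hR0 t h' _ ht hh' (by rw [hS.Ec_U, h1]) h3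
    have h5 : N (h' + zv k) x = N h' (Φ.U (-k) x) := by
      have := hNU h' k (Φ.U (-k) x)
      rwa [Φ.U_neg] at this
    rw [h5]
    have h6 := hNu h' (hcube hh') (Φ.U (-k) x)
    have h7 : C * ‖Φ.U (-k) x‖ ≤ C * max R0 0 :=
      mul_le_mul_of_nonneg_left (h4.trans (le_max_left _ _)) hC
    linarith
  -- the lower bound of the segment
  obtain ⟨m0, hm0, hm⟩ : ∃ m0 > 0, ∀ t, ‖t‖ = 1 → ∀ s ∈ Icc (0 : ℝ) 1,
      m0 ≤ ‖(1 - s) • Ec t 0 + s • Lm t‖ := by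
    have : ProperSpace T := FiniteDimensional.proper ℝ T
    have hcpt : IsCompact (Metric.sphere (0 : T) 1 ×ˢ Icc (0 : ℝ) 1) :=
      (isCompact_sphere _ _).prod isCompact_Icc
    have hcont : ContinuousOn (fun q : T × ℝ => ‖(1 - q.2) • Ec q.1 0 + q.2 • Lm q.1‖)
        (Metric.sphere (0 : T) 1 ×ˢ Icc (0 : ℝ) 1) := by
      have e1 : ContinuousOn (fun q : T × ℝ => Ec q.1 0)
          (Metric.sphere (0 : T) 1 ×ˢ Icc (0 : ℝ) 1) :=
        hS.Ec_cont.comp (f := fun q : T × ℝ => (q.1, (0 : X)))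
          (continuous_fst.prodMk continuous_const).continuousOn
          (fun q hq => (mem_sphere_zero_iff_norm.1 hq.1).le)
      have e2 : ContinuousOn (fun q : T × ℝ => Lm q.1)
          (Metric.sphere (0 : T) 1 ×ˢ Icc (0 : ℝ) 1) :=
        hLm.comp continuous_fst.continuousOn (fun q hq => (mem_sphere_zero_iff_norm.1 hq.1).le)
      exact (((continuous_const.sub continuous_snd).continuousOn.smul e1).add
        (continuous_snd.continuousOn.smul e2)).norm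
    rcases (Metric.sphere (0 : T) 1 ×ˢ Icc (0 : ℝ) 1).eq_empty_or_nonempty with hE | hE
    · refine ⟨1, one_pos, fun t ht s hs => ?_⟩
      have : (t, s) ∈ Metric.sphere (0 : T) 1 ×ˢ Icc (0 : ℝ) 1 :=
        ⟨mem_sphere_zero_iff_norm.2 ht, hs⟩
      rw [hE] at this
      exact this.elim
    · obtain ⟨q, hq, hmin⟩ := hcpt.exists_isMinOn hE hcont
      refine ⟨_, norm_pos_iff.2 (hseg q.1 (mem_sphere_zero_iff_norm.1 hq.1) q.2 hq.2),
        fun t ht s hs => hmin (⟨mem_sphere_zero_iff_norm.2 ht, hs⟩ :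
          (t, s) ∈ Metric.sphere (0 : T) 1 ×ˢ Icc (0 : ℝ) 1)⟩
  obtain ⟨δ, hδ, hδE⟩ : ∃ δ > 0, ∀ t x, ‖t‖ = 1 → ‖x‖ < δ → ‖Ec t x - Ec t 0‖ < m0 := by
    have : ProperSpace T := FiniteDimensional.proper ℝ T
    have h1 : ∀ᶠ x in 𝓝 (0 : X), ∀ t ∈ Metric.sphere (0 : T) 1, ‖Ec t x - Ec t 0‖ < m0 := by
      have h2 := (isCompact_sphere (0 : T) 1).eventually_forall_of_forall_eventually
        (x₀ := (0 : X)) (P := fun x t => ‖t‖ ≤ 1 → ‖Ec t x - Ec t 0‖ < m0) (fun t ht => by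
          have ht1 : ‖t‖ = 1 := mem_sphere_zero_iff_norm.1 ht
          have e1 : ContinuousWithinAt (fun q : T × X => Ec q.1 q.2) {q | ‖q.1‖ ≤ 1} (t, 0) :=
            hS.Ec_cont _ ht1.le
          have e2 : ContinuousWithinAt (fun q : T × X => Ec q.1 q.2 - Ec q.1 0)
              {q | ‖q.1‖ ≤ 1} (t, 0) := by
            have e3 : ContinuousOn (fun q : T × X => Ec q.1 0) {q | ‖q.1‖ ≤ 1} :=
              hS.Ec_cont.comp (f := fun q : T × X => (q.1, (0 : X)))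
                (continuous_fst.prodMk continuous_const).continuousOn (fun q hq => hq)
            exact e1.sub (e3 _ ht1.le)
          have e4 : ∀ᶠ q in 𝓝[{q : T × X | ‖q.1‖ ≤ 1}] (t, 0), ‖Ec q.1 q.2 - Ec q.1 0‖ < m0 := by
            refine e2.norm.eventually_lt_const ?_
            simpa using hm0
          rw [eventually_nhdsWithin_iff] at e4
          have e5 : Tendsto (fun z : X × T => (z.2, z.1)) (𝓝 (0, t)) (𝓝 (t, 0)) :=
            (continuous_snd.prodMk continuous_fst).tendsto _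
          exact e5.eventually e4)
      filter_upwards [h2] with x hx t ht
      exact hx t ht (mem_sphere_zero_iff_norm.1 ht).le
    obtain ⟨δ, hδ, hsub⟩ := Metric.eventually_nhds_iff.1 h1
    exact ⟨δ, hδ, fun t x ht hx => hsub (by rwa [dist_zero_right]) t
      (mem_sphere_zero_iff_norm.2 ht)⟩
  -- the cut radius
  set ρ : ℝ := min (min (c * δ) (R1 / 2)) (if 0 < N 0 x0 then N 0 x0 / 2 else 1) with hρdef
  have hρ : 0 < ρ := by
    refine lt_min (lt_min (by positivity) (by positivity)) ?_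
    split_ifs with h
    · linarith
    · exact one_pos
  have hρ1 : ρ ≤ c * δ := (min_le_left _ _).trans (min_le_left _ _)
  have hρ2 : ρ < R1 := ((min_le_left _ _).trans (min_le_right _ _)).trans_lt (by linarith)
  let cut : (Fin b → ℝ) → X → ℝ := fun h x => max 0 (1 - N h x / ρ)
  have hcut0 : ∀ h x, ρ ≤ N h x → cut h x = 0 := by
    intro h x hx
    refine max_eq_left ?_
    rw [sub_nonpos, le_div_iff₀ hρ]; linarith
  have hcut1 : ∀ h x, cut h x ∈ Icc (0 : ℝ) 1 := by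
    intro h x
    refine ⟨le_max_left _ _, max_le zero_le_one ?_⟩
    have := div_nonneg (hN0 h x) hρ.le
    linarith
  have hN00 : ∀ h, N h 0 = 0 := by
    intro h
    have := hNs h 0 0
    rwa [zero_smul, norm_zero, zero_mul] at this
  have hcutc : Continuous (fun q : (Fin b → ℝ) × X => cut q.1 q.2) :=
    continuous_const.max (continuous_const.sub (hNc.div_const ρ))
  refine ⟨{
    K := K
    Ec := fun t h x => Ec t x + cut h x • (Lm t - Ec t 0)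
    g := g
    N := N
    R1 := R1
    c := c
    v := v
    K_cont := hS.K_cont
    K_cpt := hS.K_cpt
    K_eq := hS.K_eq
    K_U := hS.K_U
    Ec_cont := ?_
    Ec_eq := ?_
    Ec_U := ?_
    g_cont := hgc
    g_eq := hge
    g_U := hgU
    N_cont := hNc
    N_nonneg := hN0
    N_smul := hNs
    N_U := hNU
    c_pos := hc
    N_low := hNl
    R1_pos := hR1pos
    v_ne := hv
    bd := ?_ }, rfl, rfl, rfl, ?_, ?_, ?_, ?_⟩
  · have e1 : ContinuousOn (fun q : T × (Fin b → ℝ) × X => Ec q.1 q.2.2) {q | ‖q.1‖ ≤ 1} :=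
      hS.Ec_cont.comp (f := fun q : T × (Fin b → ℝ) × X => (q.1, q.2.2))
        (continuous_fst.prodMk (continuous_snd.comp continuous_snd)).continuousOn
        (fun q hq => hq)
    have e2 : ContinuousOn (fun q : T × (Fin b → ℝ) × X => Ec q.1 0) {q | ‖q.1‖ ≤ 1} :=
      hS.Ec_cont.comp (f := fun q : T × (Fin b → ℝ) × X => (q.1, (0 : X)))
        (continuous_fst.prodMk continuous_const).continuousOn (fun q hq => hq)
    have e3 : ContinuousOn (fun q : T × (Fin b → ℝ) × X => Lm q.1) {q | ‖q.1‖ ≤ 1} :=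
      hLm.comp continuous_fst.continuousOn (fun q hq => hq)
    exact e1.add ((hcutc.comp continuous_snd).continuousOn.smul (e3.sub e2))
  · intro t h x z hz
    have : cut h (z • x) = cut h x := by
      show max 0 (1 - N h (z • x) / ρ) = _
      rw [hNs, hz, one_mul]
    show Ec t (z • x) + cut h (z • x) • (Lm t - Ec t 0) = _
    rw [this, hS.Ec_eq _ _ _ hz]
  · intro t h k x
    have : cut (h + zv k) (Φ.U k x) = cut h x := by
      show max 0 (1 - N (h + zv k) (Φ.U k x) / ρ) = _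
      rw [hNU]
    show Ec t (Φ.U k x) + cut (h + zv k) (Φ.U k x) • (Lm t - Ec t 0) = _
    rw [this, hS.Ec_U]
  · intro t h x ht hN h1 h2
    have h3 : cut h x = 0 := hcut0 h x (by rw [hN]; exact hρ2.le)
    have h4 : Ec t x + cut h x • (Lm t - Ec t 0) = 0 := h1
    rw [h3, zero_smul, add_zero] at h4
    have := hzero t h x ht h4 h2
    linarith
  · intro t h
    show Ec t 0 + cut h 0 • (Lm t - Ec t 0) = Lm t
    have : cut h 0 = 1 := by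
      show max 0 (1 - N h 0 / ρ) = 1
      rw [hN00]; simp
    rw [this, one_smul]
    abel
  · intro t h x ht h1
    have h1' : Ec t x + cut h x • (Lm t - Ec t 0) = 0 := h1
    by_cases hx : ρ ≤ N h x
    · rwa [hcut0 h x hx, zero_smul, add_zero] at h1'
    · exfalso
      push Not at hx
      obtain ⟨k, h', hh', rfl⟩ := exists_cube h
      have h5 : N (h' + zv k) x = N h' (Φ.U (-k) x) := by
        have := hNU h' k (Φ.U (-k) x)
        rwa [Φ.U_neg] at this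
      have h6 := hNl h' (hcube hh') (Φ.U (-k) x)
      have h7 : ‖Φ.U (-k) x‖ < δ := by
        have : c * ‖Φ.U (-k) x‖ < c * δ := by
          calc c * ‖Φ.U (-k) x‖ ≤ N h' (Φ.U (-k) x) := h6
            _ < ρ := by rw [← h5]; exact hx
            _ ≤ c * δ := hρ1
        exact lt_of_mul_lt_mul_left this hc.le
      have h8 := hδE t _ ht h7
      rw [hS.Ec_U] at h8
      have h9 := hm t ht _ (hcut1 (h' + zv k) x)
      set s := cut (h' + zv k) x with hs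
      have h10 : (1 - s) • Ec t 0 + s • Lm t = -(Ec t x - Ec t 0) := by
        have h11 : (1 - s) • Ec t 0 + s • Lm t + (Ec t x - Ec t 0) = 0 := by
          rw [← h1']
          rw [sub_smul, one_smul, smul_sub]
          abel
        exact eq_neg_of_add_eq_zero_left h11
      rw [h10, norm_neg] at h9
      linarith
  · intro hx0
    have hNx : 0 < N 0 x0 := by
      have h0 : (0 : Fin b → ℝ) ∈ Icc (-1 : Fin b → ℝ) 1 :=
        ⟨fun j => by show (-1 : ℝ) ≤ 0; norm_num, fun j => by show (0 : ℝ) ≤ 1; norm_num⟩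
      have := hNl 0 h0 x0
      have h2 : 0 < c * ‖x0‖ := mul_pos hc (norm_pos_iff.2 hx0)
      linarith
    have hρ3 : ρ < N 0 x0 := by
      have : ρ ≤ N 0 x0 / 2 := by
        refine (min_le_right _ _).trans ?_
        rw [if_pos hNx]
      linarith
    have hev : ∀ᶠ w in 𝓝 (((0 : Fin b → ℝ), x0) : (Fin b → ℝ) × X), ρ < N w.1 w.2 :=
      hNc.continuousAt.eventually_const_lt hρ3
    filter_upwards [hev] with w hw t
    show Ec t w.2 + cut w.1 w.2 • (Lm t - Ec t 0) = Ec t w.2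
    rw [hcut0 _ _ hw.le, zero_smul, add_zero]
  · exact hzero

end SWd

namespace Core

/-- no zeros over the boundary survive. -/
theorem nz (Γ : Core Φ T YR G) {s : Set (Fin b → ℝ)} (hs : IsClosed s)
    (hper : ∀ h k, h + zv k ∈ s → h ∈ s)
    (hno : ∀ t h x, ‖t‖ = 1 → h ∈ s → Γ.Ec t h x = 0 → Φ.D h x + Γ.K t x ≠ 0) :
    ∃ ε > 0, ∀ (W : Submodule ℂ Y) [FiniteDimensional ℂ W], Γ.Appr W ε →
      ∀ {n : ℕ} (fr : Φ.Fr W n) (t : T) (h : Fin b → ℝ) (ψ : EuclideanSpace ℂ (Fin n)),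
        ‖t‖ = 1 → h ∈ s → Γ.fR W fr (t, h, ψ) = 0 → Γ.fW W fr (t, h, ψ) ≠ 0 := by
  obtain ⟨εa, hεa, ha⟩ := Γ.low_bound (S0 := {q | Γ.N q.2.1 q.2.2 = Γ.R1})
    (isClosed_eq (Γ.N_cont.comp continuous_snd) continuous_const)
    (fun q hq h1 _ _ h4 => Γ.bd q.1 q.2.1 q.2.2 h1 hq h4)
  have ha' : ∀ t h x, ‖t‖ ≤ 1 → h ∈ QQ b → Γ.N h x = Γ.R1 → Γ.Ec t h x = 0 →
      εa ≤ ‖Φ.D h x + Γ.K t x‖ := fun t h x h1 h2 h3 h4 => ha (t, h, x) h3 h1 h2 h3.le h4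
  have hcl1 : IsClosed {q : T × (Fin b → ℝ) × X | ‖q.1‖ = 1} :=
    isClosed_eq continuous_fst.norm continuous_const
  have hcl2 : IsClosed {q : T × (Fin b → ℝ) × X | q.2.1 ∈ s} :=
    hs.preimage (continuous_fst.comp continuous_snd)
  obtain ⟨εb, hεb, hb⟩ := Γ.low_bound (hcl1.inter hcl2)
    (fun q hq _ _ _ h4 => hno q.1 q.2.1 q.2.2 hq.1 hq.2 h4)
  refine ⟨min εa εb, lt_min hεa hεb, fun W _ hW n fr t h ψ ht hh hfR hfW => ?_⟩
  have hWa : Γ.Appr W εa := fun t h x h1 h2 h3 => (hW t h x h1 h2 h3).trans_le (min_le_left _ _)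
  have hWb : Γ.Appr W εb := fun t h x h1 h2 h3 => (hW t h x h1 h2 h3).trans_le (min_le_right _ _)
  obtain ⟨k, h', hh', rfl⟩ := exists_cube' h
  rw [Γ.fR_per] at hfR
  rw [Γ.fW_per] at hfW
  have hQ' : h' ∈ QQ b := mem_QQ hh'
  obtain ⟨b1, b2, b3, b4⟩ := Γ.inside W fr hWa ha' ht.le hQ' hfR hfW
  have b5 : ‖Φ.D h' (xx W fr h' ψ) + Γ.K t (xx W fr h' ψ)‖ < εb := by
    have := Γ.small W fr hWb hQ' hfW
    rwa [cl_of_le ht.le, Γ.rr_of_le b1.le, Complex.ofReal_one, one_smul] at this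
  have := hb (t, h', xx W fr h' ψ) ⟨ht, hper h' k hh⟩ ht.le hQ' b1.le b2
  exact absurd b5 (not_lt.2 this)

/-- the choice of a good finite dimensional space. -/
theorem good (Γ : Core Φ T YR G) : ∃ ε > 0, ∀ t h x, ‖t‖ ≤ 1 → h ∈ QQ b → Γ.N h x = Γ.R1 →
    Γ.Ec t h x = 0 → ε ≤ ‖Φ.D h x + Γ.K t x‖ := by
  obtain ⟨εa, hεa, ha⟩ := Γ.low_bound (S0 := {q | Γ.N q.2.1 q.2.2 = Γ.R1})
    (isClosed_eq (Γ.N_cont.comp continuous_snd) continuous_const)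
    (fun q hq h1 _ _ h4 => Γ.bd q.1 q.2.1 q.2.2 h1 hq h4)
  exact ⟨εa, hεa, fun t h x h1 h2 h3 h4 => ha (t, h, x) h3 h1 h2 h3.le h4⟩

theorem Appr.mono {Γ : Core Φ T YR G} {W : Submodule ℂ Y} [FiniteDimensional ℂ W] {ε ε' : ℝ}
    (h : Γ.Appr W ε) (hle : ε ≤ ε') : Γ.Appr W ε' :=
  fun t h' x h1 h2 h3 => (h t h' x h1 h2 h3).trans_le hle

end Core

section hopf

open Hopf_143

/-- the periodic cut-off, `1` near the lattice. -/
noncomputable def kap (h : Fin b → ℝ) : ℝ := Real.smoothTransition (2 * cb 0 (1 / 4) h)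

/-- the functional over the torus. -/
noncomputable def gf (Φ : PFam b X Y) (g0 : E3 → X → C2) (t : E3) (h : Fin b → ℝ) (x : X) : C2 :=
  ((kap h : ℝ) : ℂ) • g0 t (Φ.U (kb 0 h) x)

theorem kap_cont : Continuous (kap : (Fin b → ℝ) → ℝ) :=
  Real.smoothTransition.continuous.comp (continuous_const.mul (cb_smooth 0 (1 / 4)).continuous)

theorem gf_cont {g0 : E3 → X → C2} (hg : Continuous (fun q : E3 × X => g0 q.1 q.2)) :
    Continuous (fun q : E3 × (Fin b → ℝ) × X => gf Φ g0 q.1 q.2.1 q.2.2) := by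
  have hd0 : (0 : ℝ) < 1 / 4 := by norm_num
  have hd1 : (1 / 4 : ℝ) < 1 / 2 := by norm_num
  have hh : Continuous (fun q : E3 × (Fin b → ℝ) × X => q.2.1) :=
    continuous_fst.comp continuous_snd
  rw [continuous_iff_continuousAt]
  intro q
  rcases bump_local hd0 hd1 0 q.2.1 with hk | hc
  · have h1 : ContinuousAt (fun q' : E3 × (Fin b → ℝ) × X =>
        ((kap q'.2.1 : ℝ) : ℂ) • g0 q'.1 (Φ.U (kb 0 q.2.1) q'.2.2)) q := by
      refine Continuous.continuousAt ?_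
      refine (Complex.continuous_ofReal.comp (kap_cont.comp hh)).smul ?_
      exact hg.comp (continuous_fst.prodMk ((Φ.U (kb 0 q.2.1)).continuous.comp
        (continuous_snd.comp continuous_snd)))
    refine h1.congr ?_
    filter_upwards [hh.continuousAt.eventually hk] with q' hq'
    simp only [gf, hq']
  · refine (continuousAt_const (y := (0 : C2))).congr ?_
    filter_upwards [hh.continuousAt.eventually hc] with q' hq'
    have : kap q'.2.1 = 0 := by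
      rw [kap, hq', mul_zero, Real.smoothTransition.zero]
    simp only [gf, this]
    simp

theorem gf_smul {g0 : E3 → X → C2} (hg : ∀ t x, ∀ z : ℂ, ‖z‖ = 1 → g0 t (z • x) = z • g0 t x)
    (t : E3) (h : Fin b → ℝ) (x : X) (z : ℂ) (hz : ‖z‖ = 1) :
    gf Φ g0 t h (z • x) = z • gf Φ g0 t h x := by
  unfold gf
  rw [map_smul, hg _ _ _ hz, smul_comm]

theorem gf_U (g0 : E3 → X → C2) (t : E3) (h : Fin b → ℝ) (k : Fin b → ℤ) (x : X) :
    gf Φ g0 t (h + zv k) (Φ.U k x) = gf Φ g0 t h x := by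
  unfold gf kap
  rw [cb_shift, kb_shift]
  have : Φ.U (kb 0 h) = (Φ.U (kb 0 h - k)).comp (Φ.U k) := by rw [← Φ.U_add, sub_add_cancel]
  rw [this]; rfl

theorem kap_near : ∀ᶠ h in 𝓝 (0 : Fin b → ℝ), kap h = 1 ∧ kb 0 h = 0 := by
  have hd0 : (0 : ℝ) < 1 / 4 := by norm_num
  have hd1 : (1 / 4 : ℝ) < 1 / 2 := by norm_num
  have h1 : ∀ᶠ h in 𝓝 (0 : Fin b → ℝ), 1 / 2 < cb 0 (1 / 4) h := by
    have hc := (cb_smooth (0 : Fin b → ℝ) (1 / 4)).continuous.continuousAt (x := 0)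
    refine hc.eventually_const_lt ?_
    rw [cb_one hd0 hd1]; norm_num
  have h2 : ∀ᶠ h in 𝓝 (0 : Fin b → ℝ), ∀ j, |h j - (0 : Fin b → ℝ) j| < 1 / 2 := by
    have : Metric.ball (0 : Fin b → ℝ) (1 / 2) ∈ 𝓝 0 := Metric.ball_mem_nhds _ (by norm_num)
    filter_upwards [this] with h hh j
    rw [Metric.mem_ball, dist_pi_lt_iff (by norm_num)] at hh
    have := hh j
    rwa [Real.dist_eq] at this
  filter_upwards [h1, h2] with h a1 a2
  exact ⟨Real.smoothTransition.one_of_one_le (by linarith), kb_zero a2⟩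

theorem gf_zero (g0 : E3 → X → C2) (t : E3) (x : X) : gf Φ g0 t 0 x = g0 t x := by
  have hd0 : (0 : ℝ) < 1 / 4 := by norm_num
  have hd1 : (1 / 4 : ℝ) < 1 / 2 := by norm_num
  unfold gf kap
  rw [cb_one hd0 hd1, kb_self, Φ.U_zero, Real.smoothTransition.one_of_one_le (by norm_num)]
  simp

/-- **the solutions over the boundary**, for the standard Hopf map, the family constant near the
base point. -/
structure HopfZ (Φ : PFam b X Y) (K : E3 → X → Y) (Ec : E3 → X → YR) (Ψ : C2 → X) : Prop where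
  cΨ : ContinuousOn Ψ (Metric.sphere 0 1)
  eqΨ : ∀ z : ℂ, ‖z‖ = 1 → ∀ s, ‖s‖ = 1 → Ψ (z • s) = z • Ψ s
  neΨ : ∀ s, ‖s‖ = 1 → Ψ s ≠ 0
  z0 : Ec (hopf s0) (Ψ s0) = 0 ∧ Φ.D 0 (Ψ s0) + K (hopf s0) (Ψ s0) = 0
  zz : ∀ t h x, ‖t‖ = 1 → Ec t x = 0 → Φ.D h x + K t x = 0 →
    ∃ s, ‖s‖ = 1 ∧ hopf s = t ∧ ∃ k, h = zv k ∧ x = Φ.U k (Ψ s)
  const : ∃ δ > 0, ∀ t, ‖t‖ = 1 → ‖t - hopf s0‖ < δ → ∀ x,
    Ec t x = Ec (hopf s0) x ∧ K t x = K (hopf s0) x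
  der : ∃ L : ((Fin b → ℝ) × X) →L[ℝ] YR × Y,
    HasFDerivAt (fun w : (Fin b → ℝ) × X =>
      (Ec (hopf s0) w.2, Φ.D w.1 w.2 + K (hopf s0) w.2)) L ((0 : Fin b → ℝ), Ψ s0) ∧
    (∀ w, L w = 0 → ∃ a : ℝ, w = (0, ((a : ℂ) * Complex.I) • Ψ s0)) ∧ ∀ z, ∃ w, L w = z

theorem below_of_bij {E F : Type*} [NormedAddCommGroup E] [NormedSpace ℝ E] [CompleteSpace E]
    [NormedAddCommGroup F] [NormedSpace ℝ F] [CompleteSpace F] (L : E →L[ℝ] F)
    (hL : Function.Bijective L) : ∃ c > 0, ∀ w, c * ‖w‖ ≤ ‖L w‖ := by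
  let e : E ≃L[ℝ] F := ContinuousLinearEquiv.ofBijective L
    (LinearMap.ker_eq_bot.2 hL.1) (LinearMap.range_eq_top.2 hL.2)
  have he : ∀ w, e w = L w := fun w => rfl
  refine ⟨(‖(e.symm : F →L[ℝ] E)‖ + 1)⁻¹, by positivity, fun w => ?_⟩
  have h1 : w = e.symm (L w) := by rw [← he, e.symm_apply_apply]
  have h2 : ‖w‖ ≤ ‖(e.symm : F →L[ℝ] E)‖ * ‖L w‖ := by
    conv_lhs => rw [h1]
    exact (e.symm : F →L[ℝ] E).le_opNorm (L w)
  rw [inv_mul_le_iff₀ (by positivity)]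
  nlinarith [norm_nonneg (L w)]

/-- the solution at the base point, as data of the core. -/
theorem SWd.exists_pt [FiniteDimensional ℝ YR] {K : E3 → X → Y} {Ec : E3 → X → YR} {Ψ : C2 → X}
    (hS : SWd Φ K Ec)
    (hZ : HopfZ Φ K Ec Ψ) (Lm : E3 → YR) (hLm : ContinuousOn Lm {t | ‖t‖ ≤ 1})
    (hseg : ∀ t, ‖t‖ = 1 → ∀ s ∈ Icc (0 : ℝ) 1, (1 - s) • Ec t 0 + s • Lm t ≠ 0) :
    ∃ Γ : Core Φ E3 YR C2, Γ.K = K ∧ Γ.v = s0 ∧ (∀ t h, Γ.Ec t h 0 = Lm t) ∧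
      (∀ t h x, ‖t‖ = 1 → Γ.Ec t h x = 0 → Ec t x = 0) ∧
      ∃ r0, Γ.Pt (hopf s0) (Ψ s0) r0 := by
  obtain ⟨g0, hgc, hge, hg1, hg2, δg, hδg, hg3⟩ := exists_g Ψ hZ.cΨ hZ.eqΨ hZ.neΨ
  have hx0 : Ψ s0 ≠ 0 := hZ.neΨ s0 norm_s0
  have hs0 : (s0 : C2) ≠ 0 := by
    intro h
    have := norm_s0
    rw [h, norm_zero] at this
    norm_num at this
  obtain ⟨Γ, hK, hg, hv, hEc0, hEc1, hEc2, hin⟩ := hS.exists_core Lm hLm hseg (gf Φ g0)
    (gf_cont hgc).continuousOn (gf_smul hge) (gf_U g0) s0 hs0 (Ψ s0)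
  have hEc2 := hEc2 hx0
  refine ⟨Γ, hK, hv, hEc0, hEc1, 2 * ‖Ψ s0‖ ^ 2, ?_⟩
  have hr0 : 0 < 2 * ‖Ψ s0‖ ^ 2 := by
    have := norm_pos_iff.2 hx0
    positivity
  obtain ⟨δ, hδ, hconst⟩ := hZ.const
  obtain ⟨L, hL, hk, hs⟩ := hZ.der
  set x0 := Ψ s0 with hx0def
  have hpos : 0 < 1 + 2 * ‖x0‖ ^ 2 := by linarith
  set p : E3 × ((Fin b → ℝ) × X) := ((1 + 2 * ‖x0‖ ^ 2) • hopf s0, ((0 : Fin b → ℝ), x0))
    with hp
  have hn0 : ‖hopf s0‖ = 1 := norm_hopf_s0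
  -- near `p` the direction is near the base point
  have hbar : ∀ᶠ q : E3 × ((Fin b → ℝ) × X) in 𝓝 p, ‖‖q.1‖⁻¹ • q.1‖ = 1 ∧
      ‖‖q.1‖⁻¹ • q.1 - hopf s0‖ < min δ δg := by
    have hpne : p.1 ≠ 0 := by
      show (1 + 2 * ‖x0‖ ^ 2) • hopf s0 ≠ 0
      intro h
      have := congrArg norm h
      rw [norm_smul, hn0, norm_zero, Real.norm_eq_abs, abs_of_pos hpos, mul_one] at this
      linarith
    have h1 : ∀ᶠ q : E3 × ((Fin b → ℝ) × X) in 𝓝 p, q.1 ≠ 0 :=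
      continuous_fst.continuousAt.eventually_ne hpne
    have h2 : ContinuousAt (fun q : E3 × ((Fin b → ℝ) × X) => ‖‖q.1‖⁻¹ • q.1 - hopf s0‖) p := by
      refine ContinuousAt.norm (ContinuousAt.sub (ContinuousAt.smul
        (ContinuousAt.inv₀ continuous_fst.norm.continuousAt (norm_ne_zero_iff.2 hpne))
        continuous_fst.continuousAt) continuousAt_const)
    have h3 : ‖‖p.1‖⁻¹ • p.1 - hopf s0‖ = 0 := by
      have : ‖p.1‖⁻¹ • p.1 = hopf s0 := Core.norm_inv_smul hn0 hpos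
      rw [this, sub_self, norm_zero]
    have h4 : ∀ᶠ q : E3 × ((Fin b → ℝ) × X) in 𝓝 p,
        ‖‖q.1‖⁻¹ • q.1 - hopf s0‖ < min δ δg := by
      refine h2.eventually_lt_const ?_
      show ‖‖p.1‖⁻¹ • p.1 - hopf s0‖ < min δ δg
      rw [h3]; exact lt_min hδ hδg
    filter_upwards [h1, h4] with q a1 a2
    refine ⟨?_, a2⟩
    rw [norm_smul, norm_inv, norm_norm, inv_mul_cancel₀ (norm_ne_zero_iff.2 a1)]
  -- the derivative of the equations
  set Fc : E3 × ((Fin b → ℝ) × X) → YR × Y := fun q =>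
    (Γ.Ec (‖q.1‖⁻¹ • q.1) q.2.1 q.2.2, Φ.D q.2.1 q.2.2 + Γ.K (‖q.1‖⁻¹ • q.1) q.2.2) with hFc
  have hFcd : HasFDerivAt Fc (L.comp (ContinuousLinearMap.snd ℝ E3 ((Fin b → ℝ) × X))) p := by
    have h1 : HasFDerivAt (fun q : E3 × ((Fin b → ℝ) × X) =>
        (Ec (hopf s0) q.2.2, Φ.D q.2.1 q.2.2 + K (hopf s0) q.2.2))
        (L.comp (ContinuousLinearMap.snd ℝ E3 ((Fin b → ℝ) × X))) p :=
      HasFDerivAt.comp (g := fun w : (Fin b → ℝ) × X =>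
        (Ec (hopf s0) w.2, Φ.D w.1 w.2 + K (hopf s0) w.2)) p hL hasFDerivAt_snd
    refine h1.congr_of_eventuallyEq ?_
    have h2 : ∀ᶠ q : E3 × ((Fin b → ℝ) × X) in 𝓝 p, ∀ t, Γ.Ec t q.2.1 q.2.2 = Ec t q.2.2 :=
      (continuous_snd.tendsto p).eventually hEc2
    filter_upwards [hbar, h2] with q hq1 hq2
    have h3 := hconst _ hq1.1 (hq1.2.trans_le (min_le_left _ _)) q.2.2
    show (Γ.Ec (‖q.1‖⁻¹ • q.1) q.2.1 q.2.2, Φ.D q.2.1 q.2.2 + Γ.K (‖q.1‖⁻¹ • q.1) q.2.2) = _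
    rw [hq2, hK, h3.1, h3.2]
  have hrad : (L.comp (ContinuousLinearMap.snd ℝ E3 ((Fin b → ℝ) × X))) (hopf s0, 0) = 0 := by
    show L 0 = 0
    exact map_zero L
  have hker : (L.comp (ContinuousLinearMap.snd ℝ E3 ((Fin b → ℝ) × X)))
      (0, ((0 : Fin b → ℝ), Complex.I • x0)) = 0 := by
    show L ((0 : Fin b → ℝ), Complex.I • x0) = 0
    -- the orbit
    have hc : HasDerivAt (fun a : ℝ => Complex.exp ((a : ℂ) * Complex.I) • x0)
        ((Complex.exp ((0 : ℝ) * Complex.I) * Complex.I) • x0) 0 := by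
      have h1 : HasDerivAt (fun a : ℝ => (a : ℂ) * Complex.I) Complex.I 0 := by
        simpa using (Complex.ofRealCLM.hasDerivAt (x := (0 : ℝ))).mul_const Complex.I
      have h2 := h1.cexp
      exact h2.smul_const x0
    have hc' : HasDerivAt (fun a : ℝ => (((0 : Fin b → ℝ), Complex.exp ((a : ℂ) * Complex.I) • x0) :
        (Fin b → ℝ) × X)) ((0 : Fin b → ℝ), Complex.I • x0) 0 := by
      have h3 := (hasDerivAt_const (0 : ℝ) (0 : Fin b → ℝ)).prodMk hc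
      simpa using h3
    have h4 : (fun a : ℝ => (((0 : Fin b → ℝ), Complex.exp ((a : ℂ) * Complex.I) • x0) :
        (Fin b → ℝ) × X)) 0 = ((0 : Fin b → ℝ), x0) := by simp
    rw [← h4] at hL
    have h5 := hL.comp_hasDerivAt (0 : ℝ) hc'
    have h6 : ((fun w : (Fin b → ℝ) × X =>
        (Ec (hopf s0) w.2, Φ.D w.1 w.2 + K (hopf s0) w.2)) ∘
        fun a : ℝ => (((0 : Fin b → ℝ), Complex.exp ((a : ℂ) * Complex.I) • x0) :
        (Fin b → ℝ) × X)) = fun _ => 0 := by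
      funext a
      have hz : ‖Complex.exp ((a : ℂ) * Complex.I)‖ = 1 := Complex.norm_exp_ofReal_mul_I a
      show (Ec (hopf s0) (Complex.exp ((a : ℂ) * Complex.I) • x0),
        Φ.D 0 (Complex.exp ((a : ℂ) * Complex.I) • x0) +
          K (hopf s0) (Complex.exp ((a : ℂ) * Complex.I) • x0)) = 0
      rw [hS.Ec_eq _ _ _ hz, hS.K_eq _ _ _ hz, map_smul, ← smul_add, hZ.z0.1, hZ.z0.2, smul_zero]
      rfl
    rw [h6] at h5
    exact (h5.unique (hasDerivAt_const _ _))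
  -- the functional near `p`
  set Gf : E3 × ((Fin b → ℝ) × X) → C2 := fun q => Γ.g (‖q.1‖⁻¹ • q.1) q.2.1 q.2.2 with hGfdef
  have hGf : ∀ᶠ q in 𝓝 p, Gf q = inner ℂ x0 q.2.2 • sig (‖q.1‖⁻¹ • q.1) := by
    have hh : Continuous (fun q : E3 × ((Fin b → ℝ) × X) => q.2.1) :=
      continuous_fst.comp continuous_snd
    filter_upwards [hbar, (hh.tendsto p).eventually kap_near] with q hq1 hq2
    show Γ.g (‖q.1‖⁻¹ • q.1) q.2.1 q.2.2 = _
    rw [hg]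
    show ((kap q.2.1 : ℝ) : ℂ) • g0 (‖q.1‖⁻¹ • q.1) (Φ.U (kb 0 q.2.1) q.2.2) = _
    rw [hq2.1, hq2.2, Φ.U_zero, Complex.ofReal_one, one_smul]
    exact hg3 _ hq1.1 (hq1.2.trans_le (min_le_right _ _)) _
  obtain ⟨L', hL', hbij, hGp⟩ := nondeg x0 hx0 (0 : Fin b → ℝ) (2 * ‖x0‖ ^ 2) rfl Fc _ hFcd hrad
    hker (fun w hw => hk w hw) (fun z => hs z) Gf hGf
  have hbar0 : ‖p.1‖⁻¹ • p.1 = hopf s0 := Core.norm_inv_smul hn0 hpos
  refine {
    t0_norm := hn0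
    r0_pos := hr0
    zero1 := ?_
    zero2 := ?_
    g0 := ?_
    inside := hin _ _ _ hn0.le hZ.z0.1 hZ.z0.2
    uniq := ?_
    der := ⟨L', ?_, below_of_bij L' hbij⟩ }
  · have := hEc2.self_of_nhds (hopf s0)
    rw [this]
    exact hZ.z0.1
  · rw [hK]
    exact hZ.z0.2
  · have h1 : Gf p = Γ.g (hopf s0) 0 x0 := by
      show Γ.g (‖p.1‖⁻¹ • p.1) 0 x0 = _
      rw [hbar0]
    rw [← h1, hv]
    exact hGp
  · intro t h x s ht hs' hN h1 h2 h3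
    obtain ⟨s', hs1, hs2, k, hk1, hk2⟩ := hZ.zz t h x ht (hEc1 t h x ht h1) (by rwa [hK] at h2)
    rw [hg, hv, hk1, hk2] at h3
    have h4 : gf Φ g0 t (zv k) (Φ.U k (Ψ s')) = g0 t (Ψ s') := by
      have := gf_U g0 t 0 k (Ψ s') (Φ := Φ)
      rw [zero_add] at this
      rw [this, gf_zero]
    rw [h4, ← hs2] at h3
    have h5 := hg2 s' hs1 s hs' h3
    subst h5
    exact ⟨hs2.symm, k, hk1, hk2⟩
  · have h1 : Γ.FF = fun q => (Fc q, Gf q - ((‖q.1‖ - 1 : ℝ) : ℂ) • s0) := by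
      funext q
      simp only [Core.FF, hv, hFc, hGfdef]
    rw [h1]
    exact hL'

/-- **the solutions over the boundary**, abstract (continuous) Hopf map `pi`. -/
structure HopfP (Φ : PFam b X Y) (K : E3 → X → Y) (Ec : E3 → X → YR) (pi : C2 → E3)
    (Ψ : C2 → X) : Prop where
  cpi : ContinuousOn pi (Metric.sphere 0 1)
  npi : ∀ s, ‖s‖ = 1 → ‖pi s‖ = 1
  piz : ∀ z : ℂ, ‖z‖ = 1 → ∀ s, ‖s‖ = 1 → pi (z • s) = pi s
  fib : ∀ s s', ‖s‖ = 1 → ‖s'‖ = 1 → pi s = pi s' → ∃ z : ℂ, ‖z‖ = 1 ∧ s' = z • s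
  cΨ : ContinuousOn Ψ (Metric.sphere 0 1)
  eqΨ : ∀ z : ℂ, ‖z‖ = 1 → ∀ s, ‖s‖ = 1 → Ψ (z • s) = z • Ψ s
  neΨ : ∀ s, ‖s‖ = 1 → Ψ s ≠ 0
  z0 : Ec (pi s0) (Ψ s0) = 0 ∧ Φ.D 0 (Ψ s0) + K (pi s0) (Ψ s0) = 0
  zz : ∀ t h x, ‖t‖ = 1 → Ec t x = 0 → Φ.D h x + K t x = 0 →
    ∃ s, ‖s‖ = 1 ∧ pi s = t ∧ ∃ k, h = zv k ∧ x = Φ.U k (Ψ s)
  der : ∃ L : ((Fin b → ℝ) × X) →L[ℝ] YR × Y,
    HasFDerivAt (fun w : (Fin b → ℝ) × X =>
      (Ec (pi s0) w.2, Φ.D w.1 w.2 + K (pi s0) w.2)) L ((0 : Fin b → ℝ), Ψ s0) ∧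
    (∀ w, L w = 0 → ∃ a : ℝ, w = (0, ((a : ℂ) * Complex.I) • Ψ s0)) ∧ ∀ z, ∃ w, L w = z

open FamE_151 in
/-- the frozen family. -/
theorem HopfP.toZ {K : E3 → X → Y} {Ec : E3 → X → YR} {pi : C2 → E3} {Ψ : C2 → X}
    (hP : HopfP Φ K Ec pi Ψ) {δ : ℝ} (hδ : 0 < δ) (hδ1 : δ < 1) {th : E3 → E3}
    (h1 : ∀ t, ‖t‖ = 1 → ‖th t‖ = 1) (h2 : ∀ s, ‖s‖ = 1 → th (hopf s) = pi (ph δ s))
    (h3 : ∃ η > 0, ∀ t, ‖t‖ = 1 → ‖t - hopf s0‖ < η → th t = pi s0) :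
    HopfZ Φ (fun t => K (th t)) (fun t => Ec (th t)) (fun s => Ψ (ph δ s)) := by
  have hph0 : ∃ z : ℂ, ‖z‖ = 1 ∧ ph δ s0 = z • s0 :=
    ph_near hδ hδ1 norm_s0 (by rw [s0_1, norm_zero]; simpa using hδ.le)
  have hphs : ph δ s0 = s0 := by
    have hn : nn δ s0 = s0 := by
      refine Hopf_143.ext2 rfl ?_
      show (mu δ s0 : ℂ) * s0 1 = s0 1
      rw [s0_1, mul_zero]
    unfold ph
    rw [hn, norm_s0]; simp
  have hth0 : th (hopf s0) = pi s0 := by rw [h2 s0 norm_s0, hphs]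
  refine {
    cΨ := hP.cΨ.comp (continuousOn_ph hδ hδ1) (fun s hs => ?_)
    eqΨ := fun z hz s hs => ?_
    neΨ := fun s hs => hP.neΨ _ (norm_ph hδ hδ1 hs)
    z0 := ?_
    zz := ?_
    const := ?_
    der := ?_ }
  · rw [mem_sphere_zero_iff_norm] at hs ⊢
    exact norm_ph hδ hδ1 hs
  · show Ψ (ph δ (z • s)) = z • Ψ (ph δ s)
    rw [ph_smul hz, hP.eqΨ z hz _ (norm_ph hδ hδ1 hs)]
  · show Ec (th (hopf s0)) (Ψ (ph δ s0)) = 0 ∧
      Φ.D 0 (Ψ (ph δ s0)) + K (th (hopf s0)) (Ψ (ph δ s0)) = 0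
    rw [hth0, hphs]
    exact hP.z0
  · intro t h x ht e1 e2
    obtain ⟨s, hs, hs2, k, hk1, hk2⟩ := hP.zz (th t) h x (h1 t ht) e1 e2
    obtain ⟨s1, hs1, hs3⟩ := hopf_surj ht
    have e3 : pi (ph δ s1) = pi s := by rw [← h2 s1 hs1, hs3, hs2]
    obtain ⟨z, hz, hz2⟩ := hP.fib _ _ (norm_ph hδ hδ1 hs1) hs e3
    refine ⟨z • s1, by rw [norm_smul, hz, hs1, one_mul], ?_, k, hk1, ?_⟩
    · rw [hopf_smul, hz, one_pow, one_smul, hs3]
    · show x = Φ.U k (Ψ (ph δ (z • s1)))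
      rw [ph_smul hz, ← hz2, hk2]
  · obtain ⟨η, hη, h4⟩ := h3
    refine ⟨η, hη, fun t ht hd x => ?_⟩
    show Ec (th t) x = Ec (th (hopf s0)) x ∧ K (th t) x = K (th (hopf s0)) x
    rw [h4 t ht hd, hth0]
    exact ⟨rfl, rfl⟩
  · show ∃ L : ((Fin b → ℝ) × X) →L[ℝ] YR × Y,
      HasFDerivAt (fun w : (Fin b → ℝ) × X =>
        (Ec (th (hopf s0)) w.2, Φ.D w.1 w.2 + K (th (hopf s0)) w.2)) L
        ((0 : Fin b → ℝ), Ψ (ph δ s0)) ∧
      (∀ w, L w = 0 → ∃ a : ℝ, w = (0, ((a : ℂ) * Complex.I) • Ψ (ph δ s0))) ∧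
      ∀ z, ∃ w, L w = z
    rw [hth0, hphs]
    exact hP.der

/-- **SWJ**: a Seiberg-Witten family over the torus with no reducible solutions and the Hopf
family of solutions over the boundary has the wrong index. -/
theorem swj [FiniteDimensional ℝ YR] {K : E3 → X → Y} {Ec : E3 → X → YR} {pi : C2 → E3}
    {Ψ : C2 → X} (hS : SWd Φ K Ec) (hP : HopfP Φ K Ec pi Ψ)
    (hfix : ∀ t, ‖t‖ ≤ 1 → Ec t 0 ≠ 0)
    (hdim : b + 2 * finrank ℂ (LinearMap.ker (Φ.D 0 : X →ₗ[ℂ] Y)) =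
      finrank ℝ YR + 1 + 2 * finrank ℂ ((LinearMap.range (Φ.D 0 : X →ₗ[ℂ] Y))ᗮ : Submodule ℂ Y)) :
    False := by
  have hδ : (0 : ℝ) < 1 / 4 := by norm_num
  have hδ1 : (1 / 4 : ℝ) < 1 := by norm_num
  obtain ⟨th, thc, th1, th2, th3, th4, th5⟩ := FamE_151.exists_theta hP.cpi hP.npi hP.piz hδ hδ1
  have hS' := hS.comp thc th1
  have hZ := hP.toZ hδ hδ1 th2 th3 th5
  have hLm : ContinuousOn (fun t : E3 => Ec (th t) 0) {t | ‖t‖ ≤ 1} :=
    hS'.Ec_cont.comp (f := fun t : E3 => (t, (0 : X)))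
      (continuous_id.prodMk continuous_const).continuousOn (fun t ht => ht)
  obtain ⟨Γ, hK, hv, hE0, hE1, r0, hpt⟩ := hS'.exists_pt hZ (fun t => Ec (th t) 0) hLm (by
    intro t ht s hs
    have e1 : (1 - s) • Ec (th t) 0 + s • Ec (th t) 0 = Ec (th t) 0 := by
      rw [← add_smul]; simp
    rw [e1]
    exact hfix _ (th1 t ht.le))
  obtain ⟨ε1, hε1, hone⟩ := Γ.one_ray hpt
  obtain ⟨ε2, hε2, hgood⟩ := Γ.good
  obtain ⟨W, hWf, hWs, hWK, hWA⟩ := Γ.exists_W (min ε1 ε2) (lt_min hε1 hε2)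
    (Γ.K (hopf s0) (Ψ (FamE_151.ph (1 / 4) s0)))
  obtain ⟨n, ⟨fr⟩⟩ := Φ.exists_Fr W hWs
  obtain ⟨R, hR⟩ := Γ.rsys W fr (hWA.mono (min_le_right _ _)) hgood
  obtain ⟨t0, h0, ψ0, r, L, a1, a2, a3, a4, a5, a6, a7, a8⟩ :=
    hone W hWK (hWA.mono (min_le_left _ _)) fr
  have hnc := Φ.kn_finrank W hWs 0
  refine FdJ_778.fdj fr.P hR.proj.smooth hR.proj.per hR.proj.idem hR.proj.rank ?_ _ _ hR.cR hR.cC
    hR.eqR hR.eqC hR.pR hR.pC _ hR.vne R ?_ ?_ t0 h0 ψ0 r a1 a3 a2 a4 a5 ?_ L a7 a8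
  · have e1 : finrank ℂ (EuclideanSpace ℂ (Fin (finrank ℂ W)) × C2) = finrank ℂ W + 2 := by
      rw [Module.finrank_prod, finrank_euclideanSpace_fin, finrank_euclideanSpace_fin]
    have e2 : finrank ℝ E3 = 3 := finrank_euclideanSpace_fin
    rw [e1, e2]
    omega
  · rintro t h ψ ht hψ e1 e2 rfl
    have e3 : Γ.fR W fr (t, h, 0) = Ec (th t) 0 := by
      show Γ.Ec (cl t) h (((Γ.rr h (Core.xx W fr h 0) : ℝ) : ℂ) • Core.xx W fr h 0) = _
      have e4 : Core.xx W fr h 0 = 0 := by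
        rw [Core.xx, map_zero]; rfl
      rw [e4, smul_zero, hE0, cl_of_le ht]
    rw [e3] at e1
    exact hfix _ (th1 t ht) e1
  · intro t h ψ s ht hψ hRψ hs e1
    exact hR.big t h ψ ht hψ hRψ e1 s hs
  · intro t h ψ s ht hψ hs e1 e2
    exact a6 t h ψ s ht hψ hs e1 e2

end hopf

end sw

end Crest.Agent.R235.FamR_151
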