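import Mathlib

/-!
# R235, block FAM / reduction over the torus (helper143 for helper151): the Hopf geometry at `|t| = 1`

* `exists_g` : the `ℂ²`-valued equivariant functional built from the solutions `Ψ s`, `s ∈ S³`
* `nondeg`   : invertibility of the derivative at the point `((1 + r₀) t₀, v₀, x₀)`
-/

set_option autoImplicit false

open Set Filter Topology
open scoped ComplexConjugate

noncomputable section

namespace Crest.Agent.R235.Hopf_143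

abbrev E3 := EuclideanSpace ℝ (Fin 3)
abbrev C2 := EuclideanSpace ℂ (Fin 2)

/-- Hopf map (|hopf s| = |s|^2) -/
noncomputable def hopf (s : C2) : E3 :=
  WithLp.toLp 2 ![‖s 0‖ ^ 2 - ‖s 1‖ ^ 2, 2 * (s 0 * star (s 1)).re, 2 * (s 0 * star (s 1)).im]

noncomputable def s0 : C2 := WithLp.toLp 2 ![1, 0]

/-- = (1 + t_0, t_1 - i t_2); for |s| = 1, sig (hopf s) = 2 * star (s 0) * s -/
noncomputable def sig (t : E3) : C2 :=
  WithLp.toLp 2 ![(1 : ℂ) + (t 0 : ℂ), (t 1 : ℂ) - Complex.I * (t 2 : ℂ)]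

/-- = (t_1 + i t_2, 1 - t_0); for |s| = 1, sig' (hopf s) = 2 * star (s 1) * s -/
noncomputable def sig' (t : E3) : C2 :=
  WithLp.toLp 2 ![(t 1 : ℂ) + Complex.I * (t 2 : ℂ), (1 : ℂ) - (t 0 : ℂ)]

theorem ext2 {x y : C2} (h0 : x 0 = y 0) (h1 : x 1 = y 1) : x = y := by
  ext i
  fin_cases i
  · exact h0
  · exact h1

theorem ext3 {x y : E3} (h0 : x 0 = y 0) (h1 : x 1 = y 1) (h2 : x 2 = y 2) : x = y := by
  ext i
  fin_cases i
  · exact h0
  · exact h1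
  · exact h2

@[simp] theorem hopf_0 (s : C2) : hopf s 0 = ‖s 0‖ ^ 2 - ‖s 1‖ ^ 2 := rfl
@[simp] theorem hopf_1 (s : C2) : hopf s 1 = 2 * (s 0 * star (s 1)).re := rfl
@[simp] theorem hopf_2 (s : C2) : hopf s 2 = 2 * (s 0 * star (s 1)).im := rfl
@[simp] theorem s0_0 : s0 0 = 1 := rfl
@[simp] theorem s0_1 : s0 1 = 0 := rfl
@[simp] theorem sig_0 (t : E3) : sig t 0 = (1 : ℂ) + (t 0 : ℂ) := rfl
@[simp] theorem sig_1 (t : E3) : sig t 1 = (t 1 : ℂ) - Complex.I * (t 2 : ℂ) := rfl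
@[simp] theorem sig'_0 (t : E3) : sig' t 0 = (t 1 : ℂ) + Complex.I * (t 2 : ℂ) := rfl
@[simp] theorem sig'_1 (t : E3) : sig' t 1 = (1 : ℂ) - (t 0 : ℂ) := rfl

theorem norm_sq2 (s : C2) : ‖s‖ ^ 2 = ‖s 0‖ ^ 2 + ‖s 1‖ ^ 2 := by
  rw [EuclideanSpace.norm_sq_eq, Fin.sum_univ_two]

theorem norm_sq3 (t : E3) : ‖t‖ ^ 2 = t 0 ^ 2 + t 1 ^ 2 + t 2 ^ 2 := by
  rw [EuclideanSpace.norm_sq_eq, Fin.sum_univ_three]
  simp [sq_abs]

theorem norm_s0 : ‖s0‖ = 1 := by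
  have h := norm_sq2 s0
  rw [s0_0, s0_1, norm_one, norm_zero] at h
  nlinarith [norm_nonneg s0]

theorem continuous_hopf : Continuous hopf := by
  unfold hopf
  refine (PiLp.continuous_toLp 2 _).comp (continuous_pi fun i => ?_)
  fin_cases i
  · show Continuous fun s : C2 => ‖s 0‖ ^ 2 - ‖s 1‖ ^ 2
    fun_prop
  · show Continuous fun s : C2 => 2 * (s 0 * star (s 1)).re
    fun_prop
  · show Continuous fun s : C2 => 2 * (s 0 * star (s 1)).im
    fun_prop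

theorem continuous_sig : Continuous sig := by
  unfold sig
  refine (PiLp.continuous_toLp 2 _).comp (continuous_pi fun i => ?_)
  fin_cases i
  · show Continuous fun t : E3 => (1 : ℂ) + (t 0 : ℂ)
    fun_prop
  · show Continuous fun t : E3 => (t 1 : ℂ) - Complex.I * (t 2 : ℂ)
    fun_prop

theorem continuous_sig' : Continuous sig' := by
  unfold sig'
  refine (PiLp.continuous_toLp 2 _).comp (continuous_pi fun i => ?_)
  fin_cases i
  · show Continuous fun t : E3 => (t 1 : ℂ) + Complex.I * (t 2 : ℂ)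
    fun_prop
  · show Continuous fun t : E3 => (1 : ℂ) - (t 0 : ℂ)
    fun_prop

theorem mul_conj_norm (z : ℂ) : z * conj z = ((‖z‖ ^ 2 : ℝ) : ℂ) := by
  rw [Complex.mul_conj, Complex.normSq_eq_norm_sq]

theorem sig_hopf {s : C2} (hs : ‖s‖ = 1) : sig (hopf s) = (2 * conj (s 0)) • s := by
  have h := norm_sq2 s
  rw [hs, one_pow] at h
  refine ext2 ?_ ?_
  · show (1 : ℂ) + ((‖s 0‖ ^ 2 - ‖s 1‖ ^ 2 : ℝ) : ℂ) = 2 * conj (s 0) * s 0
    have h1 : (1 : ℂ) = ((‖s 0‖ ^ 2 + ‖s 1‖ ^ 2 : ℝ) : ℂ) := by rw [← h]; simp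
    have h2 : 2 * conj (s 0) * s 0 = 2 * (s 0 * conj (s 0)) := by ring
    rw [h2, mul_conj_norm, h1]
    push_cast
    ring
  · show ((2 * (s 0 * star (s 1)).re : ℝ) : ℂ) - Complex.I * ((2 * (s 0 * star (s 1)).im : ℝ) : ℂ)
      = 2 * conj (s 0) * s 1
    have h2 : 2 * conj (s 0) * s 1 = 2 * conj (s 0 * star (s 1)) := by
      simp only [map_mul, Complex.star_def, Complex.conj_conj]
      ring
    rw [h2]
    (apply Complex.ext <;> simp); ring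

theorem sig'_hopf {s : C2} (hs : ‖s‖ = 1) : sig' (hopf s) = (2 * conj (s 1)) • s := by
  have h := norm_sq2 s
  rw [hs, one_pow] at h
  refine ext2 ?_ ?_
  · show ((2 * (s 0 * star (s 1)).re : ℝ) : ℂ) + Complex.I * ((2 * (s 0 * star (s 1)).im : ℝ) : ℂ)
      = 2 * conj (s 1) * s 0
    have h2 : 2 * conj (s 1) * s 0 = 2 * (s 0 * star (s 1)) := by
      simp only [Complex.star_def]
      ring
    rw [h2]
    apply Complex.ext <;> simp
  · show (1 : ℂ) - ((‖s 0‖ ^ 2 - ‖s 1‖ ^ 2 : ℝ) : ℂ) = 2 * conj (s 1) * s 1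
    have h1 : (1 : ℂ) = ((‖s 0‖ ^ 2 + ‖s 1‖ ^ 2 : ℝ) : ℂ) := by rw [← h]; simp
    have h2 : 2 * conj (s 1) * s 1 = 2 * (s 1 * conj (s 1)) := by ring
    rw [h2, mul_conj_norm, h1]
    push_cast
    ring

theorem hopf_smul (c : ℂ) (s : C2) : hopf (c • s) = (‖c‖ ^ 2) • hopf s := by
  have hc := mul_conj_norm c
  have key : (c • s) 0 * star ((c • s) 1) = ((‖c‖ ^ 2 : ℝ) : ℂ) * (s 0 * star (s 1)) := by
    show (c * s 0) * star (c * s 1) = _
    rw [star_mul', ← hc]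
    simp only [Complex.star_def]
    ring
  refine ext3 ?_ ?_ ?_
  · show ‖c * s 0‖ ^ 2 - ‖c * s 1‖ ^ 2 = ‖c‖ ^ 2 * (‖s 0‖ ^ 2 - ‖s 1‖ ^ 2)
    rw [norm_mul, norm_mul]
    ring
  · show 2 * ((c • s) 0 * star ((c • s) 1)).re = ‖c‖ ^ 2 * (2 * (s 0 * star (s 1)).re)
    rw [key, Complex.re_ofReal_mul]
    ring
  · show 2 * ((c • s) 0 * star ((c • s) 1)).im = ‖c‖ ^ 2 * (2 * (s 0 * star (s 1)).im)
    rw [key, Complex.im_ofReal_mul]
    ring

theorem norm_sig_sq {t : E3} (ht : ‖t‖ = 1) : ‖sig t‖ ^ 2 = 2 * (1 + t 0) := by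
  have h := norm_sq3 t
  rw [ht, one_pow] at h
  rw [norm_sq2]
  have h1 : ‖sig t 0‖ ^ 2 = (1 + t 0) ^ 2 := by
    rw [sig_0, ← Complex.normSq_eq_norm_sq, Complex.normSq_apply]
    simp
    ring
  have h2 : ‖sig t 1‖ ^ 2 = t 1 ^ 2 + t 2 ^ 2 := by
    rw [sig_1, ← Complex.normSq_eq_norm_sq, Complex.normSq_apply]
    simp
    ring
  rw [h1, h2]
  nlinarith

theorem hopf_sig {t : E3} (ht : ‖t‖ = 1) : hopf (sig t) = (2 * (1 + t 0)) • t := by
  have h := norm_sq3 t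
  rw [ht, one_pow] at h
  have h1 : ‖sig t 0‖ ^ 2 = (1 + t 0) ^ 2 := by
    rw [sig_0, ← Complex.normSq_eq_norm_sq, Complex.normSq_apply]
    simp
    ring
  have h2 : ‖sig t 1‖ ^ 2 = t 1 ^ 2 + t 2 ^ 2 := by
    rw [sig_1, ← Complex.normSq_eq_norm_sq, Complex.normSq_apply]
    simp
    ring
  refine ext3 ?_ ?_ ?_
  · rw [hopf_0, h1, h2]
    show _ = 2 * (1 + t 0) * t 0
    nlinarith
  · rw [hopf_1, sig_0, sig_1]
    show _ = 2 * (1 + t 0) * t 1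
    simp
    ring
  · rw [hopf_2, sig_0, sig_1]
    show _ = 2 * (1 + t 0) * t 2
    simp
    ring

/-- surjectivity away from the south pole -/
theorem exists_hopf {t : E3} (ht : ‖t‖ = 1) (h0 : 0 < 1 + t 0) : ∃ s : C2, ‖s‖ = 1 ∧ hopf s = t := by
  have h1 := norm_sig_sq ht
  have h2 : 0 < ‖sig t‖ := by
    by_contra hcon
    have : ‖sig t‖ = 0 := le_antisymm (not_lt.1 hcon) (norm_nonneg _)
    rw [this] at h1
    linarith
  refine ⟨((‖sig t‖⁻¹ : ℝ) : ℂ) • sig t, ?_, ?_⟩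
  · rw [norm_smul, Complex.norm_real, norm_inv, norm_norm, inv_mul_cancel₀ h2.ne']
  · rw [hopf_smul, hopf_sig ht, Complex.norm_real, norm_inv, norm_norm, smul_smul, inv_pow, h1,
      inv_mul_cancel₀ (by positivity), one_smul]

/-! ### homogeneous extension -/

section hom

variable {X : Type*} [NormedAddCommGroup X] [InnerProductSpace ℂ X]

/-- homogeneous extension of a function on the sphere -/
def hm (Φ : C2 → X) (s : C2) : X := ((‖s‖ : ℝ) : ℂ) • Φ (((‖s‖⁻¹ : ℝ) : ℂ) • s)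

theorem hm_smul {Φ : C2 → X} (heq : ∀ z : ℂ, ‖z‖ = 1 → ∀ s, ‖s‖ = 1 → Φ (z • s) = z • Φ s)
    (c : ℂ) {s : C2} (hs : ‖s‖ = 1) : hm Φ (c • s) = c • Φ s := by
  by_cases hc : c = 0
  · subst hc
    simp [hm]
  · have hc0 : (0 : ℝ) < ‖c‖ := norm_pos_iff.2 hc
    have hc1 : ((‖c‖ : ℝ) : ℂ) ≠ 0 := by exact_mod_cast hc0.ne'
    have h1 : ‖c • s‖ = ‖c‖ := by rw [norm_smul, hs, mul_one]
    unfold hm
    rw [h1, smul_smul, heq _ _ s hs, smul_smul]
    · congr 1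
      push_cast
      field_simp
    · rw [norm_mul, Complex.norm_real, norm_inv, norm_norm, inv_mul_cancel₀ hc0.ne']

theorem continuous_hm {Φ : C2 → X} (hc : ContinuousOn Φ (Metric.sphere 0 1)) :
    Continuous (hm Φ) := by
  rw [continuous_iff_continuousAt]
  intro s
  by_cases hs : s = 0
  · subst hs
    obtain ⟨C, hC⟩ := (isCompact_sphere (0 : C2) 1).exists_bound_of_continuousOn hc
    have h0 : hm Φ 0 = 0 := by simp [hm]
    rw [ContinuousAt, h0]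
    have hb : ∀ s : C2, ‖hm Φ s‖ ≤ ‖s‖ * |C| := by
      intro s
      by_cases hs : s = 0
      · subst hs
        simp [hm]
      · have hs0 : (0 : ℝ) < ‖s‖ := norm_pos_iff.2 hs
        unfold hm
        rw [norm_smul, Complex.norm_real, norm_norm]
        refine mul_le_mul_of_nonneg_left ((hC _ ?_).trans (le_abs_self C)) (norm_nonneg _)
        rw [mem_sphere_zero_iff_norm, norm_smul, Complex.norm_real, norm_inv, norm_norm,
          inv_mul_cancel₀ hs0.ne']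
    refine squeeze_zero_norm hb ?_
    have : Tendsto (fun s : C2 => ‖s‖ * |C|) (𝓝 0) (𝓝 (‖(0 : C2)‖ * |C|)) :=
      (continuous_norm.mul continuous_const).tendsto 0
    simpa using this
  · have hopen : IsOpen {s : C2 | s ≠ 0} := isOpen_ne
    have hco : ContinuousOn (hm Φ) {s : C2 | s ≠ 0} := by
      have h0 : ContinuousOn (fun s : C2 => ((‖s‖⁻¹ : ℝ) : ℂ)) {s : C2 | s ≠ 0} := by
        refine Complex.continuous_ofReal.comp_continuousOn ?_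
        exact continuous_norm.continuousOn.inv₀ fun s hs => norm_ne_zero_iff.2 hs
      have h1 : ContinuousOn (fun s : C2 => ((‖s‖⁻¹ : ℝ) : ℂ) • s) {s : C2 | s ≠ 0} :=
        h0.smul continuousOn_id
      have h2 : MapsTo (fun s : C2 => ((‖s‖⁻¹ : ℝ) : ℂ) • s) {s : C2 | s ≠ 0}
          (Metric.sphere 0 1) := by
        intro s hs
        have hs0 : (0 : ℝ) < ‖s‖ := norm_pos_iff.2 hs
        rw [mem_sphere_zero_iff_norm, norm_smul, Complex.norm_real, norm_inv, norm_norm,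
          inv_mul_cancel₀ hs0.ne']
      have h3 : Continuous fun s : C2 => ((‖s‖ : ℝ) : ℂ) := by fun_prop
      exact h3.continuousOn.smul (hc.comp h1 h2)
    exact hco.continuousAt (hopen.mem_nhds hs)

/-- the functional on `S²` defined by a phase equivariant family -/
theorem exists_g0 {Φ : C2 → X} (hc : ContinuousOn Φ (Metric.sphere 0 1))
    (heq : ∀ z : ℂ, ‖z‖ = 1 → ∀ s, ‖s‖ = 1 → Φ (z • s) = z • Φ s) :
    ∃ g : E3 → X → C2, Continuous (fun q : E3 × X => g q.1 q.2) ∧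
      (∀ t x (z : ℂ), g t (z • x) = z • g t x) ∧
      ∀ s, ‖s‖ = 1 → ∀ x, g (hopf s) x = inner ℂ (Φ s) x • s := by
  refine ⟨fun t x => ((1 : ℂ) / 4) • (inner ℂ (hm Φ (sig t)) x • sig t +
    inner ℂ (hm Φ (sig' t)) x • sig' t), ?_, ?_, ?_⟩
  · have h1 := continuous_hm hc
    have h2 := continuous_sig
    have h3 := continuous_sig'
    fun_prop
  · intro t x z
    simp only [inner_smul_right, smul_add, smul_smul]
    congr 1 <;> congr 1 <;> ring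
  · intro s hs x
    have e0 := hm_smul heq (2 * conj (s 0)) hs
    have e1 := hm_smul heq (2 * conj (s 1)) hs
    show ((1 : ℂ) / 4) • (inner ℂ (hm Φ (sig (hopf s))) x • sig (hopf s) +
      inner ℂ (hm Φ (sig' (hopf s))) x • sig' (hopf s)) = _
    rw [sig_hopf hs, sig'_hopf hs, e0, e1, inner_smul_left, inner_smul_left, smul_smul, smul_smul,
      ← add_smul, smul_smul]
    congr 1
    have h := norm_sq2 s
    rw [hs, one_pow] at h
    have h0 := mul_conj_norm (s 0)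
    have h1 := mul_conj_norm (s 1)
    have h2 : (s 0 * conj (s 0)) + (s 1 * conj (s 1)) = 1 := by
      rw [h0, h1, ← Complex.ofReal_add, ← h]
      simp
    simp only [map_mul, Complex.conj_conj]
    have h3 : (conj (2 : ℂ)) = 2 := Complex.conj_ofReal 2 |>.symm ▸ by simp
    rw [h3]
    linear_combination (inner ℂ (Φ s) x) * h2

end hom

/-! ### the functional `g` -/

theorem hopf_s0_0 : hopf s0 0 = 1 := by simp
theorem hopf_s0_1 : hopf s0 1 = 0 := by simp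
theorem hopf_s0_2 : hopf s0 2 = 0 := by simp

/-- the fibre over the north pole -/
theorem eq_smul_s0 {s : C2} (h1 : s 1 = 0) : s = s 0 • s0 := by
  refine ext2 ?_ ?_
  · show s 0 = s 0 * 1
    ring
  · show s 1 = s 0 * 0
    rw [h1, mul_zero]

theorem snd_eq_zero {s : C2} (hs : ‖s‖ = 1) (h : hopf s = hopf s0) : s 1 = 0 := by
  have h1 := norm_sq2 s
  rw [hs, one_pow] at h1
  have h2 : hopf s 0 = 1 := by rw [h, hopf_s0_0]
  rw [hopf_0] at h2
  have h3 : ‖s 1‖ ^ 2 = 0 := by linarith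
  simpa using h3

section ghopf

variable {X : Type*} [NormedAddCommGroup X] [InnerProductSpace ℂ X]

/-- LEAF GHOPF -/
theorem exists_g
    (Ψ : C2 → X) (hc : ContinuousOn Ψ (Metric.sphere 0 1))
    (heq : ∀ z : ℂ, ‖z‖ = 1 → ∀ s, ‖s‖ = 1 → Ψ (z • s) = z • Ψ s)
    (hne : ∀ s, ‖s‖ = 1 → Ψ s ≠ 0) :
    ∃ g : E3 → X → C2, Continuous (fun q : E3 × X => g q.1 q.2) ∧
      (∀ t x, ∀ z : ℂ, ‖z‖ = 1 → g t (z • x) = z • g t x) ∧
      (∀ s, ‖s‖ = 1 → g (hopf s) (Ψ s) ≠ 0) ∧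
      (∀ s, ‖s‖ = 1 → ∀ r : ℝ, 0 ≤ r → g (hopf s) (Ψ s) = (r : ℂ) • s0 → s = s0) ∧
      (∃ δ > 0, ∀ t, ‖t‖ = 1 → ‖t - hopf s0‖ < δ → ∀ x, g t x = inner ℂ (Ψ s0) x • sig t) := by
  -- the phase invariant function, positive at the north pole
  let f : C2 → ℝ := fun s => (2 * conj (s 0) * inner ℂ (Ψ s0) (Ψ s)).re
  have hf : ContinuousOn f (Metric.sphere 0 1) := by
    refine Complex.continuous_re.comp_continuousOn ?_
    have h1 : Continuous fun s : C2 => 2 * conj (s 0) := by fun_prop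
    exact h1.continuousOn.mul (ContinuousOn.inner (𝕜 := ℂ) continuousOn_const hc)
  have hpos0 : ∀ s, ‖s‖ = 1 → hopf s = hopf s0 →
      2 * conj (s 0) * inner ℂ (Ψ s0) (Ψ s) = ((2 * ‖Ψ s0‖ ^ 2 : ℝ) : ℂ) := by
    intro s hs h
    have h1 := snd_eq_zero hs h
    have h2 := eq_smul_s0 h1
    have h3 : ‖s 0‖ = 1 := by
      have := norm_sq2 s
      rw [hs, h1, norm_zero] at this
      nlinarith [norm_nonneg (s 0)]
    have h4 : Ψ s = s 0 • Ψ s0 := by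
      conv_lhs => rw [h2]
      exact heq _ h3 _ norm_s0
    rw [h4, inner_smul_right, inner_self_eq_norm_sq_to_K]
    have h5 := mul_conj_norm (s 0)
    rw [h3] at h5
    have h6 : 2 * conj (s 0) * (s 0 * ((‖Ψ s0‖ : ℂ)) ^ 2) =
        2 * (s 0 * conj (s 0)) * ((‖Ψ s0‖ : ℂ)) ^ 2 := by ring
    push_cast
    show 2 * conj (s 0) * (s 0 * ((‖Ψ s0‖ : ℂ)) ^ 2) = _
    rw [h6, h5]
    push_cast
    ring
  -- the bad set is far from the north pole
  obtain ⟨δ, hδ, hδ1, hgood⟩ : ∃ δ > 0, δ < 1 / 4 ∧ ∀ s, ‖s‖ = 1 → ‖hopf s - hopf s0‖ < 2 * δ →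
      0 < f s := by
    set B : Set C2 := Metric.sphere 0 1 ∩ f ⁻¹' Iic 0 with hB
    have hBc : IsCompact B := by
      have h1 : IsClosed (Metric.sphere (0 : C2) 1 ∩ f ⁻¹' Iic 0) :=
        hf.preimage_isClosed_of_isClosed Metric.isClosed_sphere isClosed_Iic
      exact (isCompact_sphere (0 : C2) 1).of_isClosed_subset h1 inter_subset_left
    have hBh : IsClosed (hopf '' B) := (hBc.image continuous_hopf).isClosed
    have hn : hopf s0 ∉ hopf '' B := by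
      rintro ⟨s, ⟨hs, hs2⟩, hs3⟩
      have hs' : ‖s‖ = 1 := mem_sphere_zero_iff_norm.1 hs
      have h1 := hpos0 s hs' hs3
      have h2 : f s ≤ 0 := hs2
      have h3 : f s = 2 * ‖Ψ s0‖ ^ 2 := by
        show (2 * conj (s 0) * inner ℂ (Ψ s0) (Ψ s)).re = _
        rw [h1, Complex.ofReal_re]
      have h4 : 0 < ‖Ψ s0‖ := norm_pos_iff.2 (hne s0 norm_s0)
      have h5 : 0 < 2 * ‖Ψ s0‖ ^ 2 := by positivity
      linarith
    have h1 : (hopf '' B)ᶜ ∈ 𝓝 (hopf s0) := hBh.isOpen_compl.mem_nhds hn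
    obtain ⟨ε, hε, h2⟩ := Metric.mem_nhds_iff.1 h1
    refine ⟨min (ε / 2) (1 / 8), by positivity, ?_, fun s hs h3 => ?_⟩
    · exact lt_of_le_of_lt (min_le_right _ _) (by norm_num)
    · by_contra hcon
      have h4 : hopf s ∈ Metric.ball (hopf s0) ε := by
        rw [Metric.mem_ball, dist_eq_norm]
        have := min_le_left (ε / 2) (1 / 8 : ℝ)
        linarith
      exact h2 h4 ⟨s, ⟨mem_sphere_zero_iff_norm.2 hs, not_lt.1 hcon⟩, rfl⟩
  -- the cut-off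
  let κ : E3 → ℝ := fun t => max 0 (min 1 (2 - ‖t - hopf s0‖ / δ))
  have hκc : Continuous κ := by fun_prop
  have hκ0 : ∀ t, 0 ≤ κ t := fun t => le_max_left _ _
  have hκ1 : ∀ t, κ t ≤ 1 := fun t => max_le zero_le_one (min_le_left _ _)
  have hκin : ∀ t, ‖t - hopf s0‖ ≤ δ → κ t = 1 := by
    intro t ht
    have h1 : ‖t - hopf s0‖ / δ ≤ 1 := (div_le_one hδ).2 ht
    show max 0 (min 1 (2 - ‖t - hopf s0‖ / δ)) = 1
    rw [min_eq_left (by linarith), max_eq_right zero_le_one]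
  have hκout : ∀ t, 0 < κ t → ‖t - hopf s0‖ < 2 * δ := by
    intro t ht
    by_contra hcon
    rw [not_lt] at hcon
    have h1 : 2 ≤ ‖t - hopf s0‖ / δ := by rwa [le_div_iff₀ hδ]
    have h2 : κ t = 0 := by
      show max 0 (min 1 (2 - ‖t - hopf s0‖ / δ)) = 0
      rw [max_eq_left]
      exact (min_le_right _ _).trans (by linarith)
    linarith
  -- the modified family
  let Φ : C2 → X := fun s => ((1 - κ (hopf s) : ℝ) : ℂ) • Ψ s +
    (((κ (hopf s) : ℝ) : ℂ) * (2 * s 0)) • Ψ s0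
  have hκh : Continuous fun s : C2 => κ (hopf s) := hκc.comp continuous_hopf
  have hΦc : ContinuousOn Φ (Metric.sphere 0 1) := by
    have h1 : Continuous fun s : C2 => ((1 - κ (hopf s) : ℝ) : ℂ) :=
      Complex.continuous_ofReal.comp (continuous_const.sub hκh)
    have h2 : Continuous fun s : C2 => (((κ (hopf s) : ℝ) : ℂ) * (2 * s 0)) • Ψ s0 := by
      have h3 : Continuous fun s : C2 => (2 : ℂ) * s 0 := by fun_prop
      exact ((Complex.continuous_ofReal.comp hκh).mul h3).smul continuous_const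
    exact (h1.continuousOn.smul hc).add h2.continuousOn
  have hhz : ∀ z : ℂ, ‖z‖ = 1 → ∀ s : C2, hopf (z • s) = hopf s := by
    intro z hz s
    rw [hopf_smul, hz, one_pow, one_smul]
  have hΦe : ∀ z : ℂ, ‖z‖ = 1 → ∀ s, ‖s‖ = 1 → Φ (z • s) = z • Φ s := by
    intro z hz s hs
    show ((1 - κ (hopf (z • s)) : ℝ) : ℂ) • Ψ (z • s) +
      (((κ (hopf (z • s)) : ℝ) : ℂ) * (2 * (z • s) 0)) • Ψ s0 = z • (_ + _)
    rw [hhz z hz s, heq z hz s hs, smul_add, smul_smul, smul_smul, smul_smul]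
    congr 1
    · rw [mul_comm]
    · congr 1
      show ((κ (hopf s) : ℝ) : ℂ) * (2 * (z * s 0)) = _
      ring
  obtain ⟨g, hg, hgz, hgs⟩ := exists_g0 hΦc hΦe
  -- the coefficient
  have hcoef : ∀ s, ‖s‖ = 1 → inner ℂ (Φ s) (Ψ s) =
      (((1 - κ (hopf s)) * ‖Ψ s‖ ^ 2 : ℝ) : ℂ) +
        ((κ (hopf s) : ℝ) : ℂ) * (2 * conj (s 0) * inner ℂ (Ψ s0) (Ψ s)) := by
    intro s hs
    show inner ℂ (((1 - κ (hopf s) : ℝ) : ℂ) • Ψ s +
      (((κ (hopf s) : ℝ) : ℂ) * (2 * s 0)) • Ψ s0) (Ψ s) = _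
    rw [inner_add_left, inner_smul_left, inner_smul_left, inner_self_eq_norm_sq_to_K]
    have h3 : (conj (2 : ℂ)) = 2 := by
      have := Complex.conj_ofReal 2
      simpa using this
    simp only [map_mul, Complex.conj_ofReal, h3]
    push_cast
    show ((1 - κ (hopf s) : ℂ)) * ((‖Ψ s‖ : ℂ)) ^ 2 + _ = _
    ring
  have hpos : ∀ s, ‖s‖ = 1 → 0 < (inner ℂ (Φ s) (Ψ s)).re := by
    intro s hs
    rw [hcoef s hs, Complex.add_re, Complex.ofReal_re, Complex.re_ofReal_mul]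
    have h1 : 0 < ‖Ψ s‖ ^ 2 := by
      have := norm_pos_iff.2 (hne s hs)
      positivity
    have h2 := hκ0 (hopf s)
    have h3 := hκ1 (hopf s)
    rcases h2.eq_or_lt with h4 | h4
    · rw [← h4]
      linarith
    · have h5 : 0 < f s := hgood s hs (hκout _ h4)
      have h6 : 0 < κ (hopf s) * (2 * conj (s 0) * inner ℂ (Ψ s0) (Ψ s)).re := mul_pos h4 h5
      have h7 : 0 ≤ (1 - κ (hopf s)) * ‖Ψ s‖ ^ 2 := mul_nonneg (by linarith) h1.le
      linarith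
  refine ⟨g, hg, fun t x z _ => hgz t x z, ?_, ?_, δ, hδ, ?_⟩
  · intro s hs h
    rw [hgs s hs] at h
    have h1 : s ≠ 0 := by
      intro h2
      rw [h2, norm_zero] at hs
      exact zero_ne_one hs
    have h2 := (smul_eq_zero.1 h).resolve_right h1
    have h3 := hpos s hs
    rw [h2] at h3
    exact lt_irrefl _ h3
  · intro s hs r hr h
    rw [hgs s hs] at h
    have hc0 : inner ℂ (Φ s) (Ψ s) ≠ 0 := by
      intro h2
      have h3 := hpos s hs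
      rw [h2] at h3
      exact lt_irrefl _ h3
    have h1 : s 1 = 0 := by
      have h2 : inner ℂ (Φ s) (Ψ s) * s 1 = (r : ℂ) * 0 := congrArg (fun v : C2 => v 1) h
      rw [mul_zero] at h2
      exact (mul_eq_zero.1 h2).resolve_left hc0
    have h2 := eq_smul_s0 h1
    have h3 : ‖s 0‖ = 1 := by
      have := norm_sq2 s
      rw [hs, h1, norm_zero] at this
      nlinarith [norm_nonneg (s 0)]
    have h4 : hopf s = hopf s0 := by
      conv_lhs => rw [h2]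
      exact hhz _ h3 _
    have h5 : κ (hopf s) = 1 := hκin _ (by rw [h4, sub_self, norm_zero]; exact hδ.le)
    have h6 : inner ℂ (Φ s) (Ψ s) = ((2 * ‖Ψ s0‖ ^ 2 : ℝ) : ℂ) := by
      rw [hcoef s hs, hpos0 s hs h4, h5]
      push_cast
      ring
    have h7 : inner ℂ (Φ s) (Ψ s) * s 0 = (r : ℂ) * 1 := congrArg (fun v : C2 => v 0) h
    rw [h6, mul_one] at h7
    have h8 : 0 < 2 * ‖Ψ s0‖ ^ 2 := by
      have := norm_pos_iff.2 (hne s0 norm_s0)
      positivity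
    have h9 : s 0 = ((r / (2 * ‖Ψ s0‖ ^ 2) : ℝ) : ℂ) := by
      have h10 : ((2 * ‖Ψ s0‖ ^ 2 : ℝ) : ℂ) ≠ 0 := by exact_mod_cast h8.ne'
      rw [Complex.ofReal_div, eq_div_iff h10, mul_comm]
      exact h7
    have h11 : r / (2 * ‖Ψ s0‖ ^ 2) = 1 := by
      have h12 : 0 ≤ r / (2 * ‖Ψ s0‖ ^ 2) := by positivity
      rw [h9, Complex.norm_real, Real.norm_of_nonneg h12] at h3
      exact h3
    rw [h11, Complex.ofReal_one] at h9
    rw [h2, h9, one_smul]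
  · intro t ht htδ x
    have h0 : 0 < 1 + t 0 := by
      have h1 : |(t - hopf s0) 0| ≤ ‖t - hopf s0‖ := by
        have := EuclideanSpace.norm_eq (t - hopf s0)
        have h2 := norm_sq3 (t - hopf s0)
        rw [← sq_abs ((t - hopf s0) 0)] at h2
        nlinarith [norm_nonneg (t - hopf s0), abs_nonneg ((t - hopf s0) 0),
          sq_nonneg ((t - hopf s0) 1), sq_nonneg ((t - hopf s0) 2)]
      have h2 : (t - hopf s0) 0 = t 0 - 1 := by
        show t 0 - hopf s0 0 = _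
        rw [hopf_s0_0]
      rw [h2] at h1
      have h3 := neg_abs_le (t 0 - 1)
      linarith
    obtain ⟨s, hs, rfl⟩ := exists_hopf ht h0
    rw [hgs s hs, sig_hopf hs, smul_smul]
    congr 1
    have h5 : κ (hopf s) = 1 := hκin _ htδ.le
    show inner ℂ (((1 - κ (hopf s) : ℝ) : ℂ) • Ψ s +
      (((κ (hopf s) : ℝ) : ℂ) * (2 * s 0)) • Ψ s0) x = _
    rw [h5, sub_self, Complex.ofReal_zero, zero_smul, zero_add, Complex.ofReal_one, one_mul,
      inner_smul_left]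
    have h3 : (conj (2 : ℂ)) = 2 := by
      have := Complex.conj_ofReal 2
      simpa using this
    rw [map_mul, h3]
    ring

end ghopf

/-! ### the derivative at the point -/

/-- linear part of `sig` -/
def sigL : E3 →L[ℝ] C2 := LinearMap.toContinuousLinearMap
  { toFun := fun t => WithLp.toLp 2 ![(t 0 : ℂ), (t 1 : ℂ) - Complex.I * (t 2 : ℂ)]
    map_add' := by
      intro x y
      refine ext2 ?_ ?_
      · show ((x 0 + y 0 : ℝ) : ℂ) = (x 0 : ℂ) + (y 0 : ℂ)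
        push_cast; ring
      · show ((x 1 + y 1 : ℝ) : ℂ) - Complex.I * ((x 2 + y 2 : ℝ) : ℂ) =
          ((x 1 : ℂ) - Complex.I * (x 2 : ℂ)) + ((y 1 : ℂ) - Complex.I * (y 2 : ℂ))
        push_cast; ring
    map_smul' := by
      intro c x
      refine ext2 ?_ ?_
      · show ((c * x 0 : ℝ) : ℂ) = c • (x 0 : ℂ)
        rw [Complex.real_smul]; push_cast; ring
      · show ((c * x 1 : ℝ) : ℂ) - Complex.I * ((c * x 2 : ℝ) : ℂ) =
          c • ((x 1 : ℂ) - Complex.I * (x 2 : ℂ))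
        rw [Complex.real_smul]; push_cast; ring }

@[simp] theorem sigL_0 (t : E3) : sigL t 0 = (t 0 : ℂ) := rfl
@[simp] theorem sigL_1 (t : E3) : sigL t 1 = (t 1 : ℂ) - Complex.I * (t 2 : ℂ) := rfl

theorem sig_eq (t : E3) : sig t = s0 + sigL t := by
  refine ext2 ?_ ?_
  · show (1 : ℂ) + (t 0 : ℂ) = 1 + (t 0 : ℂ)
    rfl
  · show (t 1 : ℂ) - Complex.I * (t 2 : ℂ) = 0 + ((t 1 : ℂ) - Complex.I * (t 2 : ℂ))
    ring

theorem norm_hopf_s0 : ‖hopf s0‖ = 1 := by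
  have h := norm_sq3 (hopf s0)
  rw [hopf_s0_0, hopf_s0_1, hopf_s0_2] at h
  nlinarith [norm_nonneg (hopf s0)]

theorem inner_hopf_s0 (τ : E3) : inner ℝ (hopf s0) τ = τ 0 := by
  rw [PiLp.inner_apply, Fin.sum_univ_three, hopf_s0_0, hopf_s0_1, hopf_s0_2]
  simp

theorem sig_t0 : sig (hopf s0) = (2 : ℂ) • s0 := by
  rw [sig_hopf norm_s0]
  simp

/-- derivative of the norm -/
theorem hasFDerivAt_nrm {r : ℝ} (hr : 0 < r) :
    ∃ N : E3 →L[ℝ] ℝ, HasFDerivAt (fun t : E3 => ‖t‖) N (r • hopf s0) ∧ ∀ τ, N τ = τ 0 := by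
  have hn : ‖r • hopf s0‖ = r := by
    rw [norm_smul, norm_hopf_s0, mul_one, Real.norm_of_nonneg hr.le]
  have h1 := (hasStrictFDerivAt_norm_sq (r • hopf s0)).hasFDerivAt
  have h2 := h1.sqrt (by rw [hn]; positivity)
  have h3 : (fun t : E3 => ‖t‖) = fun t : E3 => √(‖t‖ ^ 2) := by
    funext t
    rw [Real.sqrt_sq (norm_nonneg t)]
  rw [← h3] at h2
  refine ⟨_, h2, ?_⟩
  · intro τ
    show (1 / (2 * √(‖r • hopf s0‖ ^ 2))) * ((2 : ℕ) • inner ℝ (r • hopf s0) τ) = τ 0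
    rw [Real.sqrt_sq (norm_nonneg _), hn, inner_smul_left, inner_hopf_s0, nsmul_eq_mul]
    simp
    field_simp

section nd

variable {X V Z : Type*} [NormedAddCommGroup X] [InnerProductSpace ℂ X]
    [NormedAddCommGroup V] [NormedSpace ℝ V] [NormedAddCommGroup Z] [NormedSpace ℝ Z]

theorem hasFDerivAt_G (x0 : X) (v0 : V) {r : ℝ} (hr : 0 < r) :
    ∃ M : E3 × (V × X) →L[ℝ] C2,
      HasFDerivAt (fun q : E3 × (V × X) => inner ℂ x0 q.2.2 • sig (‖q.1‖⁻¹ • q.1) -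
        ((‖q.1‖ - 1 : ℝ) : ℂ) • s0) M (r • hopf s0, (v0, x0)) ∧
      (∀ τ ν ξ, M (τ, (ν, ξ)) 0 = 2 * inner ℂ x0 ξ - (τ 0 : ℂ)) ∧
      (∀ τ ν ξ, M (τ, (ν, ξ)) 1 =
        ((‖x0‖ ^ 2 / r : ℝ) : ℂ) * ((τ 1 : ℂ) - Complex.I * (τ 2 : ℂ))) := by
  obtain ⟨N, hN, hNτ⟩ := hasFDerivAt_nrm hr
  set p : E3 × (V × X) := (r • hopf s0, (v0, x0)) with hp
  have hn : ‖r • hopf s0‖ = r := by
    rw [norm_smul, norm_hopf_s0, mul_one, Real.norm_of_nonneg hr.le]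
  have hfst : HasFDerivAt (fun q : E3 × (V × X) => q.1) (ContinuousLinearMap.fst ℝ E3 (V × X)) p :=
    hasFDerivAt_fst
  have hN' : HasFDerivAt (fun q : E3 × (V × X) => ‖q.1‖)
      (N.comp (ContinuousLinearMap.fst ℝ E3 (V × X))) p := hN.comp p hfst
  have hinv : HasFDerivAt (fun q : E3 × (V × X) => ‖q.1‖⁻¹)
      ((-(‖r • hopf s0‖ ^ 2)⁻¹) • (N.comp (ContinuousLinearMap.fst ℝ E3 (V × X)))) p :=
    (hasDerivAt_inv (by rw [hn]; exact hr.ne')).comp_hasFDerivAt p hN'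
  have hm := hinv.smul hfst
  have hs : HasFDerivAt (fun q : E3 × (V × X) => s0 + sigL (‖q.1‖⁻¹ • q.1)) _ p :=
    (sigL.hasFDerivAt.comp p hm).const_add s0
  let iL : E3 × (V × X) →L[ℝ] ℂ := ((innerSL ℂ x0).restrictScalars ℝ).comp
    ((ContinuousLinearMap.snd ℝ V X).comp (ContinuousLinearMap.snd ℝ E3 (V × X)))
  have hi : HasFDerivAt (fun q : E3 × (V × X) => (inner ℂ x0 q.2.2 : ℂ)) iL p := iL.hasFDerivAt
  have hG := hi.smul hs
  have h1 : HasFDerivAt (fun q : E3 × (V × X) => ((‖q.1‖ - 1 : ℝ) : ℂ))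
      (Complex.ofRealCLM.comp (N.comp (ContinuousLinearMap.fst ℝ E3 (V × X)))) p :=
    Complex.ofRealCLM.hasFDerivAt.comp p (hN'.sub_const 1)
  have h2 := h1.smul_const s0
  have h3 := hG.sub h2
  have h3' : (fun q : E3 × (V × X) => inner ℂ x0 q.2.2 • sig (‖q.1‖⁻¹ • q.1) -
        ((‖q.1‖ - 1 : ℝ) : ℂ) • s0) = (((fun q : E3 × (V × X) => (inner ℂ x0 q.2.2 : ℂ)) •
          fun q => s0 + sigL (‖q.1‖⁻¹ • q.1)) - fun y => ((‖y.1‖ - 1 : ℝ) : ℂ) • s0) := by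
    funext q
    show _ = inner ℂ x0 q.2.2 • (s0 + sigL (‖q.1‖⁻¹ • q.1)) - ((‖q.1‖ - 1 : ℝ) : ℂ) • s0
    rw [sig_eq]
  rw [← h3'] at h3
  refine ⟨_, h3, ?_, ?_⟩
  · intro τ ν ξ
    show (inner ℂ x0 x0 * (sigL (‖r • hopf s0‖⁻¹ • τ +
        (-(‖r • hopf s0‖ ^ 2)⁻¹ * N τ) • (r • hopf s0))) 0 +
      (inner ℂ x0 ξ : ℂ) * ((s0 + sigL (‖r • hopf s0‖⁻¹ • (r • hopf s0))) 0)) -
        ((N τ : ℝ) : ℂ) * s0 0 = _
    rw [hn, hNτ, smul_smul, smul_smul, inv_mul_cancel₀ hr.ne', one_smul]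
    show (inner ℂ x0 x0 * (((r⁻¹ * τ 0 + (-(r ^ 2)⁻¹ * τ 0 * r) * hopf s0 0 : ℝ) : ℂ)) +
      (inner ℂ x0 ξ : ℂ) * (s0 0 + ((hopf s0 0 : ℝ) : ℂ))) - ((τ 0 : ℝ) : ℂ) * s0 0 = _
    rw [hopf_s0_0, s0_0]
    have h4 : r⁻¹ * τ 0 + (-(r ^ 2)⁻¹ * τ 0 * r) * 1 = 0 := by
      field_simp
      ring
    rw [h4]
    push_cast
    ring
  · intro τ ν ξ
    show (inner ℂ x0 x0 * (sigL (‖r • hopf s0‖⁻¹ • τ +
        (-(‖r • hopf s0‖ ^ 2)⁻¹ * N τ) • (r • hopf s0))) 1 +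
      (inner ℂ x0 ξ : ℂ) * ((s0 + sigL (‖r • hopf s0‖⁻¹ • (r • hopf s0))) 1)) -
        ((N τ : ℝ) : ℂ) * s0 1 = _
    rw [hn, hNτ, smul_smul, smul_smul, inv_mul_cancel₀ hr.ne', one_smul]
    show (inner ℂ x0 x0 * ((((r⁻¹ * τ 1 + (-(r ^ 2)⁻¹ * τ 0 * r) * hopf s0 1 : ℝ) : ℂ)) -
      Complex.I * (((r⁻¹ * τ 2 + (-(r ^ 2)⁻¹ * τ 0 * r) * hopf s0 2 : ℝ) : ℂ))) +
      (inner ℂ x0 ξ : ℂ) * (s0 1 + (((hopf s0 1 : ℝ) : ℂ) - Complex.I * ((hopf s0 2 : ℝ) : ℂ)))) -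
        ((τ 0 : ℝ) : ℂ) * s0 1 = _
    rw [hopf_s0_1, hopf_s0_2, s0_1, inner_self_eq_norm_sq_to_K]
    show (((‖x0‖ : ℂ)) ^ 2 * _ + _) - _ = _
    have hr' : (r : ℂ) ≠ 0 := by exact_mod_cast hr.ne'
    push_cast
    field_simp
    ring

/-- injectivity (with the radial hypothesis `hrad`, which is necessary) -/
theorem nondeg_inj
    (x0 : X) (hx0 : x0 ≠ 0) (v0 : V) (r0 : ℝ) (hr0 : r0 = 2 * ‖x0‖ ^ 2)
    (Fc : E3 × (V × X) → Z) (L : E3 × (V × X) →L[ℝ] Z)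
    (hF : HasFDerivAt Fc L ((1 + r0) • hopf s0, (v0, x0)))
    (hrad : L (hopf s0, 0) = 0)
    (hk : ∀ w : V × X, L (0, w) = 0 → ∃ a : ℝ, w = (0, (a * Complex.I) • x0))
    (G : E3 × (V × X) → C2)
    (hG : ∀ᶠ q in 𝓝 (((1 + r0) • hopf s0, (v0, x0)) : E3 × (V × X)),
      G q = inner ℂ x0 q.2.2 • sig (‖q.1‖⁻¹ • q.1)) :
    ∃ M : E3 × (V × X) →L[ℝ] C2,
      HasFDerivAt (fun q => (Fc q, G q - ((‖q.1‖ - 1 : ℝ) : ℂ) • s0)) (L.prod M)
        ((1 + r0) • hopf s0, (v0, x0)) ∧ Function.Injective (L.prod M) ∧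
      (∀ τ ν ξ, M (τ, (ν, ξ)) 0 = 2 * inner ℂ x0 ξ - (τ 0 : ℂ)) ∧
      (∀ τ ν ξ, M (τ, (ν, ξ)) 1 =
        ((‖x0‖ ^ 2 / (1 + r0) : ℝ) : ℂ) * ((τ 1 : ℂ) - Complex.I * (τ 2 : ℂ))) ∧
      G ((1 + r0) • hopf s0, (v0, x0)) = (r0 : ℂ) • s0 := by
  have hx : 0 < ‖x0‖ := norm_pos_iff.2 hx0
  have hr0' : 0 < r0 := by rw [hr0]; positivity
  have hr : 0 < 1 + r0 := by linarith
  obtain ⟨M, hM, hM0, hM1⟩ := hasFDerivAt_G x0 v0 hr
  have hM' : HasFDerivAt (fun q => G q - ((‖q.1‖ - 1 : ℝ) : ℂ) • s0) M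
      ((1 + r0) • hopf s0, (v0, x0)) := by
    refine hM.congr_of_eventuallyEq ?_
    filter_upwards [hG] with q hq
    rw [hq]
  -- decomposition of `L`
  have hLadd : ∀ τ w, L (τ, w) = L (τ, 0) + L (0, w) := by
    intro τ w
    rw [← map_add]
    simp
  have hrad' : ∀ a : ℝ, L (a • hopf s0, 0) = 0 := by
    intro a
    have : ((a • hopf s0, 0) : E3 × (V × X)) = a • (hopf s0, 0) := by
      rw [Prod.smul_mk, smul_zero]
    rw [this, map_smul, hrad, smul_zero]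
  refine ⟨M, hF.prodMk hM', ?_, hM0, hM1, ?_⟩
  · rw [injective_iff_map_eq_zero]
    rintro ⟨τ, ν, ξ⟩ h
    have h1 : L (τ, (ν, ξ)) = 0 := congrArg Prod.fst h
    have h2 : M (τ, (ν, ξ)) = 0 := congrArg Prod.snd h
    have h3 : M (τ, (ν, ξ)) 1 = 0 := by rw [h2]; rfl
    have h4 : M (τ, (ν, ξ)) 0 = 0 := by rw [h2]; rfl
    rw [hM1] at h3
    rw [hM0] at h4
    have h5 : ((‖x0‖ ^ 2 / (1 + r0) : ℝ) : ℂ) ≠ 0 := by
      have : 0 < ‖x0‖ ^ 2 / (1 + r0) := by positivity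
      exact_mod_cast this.ne'
    have h6 := (mul_eq_zero.1 h3).resolve_left h5
    have h7 : τ 1 = 0 := by
      have := congrArg Complex.re h6
      simpa using this
    have h8 : τ 2 = 0 := by
      have := congrArg Complex.im h6
      simpa using this
    have h9 : τ = (τ 0) • hopf s0 := by
      refine ext3 ?_ ?_ ?_
      · show τ 0 = τ 0 * hopf s0 0
        rw [hopf_s0_0, mul_one]
      · show τ 1 = τ 0 * hopf s0 1
        rw [hopf_s0_1, mul_zero, h7]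
      · show τ 2 = τ 0 * hopf s0 2
        rw [hopf_s0_2, mul_zero, h8]
    have h10 : L (0, (ν, ξ)) = 0 := by
      rw [hLadd, h9, hrad', zero_add] at h1
      exact h1
    obtain ⟨a, ha⟩ := hk _ h10
    have hν : ν = 0 := congrArg Prod.fst ha
    have hξ : ξ = (a * Complex.I) • x0 := congrArg Prod.snd ha
    rw [hξ, inner_smul_right, inner_self_eq_norm_sq_to_K] at h4
    have h4' : 2 * ((a * Complex.I) * ((‖x0‖ : ℂ)) ^ 2) - (τ 0 : ℂ) = 0 := h4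
    have h11 : (((2 * a * ‖x0‖ ^ 2 : ℝ) : ℂ)) * Complex.I = ((τ 0 : ℝ) : ℂ) := by
      push_cast
      linear_combination h4'
    have h12 : τ 0 = 0 := by
      have h14 := congrArg Complex.re h11
      rw [Complex.re_ofReal_mul, Complex.I_re, mul_zero, Complex.ofReal_re] at h14
      exact h14.symm
    have h13 : a = 0 := by
      have h14 := congrArg Complex.im h11
      rw [Complex.im_ofReal_mul, Complex.I_im, mul_one, Complex.ofReal_im] at h14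
      have h16 : a * (2 * ‖x0‖ ^ 2) = 0 := by linarith
      exact (mul_eq_zero.1 h16).resolve_right (by positivity)
    rw [h9, h12, zero_smul, hν, hξ, h13]
    simp
  · have h1 := hG.self_of_nhds
    rw [h1]
    show inner ℂ x0 x0 • sig (‖(1 + r0) • hopf s0‖⁻¹ • ((1 + r0) • hopf s0)) = (r0 : ℂ) • s0
    have hn : ‖(1 + r0) • hopf s0‖ = 1 + r0 := by
      rw [norm_smul, norm_hopf_s0, mul_one, Real.norm_of_nonneg hr.le]
    rw [hn, smul_smul, inv_mul_cancel₀ hr.ne', one_smul, sig_t0, smul_smul,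
      inner_self_eq_norm_sq_to_K]
    congr 1
    show ((‖x0‖ : ℂ)) ^ 2 * 2 = _
    rw [hr0]
    push_cast
    ring

/-- LEAF ND (with `hrad` and `hker`, both necessary) -/
theorem nondeg
    (x0 : X) (hx0 : x0 ≠ 0) (v0 : V) (r0 : ℝ) (hr0 : r0 = 2 * ‖x0‖ ^ 2)
    (Fc : E3 × (V × X) → Z) (L : E3 × (V × X) →L[ℝ] Z)
    (hF : HasFDerivAt Fc L ((1 + r0) • hopf s0, (v0, x0)))
    (hrad : L (hopf s0, 0) = 0)
    (hker : L (0, (0, Complex.I • x0)) = 0)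
    (hk : ∀ w : V × X, L (0, w) = 0 → ∃ a : ℝ, w = (0, (a * Complex.I) • x0))
    (hs : ∀ z, ∃ w : V × X, L (0, w) = z)
    (G : E3 × (V × X) → C2)
    (hG : ∀ᶠ q in 𝓝 (((1 + r0) • hopf s0, (v0, x0)) : E3 × (V × X)),
      G q = inner ℂ x0 q.2.2 • sig (‖q.1‖⁻¹ • q.1)) :
    ∃ L' : E3 × (V × X) →L[ℝ] Z × C2,
      HasFDerivAt (fun q => (Fc q, G q - ((‖q.1‖ - 1 : ℝ) : ℂ) • s0)) L'
        ((1 + r0) • hopf s0, (v0, x0)) ∧ Function.Bijective L' ∧
      G ((1 + r0) • hopf s0, (v0, x0)) = (r0 : ℂ) • s0 := by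
  obtain ⟨M, hM, hMi, hM0, hM1, hGp⟩ := nondeg_inj x0 hx0 v0 r0 hr0 Fc L hF hrad hk G hG
  refine ⟨L.prod M, hM, ⟨hMi, ?_⟩, hGp⟩
  have hx : 0 < ‖x0‖ := norm_pos_iff.2 hx0
  have hr0' : 0 < r0 := by rw [hr0]; positivity
  have hr : 0 < 1 + r0 := by linarith
  rintro ⟨z, c⟩
  set k : ℝ := ‖x0‖ ^ 2 / (1 + r0) with hk'
  have hk0 : 0 < k := by positivity
  set τ' : E3 := WithLp.toLp 2 ![0, (c 1).re / k, -(c 1).im / k] with hτ'
  have t0 : τ' 0 = 0 := rfl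
  have t1 : τ' 1 = (c 1).re / k := rfl
  have t2 : τ' 2 = -(c 1).im / k := rfl
  obtain ⟨⟨ν, ξ'⟩, hw⟩ := hs (z - L (τ', 0))
  -- the imaginary part determines `a`, the real part `τ₀`
  set d : ℂ := 2 * inner ℂ x0 ξ' with hd
  set a : ℝ := ((c 0).im - d.im) / (2 * ‖x0‖ ^ 2) with ha
  set τ₀ : ℝ := d.re - (c 0).re with hτ₀
  have e1 : L (0, ((0 : V), (a : ℂ) • (Complex.I • x0))) = 0 := by
    have h1 : ((0, ((0 : V), (a : ℂ) • (Complex.I • x0))) : E3 × (V × X)) =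
        a • ((0, (0, Complex.I • x0)) : E3 × (V × X)) := by
      rw [Prod.smul_mk, Prod.smul_mk, smul_zero, smul_zero]
      rfl
    rw [h1, map_smul, hker, smul_zero]
  have e2 : L (τ₀ • hopf s0, 0) = 0 := by
    have : ((τ₀ • hopf s0, 0) : E3 × (V × X)) = τ₀ • (hopf s0, 0) := by
      rw [Prod.smul_mk, smul_zero]
    rw [this, map_smul, hrad, smul_zero]
  refine ⟨(τ' + τ₀ • hopf s0, (ν, ξ' + (a : ℂ) • (Complex.I • x0))), Prod.ext ?_ ?_⟩
  · show L (τ' + τ₀ • hopf s0, (ν, ξ' + (a : ℂ) • (Complex.I • x0))) = z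
    have h1 : ((τ' + τ₀ • hopf s0, (ν, ξ' + (a : ℂ) • (Complex.I • x0))) : E3 × (V × X)) =
        (τ', 0) + (τ₀ • hopf s0, 0) + (0, (ν, ξ')) +
          (0, ((0 : V), (a : ℂ) • (Complex.I • x0))) := by
      simp
    rw [h1, map_add, map_add, map_add, e1, e2, hw]
    abel
  · show M (τ' + τ₀ • hopf s0, (ν, ξ' + (a : ℂ) • (Complex.I • x0))) = c
    refine ext2 ?_ ?_
    · rw [hM0, inner_add_right, inner_smul_right, inner_smul_right, inner_self_eq_norm_sq_to_K]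
      show 2 * (inner ℂ x0 ξ' + (a : ℂ) * (Complex.I * ((‖x0‖ : ℂ)) ^ 2)) -
        ((τ' 0 + τ₀ * hopf s0 0 : ℝ) : ℂ) = c 0
      rw [t0, hopf_s0_0]
      have h2 : a * (2 * ‖x0‖ ^ 2) = (c 0).im - d.im := by
        rw [ha]; field_simp
      have h3 : 2 * (inner ℂ x0 ξ' + (a : ℂ) * (Complex.I * ((‖x0‖ : ℂ)) ^ 2)) -
          ((0 + τ₀ * 1 : ℝ) : ℂ) = d + ((a * (2 * ‖x0‖ ^ 2) : ℝ) : ℂ) * Complex.I - (τ₀ : ℂ) := by
        rw [hd]; push_cast; ring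
      rw [h3, h2, hτ₀]
      apply Complex.ext
      · simp
      · simp
    · rw [hM1]
      show (k : ℂ) * (((τ' 1 + τ₀ * hopf s0 1 : ℝ) : ℂ) -
        Complex.I * ((τ' 2 + τ₀ * hopf s0 2 : ℝ) : ℂ)) = c 1
      rw [t1, t2, hopf_s0_1, hopf_s0_2]
      have hk1 : (k : ℂ) ≠ 0 := by exact_mod_cast hk0.ne'
      have h4 : (k : ℂ) * ((((c 1).re / k + τ₀ * 0 : ℝ) : ℂ) -
        Complex.I * ((-(c 1).im / k + τ₀ * 0 : ℝ) : ℂ)) =
          ((c 1).re : ℂ) + ((c 1).im : ℂ) * Complex.I := by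
        push_cast
        field_simp
        ring
      rw [h4, Complex.re_add_im]

end nd

end Crest.Agent.R235.Hopf_143
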