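import Crest.Agent.R235.Green_649
import Crest.Agent.R235.Dns_433

/-!
Row 235 (S0364), PACKAGE SW, FS5 (helper649): Fredholm theory of `Ah P : W^{1,2}(D0) → L²(D1)`
(`Fs4_546`), with the Green operator of `Green_649`.

* `Go P S1 : D1.toAD.HE →L D0.toAD.WE`  the Green operator, `Pk S` the projection onto the kernel;
* `Ah_Go`      : `Ah P (Go P S1 f) = f - Pk S1 f`;
* `Go_Ah`      : `Go P S1 (Ah P u) = u - ∑_{k ∈ S0.ker} ⟪u, φ_k⟫ φ_k`;
* `mem_range`, `isClosed_range`, `finrank_ker`, `finrank_coker`;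
* `exists_wkA`, `uniq_wkA` : the same in the language of `SWDefs_53`.
-/

set_option autoImplicit false
set_option maxSynthPendingDepth 3
set_option linter.unusedSectionVars false

open scoped ContDiff ENNReal NNReal Topology Manifold Bundle RealInnerProductSpace
open MeasureTheory Set Filter Metric Bundle

namespace Crest.Agent.R235.Fred_649

open Crest.Agent.R249.Tv57 Crest.Agent.R247.Ms322 Crest.Agent.R247.Dir593
open Crest.Agent.R247.Frd657 Crest.Agent.R202.Sp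
open Crest.Agent.R235.Fs4_546

noncomputable section

variable {n : ℕ} {M : Type*} [MetricSpace M] [ChartedSpace (EuclideanSpace ℝ (Fin n)) M]
  [IsManifold (𝓡 n) ∞ M]
  [RiemannianBundle (fun p : M => TangentSpace (𝓡 n) p)]
  [IsContMDiffRiemannianBundle (𝓡 n) ∞ (EuclideanSpace ℝ (Fin n)) (fun p : M => TangentSpace (𝓡 n) p)]
  [IsRiemannianManifold (𝓡 n) M] [MeasurableSpace M] [BorelSpace M]
  [SecondCountableTopology M] [Nonempty M]
  [CompactSpace M] [IsFiniteMeasureOnCompacts (μHE[n] : Measure M)]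
variable {κ κ' : Type} [Fintype κ] [Fintype κ'] {D0 : Dat n M κ} {D1 : Dat n M κ'}

/-! ### the bridge between `SmS` and `SS` -/

/-- a smooth section of `Fs4_546` in the format of `Green_649`. -/
def tS {D : Dat n M κ} (u : SmS D) : Green_649.SS D := ⟨u.1, u.2.1, u.2.2⟩

/-- and back. -/
def sT {D : Dat n M κ} (u : Green_649.SS D) : SmS D := ⟨u.1, u.2.1, u.2.2⟩

theorem hl_tS {D : Dat n M κ} (u : SmS D) :
    Green_649.hl D (tS u) = ((cH D u : D.toAD.HE) : HH (μHE[n] : Measure M) κ) := rfl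

theorem wl_tS {D : Dat n M κ} (u : SmS D) : Green_649.wl D (tS u) = cW D u := rfl

theorem al_tS (P : OpPair D0 D1) (u : SmS D0) : Green_649.al P (tS u) = tS (lA P u) := rfl

theorem ef_eq {D : Dat n M κ} (S : Spec D) (k : ℕ) : Green_649.ef S k = tS (ph S k) := rfl

theorem lA_ker (P : OpPair D0 D1) (S0 : Spec D0) {k : ℕ} (hk : S0.μ k = 0) :
    lA P (ph S0 k) = 0 := by
  have h := Green_649.al_ker P S0 hk
  rw [ef_eq, al_tS] at h
  exact Subtype.ext (congrArg Subtype.val h)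

/-! ### the operators -/

/-- **the Green operator** -/
def Go (P : OpPair D0 D1) (S1 : Spec D1) : D1.toAD.HE →L[ℝ] D0.toAD.WE :=
  (Green_649.grn P.swap S1).comp D1.toAD.HE.subtypeL

/-- **the projection onto the kernel** -/
def Pk {D : Dat n M κ} (S : Spec D) : D.toAD.HE →L[ℝ] D.toAD.HE :=
  ∑ k ∈ S.ker, (innerSL ℝ (cH D (ph S k))).smulRight (cH D (ph S k))

theorem Pk_apply {D : Dat n M κ} (S : Spec D) (f : D.toAD.HE) :
    Pk S f = ∑ k ∈ S.ker, (⟪f, cH D (ph S k)⟫ : ℝ) • cH D (ph S k) := by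
  rw [Pk, sum_apply]
  refine Finset.sum_congr rfl fun k _ => ?_
  rw [ContinuousLinearMap.smulRight_apply, innerSL_apply_apply, real_inner_comm]

theorem coe_Pk {D : Dat n M κ} (S : Spec D) (f : D.toAD.HE) :
    ((Pk S f : D.toAD.HE) : HH (μHE[n] : Measure M) κ) = Green_649.pik S f := by
  rw [Pk_apply, Green_649.pik, Submodule.coe_sum]
  rfl

/-- **weakly `A (G f) = f - Π f`** -/
theorem inner_Go (P : OpPair D0 D1) (S1 : Spec D1) (f : D1.toAD.HE) (w : SmS D1) :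
    (⟪D0.toAD.jj (Go P S1 f), cH D0 (lA P.swap w)⟫ : ℝ) = ⟪f - Pk S1 f, cH D1 w⟫ := by
  have h := Green_649.grn_weak P.swap S1 (f : HH (μHE[n] : Measure M) κ') (tS w)
  rw [← coe_Pk] at h
  exact h

/-- `G f ⊥ ker A` -/
theorem Go_orth (P : OpPair D0 D1) (S1 : Spec D1) (f : D1.toAD.HE) {w : SmS D0}
    (hw : lA P w = 0) : (⟪D0.toAD.jj (Go P S1 f), cH D0 w⟫ : ℝ) = 0 := by
  refine Green_649.grn_orth P.swap S1 (f : HH (μHE[n] : Measure M) κ') (w := tS w) ?_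
  have h1 : Green_649.al P (tS w) = 0 := by
    rw [al_tS, hw]
    rfl
  exact h1

theorem Go_orth_ph (P : OpPair D0 D1) (S0 : Spec D0) (S1 : Spec D1) (f : D1.toAD.HE) {k : ℕ}
    (hk : k ∈ S0.ker) : (⟪D0.toAD.jj (Go P S1 f), cH D0 (ph S0 k)⟫ : ℝ) = 0 :=
  Go_orth P S1 f (lA_ker P S0 (S0.mem_ker.1 hk))

/-- **(2)** `A G = 1 - Π` -/
theorem Ah_Go {P : OpPair D0 D1} (hd0 : Dns D0) (hd1 : Dns D1) (S1 : Spec D1) (f : D1.toAD.HE) :
    Ah P (Go P S1 f) = f - Pk S1 f := by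
  refine sub_eq_zero.1 (eq_zero_of_coef S1 fun k => ?_)
  rw [inner_sub_left]
  have h1 := adj (P := P) hd0 hd1 (Go P S1 f) (cW D1 (ph S1 k))
  rw [jj_cW, Ah_cW hd1] at h1
  rw [h1, inner_Go, sub_self]

/-- `⟪A u, φ⟫ = 0` for `φ ∈ ker B`. -/
theorem inner_Ah_ker {P : OpPair D0 D1} (hd0 : Dns D0) (hd1 : Dns D1) (S1 : Spec D1)
    (u : D0.toAD.WE) {l : ℕ} (hl : l ∈ S1.ker) : (⟪Ah P u, cH D1 (ph S1 l)⟫ : ℝ) = 0 := by
  have h1 := adj (P := P) hd0 hd1 u (cW D1 (ph S1 l))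
  rw [jj_cW, Ah_cW hd1, lA_ker P.swap S1 (S1.mem_ker.1 hl), map_zero, inner_zero_right] at h1
  exact h1

theorem Pk_eq_zero {D : Dat n M κ} (S : Spec D) {f : D.toAD.HE}
    (h : ∀ l ∈ S.ker, (⟪f, cH D (ph S l)⟫ : ℝ) = 0) : Pk S f = 0 := by
  rw [Pk_apply]
  exact Finset.sum_eq_zero fun l hl => by rw [h l hl, zero_smul]

theorem inner_Pk {D : Dat n M κ} (S : Spec D) (f : D.toAD.HE) {l : ℕ} (hl : l ∈ S.ker) :
    (⟪Pk S f, cH D (ph S l)⟫ : ℝ) = ⟪f, cH D (ph S l)⟫ := by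
  rw [Pk_apply, sum_inner]
  simp only [real_inner_smul_left, ortho_ph, mul_ite, mul_one, mul_zero, Finset.sum_ite_eq']
  rw [if_pos hl]

/-- `Pk S` is a projection. -/
theorem Pk_Pk {D : Dat n M κ} (S : Spec D) (f : D.toAD.HE) : Pk S (Pk S f) = Pk S f := by
  rw [Pk_apply S (Pk S f), Pk_apply S f]
  refine Finset.sum_congr rfl fun k hk => ?_
  rw [← Pk_apply, inner_Pk S f hk]

theorem Pk_Ah {P : OpPair D0 D1} (hd0 : Dns D0) (hd1 : Dns D1) (S1 : Spec D1) (u : D0.toAD.WE) :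
    Pk S1 (Ah P u) = 0 := Pk_eq_zero S1 fun _ hl => inner_Ah_ker hd0 hd1 S1 u hl

/-- **(4)** `G A = 1 - Π` -/
theorem Go_Ah {P : OpPair D0 D1} (hd0 : Dns D0) (hd1 : Dns D1) (S0 : Spec D0) (S1 : Spec D1)
    (u : D0.toAD.WE) : Go P S1 (Ah P u) =
      u - ∑ k ∈ S0.ker, (⟪D0.toAD.jj u, cH D0 (ph S0 k)⟫ : ℝ) • cW D0 (ph S0 k) := by
  have h1 : Ah P (u - Go P S1 (Ah P u)) = 0 := by
    rw [map_sub, Ah_Go hd0 hd1, Pk_Ah hd0 hd1, sub_zero, sub_self]
  have h2 := ker_eq S0 hd0 h1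
  have h3 : ∑ k ∈ S0.ker, (⟪D0.toAD.jj (u - Go P S1 (Ah P u)),
      D0.toAD.jj (cW D0 (ph S0 k))⟫ : ℝ) • cW D0 (ph S0 k) =
      ∑ k ∈ S0.ker, (⟪D0.toAD.jj u, cH D0 (ph S0 k)⟫ : ℝ) • cW D0 (ph S0 k) := by
    refine Finset.sum_congr rfl fun k hk => ?_
    rw [jj_cW, map_sub, inner_sub_left, Go_orth_ph P S0 S1 _ hk, sub_zero]
  rw [h3] at h2
  rw [← h2, sub_sub_cancel]

/-! ### the kernel and the range -/

theorem mem_ker_iff {P : OpPair D0 D1} (hd0 : Dns D0) (S0 : Spec D0) (u : D0.toAD.WE) :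
    Ah P u = 0 ↔ u ∈ Submodule.span ℝ (Set.range fun k : S0.ker => cW D0 (ph S0 k)) := by
  constructor
  · intro h
    rw [ker_eq S0 hd0 h]
    exact Submodule.sum_mem _ fun k hk =>
      Submodule.smul_mem _ _ (Submodule.subset_span ⟨⟨k, hk⟩, rfl⟩)
  · intro h
    have h1 : Submodule.span ℝ (Set.range fun k : S0.ker => cW D0 (ph S0 k)) ≤
        LinearMap.ker (Ah P : D0.toAD.WE →ₗ[ℝ] D1.toAD.HE) := by
      rw [Submodule.span_le]
      rintro _ ⟨k, rfl⟩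
      exact Ah_ph_ker S0 hd0 (S0.mem_ker.1 k.2)
    exact h1 h

theorem linInd_cH {D : Dat n M κ} (S : Spec D) :
    LinearIndependent ℝ fun k : S.ker => cH D (ph S k) :=
  (orthonormal_ph S).linearIndependent.comp _ Subtype.coe_injective

theorem linInd_cW {D : Dat n M κ} (S : Spec D) :
    LinearIndependent ℝ fun k : S.ker => cW D (ph S k) := by
  refine LinearIndependent.of_comp (D.toAD.jj : D.toAD.WE →ₗ[ℝ] D.toAD.HE) ?_
  exact linInd_cH S

/-- **(1)** -/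
theorem ker_eq_span {P : OpPair D0 D1} (hd0 : Dns D0) (S0 : Spec D0) :
    LinearMap.ker (Ah P : D0.toAD.WE →ₗ[ℝ] D1.toAD.HE) =
      Submodule.span ℝ (Set.range fun k : S0.ker => cW D0 (ph S0 k)) := by
  ext u
  rw [LinearMap.mem_ker]
  exact mem_ker_iff hd0 S0 u

theorem finiteDimensional_ker {P : OpPair D0 D1} (hd0 : Dns D0) (S0 : Spec D0) :
    FiniteDimensional ℝ (LinearMap.ker (Ah P : D0.toAD.WE →ₗ[ℝ] D1.toAD.HE)) := by
  rw [ker_eq_span hd0 S0]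
  exact FiniteDimensional.span_of_finite ℝ (Set.finite_range _)

theorem finrank_ker {P : OpPair D0 D1} (hd0 : Dns D0) (S0 : Spec D0) :
    Module.finrank ℝ (LinearMap.ker (Ah P : D0.toAD.WE →ₗ[ℝ] D1.toAD.HE)) = S0.ker.card := by
  rw [ker_eq_span hd0 S0, finrank_span_eq_card (linInd_cW S0), Fintype.card_coe]

/-- **(3)** -/
theorem mem_range {P : OpPair D0 D1} (hd0 : Dns D0) (hd1 : Dns D1) (S1 : Spec D1)
    (f : D1.toAD.HE) : f ∈ LinearMap.range (Ah P : D0.toAD.WE →ₗ[ℝ] D1.toAD.HE) ↔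
      ∀ l ∈ S1.ker, (⟪f, cH D1 (ph S1 l)⟫ : ℝ) = 0 := by
  constructor
  · rintro ⟨u, rfl⟩ l hl
    exact inner_Ah_ker hd0 hd1 S1 u hl
  · intro h
    refine ⟨Go P S1 f, ?_⟩
    have h1 := Ah_Go (P := P) hd0 hd1 S1 f
    rw [Pk_eq_zero S1 h, sub_zero] at h1
    exact h1

theorem range_eq {P : OpPair D0 D1} (hd0 : Dns D0) (hd1 : Dns D1) (S1 : Spec D1) :
    LinearMap.range (Ah P : D0.toAD.WE →ₗ[ℝ] D1.toAD.HE) =
      (Submodule.span ℝ (Set.range fun k : S1.ker => cH D1 (ph S1 k)))ᗮ := by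
  ext f
  rw [mem_range hd0 hd1 S1, Submodule.mem_orthogonal']
  constructor
  · intro h u hu
    refine Submodule.span_induction ?_ ?_ ?_ ?_ hu
    · rintro _ ⟨k, rfl⟩
      exact h k k.2
    · exact inner_zero_right _
    · intro x y _ _ hx hy
      rw [inner_add_right, hx, hy, add_zero]
    · intro c x _ hx
      rw [real_inner_smul_right, hx, mul_zero]
  · intro h l hl
    exact h _ (Submodule.subset_span ⟨⟨l, hl⟩, rfl⟩)

theorem isClosed_range {P : OpPair D0 D1} (hd0 : Dns D0) (hd1 : Dns D1) (S1 : Spec D1) :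
    IsClosed ((LinearMap.range (Ah P : D0.toAD.WE →ₗ[ℝ] D1.toAD.HE) : Submodule ℝ D1.toAD.HE) :
      Set D1.toAD.HE) := by
  rw [range_eq hd0 hd1 S1]
  exact Submodule.isClosed_orthogonal _

instance finDim_span {D : Dat n M κ} (S : Spec D) :
    FiniteDimensional ℝ (Submodule.span ℝ (Set.range fun k : S.ker => cH D (ph S k))) :=
  FiniteDimensional.span_of_finite ℝ (Set.finite_range _)

theorem orth_range {P : OpPair D0 D1} (hd0 : Dns D0) (hd1 : Dns D1) (S1 : Spec D1) :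
    (LinearMap.range (Ah P : D0.toAD.WE →ₗ[ℝ] D1.toAD.HE))ᗮ =
      Submodule.span ℝ (Set.range fun k : S1.ker => cH D1 (ph S1 k)) := by
  rw [range_eq hd0 hd1 S1, Submodule.orthogonal_orthogonal]

theorem finrank_coker {P : OpPair D0 D1} (hd0 : Dns D0) (hd1 : Dns D1) (S1 : Spec D1) :
    Module.finrank ℝ ((LinearMap.range (Ah P : D0.toAD.WE →ₗ[ℝ] D1.toAD.HE))ᗮ :
      Submodule ℝ D1.toAD.HE) = S1.ker.card := by
  rw [orth_range hd0 hd1 S1, finrank_span_eq_card (linInd_cH S1), Fintype.card_coe]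

/-! ### representatives -/

/-- the class of an `L²` vector function. -/
def cls (f : κ → M → ℝ) (hf : ∀ a, MemLp (f a) 2 (μHE[n] : Measure M)) :
    HH (μHE[n] : Measure M) κ := WithLp.toLp 2 fun a => (hf a).toLp (f a)

theorem coe_cls (f : κ → M → ℝ) (hf : ∀ a, MemLp (f a) 2 (μHE[n] : Measure M)) :
    ∀ᵐ x ∂(μHE[n] : Measure M), ∀ a, (cls f hf a : M → ℝ) x = f a x := by
  rw [ae_all_iff]
  intro a
  exact (hf a).coeFn_toLp

theorem cls_mem (D : Dat n M κ) (f : κ → M → ℝ) (hf : ∀ a, MemLp (f a) 2 (μHE[n] : Measure M))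
    (hs : ∀ᵐ z ∂(μHE[n] : Measure M), ∀ a, ∑ b, D.p a b z * f b z = f a z) :
    D.toAD.P (cls f hf) = cls f hf := by
  ext a
  filter_upwards [D.toAD.coe_P (cls f hf), coe_cls f hf, hs] with x e1 e2 e3
  rw [e1 a, e2 a]
  simp only [e2]
  exact e3 a

/-- the class of an `L²` section. -/
def cHf (D : Dat n M κ) (f : κ → M → ℝ) (hf : ∀ a, MemLp (f a) 2 (μHE[n] : Measure M))
    (hs : ∀ᵐ z ∂(μHE[n] : Measure M), ∀ a, ∑ b, D.p a b z * f b z = f a z) : D.toAD.HE :=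
  ⟨cls f hf, cls_mem D f hf hs⟩

theorem coe_cHf (D : Dat n M κ) (f : κ → M → ℝ) (hf : ∀ a, MemLp (f a) 2 (μHE[n] : Measure M))
    (hs : ∀ᵐ z ∂(μHE[n] : Measure M), ∀ a, ∑ b, D.p a b z * f b z = f a z) :
    ∀ᵐ x ∂(μHE[n] : Measure M), ∀ a,
      (((cHf D f hf hs : D.toAD.HE) : HH (μHE[n] : Measure M) κ) a : M → ℝ) x = f a x :=
  coe_cls f hf

/-- the `L²` product with a smooth section, any representative. -/
theorem inner_rep {D : Dat n M κ} {F : HH (μHE[n] : Measure M) κ} {f : κ → M → ℝ}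
    (hf : ∀ᵐ x ∂(μHE[n] : Measure M), ∀ a, (F a : M → ℝ) x = f a x) (w : SmS D) :
    (⟪F, ((cH D w : D.toAD.HE) : HH (μHE[n] : Measure M) κ)⟫ : ℝ) =
      Crest.Agent.R249.Tv57.ip n f w.1 :=
  inner_HH F (clH w.1 w.2.1) hf (coe_clH w.1 w.2.1)

theorem inner_cHf {D : Dat n M κ} (f : κ → M → ℝ) (hf : ∀ a, MemLp (f a) 2 (μHE[n] : Measure M))
    (hs : ∀ᵐ z ∂(μHE[n] : Measure M), ∀ a, ∑ b, D.p a b z * f b z = f a z) (w : SmS D) :
    (⟪cHf D f hf hs, cH D w⟫ : ℝ) = Crest.Agent.R249.Tv57.ip n f w.1 :=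
  inner_rep (coe_cls f hf) w

/-- the representative of an element of `W^{1,2}(D)`. -/
def rp {D : Dat n M κ} (u : D.toAD.WE) : κ → M → ℝ := fun a => (D.toAD.i1 u a : M → ℝ)

theorem memLp_rp {D : Dat n M κ} (u : D.toAD.WE) (a : κ) :
    MemLp (rp u a) 2 (μHE[n] : Measure M) := Lp.memLp _

theorem sec_rp {D : Dat n M κ} (u : D.toAD.WE) :
    ∀ᵐ z ∂(μHE[n] : Measure M), ∀ a, ∑ b, D.p a b z * rp u b z = rp u a z := by
  have h0 : D.toAD.P (D.toAD.i1 u) = D.toAD.i1 u := (D.toAD.jj u).2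
  have h1 := D.toAD.coe_P (D.toAD.i1 u)
  rw [h0] at h1
  filter_upwards [h1] with z hz a
  exact (hz a).symm

theorem ip_rp {D : Dat n M κ} (u : D.toAD.WE) (w : SmS D) :
    Crest.Agent.R249.Tv57.ip n (rp u) w.1 = (⟪D.toAD.jj u, cH D w⟫ : ℝ) :=
  (inner_rep (F := D.toAD.i1 u) (Eventually.of_forall fun _ _ => rfl) w).symm

/-- the equation `A u = f` together with `u ⊥ ker A`. -/
theorem Ah_orth_iff {P : OpPair D0 D1} (hd0 : Dns D0) (hd1 : Dns D1) (S0 : Spec D0) (S1 : Spec D1)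
    {u : D0.toAD.WE} {f : D1.toAD.HE} :
    (Ah P u = f ∧ ∀ k ∈ S0.ker, (⟪D0.toAD.jj u, cH D0 (ph S0 k)⟫ : ℝ) = 0) ↔
      (u = Go P S1 f ∧ ∀ l ∈ S1.ker, (⟪f, cH D1 (ph S1 l)⟫ : ℝ) = 0) := by
  constructor
  · rintro ⟨rfl, h⟩
    refine ⟨?_, fun l hl => inner_Ah_ker hd0 hd1 S1 u hl⟩
    rw [Go_Ah hd0 hd1 S0 S1, Finset.sum_eq_zero (fun k hk => by rw [h k hk, zero_smul]), sub_zero]
  · rintro ⟨rfl, h⟩
    refine ⟨?_, fun k hk => Go_orth_ph P S0 S1 f hk⟩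
    rw [Ah_Go hd0 hd1, Pk_eq_zero S1 h, sub_zero]

/-- the dimension of a kernel is unique. -/
theorem kerD_card {D : Dat n M κ} {A : (κ → M → ℝ) → κ' → M → ℝ} {N N' : ℕ}
    (K : KerD D A N) (K' : KerD D A N') : N = N' := by
  have h : ∀ {N N' : ℕ} (K : KerD D A N) (K' : KerD D A N'),
      Submodule.span ℝ (Set.range K.u) ≤ Submodule.span ℝ (Set.range K'.u) := by
    intro N N' K K'
    rw [Submodule.span_le]
    rintro _ ⟨i, rfl⟩
    have h1 : K.u i = ∑ j, Crest.Agent.R249.Tv57.ip n (K.u i) (K'.u j) • K'.u j := by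
      funext a z
      rw [K'.span (K.u i) (K.smooth i) (K.sec i) (K.ker i) a z]
      simp only [Finset.sum_apply, Pi.smul_apply, smul_eq_mul]
    rw [h1]
    exact Submodule.sum_mem _ fun j _ => Submodule.smul_mem _ _ (Submodule.subset_span ⟨j, rfl⟩)
  have h1 := finrank_span_eq_card K.li
  have h2 := finrank_span_eq_card K'.li
  rw [le_antisymm (h K K') (h K' K), h2] at h1
  simpa using h1.symm

/-- `S0.ker.card` from `KerD`. -/
theorem card_ker (P : OpPair D0 D1) (S0 : Spec D0) {N : ℕ} (h : Nonempty (KerD D0 P.A N)) :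
    S0.ker.card = N := by
  obtain ⟨K⟩ := h
  obtain ⟨K'⟩ := exists_kerD P S0
  exact kerD_card K' K

end

/-! ### in the language of `SWDefs_53` -/

noncomputable section

open Crest.Agent.R235.SWDefs_53

variable {M : Type*} [MetricSpace M] [CompactSpace M] [ConnectedSpace M]
  [ChartedSpace (EuclideanSpace ℝ (Fin 4)) M] [IsManifold (𝓡 4) ∞ M]
  [RiemannianBundle (fun p : M => TangentSpace (𝓡 4) p)]
  [IsContMDiffRiemannianBundle (𝓡 4) ∞ (EuclideanSpace ℝ (Fin 4))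
    (fun p : M => TangentSpace (𝓡 4) p)]
  [IsRiemannianManifold (𝓡 4) M] [MeasurableSpace M] [BorelSpace M]
  [SecondCountableTopology M] [Nonempty M] [IsFiniteMeasureOnCompacts (μHE[4] : Measure M)]
  {κ κ' : Type} [Fintype κ] [Fintype κ'] {D0 : Dat 4 M κ} {D1 : Dat 4 M κ'}

/-- the density of smooth sections, `n = 4`. -/
theorem dns4 (D : Dat 4 M κ) : Dns D := Dns_433.dns D (by norm_num)

theorem inW_iff (D : Dat 4 M κ) (u : κ → M → ℝ) :
    InW D u ↔ ∃ w : D.toAD.WE, ∀ a, rp w a =ᵐ[(μHE[4] : Measure M)] u a := Iff.rfl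

theorem inW_rp {D : Dat 4 M κ} (u : D.toAD.WE) : InW D (rp u) :=
  ⟨u, fun _ => Filter.EventuallyEq.rfl⟩

/-- the weak equation, tested against a smooth section. -/
theorem ip_lA {P : OpPair D0 D1} {u : κ → M → ℝ} {U : D0.toAD.WE}
    (hU : ∀ a, rp U a =ᵐ[(μHE[4] : Measure M)] u a) (w : SmS D1) :
    Crest.Agent.R249.Tv57.ip 4 u (P.B w.1) = (⟪Ah P U, cH D1 w⟫ : ℝ) := by
  have h1 := adj (P := P) (dns4 D0) (dns4 D1) U (cW D1 w)
  rw [jj_cW, Ah_cW (dns4 D1)] at h1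
  rw [h1]
  exact (inner_rep (F := D0.toAD.i1 U) (f := u) (by
    rw [ae_all_iff]
    exact hU) (lA P.swap w)).symm

/-- **the weak equation `A u = f` is `Ah P U = f`** -/
theorem wkA_iff {P : OpPair D0 D1} {u : κ → M → ℝ} {U : D0.toAD.WE}
    (hU : ∀ a, rp U a =ᵐ[(μHE[4] : Measure M)] u a) {f : κ' → M → ℝ} :
    WkA P u f ↔ ∀ b, (((Ah P U : D1.toAD.HE) : HH (μHE[4] : Measure M) κ') b : M → ℝ)
      =ᵐ[(μHE[4] : Measure M)] f b := by
  constructor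
  · rintro ⟨hf, hs, h⟩
    have h1 : Ah P U = cHf D1 f hf hs := by
      refine Dns_433.eq_of_inner_cH D1 (by norm_num) fun w => ?_
      rw [inner_cHf, h w.1 w.2.1 w.2.2, ip_lA hU]
    rw [h1]
    exact fun b => (hf b).coeFn_toLp
  · intro h
    have hs : ∀ᵐ z ∂(μHE[4] : Measure M), ∀ b,
        (((Ah P U : D1.toAD.HE) : HH (μHE[4] : Measure M) κ') b : M → ℝ) z = f b z := by
      rw [ae_all_iff]
      exact h
    refine ⟨fun b => (memLp_congr_ae (h b)).1 (Lp.memLp _), ?_, fun w hw hsw => ?_⟩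
    · have h0 : D1.toAD.P ((Ah P U : D1.toAD.HE) : HH (μHE[4] : Measure M) κ') =
          (Ah P U : D1.toAD.HE) := (Ah P U).2
      have h1 := D1.toAD.coe_P ((Ah P U : D1.toAD.HE) : HH (μHE[4] : Measure M) κ')
      rw [h0] at h1
      filter_upwards [h1, hs] with z e1 e2 b
      have h3 := e1 b
      simp only [e2] at h3
      exact h3.symm
    · have h1 := inner_rep (D := D1) (F := ((Ah P U : D1.toAD.HE) : HH (μHE[4] : Measure M) κ'))
        (f := f) hs ⟨w, hw, hsw⟩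
      rw [← h1]
      exact (ip_lA hU ⟨w, hw, hsw⟩).symm

/-- the weak equation for a given right hand side. -/
theorem wkA_iff_eq {P : OpPair D0 D1} {u : κ → M → ℝ} {U : D0.toAD.WE}
    (hU : ∀ a, rp U a =ᵐ[(μHE[4] : Measure M)] u a) {f : κ' → M → ℝ} {F : D1.toAD.HE}
    (hF : ∀ b, ((F : HH (μHE[4] : Measure M) κ') b : M → ℝ) =ᵐ[(μHE[4] : Measure M)] f b) :
    WkA P u f ↔ Ah P U = F := by
  rw [wkA_iff hU]
  constructor
  · intro h
    apply Subtype.ext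
    ext b
    exact (h b).trans (hF b).symm
  · intro h
    rw [h]
    exact hF

/-- orthogonality to the kernel, smooth elements. -/
theorem orth_ker_iff (P : OpPair D0 D1) (S0 : Spec D0) {u : κ → M → ℝ} {U : D0.toAD.WE}
    (hU : ∀ a, rp U a =ᵐ[(μHE[4] : Measure M)] u a) :
    (∀ w : κ → M → ℝ, SmV (n := 4) w → D0.Sec w → (∀ k z, P.A w k z = 0) →
      Crest.Agent.R249.Tv57.ip 4 u w = 0) ↔
      ∀ k ∈ S0.ker, (⟪D0.toAD.jj U, cH D0 (ph S0 k)⟫ : ℝ) = 0 := by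
  have hU' : ∀ᵐ x ∂(μHE[4] : Measure M), ∀ a, (D0.toAD.i1 U a : M → ℝ) x = u a x := by
    rw [ae_all_iff]
    exact hU
  have e1 : ∀ w : SmS D0, (⟪D0.toAD.jj U, cH D0 w⟫ : ℝ) = Crest.Agent.R249.Tv57.ip 4 u w.1 :=
    fun w => inner_rep (F := D0.toAD.i1 U) hU' w
  constructor
  · intro h k hk
    rw [e1]
    refine h _ (ph S0 k).2.1 (ph S0 k).2.2 fun b z => ?_
    have h2 := congrArg (fun v : SmS D1 => v.1 b z) (lA_ker P S0 (S0.mem_ker.1 hk))
    exact h2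
  · intro h w hw hs hz
    set w' : SmS D0 := ⟨w, hw, hs⟩ with hw'
    have h2 : lA P w' = 0 := by
      apply Subtype.ext
      funext b z
      exact hz b z
    have h3 : Ah P (cW D0 w') = 0 := by rw [Ah_cW (dns4 D0), h2, map_zero]
    have h4 := ker_eq S0 (dns4 D0) h3
    have h5 : cH D0 w' = ∑ k ∈ S0.ker, (⟪D0.toAD.jj (cW D0 w'),
        D0.toAD.jj (cW D0 (ph S0 k))⟫ : ℝ) • cH D0 (ph S0 k) := by
      have h6 := congrArg D0.toAD.jj h4
      rw [map_sum] at h6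
      simp only [map_smul] at h6
      exact h6
    have h7 := e1 w'
    rw [h5, inner_sum] at h7
    rw [Finset.sum_eq_zero (fun k hk => by rw [real_inner_smul_right, h k hk, mul_zero])] at h7
    exact h7.symm

variable {κ0 κ1 κT : Type} [Fintype κ0] [Fintype κ1] [Fintype κT]

/-- `NoHarm` in `W^{1,2}`. -/
theorem noHarm_iff (S : SWS M κ0 κ1 κT) (S1 : Spec S.DT) {a : κT → M → ℝ} {A : S.DT.toAD.WE}
    (hA : ∀ b, rp A b =ᵐ[(μHE[4] : Measure M)] a b) :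
    NoHarm S a ↔ ∀ l ∈ S1.ker, (⟪S.DT.toAD.jj A, cH S.DT (ph S1 l)⟫ : ℝ) = 0 :=
  orth_ker_iff S.H.swap S1 hA

/-- **the curvature equation with the gauge condition**: `A` solves `d^+ a = F`, `d^* a = 0`
(`F` of class `L²`) and is orthogonal to the harmonic forms iff `A = G F` and `F ⊥ ker`. -/
theorem cur_iff (S : SWS M κ0 κ1 κT) (S0 : Spec S.DL) (S1 : Spec S.DT) {a : κT → M → ℝ}
    {A : S.DT.toAD.WE} (hA : ∀ b, rp A b =ᵐ[(μHE[4] : Measure M)] a b) {f : Fin 4 → M → ℝ}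
    {F : S.DL.toAD.HE}
    (hF : ∀ b, ((F : HH (μHE[4] : Measure M) (Fin 4)) b : M → ℝ) =ᵐ[(μHE[4] : Measure M)] f b) :
    (WkA S.H.swap a f ∧ NoHarm S a) ↔
      (A = Go S.H.swap S0 F ∧ ∀ l ∈ S0.ker, (⟪F, cH S.DL (ph S0 l)⟫ : ℝ) = 0) := by
  rw [wkA_iff_eq hA hF, noHarm_iff S S1 hA]
  exact Ah_orth_iff (dns4 _) (dns4 _) S1 S0

end

end Crest.Agent.R235.Fred_649
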