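import Crest.Agent.R235.FamW_307
import Crest.Agent.R235.FamP_151
import Crest.Agent.R235.SWHil_53
import Crest.Agent.R235.Hopf_143

/-!
Row 235 (S0364), PACKAGE FAM (leader helper307): TOP LEVEL.  EXACT PROPS between the blocks.

* `numJ S j`     : `∫_M ∑_σ sgn σ tr_ℝ (b_σ0^T b_σ1 b_σ2^T b_σ3)`, `b_i = c(2π al_i) i` (Clifford algebra:
                   a nonzero multiple of `∫ al_0 ∧ al_1 ∧ al_2 ∧ al_3`);
* `Model0`, `ModelH` : finite dimensional models of the family over the torus (151's `Fr`, `FamW_307.FW`)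
                   without zeros at `‖t‖ = 1`, resp. with one point on the ray and no zeros over the
                   two-tori `h_k = h_l = 1/2`;
* `RCMAN`  (820, 746, 843) : the family exists and `ch4 P = K0 * numJ` for every stabilisation;
* `FWX0`   (151; 333, 900) : no solution at `‖t‖ = 1`  ⇒  `Model0`;
* `FWXH`   (151; 900, 952, 844) : `L` trivial, Hopf family of solutions  ⇒  `ModelH`;
* `FAMX`   : assembly, `numJ ≠ 0` ⇒ there is a solution at `‖t‖ = 1` for some harmonic part;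
* `FAMHX`  : assembly, `L` trivial ⇒ `numJ ≠ 0`.
The geometric ends (`MODT`, `MODXG` ⇒ `FAM4W`, `MODX`) are in `FamMod_307`.
-/

set_option autoImplicit false
set_option maxSynthPendingDepth 3
set_option linter.unusedSectionVars false

open scoped ContDiff ENNReal NNReal Topology Manifold Bundle RealInnerProductSpace
open MeasureTheory Set Filter Metric Bundle Module

universe v

namespace Crest.Agent.R235.FamTop_307

open Crest.Agent.R235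
open Crest.Agent.R249.Tv57 (Dat OpPair SmF SmV KerD)
open Crest.Agent.R235.SWDefs_53 Crest.Agent.R235.SWSym_451
open Crest.Agent.R235.FamDefs_307 Crest.Agent.R235.FamW_307
open Crest.Agent.R235.FamR_151 (PFam)
open Crest.Agent.R235.Hopf_143 (hopf)

noncomputable section

/-! ### the number -/

section num

variable {M : Type v} [MetricSpace M] [CompactSpace M] [ConnectedSpace M]
  [ChartedSpace (EuclideanSpace ℝ (Fin 4)) M] [IsManifold (𝓡 4) ∞ M]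
  [RiemannianBundle (fun p : M => TangentSpace (𝓡 4) p)]
  [IsContMDiffRiemannianBundle (𝓡 4) ∞ (EuclideanSpace ℝ (Fin 4))
    (fun p : M => TangentSpace (𝓡 4) p)]
  [IsRiemannianManifold (𝓡 4) M] [MeasurableSpace M] [BorelSpace M]
  [SecondCountableTopology M] [Nonempty M]
  {κ0 κ1 κT : Type} [Fintype κ0] [Fintype κ1] [Fintype κT]

/-- the matrix of `b_i = c(2π al_i) i`. -/
def bJ (S : SWS M κ0 κ1 κT) (j : JD M κT 4) (i : Fin 4) (x : κ1) (y : κ0) (z : M) : ℝ :=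
  2 * Real.pi * ∑ A, j.al i A z * S.cl A x y z

/-- the matrix of `b_i^T b_k b_l^T b_m`. -/
def L4 (S : SWS M κ0 κ1 κT) (j : JD M κT 4) (i k l m : Fin 4) (y y' : κ0) (z : M) : ℝ :=
  ∑ x, ∑ y1, ∑ x1, bJ S j i x y z * bJ S j k x y1 z * bJ S j l x1 y1 z * bJ S j m x1 y' z

/-- `∫_M ∑_σ sgn σ tr (b_σ0^T b_σ1 b_σ2^T b_σ3)`. -/
def numJ (S : SWS M κ0 κ1 κT) (j : JD M κT 4) : ℝ :=
  ∫ z, ∑ σ : Equiv.Perm (Fin 4), ((Equiv.Perm.sign σ : ℤ) : ℝ) *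
    ∑ y, L4 S j (σ 0) (σ 1) (σ 2) (σ 3) y y z ∂(μHE[4] : Measure M)

end num

/-! ### finite dimensional models -/

section model

variable {X Y : Type v} [NormedAddCommGroup X] [InnerProductSpace ℂ X] [CompleteSpace X]
  [NormedAddCommGroup Y] [InnerProductSpace ℂ Y] [CompleteSpace Y]

/-- finite dimensional model without zeros at `‖t‖ = 1`. -/
def Model0 (Φ : PFam 4 X Y) : Prop :=
  ∃ (W : Submodule ℂ Y) (_ : FiniteDimensional ℂ W) (n m : ℕ) (fr : Φ.Fr W n)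
    (L : E3 ≃L[ℝ] E3) (fR : E3 × (Fin 4 → ℝ) × EuclideanSpace ℂ (Fin n) → E3)
    (fW : E3 × (Fin 4 → ℝ) × EuclideanSpace ℂ (Fin n) → EuclideanSpace ℂ (Fin m)) (R : ℝ),
    (∀ h, Function.Surjective (Φ.A W h)) ∧ FW 4 m fr.P L fR fW R ∧ NZ fr.P fR fW univ

/-- finite dimensional model with one nondegenerate point on the ray at `‖t‖ = 1`, without zeros
over the coordinate two-tori through `(1/2, …, 1/2)`. -/
def ModelH (Φ : PFam 4 X Y) : Prop :=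
  ∃ (W : Submodule ℂ Y) (_ : FiniteDimensional ℂ W) (n m : ℕ) (fr : Φ.Fr W n)
    (L : E3 ≃L[ℝ] E3) (fR : E3 × (Fin 4 → ℝ) × EuclideanSpace ℂ (Fin n) → E3)
    (fW : E3 × (Fin 4 → ℝ) × EuclideanSpace ℂ (Fin n) → EuclideanSpace ℂ (Fin m)) (R : ℝ),
    (∀ h, Function.Surjective (Φ.A W h)) ∧ FW 4 m fr.P L fR fW R ∧ OneRayW fr.P fR fW ∧
      ∀ i j : Fin 4, i ≠ j → NZ fr.P fR fW {h | ∀ k, k ≠ i → k ≠ j → h k = 1 / 2}

end model

/-! ### the index bundle -/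

/-- **RCMAN** (820 with 746, 843, 723): for every system there is a Hilbert space family such that
the Chern number of every stabilisation is `K0 * numJ`. -/
def RCMAN : Prop :=
  ∃ K0 : ℂ, K0 ≠ 0 ∧ ∀ (M : Type v) [MetricSpace M] [CompactSpace M] [ConnectedSpace M]
    [ChartedSpace (EuclideanSpace ℝ (Fin 4)) M] [IsManifold (𝓡 4) ∞ M]
    [RiemannianBundle (fun p : M => TangentSpace (𝓡 4) p)]
    [IsContMDiffRiemannianBundle (𝓡 4) ∞ (EuclideanSpace ℝ (Fin 4))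
      (fun p : M => TangentSpace (𝓡 4) p)]
    [IsRiemannianManifold (𝓡 4) M] [MeasurableSpace M] [BorelSpace M]
    [SecondCountableTopology M] [Nonempty M] [IsFiniteMeasureOnCompacts (μHE[4] : Measure M)]
    (κ0 κ1 κT : Type) [Fintype κ0] [Fintype κ1] [Fintype κT]
    (S : SWS M κ0 κ1 κT) (cc : κ1 → κ0 → M → EuclideanSpace ℝ (Fin 4)) (J1 : κ1 → κ1 → M → ℝ)
    (j : JD M κT 4), S.OK → Sym S cc → CJ1 S cc J1 → j.OK S →
    ∃ (X Y : Type v) (_ : NormedAddCommGroup X) (_ : InnerProductSpace ℂ X) (_ : CompleteSpace X)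
      (_ : NormedAddCommGroup Y) (_ : InnerProductSpace ℂ Y) (_ : CompleteSpace Y)
      (Φ : PFam 4 X Y) (eX : X ≃L[ℝ] S.D0.toAD.WE) (eY : Y ≃L[ℝ] S.D1.toAD.HE)
      (φ : Fin 4 → M → ℝ), Rep S j J1 Φ eX eY φ ∧
      (∀ d0 : ℕ, Nonempty (KerD S.D0 S.P.A d0) → Nonempty (KerD S.D1 S.P.B d0) →
        finrank ℂ (LinearMap.ker (Φ.D 0 : X →ₗ[ℂ] Y)) =
          finrank ℂ ((LinearMap.range (Φ.D 0 : X →ₗ[ℂ] Y))ᗮ : Submodule ℂ Y)) ∧
      ∀ (W : Submodule ℂ Y) [FiniteDimensional ℂ W] (n : ℕ) (fr : Φ.Fr W n),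
        (∀ h, Function.Surjective (Φ.A W h)) → ch4 tr fr.P = K0 * (numJ S j : ℂ)

/-! ### the Seiberg-Witten side -/

/-- **FWX0**: no solutions at `‖t‖ = 1`. -/
def FWX0 : Prop :=
  ∀ (M : Type v) [MetricSpace M] [CompactSpace M] [ConnectedSpace M]
    [ChartedSpace (EuclideanSpace ℝ (Fin 4)) M] [IsManifold (𝓡 4) ∞ M]
    [RiemannianBundle (fun p : M => TangentSpace (𝓡 4) p)]
    [IsContMDiffRiemannianBundle (𝓡 4) ∞ (EuclideanSpace ℝ (Fin 4))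
      (fun p : M => TangentSpace (𝓡 4) p)]
    [IsRiemannianManifold (𝓡 4) M] [MeasurableSpace M] [BorelSpace M]
    [SecondCountableTopology M] [Nonempty M] [IsFiniteMeasureOnCompacts (μHE[4] : Measure M)]
    (κ0 κ1 κT : Type) [Fintype κ0] [Fintype κ1] [Fintype κT]
    (S : SWS M κ0 κ1 κT) (cc : κ1 → κ0 → M → EuclideanSpace ℝ (Fin 4)) (J1 : κ1 → κ1 → M → ℝ)
    (j : JD M κT 4) (d : SWD M κT), S.OK → Sym S cc → CJ1 S cc J1 → j.OK S → d.Adm S →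
    ∀ (X Y : Type v) [NormedAddCommGroup X] [InnerProductSpace ℂ X] [CompleteSpace X]
      [NormedAddCommGroup Y] [InnerProductSpace ℂ Y] [CompleteSpace Y]
      (Φ : PFam 4 X Y) (eX : X ≃L[ℝ] S.D0.toAD.WE) (eY : Y ≃L[ℝ] S.D1.toAD.HE)
      (φ : Fin 4 → M → ℝ), Rep S j J1 Φ eX eY φ →
    finrank ℂ (LinearMap.ker (Φ.D 0 : X →ₗ[ℂ] Y)) =
      finrank ℂ ((LinearMap.range (Φ.D 0 : X →ₗ[ℂ] Y))ᗮ : Submodule ℂ Y) →
    Nonempty (KerD S.DL S.H.A 4) →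
    (∀ (t : E3) (h : Fin 4 → ℝ) (a : κT → M → ℝ) (u : κ0 → M → ℝ), ‖t‖ = 1 →
      ¬ Sol S (d.tw j h) t a u) → Model0 Φ

/-- **FWXH**: `L` trivial. -/
def FWXH : Prop :=
  ∀ (M : Type v) [MetricSpace M] [CompactSpace M] [ConnectedSpace M]
    [ChartedSpace (EuclideanSpace ℝ (Fin 4)) M] [IsManifold (𝓡 4) ∞ M]
    [RiemannianBundle (fun p : M => TangentSpace (𝓡 4) p)]
    [IsContMDiffRiemannianBundle (𝓡 4) ∞ (EuclideanSpace ℝ (Fin 4))
      (fun p : M => TangentSpace (𝓡 4) p)]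
    [IsRiemannianManifold (𝓡 4) M] [MeasurableSpace M] [BorelSpace M]
    [SecondCountableTopology M] [Nonempty M] [IsFiniteMeasureOnCompacts (μHE[4] : Measure M)]
    (κ0 κ1 κT : Type) [Fintype κ0] [Fintype κ1] [Fintype κT]
    (S : SWS M κ0 κ1 κT) (cc : κ1 → κ0 → M → EuclideanSpace ℝ (Fin 4)) (J1 : κ1 → κ1 → M → ℝ)
    (j : JD M κT 4) (d : SWD M κT) (ww : Fin 3 → Fin 3 → M → ℝ) (τ : E3 → TD M κT) (C : ℝ)
    (th : E3 → κT → M → ℝ) (pi : EuclideanSpace ℂ (Fin 2) → E3)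
    (U : EuclideanSpace ℂ (Fin 2) → κ0 → M → ℝ), Sym S cc → CJ1 S cc J1 → GrdH S → j.OK S →
    HopfD S ww τ C th pi U → d.FFit S ww τ C th →
    (∃ A : E3 ≃ₗᵢ[ℝ] E3, ∀ s, ‖s‖ = 1 → pi s = A (hopf s)) →
    ∀ (X Y : Type v) [NormedAddCommGroup X] [InnerProductSpace ℂ X] [CompleteSpace X]
      [NormedAddCommGroup Y] [InnerProductSpace ℂ Y] [CompleteSpace Y]
      (Φ : PFam 4 X Y) (eX : X ≃L[ℝ] S.D0.toAD.WE) (eY : Y ≃L[ℝ] S.D1.toAD.HE)
      (φ : Fin 4 → M → ℝ), Rep S j J1 Φ eX eY φ →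
    finrank ℂ (LinearMap.ker (Φ.D 0 : X →ₗ[ℂ] Y)) =
      finrank ℂ ((LinearMap.range (Φ.D 0 : X →ₗ[ℂ] Y))ᗮ : Submodule ℂ Y) →
    Nonempty (KerD S.DL S.H.A 4) → ModelH Φ

/-! ### the outputs at this level -/

/-- **FAMX** (assembly 307). -/
def FAMX : Prop :=
  ∀ (M : Type v) [MetricSpace M] [CompactSpace M] [ConnectedSpace M]
    [ChartedSpace (EuclideanSpace ℝ (Fin 4)) M] [IsManifold (𝓡 4) ∞ M]
    [RiemannianBundle (fun p : M => TangentSpace (𝓡 4) p)]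
    [IsContMDiffRiemannianBundle (𝓡 4) ∞ (EuclideanSpace ℝ (Fin 4))
      (fun p : M => TangentSpace (𝓡 4) p)]
    [IsRiemannianManifold (𝓡 4) M] [MeasurableSpace M] [BorelSpace M]
    [SecondCountableTopology M] [Nonempty M] [IsFiniteMeasureOnCompacts (μHE[4] : Measure M)]
    (κ0 κ1 κT : Type) [Fintype κ0] [Fintype κ1] [Fintype κT]
    (S : SWS M κ0 κ1 κT) (cc : κ1 → κ0 → M → EuclideanSpace ℝ (Fin 4)) (J1 : κ1 → κ1 → M → ℝ)
    (j : JD M κT 4) (d : SWD M κT) (d0 : ℕ), S.OK → Sym S cc → CJ1 S cc J1 → j.OK S → d.Adm S →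
    Nonempty (KerD S.D0 S.P.A d0) → Nonempty (KerD S.D1 S.P.B d0) →
    Nonempty (KerD S.DL S.H.A 4) → numJ S j ≠ 0 →
    ∃ (t : E3) (h : Fin 4 → ℝ) (a : κT → M → ℝ) (u : κ0 → M → ℝ), ‖t‖ = 1 ∧ Sol S (d.tw j h) t a u

/-- **FAMHX** (assembly 307). -/
def FAMHX : Prop :=
  ∀ (M : Type v) [MetricSpace M] [CompactSpace M] [ConnectedSpace M]
    [ChartedSpace (EuclideanSpace ℝ (Fin 4)) M] [IsManifold (𝓡 4) ∞ M]
    [RiemannianBundle (fun p : M => TangentSpace (𝓡 4) p)]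
    [IsContMDiffRiemannianBundle (𝓡 4) ∞ (EuclideanSpace ℝ (Fin 4))
      (fun p : M => TangentSpace (𝓡 4) p)]
    [IsRiemannianManifold (𝓡 4) M] [MeasurableSpace M] [BorelSpace M]
    [SecondCountableTopology M] [Nonempty M] [IsFiniteMeasureOnCompacts (μHE[4] : Measure M)]
    (κ0 κ1 κT : Type) [Fintype κ0] [Fintype κ1] [Fintype κT]
    (S : SWS M κ0 κ1 κT) (cc : κ1 → κ0 → M → EuclideanSpace ℝ (Fin 4)) (J1 : κ1 → κ1 → M → ℝ)
    (j : JD M κT 4) (d : SWD M κT) (ww : Fin 3 → Fin 3 → M → ℝ) (τ : E3 → TD M κT) (C : ℝ)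
    (th : E3 → κT → M → ℝ) (pi : EuclideanSpace ℂ (Fin 2) → E3)
    (U : EuclideanSpace ℂ (Fin 2) → κ0 → M → ℝ) (d0 : ℕ), Sym S cc → CJ1 S cc J1 → GrdH S →
    j.OK S → HopfD S ww τ C th pi U → d.FFit S ww τ C th →
    (∃ A : E3 ≃ₗᵢ[ℝ] E3, ∀ s, ‖s‖ = 1 → pi s = A (hopf s)) →
    Nonempty (KerD S.D0 S.P.A d0) → Nonempty (KerD S.D1 S.P.B d0) →
    Nonempty (KerD S.DL S.H.A 4) → numJ S j ≠ 0

/-- **FAMX** from the blocks. -/
theorem famx_of (hR : RCMAN.{v}) (hS : FWX0.{v}) (hF : FIN4) : FAMX.{v} := by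
  intro M _ _ _ _ _ _ _ _ _ _ _ _ _ κ0 κ1 κT _ _ _ S cc J1 j d d0 hOK hsym hJ1 hj hd h0 h1 h4 hn
  obtain ⟨K0, hK0, hR⟩ := hR
  by_contra hcon
  push Not at hcon
  obtain ⟨X, Y, iX, jX, kX, iY, jY, kY, Φ, eX, eY, φ, hrep, hind, hch⟩ :=
    hR M κ0 κ1 κT S cc J1 j hOK hsym hJ1 hj
  obtain ⟨W, hW, n, m, fr, L, fR, fW, R, hs, hfw, hnz⟩ :=
    hS M κ0 κ1 κT S cc J1 j d hOK hsym hJ1 hj hd X Y Φ eX eY φ hrep (hind d0 h0 h1) h4
      (fun t h a u ht => hcon t h a u ht)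
  have e1 := hF _ _ _ _ m fr.P L fR fW R hfw hnz
  have e2 := hch W n fr hs
  rw [e1] at e2
  exact mul_ne_zero hK0 (Complex.ofReal_ne_zero.2 hn) e2.symm

/-- **FAMHX** from the blocks. -/
theorem famhx_of (hR : RCMAN.{v}) (hS : FWXH.{v}) (hF : FINH4) : FAMHX.{v} := by
  intro M _ _ _ _ _ _ _ _ _ _ _ _ _ κ0 κ1 κT _ _ _ S cc J1 j d ww τ C th pi U d0 hsym hJ1 hG hj
    hH hfit hA h0 h1 h4 hn
  obtain ⟨K0, hK0, hR⟩ := hR
  obtain ⟨X, Y, iX, jX, kX, iY, jY, kY, Φ, eX, eY, φ, hrep, hind, hch⟩ :=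
    hR M κ0 κ1 κT S cc J1 j hH.fam.ok hsym hJ1 hj
  obtain ⟨W, hW, n, m, fr, L, fR, fW, R, hs, hfw, hone, hnz⟩ :=
    hS M κ0 κ1 κT S cc J1 j d ww τ C th pi U hsym hJ1 hG hj hH hfit hA X Y Φ eX eY φ hrep
      (hind d0 h0 h1) h4
  have e1 := hF _ _ _ _ m fr.P L fR fW R hfw hone hnz
  have e2 := hch W n fr hs
  rw [hn] at e2
  exact e1 (by rw [e2]; simp)

end

end Crest.Agent.R235.FamTop_307
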