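import Mathlib

/-!
Row 235 (S0364), block FDJ (helper778): the cut-off function of a ray, determinants of complex
linear maps, lower bounds of injective families.
-/

set_option autoImplicit false

open MeasureTheory Set Filter Topology Module
open scoped ContDiff

noncomputable section

namespace Crest.Agent.R235.FdJa_778

/-- smooth monotone step with derivative a bump in `(-δ, δ)` -/
theorem exists_step {δ : ℝ} (hδ : 0 < δ) : ∃ s a : ℝ → ℝ, ContDiff ℝ 1 s ∧ Continuous a ∧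
    (∀ x, HasDerivAt s (a x) x) ∧ (∀ x, 0 ≤ a x) ∧ 0 < a 0 ∧ (∀ x, a x ≠ 0 → |x| < δ) ∧
    (∀ x, s x ≠ 0 → -δ < x) := by
  let B : ContDiffBump (0 : ℝ) := ⟨δ / 2, δ, by positivity, by linarith⟩
  have hB : Continuous B := B.continuous
  have hB0 : ∀ x, x ≤ -δ → B x = 0 := by
    intro x hx
    refine B.zero_of_le_dist ?_
    show δ ≤ dist x 0
    rw [Real.dist_eq, sub_zero]
    have := neg_abs_le x
    linarith
  let s : ℝ → ℝ := fun x => ∫ u in (-δ)..x, B u
  have hs : ∀ x, HasDerivAt s (B x) x := fun x =>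
    intervalIntegral.integral_hasDerivAt_right (hB.intervalIntegrable _ _)
      (hB.stronglyMeasurableAtFilter _ _) hB.continuousAt
  refine ⟨s, B, ?_, hB, hs, fun x => B.nonneg, ?_, ?_, ?_⟩
  · rw [contDiff_one_iff_deriv]
    refine ⟨fun x => (hs x).differentiableAt, ?_⟩
    have : deriv s = B := by
      funext x
      exact (hs x).deriv
    rw [this]
    exact hB
  · rw [B.one_of_mem_closedBall (Metric.mem_closedBall_self (by positivity))]
    exact one_pos
  · intro x hx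
    by_contra h
    push Not at h
    refine hx (B.zero_of_le_dist ?_)
    show δ ≤ dist x 0
    rwa [Real.dist_eq, sub_zero]
  · intro x hx
    by_contra h
    push Not at h
    apply hx
    show ∫ u in (-δ)..x, B u = 0
    rw [intervalIntegral.integral_symm]
    rw [neg_eq_zero]
    refine intervalIntegral.integral_zero_ae (Eventually.of_forall fun u hu => ?_)
    rw [uIoc_of_le h] at hu
    exact hB0 u hu.2

/-- the cut-off function of the ray `{s v : s ≥ 0}` -/
theorem exists_zeta {Y : Type*} [NormedAddCommGroup Y] [NormedSpace ℝ Y] [FiniteDimensional ℝ Y]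
    (v : Y) (lam : Y →L[ℝ] ℝ) (hlam : lam v = 1) {δ : ℝ} (hδ : 0 < δ) :
    ∃ ζ : Y → ℝ, ContDiff ℝ 1 ζ ∧
      (∀ y, ζ y ≠ 0 → -δ < lam y ∧ ‖y - lam y • v‖ < δ) ∧
      (∀ y, 0 ≤ fderiv ℝ ζ y v) ∧ 0 < fderiv ℝ ζ 0 v ∧
      (∀ y, fderiv ℝ ζ y v ≠ 0 → |lam y| < δ ∧ ‖y - lam y • v‖ < δ) := by
  obtain ⟨s, a, hs1, hac, hsd, ha0, ha1, ha2, hs2⟩ := exists_step hδ
  let B : ContDiffBump (0 : Y) := ⟨δ / 2, δ, by positivity, by linarith⟩
  let pr : Y →L[ℝ] Y := ContinuousLinearMap.id ℝ Y - lam.smulRight v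
  have hpr : ∀ y, pr y = y - lam y • v := fun y => rfl
  have hprv : pr v = 0 := by rw [hpr, hlam, one_smul, sub_self]
  have hB1 : ContDiff ℝ 1 B := B.contDiff
  let ζ : Y → ℝ := fun y => s (lam y) * B (pr y)
  have hζ : ContDiff ℝ 1 ζ := (hs1.comp lam.contDiff).mul (hB1.comp pr.contDiff)
  have hBz : ∀ y, B y ≠ 0 → ‖y‖ < δ := by
    intro y hy
    by_contra h
    push Not at h
    refine hy (B.zero_of_le_dist ?_)
    show δ ≤ dist y 0
    rwa [dist_zero_right]
  have hder : ∀ y, fderiv ℝ ζ y v = a (lam y) * B (pr y) := by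
    intro y
    have h1 : HasFDerivAt (fun y => s (lam y)) (a (lam y) • lam) y :=
      (hsd (lam y)).comp_hasFDerivAt y lam.hasFDerivAt
    have h2 : HasFDerivAt (fun y => B (pr y)) ((fderiv ℝ B (pr y)).comp pr) y :=
      HasFDerivAt.comp y (g := B) (hB1.differentiable one_ne_zero (pr y)).hasFDerivAt
        pr.hasFDerivAt
    have h3 : fderiv ℝ ζ y = _ := (h1.mul h2).fderiv
    rw [h3]
    simp only [_root_.add_apply, _root_.smul_apply, ContinuousLinearMap.comp_apply, hprv,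
      map_zero, smul_eq_mul, mul_zero, zero_add, hlam, mul_one]
    ring
  refine ⟨ζ, hζ, ?_, ?_, ?_, ?_⟩
  · intro y hy
    exact ⟨hs2 _ (left_ne_zero_of_mul hy), hBz _ (right_ne_zero_of_mul hy)⟩
  · intro y
    rw [hder]
    exact mul_nonneg (ha0 _) B.nonneg
  · rw [hder, map_zero, map_zero,
      B.one_of_mem_closedBall (Metric.mem_closedBall_self (by positivity)), mul_one]
    exact ha1
  · intro y hy
    rw [hder] at hy
    exact ⟨ha2 _ (left_ne_zero_of_mul hy), hBz _ (right_ne_zero_of_mul hy)⟩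

/-- a compact set off a ray stays off a neighbourhood of the ray under small perturbations -/
theorem ray_far {X Y : Type*} [TopologicalSpace X] [NormedAddCommGroup Y] [NormedSpace ℝ Y]
    (v : Y) (lam : Y →L[ℝ] ℝ) (K : Set X) (hK : IsCompact K) (F : X → Y) (hF : Continuous F)
    (h : ∀ x ∈ K, ∀ s : ℝ, 0 ≤ s → F x ≠ s • v) :
    ∃ δ > 0, ∃ ε > 0, ∀ x ∈ K, ∀ y, ‖y - F x‖ < ε → ¬ (-δ < lam y ∧ ‖y - lam y • v‖ < δ) := by
  let φ : Y → ℝ := fun y => max (-lam y) ‖y - lam y • v‖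
  have hφ : Continuous φ :=
    lam.continuous.neg.max ((continuous_id.sub (lam.continuous.smul continuous_const)).norm)
  rcases K.eq_empty_or_nonempty with rfl | hne
  · exact ⟨1, one_pos, 1, one_pos, fun x hx => absurd hx (notMem_empty x)⟩
  obtain ⟨x₀, hx₀, hmin⟩ := hK.exists_isMinOn hne (hφ.comp hF).continuousOn
  have hpos : 0 < φ (F x₀) := by
    by_contra hle
    push Not at hle
    have h1 : 0 ≤ lam (F x₀) := by
      have := (le_max_left (-lam (F x₀)) _).trans hle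
      linarith
    have h2 : ‖F x₀ - lam (F x₀) • v‖ ≤ 0 := (le_max_right _ _).trans hle
    have h3 : F x₀ - lam (F x₀) • v = 0 := norm_le_zero_iff.1 h2
    exact h x₀ hx₀ _ h1 (sub_eq_zero.1 h3)
  set m₀ : ℝ := φ (F x₀) with hm₀
  let O : Set Y := {y | m₀ / 2 < φ y}
  have hO : IsOpen O := isOpen_lt continuous_const hφ
  have hsub : F '' K ⊆ O := by
    rintro _ ⟨x, hx, rfl⟩
    have h4 : φ (F x₀) ≤ φ (F x) := hmin hx
    show m₀ / 2 < φ (F x)
    linarith
  obtain ⟨ε, hε, hth⟩ := (hK.image hF).exists_thickening_subset_open hO hsub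
  refine ⟨m₀ / 2, by positivity, ε, hε, fun x hx y hy hcon => ?_⟩
  have h5 : y ∈ O := hth (Metric.mem_thickening_iff.2 ⟨F x, mem_image_of_mem F hx, by
    rwa [dist_eq_norm]⟩)
  have h6 : m₀ / 2 < max (-lam y) ‖y - lam y • v‖ := h5
  rcases lt_max_iff.1 h6 with h7 | h7
  · linarith [hcon.1]
  · linarith [hcon.2]

/-- complex linear isomorphisms preserve the orientation -/
theorem det_pos {W : Type*} [NormedAddCommGroup W] [NormedSpace ℂ W] [FiniteDimensional ℂ W]
    (a : W →L[ℂ] W) (ha : Function.Injective a) :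
    0 < LinearMap.det ((a : W →ₗ[ℂ] W).restrictScalars ℝ) := by
  rw [LinearMap.det_restrictScalars, Algebra.norm_complex_apply]
  refine Complex.normSq_pos.2 fun h0 => ?_
  have h1 : LinearMap.ker (a : W →ₗ[ℂ] W) = ⊥ := LinearMap.ker_eq_bot.2 ha
  have h2 := (LinearEquiv.ofInjectiveEndo (a : W →ₗ[ℂ] W) ha).isUnit_det'
  have h3 : ((LinearEquiv.ofInjectiveEndo (a : W →ₗ[ℂ] W) ha : W ≃ₗ[ℂ] W) : W →ₗ[ℂ] W)
      = (a : W →ₗ[ℂ] W) := by
    ext x; rfl
  rw [h3, h0] at h2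
  exact not_isUnit_zero h2

/-- uniform lower bound of an injective continuous family on a compact set -/
theorem lower_bound {B W H : Type*} [TopologicalSpace B] [NormedAddCommGroup W] [NormedSpace ℂ W]
    [FiniteDimensional ℂ W] [NormedAddCommGroup H] [NormedSpace ℂ H] (C : Set B)
    (hC : IsCompact C) (e : B → W →L[ℂ] H) (he : Continuous e)
    (hi : ∀ θ ∈ C, Function.Injective (e θ)) : ∃ c > 0, ∀ θ ∈ C, ∀ w, c * ‖w‖ ≤ ‖e θ w‖ := by
  have : ProperSpace W := FiniteDimensional.proper ℂ W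
  let S : Set (B × W) := C ×ˢ Metric.sphere (0 : W) 1
  have hS : IsCompact S := hC.prod (isCompact_sphere _ _)
  have hc : Continuous fun x : B × W => ‖e x.1 x.2‖ :=
    ((he.comp continuous_fst).clm_apply continuous_snd).norm
  rcases S.eq_empty_or_nonempty with hS0 | hne
  · refine ⟨1, one_pos, fun θ hθ w => ?_⟩
    by_cases hw : w = 0
    · simp [hw]
    · exfalso
      have h1 : (θ, ((‖w‖⁻¹ : ℝ) : ℂ) • w) ∈ S := by
        refine ⟨hθ, ?_⟩
        rw [mem_sphere_zero_iff_norm, norm_smul]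
        have h2 : ‖w‖ ≠ 0 := norm_ne_zero_iff.2 hw
        simp [h2]
      rw [hS0] at h1
      exact notMem_empty _ h1
  · obtain ⟨x₀, hx₀, hmin⟩ := hS.exists_isMinOn hne hc.continuousOn
    have hpos : 0 < ‖e x₀.1 x₀.2‖ := by
      rw [norm_pos_iff]
      intro h0
      have h1 : x₀.2 = 0 := (injective_iff_map_eq_zero (e x₀.1)).1 (hi _ hx₀.1) _ h0
      have h2 := mem_sphere_zero_iff_norm.1 hx₀.2
      rw [h1, norm_zero] at h2
      exact zero_ne_one h2
    refine ⟨‖e x₀.1 x₀.2‖, hpos, fun θ hθ w => ?_⟩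
    by_cases hw : w = 0
    · simp [hw]
    have h3 : ‖w‖ ≠ 0 := norm_ne_zero_iff.2 hw
    have h1 : (θ, ((‖w‖⁻¹ : ℝ) : ℂ) • w) ∈ S := by
      refine ⟨hθ, ?_⟩
      rw [mem_sphere_zero_iff_norm, norm_smul]
      simp [h3]
    have h4 : ‖e x₀.1 x₀.2‖ ≤ ‖e θ (((‖w‖⁻¹ : ℝ) : ℂ) • w)‖ := hmin h1
    rw [map_smul, norm_smul] at h4
    have h5 : ‖((‖w‖⁻¹ : ℝ) : ℂ)‖ = ‖w‖⁻¹ := by simp
    rw [h5] at h4
    have h6 : 0 < ‖w‖ := norm_pos_iff.2 hw
    calc ‖e x₀.1 x₀.2‖ * ‖w‖ ≤ (‖w‖⁻¹ * ‖e θ w‖) * ‖w‖ := by gcongr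
      _ = ‖e θ w‖ := by field_simp

end Crest.Agent.R235.FdJa_778
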