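import Mathlib

/-!
# R235, block FDJ (helper143): smooth frames of a smooth family of projections

* `exists_frame` : `P : (Fin b → ℝ) → H →L[ℂ] H` smooth, `P h ∘ P h = P h`, rank `m` at `h₀`:
  on every ball round `h₀` there is a smooth injective frame `e h : ℂ^m → range (P h)`
  (`e h = P h ∘ P (h₀ + (k-1)(h-h₀)/k) ∘ ⋯ ∘ P (h₀ + (h-h₀)/k) ∘ e₀`).
* `exists_frame_inv` : the same with a smooth left inverse near the ball.
-/

set_option autoImplicit false

open Set Filter Topology Module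
open scoped ContDiff

noncomputable section

namespace Crest.Agent.R235.Frame_143

variable {B H F : Type*} [NormedAddCommGroup B] [NormedSpace ℝ B]
  [NormedAddCommGroup H] [NormedSpace ℂ H] [NormedAddCommGroup F] [NormedSpace ℂ F]

/-- the intermediate point -/
def pt (h₀ h : B) (k j : ℕ) : B := h₀ + ((j : ℝ) / k) • (h - h₀)

/-- product of projections along the segment -/
def fr (P : B → H →L[ℂ] H) (e₀ : F →L[ℂ] H) (h₀ : B) (k : ℕ) : ℕ → B → F →L[ℂ] H
  | 0 => fun _ => e₀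
  | j + 1 => fun h => (P (pt h₀ h k (j + 1))).comp (fr P e₀ h₀ k j h)

theorem contDiff_pt (h₀ : B) (k j : ℕ) : ContDiff ℝ ∞ (fun h => pt h₀ h k j) := by
  unfold pt
  exact contDiff_const.add ((contDiff_id.sub contDiff_const).const_smul _)

theorem contDiff_fr {P : B → H →L[ℂ] H} (hP : ContDiff ℝ ∞ P) (e₀ : F →L[ℂ] H) (h₀ : B) (k : ℕ) :
    ∀ j, ContDiff ℝ ∞ (fr P e₀ h₀ k j)
  | 0 => contDiff_const
  | j + 1 => by
    have h1 := contDiff_fr hP e₀ h₀ k j
    have h2 : ContDiff ℝ ∞ (fun h => P (pt h₀ h k (j + 1))) := hP.comp (contDiff_pt h₀ k (j + 1))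
    have h3 : IsBoundedBilinearMap ℝ
        (fun q : (H →L[ℂ] H) × (F →L[ℂ] H) => q.1.comp q.2) := by
      refine ⟨fun x₁ x₂ y => ?_, fun c x y => ?_, fun x y₁ y₂ => ?_, fun c x y => ?_, 1, one_pos,
        fun x y => ?_⟩
      · ext v; simp
      · ext v; simp
      · ext v; simp
      · ext v; simp
      · simpa using x.opNorm_comp_le y
    exact h3.contDiff.comp (h2.prodMk h1)

theorem dist_pt {h₀ h : B} {r : ℝ} (hr : ‖h - h₀‖ ≤ r) {k j : ℕ} (hk : 0 < k) :
    ‖pt h₀ h k (j + 1) - pt h₀ h k j‖ ≤ r / k := by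
  have hk' : (0 : ℝ) < k := by exact_mod_cast hk
  have h1 : pt h₀ h k (j + 1) - pt h₀ h k j = ((1 : ℝ) / k) • (h - h₀) := by
    unfold pt
    rw [add_sub_add_left_eq_sub, ← sub_smul]
    congr 1
    push_cast
    field_simp
    ring
  rw [h1, norm_smul, Real.norm_of_nonneg (by positivity)]
  rw [div_mul_eq_mul_div, one_mul]
  gcongr

theorem pt_mem {h₀ h : B} {r : ℝ} (hr : ‖h - h₀‖ ≤ r) {k j : ℕ} (hk : 0 < k) (hj : j ≤ k) :
    pt h₀ h k j ∈ Metric.closedBall h₀ r := by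
  have hk' : (0 : ℝ) < k := by exact_mod_cast hk
  have hj' : (j : ℝ) ≤ k := by exact_mod_cast hj
  rw [mem_closedBall_iff_norm]
  unfold pt
  rw [add_sub_cancel_left, norm_smul, Real.norm_of_nonneg (by positivity)]
  have h1 : (j : ℝ) / k ≤ 1 := (div_le_one hk').2 hj'
  calc (j : ℝ) / k * ‖h - h₀‖ ≤ 1 * ‖h - h₀‖ := by gcongr
    _ ≤ r := by simpa using hr

theorem pt_zero (h₀ h : B) (k : ℕ) : pt h₀ h k 0 = h₀ := by simp [pt]

theorem pt_self (h₀ h : B) {k : ℕ} (hk : 0 < k) : pt h₀ h k k = h := by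
  have hk' : (k : ℝ) ≠ 0 := by exact_mod_cast hk.ne'
  simp [pt, div_self hk']

/-- close projections: `Q` is injective on the range of `P` -/
theorem inj_of_close {P Q : H →L[ℂ] H} (h : ‖P - Q‖ < 1) {v : H} (hv : P v = v) (hQ : Q v = 0) :
    v = 0 := by
  by_contra hne
  have h1 : (0 : ℝ) < ‖v‖ := norm_pos_iff.2 hne
  have h2 : ‖v‖ ≤ ‖P - Q‖ * ‖v‖ := by
    have := (P - Q).le_opNorm v
    rwa [_root_.sub_apply, hv, hQ, sub_zero] at this
  nlinarith

/-- frame on a ball, general base -/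
theorem exists_frame' [ProperSpace B] {P : B → H →L[ℂ] H} (hP : ContDiff ℝ ∞ P)
    (hPP : ∀ h v, P h (P h v) = P h v) (h₀ : B) (r : ℝ) (e₀ : F →L[ℂ] H)
    (he₀ : Function.Injective e₀) (hP₀ : ∀ z, P h₀ (e₀ z) = e₀ z) :
    ∃ e : B → F →L[ℂ] H, ContDiff ℝ ∞ e ∧ (∀ h z, P h (e h z) = e h z) ∧
      ∀ h, ‖h - h₀‖ ≤ r → Function.Injective (e h) := by
  have hK : IsCompact (Metric.closedBall h₀ r) := isCompact_closedBall h₀ r
  have huc := hK.uniformContinuousOn_of_continuous hP.continuous.continuousOn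
  rw [Metric.uniformContinuousOn_iff] at huc
  obtain ⟨δ, hδ, hδ'⟩ := huc 1 one_pos
  obtain ⟨k, hk⟩ := exists_nat_gt (|r| / δ)
  have hk0 : (0 : ℝ) < k := lt_of_le_of_lt (by positivity) hk
  have hkn : 0 < k := by exact_mod_cast hk0
  have hrk : r / k < δ := by
    rw [div_lt_iff₀ hk0]
    rw [div_lt_iff₀ hδ] at hk
    linarith [le_abs_self r]
  refine ⟨fr P e₀ h₀ k k, contDiff_fr hP e₀ h₀ k k, ?_, ?_⟩
  · intro h z
    obtain ⟨j, rfl⟩ := Nat.exists_eq_succ_of_ne_zero hkn.ne'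
    show P h (P (pt h₀ h (j + 1) (j + 1)) _) = P (pt h₀ h (j + 1) (j + 1)) _
    rw [pt_self h₀ h hkn]
    exact hPP h _
  · intro h hh
    have key : ∀ j, j ≤ k → Function.Injective (fr P e₀ h₀ k j h) ∧
        ∀ z, P (pt h₀ h k j) (fr P e₀ h₀ k j h z) = fr P e₀ h₀ k j h z := by
      intro j
      induction j with
      | zero =>
        intro _
        refine ⟨he₀, fun z => ?_⟩
        rw [pt_zero]
        exact hP₀ z
      | succ j ih =>
        intro hj
        obtain ⟨h1, h2⟩ := ih (Nat.le_of_succ_le hj)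
        refine ⟨?_, fun z => hPP _ _⟩
        rw [injective_iff_map_eq_zero]
        intro z hz
        have h3 : ‖P (pt h₀ h k j) - P (pt h₀ h k (j + 1))‖ < 1 := by
          rw [← dist_eq_norm]
          refine hδ' _ (pt_mem hh hkn (Nat.le_of_succ_le hj)) _ (pt_mem hh hkn hj) ?_
          rw [dist_eq_norm, norm_sub_rev]
          exact lt_of_le_of_lt (dist_pt hh hkn) hrk
        have h4 := inj_of_close h3 (h2 z) hz
        exact (injective_iff_map_eq_zero _).1 h1 z h4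
    exact (key k le_rfl).1

/-- frame on a ball -/
theorem exists_frame {b m : ℕ} {P : (Fin b → ℝ) → H →L[ℂ] H} (hP : ContDiff ℝ ∞ P)
    (hPP : ∀ h v, P h (P h v) = P h v) (h₀ : Fin b → ℝ) (r : ℝ)
    [FiniteDimensional ℂ (LinearMap.range (P h₀).toLinearMap)]
    (hm : finrank ℂ (LinearMap.range (P h₀).toLinearMap) = m) :
    ∃ e : (Fin b → ℝ) → (Fin m → ℂ) →L[ℂ] H, ContDiff ℝ ∞ e ∧ (∀ h z, P h (e h z) = e h z) ∧
      ∀ h, ‖h - h₀‖ ≤ r → Function.Injective (e h) := by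
  have e1 : (Fin m → ℂ) ≃ₗ[ℂ] LinearMap.range (P h₀).toLinearMap :=
    LinearEquiv.ofFinrankEq _ _ (by simp [hm])
  let e₀ : (Fin m → ℂ) →L[ℂ] H :=
    LinearMap.toContinuousLinearMap ((LinearMap.range (P h₀).toLinearMap).subtype ∘ₗ e1.toLinearMap)
  have h0 : ∀ z, e₀ z = (e1 z : H) := fun z => rfl
  refine exists_frame' hP hPP h₀ r e₀ ?_ ?_
  · intro z w hzw
    rw [h0, h0] at hzw
    exact e1.injective (Subtype.ext hzw)
  · intro z
    rw [h0]
    obtain ⟨w, hw⟩ := (e1 z).2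
    rw [← hw]
    exact hPP h₀ w

/-- injectivity and surjectivity on the range -/
theorem range_eq [FiniteDimensional ℂ H] [FiniteDimensional ℂ F] {P : H →L[ℂ] H} {e : F →L[ℂ] H}
    (hr : finrank ℂ (LinearMap.range P.toLinearMap) = finrank ℂ F) (hi : Function.Injective e)
    (he : ∀ z, P (e z) = e z) (v : H) : ∃ z, e z = P v := by
  have h1 : LinearMap.range e.toLinearMap ≤ LinearMap.range P.toLinearMap := by
    rintro _ ⟨z, rfl⟩
    exact ⟨e z, he z⟩
  have h2 : finrank ℂ (LinearMap.range e.toLinearMap) = finrank ℂ F :=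
    LinearMap.finrank_range_of_inj hi
  have h3 := Submodule.eq_of_le_of_finrank_eq h1 (h2.trans hr.symm)
  have h4 : P v ∈ LinearMap.range e.toLinearMap := by
    rw [h3]
    exact ⟨v, rfl⟩
  exact h4

/-- smooth left inverse of a smooth frame: `D h (e h z) = z`, `e h (D h v) = P h v` -/
theorem exists_inv [FiniteDimensional ℂ H] [FiniteDimensional ℂ F] {P : B → H →L[ℂ] H}
    (hP : ContDiff ℝ ∞ P) (hr : ∀ h, finrank ℂ (LinearMap.range (P h).toLinearMap) = finrank ℂ F)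
    {e : B → F →L[ℂ] H} (he : ContDiff ℝ ∞ e) (hPe : ∀ h z, P h (e h z) = e h z) :
    ∃ D : B → H →L[ℂ] F, ∀ h, Function.Injective (e h) → ContDiffAt ℝ ∞ D h ∧
      (∀ z, D h (e h z) = z) ∧ (∀ v, e h (D h v) = P h v) := by
  classical
  have : CompleteSpace F := FiniteDimensional.complete ℂ F
  have hS : ∀ h, Function.Injective (e h) → ∃ S : H →L[ℂ] F, ∀ z, S (e h z) = z := by
    intro h hi
    obtain ⟨S, hS⟩ := LinearMap.exists_leftInverse_of_injective (e h).toLinearMap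
      (LinearMap.ker_eq_bot.2 hi)
    exact ⟨LinearMap.toContinuousLinearMap S, fun z => LinearMap.congr_fun hS z⟩
  let S : B → H →L[ℂ] F := fun h =>
    if hi : Function.Injective (e h) then Classical.choose (hS h hi) else 0
  have hSe : ∀ h, Function.Injective (e h) → ∀ z, S h (e h z) = z := by
    intro h hi z
    simp only [S, dif_pos hi]
    exact Classical.choose_spec (hS h hi) z
  have hcomp : IsBoundedBilinearMap ℝ (fun q : (H →L[ℂ] F) × (F →L[ℂ] H) => q.1.comp q.2) := by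
    refine ⟨fun x₁ x₂ y => ?_, fun c x y => ?_, fun x y₁ y₂ => ?_, fun c x y => ?_, 1, one_pos,
      fun x y => ?_⟩
    · ext v; simp
    · ext v; simp
    · ext v; simp
    · ext v; simp
    · simpa using x.opNorm_comp_le y
  have hcomp2 : IsBoundedBilinearMap ℝ (fun q : (H →L[ℂ] F) × (H →L[ℂ] H) => q.1.comp q.2) := by
    refine ⟨fun x₁ x₂ y => ?_, fun c x y => ?_, fun x y₁ y₂ => ?_, fun c x y => ?_, 1, one_pos,
      fun x y => ?_⟩
    · ext v; simp
    · ext v; simp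
    · ext v; simp
    · ext v; simp
    · simpa using x.opNorm_comp_le y
  have hcomp3 : IsBoundedBilinearMap ℝ (fun q : (F →L[ℂ] F) × (H →L[ℂ] F) => q.1.comp q.2) := by
    refine ⟨fun x₁ x₂ y => ?_, fun c x y => ?_, fun x y₁ y₂ => ?_, fun c x y => ?_, 1, one_pos,
      fun x y => ?_⟩
    · ext v; simp
    · ext v; simp
    · ext v; simp
    · ext v; simp
    · simpa using x.opNorm_comp_le y
  refine ⟨fun h => (S h).comp (P h), fun h₁ hi₁ => ⟨?_, ?_, ?_⟩⟩
  · -- local formula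
    let G : B → F →L[ℂ] F := fun h => (S h₁).comp (e h)
    have hG : ContDiff ℝ ∞ G := hcomp.contDiff.comp (contDiff_const.prodMk he)
    have hG1 : G h₁ = ((ContinuousLinearEquiv.refl ℂ F : F ≃L[ℂ] F) : F →L[ℂ] F) := by
      ext z
      exact hSe h₁ hi₁ z
    have hnb : ∀ᶠ h in 𝓝 h₁, ∃ u : F ≃L[ℂ] F, (u : F →L[ℂ] F) = G h := by
      have h1 := (ContinuousLinearEquiv.refl ℂ F).nhds
      rw [← hG1] at h1
      exact hG.continuous.continuousAt h1
    have hinv : ContDiffAt ℝ ∞ (fun h => ContinuousLinearMap.inverse (G h)) h₁ := by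
      have h1 : ContDiffAt ℂ ∞ (ContinuousLinearMap.inverse : (F →L[ℂ] F) → (F →L[ℂ] F)) (G h₁) := by
        rw [hG1]
        exact contDiffAt_map_inverse _
      exact (h1.restrict_scalars ℝ).comp h₁ hG.contDiffAt
    have hloc : ContDiffAt ℝ ∞
        (fun h => (ContinuousLinearMap.inverse (G h)).comp ((S h₁).comp (P h))) h₁ := by
      refine hcomp3.contDiff.contDiffAt.comp h₁ (hinv.prodMk ?_)
      exact hcomp2.contDiff.contDiffAt.comp h₁ (contDiffAt_const.prodMk hP.contDiffAt)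
    refine hloc.congr_of_eventuallyEq ?_
    filter_upwards [hnb] with h ⟨u, hu⟩
    have hi : Function.Injective (e h) := by
      intro z w hzw
      apply u.injective
      have h2 : (u : F →L[ℂ] F) z = (u : F →L[ℂ] F) w := by
        rw [hu]
        show S h₁ (e h z) = S h₁ (e h w)
        rw [hzw]
      exact h2
    ext v
    obtain ⟨z, hz⟩ := range_eq (hr h) hi (hPe h) v
    show S h (P h v) = ContinuousLinearMap.inverse (G h) (S h₁ (P h v))
    rw [← hz, hSe h hi z, ← hu, ContinuousLinearMap.inverse_equiv]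
    have h3 : S h₁ (e h z) = u z := by
      have : (u : F →L[ℂ] F) z = G h z := by rw [hu]
      exact this.symm
    rw [h3]
    simp
  · intro z
    show S h₁ (P h₁ (e h₁ z)) = z
    rw [hPe, hSe h₁ hi₁]
  · intro v
    obtain ⟨z, hz⟩ := range_eq (hr h₁) hi₁ (hPe h₁) v
    show e h₁ (S h₁ (P h₁ v)) = P h₁ v
    rw [← hz, hSe h₁ hi₁]

/-- frame on a ball with a smooth left inverse -/
theorem exists_frame_inv {b m : ℕ} [FiniteDimensional ℂ H] {P : (Fin b → ℝ) → H →L[ℂ] H}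
    (hP : ContDiff ℝ ∞ P) (hPP : ∀ h v, P h (P h v) = P h v) (h₀ : Fin b → ℝ) (r : ℝ)
    (hm : ∀ h, finrank ℂ (LinearMap.range (P h).toLinearMap) = m) :
    ∃ (e : (Fin b → ℝ) → (Fin m → ℂ) →L[ℂ] H) (D : (Fin b → ℝ) → H →L[ℂ] (Fin m → ℂ)),
      ContDiff ℝ ∞ e ∧ (∀ h z, P h (e h z) = e h z) ∧
      ∀ h, ‖h - h₀‖ ≤ r → Function.Injective (e h) ∧ ContDiffAt ℝ ∞ D h ∧
        (∀ z, D h (e h z) = z) ∧ (∀ v, e h (D h v) = P h v) := by
  obtain ⟨e, he, hPe, hi⟩ := exists_frame hP hPP h₀ r (hm h₀)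
  obtain ⟨D, hD⟩ := exists_inv hP (fun h => by rw [hm h]; simp) he hPe
  exact ⟨e, D, he, hPe, fun h hh => ⟨hi h hh, hD h (hi h hh)⟩⟩

end Crest.Agent.R235.Frame_143
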