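import Mathlib.Analysis.Calculus.ContDiff.Operations
import Mathlib.Analysis.Normed.Operator.Bilinear
import Mathlib.Analysis.Complex.Basic
import Mathlib.Topology.MetricSpace.ProperSpace
import Mathlib.Topology.UniformSpace.HeineCantor
import Mathlib.LinearAlgebra.Dimension.Finrank
import Mathlib.Analysis.Normed.Module.FiniteDimension

/-!
Row 235 (S0364), FDJ (helper778 #1836), helper936: smooth frames of a smooth family of projections.

`P : V → H →L[ℂ] H` smooth (over `ℝ`), `P h ∘ P h = P h`, range of dimension `m`. Then for every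
`h₀` and `r` there is a smooth `e : V → (Fin m → ℂ) →L[ℂ] H` with `P h (e h z) = e h z` everywhere
and `e h` injective with range `range (P h)` on `closedBall h₀ r`.
-/

set_option autoImplicit false

open Metric Module Set

open scoped ContDiff

namespace Crest.Agent.R235.Frame_936

noncomputable section

variable {V H : Type*} [NormedAddCommGroup V] [NormedSpace ℝ V] [NormedAddCommGroup H]
  [NormedSpace ℂ H]

/-- real smoothness of the composition of complex linear maps -/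
theorem contDiff_comp {A B C : Type*} [NormedAddCommGroup A] [NormedSpace ℂ A]
    [NormedAddCommGroup B] [NormedSpace ℂ B] [NormedAddCommGroup C] [NormedSpace ℂ C] {n : ℕ∞ω}
    {f : V → B →L[ℂ] C} {g : V → A →L[ℂ] B} (hf : ContDiff ℝ n f) (hg : ContDiff ℝ n g) :
    ContDiff ℝ n fun x => (f x).comp (g x) := by
  have h1 : ContDiff ℝ n fun p : (B →L[ℂ] C) × (A →L[ℂ] B) => p.1.comp p.2 :=
    (isBoundedBilinearMap_comp (𝕜 := ℂ) (E := A) (F := B) (G := C)).contDiff.restrict_scalars ℝ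
  exact h1.comp (hf.prodMk hg)

/-- the polygonal product of projections -/
def prodP {m : ℕ} (P : V → H →L[ℂ] H) (h₀ : V) (N : ℕ) (e₀ : (Fin m → ℂ) →L[ℂ] H) :
    ℕ → V → ((Fin m → ℂ) →L[ℂ] H)
  | 0, _ => e₀
  | j + 1, h => (P (h₀ + (((j + 1 : ℕ) : ℝ) / N) • (h - h₀))).comp (prodP P h₀ N e₀ j h)

theorem contDiff_prodP {m : ℕ} {n : ℕ∞ω} {P : V → H →L[ℂ] H} (hP : ContDiff ℝ n P) (h₀ : V)
    (N : ℕ) (e₀ : (Fin m → ℂ) →L[ℂ] H) (j : ℕ) : ContDiff ℝ n (prodP P h₀ N e₀ j) := by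
  induction j with
  | zero => exact contDiff_const
  | succ j ih =>
    refine contDiff_comp (hP.comp ?_) ih
    exact contDiff_const.add ((contDiff_id.sub contDiff_const).const_smul _)

/-- `Q'` is injective on the range of `Q` if `‖Q - Q'‖ < 1`. -/
theorem eq_zero_of_near {Q Q' : H →L[ℂ] H} (hQ : ‖Q - Q'‖ < 1) {x : H} (hx : Q x = x)
    (hx' : Q' x = 0) : x = 0 := by
  by_contra h
  have h1 : ‖x‖ ≤ ‖Q - Q'‖ * ‖x‖ := by
    have h2 : (Q - Q') x = x := by
      rw [sub_apply, hx, hx', sub_zero]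
    calc ‖x‖ = ‖(Q - Q') x‖ := by rw [h2]
      _ ≤ _ := (Q - Q').le_opNorm x
  have h3 : 0 < ‖x‖ := norm_pos_iff.2 h
  nlinarith

/-- **FRAME.** -/
theorem exists_frame [ProperSpace V] {m : ℕ} {n : ℕ∞ω} {P : V → H →L[ℂ] H}
    (hP : ContDiff ℝ n P) (hPP : ∀ h x, P h (P h x) = P h x)
    (hfd : ∀ h, FiniteDimensional ℂ (LinearMap.range (P h : H →ₗ[ℂ] H)))
    (hm : ∀ h, finrank ℂ (LinearMap.range (P h : H →ₗ[ℂ] H)) = m) (h₀ : V) (r : ℝ) :
    ∃ e : V → (Fin m → ℂ) →L[ℂ] H, ContDiff ℝ n e ∧ (∀ h z, P h (e h z) = e h z) ∧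
      ∀ h ∈ closedBall h₀ r, Function.Injective (e h) ∧ range (e h) = range (P h) := by
  classical
  -- the initial frame
  have := hfd h₀
  let b : Basis (Fin m) ℂ (LinearMap.range (P h₀ : H →ₗ[ℂ] H)) := finBasisOfFinrankEq _ _ (hm h₀)
  let e₀ : (Fin m → ℂ) →L[ℂ] H :=
    LinearMap.toContinuousLinearMap ((Submodule.subtype _).comp b.equivFun.symm.toLinearMap)
  have he₀ : ∀ z, P h₀ (e₀ z) = e₀ z := by
    intro z
    obtain ⟨y, hy⟩ := (b.equivFun.symm z).2
    have h1 : e₀ z = P h₀ y := hy.symm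
    rw [h1, hPP]
  have he₀i : Function.Injective e₀ := by
    intro x y hxy
    exact b.equivFun.symm.injective (Subtype.ext hxy)
  -- the number of steps
  obtain ⟨N, hN0, hN⟩ : ∃ N : ℕ, 0 < N ∧ ∀ h ∈ closedBall h₀ r, ∀ j : ℕ, j < N →
      ‖P (h₀ + ((j : ℝ) / N) • (h - h₀)) - P (h₀ + (((j + 1 : ℕ) : ℝ) / N) • (h - h₀))‖ < 1 := by
    have huc : UniformContinuousOn P (closedBall h₀ r) :=
      (isCompact_closedBall h₀ r).uniformContinuousOn_of_continuous hP.continuous.continuousOn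
    rw [Metric.uniformContinuousOn_iff] at huc
    obtain ⟨δ, hδ, hδ'⟩ := huc 1 one_pos
    obtain ⟨N, hN⟩ := exists_nat_gt (max (|r| / δ) 0)
    have hN1 : |r| / δ < N := (le_max_left _ _).trans_lt hN
    have hN2 : (0 : ℝ) < N := (le_max_right _ _).trans_lt hN
    refine ⟨N, by exact_mod_cast hN2, fun h hh j hj => ?_⟩
    have hhr : ‖h - h₀‖ ≤ r := by rwa [mem_closedBall, dist_eq_norm] at hh
    have hr : 0 ≤ r := (norm_nonneg _).trans hhr
    have hin : ∀ i : ℕ, i ≤ N → h₀ + ((i : ℝ) / N) • (h - h₀) ∈ closedBall h₀ r := by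
      intro i hi
      rw [mem_closedBall, dist_eq_norm, add_sub_cancel_left, norm_smul, Real.norm_eq_abs,
        abs_of_nonneg (by positivity)]
      have h1 : (i : ℝ) / N ≤ 1 := by
        rw [div_le_one hN2]
        exact_mod_cast hi
      calc (i : ℝ) / N * ‖h - h₀‖ ≤ 1 * r :=
            mul_le_mul h1 hhr (norm_nonneg _) zero_le_one
        _ = r := one_mul r
    rw [← dist_eq_norm]
    refine hδ' _ (hin j hj.le) _ (hin (j + 1) hj) ?_
    rw [dist_eq_norm, add_sub_add_left_eq_sub, ← sub_smul, norm_smul, Real.norm_eq_abs]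
    have h2 : |(j : ℝ) / N - ((j + 1 : ℕ) : ℝ) / N| = 1 / N := by
      rw [← sub_div]
      push_cast
      rw [show (j : ℝ) - (j + 1) = -1 by ring, neg_div, abs_neg, abs_of_pos (by positivity)]
    rw [h2]
    rw [abs_of_nonneg hr, div_lt_iff₀ hδ] at hN1
    calc 1 / (N : ℝ) * ‖h - h₀‖ ≤ 1 / N * r := mul_le_mul_of_nonneg_left hhr (by positivity)
      _ = r / N := by ring
      _ < δ := by rw [div_lt_iff₀ hN2]; linarith
  have hlast : ∀ h, h₀ + (((N : ℕ) : ℝ) / N) • (h - h₀) = h := by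
    intro h
    rw [div_self (by exact_mod_cast hN0.ne'), one_smul, add_sub_cancel]
  refine ⟨prodP P h₀ N e₀ N, contDiff_prodP hP h₀ N e₀ N, fun h z => ?_, fun h hh => ?_⟩
  · obtain ⟨N', rfl⟩ : ∃ N', N = N' + 1 := ⟨N - 1, by omega⟩
    change P h ((P (h₀ + (((N' + 1 : ℕ) : ℝ) / ((N' + 1 : ℕ) : ℝ)) • (h - h₀)))
      (prodP P h₀ (N' + 1) e₀ N' h z)) = (P (h₀ + (((N' + 1 : ℕ) : ℝ) / ((N' + 1 : ℕ) : ℝ)) •
      (h - h₀))) (prodP P h₀ (N' + 1) e₀ N' h z)
    rw [hlast h, hPP]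
  · have key : ∀ j, j ≤ N → Function.Injective (prodP P h₀ N e₀ j h) ∧
        ∀ z, P (h₀ + ((j : ℝ) / N) • (h - h₀)) (prodP P h₀ N e₀ j h z) =
          prodP P h₀ N e₀ j h z := by
      intro j
      induction j with
      | zero =>
        intro _
        refine ⟨he₀i, fun z => ?_⟩
        have h1 : h₀ + (((0 : ℕ) : ℝ) / N) • (h - h₀) = h₀ := by simp
        rw [h1]
        exact he₀ z
      | succ j ih =>
        intro hj
        obtain ⟨h1, h2⟩ := ih (by omega)
        refine ⟨?_, fun z => hPP _ _⟩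
        rw [injective_iff_map_eq_zero]
        intro z hz
        have h3 : prodP P h₀ N e₀ j h z = 0 :=
          eq_zero_of_near (hN h hh j hj) (h2 z) hz
        exact (injective_iff_map_eq_zero _).1 h1 z h3
    obtain ⟨h1, h2⟩ := key N le_rfl
    rw [hlast h] at h2
    refine ⟨h1, ?_⟩
    have := hfd h
    have hle : LinearMap.range (prodP P h₀ N e₀ N h : (Fin m → ℂ) →ₗ[ℂ] H) ≤
        LinearMap.range (P h : H →ₗ[ℂ] H) := by
      rintro _ ⟨z, rfl⟩
      exact ⟨_, h2 z⟩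
    have hrk : finrank ℂ (LinearMap.range (prodP P h₀ N e₀ N h : (Fin m → ℂ) →ₗ[ℂ] H)) = m := by
      rw [LinearMap.finrank_range_of_inj h1]
      simp
    have heq := Submodule.eq_of_le_of_finrank_eq hle (hrk.trans (hm h).symm)
    have h3 := congrArg (fun s : Submodule ℂ H => (s : Set H)) heq
    exact h3

end

end Crest.Agent.R235.Frame_936
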