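import Crest.Agent.R235.DgInv_778
import Crest.Agent.R235.FdJa_778
import Crest.Agent.R235.DgSmo_936
import Crest.Agent.R235.DgLoc_143
import Crest.Agent.R235.Frame_143
import Crest.Agent.R235.Frame_936

/-!
Row 235 (S0364), block FDJ (helper778): the degree argument over the torus.

`core` : `E_h = range (P h)` a periodic family of `m`-dimensional subspaces, `G : T × R^b × H → Y`
continuous, periodic, `dim T + b + 2 m = dim Y`; if the values of `G` on `E` avoid the ray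
`{s V : s ≥ 0}` outside a compact set, then `G` cannot have exactly one zero (mod `Z^b`) which is
nondegenerate.
-/

set_option autoImplicit false

open MeasureTheory Set Filter Topology Module
open scoped ContDiff

noncomputable section

namespace Crest.Agent.R235.FdJb_778

open DgStk_778 DgTri_778 DgInv_778 FdJa_778

variable {T H Y : Type*} [NormedAddCommGroup T] [NormedSpace ℝ T] [FiniteDimensional ℝ T]
  [NormedAddCommGroup H] [NormedSpace ℂ H] [FiniteDimensional ℂ H]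
  [NormedAddCommGroup Y] [NormedSpace ℝ Y] [FiniteDimensional ℝ Y] {b m : ℕ}

/-- the total chart `(θ, (t, w)) ↦ (t, θ, e(θ) w)` -/
def ch (e : (Fin b → ℝ) → (Fin m → ℂ) →L[ℂ] H) (x : (Fin b → ℝ) × T × (Fin m → ℂ)) :
    T × (Fin b → ℝ) × H := (x.2.1, x.1, e x.1 x.2.2)

/-- real restriction of the frame -/
def eR (e : (Fin b → ℝ) → (Fin m → ℂ) →L[ℂ] H) (θ : Fin b → ℝ) : (Fin m → ℂ) →L[ℝ] H :=
  ContinuousLinearMap.restrictScalarsL ℂ (Fin m → ℂ) H ℝ ℝ (e θ)

theorem contDiff_eR {e : (Fin b → ℝ) → (Fin m → ℂ) →L[ℂ] H} (he : ContDiff ℝ ∞ e) :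
    ContDiff ℝ ∞ (eR e) :=
  (ContinuousLinearMap.restrictScalarsL ℂ (Fin m → ℂ) H ℝ ℝ).contDiff.comp he

theorem contDiff_ch {e : (Fin b → ℝ) → (Fin m → ℂ) →L[ℂ] H} (he : ContDiff ℝ ∞ e) :
    ContDiff ℝ ∞ (ch (T := T) e) := by
  have h1 : ContDiff ℝ ∞ fun x : (Fin b → ℝ) × T × (Fin m → ℂ) => eR e x.1 x.2.2 :=
    ((contDiff_eR he).comp contDiff_fst).clm_apply (contDiff_snd.comp contDiff_snd)
  exact (contDiff_fst.comp contDiff_snd).prodMk (contDiff_fst.prodMk h1)

/-- derivative of the chart -/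
theorem hasFDerivAt_ch {e : (Fin b → ℝ) → (Fin m → ℂ) →L[ℂ] H} (he : ContDiff ℝ ∞ e)
    (x : (Fin b → ℝ) × T × (Fin m → ℂ)) : ∃ (C : (Fin b → ℝ) × T × (Fin m → ℂ) →L[ℝ]
      T × (Fin b → ℝ) × H), HasFDerivAt (ch (T := T) e) C x ∧
      ∀ κ τ ww, C (κ, τ, ww) = (τ, κ, fderiv ℝ (eR e) x.1 κ x.2.2 + e x.1 ww) := by
  have h2 : HasFDerivAt (fun x : (Fin b → ℝ) × T × (Fin m → ℂ) => eR e x.1)
      ((fderiv ℝ (eR e) x.1).comp (ContinuousLinearMap.fst ℝ _ _)) x :=
    HasFDerivAt.comp x (g := eR e)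
      (((contDiff_eR he).differentiable (by simp) x.1).hasFDerivAt) hasFDerivAt_fst
  have h3 : HasFDerivAt (fun x : (Fin b → ℝ) × T × (Fin m → ℂ) => x.2.2)
      ((ContinuousLinearMap.snd ℝ T (Fin m → ℂ)).comp
        (ContinuousLinearMap.snd ℝ (Fin b → ℝ) (T × (Fin m → ℂ)))) x :=
    hasFDerivAt_snd.comp x hasFDerivAt_snd
  have h4 : HasFDerivAt (fun x : (Fin b → ℝ) × T × (Fin m → ℂ) => x.2.1)
      ((ContinuousLinearMap.fst ℝ T (Fin m → ℂ)).comp
        (ContinuousLinearMap.snd ℝ (Fin b → ℝ) (T × (Fin m → ℂ)))) x :=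
    hasFDerivAt_fst.comp x hasFDerivAt_snd
  refine ⟨_, h4.prodMk (hasFDerivAt_fst.prodMk (h2.clm_apply h3)), fun κ τ ww => ?_⟩
  simp only [ContinuousLinearMap.prod_apply, ContinuousLinearMap.comp_apply,
    ContinuousLinearMap.coe_fst', ContinuousLinearMap.coe_snd', _root_.add_apply,
    ContinuousLinearMap.flip_apply]
  refine Prod.ext rfl (Prod.ext rfl ?_)
  show e x.1 ww + _ = _
  rw [add_comm]

theorem core (P : (Fin b → ℝ) → H →L[ℂ] H) (hP : ContDiff ℝ ∞ P)
    (hPp : ∀ (h : Fin b → ℝ) (k : Fin b → ℤ), P (fun i => h i + k i) = P h)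
    (hPP : ∀ h x, P h (P h x) = P h x)
    (hr : ∀ h, finrank ℂ (LinearMap.range (P h : H →ₗ[ℂ] H)) = m)
    (hdim : finrank ℝ T + b + 2 * m = finrank ℝ Y)
    (G : T × (Fin b → ℝ) × H → Y) (cG : Continuous G)
    (pG : ∀ t h ψ (k : Fin b → ℤ), G (t, fun i => h i + k i, ψ) = G (t, h, ψ))
    (V : Y) (hV : V ≠ 0) (R : ℝ)
    (hray : ∀ t h ψ, P h ψ = ψ → (R ≤ ‖t‖ ∨ R ≤ ‖ψ‖) → ∀ s : ℝ, 0 ≤ s → G (t, h, ψ) ≠ s • V)
    (t₀ : T) (ψ₀ : H) (ht : ‖t₀‖ < R) (hψ : ‖ψ₀‖ < R) (hPψ : P 0 ψ₀ = ψ₀)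
    (hG0 : G (t₀, 0, ψ₀) = 0)
    (hz : ∀ t h ψ, P h ψ = ψ → (∀ j, |h j| ≤ 3 / 4) → G (t, h, ψ) = 0 → t = t₀ ∧ h = 0 ∧ ψ = ψ₀)
    (L : T × (Fin b → ℝ) × H →L[ℝ] Y)
    (hL : HasFDerivAt (fun x : T × (Fin b → ℝ) × H => G (x.1, x.2.1, P x.2.1 x.2.2)) L (t₀, 0, ψ₀))
    (hLi : ∀ τ κ ξ, P 0 ξ = ξ → L (τ, κ, ξ) = 0 → τ = 0 ∧ κ = 0 ∧ ξ = 0) : False := by
  classical
  have hpT : ProperSpace T := FiniteDimensional.proper ℝ T
  have hpH : ProperSpace H := FiniteDimensional.proper ℂ H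
  -- frames
  obtain ⟨e, he, hPe, hei⟩ := Frame_936.exists_frame hP hPP (fun h => inferInstance) hr 0 2
  have hinj : ∀ θ : Fin b → ℝ, ‖θ‖ ≤ 2 → Function.Injective (e θ) := fun θ hθ =>
    (hei θ (by simpa using hθ)).1
  obtain ⟨D, hD⟩ := Frame_143.exists_inv (P := P) (e := e) hP (fun h => by
    rw [show finrank ℂ (Fin m → ℂ) = m by simp]; exact hr h) he hPe
  have hcube : ∀ {θ : Fin b → ℝ}, (∀ j, |θ j| ≤ 3 / 4) → ‖θ‖ ≤ 3 / 4 := fun {θ} h =>
    (pi_norm_le_iff_of_nonneg (by norm_num)).2 h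
  -- the point
  set w₀ : Fin m → ℂ := D 0 ψ₀ with hw₀
  have hew₀ : e 0 w₀ = ψ₀ := by
    rw [hw₀, (hD 0 (hinj 0 (by simp))).2.2 ψ₀, hPψ]
  -- spaces
  let Q := T × (Fin m → ℂ)
  let _ : MeasurableSpace T := borel T
  have _ : BorelSpace T := ⟨rfl⟩
  let ν : Measure (T × (Fin m → ℂ)) := Measure.addHaar
  let μ : Measure ((Fin b → ℝ) × T × (Fin m → ℂ)) := (volume : Measure (Fin b → ℝ)).prod ν
  have hν : ν.IsAddHaarMeasure := inferInstance
  have hν2 : SFinite ν := inferInstance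
  have hμ : μ.IsAddHaarMeasure := by
    have h2 : SFinite (volume : Measure (Fin b → ℝ)) := inferInstance
    have h4 : MeasurableAdd (T × (Fin m → ℂ)) := inferInstance
    have h5 : MeasurableAdd (Fin b → ℝ) := inferInstance
    have h6 : (volume : Measure (Fin b → ℝ)).IsAddHaarMeasure := inferInstance
    exact Measure.prod.instIsAddHaarMeasure _ _
  have hRpos : 0 < R := (norm_nonneg t₀).trans_lt ht
  have hce : Continuous e := he.continuous
  have hcc : Continuous (ch (T := T) e) := (contDiff_ch he).continuous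
  let F₀ : (Fin b → ℝ) × T × (Fin m → ℂ) → Y := fun x => G (ch e x)
  have hF₀ : Continuous F₀ := cG.comp hcc
  let p : (Fin b → ℝ) × T × (Fin m → ℂ) := (0, t₀, w₀)
  have hchp : ch e p = (t₀, 0, ψ₀) := by
    show (t₀, (0 : Fin b → ℝ), e 0 w₀) = _
    rw [hew₀]
  -- the cut-off function
  let c₀ : ContDiffBump (0 : T × H) := ⟨R, R + 1, hRpos, by linarith⟩
  let pj : (Fin b → ℝ) × T × (Fin m → ℂ) → T × H := fun x => (x.2.1, e x.1 x.2.2)
  have hpj : ContDiff ℝ ∞ pj := by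
    have h1 := contDiff_ch (T := T) he
    exact (contDiff_fst.comp h1).prodMk ((contDiff_snd.comp contDiff_snd).comp h1)
  have hpjc : Continuous pj := hpj.continuous
  let χ : (Fin b → ℝ) × T × (Fin m → ℂ) → ℝ := fun x => c₀ (pj x)
  have hχ : ContDiff ℝ ∞ χ := c₀.contDiff.comp hpj
  have hχ1 : ∀ x, ‖pj x‖ ≤ R → χ x = 1 := fun x hx =>
    c₀.one_of_mem_closedBall (by simpa using hx)
  have hχ0 : ∀ x, R + 1 ≤ ‖pj x‖ → χ x = 0 := fun x hx =>
    c₀.zero_of_le_dist (by rw [dist_zero_right]; exact hx)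
  -- the compact sets
  obtain ⟨c, hc, hlow⟩ := lower_bound (Metric.closedBall (0 : Fin b → ℝ) (3 / 4))
    (isCompact_closedBall _ _) e hce (fun θ hθ => hinj θ (by
      have := mem_closedBall_zero_iff.1 hθ
      linarith))
  let K : Set ((Fin b → ℝ) × T × (Fin m → ℂ)) := {x | (∀ j, |x.1 j| ≤ 3 / 4) ∧ ‖pj x‖ ≤ R + 1}
  have hKc : IsClosed K := by
    have h1 : K = (⋂ j, {x : (Fin b → ℝ) × T × (Fin m → ℂ) | |x.1 j| ≤ 3 / 4}) ∩
        {x | ‖pj x‖ ≤ R + 1} := by
      ext x; simp [K]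
    rw [h1]
    refine IsClosed.inter ?_ (isClosed_le hpjc.norm continuous_const)
    exact isClosed_iInter fun j =>
      isClosed_le (((continuous_apply j).comp continuous_fst).abs) continuous_const
  have hK : IsCompact K := by
    refine IsCompact.of_isClosed_subset
      ((isCompact_closedBall (0 : Fin b → ℝ) (3 / 4)).prod
        ((isCompact_closedBall (0 : T) (R + 1)).prod
          (isCompact_closedBall (0 : Fin m → ℂ) ((R + 1) / c)))) hKc ?_
    rintro x ⟨h1, h2⟩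
    have h3 : x.1 ∈ Metric.closedBall (0 : Fin b → ℝ) (3 / 4) := by simpa using hcube h1
    refine ⟨h3, ?_, ?_⟩
    · rw [mem_closedBall_zero_iff]
      exact (norm_fst_le (pj x)).trans h2
    · rw [mem_closedBall_zero_iff, le_div_iff₀ hc, mul_comm]
      exact (hlow x.1 h3 x.2.2).trans ((norm_snd_le (pj x)).trans h2)
  let K' : Set ((Fin b → ℝ) × T × (Fin m → ℂ)) := K ∩ {x | R ≤ ‖pj x‖}
  have hK' : IsCompact K' := hK.inter_right (isClosed_le continuous_const hpjc.norm)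
  let U : Set ((Fin b → ℝ) × T × (Fin m → ℂ)) := {x | ‖x.1‖ < 1 / 8 ∧ ‖pj x‖ < R}
  have hU : U ∈ 𝓝 p := by
    have h1 : IsOpen U := (isOpen_lt continuous_fst.norm continuous_const).inter
      (isOpen_lt hpjc.norm continuous_const)
    refine h1.mem_nhds ⟨?_, ?_⟩
    · show ‖(0 : Fin b → ℝ)‖ < 1 / 8
      rw [norm_zero]
      norm_num
    · show ‖((t₀, e 0 w₀) : T × H)‖ < R
      rw [hew₀, Prod.norm_def]
      exact max_lt ht hψ
  -- the ray
  obtain ⟨lam, hlam⟩ := SeparatingDual.exists_eq_one (R := ℝ) hV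
  obtain ⟨δa, hδa, εa, hεa, hfar⟩ := ray_far V lam K' hK' F₀ hF₀ (by
    rintro x ⟨hx1, hx2⟩ s hs
    have h1 : R ≤ max ‖x.2.1‖ ‖e x.1 x.2.2‖ := hx2
    exact hray x.2.1 x.1 (e x.1 x.2.2) (hPe _ _) (le_max_iff.1 h1) s hs)
  -- the derivative
  obtain ⟨C, hC, hCf⟩ := hasFDerivAt_ch (T := T) he p
  have hL0 : HasFDerivAt F₀ (L.comp C) p := by
    have h1 : F₀ = (fun x : T × (Fin b → ℝ) × H => G (x.1, x.2.1, P x.2.1 x.2.2)) ∘ ch e := by
      funext x
      show G (x.2.1, x.1, e x.1 x.2.2) = G (x.2.1, x.1, P x.1 (e x.1 x.2.2))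
      rw [hPe]
    rw [h1]
    refine HasFDerivAt.comp p ?_ hC
    rw [hchp]
    exact hL
  have hLP : ∀ ξ, L (0, 0, ξ - P 0 ξ) = 0 := by
    intro ξ
    let ln : ℝ → T × (Fin b → ℝ) × H := fun s => (t₀, 0, ψ₀) + s • (0, 0, ξ - P 0 ξ)
    have h1 : HasDerivAt ln (0, 0, ξ - P 0 ξ) 0 := by
      have h2 := ((hasDerivAt_id (0 : ℝ)).smul_const
        ((0, 0, ξ - P 0 ξ) : T × (Fin b → ℝ) × H)).const_add (t₀, 0, ψ₀)
      rw [one_smul] at h2
      exact h2
    have h3 : HasDerivAt (fun s => G ((ln s).1, (ln s).2.1, P (ln s).2.1 (ln s).2.2))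
        (L (0, 0, ξ - P 0 ξ)) 0 := by
      have h4 : ln 0 = (t₀, 0, ψ₀) := by simp [ln]
      have h5 := hL
      rw [← h4] at h5
      exact h5.comp_hasDerivAt 0 h1
    have h6 : (fun s => G ((ln s).1, (ln s).2.1, P (ln s).2.1 (ln s).2.2))
        = fun _ => G (t₀, 0, ψ₀) := by
      funext s
      have h7 : ln s = (t₀, 0, ψ₀ + s • (ξ - P 0 ξ)) := by simp [ln]
      rw [h7]
      show G (t₀, 0, P 0 (ψ₀ + s • (ξ - P 0 ξ))) = _
      congr 3
      rw [map_add, hPψ, (P 0).map_smul_of_tower, map_sub, hPP, sub_self, smul_zero, add_zero]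
    rw [h6] at h3
    exact h3.unique (hasDerivAt_const _ _)
  have hinjL : Function.Injective (L.comp C) := by
    rw [injective_iff_map_eq_zero]
    rintro ⟨κ, τ, ww⟩ h0
    have h1 : L (τ, κ, fderiv ℝ (eR e) p.1 κ p.2.2 + e p.1 ww) = 0 := by
      rw [← hCf]
      exact h0
    set ξ : H := fderiv ℝ (eR e) p.1 κ p.2.2 + e p.1 ww with hξ
    have h2 : L (τ, κ, P 0 ξ) = 0 := by
      have h3 : ((τ, κ, ξ) : T × (Fin b → ℝ) × H) = (τ, κ, P 0 ξ) + (0, 0, ξ - P 0 ξ) := by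
        simp
      rw [h3, map_add, hLP, add_zero] at h1
      exact h1
    obtain ⟨h4, h5, h6⟩ := hLi τ κ (P 0 ξ) (hPP 0 ξ) h2
    have h7 : ξ = e 0 ww := by
      rw [hξ, h5, map_zero]
      show (0 : (Fin m → ℂ) →L[ℝ] H) w₀ + e 0 ww = e 0 ww
      rw [_root_.zero_apply, zero_add]
    rw [h7, hPe] at h6
    have h8 : ww = 0 := (injective_iff_map_eq_zero (e 0)).1 (hinj 0 (by simp)) ww h6
    rw [h4, h5, h8]
    rfl
  -- the zeros
  have hne : ∀ x ∈ K, F₀ x = 0 → x = p := by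
    rintro x ⟨hx1, hx2⟩ hx
    obtain ⟨h1, h2, h3⟩ := hz x.2.1 x.1 (e x.1 x.2.2) (hPe _ _) hx1 hx
    have h4 : x.2.2 = w₀ := by
      refine hinj 0 (by simp) ?_
      rw [hew₀, ← h3, h2]
    exact Prod.ext h2 (Prod.ext h1 h4)
  obtain ⟨δ₁, hδ₁, hloc⟩ := DgLoc_143.local_ne μ F₀ hF₀ p (L.comp C) hL0 (by
    show G (ch e p) = 0
    rw [hchp]
    exact hG0) hinjL K hK U hU hne
  -- the cut-off in the target
  set δ : ℝ := min δa (δ₁ / (1 + ‖V‖)) with hδ
  have hδpos : 0 < δ := lt_min hδa (by positivity)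
  obtain ⟨ζ, hζ, hζ1, hζ2, hζ3, hζ4⟩ := exists_zeta V lam hlam hδpos
  -- smoothing
  obtain ⟨S, hS, hSp, hSG⟩ := DgSmo_936.exists_smooth_periodic (b := b) (V := T × H)
    (fun h y => G (y.1, h, y.2))
    (cG.comp ((continuous_fst.comp continuous_snd).prodMk
      (continuous_fst.prodMk (continuous_snd.comp continuous_snd))))
    (fun k h y => pG y.1 h y.2 k) ((fun x => (x.1, pj x)) '' K)
    (hK.image (continuous_fst.prodMk hpjc)) (lt_min hδ₁ hεa)
  let S' : (Fin b → ℝ) × T × (Fin m → ℂ) → Y := fun x => S x.1 (pj x)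
  have hS' : ContDiff ℝ ∞ S' := hS.comp (contDiff_fst.prodMk hpj)
  have hSF : ∀ x ∈ K, ‖S' x - F₀ x‖ < min δ₁ εa := fun x hx =>
    hSG (x.1, pj x) (mem_image_of_mem _ hx)
  obtain ⟨F, hF, hFU, hint⟩ := hloc S' hS' fun x hx => (hSF x hx).trans_le (min_le_left _ _)
  -- bases
  obtain ⟨n, hn⟩ : ∃ n, finrank ℝ Y = n + 1 := by
    have h1 : 0 < finrank ℝ Y := by
      have : Nontrivial Y := ⟨V, 0, hV⟩
      exact finrank_pos
    exact ⟨finrank ℝ Y - 1, by omega⟩
  have hfX : finrank ℝ ((Fin b → ℝ) × T × (Fin m → ℂ)) = n + 1 := by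
    rw [← hn, ← hdim, finrank_prod, finrank_prod, Module.finrank_pi, Fintype.card_fin,
      finrank_real_of_complex, Module.finrank_pi, Fintype.card_fin]
    ring
  let bs : Basis (Fin (n + 1)) ℝ ((Fin b → ℝ) × T × (Fin m → ℂ)) :=
    (Module.finBasis ℝ _).reindex (finCongr hfX)
  obtain ⟨om, hom⟩ := exists_top (Y := Y) hn
  -- the integral vanishes
  have hzero := glue (b := b) (Q := T × (Fin m → ℂ)) ν hn bs om V F (contDiff_infty.1 hF 2) χ
    (hχ.of_le (by simp)) ζ hζ K hK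
    (by
      intro x hx1 hx2
      refine ⟨hx1, ?_⟩
      by_contra h
      push Not at h
      exact hx2 (hχ0 x h.le))
    (by
      intro x hx1 hx2
      by_cases h1 : ‖pj x‖ < R
      · have h2 : χ =ᶠ[𝓝 x] fun _ => 1 := by
          filter_upwards [(isOpen_lt hpjc.norm continuous_const).mem_nhds h1] with y hy
          exact hχ1 y (le_of_lt hy)
        rw [h2.fderiv_eq]
        simp
      by_cases h3 : R + 1 < ‖pj x‖
      · have h2 : χ =ᶠ[𝓝 x] fun _ => 0 := by
          filter_upwards [(isOpen_lt continuous_const hpjc.norm).mem_nhds h3] with y hy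
          exact hχ0 y (le_of_lt hy)
        rw [h2.fderiv_eq]
        simp
      push Not at h1 h3
      exfalso
      have hxK : x ∈ K := ⟨hx1, h3⟩
      have hxU : x ∉ U := fun h => absurd h.2 (not_lt.2 h1)
      rw [hFU x hxU] at hx2
      obtain ⟨h4, h5⟩ := hζ1 _ hx2
      refine hfar x ⟨hxK, h1⟩ (S' x) ((hSF x hxK).trans_le (min_le_right _ _)) ⟨?_, ?_⟩
      · have : δ ≤ δa := min_le_left _ _
        linarith
      · exact h5.trans_le (min_le_left _ _))
    (by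
      intro i θ hθ1 hθ2
      have hnθ : ‖θ‖ ≤ 3 / 4 := hcube hθ2
      have hsi : ‖(Pi.single i 1 : Fin b → ℝ)‖ ≤ 1 := by
        rw [pi_norm_le_iff_of_nonneg zero_le_one]
        intro j
        by_cases hj : j = i
        · subst hj; simp
        · rw [Pi.single_eq_of_ne hj]; simp
      -- the transition map
      let a : (Fin b → ℝ) → (Fin m → ℂ) →L[ℂ] (Fin m → ℂ) := fun θ' =>
        (D θ').comp (e (θ' - Pi.single i 1))
      have hsi2 : ‖θ - Pi.single i 1‖ ≤ 2 := by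
        have := norm_sub_le θ (Pi.single i 1 : Fin b → ℝ)
        linarith
      have hPs : ∀ θ' : Fin b → ℝ, P (θ' - Pi.single i 1) = P θ' := by
        intro θ'
        have h1 := hPp θ' (-Pi.single i 1)
        rw [← h1]
        congr 1
        funext j
        by_cases hj : j = i
        · subst hj; simp [sub_eq_add_neg]
        · simp [Pi.single_eq_of_ne hj]
      have hSs : ∀ (θ' : Fin b → ℝ) y, S (θ' - Pi.single i 1) y = S θ' y := by
        intro θ' y
        have h1 := hSp (-Pi.single i 1) θ' y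
        rw [← h1]
        congr 1
        funext j
        by_cases hj : j = i
        · subst hj; simp [sub_eq_add_neg]
        · simp [Pi.single_eq_of_ne hj]
      have hea : ∀ θ' : Fin b → ℝ, ‖θ'‖ ≤ 2 → ∀ w, e θ' (a θ' w) = e (θ' - Pi.single i 1) w := by
        intro θ' hθ' w
        show e θ' (D θ' (e (θ' - Pi.single i 1) w)) = _
        rw [(hD θ' (hinj θ' hθ')).2.2, ← hPs θ', hPe]
      have hainj : Function.Injective (a θ) := by
        rw [injective_iff_map_eq_zero]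
        intro w hw
        have h1 := hea θ (by linarith) w
        rw [hw, map_zero] at h1
        exact (injective_iff_map_eq_zero _).1 (hinj _ hsi2) w h1.symm
      have had : DifferentiableAt ℝ a θ := by
        have h1 : DifferentiableAt ℝ D θ :=
          ((hD θ (hinj θ (by linarith))).1).differentiableAt (by simp)
        have h2 : DifferentiableAt ℝ (fun θ' : Fin b → ℝ => e (θ' - Pi.single i 1)) θ :=
          ((he.differentiable (by simp)) _).comp θ (differentiableAt_id.sub_const _)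
        have h3 : DifferentiableAt ℝ (fun q : (H →L[ℂ] (Fin m → ℂ)) × ((Fin m → ℂ) →L[ℂ] H) =>
            q.1.comp q.2) (D θ, e (θ - Pi.single i 1)) := by
          have h4 := (isBoundedBilinearMap_comp (𝕜 := ℂ) (E := Fin m → ℂ) (F := H)
            (G := Fin m → ℂ)).differentiableAt (D θ, e (θ - Pi.single i 1))
          exact h4.restrictScalars ℝ
        exact h3.comp θ (h1.prodMk h2)
      let A : (Fin b → ℝ) → T × (Fin m → ℂ) →L[ℝ] T × (Fin m → ℂ) := fun θ' =>
        ContinuousLinearMap.prodMapL ℝ T T (Fin m → ℂ) (Fin m → ℂ)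
          (ContinuousLinearMap.id ℝ T,
            ContinuousLinearMap.restrictScalarsL ℂ (Fin m → ℂ) (Fin m → ℂ) ℝ ℝ (a θ'))
      have hA : ∀ θ' y, A θ' y = (y.1, a θ' y.2) := fun θ' y => rfl
      refine ⟨A, ?_, ?_, ?_⟩
      · have h1 : DifferentiableAt ℝ (fun θ' =>
            ContinuousLinearMap.restrictScalarsL ℂ (Fin m → ℂ) (Fin m → ℂ) ℝ ℝ (a θ')) θ :=
          (ContinuousLinearMap.differentiableAt _).comp θ had
        have h2 : DifferentiableAt ℝ (fun θ' =>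
            ((ContinuousLinearMap.id ℝ T,
              ContinuousLinearMap.restrictScalarsL ℂ (Fin m → ℂ) (Fin m → ℂ) ℝ ℝ (a θ')) :
              (T →L[ℝ] T) × ((Fin m → ℂ) →L[ℝ] (Fin m → ℂ)))) θ :=
          (differentiableAt_const _).prodMk h1
        exact (ContinuousLinearMap.differentiableAt _).comp θ h2
      · have h1 : (A θ : T × (Fin m → ℂ) →ₗ[ℝ] T × (Fin m → ℂ))
            = LinearMap.prodMap (LinearMap.id : T →ₗ[ℝ] T)
              (((a θ : (Fin m → ℂ) →ₗ[ℂ] (Fin m → ℂ))).restrictScalars ℝ) := by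
          ext x <;> rfl
        rw [h1, LinearMap.det_prodMap, LinearMap.det_id, one_mul]
        exact det_pos (a θ) hainj
      · have h1 : ∀ᶠ θ' : Fin b → ℝ in 𝓝 θ, ‖θ' - θ‖ < 1 / 16 := by
          have := Metric.ball_mem_nhds θ (show (0 : ℝ) < 1 / 16 by norm_num)
          filter_upwards [this] with θ' hθ'
          rwa [Metric.mem_ball, dist_eq_norm] at hθ'
        filter_upwards [h1] with θ' hθ' y
        have h2 : ‖θ'‖ ≤ 2 := by
          have h3 : ‖θ'‖ ≤ ‖θ' - θ‖ + ‖θ‖ := by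
            simpa using norm_add_le (θ' - θ) θ
          linarith
        have h3 : |θ' i - θ i| < 1 / 16 := by
          have := norm_le_pi_norm (θ' - θ) i
          rw [Pi.sub_apply, Real.norm_eq_abs] at this
          linarith
        rw [abs_lt] at h3
        have h4 := hθ2 i
        rw [abs_le] at h4
        have h5 : ∀ y', ((θ', y') : (Fin b → ℝ) × T × (Fin m → ℂ)) ∉ U := by
          intro y' hy'
          have h6 : ‖θ'‖ < 1 / 8 := hy'.1
          have h7 := norm_le_pi_norm θ' i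
          rw [Real.norm_eq_abs] at h7
          have := le_abs_self (θ' i)
          linarith
        have h8 : ∀ y', ((θ' - Pi.single i 1, y') : (Fin b → ℝ) × T × (Fin m → ℂ)) ∉ U := by
          intro y' hy'
          have h6 : ‖θ' - Pi.single i 1‖ < 1 / 8 := hy'.1
          have h7 := norm_le_pi_norm (θ' - Pi.single i 1) i
          rw [Real.norm_eq_abs, Pi.sub_apply, Pi.single_eq_same] at h7
          have := neg_le_abs (θ' i - 1)
          linarith
        have h9 : pj (θ' - Pi.single i 1, y) = pj (θ', A θ' y) := by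
          show ((y.1, e (θ' - Pi.single i 1) y.2) : T × H) = (y.1, e θ' (a θ' y.2))
          rw [hea θ' h2]
        constructor
        · rw [hFU _ (h5 _), hFU _ (h8 _)]
          show S (θ' - Pi.single i 1) (pj (θ' - Pi.single i 1, y)) = S θ' (pj (θ', A θ' y))
          rw [hSs, h9]
        · show c₀ (pj (θ' - Pi.single i 1, y)) = c₀ (pj (θ', A θ' y))
          rw [h9])
  -- the integral does not vanish
  refine hint (Dt om bs) (dt_ne bs om hom hn _ hinjL) (fun y => fderiv ℝ ζ y V)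
    ((hζ.continuous_fderiv one_ne_zero).clm_apply continuous_const) hζ2 hζ3 ?_
    (fun x => rho x.1 * χ x) ?_ ?_ ?_ hzero
  · intro y hy
    by_contra h0
    obtain ⟨h1, h2⟩ := hζ4 y h0
    have h3 : ‖y‖ ≤ |lam y| * ‖V‖ + ‖y - lam y • V‖ := by
      calc ‖y‖ = ‖lam y • V + (y - lam y • V)‖ := by rw [add_sub_cancel]
        _ ≤ ‖lam y • V‖ + ‖y - lam y • V‖ := norm_add_le _ _
        _ = |lam y| * ‖V‖ + ‖y - lam y • V‖ := by rw [norm_smul, Real.norm_eq_abs]
    have h4 : |lam y| * ‖V‖ ≤ δ * ‖V‖ := mul_le_mul_of_nonneg_right h1.le (norm_nonneg V)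
    have h5 : δ ≤ δ₁ / (1 + ‖V‖) := min_le_right _ _
    have h6 : δ * (1 + ‖V‖) ≤ δ₁ := by
      rwa [le_div_iff₀ (by positivity)] at h5
    nlinarith
  · exact ((contDiff_rho (b := b)).continuous.comp continuous_fst).mul hχ.continuous
  · rintro x ⟨hx1, hx2⟩
    have h1 : rho x.1 = 1 := rho_one fun j => by
      have := norm_le_pi_norm x.1 j
      rw [Real.norm_eq_abs] at this
      linarith
    show rho x.1 * χ x = 1
    rw [h1, hχ1 x hx2.le, one_mul]
  · intro x hx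
    by_contra h
    refine hx ⟨rho_ne (left_ne_zero_of_mul h), ?_⟩
    by_contra h2
    push Not at h2
    exact right_ne_zero_of_mul h (hχ0 x h2.le)

end Crest.Agent.R235.FdJb_778
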