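import Crest.Agent.R235.FamDefs_307
import Crest.Agent.R235.EqPertRel_356

/-!
Row 235, PACKAGE FAM (helper356), steps (a), (b), (c) of FDS (task 421): an equivariant system `FSys`
without zeros over `‖t‖ = 1` can be replaced, without changing it for `‖t‖ ≥ 1` or `‖ψ‖ ≥ R`, by a
continuous periodic system which is LINEAR, `(t, ψ) ↦ (L t, A ψ)` with `A` CONSTANT, near the zero section,
and has no other zero.
-/

set_option autoImplicit false
set_option maxSynthPendingDepth 3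

open Set Filter Module MeasureTheory Function
open scoped ContDiff Topology InnerProductSpace

namespace Crest.Agent.R235.FdsA_356

open Crest.Agent.R235.FamDefs_307 Crest.Agent.R235.EqPert_356

variable {T H YR YC : Type} [NormedAddCommGroup T] [NormedSpace ℝ T] [FiniteDimensional ℝ T]
  [NormedAddCommGroup H] [InnerProductSpace ℂ H] [FiniteDimensional ℂ H]
  [NormedAddCommGroup YR] [NormedSpace ℝ YR] [FiniteDimensional ℝ YR]
  [NormedAddCommGroup YC] [NormedSpace ℂ YC] [FiniteDimensional ℂ YC]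
  {b m : ℕ} {P : (Fin b → ℝ) → H →L[ℂ] H}

/-- (a) a generic linear map is injective on every fibre -/
theorem exists_lin (hP : PPer b m P) (hdim : b + 2 * m = 2 * finrank ℂ YC) :
    ∃ A : H →L[ℂ] YC, ∀ h ψ, P h ψ = ψ → A ψ = 0 → ψ = 0 := by
  classical
  let e := stdOrthonormalBasis ℂ H
  let co : Fin (finrank ℂ H) → H →L[ℂ] ℂ := fun k => innerSL ℂ (e k)
  have hco : ∀ ψ : H, ψ ≠ 0 → ∃ j, co j ψ ≠ 0 := by
    intro ψ hψ
    by_contra hcon
    push Not at hcon
    apply hψ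
    have h1 : ∀ j, ⟪e j, ψ⟫_ℂ = 0 := hcon
    rw [← e.sum_repr ψ]
    refine Finset.sum_eq_zero fun j _ => ?_
    rw [e.repr_apply_apply, h1 j, zero_smul]
  obtain ⟨c, A, -, -, hno⟩ := exists_pert (T := Fin 0 → ℝ) (YR := Fin 0 → ℝ) (YC := YC) P
    (hP.smooth.differentiable (by simp)) hP.idem hP.rank (by simpa using hdim)
    (fun _ => 0) (fun _ => 0) (fun _ _ _ _ _ => rfl) (fun _ _ _ _ _ => by simp) univ
    (fun _ _ => differentiableAt_const _) (fun _ _ => differentiableAt_const _) co hco one_pos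
  refine ⟨∑ k, (co k).smulRight (A k), fun h ψ hψ h0 => ?_⟩
  by_contra hne
  refine hno 0 h ψ (mem_univ _) hψ hne (Subsingleton.elim _ _) ?_
  rw [zero_add]
  simpa using h0

/-- **(a) + (b) + (c)** -/
theorem fds_abc {L : T ≃L[ℝ] YR} {fR : T × (Fin b → ℝ) × H → YR} {fC : T × (Fin b → ℝ) × H → YC}
    {v : YC} {R : ℝ} (hS : FSys b m P L fR fC v R)
    (h1 : ∀ t h ψ, ‖t‖ = 1 → P h ψ = ψ → fR (t, h, ψ) = 0 → fC (t, h, ψ) ≠ 0) :
    ∃ (δ : ℝ) (A : H →L[ℂ] YC) (gR : T × (Fin b → ℝ) × H → YR) (gC : T × (Fin b → ℝ) × H → YC),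
      0 < δ ∧ δ < 1 ∧ δ < R ∧ (∀ h ψ, P h ψ = ψ → A ψ = 0 → ψ = 0) ∧
      Continuous gR ∧ Continuous gC ∧
      (∀ t h ψ (k : Fin b → ℤ), gR (t, fun i => h i + k i, ψ) = gR (t, h, ψ)) ∧
      (∀ t h ψ (k : Fin b → ℤ), gC (t, fun i => h i + k i, ψ) = gC (t, h, ψ)) ∧
      (∀ t h ψ, ‖t‖ ≤ δ → ‖ψ‖ ≤ δ → gR (t, h, ψ) = L t ∧ gC (t, h, ψ) = A ψ) ∧
      (∀ t h ψ, 1 ≤ ‖t‖ ∨ R ≤ ‖ψ‖ → gR (t, h, ψ) = fR (t, h, ψ) ∧ gC (t, h, ψ) = fC (t, h, ψ)) ∧
      ∀ t h ψ, ‖t‖ ≤ 1 → P h ψ = ψ → gR (t, h, ψ) = 0 → gC (t, h, ψ) = 0 → t = 0 ∧ ψ = 0 := by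
  obtain ⟨A, hA⟩ := exists_lin (YC := YC) hS.proj hS.hdim
  have hfC0 : ∀ t h, fC (t, h, 0) = 0 := by
    intro t h
    have h2 := hS.eqC t h 0 (-1) (by simp)
    rw [smul_zero, neg_one_smul] at h2
    have h3 : (2 : ℂ) • fC (t, h, 0) = 0 := by
      rw [two_smul]
      nth_rewrite 1 [h2]
      exact neg_add_cancel _
    exact (smul_eq_zero.1 h3).resolve_left two_ne_zero
  have hR : 0 < R := by
    by_contra hcon
    have h2 := hS.big 0 0 0 (by simp) (by simp) (by simpa using not_lt.1 hcon)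
      (by rw [hS.fix 0 0 (by simp), map_zero]) 0 le_rfl
    exact h2 (by rw [hfC0]; simp)
  set δ : ℝ := min 1 R / 4 with hδdef
  have hmin : 0 < min 1 R := lt_min one_pos hR
  have hδ : 0 < δ := by rw [hδdef]; positivity
  have hδ1 : 4 * δ ≤ 1 := by have := min_le_left 1 R; rw [hδdef]; linarith
  have hδR : 4 * δ ≤ R := by have := min_le_right 1 R; rw [hδdef]; linarith
  let mx : T × (Fin b → ℝ) × H → ℝ := fun x => max ‖x.1‖ ‖x.2.2‖
  have hmxc : Continuous mx := continuous_fst.norm.max (continuous_snd.comp continuous_snd).norm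
  let χ : T × (Fin b → ℝ) × H → ℝ := fun x => max 0 (min 1 (2 - mx x / δ))
  have hχc : Continuous χ :=
    continuous_const.max (continuous_const.min (continuous_const.sub (hmxc.div_const _)))
  have hχ1 : ∀ x, mx x ≤ δ → χ x = 1 := by
    intro x hx
    have h2 : mx x / δ ≤ 1 := by rw [div_le_one hδ]; exact hx
    have h3 : 1 ≤ 2 - mx x / δ := by linarith
    simp only [χ, min_eq_left h3]
    exact max_eq_right zero_le_one
  have hχ0 : ∀ x, 2 * δ ≤ mx x → χ x = 0 := by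
    intro x hx
    have h2 : 2 ≤ mx x / δ := by rw [le_div_iff₀ hδ]; exact hx
    exact max_eq_left ((min_le_right _ _).trans (by linarith))
  let f1R : T × (Fin b → ℝ) × H → YR := fun x => (1 - χ x) • fR x + χ x • L x.1
  let f1C : T × (Fin b → ℝ) × H → YC := fun x => (1 - χ x) • fC x + χ x • A x.2.2
  have hLc : Continuous fun x : T × (Fin b → ℝ) × H => L x.1 := L.continuous.comp continuous_fst
  have hAc : Continuous fun x : T × (Fin b → ℝ) × H => A x.2.2 :=
    A.continuous.comp (continuous_snd.comp continuous_snd)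
  have c1R : Continuous f1R := ((continuous_const.sub hχc).smul hS.cR).add (hχc.smul hLc)
  have c1C : Continuous f1C := ((continuous_const.sub hχc).smul hS.cC).add (hχc.smul hAc)
  have hχrot : ∀ (t : T) (h : Fin b → ℝ) (ψ : H) (z : ℂ), ‖z‖ = 1 →
      χ (t, h, z • ψ) = χ (t, h, ψ) := by
    intro t h ψ z hz
    simp only [χ, mx, norm_smul, hz, one_mul]
  have hnear : ∀ t h ψ, mx (t, h, ψ) ≤ δ → f1R (t, h, ψ) = L t ∧ f1C (t, h, ψ) = A ψ := by
    intro t h ψ hx
    simp only [f1R, f1C, hχ1 _ hx, sub_self, zero_smul, zero_add, one_smul, and_self]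
  have hfar : ∀ t h ψ, 2 * δ ≤ mx (t, h, ψ) → f1R (t, h, ψ) = fR (t, h, ψ) ∧
      f1C (t, h, ψ) = fC (t, h, ψ) := by
    intro t h ψ hx
    simp only [f1R, f1C, hχ0 _ hx, sub_zero, zero_smul, add_zero, one_smul, and_self]
  obtain ⟨gR, gC, cgR, cgC, pgR, pgC, -, -, hgf, hg0⟩ := eqPert_rel P
    (hS.proj.smooth.differentiable (by simp)) hS.proj.per hS.proj.idem hS.proj.rank
    (by have := hS.hdim; have := L.toLinearEquiv.finrank_eq; omega) f1R f1C c1R c1C
    (by
      intro t h ψ z hz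
      simp only [f1R, hχrot t h ψ z hz, hS.eqR t h ψ z hz])
    (by
      intro t h ψ z hz
      simp only [f1C, hχrot t h ψ z hz, hS.eqC t h ψ z hz, map_smul, smul_add]
      rw [smul_comm z, smul_comm z])
    (by intro t h ψ k; show (1 - χ (t, h, ψ)) • fR _ + χ (t, h, ψ) • L t = _; rw [hS.pR])
    (by intro t h ψ k; show (1 - χ (t, h, ψ)) • fC _ + χ (t, h, ψ) • A ψ = _; rw [hS.pC])
    (fun x => mx x - δ) (hmxc.sub continuous_const) (fun _ _ _ _ => rfl) R
    (by
      intro t h ψ ht hP hκ e1 e2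
      have hκ' : δ ≤ mx (t, h, ψ) := by simpa using hκ
      refine ⟨?_, ?_, ?_, ?_⟩
      · show 0 < mx (t, h, ψ) - δ
        rcases hκ'.eq_or_lt with h2 | h2
        · exfalso
          obtain ⟨a1, a2⟩ := hnear t h ψ h2.symm.le
          rw [a1] at e1; rw [a2] at e2
          have b1 : t = 0 := by simpa using e1
          have b2 : ψ = 0 := hA h ψ hP e2
          have b3 : mx (t, h, ψ) = 0 := by simp [mx, b1, b2]
          rw [b3] at h2; linarith
        · linarith
      · rcases ht.eq_or_lt with h2 | h2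
        · exfalso
          have h3 : 2 * δ ≤ mx (t, h, ψ) := by
            have : ‖t‖ ≤ mx (t, h, ψ) := le_max_left _ _
            linarith
          obtain ⟨a1, a2⟩ := hfar t h ψ h3
          rw [a1] at e1; rw [a2] at e2
          exact h1 t h ψ h2 hP e1 e2
        · exact h2
      · intro h0
        subst h0
        have h2 : f1R (t, h, 0) = L t := by
          simp only [f1R, hS.fix t h ht]
          rw [← add_smul, sub_add_cancel, one_smul]
        rw [h2] at e1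
        have b1 : t = 0 := by simpa using e1
        have b3 : mx (t, h, (0 : H)) = 0 := by simp [mx, b1]
        rw [b3] at hκ'; linarith
      · by_contra hcon
        have h2 : R ≤ ‖ψ‖ := not_lt.1 hcon
        have h3 : 2 * δ ≤ mx (t, h, ψ) := by
          have : ‖ψ‖ ≤ mx (t, h, ψ) := le_max_right _ _
          linarith
        obtain ⟨a1, a2⟩ := hfar t h ψ h3
        rw [a1] at e1; rw [a2] at e2
        exact hS.big t h ψ ht hP h2 e1 0 le_rfl (by rw [e2]; simp)) one_pos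
  refine ⟨δ, A, gR, gC, hδ, by linarith, by linarith, hA, cgR, cgC, pgR, pgC, ?_, ?_, ?_⟩
  · intro t h ψ ht hψ
    have h2 : mx (t, h, ψ) ≤ δ := max_le ht hψ
    obtain ⟨a1, a2⟩ := hgf t h ψ (Or.inr (Or.inr (by show mx (t, h, ψ) - δ ≤ 0; linarith)))
    obtain ⟨b1, b2⟩ := hnear t h ψ h2
    exact ⟨a1.trans b1, a2.trans b2⟩
  · intro t h ψ hor
    have h2 : 2 * δ ≤ mx (t, h, ψ) := by
      have h3 : ‖t‖ ≤ mx (t, h, ψ) := le_max_left _ _
      have h4 : ‖ψ‖ ≤ mx (t, h, ψ) := le_max_right _ _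
      rcases hor with h5 | h5 <;> linarith
    obtain ⟨a1, a2⟩ := hgf t h ψ (by
      rcases hor with h5 | h5
      · exact Or.inl h5
      · exact Or.inr (Or.inl h5))
    obtain ⟨b1, b2⟩ := hfar t h ψ h2
    exact ⟨a1.trans b1, a2.trans b2⟩
  · intro t h ψ ht hP e1 e2
    rcases le_or_gt δ (mx (t, h, ψ)) with h2 | h2
    · exact (hg0 t h ψ ht hP (by show 0 ≤ mx (t, h, ψ) - δ; linarith) e1 e2).elim
    · obtain ⟨a1, a2⟩ := hgf t h ψ (Or.inr (Or.inr (by show mx (t, h, ψ) - δ ≤ 0; linarith)))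
      obtain ⟨b1, b2⟩ := hnear t h ψ h2.le
      rw [a1, b1] at e1; rw [a2, b2] at e2
      exact ⟨by simpa using e1, hA h ψ hP e2⟩

end Crest.Agent.R235.FdsA_356
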