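import Crest.Agent.R235.FdsS_778
import Crest.Agent.R235.FamDefs_307

/-!
Row 235 (S0364), block FAM-FDS (helper778): the local integral at a linear zero section
`(t, ψ) ↦ (L t, A₀ ψ)` as an iterated integral of `u (‖A e z‖²) det (e' ∘ tot B B_j z)`.
-/

set_option autoImplicit false
set_option maxSynthPendingDepth 3

open MeasureTheory Set Filter Topology Module Function
open scoped ContDiff

noncomputable section

namespace Crest.Agent.R235.FdsC_778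

open DgStk_778 DgTri_778 DgInv_778 FdJa_778 FdsT_778 FdsS_778 FamDefs_307

variable {T H YR YC Z YE : Type} [NormedAddCommGroup T] [NormedSpace ℝ T] [FiniteDimensional ℝ T]
  [NormedAddCommGroup H] [InnerProductSpace ℂ H] [FiniteDimensional ℂ H]
  [NormedAddCommGroup YR] [NormedSpace ℝ YR] [FiniteDimensional ℝ YR]
  [NormedAddCommGroup YC] [NormedSpace ℂ YC] [FiniteDimensional ℂ YC]
  [NormedAddCommGroup Z] [InnerProductSpace ℂ Z] [FiniteDimensional ℂ Z]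
  [NormedAddCommGroup YE] [InnerProductSpace ℂ YE] [FiniteDimensional ℂ YE]
  {b m n : ℕ}

/-- the linear model -/
def Lam (L : T ≃L[ℝ] YR) (A₀ : H →L[ℂ] YC) : T × H →L[ℝ] YR × YC :=
  ((L : T →L[ℝ] YR).comp (ContinuousLinearMap.fst ℝ T H)).prod
    ((A₀.restrictScalars ℝ).comp (ContinuousLinearMap.snd ℝ T H))

/-- the reference isomorphism -/
def Phi (L : T ≃L[ℝ] YR) (i : YC ≃L[ℂ] YE) (e' : YE ≃L[ℝ] (Fin b → ℝ) × Z) :
    (Fin b → ℝ) × T × Z →L[ℝ] YR × YC :=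
  ((L : T →L[ℝ] YR).comp ((ContinuousLinearMap.fst ℝ T Z).comp
      (ContinuousLinearMap.snd ℝ (Fin b → ℝ) (T × Z)))).prod
    (((i.symm : YE →L[ℂ] YC).restrictScalars ℝ).comp
      ((e'.symm : (Fin b → ℝ) × Z →L[ℝ] YE).comp
        ((ContinuousLinearMap.fst ℝ (Fin b → ℝ) (T × Z)).prod
          ((ContinuousLinearMap.snd ℝ T Z).comp
            (ContinuousLinearMap.snd ℝ (Fin b → ℝ) (T × Z))))))

theorem phi_apply (L : T ≃L[ℝ] YR) (i : YC ≃L[ℂ] YE) (e' : YE ≃L[ℝ] (Fin b → ℝ) × Z)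
    (κ : Fin b → ℝ) (τ : T) (w : Z) : Phi L i e' (κ, τ, w) = (L τ, i.symm (e'.symm (κ, w))) := rfl

theorem phi_inj (L : T ≃L[ℝ] YR) (i : YC ≃L[ℂ] YE) (e' : YE ≃L[ℝ] (Fin b → ℝ) × Z) :
    Injective (Phi L i e') := by
  rw [injective_iff_map_eq_zero]
  rintro ⟨κ, τ, w⟩ h
  rw [phi_apply] at h
  have h1 : L τ = 0 := congrArg Prod.fst h
  have h2 : i.symm (e'.symm (κ, w)) = 0 := congrArg Prod.snd h
  have h3 : τ = 0 := by simpa using h1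
  have h4 : e'.symm (κ, w) = 0 := by simpa using h2
  have h5 : ((κ, w) : (Fin b → ℝ) × Z) = 0 := by simpa using h4
  have h6 : κ = 0 := congrArg Prod.fst h5
  have h7 : w = 0 := congrArg Prod.snd h5
  rw [h3, h6, h7]
  rfl

/-- the map `M` with `Φ ∘ M = d(Λ pj)` -/
def MM (N : (Fin b → ℝ) × Z →L[ℝ] (Fin b → ℝ) × Z) :
    (Fin b → ℝ) × T × Z →L[ℝ] (Fin b → ℝ) × T × Z :=
  let q : (Fin b → ℝ) × T × Z →L[ℝ] (Fin b → ℝ) × Z :=
    (ContinuousLinearMap.fst ℝ (Fin b → ℝ) (T × Z)).prod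
      ((ContinuousLinearMap.snd ℝ T Z).comp (ContinuousLinearMap.snd ℝ (Fin b → ℝ) (T × Z)))
  ((ContinuousLinearMap.fst ℝ (Fin b → ℝ) Z).comp (N.comp q)).prod
    (((ContinuousLinearMap.fst ℝ T Z).comp (ContinuousLinearMap.snd ℝ (Fin b → ℝ) (T × Z))).prod
      ((ContinuousLinearMap.snd ℝ (Fin b → ℝ) Z).comp (N.comp q)))

theorem mm_apply (N : (Fin b → ℝ) × Z →L[ℝ] (Fin b → ℝ) × Z) (κ : Fin b → ℝ) (τ : T) (w : Z) :
    MM (T := T) N (κ, τ, w) = ((N (κ, w)).1, τ, (N (κ, w)).2) := rfl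

theorem det_mm (N : (Fin b → ℝ) × Z →L[ℝ] (Fin b → ℝ) × Z) :
    LinearMap.det (MM (T := T) N : (Fin b → ℝ) × T × Z →ₗ[ℝ] (Fin b → ℝ) × T × Z)
      = LinearMap.det (N : (Fin b → ℝ) × Z →ₗ[ℝ] (Fin b → ℝ) × Z) := by
  let s : (T × ((Fin b → ℝ) × Z)) ≃ₗ[ℝ] ((Fin b → ℝ) × T × Z) :=
    { toFun := fun x => (x.2.1, x.1, x.2.2)
      invFun := fun x => (x.2.1, x.1, x.2.2)
      map_add' := fun _ _ => rfl
      map_smul' := fun _ _ => rfl
      left_inv := fun _ => rfl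
      right_inv := fun _ => rfl }
  have h1 := LinearMap.det_conj (LinearMap.prodMap (LinearMap.id : T →ₗ[ℝ] T)
    (N : (Fin b → ℝ) × Z →ₗ[ℝ] (Fin b → ℝ) × Z)) s
  rw [LinearMap.det_prodMap, LinearMap.det_id, one_mul] at h1
  rw [← h1]
  congr 1

/-- the derivative of the linear model in the frame -/
theorem fderiv_model (L : T ≃L[ℝ] YR) (A₀ : H →L[ℂ] YC) (i : YC ≃L[ℂ] YE)
    (e' : YE ≃L[ℝ] (Fin b → ℝ) × Z) {e : (Fin b → ℝ) → Z →L[ℂ] H} (he : ContDiff ℝ ∞ e)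
    (x : (Fin b → ℝ) × T × Z) :
    fderiv ℝ (fun x => Lam L A₀ (pj e x)) x
      = (Phi L i e').comp (MM ((e' : YE →L[ℝ] (Fin b → ℝ) × Z) ∘L
        tot ((i : YC →L[ℂ] YE) ∘L A₀ ∘L e x.1)
          (fun j => pdθ j (fun θ => (i : YC →L[ℂ] YE) ∘L A₀ ∘L e θ) x.1) x.2.2)) := by
  obtain ⟨C, hC, hCf⟩ := hasFDerivAt_pj (T := T) he x
  have h1 : HasFDerivAt (fun x => Lam L A₀ (pj e x)) ((Lam L A₀).comp C) x :=
    HasFDerivAt.comp x (Lam L A₀).hasFDerivAt hC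
  rw [h1.fderiv]
  -- the derivative of the frame
  have hed : HasFDerivAt e (fderiv ℝ e x.1) x.1 := (he.differentiable (by simp) x.1).hasFDerivAt
  have h2 : ∀ κ : Fin b → ℝ, (fderiv ℝ (eR e) x.1 κ : Z →L[ℝ] H)
      = (fderiv ℝ e x.1 κ).restrictScalars ℝ := by
    intro κ
    have h3 : HasFDerivAt (eR e)
        ((ContinuousLinearMap.restrictScalarsL ℂ Z H ℝ ℝ).comp (fderiv ℝ e x.1)) x.1 :=
      HasFDerivAt.comp x.1 (ContinuousLinearMap.restrictScalarsL ℂ Z H ℝ ℝ).hasFDerivAt hed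
    rw [h3.fderiv]
    rfl
  have h4 : ∀ j, pdθ j (fun θ => (i : YC →L[ℂ] YE) ∘L A₀ ∘L e θ) x.1
      = (i : YC →L[ℂ] YE) ∘L A₀ ∘L (fderiv ℝ e x.1 (Pi.single j 1)) := by
    intro j
    let K : (Z →L[ℂ] H) →L[ℝ] (Z →L[ℂ] YE) :=
      (ContinuousLinearMap.compL ℂ Z H YE ((i : YC →L[ℂ] YE) ∘L A₀)).restrictScalars ℝ
    have h5 : HasFDerivAt (fun θ => (i : YC →L[ℂ] YE) ∘L A₀ ∘L e θ)
        (K.comp (fderiv ℝ e x.1)) x.1 := HasFDerivAt.comp x.1 K.hasFDerivAt hed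
    unfold pdθ
    rw [h5.fderiv]
    rfl
  refine ContinuousLinearMap.ext fun y => ?_
  obtain ⟨κ, τ, w⟩ := y
  rw [ContinuousLinearMap.comp_apply, hCf, ContinuousLinearMap.comp_apply, mm_apply, phi_apply]
  show ((L τ, A₀ (fderiv ℝ (eR e) x.1 κ x.2.2 + e x.1 w)) : YR × YC) = _
  refine Prod.ext rfl ?_
  show A₀ (fderiv ℝ (eR e) x.1 κ x.2.2 + e x.1 w) = i.symm (e'.symm (e' (tot
    ((i : YC →L[ℂ] YE) ∘L A₀ ∘L e x.1)
    (fun j => pdθ j (fun θ => (i : YC →L[ℂ] YE) ∘L A₀ ∘L e θ) x.1) x.2.2 (κ, w))))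
  rw [ContinuousLinearEquiv.symm_apply_apply, ContinuousLinearEquiv.eq_symm_apply]
  have h6 : tot ((i : YC →L[ℂ] YE) ∘L A₀ ∘L e x.1)
      (fun j => pdθ j (fun θ => (i : YC →L[ℂ] YE) ∘L A₀ ∘L e θ) x.1) x.2.2 (κ, w)
      = (∑ j, κ j • i (A₀ (fderiv ℝ e x.1 (Pi.single j 1) x.2.2))) + i (A₀ (e x.1 w)) := by
    simp only [tot, h4]
    rw [ContinuousLinearMap.coprod_apply]
    congr 1
    rw [_root_.sum_apply]
    rfl
  rw [h6, h2, map_add, map_add]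
  congr 1
  have h7 : κ = ∑ j, κ j • (Pi.single j (1 : ℝ) : Fin b → ℝ) := by
    funext k
    simp [Finset.sum_apply, Pi.single_apply]
  have h8 : fderiv ℝ e x.1 κ = ∑ j, κ j • fderiv ℝ e x.1 (Pi.single j 1) := by
    conv_lhs => rw [h7]
    rw [map_sum]
    simp
  show i (A₀ (fderiv ℝ e x.1 κ x.2.2)) = _
  rw [h8, _root_.sum_apply, map_sum, map_sum]
  refine Finset.sum_congr rfl fun j _ => ?_
  rw [_root_.smul_apply, A₀.map_smul_of_tower]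
  exact (i : YC →L[ℂ] YE).map_smul_of_tower _ _

end Crest.Agent.R235.FdsC_778
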