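import Crest.Agent.R235.FdsI_778
import Crest.Agent.R235.FdsA_356

/-!
Row 235 (S0364), block FAM-FDS (helper778): part (D) of FDS / FDH (task 421).

`fds_d` : no value on the ray over `‖t‖ = 1` ⇒ the iterated integral over the torus of
`u (‖A e z‖²) det (e' ∘ tot (A e) (∂_j (A e)) z)` is zero (all bumps `u` of small support);
`fdh_d` : one nondegenerate point on the ray ⇒ it is different from zero (after a translation of
the torus by `h₀`).
-/

set_option autoImplicit false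
set_option maxSynthPendingDepth 3

open MeasureTheory Set Filter Topology Module Function
open scoped ContDiff

noncomputable section

namespace Crest.Agent.R235.FdsD_778

open DgStk_778 DgTri_778 DgInv_778 FdJa_778 FdsT_778 FdsS_778 FdsC_778 FdsI_778 FamDefs_307

variable {T H YR YC : Type} [NormedAddCommGroup T] [NormedSpace ℝ T] [FiniteDimensional ℝ T]
  [NormedAddCommGroup H] [InnerProductSpace ℂ H] [FiniteDimensional ℂ H]
  [NormedAddCommGroup YR] [NormedSpace ℝ YR] [FiniteDimensional ℝ YR]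
  [NormedAddCommGroup YC] [NormedSpace ℂ YC] [FiniteDimensional ℂ YC]
  {b m : ℕ}

/-- the model fibre -/
abbrev Zm (m : ℕ) : Type := EuclideanSpace ℂ (Fin m)

/-- the model target -/
abbrev YE (YC : Type) [NormedAddCommGroup YC] [NormedSpace ℂ YC] : Type :=
  EuclideanSpace ℂ (Fin (finrank ℂ YC))

/-- the torus integral -/
def JJ (A : H →L[ℂ] YE YC) (e : (Fin b → ℝ) → Zm m →L[ℂ] H)
    (e' : YE YC ≃L[ℝ] (Fin b → ℝ) × Zm m) (μ : Measure (Zm m)) (u : ℝ → ℝ) : ℝ :=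
  ∫ θ : Fin b → ℝ, rho θ * (∫ z, u (‖A (e θ z)‖ ^ 2) *
    LinearMap.det ((e' : YE YC →L[ℝ] (Fin b → ℝ) × Zm m) ∘L tot (A ∘L e θ)
      (fun j => pdθ j (fun θ => A ∘L e θ) θ) z :
      ((Fin b → ℝ) × Zm m) →ₗ[ℝ] (Fin b → ℝ) × Zm m) ∂μ)

/-- radial retraction to the unit ball -/
def th (t : T) : T := (max 1 ‖t‖)⁻¹ • t

omit [FiniteDimensional ℝ T] in
theorem continuous_th : Continuous (th (T := T)) := by
  refine Continuous.smul (Continuous.inv₀ (continuous_const.max continuous_norm) fun t => ?_)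
    continuous_id
  exact (lt_of_lt_of_le one_pos (le_max_left _ _)).ne'

omit [FiniteDimensional ℝ T] in
theorem th_small {t : T} (ht : ‖t‖ ≤ 1) : th t = t := by
  unfold th
  rw [max_eq_left ht, inv_one, one_smul]

omit [FiniteDimensional ℝ T] in
theorem th_large {t : T} (ht : 1 ≤ ‖t‖) : th t = ‖t‖⁻¹ • t := by
  unfold th
  rw [max_eq_right ht]

omit [FiniteDimensional ℝ T] in
theorem norm_th_large {t : T} (ht : 1 ≤ ‖t‖) : ‖th t‖ = 1 := by
  rw [th_large ht, norm_smul, norm_inv, norm_norm, inv_mul_cancel₀]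
  exact (lt_of_lt_of_le one_pos ht).ne'

/-- translation of a periodic family -/
theorem PPer.shift {P : (Fin b → ℝ) → H →L[ℂ] H} (hP : PPer b m P) (h₀ : Fin b → ℝ) :
    PPer b m (fun h => P (h + h₀)) where
  smooth := hP.smooth.comp (contDiff_id.add contDiff_const)
  per h k := by
    have h1 : (fun i => h i + (k i : ℝ)) + h₀ = fun i => (h + h₀) i + (k i : ℝ) := by
      funext i
      simp only [Pi.add_apply]
      ring
    show P ((fun i => h i + (k i : ℝ)) + h₀) = P (h + h₀)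
    rw [h1, hP.per]
  idem _ _ := hP.idem _ _
  sa _ _ _ := hP.sa _ _ _
  rank _ := hP.rank _

/-- frames modelled on `EuclideanSpace` -/
theorem exists_frameE {P : (Fin b → ℝ) → H →L[ℂ] H} (hP : PPer b m P) :
    ∃ e : (Fin b → ℝ) → Zm m →L[ℂ] H, ContDiff ℝ ∞ e ∧ (∀ h z, P h (e h z) = e h z) ∧
      ∀ h : Fin b → ℝ, ‖h‖ ≤ 2 → Function.Injective (e h) := by
  obtain ⟨e, he, hPe, hei⟩ := Frame_936.exists_frame hP.smooth hP.idem
    (fun h => inferInstance) hP.rank 0 2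
  let j : Zm m ≃L[ℂ] (Fin m → ℂ) := EuclideanSpace.equiv (Fin m) ℂ
  refine ⟨fun h => (e h).comp (j : Zm m →L[ℂ] (Fin m → ℂ)), ?_, fun h z => hPe h _, ?_⟩
  · exact Frame_936.contDiff_comp he contDiff_const
  · intro h hh
    exact (hei h (by simpa using hh)).1.comp j.injective

/-- the system on the extended space -/
theorem exists_sys {P : (Fin b → ℝ) → H →L[ℂ] H} (hP : PPer b m P)
    (hdim : b + 2 * m = 2 * finrank ℂ YC) (L : T ≃L[ℝ] YR)
    {e : (Fin b → ℝ) → Zm m →L[ℂ] H} (he : ContDiff ℝ ∞ e) (hPe : ∀ h z, P h (e h z) = e h z)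
    (hi : ∀ h : Fin b → ℝ, ‖h‖ ≤ 2 → Function.Injective (e h))
    {v : YC} (hv : v ≠ 0) {G : T × (Fin b → ℝ) × H → YR × YC} (cG : Continuous G)
    (pG : ∀ t h ψ (k : Fin b → ℤ), G (t, fun i => h i + k i, ψ) = G (t, h, ψ)) {R : ℝ}
    (hR : 0 < R) (hray : ∀ t h ψ, P h ψ = ψ → (R ≤ ‖t‖ ∨ R ≤ ‖ψ‖) → ∀ s : ℝ, 0 ≤ s →
      G (t, h, ψ) ≠ s • ((0, v) : YR × YC)) :
    Sys b m P e G ((0, v) : YR × YC) R where
  smP := hP.smooth
  perP := hP.per
  idem := hP.idem
  rank := hP.rank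
  smE := he
  Pe := hPe
  inj := hi
  fW := by simp
  dim := by
    have h1 := L.toLinearEquiv.finrank_eq
    rw [finrank_prod, finrank_real_of_complex]
    omega
  cG := cG
  pG := pG
  vne := fun h => hv (congrArg Prod.snd h)
  pos := hR
  ray := hray

/-- the common final step: from `I0` to the torus integral -/
theorem to_JJ {P : (Fin b → ℝ) → H →L[ℂ] H} (hP : PPer b m P)
    (hdim : b + 2 * m = 2 * finrank ℂ YC) (L : T ≃L[ℝ] YR) {v : YC} (hv : v ≠ 0)
    {e : (Fin b → ℝ) → Zm m →L[ℂ] H} (he : ContDiff ℝ ∞ e) (hPe : ∀ h z, P h (e h z) = e h z)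
    (hi : ∀ h : Fin b → ℝ, ‖h‖ ≤ 2 → Function.Injective (e h))
    (A₀ : H →L[ℂ] YC) (hA : ∀ h ψ, P h ψ = ψ → A₀ ψ = 0 → ψ = 0)
    (i : YC ≃L[ℂ] YE YC) (e' : YE YC ≃L[ℝ] (Fin b → ℝ) × Zm m)
    [MeasurableSpace T] [BorelSpace T] (νT : Measure T) [νT.IsAddHaarMeasure]
    (μ : Measure (Zm m)) [μ.IsAddHaarMeasure] {n : ℕ} (hn : finrank ℝ (YR × YC) = n + 1)
    (bs : Basis (Fin (n + 1)) ℝ ((Fin b → ℝ) × T × Zm m))
    (om : (YR × YC) [⋀^Fin (n + 1)]→L[ℝ] ℝ) (hom : om ≠ 0) {δ : ℝ} (hδ : 0 < δ) :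
    ∃ δ' > 0, ∀ u : ℝ → ℝ, ContDiff ℝ ∞ u → (∀ r, 0 ≤ u r) → 0 < u 0 →
      (∀ r, δ' ≤ r → u r = 0) → ∃ η : YR × YC → ℝ, ContDiff ℝ 1 η ∧ (∀ y, 0 ≤ η y) ∧ 0 < η 0 ∧
        (∀ y, δ ≤ ‖y‖ → η y = 0) ∧ ∃ c : ℝ, c ≠ 0 ∧
          I0 e (Lam L A₀) (νT.prod μ) bs om η
            = c * JJ ((i : YC →L[ℂ] YE YC) ∘L A₀) e e' μ u := by
  set C : ℝ := ‖(i.symm : YE YC →L[ℂ] YC)‖ + 1 with hC
  have hCpos : 0 < C := by positivity
  have hiC : ∀ y : YC, ‖y‖ ≤ C * ‖i y‖ := by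
    intro y
    have h1 := (i.symm : YE YC →L[ℂ] YC).le_opNorm (i y)
    have h2 : (i.symm : YE YC →L[ℂ] YC) (i y) = y := i.symm_apply_apply y
    rw [h2] at h1
    refine h1.trans ?_
    gcongr
    rw [hC]
    linarith
  refine ⟨(δ / C) ^ 2, by positivity, fun u hu hu0 hu1 hu2 => ?_⟩
  let B : ContDiffBump (0 : YR) := ⟨δ / 2, δ, by positivity, by linarith⟩
  have hB0 : ∀ y : YR, δ ≤ ‖y‖ → B y = 0 := fun y hy =>
    B.zero_of_le_dist (by rw [dist_zero_right]; exact hy)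
  have hB1 : B 0 = 1 := B.one_of_mem_closedBall (Metric.mem_closedBall_self (by positivity))
  have hη0 : ∀ y, δ ≤ ‖y‖ → et i B u y = 0 := by
    intro y hy
    rw [Prod.norm_def] at hy
    rcases le_max_iff.1 hy with h1 | h1
    · show B y.1 * _ = 0
      rw [hB0 _ h1, zero_mul]
    · have h2 : δ / C ≤ ‖i y.2‖ := by
        rw [div_le_iff₀ hCpos, mul_comm]
        exact h1.trans (hiC _)
      show _ * u (‖i y.2‖ ^ 2) = 0
      rw [hu2 _ (by gcongr), mul_zero]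
  refine ⟨et i B u, ?_, ?_, ?_, hη0, ?_⟩
  · have h1 : ContDiff ℝ 1 fun y : YR × YC => B y.1 := B.contDiff.comp contDiff_fst
    have h2 : ContDiff ℝ 1 fun y : YR × YC => ‖i y.2‖ ^ 2 := by
      have h3 : ContDiff ℝ 1 fun y : YR × YC => i y.2 :=
        ((i : YC →L[ℂ] YE YC).restrictScalars ℝ).contDiff.comp contDiff_snd
      exact h3.norm_sq ℂ
    exact h1.mul ((hu.of_le (by simp)).comp h2)
  · intro y
    exact mul_nonneg B.nonneg (hu0 _)
  · show 0 < B 0 * u (‖i 0‖ ^ 2)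
    rw [hB1, map_zero, norm_zero, one_mul]
    simpa using hu1
  · have h1 := i0_eq hP.smooth.continuous he hPe hi L A₀ hA i e' νT μ bs om B u B.continuous
      hu.continuous hη0
    refine ⟨Dt om bs (Phi L i e') * ∫ t, B (L t) ∂νT, ?_, h1⟩
    refine mul_ne_zero (dt_ne bs om hom hn _ (phi_inj L i e')) ?_
    have hpT : ProperSpace T := FiniteDimensional.proper ℝ T
    have h2 : Continuous fun t : T => B (L t) := B.continuous.comp L.continuous
    have h3 : HasCompactSupport fun t : T => B (L t) :=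
      B.hasCompactSupport.comp_homeomorph L.toHomeomorph
    refine (h2.integral_pos_of_hasCompactSupport_nonneg_nonzero h3 (fun t => B.nonneg)
      (x := 0) ?_).ne'
    rw [map_zero, hB1]
    exact one_ne_zero

/-- **(D) of FDS** -/
theorem fds_d {P : (Fin b → ℝ) → H →L[ℂ] H} {L : T ≃L[ℝ] YR}
    {fR : T × (Fin b → ℝ) × H → YR} {fC : T × (Fin b → ℝ) × H → YC} {v : YC} {R : ℝ}
    (hS : FSys b m P L fR fC v R) (hN : NoRay P fR fC v) :
    ∃ (A : H →L[ℂ] YE YC) (e : (Fin b → ℝ) → Zm m →L[ℂ] H),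
      (∀ h ψ, P h ψ = ψ → A ψ = 0 → ψ = 0) ∧ ContDiff ℝ ∞ e ∧
      (∀ h z, P h (e h z) = e h z) ∧ (∀ h : Fin b → ℝ, ‖h‖ ≤ 2 → Function.Injective (e h)) ∧
      ∀ (e' : YE YC ≃L[ℝ] (Fin b → ℝ) × Zm m) (μ : Measure (Zm m)) [μ.IsAddHaarMeasure],
        ∃ δ > 0, ∀ u : ℝ → ℝ, ContDiff ℝ ∞ u → (∀ r, 0 ≤ u r) → 0 < u 0 →
          (∀ r, δ ≤ r → u r = 0) → JJ A e e' μ u = 0 := by
  classical
  obtain ⟨δa, A₀, gR, gC, hδa, hδ1, hδR, hA₀, cgR, cgC, pgR, pgC, hlin, hfar, hzer⟩ :=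
    FdsA_356.fds_abc hS (fun t h ψ ht hψ hfR hfC =>
      hN t h ψ ht hψ hfR 0 le_rfl (by rw [hfC]; simp))
  obtain ⟨e, he, hPe, hi⟩ := exists_frameE hS.proj
  let cc : T → ℝ := fun t => max 0 (‖t‖ - 1)
  have hcc : Continuous cc := continuous_const.max (continuous_norm.sub continuous_const)
  let G : T × (Fin b → ℝ) × H → YR × YC := fun x =>
    (gR (th x.1, x.2.1, x.2.2), gC (th x.1, x.2.1, x.2.2) - ((cc x.1 : ℝ) : ℂ) • v)
  have hsh : Continuous fun x : T × (Fin b → ℝ) × H =>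
      ((th x.1, x.2.1, x.2.2) : T × (Fin b → ℝ) × H) :=
    (continuous_th.comp continuous_fst).prodMk continuous_snd
  have cG : Continuous G := by
    refine (cgR.comp hsh).prodMk ((cgC.comp hsh).sub ?_)
    exact (Complex.continuous_ofReal.comp (hcc.comp continuous_fst)).smul continuous_const
  -- no solution in the collar
  have hcol : ∀ (t : T) (h : Fin b → ℝ) (ψ : H) (s : ℝ), P h ψ = ψ → 1 < ‖t‖ → 0 ≤ s →
      G (t, h, ψ) ≠ s • ((0, v) : YR × YC) := by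
    intro t h ψ s hψ ht hs hG
    have e1 : gR (th t, h, ψ) = 0 := by
      have := congrArg Prod.fst hG
      simpa [G] using this
    have e2 : gC (th t, h, ψ) - ((cc t : ℝ) : ℂ) • v = (s : ℂ) • v := by
      have := congrArg Prod.snd hG
      simpa [G] using this
    have e3 : cc t = ‖t‖ - 1 := max_eq_right (by linarith)
    obtain ⟨e4, e5⟩ := hfar (th t) h ψ (Or.inl (norm_th_large ht.le).ge)
    rw [e4] at e1
    rw [e5] at e2
    refine hN (th t) h ψ (norm_th_large ht.le) hψ e1 (s + (‖t‖ - 1)) (by linarith) ?_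
    rw [sub_eq_iff_eq_add] at e2
    rw [e2, e3, ← add_smul]
    push_cast
    rfl
  set R' : ℝ := max R 0 + 2 with hR'
  have hR'1 : R ≤ R' := by
    have := le_max_left R 0
    linarith
  have hR'0 : 0 < R' := by
    have := le_max_right R 0
    linarith
  have hSys : Sys b m P e G ((0, v) : YR × YC) R' := by
    refine exists_sys hS.proj hS.hdim L he hPe hi hS.vne cG ?_ hR'0 ?_
    · intro t h ψ k
      show (gR (th t, fun i => h i + (k i : ℝ), ψ),
        gC (th t, fun i => h i + (k i : ℝ), ψ) - ((cc t : ℝ) : ℂ) • v) = _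
      rw [pgR, pgC]
    · intro t h ψ hψ hbig s hs hG
      rcases le_or_gt ‖t‖ 1 with ht | ht
      · have e0 : R' ≤ ‖ψ‖ := by
          rcases hbig with hb | hb
          · have := le_max_right R 0
            linarith
          · exact hb
        have e1 : gR (th t, h, ψ) = 0 := by
          have := congrArg Prod.fst hG
          simpa [G] using this
        have e2 : gC (th t, h, ψ) - ((cc t : ℝ) : ℂ) • v = (s : ℂ) • v := by
          have := congrArg Prod.snd hG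
          simpa [G] using this
        have e3 : cc t = 0 := max_eq_left (by linarith)
        rw [th_small ht] at e1 e2
        obtain ⟨e4, e5⟩ := hfar t h ψ (Or.inr (hR'1.trans e0))
        rw [e4] at e1
        rw [e5, e3] at e2
        simp only [Complex.ofReal_zero, zero_smul, sub_zero] at e2
        exact hS.big t h ψ ht hψ (hR'1.trans e0) e1 s hs e2
      · exact hcol t h ψ s hψ ht hs hG
  have hLz : ∀ h t ψ, P h ψ = ψ → Lam L A₀ (t, ψ) = 0 → t = 0 ∧ ψ = 0 := by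
    intro h t ψ hψ h0
    have h1 : L t = 0 := congrArg Prod.fst h0
    have h2 : A₀ ψ = 0 := congrArg Prod.snd h0
    exact ⟨by simpa using h1, hA₀ h ψ hψ h2⟩
  have hlin' : ∀ t h ψ, ‖t‖ ≤ δa → ‖ψ‖ ≤ δa → G (t, h, ψ) = Lam L A₀ (t, ψ) := by
    intro t h ψ ht hψ
    have ht1 : ‖t‖ ≤ 1 := ht.trans hδ1.le
    obtain ⟨e1, e2⟩ := hlin t h ψ ht hψ
    have e3 : cc t = 0 := max_eq_left (by linarith)
    show (gR (th t, h, ψ), gC (th t, h, ψ) - ((cc t : ℝ) : ℂ) • v) = (L t, A₀ ψ)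
    rw [th_small ht1, e1, e2, e3]
    simp
  have hz : ∀ t h ψ, P h ψ = ψ → G (t, h, ψ) = 0 → t = 0 ∧ ψ = 0 := by
    intro t h ψ hψ hG
    rcases le_or_gt ‖t‖ 1 with ht | ht
    · have e1 : gR (th t, h, ψ) = 0 := congrArg Prod.fst hG
      have e2 : gC (th t, h, ψ) - ((cc t : ℝ) : ℂ) • v = 0 := congrArg Prod.snd hG
      have e3 : cc t = 0 := max_eq_left (by linarith)
      rw [th_small ht] at e1 e2
      rw [e3] at e2
      simp only [Complex.ofReal_zero, zero_smul, sub_zero] at e2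
      exact hzer t h ψ ht hψ e1 e2
    · exact absurd (by rw [hG, zero_smul]) (hcol t h ψ 0 hψ ht le_rfl)
  -- bases
  obtain ⟨n, hn⟩ : ∃ n, finrank ℝ (YR × YC) = n + 1 := by
    have h1 : 0 < finrank ℝ (YR × YC) := by
      have : Nontrivial (YR × YC) := ⟨(0, v), 0, fun h => hS.vne (congrArg Prod.snd h)⟩
      exact finrank_pos
    exact ⟨finrank ℝ (YR × YC) - 1, by omega⟩
  have hfX : finrank ℝ ((Fin b → ℝ) × T × Zm m) = n + 1 := by
    have h1 := hSys.dim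
    rw [← hn, ← h1, finrank_prod, finrank_prod, Module.finrank_pi, Fintype.card_fin,
      finrank_real_of_complex, finrank_euclideanSpace, Fintype.card_fin]
    ring
  let bs : Basis (Fin (n + 1)) ℝ ((Fin b → ℝ) × T × Zm m) :=
    (Module.finBasis ℝ _).reindex (finCongr hfX)
  obtain ⟨om, hom⟩ := exists_top (Y := YR × YC) hn
  let i : YC ≃L[ℂ] YE YC :=
    (LinearEquiv.ofFinrankEq YC (YE YC) (by simp)).toContinuousLinearEquiv
  refine ⟨(i : YC →L[ℂ] YE YC) ∘L A₀, e, ?_, he, hPe, hi, ?_⟩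
  · intro h ψ hψ h0
    exact hA₀ h ψ hψ (by simpa using h0)
  intro e' μ hμ
  let _ : MeasurableSpace T := borel T
  have _ : BorelSpace T := ⟨rfl⟩
  have hpT : ProperSpace T := FiniteDimensional.proper ℝ T
  let νT : Measure T := Measure.addHaar
  have hν : (νT.prod μ).IsAddHaarMeasure := by
    have h1 : SFinite νT := inferInstance
    have h2 : SFinite μ := inferInstance
    exact Measure.prod.instIsAddHaarMeasure _ _
  obtain ⟨δ, hδ, hzero⟩ := sec_zero hSys (Lam L A₀) hδa (hδR.trans_le hR'1) hLz hlin' hz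
    (νT.prod μ) hn bs om
  obtain ⟨δ', hδ', hJ⟩ := to_JJ hS.proj hS.hdim L hS.vne he hPe hi A₀ hA₀ i e' νT μ hn bs om hom hδ
  refine ⟨δ', hδ', fun u hu hu0 hu1 hu2 => ?_⟩
  obtain ⟨η, hη, hηn, hη1, hη0, c, hc, hI⟩ := hJ u hu hu0 hu1 hu2
  have h1 := hzero η hη hη0
  rw [hI] at h1
  exact (mul_eq_zero.1 h1).resolve_left hc

/-- **(D) of FDH** -/
theorem fdh_d {P : (Fin b → ℝ) → H →L[ℂ] H} {L : T ≃L[ℝ] YR}
    {fR : T × (Fin b → ℝ) × H → YR} {fC : T × (Fin b → ℝ) × H → YC} {v : YC} {R : ℝ}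
    (hS : FSys b m P L fR fC v R) (hO : OneRay P fR fC v) :
    ∃ (h₀ : Fin b → ℝ) (A : H →L[ℂ] YE YC) (e : (Fin b → ℝ) → Zm m →L[ℂ] H),
      PPer b m (fun h => P (h + h₀)) ∧
      (∀ h ψ, P h ψ = ψ → A ψ = 0 → ψ = 0) ∧ ContDiff ℝ ∞ e ∧
      (∀ h z, P (h + h₀) (e h z) = e h z) ∧
      (∀ h : Fin b → ℝ, ‖h‖ ≤ 2 → Function.Injective (e h)) ∧
      ∀ (e' : YE YC ≃L[ℝ] (Fin b → ℝ) × Zm m) (μ : Measure (Zm m)) [μ.IsAddHaarMeasure],
        ∃ δ > 0, ∀ u : ℝ → ℝ, ContDiff ℝ ∞ u → (∀ r, 0 ≤ u r) → 0 < u 0 →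
          (∀ r, δ ≤ r → u r = 0) → JJ A e e' μ u ≠ 0 := by
  classical
  obtain ⟨t₀, h₀, ψ₀, s₀, L', ht₀, hψ₀, hs₀, hR₀, hC₀, h3, hL', hLi⟩ := hO
  obtain ⟨δa, A₀, gR, gC, hδa, hδ1, hδR, hA₀, cgR, cgC, pgR, pgC, hlin, hfar, hzer⟩ :=
    FdsA_356.fds_abc hS (fun t h ψ ht hψ hfR hfC => by
      have := (h3 t h ψ 0 ht hψ le_rfl hfR (by rw [hfC]; simp)).2.2.1
      linarith)
  let P' : (Fin b → ℝ) → H →L[ℂ] H := fun h => P (h + h₀)
  have hP' : PPer b m P' := PPer.shift hS.proj h₀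
  obtain ⟨e, he, hPe, hi⟩ := exists_frameE hP'
  let cc : T → ℝ := fun t => max 0 (‖t‖ - 1)
  have hcc : Continuous cc := continuous_const.max (continuous_norm.sub continuous_const)
  let G : T × (Fin b → ℝ) × H → YR × YC := fun x =>
    (gR (th x.1, x.2.1 + h₀, x.2.2), gC (th x.1, x.2.1 + h₀, x.2.2) - ((cc x.1 : ℝ) : ℂ) • v)
  have hsh : Continuous fun x : T × (Fin b → ℝ) × H =>
      ((th x.1, x.2.1 + h₀, x.2.2) : T × (Fin b → ℝ) × H) :=
    (continuous_th.comp continuous_fst).prodMk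
      (((continuous_fst.comp continuous_snd).add continuous_const).prodMk
        (continuous_snd.comp continuous_snd))
  have cG : Continuous G := by
    refine (cgR.comp hsh).prodMk ((cgC.comp hsh).sub ?_)
    exact (Complex.continuous_ofReal.comp (hcc.comp continuous_fst)).smul continuous_const
  -- solutions in the collar
  have hcol : ∀ (t : T) (h : Fin b → ℝ) (ψ : H) (s : ℝ), P' h ψ = ψ → 1 < ‖t‖ → 0 ≤ s →
      G (t, h, ψ) = s • ((0, v) : YR × YC) → th t = t₀ ∧ ψ = ψ₀ ∧ s + (‖t‖ - 1) = s₀ ∧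
        ∃ k : Fin b → ℤ, h = fun i => (k i : ℝ) := by
    intro t h ψ s hψ ht hs hG
    have e1 : gR (th t, h + h₀, ψ) = 0 := by
      have := congrArg Prod.fst hG
      simpa [G] using this
    have e2 : gC (th t, h + h₀, ψ) - ((cc t : ℝ) : ℂ) • v = (s : ℂ) • v := by
      have := congrArg Prod.snd hG
      simpa [G] using this
    have e3 : cc t = ‖t‖ - 1 := max_eq_right (by linarith)
    obtain ⟨e4, e5⟩ := hfar (th t) (h + h₀) ψ (Or.inl (norm_th_large ht.le).ge)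
    rw [e4] at e1
    rw [e5] at e2
    have e6 : fC (th t, h + h₀, ψ) = ((s + (‖t‖ - 1) : ℝ) : ℂ) • v := by
      rw [sub_eq_iff_eq_add] at e2
      rw [e2, e3, ← add_smul]
      push_cast
      rfl
    obtain ⟨e7, e8, e9, k, hk⟩ := h3 (th t) (h + h₀) ψ (s + (‖t‖ - 1))
      (norm_th_large ht.le) hψ (by linarith) e1 e6
    refine ⟨e7, e8, e9, k, ?_⟩
    funext i
    have := congrFun hk i
    simp only [Pi.add_apply] at this
    linarith
  set R' : ℝ := max (max R 0) (‖ψ₀‖ + 1) + (2 + s₀) with hR'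
  have hR'1 : R ≤ R' := by
    have := (le_max_left R 0).trans (le_max_left (max R 0) (‖ψ₀‖ + 1))
    linarith
  have hR'2 : ‖ψ₀‖ < R' := by
    have := le_max_right (max R 0) (‖ψ₀‖ + 1)
    linarith
  have hR'3 : 1 + s₀ < R' := by
    have := (le_max_right R 0).trans (le_max_left (max R 0) (‖ψ₀‖ + 1))
    linarith
  have hSys : Sys b m P' e G ((0, v) : YR × YC) R' := by
    refine exists_sys hP' hS.hdim L he hPe hi hS.vne cG ?_ (by linarith) ?_
    · intro t h ψ k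
      have h1 : (fun i => h i + (k i : ℝ)) + h₀ = fun i => (h + h₀) i + (k i : ℝ) := by
        funext i
        simp only [Pi.add_apply]
        ring
      show (gR (th t, (fun i => h i + (k i : ℝ)) + h₀, ψ),
        gC (th t, (fun i => h i + (k i : ℝ)) + h₀, ψ) - ((cc t : ℝ) : ℂ) • v) = _
      rw [h1, pgR, pgC]
    · intro t h ψ hψ hbig s hs hG
      rcases le_or_gt ‖t‖ 1 with ht | ht
      · have e0 : R' ≤ ‖ψ‖ := by
          rcases hbig with hb | hb
          · linarith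
          · exact hb
        have e1 : gR (th t, h + h₀, ψ) = 0 := by
          have := congrArg Prod.fst hG
          simpa [G] using this
        have e2 : gC (th t, h + h₀, ψ) - ((cc t : ℝ) : ℂ) • v = (s : ℂ) • v := by
          have := congrArg Prod.snd hG
          simpa [G] using this
        have e3 : cc t = 0 := max_eq_left (by linarith)
        rw [th_small ht] at e1 e2
        obtain ⟨e4, e5⟩ := hfar t (h + h₀) ψ (Or.inr (hR'1.trans e0))
        rw [e4] at e1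
        rw [e5, e3] at e2
        simp only [Complex.ofReal_zero, zero_smul, sub_zero] at e2
        exact hS.big t (h + h₀) ψ ht hψ (hR'1.trans e0) e1 s hs e2
      · obtain ⟨e1, e2, e3, -⟩ := hcol t h ψ s hψ ht hs hG
        rcases hbig with hb | hb
        · linarith
        · rw [e2] at hb
          linarith
  have hLz : ∀ h t ψ, P' h ψ = ψ → Lam L A₀ (t, ψ) = 0 → t = 0 ∧ ψ = 0 := by
    intro h t ψ hψ h0
    have h1 : L t = 0 := congrArg Prod.fst h0
    have h2 : A₀ ψ = 0 := congrArg Prod.snd h0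
    exact ⟨by simpa using h1, hA₀ (h + h₀) ψ hψ h2⟩
  have hlin' : ∀ t h ψ, ‖t‖ ≤ δa → ‖ψ‖ ≤ δa → G (t, h, ψ) = Lam L A₀ (t, ψ) := by
    intro t h ψ ht hψ
    have ht1 : ‖t‖ ≤ 1 := ht.trans hδ1.le
    obtain ⟨e1, e2⟩ := hlin t (h + h₀) ψ ht hψ
    have e3 : cc t = 0 := max_eq_left (by linarith)
    show (gR (th t, h + h₀, ψ), gC (th t, h + h₀, ψ) - ((cc t : ℝ) : ℂ) • v) = (L t, A₀ ψ)
    rw [th_small ht1, e1, e2, e3]
    simp
  have hn1 : ‖(1 + s₀) • t₀‖ = 1 + s₀ := by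
    rw [norm_smul, ht₀, mul_one, Real.norm_of_nonneg (by linarith)]
  have hz : ∀ t h ψ, P' h ψ = ψ → (∀ j, |h j| ≤ 3 / 4) → G (t, h, ψ) = 0 →
      (t = 0 ∧ ψ = 0) ∨ (t = (1 + s₀) • t₀ ∧ h = 0 ∧ ψ = ψ₀) := by
    intro t h ψ hψ hh hG
    rcases le_or_gt ‖t‖ 1 with ht | ht
    · left
      have e1 : gR (th t, h + h₀, ψ) = 0 := congrArg Prod.fst hG
      have e2 : gC (th t, h + h₀, ψ) - ((cc t : ℝ) : ℂ) • v = 0 := congrArg Prod.snd hG
      have e3 : cc t = 0 := max_eq_left (by linarith)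
      rw [th_small ht] at e1 e2
      rw [e3] at e2
      simp only [Complex.ofReal_zero, zero_smul, sub_zero] at e2
      exact hzer t (h + h₀) ψ ht hψ e1 e2
    · right
      obtain ⟨e1, e2, e3, k, hk⟩ := hcol t h ψ 0 hψ ht le_rfl (by rw [hG, zero_smul])
      have e4 : ‖t‖ = 1 + s₀ := by linarith
      have e5 : t = (1 + s₀) • t₀ := by
        rw [← e1, th_large ht.le, ← e4, smul_smul, mul_inv_cancel₀ (by linarith), one_smul]
      refine ⟨e5, ?_, e2⟩
      funext i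
      have e6 := hh i
      rw [hk] at e6 ⊢
      have e7 : (k i : ℤ) = 0 := by
        by_contra hne
        have e8 : (1 : ℝ) ≤ |(k i : ℝ)| := by
          have := Int.one_le_abs hne
          exact_mod_cast this
        have e9 : |(k i : ℝ)| ≤ 3 / 4 := e6
        linarith
      show ((k i : ℤ) : ℝ) = 0
      rw [e7]
      simp
  -- bases
  obtain ⟨n, hn⟩ : ∃ n, finrank ℝ (YR × YC) = n + 1 := by
    have h1 : 0 < finrank ℝ (YR × YC) := by
      have : Nontrivial (YR × YC) := ⟨(0, v), 0, fun h => hS.vne (congrArg Prod.snd h)⟩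
      exact finrank_pos
    exact ⟨finrank ℝ (YR × YC) - 1, by omega⟩
  have hfX : finrank ℝ ((Fin b → ℝ) × T × Zm m) = n + 1 := by
    have h1 := hSys.dim
    rw [← hn, ← h1, finrank_prod, finrank_prod, Module.finrank_pi, Fintype.card_fin,
      finrank_real_of_complex, finrank_euclideanSpace, Fintype.card_fin]
    ring
  let bs : Basis (Fin (n + 1)) ℝ ((Fin b → ℝ) × T × Zm m) :=
    (Module.finBasis ℝ _).reindex (finCongr hfX)
  obtain ⟨om, hom⟩ := exists_top (Y := YR × YC) hn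
  let i : YC ≃L[ℂ] YE YC :=
    (LinearEquiv.ofFinrankEq YC (YE YC) (by simp)).toContinuousLinearEquiv
  refine ⟨h₀, (i : YC →L[ℂ] YE YC) ∘L A₀, e, hP', ?_, he, hPe, hi, ?_⟩
  · intro h ψ hψ h0
    exact hA₀ h ψ hψ (by simpa using h0)
  intro e' μ hμ
  let _ : MeasurableSpace T := borel T
  have _ : BorelSpace T := ⟨rfl⟩
  have hpT : ProperSpace T := FiniteDimensional.proper ℝ T
  let νT : Measure T := Measure.addHaar
  have hν : (νT.prod μ).IsAddHaarMeasure := by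
    have h1 : SFinite νT := inferInstance
    have h2 : SFinite μ := inferInstance
    exact Measure.prod.instIsAddHaarMeasure _ _
  obtain ⟨δ, hδ, hne⟩ := sec_ne hSys (Lam L A₀) hδa (hδR.trans_le hR'1) hLz hlin'
    ((1 + s₀) • t₀) ψ₀
    (by
      have h1 := norm_fst_le ((((1 + s₀) • t₀, ψ₀)) : T × H)
      have h2 : ‖(1 + s₀) • t₀‖ ≤ ‖(((1 + s₀) • t₀, ψ₀) : T × H)‖ := h1
      rw [hn1] at h2
      linarith)
    (by rw [hn1]; exact hR'3) hR'2
    (by
      show P (0 + h₀) ψ₀ = ψ₀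
      rw [zero_add]
      exact hψ₀)
    (by
      have e2 : th ((1 + s₀) • t₀) = t₀ := by
        rw [th_large (by rw [hn1]; linarith), hn1, smul_smul, inv_mul_cancel₀ (by linarith),
          one_smul]
      have e3 : cc ((1 + s₀) • t₀) = s₀ := by
        show max 0 (‖(1 + s₀) • t₀‖ - 1) = s₀
        rw [hn1, max_eq_right (by linarith)]
        ring
      obtain ⟨e5, e6⟩ := hfar t₀ h₀ ψ₀ (Or.inl ht₀.ge)
      show (gR (th ((1 + s₀) • t₀), 0 + h₀, ψ₀),
        gC (th ((1 + s₀) • t₀), 0 + h₀, ψ₀) - ((cc ((1 + s₀) • t₀) : ℝ) : ℂ) • v) = 0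
      rw [e2, e3, zero_add, e5, e6, hR₀, hC₀, sub_self]
      rfl)
    hz L'
    (by
      let sh : T × (Fin b → ℝ) × H → T × (Fin b → ℝ) × H := fun x => x + (0, h₀, 0)
      have e2 : HasFDerivAt sh (ContinuousLinearMap.id ℝ _) ((1 + s₀) • t₀, 0, ψ₀) :=
        (hasFDerivAt_id _).add_const _
      have e3 : sh ((1 + s₀) • t₀, 0, ψ₀) = ((1 + s₀) • t₀, h₀, ψ₀) := by
        simp [sh]
      have e4 := hL'
      rw [← e3] at e4
      have e5 := HasFDerivAt.comp ((1 + s₀) • t₀, (0 : Fin b → ℝ), ψ₀) e4 e2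
      rw [ContinuousLinearMap.comp_id] at e5
      refine e5.congr_of_eventuallyEq ?_
      have e6 : ∀ᶠ x : T × (Fin b → ℝ) × H in 𝓝 ((1 + s₀) • t₀, 0, ψ₀), 1 < ‖x.1‖ := by
        refine (isOpen_lt continuous_const continuous_fst.norm).mem_nhds ?_
        show 1 < ‖(1 + s₀) • t₀‖
        rw [hn1]
        linarith
      filter_upwards [e6] with x hx
      have e7 : th x.1 = ‖x.1‖⁻¹ • x.1 := th_large hx.le
      have e8 : cc x.1 = ‖x.1‖ - 1 := max_eq_right (by linarith)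
      obtain ⟨e9, e10⟩ := hfar (th x.1) (x.2.1 + h₀)
        (P (x.2.1 + h₀) x.2.2) (Or.inl (norm_th_large hx.le).ge)
      have e11 : (sh x).1 = x.1 := by simp [sh]
      have e12 : (sh x).2.1 = x.2.1 + h₀ := by simp [sh]
      have e13 : (sh x).2.2 = x.2.2 := by simp [sh]
      show (gR (th x.1, x.2.1 + h₀, P (x.2.1 + h₀) x.2.2),
        gC (th x.1, x.2.1 + h₀, P (x.2.1 + h₀) x.2.2) - ((cc x.1 : ℝ) : ℂ) • v)
        = (fR (‖(sh x).1‖⁻¹ • (sh x).1, (sh x).2.1, P (sh x).2.1 (sh x).2.2),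
          fC (‖(sh x).1‖⁻¹ • (sh x).1, (sh x).2.1, P (sh x).2.1 (sh x).2.2)
            - ((‖(sh x).1‖ - 1 : ℝ) : ℂ) • v)
      rw [e9, e10, e8, e7, e11, e12, e13])
    (by
      intro τ κ ξ hξ
      refine hLi τ κ ξ ?_
      have e5 : P (0 + h₀) ξ = ξ := hξ
      rwa [zero_add] at e5)
    (νT.prod μ) hn bs om hom
  obtain ⟨δ', hδ', hJ⟩ := to_JJ hP' hS.hdim L hS.vne he hPe hi A₀
    (fun h ψ hψ => hA₀ (h + h₀) ψ hψ) i e' νT μ hn bs om hom hδ
  refine ⟨δ', hδ', fun u hu hu0 hu1 hu2 h0 => ?_⟩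
  obtain ⟨η, hη, hηn, hη1, hη0, c, hc, hI⟩ := hJ u hu hu0 hu1 hu2
  refine hne η hη hηn hη1 hη0 ?_
  rw [hI, h0, mul_zero]

end Crest.Agent.R235.FdsD_778
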