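import Crest.Agent.R235.FdsF_143
import Crest.Agent.R235.DgInv_778

/-!
Row 235 (S0364), FAM-FDS (task 421), part (E) and assembly (helper143), interface of helper778 #2382.

* `polar`       : `∫ g (N z) f z = (∫_0^∞ r^(d-1+b) g r) C` for `N`, `f` homogeneous of degrees `1`, `b`;
* `unfold_rho`  : `∫ rho D` over `ℝ^b` is `∫ D` over the unit cube for periodic `D`;
* `compare`     : `∫ u (‖B z‖²) det = a ∫ exp (-‖B z‖²) det`, `a > 0` independent of `B`;
* `val2`, `val4`: the degree integral of the linear model is `a c (ch2 Q)`, `a c (ch4 Q + chsq Q)`.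
-/

set_option autoImplicit false
set_option maxSynthPendingDepth 3
set_option linter.unusedSectionVars false
set_option linter.unusedVariables false
set_option linter.style.haveILetI false

open Set Filter Module MeasureTheory Function
open scoped ContDiff Topology InnerProductSpace

namespace Crest.Agent.R235.FdsE_143

open FamDefs_307 FdsF_143 DgInv_778

noncomputable section

theorem polar {Z : Type*} [NormedAddCommGroup Z] [NormedSpace ℝ Z] [FiniteDimensional ℝ Z]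
    [MeasurableSpace Z] [BorelSpace Z] [Nontrivial Z] (μ : Measure Z) [μ.IsAddHaarMeasure]
    (N f : Z → ℝ) (b : ℕ) (hN : ∀ s z, 0 < s → N (s • z) = s * N z) (hN0 : ∀ z, z ≠ 0 → 0 < N z)
    (hf : ∀ s z, 0 < s → f (s • z) = s ^ b * f z) :
    ∃ C : ℝ, ∀ g : ℝ → ℝ, Integrable (fun z => g (N z) * f z) μ →
      ∫ z, g (N z) * f z ∂μ = (∫ r in Ioi (0 : ℝ), r ^ (finrank ℝ Z - 1 + b) * g r) * C := by
  refine ⟨∫ θ : Metric.sphere (0 : Z) 1,
    f θ * ((N θ)⁻¹ * ((N θ)⁻¹) ^ (finrank ℝ Z - 1 + b)) ∂μ.toSphere, fun g hint => ?_⟩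
  set F : Z → ℝ := fun z => g (N z) * f z with hF
  set d := finrank ℝ Z with hd
  let G : Metric.sphere (0 : Z) 1 × Ioi (0 : ℝ) → ℝ := fun p => F ((p.2 : ℝ) • (p.1 : Z))
  have e1 : ∫ z, F z ∂μ = ∫ x : ({(0 : Z)}ᶜ : Set Z), F x.1 ∂(μ.comap (↑)) := by
    rw [integral_subtype_comap (measurableSet_singleton _).compl fun x ↦ F x,
      restrict_compl_singleton]
  have hcomp : ∀ x : ({(0 : Z)}ᶜ : Set Z), G (homeomorphUnitSphereProd Z x) = F x.1 := by
    intro x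
    show F (((homeomorphUnitSphereProd Z x).2 : ℝ) • ((homeomorphUnitSphereProd Z x).1 : Z)) = _
    rw [homeomorphUnitSphereProd_apply_snd_coe, homeomorphUnitSphereProd_apply_fst_coe]
    congr 1
    rw [smul_smul, mul_inv_cancel₀ (norm_ne_zero_iff.2 x.2), one_smul]
  have e2 : ∫ x : ({(0 : Z)}ᶜ : Set Z), F x.1 ∂(μ.comap (↑)) =
      ∫ p, G p ∂(μ.toSphere.prod (Measure.volumeIoiPow (d - 1))) := by
    rw [← μ.measurePreserving_homeomorphUnitSphereProd.integral_comp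
      (Homeomorph.measurableEmbedding _) G]
    exact integral_congr_ae (Eventually.of_forall fun x => (hcomp x).symm)
  have hG : Integrable G (μ.toSphere.prod (Measure.volumeIoiPow (d - 1))) := by
    rw [← μ.measurePreserving_homeomorphUnitSphereProd.integrable_comp_emb
      (Homeomorph.measurableEmbedding _)]
    have h1 : Integrable (fun x : ({(0 : Z)}ᶜ : Set Z) => F x.1) (μ.comap (↑)) := by
      have h2 := (integrableOn_iff_comap_subtypeVal (μ := μ) (f := F)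
        (measurableSet_singleton (0 : Z)).compl).1 hint.integrableOn
      exact h2
    refine h1.congr (Eventually.of_forall fun x => (hcomp x).symm)
  rw [e1, e2, integral_prod _ hG]
  rw [← integral_const_mul]
  refine integral_congr_ae (Eventually.of_forall fun θ => ?_)
  have hθ : (θ : Z) ≠ 0 := by
    intro h
    have := mem_sphere_zero_iff_norm.1 θ.2
    rw [h, norm_zero] at this
    exact zero_ne_one this
  have hNθ := hN0 θ hθ
  show ∫ r : Ioi (0 : ℝ), F ((r : ℝ) • (θ : Z)) ∂(Measure.volumeIoiPow (d - 1)) = _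
  have e3 : ∫ r : Ioi (0 : ℝ), F ((r : ℝ) • (θ : Z)) ∂(Measure.volumeIoiPow (d - 1)) =
      ∫ r in Ioi (0 : ℝ), r ^ (d - 1) * F (r • (θ : Z)) := by
    simp only [Measure.volumeIoiPow, ENNReal.ofReal]
    rw [integral_withDensity_eq_integral_smul,
      integral_subtype_comap measurableSet_Ioi fun a ↦
        Real.toNNReal (a ^ (d - 1)) • F (a • (θ : Z)),
      setIntegral_congr_fun measurableSet_Ioi fun x hx ↦ ?_]
    · rw [NNReal.smul_def, Real.coe_toNNReal _ (pow_nonneg (le_of_lt hx) _)]; rfl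
    · exact (measurable_subtype_coe.pow_const _).real_toNNReal
  rw [e3]
  have e4 : ∀ r ∈ Ioi (0 : ℝ), r ^ (d - 1) * F (r • (θ : Z)) =
      (f θ * ((N θ)⁻¹) ^ (d - 1 + b)) * ((N θ * r) ^ (d - 1 + b) * g (N θ * r)) := by
    intro r hr
    show r ^ (d - 1) * (g (N (r • (θ : Z))) * f (r • (θ : Z))) = _
    rw [hN _ _ hr, hf _ _ hr, mul_comm r (N θ), mul_pow (N θ) r, pow_add r]
    have h1 : ((N θ)⁻¹) ^ (d - 1 + b) * (N θ) ^ (d - 1 + b) = 1 := by
      rw [← mul_pow, inv_mul_cancel₀ hNθ.ne', one_pow]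
    linear_combination (- f θ * r ^ (d - 1) * r ^ b * g (N θ * r)) * h1
  rw [setIntegral_congr_fun measurableSet_Ioi e4, integral_const_mul,
    integral_comp_mul_left_Ioi (fun u => u ^ (d - 1 + b) * g u) 0 hNθ, mul_zero, smul_eq_mul]
  ring


section dts
variable {b : ℕ} {Z Y : Type*} [NormedAddCommGroup Z] [InnerProductSpace ℂ Z]
  [FiniteDimensional ℂ Z] [NormedAddCommGroup Y] [InnerProductSpace ℂ Y] [FiniteDimensional ℂ Y]

/-- the determinant. -/
def dt (e' : Y ≃L[ℝ] (Fin b → ℝ) × Z) (B : Z →L[ℂ] Y) (Bj : Fin b → Z →L[ℂ] Y) (z : Z) : ℝ :=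
  LinearMap.det ((e' : Y →L[ℝ] (Fin b → ℝ) × Z) ∘L tot B Bj z :
    ((Fin b → ℝ) × Z) →ₗ[ℝ] (Fin b → ℝ) × Z)

lemma tot_apply (B : Z →L[ℂ] Y) (Bj : Fin b → Z →L[ℂ] Y) (z : Z) (p : (Fin b → ℝ) × Z) :
    tot B Bj z p = ∑ j, p.1 j • Bj j z + B p.2 := by
  unfold tot
  simp [ContinuousLinearMap.coprod_apply]

lemma continuous_dt (e' : Y ≃L[ℝ] (Fin b → ℝ) × Z) (B : Z →L[ℂ] Y) (Bj : Fin b → Z →L[ℂ] Y) :
    Continuous (dt e' B Bj) := by
  haveI : FiniteDimensional ℝ Z := FiniteDimensional.complexToReal Z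
  have h1 : Continuous (fun z => (e' : Y →L[ℝ] (Fin b → ℝ) × Z) ∘L tot B Bj z) := by
    rw [continuous_clm_apply]
    intro p
    show Continuous fun z => e' (tot B Bj z p)
    simp only [tot_apply]
    fun_prop
  exact ContinuousLinearMap.continuous_det.comp h1

lemma dt_smul (e' : Y ≃L[ℝ] (Fin b → ℝ) × Z) (B : Z →L[ℂ] Y) (Bj : Fin b → Z →L[ℂ] Y) (s : ℝ) (z : Z) :
    dt e' B Bj (s • z) = s ^ b * dt e' B Bj z := by
  haveI : FiniteDimensional ℝ Z := FiniteDimensional.complexToReal Z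
  have h1 : ((e' : Y →L[ℝ] (Fin b → ℝ) × Z) ∘L tot B Bj (s • z) :
      ((Fin b → ℝ) × Z) →ₗ[ℝ] (Fin b → ℝ) × Z) =
      ((e' : Y →L[ℝ] (Fin b → ℝ) × Z) ∘L tot B Bj z : ((Fin b → ℝ) × Z) →ₗ[ℝ] (Fin b → ℝ) × Z) ∘ₗ
      LinearMap.prodMap (s • LinearMap.id) LinearMap.id := by
    refine LinearMap.ext fun p => ?_
    show e' (tot B Bj (s • z) p) = e' (tot B Bj z (s • p.1, p.2))
    rw [tot_apply, tot_apply]
    congr 2
    refine Finset.sum_congr rfl fun j _ => ?_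
    show p.1 j • Bj j (s • z) = (s • p.1 j) • Bj j z
    rw [show Bj j (s • z) = s • Bj j z from (Bj j).map_smul_of_tower s z, smul_smul, smul_eq_mul,
      mul_comm]
  unfold dt
  rw [h1, LinearMap.det_comp, LinearMap.det_prodMap, LinearMap.det_smul, LinearMap.det_id,
    LinearMap.det_id, finrank_pi]
  simp [mul_comm]

end dts

section unf
variable {b : ℕ}

/-- indicator of `[0,1)`. -/
def c1 (x : ℝ) : ℂ := if 0 ≤ x ∧ x < 1 then 1 else 0

def c (x : Fin b → ℝ) : ℂ := ∏ j, c1 (x j)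

lemma c_eq (x : Fin b → ℝ) :
    c x = (pi univ fun _ : Fin b => Ico (0 : ℝ) 1).indicator (fun _ => (1 : ℂ)) x := by
  classical
  unfold c c1
  rw [Finset.prod_ite_zero]
  simp only [Finset.mem_univ, forall_true_left, Finset.prod_const_one, indicator, Set.mem_pi,
    mem_univ, mem_Ico]

lemma measurable_c : Measurable (c (b := b)) := by
  have h : (c (b := b)) = (pi univ fun _ : Fin b => Ico (0 : ℝ) 1).indicator (fun _ => (1 : ℂ)) :=
    funext c_eq
  rw [h]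
  exact measurable_const.indicator (MeasurableSet.univ_pi fun _ => measurableSet_Ico)

lemma norm_c_le (x : Fin b → ℝ) : ‖c x‖ ≤ 1 := by
  rw [c_eq]
  by_cases h : x ∈ (pi univ fun _ : Fin b => Ico (0 : ℝ) 1)
  · rw [indicator_of_mem h]; simp
  · rw [indicator_of_notMem h]; simp

/-- the shift by a vertex. -/
def sh (ε : Fin b → Bool) : Fin b → ℝ := fun j => if ε j then 1 else 0

lemma sum_c (x : Fin b → ℝ) (hx : ∀ j, -1 ≤ x j ∧ x j < 1) :
    ∑ ε : Fin b → Bool, c (x + sh ε) = 1 := by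
  have h1 : ∀ ε : Fin b → Bool, c (x + sh ε) = ∏ j, c1 (x j + if ε j then 1 else 0) := fun ε => rfl
  simp only [h1]
  have h2 := Finset.prod_univ_sum (fun _ : Fin b => (Finset.univ : Finset Bool))
    (fun (j : Fin b) (e : Bool) => c1 (x j + if e then 1 else 0))
  rw [Fintype.piFinset_univ] at h2
  rw [← h2]
  refine Finset.prod_eq_one fun j _ => ?_
  rw [Fintype.sum_bool]
  unfold c1
  obtain ⟨h3, h4⟩ := hx j
  by_cases h5 : 0 ≤ x j
  · rw [if_neg (by simp; intro _; exact h5), if_pos (by simp; exact ⟨h5, h4⟩)]; simp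
  · push Not at h5
    rw [if_pos (by simp; exact ⟨by linarith, h5⟩), if_neg (by simp; intro h; linarith)]; simp

lemma sum_rho (x : Fin b → ℝ) (hx : ∀ j, 0 ≤ x j ∧ x j < 1) :
    ∑ ε : Fin b → Bool, (rho (x - sh ε) : ℂ) = 1 := by
  have h1 : ∀ ε : Fin b → Bool, ((rho (x - sh ε) : ℝ) : ℂ) =
      ∏ j, ((r1 (x j - if ε j then 1 else 0) : ℝ) : ℂ) := fun ε => by
    unfold rho
    push_cast
    rfl
  simp only [h1]
  have h2 := Finset.prod_univ_sum (fun _ : Fin b => (Finset.univ : Finset Bool))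
    (fun (j : Fin b) (e : Bool) => ((r1 (x j - if e then 1 else 0) : ℝ) : ℂ))
  rw [Fintype.piFinset_univ] at h2
  rw [← h2]
  refine Finset.prod_eq_one fun j _ => ?_
  rw [Fintype.sum_bool]
  obtain ⟨h3, h4⟩ := hx j
  have h5 : r1 (x j - 1) + r1 (x j) = 1 := by
    unfold r1
    rw [sub_add_cancel, sg_one (x := x j + 1) (by linarith), sg_zero (x := x j - 1) (by linarith)]
    ring
  simp only [if_true, sub_zero, Bool.false_eq_true, if_false]
  exact_mod_cast h5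

lemma hasCompactSupport_rho : HasCompactSupport (rho (b := b)) := by
  refine HasCompactSupport.intro (isCompact_univ_pi fun _ : Fin b => isCompact_Icc (a := (-1 : ℝ)) (b := 1)) ?_
  intro x hx
  by_contra h
  apply hx
  intro j _
  have := rho_ne h j
  rw [abs_le] at this
  exact ⟨by linarith, by linarith⟩

/-- **unfolding over the torus.** -/
theorem unfold_rho (D : (Fin b → ℝ) → ℂ) (hD : Continuous D)
    (hper : ∀ (h : Fin b → ℝ) (k : Fin b → ℤ), D (fun i => h i + k i) = D h) :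
    ∫ x, (rho x : ℂ) * D x = ∫ x in Icc (0 : Fin b → ℝ) 1, D x := by
  have hcont : Continuous fun x : Fin b → ℝ => (rho x : ℂ) * D x :=
    (Complex.continuous_ofReal.comp contDiff_rho.continuous).mul hD
  have hint : Integrable (fun x : Fin b → ℝ => (rho x : ℂ) * D x) := by
    refine hcont.integrable_of_hasCompactSupport ?_
    refine HasCompactSupport.mul_right ?_
    exact hasCompactSupport_rho.comp_left (g := fun r : ℝ => (r : ℂ)) Complex.ofReal_zero
  have h1 : ∀ x : Fin b → ℝ, (rho x : ℂ) * D x =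
      ∑ ε : Fin b → Bool, c (x + sh ε) * ((rho x : ℂ) * D x) := by
    intro x
    rw [← Finset.sum_mul]
    by_cases h : rho x = 0
    · rw [h]; simp
    · rw [sum_c, one_mul]
      intro j
      have := rho_ne h j
      rw [abs_le] at this
      exact ⟨by linarith, by linarith⟩
  have hbd : ∀ (g : (Fin b → ℝ) → ℂ) (s : Fin b → ℝ), Integrable g →
      Integrable (fun x => c (x + s) * g x) := by
    intro g s hg
    refine hg.bdd_mul (c := 1) ?_ (Eventually.of_forall fun x => norm_c_le _)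
    exact (measurable_c.comp (measurable_id.add_const s)).aestronglyMeasurable
  have h2 : ∫ x, (rho x : ℂ) * D x =
      ∑ ε : Fin b → Bool, ∫ x, c x * ((rho (x - sh ε) : ℂ) * D x) := by
    have h3 : ∫ x, (rho x : ℂ) * D x =
        ∫ x, ∑ ε : Fin b → Bool, c (x + sh ε) * ((rho x : ℂ) * D x) :=
      integral_congr_ae (Eventually.of_forall h1)
    rw [h3, integral_finsetSum _ fun ε _ => hbd _ _ hint]
    refine Finset.sum_congr rfl fun ε _ => ?_
    rw [← integral_sub_right_eq_self (fun x => c (x + sh ε) * ((rho x : ℂ) * D x)) (sh ε)]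
    refine integral_congr_ae (Eventually.of_forall fun x => ?_)
    show c (x - sh ε + sh ε) * ((rho (x - sh ε) : ℂ) * D (x - sh ε)) = _
    rw [sub_add_cancel]
    have h4 : D (x - sh ε) = D x := by
      have h5 := hper x (fun j => if ε j then -1 else 0)
      rw [← h5]
      congr 1
      funext j
      show x j - sh ε j = _
      unfold sh
      by_cases h : ε j
      · simp [h]; ring
      · simp [h]
    rw [h4]
  rw [h2, ← integral_finsetSum]
  · have h6 : ∀ x : Fin b → ℝ, ∑ ε : Fin b → Bool, c x * ((rho (x - sh ε) : ℂ) * D x) =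
        (pi univ fun _ : Fin b => Ico (0 : ℝ) 1).indicator D x := by
      intro x
      rw [← Finset.mul_sum, ← Finset.sum_mul, c_eq]
      by_cases h : x ∈ (pi univ fun _ : Fin b => Ico (0 : ℝ) 1)
      · rw [indicator_of_mem h, indicator_of_mem h, sum_rho x fun j => h j (mem_univ j)]
        simp
      · rw [indicator_of_notMem h, indicator_of_notMem h, zero_mul]
    rw [integral_congr_ae (Eventually.of_forall h6),
      integral_indicator (MeasurableSet.univ_pi fun _ => measurableSet_Ico)]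
    exact setIntegral_congr_set Measure.univ_pi_Ico_ae_eq_Icc
  · intro ε _
    have h7 : Integrable fun x : Fin b → ℝ => (rho (x - sh ε) : ℂ) * D x := by
      have h8 : Continuous fun x : Fin b → ℝ => (rho (x - sh ε) : ℂ) * D x :=
        (Complex.continuous_ofReal.comp (contDiff_rho.continuous.comp
          (continuous_id.sub continuous_const))).mul hD
      refine h8.integrable_of_hasCompactSupport (HasCompactSupport.mul_right ?_)
      have h9 : HasCompactSupport fun x : Fin b → ℝ => rho (x - sh ε) := by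
        have := (hasCompactSupport_rho (b := b)).comp_homeomorph (Homeomorph.subRight (sh ε))
        exact this
      exact h9.comp_left (g := fun r : ℝ => (r : ℂ)) Complex.ofReal_zero
    have h10 := hbd _ 0 h7
    simpa using h10

end unf

/-! ### positivity of the radial integrals -/

lemma radial_pos (k : ℕ) {g : ℝ → ℝ} (hg : Continuous g) (h0 : ∀ r, 0 ≤ g r) (h1 : 0 < g 0)
    (hi : IntegrableOn (fun r => r ^ k * g r) (Ioi (0 : ℝ))) :
    0 < ∫ r in Ioi (0 : ℝ), r ^ k * g r := by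
  rw [setIntegral_pos_iff_support_of_nonneg_ae _ hi]
  · obtain ⟨ε, hε, h2⟩ := Metric.eventually_nhds_iff.1 (hg.continuousAt.eventually (lt_mem_nhds h1))
    refine lt_of_lt_of_le ?_ (measure_mono (μ := volume) (s := Ioo (0 : ℝ) ε) ?_)
    · rw [Real.volume_Ioo]
      simpa using hε
    · intro r hr
      refine ⟨?_, hr.1⟩
      have h3 : 0 < g r := h2 (by rw [Real.dist_eq, sub_zero, abs_of_pos hr.1]; exact hr.2)
      have h4 : 0 < r ^ k * g r := mul_pos (pow_pos hr.1 k) h3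
      exact h4.ne'
  · filter_upwards [ae_restrict_mem measurableSet_Ioi] with r hr
    exact mul_nonneg (pow_nonneg (le_of_lt hr) k) (h0 r)

lemma gauss_int (k : ℕ) : IntegrableOn (fun r : ℝ => r ^ k * Real.exp (-r ^ 2)) (Ioi (0 : ℝ)) := by
  have h := integrableOn_rpow_mul_exp_neg_rpow (p := 2) (s := k)
    (by have : (0 : ℝ) ≤ k := Nat.cast_nonneg k; linarith) (by norm_num)
  refine h.congr_fun (fun r hr => ?_) measurableSet_Ioi
  show r ^ (k : ℝ) * Real.exp (-r ^ (2 : ℝ)) = _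
  rw [Real.rpow_natCast]
  norm_num

lemma cpt_int (k : ℕ) {g : ℝ → ℝ} (hg : Continuous g) (R : ℝ) (h : ∀ r, R ≤ r → g r = 0) :
    IntegrableOn (fun r : ℝ => r ^ k * g r) (Ioi (0 : ℝ)) := by
  have h1 : IntegrableOn (fun r : ℝ => r ^ k * g r) (Icc (0 : ℝ) (max R 0)) :=
    ((continuous_pow k).mul hg).integrableOn_Icc
  have h2 : IntegrableOn (fun r : ℝ => r ^ k * g r) (Ioi (max R 0)) := by
    refine (integrableOn_zero (μ := volume)).congr_fun (fun r hr => ?_) measurableSet_Ioi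
    rw [h r (le_trans (le_max_left _ _) (le_of_lt hr)), mul_zero]
  refine (h1.union h2).mono_set fun r hr => ?_
  rcases le_or_gt r (max R 0) with h3 | h3
  · exact Or.inl ⟨le_of_lt hr, h3⟩
  · exact Or.inr h3

section cmp

variable {b : ℕ} {Z Y : Type*} [NormedAddCommGroup Z] [InnerProductSpace ℂ Z]
  [FiniteDimensional ℂ Z] [NormedAddCommGroup Y] [InnerProductSpace ℂ Y] [FiniteDimensional ℂ Y]
  [MeasurableSpace Z] [BorelSpace Z]

/-- comparison of a compactly supported radial weight with the Gaussian. -/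
theorem compare (μ : Measure Z) [μ.IsAddHaarMeasure] (hb : b ≠ 0) (u : ℝ → ℝ) (hu : Continuous u)
    (hu0 : ∀ r, 0 ≤ u r) (hu1 : 0 < u 0) (δ : ℝ) (huδ : ∀ r, δ ≤ r → u r = 0) :
    ∃ a : ℝ, 0 < a ∧ ∀ (e' : Y ≃L[ℝ] (Fin b → ℝ) × Z) (B : Z →L[ℂ] Y) (Bj : Fin b → Z →L[ℂ] Y),
      Injective B → Integrable (fun z => Real.exp (-‖B z‖ ^ 2) * dt e' B Bj z) μ →
      ∫ z, u (‖B z‖ ^ 2) * dt e' B Bj z ∂μ =
        a * ∫ z, Real.exp (-‖B z‖ ^ 2) * dt e' B Bj z ∂μ := by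
  haveI : FiniteDimensional ℝ Z := FiniteDimensional.complexToReal Z
  rcases subsingleton_or_nontrivial Z with hs | hn
  · refine ⟨1, one_pos, fun e' B Bj hB hi => ?_⟩
    have h1 : ∀ z, dt e' B Bj z = 0 := by
      intro z
      have h2 := dt_smul e' B Bj 0 z
      rw [zero_pow hb, zero_mul] at h2
      rw [← h2]
      congr 1
      exact Subsingleton.elim _ _
    simp [h1]
  · set k := finrank ℝ Z - 1 + b with hk
    set Ku := ∫ r in Ioi (0 : ℝ), r ^ k * u (r ^ 2) with hKu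
    set Kg := ∫ r in Ioi (0 : ℝ), r ^ k * Real.exp (-r ^ 2) with hKg
    have hKu0 : 0 < Ku := radial_pos k (g := fun r => u (r ^ 2)) (hu.comp (continuous_pow 2))
      (fun r => hu0 _) (by simpa using hu1)
      (cpt_int k (hu.comp (continuous_pow 2)) (max δ 1) fun r hr => by
        refine huδ _ ?_
        have h1 : δ ≤ r := le_trans (le_max_left _ _) hr
        have h2 : 1 ≤ r := le_trans (le_max_right _ _) hr
        nlinarith)
    have hKg0 : 0 < Kg := radial_pos k (g := fun r => Real.exp (-r ^ 2)) (by fun_prop)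
      (fun r => (Real.exp_pos _).le) (Real.exp_pos _) (gauss_int k)
    refine ⟨Ku / Kg, div_pos hKu0 hKg0, fun e' B Bj hB hi => ?_⟩
    obtain ⟨C, hC⟩ := polar μ (fun z => ‖B z‖) (dt e' B Bj) b
      (fun s z hs => by
        rw [show B (s • z) = s • B z from B.map_smul_of_tower s z, norm_smul,
          Real.norm_of_nonneg hs.le])
      (fun z hz => norm_pos_iff.2 fun h => hz (hB (by rw [h, map_zero])))
      (fun s z hs => dt_smul e' B Bj s z)
    have h1 := hC (fun r => Real.exp (-r ^ 2)) hi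
    have h2 : Integrable (fun z => u (‖B z‖ ^ 2) * dt e' B Bj z) μ := by
      have h3 : Continuous fun z => u (‖B z‖ ^ 2) * dt e' B Bj z :=
        (hu.comp ((continuous_norm.comp B.continuous).pow 2)).mul (continuous_dt e' B Bj)
      refine h3.integrable_of_hasCompactSupport ?_
      obtain ⟨K, hK0, hK⟩ := (B : Z →ₗ[ℂ] Y).exists_antilipschitzWith
        (LinearMap.ker_eq_bot.2 (show Injective (B : Z →ₗ[ℂ] Y) from hB))
      refine HasCompactSupport.intro (isCompact_closedBall (0 : Z) (K * Real.sqrt (max δ 0))) ?_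
      intro z hz
      rw [mem_closedBall_zero_iff, not_le] at hz
      have h4 : ‖z‖ ≤ K * ‖B z‖ := by
        have := hK.le_mul_dist z 0
        rw [dist_zero_right, map_zero, dist_zero_right] at this
        exact this
      have h5 : Real.sqrt (max δ 0) < ‖B z‖ := by
        have h6 : (K : ℝ) * Real.sqrt (max δ 0) < K * ‖B z‖ := lt_of_lt_of_le hz h4
        exact lt_of_mul_lt_mul_left h6 K.2
      have h7 : δ ≤ ‖B z‖ ^ 2 := by
        have h8 : max δ 0 ≤ ‖B z‖ ^ 2 := by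
          rw [← Real.sq_sqrt (le_max_right δ 0)]
          exact pow_le_pow_left₀ (Real.sqrt_nonneg _) h5.le 2
        exact le_trans (le_max_left _ _) h8
      rw [huδ _ h7, zero_mul]
    have h3 := hC (fun r => u (r ^ 2)) h2
    have e1 : ∫ z, u (‖B z‖ ^ 2) * dt e' B Bj z ∂μ = Ku * C := h3
    have e2 : ∫ z, Real.exp (-‖B z‖ ^ 2) * dt e' B Bj z ∂μ = Kg * C := h1
    rw [e1, e2]
    field_simp

end cmp

/-! ### the value of the degree integral -/

section val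

variable {b m : ℕ} {Z H Y : Type*} [NormedAddCommGroup Z] [InnerProductSpace ℂ Z]
  [FiniteDimensional ℂ Z] [NormedAddCommGroup H] [InnerProductSpace ℂ H] [FiniteDimensional ℂ H]
  [NormedAddCommGroup Y] [InnerProductSpace ℂ Y] [FiniteDimensional ℂ Y]
  [MeasurableSpace Z] [BorelSpace Z]

/-- the inner integral of (D). -/
def inn (e' : Y ≃L[ℝ] (Fin b → ℝ) × Z) (A : H →L[ℂ] Y) (e : (Fin b → ℝ) → Z →L[ℂ] H)
    (μ : Measure Z) (w : Y → ℝ) (θ : Fin b → ℝ) : ℝ :=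
  ∫ z, w (A (e θ z)) * LinearMap.det ((e' : Y →L[ℝ] (Fin b → ℝ) × Z) ∘L
    tot (A ∘L e θ) (fun j => pdθ j (fun θ => A ∘L e θ) θ) z :
      ((Fin b → ℝ) × Z) →ₗ[ℝ] (Fin b → ℝ) × Z) ∂μ

lemma norm_le_two {θ : Fin b → ℝ} (h : rho θ ≠ 0) : ‖θ‖ ≤ 2 := by
  rw [pi_norm_le_iff_of_nonneg (by norm_num)]
  intro j
  have := rho_ne h j
  rw [Real.norm_eq_abs]
  linarith

theorem val (μ : Measure Z) [μ.IsAddHaarMeasure] (hb : b ≠ 0) (u : ℝ → ℝ) (hu : Continuous u)
    (hu0 : ∀ r, 0 ≤ u r) (hu1 : 0 < u 0) (δ : ℝ) (huδ : ∀ r, δ ≤ r → u r = 0) :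
    ∃ a : ℝ, 0 < a ∧ ∀ (e' : Y ≃L[ℝ] (Fin b → ℝ) × Z) (A : H →L[ℂ] Y)
      (e : (Fin b → ℝ) → Z →L[ℂ] H) (c : ℂ) (D : (Fin b → ℝ) → ℂ),
      (∀ θ, ‖θ‖ ≤ 2 → Injective (A ∘L e θ)) → Continuous D →
      (∀ (h : Fin b → ℝ) (k : Fin b → ℤ), D (fun i => h i + k i) = D h) →
      (∀ θ, ‖θ‖ ≤ 2 → Integrable (fun z => Real.exp (-‖(A ∘L e θ) z‖ ^ 2) *
        dt e' (A ∘L e θ) (fun j => pdθ j (fun θ => A ∘L e θ) θ) z) μ ∧
        ((∫ z, Real.exp (-‖(A ∘L e θ) z‖ ^ 2) *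
          dt e' (A ∘L e θ) (fun j => pdθ j (fun θ => A ∘L e θ) θ) z ∂μ : ℝ) : ℂ) = c * D θ) →
      ((∫ θ : Fin b → ℝ, rho θ * inn e' A e μ (fun y => u (‖y‖ ^ 2)) θ : ℝ) : ℂ) =
        a * (c * ∫ θ in Icc (0 : Fin b → ℝ) 1, D θ) := by
  obtain ⟨a, ha, hc⟩ := compare (Z := Z) (Y := Y) μ hb u hu hu0 hu1 δ huδ
  refine ⟨a, ha, fun e' A e c D hinj hD hper hG => ?_⟩
  rw [← unfold_rho D hD hper, ← integral_const_mul, ← integral_const_mul, ← integral_complex_ofReal]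
  refine integral_congr_ae (Eventually.of_forall fun θ => ?_)
  show ((rho θ * inn e' A e μ (fun y => u (‖y‖ ^ 2)) θ : ℝ) : ℂ) =
    a * (c * ((rho θ : ℂ) * D θ))
  by_cases h : rho θ = 0
  · rw [h]; simp
  · have h1 := norm_le_two h
    obtain ⟨h2, h3⟩ := hG θ h1
    have h4 := hc e' (A ∘L e θ) (fun j => pdθ j (fun θ => A ∘L e θ) θ) (hinj θ h1) h2
    have h5 : inn e' A e μ (fun y => u (‖y‖ ^ 2)) θ = a * ∫ z, Real.exp (-‖(A ∘L e θ) z‖ ^ 2) *
        dt e' (A ∘L e θ) (fun j => pdθ j (fun θ => A ∘L e θ) θ) z ∂μ := h4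
    rw [h5, Complex.ofReal_mul, Complex.ofReal_mul, h3]
    ring

/-! ### the densities are continuous and periodic -/

lemma pd_cont {V : Type*} [NormedAddCommGroup V] [NormedSpace ℝ V] {Q : (Fin b → ℝ) → V}
    (hQ : ContDiff ℝ ∞ Q) (j : Fin b) : Continuous (pdθ j Q) :=
  (hQ.continuous_fderiv (by simp)).clm_apply continuous_const

lemma pd_per {V : Type*} [NormedAddCommGroup V] [NormedSpace ℝ V] {Q : (Fin b → ℝ) → V}
    (hper : ∀ (h : Fin b → ℝ) (k : Fin b → ℤ), Q (fun i => h i + k i) = Q h) (j : Fin b)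
    (h : Fin b → ℝ) (k : Fin b → ℤ) : pdθ j Q (fun i => h i + k i) = pdθ j Q h := by
  unfold pdθ
  have h1 : (fun x => Q (x + fun i => (k i : ℝ))) = Q := funext fun x => hper x k
  have h2 := fderiv_comp_add_right (𝕜 := ℝ) (f := Q) (x := h) (fun i => (k i : ℝ))
  rw [h1] at h2
  rw [h2]
  rfl

lemma tr_cont : Continuous (tr : (Y →L[ℂ] Y) → ℂ) := by
  let T : (Y →L[ℂ] Y) →ₗ[ℂ] ℂ := (LinearMap.trace ℂ Y) ∘ₗ (ContinuousLinearMap.coeLM ℂ)
  exact T.continuous_of_finiteDimensional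

/-- the density of `ch2`. -/
def d2 (Q : (Fin 2 → ℝ) → Y →L[ℂ] Y) (h : Fin 2 → ℝ) : ℂ :=
  ∑ σ : Equiv.Perm (Fin 2), sg σ * tr (Q h * pdθ (σ 0) Q h * pdθ (σ 1) Q h)

/-- the density of `ch4`. -/
def d4 (Q : (Fin 4 → ℝ) → Y →L[ℂ] Y) (h : Fin 4 → ℝ) : ℂ :=
  ∑ σ : Equiv.Perm (Fin 4), sg σ * tr (Q h * pdθ (σ 0) Q h * pdθ (σ 1) Q h * pdθ (σ 2) Q h *
    pdθ (σ 3) Q h)

/-- the density of `chsq`. -/
def dsq (Q : (Fin 4 → ℝ) → Y →L[ℂ] Y) (h : Fin 4 → ℝ) : ℂ :=
  ∑ σ : Equiv.Perm (Fin 4), sg σ * (tr (Q h * pdθ (σ 0) Q h * pdθ (σ 1) Q h) *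
    tr (Q h * pdθ (σ 2) Q h * pdθ (σ 3) Q h))

lemma d2_cont {Q : (Fin 2 → ℝ) → Y →L[ℂ] Y} (hQ : ContDiff ℝ ∞ Q) : Continuous (d2 Q) := by
  unfold d2
  refine continuous_finsetSum _ fun σ _ => continuous_const.mul (tr_cont.comp ?_)
  exact (hQ.continuous.mul (pd_cont hQ _)).mul (pd_cont hQ _)

lemma d4_cont {Q : (Fin 4 → ℝ) → Y →L[ℂ] Y} (hQ : ContDiff ℝ ∞ Q) : Continuous (d4 Q) := by
  unfold d4
  refine continuous_finsetSum _ fun σ _ => continuous_const.mul (tr_cont.comp ?_)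
  exact (((hQ.continuous.mul (pd_cont hQ _)).mul (pd_cont hQ _)).mul (pd_cont hQ _)).mul
    (pd_cont hQ _)

lemma dsq_cont {Q : (Fin 4 → ℝ) → Y →L[ℂ] Y} (hQ : ContDiff ℝ ∞ Q) : Continuous (dsq Q) := by
  unfold dsq
  refine continuous_finsetSum _ fun σ _ => continuous_const.mul (Continuous.mul
    (tr_cont.comp ?_) (tr_cont.comp ?_))
  · exact (hQ.continuous.mul (pd_cont hQ _)).mul (pd_cont hQ _)
  · exact (hQ.continuous.mul (pd_cont hQ _)).mul (pd_cont hQ _)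

lemma d2_per {Q : (Fin 2 → ℝ) → Y →L[ℂ] Y}
    (hper : ∀ (h : Fin 2 → ℝ) (k : Fin 2 → ℤ), Q (fun i => h i + k i) = Q h)
    (h : Fin 2 → ℝ) (k : Fin 2 → ℤ) : d2 Q (fun i => h i + k i) = d2 Q h := by
  unfold d2
  simp only [pd_per hper, hper]

lemma d4_per {Q : (Fin 4 → ℝ) → Y →L[ℂ] Y}
    (hper : ∀ (h : Fin 4 → ℝ) (k : Fin 4 → ℤ), Q (fun i => h i + k i) = Q h)
    (h : Fin 4 → ℝ) (k : Fin 4 → ℤ) : d4 Q (fun i => h i + k i) = d4 Q h := by
  unfold d4
  simp only [pd_per hper, hper]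

lemma dsq_per {Q : (Fin 4 → ℝ) → Y →L[ℂ] Y}
    (hper : ∀ (h : Fin 4 → ℝ) (k : Fin 4 → ℤ), Q (fun i => h i + k i) = Q h)
    (h : Fin 4 → ℝ) (k : Fin 4 → ℤ) : dsq Q (fun i => h i + k i) = dsq Q h := by
  unfold dsq
  simp only [pd_per hper, hper]

lemma int_d4 {Q : (Fin 4 → ℝ) → Y →L[ℂ] Y} (hQ : ContDiff ℝ ∞ Q) :
    ∫ h in Icc (0 : Fin 4 → ℝ) 1, (d4 Q h + dsq Q h) = ch4 tr Q + chsq tr Q :=
  integral_add ((d4_cont hQ).continuousOn.integrableOn_compact isCompact_Icc)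
    ((dsq_cont hQ).continuousOn.integrableOn_compact isCompact_Icc)

end val

section fin

variable {m : ℕ} {Z H Y : Type} [NormedAddCommGroup Z] [InnerProductSpace ℂ Z]
  [FiniteDimensional ℂ Z] [NormedAddCommGroup H] [InnerProductSpace ℂ H] [FiniteDimensional ℂ H]
  [NormedAddCommGroup Y] [InnerProductSpace ℂ Y] [FiniteDimensional ℂ Y]
  [MeasurableSpace Z] [BorelSpace Z]

lemma inj_comp {b : ℕ} {P : (Fin b → ℝ) → H →L[ℂ] H} {A : H →L[ℂ] Y}
    (hA : ∀ h ψ, P h ψ = ψ → A ψ = 0 → ψ = 0) {e : (Fin b → ℝ) → Z →L[ℂ] H}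
    (hPe : ∀ h z, P h (e h z) = e h z) {h : Fin b → ℝ} (hei : Injective (e h)) :
    Injective (A ∘L e h) := by
  rw [injective_iff_map_eq_zero]
  intro z hz
  have h1 : e h z = 0 := hA h (e h z) (hPe h z) hz
  exact hei (by rw [h1, map_zero])

/-- the value of the degree integral, `b = 4`. -/
theorem val4 (hG : GAUSS4) {P : (Fin 4 → ℝ) → H →L[ℂ] H} (hP : PPer 4 m P) (A : H →L[ℂ] Y)
    (hA : ∀ h ψ, P h ψ = ψ → A ψ = 0 → ψ = 0) (hZ : finrank ℂ Z = m) (hY : finrank ℂ Y = m + 2)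
    (e : (Fin 4 → ℝ) → Z →L[ℂ] H) (he : ContDiff ℝ ∞ e) (hPe : ∀ h z, P h (e h z) = e h z)
    (hei : ∀ h, ‖h‖ ≤ 2 → Injective (e h)) (μ : Measure Z) [μ.IsAddHaarMeasure]
    (e' : Y ≃L[ℝ] (Fin 4 → ℝ) × Z) :
    ∃ c : ℂ, c ≠ 0 ∧ ∀ u : ℝ → ℝ, Continuous u → (∀ r, 0 ≤ u r) → 0 < u 0 →
      ∀ δ : ℝ, (∀ r, δ ≤ r → u r = 0) → ∃ a : ℝ, 0 < a ∧
        ((∫ θ : Fin 4 → ℝ, rho θ * inn e' A e μ (fun y => u (‖y‖ ^ 2)) θ : ℝ) : ℂ) =
          a * (c * (ch4 tr (fun h => proj A (P h)) + chsq tr (fun h => proj A (P h)))) := by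
  obtain ⟨c, hc0, hc⟩ := hG Z Y μ (by rw [hY, hZ]) e'
  refine ⟨(c : ℂ), by exact_mod_cast hc0, fun u hu hu0 hu1 δ huδ => ?_⟩
  obtain ⟨a, ha, hv⟩ := val (Z := Z) (H := H) (Y := Y) μ (b := 4) (by norm_num) u hu hu0 hu1 δ huδ
  refine ⟨a, ha, ?_⟩
  have hQ : PPer 4 m (fun h => proj A (P h)) :=
    pper_proj (A := fun _ => A) hP contDiff_const (fun _ _ => rfl) hA
  rw [← int_d4 hQ.smooth]
  refine hv e' A e c (fun h => d4 (fun h => proj A (P h)) h + dsq (fun h => proj A (P h)) h)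
    (fun θ hθ => inj_comp hA hPe (hei θ hθ)) ((d4_cont hQ.smooth).add (dsq_cont hQ.smooth))
    (fun h k => by rw [d4_per hQ.per, dsq_per hQ.per]) (fun θ hθ => ?_)
  obtain ⟨h1, h2⟩ := hc (A ∘L e θ) (fun j => pdθ j (fun θ => A ∘L e θ) θ)
    (inj_comp hA hPe (hei θ hθ))
  refine ⟨h1, h2.trans ?_⟩
  have h3 := dens4 (A := fun _ => A) hP contDiff_const hA hZ (e := e) (h := θ)
    (he.contDiffAt.differentiableAt (by simp)) (Eventually.of_forall fun x => hPe x) (hei θ hθ)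
  exact congrArg (fun t => (c : ℂ) * t) h3

/-- the value of the degree integral, `b = 2`. -/
theorem val2 (hG : GAUSS2) {P : (Fin 2 → ℝ) → H →L[ℂ] H} (hP : PPer 2 m P) (A : H →L[ℂ] Y)
    (hA : ∀ h ψ, P h ψ = ψ → A ψ = 0 → ψ = 0) (hZ : finrank ℂ Z = m) (hY : finrank ℂ Y = m + 1)
    (e : (Fin 2 → ℝ) → Z →L[ℂ] H) (he : ContDiff ℝ ∞ e) (hPe : ∀ h z, P h (e h z) = e h z)
    (hei : ∀ h, ‖h‖ ≤ 2 → Injective (e h)) (μ : Measure Z) [μ.IsAddHaarMeasure]
    (e' : Y ≃L[ℝ] (Fin 2 → ℝ) × Z) :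
    ∃ c : ℂ, c ≠ 0 ∧ ∀ u : ℝ → ℝ, Continuous u → (∀ r, 0 ≤ u r) → 0 < u 0 →
      ∀ δ : ℝ, (∀ r, δ ≤ r → u r = 0) → ∃ a : ℝ, 0 < a ∧
        ((∫ θ : Fin 2 → ℝ, rho θ * inn e' A e μ (fun y => u (‖y‖ ^ 2)) θ : ℝ) : ℂ) =
          a * (c * ch2 tr (fun h => proj A (P h))) := by
  obtain ⟨c, hc0, hc⟩ := hG Z Y μ (by rw [hY, hZ]) e'
  refine ⟨(c : ℂ) * Complex.I, mul_ne_zero (by exact_mod_cast hc0) Complex.I_ne_zero,
    fun u hu hu0 hu1 δ huδ => ?_⟩
  obtain ⟨a, ha, hv⟩ := val (Z := Z) (H := H) (Y := Y) μ (b := 2) (by norm_num) u hu hu0 hu1 δ huδ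
  refine ⟨a, ha, ?_⟩
  have hQ : PPer 2 m (fun h => proj A (P h)) :=
    pper_proj (A := fun _ => A) hP contDiff_const (fun _ _ => rfl) hA
  refine hv e' A e (c * Complex.I) (d2 (fun h => proj A (P h)))
    (fun θ hθ => inj_comp hA hPe (hei θ hθ)) (d2_cont hQ.smooth) (d2_per hQ.per) (fun θ hθ => ?_)
  obtain ⟨h1, h2⟩ := hc (A ∘L e θ) (fun j => pdθ j (fun θ => A ∘L e θ) θ)
    (inj_comp hA hPe (hei θ hθ))
  refine ⟨h1, h2.trans ?_⟩
  have h3 := dens2 (A := fun _ => A) hP contDiff_const hA hZ (e := e) (h := θ)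
    (he.contDiffAt.differentiableAt (by simp)) (Eventually.of_forall fun x => hPe x) (hei θ hθ)
  rw [mul_assoc]
  exact congrArg (fun t => (c : ℂ) * (Complex.I * t)) h3

end fin

end

end Crest.Agent.R235.FdsE_143
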