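import Crest.Agent.R235.FdsAsm_143
import Crest.Agent.R235.FamFin_143
import Crest.Agent.R235.FamEmb_192
import Crest.Agent.R235.FamGaussD_355

/-!
Row 235 (S0364), FAM-FDS (helper143): EMB2, EMB4 from `FamEmb_192`; FDS2, FDS4, FDH4, FIN4, FINH4 from
`DN 2`, `DN 4`, `DH 4` (the degree argument, helper778) alone.
-/

set_option autoImplicit false
set_option maxSynthPendingDepth 3

open Set Filter Module MeasureTheory Function
open scoped ContDiff Topology InnerProductSpace

namespace Crest.Agent.R235.FdsEmb_143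

open FamDefs_307 FdsF_143 FdsAsm_143 FamC_192

lemma embData {H Y : Type} [NormedAddCommGroup H] [InnerProductSpace ℂ H] [FiniteDimensional ℂ H]
    [NormedAddCommGroup Y] [InnerProductSpace ℂ Y] [FiniteDimensional ℂ Y] {b m : ℕ}
    {P : (Fin b → ℝ) → H →L[ℂ] H} {A : H →L[ℂ] Y} (hP : PPer b m P)
    (hA : ∀ h ψ, P h ψ = ψ → A ψ = 0 → ψ = 0) :
    EmbData b m P (fun h => proj A (P h)) (fun _ => A) (fun _ => ContinuousLinearMap.id ℂ Y) := by
  have hQ : PPer b m (fun h => proj A (P h)) :=
    pper_proj (A := fun _ => A) hP contDiff_const (fun _ _ => rfl) hA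
  have hd := dt_of (A := fun _ => A) hP hA
  exact
    { proj := hP
      smJ := contDiff_const
      idem2 := hQ.idem
      sa2 := hQ.sa
      fix := fun h x hx => by
        have := (hd h).proj_A x
        rw [hx] at this
        exact this
      inj := hA
      surj := fun h y => by
        obtain ⟨x, hx⟩ := Dt.proj_rg (A := A) (P := P h) y
        exact ⟨P h x, hP.idem h x, hx.symm⟩
      iso := fun _ _ _ => rfl
      per := fun _ _ _ _ => rfl }

theorem emb2 : EMB2 := by
  intro H Y _ _ _ _ _ _ m P A hP hA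
  exact (embData hP hA).ch2_fd

theorem emb4 : EMB4 := by
  intro H Y _ _ _ _ _ _ m P A hP hA
  exact ⟨(embData hP hA).ch4_fd, (embData hP hA).chsq_fd⟩

theorem fds2 (h : DN 2) : FDS2 := fds2_of FamGaussD_355.gauss2 emb2 h

theorem fds4 (h : DN 4) : FDS4 := fds4_of FamGaussD_355.gauss4 emb4 h

theorem fdh4 (h : DH 4) : FDH4 := fdh4_of FamGaussD_355.gauss4 emb4 h

theorem fin4 (h2 : DN 2) (h4 : DN 4) : FamW_307.FIN4 :=
  FamFin_143.fin4_of (fds2 h2) (fds4 h4) TorF_692.four

theorem finh4 (h2 : DN 2) (h4 : DH 4) : FamW_307.FINH4 :=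
  FamFin_143.finh4_of (fds2 h2) (fdh4 h4) TorF_692.four

end Crest.Agent.R235.FdsEmb_143
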