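import Crest.Agent.R235.FamDefs_307

/-!
Row 235 (S0364), FAM-FDS (task 421), part (f) (helper143).

* `comp_fderiv`, `adj_fderiv` : derivatives of compositions and adjoints of complex operators over `ℝ`;
* `trX`, `trXX` : if `Q h` is the orthogonal projection onto the range of `B h` (`B h` injective) then
  `tr X_ij = tr (Q d_iQ d_jQ)` and `tr (X_ij X_kl) = tr (Q d_iQ d_jQ d_kQ d_lQ)`, `X_ij` = `FamDefs_307.Xij`;
* `proj A P` : the orthogonal projection onto `A (range P)`, a polynomial in `A`, `P`, `A*` and an inverse;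
* `pper_proj` : `PPer b m P`, `A` smooth, periodic, injective on `range P` ⇒ `PPer b m (proj A P)`.
-/

set_option autoImplicit false
set_option maxSynthPendingDepth 3
set_option linter.unusedSectionVars false
set_option linter.unusedVariables false

open Set Filter Module MeasureTheory Function
open scoped ContDiff Topology InnerProductSpace

namespace Crest.Agent.R235.FdsF_143

open FamDefs_307

noncomputable section

section cl

variable {V : Type*} [NormedAddCommGroup V] [NormedSpace ℝ V]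
variable {E F G : Type*} [NormedAddCommGroup E] [InnerProductSpace ℂ E] [CompleteSpace E]
  [NormedAddCommGroup F] [InnerProductSpace ℂ F] [CompleteSpace F]
  [NormedAddCommGroup G] [InnerProductSpace ℂ G] [CompleteSpace G]

/-- composition as a real bilinear map. -/
def compR : (F →L[ℂ] G) →L[ℝ] (E →L[ℂ] F) →L[ℝ] (E →L[ℂ] G) :=
  LinearMap.mkContinuous₂
    (LinearMap.mk₂ ℝ (fun (S : F →L[ℂ] G) (T : E →L[ℂ] F) => S ∘L T)
      (fun S S' T => by ext x; simp) (fun c S T => by ext x; simp)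
      (fun S T T' => by ext x; simp) (fun c S T => by ext x; simp)) 1
    (fun S T => by
      simp only [LinearMap.mk₂_apply, one_mul]
      exact ContinuousLinearMap.opNorm_comp_le S T)

@[simp] lemma compR_apply (S : F →L[ℂ] G) (T : E →L[ℂ] F) : compR S T = S ∘L T := rfl

/-- the adjoint as a real linear map. -/
def adjR : (E →L[ℂ] F) →L[ℝ] (F →L[ℂ] E) where
  toFun S := S.adjoint
  map_add' S T := by rw [map_add]
  map_smul' c S := by
    have h : (c • S : E →L[ℂ] F) = ((c : ℂ)) • S := by ext x; simp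
    rw [h, map_smulₛₗ]
    ext x; simp
  cont := ContinuousLinearMap.adjoint.continuous

@[simp] lemma adjR_apply (S : E →L[ℂ] F) : adjR S = S.adjoint := rfl

lemma comp_diff {S : V → F →L[ℂ] G} {T : V → E →L[ℂ] F} {h : V} (hS : DifferentiableAt ℝ S h)
    (hT : DifferentiableAt ℝ T h) : DifferentiableAt ℝ (fun x => S x ∘L T x) h :=
  (compR.hasFDerivAt_of_bilinear hS.hasFDerivAt hT.hasFDerivAt).differentiableAt

lemma comp_fderiv {S : V → F →L[ℂ] G} {T : V → E →L[ℂ] F} {h : V} (hS : DifferentiableAt ℝ S h)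
    (hT : DifferentiableAt ℝ T h) (v : V) :
    fderiv ℝ (fun x => S x ∘L T x) h v = S h ∘L fderiv ℝ T h v + fderiv ℝ S h v ∘L T h := by
  have h1 := (compR.hasFDerivAt_of_bilinear hS.hasFDerivAt hT.hasFDerivAt).fderiv
  have h2 : (fun x => S x ∘L T x) = fun x => compR (S x) (T x) := rfl
  rw [h2, h1]
  rfl

lemma adj_fderiv {S : V → E →L[ℂ] F} {h : V} (hS : DifferentiableAt ℝ S h) (v : V) :
    fderiv ℝ (fun x => (S x).adjoint) h v = (fderiv ℝ S h v).adjoint := by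
  have h2 : (fun x => (S x).adjoint) = fun x => adjR (S x) := rfl
  rw [h2, fderiv_fun_comp h adjR.differentiableAt hS]
  simp

lemma comp_contDiff {S : V → F →L[ℂ] G} {T : V → E →L[ℂ] F} {n : ℕ∞ω} (hS : ContDiff ℝ n S)
    (hT : ContDiff ℝ n T) : ContDiff ℝ n (fun x => S x ∘L T x) := by
  have h : (fun x => S x ∘L T x) = fun x => compR (S x) (T x) := rfl
  rw [h]
  exact (compR (E := E) (F := F) (G := G)).isBoundedBilinearMap.contDiff.comp (hS.prodMk hT)

lemma adj_contDiff {S : V → E →L[ℂ] F} {n : ℕ∞ω} (hS : ContDiff ℝ n S) :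
    ContDiff ℝ n (fun x => (S x).adjoint) := by
  have h : (fun x => (S x).adjoint) = fun x => adjR (S x) := rfl
  rw [h]
  exact (adjR (E := E) (F := F)).contDiff.comp hS

end cl

/-! ### `X_ij` and the projection -/

section xij

variable {Z Y : Type*} [NormedAddCommGroup Z] [InnerProductSpace ℂ Z] [FiniteDimensional ℂ Z]
  [NormedAddCommGroup Y] [InnerProductSpace ℂ Y] [FiniteDimensional ℂ Y]

lemma isUnit_of_inj {S : Z →L[ℂ] Z} (hS : ∀ z, S z = 0 → z = 0) : IsUnit S := by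
  rw [ContinuousLinearMap.isUnit_iff_isUnit_toLinearMap, LinearMap.isUnit_iff_ker_eq_bot,
    LinearMap.ker_eq_bot']
  exact hS

lemma isUnit_gram {B : Z →L[ℂ] Y} (hB : Injective B) : IsUnit (B.adjoint ∘L B : Z →L[ℂ] Z) := by
  refine isUnit_of_inj fun z hz => ?_
  have h1 : ⟪B z, B z⟫_ℂ = 0 := by
    rw [← ContinuousLinearMap.adjoint_inner_left]
    have h2 : B.adjoint (B z) = 0 := hz
    rw [h2, inner_zero_left]
  have h3 : B z = 0 := inner_self_eq_zero.1 h1
  exact hB (by rw [h3, map_zero])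

lemma inv_sa {S : Z →L[ℂ] Z} (hu : IsUnit S) (hS : S.adjoint = S) :
    (Ring.inverse S).adjoint = Ring.inverse S := by
  have h1 : S * Ring.inverse S = 1 := Ring.mul_inverse_cancel _ hu
  have h2 : Ring.inverse S * S = 1 := Ring.inverse_mul_cancel _ hu
  have h3 : (Ring.inverse S).adjoint * S = 1 := by
    have h4 := congrArg ContinuousLinearMap.adjoint h1
    rw [ContinuousLinearMap.mul_def, ContinuousLinearMap.adjoint_comp, hS] at h4
    rw [ContinuousLinearMap.mul_def, h4]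
    exact ContinuousLinearMap.adjoint_id
  calc (Ring.inverse S).adjoint = (Ring.inverse S).adjoint * (S * Ring.inverse S) := by
        rw [h1, mul_one]
    _ = Ring.inverse S := by rw [← mul_assoc, h3, one_mul]

lemma tr_comm (S : Z →L[ℂ] Y) (T : Y →L[ℂ] Z) : tr (S ∘L T) = tr (T ∘L S) := by
  unfold tr
  exact LinearMap.trace_comp_comm' (T : Y →ₗ[ℂ] Z) (S : Z →ₗ[ℂ] Y)

/-- the data at a point. -/
structure Pt (Q : Y →L[ℂ] Y) (B : Z →L[ℂ] Y) (Qi : Y →L[ℂ] Y) (Bi : Z →L[ℂ] Y) : Prop where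
  idem : ∀ y, Q (Q y) = Q y
  sa : Q.adjoint = Q
  inj : Injective B
  QB : ∀ z, Q (B z) = B z
  rg : ∀ y, ∃ z, Q y = B z
  d1 : ∀ z, Qi (B z) = Bi z - Q (Bi z)
  d2 : ∀ y, Qi y = Qi (Q y) + Q (Qi y)
  dsa : Qi.adjoint = Qi

namespace Pt

variable {Q Qi Qj : Y →L[ℂ] Y} {B Bi Bj : Z →L[ℂ] Y}

lemma Q_eq (h : Pt Q B Qi Bi) (y : Y) :
    Q y = B (Ring.inverse (B.adjoint ∘L B) (B.adjoint y)) := by
  obtain ⟨z, hz⟩ := h.rg y
  have h1 : B.adjoint (Q y) = B.adjoint y := by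
    refine ext_inner_left ℂ fun x => ?_
    rw [ContinuousLinearMap.adjoint_inner_right, ContinuousLinearMap.adjoint_inner_right]
    have h2 : ⟪B x, Q y⟫_ℂ = ⟪Q.adjoint (B x), y⟫_ℂ :=
      (ContinuousLinearMap.adjoint_inner_left _ _ _).symm
    rw [h2, h.sa, h.QB]
  have h3 : (Ring.inverse (B.adjoint ∘L B) * (B.adjoint ∘L B)) z = z := by
    rw [Ring.inverse_mul_cancel _ (isUnit_gram h.inj)]; rfl
  have h4 : Ring.inverse (B.adjoint ∘L B) (B.adjoint (B z)) = z := h3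
  rw [← h1, hz, h4]

lemma X_apply (h : Pt Q B Qj Bj) (z : Z) :
    Xij B Bi Bj z = Ring.inverse (B.adjoint ∘L B) (Bi.adjoint (Bj z - Q (Bj z))) := by
  rw [h.Q_eq (Bj z)]
  rfl

/-- `Q Q_i w = B n B_i^* w` for `Q w = 0`. -/
lemma QQ (h : Pt Q B Qi Bi) {w : Y} (hw : Q w = 0) :
    Q (Qi w) = B (Ring.inverse (B.adjoint ∘L B) (Bi.adjoint w)) := by
  have hn := inv_sa (isUnit_gram h.inj) (by
    rw [ContinuousLinearMap.adjoint_comp, ContinuousLinearMap.adjoint_adjoint])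
  refine ext_inner_left ℂ fun u => ?_
  have h1 : ⟪u, Q (Qi w)⟫_ℂ = ⟪Qi (Q u), w⟫_ℂ := by
    rw [← ContinuousLinearMap.adjoint_inner_left Q, h.sa,
      ← ContinuousLinearMap.adjoint_inner_left Qi, h.dsa]
  rw [h1, h.Q_eq u, h.d1, inner_sub_left]
  have h2 : ⟪Q (Bi (Ring.inverse (B.adjoint ∘L B) (B.adjoint u))), w⟫_ℂ = 0 := by
    rw [← ContinuousLinearMap.adjoint_inner_right, h.sa, hw, inner_zero_right]
  rw [h2, sub_zero, ← ContinuousLinearMap.adjoint_inner_right,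
    ← ContinuousLinearMap.adjoint_inner_right (Ring.inverse _), hn,
    ContinuousLinearMap.adjoint_inner_left]

lemma QQQ (h : Pt Q B Qi Bi) (h' : Pt Q B Qj Bj) (y : Y) :
    Q (Qi (Qj y)) = B (Xij B Bi Bj (Ring.inverse (B.adjoint ∘L B) (B.adjoint y))) := by
  have h1 : ∀ w, Q (Qi (Q w)) = 0 := fun w => by
    have h2 := h.d2 (Q w)
    rw [h.idem] at h2
    exact left_eq_add.1 h2
  have h3 : Q (Qi (Qj y)) = Q (Qi (Qj (Q y))) := by
    conv_lhs => rw [h'.d2 y]
    rw [map_add, map_add, h1, add_zero]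
  rw [h3, h.Q_eq y, h'.d1, h.QQ, h'.X_apply]
  rw [map_sub, h.idem, sub_self]

lemma XnB (h : Pt Q B Qi Bi) (X : Z →L[ℂ] Z) :
    tr (B ∘L (X ∘L Ring.inverse (B.adjoint ∘L B) ∘L B.adjoint)) = tr X := by
  rw [tr_comm]
  congr 1
  ext z
  have h3 : (Ring.inverse (B.adjoint ∘L B) * (B.adjoint ∘L B)) z = z := by
    rw [Ring.inverse_mul_cancel _ (isUnit_gram h.inj)]; rfl
  have h4 : Ring.inverse (B.adjoint ∘L B) (B.adjoint (B z)) = z := h3
  show X (Ring.inverse (B.adjoint ∘L B) (B.adjoint (B z))) = X z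
  rw [h4]

theorem trX (h : Pt Q B Qi Bi) (h' : Pt Q B Qj Bj) :
    tr (Xij B Bi Bj) = tr (Q * Qi * Qj) := by
  rw [← h.XnB]
  congr 1
  ext y
  exact (h.QQQ h' y).symm

theorem trXX {Qk Ql : Y →L[ℂ] Y} {Bk Bl : Z →L[ℂ] Y} (h : Pt Q B Qi Bi) (h' : Pt Q B Qj Bj)
    (hk : Pt Q B Qk Bk) (hl : Pt Q B Ql Bl) :
    tr (Xij B Bi Bj ∘L Xij B Bk Bl) = tr (Q * Qi * Qj * Qk * Ql) := by
  rw [← h.XnB]
  congr 1
  ext y
  show B (Xij B Bi Bj (Xij B Bk Bl (Ring.inverse (B.adjoint ∘L B) (B.adjoint y)))) =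
    Q (Qi (Qj (Qk (Ql y))))
  rw [h.QQQ h' (Qk (Ql y))]
  have h1 : B.adjoint (Qk (Ql y)) = B.adjoint (Q (Qk (Ql y))) := by
    refine ext_inner_left ℂ fun x => ?_
    rw [ContinuousLinearMap.adjoint_inner_right, ContinuousLinearMap.adjoint_inner_right]
    have h2 : ⟪B x, Q (Qk (Ql y))⟫_ℂ = ⟪Q.adjoint (B x), Qk (Ql y)⟫_ℂ :=
      (ContinuousLinearMap.adjoint_inner_left _ _ _).symm
    rw [h2, h.sa, h.QB]
  have h3 : ∀ z, Ring.inverse (B.adjoint ∘L B) (B.adjoint (B z)) = z := fun z => by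
    have h3 : (Ring.inverse (B.adjoint ∘L B) * (B.adjoint ∘L B)) z = z := by
      rw [Ring.inverse_mul_cancel _ (isUnit_gram h.inj)]; rfl
    exact h3
  rw [h1, hk.QQQ hl y, h3]

end Pt

/-- the data at a point, from smooth families. -/
theorem pt {V : Type*} [NormedAddCommGroup V] [NormedSpace ℝ V] {B : V → Z →L[ℂ] Y}
    {Q : V → Y →L[ℂ] Y} {h : V} (hB : DifferentiableAt ℝ B h) (hQ : DifferentiableAt ℝ Q h)
    (hid : ∀ᶠ x in 𝓝 h, ∀ y, Q x (Q x y) = Q x y) (hsa : ∀ᶠ x in 𝓝 h, (Q x).adjoint = Q x)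
    (hQB : ∀ᶠ x in 𝓝 h, ∀ z, Q x (B x z) = B x z) (hinj : Injective (B h))
    (hrg : ∀ y, ∃ z, Q h y = B h z) (v : V) :
    Pt (Q h) (B h) (fderiv ℝ Q h v) (fderiv ℝ B h v) where
  idem := hid.self_of_nhds
  sa := hsa.self_of_nhds
  inj := hinj
  QB := hQB.self_of_nhds
  rg := hrg
  d1 z := by
    have h1 : (fun x => Q x ∘L B x) =ᶠ[𝓝 h] B := by
      filter_upwards [hQB] with x hx
      ext z; exact hx z
    have h2 := comp_fderiv hQ hB v
    rw [h1.fderiv_eq] at h2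
    have h3 := congrArg (fun S : Z →L[ℂ] Y => S z) h2
    simp only [add_apply, ContinuousLinearMap.comp_apply] at h3
    exact eq_sub_of_add_eq' h3.symm
  d2 y := by
    have h1 : (fun x => Q x ∘L Q x) =ᶠ[𝓝 h] Q := by
      filter_upwards [hid] with x hx
      ext z; exact hx z
    have h2 := comp_fderiv hQ hQ v
    rw [h1.fderiv_eq] at h2
    have h3 := congrArg (fun S : Y →L[ℂ] Y => S y) h2
    simp only [add_apply, ContinuousLinearMap.comp_apply] at h3
    conv_lhs => rw [h3]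
    abel
  dsa := by
    have h1 : (fun x => (Q x).adjoint) =ᶠ[𝓝 h] Q := hsa
    have h2 := adj_fderiv hQ v
    rw [h1.fderiv_eq] at h2
    exact h2.symm

end xij

/-! ### the projection onto `A (range P)` -/

section pr

variable {H Y : Type*} [NormedAddCommGroup H] [InnerProductSpace ℂ H] [FiniteDimensional ℂ H]
  [NormedAddCommGroup Y] [InnerProductSpace ℂ Y] [FiniteDimensional ℂ Y]

/-- `P A* A P + (1 - P)`. -/
def Mm (A : H →L[ℂ] Y) (P : H →L[ℂ] H) : H →L[ℂ] H :=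
  P ∘L (A.adjoint ∘L (A ∘L P)) + (ContinuousLinearMap.id ℂ H - P)

/-- the orthogonal projection onto `A (range P)`. -/
def proj (A : H →L[ℂ] Y) (P : H →L[ℂ] H) : Y →L[ℂ] Y :=
  A ∘L (P ∘L (Ring.inverse (Mm A P) ∘L (P ∘L A.adjoint)))

structure Dt (A : H →L[ℂ] Y) (P : H →L[ℂ] H) : Prop where
  idem : ∀ x, P (P x) = P x
  sa : P.adjoint = P
  inj : ∀ x, P x = x → A x = 0 → x = 0

namespace Dt

variable {A : H →L[ℂ] Y} {P : H →L[ℂ] H}

lemma isUnit (h : Dt A P) : IsUnit (Mm A P) := by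
  refine isUnit_of_inj fun x hx => ?_
  have h0 : P (A.adjoint (A (P x))) + (x - P x) = 0 := hx
  have h1 : P (A.adjoint (A (P x))) = 0 := by
    have h2 := congrArg P h0
    rw [map_add, map_sub, h.idem, h.idem, sub_self, add_zero, map_zero] at h2
    exact h2
  have h2 : x = P x := by
    rw [h1, zero_add] at h0
    exact sub_eq_zero.1 h0
  have h3 : ⟪A (P x), A (P x)⟫_ℂ = 0 := by
    rw [← ContinuousLinearMap.adjoint_inner_left]
    have h4 : ⟪A.adjoint (A (P x)), P x⟫_ℂ = ⟪P.adjoint (A.adjoint (A (P x))), x⟫_ℂ :=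
      (ContinuousLinearMap.adjoint_inner_left _ _ _).symm
    rw [h4, h.sa, h1, inner_zero_left]
  have h5 : A (P x) = 0 := inner_self_eq_zero.1 h3
  have h6 := h.inj (P x) (h.idem x) h5
  rw [h2, h6]

lemma Mm_sa (h : Dt A P) : (Mm A P).adjoint = Mm A P := by
  unfold Mm
  rw [map_add, map_sub, ContinuousLinearMap.adjoint_comp, ContinuousLinearMap.adjoint_comp,
    ContinuousLinearMap.adjoint_comp, ContinuousLinearMap.adjoint_adjoint, h.sa]
  rw [show (ContinuousLinearMap.id ℂ H).adjoint = ContinuousLinearMap.id ℂ H from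
    ContinuousLinearMap.adjoint_id]
  rfl

lemma M_P (h : Dt A P) (x : H) : Mm A P (P x) = P (A.adjoint (A (P x))) := by
  show P (A.adjoint (A (P (P x)))) + (P x - P (P x)) = _
  rw [h.idem, sub_self, add_zero]

lemma P_M (h : Dt A P) (x : H) : P (Mm A P x) = P (A.adjoint (A (P x))) := by
  show P (P (A.adjoint (A (P x))) + (x - P x)) = _
  rw [map_add, map_sub, h.idem, h.idem, sub_self, add_zero]

lemma N_M (h : Dt A P) (x : H) : Ring.inverse (Mm A P) (Mm A P x) = x := by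
  have h3 : (Ring.inverse (Mm A P) * Mm A P) x = x := by
    rw [Ring.inverse_mul_cancel _ h.isUnit]; rfl
  exact h3

lemma M_N (h : Dt A P) (x : H) : Mm A P (Ring.inverse (Mm A P) x) = x := by
  have h3 : (Mm A P * Ring.inverse (Mm A P)) x = x := by
    rw [Ring.mul_inverse_cancel _ h.isUnit]; rfl
  exact h3

/-- `P N P A* A P = P`. -/
lemma key (h : Dt A P) (x : H) :
    P (Ring.inverse (Mm A P) (P (A.adjoint (A (P x))))) = P x := by
  rw [← h.M_P, h.N_M, h.idem]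

lemma proj_A (h : Dt A P) (x : H) : proj A P (A (P x)) = A (P x) := by
  show A (P (Ring.inverse (Mm A P) (P (A.adjoint (A (P x)))))) = _
  rw [h.key]

lemma proj_idem (h : Dt A P) (y : Y) : proj A P (proj A P y) = proj A P y := by
  have h1 : proj A P y = A (P (Ring.inverse (Mm A P) (P (A.adjoint y)))) := rfl
  rw [h1, h.proj_A]

lemma proj_sa (h : Dt A P) : (proj A P).adjoint = proj A P := by
  unfold proj
  rw [ContinuousLinearMap.adjoint_comp, ContinuousLinearMap.adjoint_comp,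
    ContinuousLinearMap.adjoint_comp, ContinuousLinearMap.adjoint_comp,
    ContinuousLinearMap.adjoint_adjoint, h.sa, inv_sa h.isUnit h.Mm_sa]
  rfl

lemma proj_rg (y : Y) : ∃ x, proj A P y = A (P x) := ⟨_, rfl⟩

lemma range_eq (h : Dt A P) :
    LinearMap.range (proj A P : Y →ₗ[ℂ] Y) =
      LinearMap.range ((A : H →ₗ[ℂ] Y).domRestrict (LinearMap.range (P : H →ₗ[ℂ] H))) := by
  ext y
  constructor
  · rintro ⟨y', rfl⟩
    obtain ⟨x, hx⟩ := proj_rg (A := A) (P := P) y'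
    exact ⟨⟨P x, ⟨x, rfl⟩⟩, hx.symm⟩
  · rintro ⟨⟨_, ⟨x, rfl⟩⟩, rfl⟩
    exact ⟨A (P x), h.proj_A x⟩

lemma rank_eq (h : Dt A P) :
    finrank ℂ (LinearMap.range (proj A P : Y →ₗ[ℂ] Y)) =
      finrank ℂ (LinearMap.range (P : H →ₗ[ℂ] H)) := by
  rw [h.range_eq]
  refine LinearMap.finrank_range_of_inj ?_
  rw [injective_iff_map_eq_zero]
  rintro ⟨_, ⟨x, rfl⟩⟩ hx
  have h1 : A (P x) = 0 := hx
  exact Subtype.ext (h.inj (P x) (h.idem x) h1)

end Dt

lemma inv_contDiff {V : Type*} [NormedAddCommGroup V] [NormedSpace ℝ V] {S : V → H →L[ℂ] H}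
    {n : ℕ∞ω} (hS : ContDiff ℝ n S) (hu : ∀ x, IsUnit (S x)) :
    ContDiff ℝ n (fun x => Ring.inverse (S x)) := by
  rw [contDiff_iff_contDiffAt]
  intro x
  obtain ⟨u, hu'⟩ := hu x
  have h1 : ContDiffAt ℂ n (Ring.inverse : (H →L[ℂ] H) → (H →L[ℂ] H)) (u : H →L[ℂ] H) :=
    contDiffAt_ringInverse ℂ u
  rw [hu'] at h1
  exact (h1.restrict_scalars ℝ).comp x hS.contDiffAt

theorem contDiff_proj {V : Type*} [NormedAddCommGroup V] [NormedSpace ℝ V] {A : V → H →L[ℂ] Y}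
    {P : V → H →L[ℂ] H} {n : ℕ∞ω} (hA : ContDiff ℝ n A) (hP : ContDiff ℝ n P)
    (h : ∀ x, Dt (A x) (P x)) : ContDiff ℝ n (fun x => proj (A x) (P x)) := by
  have h1 : ContDiff ℝ n (fun x => Mm (A x) (P x)) :=
    (comp_contDiff hP (comp_contDiff (adj_contDiff hA) (comp_contDiff hA hP))).add
      (contDiff_const.sub hP)
  have h2 := inv_contDiff h1 fun x => (h x).isUnit
  exact comp_contDiff hA (comp_contDiff hP (comp_contDiff h2 (comp_contDiff hP
    (adj_contDiff hA))))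

theorem dt_of {b m : ℕ} {P : (Fin b → ℝ) → H →L[ℂ] H} {A : (Fin b → ℝ) → H →L[ℂ] Y}
    (hP : PPer b m P) (hinj : ∀ h x, P h x = x → A h x = 0 → x = 0) (h : Fin b → ℝ) :
    Dt (A h) (P h) :=
  ⟨hP.idem h, by
    refine (ContinuousLinearMap.eq_adjoint_iff _ _).2 (fun x y => ?_) |>.symm
    exact hP.sa h x y, hinj h⟩

/-- **the image of a bundle under a smooth periodic family of injections.** -/
theorem pper_proj {b m : ℕ} {P : (Fin b → ℝ) → H →L[ℂ] H} {A : (Fin b → ℝ) → H →L[ℂ] Y}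
    (hP : PPer b m P) (hA : ContDiff ℝ ∞ A)
    (hper : ∀ (h : Fin b → ℝ) (k : Fin b → ℤ), A (fun i => h i + k i) = A h)
    (hinj : ∀ h x, P h x = x → A h x = 0 → x = 0) :
    PPer b m (fun h => proj (A h) (P h)) where
  smooth := contDiff_proj hA hP.smooth (dt_of hP hinj)
  per h k := by rw [hP.per, hper]
  idem h := (dt_of hP hinj h).proj_idem
  sa h x y := by
    have h1 := (dt_of hP hinj h).proj_sa
    conv_lhs => rw [← h1]
    rw [ContinuousLinearMap.adjoint_inner_left]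
  rank h := by rw [(dt_of hP hinj h).rank_eq, hP.rank]

end pr

/-! ### densities in a frame -/

section dens

variable {Z H Y : Type*} [NormedAddCommGroup Z] [InnerProductSpace ℂ Z] [FiniteDimensional ℂ Z]
  [NormedAddCommGroup H] [InnerProductSpace ℂ H] [FiniteDimensional ℂ H]
  [NormedAddCommGroup Y] [InnerProductSpace ℂ Y] [FiniteDimensional ℂ Y]

theorem pt_frame {b m : ℕ} {P : (Fin b → ℝ) → H →L[ℂ] H} {A : (Fin b → ℝ) → H →L[ℂ] Y}
    (hP : PPer b m P) (hA : ContDiff ℝ ∞ A) (hinj : ∀ h x, P h x = x → A h x = 0 → x = 0)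
    (hZ : finrank ℂ Z = m) {e : (Fin b → ℝ) → Z →L[ℂ] H} {h : Fin b → ℝ}
    (he : DifferentiableAt ℝ e h) (hPe : ∀ᶠ x in 𝓝 h, ∀ z, P x (e x z) = e x z)
    (hei : Injective (e h)) (v : Fin b → ℝ) :
    Pt (proj (A h) (P h)) (A h ∘L e h) (fderiv ℝ (fun x => proj (A x) (P x)) h v)
      (fderiv ℝ (fun x => A x ∘L e x) h v) := by
  have hd := dt_of hP hinj
  refine pt (B := fun x => A x ∘L e x) (Q := fun x => proj (A x) (P x))
    (comp_diff (hA.contDiffAt.differentiableAt (by simp)) he)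
    ((contDiff_proj hA hP.smooth hd).contDiffAt.differentiableAt (by simp))
    (Eventually.of_forall fun x => (hd x).proj_idem)
    (Eventually.of_forall fun x => (hd x).proj_sa) ?_ ?_ ?_ v
  · filter_upwards [hPe] with x hx z
    show proj (A x) (P x) (A x (e x z)) = A x (e x z)
    rw [← hx z, (hd x).proj_A]
  · have hPh := hPe.self_of_nhds
    show Injective (A h ∘L e h)
    rw [injective_iff_map_eq_zero]
    intro z hz
    have h1 : e h z = 0 := hinj h (e h z) (hPh z) hz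
    exact hei (by rw [h1, map_zero])
  · intro y
    have hPh := hPe.self_of_nhds
    have h1 : LinearMap.range (e h : Z →ₗ[ℂ] H) = LinearMap.range (P h : H →ₗ[ℂ] H) := by
      refine Submodule.eq_of_le_of_finrank_eq ?_ ?_
      · rintro _ ⟨z, rfl⟩
        exact ⟨e h z, hPh z⟩
      · rw [LinearMap.finrank_range_of_inj (show Injective (e h : Z →ₗ[ℂ] H) from hei), hZ,
          hP.rank]
    obtain ⟨x, hx⟩ := Dt.proj_rg (A := A h) (P := P h) y
    have h2 : P h x ∈ LinearMap.range (e h : Z →ₗ[ℂ] H) := by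
      rw [h1]; exact ⟨x, rfl⟩
    obtain ⟨z, hz⟩ := h2
    refine ⟨z, ?_⟩
    show proj (A h) (P h) y = A h (e h z)
    rw [hx]
    exact congrArg (A h) hz.symm

variable {m : ℕ}

theorem dens2 {P : (Fin 2 → ℝ) → H →L[ℂ] H} {A : (Fin 2 → ℝ) → H →L[ℂ] Y}
    (hP : PPer 2 m P) (hA : ContDiff ℝ ∞ A) (hinj : ∀ h x, P h x = x → A h x = 0 → x = 0)
    (hZ : finrank ℂ Z = m) {e : (Fin 2 → ℝ) → Z →L[ℂ] H} {h : Fin 2 → ℝ}
    (he : DifferentiableAt ℝ e h) (hPe : ∀ᶠ x in 𝓝 h, ∀ z, P x (e x z) = e x z)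
    (hei : Injective (e h)) :
    ∑ σ : Equiv.Perm (Fin 2), sg σ * tr (Xij (A h ∘L e h) (pdθ (σ 0) (fun x => A x ∘L e x) h)
      (pdθ (σ 1) (fun x => A x ∘L e x) h)) =
    ∑ σ : Equiv.Perm (Fin 2), sg σ * tr (proj (A h) (P h) *
      pdθ (σ 0) (fun x => proj (A x) (P x)) h * pdθ (σ 1) (fun x => proj (A x) (P x)) h) := by
  refine Finset.sum_congr rfl fun σ _ => ?_
  have hp := pt_frame hP hA hinj hZ he hPe hei
  exact congrArg (fun t => sg σ * t) ((hp _).trX (hp _))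

theorem dens4 {P : (Fin 4 → ℝ) → H →L[ℂ] H} {A : (Fin 4 → ℝ) → H →L[ℂ] Y}
    (hP : PPer 4 m P) (hA : ContDiff ℝ ∞ A) (hinj : ∀ h x, P h x = x → A h x = 0 → x = 0)
    (hZ : finrank ℂ Z = m) {e : (Fin 4 → ℝ) → Z →L[ℂ] H} {h : Fin 4 → ℝ}
    (he : DifferentiableAt ℝ e h) (hPe : ∀ᶠ x in 𝓝 h, ∀ z, P x (e x z) = e x z)
    (hei : Injective (e h)) :
    ∑ σ : Equiv.Perm (Fin 4), sg σ *
      (tr (Xij (A h ∘L e h) (pdθ (σ 0) (fun x => A x ∘L e x) h)
          (pdθ (σ 1) (fun x => A x ∘L e x) h) ∘L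
          Xij (A h ∘L e h) (pdθ (σ 2) (fun x => A x ∘L e x) h)
          (pdθ (σ 3) (fun x => A x ∘L e x) h)) +
        tr (Xij (A h ∘L e h) (pdθ (σ 0) (fun x => A x ∘L e x) h)
          (pdθ (σ 1) (fun x => A x ∘L e x) h)) *
        tr (Xij (A h ∘L e h) (pdθ (σ 2) (fun x => A x ∘L e x) h)
          (pdθ (σ 3) (fun x => A x ∘L e x) h))) =
    ∑ σ : Equiv.Perm (Fin 4), sg σ * tr (proj (A h) (P h) *
      pdθ (σ 0) (fun x => proj (A x) (P x)) h * pdθ (σ 1) (fun x => proj (A x) (P x)) h *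
      pdθ (σ 2) (fun x => proj (A x) (P x)) h * pdθ (σ 3) (fun x => proj (A x) (P x)) h) +
    ∑ σ : Equiv.Perm (Fin 4), sg σ * (tr (proj (A h) (P h) *
      pdθ (σ 0) (fun x => proj (A x) (P x)) h * pdθ (σ 1) (fun x => proj (A x) (P x)) h) *
      tr (proj (A h) (P h) * pdθ (σ 2) (fun x => proj (A x) (P x)) h *
        pdθ (σ 3) (fun x => proj (A x) (P x)) h)) := by
  rw [← Finset.sum_add_distrib]
  refine Finset.sum_congr rfl fun σ _ => ?_
  have hp := pt_frame hP hA hinj hZ he hPe hei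
  rw [mul_add]
  congr 2
  · exact (hp _).trXX (hp _) (hp _) (hp _)
  · congr 1
    · exact (hp _).trX (hp _)
    · exact (hp _).trX (hp _)

end dens

end

end Crest.Agent.R235.FdsF_143
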