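import Crest.Agent.R235.FdsD_778
import Crest.Agent.R235.FdsAsm_143
import Crest.Agent.R235.FamEmb_192
import Crest.Agent.R235.FamFour_504
import Crest.Agent.R235.FamGaussD_355
import Crest.Agent.R235.FamFin_143

/-!
Row 235 (S0364), block FAM-FDS (helper778): the end of task 421: **FDS2, FDS4, FDH4** and
**FIN4, FINH4** are theorems.
-/

set_option autoImplicit false
set_option maxSynthPendingDepth 3

open MeasureTheory Set Filter Topology Module Function
open scoped ContDiff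

noncomputable section

namespace Crest.Agent.R235.FdsFin_778

open FamDefs_307 FdsF_143 FdsAsm_143 FamC_192 FamFour_504 FamFin_143

variable {H Y : Type} [NormedAddCommGroup H] [InnerProductSpace ℂ H] [FiniteDimensional ℂ H]
  [NormedAddCommGroup Y] [InnerProductSpace ℂ Y] [FiniteDimensional ℂ Y] {b m : ℕ}

theorem embData {P : (Fin b → ℝ) → H →L[ℂ] H} (hP : PPer b m P) (A : H →L[ℂ] Y)
    (hA : ∀ h ψ, P h ψ = ψ → A ψ = 0 → ψ = 0) :
    EmbData b m P (fun h => proj A (P h)) (fun _ => A)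
      (fun _ => ContinuousLinearMap.id ℂ Y) where
  proj := hP
  smJ := contDiff_const
  idem2 h y := (dt_of hP (A := fun _ => A) hA h).proj_idem y
  sa2 h x y := (pper_proj hP (A := fun _ => A) contDiff_const (fun _ _ => rfl) hA).sa h x y
  fix h x hx := by
    have h1 := (dt_of hP (A := fun _ => A) hA h).proj_A x
    rw [hx] at h1
    exact h1
  inj h x hx h0 := hA h x hx h0
  surj h y := by
    obtain ⟨x, hx⟩ := Dt.proj_rg (A := A) (P := P h) y
    exact ⟨P h x, hP.idem h x, hx.symm⟩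
  iso _ _ _ := rfl
  per _ _ _ _ := rfl

theorem emb2 : EMB2 := by
  intro H Y _ _ _ _ _ _ m P A hP hA
  exact (embData hP A hA).ch2_fd

theorem emb4 : EMB4 := by
  intro H Y _ _ _ _ _ _ m P A hP hA
  exact ⟨(embData hP A hA).ch4_fd, (embData hP A hA).chsq_fd⟩

theorem dn (b : ℕ) : DN b := by
  intro T H YR YC _ _ _ _ _ _ _ _ _ _ _ _ m P L fR fC v R hS hN
  obtain ⟨A, e, hA, he, hPe, hi, h⟩ := FdsD_778.fds_d hS hN
  refine ⟨A, e, hA, he, hPe, hi, fun e' => ?_⟩
  obtain ⟨δ, hδ, h1⟩ := h e' Measure.addHaar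
  exact ⟨inferInstance, inferInstance, Measure.addHaar, inferInstance, δ, hδ, h1⟩

theorem dh {T H YR YC : Type} [NormedAddCommGroup T] [NormedSpace ℝ T] [FiniteDimensional ℝ T]
    [NormedAddCommGroup H] [InnerProductSpace ℂ H] [FiniteDimensional ℂ H]
    [NormedAddCommGroup YR] [NormedSpace ℝ YR] [FiniteDimensional ℝ YR]
    [NormedAddCommGroup YC] [NormedSpace ℂ YC] [FiniteDimensional ℂ YC]
    {b m : ℕ} {P : (Fin b → ℝ) → H →L[ℂ] H} {L : T ≃L[ℝ] YR}
    {fR : T × (Fin b → ℝ) × H → YR} {fC : T × (Fin b → ℝ) × H → YC} {v : YC} {R : ℝ}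
    (hS : FSys b m P L fR fC v R) (hO : OneRay P fR fC v) :
    ∃ h₀ : Fin b → ℝ, PPer b m (fun h => P (h + h₀)) ∧
      Out m (finrank ℂ YC) (fun h => P (h + h₀)) (fun x => x ≠ 0) := by
  obtain ⟨h₀, A, e, hP', hA, he, hPe, hi, h⟩ := FdsD_778.fdh_d hS hO
  refine ⟨h₀, hP', A, e, fun h => hA (h + h₀), he, hPe, hi, fun e' => ?_⟩
  obtain ⟨δ, hδ, h1⟩ := h e' Measure.addHaar
  exact ⟨inferInstance, inferInstance, Measure.addHaar, inferInstance, δ, hδ, h1⟩

/-! ### translation invariance -/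

theorem pd_shift {P : (Fin b → ℝ) → H →L[ℂ] H} (a : Fin b → ℝ) (j : Fin b) (h : Fin b → ℝ) :
    pdθ j (fun h => P (h + a)) h = pdθ j P (h + a) := by
  unfold pdθ
  rw [fderiv_comp_add_right]

theorem pd_per {P : (Fin b → ℝ) → H →L[ℂ] H} (hP : PPer b m P) (j : Fin b) (h : Fin b → ℝ)
    (k : Fin b → ℤ) : pdθ j P (fun l => h l + k l) = pdθ j P h := by
  have h1 : (fun x : Fin b → ℝ => P (x + fun l => (k l : ℝ))) = P := by
    funext x; exact hP.per x k
  have h2 := congrArg (fun G : (Fin b → ℝ) → H →L[ℂ] H => fderiv ℝ G h (Pi.single j 1)) h1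
  simp only [fderiv_comp_add_right] at h2
  exact h2

theorem ch4_shift {P : (Fin 4 → ℝ) → H →L[ℂ] H} (hP : PPer 4 m P) (a : Fin 4 → ℝ) :
    ch4 tr (fun h => P (h + a)) = ch4 tr P := by
  let F : (Fin 4 → ℝ) → ℂ := fun h => ∑ σ : Equiv.Perm (Fin 4),
    sg σ * tr (P h * pdθ (σ 0) P h * pdθ (σ 1) P h * pdθ (σ 2) P h * pdθ (σ 3) P h)
  have hd : ∀ j, ContDiff ℝ ∞ (pdθ j P) := fun j => pd_smooth hP.smooth j
  have hF : ContDiff ℝ ∞ F := by
    refine ContDiff.sum fun σ _ => contDiff_const.mul ?_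
    exact trL.contDiff.comp (mul_contDiff (mul_contDiff (mul_contDiff (mul_contDiff hP.smooth
      (hd _)) (hd _)) (hd _)) (hd _))
  have hp : Per F := by
    intro h k
    simp only [F, pd_per hP, hP.per]
  have h1 := int_shift hF hp a
  unfold ch4
  simp only [pd_shift]
  exact h1

theorem chsq_shift {P : (Fin 4 → ℝ) → H →L[ℂ] H} (hP : PPer 4 m P) (a : Fin 4 → ℝ) :
    chsq tr (fun h => P (h + a)) = chsq tr P := by
  let F : (Fin 4 → ℝ) → ℂ := fun h => ∑ σ : Equiv.Perm (Fin 4),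
    sg σ * (tr (P h * pdθ (σ 0) P h * pdθ (σ 1) P h) * tr (P h * pdθ (σ 2) P h * pdθ (σ 3) P h))
  have hd : ∀ j, ContDiff ℝ ∞ (pdθ j P) := fun j => pd_smooth hP.smooth j
  have hF : ContDiff ℝ ∞ F := by
    refine ContDiff.sum fun σ _ => contDiff_const.mul (ContDiff.mul ?_ ?_)
    · exact trL.contDiff.comp (mul_contDiff (mul_contDiff hP.smooth (hd _)) (hd _))
    · exact trL.contDiff.comp (mul_contDiff (mul_contDiff hP.smooth (hd _)) (hd _))
  have hp : Per F := by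
    intro h k
    simp only [F, pd_per hP, hP.per]
  have h1 := int_shift hF hp a
  unfold chsq
  simp only [pd_shift]
  exact h1

/-! ### the theorems -/

theorem fds2 : FDS2 := fds2_of FamGaussD_355.gauss2 emb2 (dn 2)

theorem fds4 : FDS4 := fds4_of FamGaussD_355.gauss4 emb4 (dn 4)

theorem fdh4 : FDH4 := by
  intro T H YR YC _ _ _ _ _ _ _ _ _ _ _ _ m P L fR fC v R hS hO h0
  obtain ⟨h₀, hP', hOut⟩ := dh hS hO
  obtain ⟨x, hx, c, hc, h⟩ := out4 FamGaussD_355.gauss4 emb4 hP' hS.hdim hOut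
  rw [ch4_shift hS.proj, chsq_shift hS.proj, h0, mul_zero] at h
  exact hx (by exact_mod_cast h)

theorem fin4 : FamW_307.FIN4 := fin4_of fds2 fds4 four

theorem finh4 : FamW_307.FINH4 := finh4_of fds2 fdh4 four

end Crest.Agent.R235.FdsFin_778
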