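import Crest.Agent.R235.FdsC_778

/-!
Row 235 (S0364), block FAM-FDS (helper778): `I0` as an iterated integral.
-/

set_option autoImplicit false
set_option maxSynthPendingDepth 3

open MeasureTheory Set Filter Topology Module Function
open scoped ContDiff

noncomputable section

namespace Crest.Agent.R235.FdsI_778

open DgStk_778 DgTri_778 DgInv_778 FdJa_778 FdsT_778 FdsS_778 FdsC_778 FamDefs_307

variable {T H YR YC Z YE : Type} [NormedAddCommGroup T] [NormedSpace ℝ T] [FiniteDimensional ℝ T]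
  [NormedAddCommGroup H] [InnerProductSpace ℂ H] [FiniteDimensional ℂ H]
  [NormedAddCommGroup YR] [NormedSpace ℝ YR] [FiniteDimensional ℝ YR]
  [NormedAddCommGroup YC] [NormedSpace ℂ YC] [FiniteDimensional ℂ YC]
  [NormedAddCommGroup Z] [InnerProductSpace ℂ Z] [FiniteDimensional ℂ Z]
  [NormedAddCommGroup YE] [InnerProductSpace ℂ YE] [FiniteDimensional ℂ YE]
  {b m n : ℕ}

/-- the integrand of the iterated integral -/
def qq (A : H →L[ℂ] YE) (e : (Fin b → ℝ) → Z →L[ℂ] H) (e' : YE ≃L[ℝ] (Fin b → ℝ) × Z)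
    (θ : Fin b → ℝ) (z : Z) : ℝ :=
  LinearMap.det ((e' : YE →L[ℝ] (Fin b → ℝ) × Z) ∘L tot (A ∘L e θ)
    (fun j => pdθ j (fun θ => A ∘L e θ) θ) z : ((Fin b → ℝ) × Z) →ₗ[ℝ] (Fin b → ℝ) × Z)

/-- the test function -/
def et (i : YC ≃L[ℂ] YE) (η₁ : YR → ℝ) (u : ℝ → ℝ) (y : YR × YC) : ℝ :=
  η₁ y.1 * u (‖i y.2‖ ^ 2)

variable [MeasurableSpace T] [BorelSpace T] [MeasurableSpace Z] [BorelSpace Z]

theorem i0_eq {P : (Fin b → ℝ) → H →L[ℂ] H} (hP : Continuous P)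
    {e : (Fin b → ℝ) → Z →L[ℂ] H} (he : ContDiff ℝ ∞ e)
    (hPe : ∀ h z, P h (e h z) = e h z)
    (hi : ∀ θ : Fin b → ℝ, ‖θ‖ ≤ 2 → Function.Injective (e θ))
    (L : T ≃L[ℝ] YR) (A₀ : H →L[ℂ] YC) (hA : ∀ h ψ, P h ψ = ψ → A₀ ψ = 0 → ψ = 0)
    (i : YC ≃L[ℂ] YE) (e' : YE ≃L[ℝ] (Fin b → ℝ) × Z)
    (νT : Measure T) [νT.IsAddHaarMeasure] (μ : Measure Z) [μ.IsAddHaarMeasure]
    (bs : Basis (Fin (n + 1)) ℝ ((Fin b → ℝ) × T × Z)) (om : (YR × YC) [⋀^Fin (n + 1)]→L[ℝ] ℝ)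
    (η₁ : YR → ℝ) (u : ℝ → ℝ) (hη₁ : Continuous η₁) (hu : Continuous u) {δ : ℝ}
    (hηδ : ∀ y, δ ≤ ‖y‖ → et i η₁ u y = 0) :
    I0 e (Lam L A₀) (νT.prod μ) bs om (et i η₁ u)
      = Dt om bs (Phi L i e') * (∫ t, η₁ (L t) ∂νT) *
        ∫ θ : Fin b → ℝ, rho θ * (∫ z, u (‖i (A₀ (e θ z))‖ ^ 2) *
          qq ((i : YC →L[ℂ] YE) ∘L A₀) e e' θ z ∂μ) := by
  have hpT : ProperSpace T := FiniteDimensional.proper ℝ T
  have hpZ : ProperSpace Z := FiniteDimensional.proper ℂ Z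
  have hη : Continuous (et i η₁ u) := by
    refine (hη₁.comp continuous_fst).mul (hu.comp ?_)
    exact ((i.continuous.comp continuous_snd).norm).pow 2
  have hpj : ContDiff ℝ ∞ (pj (T := T) e) := contDiff_pj he
  have hLpj : ContDiff ℝ ∞ fun x : (Fin b → ℝ) × T × Z => Lam L A₀ (pj e x) :=
    (Lam L A₀).contDiff.comp hpj
  have hdL : Continuous (fderiv ℝ fun x : (Fin b → ℝ) × T × Z => Lam L A₀ (pj e x)) :=
    hLpj.continuous_fderiv (by simp)
  have hLz : ∀ h t ψ, P h ψ = ψ → Lam L A₀ (t, ψ) = 0 → t = 0 ∧ ψ = 0 := by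
    intro h t ψ hψ h0
    have h1 : L t = 0 := congrArg Prod.fst h0
    have h2 : A₀ ψ = 0 := congrArg Prod.snd h0
    exact ⟨by simpa using h1, hA h ψ hψ h2⟩
  obtain ⟨c, hc, hlow⟩ := lowerL (b := b) hP (Lam L A₀) hLz
  have hK := isCompact_KK (T := T) he hi (δ / c)
  -- the integrand
  let f : (Fin b → ℝ) × T × Z → ℝ := fun x =>
    rho x.1 * (et i η₁ u (Lam L A₀ (pj e x)) *
      Dt om bs (fderiv ℝ (fun x => Lam L A₀ (pj e x)) x))
  have hf : Integrable f ((volume : Measure (Fin b → ℝ)).prod (νT.prod μ)) := by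
    have h1 : SFinite (νT.prod μ) := inferInstance
    have h4 : MeasurableAdd (T × Z) := inferInstance
    have hν : (νT.prod μ).IsAddHaarMeasure := Measure.prod.instIsAddHaarMeasure _ _
    have h2 : SFinite (volume : Measure (Fin b → ℝ)) := inferInstance
    have h5 : MeasurableAdd (Fin b → ℝ) := inferInstance
    have h6 : (volume : Measure (Fin b → ℝ)).IsAddHaarMeasure := inferInstance
    have hμ : ((volume : Measure (Fin b → ℝ)).prod (νT.prod μ)).IsAddHaarMeasure :=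
      Measure.prod.instIsAddHaarMeasure _ _
    refine Continuous.integrable_of_hasCompactSupport ?_ ?_
    · exact ((contDiff_rho (b := b)).continuous.comp continuous_fst).mul
        ((hη.comp hLpj.continuous).mul (continuous_dt om bs hdL))
    · refine HasCompactSupport.intro hK fun x hx => ?_
      by_contra h
      have h1 := left_ne_zero_of_mul h
      have h2 := left_ne_zero_of_mul (right_ne_zero_of_mul h)
      have h3 : ‖Lam L A₀ (pj e x)‖ < δ := by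
        by_contra h4
        exact h2 (hηδ _ (not_lt.1 h4))
      have h4 := hlow x.1 (pj e x) (cube_norm (rho_ne h1)) (hPe _ _)
      refine hx ⟨rho_ne h1, ?_⟩
      have h5 : ‖pj e x‖ ≤ δ / c := by
        rw [le_div_iff₀ hc, mul_comm]
        linarith
      linarith
  have hf2 : ∀ x, f x = Dt om bs (Phi L i e') * (rho x.1 * (η₁ (L x.2.1) *
      (u (‖i (A₀ (e x.1 x.2.2))‖ ^ 2) * qq ((i : YC →L[ℂ] YE) ∘L A₀) e e' x.1 x.2.2))) := by
    intro x
    simp only [f]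
    rw [fderiv_model L A₀ i e' he x, dt_comp, det_mm]
    have h1 : et i η₁ u (Lam L A₀ (pj e x))
        = η₁ (L x.2.1) * u (‖i (A₀ (e x.1 x.2.2))‖ ^ 2) := rfl
    rw [h1]
    show _ * (_ * (qq ((i : YC →L[ℂ] YE) ∘L A₀) e e' x.1 x.2.2 * _)) = _
    ring
  show ∫ x, f x ∂((volume : Measure (Fin b → ℝ)).prod (νT.prod μ)) = _
  rw [integral_prod _ hf]
  simp only [hf2]
  have h3 : ∀ θ : Fin b → ℝ, ∫ y : T × Z, Dt om bs (Phi L i e') * (rho θ * (η₁ (L y.1) *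
      (u (‖i (A₀ (e θ y.2))‖ ^ 2) * qq ((i : YC →L[ℂ] YE) ∘L A₀) e e' θ y.2))) ∂(νT.prod μ)
      = (Dt om bs (Phi L i e') * ∫ t, η₁ (L t) ∂νT) * (rho θ *
        ∫ z, u (‖i (A₀ (e θ z))‖ ^ 2) * qq ((i : YC →L[ℂ] YE) ∘L A₀) e e' θ z ∂μ) := by
    intro θ
    rw [integral_const_mul, integral_const_mul,
      integral_prod_mul (fun t => η₁ (L t)) (fun z => u (‖i (A₀ (e θ z))‖ ^ 2) *
        qq ((i : YC →L[ℂ] YE) ∘L A₀) e e' θ z)]
    ring
  simp only [h3]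
  rw [integral_const_mul]

end Crest.Agent.R235.FdsI_778
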