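import Crest.Agent.R235.FdsT_778

/-!
Row 235 (S0364), block FAM-FDS (helper778): the contribution of a linear zero section.

`G` as in `FdsT_778.Sys`, equal to a real linear map `Λ (t, ψ)` for `‖t‖, ‖ψ‖ ≤ δ₀`.
`I0 η = ∫ rho η(Λ pj) Dt(d(Λ pj))` is zero for all test functions of small support if `G` has no
other zero (`sec_zero`), and different from zero (`η ≥ 0`, `η 0 > 0`) if `G` has exactly one more
zero, which is nondegenerate (`sec_ne`).
-/

set_option autoImplicit false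

open MeasureTheory Set Filter Topology Module
open scoped ContDiff

noncomputable section

namespace Crest.Agent.R235.FdsS_778

open DgStk_778 DgTri_778 DgInv_778 FdJa_778 FdsT_778

variable {T H Y W : Type*} [NormedAddCommGroup T] [NormedSpace ℝ T]
  [NormedAddCommGroup H] [NormedSpace ℂ H]
  [NormedAddCommGroup Y] [NormedSpace ℝ Y]
  [NormedAddCommGroup W] [NormedSpace ℂ W] {b m : ℕ}

/-- uniform lower bound of a linear map which is injective on the fibres -/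
theorem lowerL [FiniteDimensional ℝ T] [FiniteDimensional ℂ H]
    {P : (Fin b → ℝ) → H →L[ℂ] H} (hP : Continuous P) (L : T × H →L[ℝ] Y)
    (hL : ∀ h t ψ, P h ψ = ψ → L (t, ψ) = 0 → t = 0 ∧ ψ = 0) :
    ∃ c > 0, ∀ (θ : Fin b → ℝ) (y : T × H), ‖θ‖ ≤ 3 / 4 → P θ y.2 = y.2 → c * ‖y‖ ≤ ‖L y‖ := by
  have hpT : ProperSpace T := FiniteDimensional.proper ℝ T
  have hpH : ProperSpace H := FiniteDimensional.proper ℂ H
  let S : Set ((Fin b → ℝ) × (T × H)) :=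
    (Metric.closedBall (0 : Fin b → ℝ) (3 / 4) ×ˢ Metric.sphere (0 : T × H) 1) ∩
      {x | P x.1 x.2.2 = x.2.2}
  have hc1 : Continuous fun x : (Fin b → ℝ) × (T × H) => P x.1 x.2.2 :=
    (hP.comp continuous_fst).clm_apply (continuous_snd.comp continuous_snd)
  have hS : IsCompact S :=
    ((isCompact_closedBall _ _).prod (isCompact_sphere _ _)).inter_right
      (isClosed_eq hc1 (continuous_snd.comp continuous_snd))
  have hc : Continuous fun x : (Fin b → ℝ) × (T × H) => ‖L x.2‖ :=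
    (L.continuous.comp continuous_snd).norm
  have hmem : ∀ (θ : Fin b → ℝ) (y : T × H), ‖θ‖ ≤ 3 / 4 → P θ y.2 = y.2 → y ≠ 0 →
      (θ, ‖y‖⁻¹ • y) ∈ S := by
    intro θ y hθ hy hne
    refine ⟨⟨by simpa using hθ, ?_⟩, ?_⟩
    · rw [mem_sphere_zero_iff_norm, norm_smul, norm_inv, norm_norm]
      exact inv_mul_cancel₀ (norm_ne_zero_iff.2 hne)
    · show P θ (‖y‖⁻¹ • y.2) = ‖y‖⁻¹ • y.2
      rw [(P θ).map_smul_of_tower, hy]
  rcases S.eq_empty_or_nonempty with hS0 | hne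
  · refine ⟨1, one_pos, fun θ y hθ hy => ?_⟩
    by_cases hy0 : y = 0
    · simp [hy0]
    · exfalso
      have h1 := hmem θ y hθ hy hy0
      rw [hS0] at h1
      exact notMem_empty _ h1
  · obtain ⟨x₀, hx₀, hmin⟩ := hS.exists_isMinOn hne hc.continuousOn
    have hpos : 0 < ‖L x₀.2‖ := by
      rw [norm_pos_iff]
      intro h0
      obtain ⟨h1, h2⟩ := hL x₀.1 x₀.2.1 x₀.2.2 hx₀.2 h0
      have h3 := mem_sphere_zero_iff_norm.1 hx₀.1.2
      have h4 : x₀.2 = 0 := Prod.ext h1 h2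
      rw [h4, norm_zero] at h3
      exact zero_ne_one h3
    refine ⟨‖L x₀.2‖, hpos, fun θ y hθ hy => ?_⟩
    by_cases hy0 : y = 0
    · simp [hy0]
    have h4 : ‖L x₀.2‖ ≤ ‖L (‖y‖⁻¹ • y)‖ := hmin (hmem θ y hθ hy hy0)
    rw [map_smul, norm_smul, norm_inv, norm_norm] at h4
    have h6 : 0 < ‖y‖ := norm_pos_iff.2 hy0
    calc ‖L x₀.2‖ * ‖y‖ ≤ (‖y‖⁻¹ * ‖L y‖) * ‖y‖ := by gcongr
      _ = ‖L y‖ := by field_simp

variable [FiniteDimensional ℝ T] [FiniteDimensional ℂ H] [FiniteDimensional ℂ W]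
  [FiniteDimensional ℝ Y]

/-- smooth periodic approximation, exact near the zero section -/
theorem approx {P : (Fin b → ℝ) → H →L[ℂ] H} {e : (Fin b → ℝ) → W →L[ℂ] H}
    {G : T × (Fin b → ℝ) × H → Y} {V : Y} {R : ℝ} (hS : Sys b m P e G V R)
    (L : T × H →L[ℝ] Y) {δ₀ : ℝ} (hδ₀ : 0 < δ₀)
    (hlin : ∀ t h ψ, ‖t‖ ≤ δ₀ → ‖ψ‖ ≤ δ₀ → G (t, h, ψ) = L (t, ψ)) {ε : ℝ} (hε : 0 < ε) :
    ∃ S : (Fin b → ℝ) → T × H → Y,
      ContDiff ℝ ∞ (fun x : (Fin b → ℝ) × (T × H) => S x.1 x.2) ∧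
      (∀ (k : Fin b → ℤ) (h : Fin b → ℝ) (y : T × H), S (h + fun i => (k i : ℝ)) y = S h y) ∧
      (∀ x ∈ KK T e R, ‖S x.1 (pj e x) - G (x.2.1, x.1, e x.1 x.2.2)‖ < ε) ∧
      ∀ h y, ‖y‖ ≤ δ₀ / 2 → S h y = L y := by
  have hK := isCompact_KK (T := T) hS.smE hS.inj R
  have hpjc : Continuous (pj (T := T) e) := (contDiff_pj hS.smE).continuous
  obtain ⟨S, hSs, hSp, hSG⟩ := DgSmo_936.exists_smooth_periodic (b := b) (V := T × H)
    (fun h y => G (y.1, h, y.2))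
    (hS.cG.comp ((continuous_fst.comp continuous_snd).prodMk
      (continuous_fst.prodMk (continuous_snd.comp continuous_snd))))
    (fun k h y => hS.pG y.1 h y.2 k) ((fun x => (x.1, pj e x)) '' KK T e R)
    (hK.image (continuous_fst.prodMk hpjc)) hε
  let l : ContDiffBump (0 : T × H) := ⟨δ₀ / 2, δ₀, by positivity, by linarith⟩
  have hl1 : ∀ y : T × H, ‖y‖ ≤ δ₀ / 2 → l y = 1 := fun y hy =>
    l.one_of_mem_closedBall (by simpa using hy)
  have hl0 : ∀ y : T × H, δ₀ ≤ ‖y‖ → l y = 0 := fun y hy =>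
    l.zero_of_le_dist (by rw [dist_zero_right]; exact hy)
  have hls : ContDiff ℝ ∞ fun x : (Fin b → ℝ) × (T × H) => l x.2 :=
    l.contDiff.comp contDiff_snd
  refine ⟨fun h y => (1 - l y) • S h y + l y • L y, ?_, ?_, ?_, ?_⟩
  · exact ((contDiff_const.sub hls).smul hSs).add (hls.smul (L.contDiff.comp contDiff_snd))
  · intro k h y
    show (1 - l y) • S (h + fun i => (k i : ℝ)) y + l y • L y = _
    rw [hSp]
  · intro x hx
    set y : T × H := pj e x with hy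
    have h1 : ‖S x.1 y - G (x.2.1, x.1, e x.1 x.2.2)‖ < ε :=
      hSG (x.1, pj e x) (mem_image_of_mem _ hx)
    have h2 : (1 - l y) • S x.1 y + l y • L y - G (x.2.1, x.1, e x.1 x.2.2)
        = (1 - l y) • (S x.1 y - G (x.2.1, x.1, e x.1 x.2.2)) := by
      by_cases h3 : l y = 0
      · rw [h3]
        simp
      · have h4 : ‖y‖ < δ₀ := by
          by_contra hcon
          exact h3 (hl0 y (not_lt.1 hcon))
        have h5 : G (x.2.1, x.1, e x.1 x.2.2) = L y :=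
          hlin _ _ _ ((norm_fst_le y).trans h4.le) ((norm_snd_le y).trans h4.le)
        rw [h5]
        module
    show ‖(1 - l y) • S x.1 y + l y • L y - G (x.2.1, x.1, e x.1 x.2.2)‖ < ε
    rw [h2, norm_smul]
    have h3 : ‖1 - l y‖ ≤ 1 := by
      rw [Real.norm_eq_abs, abs_le]
      have h4 := l.nonneg (x := y)
      have h5 := l.le_one (x := y)
      constructor <;> linarith
    calc ‖1 - l y‖ * ‖S x.1 y - G (x.2.1, x.1, e x.1 x.2.2)‖
        ≤ 1 * ‖S x.1 y - G (x.2.1, x.1, e x.1 x.2.2)‖ := by gcongr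
      _ < ε := by rw [one_mul]; exact h1
  · intro h y hy
    show (1 - l y) • S h y + l y • L y = L y
    rw [hl1 y hy]
    simp

variable [MeasurableSpace T] [BorelSpace T] [MeasurableSpace W] [BorelSpace W]

/-- the local integral at the zero section -/
def I0 (e : (Fin b → ℝ) → W →L[ℂ] H) (L : T × H →L[ℝ] Y) (ν : Measure (T × W)) {n : ℕ}
    (bs : Basis (Fin (n + 1)) ℝ ((Fin b → ℝ) × T × W)) (om : Y [⋀^Fin (n + 1)]→L[ℝ] ℝ)
    (η : Y → ℝ) : ℝ :=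
  ∫ x, rho x.1 * (η (L (pj e x)) * Dt om bs (fderiv ℝ (fun x => L (pj e x)) x))
    ∂((volume : Measure (Fin b → ℝ)).prod ν)

/-- the bump separating the zero section -/
def c1 (T : Type*) [NormedAddCommGroup T] [NormedSpace ℝ T] [FiniteDimensional ℝ T]
    (H : Type*) [NormedAddCommGroup H] [NormedSpace ℂ H] [FiniteDimensional ℂ H]
    {δ₀ : ℝ} (hδ₀ : 0 < δ₀) (y : T × H) : ℝ :=
  (⟨δ₀ / 4, δ₀ / 2, by positivity, by linarith⟩ : ContDiffBump (0 : T × H)) y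

omit [MeasurableSpace T] [BorelSpace T] [MeasurableSpace W] [BorelSpace W]
  [FiniteDimensional ℂ W] [FiniteDimensional ℝ Y] in
theorem contDiff_c1 {δ₀ : ℝ} (hδ₀ : 0 < δ₀) : ContDiff ℝ ∞ (c1 T H hδ₀) :=
  ContDiffBump.contDiff _

omit [MeasurableSpace T] [BorelSpace T] [MeasurableSpace W] [BorelSpace W]
  [FiniteDimensional ℂ W] [FiniteDimensional ℝ Y] in
theorem c1_one {δ₀ : ℝ} (hδ₀ : 0 < δ₀) {y : T × H} (hy : ‖y‖ ≤ δ₀ / 4) : c1 T H hδ₀ y = 1 :=
  ContDiffBump.one_of_mem_closedBall _ (by simpa using hy)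

omit [MeasurableSpace T] [BorelSpace T] [MeasurableSpace W] [BorelSpace W]
  [FiniteDimensional ℂ W] [FiniteDimensional ℝ Y] in
theorem c1_zero {δ₀ : ℝ} (hδ₀ : 0 < δ₀) {y : T × H} (hy : δ₀ / 2 ≤ ‖y‖) : c1 T H hδ₀ y = 0 :=
  ContDiffBump.zero_of_le_dist _ (by rw [dist_zero_right]; exact hy)

/-- splitting off the zero section -/
theorem split {P : (Fin b → ℝ) → H →L[ℂ] H} {e : (Fin b → ℝ) → W →L[ℂ] H}
    {G : T × (Fin b → ℝ) × H → Y} {V : Y} {R : ℝ} (hS : Sys b m P e G V R)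
    (L : T × H →L[ℝ] Y) {δ₀ : ℝ} (hδ₀ : 0 < δ₀) (hδR : δ₀ < R)
    (hL : ∀ h t ψ, P h ψ = ψ → L (t, ψ) = 0 → t = 0 ∧ ψ = 0)
    (ν : Measure (T × W)) [ν.IsAddHaarMeasure] {n : ℕ} (hn : finrank ℝ Y = n + 1)
    (bs : Basis (Fin (n + 1)) ℝ ((Fin b → ℝ) × T × W)) (om : Y [⋀^Fin (n + 1)]→L[ℝ] ℝ) :
    ∃ δ > 0, ∃ ε > 0, ∀ S : (Fin b → ℝ) → T × H → Y,
      ContDiff ℝ ∞ (fun x : (Fin b → ℝ) × (T × H) => S x.1 x.2) →
      (∀ (k : Fin b → ℤ) (h : Fin b → ℝ) (y : T × H), S (h + fun i => (k i : ℝ)) y = S h y) →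
      (∀ x ∈ KK T e R, ‖S x.1 (pj e x) - G (x.2.1, x.1, e x.1 x.2.2)‖ < ε) →
      (∀ h y, ‖y‖ ≤ δ₀ / 2 → S h y = L y) →
      ∀ F : (Fin b → ℝ) × T × W → Y, ContDiff ℝ ∞ F →
      (∀ x ∉ UU T e R ∩ {x | δ₀ / 2 < ‖pj e x‖}, F x = S x.1 (pj e x)) →
      ∀ η : Y → ℝ, ContDiff ℝ 1 η → (∀ y, δ ≤ ‖y‖ → η y = 0) →
      (∫ x, (rho x.1 * chi H T hS.pos (pj e x) * (1 - c1 T H hδ₀ (pj e x))) *
        (η (F x) * Dt om bs (fderiv ℝ F x)) ∂((volume : Measure (Fin b → ℝ)).prod ν))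
        + I0 e L ν bs om η = 0 := by
  obtain ⟨δ₁, hδ₁, ε, hε, htot⟩ := total hS ν hn bs om
  obtain ⟨c, hc, hlow⟩ := lowerL (b := b) hS.smP.continuous L hL
  refine ⟨min δ₁ (c * (δ₀ / 4)), lt_min hδ₁ (by positivity), ε, hε, ?_⟩
  intro S hSs hSp hSG hSL F hF hFU η hη hη0
  have hK := isCompact_KK (T := T) hS.smE hS.inj R
  have hpj : ContDiff ℝ ∞ (pj (T := T) e) := contDiff_pj hS.smE
  have hpjc := hpj.continuous
  have htot1 := htot S hSs hSp hSG F hF (fun x hx => hFU x fun h => hx h.1) η hη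
    (fun y hy => hη0 y ((min_le_left _ _).trans hy))
  have hdF : Continuous (fderiv ℝ F) := hF.continuous_fderiv (by simp)
  have hrc : Continuous fun x : (Fin b → ℝ) × T × W => rho x.1 :=
    (contDiff_rho (b := b)).continuous.comp continuous_fst
  have hχc : Continuous fun x : (Fin b → ℝ) × T × W => chi H T hS.pos (pj e x) :=
    (contDiff_chi hS.pos).continuous.comp hpjc
  have hc1c : Continuous fun x : (Fin b → ℝ) × T × W => c1 T H hδ₀ (pj e x) :=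
    (contDiff_c1 hδ₀).continuous.comp hpjc
  have hLpj : ContDiff ℝ ∞ fun x : (Fin b → ℝ) × T × W => L (pj e x) := L.contDiff.comp hpj
  have hdL : Continuous (fderiv ℝ fun x : (Fin b → ℝ) × T × W => L (pj e x)) :=
    hLpj.continuous_fderiv (by simp)
  -- the two integrands
  let f1 : (Fin b → ℝ) × T × W → ℝ := fun x =>
    (rho x.1 * chi H T hS.pos (pj e x) * (1 - c1 T H hδ₀ (pj e x))) *
      (η (F x) * Dt om bs (fderiv ℝ F x))
  let f2 : (Fin b → ℝ) × T × W → ℝ := fun x =>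
    rho x.1 * c1 T H hδ₀ (pj e x) *
      (η (L (pj e x)) * Dt om bs (fderiv ℝ (fun x => L (pj e x)) x))
  have hmemK : ∀ x : (Fin b → ℝ) × T × W, rho x.1 ≠ 0 → ‖pj e x‖ ≤ R + 1 → x ∈ KK T e R :=
    fun x h1 h2 => ⟨rho_ne h1, h2⟩
  have hi1 : Integrable f1 ((volume : Measure (Fin b → ℝ)).prod ν) := by
    refine Continuous.integrable_of_hasCompactSupport ?_ ?_
    · exact ((hrc.mul hχc).mul (continuous_const.sub hc1c)).mul
        ((hη.continuous.comp hF.continuous).mul (continuous_dt om bs hdF))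
    · refine HasCompactSupport.intro hK fun x hx => ?_
      by_contra h
      have h1 := left_ne_zero_of_mul (left_ne_zero_of_mul h)
      refine hx (hmemK x (left_ne_zero_of_mul h1) ?_)
      by_contra h2
      push Not at h2
      exact right_ne_zero_of_mul h1 (chi_zero hS.pos h2.le)
  have hi2 : Integrable f2 ((volume : Measure (Fin b → ℝ)).prod ν) := by
    refine Continuous.integrable_of_hasCompactSupport ?_ ?_
    · exact (hrc.mul hc1c).mul
        ((hη.continuous.comp hLpj.continuous).mul (continuous_dt om bs hdL))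
    · refine HasCompactSupport.intro hK fun x hx => ?_
      by_contra h
      have h1 := left_ne_zero_of_mul h
      refine hx (hmemK x (left_ne_zero_of_mul h1) ?_)
      by_contra h2
      push Not at h2
      exact right_ne_zero_of_mul h1 (c1_zero hδ₀ (by linarith))
  have hsum : ∀ x, rho x.1 * chi H T hS.pos (pj e x) * (η (F x) * Dt om bs (fderiv ℝ F x))
      = f1 x + f2 x := by
    intro x
    by_cases h0 : c1 T H hδ₀ (pj e x) = 0
    · simp only [f1, f2, h0]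
      ring
    · have h1 : ‖pj e x‖ < δ₀ / 2 := by
        by_contra h
        exact h0 (c1_zero hδ₀ (not_lt.1 h))
      have h2 : F =ᶠ[𝓝 x] fun x => L (pj e x) := by
        filter_upwards [(isOpen_lt hpjc.norm continuous_const).mem_nhds h1] with y hy
        have hy' : ‖pj e y‖ < δ₀ / 2 := hy
        rw [hFU y (fun h => absurd h.2 (not_lt.2 hy'.le)), hSL _ _ hy'.le]
      have h3 : F x = L (pj e x) := h2.self_of_nhds
      simp only [f1, f2]
      rw [← h2.fderiv_eq, ← h3, chi_one hS.pos (by linarith)]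
      ring
  have hI : ∫ x, f2 x ∂((volume : Measure (Fin b → ℝ)).prod ν) = I0 e L ν bs om η := by
    refine integral_congr_ae (Eventually.of_forall fun x => ?_)
    show rho x.1 * c1 T H hδ₀ (pj e x) *
        (η (L (pj e x)) * Dt om bs (fderiv ℝ (fun x => L (pj e x)) x))
      = rho x.1 * (η (L (pj e x)) * Dt om bs (fderiv ℝ (fun x => L (pj e x)) x))
    by_cases h0 : rho x.1 = 0
    · rw [h0]
      ring
    by_cases h1 : η (L (pj e x)) = 0
    · rw [h1]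
      ring
    have h2 : ‖L (pj e x)‖ < c * (δ₀ / 4) := by
      by_contra h
      exact h1 (hη0 _ ((min_le_right _ _).trans (not_lt.1 h)))
    have h3 := hlow x.1 (pj e x) (cube_norm (rho_ne h0)) (hS.Pe _ _)
    have h4 : ‖pj e x‖ < δ₀ / 4 := by
      by_contra h
      push Not at h
      have : c * (δ₀ / 4) ≤ c * ‖pj e x‖ := by gcongr
      linarith
    rw [c1_one hδ₀ h4.le]
    ring
  simp only [hsum] at htot1
  rw [integral_add hi1 hi2, hI] at htot1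
  exact htot1

/-- **no other zero** -/
theorem sec_zero {P : (Fin b → ℝ) → H →L[ℂ] H} {e : (Fin b → ℝ) → W →L[ℂ] H}
    {G : T × (Fin b → ℝ) × H → Y} {V : Y} {R : ℝ} (hS : Sys b m P e G V R)
    (L : T × H →L[ℝ] Y) {δ₀ : ℝ} (hδ₀ : 0 < δ₀) (hδR : δ₀ < R)
    (hL : ∀ h t ψ, P h ψ = ψ → L (t, ψ) = 0 → t = 0 ∧ ψ = 0)
    (hlin : ∀ t h ψ, ‖t‖ ≤ δ₀ → ‖ψ‖ ≤ δ₀ → G (t, h, ψ) = L (t, ψ))
    (hz : ∀ t h ψ, P h ψ = ψ → G (t, h, ψ) = 0 → t = 0 ∧ ψ = 0)
    (ν : Measure (T × W)) [ν.IsAddHaarMeasure] {n : ℕ} (hn : finrank ℝ Y = n + 1)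
    (bs : Basis (Fin (n + 1)) ℝ ((Fin b → ℝ) × T × W)) (om : Y [⋀^Fin (n + 1)]→L[ℝ] ℝ) :
    ∃ δ > 0, ∀ η : Y → ℝ, ContDiff ℝ 1 η → (∀ y, δ ≤ ‖y‖ → η y = 0) →
      I0 e L ν bs om η = 0 := by
  obtain ⟨δ, hδ, ε, hε, hsp⟩ := split hS L hδ₀ hδR hL ν hn bs om
  have hK := isCompact_KK (T := T) hS.smE hS.inj R
  have hpjc : Continuous (pj (T := T) e) := (contDiff_pj hS.smE).continuous
  let K1 : Set ((Fin b → ℝ) × T × W) := KK T e R ∩ {x | δ₀ / 4 ≤ ‖pj e x‖}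
  have hK1 : IsCompact K1 := hK.inter_right (isClosed_le continuous_const hpjc.norm)
  let F₀ : (Fin b → ℝ) × T × W → Y := fun x => G (x.2.1, x.1, e x.1 x.2.2)
  have hF₀ : Continuous F₀ := by
    refine hS.cG.comp ?_
    exact (continuous_fst.comp continuous_snd).prodMk
      (continuous_fst.prodMk (continuous_snd.comp hpjc))
  obtain ⟨d, hd, hdl⟩ : ∃ d > 0, ∀ x ∈ K1, 2 * d ≤ ‖F₀ x‖ := by
    rcases K1.eq_empty_or_nonempty with h0 | hne
    · refine ⟨1, one_pos, fun x hx => ?_⟩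
      rw [h0] at hx
      exact absurd hx (notMem_empty x)
    · obtain ⟨x₀, hx₀, hmin⟩ := hK1.exists_isMinOn hne hF₀.norm.continuousOn
      have hpos : 0 < ‖F₀ x₀‖ := by
        rw [norm_pos_iff]
        intro h0
        obtain ⟨h1, h2⟩ := hz _ _ _ (hS.Pe _ _) h0
        have h3 : δ₀ / 4 ≤ ‖pj e x₀‖ := hx₀.2
        have h4 : pj e x₀ = 0 := Prod.ext h1 h2
        rw [h4, norm_zero] at h3
        linarith
      refine ⟨‖F₀ x₀‖ / 2, by positivity, fun x hx => ?_⟩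
      have : ‖F₀ x₀‖ ≤ ‖F₀ x‖ := hmin hx
      linarith
  obtain ⟨S, hSs, hSp, hSG, hSL⟩ := approx hS L hδ₀ hlin (lt_min hε hd)
  refine ⟨min δ d, lt_min hδ hd, fun η hη hη0 => ?_⟩
  have hFs : ContDiff ℝ ∞ fun x : (Fin b → ℝ) × T × W => S x.1 (pj e x) :=
    hSs.comp (contDiff_fst.prodMk (contDiff_pj hS.smE))
  have h1 := hsp S hSs hSp (fun x hx => (hSG x hx).trans_le (min_le_left _ _)) hSL
    (fun x => S x.1 (pj e x)) hFs (fun x _ => rfl) η hη
    (fun y hy => hη0 y ((min_le_left _ _).trans hy))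
  have h2 : ∀ x : (Fin b → ℝ) × T × W,
      (rho x.1 * chi H T hS.pos (pj e x) * (1 - c1 T H hδ₀ (pj e x))) *
        (η (S x.1 (pj e x)) * Dt om bs (fderiv ℝ (fun x => S x.1 (pj e x)) x)) = 0 := by
    intro x
    by_contra h
    have h3 := left_ne_zero_of_mul h
    have h4 := left_ne_zero_of_mul h3
    have h5 : x ∈ KK T e R := by
      refine ⟨rho_ne (left_ne_zero_of_mul h4), ?_⟩
      by_contra h6
      push Not at h6
      exact right_ne_zero_of_mul h4 (chi_zero hS.pos h6.le)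
    have h6 : δ₀ / 4 ≤ ‖pj e x‖ := by
      by_contra h7
      push Not at h7
      exact right_ne_zero_of_mul h3 (by rw [c1_one hδ₀ h7.le, sub_self])
    have h7 := hdl x ⟨h5, h6⟩
    have h8 : ‖S x.1 (pj e x) - F₀ x‖ < d := (hSG x h5).trans_le (min_le_right _ _)
    have h9 : d ≤ ‖S x.1 (pj e x)‖ := by
      have h10 : ‖F₀ x‖ ≤ ‖S x.1 (pj e x)‖ + ‖S x.1 (pj e x) - F₀ x‖ := by
        have := norm_sub_le (S x.1 (pj e x)) (S x.1 (pj e x) - F₀ x)
        rwa [sub_sub_cancel] at this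
      linarith
    exact left_ne_zero_of_mul (right_ne_zero_of_mul h)
      (hη0 _ ((min_le_right _ _).trans h9))
  simp only [h2, integral_zero, zero_add] at h1
  exact h1

/-- **one more, nondegenerate zero** -/
theorem sec_ne {P : (Fin b → ℝ) → H →L[ℂ] H} {e : (Fin b → ℝ) → W →L[ℂ] H}
    {G : T × (Fin b → ℝ) × H → Y} {V : Y} {R : ℝ} (hS : Sys b m P e G V R)
    (L : T × H →L[ℝ] Y) {δ₀ : ℝ} (hδ₀ : 0 < δ₀) (hδR : δ₀ < R)
    (hL : ∀ h t ψ, P h ψ = ψ → L (t, ψ) = 0 → t = 0 ∧ ψ = 0)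
    (hlin : ∀ t h ψ, ‖t‖ ≤ δ₀ → ‖ψ‖ ≤ δ₀ → G (t, h, ψ) = L (t, ψ))
    (t₀ : T) (ψ₀ : H) (hbig : δ₀ < ‖((t₀, ψ₀) : T × H)‖) (ht : ‖t₀‖ < R) (hψ : ‖ψ₀‖ < R)
    (hPψ : P 0 ψ₀ = ψ₀) (hG0 : G (t₀, 0, ψ₀) = 0)
    (hz : ∀ t h ψ, P h ψ = ψ → (∀ j, |h j| ≤ 3 / 4) → G (t, h, ψ) = 0 →
      (t = 0 ∧ ψ = 0) ∨ (t = t₀ ∧ h = 0 ∧ ψ = ψ₀))
    (L' : T × (Fin b → ℝ) × H →L[ℝ] Y)
    (hL' : HasFDerivAt (fun x : T × (Fin b → ℝ) × H => G (x.1, x.2.1, P x.2.1 x.2.2)) L'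
      (t₀, 0, ψ₀))
    (hLi : ∀ τ κ ξ, P 0 ξ = ξ → L' (τ, κ, ξ) = 0 → τ = 0 ∧ κ = 0 ∧ ξ = 0)
    (ν : Measure (T × W)) [ν.IsAddHaarMeasure] {n : ℕ} (hn : finrank ℝ Y = n + 1)
    (bs : Basis (Fin (n + 1)) ℝ ((Fin b → ℝ) × T × W)) (om : Y [⋀^Fin (n + 1)]→L[ℝ] ℝ)
    (hom : om ≠ 0) :
    ∃ δ > 0, ∀ η : Y → ℝ, ContDiff ℝ 1 η → (∀ y, 0 ≤ η y) → 0 < η 0 →
      (∀ y, δ ≤ ‖y‖ → η y = 0) → I0 e L ν bs om η ≠ 0 := by
  classical
  obtain ⟨δ, hδ, ε, hε, hsp⟩ := split hS L hδ₀ hδR hL ν hn bs om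
  have hK := isCompact_KK (T := T) hS.smE hS.inj R
  have hpj : ContDiff ℝ ∞ (pj (T := T) e) := contDiff_pj hS.smE
  have hpjc := hpj.continuous
  obtain ⟨D, hD⟩ := Frame_143.exists_inv (P := P) (e := e) hS.smP (fun h => by
    rw [hS.fW]; exact hS.rank h) hS.smE hS.Pe
  set w₀ : W := D 0 ψ₀ with hw₀
  have hew₀ : e 0 w₀ = ψ₀ := by
    rw [hw₀, (hD 0 (hS.inj 0 (by simp))).2.2 ψ₀, hPψ]
  let p : (Fin b → ℝ) × T × W := (0, t₀, w₀)
  have hpp : pj e p = (t₀, ψ₀) := by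
    show ((t₀, e 0 w₀) : T × H) = _
    rw [hew₀]
  let K1 : Set ((Fin b → ℝ) × T × W) := KK T e R ∩ {x | δ₀ / 4 ≤ ‖pj e x‖}
  have hK1 : IsCompact K1 := hK.inter_right (isClosed_le continuous_const hpjc.norm)
  let F₀ : (Fin b → ℝ) × T × W → Y := fun x => G (x.2.1, x.1, e x.1 x.2.2)
  have hF₀ : Continuous F₀ := by
    refine hS.cG.comp ?_
    exact (continuous_fst.comp continuous_snd).prodMk
      (continuous_fst.prodMk (continuous_snd.comp hpjc))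
  let U1 : Set ((Fin b → ℝ) × T × W) := UU T e R ∩ {x | δ₀ / 2 < ‖pj e x‖}
  have hU1 : U1 ∈ 𝓝 p := by
    have h1 : IsOpen U1 := ((isOpen_lt continuous_fst.norm continuous_const).inter
      (isOpen_lt hpjc.norm continuous_const)).inter (isOpen_lt continuous_const hpjc.norm)
    refine h1.mem_nhds ⟨⟨?_, ?_⟩, ?_⟩
    · show ‖(0 : Fin b → ℝ)‖ < 1 / 8
      rw [norm_zero]
      norm_num
    · show ‖pj e p‖ < R
      rw [hpp, Prod.norm_def]
      exact max_lt ht hψ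
    · show δ₀ / 2 < ‖pj e p‖
      rw [hpp]
      linarith
  -- the derivative at `p`
  obtain ⟨C, hC, hCf⟩ := hasFDerivAt_pj (T := T) hS.smE p
  let C3 : (Fin b → ℝ) × T × W →L[ℝ] T × (Fin b → ℝ) × H :=
    ((ContinuousLinearMap.fst ℝ T H).comp C).prod
      ((ContinuousLinearMap.fst ℝ _ _).prod ((ContinuousLinearMap.snd ℝ T H).comp C))
  have hC3 : HasFDerivAt (fun x : (Fin b → ℝ) × T × W =>
      (((pj e x).1, x.1, (pj e x).2) : T × (Fin b → ℝ) × H)) C3 p :=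
    (hC.fst).prodMk (hasFDerivAt_fst.prodMk hC.snd)
  have hL0 : HasFDerivAt F₀ (L'.comp C3) p := by
    have h1 : F₀ = (fun x : T × (Fin b → ℝ) × H => G (x.1, x.2.1, P x.2.1 x.2.2)) ∘
        (fun x : (Fin b → ℝ) × T × W =>
          (((pj e x).1, x.1, (pj e x).2) : T × (Fin b → ℝ) × H)) := by
      funext x
      show G (x.2.1, x.1, e x.1 x.2.2) = G (x.2.1, x.1, P x.1 (e x.1 x.2.2))
      rw [hS.Pe]
    rw [h1]
    refine HasFDerivAt.comp p ?_ hC3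
    rw [hpp]
    exact hL'
  have hLP : ∀ ξ, L' (0, 0, ξ - P 0 ξ) = 0 := by
    intro ξ
    let ln : ℝ → T × (Fin b → ℝ) × H := fun s => (t₀, 0, ψ₀) + s • (0, 0, ξ - P 0 ξ)
    have h1 : HasDerivAt ln (0, 0, ξ - P 0 ξ) 0 := by
      have h2 := ((hasDerivAt_id (0 : ℝ)).smul_const
        ((0, 0, ξ - P 0 ξ) : T × (Fin b → ℝ) × H)).const_add (t₀, 0, ψ₀)
      rw [one_smul] at h2
      exact h2
    have h3 : HasDerivAt (fun s => G ((ln s).1, (ln s).2.1, P (ln s).2.1 (ln s).2.2))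
        (L' (0, 0, ξ - P 0 ξ)) 0 := by
      have h4 : ln 0 = (t₀, 0, ψ₀) := by simp [ln]
      have h5 := hL'
      rw [← h4] at h5
      exact h5.comp_hasDerivAt 0 h1
    have h6 : (fun s => G ((ln s).1, (ln s).2.1, P (ln s).2.1 (ln s).2.2))
        = fun _ => G (t₀, 0, ψ₀) := by
      funext s
      have h7 : ln s = (t₀, 0, ψ₀ + s • (ξ - P 0 ξ)) := by simp [ln]
      rw [h7]
      show G (t₀, 0, P 0 (ψ₀ + s • (ξ - P 0 ξ))) = _
      congr 3
      rw [map_add, hPψ, (P 0).map_smul_of_tower, map_sub, hS.idem, sub_self, smul_zero, add_zero]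
    rw [h6] at h3
    exact h3.unique (hasDerivAt_const _ _)
  have hinjL : Function.Injective (L'.comp C3) := by
    rw [injective_iff_map_eq_zero]
    rintro ⟨κ, τ, ww⟩ h0
    have h1 : L' (τ, κ, fderiv ℝ (eR e) p.1 κ p.2.2 + e p.1 ww) = 0 := by
      have h2 : C3 (κ, τ, ww) = (τ, κ, fderiv ℝ (eR e) p.1 κ p.2.2 + e p.1 ww) := by
        show ((C (κ, τ, ww)).1, κ, (C (κ, τ, ww)).2) = _
        rw [hCf]
      rw [← h2]
      exact h0
    set ξ : H := fderiv ℝ (eR e) p.1 κ p.2.2 + e p.1 ww with hξ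
    have h2 : L' (τ, κ, P 0 ξ) = 0 := by
      have h3 : ((τ, κ, ξ) : T × (Fin b → ℝ) × H) = (τ, κ, P 0 ξ) + (0, 0, ξ - P 0 ξ) := by
        simp
      rw [h3, map_add, hLP, add_zero] at h1
      exact h1
    obtain ⟨h4, h5, h6⟩ := hLi τ κ (P 0 ξ) (hS.idem 0 ξ) h2
    have h7 : ξ = e 0 ww := by
      rw [hξ, h5, map_zero]
      show (0 : W →L[ℝ] H) w₀ + e 0 ww = e 0 ww
      rw [_root_.zero_apply, zero_add]
    rw [h7, hS.Pe] at h6
    have h8 : ww = 0 := (injective_iff_map_eq_zero (e 0)).1 (hS.inj 0 (by simp)) ww h6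
    rw [h4, h5, h8]
    rfl
  have hne : ∀ x ∈ K1, F₀ x = 0 → x = p := by
    rintro x ⟨⟨hx1, hx2⟩, hx3⟩ hx
    rcases hz x.2.1 x.1 (e x.1 x.2.2) (hS.Pe _ _) hx1 hx with ⟨h1, h2⟩ | ⟨h1, h2, h3⟩
    · exfalso
      have h4 : δ₀ / 4 ≤ ‖pj e x‖ := hx3
      have h5 : pj e x = 0 := Prod.ext h1 h2
      rw [h5, norm_zero] at h4
      linarith
    · have h4 : x.2.2 = w₀ := by
        refine hS.inj 0 (by simp) ?_
        rw [hew₀, ← h3, h2]
      exact Prod.ext h2 (Prod.ext h1 h4)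
  have hμ : ((volume : Measure (Fin b → ℝ)).prod ν).IsAddHaarMeasure := by
    have hpT : ProperSpace T := FiniteDimensional.proper ℝ T
    have hpW : ProperSpace W := FiniteDimensional.proper ℂ W
    have h1 : SFinite ν := inferInstance
    have h2 : SFinite (volume : Measure (Fin b → ℝ)) := inferInstance
    have h4 : MeasurableAdd (T × W) := inferInstance
    have h5 : MeasurableAdd (Fin b → ℝ) := inferInstance
    have h6 : (volume : Measure (Fin b → ℝ)).IsAddHaarMeasure := inferInstance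
    exact Measure.prod.instIsAddHaarMeasure _ _
  obtain ⟨δ₁, hδ₁, hloc⟩ := DgLoc_143.local_ne
    ((volume : Measure (Fin b → ℝ)).prod ν) F₀ hF₀ p (L'.comp C3) hL0 (by
    show G (t₀, 0, e 0 w₀) = 0
    rw [hew₀]
    exact hG0) hinjL K1 hK1 U1 hU1 hne
  obtain ⟨S, hSs, hSp, hSG, hSL⟩ := approx hS L hδ₀ hlin (lt_min hε hδ₁)
  have hFs : ContDiff ℝ ∞ fun x : (Fin b → ℝ) × T × W => S x.1 (pj e x) :=
    hSs.comp (contDiff_fst.prodMk hpj)
  obtain ⟨F, hF, hFU, hint⟩ := hloc (fun x => S x.1 (pj e x)) hFs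
    (fun x hx => (hSG x hx.1).trans_le (min_le_right _ _))
  refine ⟨min δ δ₁, lt_min hδ hδ₁, fun η hη hηn hη1 hη0 => ?_⟩
  have h1 := hsp S hSs hSp (fun x hx => (hSG x hx).trans_le (min_le_left _ _)) hSL
    F hF hFU η hη (fun y hy => hη0 y ((min_le_left _ _).trans hy))
  have h2 := hint (Dt om bs) (dt_ne bs om hom hn _ hinjL) η hη.continuous hηn hη1
    (fun y hy => hη0 y ((min_le_right _ _).trans hy))
    (fun x => rho x.1 * chi H T hS.pos (pj e x) * (1 - c1 T H hδ₀ (pj e x)))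
    (((((contDiff_rho (b := b)).continuous.comp continuous_fst)).mul
      ((contDiff_chi hS.pos).continuous.comp hpjc)).mul
        (continuous_const.sub ((contDiff_c1 hδ₀).continuous.comp hpjc)))
    (by
      rintro x ⟨⟨hx1, hx2⟩, hx3⟩
      have h3 : rho x.1 = 1 := rho_one fun j => by
        have := norm_le_pi_norm x.1 j
        rw [Real.norm_eq_abs] at this
        linarith
      have h4 : δ₀ / 2 < ‖pj e x‖ := hx3
      show rho x.1 * chi H T hS.pos (pj e x) * (1 - c1 T H hδ₀ (pj e x)) = 1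
      rw [h3, chi_one hS.pos hx2.le, c1_zero hδ₀ h4.le]
      ring)
    (by
      intro x hx
      by_contra h
      have h3 := left_ne_zero_of_mul h
      refine hx ⟨⟨rho_ne (left_ne_zero_of_mul h3), ?_⟩, ?_⟩
      · by_contra h4
        push Not at h4
        exact right_ne_zero_of_mul h3 (chi_zero hS.pos h4.le)
      · by_contra h4
        have h5 : ‖pj e x‖ < δ₀ / 4 := not_le.1 h4
        exact right_ne_zero_of_mul h (by rw [c1_one hδ₀ h5.le, sub_self]))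
  intro h3
  rw [h3, add_zero] at h1
  exact h2 h1

end Crest.Agent.R235.FdsS_778
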