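import Mathlib

/-!
Row 235 (S0364), block FAM-FDS (helper778): the cut-off function of a segment,
`ζ (y) = ∫_0^S η (y - s V) ds`, `∂_V ζ (y) = η (y) - η (y - S V)`.
-/

set_option autoImplicit false

open MeasureTheory Set Filter Topology Module
open scoped ContDiff

noncomputable section

namespace Crest.Agent.R235.FdsZ_778

theorem exists_seg {Y : Type*} [NormedAddCommGroup Y] [NormedSpace ℝ Y]
    (V : Y) (η : Y → ℝ) (hη : ContDiff ℝ 1 η) (hc : HasCompactSupport η) {S : ℝ} (hS : 0 ≤ S) :
    ∃ ζ : Y → ℝ, ContDiff ℝ 1 ζ ∧ (∀ y, fderiv ℝ ζ y V = η y - η (y - S • V)) ∧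
      ∀ y, ζ y ≠ 0 → ∃ s ∈ Icc 0 S, η (y - s • V) ≠ 0 := by
  let ζ : Y → ℝ := fun y => ∫ s in (0 : ℝ)..S, η (y - s • V)
  let D : Y → Y →L[ℝ] ℝ := fun y => ∫ s in (0 : ℝ)..S, fderiv ℝ η (y - s • V)
  have hdη : Continuous (fderiv ℝ η) := hη.continuous_fderiv one_ne_zero
  have hpc : Continuous fun q : Y × ℝ => q.1 - q.2 • V :=
    continuous_fst.sub (continuous_snd.smul continuous_const)
  obtain ⟨C, hC⟩ : ∃ C, ∀ y, ‖fderiv ℝ η y‖ ≤ C :=
    hdη.bounded_above_of_compact_support (hc.fderiv ℝ)
  have hD : ∀ y, HasFDerivAt ζ (D y) y := by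
    intro y
    refine intervalIntegral.hasFDerivAt_integral_of_dominated_of_fderiv_le (μ := volume)
      (F := fun y s => η (y - s • V)) (F' := fun y s => fderiv ℝ η (y - s • V))
      (bound := fun _ => C) (s := univ) univ_mem ?_ ?_ ?_ ?_ ?_ ?_
    · refine Eventually.of_forall fun y => ?_
      exact ((hη.continuous.comp (hpc.comp (Continuous.prodMk_right y)))).aestronglyMeasurable
    · exact ((hη.continuous.comp (hpc.comp (Continuous.prodMk_right y)))).intervalIntegrable _ _
    · exact ((hdη.comp (hpc.comp (Continuous.prodMk_right y)))).aestronglyMeasurable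
    · exact Eventually.of_forall fun s _ y _ => hC _
    · exact intervalIntegrable_const
    · refine Eventually.of_forall fun s _ y _ => ?_
      have h1 : HasFDerivAt (fun y : Y => y - s • V) (ContinuousLinearMap.id ℝ Y) y :=
        (hasFDerivAt_id y).sub_const _
      have h2 := HasFDerivAt.comp y (g := η)
        (hη.differentiable one_ne_zero (y - s • V)).hasFDerivAt h1
      rw [ContinuousLinearMap.comp_id] at h2
      exact h2
  have hDc : Continuous D :=
    intervalIntegral.continuous_parametric_intervalIntegral_of_continuous'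
      (f := fun y s => fderiv ℝ η (y - s • V)) (hdη.comp hpc) 0 S
  refine ⟨ζ, ?_, ?_, ?_⟩
  · rw [contDiff_one_iff_fderiv]
    refine ⟨fun y => (hD y).differentiableAt, ?_⟩
    have : fderiv ℝ ζ = D := by
      funext y
      exact (hD y).fderiv
    rw [this]
    exact hDc
  · intro y
    rw [(hD y).fderiv]
    have h1 : D y V = ∫ s in (0 : ℝ)..S, fderiv ℝ η (y - s • V) V := by
      show (∫ s in (0 : ℝ)..S, fderiv ℝ η (y - s • V)) V = _
      rw [ContinuousLinearMap.intervalIntegral_apply]
      exact ((hdη.comp (hpc.comp (Continuous.prodMk_right y)))).intervalIntegrable _ _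
    rw [h1]
    have h2 : ∀ s : ℝ, HasDerivAt (fun s : ℝ => -η (y - s • V)) (fderiv ℝ η (y - s • V) V) s := by
      intro s
      have h3 : HasDerivAt (fun s : ℝ => y - s • V) (-V) s := by
        have := ((hasDerivAt_id s).smul_const V).const_sub y
        simpa using this
      have h4 := ((hη.differentiable one_ne_zero (y - s • V)).hasFDerivAt.comp_hasDerivAt s h3).neg
      rw [map_neg, neg_neg] at h4
      exact h4
    rw [intervalIntegral.integral_eq_sub_of_hasDerivAt (fun s _ => h2 s)]
    · rw [zero_smul, sub_zero]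
      ring
    · refine Continuous.intervalIntegrable ?_ _ _
      exact (hdη.comp (hpc.comp (Continuous.prodMk_right y))).clm_apply continuous_const
  · intro y hy
    by_contra hcon
    push Not at hcon
    apply hy
    show ∫ s in (0 : ℝ)..S, η (y - s • V) = 0
    refine intervalIntegral.integral_zero_ae (Eventually.of_forall fun s hs => ?_)
    rw [uIoc_of_le hS] at hs
    exact hcon s ⟨hs.1.le, hs.2⟩

end Crest.Agent.R235.FdsZ_778
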