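import Crest.Agent.R235.DgInv_778
import Crest.Agent.R235.FdJa_778
import Crest.Agent.R235.FdsZ_778
import Crest.Agent.R235.DgSmo_936
import Crest.Agent.R235.DgLoc_143
import Crest.Agent.R235.Frame_143
import Crest.Agent.R235.Frame_936

/-!
Row 235 (S0364), block FAM-FDS (helper778): the degree identity over the torus with arbitrary test
functions.

`Sys` : the data of a continuous periodic map `G : T × R^b × H → Y` which avoids the ray `{s V}`
outside a compact set of the bundle `E_h = range (P h) = e h (W)`.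

`total` : for every smooth `F` which is, outside a neighbourhood `UU` of `θ = 0`, a smooth periodic
approximation of `G`, and every test function `η` of small support:
`∫ rho χ η(F) Dt(dF) = 0`.
-/

set_option autoImplicit false

open MeasureTheory Set Filter Topology Module
open scoped ContDiff

noncomputable section

namespace Crest.Agent.R235.FdsT_778

open DgStk_778 DgTri_778 DgInv_778 FdJa_778

variable {T H Y W : Type*} [NormedAddCommGroup T] [NormedSpace ℝ T]
  [NormedAddCommGroup H] [NormedSpace ℂ H]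
  [NormedAddCommGroup Y] [NormedSpace ℝ Y]
  [NormedAddCommGroup W] [NormedSpace ℂ W] {b m : ℕ}

/-- the projection of the total space to `T × H` -/
def pj (e : (Fin b → ℝ) → W →L[ℂ] H) (x : (Fin b → ℝ) × T × W) : T × H := (x.2.1, e x.1 x.2.2)

/-- real restriction of the frame -/
def eR (e : (Fin b → ℝ) → W →L[ℂ] H) (θ : Fin b → ℝ) : W →L[ℝ] H :=
  ContinuousLinearMap.restrictScalarsL ℂ W H ℝ ℝ (e θ)

theorem contDiff_eR {e : (Fin b → ℝ) → W →L[ℂ] H} (he : ContDiff ℝ ∞ e) :
    ContDiff ℝ ∞ (eR e) :=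
  (ContinuousLinearMap.restrictScalarsL ℂ W H ℝ ℝ).contDiff.comp he

theorem contDiff_pj {e : (Fin b → ℝ) → W →L[ℂ] H} (he : ContDiff ℝ ∞ e) :
    ContDiff ℝ ∞ (pj (T := T) e) := by
  have h1 : ContDiff ℝ ∞ fun x : (Fin b → ℝ) × T × W => eR e x.1 x.2.2 :=
    ((contDiff_eR he).comp contDiff_fst).clm_apply (contDiff_snd.comp contDiff_snd)
  exact (contDiff_fst.comp contDiff_snd).prodMk h1

/-- derivative of `pj` -/
theorem hasFDerivAt_pj {e : (Fin b → ℝ) → W →L[ℂ] H} (he : ContDiff ℝ ∞ e)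
    (x : (Fin b → ℝ) × T × W) : ∃ (C : (Fin b → ℝ) × T × W →L[ℝ] T × H),
      HasFDerivAt (pj (T := T) e) C x ∧
      ∀ κ τ w, C (κ, τ, w) = (τ, fderiv ℝ (eR e) x.1 κ x.2.2 + e x.1 w) := by
  have h2 : HasFDerivAt (fun x : (Fin b → ℝ) × T × W => eR e x.1)
      ((fderiv ℝ (eR e) x.1).comp (ContinuousLinearMap.fst ℝ _ _)) x :=
    HasFDerivAt.comp x (g := eR e)
      (((contDiff_eR he).differentiable (by simp) x.1).hasFDerivAt) hasFDerivAt_fst
  have h3 : HasFDerivAt (fun x : (Fin b → ℝ) × T × W => x.2.2)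
      ((ContinuousLinearMap.snd ℝ T W).comp
        (ContinuousLinearMap.snd ℝ (Fin b → ℝ) (T × W))) x :=
    hasFDerivAt_snd.comp x hasFDerivAt_snd
  have h4 : HasFDerivAt (fun x : (Fin b → ℝ) × T × W => x.2.1)
      ((ContinuousLinearMap.fst ℝ T W).comp
        (ContinuousLinearMap.snd ℝ (Fin b → ℝ) (T × W))) x :=
    hasFDerivAt_fst.comp x hasFDerivAt_snd
  refine ⟨_, h4.prodMk (h2.clm_apply h3), fun κ τ ww => ?_⟩
  simp only [ContinuousLinearMap.prod_apply, ContinuousLinearMap.comp_apply,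
    ContinuousLinearMap.coe_fst', ContinuousLinearMap.coe_snd', _root_.add_apply,
    ContinuousLinearMap.flip_apply]
  refine Prod.ext rfl ?_
  show e x.1 ww + _ = _
  rw [add_comm]

/-- the compact region -/
def KK (T : Type*) [NormedAddCommGroup T] (e : (Fin b → ℝ) → W →L[ℂ] H) (R : ℝ) :
    Set ((Fin b → ℝ) × T × W) :=
  {x | (∀ j, |x.1 j| ≤ 3 / 4) ∧ ‖pj e x‖ ≤ R + 1}

/-- the region where the map may be modified -/
def UU (T : Type*) [NormedAddCommGroup T] (e : (Fin b → ℝ) → W →L[ℂ] H) (R : ℝ) :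
    Set ((Fin b → ℝ) × T × W) :=
  {x | ‖x.1‖ < 1 / 8 ∧ ‖pj e x‖ < R}

theorem cube_norm {θ : Fin b → ℝ} (h : ∀ j, |θ j| ≤ 3 / 4) : ‖θ‖ ≤ 3 / 4 :=
  (pi_norm_le_iff_of_nonneg (by norm_num)).2 h

theorem isCompact_KK [FiniteDimensional ℝ T] [FiniteDimensional ℂ W]
    {e : (Fin b → ℝ) → W →L[ℂ] H} (he : ContDiff ℝ ∞ e)
    (hi : ∀ θ : Fin b → ℝ, ‖θ‖ ≤ 2 → Function.Injective (e θ)) (R : ℝ) : IsCompact (KK T e R) := by
  have hpT : ProperSpace T := FiniteDimensional.proper ℝ T
  have hpW : ProperSpace W := FiniteDimensional.proper ℂ W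
  have hpjc : Continuous (pj (T := T) e) := (contDiff_pj he).continuous
  obtain ⟨c, hc, hlow⟩ := lower_bound (Metric.closedBall (0 : Fin b → ℝ) (3 / 4))
    (isCompact_closedBall _ _) e he.continuous (fun θ hθ => hi θ (by
      have := mem_closedBall_zero_iff.1 hθ
      linarith))
  have hKc : IsClosed (KK T e R) := by
    have h1 : KK T e R = (⋂ j, {x : (Fin b → ℝ) × T × W | |x.1 j| ≤ 3 / 4}) ∩
        {x | ‖pj e x‖ ≤ R + 1} := by
      ext x; simp [KK]
    rw [h1]
    refine IsClosed.inter ?_ (isClosed_le hpjc.norm continuous_const)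
    exact isClosed_iInter fun j =>
      isClosed_le (((continuous_apply j).comp continuous_fst).abs) continuous_const
  refine IsCompact.of_isClosed_subset
    ((isCompact_closedBall (0 : Fin b → ℝ) (3 / 4)).prod
      ((isCompact_closedBall (0 : T) (R + 1)).prod
        (isCompact_closedBall (0 : W) ((R + 1) / c)))) hKc ?_
  rintro x ⟨h1, h2⟩
  have h3 : x.1 ∈ Metric.closedBall (0 : Fin b → ℝ) (3 / 4) := by simpa using cube_norm h1
  refine ⟨h3, ?_, ?_⟩
  · rw [mem_closedBall_zero_iff]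
    exact (norm_fst_le (pj e x)).trans h2
  · rw [mem_closedBall_zero_iff, le_div_iff₀ hc, mul_comm]
    exact (hlow x.1 h3 x.2.2).trans ((norm_snd_le (pj e x)).trans h2)

/-- the data -/
structure Sys (b m : ℕ) (P : (Fin b → ℝ) → H →L[ℂ] H) (e : (Fin b → ℝ) → W →L[ℂ] H)
    (G : T × (Fin b → ℝ) × H → Y) (V : Y) (R : ℝ) : Prop where
  smP : ContDiff ℝ ∞ P
  perP : ∀ (h : Fin b → ℝ) (k : Fin b → ℤ), P (fun i => h i + k i) = P h
  idem : ∀ h x, P h (P h x) = P h x
  rank : ∀ h, finrank ℂ (LinearMap.range (P h : H →ₗ[ℂ] H)) = m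
  smE : ContDiff ℝ ∞ e
  Pe : ∀ h z, P h (e h z) = e h z
  inj : ∀ θ : Fin b → ℝ, ‖θ‖ ≤ 2 → Function.Injective (e θ)
  fW : finrank ℂ W = m
  dim : finrank ℝ T + b + 2 * m = finrank ℝ Y
  cG : Continuous G
  pG : ∀ t h ψ (k : Fin b → ℤ), G (t, fun i => h i + k i, ψ) = G (t, h, ψ)
  vne : V ≠ 0
  pos : 0 < R
  ray : ∀ t h ψ, P h ψ = ψ → (R ≤ ‖t‖ ∨ R ≤ ‖ψ‖) → ∀ s : ℝ, 0 ≤ s → G (t, h, ψ) ≠ s • V

variable [FiniteDimensional ℝ T] [FiniteDimensional ℂ H]

/-- the cut-off function of the compact region -/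
def chi (H : Type*) [NormedAddCommGroup H] [NormedSpace ℂ H] [FiniteDimensional ℂ H]
    (T : Type*) [NormedAddCommGroup T] [NormedSpace ℝ T] [FiniteDimensional ℝ T]
    {R : ℝ} (hR : 0 < R) (y : T × H) : ℝ :=
  (⟨R, R + 1, hR, by linarith⟩ : ContDiffBump (0 : T × H)) y

theorem contDiff_chi {R : ℝ} (hR : 0 < R) : ContDiff ℝ ∞ (chi H T hR) :=
  ContDiffBump.contDiff _

theorem chi_one {R : ℝ} (hR : 0 < R) {y : T × H} (hy : ‖y‖ ≤ R) : chi H T hR y = 1 :=
  ContDiffBump.one_of_mem_closedBall _ (by simpa using hy)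

theorem chi_zero {R : ℝ} (hR : 0 < R) {y : T × H} (hy : R + 1 ≤ ‖y‖) : chi H T hR y = 0 :=
  ContDiffBump.zero_of_le_dist _ (by rw [dist_zero_right]; exact hy)

variable [FiniteDimensional ℂ W]
  [FiniteDimensional ℝ Y] [MeasurableSpace T] [BorelSpace T] [MeasurableSpace W] [BorelSpace W]

theorem total {P : (Fin b → ℝ) → H →L[ℂ] H} {e : (Fin b → ℝ) → W →L[ℂ] H}
    {G : T × (Fin b → ℝ) × H → Y} {V : Y} {R : ℝ} (hS : Sys b m P e G V R)
    (ν : Measure (T × W)) [ν.IsAddHaarMeasure] {n : ℕ} (hn : finrank ℝ Y = n + 1)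
    (bs : Basis (Fin (n + 1)) ℝ ((Fin b → ℝ) × T × W)) (om : Y [⋀^Fin (n + 1)]→L[ℝ] ℝ) :
    ∃ δ > 0, ∃ ε > 0, ∀ S : (Fin b → ℝ) → T × H → Y,
      ContDiff ℝ ∞ (fun x : (Fin b → ℝ) × (T × H) => S x.1 x.2) →
      (∀ (k : Fin b → ℤ) (h : Fin b → ℝ) (y : T × H), S (h + fun i => (k i : ℝ)) y = S h y) →
      (∀ x ∈ KK T e R, ‖S x.1 (pj e x) - G (x.2.1, x.1, e x.1 x.2.2)‖ < ε) →
      ∀ F : (Fin b → ℝ) × T × W → Y, ContDiff ℝ ∞ F → (∀ x ∉ UU T e R, F x = S x.1 (pj e x)) →
      ∀ η : Y → ℝ, ContDiff ℝ 1 η → (∀ y, δ ≤ ‖y‖ → η y = 0) →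
      ∫ x, rho x.1 * chi H T hS.pos (pj e x) * (η (F x) * Dt om bs (fderiv ℝ F x))
        ∂((volume : Measure (Fin b → ℝ)).prod ν) = 0 := by
  classical
  have hpY : ProperSpace Y := FiniteDimensional.proper ℝ Y
  obtain ⟨D, hD⟩ := Frame_143.exists_inv (P := P) (e := e) hS.smP (fun h => by
    rw [hS.fW]; exact hS.rank h) hS.smE hS.Pe
  have hK := isCompact_KK (T := T) hS.smE hS.inj R
  have hpj : ContDiff ℝ ∞ (pj (T := T) e) := contDiff_pj hS.smE
  have hpjc := hpj.continuous
  have hχ : ContDiff ℝ ∞ fun x : (Fin b → ℝ) × T × W => chi H T hS.pos (pj e x) :=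
    (contDiff_chi hS.pos).comp hpj
  let F₀ : (Fin b → ℝ) × T × W → Y := fun x => G (x.2.1, x.1, e x.1 x.2.2)
  have hF₀ : Continuous F₀ := by
    refine hS.cG.comp ?_
    exact (continuous_fst.comp continuous_snd).prodMk
      (continuous_fst.prodMk (continuous_snd.comp hpjc))
  let K' : Set ((Fin b → ℝ) × T × W) := KK T e R ∩ {x | R ≤ ‖pj e x‖}
  have hK' : IsCompact K' := hK.inter_right (isClosed_le continuous_const hpjc.norm)
  obtain ⟨lam, hlam⟩ := SeparatingDual.exists_eq_one (R := ℝ) hS.vne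
  obtain ⟨δa, hδa, εa, hεa, hfar⟩ := ray_far V lam K' hK' F₀ hF₀ (by
    rintro x ⟨hx1, hx2⟩ s hs
    have h1 : R ≤ max ‖x.2.1‖ ‖e x.1 x.2.2‖ := hx2
    exact hS.ray x.2.1 x.1 (e x.1 x.2.2) (hS.Pe _ _) (le_max_iff.1 h1) s hs)
  set δ : ℝ := δa / (2 + ‖lam‖ + ‖lam‖ * ‖V‖) with hδ
  have hden : 0 < 2 + ‖lam‖ + ‖lam‖ * ‖V‖ := by positivity
  have hδpos : 0 < δ := by positivity
  have hδ1 : δ * (2 + ‖lam‖ + ‖lam‖ * ‖V‖) = δa := by
    rw [hδ]
    field_simp
  refine ⟨δ, hδpos, εa, hεa, ?_⟩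
  intro S hSs hSp hSG F hF hFU η hη hη0
  have hηc : HasCompactSupport η := by
    refine HasCompactSupport.intro (isCompact_closedBall (0 : Y) δ) fun y hy => ?_
    refine hη0 y ?_
    rw [mem_closedBall_zero_iff, not_le] at hy
    exact hy.le
  -- the length of the segment
  obtain ⟨C, hC⟩ := hK.exists_bound_of_continuousOn hF.continuous.continuousOn
  obtain ⟨Sl, hSl, hSl0⟩ : ∃ Sl : ℝ, (∀ x ∈ KK T e R, η (F x - Sl • V) = 0) ∧ 0 ≤ Sl := by
    have hV : 0 < ‖V‖ := norm_pos_iff.2 hS.vne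
    refine ⟨(max C 0 + δ) / ‖V‖, fun x hx => hη0 _ ?_, by positivity⟩
    have h1 : ‖((max C 0 + δ) / ‖V‖) • V‖ = max C 0 + δ := by
      rw [norm_smul, Real.norm_of_nonneg (by positivity)]
      field_simp
    have h2 := norm_sub_norm_le (((max C 0 + δ) / ‖V‖) • V) (F x)
    rw [norm_sub_rev, h1] at h2
    have h3 := hC x hx
    have h4 := le_max_left C 0
    linarith
  obtain ⟨ζ, hζ, hζ1, hζ2⟩ := FdsZ_778.exists_seg V η hη hηc hSl0
  -- the integral vanishes
  have hzero := glue (b := b) (Q := T × W) ν hn bs om V F (contDiff_infty.1 hF 2)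
    (fun x => chi H T hS.pos (pj e x)) (hχ.of_le (by simp)) ζ hζ (KK T e R) hK
    (by
      intro x hx1 hx2
      refine ⟨hx1, ?_⟩
      by_contra h
      push Not at h
      exact hx2 (chi_zero hS.pos h.le))
    (by
      intro x hx1 hx2
      by_cases h1 : ‖pj e x‖ < R
      · have h2 : (fun x : (Fin b → ℝ) × T × W => chi H T hS.pos (pj e x)) =ᶠ[𝓝 x]
            fun _ => 1 := by
          filter_upwards [(isOpen_lt hpjc.norm continuous_const).mem_nhds h1] with y hy
          exact chi_one hS.pos (le_of_lt hy)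
        rw [h2.fderiv_eq]
        simp
      by_cases h3 : R + 1 < ‖pj e x‖
      · have h2 : (fun x : (Fin b → ℝ) × T × W => chi H T hS.pos (pj e x)) =ᶠ[𝓝 x]
            fun _ => 0 := by
          filter_upwards [(isOpen_lt continuous_const hpjc.norm).mem_nhds h3] with y hy
          exact chi_zero hS.pos (le_of_lt hy)
        rw [h2.fderiv_eq]
        simp
      push Not at h1 h3
      exfalso
      have hxK : x ∈ KK T e R := ⟨hx1, h3⟩
      have hxU : x ∉ UU T e R := fun h => absurd h.2 (not_lt.2 h1)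
      rw [hFU x hxU] at hx2
      obtain ⟨s, hs, hs2⟩ := hζ2 _ hx2
      have h4 : ‖S x.1 (pj e x) - s • V‖ < δ := by
        by_contra hcon
        exact hs2 (hη0 _ (not_lt.1 hcon))
      set y : Y := S x.1 (pj e x) with hy
      have h5 : |lam y - s| ≤ ‖lam‖ * δ := by
        have h6 : lam y - s = lam (y - s • V) := by
          rw [map_sub, map_smul, hlam, smul_eq_mul, mul_one]
        rw [h6, ← Real.norm_eq_abs]
        exact (lam.le_opNorm _).trans (mul_le_mul_of_nonneg_left h4.le (norm_nonneg _))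
      have h0 : 0 ≤ ‖lam‖ * ‖V‖ * δ := by positivity
      have h01 : 0 ≤ ‖lam‖ * δ := by positivity
      refine hfar x ⟨hxK, h1⟩ y (hSG x hxK) ⟨?_, ?_⟩
      · have h7 := (abs_le.1 h5).1
        have h8 := hs.1
        nlinarith
      · have h9 : y - lam y • V = (y - s • V) - (lam y - s) • V := by
          rw [sub_smul]
          abel
        rw [h9]
        refine (norm_sub_le _ _).trans_lt ?_
        rw [norm_smul, Real.norm_eq_abs]
        have h10 : |lam y - s| * ‖V‖ ≤ ‖lam‖ * δ * ‖V‖ :=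
          mul_le_mul_of_nonneg_right h5 (norm_nonneg V)
        nlinarith)
    (by
      intro i θ hθ1 hθ2
      have hnθ : ‖θ‖ ≤ 3 / 4 := cube_norm hθ2
      have hsi : ‖(Pi.single i 1 : Fin b → ℝ)‖ ≤ 1 := by
        rw [pi_norm_le_iff_of_nonneg zero_le_one]
        intro j
        by_cases hj : j = i
        · subst hj; simp
        · rw [Pi.single_eq_of_ne hj]; simp
      let a : (Fin b → ℝ) → W →L[ℂ] W := fun θ' => (D θ').comp (e (θ' - Pi.single i 1))
      have hsi2 : ‖θ - Pi.single i 1‖ ≤ 2 := by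
        have := norm_sub_le θ (Pi.single i 1 : Fin b → ℝ)
        linarith
      have hPs : ∀ θ' : Fin b → ℝ, P (θ' - Pi.single i 1) = P θ' := by
        intro θ'
        have h1 := hS.perP θ' (-Pi.single i 1)
        rw [← h1]
        congr 1
        funext j
        by_cases hj : j = i
        · subst hj; simp [sub_eq_add_neg]
        · simp [Pi.single_eq_of_ne hj]
      have hSs' : ∀ (θ' : Fin b → ℝ) y, S (θ' - Pi.single i 1) y = S θ' y := by
        intro θ' y
        have h1 := hSp (-Pi.single i 1) θ' y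
        rw [← h1]
        congr 1
        funext j
        by_cases hj : j = i
        · subst hj; simp [sub_eq_add_neg]
        · simp [Pi.single_eq_of_ne hj]
      have hea : ∀ θ' : Fin b → ℝ, ‖θ'‖ ≤ 2 → ∀ w, e θ' (a θ' w) = e (θ' - Pi.single i 1) w := by
        intro θ' hθ' w
        show e θ' (D θ' (e (θ' - Pi.single i 1) w)) = _
        rw [(hD θ' (hS.inj θ' hθ')).2.2, ← hPs θ', hS.Pe]
      have hainj : Function.Injective (a θ) := by
        rw [injective_iff_map_eq_zero]
        intro w hw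
        have h1 := hea θ (by linarith) w
        rw [hw, map_zero] at h1
        exact (injective_iff_map_eq_zero _).1 (hS.inj _ hsi2) w h1.symm
      have had : DifferentiableAt ℝ a θ := by
        have h1 : DifferentiableAt ℝ D θ :=
          ((hD θ (hS.inj θ (by linarith))).1).differentiableAt (by simp)
        have h2 : DifferentiableAt ℝ (fun θ' : Fin b → ℝ => e (θ' - Pi.single i 1)) θ :=
          ((hS.smE.differentiable (by simp)) _).comp θ (differentiableAt_id.sub_const _)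
        have h3 : DifferentiableAt ℝ (fun q : (H →L[ℂ] W) × (W →L[ℂ] H) => q.1.comp q.2)
            (D θ, e (θ - Pi.single i 1)) := by
          have h4 := (isBoundedBilinearMap_comp (𝕜 := ℂ) (E := W) (F := H)
            (G := W)).differentiableAt (D θ, e (θ - Pi.single i 1))
          exact h4.restrictScalars ℝ
        exact h3.comp θ (h1.prodMk h2)
      let A : (Fin b → ℝ) → T × W →L[ℝ] T × W := fun θ' =>
        ContinuousLinearMap.prodMapL ℝ T T W W
          (ContinuousLinearMap.id ℝ T, ContinuousLinearMap.restrictScalarsL ℂ W W ℝ ℝ (a θ'))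
      refine ⟨A, ?_, ?_, ?_⟩
      · have h1 : DifferentiableAt ℝ (fun θ' =>
            ContinuousLinearMap.restrictScalarsL ℂ W W ℝ ℝ (a θ')) θ :=
          (ContinuousLinearMap.differentiableAt _).comp θ had
        have h2 : DifferentiableAt ℝ (fun θ' =>
            ((ContinuousLinearMap.id ℝ T,
              ContinuousLinearMap.restrictScalarsL ℂ W W ℝ ℝ (a θ')) :
              (T →L[ℝ] T) × (W →L[ℝ] W))) θ :=
          (differentiableAt_const _).prodMk h1
        exact (ContinuousLinearMap.differentiableAt _).comp θ h2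
      · have h1 : (A θ : T × W →ₗ[ℝ] T × W)
            = LinearMap.prodMap (LinearMap.id : T →ₗ[ℝ] T)
              (((a θ : W →ₗ[ℂ] W)).restrictScalars ℝ) := by
          ext x <;> rfl
        rw [h1, LinearMap.det_prodMap, LinearMap.det_id, one_mul]
        exact det_pos (a θ) hainj
      · have h1 : ∀ᶠ θ' : Fin b → ℝ in 𝓝 θ, ‖θ' - θ‖ < 1 / 16 := by
          have := Metric.ball_mem_nhds θ (show (0 : ℝ) < 1 / 16 by norm_num)
          filter_upwards [this] with θ' hθ'
          rwa [Metric.mem_ball, dist_eq_norm] at hθ'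
        filter_upwards [h1] with θ' hθ' y
        have h2 : ‖θ'‖ ≤ 2 := by
          have h3 : ‖θ'‖ ≤ ‖θ' - θ‖ + ‖θ‖ := by
            simpa using norm_add_le (θ' - θ) θ
          linarith
        have h3 : |θ' i - θ i| < 1 / 16 := by
          have := norm_le_pi_norm (θ' - θ) i
          rw [Pi.sub_apply, Real.norm_eq_abs] at this
          linarith
        rw [abs_lt] at h3
        have h4 := hθ2 i
        rw [abs_le] at h4
        have h5 : ∀ y', ((θ', y') : (Fin b → ℝ) × T × W) ∉ UU T e R := by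
          intro y' hy'
          have h6 : ‖θ'‖ < 1 / 8 := hy'.1
          have h7 := norm_le_pi_norm θ' i
          rw [Real.norm_eq_abs] at h7
          have := le_abs_self (θ' i)
          linarith
        have h8 : ∀ y', ((θ' - Pi.single i 1, y') : (Fin b → ℝ) × T × W) ∉ UU T e R := by
          intro y' hy'
          have h6 : ‖θ' - Pi.single i 1‖ < 1 / 8 := hy'.1
          have h7 := norm_le_pi_norm (θ' - Pi.single i 1) i
          rw [Real.norm_eq_abs, Pi.sub_apply, Pi.single_eq_same] at h7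
          have := neg_le_abs (θ' i - 1)
          linarith
        have h9 : pj e (θ' - Pi.single i 1, y) = pj e (θ', A θ' y) := by
          show ((y.1, e (θ' - Pi.single i 1) y.2) : T × H) = (y.1, e θ' (a θ' y.2))
          rw [hea θ' h2]
        constructor
        · rw [hFU _ (h5 _), hFU _ (h8 _)]
          show S (θ' - Pi.single i 1) (pj e (θ' - Pi.single i 1, y)) = S θ' (pj e (θ', A θ' y))
          rw [hSs', h9]
        · show chi H T hS.pos (pj e (θ' - Pi.single i 1, y))
            = chi H T hS.pos (pj e (θ', A θ' y))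
          rw [h9])
  rw [← hzero]
  refine integral_congr_ae (Eventually.of_forall fun x => ?_)
  show rho x.1 * chi H T hS.pos (pj e x) * (η (F x) * Dt om bs (fderiv ℝ F x))
    = rho x.1 * chi H T hS.pos (pj e x) * (fderiv ℝ ζ (F x) V * Dt om bs (fderiv ℝ F x))
  by_cases hx : rho x.1 * chi H T hS.pos (pj e x) = 0
  · rw [hx, zero_mul, zero_mul]
  · have h1 : x ∈ KK T e R := by
      refine ⟨rho_ne (left_ne_zero_of_mul hx), ?_⟩
      by_contra h
      push Not at h
      exact right_ne_zero_of_mul hx (chi_zero hS.pos h.le)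
    rw [hζ1, hSl x h1, sub_zero]

end Crest.Agent.R235.FdsT_778
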