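import Crest.Agent.R235.TorDefs_225

/-!
Row 235 (S0364), PACKAGE TOR (leader helper225), node A2/CUT (helper649): the leafwise constant
partition of unity of a foliation by tori (`TAtlas`), and the gluing of leafwise functions.
-/

set_option autoImplicit false
set_option maxSynthPendingDepth 3

open Set Function Filter MeasureTheory
open scoped Manifold ContDiff Topology

universe u

namespace Crest.Agent.R235.TorCut_649

open Crest.Agent.R235 Crest.Agent.R240 Crest.Agent.R240.Ch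

noncomputable section

/-! ### local diffeomorphisms `E4 → M` -/

section Local

variable {M : Type u} [TopologicalSpace M] [ChartedSpace E4 M] [IsManifold 𝓘(ℝ, E4) ∞ M]

/-- `Φ` in the chart at `Φ y`. -/
def loc (Φ : E4 → M) (y : E4) : E4 → E4 := fun z => chartAt E4 (Φ y) (Φ z)

omit [IsManifold 𝓘(ℝ, E4) ∞ M] in
lemma dmap_eq (Φ : E4 → M) (y v : E4) : dmap Φ y v = fderiv ℝ (loc Φ y) y v := rfl

lemma loc_smooth {Φ : E4 → M} (hΦ : ContMDiff 𝓘(ℝ, E4) 𝓘(ℝ, E4) ∞ Φ) (y : E4) :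
    ContDiffAt ℝ ∞ (loc Φ y) y := by
  have hc : ContMDiffAt 𝓘(ℝ, E4) 𝓘(ℝ, E4) ∞ (chartAt E4 (Φ y)) (Φ y) :=
    (contMDiffOn_chart (I := 𝓘(ℝ, E4)) (x := Φ y)).contMDiffAt
      ((chartAt E4 (Φ y)).open_source.mem_nhds (mem_chart_source _ _))
  exact (hc.comp y hΦ.contMDiffAt).contDiffAt

/-- **local inverse** of a smooth immersion `E4 → M`. -/
theorem exists_inv {Φ : E4 → M} (hΦ : ContMDiff 𝓘(ℝ, E4) 𝓘(ℝ, E4) ∞ Φ) {y : E4}
    (himm : ∀ v, dmap Φ y v = 0 → v = 0) :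
    ∃ g : M → E4, g (Φ y) = y ∧ ContMDiffAt 𝓘(ℝ, E4) 𝓘(ℝ, E4) ∞ g (Φ y) ∧
      (∀ᶠ x in 𝓝 (Φ y), Φ (g x) = x) ∧ ∀ᶠ z in 𝓝 y, g (Φ z) = z := by
  have h1 := loc_smooth hΦ y
  have hinj : Injective (fderiv ℝ (loc Φ y) y : E4 → E4) :=
    (injective_iff_map_eq_zero (fderiv ℝ (loc Φ y) y)).2 himm
  let A : E4 ≃L[ℝ] E4 := (LinearEquiv.ofInjectiveEndo
    (fderiv ℝ (loc Φ y) y : E4 →ₗ[ℝ] E4) hinj).toContinuousLinearEquiv
  have hA : HasFDerivAt (loc Φ y) (A : E4 →L[ℝ] E4) y := by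
    have : (A : E4 →L[ℝ] E4) = fderiv ℝ (loc Φ y) y := by
      ext v i
      rfl
    rw [this]
    exact (h1.differentiableAt (by simp)).hasFDerivAt
  let e := h1.toOpenPartialHomeomorph (loc Φ y) hA (by simp)
  have he : ∀ z, e z = loc Φ y z := fun z => rfl
  have hy : y ∈ e.source := h1.mem_toOpenPartialHomeomorph_source hA (by simp)
  have hs : ContDiffAt ℝ ∞ e.symm (loc Φ y y) := h1.to_localInverse hA (by simp)
  have hes : e.symm (loc Φ y y) = y := e.left_inv hy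
  have hc : ContMDiffAt 𝓘(ℝ, E4) 𝓘(ℝ, E4) ∞ (chartAt E4 (Φ y)) (Φ y) :=
    (contMDiffOn_chart (I := 𝓘(ℝ, E4)) (x := Φ y)).contMDiffAt
      ((chartAt E4 (Φ y)).open_source.mem_nhds (mem_chart_source _ _))
  refine ⟨fun x => e.symm (chartAt E4 (Φ y) x), hes, ?_, ?_, ?_⟩
  · have : ContMDiffAt 𝓘(ℝ, E4) 𝓘(ℝ, E4) ∞ e.symm (chartAt E4 (Φ y) (Φ y)) := hs.contMDiffAt
    exact this.comp (Φ y) hc
  · have c1 : ContinuousAt (fun x => e.symm (chartAt E4 (Φ y) x)) (Φ y) := by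
      have : ContinuousAt e.symm (chartAt E4 (Φ y) (Φ y)) := hs.continuousAt
      exact this.comp hc.continuousAt
    have c2 : ∀ᶠ x in 𝓝 (Φ y), x ∈ (chartAt E4 (Φ y)).source :=
      (chartAt E4 (Φ y)).open_source.mem_nhds (mem_chart_source _ _)
    have c3 : ∀ᶠ z in 𝓝 y, Φ z ∈ (chartAt E4 (Φ y)).source :=
      hΦ.continuous.continuousAt.eventually c2
    have c4 : ∀ᶠ x in 𝓝 (Φ y), Φ (e.symm (chartAt E4 (Φ y) x)) ∈ (chartAt E4 (Φ y)).source := by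
      have : Tendsto (fun x => e.symm (chartAt E4 (Φ y) x)) (𝓝 (Φ y)) (𝓝 y) := by
        have := c1.tendsto
        rwa [show e.symm (chartAt E4 (Φ y) (Φ y)) = y from hes] at this
      exact this.eventually c3
    have c5 : ∀ᶠ x in 𝓝 (Φ y), chartAt E4 (Φ y) x ∈ e.target :=
      hc.continuousAt.eventually (e.open_target.mem_nhds (e.map_source hy))
    filter_upwards [c2, c4, c5] with x h2 h4 h5
    have h6 : chartAt E4 (Φ y) (Φ (e.symm (chartAt E4 (Φ y) x))) = chartAt E4 (Φ y) x :=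
      e.right_inv h5
    exact (chartAt E4 (Φ y)).injOn h4 h2 h6
  · filter_upwards [e.open_source.mem_nhds hy] with z hz
    exact e.left_inv hz

/-- a smooth immersion `E4 → M` is open. -/
theorem isOpenMap {Φ : E4 → M} (hΦ : ContMDiff 𝓘(ℝ, E4) 𝓘(ℝ, E4) ∞ Φ)
    (himm : ∀ y v, dmap Φ y v = 0 → v = 0) : IsOpenMap Φ := by
  rw [isOpenMap_iff_nhds_le]
  intro y s hs
  obtain ⟨g, h1, h2, h3, -⟩ := exists_inv hΦ (himm y)
  have h4 : ∀ᶠ x in 𝓝 (Φ y), g x ∈ Φ ⁻¹' s := by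
    have := h2.continuousAt.tendsto
    rw [h1] at this
    exact this.eventually hs
  filter_upwards [h3, h4] with x h5 h6
  rw [mem_preimage, h5] at h6
  exact h6

/-- **descent**: a function smooth after composition with `Φ` is smooth. -/
theorem smooth_at {Φ : E4 → M} (hΦ : ContMDiff 𝓘(ℝ, E4) 𝓘(ℝ, E4) ∞ Φ) {y : E4}
    (himm : ∀ v, dmap Φ y v = 0 → v = 0) {F : M → ℝ} (hF : ContDiffAt ℝ ∞ (F ∘ Φ) y) :
    ContMDiffAt 𝓘(ℝ, E4) 𝓘(ℝ, ℝ) ∞ F (Φ y) := by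
  obtain ⟨g, h1, h2, h3, -⟩ := exists_inv hΦ himm
  have h4 : ContMDiffAt 𝓘(ℝ, E4) 𝓘(ℝ, ℝ) ∞ ((F ∘ Φ) ∘ g) (Φ y) := by
    have : ContMDiffAt 𝓘(ℝ, E4) 𝓘(ℝ, ℝ) ∞ (F ∘ Φ) (g (Φ y)) := by
      rw [h1]
      exact hF.contMDiffAt
    exact this.comp (Φ y) h2
  refine h4.congr_of_eventuallyEq ?_
  filter_upwards [h3] with x h5
  simp only [comp_apply, h5]

/-- **chain rule** for `dF` and `dmap`. -/
theorem dF_dmap {Φ : E4 → M} (hΦ : ContMDiff 𝓘(ℝ, E4) 𝓘(ℝ, E4) ∞ Φ) {y : E4} {F : M → ℝ}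
    (hF : ContMDiffAt 𝓘(ℝ, E4) 𝓘(ℝ, ℝ) ∞ F (Φ y)) (v : E4) :
    at1 (dF (E := E4) F) (Φ y) (dmap Φ y v) = fderiv ℝ (F ∘ Φ) y v := by
  have h1 := loc_smooth hΦ y
  have h2 : ContDiffAt ℝ ∞ (repF (Φ y) F) (loc Φ y y) :=
    (contMDiffAt_F (mem_chart_source E4 (Φ y)) F).1 hF
  have h3 : (repF (E := E4) (Φ y) F) ∘ (loc Φ y) =ᶠ[𝓝 y] F ∘ Φ := by
    have : ∀ᶠ z in 𝓝 y, Φ z ∈ (chartAt E4 (Φ y)).source :=
      hΦ.continuous.continuousAt.eventually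
        ((chartAt E4 (Φ y)).open_source.mem_nhds (mem_chart_source _ _))
    filter_upwards [this] with z hz
    simp only [comp_apply, repF, loc, (chartAt E4 (Φ y)).left_inv hz]
  rw [← h3.fderiv_eq, fderiv_comp y (h2.differentiableAt (by simp))
    (h1.differentiableAt (by simp))]
  rfl

end Local

/-! ### coordinates -/

@[simp] lemma lv_0 (s t : ℝ) : lv s t 0 = 0 := rfl
@[simp] lemma lv_1 (s t : ℝ) : lv s t 1 = 0 := rfl
@[simp] lemma lv_2 (s t : ℝ) : lv s t 2 = s := rfl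
@[simp] lemma lv_3 (s t : ℝ) : lv s t 3 = t := rfl

lemma lv_add (s t s' t' : ℝ) : lv s t + lv s' t' = lv (s + s') (t + t') := by
  ext i
  fin_cases i <;> simp [lv]

lemma lv_neg (s t : ℝ) : lv (-s) (-t) = - lv s t := by
  ext i
  fin_cases i <;> simp [lv]

lemma lv_zero : lv 0 0 = 0 := by
  ext i
  fin_cases i <;> simp [lv]

/-- the open base square. -/
def sq (r : ℝ) : Set E4 := {y | |y 0| < r ∧ |y 1| < r}

/-- the closed base square. -/
def csq (r : ℝ) : Set E4 := {y | |y 0| ≤ r ∧ |y 1| ≤ r}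

lemma continuous_coord (i : Fin 4) : Continuous (fun y : E4 => y i) :=
  (EuclideanSpace.proj (𝕜 := ℝ) i).continuous

lemma isOpen_sq (r : ℝ) : IsOpen (sq r) :=
  (isOpen_lt (continuous_coord 0).abs continuous_const).inter
    (isOpen_lt (continuous_coord 1).abs continuous_const)

/-- a compact fundamental domain of the closed square. -/
def fd (r : ℝ) : Set E4 :=
  {y | y 0 ∈ Icc (-r) r ∧ y 1 ∈ Icc (-r) r ∧ y 2 ∈ Icc 0 1 ∧ y 3 ∈ Icc 0 1}

lemma isCompact_fd (r : ℝ) : IsCompact (fd r) := by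
  have h1 : IsCompact (Set.pi univ fun i : Fin 4 =>
      Icc ((![-r, -r, 0, 0] : Fin 4 → ℝ) i) ((![r, r, 1, 1] : Fin 4 → ℝ) i)) :=
    isCompact_univ_pi fun i => isCompact_Icc
  have h2 : fd r = (fun x : Fin 4 → ℝ => (WithLp.toLp 2 x : E4)) '' (Set.pi univ fun i : Fin 4 =>
      Icc ((![-r, -r, 0, 0] : Fin 4 → ℝ) i) ((![r, r, 1, 1] : Fin 4 → ℝ) i)) := by
    ext y
    constructor
    · rintro ⟨h0, h1, h2, h3⟩
      refine ⟨fun i => y i, ?_, rfl⟩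
      intro i _
      fin_cases i
      exacts [h0, h1, h2, h3]
    · rintro ⟨x, hx, rfl⟩
      exact ⟨hx 0 (mem_univ _), hx 1 (mem_univ _), hx 2 (mem_univ _), hx 3 (mem_univ _)⟩
  rw [h2]
  exact h1.image (PiLp.continuous_toLp 2 _)

/-! ### the bump function -/

/-- one variable bump: positive exactly on `(-2, 2)`. -/
def chi (t : ℝ) : ℝ := Real.smoothTransition (4 - t ^ 2)

lemma chi_smooth : ContDiff ℝ ∞ chi :=
  Real.smoothTransition.contDiff.comp (contDiff_const.sub (contDiff_id.pow 2))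

lemma chi_nonneg (t : ℝ) : 0 ≤ chi t := Real.smoothTransition.nonneg _

lemma chi_pos {t : ℝ} (h : |t| < 2) : 0 < chi t := by
  apply Real.smoothTransition.pos_of_pos
  have := sq_lt_sq' (by linarith [(abs_lt.1 h).1]) (abs_lt.1 h).2
  linarith

lemma chi_zero {t : ℝ} (h : 2 ≤ |t|) : chi t = 0 := by
  apply Real.smoothTransition.zero_of_nonpos
  have : 2 ^ 2 ≤ |t| ^ 2 := pow_le_pow_left₀ (by norm_num) h 2
  rw [sq_abs] at this
  linarith

/-- the bump function of the base coordinates. -/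
def psi (y : E4) : ℝ := chi (y 0) * chi (y 1)

lemma psi_smooth : ContDiff ℝ ∞ psi :=
  (chi_smooth.comp (EuclideanSpace.proj (𝕜 := ℝ) (0 : Fin 4)).contDiff).mul
    (chi_smooth.comp (EuclideanSpace.proj (𝕜 := ℝ) (1 : Fin 4)).contDiff)

lemma psi_nonneg (y : E4) : 0 ≤ psi y := mul_nonneg (chi_nonneg _) (chi_nonneg _)

lemma psi_pos {y : E4} (h : y ∈ sq 2) : 0 < psi y := mul_pos (chi_pos h.1) (chi_pos h.2)

lemma psi_ne {y : E4} (h : psi y ≠ 0) : y ∈ sq 2 := by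
  constructor
  · by_contra h1
    exact h (by rw [psi, chi_zero (not_lt.1 h1), zero_mul])
  · by_contra h1
    exact h (by rw [psi, chi_zero (not_lt.1 h1), mul_zero])

lemma psi_leaf (y : E4) (s t : ℝ) : psi (y + lv s t) = psi y := by
  simp [psi]

/-! ### one tube -/

section Tube

variable {M : Type u} [TopologicalSpace M] [T2Space M] [CompactSpace M]
  [ChartedSpace E4 M] [IsManifold 𝓘(ℝ, E4) ∞ M]
variable {w : Trip M} {f : H2 M} {Φ : E4 → M}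

theorem tube_open (h : Tube w f Φ) : IsOpenMap Φ := isOpenMap h.smooth h.imm

theorem range_open (h : Tube w f Φ) : IsOpen (range Φ) := (tube_open h).isOpen_range

open Classical in
/-- the function `u ∘ Φ⁻¹` (zero off the range). -/
def push {α : Type*} [Zero α] (Φ : E4 → M) (u : E4 → α) (x : M) : α :=
  if h : ∃ y, Φ y = x then u (Classical.choose h) else 0

omit [TopologicalSpace M] [T2Space M] [CompactSpace M] [ChartedSpace E4 M]
  [IsManifold 𝓘(ℝ, E4) ∞ M] in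
lemma push_off {α : Type*} [Zero α] {u : E4 → α} {x : M} (hx : x ∉ range Φ) :
    push Φ u x = 0 := by
  unfold push
  rw [dif_neg]
  exact hx

lemma push_apply {α : Type*} [Zero α] (h : Tube w f Φ) {u : E4 → α}
    (hu : ∀ (y : E4) (m n : ℤ), u (y + lv m n) = u y) (y : E4) : push Φ u (Φ y) = u y := by
  have h1 : ∃ z, Φ z = Φ y := ⟨y, rfl⟩
  unfold push
  rw [dif_pos h1]
  obtain ⟨m, n, h2⟩ := h.inj _ _ (Classical.choose_spec h1)
  have h3 : u y = u (Classical.choose h1) := by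
    conv_lhs => rw [h2]
    exact hu _ m n
  exact h3.symm

/-- smoothness of `u ∘ Φ⁻¹` on the range. -/
theorem push_smooth (h : Tube w f Φ) {u : E4 → ℝ}
    (hu : ∀ (y : E4) (m n : ℤ), u (y + lv m n) = u y) (hs : ContDiff ℝ ∞ u) {x : M}
    (hx : x ∈ range Φ) : ContMDiffAt 𝓘(ℝ, E4) 𝓘(ℝ, ℝ) ∞ (push Φ u) x := by
  obtain ⟨y, rfl⟩ := hx
  refine smooth_at h.smooth (h.imm y) ?_
  have : push Φ u ∘ Φ = u := funext fun z => push_apply h hu z
  rw [this]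
  exact hs.contDiffAt

/-- the closed tube. -/
def KT (Φ : E4 → M) : Set M := Φ '' csq 2

omit [TopologicalSpace M] [T2Space M] [CompactSpace M] [ChartedSpace E4 M]
  [IsManifold 𝓘(ℝ, E4) ∞ M] in
lemma KT_sub : KT Φ ⊆ range Φ := image_subset_range _ _

lemma KT_eq (h : Tube w f Φ) : KT Φ = Φ '' fd 2 := by
  apply Subset.antisymm
  · rintro x ⟨y, ⟨h1, h2⟩, rfl⟩
    refine ⟨y + lv ((-⌊y 2⌋ : ℤ) : ℝ) ((-⌊y 3⌋ : ℤ) : ℝ), ?_, h.per y _ _⟩
    refine ⟨?_, ?_, ?_, ?_⟩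
    · simpa using abs_le.1 h1
    · simpa using abs_le.1 h2
    · simp only [PiLp.add_apply, lv_2, Int.cast_neg]
      constructor
      · linarith [Int.floor_le (y 2)]
      · linarith [Int.lt_floor_add_one (y 2)]
    · simp only [PiLp.add_apply, lv_3, Int.cast_neg]
      constructor
      · linarith [Int.floor_le (y 3)]
      · linarith [Int.lt_floor_add_one (y 3)]
  · rintro x ⟨y, ⟨h1, h2, -, -⟩, rfl⟩
    exact ⟨y, ⟨abs_le.2 h1, abs_le.2 h2⟩, rfl⟩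

lemma KT_closed (h : Tube w f Φ) : IsClosed (KT Φ) := by
  rw [KT_eq h]
  exact ((isCompact_fd 2).image h.smooth.continuous).isClosed

/-- smoothness of a function supported in a closed tube. -/
theorem smoothF_of (h : Tube w f Φ) {F : M → ℝ}
    (h1 : ∀ x ∈ range Φ, ContMDiffAt 𝓘(ℝ, E4) 𝓘(ℝ, ℝ) ∞ F x) (h2 : ∀ x, x ∉ KT Φ → F x = 0) :
    ContMDiff 𝓘(ℝ, E4) 𝓘(ℝ, ℝ) ∞ F := by
  intro x
  by_cases hx : x ∈ KT Φ
  · exact h1 x (KT_sub hx)
  · have h3 : F =ᶠ[𝓝 x] fun _ => (0 : ℝ) := by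
      filter_upwards [(KT_closed h).isOpen_compl.mem_nhds hx] with z hz
      exact h2 z hz
    exact contMDiffAt_const.congr_of_eventuallyEq h3

/-- the leafwise constant bump of a tube. -/
def bet (Φ : E4 → M) : M → ℝ := push Φ psi

lemma bet_apply (h : Tube w f Φ) (y : E4) : bet Φ (Φ y) = psi y :=
  push_apply h (fun y m n => psi_leaf y m n) y

omit [TopologicalSpace M] [T2Space M] [CompactSpace M] [ChartedSpace E4 M]
  [IsManifold 𝓘(ℝ, E4) ∞ M] in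
lemma bet_nonneg (x : M) : 0 ≤ bet Φ x := by
  unfold bet push
  split_ifs
  · exact psi_nonneg _
  · exact le_rfl

lemma bet_ne (h : Tube w f Φ) {x : M} (hx : bet Φ x ≠ 0) : x ∈ Φ '' sq 2 := by
  by_cases h1 : x ∈ range Φ
  · obtain ⟨y, rfl⟩ := h1
    rw [bet_apply h] at hx
    exact ⟨y, psi_ne hx, rfl⟩
  · exact absurd (push_off h1) hx

lemma sq_sub_csq : sq 2 ⊆ csq 2 := fun _ hy => ⟨hy.1.le, hy.2.le⟩

lemma bet_off (h : Tube w f Φ) {x : M} (hx : x ∉ KT Φ) : bet Φ x = 0 := by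
  by_contra h1
  exact hx (image_mono sq_sub_csq (bet_ne h h1))

theorem bet_smooth (h : Tube w f Φ) : ContMDiff 𝓘(ℝ, E4) 𝓘(ℝ, ℝ) ∞ (bet Φ) :=
  smoothF_of h (fun _ hx => push_smooth h (fun y m n => psi_leaf y m n) psi_smooth hx)
    (fun _ hx => bet_off h hx)

end Tube

/-! ### the foliation -/

section Atlas

variable {M : Type u} [TopologicalSpace M] [T2Space M] [CompactSpace M]
  [ChartedSpace E4 M] [IsManifold 𝓘(ℝ, E4) ∞ M]
variable {w : Trip M} {f : H2 M} {T : Set (E4 → M)} {Φ Ψ : E4 → M}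

omit [TopologicalSpace M] [T2Space M] [CompactSpace M] [ChartedSpace E4 M]
  [IsManifold 𝓘(ℝ, E4) ∞ M] in
lemma mem_slice (Φ : E4 → M) (y : E4) (s t : ℝ) : Φ (y + lv s t) ∈ range (slice Φ y) :=
  ⟨WithLp.toLp 2 ![s, t], rfl⟩

omit [TopologicalSpace M] [T2Space M] [CompactSpace M] [ChartedSpace E4 M]
  [IsManifold 𝓘(ℝ, E4) ∞ M] in
lemma slice_mem {Φ : E4 → M} {y : E4} {x : M} (h : x ∈ range (slice Φ y)) :
    ∃ s t : ℝ, Φ (y + lv s t) = x := by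
  obtain ⟨q, rfl⟩ := h
  exact ⟨q 0, q 1, rfl⟩

/-- leaves go to leaves. -/
theorem leaf_of (h : TAtlas w f T) (hΦ : Φ ∈ T) (hΨ : Ψ ∈ T) {y z : E4} (hyz : Φ y = Ψ z)
    (s t : ℝ) : ∃ s' t' : ℝ, Ψ (z + lv s t) = Φ (y + lv s' t') := by
  have h1 := mem_slice Ψ z s t
  rw [← h.cons Φ hΦ Ψ hΨ y z hyz] at h1
  obtain ⟨s', t', h2⟩ := slice_mem h1
  exact ⟨s', t', h2.symm⟩

/-- the leaf of a point of the range stays in the range. -/
theorem range_leaf (h : TAtlas w f T) (hΦ : Φ ∈ T) (hΨ : Ψ ∈ T) (z : E4) (s t : ℝ) :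
    Ψ (z + lv s t) ∈ range Φ ↔ Ψ z ∈ range Φ := by
  constructor
  · rintro ⟨y, hy⟩
    obtain ⟨s', t', h1⟩ := leaf_of h hΦ hΨ hy (-s) (-t)
    rw [lv_neg, add_neg_cancel_right] at h1
    exact ⟨_, h1.symm⟩
  · rintro ⟨y, hy⟩
    obtain ⟨s', t', h1⟩ := leaf_of h hΦ hΨ hy s t
    exact ⟨_, h1.symm⟩

/-- a function of the base coordinates is constant on the leaves. -/
theorem push_leaf {α : Type*} [Zero α] (h : TAtlas w f T) (hΦ : Φ ∈ T) (hΨ : Ψ ∈ T)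
    {u : E4 → α} (hu : ∀ (y : E4) (s t : ℝ), u (y + lv s t) = u y) (z : E4) (s t : ℝ) :
    push Φ u (Ψ (z + lv s t)) = push Φ u (Ψ z) := by
  by_cases hz : Ψ z ∈ range Φ
  · obtain ⟨y, hy⟩ := hz
    obtain ⟨s', t', h1⟩ := leaf_of h hΦ hΨ hy s t
    have hp := h.tube Φ hΦ
    rw [h1, ← hy, push_apply hp (fun y m n => hu y m n), push_apply hp (fun y m n => hu y m n),
      hu]
  · rw [push_off hz, push_off (fun h1 => hz ((range_leaf h hΦ hΨ z s t).1 h1))]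

/-- the base coordinates on the range of a tube. -/
def bc (Φ : E4 → M) : M → ℝ × ℝ := push Φ fun y => (y 0, y 1)

theorem bc_apply (h : Tube w f Φ) (y : E4) : bc Φ (Φ y) = (y 0, y 1) :=
  push_apply h (u := fun y : E4 => (y 0, y 1)) (fun y m n => by simp) y

theorem bc_leaf (h : TAtlas w f T) (hΦ : Φ ∈ T) (hΨ : Ψ ∈ T) (z : E4) (s t : ℝ) :
    bc Φ (Ψ (z + lv s t)) = bc Φ (Ψ z) :=
  push_leaf h hΦ hΨ (u := fun y : E4 => (y 0, y 1)) (fun y m n => by simp) z s t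

theorem bet_leaf (h : TAtlas w f T) (hΦ : Φ ∈ T) (hΨ : Ψ ∈ T) (z : E4) (s t : ℝ) :
    bet Φ (Ψ (z + lv s t)) = bet Φ (Ψ z) :=
  push_leaf h hΦ hΨ psi_leaf z s t

/-- a leafwise constant partition of unity, subordinate to tubes of `T`. -/
structure LPart (T : Set (E4 → M)) {n : ℕ} (Φ : Fin n → E4 → M) (ρ : Fin n → M → ℝ) : Prop where
  mem : ∀ i, Φ i ∈ T
  smooth : ∀ i, SmoothF E4 (ρ i)
  nonneg : ∀ i x, 0 ≤ ρ i x
  sum : ∀ x, ∑ i, ρ i x = 1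
  supp : ∀ i x, ρ i x ≠ 0 → x ∈ Φ i '' sq 2
  leaf : ∀ i, ∀ Ψ ∈ T, ∀ (y : E4) (s t : ℝ), ρ i (Ψ (y + lv s t)) = ρ i (Ψ y)

/-- **leafwise constant partition of unity.** -/
theorem exists_part (h : TAtlas w f T) :
    ∃ (n : ℕ) (Φ : Fin n → E4 → M) (ρ : Fin n → M → ℝ), LPart T Φ ρ := by
  classical
  choose P hPT hP0 using h.cover
  have hU : ∀ x, P x '' sq 2 ∈ 𝓝 x := by
    intro x
    have h1 : IsOpen (P x '' sq 2) := tube_open (h.tube _ (hPT x)) _ (isOpen_sq 2)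
    exact h1.mem_nhds ⟨0, by simp [sq], hP0 x⟩
  obtain ⟨t, -, ht⟩ := isCompact_univ.elim_nhds_subcover (fun x => P x '' sq 2)
    (fun x _ => hU x)
  let e : Fin t.card ≃ t := t.equivFin.symm
  let Φ : Fin t.card → E4 → M := fun i => P (e i)
  have hT : ∀ i, Φ i ∈ T := fun i => hPT _
  let S : M → ℝ := fun x => ∑ i, bet (Φ i) x
  have hS : ∀ x, 0 < S x := by
    intro x
    have h1 := ht (mem_univ x)
    simp only [mem_iUnion] at h1
    obtain ⟨p, hp, y, hy, hx⟩ := h1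
    have h2 : ∃ i, Φ i = P p := ⟨e.symm ⟨p, hp⟩, by simp [Φ]⟩
    obtain ⟨i, hi⟩ := h2
    have h3 : 0 < bet (Φ i) x := by
      rw [hi, ← hx, bet_apply (h.tube _ (hPT p))]
      exact psi_pos hy
    exact lt_of_lt_of_le h3 (Finset.single_le_sum (f := fun i => bet (Φ i) x)
      (fun j _ => bet_nonneg x) (Finset.mem_univ i))
  have hSs : ContMDiff 𝓘(ℝ, E4) 𝓘(ℝ, ℝ) ∞ S :=
    contMDiff_finsetSum fun i _ => bet_smooth (h.tube _ (hT i))
  refine ⟨t.card, Φ, fun i x => bet (Φ i) x / S x, ⟨hT, ?_, ?_, ?_, ?_, ?_⟩⟩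
  · intro i p
    have h1 := (smoothF_iff _).1 (bet_smooth (h.tube _ (hT i))) p
    have h2 := (smoothF_iff _).1 hSs p
    exact h1.div h2 fun y _ => (hS _).ne'
  · intro i x
    exact div_nonneg (bet_nonneg x) (hS x).le
  · intro x
    rw [← Finset.sum_div]
    exact div_self (hS x).ne'
  · intro i x hx
    exact bet_ne (h.tube _ (hT i)) fun h0 => hx (by simp only [h0, zero_div])
  · intro i Ψ hΨ y s t
    have h1 : ∀ j, bet (Φ j) (Ψ (y + lv s t)) = bet (Φ j) (Ψ y) := fun j =>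
      bet_leaf h (hT j) hΨ y s t
    simp only [S, h1]

variable {n : ℕ} {Φs : Fin n → E4 → M} {ρ : Fin n → M → ℝ}

omit [T2Space M] [CompactSpace M] [IsManifold 𝓘(ℝ, E4) ∞ M] in
/-- the supports are in the closed tubes. -/
theorem LPart.off (hρ : LPart T Φs ρ) {i : Fin n} {x : M} (hx : x ∉ KT (Φs i)) : ρ i x = 0 := by
  by_contra h1
  exact hx (image_mono sq_sub_csq (hρ.supp i x h1))

theorem LPart.csupp (h : TAtlas w f T) (hρ : LPart T Φs ρ) (i : Fin n) :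
    closure (Function.support (ρ i)) ⊆ KT (Φs i) :=
  (KT_closed (h.tube _ (hρ.mem i))).closure_subset_iff.2 fun x hx => by
    by_contra h1
    exact hx (hρ.off h1)

omit [T2Space M] [CompactSpace M] in
/-- the differential of a function constant on the leaf vanishes along the leaf. -/
theorem dleaf_of {Ψ : E4 → M} (hΨs : ContMDiff 𝓘(ℝ, E4) 𝓘(ℝ, E4) ∞ Ψ) {F : M → ℝ} {y : E4}
    (h1 : ContMDiffAt 𝓘(ℝ, E4) 𝓘(ℝ, ℝ) ∞ F (Ψ y))
    (hc : ∀ s t : ℝ, F (Ψ (y + lv s t)) = F (Ψ y)) (s t : ℝ) :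
    at1 (dF (E := E4) F) (Ψ y) (dmap Ψ y (lv s t)) = 0 := by
  rw [dF_dmap hΨs h1]
  have h2 : DifferentiableAt ℝ (F ∘ Ψ) y :=
    ((h1.comp y hΨs.contMDiffAt).contDiffAt).differentiableAt (by simp)
  have h3 : HasDerivAt (fun r : ℝ => y + r • lv s t) (lv s t) 0 := by
    simpa using ((hasDerivAt_id (0 : ℝ)).smul_const (lv s t)).const_add y
  have h4 : HasDerivAt (fun r : ℝ => (F ∘ Ψ) (y + r • lv s t))
      (fderiv ℝ (F ∘ Ψ) y (lv s t)) 0 := by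
    have h5 : HasFDerivAt (F ∘ Ψ) (fderiv ℝ (F ∘ Ψ) y) (y + (0 : ℝ) • lv s t) := by
      rw [zero_smul, add_zero]
      exact h2.hasFDerivAt
    exact h5.comp_hasDerivAt (0 : ℝ) h3
  have h6 : (fun r : ℝ => (F ∘ Ψ) (y + r • lv s t)) = fun _ => F (Ψ y) := by
    funext r
    have h7 : r • lv s t = lv (r * s) (r * t) := by
      ext j
      fin_cases j <;> simp [lv]
    rw [h7]
    exact hc _ _
  rw [h6] at h4
  exact h4.unique (hasDerivAt_const _ _)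

/-- the differential of `ρ i` vanishes along the leaves. -/
theorem LPart.dleaf (h : TAtlas w f T) (hρ : LPart T Φs ρ) (i : Fin n) {Ψ : E4 → M} (hΨ : Ψ ∈ T)
    (y : E4) (s t : ℝ) : at1 (dF (E := E4) (ρ i)) (Ψ y) (dmap Ψ y (lv s t)) = 0 :=
  dleaf_of (h.tube Ψ hΨ).smooth ((smoothF_iff _).2 (hρ.smooth i)).contMDiffAt
    (hρ.leaf i Ψ hΨ y) s t

/-- the coordinates in the tube `Φ` of a vector at `Ψ y`. -/
theorem exists_coord (h : TAtlas w f T) (hΦ : Φ ∈ T) (x : E4) (z : E4) :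
    ∃ v' : E4, dmap Φ z v' = x := by
  have hp := h.tube Φ hΦ
  have hinj : Injective (fderiv ℝ (loc Φ z) z : E4 → E4) :=
    (injective_iff_map_eq_zero (fderiv ℝ (loc Φ z) z)).2 (hp.imm z)
  have hsur : Surjective (fderiv ℝ (loc Φ z) z : E4 →ₗ[ℝ] E4) :=
    LinearMap.injective_iff_surjective.1 hinj
  obtain ⟨v', h1⟩ := hsur x
  exact ⟨v', h1⟩

lemma eq_lv {v : E4} (h0 : v 0 = 0) (h1 : v 1 = 0) : v = lv (v 2) (v 3) := by
  ext i
  fin_cases i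
  · simpa [lv] using h0
  · simpa [lv] using h1
  · simp [lv]
  · simp [lv]

/-- **a leaf vector of `Ψ` is a leaf vector of `Φ`** (hence `glue_d` needs only leaf
derivatives). -/
theorem exists_coord_leaf (h : TAtlas w f T) (hΦ : Φ ∈ T) (hΨ : Ψ ∈ T) {y z : E4}
    (hyz : Φ z = Ψ y) (s t : ℝ) :
    ∃ s' t' : ℝ, dmap Φ z (lv s' t') = dmap Ψ y (lv s t) := by
  obtain ⟨v', h1⟩ := exists_coord h hΦ (dmap Ψ y (lv s t)) z
  have hp := h.tube Φ hΦ
  have key : ∀ i : Fin 4, (∀ s t : ℝ, lv s t i = 0) → v' i = 0 := by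
    intro i hi
    have hu : ∀ (y : E4) (s t : ℝ), (fun y : E4 => y i) (y + lv s t) = (fun y : E4 => y i) y := by
      intro y s t
      simp [hi]
    have hs : ContDiff ℝ ∞ (fun y : E4 => y i) := (EuclideanSpace.proj (𝕜 := ℝ) i).contDiff
    have c1 : ContMDiffAt 𝓘(ℝ, E4) 𝓘(ℝ, ℝ) ∞ (push Φ fun y : E4 => y i) (Φ z) :=
      push_smooth hp (fun y m n => hu y m n) hs ⟨z, rfl⟩
    have c2 : ContMDiffAt 𝓘(ℝ, E4) 𝓘(ℝ, ℝ) ∞ (push Φ fun y : E4 => y i) (Ψ y) := by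
      rwa [← hyz]
    have c3 := dleaf_of (h.tube Ψ hΨ).smooth c2 (fun s t => push_leaf h hΦ hΨ hu y s t) s t
    rw [← h1, ← hyz, dF_dmap hp.smooth c1] at c3
    have c4 : (push Φ fun y : E4 => y i) ∘ Φ = fun y : E4 => y i :=
      funext fun x => push_apply hp (fun y m n => hu y m n) x
    have c5 : fderiv ℝ (fun y : E4 => y i) z v' = v' i := by
      have : HasFDerivAt (fun y : E4 => y i) (EuclideanSpace.proj (𝕜 := ℝ) i) z :=
        (EuclideanSpace.proj (𝕜 := ℝ) i).hasFDerivAt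
      rw [this.fderiv]
      rfl
    rw [c4, c5] at c3
    exact c3
  refine ⟨v' 2, v' 3, ?_⟩
  rw [← eq_lv (key 0 fun _ _ => rfl) (key 1 fun _ _ => rfl)]
  exact h1

/-! ### gluing -/

/-- the glued function `Σ ρ_i (u_i ∘ Φ_i⁻¹)`. -/
def glue (Φs : Fin n → E4 → M) (ρ : Fin n → M → ℝ) (u : Fin n → E4 → ℝ) (x : M) : ℝ :=
  ∑ i, ρ i x * push (Φs i) (u i) x

theorem term_smooth (h : TAtlas w f T) (hρ : LPart T Φs ρ) {i : Fin n} {u : E4 → ℝ}
    (hu : ∀ (y : E4) (a b : ℤ), u (y + lv a b) = u y) (hs : ContDiff ℝ ∞ u) :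
    ContMDiff 𝓘(ℝ, E4) 𝓘(ℝ, ℝ) ∞ fun x => ρ i x * push (Φs i) u x := by
  have hi := h.tube _ (hρ.mem i)
  refine smoothF_of hi (fun x hx => ?_) (fun x hx => by rw [hρ.off hx, zero_mul])
  exact (((smoothF_iff _).2 (hρ.smooth i)).contMDiffAt).mul (push_smooth hi hu hs hx)

/-- **the glued function is smooth.** -/
theorem glue_smooth (h : TAtlas w f T) (hρ : LPart T Φs ρ) {u : Fin n → E4 → ℝ}
    (hu : ∀ (i : Fin n) (y : E4) (a b : ℤ), u i (y + lv a b) = u i y)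
    (hs : ∀ i, ContDiff ℝ ∞ (u i)) : SmoothF E4 (glue Φs ρ u) :=
  (smoothF_iff _).1 (contMDiff_finsetSum fun i _ => term_smooth h hρ (hu i) (hs i))

/-- derivative of one term along a leaf. -/
theorem term_d (h : TAtlas w f T) (hρ : LPart T Φs ρ) {i : Fin n} {u : E4 → ℝ}
    (hu : ∀ (y : E4) (a b : ℤ), u (y + lv a b) = u y) (hs : ContDiff ℝ ∞ u) {Ψ : E4 → M}
    (hΨ : Ψ ∈ T) {y z v' : E4} {s t : ℝ}
    (hz : Ψ y ∈ range (Φs i) → Φs i z = Ψ y ∧ dmap (Φs i) z v' = dmap Ψ y (lv s t)) :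
    fderiv ℝ ((fun x => ρ i x * push (Φs i) u x) ∘ Ψ) y (lv s t)
      = ρ i (Ψ y) * fderiv ℝ u z v' := by
  have hi := h.tube _ (hρ.mem i)
  have hΨs := (h.tube Ψ hΨ).smooth
  by_cases hy : Ψ y ∈ range (Φs i)
  · obtain ⟨h1, h2⟩ := hz hy
    have p1 : ContMDiffAt 𝓘(ℝ, E4) 𝓘(ℝ, ℝ) ∞ (push (Φs i) u) (Ψ y) := push_smooth hi hu hs hy
    have r1 : ContMDiff 𝓘(ℝ, E4) 𝓘(ℝ, ℝ) ∞ (ρ i) := (smoothF_iff _).2 (hρ.smooth i)
    have p2 : DifferentiableAt ℝ (push (Φs i) u ∘ Ψ) y :=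
      ((p1.comp y hΨs.contMDiffAt).contDiffAt).differentiableAt (by simp)
    have r2 : DifferentiableAt ℝ (ρ i ∘ Ψ) y :=
      ((r1.contMDiffAt.comp y hΨs.contMDiffAt).contDiffAt).differentiableAt (by simp)
    have e1 : ((fun x => ρ i x * push (Φs i) u x) ∘ Ψ)
        = fun x => (ρ i ∘ Ψ) x * (push (Φs i) u ∘ Ψ) x := rfl
    have e2 : fderiv ℝ (ρ i ∘ Ψ) y (lv s t) = 0 := by
      rw [← dF_dmap hΨs r1.contMDiffAt]
      exact hρ.dleaf h i hΨ y s t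
    have e3 : fderiv ℝ (push (Φs i) u ∘ Ψ) y (lv s t) = fderiv ℝ u z v' := by
      have p3 : ContMDiffAt 𝓘(ℝ, E4) 𝓘(ℝ, ℝ) ∞ (push (Φs i) u) (Φs i z) := by rwa [h1]
      have p4 := dF_dmap hi.smooth p3 v'
      have p5 : push (Φs i) u ∘ Φs i = u := funext fun z => push_apply hi hu z
      rw [p5, h2, h1] at p4
      rw [← dF_dmap hΨs p1, p4]
    rw [e1, fderiv_fun_mul r2 p2]
    simp only [_root_.add_apply, _root_.smul_apply, smul_eq_mul, e2, e3, mul_zero, add_zero,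
      comp_apply]
  · have h1 : Ψ y ∉ KT (Φs i) := fun h2 => hy (KT_sub h2)
    have h2 : ((fun x => ρ i x * push (Φs i) u x) ∘ Ψ) =ᶠ[𝓝 y] fun _ => (0 : ℝ) := by
      have h3 : ∀ᶠ x in 𝓝 (Ψ y), x ∉ KT (Φs i) := (KT_closed hi).isOpen_compl.mem_nhds h1
      filter_upwards [hΨs.continuous.continuousAt.eventually h3] with x hx
      simp only [comp_apply, hρ.off hx, zero_mul]
    rw [h2.fderiv_eq, hρ.off h1]
    simp

/-- **derivative of the glued function along the leaves**: `z i`, `v' i` are the coordinates of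
the point and of the vector in the tube `Φ_i` (where it matters). -/
theorem glue_d (h : TAtlas w f T) (hρ : LPart T Φs ρ) {u : Fin n → E4 → ℝ}
    (hu : ∀ (i : Fin n) (y : E4) (a b : ℤ), u i (y + lv a b) = u i y)
    (hs : ∀ i, ContDiff ℝ ∞ (u i)) {Ψ : E4 → M} (hΨ : Ψ ∈ T) {y : E4} {s t : ℝ}
    {z v' : Fin n → E4} (hz : ∀ i, Ψ y ∈ range (Φs i) →
      Φs i (z i) = Ψ y ∧ dmap (Φs i) (z i) (v' i) = dmap Ψ y (lv s t)) :
    at1 (dF (E := E4) (glue Φs ρ u)) (Ψ y) (dmap Ψ y (lv s t))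
      = ∑ i, ρ i (Ψ y) * fderiv ℝ (u i) (z i) (v' i) := by
  have hg : ContMDiff 𝓘(ℝ, E4) 𝓘(ℝ, ℝ) ∞ (glue Φs ρ u) :=
    (smoothF_iff _).2 (glue_smooth h hρ hu hs)
  have hΨs := (h.tube Ψ hΨ).smooth
  rw [dF_dmap hΨs hg.contMDiffAt]
  have e1 : glue Φs ρ u ∘ Ψ
      = fun x => ∑ i, ((fun x => ρ i x * push (Φs i) (u i) x) ∘ Ψ) x := rfl
  have e2 : ∀ i, DifferentiableAt ℝ ((fun x => ρ i x * push (Φs i) (u i) x) ∘ Ψ) y := by
    intro i
    have h1 : ContMDiff 𝓘(ℝ, E4) 𝓘(ℝ, ℝ) ∞ ((fun x => ρ i x * push (Φs i) (u i) x) ∘ Ψ) :=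
      (term_smooth h hρ (hu i) (hs i)).comp hΨs
    exact (h1.contDiff.differentiable (by simp)) y
  rw [e1, fderiv_fun_sum (fun i _ => e2 i), _root_.sum_apply]
  exact Finset.sum_congr rfl fun i _ => term_d h hρ (hu i) (hs i) hΨ (hz i)

end Atlas

end

end Crest.Agent.R235.TorCut_649
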