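import Crest.Agent.R235.TorMinA_510

/-!
Row 235 (S0364), package TOR, task 238 (TOR-MINUS), helper510: an involution acting by `-1` on `H¹`
acts trivially on `H²` (torus type), on the classes of `J`-tori, and preserves the leaves of a
foliation by `J`-tori; closed one-forms have closed odd representatives.
-/

set_option autoImplicit false
set_option maxSynthPendingDepth 3
set_option linter.unusedSectionVars false

open Set Function Filter MeasureTheory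
open scoped Manifold ContDiff Topology

universe u

namespace Crest.Agent.R235.TorMin_510

open Crest.Agent.R235 Crest.Agent.R240 Crest.Agent.R240.Ch

noncomputable section

section Self

variable {M : Type u} [TopologicalSpace M] [ChartedSpace E4 M] [IsManifold 𝓘(ℝ, E4) ∞ M]

/-! ### pull back of closed two-forms -/

/-- pull back of closed two-forms, a linear map. -/
def tb {τ : M → M} (hτ : ContMDiff 𝓘(ℝ, E4) 𝓘(ℝ, E4) ∞ τ) : Z2 M →ₗ[ℝ] Z2 M where
  toFun b := ⟨⟨pb2 τ (b.1.1 : F2 E4 M), Smooth2.pb hτ b.1.2⟩, Closed2.pb hτ b.1.2 b.2⟩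
  map_add' _ _ := rfl
  map_smul' _ _ := rfl

theorem tb_coe {τ : M → M} (hτ : ContMDiff 𝓘(ℝ, E4) 𝓘(ℝ, E4) ∞ τ) (b : Z2 M) :
    ((tb hτ b).1.1 : F2 E4 M) = pb2 τ (b.1.1 : F2 E4 M) := rfl

theorem val_tb {τ : M → M} (hτ : ContMDiff 𝓘(ℝ, E4) 𝓘(ℝ, E4) ∞ τ) (b : Z2 M) (x : M) (u v : E4) :
    val (tb hτ b) x u v = val b (τ x) (dself τ x u) (dself τ x v) := rfl

theorem isEx_tb {τ : M → M} (hτ : ContMDiff 𝓘(ℝ, E4) 𝓘(ℝ, E4) ∞ τ) {b : Z2 M}
    (hb : IsEx (b.1.1 : F2 E4 M)) : IsEx ((tb hτ b).1.1 : F2 E4 M) := by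
  obtain ⟨s, hs, h⟩ := isEx_iff.1 hb
  rw [tb_coe, h, pb2_dG hτ hs]
  exact isEx_dG (Smooth1.pb hτ hs)

/-- `τ^* τ^* = 1` for the derivative. -/
theorem dself_dself {τ : M → M} (hτ : ContMDiff 𝓘(ℝ, E4) 𝓘(ℝ, E4) ∞ τ) (hi : ∀ x, τ (τ x) = x)
    (x : M) (v : E4) : dself τ (τ x) (dself τ x v) = v := by
  have h1 : MDifferentiableAt 𝓘(ℝ, E4) 𝓘(ℝ, E4) τ (τ x) := (hτ _).mdifferentiableAt (by simp)
  have h2 : MDifferentiableAt 𝓘(ℝ, E4) 𝓘(ℝ, E4) τ x := (hτ _).mdifferentiableAt (by simp)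
  have h3 := mfderiv_comp x h1 h2
  have h4 : τ ∘ τ = id := funext hi
  rw [h4, mfderiv_id] at h3
  exact (congrArg (fun L : E4 →L[ℝ] E4 => L v) h3).symm

theorem isEx_wed_dF {f : M → ℝ} (hf : SmoothF E4 f) {s : F1 E4 M} (hs : Closed1 s) :
    IsEx (wedG (dF (E := E4) f) s) := by
  have h := dG_fmul1 hf hs.1
  rw [(closed1_iff.1 hs).2] at h
  have h0 : fmul f (0 : F2 E4 M) = 0 := by
    funext x
    exact smul_zero _
  rw [h0, add_zero] at h
  rw [← h]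
  exact isEx_dG (Smooth1.fmul hf hs.1)

theorem isEx_add {a b : F2 E4 M} (ha : IsEx a) (hb : IsEx b) : IsEx (a + b) := by
  obtain ⟨s, hs, rfl⟩ := isEx_iff.1 ha
  obtain ⟨t, ht, rfl⟩ := isEx_iff.1 hb
  rw [← dG_add hs ht]
  exact isEx_dG (hs.add ht)

theorem isEx_smul (c : ℝ) {a : F2 E4 M} (ha : IsEx a) : IsEx (c • a) := by
  obtain ⟨s, hs, rfl⟩ := isEx_iff.1 ha
  rw [← dG_smul c hs]
  exact isEx_dG (hs.smul c)

/-- a closed one-form is pulled back to `-s + df`. -/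
theorem pb1_eq {τ : M → M} {s : F1 E4 M} {f : M → ℝ}
    (h : ∀ x v, at1 s (τ x) (dself τ x v) + at1 s x v = at1 (dF f) x v) :
    pb1 τ s = (-1 : ℝ) • s + dF f := by
  funext x
  refine ContinuousLinearMap.ext fun v => ?_
  have h1 := h x v
  have h2 : ((-1 : ℝ) • s + dF f : F1 E4 M) x v = -(at1 s x v) + at1 (dF f) x v := by
    show (-1 : ℝ) * (at1 s x v) + at1 (dF f) x v = _
    ring
  rw [h2]
  show at1 s (τ x) (dself τ x v) = _
  linarith

theorem isEx_wed_sub {s t : F1 E4 M} (hs : Closed1 s) (ht : Closed1 t) {f g : M → ℝ}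
    (hf : SmoothF E4 f) (hg : SmoothF E4 g) :
    IsEx (wedG ((-1 : ℝ) • s + dF f) ((-1 : ℝ) • t + dF g) - wedG s t : F2 E4 M) := by
  have h : (wedG ((-1 : ℝ) • s + dF f) ((-1 : ℝ) • t + dF g) - wedG s t : F2 E4 M) =
      wedG (dF g) s + (-1 : ℝ) • wedG (dF f) t + wedG (dF f) (dF g) := by
    funext x
    refine ContinuousLinearMap.ext fun u => ContinuousLinearMap.ext fun v => ?_
    show ((-1 : ℝ) * at1 s x u + at1 (dF f) x u) * ((-1 : ℝ) * at1 t x v + at1 (dF g) x v)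
      - ((-1 : ℝ) * at1 t x u + at1 (dF g) x u) * ((-1 : ℝ) * at1 s x v + at1 (dF f) x v)
      - (at1 s x u * at1 t x v - at1 t x u * at1 s x v) =
      (at1 (dF g) x u * at1 s x v - at1 s x u * at1 (dF g) x v)
      + (-1 : ℝ) * (at1 (dF f) x u * at1 t x v - at1 t x u * at1 (dF f) x v)
      + (at1 (dF f) x u * at1 (dF g) x v - at1 (dF g) x u * at1 (dF f) x v)
    ring
  rw [h]
  exact isEx_add (isEx_add (isEx_wed_dF hg hs) (isEx_smul _ (isEx_wed_dF hf ht)))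
    (isEx_wed_dF hf (closed1_dF hg))

end Self

section Closed

variable {M : Type u} [TopologicalSpace M] [T2Space M] [CompactSpace M]
  [ChartedSpace E4 M] [IsManifold 𝓘(ℝ, E4) ∞ M]

/-- (1) an involution (or any map) acting by `-1` on `H¹` acts trivially on `H²`. -/
theorem cls_tb {F : Z2 M} (hT : T4R F) {τ : M → M}
    (hτ : ContMDiff 𝓘(ℝ, E4) 𝓘(ℝ, E4) ∞ τ) (hm : MinusOne τ) (b : Z2 M) :
    cls (tb hτ b) = cls b := by
  obtain ⟨⟨s, hs, -, a, ha, -, -, hspan⟩, -⟩ := hT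
  have h1 : ∀ i j, cls (tb hτ (a i j)) = cls (a i j) := by
    intro i j
    rw [cls_eq]
    obtain ⟨f, hf, hf'⟩ := hm (s i) (hs i)
    obtain ⟨g, hg, hg'⟩ := hm (s j) (hs j)
    have e : ((tb hτ (a i j) - a i j : Z2 M).1.1 : F2 E4 M) =
        wedG ((-1 : ℝ) • s i + dF f) ((-1 : ℝ) • s j + dF g) - wedG (s i) (s j) := by
      rw [coe_sub, tb_coe, ha, pb2_wedG, pb1_eq hf', pb1_eq hg']
    rw [e]
    exact isEx_wed_sub (hs i) (hs j) hf hg
  have h2 : ∀ b c : Z2 M, cls b = cls c → cls (tb hτ b) = cls (tb hτ c) := by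
    intro b c h
    rw [cls_eq] at h ⊢
    rw [← map_sub]
    exact isEx_tb hτ h
  obtain ⟨n, hn⟩ := hspan (cls b)
  have e1 : cls b = cls (∑ i, ∑ j, n i j • a i j) := by
    rw [hn]
    simp only [map_sum, map_smul]
  rw [h2 _ _ e1, e1]
  simp only [map_sum, map_smul, h1]

/-- the derivative of `τ ∘ σ`. -/
theorem dmap_comp {V : Type} [NormedAddCommGroup V] [NormedSpace ℝ V] {τ : M → M}
    (hτ : ContMDiff 𝓘(ℝ, E4) 𝓘(ℝ, E4) ∞ τ) {σ : V → M} {y : V}
    (hσ : ContMDiffAt 𝓘(ℝ, V) 𝓘(ℝ, E4) ∞ σ y) (v : V) :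
    dmap (fun z => τ (σ z)) y v = dself τ (σ y) (dmap σ y v) := by
  set x := σ y with hx
  have hcx : (chartAt E4 x).symm (chartAt E4 x x) = x :=
    (chartAt E4 x).left_inv (mem_chart_source E4 x)
  have hq : τ ((chartAt E4 x).symm (chartAt E4 x x)) ∈ (chartAt E4 (τ x)).source := by
    rw [hcx]; exact mem_chart_source E4 _
  have hc : ContMDiffAt 𝓘(ℝ, E4) 𝓘(ℝ, E4) ∞ (chartAt E4 x) (σ y) :=
    (contMDiffOn_chart (I := 𝓘(ℝ, E4)) (x := x)).contMDiffAt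
      ((chartAt E4 x).open_source.mem_nhds (mem_chart_source E4 x))
  have hd : DifferentiableAt ℝ (fun z => chartAt E4 x (σ z)) y :=
    ((hc.comp y hσ).contDiffAt).differentiableAt (by simp)
  have hw : DifferentiableAt ℝ (wr τ x (τ x)) (chartAt E4 x (σ y)) :=
    (wr_contDiffAt hτ (mem_chart_target E4 x) hq).differentiableAt infty_ne_zero
  have hev : (fun z => chartAt E4 (τ x) (τ (σ z))) =ᶠ[𝓝 y]
      fun z => wr τ x (τ x) (chartAt E4 x (σ z)) := by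
    have c1 : ∀ᶠ z in 𝓝 y, σ z ∈ (chartAt E4 x).source :=
      hσ.continuousAt.eventually ((chartAt E4 x).open_source.mem_nhds (mem_chart_source E4 x))
    filter_upwards [c1] with z hz
    simp only [wr]
    rw [(chartAt E4 x).left_inv hz]
  have h1 : dmap (fun z => τ (σ z)) y v = fderiv ℝ (fun z => chartAt E4 (τ x) (τ (σ z))) y v := rfl
  have h2 : dmap σ y v = fderiv ℝ (fun z => chartAt E4 x (σ z)) y v := rfl
  rw [h1, h2, hev.fderiv_eq, dself_eq hτ]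
  have h3 := fderiv_comp (g := wr τ x (τ x)) (f := fun z => chartAt E4 x (σ z)) y hw hd
  exact congrArg (fun L : V →L[ℝ] E4 => L v) h3

theorem torI_comp {τ : M → M} (hτ : ContMDiff 𝓘(ℝ, E4) 𝓘(ℝ, E4) ∞ τ) {σ : Ep → M}
    (hσ : ContMDiff 𝓘(ℝ, Ep) 𝓘(ℝ, E4) ∞ σ) (b : Z2 M) :
    torI (fun z => τ (σ z)) (b.1.1 : F2 E4 M) = torI σ ((tb hτ b).1.1 : F2 E4 M) := by
  unfold torI
  congr 1
  funext y
  rw [dmap_comp hτ (hσ _), dmap_comp hτ (hσ _)]
  rfl

/-- (2) the image of a `J`-torus of class `f` is a `J`-torus of class `f`. -/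
theorem jtor_comp {w : Trip M} (hT : T4R (w 0)) {τ : M → M} (hi : Invol w τ)
    (hm : MinusOne τ) {σ : Ep → M} {f : H2 M} (h : JTor w σ f) :
    JTor w (fun z => τ (σ z)) f where
  emb :=
    { smooth := hi.smooth.comp h.emb.smooth
      per := fun y n => by
        show τ (σ _) = τ (σ _)
        rw [h.emb.per]
      inj := fun y z hyz => h.emb.inj y z (by
        have := congrArg τ hyz
        simpa only [hi.inv] using this)
      imm := fun y v hv => by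
        rw [dmap_comp hi.smooth (h.emb.smooth _)] at hv
        have h2 := dself_dself hi.smooth hi.inv (σ y) (dmap σ y v)
        rw [hv, map_zero] at h2
        exact h.emb.imm y v h2.symm }
  lag1 := fun y u v => by
    rw [dmap_comp hi.smooth (h.emb.smooth _), dmap_comp hi.smooth (h.emb.smooth _), hi.pres 1]
    exact h.lag1 y u v
  lag2 := fun y u v => by
    rw [dmap_comp hi.smooth (h.emb.smooth _), dmap_comp hi.smooth (h.emb.smooth _), hi.pres 2]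
    exact h.lag2 y u v
  rep := fun b => by
    rw [torI_comp hi.smooth h.emb.smooth, h.rep, cls_tb hT hi.smooth hm]
  pos := h.pos

/-- (3) the leaves of a foliation by `J`-tori are permuted. -/
theorem leaves [ConnectedSpace M] (hI : INTT.{u}) {w : Trip M} (hw : Pos3 w)
    (hT : T4R (w 0)) {τ : M → M} (hi : Invol w τ) (hm : MinusOne τ) {f : H2 M}
    (hff : ip (w 0) f f = 0) {T : Set (E4 → M)} (hTA : TAtlas w f T) :
    ∀ Φ ∈ T, ∀ y, ∃ Ψ ∈ T, ∃ z, τ '' range (slice Φ y) = range (slice Ψ z) := by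
  intro Φ hΦ y
  have h1 := jtor_comp hT hi hm ((hTA.tube Φ hΦ).leaf y)
  obtain ⟨Ψ, hΨ, h0⟩ := hTA.cover (τ (slice Φ y 0))
  refine ⟨Ψ, hΨ, 0, ?_⟩
  have h2 := (hTA.tube Ψ hΨ).leaf 0
  have h3 := (hI M w hw f f _ _ h1 h2 hff.le ⟨τ (slice Φ y 0), ⟨0, rfl⟩, 0, by
    rw [← h0]
    show Ψ (0 + lv 0 0) = Ψ 0
    congr 1
    ext i
    fin_cases i <;> simp [lv]⟩).1
  rw [← h3, ← range_comp]
  rfl

/-- (4) closed odd representatives. -/
theorem odd_rep {τ : M → M} (hτ : ContMDiff 𝓘(ℝ, E4) 𝓘(ℝ, E4) ∞ τ) (hinv : ∀ x, τ (τ x) = x)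
    (hm : MinusOne τ) {s : F1 E4 M} (hs : Closed1 s) :
    ∃ (s' : F1 E4 M) (g : M → ℝ), Closed1 s' ∧ Odd1 τ s' ∧ SmoothF E4 g ∧ s' - s = dF g := by
  obtain ⟨f, hf, hf'⟩ := hm s hs
  have hg : SmoothF E4 (fun x => (-(1 / 2) : ℝ) * f x) := (smoothF_const _).mul hf
  refine ⟨s + dF (fun x => (-(1 / 2) : ℝ) * f x), fun x => (-(1 / 2) : ℝ) * f x,
    Closed1.add hs (closed1_dF hg), ?_, hg, by abel⟩
  have e : s + dF (fun x => (-(1 / 2) : ℝ) * f x) = s + (-(1 / 2) : ℝ) • dF f := by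
    rw [dF_smul _ hf]
  rw [e]
  intro x v
  have h1 := hf' x v
  have h2 := hf' (τ x) (dself τ x v)
  rw [hinv, dself_dself hτ hinv] at h2
  show at1 s (τ x) (dself τ x v) + (-(1 / 2) : ℝ) * at1 (dF f) (τ x) (dself τ x v) =
    -(at1 s x v + (-(1 / 2) : ℝ) * at1 (dF f) x v)
  linarith

end Closed

end

end Crest.Agent.R235.TorMin_510
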