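import Crest.Agent.R235.FibUniq_129
import Crest.Agent.R235.TorCut_649
import Crest.Agent.R235.TorMin_510
import Crest.Agent.R235.Ip_288
import Crest.Agent.R235.Ip2_288

/-!
Row 235 (S0364), package TOR / A2 (helper129): the closed coframe of a foliation by tori.
-/

set_option autoImplicit false
set_option maxSynthPendingDepth 3
set_option linter.unusedSectionVars false

open Set Function Filter MeasureTheory
open scoped Manifold ContDiff Topology

universe u

namespace Crest.Agent.R235.FibCo_129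

open Crest.Agent.R240 Crest.Agent.R240.Ch Crest.Agent.R235.Pull_129 Crest.Agent.R235.FibTr_129
  Crest.Agent.R235.FibPer_129 Crest.Agent.R235.FibFlux_129 Crest.Agent.R235.FibUniq_129

noncomputable section

/-! ### linear algebra -/

/-- a two-form with non-zero square is nondegenerate. -/
lemma nondeg {b : Bil} (hb : Alt b) (hW : W b b ≠ 0) {t : E4} (h : ∀ v, b v t = 0) : t = 0 := by
  have hr : ∀ i, ent b i 0 * t 0 + ent b i 1 * t 1 + ent b i 2 * t 2 + ent b i 3 * t 3 = 0 := by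
    intro i
    have h1 := h (ee i)
    rw [sum_ee t] at h1
    simp only [map_add, map_smul, smul_eq_mul] at h1
    unfold ent
    linarith
  have h0 := hr 0
  have h1 := hr 1
  have h2 := hr 2
  have h3 := hr 3
  rw [hb.ent_self] at h0 h1 h2 h3
  rw [hb.ent_swap 1 0] at h1
  rw [hb.ent_swap 2 0, hb.ent_swap 2 1] at h2
  rw [hb.ent_swap 3 0, hb.ent_swap 3 1, hb.ent_swap 3 2] at h3
  have hW2 : W b b = 2 * (ent b 0 1 * ent b 2 3 - ent b 0 2 * ent b 1 3 + ent b 0 3 * ent b 1 2) := by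
    unfold W; ring
  have hP : ent b 0 1 * ent b 2 3 - ent b 0 2 * ent b 1 3 + ent b 0 3 * ent b 1 2 ≠ 0 := by
    intro h; apply hW; rw [hW2, h, mul_zero]
  have k0 : (ent b 0 1 * ent b 2 3 - ent b 0 2 * ent b 1 3 + ent b 0 3 * ent b 1 2) * t 0 = 0 := by
    linear_combination (-ent b 2 3) * h1 + (ent b 1 3) * h2 - (ent b 1 2) * h3
  have k1 : (ent b 0 1 * ent b 2 3 - ent b 0 2 * ent b 1 3 + ent b 0 3 * ent b 1 2) * t 1 = 0 := by
    linear_combination (ent b 2 3) * h0 - (ent b 0 3) * h2 + (ent b 0 2) * h3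
  have k2 : (ent b 0 1 * ent b 2 3 - ent b 0 2 * ent b 1 3 + ent b 0 3 * ent b 1 2) * t 2 = 0 := by
    linear_combination (-ent b 1 3) * h0 + (ent b 0 3) * h1 - (ent b 0 1) * h3
  have k3 : (ent b 0 1 * ent b 2 3 - ent b 0 2 * ent b 1 3 + ent b 0 3 * ent b 1 2) * t 3 = 0 := by
    linear_combination (ent b 1 2) * h0 - (ent b 0 2) * h1 + (ent b 0 1) * h2
  exact ext4 ((mul_eq_zero.1 k0).resolve_left hP) ((mul_eq_zero.1 k1).resolve_left hP)
    ((mul_eq_zero.1 k2).resolve_left hP) ((mul_eq_zero.1 k3).resolve_left hP)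

/-- the form of `w 1` from its contraction with the leaf. -/
lemma form_w1 {l0 l1 a0 a1 : E4 →L[ℝ] ℝ} {b : Bil} (hb : Alt b)
    (hind : ∀ v, l0 v = 0 → l1 v = 0 → a0 v = 0 → a1 v = 0 → v = 0)
    (h : ∀ v t, l0 t = 0 → l1 t = 0 → b v t = -(l0 v * a0 t + l1 v * a1 t)) :
    ∃ m : ℝ, b = wed a0 l0 + wed a1 l1 + m • wed l0 l1 := by
  have hdel : FibLin_129.del l0 l1 a0 a1 ≠ 0 := by
    rw [FibLin_129.del_eq]
    have hker : (FibLin_129.cof l0 l1 a0 a1 : E4 →ₗ[ℝ] E4).ker = ⊥ := by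
      rw [LinearMap.ker_eq_bot']
      intro v hv
      have hv' : FibLin_129.cof l0 l1 a0 a1 v = 0 := hv
      have e0 := FibLin_129.cof_0 (l0 := l0) (l1 := l1) (a0 := a0) (a1 := a1) v
      have e1 := FibLin_129.cof_1 (l0 := l0) (l1 := l1) (a0 := a0) (a1 := a1) v
      have e2 := FibLin_129.cof_2 (l0 := l0) (l1 := l1) (a0 := a0) (a1 := a1) v
      have e3 := FibLin_129.cof_3 (l0 := l0) (l1 := l1) (a0 := a0) (a1 := a1) v
      rw [hv'] at e0 e1 e2 e3
      exact hind v e0.symm e1.symm e2.symm e3.symm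
    have hu : IsUnit (FibLin_129.cof l0 l1 a0 a1 : E4 →ₗ[ℝ] E4) :=
      (LinearMap.isUnit_iff_ker_eq_bot _).2 hker
    exact ((LinearMap.isUnit_iff_isUnit_det _).1 hu).ne_zero
  obtain ⟨B, hB1, hB2⟩ := FibLin_129.exists_frame hdel
  obtain ⟨p, q, r, s, m, k, hk⟩ := FibLin_129.expand6 hdel hb
  have c0 : ∀ i, l0 (B (ee i)) = ee i 0 := fun i => by
    rw [← FibLin_129.cof_0 (l0 := l0) (l1 := l1) (a0 := a0) (a1 := a1), hB1]
  have c1 : ∀ i, l1 (B (ee i)) = ee i 1 := fun i => by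
    rw [← FibLin_129.cof_1 (l0 := l0) (l1 := l1) (a0 := a0) (a1 := a1), hB1]
  have c2 : ∀ i, a0 (B (ee i)) = ee i 2 := fun i => by
    rw [← FibLin_129.cof_2 (l0 := l0) (l1 := l1) (a0 := a0) (a1 := a1), hB1]
  have c3 : ∀ i, a1 (B (ee i)) = ee i 3 := fun i => by
    rw [← FibLin_129.cof_3 (l0 := l0) (l1 := l1) (a0 := a0) (a1 := a1), hB1]
  have key : ∀ i j : Fin 4, ee j 0 = 0 → ee j 1 = 0 →
      p * (ee i 2 * ee j 0 - ee j 2 * ee i 0) + q * (ee i 2 * ee j 1 - ee j 2 * ee i 1)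
        + r * (ee i 3 * ee j 0 - ee j 3 * ee i 0) + s * (ee i 3 * ee j 1 - ee j 3 * ee i 1)
        + m * (ee i 0 * ee j 1 - ee j 0 * ee i 1) + k * (ee i 2 * ee j 3 - ee j 2 * ee i 3) =
      -(ee i 0 * ee j 2 + ee i 1 * ee j 3) := by
    intro i j h0 h1
    have e1 := h (B (ee i)) (B (ee j)) (by rw [c0, h0]) (by rw [c1, h1])
    rw [hk] at e1
    simp only [add_apply, smul_apply, wed_apply, smul_eq_mul, c0, c1, c2, c3] at e1
    linarith
  have k02 := key 0 2 (by simp) (by simp)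
  have k12 := key 1 2 (by simp) (by simp)
  have k32 := key 3 2 (by simp) (by simp)
  have k03 := key 0 3 (by simp) (by simp)
  have k13 := key 1 3 (by simp) (by simp)
  simp only [ee_apply, Fin.isValue, Fin.reduceEq, if_true, if_false] at k02 k12 k32 k03 k13
  have hp : p = 1 := by linarith
  have hq : q = 0 := by linarith
  have hr : r = 0 := by linarith
  have hs : s = 1 := by linarith
  have hkk : k = 0 := by linarith
  refine ⟨m, ?_⟩
  rw [hk, hp, hq, hr, hs, hkk]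
  simp only [one_smul, zero_smul, add_zero]

/-! ### the coframe from flux data -/

section Man

variable {M : Type u} [TopologicalSpace M] [T2Space M] [CompactSpace M]
  [ChartedSpace E4 M] [IsManifold 𝓘(ℝ, E4) ∞ M]

variable {w : Trip M} {f : H2 M} {Φ Ψ : E4 → M} {T : Set (E4 → M)} {g : Fin 2 → F1 E4 M}

/-- the properties of the global flux forms and of the leaf forms. -/
structure LA (w : Trip M) (T : Set (E4 → M)) (g l a : Fin 2 → F1 E4 M) : Prop where
  cl : ∀ k, Closed1 (l k)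
  ca : ∀ k, Closed1 (a k)
  flux : ∀ Φ ∈ T, ∃ u, Flux w g Φ (fun k => pb1 Φ (l k)) u
  eq : ∀ Φ ∈ T, ∀ (y v : E4) (s t : ℝ), pb2 Φ ((w 1).1.1 : F2 E4 M) y v (lv s t) =
    - ∑ k, pb1 Φ (l k) y v * pb1 Φ (a k) y (lv s t)

/-- the inverse differential. -/
lemma exists_Dinv (hΦ : Tube w f Φ) (y : E4) : ∃ B : E4 →L[ℝ] E4,
    (∀ v, dL (E := E4) Φ y (B v) = v) ∧ ∀ v, B (dL (E := E4) Φ y v) = v := by
  let e : E4 ≃L[ℝ] E4 := ContinuousLinearEquiv.ofBijective (dL (E := E4) Φ y)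
    (LinearMap.ker_eq_bot.2 (tube_bij hΦ y).1) (LinearMap.range_eq_top.2 (tube_bij hΦ y).2)
  exact ⟨e.symm, fun v => e.apply_symm_apply v, fun v => e.symm_apply_apply v⟩

set_option maxHeartbeats 1000000 in
theorem exists_la (hw : Pos3 w) (hT : TAtlas w f T) (hg : ∀ k, Closed1 (g k))
    (hne : ∀ Φ ∈ T, ∀ y, torI (slice Φ y) (wedG (g 0) (g 1)) ≠ 0) :
    ∃ l a : Fin 2 → F1 E4 M, LA w T g l a := by
  classical
  have hfl : ∀ Φ ∈ T, ∃ (L : Fin 2 → E4 → E4 →L[ℝ] ℝ) (u : Fin 2 → E4 → ℝ), Flux w g Φ L u :=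
    fun Φ hΦ => exists_flux hw (hT.tube Φ hΦ) hg (hne Φ hΦ)
  choose! L u hF using hfl
  choose C hCT hC0 using hT.cover
  choose B hB1 hB2 using fun x => exists_Dinv (hT.tube _ (hCT x)) 0
  let l : Fin 2 → F1 E4 M := fun k x => ((L (C x) k 0).comp (B x) : E4 →L[ℝ] ℝ)
  -- the pull-backs
  have pl : ∀ Φ ∈ T, ∀ k y, pb1 Φ (l k) y = L Φ k y := by
    intro Φ hΦ k y
    ext v
    have h0 : C (Φ y) 0 = Φ y := hC0 (Φ y)
    have h1 : pb1 Φ (l k) y v = L (C (Φ y)) k 0 (B (Φ y) (dL (E := E4) Φ y v)) := rfl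
    rw [h1]
    refine (uniq hT hΦ (hCT _) hg (hne _ (hCT _)) (hF Φ hΦ) (hF _ (hCT _)) h0 ?_ k).symm
    rw [hB1]
  have cl : ∀ k, Closed1 (l k) := by
    intro k
    have hcd : ∀ Φ ∈ T, ∀ y, ContDiffAt ℝ ∞ (pb1 Φ (l k)) y := by
      intro Φ hΦ y
      have h1 : pb1 Φ (l k) = L Φ k := funext fun y => pl Φ hΦ k y
      rw [h1]
      exact ((hF Φ hΦ).smL k).contDiffAt
    refine ⟨Smooth1.of_local fun x => ?_, fun p y hy => ?_⟩
    · refine ⟨x, mem_chart_source E4 x, ?_⟩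
      have h1 := rep1_contDiffAt (Φ := C x) (q := 0) (p := x) isOpen_univ
        (hT.tube _ (hCT x)).smooth.contMDiffOn (fun z _ => tube_bij (hT.tube _ (hCT x)) z)
        (mem_univ _) (by rw [hC0]; exact mem_chart_source E4 x) (hcd _ (hCT x) 0)
      rwa [hC0] at h1
    · set x := (chartAt E4 p).symm y with hx
      have hxs : x ∈ (chartAt E4 p).source := symm_mem hy
      have h1 := rep1_closed (Φ := C x) (q := 0) (p := p) isOpen_univ
        (hT.tube _ (hCT x)).smooth.contMDiffOn (fun z _ => tube_bij (hT.tube _ (hCT x)) z)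
        (mem_univ _) (by rw [hC0]; exact hxs) (hcd _ (hCT x) 0)
        (by
          have h2 : pb1 (C x) (l k) = L (C x) k := funext fun y => pl _ (hCT x) k y
          rw [h2]; exact (hF _ (hCT x)).closed k 0)
      rw [hC0, hx, (chartAt E4 p).right_inv hy] at h1
      exact h1
  -- the leaf forms
  obtain ⟨n, Φs, ρ, hρ⟩ := TorCut_649.exists_part hT
  let G : Fin 2 → M → ℝ := fun k => TorCut_649.glue Φs ρ (fun i => u (Φs i) k)
  have sG : ∀ k, SmoothF E4 (G k) := fun k =>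
    TorCut_649.glue_smooth hT hρ (fun i => (hF _ (hρ.mem i)).peru k)
      (fun i => (hF _ (hρ.mem i)).smu k)
  let a : Fin 2 → F1 E4 M := fun k => g k + dF (E := E4) (G k)
  have ca : ∀ k, Closed1 (a k) := fun k =>
    TorMin_510.Closed1.add (hg k) (TorMin_510.closed1_dF (sG k))
  refine ⟨l, a, cl, ca, fun Φ hΦ => ⟨u Φ, ?_⟩, ?_⟩
  · have h1 : (fun k => pb1 Φ (l k)) = L Φ := funext fun k => funext fun y => pl Φ hΦ k y
    rw [h1]
    exact hF Φ hΦ
  · intro Φ hΦ y v s t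
    -- the coordinates in the other tubes
    have hz : ∀ i, ∃ (z v' v'' : E4), Φ y ∈ range (Φs i) → Φs i z = Φ y ∧
        dmap (Φs i) z v' = dmap Φ y (lv s t) ∧ dmap (Φs i) z v'' = dmap Φ y v ∧
        ∃ s' t' : ℝ, v' = lv s' t' := by
      intro i
      by_cases hi : Φ y ∈ range (Φs i)
      · obtain ⟨z, hz⟩ := hi
        obtain ⟨s', t', h1⟩ := TorCut_649.exists_coord_leaf hT (hρ.mem i) hΦ hz s t
        obtain ⟨v'', h2⟩ := TorCut_649.exists_coord hT (hρ.mem i) (dmap Φ y v) z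
        exact ⟨z, lv s' t', v'', fun _ => ⟨hz, h1, h2, s', t', rfl⟩⟩
      · exact ⟨0, 0, 0, fun h => absurd h hi⟩
    choose z v' v'' hzv using hz
    have hd : ∀ k, pb1 Φ (dF (E := E4) (G k)) y (lv s t) =
        ∑ i, ρ i (Φ y) * fderiv ℝ (u (Φs i) k) (z i) (v' i) := fun k =>
      TorCut_649.glue_d hT hρ (fun i => (hF _ (hρ.mem i)).peru k)
        (fun i => (hF _ (hρ.mem i)).smu k) hΦ (fun i hi => ⟨(hzv i hi).1, (hzv i hi).2.1⟩)
    have hi : ∀ i, ρ i (Φ y) * pb2 Φ ((w 1).1.1 : F2 E4 M) y v (lv s t) =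
        ρ i (Φ y) * (- ∑ k, L Φ k y v * (pb1 Φ (g k) y (lv s t)
          + fderiv ℝ (u (Φs i) k) (z i) (v' i))) := by
      intro i
      by_cases hr : Φ y ∈ range (Φs i)
      · obtain ⟨h1, h2, h3, s', t', h4⟩ := hzv i hr
        congr 1
        have e1 := (hF _ (hρ.mem i)).eq (z i) (v'' i) s' t'
        rw [← h4] at e1
        have e2 : pb2 (Φs i) ((w 1).1.1 : F2 E4 M) (z i) (v'' i) (v' i) =
            pb2 Φ ((w 1).1.1 : F2 E4 M) y v (lv s t) := by
          rw [pb2_apply, pb2_apply]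
          have h2' : dL (E := E4) (Φs i) (z i) (v' i) = dL (E := E4) Φ y (lv s t) := h2
          have h3' : dL (E := E4) (Φs i) (z i) (v'' i) = dL (E := E4) Φ y v := h3
          rw [h1, h2', h3']
        have e3 : ∀ k, pb1 (Φs i) (g k) (z i) (v' i) = pb1 Φ (g k) y (lv s t) := by
          intro k
          rw [pb1_apply, pb1_apply]
          have h2' : dL (E := E4) (Φs i) (z i) (v' i) = dL (E := E4) Φ y (lv s t) := h2
          rw [h1, h2']
        have e4 : ∀ k, L (Φs i) k (z i) (v'' i) = L Φ k y v := fun k =>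
          (uniq hT hΦ (hρ.mem i) hg (hne _ (hρ.mem i)) (hF Φ hΦ) (hF _ (hρ.mem i)) h1 h3.symm
            k).symm
        rw [e2] at e1
        rw [e1]
        congr 1
        refine Finset.sum_congr rfl fun k _ => ?_
        rw [e3, e4]
      · have h1 : ρ i (Φ y) = 0 := hρ.off fun h2 => hr (TorCut_649.KT_sub h2)
        rw [h1, zero_mul, zero_mul]
    have hsum : pb2 Φ ((w 1).1.1 : F2 E4 M) y v (lv s t) =
        ∑ i, ρ i (Φ y) * pb2 Φ ((w 1).1.1 : F2 E4 M) y v (lv s t) := by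
      rw [← Finset.sum_mul, hρ.sum, one_mul]
    rw [hsum, Finset.sum_congr rfl fun i _ => hi i]
    have ha : ∀ k, pb1 Φ (a k) y (lv s t) = pb1 Φ (g k) y (lv s t) +
        ∑ i, ρ i (Φ y) * fderiv ℝ (u (Φs i) k) (z i) (v' i) := by
      intro k
      rw [← hd k]; rfl
    rw [Fin.sum_univ_two, ha, ha, pl Φ hΦ, pl Φ hΦ]
    have h1 : ∀ k, pb1 Φ (g k) y (lv s t) = ∑ i, ρ i (Φ y) * pb1 Φ (g k) y (lv s t) := by
      intro k
      rw [← Finset.sum_mul, hρ.sum, one_mul]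
    conv_rhs => rw [h1 0, h1 1]
    rw [← Finset.sum_add_distrib, ← Finset.sum_add_distrib, Finset.mul_sum, Finset.mul_sum,
      ← Finset.sum_add_distrib, ← Finset.sum_neg_distrib]
    refine Finset.sum_congr rfl fun i _ => ?_
    rw [Fin.sum_univ_two]
    ring

/-- flux forms and leaf forms give a coframe. -/
theorem cofr_of (hw : Pos3 w) (hT : TAtlas w f T) {l a : Fin 2 → F1 E4 M} (h : LA w T g l a) :
    Cofr w l a := by
  have leafdir : ∀ x : M, ∃ Φ ∈ T, Φ 0 = x ∧ ∀ t : E4, (∀ k, at1 (l k) x t = 0) →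
      ∃ s s' : ℝ, t = dL (E := E4) Φ 0 (lv s s') := by
    intro x
    obtain ⟨Φ, hΦ, h0⟩ := hT.cover x
    refine ⟨Φ, hΦ, h0, fun t ht => ?_⟩
    obtain ⟨u, hu⟩ := h.flux Φ hΦ
    obtain ⟨v, hv⟩ := (tube_bij (hT.tube Φ hΦ) 0).2 t
    have h1 : ∀ k, pb1 Φ (l k) 0 (bv (v 0) (v 1)) = 0 := by
      intro k
      have h2 : pb1 Φ (l k) 0 v = 0 := by
        rw [pb1_apply, hv, h0]; exact ht k
      have h3 := hu.leaf0 k 0 (v 2) (v 3)
      conv_lhs at h2 => rw [decomp v, map_add]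
      rw [h3, add_zero] at h2
      exact h2
    obtain ⟨e0, e1⟩ := hu.ind 0 _ _ h1
    refine ⟨v 2, v 3, ?_⟩
    rw [← hv]
    congr 1
    exact eq_lv e0 e1
  have leafform : ∀ (x : M) (V t : E4), (∀ k, at1 (l k) x t = 0) →
      val (w 1) x V t = -(at1 (l 0) x V * at1 (a 0) x t + at1 (l 1) x V * at1 (a 1) x t) := by
    intro x V t ht
    obtain ⟨Φ, hΦ, h0, h1⟩ := leafdir x
    obtain ⟨s, s', rfl⟩ := h1 t ht
    obtain ⟨v, rfl⟩ := (tube_bij (hT.tube Φ hΦ) 0).2 V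
    have h2 := h.eq Φ hΦ 0 v s s'
    rw [Fin.sum_univ_two] at h2
    subst h0
    exact h2
  have ind : ∀ (x : M) (v : E4), (∀ k, at1 (l k) x v = 0) → (∀ k, at1 (a k) x v = 0) → v = 0 := by
    intro x v hl ha
    have halt : Alt (val (w 1) x) := (w 1).1.2.1 x
    refine nondeg halt ?_ fun V => ?_
    · have h2 := hw x ![0, 1, 0] (by
        intro h0
        have := congrFun h0 1
        simp at this)
      simpa [Fin.sum_univ_three] using h2
    · rw [leafform x V v hl, ha 0, ha 1]; ring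
  refine ⟨h.cl, h.ca, ind, fun x => ?_, fun x u v hu hv => ?_⟩
  · exact form_w1 ((w 1).1.2.1 x)
      (fun v h0 h1 h2 h3 => ind x v (fun k => by fin_cases k <;> assumption)
        (fun k => by fin_cases k <;> assumption))
      (fun V t h0 h1 => leafform x V t (fun k => by fin_cases k <;> assumption))
  · obtain ⟨Φ, hΦ, h0, h1⟩ := leafdir x
    obtain ⟨s, s', rfl⟩ := h1 u hu
    obtain ⟨r, r', rfl⟩ := h1 v hv
    have h2 := (leaf_lag (hT.tube Φ hΦ) 0 s s' r r').2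
    subst h0
    exact h2

end Man

end

end Crest.Agent.R235.FibCo_129
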