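import Mathlib
import Crest.Agent.R240.Lin1

/-!
Row 235 (S0364), package TOR / FIB-A (helper129), part A1: pointwise linear algebra of a coframe
`l0, l1, a0, a1` (leaf = `ker l0 ∩ ker l1`), and the algebra of `3 × 3` Gram matrices.
-/

set_option autoImplicit false

open Crest.Agent.R240

namespace Crest.Agent.R235.FibLin_129

noncomputable section

/-! ### quadratic forms in three variables -/

/-- Schur complement criterion. -/
theorem posdef3 {g00 g01 g02 g11 g12 g22 : ℝ} (h11 : 0 < g11) (hD : 0 < g11 * g22 - g12 ^ 2)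
    (h : g01 ^ 2 * g22 - 2 * g01 * g02 * g12 + g02 ^ 2 * g11 < (g11 * g22 - g12 ^ 2) * g00)
    {c0 c1 c2 : ℝ} (hc : ¬ (c0 = 0 ∧ c1 = 0 ∧ c2 = 0)) :
    0 < g00 * c0 ^ 2 + g11 * c1 ^ 2 + g22 * c2 ^ 2 + 2 * g01 * c0 * c1 + 2 * g02 * c0 * c2
      + 2 * g12 * c1 * c2 := by
  set D := g11 * g22 - g12 ^ 2 with hDdef
  set z1 := D * c1 + c0 * (g22 * g01 - g12 * g02) with hz1
  set z2 := D * c2 + c0 * (g11 * g02 - g12 * g01) with hz2
  set S := g01 ^ 2 * g22 - 2 * g01 * g02 * g12 + g02 ^ 2 * g11 with hS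
  have key : g11 * D ^ 2 * (g00 * c0 ^ 2 + g11 * c1 ^ 2 + g22 * c2 ^ 2 + 2 * g01 * c0 * c1
      + 2 * g02 * c0 * c2 + 2 * g12 * c1 * c2) =
      (g11 * z1 + g12 * z2) ^ 2 + D * z2 ^ 2 + g11 * D * (D * g00 - S) * c0 ^ 2 := by
    rw [hz1, hz2, hS, hDdef]; ring
  have hpos : 0 < (g11 * z1 + g12 * z2) ^ 2 + D * z2 ^ 2 + g11 * D * (D * g00 - S) * c0 ^ 2 := by
    have hq : 0 < g11 * D * (D * g00 - S) := by
      apply mul_pos (mul_pos h11 hD); linarith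
    by_cases h0 : c0 = 0
    · have e1 : z1 = D * c1 := by rw [hz1, h0]; ring
      have e2 : z2 = D * c2 := by rw [hz2, h0]; ring
      by_cases h2 : c2 = 0
      · have h1 : c1 ≠ 0 := fun h1 => hc ⟨h0, h1, h2⟩
        have : (g11 * z1 + g12 * z2) ≠ 0 := by
          rw [e1, e2, h2]; simp [h11.ne', hD.ne', h1]
        have h3 := pow_pos (abs_pos.2 this) 2
        rw [sq_abs] at h3
        have h4 : 0 ≤ D * z2 ^ 2 := mul_nonneg hD.le (sq_nonneg _)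
        have h5 : 0 ≤ g11 * D * (D * g00 - S) * c0 ^ 2 := mul_nonneg hq.le (sq_nonneg _)
        linarith
      · have : z2 ≠ 0 := by rw [e2]; exact mul_ne_zero hD.ne' h2
        have h3 : 0 < z2 ^ 2 := by positivity
        have h4 : 0 < D * z2 ^ 2 := mul_pos hD h3
        have h5 : 0 ≤ g11 * D * (D * g00 - S) * c0 ^ 2 := mul_nonneg hq.le (sq_nonneg _)
        have h6 := sq_nonneg (g11 * z1 + g12 * z2)
        linarith
    · have h3 : 0 < c0 ^ 2 := by positivity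
      have h4 : 0 ≤ D * z2 ^ 2 := mul_nonneg hD.le (sq_nonneg _)
      have h5 := mul_pos hq h3
      have h6 := sq_nonneg (g11 * z1 + g12 * z2)
      linarith
  rw [← key] at hpos
  exact (pos_iff_pos_of_mul_pos hpos).1 (by positivity)

/-- a real quadratic form in three variables without zeros, positive at one point, is positive. -/
theorem pos_of_ne {g00 g01 g02 g11 g12 g22 : ℝ}
    (hne : ∀ c0 c1 c2 : ℝ, ¬ (c0 = 0 ∧ c1 = 0 ∧ c2 = 0) →
      g00 * c0 ^ 2 + g11 * c1 ^ 2 + g22 * c2 ^ 2 + 2 * g01 * c0 * c1 + 2 * g02 * c0 * c2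
      + 2 * g12 * c1 * c2 ≠ 0) (h11 : 0 < g11) (c0 c1 c2 : ℝ) (hc : ¬ (c0 = 0 ∧ c1 = 0 ∧ c2 = 0)) :
    0 < g00 * c0 ^ 2 + g11 * c1 ^ 2 + g22 * c2 ^ 2 + 2 * g01 * c0 * c1 + 2 * g02 * c0 * c2
      + 2 * g12 * c1 * c2 := by
  by_contra hcon
  have hlt := lt_of_le_of_ne (not_lt.1 hcon) (hne c0 c1 c2 hc)
  set Q : ℝ → ℝ → ℝ → ℝ := fun c0 c1 c2 => g00 * c0 ^ 2 + g11 * c1 ^ 2 + g22 * c2 ^ 2
    + 2 * g01 * c0 * c1 + 2 * g02 * c0 * c2 + 2 * g12 * c1 * c2 with hQ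
  have hcont : ContinuousOn (fun t : ℝ => Q (t * c0) ((1 - t) + t * c1) (t * c2)) (Set.Icc 0 1) := by
    apply Continuous.continuousOn
    simp only [hQ]
    fun_prop
  have h0 : 0 ≤ Q (0 * c0) ((1 - 0) + 0 * c1) (0 * c2) := by
    simp only [hQ]; ring_nf; exact h11.le
  have h1 : Q (1 * c0) ((1 - 1) + 1 * c1) (1 * c2) ≤ 0 := by
    simp only [hQ]; ring_nf; ring_nf at hlt; exact hlt.le
  obtain ⟨t, ht, hQt⟩ := intermediate_value_Icc' zero_le_one hcont ⟨h1, h0⟩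
  simp only [hQ] at hQt
  by_cases hz : t * c0 = 0 ∧ (1 - t) + t * c1 = 0 ∧ t * c2 = 0
  · have ht0 : t ≠ 0 := by
      rintro rfl; have := hz.2.1; norm_num at this
    have e0 : c0 = 0 := by simpa [ht0] using hz.1
    have e2 : c2 = 0 := by simpa [ht0] using hz.2.2
    rw [e0, e2] at hlt
    have : g11 * c1 ^ 2 < 0 := by
      have := hlt; ring_nf at this; ring_nf; exact this
    nlinarith [sq_nonneg c1, mul_nonneg h11.le (sq_nonneg c1)]
  · exact hne _ _ _ hz hQt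

/-! ### the coframe -/

section Coframe

variable (l0 l1 a0 a1 : E4 →L[ℝ] ℝ)

/-- the volume of the coframe. -/
def del : ℝ := W (wed l0 l1) (wed a0 a1)

/-- the map to the standard coordinates. -/
def cof : E4 →L[ℝ] E4 :=
  l0.smulRight (ee 0) + l1.smulRight (ee 1) + a0.smulRight (ee 2) + a1.smulRight (ee 3)

variable {l0 l1 a0 a1}

theorem cof_apply (v : E4) : cof l0 l1 a0 a1 v =
    l0 v • ee 0 + l1 v • ee 1 + a0 v • ee 2 + a1 v • ee 3 := by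
  simp [cof]

theorem cof_0 (v : E4) : (cof l0 l1 a0 a1 v) 0 = l0 v := by simp [cof_apply]
theorem cof_1 (v : E4) : (cof l0 l1 a0 a1 v) 1 = l1 v := by simp [cof_apply]
theorem cof_2 (v : E4) : (cof l0 l1 a0 a1 v) 2 = a0 v := by simp [cof_apply]
theorem cof_3 (v : E4) : (cof l0 l1 a0 a1 v) 3 = a1 v := by simp [cof_apply]

/-- the coordinate covectors. -/
def dx (i : Fin 4) : E4 →L[ℝ] ℝ := EuclideanSpace.proj i

@[simp] theorem dx_apply (i : Fin 4) (v : E4) : dx i v = v i := rfl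

theorem del_eq : del l0 l1 a0 a1 = LinearMap.det (cof l0 l1 a0 a1 : E4 →ₗ[ℝ] E4) := by
  have h1 : wed l0 l1 = pull (cof l0 l1 a0 a1) (wed (dx 0) (dx 1)) := by
    ext u v
    simp only [wed_apply, pull_apply, dx_apply, cof_0, cof_1]
  have h2 : wed a0 a1 = pull (cof l0 l1 a0 a1) (wed (dx 2) (dx 3)) := by
    ext u v
    simp only [wed_apply, pull_apply, dx_apply, cof_2, cof_3]
  unfold del
  rw [h1, h2, W_pull (wed_alt _ _) (wed_alt _ _)]
  have : W (wed (dx 0) (dx 1)) (wed (dx 2) (dx 3)) = 1 := by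
    simp [W, ent]
  rw [this, mul_one]

/-- the dual frame. -/
theorem exists_frame (h : del l0 l1 a0 a1 ≠ 0) : ∃ B : E4 →L[ℝ] E4,
    (∀ v, cof l0 l1 a0 a1 (B v) = v) ∧ ∀ v, B (cof l0 l1 a0 a1 v) = v := by
  rw [del_eq] at h
  have hu : IsUnit (LinearMap.det (cof l0 l1 a0 a1 : E4 →ₗ[ℝ] E4)) := isUnit_iff_ne_zero.2 h
  let e := LinearEquiv.ofIsUnitDet (v := Module.finBasis ℝ E4) (v' := Module.finBasis ℝ E4)
    (f := (cof l0 l1 a0 a1 : E4 →ₗ[ℝ] E4)) (by rwa [LinearMap.det_toMatrix])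
  refine ⟨e.symm.toContinuousLinearEquiv, fun v => ?_, fun v => ?_⟩
  · exact e.apply_symm_apply v
  · exact e.symm_apply_apply v

/-- expansion of a two-form in the coframe. -/
theorem expand6 (h : del l0 l1 a0 a1 ≠ 0) {b : Bil} (hb : Alt b) :
    ∃ p q r s m k : ℝ, b = p • wed a0 l0 + q • wed a0 l1 + r • wed a1 l0 + s • wed a1 l1
      + m • wed l0 l1 + k • wed a0 a1 := by
  obtain ⟨B, hB1, hB2⟩ := exists_frame h
  refine ⟨-ent (pull B b) 0 2, -ent (pull B b) 1 2, -ent (pull B b) 0 3, -ent (pull B b) 1 3,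
    ent (pull B b) 0 1, ent (pull B b) 2 3, ?_⟩
  ext u v
  have h1 : b u v = pull B b (cof l0 l1 a0 a1 u) (cof l0 l1 a0 a1 v) := by
    rw [pull_apply, hB2, hB2]
  rw [h1, alt_expand (hb.pull B)]
  simp only [cof_0, cof_1, cof_2, cof_3, add_apply, smul_apply, wed_apply, smul_eq_mul]
  ring

/-- expansion of a two-form vanishing on the leaf. -/
theorem expand5 (h : del l0 l1 a0 a1 ≠ 0) {b : Bil} (hb : Alt b)
    (hz : ∀ u v, l0 u = 0 → l1 u = 0 → l0 v = 0 → l1 v = 0 → b u v = 0) :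
    ∃ p q r s m : ℝ, b = p • wed a0 l0 + q • wed a0 l1 + r • wed a1 l0 + s • wed a1 l1
      + m • wed l0 l1 := by
  obtain ⟨p, q, r, s, m, k, hk⟩ := expand6 h hb
  refine ⟨p, q, r, s, m, ?_⟩
  obtain ⟨B, hB1, hB2⟩ := exists_frame h
  have c2 := hB1 (ee 2)
  have c3 := hB1 (ee 3)
  have e2 : l0 (B (ee 2)) = 0 ∧ l1 (B (ee 2)) = 0 ∧ a0 (B (ee 2)) = 1 ∧ a1 (B (ee 2)) = 0 := by
    refine ⟨?_, ?_, ?_, ?_⟩
    · rw [← cof_0 (l0 := l0) (l1 := l1) (a0 := a0) (a1 := a1), c2]; simp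
    · rw [← cof_1 (l0 := l0) (l1 := l1) (a0 := a0) (a1 := a1), c2]; simp
    · rw [← cof_2 (l0 := l0) (l1 := l1) (a0 := a0) (a1 := a1), c2]; simp
    · rw [← cof_3 (l0 := l0) (l1 := l1) (a0 := a0) (a1 := a1), c2]; simp
  have e3 : l0 (B (ee 3)) = 0 ∧ l1 (B (ee 3)) = 0 ∧ a0 (B (ee 3)) = 0 ∧ a1 (B (ee 3)) = 1 := by
    refine ⟨?_, ?_, ?_, ?_⟩
    · rw [← cof_0 (l0 := l0) (l1 := l1) (a0 := a0) (a1 := a1), c3]; simp
    · rw [← cof_1 (l0 := l0) (l1 := l1) (a0 := a0) (a1 := a1), c3]; simp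
    · rw [← cof_2 (l0 := l0) (l1 := l1) (a0 := a0) (a1 := a1), c3]; simp
    · rw [← cof_3 (l0 := l0) (l1 := l1) (a0 := a0) (a1 := a1), c3]; simp
  have hz' := hz _ _ e2.1 e2.2.1 e3.1 e3.2.1
  rw [hk] at hz'
  simp only [add_apply, smul_apply, wed_apply, smul_eq_mul, e2, e3] at hz'
  have hk0 : k = 0 := by linarith
  rw [hk, hk0, zero_smul, add_zero]

/-! #### the table -/

variable (l0 l1 a0 a1)

/-- `F`. -/
def FF : Bil := wed a0 l0 + wed a1 l1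
/-- `G`. -/
def GG : Bil := wed a0 l1 - wed a1 l0
/-- `N`. -/
def NN : Bil := wed l0 l1
/-- `A`. -/
def AA : Bil := wed a0 a1

variable {l0 l1 a0 a1}

theorem ent_wed (x y : E4 →L[ℝ] ℝ) (i j : Fin 4) :
    ent (wed x y) i j = x (ee i) * y (ee j) - y (ee i) * x (ee j) := rfl

theorem W_FF : W (FF l0 l1 a0 a1) (FF l0 l1 a0 a1) = -2 * del l0 l1 a0 a1 := by
  simp only [W, FF, del, ent_add, ent_wed]; ring
theorem W_GG : W (GG l0 l1 a0 a1) (GG l0 l1 a0 a1) = -2 * del l0 l1 a0 a1 := by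
  simp only [W, GG, del, ent_sub, ent_wed]; ring
theorem W_FG : W (FF l0 l1 a0 a1) (GG l0 l1 a0 a1) = 0 := by
  simp only [W, FF, GG, ent_add, ent_sub, ent_wed]; ring
theorem W_NN : W (NN l0 l1) (NN l0 l1) = 0 := by
  simp only [W, NN, ent_wed]; ring
theorem W_AA : W (AA a0 a1) (AA a0 a1) = 0 := by
  simp only [W, AA, ent_wed]; ring
theorem W_NA : W (NN l0 l1) (AA a0 a1) = del l0 l1 a0 a1 := rfl
theorem W_FN : W (FF l0 l1 a0 a1) (NN l0 l1) = 0 := by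
  simp only [W, FF, NN, ent_add, ent_wed]; ring
theorem W_GN : W (GG l0 l1 a0 a1) (NN l0 l1) = 0 := by
  simp only [W, GG, NN, ent_sub, ent_wed]; ring
theorem W_FA : W (FF l0 l1 a0 a1) (AA a0 a1) = 0 := by
  simp only [W, FF, AA, ent_add, ent_wed]; ring
theorem W_GA : W (GG l0 l1 a0 a1) (AA a0 a1) = 0 := by
  simp only [W, GG, AA, ent_sub, ent_wed]; ring

/-- a form vanishing on the leaf. -/
def BB (l0 l1 a0 a1 : E4 →L[ℝ] ℝ) (p q r s m : ℝ) : Bil :=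
  p • wed a0 l0 + q • wed a0 l1 + r • wed a1 l0 + s • wed a1 l1 + m • wed l0 l1

theorem W_BB (p q r s m p' q' r' s' m' : ℝ) :
    W (BB l0 l1 a0 a1 p q r s m) (BB l0 l1 a0 a1 p' q' r' s' m') =
      -del l0 l1 a0 a1 * (p * s' + p' * s - q * r' - q' * r) := by
  simp only [W, BB, del, ent_add, ent_smul, ent_wed]; ring
theorem W_BB_F (p q r s m : ℝ) :
    W (BB l0 l1 a0 a1 p q r s m) (FF l0 l1 a0 a1) = -del l0 l1 a0 a1 * (p + s) := by
  simp only [W, BB, FF, del, ent_add, ent_smul, ent_wed]; ring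
theorem W_BB_G (p q r s m : ℝ) :
    W (BB l0 l1 a0 a1 p q r s m) (GG l0 l1 a0 a1) = -del l0 l1 a0 a1 * (q - r) := by
  simp only [W, BB, GG, del, ent_add, ent_sub, ent_smul, ent_wed]; ring
theorem W_BB_N (p q r s m : ℝ) : W (BB l0 l1 a0 a1 p q r s m) (NN l0 l1) = 0 := by
  simp only [W, BB, NN, ent_add, ent_smul, ent_wed]; ring

end Coframe

end

end Crest.Agent.R235.FibLin_129
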