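import Crest.Agent.R235.FibPer_129
import Crest.Agent.R235.FibLin_129

/-!
Row 235 (S0364), package TOR / A2 (helper129): the flux forms in one product chart.
-/

set_option autoImplicit false
set_option maxSynthPendingDepth 3
set_option linter.unusedSectionVars false

open Set Function Filter MeasureTheory
open scoped Manifold ContDiff Topology

universe u

namespace Crest.Agent.R235.FibFlux_129

open Crest.Agent.R240 Crest.Agent.R240.Ch Crest.Agent.R235.Pull_129 Crest.Agent.R235.FibTr_129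
  Crest.Agent.R235.FibPer_129

noncomputable section

/-! ### leafwise constant functions -/

/-- constant along the leaves. -/
def LC {F : Type*} (f : E4 → F) : Prop := ∀ (y : E4) (s t : ℝ), f (y + lv s t) = f y

lemma LC.per {f : E4 → ℝ} (h : LC f) : Per f := fun y m n => h y m n

lemma LC.fderiv {F : Type*} [NormedAddCommGroup F] [NormedSpace ℝ F] {f : E4 → F} (h : LC f)
    {y : E4} (hd : DifferentiableAt ℝ f y) (s t : ℝ) : fderiv ℝ f y (lv s t) = 0 := by
  have h1 : HasDerivAt (fun r : ℝ => f (y + r • lv s t)) (_root_.fderiv ℝ f y (lv s t)) 0 := by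
    have h2 : HasDerivAt (fun r : ℝ => y + r • lv s t) (lv s t) 0 := by
      have := ((hasDerivAt_id (0 : ℝ)).smul_const (lv s t)).const_add y
      simpa using this
    have h3 : HasFDerivAt f (_root_.fderiv ℝ f y) (y + (0 : ℝ) • lv s t) := by
      rw [zero_smul, add_zero]; exact hd.hasFDerivAt
    exact h3.comp_hasDerivAt (0 : ℝ) h2
  have h4 : (fun r : ℝ => f (y + r • lv s t)) = fun _ => f y := by
    funext r
    rw [← lv_smul]; exact h _ _ _
  rw [h4] at h1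
  exact h1.unique (hasDerivAt_const _ _)

lemma fderiv_lv {f : E4 → ℝ} {y : E4} (s t : ℝ) : fderiv ℝ f y (lv s t) =
    s * fderiv ℝ f y (lv 1 0) + t * fderiv ℝ f y (lv 0 1) := by
  rw [lv_eq s t, map_add, map_smul, map_smul]; rfl

lemma P2_LC_mul {f g : E4 → ℝ} (h : LC f) (y : E4) :
    P2 (fun z => f z * g z) y = f y * P2 g y := by
  unfold P2
  rw [← intervalIntegral.integral_const_mul]
  congr 1
  funext r
  show f (y + lv r 0) * g (y + lv r 0) = _
  rw [h y r 0]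

lemma P3_LC_mul {f g : E4 → ℝ} (h : LC f) (y : E4) :
    P3 (fun z => f z * g z) y = f y * P3 g y := by
  unfold P3
  rw [← intervalIntegral.integral_const_mul]
  congr 1
  funext r
  show f (y + lv 0 r) * g (y + lv 0 r) = _
  rw [h y 0 r]

lemma P2_add {f g : E4 → ℝ} (hf : Continuous f) (hg : Continuous g) (y : E4) :
    P2 (fun z => f z + g z) y = P2 f y + P2 g y := by
  unfold P2
  have hl : Continuous fun r : ℝ => y + lv r 0 := by
    have : (fun r : ℝ => y + lv r 0) = fun r => y + r • lv 1 0 := by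
      funext r; rw [← lv_smul]; simp
    rw [this]; fun_prop
  exact intervalIntegral.integral_add ((hf.comp hl).intervalIntegrable _ _)
    ((hg.comp hl).intervalIntegrable _ _)

lemma P3_add {f g : E4 → ℝ} (hf : Continuous f) (hg : Continuous g) (y : E4) :
    P3 (fun z => f z + g z) y = P3 f y + P3 g y := by
  unfold P3
  have hl : Continuous fun r : ℝ => y + lv 0 r := by
    have : (fun r : ℝ => y + lv 0 r) = fun r => y + r • lv 0 1 := by
      funext r; rw [← lv_smul]; simp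
    rw [this]; fun_prop
  exact intervalIntegral.integral_add ((hf.comp hl).intervalIntegrable _ _)
    ((hg.comp hl).intervalIntegrable _ _)

/-! ### pull-backs by a tube -/

section Tube

variable {M : Type u} [TopologicalSpace M] [T2Space M] [CompactSpace M]
  [ChartedSpace E4 M] [IsManifold 𝓘(ℝ, E4) ∞ M]

variable {w : Trip M} {f : H2 M} {Φ : E4 → M}

lemma pb1_contDiff (hΦ : Tube w f Φ) {s : F1 E4 M} (hs : Smooth1 s) :
    ContDiff ℝ ∞ (pb1 Φ s) :=
  contDiffOn_univ.1 (pb1_contDiffOn isOpen_univ hΦ.smooth.contMDiffOn hs)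

lemma pb2_contDiff (hΦ : Tube w f Φ) {a : F2 E4 M} (ha : Smooth2 a) :
    ContDiff ℝ ∞ (pb2 Φ a) :=
  contDiffOn_univ.1 (pb2_contDiffOn isOpen_univ hΦ.smooth.contMDiffOn ha)

lemma dL_per (hΦ : Tube w f Φ) (y : E4) (m n : ℤ) :
    dL (E := E4) Φ (y + lv m n) = dL (E := E4) Φ y := by
  have h1 := dL_comp (E := E4) (Φ := Φ) (g := fun z => z + lv m n) (z := y) (hΦ.smooth _)
    (by fun_prop)
  have h2 : (fun z => Φ (z + lv (m : ℝ) n)) = Φ := funext fun z => hΦ.per z m n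
  rw [h2] at h1
  have h3 : fderiv ℝ (fun z : E4 => z + lv (m : ℝ) n) y = ContinuousLinearMap.id ℝ E4 := by
    rw [fderiv_add_const, fderiv_fun_id]
  rw [h3] at h1
  rw [h1]; rfl

lemma pb1_per (hΦ : Tube w f Φ) (s : F1 E4 M) (y : E4) (m n : ℤ) :
    pb1 Φ s (y + lv m n) = pb1 Φ s y := by
  ext v
  rw [pb1_apply, pb1_apply, dL_per hΦ, hΦ.per]

lemma pb2_per (hΦ : Tube w f Φ) (a : F2 E4 M) (y : E4) (m n : ℤ) :
    pb2 Φ a (y + lv m n) = pb2 Φ a y := by
  ext u v
  rw [pb2_apply, pb2_apply, dL_per hΦ, hΦ.per]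

lemma closed1_pb (hΦ : Tube w f Φ) {s : F1 E4 M} (hs : Closed1 s) (y : E4) :
    d1 (pb1 Φ s) y = 0 := by
  ext u v
  have h := d1_pb1 isOpen_univ hΦ.smooth.contMDiffOn (mem_univ y) hs.1 u v
  rw [h, pb2_apply]
  have h2 : dG s (Φ y) = 0 := hs.2 (Φ y) _ (mem_chart_target E4 (Φ y))
  have h3 : at2 (dG s) (Φ y) = 0 := h2
  rw [h3]
  rfl

/-- the pulled back forms `w i`. -/
lemma alt_pb2 (a : Z2 M) (y : E4) : Alt (pb2 Φ (a.1.1 : F2 E4 M) y) := fun v => by
  rw [pb2_apply]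
  exact a.1.2.1 _ _

lemma dd_pb (hΦ : Tube w f Φ) (a : Z2 M) (y u v z : E4) :
    dd (pb2 Φ (a.1.1 : F2 E4 M)) y u v z = 0 :=
  dd_pb2 isOpen_univ hΦ.smooth.contMDiffOn (mem_univ y) a.1.2 a.2 u v z

/-- the wedge square of a pulled back combination does not vanish. -/
lemma W_pb (hw : Pos3 w) (hΦ : Tube w f Φ) (y : E4) {c c' : ℝ} (hc : ¬ (c = 0 ∧ c' = 0)) :
    W (c • pb2 Φ ((w 1).1.1 : F2 E4 M) y + c' • pb2 Φ ((w 2).1.1 : F2 E4 M) y)
      (c • pb2 Φ ((w 1).1.1 : F2 E4 M) y + c' • pb2 Φ ((w 2).1.1 : F2 E4 M) y) ≠ 0 := by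
  have h1 : c • pb2 Φ ((w 1).1.1 : F2 E4 M) y + c' • pb2 Φ ((w 2).1.1 : F2 E4 M) y =
      pull (dL (E := E4) Φ y) (c • val (w 1) (Φ y) + c' • val (w 2) (Φ y)) := by
    ext u v
    rw [pull_apply]
    rfl
  have ha : ∀ i, Alt (val (w i) (Φ y)) := fun i => (w i).1.2.1 (Φ y)
  have halt : Alt (c • val (w 1) (Φ y) + c' • val (w 2) (Φ y)) := fun v => by
    simp only [add_apply, smul_apply, smul_eq_mul]
    rw [ha 1 v, ha 2 v]; ring
  rw [h1, W_pull halt halt]
  refine mul_ne_zero ?_ ?_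
  · have hb := tube_bij hΦ y
    have hu : IsUnit ((dL (E := E4) Φ y : E4 →L[ℝ] E4) : E4 →ₗ[ℝ] E4) := by
      rw [LinearMap.isUnit_iff_ker_eq_bot]
      exact LinearMap.ker_eq_bot.2 hb.1
    exact (LinearMap.isUnit_iff_isUnit_det _).1 hu |>.ne_zero
  · have h2 := hw (Φ y) ![0, c, c'] (by
      intro h0
      apply hc
      exact ⟨by simpa using congrFun h0 1, by simpa using congrFun h0 2⟩)
    simpa [Fin.sum_univ_three] using h2

/-- the pointwise non-degeneracy of the flux integrand. -/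
lemma flux_ne (hw : Pos3 w) (hΦ : Tube w f Φ) (y : E4) {s t : ℝ} (hst : ¬ (s = 0 ∧ t = 0)) :
    pb2 Φ ((w 1).1.1 : F2 E4 M) y (bv s t) (lv 1 0) *
        pb2 Φ ((w 2).1.1 : F2 E4 M) y (bv s t) (lv 0 1) -
      pb2 Φ ((w 1).1.1 : F2 E4 M) y (bv s t) (lv 0 1) *
        pb2 Φ ((w 2).1.1 : F2 E4 M) y (bv s t) (lv 1 0) ≠ 0 := by
  set m := pb2 Φ ((w 1).1.1 : F2 E4 M) y with hm
  set n := pb2 Φ ((w 2).1.1 : F2 E4 M) y with hn
  intro h0
  -- a combination killing both
  obtain ⟨c, c', hcc, e2, e3⟩ : ∃ c c' : ℝ, ¬ (c = 0 ∧ c' = 0) ∧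
      c * m (bv s t) (lv 1 0) + c' * n (bv s t) (lv 1 0) = 0 ∧
      c * m (bv s t) (lv 0 1) + c' * n (bv s t) (lv 0 1) = 0 := by
    by_cases hz : m (bv s t) (lv 1 0) = 0 ∧ n (bv s t) (lv 1 0) = 0
    · by_cases hz' : m (bv s t) (lv 0 1) = 0 ∧ n (bv s t) (lv 0 1) = 0
      · exact ⟨1, 0, by simp, by rw [hz.1, hz.2]; ring, by rw [hz'.1, hz'.2]; ring⟩
      · refine ⟨n (bv s t) (lv 0 1), - m (bv s t) (lv 0 1), ?_, by rw [hz.1, hz.2]; ring, by ring⟩
        intro hh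
        exact hz' ⟨by linarith [hh.2], hh.1⟩
    · refine ⟨n (bv s t) (lv 1 0), - m (bv s t) (lv 1 0), ?_, by ring, by linarith⟩
      intro hh
      exact hz ⟨by linarith [hh.2], hh.1⟩
  have hW := W_pb hw hΦ y hcc
  rw [← hm, ← hn] at hW
  apply hW
  set β := c • m + c' • n with hβ
  have hβalt : Alt β := fun v => by
    have h1 : m v v = 0 := alt_pb2 (w 1) y v
    have h2 : n v v = 0 := alt_pb2 (w 2) y v
    simp only [hβ, add_apply, smul_apply, smul_eq_mul, h1, h2]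
    ring
  have ebv : bv s t = s • ee 0 + t • ee 1 := by
    apply ext4 <;> simp
  have elv2 : lv 1 0 = ee 2 := by apply ext4 <;> simp
  have elv3 : lv 0 1 = ee 3 := by apply ext4 <;> simp
  have h23 : ent β 2 3 = 0 := by
    have h := leaf_lag hΦ y 1 0 0 1
    rw [elv2, elv3] at h
    show β (ee 2) (ee 3) = 0
    simp only [hβ, add_apply, smul_apply, smul_eq_mul, hm, hn, h.1, h.2]
    ring
  have hA : s * ent β 0 2 + t * ent β 1 2 = 0 := by
    have : β (bv s t) (lv 1 0) = 0 := by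
      simp only [hβ, add_apply, smul_apply, smul_eq_mul]; exact e2
    rw [ebv, elv2, map_add, map_smul, map_smul] at this
    simpa [ent] using this
  have hB : s * ent β 0 3 + t * ent β 1 3 = 0 := by
    have : β (bv s t) (lv 0 1) = 0 := by
      simp only [hβ, add_apply, smul_apply, smul_eq_mul]; exact e3
    rw [ebv, elv3, map_add, map_smul, map_smul] at this
    simpa [ent] using this
  have hdet : ent β 0 2 * ent β 1 3 - ent β 0 3 * ent β 1 2 = 0 := by
    by_cases hs : s = 0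
    · have ht : t ≠ 0 := fun ht => hst ⟨hs, ht⟩
      have h1 : ent β 1 2 = 0 := by
        rw [hs] at hA; simpa [ht] using hA
      have h2 : ent β 1 3 = 0 := by
        rw [hs] at hB; simpa [ht] using hB
      rw [h1, h2]; ring
    · have : s * (ent β 0 2 * ent β 1 3 - ent β 0 3 * ent β 1 2) = 0 := by
        linear_combination (ent β 1 3) * hA - (ent β 1 2) * hB
      exact (mul_eq_zero.1 this).resolve_left hs
  unfold W
  rw [h23]
  linear_combination (-2) * hdet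

/-- the flux data of a tube: the closed forms `L k` (vanishing on the leaves) and the periodic
functions `u k` with `w1(v, ·) = - ∑ L k (v) (g k + d (u k))` on the leaves. -/
structure Flux (w : Trip M) (g : Fin 2 → F1 E4 M) (Φ : E4 → M) (L : Fin 2 → E4 → E4 →L[ℝ] ℝ)
    (u : Fin 2 → E4 → ℝ) : Prop where
  smL : ∀ k, ContDiff ℝ ∞ (L k)
  leafc : ∀ k (y : E4) (s t : ℝ), L k (y + lv s t) = L k y
  leaf0 : ∀ k (y : E4) (s t : ℝ), L k y (lv s t) = 0
  closed : ∀ k y, d1 (L k) y = 0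
  ind : ∀ (y : E4) (s t : ℝ), (∀ k, L k y (bv s t) = 0) → s = 0 ∧ t = 0
  smu : ∀ k, ContDiff ℝ ∞ (u k)
  peru : ∀ k (y : E4) (m n : ℤ), u k (y + lv m n) = u k y
  eq : ∀ (y v : E4) (s t : ℝ), pb2 Φ ((w 1).1.1 : F2 E4 M) y v (lv s t) =
    - ∑ k, L k y v * (pb1 Φ (g k) y (lv s t) + fderiv ℝ (u k) y (lv s t))

/-- `torI` of a product of one-forms over a leaf. -/
lemma torI_wedG (hΦ : Tube w f Φ) (g0 g1 : F1 E4 M) (y : E4) :
    torI (slice Φ y) (wedG g0 g1) =
      ∫ q : Fin 2 → ℝ in Set.pi univ (fun _ => Set.Icc (0 : ℝ) 1),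
        (pb1 Φ g0 (y + lv (q 0) (q 1)) (lv 1 0) * pb1 Φ g1 (y + lv (q 0) (q 1)) (lv 0 1) -
          pb1 Φ g0 (y + lv (q 0) (q 1)) (lv 0 1) * pb1 Φ g1 (y + lv (q 0) (q 1)) (lv 1 0)) := by
  unfold torI
  congr 1
  funext q
  rw [slice_dL hΦ, slice_dL hΦ]
  have h0 : (EuclideanSpace.single (0 : Fin 2) (1 : ℝ)) 0 = 1 := by simp
  have h1 : (EuclideanSpace.single (0 : Fin 2) (1 : ℝ)) 1 = 0 := by simp
  have h2 : (EuclideanSpace.single (1 : Fin 2) (1 : ℝ)) 0 = 0 := by simp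
  have h3 : (EuclideanSpace.single (1 : Fin 2) (1 : ℝ)) 1 = 1 := by simp
  rw [h0, h1, h2, h3]
  show at1 g0 _ (dL (E := E4) Φ (y + lv (q 0) (q 1)) (lv 1 0)) *
      at1 g1 _ (dL (E := E4) Φ (y + lv (q 0) (q 1)) (lv 0 1)) -
      at1 g1 _ (dL (E := E4) Φ (y + lv (q 0) (q 1)) (lv 1 0)) *
      at1 g0 _ (dL (E := E4) Φ (y + lv (q 0) (q 1)) (lv 0 1)) = _
  rw [mul_comm (at1 g1 _ _) (at1 g0 _ _)]
  rfl

/-- a continuous function without zeros has a non-zero integral over the unit square. -/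
lemma int_ne {F : (Fin 2 → ℝ) → ℝ} (hF : Continuous F) (h : ∀ q, F q ≠ 0) :
    (∫ q in Set.pi univ (fun _ => Set.Icc (0 : ℝ) 1), F q) ≠ 0 := by
  have hK : IsCompact (Set.pi univ (fun _ : Fin 2 => Set.Icc (0 : ℝ) 1)) :=
    isCompact_univ_pi fun _ => isCompact_Icc
  have hvol : (volume (Set.pi univ (fun _ : Fin 2 => Set.Icc (0 : ℝ) 1))) = 1 := by
    rw [volume_pi_pi]; simp
  have main : ∀ G : (Fin 2 → ℝ) → ℝ, Continuous G → (∀ q, 0 < G q) →
      0 < ∫ q in Set.pi univ (fun _ => Set.Icc (0 : ℝ) 1), G q := by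
    intro G hG hpos
    rw [setIntegral_pos_iff_support_of_nonneg_ae
      (Filter.Eventually.of_forall fun q => (hpos q).le) (hG.continuousOn.integrableOn_compact hK)]
    have : Function.support G = univ := by
      ext q; simp [(hpos q).ne']
    rw [this, univ_inter, hvol]
    exact one_pos
  rcases lt_or_gt_of_ne (h 0) with h0 | h0
  · have hneg : ∀ q, 0 < -F q := by
      intro q
      by_contra hq
      have hq' : 0 ≤ F q := by linarith
      obtain ⟨z, hz⟩ := mem_range_of_exists_le_of_exists_ge hF ⟨0, h0.le⟩ ⟨q, hq'⟩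
      exact h z hz
    have := main (fun q => -F q) hF.neg hneg
    rw [integral_neg] at this
    intro h1
    rw [h1] at this
    simp at this
  · have hpos : ∀ q, 0 < F q := by
      intro q
      by_contra hq
      have hq' : F q ≤ 0 := by linarith
      obtain ⟨z, hz⟩ := mem_range_of_exists_le_of_exists_ge hF ⟨q, hq'⟩ ⟨0, h0.le⟩
      exact h z hz
    exact (main F hF hpos).ne'

lemma fderiv_mul_leaf {a b : E4 → ℝ} {y : E4} (ha : DifferentiableAt ℝ a y)
    (hb : DifferentiableAt ℝ b y) (hl : LC a) (s t : ℝ) :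
    fderiv ℝ (fun z => a z * b z) y (lv s t) = a y * fderiv ℝ b y (lv s t) := by
  rw [fderiv_fun_mul ha hb]
  simp only [add_apply, smul_apply, smul_eq_mul, hl.fderiv ha]
  ring

lemma fderiv_add3 {p a0 g0 a1 g1 : E4 → ℝ} {y : E4} (hp : DifferentiableAt ℝ p y)
    (h0 : DifferentiableAt ℝ a0 y) (k0 : DifferentiableAt ℝ g0 y) (h1 : DifferentiableAt ℝ a1 y)
    (k1 : DifferentiableAt ℝ g1 y) (l0 : LC a0) (l1 : LC a1) (s t : ℝ) :
    fderiv ℝ (fun z => p z + (a0 z * g0 z + a1 z * g1 z)) y (lv s t) =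
      fderiv ℝ p y (lv s t) + (a0 y * fderiv ℝ g0 y (lv s t) + a1 y * fderiv ℝ g1 y (lv s t)) := by
  have m0 : DifferentiableAt ℝ (fun z => a0 z * g0 z) y := h0.mul k0
  have m1 : DifferentiableAt ℝ (fun z => a1 z * g1 z) y := h1.mul k1
  have m2 : DifferentiableAt ℝ (fun z => a0 z * g0 z + a1 z * g1 z) y := m0.add m1
  rw [fderiv_fun_add hp m2, fderiv_fun_add m0 m1]
  simp only [add_apply]
  rw [fderiv_mul_leaf h0 k0 l0, fderiv_mul_leaf h1 k1 l1]

lemma fderiv_neg2 {a0 g0 a1 g1 : E4 → ℝ} {y : E4}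
    (h0 : DifferentiableAt ℝ a0 y) (k0 : DifferentiableAt ℝ g0 y) (h1 : DifferentiableAt ℝ a1 y)
    (k1 : DifferentiableAt ℝ g1 y) (l0 : LC a0) (l1 : LC a1) (s t : ℝ) :
    fderiv ℝ (fun z => -(a0 z * g0 z + a1 z * g1 z)) y (lv s t) =
      -(a0 y * fderiv ℝ g0 y (lv s t) + a1 y * fderiv ℝ g1 y (lv s t)) := by
  have m0 : DifferentiableAt ℝ (fun z => a0 z * g0 z) y := h0.mul k0
  have m1 : DifferentiableAt ℝ (fun z => a1 z * g1 z) y := h1.mul k1
  rw [fderiv_fun_neg, fderiv_fun_add m0 m1]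
  simp only [neg_apply, add_apply]
  rw [fderiv_mul_leaf h0 k0 l0, fderiv_mul_leaf h1 k1 l1]

lemma P2_add3 {p a0 g0 a1 g1 : E4 → ℝ} (hp : Continuous p) (h0 : Continuous a0)
    (k0 : Continuous g0) (h1 : Continuous a1) (k1 : Continuous g1) (l0 : LC a0) (l1 : LC a1)
    (y : E4) : P2 (fun z => p z + (a0 z * g0 z + a1 z * g1 z)) y =
      P2 p y + (a0 y * P2 g0 y + a1 y * P2 g1 y) := by
  have m0 : Continuous (fun z => a0 z * g0 z) := h0.mul k0
  have m1 : Continuous (fun z => a1 z * g1 z) := h1.mul k1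
  have m2 : Continuous (fun z => a0 z * g0 z + a1 z * g1 z) := m0.add m1
  rw [P2_add hp m2, P2_add m0 m1, P2_LC_mul l0, P2_LC_mul l1]

lemma P3_add3 {p a0 g0 a1 g1 : E4 → ℝ} (hp : Continuous p) (h0 : Continuous a0)
    (k0 : Continuous g0) (h1 : Continuous a1) (k1 : Continuous g1) (l0 : LC a0) (l1 : LC a1)
    (y : E4) : P3 (fun z => p z + (a0 z * g0 z + a1 z * g1 z)) y =
      P3 p y + (a0 y * P3 g0 y + a1 y * P3 g1 y) := by
  have m0 : Continuous (fun z => a0 z * g0 z) := h0.mul k0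
  have m1 : Continuous (fun z => a1 z * g1 z) := h1.mul k1
  have m2 : Continuous (fun z => a0 z * g0 z + a1 z * g1 z) := m0.add m1
  rw [P3_add hp m2, P3_add m0 m1, P3_LC_mul l0, P3_LC_mul l1]

/-- the coordinate covectors of the base. -/
def pr (i : Fin 4) : E4 →L[ℝ] ℝ := EuclideanSpace.proj i

lemma pr_apply (i : Fin 4) (v : E4) : pr i v = v i := rfl

set_option maxHeartbeats 1000000 in
theorem exists_flux (hw : Pos3 w) (hΦ : Tube w f Φ) {g : Fin 2 → F1 E4 M}
    (hg : ∀ k, Closed1 (g k)) (hne : ∀ y, torI (slice Φ y) (wedG (g 0) (g 1)) ≠ 0) :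
    ∃ L u, Flux w g Φ L u := by
  classical
  set m := pb2 Φ ((w 1).1.1 : F2 E4 M) with hm
  set n := pb2 Φ ((w 2).1.1 : F2 E4 M) with hn
  set γ : Fin 2 → E4 → E4 →L[ℝ] ℝ := fun k => pb1 Φ (g k) with hγ
  have sm_m : ContDiff ℝ ∞ m := pb2_contDiff hΦ (w 1).1.2
  have sm_n : ContDiff ℝ ∞ n := pb2_contDiff hΦ (w 2).1.2
  have sm_γ : ∀ k, ContDiff ℝ ∞ (γ k) := fun k => pb1_contDiff hΦ (hg k).1
  have al_m : ∀ y, Alt (m y) := fun y => alt_pb2 (w 1) y
  have al_n : ∀ y, Alt (n y) := fun y => alt_pb2 (w 2) y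
  have pm : ∀ (y : E4) (k l : ℤ), m (y + lv k l) = m y := pb2_per hΦ _
  have pn : ∀ (y : E4) (k l : ℤ), n (y + lv k l) = n y := pb2_per hΦ _
  have pγ : ∀ j (y : E4) (k l : ℤ), γ j (y + lv k l) = γ j y := fun j => pb1_per hΦ _
  have dm : ∀ y u v z, dd m y u v z = 0 := dd_pb hΦ (w 1)
  have dn : ∀ y u v z, dd n y u v z = 0 := dd_pb hΦ (w 2)
  have dγ : ∀ k y, d1 (γ k) y = 0 := fun k y => closed1_pb hΦ (hg k) y
  have m0 : ∀ y s t s' t', m y (lv s t) (lv s' t') = 0 := fun y s t s' t' =>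
    (leaf_lag hΦ y s t s' t').1
  have n0 : ∀ y s t s' t', n y (lv s t) (lv s' t') = 0 := fun y s t s' t' =>
    (leaf_lag hΦ y s t s' t').2
  -- smoothness of the entries
  have sm_app : ∀ (b e : E4), ContDiff ℝ ∞ (fun y => m y b e) := fun b e =>
    (sm_m.clm_apply contDiff_const).clm_apply contDiff_const
  have sn_app : ∀ (b e : E4), ContDiff ℝ ∞ (fun y => n y b e) := fun b e =>
    (sm_n.clm_apply contDiff_const).clm_apply contDiff_const
  have sγ_app : ∀ k (e : E4), ContDiff ℝ ∞ (fun y => γ k y e) := fun k e =>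
    (sm_γ k).clm_apply contDiff_const
  have pm_app : ∀ (b e : E4), Per (fun y => m y b e) := fun b e y k l => by
    show m (y + lv k l) b e = m y b e
    rw [pm]
  have pn_app : ∀ (b e : E4), Per (fun y => n y b e) := fun b e y k l => by
    show n (y + lv k l) b e = n y b e
    rw [pn]
  have pγ_app : ∀ k (e : E4), Per (fun y => γ k y e) := fun j e y k l => by
    show γ j (y + lv k l) e = γ j y e
    rw [pγ]
  have clm : ∀ b : E4, Cl (fun y => m y b (lv 1 0)) (fun y => m y b (lv 0 1)) := fun b =>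
    base_cl sm_m al_m dm (fun y => m0 y _ _ _ _) b
  have cln : ∀ b : E4, Cl (fun y => n y b (lv 1 0)) (fun y => n y b (lv 0 1)) := fun b =>
    base_cl sm_n al_n dn (fun y => n0 y _ _ _ _) b
  have clγ : ∀ k, Cl (fun y => γ k y (lv 1 0)) (fun y => γ k y (lv 0 1)) := fun k y => by
    have hd : DifferentiableAt ℝ (γ k) y := (sm_γ k).contDiffAt.differentiableAt infty_ne_zero
    have h1 : ∀ e v : E4, fderiv ℝ (fun y => γ k y e) y v = fderiv ℝ (γ k) y v e := fun e v => by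
      rw [fderiv_clm_apply hd (differentiableAt_const e)]
      simp
    show fderiv ℝ (fun y => γ k y (lv 0 1)) y (lv 1 0) = fderiv ℝ (fun y => γ k y (lv 1 0)) y (lv 0 1)
    rw [h1, h1]
    have h2 := dγ k y
    have h3 : d1 (γ k) y (lv 1 0) (lv 0 1) = 0 := by rw [h2]; rfl
    rw [d1_apply] at h3
    linarith
  -- constants
  set c2 : Fin 2 → ℝ := fun k => P2 (fun y => γ k y (lv 1 0)) 0 with hc2
  set c3 : Fin 2 → ℝ := fun k => P3 (fun y => γ k y (lv 0 1)) 0 with hc3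
  have e2 : ∀ k y, P2 (fun y => γ k y (lv 1 0)) y = c2 k := fun k y =>
    P2_const (sm_γ k) (dγ k) (pγ k) y 0
  have e3 : ∀ k y, P3 (fun y => γ k y (lv 0 1)) y = c3 k := fun k y =>
    P3_const (sm_γ k) (dγ k) (pγ k) y 0
  set D : ℝ := c2 0 * c3 1 - c3 0 * c2 1 with hD
  have hD0 : D ≠ 0 := by
    have h1 := hne 0
    rw [torI_wedG hΦ] at h1
    have h2 := riem (sγ_app 0 (lv 1 0)) (sγ_app 0 (lv 0 1)) (pγ_app 0 _) (pγ_app 0 _) (clγ 0)
      (sγ_app 1 (lv 1 0)) (sγ_app 1 (lv 0 1)) (pγ_app 1 _) (pγ_app 1 _) (clγ 1) 0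
    rw [e2, e2, e3, e3] at h2
    rw [hD, ← h2]
    exact h1
  -- the periods of the contractions
  set A2 : E4 → E4 → ℝ := fun b => P2 (fun y => m y b (lv 1 0)) with hA2
  set A3 : E4 → E4 → ℝ := fun b => P3 (fun y => m y b (lv 0 1)) with hA3
  have sA2 : ∀ b, ContDiff ℝ ∞ (A2 b) := fun b => contDiff_P2 (sm_app b _)
  have sA3 : ∀ b, ContDiff ℝ ∞ (A3 b) := fun b => contDiff_P3 (sm_app b _)
  have lA2 : ∀ b, LC (A2 b) := fun b y s t =>
    P2_leaf (sm_app b _) (sm_app b _) (pm_app b _) (pm_app b _) (clm b) y s t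
  have lA3 : ∀ b, LC (A3 b) := fun b y s t =>
    P3_leaf (sm_app b _) (sm_app b _) (pm_app b _) (pm_app b _) (clm b) y s t
  -- the coefficients
  set Lm : Fin 2 → E4 → E4 → ℝ := fun k b y =>
    if k = 0 then -(A2 b y * c3 1 - A3 b y * c2 1) / D
      else -(A3 b y * c2 0 - A2 b y * c3 0) / D with hLm
  have Lm0 : ∀ b y, Lm 0 b y = -(A2 b y * c3 1 - A3 b y * c2 1) / D := fun b y => by
    simp only [hLm, if_true]
  have Lm1 : ∀ b y, Lm 1 b y = -(A3 b y * c2 0 - A2 b y * c3 0) / D := fun b y => by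
    have : (1 : Fin 2) ≠ 0 := by decide
    simp only [hLm, if_neg this]
  have sLm : ∀ k b, ContDiff ℝ ∞ (Lm k b) := by
    intro k b
    fin_cases k
    · have : Lm 0 b = fun y => -(A2 b y * c3 1 - A3 b y * c2 1) / D := funext fun y => Lm0 b y
      show ContDiff ℝ ∞ (Lm 0 b)
      rw [this]
      exact ((((sA2 b).mul contDiff_const).sub ((sA3 b).mul contDiff_const)).neg).div_const D
    · have : Lm 1 b = fun y => -(A3 b y * c2 0 - A2 b y * c3 0) / D := funext fun y => Lm1 b y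
      show ContDiff ℝ ∞ (Lm 1 b)
      rw [this]
      exact ((((sA3 b).mul contDiff_const).sub ((sA2 b).mul contDiff_const)).neg).div_const D
  have lLm : ∀ k b, LC (Lm k b) := by
    intro k b y s t
    simp only [hLm]
    rw [lA2 b y s t, lA3 b y s t]
  have solve2 : ∀ b y, A2 b y = -(Lm 0 b y * c2 0 + Lm 1 b y * c2 1) := by
    intro b y
    rw [Lm0, Lm1]
    field_simp
    rw [hD]; ring
  have solve3 : ∀ b y, A3 b y = -(Lm 0 b y * c3 0 + Lm 1 b y * c3 1) := by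
    intro b y
    rw [Lm0, Lm1]
    field_simp
    rw [hD]; ring
  -- closedness of the coefficients
  have cross : ∀ k (b b' y : E4), fderiv ℝ (Lm k b) y b' = fderiv ℝ (Lm k b') y b := by
    intro k b b' y
    have x2 : fderiv ℝ (A2 b) y b' = fderiv ℝ (A2 b') y b :=
      base2 sm_m al_m pm dm (fun y => m0 y _ _ _ _) b b' y
    have x3 : fderiv ℝ (A3 b) y b' = fderiv ℝ (A3 b') y b :=
      base3 sm_m al_m pm dm (fun y => m0 y _ _ _ _) b b' y
    have d2 : ∀ b, DifferentiableAt ℝ (A2 b) y := fun b =>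
      (sA2 b).contDiffAt.differentiableAt infty_ne_zero
    have d3 : ∀ b, DifferentiableAt ℝ (A3 b) y := fun b =>
      (sA3 b).contDiffAt.differentiableAt infty_ne_zero
    fin_cases k
    · have h1 : ∀ b v : E4, fderiv ℝ (Lm 0 b) y v =
          -(fderiv ℝ (A2 b) y v * c3 1 - fderiv ℝ (A3 b) y v * c2 1) / D := by
        intro b v
        have h2 : HasFDerivAt (Lm 0 b)
            (D⁻¹ • (-(c3 1 • fderiv ℝ (A2 b) y - c2 1 • fderiv ℝ (A3 b) y))) y := by
          have h3 := (((d2 b).hasFDerivAt.mul_const (c3 1)).sub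
            ((d3 b).hasFDerivAt.mul_const (c2 1))).neg.mul_const D⁻¹
          refine h3.congr_of_eventuallyEq (Filter.Eventually.of_forall fun z => ?_)
          rw [Lm0]; rfl
        rw [h2.fderiv]
        simp only [smul_apply, neg_apply, sub_apply, smul_eq_mul]
        ring
      show fderiv ℝ (Lm 0 b) y b' = fderiv ℝ (Lm 0 b') y b
      rw [h1, h1, x2, x3]
    · have h1 : ∀ b v : E4, fderiv ℝ (Lm 1 b) y v =
          -(fderiv ℝ (A3 b) y v * c2 0 - fderiv ℝ (A2 b) y v * c3 0) / D := by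
        intro b v
        have h2 : HasFDerivAt (Lm 1 b)
            (D⁻¹ • (-(c2 0 • fderiv ℝ (A3 b) y - c3 0 • fderiv ℝ (A2 b) y))) y := by
          have h3 := (((d3 b).hasFDerivAt.mul_const (c2 0)).sub
            ((d2 b).hasFDerivAt.mul_const (c3 0))).neg.mul_const D⁻¹
          refine h3.congr_of_eventuallyEq (Filter.Eventually.of_forall fun z => ?_)
          rw [Lm1]; rfl
        rw [h2.fderiv]
        simp only [smul_apply, neg_apply, sub_apply, smul_eq_mul]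
        ring
      show fderiv ℝ (Lm 1 b) y b' = fderiv ℝ (Lm 1 b') y b
      rw [h1, h1, x2, x3]
  -- linearity in `b`
  have lin2 : ∀ (s t : ℝ) y, A2 (bv s t) y = s * A2 (bv 1 0) y + t * A2 (bv 0 1) y := by
    intro s t y
    have h1 : (fun y => m y (bv s t) (lv 1 0)) =
        fun y => s * m y (bv 1 0) (lv 1 0) + t * m y (bv 0 1) (lv 1 0) := by
      funext z
      rw [bv_eq s t, map_add, map_smul, map_smul]; rfl
    show P2 (fun y => m y (bv s t) (lv 1 0)) y = _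
    rw [h1, P2_add ((sm_app _ _).continuous.const_mul s |>.congr fun _ => rfl)
      ((sm_app _ _).continuous.const_mul t |>.congr fun _ => rfl),
      P2_LC_mul (f := fun _ => s) (fun _ _ _ => rfl),
      P2_LC_mul (f := fun _ => t) (fun _ _ _ => rfl)]
  have lin3 : ∀ (s t : ℝ) y, A3 (bv s t) y = s * A3 (bv 1 0) y + t * A3 (bv 0 1) y := by
    intro s t y
    have h1 : (fun y => m y (bv s t) (lv 0 1)) =
        fun y => s * m y (bv 1 0) (lv 0 1) + t * m y (bv 0 1) (lv 0 1) := by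
      funext z
      rw [bv_eq s t, map_add, map_smul, map_smul]; rfl
    show P3 (fun y => m y (bv s t) (lv 0 1)) y = _
    rw [h1, P3_add ((sm_app _ _).continuous.const_mul s |>.congr fun _ => rfl)
      ((sm_app _ _).continuous.const_mul t |>.congr fun _ => rfl),
      P3_LC_mul (f := fun _ => s) (fun _ _ _ => rfl),
      P3_LC_mul (f := fun _ => t) (fun _ _ _ => rfl)]
  set L : Fin 2 → E4 → E4 →L[ℝ] ℝ := fun k y => Lm k (bv 1 0) y • pr 0 + Lm k (bv 0 1) y • pr 1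
    with hL
  have L_apply : ∀ k y v, L k y v = Lm k (bv 1 0) y * v 0 + Lm k (bv 0 1) y * v 1 :=
    fun k y v => rfl
  have linL : ∀ k y s t, L k y (bv s t) = Lm k (bv s t) y := by
    intro k y s t
    rw [L_apply, bv_0, bv_1]
    fin_cases k
    · show Lm 0 (bv 1 0) y * s + Lm 0 (bv 0 1) y * t = Lm 0 (bv s t) y
      rw [Lm0, Lm0, Lm0, lin2 s t, lin3 s t]; ring
    · show Lm 1 (bv 1 0) y * s + Lm 1 (bv 0 1) y * t = Lm 1 (bv s t) y
      rw [Lm1, Lm1, Lm1, lin2 s t, lin3 s t]; ring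
  have sL : ∀ k, ContDiff ℝ ∞ (L k) := fun k =>
    ((sLm k _).smul contDiff_const).add ((sLm k _).smul contDiff_const)
  have lL : ∀ k (y : E4) (s t : ℝ), L k (y + lv s t) = L k y := by
    intro k y s t
    simp only [hL]
    rw [lLm k _ y s t, lLm k _ y s t]
  have L0 : ∀ k (y : E4) (s t : ℝ), L k y (lv s t) = 0 := by
    intro k y s t
    rw [L_apply]; simp
  have dLm : ∀ k b y, DifferentiableAt ℝ (Lm k b) y := fun k b y =>
    (sLm k b).contDiffAt.differentiableAt infty_ne_zero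
  have fL : ∀ k (y u v : E4), fderiv ℝ (L k) y u v =
      fderiv ℝ (Lm k (bv 1 0)) y u * v 0 + fderiv ℝ (Lm k (bv 0 1)) y u * v 1 := by
    intro k y u v
    have h1 : HasFDerivAt (L k) ((fderiv ℝ (Lm k (bv 1 0)) y).smulRight (pr 0) +
        (fderiv ℝ (Lm k (bv 0 1)) y).smulRight (pr 1)) y :=
      ((dLm k _ y).hasFDerivAt.smul_const (pr 0)).add ((dLm k _ y).hasFDerivAt.smul_const (pr 1))
    rw [h1.fderiv]
    rfl
  have fLm : ∀ k b (y u : E4), fderiv ℝ (Lm k b) y u =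
      u 0 * fderiv ℝ (Lm k b) y (bv 1 0) + u 1 * fderiv ℝ (Lm k b) y (bv 0 1) := by
    intro k b y u
    conv_lhs => rw [decomp u, bv_eq (u 0) (u 1)]
    rw [map_add, map_add, map_smul, map_smul, (lLm k b).fderiv (dLm k b y), add_zero]
    rfl
  have cL : ∀ k y, d1 (L k) y = 0 := by
    intro k y
    ext u v
    rw [d1_apply, fL, fL, fLm k (bv 1 0) y u, fLm k (bv 0 1) y u, fLm k (bv 1 0) y v,
      fLm k (bv 0 1) y v, cross k (bv 0 1) (bv 1 0) y]
    show _ = (0 : ℝ)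
    ring
  have indL : ∀ (y : E4) (s t : ℝ), (∀ k, L k y (bv s t) = 0) → s = 0 ∧ t = 0 := by
    intro y s t hk
    by_contra hst
    have h1 : A2 (bv s t) y = 0 := by
      rw [solve2, ← linL, ← linL, hk 0, hk 1]; ring
    have h2 : A3 (bv s t) y = 0 := by
      rw [solve3, ← linL, ← linL, hk 0, hk 1]; ring
    have h3 := riem (sm_app (bv s t) (lv 1 0)) (sm_app (bv s t) (lv 0 1)) (pm_app _ _)
      (pm_app _ _) (clm _) (sn_app (bv s t) (lv 1 0)) (sn_app (bv s t) (lv 0 1)) (pn_app _ _)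
      (pn_app _ _) (cln _) y
    have h1' : P2 (fun y => m y (bv s t) (lv 1 0)) y = 0 := h1
    have h2' : P3 (fun y => m y (bv s t) (lv 0 1)) y = 0 := h2
    rw [h1', h2', zero_mul, zero_mul, sub_zero] at h3
    refine int_ne ?_ (fun q => flux_ne hw hΦ (y + lv (q 0) (q 1)) hst) h3
    have hl : Continuous fun q : Fin 2 → ℝ => y + lv (q 0) (q 1) := by
      have : (fun q : Fin 2 → ℝ => y + lv (q 0) (q 1)) =
          fun q => y + (q 0 • lv 1 0 + q 1 • lv 0 1) := by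
        funext q; rw [← lv_eq]
      rw [this]; fun_prop
    exact (((sm_app _ _).continuous.comp hl).mul ((sn_app _ _).continuous.comp hl)).sub
      (((sm_app _ _).continuous.comp hl).mul ((sn_app _ _).continuous.comp hl))
  -- the determinant
  set Δ : E4 → ℝ := fun y => Lm 0 (bv 1 0) y * Lm 1 (bv 0 1) y - Lm 1 (bv 1 0) y * Lm 0 (bv 0 1) y
    with hΔ
  have Δ0 : ∀ y, Δ y ≠ 0 := by
    intro y h0
    by_cases hz : Lm 0 (bv 1 0) y = 0 ∧ Lm 0 (bv 0 1) y = 0
    · by_cases hz' : Lm 1 (bv 1 0) y = 0 ∧ Lm 1 (bv 0 1) y = 0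
      · have := (indL y 1 0 (by
          intro k
          rw [L_apply]
          fin_cases k
          · show Lm 0 (bv 1 0) y * _ + Lm 0 (bv 0 1) y * _ = 0
            rw [hz.1, hz.2]; ring
          · show Lm 1 (bv 1 0) y * _ + Lm 1 (bv 0 1) y * _ = 0
            rw [hz'.1, hz'.2]; ring)).1
        norm_num at this
      · apply hz'
        have := (indL y (Lm 1 (bv 0 1) y) (-Lm 1 (bv 1 0) y) (by
          intro k
          rw [L_apply, bv_0, bv_1]
          fin_cases k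
          · show Lm 0 (bv 1 0) y * _ + Lm 0 (bv 0 1) y * _ = 0
            rw [hz.1, hz.2]; ring
          · show Lm 1 (bv 1 0) y * _ + Lm 1 (bv 0 1) y * _ = 0
            ring))
        exact ⟨by linarith [this.2], this.1⟩
    · apply hz
      have := (indL y (Lm 0 (bv 0 1) y) (-Lm 0 (bv 1 0) y) (by
        intro k
        rw [L_apply, bv_0, bv_1]
        fin_cases k
        · show Lm 0 (bv 1 0) y * _ + Lm 0 (bv 0 1) y * _ = 0
          ring
        · show Lm 1 (bv 1 0) y * _ + Lm 1 (bv 0 1) y * _ = 0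
          simp only [hΔ] at h0
          linarith))
      exact ⟨by linarith [this.2], this.1⟩
  -- the primitives
  have hprim : ∀ b : E4, ∃ R : E4 → ℝ, ContDiff ℝ ∞ R ∧ Per R ∧ ∀ y,
      fderiv ℝ R y (lv 1 0) = m y b (lv 1 0) + (Lm 0 b y * γ 0 y (lv 1 0)
        + Lm 1 b y * γ 1 y (lv 1 0)) ∧
      fderiv ℝ R y (lv 0 1) = m y b (lv 0 1) + (Lm 0 b y * γ 0 y (lv 0 1)
        + Lm 1 b y * γ 1 y (lv 0 1)) := by
    intro b
    have hs : ∀ e : E4, ContDiff ℝ ∞ (fun y => m y b e + (Lm 0 b y * γ 0 y e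
        + Lm 1 b y * γ 1 y e)) := fun e =>
      (sm_app b e).add (((sLm 0 b).mul (sγ_app 0 e)).add ((sLm 1 b).mul (sγ_app 1 e)))
    have hp : ∀ e : E4, Per (fun y => m y b e + (Lm 0 b y * γ 0 y e
        + Lm 1 b y * γ 1 y e)) := by
      intro e y k l
      show m (y + lv k l) b e + (Lm 0 b (y + lv k l) * γ 0 (y + lv k l) e
        + Lm 1 b (y + lv k l) * γ 1 (y + lv k l) e) = _
      rw [pm, pγ, pγ, lLm 0 b y k l, lLm 1 b y k l]
    have hdif : ∀ (e y : E4) (s t : ℝ),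
        fderiv ℝ (fun y => m y b e + (Lm 0 b y * γ 0 y e + Lm 1 b y * γ 1 y e)) y (lv s t) =
        fderiv ℝ (fun y => m y b e) y (lv s t) + (Lm 0 b y * fderiv ℝ (fun y => γ 0 y e) y (lv s t)
          + Lm 1 b y * fderiv ℝ (fun y => γ 1 y e) y (lv s t)) := fun e y s t =>
      fderiv_add3 ((sm_app b e).contDiffAt.differentiableAt infty_ne_zero) (dLm 0 b y)
        ((sγ_app 0 e).contDiffAt.differentiableAt infty_ne_zero) (dLm 1 b y)
        ((sγ_app 1 e).contDiffAt.differentiableAt infty_ne_zero) (lLm 0 b) (lLm 1 b) s t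
    have hcl : Cl (fun y => m y b (lv 1 0) + (Lm 0 b y * γ 0 y (lv 1 0)
        + Lm 1 b y * γ 1 y (lv 1 0))) (fun y => m y b (lv 0 1) + (Lm 0 b y * γ 0 y (lv 0 1)
        + Lm 1 b y * γ 1 y (lv 0 1))) := by
      intro y
      rw [hdif, hdif, clm b y, clγ 0 y, clγ 1 y]
    have z2 : ∀ y, P2 (fun y => m y b (lv 1 0) + (Lm 0 b y * γ 0 y (lv 1 0)
        + Lm 1 b y * γ 1 y (lv 1 0))) y = 0 := by
      intro y
      rw [P2_add3 (sm_app b _).continuous (sLm 0 b).continuous (sγ_app 0 _).continuous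
        (sLm 1 b).continuous (sγ_app 1 _).continuous (lLm 0 b) (lLm 1 b), e2, e2]
      have := solve2 b y
      simp only [hA2] at this
      rw [this]; ring
    have z3 : ∀ y, P3 (fun y => m y b (lv 0 1) + (Lm 0 b y * γ 0 y (lv 0 1)
        + Lm 1 b y * γ 1 y (lv 0 1))) y = 0 := by
      intro y
      rw [P3_add3 (sm_app b _).continuous (sLm 0 b).continuous (sγ_app 0 _).continuous
        (sLm 1 b).continuous (sγ_app 1 _).continuous (lLm 0 b) (lLm 1 b), e3, e3]
      have := solve3 b y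
      simp only [hA3] at this
      rw [this]; ring
    exact prim (hs _) (hs _) (hp _) (hp _) hcl z2 z3
  choose R sR pR dR using hprim
  set u : Fin 2 → E4 → ℝ := fun k y =>
    if k = 0 then -(R (bv 1 0) y * Lm 1 (bv 0 1) y - R (bv 0 1) y * Lm 1 (bv 1 0) y) / Δ y
      else -(Lm 0 (bv 1 0) y * R (bv 0 1) y - Lm 0 (bv 0 1) y * R (bv 1 0) y) / Δ y with hu
  have u0 : ∀ y, u 0 y =
      -(R (bv 1 0) y * Lm 1 (bv 0 1) y - R (bv 0 1) y * Lm 1 (bv 1 0) y) / Δ y := fun y => by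
    simp only [hu, if_true]
  have u1 : ∀ y, u 1 y =
      -(Lm 0 (bv 1 0) y * R (bv 0 1) y - Lm 0 (bv 0 1) y * R (bv 1 0) y) / Δ y := fun y => by
    have : (1 : Fin 2) ≠ 0 := by decide
    simp only [hu, if_neg this]
  have sΔ : ContDiff ℝ ∞ Δ := ((sLm 0 _).mul (sLm 1 _)).sub ((sLm 1 _).mul (sLm 0 _))
  have su : ∀ k, ContDiff ℝ ∞ (u k) := by
    intro k
    fin_cases k
    · have : u 0 = fun y =>
          -(R (bv 1 0) y * Lm 1 (bv 0 1) y - R (bv 0 1) y * Lm 1 (bv 1 0) y) / Δ y := funext u0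
      show ContDiff ℝ ∞ (u 0)
      rw [this]
      exact ((((sR _).mul (sLm 1 _)).sub ((sR _).mul (sLm 1 _))).neg).div sΔ Δ0
    · have : u 1 = fun y =>
          -(Lm 0 (bv 1 0) y * R (bv 0 1) y - Lm 0 (bv 0 1) y * R (bv 1 0) y) / Δ y := funext u1
      show ContDiff ℝ ∞ (u 1)
      rw [this]
      exact ((((sLm 0 _).mul (sR _)).sub ((sLm 0 _).mul (sR _))).neg).div sΔ Δ0
  have pu : ∀ k (y : E4) (i j : ℤ), u k (y + lv i j) = u k y := by
    intro k y i j
    simp only [hu, hΔ]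
    rw [pR (bv 1 0) y i j, pR (bv 0 1) y i j, lLm 0 _ y i j, lLm 0 _ y i j, lLm 1 _ y i j,
      lLm 1 _ y i j]
  have solR0 : ∀ y, R (bv 1 0) y = -(Lm 0 (bv 1 0) y * u 0 y + Lm 1 (bv 1 0) y * u 1 y) := by
    intro y
    rw [u0, u1]
    have := Δ0 y
    field_simp
    simp only [hΔ]; ring
  have solR1 : ∀ y, R (bv 0 1) y = -(Lm 0 (bv 0 1) y * u 0 y + Lm 1 (bv 0 1) y * u 1 y) := by
    intro y
    rw [u0, u1]
    have := Δ0 y
    field_simp
    simp only [hΔ]; ring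
  have du : ∀ k y, DifferentiableAt ℝ (u k) y := fun k y =>
    (su k).contDiffAt.differentiableAt infty_ne_zero
  have dRu : ∀ b : E4, (∀ y, R b y = -(Lm 0 b y * u 0 y + Lm 1 b y * u 1 y)) →
      ∀ y s t, fderiv ℝ (R b) y (lv s t) =
        -(Lm 0 b y * fderiv ℝ (u 0) y (lv s t) + Lm 1 b y * fderiv ℝ (u 1) y (lv s t)) := by
    intro b hb y s t
    have h1 : R b = fun y => -(Lm 0 b y * u 0 y + Lm 1 b y * u 1 y) := funext hb
    rw [h1]
    exact fderiv_neg2 (dLm 0 b y) (du 0 y) (dLm 1 b y) (du 1 y) (lLm 0 b) (lLm 1 b) s t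
  have eqb : ∀ b : E4, (∀ y, R b y = -(Lm 0 b y * u 0 y + Lm 1 b y * u 1 y)) →
      ∀ y s t, m y b (lv s t) = -(Lm 0 b y * (γ 0 y (lv s t) + fderiv ℝ (u 0) y (lv s t))
        + Lm 1 b y * (γ 1 y (lv s t) + fderiv ℝ (u 1) y (lv s t))) := by
    intro b hb y s t
    have h1 := dRu b hb y s t
    rw [fderiv_lv s t] at h1
    rw [(dR b y).1, (dR b y).2] at h1
    have h2 : m y b (lv s t) = s * m y b (lv 1 0) + t * m y b (lv 0 1) := by
      conv_lhs => rw [lv_eq s t, map_add, map_smul, map_smul]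
      rfl
    have h3 : ∀ k, γ k y (lv s t) = s * γ k y (lv 1 0) + t * γ k y (lv 0 1) := by
      intro k
      conv_lhs => rw [lv_eq s t, map_add, map_smul, map_smul]
      rfl
    rw [h2, h3, h3]
    linarith
  refine ⟨L, u, sL, lL, L0, cL, indL, su, pu, ?_⟩
  intro y v s t
  show m y v (lv s t) = _
  have h1 : m y v (lv s t) = v 0 * m y (bv 1 0) (lv s t) + v 1 * m y (bv 0 1) (lv s t) := by
    conv_lhs => rw [decomp v, bv_eq (v 0) (v 1)]
    rw [map_add, map_add, map_smul, map_smul]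
    simp only [add_apply, smul_apply, smul_eq_mul]
    rw [m0 y (v 2) (v 3) s t]; ring
  rw [h1, eqb _ solR0, eqb _ solR1, Fin.sum_univ_two, L_apply, L_apply]
  show _ = -((Lm 0 (bv 1 0) y * v 0 + Lm 0 (bv 0 1) y * v 1) *
    (γ 0 y (lv s t) + fderiv ℝ (u 0) y (lv s t)) +
    (Lm 1 (bv 1 0) y * v 0 + Lm 1 (bv 0 1) y * v 1) *
    (γ 1 y (lv s t) + fderiv ℝ (u 1) y (lv s t)))
  ring

end Tube

end

end Crest.Agent.R235.FibFlux_129
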