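import Crest.Agent.R235.TorDefs_225
import Crest.Agent.R213.J0bGen
import Crest.Agent.R235.Pull_129

/-!
Row 235 (S0364), PACKAGE TOR, leaf TOR-PER (helper82): `ℤ²`-periodic closed leaf forms on `E4`
with parameters: periods, primitives, Riemann's bilinear identity, closedness of the periods of a
closed two-form on the base.
-/

set_option autoImplicit false
set_option maxSynthPendingDepth 3

open Set Function Filter MeasureTheory
open scoped Manifold ContDiff Topology

universe u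

namespace Crest.Agent.R235.TorPer_82

open Crest.Agent.R235 Crest.Agent.R240 Crest.Agent.R240.Ch

noncomputable section

/-! ### averages along a direction -/

section Avg

variable {E : Type} [NormedAddCommGroup E] [NormedSpace ℝ E]

/-- parametric integrals of smooth functions are smooth. -/
theorem contDiff_pint {F : Type} [NormedAddCommGroup F] [NormedSpace ℝ F] {H : ℝ × E → F}
    (hH : ContDiff ℝ ∞ H) : ContDiff ℝ ∞ (fun q : E => ∫ r in (0 : ℝ)..1, H (r, q)) := by
  have h := R213.contDiffOn_pint (a := 0) (b := 1) zero_lt_one (convex_univ (E := E))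
    uniqueDiffOn_univ (H := H) hH.contDiffOn
  exact contDiffOn_univ.1 h

/-- derivative of parametric integrals. -/
theorem hasFDerivAt_pint {F : Type} [NormedAddCommGroup F] [NormedSpace ℝ F] {H : ℝ × E → F}
    (hH : ContDiff ℝ ∞ H) (q : E) :
    HasFDerivAt (fun q : E => ∫ r in (0 : ℝ)..1, H (r, q))
      (∫ r in (0 : ℝ)..1, (fderiv ℝ H (r, q)).comp (ContinuousLinearMap.inr ℝ ℝ E)) q := by
  have hd : Differentiable ℝ H := hH.differentiable (by simp)
  have hc : Continuous (fun z : ℝ × E => (fderiv ℝ H z).comp (ContinuousLinearMap.inr ℝ ℝ E)) :=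
    (hH.continuous_fderiv (by simp)).clm_comp continuous_const
  have h := R213.hasFDerivWithinAt_pint (a := 0) (b := 1) zero_le_one (convex_univ (E := E))
    (H := H) (H' := fun z : ℝ × E => (fderiv ℝ H z).comp (ContinuousLinearMap.inr ℝ ℝ E))
    hH.continuous.continuousOn hc.continuousOn (fun r _ p _ => by
      have h1 := (hd (r, p)).hasFDerivAt
      have h2 : HasFDerivAt (fun q : E => ((r, q) : ℝ × E)) (ContinuousLinearMap.inr ℝ ℝ E) p :=
        (hasFDerivAt_const r p).prodMk (hasFDerivAt_id p)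
      exact (h1.comp p h2).hasFDerivWithinAt) (mem_univ q)
  exact h.hasFDerivAt_of_univ

theorem fderiv_pint_apply {F : Type} [NormedAddCommGroup F] [NormedSpace ℝ F] [CompleteSpace F]
    {H : ℝ × E → F} (hH : ContDiff ℝ ∞ H) (q w : E) :
    fderiv ℝ (fun q : E => ∫ r in (0 : ℝ)..1, H (r, q)) q w =
      ∫ r in (0 : ℝ)..1, fderiv ℝ (fun q : E => H (r, q)) q w := by
  have hd : Differentiable ℝ H := hH.differentiable (by simp)
  have hc : Continuous (fun z : ℝ × E => (fderiv ℝ H z).comp (ContinuousLinearMap.inr ℝ ℝ E)) :=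
    (hH.continuous_fderiv (by simp)).clm_comp continuous_const
  have hI : IntervalIntegrable
      (fun r : ℝ => (fderiv ℝ H (r, q)).comp (ContinuousLinearMap.inr ℝ ℝ E)) volume 0 1 :=
    (hc.comp (by fun_prop : Continuous fun r : ℝ => (r, q))).intervalIntegrable _ _
  rw [(hasFDerivAt_pint hH q).fderiv, ContinuousLinearMap.intervalIntegral_apply hI]
  refine intervalIntegral.integral_congr fun r _ => ?_
  have h1 := (hd (r, q)).hasFDerivAt
  have h2 : HasFDerivAt (fun q : E => ((r, q) : ℝ × E)) (ContinuousLinearMap.inr ℝ ℝ E) q :=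
    (hasFDerivAt_const r q).prodMk (hasFDerivAt_id q)
  have h3 : fderiv ℝ (fun q : E => H (r, q)) q = _ := (h1.comp q h2).fderiv
  rw [h3]

/-- the mean of `f` over the segment `[y, y + v]`. -/
def Av (v : E) (f : E → ℝ) (y : E) : ℝ := ∫ r in (0 : ℝ)..1, f (y + r • v)

variable {f : E → ℝ} (v : E)

theorem Av.smooth (hf : ContDiff ℝ ∞ f) : ContDiff ℝ ∞ (Av v f) :=
  contDiff_pint (H := fun z : ℝ × E => f (z.2 + z.1 • v)) (hf.comp (by fun_prop))

theorem Av.fderiv (hf : ContDiff ℝ ∞ f) (y w : E) :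
    fderiv ℝ (Av v f) y w = Av v (fun z => fderiv ℝ f z w) y := by
  have h := fderiv_pint_apply (H := fun z : ℝ × E => f (z.2 + z.1 • v)) (hf.comp (by fun_prop))
    y w
  refine h.trans (intervalIntegral.integral_congr fun r _ => ?_)
  exact congrArg (fun L : E →L[ℝ] ℝ => L w) (fderiv_comp_add_right (f := f) (x := y) (r • v))

/-- the fundamental theorem along `v`. -/
theorem Av.ftc (hf : ContDiff ℝ ∞ f) (y : E) :
    Av v (fun z => _root_.fderiv ℝ f z v) y = f (y + v) - f y := by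
  have h1 : ∀ r ∈ uIcc (0 : ℝ) 1, HasDerivAt (fun r : ℝ => f (y + r • v))
      (_root_.fderiv ℝ f (y + r • v) v) r := by
    intro r _
    have h2 : HasDerivAt (fun r : ℝ => y + r • v) v r := by
      simpa using ((hasDerivAt_id r).smul_const v).const_add y
    exact ((hf.differentiable (by simp) _).hasFDerivAt).comp_hasDerivAt r h2
  have hc : Continuous (fun r : ℝ => _root_.fderiv ℝ f (y + r • v) v) :=
    ((hf.continuous_fderiv (by simp)).comp (by fun_prop)).clm_apply continuous_const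
  have h3 := intervalIntegral.integral_eq_sub_of_hasDerivAt h1 (hc.intervalIntegrable _ _)
  simpa [Av] using h3

theorem Av.congr {g : E → ℝ} {y : E} (h : ∀ z, f z = g z) : Av v f y = Av v g y := by
  rw [show f = g from funext h]

theorem Av.zero_of (y : E) (h : ∀ z, f z = 0) : Av v f y = 0 := by
  rw [show f = fun _ => 0 from funext h]
  simp [Av]

theorem Av.sub {g : E → ℝ} (hf : Continuous f) (hg : Continuous g) (y : E) :
    Av v (fun z => f z - g z) y = Av v f y - Av v g y :=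
  intervalIntegral.integral_sub ((hf.comp (by fun_prop)).intervalIntegrable _ _)
    ((hg.comp (by fun_prop)).intervalIntegrable _ _)

theorem Av.add {g : E → ℝ} (hf : Continuous f) (hg : Continuous g) (y : E) :
    Av v (fun z => f z + g z) y = Av v f y + Av v g y :=
  intervalIntegral.integral_add ((hf.comp (by fun_prop)).intervalIntegrable _ _)
    ((hg.comp (by fun_prop)).intervalIntegrable _ _)

theorem Av.per (h : ∀ y, f (y + v) = f y) (y : E) (s : ℝ) : Av v f (y + s • v) = Av v f y := by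
  have hp : Function.Periodic (fun r : ℝ => f (y + r • v)) 1 := by
    intro r
    show f (y + (r + 1) • v) = f (y + r • v)
    rw [add_smul, one_smul, ← add_assoc, h]
  have h1 := hp.intervalIntegral_add_eq s 0
  have h2 : Av v f (y + s • v) = ∫ r in s..(s + 1), f (y + r • v) := by
    have h3 := intervalIntegral.integral_comp_add_right (a := 0) (b := 1)
      (fun r : ℝ => f (y + r • v)) s
    rw [zero_add, add_comm 1 s] at h3
    rw [← h3]
    refine intervalIntegral.integral_congr fun r _ => ?_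
    show f (y + s • v + r • v) = f (y + (r + s) • v)
    rw [add_assoc, ← add_smul, add_comm s r]
  rw [h2, h1, zero_add]
  rfl

/-- a smooth function with zero derivative along `v` is constant along `v`. -/
theorem const_of_fderiv (hf : ContDiff ℝ ∞ f) (h : ∀ y, _root_.fderiv ℝ f y v = 0) (y : E)
    (s : ℝ) : f (y + s • v) = f y := by
  have h1 := Av.ftc (s • v) hf y
  rw [Av.zero_of (s • v) y (fun z => by rw [map_smul, h, smul_zero])] at h1
  linarith

end Avg

/-! ### the radial primitive of a one-form which is closed along a subspace -/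

section Prim

variable {E : Type} [NormedAddCommGroup E] [NormedSpace ℝ E]

/-- the radial primitive along the range of `A`. -/
def rprim (A : E →L[ℝ] E) (g : E → E →L[ℝ] ℝ) (y : E) : ℝ :=
  ∫ r in (0 : ℝ)..1, g (y - A y + r • A y) (A y)

theorem rprim_smooth (A : E →L[ℝ] E) {g : E → E →L[ℝ] ℝ} (hg : ContDiff ℝ ∞ g) :
    ContDiff ℝ ∞ (rprim A g) :=
  contDiff_pint (H := fun z : ℝ × E => g (z.2 - A z.2 + z.1 • A z.2) (A z.2))
    ((hg.comp (by fun_prop)).clm_apply (by fun_prop))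

theorem rprim_fderiv (A : E →L[ℝ] E) (hA : ∀ y, A (A y) = A y) {g : E → E →L[ℝ] ℝ}
    (hg : ContDiff ℝ ∞ g) (hcl : ∀ z a b, fderiv ℝ g z (A a) (A b) = fderiv ℝ g z (A b) (A a))
    (y w : E) : fderiv ℝ (rprim A g) y (A w) = g y (A w) := by
  have h := fderiv_pint_apply (H := fun z : ℝ × E => g (z.2 - A z.2 + z.1 • A z.2) (A z.2))
    ((hg.comp (by fun_prop)).clm_apply (by fun_prop)) y (A w)
  refine h.trans ?_
  have hd : Differentiable ℝ g := hg.differentiable (by simp)
  -- the integrand is the derivative of `r ↦ r • g (y - A y + r • A y) (A w)`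
  have h1 : ∀ r ∈ uIcc (0 : ℝ) 1, HasDerivAt (fun r : ℝ => r * g (y - A y + r • A y) (A w))
      (fderiv ℝ (fun q : E => g (q - A q + r • A q) (A q)) y (A w)) r := by
    intro r _
    have e1 : HasFDerivAt (fun q : E => q - A q + r • A q)
        (ContinuousLinearMap.id ℝ E - A + r • A) y :=
      ((hasFDerivAt_id y).sub A.hasFDerivAt).add (A.hasFDerivAt.const_smul r)
    have e2 := (hd (y - A y + r • A y)).hasFDerivAt.comp y e1
    have e3 := (e2.clm_apply A.hasFDerivAt).fderiv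
    have e3' : fderiv ℝ (fun q : E => g (q - A q + r • A q) (A q)) y = _ := e3
    have e4 : HasDerivAt (fun r : ℝ => y - A y + r • A y) (A y) r := by
      simpa using ((hasDerivAt_id r).smul_const (A y)).const_add (y - A y)
    have e5 := (hd (y - A y + r • A y)).hasFDerivAt.comp_hasDerivAt r e4
    have e6 := (hasDerivAt_id r).mul (e5.clm_apply (hasDerivAt_const r (A w)))
    rw [e3']
    refine e6.congr_deriv ?_
    have e7 := hcl (y - A y + r • A y) y w
    simp only [add_apply, ContinuousLinearMap.comp_apply, hA,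
      ContinuousLinearMap.flip_apply, sub_apply, ContinuousLinearMap.id_apply,
      smul_apply, Function.comp_apply, id, map_zero, one_mul, add_zero,
      sub_self, zero_add, map_smul, smul_eq_mul, e7]
  have hc : Continuous (fun r : ℝ => fderiv ℝ (fun q : E => g (q - A q + r • A q) (A q)) y
      (A w)) := by
    have hH : ContDiff ℝ ∞ (fun z : ℝ × E => g (z.2 - A z.2 + z.1 • A z.2) (A z.2)) :=
      (hg.comp (by fun_prop)).clm_apply (by fun_prop)
    have h2 : ∀ r : ℝ, fderiv ℝ (fun q : E => g (q - A q + r • A q) (A q)) y (A w) =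
        (fderiv ℝ (fun z : ℝ × E => g (z.2 - A z.2 + z.1 • A z.2) (A z.2)) (r, y)) (0, A w) := by
      intro r
      have h3 := (hH.differentiable (by simp) (r, y)).hasFDerivAt
      have h4 : HasFDerivAt (fun q : E => ((r, q) : ℝ × E)) (ContinuousLinearMap.inr ℝ ℝ E) y :=
        (hasFDerivAt_const r y).prodMk (hasFDerivAt_id y)
      have h5 : fderiv ℝ (fun q : E => g (q - A q + r • A q) (A q)) y = _ := (h3.comp y h4).fderiv
      rw [h5]
      simp
    simp_rw [h2]
    exact ((hH.continuous_fderiv (by simp)).comp (by fun_prop)).clm_apply continuous_const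
  rw [intervalIntegral.integral_eq_sub_of_hasDerivAt h1 (hc.intervalIntegrable _ _)]
  simp

theorem rprim_zero (A : E →L[ℝ] E) (g : E → E →L[ℝ] ℝ) {y : E} (h : A y = 0) :
    rprim A g y = 0 := by
  simp [rprim, h]

end Prim

/-! ### leaf directions -/

theorem lv_eq (s t : ℝ) : lv s t = s • lv 1 0 + t • lv 0 1 := by
  ext i
  fin_cases i <;> simp [lv]

theorem lv_left (s : ℝ) : lv s 0 = s • lv 1 0 := by
  rw [lv_eq, zero_smul, add_zero]

theorem lv_right (t : ℝ) : lv 0 t = t • lv 0 1 := by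
  rw [lv_eq, zero_smul, zero_add]

theorem lv_add (s t s' t' : ℝ) : lv (s + s') (t + t') = lv s t + lv s' t' := by
  ext i
  fin_cases i <;> simp [lv]

theorem lv_split (s t : ℝ) : lv s t = lv s 0 + lv 0 t := by
  rw [← lv_add, add_zero, zero_add]

@[simp] theorem lv_zero : lv 0 0 = 0 := by
  ext i
  fin_cases i <;> simp [lv]

@[simp] theorem lv_0 (s t : ℝ) : lv s t 0 = 0 := rfl
@[simp] theorem lv_1 (s t : ℝ) : lv s t 1 = 0 := rfl
@[simp] theorem lv_2 (s t : ℝ) : lv s t 2 = s := rfl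
@[simp] theorem lv_3 (s t : ℝ) : lv s t 3 = t := rfl

/-- the projection to the leaf directions. -/
def lp : E4 →L[ℝ] E4 :=
  (EuclideanSpace.proj (2 : Fin 4) : E4 →L[ℝ] ℝ).smulRight (lv 1 0) +
    (EuclideanSpace.proj (3 : Fin 4) : E4 →L[ℝ] ℝ).smulRight (lv 0 1)

theorem lp_apply (y : E4) : lp y = lv (y 2) (y 3) := by
  rw [lv_eq]
  rfl

@[simp] theorem lp_lv (s t : ℝ) : lp (lv s t) = lv s t := by
  rw [lp_apply]
  rfl

theorem lp_lp (y : E4) : lp (lp y) = lp y := by
  rw [lp_apply y, lp_lv]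

/-- a smooth function whose leaf derivatives vanish is constant along the leaves. -/
theorem const_leaf {f : E4 → ℝ} (hf : ContDiff ℝ ∞ f) (h2 : ∀ y, fderiv ℝ f y (lv 1 0) = 0)
    (h3 : ∀ y, fderiv ℝ f y (lv 0 1) = 0) (y : E4) (s t : ℝ) : f (y + lv s t) = f y := by
  rw [lv_eq, ← add_assoc, const_of_fderiv _ hf h3, const_of_fderiv _ hf h2]

theorem cont_l {X : Type*} [TopologicalSpace X] {f : E4 → X} (hf : Continuous f) (y : E4) :
    Continuous (fun r : ℝ => f (y + lv r 0)) := by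
  have e : (fun r : ℝ => f (y + lv r 0)) = fun r => f (y + r • lv 1 0) :=
    funext fun r => by rw [lv_left r]
  rw [e]
  exact hf.comp (by fun_prop)

theorem cont_r {X : Type*} [TopologicalSpace X] {f : E4 → X} (hf : Continuous f) (y : E4) :
    Continuous (fun r : ℝ => f (y + lv 0 r)) := by
  have e : (fun r : ℝ => f (y + lv 0 r)) = fun r => f (y + r • lv 0 1) :=
    funext fun r => by rw [lv_right r]
  rw [e]
  exact hf.comp (by fun_prop)

/-! ### periods -/

/-- the period in the direction `2`. -/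
def P2 (f : E4 → ℝ) (y : E4) : ℝ := ∫ r in (0 : ℝ)..1, f (y + lv r 0)

/-- the period in the direction `3`. -/
def P3 (f : E4 → ℝ) (y : E4) : ℝ := ∫ r in (0 : ℝ)..1, f (y + lv 0 r)

theorem P2_eq (f : E4 → ℝ) : P2 f = Av (lv 1 0) f := by
  funext y
  refine intervalIntegral.integral_congr fun r _ => ?_
  show f (y + lv r 0) = f (y + r • lv 1 0)
  rw [lv_left r]

theorem P3_eq (f : E4 → ℝ) : P3 f = Av (lv 0 1) f := by
  funext y
  refine intervalIntegral.integral_congr fun r _ => ?_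
  show f (y + lv 0 r) = f (y + r • lv 0 1)
  rw [lv_right r]

/-- periodicity along the leaves. -/
def Per (f : E4 → ℝ) : Prop := ∀ (y : E4) (m n : ℤ), f (y + lv m n) = f y

/-- a closed leaf form. -/
structure ClF (f2 f3 : E4 → ℝ) : Prop where
  s2 : ContDiff ℝ ∞ f2
  s3 : ContDiff ℝ ∞ f3
  p2 : Per f2
  p3 : Per f3
  cl : ∀ y, fderiv ℝ f3 y (lv 1 0) = fderiv ℝ f2 y (lv 0 1)

theorem Per.e2 {f : E4 → ℝ} (h : Per f) (y : E4) : f (y + lv 1 0) = f y := by
  simpa using h y 1 0

theorem Per.e3 {f : E4 → ℝ} (h : Per f) (y : E4) : f (y + lv 0 1) = f y := by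
  simpa using h y 0 1

theorem Per.of {f : E4 → ℝ} (h2 : ∀ y, f (y + lv 1 0) = f y) (h3 : ∀ y, f (y + lv 0 1) = f y) :
    Per f := by
  have key : ∀ v : E4, (∀ y, f (y + v) = f y) → ∀ (n : ℤ) (y : E4), f (y + (n : ℝ) • v) = f y := by
    intro v hv n
    induction n using Int.induction_on with
    | zero => intro y; simp
    | succ n ih =>
      intro y
      have h1 : y + (((n : ℤ) + 1 : ℤ) : ℝ) • v = (y + ((n : ℤ) : ℝ) • v) + v := by
        push_cast
        module
      rw [h1, hv, ih]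
    | pred n ih =>
      intro y
      have h1 : y + ((-(n : ℤ) - 1 : ℤ) : ℝ) • v = (y - v) + ((-(n : ℤ) : ℤ) : ℝ) • v := by
        push_cast
        module
      rw [h1, ih, ← hv (y - v), sub_add_cancel]
  intro y m n
  rw [lv_eq, ← add_assoc, key _ h3, key _ h2]

section Periods

variable {f2 f3 g2 g3 : E4 → ℝ}

theorem P2_smooth (h : ContDiff ℝ ∞ f2) : ContDiff ℝ ∞ (P2 f2) := by
  rw [P2_eq]
  exact Av.smooth _ h

theorem P3_smooth (h : ContDiff ℝ ∞ f3) : ContDiff ℝ ∞ (P3 f3) := by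
  rw [P3_eq]
  exact Av.smooth _ h

theorem ClF.fP2_e2 (h : ClF f2 f3) (y : E4) : fderiv ℝ (P2 f2) y (lv 1 0) = 0 := by
  rw [P2_eq, Av.fderiv _ h.s2, Av.ftc _ h.s2, h.p2.e2, sub_self]

theorem ClF.fP2_e3 (h : ClF f2 f3) (y : E4) : fderiv ℝ (P2 f2) y (lv 0 1) = 0 := by
  rw [P2_eq, Av.fderiv _ h.s2, Av.congr _ (fun z => (h.cl z).symm), Av.ftc _ h.s3, h.p3.e2,
    sub_self]

theorem ClF.fP3_e3 (h : ClF f2 f3) (y : E4) : fderiv ℝ (P3 f3) y (lv 0 1) = 0 := by
  rw [P3_eq, Av.fderiv _ h.s3, Av.ftc _ h.s3, h.p3.e3, sub_self]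

theorem ClF.fP3_e2 (h : ClF f2 f3) (y : E4) : fderiv ℝ (P3 f3) y (lv 1 0) = 0 := by
  rw [P3_eq, Av.fderiv _ h.s3, Av.congr _ h.cl, Av.ftc _ h.s2, h.p2.e3, sub_self]

/-- (1) the periods are constant along the leaves. -/
theorem ClF.P2_const (h : ClF f2 f3) (y : E4) (s t : ℝ) : P2 f2 (y + lv s t) = P2 f2 y :=
  const_leaf (P2_smooth h.s2) h.fP2_e2 h.fP2_e3 y s t

theorem ClF.P3_const (h : ClF f2 f3) (y : E4) (s t : ℝ) : P3 f3 (y + lv s t) = P3 f3 y :=
  const_leaf (P3_smooth h.s3) h.fP3_e2 h.fP3_e3 y s t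

/-! ### (2) the primitive -/

/-- the one-form `f2 dy2 + f3 dy3`. -/
def lform (f2 f3 : E4 → ℝ) (z : E4) : E4 →L[ℝ] ℝ :=
  f2 z • (EuclideanSpace.proj (2 : Fin 4) : E4 →L[ℝ] ℝ) +
    f3 z • (EuclideanSpace.proj (3 : Fin 4) : E4 →L[ℝ] ℝ)

theorem lform_apply (z v : E4) : lform f2 f3 z v = f2 z * v 2 + f3 z * v 3 := rfl

theorem lform_smooth (h2 : ContDiff ℝ ∞ f2) (h3 : ContDiff ℝ ∞ f3) :
    ContDiff ℝ ∞ (lform f2 f3) :=
  (h2.smul contDiff_const).add (h3.smul contDiff_const)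

theorem fderiv_lform (h2 : ContDiff ℝ ∞ f2) (h3 : ContDiff ℝ ∞ f3) (z a v : E4) :
    fderiv ℝ (lform f2 f3) z a v = fderiv ℝ f2 z a * v 2 + fderiv ℝ f3 z a * v 3 := by
  have e2 := ((h2.differentiable (by simp) z).hasFDerivAt.smul_const
    (EuclideanSpace.proj (2 : Fin 4) : E4 →L[ℝ] ℝ))
  have e3 := ((h3.differentiable (by simp) z).hasFDerivAt.smul_const
    (EuclideanSpace.proj (3 : Fin 4) : E4 →L[ℝ] ℝ))
  have e := (e2.add e3).fderiv
  have e' : fderiv ℝ (lform f2 f3) z = _ := e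
  rw [e']
  rfl

theorem ClF.lform_closed (h : ClF f2 f3) (z a b : E4) :
    fderiv ℝ (lform f2 f3) z (lp a) (lp b) = fderiv ℝ (lform f2 f3) z (lp b) (lp a) := by
  have key : ∀ (f : E4 → ℝ) (c : E4), fderiv ℝ f z (lp c) =
      c 2 * fderiv ℝ f z (lv 1 0) + c 3 * fderiv ℝ f z (lv 0 1) := by
    intro f c
    rw [lp_apply, lv_eq, map_add, map_smul, map_smul, smul_eq_mul, smul_eq_mul]
  rw [fderiv_lform h.s2 h.s3, fderiv_lform h.s2 h.s3, key, key, key, key, h.cl z]
  simp only [lp_apply, lv_2, lv_3]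
  ring

/-- the primitive of a closed leaf form, normalised on the section `y 2 = y 3 = 0`. -/
def prim (f2 f3 : E4 → ℝ) : E4 → ℝ := rprim lp (lform f2 f3)

theorem prim_smooth (h2 : ContDiff ℝ ∞ f2) (h3 : ContDiff ℝ ∞ f3) :
    ContDiff ℝ ∞ (prim f2 f3) :=
  rprim_smooth lp (lform_smooth h2 h3)

theorem ClF.prim_e2 (h : ClF f2 f3) (y : E4) : fderiv ℝ (prim f2 f3) y (lv 1 0) = f2 y := by
  have h1 := rprim_fderiv lp lp_lp (lform_smooth h.s2 h.s3) h.lform_closed y (lv 1 0)
  rw [lp_lv] at h1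
  rw [prim, h1, lform_apply]
  simp

theorem ClF.prim_e3 (h : ClF f2 f3) (y : E4) : fderiv ℝ (prim f2 f3) y (lv 0 1) = f3 y := by
  have h1 := rprim_fderiv lp lp_lp (lform_smooth h.s2 h.s3) h.lform_closed y (lv 0 1)
  rw [lp_lv] at h1
  rw [prim, h1, lform_apply]
  simp

theorem prim_zero {y : E4} (h2 : y 2 = 0) (h3 : y 3 = 0) : prim f2 f3 y = 0 := by
  refine rprim_zero lp _ ?_
  rw [lp_apply, h2, h3, lv_zero]

theorem fderiv_shift {f : E4 → ℝ} (v y w : E4) :
    fderiv ℝ (fun z => f (z + v)) y w = fderiv ℝ f (y + v) w :=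
  congrArg (fun L : E4 →L[ℝ] ℝ => L w) (fderiv_comp_add_right (f := f) (x := y) v)

/-- the primitive picks up the periods. -/
theorem ClF.prim_add_e2 (h : ClF f2 f3) (y : E4) :
    prim f2 f3 (y + lv 1 0) = prim f2 f3 y + P2 f2 y := by
  have hs := prim_smooth h.s2 h.s3
  have hP := P2_smooth h.s2
  have hsh : ContDiff ℝ ∞ (fun z => prim f2 f3 (z + lv 1 0)) := hs.comp (by fun_prop)
  let k : E4 → ℝ := fun z => prim f2 f3 (z + lv 1 0) - prim f2 f3 z - P2 f2 z
  have hk : ContDiff ℝ ∞ k := (hsh.sub hs).sub hP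
  have hd : ∀ z w, fderiv ℝ k z w = fderiv ℝ (prim f2 f3) (z + lv 1 0) w
      - fderiv ℝ (prim f2 f3) z w - fderiv ℝ (P2 f2) z w := by
    intro z w
    have e := (((hsh.differentiable (by simp) z).hasFDerivAt.sub
      (hs.differentiable (by simp) z).hasFDerivAt).sub
      (hP.differentiable (by simp) z).hasFDerivAt).fderiv
    have e' : fderiv ℝ k z = _ := e
    rw [e', ← fderiv_shift (f := prim f2 f3)]
    rfl
  have hc := const_leaf hk (fun z => by
      rw [hd, h.prim_e2, h.prim_e2, h.fP2_e2, h.p2.e2]; ring) (fun z => by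
      rw [hd, h.prim_e3, h.prim_e3, h.fP2_e3, h.p3.e2]; ring) (y - lp y) (y 2) (y 3)
  have h1 : y - lp y + lv (y 2) (y 3) = y := by
    rw [lp_apply, sub_add_cancel]
  rw [h1] at hc
  have h2 : k (y - lp y) = 0 := by
    have e1 : lp (y - lp y) = 0 := by rw [map_sub, lp_lp, sub_self]
    have e2 : prim f2 f3 (y - lp y) = 0 := rprim_zero lp _ e1
    have e3 : prim f2 f3 (y - lp y + lv 1 0) = P2 f2 (y - lp y) := by
      simp only [prim, rprim, map_add, e1, lp_lv, zero_add, add_sub_cancel_right, P2]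
      refine intervalIntegral.integral_congr fun r _ => ?_
      simp only [lform_apply, lv_2, lv_3, mul_one, mul_zero, add_zero]
      rw [lv_left r]
    show prim f2 f3 (y - lp y + lv 1 0) - prim f2 f3 (y - lp y) - P2 f2 (y - lp y) = 0
    rw [e2, e3]
    ring
  rw [h2] at hc
  have h3 : prim f2 f3 (y + lv 1 0) - prim f2 f3 y - P2 f2 y = 0 := hc
  linarith

theorem ClF.prim_add_e3 (h : ClF f2 f3) (y : E4) :
    prim f2 f3 (y + lv 0 1) = prim f2 f3 y + P3 f3 y := by
  have hs := prim_smooth h.s2 h.s3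
  have hP := P3_smooth h.s3
  have hsh : ContDiff ℝ ∞ (fun z => prim f2 f3 (z + lv 0 1)) := hs.comp (by fun_prop)
  let k : E4 → ℝ := fun z => prim f2 f3 (z + lv 0 1) - prim f2 f3 z - P3 f3 z
  have hk : ContDiff ℝ ∞ k := (hsh.sub hs).sub hP
  have hd : ∀ z w, fderiv ℝ k z w = fderiv ℝ (prim f2 f3) (z + lv 0 1) w
      - fderiv ℝ (prim f2 f3) z w - fderiv ℝ (P3 f3) z w := by
    intro z w
    have e := (((hsh.differentiable (by simp) z).hasFDerivAt.sub
      (hs.differentiable (by simp) z).hasFDerivAt).sub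
      (hP.differentiable (by simp) z).hasFDerivAt).fderiv
    have e' : fderiv ℝ k z = _ := e
    rw [e', ← fderiv_shift (f := prim f2 f3)]
    rfl
  have hc := const_leaf hk (fun z => by
      rw [hd, h.prim_e2, h.prim_e2, h.fP3_e2, h.p2.e3]; ring) (fun z => by
      rw [hd, h.prim_e3, h.prim_e3, h.fP3_e3, h.p3.e3]; ring) (y - lp y) (y 2) (y 3)
  have h1 : y - lp y + lv (y 2) (y 3) = y := by
    rw [lp_apply, sub_add_cancel]
  rw [h1] at hc
  have h2 : k (y - lp y) = 0 := by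
    have e1 : lp (y - lp y) = 0 := by rw [map_sub, lp_lp, sub_self]
    have e2 : prim f2 f3 (y - lp y) = 0 := rprim_zero lp _ e1
    have e3 : prim f2 f3 (y - lp y + lv 0 1) = P3 f3 (y - lp y) := by
      simp only [prim, rprim, map_add, e1, lp_lv, zero_add, add_sub_cancel_right, P3]
      refine intervalIntegral.integral_congr fun r _ => ?_
      simp only [lform_apply, lv_2, lv_3, mul_one, mul_zero, zero_add]
      rw [lv_right r]
    show prim f2 f3 (y - lp y + lv 0 1) - prim f2 f3 (y - lp y) - P3 f3 (y - lp y) = 0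
    rw [e2, e3]
    ring
  rw [h2] at hc
  have h3 : prim f2 f3 (y + lv 0 1) - prim f2 f3 y - P3 f3 y = 0 := hc
  linarith

/-- (2) PRIMITIVE. -/
theorem ClF.exists_prim (h : ClF f2 f3) (h2 : ∀ y, P2 f2 y = 0) (h3 : ∀ y, P3 f3 y = 0) :
    ∃ u : E4 → ℝ, ContDiff ℝ ∞ u ∧ Per u ∧ (∀ y, fderiv ℝ u y (lv 1 0) = f2 y) ∧
      (∀ y, fderiv ℝ u y (lv 0 1) = f3 y) ∧ ∀ y, y 2 = 0 → y 3 = 0 → u y = 0 :=
  ⟨prim f2 f3, prim_smooth h.s2 h.s3, Per.of (fun y => by rw [h.prim_add_e2, h2, add_zero])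
    (fun y => by rw [h.prim_add_e3, h3, add_zero]), h.prim_e2, h.prim_e3,
    fun _ a b => prim_zero a b⟩

end Periods

/-! ### (2') the primitive on one leaf -/

/-- the inclusion of the plane as leaf direction. -/
def lvL : Ep →L[ℝ] E4 :=
  (EuclideanSpace.proj (0 : Fin 2) : Ep →L[ℝ] ℝ).smulRight (lv 1 0) +
    (EuclideanSpace.proj (1 : Fin 2) : Ep →L[ℝ] ℝ).smulRight (lv 0 1)

theorem lvL_apply (q : Ep) : lvL q = lv (q 0) (q 1) := by
  rw [lv_eq]
  rfl

theorem fderiv_leaf {u : E4 → ℝ} (hu : ContDiff ℝ ∞ u) (y : E4) (q v : Ep) :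
    fderiv ℝ (fun q : Ep => u (y + lv (q 0) (q 1))) q v =
      fderiv ℝ u (y + lv (q 0) (q 1)) (lv (v 0) (v 1)) := by
  have h0 : (fun q : Ep => u (y + lv (q 0) (q 1))) = fun q => u (y + lvL q) := by
    funext q
    rw [lvL_apply]
  have h1 : HasFDerivAt (fun q : Ep => y + lvL q) lvL q := lvL.hasFDerivAt.const_add y
  have h2 := ((hu.differentiable (by simp) (y + lvL q)).hasFDerivAt.comp q h1).fderiv
  have h3 : fderiv ℝ (fun q => u (y + lvL q)) q = _ := h2
  rw [h0, h3, ContinuousLinearMap.comp_apply, lvL_apply, lvL_apply]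

theorem leaf_smooth {u : E4 → ℝ} (hu : ContDiff ℝ ∞ u) (y : E4) :
    ContDiff ℝ ∞ (fun q : Ep => u (y + lv (q 0) (q 1))) := by
  have h0 : (fun q : Ep => u (y + lv (q 0) (q 1))) = fun q => u (y + lvL q) := by
    funext q
    rw [lvL_apply]
  rw [h0]
  exact hu.comp (by fun_prop)

section Leaf

variable {f2 f3 g2 g3 : E4 → ℝ}

/-- (2') PRIMITIVE on one leaf. -/
theorem ClF.exists_prim_leaf (h : ClF f2 f3) (y : E4) (h2 : P2 f2 y = 0) (h3 : P3 f3 y = 0) :
    ∃ U : Ep → ℝ, ContDiff ℝ ∞ U ∧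
      (∀ (q : Ep) (n : Fin 2 → ℤ), U (q + WithLp.toLp 2 fun i => (n i : ℝ)) = U q) ∧
      (∀ q, fderiv ℝ U q (EuclideanSpace.single 0 1) = f2 (y + lv (q 0) (q 1))) ∧
      ∀ q, fderiv ℝ U q (EuclideanSpace.single 1 1) = f3 (y + lv (q 0) (q 1)) := by
  have hs := prim_smooth h.s2 h.s3
  refine ⟨fun q => prim f2 f3 (y + lv (q 0) (q 1)), leaf_smooth hs y, ?_, ?_, ?_⟩
  · -- the primitive restricted to the leaf of `y` is periodic
    have k2 : ∀ z : E4, (∃ s t : ℝ, z = y + lv s t) → ∀ n : ℤ,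
        prim f2 f3 (z + lv n 0) = prim f2 f3 z := by
      intro z hz n
      induction n using Int.induction_on with
      | zero => simp
      | succ n ih =>
        obtain ⟨s, t, rfl⟩ := hz
        have e1 : y + lv s t + lv ((n : ℤ) + 1 : ℤ) 0 = (y + lv (s + ((n : ℤ) : ℝ)) t) + lv 1 0 := by
          rw [add_assoc, ← lv_add, add_assoc, ← lv_add]
          push_cast
          congr 2 <;> ring
        rw [e1, h.prim_add_e2, h.P2_const, h2, add_zero]
        rw [add_assoc, ← lv_add, add_zero] at ih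
        exact ih
      | pred n ih =>
        obtain ⟨s, t, rfl⟩ := hz
        have e1 := h.prim_add_e2 (y + lv (s + ((-(n : ℤ) - 1 : ℤ) : ℝ)) t)
        rw [h.P2_const, h2, add_zero, add_assoc, ← lv_add] at e1
        rw [add_assoc, ← lv_add, add_zero] at ih ⊢
        rw [← e1, ← ih]
        push_cast
        congr 3
        all_goals ring
    have k3 : ∀ z : E4, (∃ s t : ℝ, z = y + lv s t) → ∀ n : ℤ,
        prim f2 f3 (z + lv 0 n) = prim f2 f3 z := by
      intro z hz n
      induction n using Int.induction_on with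
      | zero => simp
      | succ n ih =>
        obtain ⟨s, t, rfl⟩ := hz
        have e1 : y + lv s t + lv 0 ((n : ℤ) + 1 : ℤ) = (y + lv s (t + ((n : ℤ) : ℝ))) + lv 0 1 := by
          rw [add_assoc, ← lv_add, add_assoc, ← lv_add]
          push_cast
          congr 2 <;> ring
        rw [e1, h.prim_add_e3, h.P3_const, h3, add_zero]
        rw [add_assoc, ← lv_add, add_zero] at ih
        exact ih
      | pred n ih =>
        obtain ⟨s, t, rfl⟩ := hz
        have e1 := h.prim_add_e3 (y + lv s (t + ((-(n : ℤ) - 1 : ℤ) : ℝ)))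
        rw [h.P3_const, h3, add_zero, add_assoc, ← lv_add] at e1
        rw [add_assoc, ← lv_add, add_zero] at ih ⊢
        rw [← e1, ← ih]
        push_cast
        congr 3
        all_goals ring
    intro q n
    show prim f2 f3 (y + lv (q 0 + (n 0 : ℝ)) (q 1 + (n 1 : ℝ))) = prim f2 f3 (y + lv (q 0) (q 1))
    have e1 : y + lv (q 0 + (n 0 : ℝ)) (q 1 + (n 1 : ℝ)) =
        (y + lv (q 0 + (n 0 : ℝ)) (q 1)) + lv 0 (n 1) := by
      rw [add_assoc, ← lv_add, add_zero]
    have e2 : y + lv (q 0 + (n 0 : ℝ)) (q 1) = (y + lv (q 0) (q 1)) + lv (n 0) 0 := by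
      rw [add_assoc, ← lv_add, add_zero]
    rw [e1, k3 _ ⟨_, _, rfl⟩, e2, k2 _ ⟨_, _, rfl⟩]
  · intro q
    rw [fderiv_leaf hs]
    have e : lv ((EuclideanSpace.single 0 1 : Ep) 0) ((EuclideanSpace.single 0 1 : Ep) 1) =
        lv 1 0 := by simp
    rw [e, h.prim_e2]
  · intro q
    rw [fderiv_leaf hs]
    have e : lv ((EuclideanSpace.single 1 1 : Ep) 0) ((EuclideanSpace.single 1 1 : Ep) 1) =
        lv 0 1 := by simp
    rw [e, h.prim_e3]

/-- (2') converse. -/
theorem P2_zero_of_prim (h2 : Continuous f2) (y : E4) {U : Ep → ℝ} (hU : Differentiable ℝ U)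
    (hp : ∀ (q : Ep) (n : Fin 2 → ℤ), U (q + WithLp.toLp 2 fun i => (n i : ℝ)) = U q)
    (hd : ∀ q, fderiv ℝ U q (EuclideanSpace.single 0 1) = f2 (y + lv (q 0) (q 1))) :
    P2 f2 y = 0 := by
  have h1 : ∀ r ∈ uIcc (0 : ℝ) 1, HasDerivAt (fun r : ℝ => U (r • EuclideanSpace.single 0 1))
      (f2 (y + lv r 0)) r := by
    intro r _
    have e4 : HasDerivAt (fun r : ℝ => r • (EuclideanSpace.single 0 1 : Ep))
        (EuclideanSpace.single 0 1) r := by
      simpa using (hasDerivAt_id r).smul_const (EuclideanSpace.single 0 1 : Ep)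
    have e5 := (hU (r • EuclideanSpace.single 0 1)).hasFDerivAt.comp_hasDerivAt r e4
    have e6 : lv ((r • (EuclideanSpace.single 0 1 : Ep)) 0) ((r • (EuclideanSpace.single 0 1 : Ep)) 1)
        = lv r 0 := by simp
    rw [hd, e6] at e5
    exact e5
  have hc : Continuous (fun r : ℝ => f2 (y + lv r 0)) := cont_l h2 y
  have h3 := intervalIntegral.integral_eq_sub_of_hasDerivAt h1 (hc.intervalIntegrable _ _)
  rw [P2, h3]
  have h4 := hp 0 ![1, 0]
  have h5 : (0 : Ep) + WithLp.toLp 2 (fun i => ((![1, 0] : Fin 2 → ℤ) i : ℝ)) =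
      EuclideanSpace.single 0 1 := by
    ext i
    fin_cases i <;> simp
  rw [h5] at h4
  simp [h4]

theorem P3_zero_of_prim (h3 : Continuous f3) (y : E4) {U : Ep → ℝ} (hU : Differentiable ℝ U)
    (hp : ∀ (q : Ep) (n : Fin 2 → ℤ), U (q + WithLp.toLp 2 fun i => (n i : ℝ)) = U q)
    (hd : ∀ q, fderiv ℝ U q (EuclideanSpace.single 1 1) = f3 (y + lv (q 0) (q 1))) :
    P3 f3 y = 0 := by
  have h1 : ∀ r ∈ uIcc (0 : ℝ) 1, HasDerivAt (fun r : ℝ => U (r • EuclideanSpace.single 1 1))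
      (f3 (y + lv 0 r)) r := by
    intro r _
    have e4 : HasDerivAt (fun r : ℝ => r • (EuclideanSpace.single 1 1 : Ep))
        (EuclideanSpace.single 1 1) r := by
      simpa using (hasDerivAt_id r).smul_const (EuclideanSpace.single 1 1 : Ep)
    have e5 := (hU (r • EuclideanSpace.single 1 1)).hasFDerivAt.comp_hasDerivAt r e4
    have e6 : lv ((r • (EuclideanSpace.single 1 1 : Ep)) 0) ((r • (EuclideanSpace.single 1 1 : Ep)) 1)
        = lv 0 r := by simp
    rw [hd, e6] at e5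
    exact e5
  have hc : Continuous (fun r : ℝ => f3 (y + lv 0 r)) := cont_r h3 y
  have h4 := intervalIntegral.integral_eq_sub_of_hasDerivAt h1 (hc.intervalIntegrable _ _)
  rw [P3, h4]
  have h5 := hp 0 ![0, 1]
  have h6 : (0 : Ep) + WithLp.toLp 2 (fun i => ((![0, 1] : Fin 2 → ℤ) i : ℝ)) =
      EuclideanSpace.single 1 1 := by
    ext i
    fin_cases i <;> simp
  rw [h6] at h5
  simp [h5]

/-! ### (3) Riemann's bilinear identity -/

theorem double_eq (h : E4 → ℝ) (y : E4) :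
    ∫ s in (0 : ℝ)..1, ∫ t in (0 : ℝ)..1, h (y + lv s t) = P2 (P3 h) y := by
  refine intervalIntegral.integral_congr fun s _ => ?_
  refine intervalIntegral.integral_congr fun t _ => ?_
  show h (y + lv s t) = h (y + lv s 0 + lv 0 t)
  rw [add_assoc, ← lv_split]

/-- (3) RIEMANN. -/
theorem ClF.riemann (hf : ClF f2 f3) (hg : ClF g2 g3) (y : E4) :
    ∫ s in (0 : ℝ)..1, ∫ t in (0 : ℝ)..1,
      (f2 (y + lv s t) * g3 (y + lv s t) - f3 (y + lv s t) * g2 (y + lv s t)) =
    P2 f2 y * P3 g3 y - P3 f3 y * P2 g2 y := by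
  rw [double_eq (fun z => f2 z * g3 z - f3 z * g2 z) y]
  obtain ⟨u, hs, u2, u3, a2, a3⟩ : ∃ u : E4 → ℝ, ContDiff ℝ ∞ u ∧
      (∀ z, fderiv ℝ u z (lv 1 0) = f2 z) ∧ (∀ z, fderiv ℝ u z (lv 0 1) = f3 z) ∧
      (∀ z, u (z + lv 1 0) = u z + P2 f2 z) ∧ (∀ z, u (z + lv 0 1) = u z + P3 f3 z) :=
    ⟨prim f2 f3, prim_smooth hf.s2 hf.s3, hf.prim_e2, hf.prim_e3, hf.prim_add_e2, hf.prim_add_e3⟩
  set F : E4 → ℝ := fun z => u z * g3 z with hF
  set G : E4 → ℝ := fun z => u z * g2 z with hG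
  have sF : ContDiff ℝ ∞ F := hs.mul hg.s3
  have sG : ContDiff ℝ ∞ G := hs.mul hg.s2
  have fd : ∀ (a b : E4 → ℝ), ContDiff ℝ ∞ a → ContDiff ℝ ∞ b → ∀ z w,
      fderiv ℝ (fun z => a z * b z) z w = a z * fderiv ℝ b z w + b z * fderiv ℝ a z w := by
    intro a b ha hb z w
    have e := ((ha.differentiable (by simp) z).hasFDerivAt.mul
      (hb.differentiable (by simp) z).hasFDerivAt).fderiv
    have e' : fderiv ℝ (fun z => a z * b z) z = _ := e
    rw [e']
    rfl
  have key : ∀ z, f2 z * g3 z - f3 z * g2 z =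
      fderiv ℝ F z (lv 1 0) - fderiv ℝ G z (lv 0 1) := by
    intro z
    rw [hF, hG, fd u g3 hs hg.s3, fd u g2 hs hg.s2, u2, u3, hg.cl]
    ring
  have cF : ∀ w : E4, Continuous (fun z => fderiv ℝ F z w) := fun w =>
    (sF.continuous_fderiv (by simp)).clm_apply continuous_const
  have cG : ∀ w : E4, Continuous (fun z => fderiv ℝ G z w) := fun w =>
    (sG.continuous_fderiv (by simp)).clm_apply continuous_const
  -- the inner mean
  have inner : ∀ z, P3 (fun z => f2 z * g3 z - f3 z * g2 z) z =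
      fderiv ℝ (P3 F) z (lv 1 0) - P3 f3 y * g2 z + (P3 f3 y - P3 f3 z) * g2 z := by
    intro z
    rw [P3_eq, Av.congr _ key, Av.sub _ (cF _) (cG _), ← Av.fderiv _ sF, Av.ftc _ sG, ← P3_eq]
    have e1 : G (z + lv 0 1) - G z = P3 f3 z * g2 z := by
      show u (z + lv 0 1) * g2 (z + lv 0 1) - u z * g2 z = P3 f3 z * g2 z
      rw [a3, hg.p2.e3]
      ring
    rw [e1]
    ring
  have sPF : ContDiff ℝ ∞ (P3 F) := P3_smooth sF
  have outer : P2 (P3 (fun z => f2 z * g3 z - f3 z * g2 z)) y =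
      ∫ r in (0 : ℝ)..1, (fderiv ℝ (P3 F) (y + lv r 0) (lv 1 0) - P3 f3 y * g2 (y + lv r 0)) := by
    refine intervalIntegral.integral_congr fun r _ => ?_
    show P3 (fun z => f2 z * g3 z - f3 z * g2 z) (y + lv r 0) = _
    rw [inner, hf.P3_const, sub_self, zero_mul, add_zero]
  have c1 : Continuous (fun r : ℝ => fderiv ℝ (P3 F) (y + lv r 0) (lv 1 0)) :=
    cont_l ((sPF.continuous_fderiv (by simp)).clm_apply continuous_const) y
  have c2 : Continuous (fun r : ℝ => P3 f3 y * g2 (y + lv r 0)) :=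
    continuous_const.mul (cont_l hg.s2.continuous y)
  rw [outer, intervalIntegral.integral_sub (c1.intervalIntegrable _ _)
    (c2.intervalIntegrable _ _), intervalIntegral.integral_const_mul]
  have e2 : ∫ r in (0 : ℝ)..1, fderiv ℝ (P3 F) (y + lv r 0) (lv 1 0) =
      P3 F (y + lv 1 0) - P3 F y := by
    have := Av.ftc (lv 1 0) sPF y
    rw [← P2_eq] at this
    exact this
  have e3 : P3 F (y + lv 1 0) - P3 F y = P2 f2 y * P3 g3 y := by
    have cFc : ∀ w : E4, Continuous (fun r : ℝ => F (w + lv 0 r)) := fun w =>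
      cont_r sF.continuous w
    rw [P3, P3, P3, ← intervalIntegral.integral_sub ((cFc _).intervalIntegrable _ _)
      ((cFc _).intervalIntegrable _ _), ← intervalIntegral.integral_const_mul]
    refine intervalIntegral.integral_congr fun r _ => ?_
    show F (y + lv 1 0 + lv 0 r) - F (y + lv 0 r) = P2 f2 y * g3 (y + lv 0 r)
    have e4 : y + lv 1 0 + lv 0 r = (y + lv 0 r) + lv 1 0 := by abel
    rw [e4]
    show u (y + lv 0 r + lv 1 0) * g3 (y + lv 0 r + lv 1 0) - u (y + lv 0 r) * g3 (y + lv 0 r) = _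
    rw [a2, hg.p3.e2, hf.P2_const]
    ring
  rw [e2, e3]
  rfl

end Leaf

/-! ### integrals over the unit square -/

/-- the integral over the unit square as an iterated integral. -/
theorem square_eq {h : ℝ × ℝ → ℝ} (hc : Continuous h) :
    ∫ q : Fin 2 → ℝ in Set.pi univ (fun _ => Set.Icc (0 : ℝ) 1), h (q 0, q 1) =
      ∫ s in (0 : ℝ)..1, ∫ t in (0 : ℝ)..1, h (s, t) := by
  have hm := volume_preserving_finTwoArrow ℝ
  have h1 : Set.pi univ (fun _ : Fin 2 => Set.Icc (0 : ℝ) 1) =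
      (MeasurableEquiv.finTwoArrow : (Fin 2 → ℝ) ≃ᵐ ℝ × ℝ) ⁻¹'
        (Set.Icc (0 : ℝ) 1 ×ˢ Set.Icc (0 : ℝ) 1) := by
    ext q
    rw [Set.mem_preimage, Set.mem_univ_pi, Fin.forall_fin_two]
    exact Iff.rfl
  have h2 : ∫ q : Fin 2 → ℝ in Set.pi univ (fun _ => Set.Icc (0 : ℝ) 1), h (q 0, q 1) =
      ∫ z in Set.Icc (0 : ℝ) 1 ×ˢ Set.Icc (0 : ℝ) 1, h z := by
    rw [h1]
    exact hm.setIntegral_preimage_emb (MeasurableEquiv.measurableEmbedding _) h _
  rw [h2, Measure.volume_eq_prod, setIntegral_prod h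
    ((hc.continuousOn).integrableOn_compact (isCompact_Icc.prod isCompact_Icc))]
  rw [intervalIntegral.integral_of_le zero_le_one, integral_Icc_eq_integral_Ioc]
  refine setIntegral_congr_fun measurableSet_Ioc fun s _ => ?_
  show ∫ t in Icc (0 : ℝ) 1, h (s, t) = ∫ t in (0 : ℝ)..1, h (s, t)
  rw [intervalIntegral.integral_of_le zero_le_one, integral_Icc_eq_integral_Ioc]

theorem square_leaf {h : E4 → ℝ} (hc : Continuous h) (y : E4) :
    ∫ q : Fin 2 → ℝ in Set.pi univ (fun _ => Set.Icc (0 : ℝ) 1), h (y + lv (q 0) (q 1)) =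
      ∫ s in (0 : ℝ)..1, ∫ t in (0 : ℝ)..1, h (y + lv s t) := by
  refine square_eq (h := fun z => h (y + lv z.1 z.2)) ?_
  have e : (fun z : ℝ × ℝ => h (y + lv z.1 z.2)) =
      fun z => h (y + (z.1 • lv 1 0 + z.2 • lv 0 1)) := by
    funext z
    rw [← lv_eq]
  rw [e]
  exact hc.comp (by fun_prop)

section Man

variable {M : Type u} [TopologicalSpace M] [ChartedSpace E4 M] [IsManifold 𝓘(ℝ, E4) ∞ M]

/-- the differential of a leaf. -/
theorem dmap_slice {Φ : E4 → M} (hΦ : ContMDiff 𝓘(ℝ, E4) 𝓘(ℝ, E4) ∞ Φ) (y : E4) (q v : Ep) :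
    dmap (slice Φ y) q v = dmap Φ (y + lv (q 0) (q 1)) (lv (v 0) (v 1)) := by
  have h0 : slice Φ y = fun q => Φ (y + lvL q) := by
    funext q
    rw [lvL_apply]
    rfl
  have h1 : HasFDerivAt (fun q : Ep => y + lvL q) lvL q := lvL.hasFDerivAt.const_add y
  have h2 := Pull_129.dL_comp (Φ := Φ) (g := fun q : Ep => y + lvL q) (z := q) (hΦ _)
    h1.differentiableAt
  have h3 : dmap (slice Φ y) q v = Pull_129.dL (E := E4) (fun q => Φ (y + lvL q)) q v := by
    rw [h0]
    rfl
  rw [h3, h2, h1.fderiv, ContinuousLinearMap.comp_apply, lvL_apply, lvL_apply]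
  rfl

/-- the pulled back form in the leaf directions. -/
def lf (Φ : E4 → M) (b : F2 E4 M) (y : E4) : ℝ :=
  at2 b (Φ y) (dmap Φ y (lv 1 0)) (dmap Φ y (lv 0 1))

theorem lf_smooth {Φ : E4 → M} (hΦ : ContMDiff 𝓘(ℝ, E4) 𝓘(ℝ, E4) ∞ Φ) {b : F2 E4 M}
    (hb : Smooth2 b) : ContDiff ℝ ∞ (lf Φ b) := by
  have h := Pull_129.pb2_contDiffOn isOpen_univ hΦ.contMDiffOn hb
  have h1 := contDiffOn_univ.1 h
  exact (h1.clm_apply contDiff_const).clm_apply contDiff_const

end Man

section Closed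

variable {M : Type u} [TopologicalSpace M] [T2Space M] [CompactSpace M]
  [ChartedSpace E4 M] [IsManifold 𝓘(ℝ, E4) ∞ M]

omit [T2Space M] [CompactSpace M] in
/-- the integral over a leaf as an iterated integral. -/
theorem torI_slice {Φ : E4 → M} (hΦ : ContMDiff 𝓘(ℝ, E4) 𝓘(ℝ, E4) ∞ Φ) {b : F2 E4 M}
    (hb : Smooth2 b) (y : E4) : torI (slice Φ y) b =
      ∫ s in (0 : ℝ)..1, ∫ t in (0 : ℝ)..1, lf Φ b (y + lv s t) := by
  rw [← square_leaf (lf_smooth hΦ hb).continuous y]
  unfold torI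
  refine setIntegral_congr_fun (MeasurableSet.univ_pi fun _ => measurableSet_Icc) fun q _ => ?_
  show at2 b (slice Φ y (WithLp.toLp 2 q)) (dmap (slice Φ y) (WithLp.toLp 2 q) _)
    (dmap (slice Φ y) (WithLp.toLp 2 q) _) = _
  rw [dmap_slice hΦ, dmap_slice hΦ]
  have e0 : lv ((EuclideanSpace.single 0 1 : Ep) 0) ((EuclideanSpace.single 0 1 : Ep) 1) =
      lv 1 0 := by simp
  have e1 : lv ((EuclideanSpace.single 1 1 : Ep) 0) ((EuclideanSpace.single 1 1 : Ep) 1) =
      lv 0 1 := by simp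
  rw [e0, e1]
  rfl

end Closed

/-! ### (4) periods of a closed two-form -/

section Base

variable {m : E4 → Bil}

theorem fderiv_entry (hm : ContDiff ℝ ∞ m) (a b z w : E4) :
    fderiv ℝ (fun z => m z a b) z w = fderiv ℝ m z w a b := by
  have h1 := (hm.differentiable (by simp) z).hasFDerivAt
  have h2 := ((h1.clm_apply (hasFDerivAt_const a z)).clm_apply (hasFDerivAt_const b z)).fderiv
  have h3 : fderiv ℝ (fun z => m z a b) z = _ := h2
  rw [h3]
  simp

theorem entry_smooth (hm : ContDiff ℝ ∞ m) (a b : E4) : ContDiff ℝ ∞ (fun z => m z a b) :=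
  (hm.clm_apply contDiff_const).clm_apply contDiff_const

/-- a closed periodic two-form without leaf part gives closed leaf forms. -/
theorem base_clF (hm : ContDiff ℝ ∞ m) (hp : ∀ (y : E4) (i j : ℤ), m (y + lv i j) = m y)
    (hd : ∀ y u v w, dd m y u v w = 0) (hl : ∀ y, m y (lv 1 0) (lv 0 1) = 0) (b : E4) :
    ClF (fun y => m y (lv 1 0) b) (fun y => m y (lv 0 1) b) where
  s2 := entry_smooth hm _ _
  s3 := entry_smooth hm _ _
  p2 y i j := by
    show m (y + lv i j) (lv 1 0) b = m y (lv 1 0) b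
    rw [hp]
  p3 y i j := by
    show m (y + lv i j) (lv 0 1) b = m y (lv 0 1) b
    rw [hp]
  cl y := by
    rw [fderiv_entry hm, fderiv_entry hm]
    have h1 := hd y (lv 1 0) (lv 0 1) b
    have h2 : fderiv ℝ m y b (lv 1 0) (lv 0 1) = 0 := by
      rw [← fderiv_entry hm]
      have : (fun z => m z (lv 1 0) (lv 0 1)) = fun _ => (0 : ℝ) := funext hl
      rw [this]
      simp
    unfold dd at h1
    rw [h2] at h1
    linarith

/-- (4) the periods of a closed periodic two-form are closed on the base: for a leaf period `e`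
and any two directions `b0`, `b1`. -/
theorem base_closed (hm : ContDiff ℝ ∞ m) (e b0 b1 : E4) (hp : ∀ y, m (y + e) = m y)
    (hd : ∀ y u v w, dd m y u v w = 0) (y : E4) :
    fderiv ℝ (Av e fun z => m z e b0) y b1 = fderiv ℝ (Av e fun z => m z e b1) y b0 := by
  rw [Av.fderiv _ (entry_smooth hm _ _), Av.fderiv _ (entry_smooth hm _ _)]
  have c : ∀ u v w : E4, Continuous (fun z => fderiv ℝ (fun z => m z u v) z w) := fun u v w =>
    ((entry_smooth hm u v).continuous_fderiv (by simp)).clm_apply continuous_const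
  have h1 : ∀ z, fderiv ℝ (fun z => m z e b0) z b1 - fderiv ℝ (fun z => m z e b1) z b0 =
      - fderiv ℝ (fun z => m z b0 b1) z e := by
    intro z
    rw [fderiv_entry hm, fderiv_entry hm, fderiv_entry hm]
    have h := hd z e b0 b1
    unfold dd at h
    linarith
  have h2 : Av e (fun z => fderiv ℝ (fun z => m z e b0) z b1 -
      fderiv ℝ (fun z => m z e b1) z b0) y = 0 := by
    rw [Av.congr _ h1]
    have h3 := Av.ftc e (entry_smooth hm b0 b1) y
    rw [hp, sub_self] at h3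
    have h4 : Av e (fun z => - fderiv ℝ (fun z => m z b0 b1) z e) y =
        - Av e (fun z => fderiv ℝ (fun z => m z b0 b1) z e) y :=
      intervalIntegral.integral_neg
    rw [h4, h3, neg_zero]
  rw [Av.sub _ (c _ _ _) (c _ _ _)] at h2
  linarith

/-- (4), the form with the periods `P2`. -/
theorem base_closed2 (hm : ContDiff ℝ ∞ m) (hp : ∀ (y : E4) (i j : ℤ), m (y + lv i j) = m y)
    (hd : ∀ y u v w, dd m y u v w = 0) (y : E4) :
    fderiv ℝ (P2 fun z => m z (lv 1 0) (bv 1 0)) y (bv 0 1) =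
      fderiv ℝ (P2 fun z => m z (lv 1 0) (bv 0 1)) y (bv 1 0) := by
  rw [P2_eq, P2_eq]
  exact base_closed hm _ _ _ (fun y => by simpa using hp y 1 0) hd y

/-- (4), the form with the periods `P3`. -/
theorem base_closed3 (hm : ContDiff ℝ ∞ m) (hp : ∀ (y : E4) (i j : ℤ), m (y + lv i j) = m y)
    (hd : ∀ y u v w, dd m y u v w = 0) (y : E4) :
    fderiv ℝ (P3 fun z => m z (lv 0 1) (bv 1 0)) y (bv 0 1) =
      fderiv ℝ (P3 fun z => m z (lv 0 1) (bv 0 1)) y (bv 1 0) := by
  rw [P3_eq, P3_eq]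
  exact base_closed hm _ _ _ (fun y => by simpa using hp y 0 1) hd y

end Base

end

end Crest.Agent.R235.TorPer_82
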