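import Crest.Agent.R235.FibTr_129
import Crest.Agent.R235.TorPer_82

/-!
Row 235 (S0364), package TOR / A2 (helper129): the interface of TOR-PER (helper82) in the form
used by the flux forms.
-/

set_option autoImplicit false
set_option maxSynthPendingDepth 3

open Set Function Filter MeasureTheory
open scoped Manifold ContDiff Topology

namespace Crest.Agent.R235.FibPer_129

open Crest.Agent.R240 Crest.Agent.R240.Ch

noncomputable section

/-- periodic along the leaves. -/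
def Per (f : E4 → ℝ) : Prop := ∀ (y : E4) (m n : ℤ), f (y + lv m n) = f y

/-- the period in the direction `2`. -/
def P2 (f : E4 → ℝ) (y : E4) : ℝ := ∫ r in (0 : ℝ)..1, f (y + lv r 0)

/-- the period in the direction `3`. -/
def P3 (f : E4 → ℝ) (y : E4) : ℝ := ∫ r in (0 : ℝ)..1, f (y + lv 0 r)

/-- closed leaf form. -/
def Cl (f2 f3 : E4 → ℝ) : Prop := ∀ y, fderiv ℝ f3 y (lv 1 0) = fderiv ℝ f2 y (lv 0 1)

theorem contDiff_P2 {f : E4 → ℝ} (hf : ContDiff ℝ ∞ f) : ContDiff ℝ ∞ (P2 f) :=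
  TorPer_82.P2_smooth hf
theorem contDiff_P3 {f : E4 → ℝ} (hf : ContDiff ℝ ∞ f) : ContDiff ℝ ∞ (P3 f) :=
  TorPer_82.P3_smooth hf

theorem P2_leaf {f2 f3 : E4 → ℝ} (h2 : ContDiff ℝ ∞ f2) (h3 : ContDiff ℝ ∞ f3) (p2 : Per f2)
    (p3 : Per f3) (hc : Cl f2 f3) (y : E4) (s t : ℝ) : P2 f2 (y + lv s t) = P2 f2 y :=
  TorPer_82.ClF.P2_const ⟨h2, h3, p2, p3, hc⟩ y s t
theorem P3_leaf {f2 f3 : E4 → ℝ} (h2 : ContDiff ℝ ∞ f2) (h3 : ContDiff ℝ ∞ f3) (p2 : Per f2)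
    (p3 : Per f3) (hc : Cl f2 f3) (y : E4) (s t : ℝ) : P3 f3 (y + lv s t) = P3 f3 y :=
  TorPer_82.ClF.P3_const ⟨h2, h3, p2, p3, hc⟩ y s t

theorem prim {f2 f3 : E4 → ℝ} (h2 : ContDiff ℝ ∞ f2) (h3 : ContDiff ℝ ∞ f3) (p2 : Per f2)
    (p3 : Per f3) (hc : Cl f2 f3) (z2 : ∀ y, P2 f2 y = 0) (z3 : ∀ y, P3 f3 y = 0) :
    ∃ u : E4 → ℝ, ContDiff ℝ ∞ u ∧ Per u ∧
      ∀ y, fderiv ℝ u y (lv 1 0) = f2 y ∧ fderiv ℝ u y (lv 0 1) = f3 y := by
  obtain ⟨u, h1, h4, h5, h6, -⟩ := TorPer_82.ClF.exists_prim ⟨h2, h3, p2, p3, hc⟩ z2 z3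
  exact ⟨u, h1, h4, fun y => ⟨h5 y, h6 y⟩⟩

theorem riem {f2 f3 g2 g3 : E4 → ℝ} (h2 : ContDiff ℝ ∞ f2) (h3 : ContDiff ℝ ∞ f3) (p2 : Per f2)
    (p3 : Per f3) (hc : Cl f2 f3) (k2 : ContDiff ℝ ∞ g2) (k3 : ContDiff ℝ ∞ g3) (q2 : Per g2)
    (q3 : Per g3) (kc : Cl g2 g3) (y : E4) :
    (∫ q : Fin 2 → ℝ in Set.pi univ (fun _ => Set.Icc (0 : ℝ) 1),
      (f2 (y + lv (q 0) (q 1)) * g3 (y + lv (q 0) (q 1)) -
        f3 (y + lv (q 0) (q 1)) * g2 (y + lv (q 0) (q 1)))) =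
      P2 f2 y * P3 g3 y - P3 f3 y * P2 g2 y := by
  have h1 := TorPer_82.square_leaf (h := fun z => f2 z * g3 z - f3 z * g2 z)
    ((h2.continuous.mul k3.continuous).sub (h3.continuous.mul k2.continuous)) y
  have h4 := TorPer_82.ClF.riemann (f2 := f2) (f3 := f3) (g2 := g2) (g3 := g3)
    ⟨h2, h3, p2, p3, hc⟩ ⟨k2, k3, q2, q3, kc⟩ y
  exact h1.trans h4

theorem const_of_fderiv {f : E4 → ℝ} (hf : ContDiff ℝ ∞ f) (h : ∀ y v, fderiv ℝ f y v = 0)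
    (y y' : E4) : f y = f y' := by
  have h1 := TorPer_82.const_of_fderiv (y - y') hf (fun z => h z _) y' 1
  rw [one_smul, add_sub_cancel] at h1
  exact h1

theorem app_deriv {s : E4 → E4 →L[ℝ] ℝ} (hs : ContDiff ℝ ∞ s) (e y v : E4) :
    fderiv ℝ (fun z => s z e) y v = fderiv ℝ s y v e := by
  rw [fderiv_clm_apply (hs.contDiffAt.differentiableAt infty_ne_zero) (differentiableAt_const e)]
  simp

theorem Av_const {s : E4 → E4 →L[ℝ] ℝ} (hs : ContDiff ℝ ∞ s) (hc : ∀ y, d1 s y = 0) (e : E4)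
    (hp : ∀ y : E4, s (y + e) = s y) (y y' : E4) :
    TorPer_82.Av e (fun z => s z e) y = TorPer_82.Av e (fun z => s z e) y' := by
  have hse : ContDiff ℝ ∞ (fun z => s z e) := hs.clm_apply contDiff_const
  refine const_of_fderiv (TorPer_82.Av.smooth e hse) (fun y v => ?_) y y'
  rw [TorPer_82.Av.fderiv e hse]
  have hsv : ContDiff ℝ ∞ (fun z => s z v) := hs.clm_apply contDiff_const
  have h1 : ∀ z, fderiv ℝ (fun z => s z e) z v = fderiv ℝ (fun z => s z v) z e := by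
    intro z
    rw [app_deriv hs, app_deriv hs]
    have h2 : d1 s z v e = 0 := by rw [hc z]; rfl
    rw [d1_apply] at h2
    linarith
  rw [TorPer_82.Av.congr e h1, TorPer_82.Av.ftc e hsv]
  show s (y + e) v - s y v = 0
  rw [hp, sub_self]

theorem P2_const {s : E4 → E4 →L[ℝ] ℝ} (hs : ContDiff ℝ ∞ s) (hc : ∀ y, d1 s y = 0)
    (hp : ∀ (y : E4) (m n : ℤ), s (y + lv m n) = s y) (y y' : E4) :
    P2 (fun z => s z (lv 1 0)) y = P2 (fun z => s z (lv 1 0)) y' := by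
  have h1 := Av_const hs hc (lv 1 0) (fun y => by simpa using hp y 1 0) y y'
  rw [← TorPer_82.P2_eq] at h1
  exact h1
theorem P3_const {s : E4 → E4 →L[ℝ] ℝ} (hs : ContDiff ℝ ∞ s) (hc : ∀ y, d1 s y = 0)
    (hp : ∀ (y : E4) (m n : ℤ), s (y + lv m n) = s y) (y y' : E4) :
    P3 (fun z => s z (lv 0 1)) y = P3 (fun z => s z (lv 0 1)) y' := by
  have h1 := Av_const hs hc (lv 0 1) (fun y => by simpa using hp y 0 1) y y'
  rw [← TorPer_82.P3_eq] at h1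
  exact h1

theorem base_cl {m : E4 → Bil} (hm : ContDiff ℝ ∞ m) (_ha : ∀ y, Alt (m y))
    (hd : ∀ y u v w, dd m y u v w = 0) (h0 : ∀ y, m y (lv 1 0) (lv 0 1) = 0) (b : E4) :
    Cl (fun y => m y b (lv 1 0)) (fun y => m y b (lv 0 1)) := by
  intro y
  have h1 := hd y b (lv 1 0) (lv 0 1)
  unfold dd at h1
  have h2 : fderiv ℝ m y b (lv 1 0) (lv 0 1) = 0 := by
    rw [← TorPer_82.fderiv_entry hm]
    have : (fun z => m z (lv 1 0) (lv 0 1)) = fun _ => 0 := funext h0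
    rw [this]; simp
  rw [TorPer_82.fderiv_entry hm, TorPer_82.fderiv_entry hm]
  linarith

theorem base_av {m : E4 → Bil} (hm : ContDiff ℝ ∞ m) (ha : ∀ y, Alt (m y)) (e : E4)
    (hp : ∀ y : E4, m (y + e) = m y) (hd : ∀ y u v w, dd m y u v w = 0) (b b' y : E4) :
    fderiv ℝ (TorPer_82.Av e (fun y => m y b e)) y b' =
      fderiv ℝ (TorPer_82.Av e (fun y => m y b' e)) y b := by
  have h1 := TorPer_82.base_closed hm e b b' hp hd y
  have h2 : ∀ b : E4, (TorPer_82.Av e (fun y => m y b e)) =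
      fun y => -(TorPer_82.Av e (fun y => m y e b) y) := by
    intro b
    funext y
    show ∫ r in (0 : ℝ)..1, m (y + r • e) b e = -∫ r in (0 : ℝ)..1, m (y + r • e) e b
    rw [← intervalIntegral.integral_neg]
    congr 1
    funext r
    exact (ha _).swap _ _
  rw [h2 b, h2 b', fderiv_fun_neg, fderiv_fun_neg, neg_apply, neg_apply, h1]

theorem base2 {m : E4 → Bil} (hm : ContDiff ℝ ∞ m) (ha : ∀ y, Alt (m y))
    (hp : ∀ (y : E4) (k n : ℤ), m (y + lv k n) = m y)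
    (hd : ∀ y u v w, dd m y u v w = 0) (_h0 : ∀ y, m y (lv 1 0) (lv 0 1) = 0) (b b' y : E4) :
    fderiv ℝ (P2 (fun y => m y b (lv 1 0))) y b' = fderiv ℝ (P2 (fun y => m y b' (lv 1 0))) y b := by
  have h1 := base_av hm ha (lv 1 0) (fun y => by simpa using hp y 1 0) hd b b' y
  rw [← TorPer_82.P2_eq, ← TorPer_82.P2_eq] at h1
  exact h1
theorem base3 {m : E4 → Bil} (hm : ContDiff ℝ ∞ m) (ha : ∀ y, Alt (m y))
    (hp : ∀ (y : E4) (k n : ℤ), m (y + lv k n) = m y)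
    (hd : ∀ y u v w, dd m y u v w = 0) (_h0 : ∀ y, m y (lv 1 0) (lv 0 1) = 0) (b b' y : E4) :
    fderiv ℝ (P3 (fun y => m y b (lv 0 1))) y b' = fderiv ℝ (P3 (fun y => m y b' (lv 0 1))) y b := by
  have h1 := base_av hm ha (lv 0 1) (fun y => by simpa using hp y 0 1) hd b b' y
  rw [← TorPer_82.P3_eq, ← TorPer_82.P3_eq] at h1
  exact h1

end

end Crest.Agent.R235.FibPer_129
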