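import Crest.Agent.R235.Defs_837
import Crest.Agent.R240.Ch4

/-!
Row 235 (helper68): the wedge product of two closed one-forms is closed.
-/

set_option autoImplicit false
set_option maxSynthPendingDepth 3

open Set Function Filter MeasureTheory
open scoped Manifold ContDiff Topology

universe u

namespace Crest.Agent.R235

open Crest.Agent.R240 Crest.Agent.R240.Ch

noncomputable section

section Local

variable {E : Type*} [NormedAddCommGroup E] [NormedSpace ℝ E]

theorem dd_wed {S T : E → E →L[ℝ] ℝ} {b : E → E →L[ℝ] E →L[ℝ] ℝ} {y : E}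
    (hS : DifferentiableAt ℝ S y) (hT : DifferentiableAt ℝ T y) (hb : DifferentiableAt ℝ b y)
    (h : ∀ z v w, b z v w = S z v * T z w - T z v * S z w) (u v w : E) :
    dd b y u v w = (d1 S y u v * T y w - d1 S y u w * T y v + d1 S y v w * T y u)
      - (d1 T y u v * S y w - d1 T y u w * S y v + d1 T y v w * S y u) := by
  have key : ∀ u v w : E, fderiv ℝ b y u v w =
      fderiv ℝ S y u v * T y w + S y v * fderiv ℝ T y u w
        - (fderiv ℝ T y u v * S y w + T y v * fderiv ℝ S y u w) := by
    intro u v w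
    have e1 : fderiv ℝ (fun z => b z v w) y u = fderiv ℝ b y u v w := by
      have h1 := fderiv_pair (Y := fun _ => v) (Z := fun _ => w) hb
        (differentiableAt_const v) (differentiableAt_const w) u
      rw [h1]
      simp
    rw [← e1]
    have e2 : (fun z => b z v w) = fun z => S z v * T z w - T z v * S z w := by
      funext z; exact h z v w
    rw [e2]
    have dS : ∀ v : E, HasFDerivAt (fun z => S z v)
        ((ContinuousLinearMap.apply ℝ ℝ v).comp (fderiv ℝ S y)) y := fun v =>
      ((ContinuousLinearMap.apply ℝ ℝ v).hasFDerivAt).comp y hS.hasFDerivAt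
    have dT : ∀ v : E, HasFDerivAt (fun z => T z v)
        ((ContinuousLinearMap.apply ℝ ℝ v).comp (fderiv ℝ T y)) y := fun v =>
      ((ContinuousLinearMap.apply ℝ ℝ v).hasFDerivAt).comp y hT.hasFDerivAt
    have e3 : fderiv ℝ (fun z => S z v * T z w - T z v * S z w) y = _ :=
      (((dS v).mul (dT w)).sub ((dT v).mul (dS w))).fderiv
    rw [e3]
    simp only [sub_apply, add_apply, smul_apply, smul_eq_mul, ContinuousLinearMap.comp_apply,
      ContinuousLinearMap.apply_apply]
    ring
  simp only [dd, key, d1_apply]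
  ring

end Local

section Mfd

variable {M : Type u} [TopologicalSpace M] [ChartedSpace E4 M] [IsManifold 𝓘(ℝ, E4) ∞ M]

theorem closed2_wedG {s t : F1 E4 M} (hs : Closed1 s) (ht : Closed1 t) :
    Closed2 (wedG s t) := by
  intro p y hy u v w
  have h1 := dd_wed (S := rep1 p s) (T := rep1 p t) (b := rep p (wedG s t)) (y := y)
    ((hs.1.at hy).differentiableAt infty_ne_zero) ((ht.1.at hy).differentiableAt infty_ne_zero)
    ((Smooth2.wed hs.1 ht.1).diff hy) (fun z v w => rep_wedG p s t z v w) u v w
  rw [h1, hs.2 p y hy, ht.2 p y hy]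
  simp

/-- the closed two-form `s ∧ t`. -/
def wz (s t : F1 E4 M) (hs : Closed1 s) (ht : Closed1 t) : Z2 M :=
  ⟨⟨wedG s t, Smooth2.wed hs.1 ht.1⟩, closed2_wedG hs ht⟩

theorem val_wz {s t : F1 E4 M} (hs : Closed1 s) (ht : Closed1 t) (x : M) :
    val (wz s t hs ht) x = wed (at1 s x) (at1 t x) := by
  rfl

theorem exists_wz {s t : F1 E4 M} (hs : Closed1 s) (ht : Closed1 t) :
    ∃ b : Z2 M, ∀ x, val b x = wed (at1 s x) (at1 t x) := ⟨wz s t hs ht, fun _ => rfl⟩

end Mfd

end

end Crest.Agent.R235
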