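import Crest.Agent.R235.FibCo_129
import Crest.Agent.R235.TorWed_68

/-!
Row 235 (S0364), package TOR (helper129): the nodes `COFRAME` and `COFRAMEI`.
-/

set_option autoImplicit false
set_option maxSynthPendingDepth 3
set_option linter.unusedSectionVars false

open Set Function Filter MeasureTheory
open scoped Manifold ContDiff Topology

universe u

namespace Crest.Agent.R235.FibTop_129

open Crest.Agent.R240 Crest.Agent.R240.Ch Crest.Agent.R235.Pull_129 Crest.Agent.R235.FibTr_129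
  Crest.Agent.R235.FibPer_129 Crest.Agent.R235.FibFlux_129 Crest.Agent.R235.FibUniq_129
  Crest.Agent.R235.FibCo_129

noncomputable section

section Man

variable {M : Type u} [TopologicalSpace M] [T2Space M] [CompactSpace M]
  [ChartedSpace E4 M] [IsManifold 𝓘(ℝ, E4) ∞ M]

variable {w : Trip M} {f : H2 M} {Φ Ψ : E4 → M} {T : Set (E4 → M)} {g : Fin 2 → F1 E4 M}

/-- two closed one-forms whose product has a non-zero integral over the leaves. -/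
lemma exists_pair (hw : Pos3 w) {s : Fin 4 → F1 E4 M} {A : Fin 4 → Fin 4 → Z2 M}
    (_hA : ∀ i j, (A i j).1.1 = wedG (s i) (s j))
    (hspan : ∀ c : H2 M, ∃ n : Fin 4 → Fin 4 → ℝ, c = ∑ i, ∑ j, n i j • cls (A i j))
    {σ : Ep → M} (hσ : JTor w σ f) : ∃ i j, ip (w 0) f (cls (A i j)) ≠ 0 := by
  by_contra hcon
  push Not at hcon
  have hV : Int.Vol ((w 0).1.1 : F2 E4 M) := hw.vol 0
  obtain ⟨n, hn⟩ := hspan (cls (w 0))
  have h1 := hσ.pos
  rw [hn, ip_sum_right hV] at h1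
  have h2 : ∀ i, ip (w 0) f (∑ j, n i j • cls (A i j)) = 0 := by
    intro i
    rw [ip_sum_right hV]
    refine Finset.sum_eq_zero fun j _ => ?_
    rw [ip_smul_right hV, hcon i j, mul_zero]
  rw [Finset.sum_eq_zero fun i _ => h2 i] at h1
  exact lt_irrefl _ h1

/-! ### the involution -/

lemma dL_self {τ : M → M} (hτ : ContMDiff 𝓘(ℝ, E4) 𝓘(ℝ, E4) ∞ τ) (hΦ : Tube w f Φ) (y v : E4) :
    dL (E := E4) (fun z => τ (Φ z)) y v = dself τ (Φ y) (dL (E := E4) Φ y v) :=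
  TorMin_510.dmap_comp hτ (hΦ.smooth y) v

lemma pb1_self {τ : M → M} (hτ : ContMDiff 𝓘(ℝ, E4) 𝓘(ℝ, E4) ∞ τ) (hΦ : Tube w f Φ)
    (s : F1 E4 M) (y v : E4) : pb1 (fun z => τ (Φ z)) s y v =
      at1 s (τ (Φ y)) (dself τ (Φ y) (dL (E := E4) Φ y v)) := by
  rw [pb1_apply, dL_self hτ hΦ]

lemma tube_self (hT4 : T4R (w 0)) {τ : M → M} (hi : Invol w τ) (hm : MinusOne τ)
    (hΦ : Tube w f Φ) : Tube w f (fun z => τ (Φ z)) where
  smooth := hi.smooth.comp hΦ.smooth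
  per y m n := congrArg τ (hΦ.per y m n)
  inj y z h := hΦ.inj y z (by
    have := congrArg τ h
    simpa only [hi.inv] using this)
  imm y v hv := by
    have h1 : dself τ (Φ y) (dmap Φ y v) = 0 := by
      rw [← hv]; exact (dL_self hi.smooth hΦ y v).symm
    have h2 := TorMin_510.dself_dself hi.smooth hi.inv (Φ y) (dmap Φ y v)
    rw [h1, map_zero] at h2
    exact hΦ.imm y v h2.symm
  leaf y := TorMin_510.jtor_comp hT4 hi hm (hΦ.leaf y)

/-- all charts together with their images under the involution. -/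
def dbl (τ : M → M) (T : Set (E4 → M)) : Set (E4 → M) := T ∪ (fun Φ z => τ (Φ z)) '' T

lemma slice_lv (Φ : E4 → M) (y : E4) (s t : ℝ) :
    range (slice Φ (y + lv s t)) = range (slice Φ y) := by
  ext x
  constructor
  · rintro ⟨q, rfl⟩
    refine ⟨WithLp.toLp 2 ![s + q 0, t + q 1], ?_⟩
    show Φ (y + lv (s + q 0) (t + q 1)) = Φ (y + lv s t + lv (q 0) (q 1))
    rw [lv_add, add_assoc]
  · rintro ⟨q, rfl⟩
    refine ⟨WithLp.toLp 2 ![q 0 - s, q 1 - t], ?_⟩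
    show Φ (y + lv s t + lv (q 0 - s) (q 1 - t)) = Φ (y + lv (q 0) (q 1))
    rw [add_assoc, ← lv_add]
    congr 3 <;> ring

lemma dbl_atlas (hT4 : T4R (w 0)) {τ : M → M} (hi : Invol w τ) (hm : MinusOne τ)
    (hT : TAtlas w f T)
    (hl : ∀ Φ ∈ T, ∀ y, ∃ Ψ ∈ T, ∃ z, τ '' range (slice Φ y) = range (slice Ψ z)) :
    TAtlas w f (dbl τ T) := by
  have hrep : ∀ Φ ∈ dbl τ T, ∀ y, ∃ Ψ ∈ T, ∃ z, range (slice Φ y) = range (slice Ψ z) := by
    rintro Φ (hΦ | ⟨Φ, hΦ, rfl⟩) y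
    · exact ⟨Φ, hΦ, y, rfl⟩
    · obtain ⟨Ψ, hΨ, z, h⟩ := hl Φ hΦ y
      refine ⟨Ψ, hΨ, z, ?_⟩
      rw [← h, ← range_comp]
      rfl
  have hmem : ∀ (Φ : E4 → M) (y : E4), Φ y ∈ range (slice Φ y) := by
    intro Φ y
    refine ⟨0, ?_⟩
    show Φ (y + lv 0 0) = Φ y
    rw [lv_zero, add_zero]
  refine ⟨?_, ?_, ?_⟩
  · rintro Φ (hΦ | ⟨Φ, hΦ, rfl⟩)
    · exact hT.tube Φ hΦ
    · exact tube_self hT4 hi hm (hT.tube Φ hΦ)
  · intro x
    obtain ⟨Φ, hΦ, h⟩ := hT.cover x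
    exact ⟨Φ, Or.inl hΦ, h⟩
  · intro Φ hΦ Ψ hΨ y z h
    obtain ⟨Φ1, hΦ1, y1, e1⟩ := hrep Φ hΦ y
    obtain ⟨Ψ1, hΨ1, z1, e2⟩ := hrep Ψ hΨ z
    rw [e1, e2]
    have m1 : Φ y ∈ range (slice Φ1 y1) := by rw [← e1]; exact hmem Φ y
    have m2 : Φ y ∈ range (slice Ψ1 z1) := by rw [← e2, h]; exact hmem Ψ z
    obtain ⟨q, hq⟩ := m1
    obtain ⟨r, hr⟩ := m2
    have h1 : Φ1 (y1 + lv (q 0) (q 1)) = Ψ1 (z1 + lv (r 0) (r 1)) := hq.trans hr.symm
    have h2 := hT.cons Φ1 hΦ1 Ψ1 hΨ1 _ _ h1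
    rw [slice_lv, slice_lv] at h2
    exact h2

/-- the flux data of `τ ∘ Φ`, for odd forms `g`. -/
lemma flux_self {τ : M → M} (hi : Invol w τ) (hΦ : Tube w f Φ)
    (hodd : ∀ k, Odd1 τ (g k)) {L : Fin 2 → E4 → E4 →L[ℝ] ℝ} {u : Fin 2 → E4 → ℝ}
    (F : Flux w g Φ L u) :
    Flux w g (fun z => τ (Φ z)) (fun k y => -(L k y)) (fun k y => -(u k y)) where
  smL k := (F.smL k).neg
  leafc k y s t := by rw [F.leafc]
  leaf0 k y s t := by rw [neg_apply, F.leaf0, neg_zero]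
  closed k y := by
    ext a b
    rw [d1_apply]
    have h1 : fderiv ℝ (fun y => -(L k y)) y = -fderiv ℝ (L k) y := fderiv_fun_neg
    rw [h1]
    have h2 : d1 (L k) y a b = 0 := by rw [F.closed]; rfl
    rw [d1_apply] at h2
    simp only [neg_apply]
    show _ = (0 : ℝ)
    linarith
  ind y s t h := F.ind y s t fun k => by
    have := h k
    rw [neg_apply] at this
    linarith
  smu k := (F.smu k).neg
  peru k y m n := by rw [F.peru]
  eq y v s t := by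
    have h1 : pb2 (fun z => τ (Φ z)) ((w 1).1.1 : F2 E4 M) y v (lv s t) =
        pb2 Φ ((w 1).1.1 : F2 E4 M) y v (lv s t) := by
      rw [pb2_apply, dL_self hi.smooth hΦ, dL_self hi.smooth hΦ]
      exact hi.pres 1 (Φ y) _ _
    have h2 : ∀ k, pb1 (fun z => τ (Φ z)) (g k) y (lv s t) = - pb1 Φ (g k) y (lv s t) := by
      intro k
      rw [pb1_self hi.smooth hΦ]
      exact hodd k (Φ y) _
    have h3 : ∀ k, fderiv ℝ (fun y => -(u k y)) y (lv s t) = - fderiv ℝ (u k) y (lv s t) := by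
      intro k
      rw [fderiv_fun_neg]; rfl
    rw [h1, F.eq y v s t]
    congr 1
    refine Finset.sum_congr rfl fun k _ => ?_
    rw [h2, h3, neg_apply]
    ring

end Man

/-- **COFRAME.** -/
theorem coframe : COFRAME.{u} := by
  intro M _ _ _ _ _ _ w f hw hT4 T hT
  obtain ⟨⟨s, hs, -, A, hA, -, -, hspan⟩, -⟩ := hT4
  obtain ⟨x0⟩ : Nonempty M := inferInstance
  obtain ⟨Φ0, hΦ0, -⟩ := hT.cover x0
  obtain ⟨i, j, hij⟩ := exists_pair hw hA hspan ((hT.tube Φ0 hΦ0).leaf 0)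
  have hg : ∀ k, Closed1 ((![s i, s j] : Fin 2 → F1 E4 M) k) := by
    intro k
    fin_cases k
    · exact hs i
    · exact hs j
  have hne : ∀ Φ ∈ T, ∀ y, torI (slice Φ y) (wedG ((![s i, s j] : Fin 2 → F1 E4 M) 0)
      ((![s i, s j] : Fin 2 → F1 E4 M) 1)) ≠ 0 := by
    intro Φ hΦ y
    have h1 := ((hT.tube Φ hΦ).leaf y).rep (A i j)
    rw [hA] at h1
    show torI (slice Φ y) (wedG (s i) (s j)) ≠ 0
    rw [h1]
    exact hij
  obtain ⟨l, a, h⟩ := exists_la hw hT hg hne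
  exact ⟨l, a, cofr_of hw hT h⟩

/-- **COFRAMEI.** -/
theorem coframei : COFRAMEI.{u} := by
  intro M _ _ _ _ _ _ w f hw hT4 T hT τ hi hm hleaf
  obtain ⟨⟨s, hs, -, A, hA, -, -, hspan⟩, -⟩ := id hT4
  obtain ⟨x0⟩ : Nonempty M := inferInstance
  obtain ⟨Φ0, hΦ0, -⟩ := hT.cover x0
  obtain ⟨i, j, hij⟩ := exists_pair hw hA hspan ((hT.tube Φ0 hΦ0).leaf 0)
  obtain ⟨g0, h0, cg0, og0, sh0, e0⟩ := TorMin_510.odd_rep hi.smooth hi.inv hm (hs i)
  obtain ⟨g1, h1, cg1, og1, sh1, e1⟩ := TorMin_510.odd_rep hi.smooth hi.inv hm (hs j)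
  have hT' := dbl_atlas hT4 hi hm hT hleaf
  set g : Fin 2 → F1 E4 M := ![g0, g1] with hgdef
  have hg : ∀ k, Closed1 (g k) := by
    intro k
    fin_cases k
    · exact cg0
    · exact cg1
  have hodd : ∀ k, Odd1 τ (g k) := by
    intro k
    fin_cases k
    · exact og0
    · exact og1
  -- the class of `g0 ∧ g1`
  have hcls : cls (Crest.Agent.R235.wz g0 g1 cg0 cg1) = cls (A i j) := by
    rw [cls_eq]
    have hsi : Closed1 ((-1 : ℝ) • s i) := TorMin_510.Closed1.smul _ (hs i)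
    have hsj : Closed1 ((-1 : ℝ) • s j) := TorMin_510.Closed1.smul _ (hs j)
    have h2 := TorMin_510.isEx_wed_sub hsi hsj sh0 sh1
    have e0' : g0 = (-1 : ℝ) • ((-1 : ℝ) • s i) + dF h0 := by
      rw [← e0, smul_smul]; norm_num
    have e1' : g1 = (-1 : ℝ) • ((-1 : ℝ) • s j) + dF h1 := by
      rw [← e1, smul_smul]; norm_num
    rw [← e0', ← e1'] at h2
    have h3 : ((Crest.Agent.R235.wz g0 g1 cg0 cg1 - A i j : Z2 M).1.1 : F2 E4 M) =
        wedG g0 g1 - wedG ((-1 : ℝ) • s i) ((-1 : ℝ) • s j) := by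
      have h4 : ((Crest.Agent.R235.wz g0 g1 cg0 cg1 - A i j : Z2 M).1.1 : F2 E4 M) =
          wedG g0 g1 - ((A i j).1.1 : F2 E4 M) := rfl
      rw [h4, hA]
      congr 1
      funext x
      refine ContinuousLinearMap.ext fun u => ContinuousLinearMap.ext fun v => ?_
      show at1 (s i) x u * at1 (s j) x v - at1 (s j) x u * at1 (s i) x v =
        ((-1 : ℝ) * at1 (s i) x u) * ((-1 : ℝ) * at1 (s j) x v) -
        ((-1 : ℝ) * at1 (s j) x u) * ((-1 : ℝ) * at1 (s i) x v)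
      ring
    rw [h3]
    exact h2
  have hne : ∀ Φ ∈ dbl τ T, ∀ y, torI (slice Φ y) (wedG (g 0) (g 1)) ≠ 0 := by
    intro Φ hΦ y
    have h2 := ((hT'.tube Φ hΦ).leaf y).rep (Crest.Agent.R235.wz g0 g1 cg0 cg1)
    rw [hcls] at h2
    show torI (slice Φ y) (wedG g0 g1) ≠ 0
    have h3 : ((Crest.Agent.R235.wz g0 g1 cg0 cg1).1.1 : F2 E4 M) = wedG g0 g1 := rfl
    rw [← h3, h2]
    exact hij
  obtain ⟨l, a, h⟩ := exists_la hw hT' hg hne
  -- the flux forms are odd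
  have hself : ∀ Φ ∈ T, (fun z => τ (Φ z)) ∈ dbl τ T := fun Φ hΦ => Or.inr ⟨Φ, hΦ, rfl⟩
  have oddl' : ∀ Φ ∈ T, ∀ k y v, pb1 (fun z => τ (Φ z)) (l k) y v = - pb1 Φ (l k) y v := by
    intro Φ hΦ k y v
    obtain ⟨u, hu⟩ := h.flux Φ (Or.inl hΦ)
    obtain ⟨u', hu'⟩ := h.flux _ (hself Φ hΦ)
    have hu2 := flux_self hi (hT.tube Φ hΦ) hodd hu
    have h2 := uniq hT' (hself Φ hΦ) (hself Φ hΦ) hg (hne _ (hself Φ hΦ)) hu' hu2
      (y := y) (z := y) (v := v) (v' := v) rfl rfl k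
    rw [h2]; rfl
  have oddl : ∀ k, Odd1 τ (l k) := by
    intro k x V
    obtain ⟨Φ, hΦ, hx⟩ := hT.cover x
    obtain ⟨v, hv⟩ := (tube_bij (hT.tube Φ hΦ) 0).2 V
    have h2 := oddl' Φ hΦ k 0 v
    rw [pb1_self hi.smooth (hT.tube Φ hΦ), pb1_apply, hv, hx] at h2
    exact h2
  -- the averaged leaf forms
  let a' : Fin 2 → F1 E4 M := fun k =>
    (1 / 2 : ℝ) • (a k + (-1 : ℝ) • TorMin_510.pb1 τ (a k))
  have ca' : ∀ k, Closed1 (a' k) := fun k =>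
    TorMin_510.Closed1.smul _ (TorMin_510.Closed1.add (h.ca k)
      (TorMin_510.Closed1.smul _ (TorMin_510.Closed1.pb hi.smooth (h.ca k))))
  have at_a' : ∀ k x v, at1 (a' k) x v =
      (1 / 2 : ℝ) * (at1 (a k) x v - at1 (a k) (τ x) (dself τ x v)) := by
    intro k x v
    show (1 / 2 : ℝ) * (at1 (a k) x v + (-1 : ℝ) * at1 (a k) (τ x) (dself τ x v)) = _
    ring
  have hLA : LA w T g l a' := by
    refine ⟨h.cl, ca', fun Φ hΦ => h.flux Φ (Or.inl hΦ), fun Φ hΦ y v r t => ?_⟩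
    have q1 := h.eq Φ (Or.inl hΦ) y v r t
    have q2 := h.eq _ (hself Φ hΦ) y v r t
    have q3 : pb2 (fun z => τ (Φ z)) ((w 1).1.1 : F2 E4 M) y v (lv r t) =
        pb2 Φ ((w 1).1.1 : F2 E4 M) y v (lv r t) := by
      rw [pb2_apply, dL_self hi.smooth (hT.tube Φ hΦ), dL_self hi.smooth (hT.tube Φ hΦ)]
      exact hi.pres 1 (Φ y) _ _
    rw [q3, Fin.sum_univ_two, oddl' Φ hΦ, oddl' Φ hΦ] at q2
    rw [Fin.sum_univ_two] at q1 ⊢
    have q4 : ∀ k, pb1 Φ (a' k) y (lv r t) =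
        (1 / 2 : ℝ) * (pb1 Φ (a k) y (lv r t) - pb1 (fun z => τ (Φ z)) (a k) y (lv r t)) := by
      intro k
      rw [pb1_apply, at_a', pb1_self hi.smooth (hT.tube Φ hΦ)]
      rfl
    rw [q4, q4]
    linarith
  refine ⟨l, a', cofr_of hw hT hLA, oddl, fun k x v => ?_⟩
  rw [at_a', at_a', hi.inv, TorMin_510.dself_dself hi.smooth hi.inv]
  ring

end

end Crest.Agent.R235.FibTop_129
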