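import Crest.Agent.R235.TorDefs_225
import Crest.Agent.R235.Pull_129

/-!
Row 235 (S0364), package TOR / A2 (helper129): transitions between product charts of a foliation
by tori.
-/

set_option autoImplicit false
set_option maxSynthPendingDepth 3
set_option linter.unusedSectionVars false

open Set Function Filter MeasureTheory
open scoped Manifold ContDiff Topology

universe u

namespace Crest.Agent.R235.FibTr_129

open Crest.Agent.R240 Crest.Agent.R240.Ch Crest.Agent.R235.Pull_129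

noncomputable section

/-! ### coordinates -/

@[simp] lemma lv_0 (s t : ℝ) : (lv s t) 0 = 0 := rfl
@[simp] lemma lv_1 (s t : ℝ) : (lv s t) 1 = 0 := rfl
@[simp] lemma lv_2 (s t : ℝ) : (lv s t) 2 = s := rfl
@[simp] lemma lv_3 (s t : ℝ) : (lv s t) 3 = t := rfl
@[simp] lemma bv_0 (s t : ℝ) : (bv s t) 0 = s := rfl
@[simp] lemma bv_1 (s t : ℝ) : (bv s t) 1 = t := rfl
@[simp] lemma bv_2 (s t : ℝ) : (bv s t) 2 = 0 := rfl
@[simp] lemma bv_3 (s t : ℝ) : (bv s t) 3 = 0 := rfl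

lemma ext4 {u v : E4} (h0 : u 0 = v 0) (h1 : u 1 = v 1) (h2 : u 2 = v 2) (h3 : u 3 = v 3) :
    u = v := by
  ext i; fin_cases i <;> assumption

lemma decomp (v : E4) : v = bv (v 0) (v 1) + lv (v 2) (v 3) := by
  apply ext4 <;> simp

lemma lv_add (s t s' t' : ℝ) : lv (s + s') (t + t') = lv s t + lv s' t' := by
  apply ext4 <;> simp

lemma lv_smul (r s t : ℝ) : lv (r * s) (r * t) = r • lv s t := by
  apply ext4 <;> simp

lemma bv_add (s t s' t' : ℝ) : bv (s + s') (t + t') = bv s t + bv s' t' := by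
  apply ext4 <;> simp

lemma bv_smul (r s t : ℝ) : bv (r * s) (r * t) = r • bv s t := by
  apply ext4 <;> simp

lemma lv_zero : lv 0 0 = 0 := by apply ext4 <;> simp

lemma lv_eq (s t : ℝ) : lv s t = s • lv 1 0 + t • lv 0 1 := by
  apply ext4 <;> simp

lemma bv_eq (s t : ℝ) : bv s t = s • bv 1 0 + t • bv 0 1 := by
  apply ext4 <;> simp

lemma eq_add_lv {y z : E4} (h0 : z 0 = y 0) (h1 : z 1 = y 1) :
    z = y + lv (z 2 - y 2) (z 3 - y 3) := by
  apply ext4 <;> simp [h0, h1]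

lemma eq_lv {z : E4} (h0 : z 0 = 0) (h1 : z 1 = 0) : z = lv (z 2) (z 3) := by
  apply ext4 <;> simp [h0, h1]

/-! ### tubes -/

section Tube

variable {M : Type u} [TopologicalSpace M] [T2Space M] [CompactSpace M]
  [ChartedSpace E4 M] [IsManifold 𝓘(ℝ, E4) ∞ M]

variable {w : Trip M} {f : H2 M} {Φ Ψ : E4 → M}

lemma dmap_eq (Φ : E4 → M) (y v : E4) : dmap Φ y v = dL (E := E4) Φ y v := rfl

lemma tube_inj (h : Tube w f Φ) (y : E4) : Injective (dL (E := E4) Φ y) := by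
  intro u v huv
  have h0 : dmap Φ y (u - v) = 0 := by
    show dL (E := E4) Φ y (u - v) = 0
    rw [map_sub, huv, sub_self]
  exact sub_eq_zero.1 (h.imm y _ h0)

lemma tube_bij (h : Tube w f Φ) (y : E4) : Bijective (dL (E := E4) Φ y) :=
  ⟨tube_inj h y, (LinearMap.injective_iff_surjective
    (f := ((dL (E := E4) Φ y : E4 →L[ℝ] E4) : E4 →ₗ[ℝ] E4))).1 (tube_inj h y)⟩

/-- local transition. -/
lemma exists_tr (hΦ : Tube w f Φ) (hΨ : Tube w f Ψ) {y z : E4} (h : Ψ z = Φ y) :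
    ∃ g : E4 → E4, ContDiffAt ℝ ∞ g z ∧ g z = y ∧ ∀ᶠ z' in 𝓝 z, Φ (g z') = Ψ z' :=
  exists_transition (hΨ.smooth z) (hΦ.smooth y) (tube_bij hΦ y) h

lemma dL_tr (hΦ : Tube w f Φ) {y z : E4} {g : E4 → E4} (hg : ContDiffAt ℝ ∞ g z)
    (hz : g z = y) (he : ∀ᶠ z' in 𝓝 z, Φ (g z') = Ψ z') (v : E4) :
    dL (E := E4) Φ y (fderiv ℝ g z v) = dL (E := E4) Ψ z v := by
  have h1 : dL (E := E4) (fun z' => Φ (g z')) z = dL (E := E4) Ψ z := dL_congr he
  rw [← h1, dL_comp (hΦ.smooth (g z)) (hg.differentiableAt infty_ne_zero), hz]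
  rfl

variable {T : Set (E4 → M)}

/-- points of the same leaf have the same base coordinates. -/
lemma same_base (hT : TAtlas w f T) (hΦ : Φ ∈ T) (hΨ : Ψ ∈ T) {y y1 z : E4} {s t : ℝ}
    (h : Ψ z = Φ y) (h1 : Ψ (z + lv s t) = Φ y1) : y1 0 = y 0 ∧ y1 1 = y 1 := by
  have hr := hT.cons Ψ hΨ Φ hΦ z y h
  have hm : Ψ (z + lv s t) ∈ range (slice Ψ z) := ⟨WithLp.toLp 2 ![s, t], rfl⟩
  rw [hr] at hm
  obtain ⟨q, hq⟩ := hm
  have hq' : Φ (y + lv (q 0) (q 1)) = Φ y1 := by rw [← h1, ← hq]; rfl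
  obtain ⟨m, n, hmn⟩ := (hT.tube Φ hΦ).inj _ _ hq'
  rw [hmn]
  simp

/-- the base coordinates of the transition do not depend on the position on the leaf. -/
lemma tr_base (hT : TAtlas w f T) (hΦ : Φ ∈ T) (hΨ : Ψ ∈ T) {z : E4} {s t : ℝ} {g g1 : E4 → E4}
    (hg : ∀ᶠ z' in 𝓝 z, Φ (g z') = Ψ z') (hg1 : ∀ᶠ z' in 𝓝 (z + lv s t), Φ (g1 z') = Ψ z') :
    ∀ᶠ z' in 𝓝 z, (g1 (z' + lv s t)) 0 = (g z') 0 ∧ (g1 (z' + lv s t)) 1 = (g z') 1 := by
  have hc : Tendsto (fun z' : E4 => z' + lv s t) (𝓝 z) (𝓝 (z + lv s t)) :=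
    (continuous_id.add continuous_const).continuousAt
  filter_upwards [hg, hc.eventually hg1] with z' h1 h2
  exact same_base hT hΦ hΨ h1.symm h2.symm

lemma fderiv_coord {g : E4 → E4} {z : E4} (hg : DifferentiableAt ℝ g z) (i : Fin 4) (v : E4) :
    fderiv ℝ (fun z' => (g z') i) z v = (fderiv ℝ g z v) i := by
  have h1 : HasFDerivAt (fun z' => (g z') i)
      ((EuclideanSpace.proj i : E4 →L[ℝ] ℝ).comp (fderiv ℝ g z)) z :=
    (EuclideanSpace.proj i : E4 →L[ℝ] ℝ).hasFDerivAt.comp z hg.hasFDerivAt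
  rw [h1.fderiv]; rfl

lemma tr_dbase (hT : TAtlas w f T) (hΦ : Φ ∈ T) (hΨ : Ψ ∈ T) {z : E4} {s t : ℝ} {g g1 : E4 → E4}
    (hg : ∀ᶠ z' in 𝓝 z, Φ (g z') = Ψ z') (hg1 : ∀ᶠ z' in 𝓝 (z + lv s t), Φ (g1 z') = Ψ z')
    (hd : DifferentiableAt ℝ g z) (hd1 : DifferentiableAt ℝ g1 (z + lv s t)) (v : E4) :
    (fderiv ℝ g1 (z + lv s t) v) 0 = (fderiv ℝ g z v) 0 ∧
      (fderiv ℝ g1 (z + lv s t) v) 1 = (fderiv ℝ g z v) 1 := by
  have key : ∀ i : Fin 4, (∀ᶠ z' in 𝓝 z, (g1 (z' + lv s t)) i = (g z') i) →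
      (fderiv ℝ g1 (z + lv s t) v) i = (fderiv ℝ g z v) i := by
    intro i hi
    rw [← fderiv_coord hd i, ← fderiv_coord hd1 i]
    have h1 : fderiv ℝ (fun z' => (g1 (z' + lv s t)) i) z = fderiv ℝ (fun z' => (g z') i) z :=
      Filter.EventuallyEq.fderiv_eq hi
    rw [← h1]
    have h2 := fderiv_comp_add_right (𝕜 := ℝ) (f := fun z' : E4 => (g1 z') i) (x := z) (lv s t)
    rw [h2]
  have h := tr_base hT hΦ hΨ hg hg1
  exact ⟨key 0 (h.mono fun _ h => h.1), key 1 (h.mono fun _ h => h.2)⟩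

/-- the transition maps leaf directions to leaf directions. -/
lemma tr_leaf (hT : TAtlas w f T) (hΦ : Φ ∈ T) (hΨ : Ψ ∈ T) {z : E4} {g : E4 → E4}
    (hg : ∀ᶠ z' in 𝓝 z, Φ (g z') = Ψ z') (hd : DifferentiableAt ℝ g z) (s t : ℝ) :
    (fderiv ℝ g z (lv s t)) 0 = 0 ∧ (fderiv ℝ g z (lv s t)) 1 = 0 := by
  have hline : ∀ i : Fin 4, HasDerivAt (fun r : ℝ => (g (z + r • lv s t)) i)
      ((fderiv ℝ g z (lv s t)) i) 0 := by
    intro i
    have h1 : HasFDerivAt (fun z' => (g z') i)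
        ((EuclideanSpace.proj i : E4 →L[ℝ] ℝ).comp (fderiv ℝ g z)) (z + (0 : ℝ) • lv s t) := by
      rw [zero_smul, add_zero]
      exact (EuclideanSpace.proj i : E4 →L[ℝ] ℝ).hasFDerivAt.comp z hd.hasFDerivAt
    have h2 : HasDerivAt (fun r : ℝ => z + r • lv s t) (lv s t) 0 := by
      have := ((hasDerivAt_id (0 : ℝ)).smul_const (lv s t)).const_add z
      simpa using this
    have h3 := h1.comp_hasDerivAt (0 : ℝ) h2
    exact h3
  have hev : ∀ᶠ r in 𝓝 (0 : ℝ), (g (z + r • lv s t)) 0 = (g z) 0 ∧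
      (g (z + r • lv s t)) 1 = (g z) 1 := by
    have hc : Tendsto (fun r : ℝ => z + r • lv s t) (𝓝 0) (𝓝 z) := by
      have : ContinuousAt (fun r : ℝ => z + r • lv s t) 0 := by fun_prop
      have := this.tendsto
      simpa using this
    filter_upwards [hc.eventually hg] with r hr
    rw [← lv_smul] at hr ⊢
    exact same_base hT hΦ hΨ hg.self_of_nhds.symm hr.symm
  have hconst : ∀ i : Fin 4, (∀ᶠ r in 𝓝 (0 : ℝ), (g (z + r • lv s t)) i = (g z) i) →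
      (fderiv ℝ g z (lv s t)) i = 0 := by
    intro i hi
    have h1 := (hline i)
    have h2 : HasDerivAt (fun r : ℝ => (g (z + r • lv s t)) i) 0 0 :=
      (hasDerivAt_const (0 : ℝ) ((g z) i)).congr_of_eventuallyEq hi
    exact h1.unique h2
  exact ⟨hconst 0 (hev.mono fun _ h => h.1), hconst 1 (hev.mono fun _ h => h.2)⟩

/-! ### descent of periodic functions -/

open Classical in
/-- the function on `M` induced by a periodic function in the tube. -/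
def dsc (Φ : E4 → M) (u : E4 → ℝ) (x : M) : ℝ := if h : ∃ y, Φ y = x then u h.choose else 0

lemma dsc_apply (hΦ : Tube w f Φ) {u : E4 → ℝ} (hu : ∀ (y : E4) (m n : ℤ), u (y + lv m n) = u y)
    (y : E4) : dsc Φ u (Φ y) = u y := by
  have h : ∃ y', Φ y' = Φ y := ⟨y, rfl⟩
  unfold dsc
  rw [dif_pos h]
  obtain ⟨m, n, hmn⟩ := hΦ.inj y h.choose h.choose_spec.symm
  rw [hmn, hu]

/-! ### the leaves are lagrangian -/

lemma slice_dL (hΦ : Tube w f Φ) (y : E4) (q v : Ep) :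
    dmap (slice Φ y) q v = dmap Φ (y + lv (q 0) (q 1)) (lv (v 0) (v 1)) := by
  let L : Ep →L[ℝ] E4 := (LinearMap.toContinuousLinearMap
    { toFun := fun v : Ep => lv (v 0) (v 1)
      map_add' := fun a b => by
        show lv (a 0 + b 0) (a 1 + b 1) = _
        exact lv_add _ _ _ _
      map_smul' := fun r a => by
        show lv (r * a 0) (r * a 1) = _
        exact lv_smul _ _ _ })
  have hL : ∀ v : Ep, L v = lv (v 0) (v 1) := fun v => rfl
  have hg : HasFDerivAt (fun q : Ep => y + lv (q 0) (q 1)) L q := by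
    have : (fun q : Ep => y + lv (q 0) (q 1)) = fun q => y + L q := rfl
    rw [this]
    exact L.hasFDerivAt.const_add y
  have h1 := dL_comp (Φ := Φ) (g := fun q : Ep => y + lv (q 0) (q 1)) (z := q)
    (hΦ.smooth _) hg.differentiableAt
  have h2 : dmap (slice Φ y) q v = dL (E := E4) (fun q : Ep => Φ (y + lv (q 0) (q 1))) q v := rfl
  rw [h2, h1, hg.fderiv]
  rfl

lemma leaf_lag (hΦ : Tube w f Φ) (y : E4) (s t s' t' : ℝ) :
    pb2 Φ ((w 1).1.1 : F2 E4 M) y (lv s t) (lv s' t') = 0 ∧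
    pb2 Φ ((w 2).1.1 : F2 E4 M) y (lv s t) (lv s' t') = 0 := by
  have hJ := hΦ.leaf y
  have h1 := hJ.lag1 0 (WithLp.toLp 2 ![s, t]) (WithLp.toLp 2 ![s', t'])
  have h2 := hJ.lag2 0 (WithLp.toLp 2 ![s, t]) (WithLp.toLp 2 ![s', t'])
  have h0 : y + lv ((0 : Ep) 0) ((0 : Ep) 1) = y := by
    have : lv ((0 : Ep) 0) ((0 : Ep) 1) = 0 := by apply ext4 <;> simp
    rw [this, add_zero]
  have hs : slice Φ y 0 = Φ y := by
    show Φ (y + lv ((0 : Ep) 0) ((0 : Ep) 1)) = Φ y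
    rw [h0]
  rw [slice_dL hΦ, slice_dL hΦ, h0, hs] at h1 h2
  exact ⟨h1, h2⟩

end Tube

end

end Crest.Agent.R235.FibTr_129
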