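import Crest.Agent.R235.FibFlux_129

/-!
Row 235 (S0364), package TOR / A2 (helper129): the flux forms do not depend on the product chart.
-/

set_option autoImplicit false
set_option maxSynthPendingDepth 3
set_option linter.unusedSectionVars false

open Set Function Filter MeasureTheory
open scoped Manifold ContDiff Topology

universe u

namespace Crest.Agent.R235.FibUniq_129

open Crest.Agent.R240 Crest.Agent.R240.Ch Crest.Agent.R235.Pull_129 Crest.Agent.R235.FibTr_129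
  Crest.Agent.R235.FibPer_129 Crest.Agent.R235.FibFlux_129

noncomputable section

variable {M : Type u} [TopologicalSpace M] [T2Space M] [CompactSpace M]
  [ChartedSpace E4 M] [IsManifold 𝓘(ℝ, E4) ∞ M]

variable {w : Trip M} {f : H2 M} {Φ Ψ : E4 → M} {T : Set (E4 → M)} {g : Fin 2 → F1 E4 M}

lemma pb1_tr (hΦ : Tube w f Φ) {y z : E4} {h : E4 → E4} (hg : ContDiffAt ℝ ∞ h z)
    (hz : h z = y) (he : ∀ᶠ z' in 𝓝 z, Φ (h z') = Ψ z') (s : F1 E4 M) (v : E4) :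
    pb1 Φ s y (fderiv ℝ h z v) = pb1 Ψ s z v := by
  have h0 : Ψ z = Φ y := by rw [← hz]; exact he.self_of_nhds.symm
  rw [pb1_apply, pb1_apply, dL_tr hΦ hg hz he, h0]

lemma pb2_tr (hΦ : Tube w f Φ) {y z : E4} {h : E4 → E4} (hg : ContDiffAt ℝ ∞ h z)
    (hz : h z = y) (he : ∀ᶠ z' in 𝓝 z, Φ (h z') = Ψ z') (a : F2 E4 M) (u v : E4) :
    pb2 Φ a y (fderiv ℝ h z u) (fderiv ℝ h z v) = pb2 Ψ a z u v := by
  have h0 : Ψ z = Φ y := by rw [← hz]; exact he.self_of_nhds.symm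
  rw [pb2_apply, pb2_apply, dL_tr hΦ hg hz he, dL_tr hΦ hg hz he, h0]

/-- the leaf of `Φ` through a point of the leaf of `Ψ`. -/
lemma exists_pt (hT : TAtlas w f T) (hΦ : Φ ∈ T) (hΨ : Ψ ∈ T) {y z : E4} (h : Ψ z = Φ y)
    (s t : ℝ) : ∃ a b : ℝ, Ψ (z + lv s t) = Φ (y + lv a b) := by
  have hr := hT.cons Ψ hΨ Φ hΦ z y h
  have hm : Ψ (z + lv s t) ∈ range (slice Ψ z) := ⟨WithLp.toLp 2 ![s, t], rfl⟩
  rw [hr] at hm
  obtain ⟨q, hq⟩ := hm
  exact ⟨q 0, q 1, hq.symm⟩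

/-- the derivative along the leaf of the comparison function. -/
lemma hasDeriv_comp (hT : TAtlas w f T) (hΦ : Φ ∈ T) (hΨ : Ψ ∈ T)
    {L L' : Fin 2 → E4 → E4 →L[ℝ] ℝ} {u u' : Fin 2 → E4 → ℝ} (F : Flux w g Φ L u)
    (F' : Flux w g Ψ L' u') {y z v v' : E4} (h : Ψ z = Φ y)
    (hv : dL (E := E4) Φ y v = dL (E := E4) Ψ z v') (s0 t0 r : ℝ) :
    HasDerivAt (fun r : ℝ => (L 0 y v * dsc Φ (u 0) (Ψ (z + lv (r * s0) (r * t0))) +
        L 1 y v * dsc Φ (u 1) (Ψ (z + lv (r * s0) (r * t0)))) -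
        (L' 0 z v' * u' 0 (z + lv (r * s0) (r * t0)) +
          L' 1 z v' * u' 1 (z + lv (r * s0) (r * t0))))
      ((L' 0 z v' - L 0 y v) * pb1 Ψ (g 0) (z + lv (r * s0) (r * t0)) (lv s0 t0) +
        (L' 1 z v' - L 1 y v) * pb1 Ψ (g 1) (z + lv (r * s0) (r * t0)) (lv s0 t0)) r := by
  have tΦ := hT.tube Φ hΦ
  have tΨ := hT.tube Ψ hΨ
  obtain ⟨a, b, hab⟩ := exists_pt hT hΦ hΨ h (r * s0) (r * t0)
  obtain ⟨k, hk1, hk2, hk3⟩ := exists_tr tΦ tΨ h
  obtain ⟨k1, hl1, hl2, hl3⟩ := exists_tr tΦ tΨ hab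
  set zr := z + lv (r * s0) (r * t0) with hzr
  set yr := y + lv a b with hyr
  have hdk : DifferentiableAt ℝ k z := hk1.differentiableAt infty_ne_zero
  have hdk1 : DifferentiableAt ℝ k1 zr := hl1.differentiableAt infty_ne_zero
  -- `D k v' = v`
  have hDk : fderiv ℝ k z v' = v := by
    apply tube_inj tΦ y
    rw [dL_tr tΦ hk1 hk2 hk3, hv]
  have hb := tr_dbase hT hΦ hΨ hk3 hl3 hdk hdk1 v'
  rw [hDk] at hb
  have hDk1 : fderiv ℝ k1 zr v' = v + lv ((fderiv ℝ k1 zr v') 2 - v 2)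
      ((fderiv ℝ k1 zr v') 3 - v 3) := eq_add_lv hb.1 hb.2
  have hlf := tr_leaf hT hΦ hΨ hl3 hdk1 s0 t0
  set a' := (fderiv ℝ k1 zr (lv s0 t0)) 2 with ha'
  set b' := (fderiv ℝ k1 zr (lv s0 t0)) 3 with hb'
  have hDl : fderiv ℝ k1 zr (lv s0 t0) = lv a' b' := eq_lv hlf.1 hlf.2
  -- comparison of the contractions
  have e1 : pb2 Ψ ((w 1).1.1 : F2 E4 M) zr v' (lv s0 t0) =
      pb2 Φ ((w 1).1.1 : F2 E4 M) yr v (lv a' b') := by
    rw [← pb2_tr tΦ hl1 hl2 hl3, hDl, hDk1, map_add, add_apply, (leaf_lag tΦ yr _ _ _ _).1,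
      add_zero]
  have e2 := F.eq yr v a' b'
  have e3 := F'.eq zr v' s0 t0
  have e4 : ∀ j, pb1 Φ (g j) yr (lv a' b') = pb1 Ψ (g j) zr (lv s0 t0) := fun j => by
    rw [← hDl]; exact pb1_tr tΦ hl1 hl2 hl3 (g j) _
  rw [← e1, Fin.sum_univ_two, e4, e4, hyr, F.leafc 0, F.leafc 1, ← hyr] at e2
  rw [Fin.sum_univ_two, hzr, F'.leafc 0, F'.leafc 1, ← hzr] at e3
  -- derivatives
  have hline : HasDerivAt (fun r : ℝ => z + lv (r * s0) (r * t0)) (lv s0 t0) r := by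
    have h1 : (fun r : ℝ => z + lv (r * s0) (r * t0)) = fun r => z + r • lv s0 t0 := by
      funext r; rw [lv_smul]
    rw [h1]
    have := ((hasDerivAt_id r).smul_const (lv s0 t0)).const_add z
    simpa using this
  have hev : ∀ᶠ r' in 𝓝 r, Ψ (z + lv (r' * s0) (r' * t0)) = Φ (k1 (z + lv (r' * s0) (r' * t0))) := by
    have hc : Tendsto (fun r : ℝ => z + lv (r * s0) (r * t0)) (𝓝 r) (𝓝 zr) :=
      hline.continuousAt
    filter_upwards [hc.eventually hl3] with r' hr'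
    exact hr'.symm
  have hds : ∀ j, HasDerivAt (fun r : ℝ => dsc Φ (u j) (Ψ (z + lv (r * s0) (r * t0))))
      (fderiv ℝ (u j) yr (lv a' b')) r := by
    intro j
    have h1 : HasFDerivAt (fun x => u j (k1 x)) ((fderiv ℝ (u j) yr).comp (fderiv ℝ k1 zr)) zr := by
      have h2 : HasFDerivAt (u j) (fderiv ℝ (u j) yr) (k1 zr) := by
        rw [hl2]
        exact ((F.smu j).contDiffAt.differentiableAt infty_ne_zero).hasFDerivAt
      exact h2.comp zr hdk1.hasFDerivAt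
    have h3 := HasFDerivAt.comp_hasDerivAt (x := r)
      (f := fun r : ℝ => z + lv (r * s0) (r * t0)) h1 hline
    rw [ContinuousLinearMap.comp_apply, hDl] at h3
    refine h3.congr_of_eventuallyEq ?_
    filter_upwards [hev] with r' hr'
    show dsc Φ (u j) (Ψ (z + lv (r' * s0) (r' * t0))) = u j (k1 (z + lv (r' * s0) (r' * t0)))
    rw [hr', dsc_apply tΦ (F.peru j)]
  have hdu : ∀ j, HasDerivAt (fun r : ℝ => u' j (z + lv (r * s0) (r * t0)))
      (fderiv ℝ (u' j) zr (lv s0 t0)) r := by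
    intro j
    have h2 : HasFDerivAt (u' j) (fderiv ℝ (u' j) zr) (z + lv (r * s0) (r * t0)) :=
      ((F'.smu j).contDiffAt.differentiableAt infty_ne_zero).hasFDerivAt
    exact HasFDerivAt.comp_hasDerivAt (x := r) (f := fun r : ℝ => z + lv (r * s0) (r * t0)) h2 hline
  have hfin := (((hds 0).const_mul (L 0 y v)).add ((hds 1).const_mul (L 1 y v))).sub
    (((hdu 0).const_mul (L' 0 z v')).add ((hdu 1).const_mul (L' 1 z v')))
  refine (hfin.congr_deriv ?_)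
  linarith

/-- the flux forms agree. -/
theorem uniq (hT : TAtlas w f T) (hΦ : Φ ∈ T) (hΨ : Ψ ∈ T) (hg : ∀ k, Closed1 (g k))
    (hne : ∀ y, torI (slice Ψ y) (wedG (g 0) (g 1)) ≠ 0)
    {L L' : Fin 2 → E4 → E4 →L[ℝ] ℝ} {u u' : Fin 2 → E4 → ℝ} (F : Flux w g Φ L u)
    (F' : Flux w g Ψ L' u') {y z v v' : E4} (h : Ψ z = Φ y)
    (hv : dL (E := E4) Φ y v = dL (E := E4) Ψ z v') (k : Fin 2) : L k y v = L' k z v' := by
  have tΦ := hT.tube Φ hΦ
  have tΨ := hT.tube Ψ hΨ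
  set γ : Fin 2 → E4 → E4 →L[ℝ] ℝ := fun k => pb1 Ψ (g k) with hγ
  have sm_γ : ∀ k, ContDiff ℝ ∞ (γ k) := fun k => pb1_contDiff tΨ (hg k).1
  have sγ_app : ∀ k (e : E4), ContDiff ℝ ∞ (fun y => γ k y e) := fun k e =>
    (sm_γ k).clm_apply contDiff_const
  have key : ∀ s0 t0 : ℝ, (∃ m n : ℤ, s0 = m ∧ t0 = n) →
      (L' 0 z v' - L 0 y v) * (∫ r in (0 : ℝ)..1, γ 0 (z + lv (r * s0) (r * t0)) (lv s0 t0)) +
      (L' 1 z v' - L 1 y v) * (∫ r in (0 : ℝ)..1, γ 1 (z + lv (r * s0) (r * t0)) (lv s0 t0)) = 0 := by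
    intro s0 t0 hst
    obtain ⟨m, n, hm, hn⟩ := hst
    have hl : Continuous fun r : ℝ => z + lv (r * s0) (r * t0) := by
      have h1 : (fun r : ℝ => z + lv (r * s0) (r * t0)) = fun r => z + r • lv s0 t0 := by
        funext r; rw [lv_smul]
      rw [h1]; fun_prop
    have hc : ∀ k, Continuous fun r : ℝ => γ k (z + lv (r * s0) (r * t0)) (lv s0 t0) := fun k =>
      (sγ_app k _).continuous.comp hl
    have h1 := intervalIntegral.integral_eq_sub_of_hasDerivAt (a := 0) (b := 1)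
      (fun r _ => hasDeriv_comp hT hΦ hΨ F F' h hv s0 t0 r)
      ((((hc 0).const_mul _).add ((hc 1).const_mul _)).intervalIntegrable 0 1)
    have h2 : z + lv ((1 : ℝ) * s0) (1 * t0) = z + lv m n := by rw [one_mul, one_mul, hm, hn]
    have h3 : z + lv ((0 : ℝ) * s0) (0 * t0) = z := by rw [zero_mul, zero_mul, lv_zero, add_zero]
    rw [h2, h3, tΨ.per, F'.peru 0, F'.peru 1, sub_self] at h1
    rw [← intervalIntegral.integral_const_mul, ← intervalIntegral.integral_const_mul,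
      ← intervalIntegral.integral_add (((hc 0).const_mul _).intervalIntegrable 0 1)
        (((hc 1).const_mul _).intervalIntegrable 0 1)]
    exact h1
  have k2 := key 1 0 ⟨1, 0, by simp, by simp⟩
  have k3 := key 0 1 ⟨0, 1, by simp, by simp⟩
  simp only [mul_one, mul_zero] at k2 k3
  -- the determinant of the periods
  have pγ_app : ∀ k (e : E4), Per (fun y => γ k y e) := fun j e y k l => by
    show pb1 Ψ (g j) (y + lv k l) e = pb1 Ψ (g j) y e
    rw [pb1_per tΨ]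
  have dγ : ∀ k y, d1 (γ k) y = 0 := fun k y => closed1_pb tΨ (hg k) y
  have clγ : ∀ k, Cl (fun y => γ k y (lv 1 0)) (fun y => γ k y (lv 0 1)) := fun k y => by
    have hd : DifferentiableAt ℝ (γ k) y := (sm_γ k).contDiffAt.differentiableAt infty_ne_zero
    have h1 : ∀ e v : E4, fderiv ℝ (fun y => γ k y e) y v = fderiv ℝ (γ k) y v e := fun e v => by
      rw [fderiv_clm_apply hd (differentiableAt_const e)]
      simp
    show fderiv ℝ (fun y => γ k y (lv 0 1)) y (lv 1 0) = fderiv ℝ (fun y => γ k y (lv 1 0)) y (lv 0 1)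
    rw [h1, h1]
    have h2 := dγ k y
    have h3 : d1 (γ k) y (lv 1 0) (lv 0 1) = 0 := by rw [h2]; rfl
    rw [d1_apply] at h3
    linarith
  have hD : P2 (fun y => γ 0 y (lv 1 0)) z * P3 (fun y => γ 1 y (lv 0 1)) z -
      P3 (fun y => γ 0 y (lv 0 1)) z * P2 (fun y => γ 1 y (lv 1 0)) z ≠ 0 := by
    have h1 := hne z
    rw [torI_wedG tΨ] at h1
    have h2 := riem (sγ_app 0 (lv 1 0)) (sγ_app 0 (lv 0 1)) (pγ_app 0 _) (pγ_app 0 _) (clγ 0)
      (sγ_app 1 (lv 1 0)) (sγ_app 1 (lv 0 1)) (pγ_app 1 _) (pγ_app 1 _) (clγ 1) z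
    rw [← h2]
    exact h1
  have k2' : (L' 0 z v' - L 0 y v) * P2 (fun y => γ 0 y (lv 1 0)) z +
      (L' 1 z v' - L 1 y v) * P2 (fun y => γ 1 y (lv 1 0)) z = 0 := k2
  have k3' : (L' 0 z v' - L 0 y v) * P3 (fun y => γ 0 y (lv 0 1)) z +
      (L' 1 z v' - L 1 y v) * P3 (fun y => γ 1 y (lv 0 1)) z = 0 := k3
  set A := P2 (fun y => γ 0 y (lv 1 0)) z
  set B := P2 (fun y => γ 1 y (lv 1 0)) z
  set C := P3 (fun y => γ 0 y (lv 0 1)) z
  set D := P3 (fun y => γ 1 y (lv 0 1)) z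
  have r0 : (L' 0 z v' - L 0 y v) * (A * D - C * B) = 0 := by
    linear_combination D * k2' - B * k3'
  have r1 : (L' 1 z v' - L 1 y v) * (A * D - C * B) = 0 := by
    linear_combination (-C) * k2' + A * k3'
  have q0 := (mul_eq_zero.1 r0).resolve_right hD
  have q1 := (mul_eq_zero.1 r1).resolve_right hD
  fin_cases k
  · show L 0 y v = L' 0 z v'
    linarith
  · show L 1 y v = L' 1 z v'
    linarith

end

end Crest.Agent.R235.FibUniq_129
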