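import Crest.Agent.R235.Top_837

/-!
Row 235 (S0364), helper856: FINAL GLUE.  `result_of_main : MAIN → literal statement of S0364`.
Dictionary for one-forms (`IsSmoothOneForm ↔ Smooth1`, invariant formula of `ds` in charts), exact differences,
`wedgeEval = det * W`, polygonal paths to smooth paths with flat steps (constant outside `[0,1]`).
-/

set_option autoImplicit false
set_option maxSynthPendingDepth 3

open Set Function Filter Bundle VectorField
open scoped Manifold ContDiff Topology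
open Crest.GeometryTopology.TwoForm

universe u

namespace Crest.Agent.R235.Glue_856

open Crest.Agent.R240 Crest.Agent.R240.Ch

noncomputable section

section OneForm

variable {E : Type*} [NormedAddCommGroup E] [NormedSpace ℝ E]
variable {M : Type*} [TopologicalSpace M] [ChartedSpace E M] [IsManifold 𝓘(ℝ, E) ∞ M]

variable (E M) in
/-- one-forms, in the type used by the frozen definitions. -/
abbrev TF1 := (x : M) → TangentSpace 𝓘(ℝ, E) x →L[ℝ] ℝ

lemma triv1_apply {p x : M} (hx : x ∈ (chartAt E p).source) (s : TF1 E M) :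
    (trivializationAt (E →L[ℝ] ℝ)
        (fun x : M => TangentSpace 𝓘(ℝ, E) x →L[ℝ] ℝ) p
          ⟨x, s x⟩).2 = rep1 p s (chartAt E p x) := by
  rw [hom_trivializationAt_apply]
  ext v
  have hb : x ∈ (trivializationAt E (TangentSpace (M := M) 𝓘(ℝ, E)) p).baseSet := hx
  have h1 : (ContinuousLinearMap.inCoordinates E (TangentSpace (M := M) 𝓘(ℝ, E)) ℝ
      (fun _ : M => ℝ) p x p x (s x)) v =
      s x ((trivializationAt E (TangentSpace (M := M) 𝓘(ℝ, E)) p).symm x v) := by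
    rw [ContinuousLinearMap.inCoordinates_eq hb (mem_univ _)]
    rfl
  refine h1.trans ?_
  rw [triv_symm hx]
  have e := rep1_apply p (s : F1 E M) (chartAt E p x) v
  rw [(chartAt E p).left_inv hx] at e
  exact e.symm

lemma mem_baseSet1 {p x : M} (hx : x ∈ (chartAt E p).source) :
    x ∈ (trivializationAt (E →L[ℝ] ℝ)
        (fun x : M => TangentSpace 𝓘(ℝ, E) x →L[ℝ] ℝ)
        p).baseSet := by
  rw [hom_trivializationAt_baseSet]
  exact ⟨hx, mem_univ _⟩

theorem contMDiffAt_1 {p x : M} (hx : x ∈ (chartAt E p).source) (s : TF1 E M) :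
    ContMDiffAt 𝓘(ℝ, E) (𝓘(ℝ, E).prod 𝓘(ℝ, E →L[ℝ] ℝ)) ∞
      (fun x => TotalSpace.mk' (E →L[ℝ] ℝ) x (s x)) x ↔
      ContDiffAt ℝ ∞ (rep1 p s) (chartAt E p x) := by
  have h1 := Bundle.Trivialization.contMDiffAt_section_iff (𝕜 := ℝ) (B := M)
    (F := E →L[ℝ] ℝ)
    (E := fun x : M => TangentSpace 𝓘(ℝ, E) x →L[ℝ] ℝ)
    (IB := 𝓘(ℝ, E)) (n := ∞) (s := s) (x₀ := x)
    (trivializationAt (E →L[ℝ] ℝ)
        (fun x : M => TangentSpace 𝓘(ℝ, E) x →L[ℝ] ℝ)
        p) (mem_baseSet1 hx)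
  refine h1.trans ?_
  exact contMDiffAt_of_eq hx (fun z hz => triv1_apply hz s)

theorem smooth1_iff (s : TF1 E M) : IsSmoothOneForm 𝓘(ℝ, E) M s ↔ Smooth1 s := by
  have h := forall_chart_iff (P := fun p y => ContDiffAt ℝ ∞ (rep1 p s) y)
    (fun p x hx => contMDiffAt_1 hx s)
  constructor
  · intro h2 p
    exact contDiffOn_chart_iff.2 (h.1 h2 p)
  · intro h2
    exact h.2 fun p => contDiffOn_chart_iff.1 (h2 p)

/-- the invariant formula for the exterior derivative of a one-form. -/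
theorem d1_invariant {s : E → E →L[ℝ] ℝ} {X Y : E → E} {y : E}
    (hs : DifferentiableAt ℝ s y) (hX : DifferentiableAt ℝ X y)
    (hY : DifferentiableAt ℝ Y y) :
    fderiv ℝ (fun z => s z (Y z)) y (X y) - fderiv ℝ (fun z => s z (X z)) y (Y y)
      - s y (lieBracket ℝ X Y y) = d1 s y (X y) (Y y) := by
  rw [fderiv_clm_apply hs hY, fderiv_clm_apply hs hX, d1_apply]
  simp only [lieBracket_eq, map_sub, add_apply, ContinuousLinearMap.comp_apply,
    ContinuousLinearMap.flip_apply]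
  ring

/-- the frozen expression in a chart. -/
theorem extDerivOneOnFields_chart [CompleteSpace E] {s : TF1 E M} (hs : Smooth1 s) {X Y : TVF E M}
    {p x : M} (hx : x ∈ (chartAt E p).source)
    (hX : ContDiffAt ℝ ∞ (repV p X) (chartAt E p x))
    (hY : ContDiffAt ℝ ∞ (repV p Y) (chartAt E p x)) :
    extDerivOneOnFields 𝓘(ℝ, E) M s X Y x =
      d1 (rep1 p s) (chartAt E p x) (repV p X (chartAt E p x)) (repV p Y (chartAt E p x)) := by
  have hy : chartAt E p x ∈ (chartAt E p).target := (chartAt E p).map_source hx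
  have hb : DifferentiableAt ℝ (rep1 p s) (chartAt E p x) :=
    (contDiffOn_chart_iff.1 (hs p) _ hy).differentiableAt (by simp)
  have dX := hX.differentiableAt (by simp : (∞ : WithTop ℕ∞) ≠ 0)
  have dY := hY.differentiableAt (by simp : (∞ : WithTop ℕ∞) ≠ 0)
  have key := d1_invariant hb dX dY
  rw [← key]
  have hf : ∀ V : TVF E M, ∀ᶠ z in 𝓝 x, s z (V z) =
      (fun y => rep1 p s y (repV p V y)) (chartAt E p z) := by
    intro V
    filter_upwards [(chartAt E p).open_source.mem_nhds hx] with z hz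
    have h := rep1_repV ((chartAt E p).map_source hz) s V
    rw [h, (chartAt E p).left_inv hz]
    rfl
  have hd : ∀ V : TVF E M, DifferentiableAt ℝ (repV p V) (chartAt E p x) →
      DifferentiableAt ℝ (fun y => rep1 p s y (repV p V y)) (chartAt E p x) :=
    fun V h1 => hb.clm_apply h1
  have hm : ∀ V : TVF E M, ContDiffAt ℝ ∞ (repV p V) (chartAt E p x) →
      MDifferentiableAt 𝓘(ℝ, E) 𝓘(ℝ, E).tangent
      (fun x => (Bundle.TotalSpace.mk' E x (V x) : TangentBundle 𝓘(ℝ, E) M))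
      ((chartAt E p).symm (chartAt E p x)) := by
    intro V hV
    rw [(chartAt E p).left_inv hx]
    exact ((contMDiffAt_V hx V).2 hV).mdifferentiableAt (by simp)
  have hbr : s x (mlieBracket 𝓘(ℝ, E) X Y x) = rep1 p s (chartAt E p x)
        (lieBracket ℝ (repV p X) (repV p Y) (chartAt E p x)) := by
    have e1 := mlieBracket_chart hy (hm X hX) (hm Y hY)
    have e2 := rep1_repV hy (s : F1 E M) (mlieBracket 𝓘(ℝ, E) X Y)
    rw [e1, (chartAt E p).left_inv hx] at e2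
    exact e2.symm
  unfold extDerivOneOnFields
  rw [lieDerivFun_chart hx X (hd Y dY) (hf Y), lieDerivFun_chart hx Y (hd X dX) (hf X), hbr]

end OneForm


/-! ### exact differences -/

section Exact

variable {M : Type u} [TopologicalSpace M] [ChartedSpace E4 M] [IsManifold 𝓘(ℝ, E4) ∞ M]

theorem isExactDiff_of_isEx {a b : TF2 E4 M} (h : IsEx ((a : F2 E4 M) - (b : F2 E4 M))) :
    IsExactDiff 𝓘(ℝ, E4) M a b := by
  obtain ⟨s, hs, h1⟩ := h
  refine ⟨s, (smooth1_iff (E := E4) (M := M) s).2 hs, ?_⟩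
  intro X Y hX hY x
  have hx := mem_chart_source E4 x
  have sX := (contMDiffAt_V hx X).1 (hX _)
  have sY := (contMDiffAt_V hx Y).1 (hY _)
  rw [extDerivOneOnFields_chart hs hx sX sY, ← h1 x _ (mem_chart_target E4 x)]
  have e := rep_repV (mem_chart_target E4 x) ((a : F2 E4 M) - (b : F2 E4 M)) X Y
  rw [(chartAt E4 x).left_inv hx] at e
  exact e.symm

/-- exactness of the difference of cohomologous forms. -/
theorem isEx_of_cls {a b : Z2 M} (h : cls a = cls b) : IsEx ((a.1.1 : F2 E4 M) - b.1.1) := by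
  have h2 : a - b ∈ B2 M := (Submodule.Quotient.eq (B2 M)).1 h
  exact h2

end Exact

/-! ### linear algebra -/

section Lin

/-- the linear map sending the standard basis to `v`. -/
def frameMap (v : Fin 4 → E4) : E4 →L[ℝ] E4 :=
  LinearMap.toContinuousLinearMap
    ((EuclideanSpace.basisFun (Fin 4) ℝ).toBasis.constr ℝ v)

theorem frameMap_ee (v : Fin 4 → E4) (i : Fin 4) : frameMap v (ee i) = v i := by
  have h : ee i = (EuclideanSpace.basisFun (Fin 4) ℝ).toBasis i := by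
    simp [ee]
  rw [frameMap, h]
  exact (EuclideanSpace.basisFun (Fin 4) ℝ).toBasis.constr_basis ℝ v i

theorem wedgeEval_eq {a b : Bil} (ha : Alt a) (hb : Alt b) (v : Fin 4 → E4) :
    wedgeEval a b v = LinearMap.det (frameMap v : E4 →ₗ[ℝ] E4) * W a b := by
  rw [← W_pull ha hb]
  simp only [W, ent, pull_apply, frameMap_ee, wedgeEval]

theorem det_frameMap_ne {v : Fin 4 → E4} (hv : LinearIndependent ℝ v) :
    LinearMap.det (frameMap v : E4 →ₗ[ℝ] E4) ≠ 0 := by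
  have hb : ∃ B : Module.Basis (Fin 4) ℝ E4, ⇑B = v := by
    refine ⟨basisOfLinearIndependentOfCardEqFinrank hv (by simp), ?_⟩
    simp
  obtain ⟨B, hB⟩ := hb
  have h : (frameMap v : E4 →ₗ[ℝ] E4) =
      ((EuclideanSpace.basisFun (Fin 4) ℝ).toBasis.equiv B (Equiv.refl _) : E4 →ₗ[ℝ] E4) := by
    refine (EuclideanSpace.basisFun (Fin 4) ℝ).toBasis.ext fun i => ?_
    have h1 : (EuclideanSpace.basisFun (Fin 4) ℝ).toBasis i = ee i := by simp [ee]
    have h2 : (frameMap v : E4 →ₗ[ℝ] E4) ((EuclideanSpace.basisFun (Fin 4) ℝ).toBasis i) = v i := by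
      rw [h1]; exact frameMap_ee v i
    rw [h2]
    refine Eq.trans ?_
      ((EuclideanSpace.basisFun (Fin 4) ℝ).toBasis.equiv_apply i B (Equiv.refl _)).symm
    rw [hB]; rfl
  rw [h]
  exact (LinearEquiv.isUnit_det' _).ne_zero

theorem det_frameMap_ee : LinearMap.det (frameMap ee : E4 →ₗ[ℝ] E4) = 1 := by
  have h : (frameMap ee : E4 →ₗ[ℝ] E4) = LinearMap.id := by
    refine (EuclideanSpace.basisFun (Fin 4) ℝ).toBasis.ext fun i => ?_
    have h1 : (EuclideanSpace.basisFun (Fin 4) ℝ).toBasis i = ee i := by simp [ee]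
    rw [h1]
    exact frameMap_ee ee i
  rw [h, LinearMap.det_id]

theorem linearIndependent_ee : LinearIndependent ℝ ee := by
  have h : (ee : Fin 4 → E4) = (EuclideanSpace.basisFun (Fin 4) ℝ).toBasis := by
    funext i; simp [ee]
  rw [h]
  exact (EuclideanSpace.basisFun (Fin 4) ℝ).toBasis.linearIndependent

end Lin


/-! ### smooth paths -/

section Path

variable {M : Type u} [TopologicalSpace M] [ChartedSpace E4 M] [IsManifold 𝓘(ℝ, E4) ∞ M]

/-- joint smoothness of a family of triples, tested on smooth fields. -/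
def JS (Om : ℝ → Trip M) : Prop :=
  ∀ i, ∀ Y Z : TVF E4 M, IsSmoothVectorField 𝓘(ℝ, E4) M Y → IsSmoothVectorField 𝓘(ℝ, E4) M Z →
    ContMDiff (𝓘(ℝ, ℝ).prod 𝓘(ℝ, E4)) 𝓘(ℝ, ℝ) ∞
      (fun p : ℝ × M => val (Om p.1 i) p.2 (Y p.2) (Z p.2))

/-- smooth path inside the classes. -/
def SP (w w' : Trip M) : Prop :=
  ∃ Om : ℝ → Trip M, (∀ t, t ≤ 0 → Om t = w) ∧ (∀ t, 1 ≤ t → Om t = w') ∧
    (∀ t, Pos3 (Om t)) ∧ (∀ t, SameCls (Om t) w) ∧ JS Om

theorem contMDiff_val (a : Z2 M) {Y Z : TVF E4 M} (hY : IsSmoothVectorField 𝓘(ℝ, E4) M Y)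
    (hZ : IsSmoothVectorField 𝓘(ℝ, E4) M Z) :
    ContMDiff 𝓘(ℝ, E4) 𝓘(ℝ, ℝ) ∞ (fun x : M => val a x (Y x) (Z x)) := by
  intro x
  have hx := mem_chart_source E4 x
  have hy := mem_chart_target E4 x
  have sY := (contMDiffAt_V hx Y).1 (hY _)
  have sZ := (contMDiffAt_V hx Z).1 (hZ _)
  have sa : ContDiffAt ℝ ∞ (rep x (a.1.1 : F2 E4 M)) (chartAt E4 x x) :=
    contDiffOn_chart_iff.1 (a.1.2.2 x) _ hy
  have h1 : ContDiffAt ℝ ∞ (fun y => rep x (a.1.1 : F2 E4 M) y (repV x Y y) (repV x Z y))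
      (chartAt E4 x x) := (sa.clm_apply sY).clm_apply sZ
  refine (contMDiffAt_of_eq hx ?_).2 h1
  intro z hz
  have h := rep_repV ((chartAt E4 x).map_source hz) (a.1.1 : F2 E4 M) Y Z
  rw [(chartAt E4 x).left_inv hz] at h
  exact h.symm

theorem JS_const (w : Trip M) : JS (fun _ => w) := by
  intro i Y Z hY hZ
  exact (contMDiff_val (w i) hY hZ).comp contMDiff_snd

theorem val_add' (a b : Z2 M) (x : M) : val (a + b) x = val a x + val b x := rfl

theorem val_smul' (r : ℝ) (a : Z2 M) (x : M) : val (r • a) x = r • val a x := rfl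

theorem JS.step {Om : ℝ → Trip M} (h : JS Om) {s : ℝ → ℝ} (hs : ContDiff ℝ ∞ s) (u : Trip M) :
    JS (fun t => fun i => Om (2 * t) i + s t • u i) := by
  intro i Y Z hY hZ
  have h1 := h i Y Z hY hZ
  have h2 : ContMDiff (𝓘(ℝ, ℝ).prod 𝓘(ℝ, E4)) (𝓘(ℝ, ℝ).prod 𝓘(ℝ, E4)) ∞
      (fun p : ℝ × M => ((2 * p.1, p.2) : ℝ × M)) := by
    refine ContMDiff.prodMk ?_ contMDiff_snd
    have h3 : ContMDiff 𝓘(ℝ, ℝ) 𝓘(ℝ, ℝ) ∞ (fun t : ℝ => 2 * t) :=
      (contDiff_const.mul contDiff_id).contMDiff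
    exact h3.comp contMDiff_fst
  have h4 : ContMDiff (𝓘(ℝ, ℝ).prod 𝓘(ℝ, E4)) 𝓘(ℝ, ℝ) ∞ (fun p : ℝ × M => s p.1) :=
    hs.contMDiff.comp contMDiff_fst
  have h5 : ContMDiff (𝓘(ℝ, ℝ).prod 𝓘(ℝ, E4)) 𝓘(ℝ, ℝ) ∞
      (fun p : ℝ × M => val (u i) p.2 (Y p.2) (Z p.2)) :=
    (contMDiff_val (u i) hY hZ).comp contMDiff_snd
  exact (h1.comp h2).add (h4.mul h5)

theorem gen1 {V : Type*} [AddCommGroup V] [Module ℝ V] (a b : V) {s : ℝ} (h : s = 0) :
    a + s • b = a := by rw [h, zero_smul, add_zero]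

theorem gen2 {V : Type*} [AddCommGroup V] [Module ℝ V] (u v : V) (s : ℝ) :
    u + s • (v - u) = (1 - s) • u + s • v := by
  rw [smul_sub, sub_smul, one_smul]; abel

theorem gen3 {V : Type*} [AddCommGroup V] [Module ℝ V] (u v : V) {s : ℝ} (h : s = 1) :
    (1 - s) • u + s • v = v := by
  rw [h, sub_self, zero_smul, one_smul, zero_add]

theorem gen4 {V W : Type*} [AddCommGroup V] [Module ℝ V] [AddCommGroup W] [Module ℝ W]
    (f : V →ₗ[ℝ] W) {u v : V} (h : f u = f v) (t : ℝ) :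
    f ((1 - t) • u + t • v) = f u := by
  rw [map_add, map_smul, map_smul, ← h, ← add_smul, sub_add_cancel, one_smul]

theorem sp_refl {w : Trip M} (hw : Pos3 w) : SP w w :=
  ⟨fun _ => w, fun _ _ => rfl, fun _ _ => rfl, fun _ => hw, fun _ _ => rfl, JS_const w⟩

theorem sp_step {w u v : Trip M} (h : SP w u) (h1 : Seg u v) (h2 : SameCls u v) : SP w v := by
  obtain ⟨Om, a1, a2, a3, a4, a5⟩ := h
  set s : ℝ → ℝ := fun t => Real.smoothTransition (2 * t - 1) with hs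
  have hsm : ContDiff ℝ ∞ s :=
    Real.smoothTransition.contDiff.comp ((contDiff_const.mul contDiff_id).sub contDiff_const)
  have hmem0 : ∀ t, 0 ≤ s t := fun t => Real.smoothTransition.nonneg _
  have hmem1 : ∀ t, s t ≤ 1 := fun t => Real.smoothTransition.le_one _
  have hlow : ∀ t, t ≤ 1 / 2 → s t = 0 := fun t ht =>
    Real.smoothTransition.zero_of_nonpos (by linarith)
  have hup : ∀ t, 1 ≤ t → s t = 1 := fun t ht =>
    Real.smoothTransition.one_of_one_le (by linarith)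
  have hcl : ∀ t i, cls (seg u v t i) = cls (u i) := by
    intro t i
    exact gen4 (cls (M := M)) (h2 i) t
  have e1 : ∀ t, t ≤ 1 / 2 → (fun i => Om (2 * t) i + s t • (v i - u i)) = Om (2 * t) := by
    intro t ht
    funext i
    exact gen1 _ _ (hlow t ht)
  have e2 : ∀ t, 1 / 2 ≤ t → (fun i => Om (2 * t) i + s t • (v i - u i)) = seg u v (s t) := by
    intro t ht
    funext i
    have e : Om (2 * t) i = u i := congrFun (a2 (2 * t) (by linarith)) i
    rw [e]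
    exact gen2 _ _ _
  obtain ⟨Op, hOp⟩ : ∃ Op : ℝ → Trip M, Op = fun t => fun i => Om (2 * t) i + s t • (v i - u i) :=
    ⟨_, rfl⟩
  have f1 : ∀ t, t ≤ 1 / 2 → Op t = Om (2 * t) := by
    intro t ht; rw [hOp]; exact e1 t ht
  have f2 : ∀ t, 1 / 2 ≤ t → Op t = seg u v (s t) := by
    intro t ht; rw [hOp]; exact e2 t ht
  have f3 : JS Op := by
    rw [hOp]; exact a5.step hsm (fun i => v i - u i)
  refine ⟨Op, ?_, ?_, ?_, ?_, f3⟩
  · intro t ht
    exact (f1 t (by linarith)).trans (a1 _ (by linarith))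
  · intro t ht
    refine (f2 t (by linarith)).trans ?_
    funext i
    exact gen3 _ _ (hup t ht)
  · intro t
    rcases le_total t (1 / 2) with h | h
    · rw [f1 t h]; exact a3 _
    · rw [f2 t h]; exact h1 _ (hmem0 t) (hmem1 t)
  · intro t
    rcases le_total t (1 / 2) with h | h
    · rw [f1 t h]; exact a4 _
    · rw [f2 t h]
      intro i
      refine (hcl _ _).trans ?_
      have := a4 1 i
      rwa [a2 1 le_rfl] at this

theorem sp_of_joined {w w' : Trip M} (hw : Pos3 w) (h : Joined w w') : SP w w' := by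
  induction h with
  | refl => exact sp_refl hw
  | tail _ h1 ih => exact sp_step ih h1.1 h1.2

end Path

/-! ### the final theorem -/

section Final

section

variable {M : Type u} [TopologicalSpace M] [ChartedSpace E4 M] [IsManifold 𝓘(ℝ, E4) ∞ M]

theorem smooth_lit (a : Z2 M) : IsSmoothTwoForm 𝓘(ℝ, E4) M (a.1.1 : F2 E4 M) :=
  (smooth2_iff (E := E4) (M := M) (a.1.1 : F2 E4 M)).2 a.1.2

theorem closed_lit [T2Space M] (a : Z2 M) : IsClosedTwoForm 𝓘(ℝ, E4) M (a.1.1 : F2 E4 M) :=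
  (closed2_iff (E := E4) (M := M) (a := (a.1.1 : F2 E4 M)) a.1.2).2 a.2

theorem alt_comb (w : Trip M) (x : M) (c : Fin 3 → ℝ) : Alt (∑ i, c i • val (w i) x) := by
  intro v
  have h : ∀ i, val (w i) x v v = 0 := fun i => (w i).1.2.1 x v
  simp only [_root_.sum_apply, _root_.smul_apply, h,
    smul_zero, Finset.sum_const_zero]

theorem wedge_comb (w : Trip M) (x : M) (c : Fin 3 → ℝ) (v : Fin 4 → E4) :
    wedgeEval (∑ i, c i • val (w i) x) (∑ i, c i • val (w i) x) v =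
      LinearMap.det (frameMap v : E4 →ₗ[ℝ] E4) *
        W (∑ i, c i • val (w i) x) (∑ i, c i • val (w i) x) :=
  wedgeEval_eq (alt_comb w x c) (alt_comb w x c) v

theorem pos_lit {w : Trip M} (h : Pos3 w) :
    IsPositiveTriple 𝓘(ℝ, E4) M (fun i => ((w i).1.1 : F2 E4 M)) := by
  intro x v hv c hc h0
  have h1 := wedge_comb w x c v
  have h2 : LinearMap.det (frameMap v : E4 →ₗ[ℝ] E4) *
        W (∑ i, c i • val (w i) x) (∑ i, c i • val (w i) x) = 0 := h1.symm.trans h0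
  rcases mul_eq_zero.1 h2 with h3 | h3
  · exact det_frameMap_ne hv h3
  · exact h x c hc h3

theorem pos3_of_lit {w : Trip M}
    (h : IsPositiveTriple 𝓘(ℝ, E4) M (fun i => ((w i).1.1 : F2 E4 M))) : Pos3 w := by
  intro x c hc h0
  have h1 := wedge_comb w x c (ee : Fin 4 → E4)
  rw [h0, mul_zero] at h1
  exact h x (ee : Fin 4 → E4) linearIndependent_ee c hc h1


theorem lit_of_main (hM : MAIN.{u}) [T2Space M] [CompactSpace M] [ConnectedSpace M]
    (w : Trip M) (hw : Pos3 w) :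
    ∃ Ω : ℝ → Fin 3 → TF2 E4 M,
      (Ω 0 = fun i => ((w i).1.1 : F2 E4 M)) ∧
      (∀ t i, IsSmoothTwoForm 𝓘(ℝ, E4) M (Ω t i) ∧ IsClosedTwoForm 𝓘(ℝ, E4) M (Ω t i) ∧
        IsExactDiff 𝓘(ℝ, E4) M (Ω t i) ((w i).1.1 : F2 E4 M)) ∧
      (∀ t, IsPositiveTriple 𝓘(ℝ, E4) M (Ω t)) ∧
      (∀ i, ∀ Y Z : TVF E4 M,
        IsSmoothVectorField 𝓘(ℝ, E4) M Y → IsSmoothVectorField 𝓘(ℝ, E4) M Z →
          ContMDiff (𝓘(ℝ, ℝ).prod 𝓘(ℝ, E4)) 𝓘(ℝ, ℝ) ∞
            (fun p : ℝ × M => Ω p.1 i p.2 (Y p.2) (Z p.2))) ∧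
      ∃ G : Matrix (Fin 3) (Fin 3) ℝ, G.PosDef ∧
        ∀ (x : M) (v : Fin 4 → TangentSpace 𝓘(ℝ, E4) x), ∃ s : ℝ,
          ∀ i j, wedgeEval (Ω 1 i x) (Ω 1 j x) v = s * G i j := by
  obtain ⟨w', hj, G, hG, hHK⟩ := hM M w hw
  obtain ⟨Om, a1, a2, a3, a4, a5⟩ := sp_of_joined hw hj
  refine ⟨fun t i => ((Om t i).1.1 : F2 E4 M), ?_, ?_, ?_, ?_, G, hG, ?_⟩
  · funext i
    have e := congrFun (a1 0 le_rfl) i
    exact congrArg (fun a : Z2 M => (a.1.1 : F2 E4 M)) e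
  · intro t i
    exact ⟨smooth_lit (Om t i), closed_lit (Om t i),
      isExactDiff_of_isEx (isEx_of_cls (a4 t i))⟩
  · intro t
    exact pos_lit (a3 t)
  · exact a5
  · intro x v
    obtain ⟨s, hs⟩ := hHK x
    refine ⟨LinearMap.det (frameMap v : E4 →ₗ[ℝ] E4) * s, fun i j => ?_⟩
    have h1 := wedgeEval_eq (a := val (Om 1 i) x) (b := val (Om 1 j) x)
      ((Om 1 i).1.2.1 x) ((Om 1 j).1.2.1 x) v
    have h2 := hs i j
    rw [← a2 1 le_rfl] at h2
    rw [h2, ← mul_assoc] at h1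
    exact h1

end

theorem result_of_main (hM : MAIN.{u})
    (M : Type u) [TopologicalSpace M] [T2Space M] [CompactSpace M] [ConnectedSpace M]
    [ChartedSpace (EuclideanSpace ℝ (Fin 4)) M] [IsManifold (𝓡 4) ∞ M]
    (α : Fin 3 → Π x : M, TangentSpace (𝓡 4) x →L[ℝ] TangentSpace (𝓡 4) x →L[ℝ] ℝ)
    (hs : ∀ i, IsSmoothTwoForm (𝓡 4) M (α i)) (hc : ∀ i, IsClosedTwoForm (𝓡 4) M (α i))
    (hp : IsPositiveTriple (𝓡 4) M α) :
    ∃ Ω : ℝ → Fin 3 → Π x : M, TangentSpace (𝓡 4) x →L[ℝ] TangentSpace (𝓡 4) x →L[ℝ] ℝ,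
      Ω 0 = α ∧
      (∀ t i, IsSmoothTwoForm (𝓡 4) M (Ω t i) ∧ IsClosedTwoForm (𝓡 4) M (Ω t i) ∧
        IsExactDiff (𝓡 4) M (Ω t i) (α i)) ∧
      (∀ t, IsPositiveTriple (𝓡 4) M (Ω t)) ∧
      (∀ i, ∀ Y Z : Π x : M, TangentSpace (𝓡 4) x,
        IsSmoothVectorField (𝓡 4) M Y → IsSmoothVectorField (𝓡 4) M Z →
          ContMDiff (𝓘(ℝ, ℝ).prod (𝓡 4)) 𝓘(ℝ, ℝ) ∞
            (fun p : ℝ × M => Ω p.1 i p.2 (Y p.2) (Z p.2))) ∧
      ∃ G : Matrix (Fin 3) (Fin 3) ℝ, G.PosDef ∧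
        ∀ (x : M) (v : Fin 4 → TangentSpace (𝓡 4) x), ∃ s : ℝ,
          ∀ i j, wedgeEval (Ω 1 i x) (Ω 1 j x) v = s * G i j := by
  have sm : ∀ i, Smooth2 (α i : F2 E4 M) := fun i => (smooth2_iff (E := E4) (M := M) (α i)).1 (hs i)
  have cl : ∀ i, Closed2 (α i : F2 E4 M) := fun i => (closed2_iff (sm i)).1 (hc i)
  obtain ⟨w, hw⟩ : ∃ w : Trip M, (fun i => ((w i).1.1 : F2 E4 M)) = α :=
    ⟨fun i => ⟨⟨(α i : F2 E4 M), sm i⟩, cl i⟩, rfl⟩
  subst hw
  exact lit_of_main hM w (pos3_of_lit hp)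

end Final

end

end Crest.Agent.R235.Glue_856
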