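import Crest.Agent.R235.Cone_288

/-!
Row 235 (helper288): `HKCONE` (version 2 of `Props_844`) from `STF` and `BPLUS`: normalisation of a
hyperkaehler triple; `HK` is invariant under `GL(3)` and permutations.
-/

set_option autoImplicit false
set_option maxSynthPendingDepth 3

open Set Function Filter MeasureTheory
open scoped Manifold ContDiff Topology

universe u

namespace Crest.Agent.R235

open Crest.Agent.R240 Crest.Agent.R240.Ch Crest.Agent.R240.Int Crest.Agent.R235

noncomputable section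

section HKs

variable {M : Type u} [TopologicalSpace M]
  [ChartedSpace E4 M] [IsManifold 𝓘(ℝ, E4) ∞ M]

/-- linear recombination of a triple. -/
def mulT (A : Matrix (Fin 3) (Fin 3) ℝ) (w : Trip M) : Trip M := fun i => ∑ j, A i j • w j

theorem W_comb3 (c d : Fin 3 → ℝ) (b : Fin 3 → Bil) :
    W (∑ i, c i • b i) (∑ j, d j • b j) = ∑ i, ∑ j, c i * d j * W (b i) (b j) := by
  simp only [Fin.sum_univ_three, W_add_left, W_add_right, W_smul_left, W_smul_right]
  ring

theorem HK.mulT {w : Trip M} (hw : HK w) {A : Matrix (Fin 3) (Fin 3) ℝ} (hA : A.det ≠ 0) :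
    HK (R235.mulT A w) := by
  obtain ⟨G, hG, h⟩ := hw
  refine ⟨A * G * A.conjTranspose, hG.mul_mul_conjTranspose_same ?_, fun x => ?_⟩
  · have hu : IsUnit A := (Matrix.isUnit_iff_isUnit_det A).2 (isUnit_iff_ne_zero.2 hA)
    exact Matrix.vecMul_injective_of_isUnit hu
  · obtain ⟨s, hs⟩ := h x
    refine ⟨s, fun i j => ?_⟩
    unfold R235.mulT
    rw [val_comb, val_comb, W_comb3]
    simp only [hs, Matrix.mul_apply, Matrix.conjTranspose_apply, star_trivial,
      Fin.sum_univ_three]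
    ring

theorem HK.perm {w : Trip M} (hw : HK w) (σ : Equiv.Perm (Fin 3)) :
    HK (fun i => w (σ i) : Trip M) := by
  obtain ⟨G, hG, h⟩ := hw
  refine ⟨G.submatrix σ σ, hG.submatrix σ.injective, fun x => ?_⟩
  obtain ⟨s, hs⟩ := h x
  exact ⟨s, fun i j => hs _ _⟩

theorem HK.of_perm {w : Trip M} (σ : Equiv.Perm (Fin 3))
    (h : HK (fun i => w (σ i) : Trip M)) : HK w := by
  have h1 := h.perm σ.symm
  simpa using h1

theorem Pos3.mulT {w : Trip M} (hw : Pos3 w) {A : Matrix (Fin 3) (Fin 3) ℝ} (hA : A.det ≠ 0) :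
    Pos3 (R235.mulT A w) := hw.linear hA

/-- normal form of a hyperkaehler triple: triangular recombination, `k = 0` last. -/
theorem HK.normal [Nonempty M] {w : Trip M} (hP : Pos3 w) (hw : HK w) :
    ∃ (v : Trip M) (a1 b1 b2 c0 c1 c2 : ℝ), 0 < a1 ∧ 0 < b2 ∧ 0 < c0 ∧
      w 1 = a1 • v 1 ∧ w 2 = b1 • v 1 + b2 • v 2 ∧ w 0 = c0 • v 0 + c1 • v 1 + c2 • v 2 ∧
      (∀ x : M, ∃ s : ℝ, s ≠ 0 ∧ ∀ i j, W (val (v i) x) (val (v j) x) = if i = j then s else 0) := by
  obtain ⟨G, hG, h⟩ := hw
  have hsym : ∀ i j, G i j = G j i := fun i j => by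
    have := congrFun (congrFun hG.1 i) j
    simpa using this.symm
  have e10 := hsym 1 0
  have e20 := hsym 2 0
  have e21 := hsym 2 1
  have hq : ∀ c : Fin 3 → ℝ, c ≠ 0 → 0 < G 0 0 * c 0 ^ 2 + G 1 1 * c 1 ^ 2 + G 2 2 * c 2 ^ 2 +
      2 * G 0 1 * (c 0 * c 1) + 2 * G 0 2 * (c 0 * c 2) + 2 * G 1 2 * (c 1 * c 2) := by
    intro c hc
    have h1 := hG.dotProduct_mulVec_pos hc
    simp only [dotProduct, Matrix.mulVec, Fin.sum_univ_three, Pi.star_apply, star_trivial, e10,
      e20, e21] at h1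
    nlinarith [h1]
  set g00 := G 0 0 with hg00
  set g01 := G 0 1 with hg01
  set g02 := G 0 2 with hg02
  set g11 := G 1 1 with hg11
  set g12 := G 1 2 with hg12
  set g22 := G 2 2 with hg22
  have h11 : 0 < g11 := by
    have := hq ![0, 1, 0] (by
      intro h
      have := congrFun h 1
      simp at this)
    simpa using this
  obtain ⟨hh, hhd⟩ : ∃ hh, hh = g11 * g22 - g12 ^ 2 := ⟨_, rfl⟩
  have hhp : 0 < hh := by
    have h1 := hq ![0, -g12, g11] (by
      intro h
      have := congrFun h 2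
      simp at this
      exact h11.ne' this)
    simp at h1
    have h2 : 0 < g11 * hh := by
      rw [hhd]
      nlinarith [h1]
    exact (mul_pos_iff_of_pos_left h11).1 h2
  obtain ⟨p, hp⟩ : ∃ p, p = g01 * g22 - g02 * g12 := ⟨_, rfl⟩
  obtain ⟨q, hqd⟩ : ∃ q, q = g02 * g11 - g01 * g12 := ⟨_, rfl⟩
  obtain ⟨D, hD⟩ : ∃ D, D = hh * g00 - p * g01 - q * g02 := ⟨_, rfl⟩
  have hDp : 0 < D := by
    have h1 := hq ![hh, -p, -q] (by
      intro h
      have := congrFun h 0
      simp at this
      exact hhp.ne' this)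
    simp at h1
    have h2 : 0 < hh * D := by
      have e : hh * D = g00 * hh ^ 2 + g11 * p ^ 2 + g22 * q ^ 2 + 2 * g01 * (-(hh * p)) +
          2 * g02 * (-(hh * q)) + 2 * g12 * (p * q) := by
        rw [hD, hp, hqd, hhd]; ring
      rw [e]; linarith
    exact (mul_pos_iff_of_pos_left hhp).1 h2
  obtain ⟨r1, hr1, hr1'⟩ : ∃ r : ℝ, 0 < r ∧ r ^ 2 = g11 := ⟨√g11, Real.sqrt_pos.2 h11,
    Real.sq_sqrt h11.le⟩
  obtain ⟨r2, hr2, hr2'⟩ : ∃ r : ℝ, 0 < r ∧ r ^ 2 = g11 * hh := ⟨√(g11 * hh),
    Real.sqrt_pos.2 (mul_pos h11 hhp), Real.sq_sqrt (mul_pos h11 hhp).le⟩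
  obtain ⟨r0, hr0, hr0'⟩ : ∃ r : ℝ, 0 < r ∧ r ^ 2 = hh * D := ⟨√(hh * D),
    Real.sqrt_pos.2 (mul_pos hhp hDp), Real.sq_sqrt (mul_pos hhp hDp).le⟩
  let v : Trip M := ![r0⁻¹ • (hh • w 0 - p • w 1 - q • w 2), r1⁻¹ • w 1,
    r2⁻¹ • (g11 • w 2 - g12 • w 1)]
  have v0 : v 0 = r0⁻¹ • (hh • w 0 - p • w 1 - q • w 2) := rfl
  have v1 : v 1 = r1⁻¹ • w 1 := rfl
  have v2 : v 2 = r2⁻¹ • (g11 • w 2 - g12 • w 1) := rfl
  have i1 : w 1 = r1 • v 1 := by
    rw [v1, smul_smul, mul_inv_cancel₀ hr1.ne', one_smul]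
  have j2 : r2 • v 2 = g11 • w 2 - g12 • w 1 := by
    rw [v2, smul_smul, mul_inv_cancel₀ hr2.ne', one_smul]
  have i2 : w 2 = (g11⁻¹ * g12 * r1) • v 1 + (g11⁻¹ * r2) • v 2 := by
    rw [mul_smul (g11⁻¹) r2, j2, mul_smul _ r1, ← i1, smul_sub, smul_smul, smul_smul,
      inv_mul_cancel₀ h11.ne', one_smul]
    abel
  have j0 : r0 • v 0 = hh • w 0 - p • w 1 - q • w 2 := by
    rw [v0, smul_smul, mul_inv_cancel₀ hr0.ne', one_smul]
  have i0 : w 0 = (hh⁻¹ * r0) • v 0 + (hh⁻¹ * (p * r1 + q * (g11⁻¹ * g12 * r1))) • v 1 +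
      (hh⁻¹ * (q * (g11⁻¹ * r2))) • v 2 := by
    have e : hh • w 0 = r0 • v 0 + (p * r1 + q * (g11⁻¹ * g12 * r1)) • v 1 +
        (q * (g11⁻¹ * r2)) • v 2 := by
      have e1 : (p * r1 + q * (g11⁻¹ * g12 * r1)) • v 1 + (q * (g11⁻¹ * r2)) • v 2 =
          p • w 1 + q • w 2 := by
        rw [add_smul, mul_smul p, ← i1, mul_smul q, mul_smul q, add_assoc, ← smul_add, ← i2]
      rw [add_assoc, e1, j0]
      abel
    rw [mul_smul, mul_smul, mul_smul, ← smul_add, ← smul_add, ← e, smul_smul,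
      inv_mul_cancel₀ hhp.ne', one_smul]
  refine ⟨v, r1, g11⁻¹ * g12 * r1, g11⁻¹ * r2, hh⁻¹ * r0, _, _, hr1,
    mul_pos (inv_pos.2 h11) hr2, mul_pos (inv_pos.2 hhp) hr0, i1, i2, i0, fun x => ?_⟩
  obtain ⟨s, hs⟩ := h x
  have hs1 := hs 0 0
  have s00 : W (val (w 0) x) (val (w 0) x) = s * g00 := hs 0 0
  have s01 : W (val (w 0) x) (val (w 1) x) = s * g01 := hs 0 1
  have s02 : W (val (w 0) x) (val (w 2) x) = s * g02 := hs 0 2
  have s10 : W (val (w 1) x) (val (w 0) x) = s * g01 := by rw [W_comm]; exact s01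
  have s11 : W (val (w 1) x) (val (w 1) x) = s * g11 := hs 1 1
  have s12 : W (val (w 1) x) (val (w 2) x) = s * g12 := hs 1 2
  have s20 : W (val (w 2) x) (val (w 0) x) = s * g02 := by rw [W_comm]; exact s02
  have s21 : W (val (w 2) x) (val (w 1) x) = s * g12 := by rw [W_comm]; exact s12
  have s22 : W (val (w 2) x) (val (w 2) x) = s * g22 := hs 2 2
  have hsne : s ≠ 0 := by
    rintro rfl
    have := hP.W_ne' 1 x
    rw [s11, zero_mul] at this
    exact this rfl
  have u0 : val (v 0) x = r0⁻¹ • (hh • val (w 0) x - p • val (w 1) x - q • val (w 2) x) := by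
    rw [v0]; simp only [val_smul, val_sub]
  have u1 : val (v 1) x = r1⁻¹ • val (w 1) x := by rw [v1, val_smul]
  have u2 : val (v 2) x = r2⁻¹ • (g11 • val (w 2) x - g12 • val (w 1) x) := by
    rw [v2]; simp only [val_smul, val_sub]
  have t11 : W (val (v 1) x) (val (v 1) x) = s := by
    rw [u1, W_smul_left, W_smul_right, s11, ← hr1']
    field_simp
  have t12 : W (val (v 1) x) (val (v 2) x) = 0 := by
    rw [u1, u2, W_smul_left, W_smul_right, W_sub_right, W_smul_right, W_smul_right, s11, s12]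
    ring
  have t22 : W (val (v 2) x) (val (v 2) x) = s := by
    rw [u2, W_smul_left, W_smul_right, W_sub_right, W_smul_right, W_smul_right, W_sub_left,
      W_sub_left, W_smul_left, W_smul_left, W_smul_left, W_smul_left, s11, s12, s21, s22]
    have e : r2⁻¹ * (r2⁻¹ * (g11 * (g11 * (s * g22) - g12 * (s * g12)) -
        g12 * (g11 * (s * g12) - g12 * (s * g11)))) = (r2 ^ 2)⁻¹ * (s * (g11 * hh)) := by
      rw [hhd, pow_two r2, mul_inv]; ring
    rw [e, hr2']
    field_simp
  have t01 : W (val (v 0) x) (val (v 1) x) = 0 := by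
    rw [u0, u1, W_smul_left, W_smul_right, W_sub_left, W_sub_left, W_smul_left, W_smul_left,
      W_smul_left, s01, s11, s21, hhd, hp, hqd]
    ring
  have t02 : W (val (v 0) x) (val (v 2) x) = 0 := by
    rw [u0, u2, W_smul_left, W_smul_right, W_sub_left, W_sub_left, W_smul_left, W_smul_left,
      W_smul_left, W_sub_right, W_sub_right, W_sub_right, W_smul_right, W_smul_right,
      W_smul_right, W_smul_right, W_smul_right, W_smul_right, s01, s02, s11, s12, s21, s22, hhd,
      hp, hqd]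
    ring
  have t00 : W (val (v 0) x) (val (v 0) x) = s := by
    rw [u0, W_smul_left, W_smul_right, W_sub_left, W_sub_left, W_smul_left, W_smul_left,
      W_smul_left, W_sub_right, W_sub_right, W_sub_right, W_sub_right, W_sub_right, W_sub_right,
      W_smul_right, W_smul_right, W_smul_right,
      W_smul_right, W_smul_right, W_smul_right, W_smul_right, W_smul_right,
      W_smul_right, s00, s01, s02, s10, s20, s11, s12, s21, s22]
    have e : r0⁻¹ * (r0⁻¹ * (hh * (hh * (s * g00) - p * (s * g01) - q * (s * g02)) -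
        p * (hh * (s * g01) - p * (s * g11) - q * (s * g12)) -
        q * (hh * (s * g02) - p * (s * g12) - q * (s * g22)))) = (r0 ^ 2)⁻¹ * (s * (hh * D)) := by
      rw [hD, hp, hqd, hhd, pow_two r0, mul_inv]; ring
    rw [e, hr0']
    field_simp
  refine ⟨s, hsne, fun i j => ?_⟩
  have t10 : W (val (v 1) x) (val (v 0) x) = 0 := by rw [W_comm]; exact t01
  have t20 : W (val (v 2) x) (val (v 0) x) = 0 := by rw [W_comm]; exact t02
  have t21 : W (val (v 2) x) (val (v 1) x) = 0 := by rw [W_comm]; exact t12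
  fin_cases i <;> fin_cases j
  · exact t00
  · exact t01
  · exact t02
  · exact t10
  · exact t11
  · exact t12
  · exact t20
  · exact t21
  · exact t22

end HKs

section Cl

variable {M : Type u} [TopologicalSpace M] [T2Space M] [CompactSpace M]
  [ChartedSpace E4 M] [IsManifold 𝓘(ℝ, E4) ∞ M]

/-- `pI` only depends on the wedge products. -/
theorem pI_eq_of_W (F : Z2 M) {a b a' b' : Z2 M}
    (h : ∀ x, W (val a x) (val b x) = W (val a' x) (val b' x)) : pI F a b = pI F a' b' := by
  let _ : MeasurableSpace M := borel M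
  have _ : BorelSpace M := ⟨rfl⟩
  refine integral_congr_ae (Eventually.of_forall fun x => ?_)
  change q (val F x) (val a x) (val b x) = q (val F x) (val a' x) (val b' x)
  unfold q
  rw [h x]

/-- `pI = 0` if the wedge product vanishes. -/
theorem pI_eq_zero_of_W (F : Z2 M) {a b : Z2 M}
    (h : ∀ x, W (val a x) (val b x) = 0) : pI F a b = 0 := by
  rw [pI_eq_of_W F (a' := (0 : ℝ) • a) (b' := b) (fun x => by
    rw [h x, val_smul, W_smul_left, zero_mul]), pI_smul_left, zero_mul]

end Cl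

namespace HkCone_288

open Crest.Agent.R235.Cone_288

theorem comb_update {M : Type u} [TopologicalSpace M]
    [ChartedSpace E4 M] [IsManifold 𝓘(ℝ, E4) ∞ M] {w v : Trip M} {a1 b1 b2 c0 c1 c2 : ℝ}
    (ha1 : 0 < a1) (hb2 : 0 < b2) (hc0 : 0 < c0)
    (e1 : w 1 = a1 • v 1) (e2 : w 2 = b1 • v 1 + b2 • v 2)
    (e0 : w 0 = c0 • v 0 + c1 • v 1 + c2 • v 2) {a : Z2 M} (l1 l2 : ℝ)
    (hs : Seg v (update v 0 a)) (hk : HK (update v 0 a)) :
    Seg w (update w 0 (a + l1 • v 1 + l2 • v 2)) ∧ HK (update w 0 (a + l1 • v 1 + l2 • v 2)) := by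
  constructor
  · intro t h0 h1
    set m := (1 - t) * c0 + t with hm
    have hmp : 0 < m := by
      rcases eq_or_lt_of_le h0 with h | h
      · rw [hm, ← h]; simpa using hc0
      · have : 0 ≤ (1 - t) * c0 := mul_nonneg (by linarith) hc0.le
        linarith
    have h2 := hs (t / m) (div_nonneg h0 hmp.le) (by
      rw [div_le_one hmp, hm]
      have : 0 ≤ (1 - t) * c0 := mul_nonneg (by linarith) hc0.le
      linarith)
    let A : Matrix (Fin 3) (Fin 3) ℝ := !![m, (1 - t) * c1 + t * l1, (1 - t) * c2 + t * l2;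
      0, a1, 0; 0, b1, b2]
    have hA : A.det ≠ 0 := by
      rw [Matrix.det_fin_three]
      simp [A, hmp.ne', ha1.ne', hb2.ne']
    have h3 := h2.mulT hA
    have e : R235.mulT A (seg v (update v 0 a) (t / m)) =
        seg w (update w 0 (a + l1 • v 1 + l2 • v 2)) t := by
      rw [seg_update_zero, seg_update_zero]
      funext i
      unfold R235.mulT
      rw [Fin.sum_univ_three]
      have q1 : update v 0 ((1 - t / m) • v 0 + (t / m) • a) 1 = v 1 := update_of_ne (by decide) _ _
      have q2 : update v 0 ((1 - t / m) • v 0 + (t / m) • a) 2 = v 2 := update_of_ne (by decide) _ _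
      rw [update_self, q1, q2]
      fin_cases i
      · change m • ((1 - t / m) • v 0 + (t / m) • a) + ((1 - t) * c1 + t * l1) • v 1 +
          ((1 - t) * c2 + t * l2) • v 2 = update w 0 _ 0
        rw [update_self, e0]
        have z1 : m * (1 - t / m) = (1 - t) * c0 := by
          field_simp
          rw [hm]; ring
        have z2 : m * (t / m) = t := by field_simp
        rw [smul_add, smul_smul, smul_smul, z1, z2]
        module
      · change (0 : ℝ) • ((1 - t / m) • v 0 + (t / m) • a) + a1 • v 1 +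
          (0 : ℝ) • v 2 = update w 0 _ 1
        rw [update_of_ne (by decide), e1]
        simp
      · change (0 : ℝ) • ((1 - t / m) • v 0 + (t / m) • a) + b1 • v 1 +
          b2 • v 2 = update w 0 _ 2
        rw [update_of_ne (by decide), e2]
        simp
    rw [← e]
    exact h3
  · let A : Matrix (Fin 3) (Fin 3) ℝ := !![1, l1, l2; 0, a1, 0; 0, b1, b2]
    have hA : A.det ≠ 0 := by
      rw [Matrix.det_fin_three]
      simp [A, ha1.ne', hb2.ne']
    have h3 := hk.mulT hA
    have e : R235.mulT A (update v 0 a) = update w 0 (a + l1 • v 1 + l2 • v 2) := by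
      funext i
      unfold R235.mulT
      rw [Fin.sum_univ_three]
      have q1 : update v 0 a 1 = v 1 := update_of_ne (by decide) _ _
      have q2 : update v 0 a 2 = v 2 := update_of_ne (by decide) _ _
      rw [update_self, q1, q2]
      fin_cases i
      · change (1 : ℝ) • a + l1 • v 1 + l2 • v 2 = update w 0 _ 0
        rw [update_self, one_smul]
      · change (0 : ℝ) • a + a1 • v 1 + (0 : ℝ) • v 2 = update w 0 _ 1
        rw [update_of_ne (by decide), e1]
        simp
      · change (0 : ℝ) • a + b1 • v 1 + b2 • v 2 = update w 0 _ 2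
        rw [update_of_ne (by decide), e2]
        simp
    rw [← e]
    exact h3

/-- HKCONE for the index `0`. -/
theorem hkcone_zero (hS : STF.{u}) (hB : BPLUS.{u})
    (M : Type u) [TopologicalSpace M] [T2Space M] [CompactSpace M] [ConnectedSpace M]
    [ChartedSpace E4 M] [IsManifold 𝓘(ℝ, E4) ∞ M] (w : Trip M) (hw : Pos3 w) (hk : HK w)
    (x : H2 M) (hx : CCond (w 0) (clw w) 0 x) :
    ∃ a : Z2 M, cls a = x ∧ Seg w (update w 0 a) ∧ HK (update w 0 a) := by
  obtain ⟨v, a1, b1, b2, c0, c1, c2, ha1, hb2, hc0, e1, e2, e0, hv⟩ := HK.normal hw hk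
  have hvP : Pos3 v := by
    intro y c hc
    obtain ⟨s, hs0, hs⟩ := hv y
    rw [W_comb3]
    simp only [hs, Fin.sum_univ_three]
    have h1 : c 0 ^ 2 + c 1 ^ 2 + c 2 ^ 2 ≠ 0 := by
      intro h
      apply hc
      have h0 : c 0 = 0 := by nlinarith [sq_nonneg (c 0), sq_nonneg (c 1), sq_nonneg (c 2)]
      have h1 : c 1 = 0 := by nlinarith [sq_nonneg (c 0), sq_nonneg (c 1), sq_nonneg (c 2)]
      have h2 : c 2 = 0 := by nlinarith [sq_nonneg (c 0), sq_nonneg (c 1), sq_nonneg (c 2)]
      funext i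
      fin_cases i
      · exact h0
      · exact h1
      · exact h2
    intro h
    apply mul_ne_zero h1 hs0
    simp at h
    linarith [h]
  have hV := hvP.vol 0
  have hip : ∀ a b : H2 M, ip (w 0) a b = ip (v 0) a b := by
    intro a b
    have h1 := hvP.ip_comb 0 (c := ![c0, c1, c2]) (by
      intro h
      have := congrFun h 0
      simp at this
      exact hc0.ne' this) a b
    rw [← h1]
    have e : ∑ j, (![c0, c1, c2] : Fin 3 → ℝ) j • v j = w 0 := by
      rw [Fin.sum_univ_three, e0]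
      rfl
    rw [e]
  rw [ccond_congr hip] at hx
  have hB' : ∀ c : H2 M, (∀ i, ip (v 0) c (cls (v i)) = 0) → c ≠ 0 → ip (v 0) c c < 0 :=
    hB M v hvP
  set F := v 0 with hF
  -- Gram matrix of `v`
  obtain ⟨k, hkd⟩ : ∃ k, k = ip F (cls (v 0)) (cls (v 0)) := ⟨_, rfl⟩
  have hkp : 0 < k := by rw [hkd]; exact hvP.ip_self_pos 0 0
  have gd : ∀ i, ip F (cls (v i)) (cls (v i)) = k := fun i => by
    rw [hkd, ip_cls hV, ip_cls hV]
    refine pI_eq_of_W _ fun y => ?_
    obtain ⟨s, hs0, hs⟩ := hv y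
    rw [hs, hs]; simp
  have go : ∀ i j, i ≠ j → ip F (cls (v i)) (cls (v j)) = 0 := fun i j hij => by
    rw [ip_cls hV]
    refine pI_eq_zero_of_W _ fun y => ?_
    obtain ⟨s, hs0, hs⟩ := hv y
    rw [hs, if_neg hij]
  obtain ⟨l1, hl1⟩ : ∃ l, l = ip F x (cls (v 1)) / k := ⟨_, rfl⟩
  obtain ⟨l2, hl2⟩ : ∃ l, l = ip F x (cls (v 2)) / k := ⟨_, rfl⟩
  obtain ⟨x', hx'⟩ : ∃ y, y = x - l1 • cls (v 1) - l2 • cls (v 2) := ⟨_, rfl⟩
  have o1 : ip F x' (cls (v 1)) = 0 := by
    rw [hx', ip_sub_left hV, ip_sub_left hV, ip_smul_left hV, ip_smul_left hV, gd 1,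
      go 2 1 (by decide), hl1]
    field_simp
    ring
  have o2 : ip F x' (cls (v 2)) = 0 := by
    rw [hx', ip_sub_left hV, ip_sub_left hV, ip_smul_left hV, ip_smul_left hV, gd 2,
      go 1 2 (by decide), hl2]
    field_simp
    ring
  -- positivity along the segment
  have hpos : ∀ t ∈ Icc (0 : ℝ) 1,
      0 < ip F (((1 - t) * c0) • cls (v 0) + t • x') (((1 - t) * c0) • cls (v 0) + t • x') := by
    intro t ht
    obtain ⟨r1, hr1⟩ : ∃ r, r = -((1 - t) * c1 + t * l1) := ⟨_, rfl⟩
    obtain ⟨r2, hr2⟩ : ∃ r, r = -((1 - t) * c2 + t * l2) := ⟨_, rfl⟩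
    have h1 := hx.1 t ht ![1, r1 / a1 - r2 * b1 / (b2 * a1), r2 / b2] (by
      intro h
      have := congrFun h 0
      simp at this)
    have e : ∑ i, (![1, r1 / a1 - r2 * b1 / (b2 * a1), r2 / b2] : Fin 3 → ℝ) i •
        ((1 - t) • clw w i + t • update (clw w) 0 x i) =
        ((1 - t) * c0) • cls (v 0) + t • x' := by
      rw [Fin.sum_univ_three]
      have q1 : update (clw w) 0 x 1 = cls (w 1) := update_of_ne (by decide) _ _
      have q2 : update (clw w) 0 x 2 = cls (w 2) := update_of_ne (by decide) _ _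
      rw [update_self, q1, q2]
      have p0 : clw w 0 = c0 • cls (v 0) + c1 • cls (v 1) + c2 • cls (v 2) := by
        change cls (w 0) = _
        rw [e0, map_add, map_add, map_smul, map_smul, map_smul]
      have p1 : cls (w 1) = a1 • cls (v 1) := by rw [e1, map_smul]
      have p2 : cls (w 2) = b1 • cls (v 1) + b2 • cls (v 2) := by
        rw [e2, map_add, map_smul, map_smul]
      have p1' : clw w 1 = a1 • cls (v 1) := p1
      have p2' : clw w 2 = b1 • cls (v 1) + b2 • cls (v 2) := p2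
      rw [p0, p1', p2', p1, p2, hx']
      change (1 : ℝ) • _ + (r1 / a1 - r2 * b1 / (b2 * a1)) • _ + (r2 / b2) • _ = _
      have z1 : (r1 / a1 - r2 * b1 / (b2 * a1)) * a1 + (r2 / b2) * b1 = r1 := by
        field_simp
        ring
      have z2 : (r2 / b2) * b2 = r2 := by field_simp
      have y1 : (r1 / a1 - r2 * b1 / (b2 * a1)) •
          ((1 - t) • a1 • cls (v 1) + t • a1 • cls (v 1)) + (r2 / b2) •
          ((1 - t) • (b1 • cls (v 1) + b2 • cls (v 2)) + t • (b1 • cls (v 1) + b2 • cls (v 2))) =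
          ((r1 / a1 - r2 * b1 / (b2 * a1)) * a1 + (r2 / b2) * b1) • cls (v 1) +
            ((r2 / b2) * b2) • cls (v 2) := by
        module
      rw [z1, z2] at y1
      rw [add_assoc, y1, hr1, hr2]
      module
    rw [e] at h1
    exact h1
  have hxx : 0 < ip F x' x' := by
    have h1 := hpos 1 ⟨zero_le_one, le_rfl⟩
    have e : ((1 - (1 : ℝ)) * c0) • cls (v 0) + (1 : ℝ) • x' = x' := by simp
    rwa [e] at h1
  have hx0 : 0 < ip F x' (cls (v 0)) := by
    by_contra hneg
    have hle : ip F x' (cls (v 0)) ≤ 0 := not_lt.1 hneg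
    obtain ⟨y, hy⟩ : ∃ y, y = ip F x' (cls (v 0)) := ⟨_, rfl⟩
    rw [← hy] at hle
    have hd : 0 < c0 * k - y := by
      have := mul_pos hc0 hkp
      linarith
    obtain ⟨t, ht⟩ : ∃ t, t = c0 * k / (c0 * k - y) := ⟨_, rfl⟩
    have ht0 : 0 ≤ t := by rw [ht]; exact div_nonneg (mul_pos hc0 hkp).le hd.le
    have ht1 : t ≤ 1 := by rw [ht, div_le_one hd]; linarith
    have h1 := hpos t ⟨ht0, ht1⟩
    have h2 := hB' (((1 - t) * c0) • cls (v 0) + t • x') (fun i => by
      rw [ip_add_left hV, ip_smul_left hV, ip_smul_left hV]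
      fin_cases i
      · change (1 - t) * c0 * ip F (cls (v 0)) (cls (v 0)) + t * ip F x' (cls (v 0)) = 0
        rw [← hkd, ← hy, ht]
        field_simp
        ring
      · change (1 - t) * c0 * ip F (cls (v 0)) (cls (v 1)) + t * ip F x' (cls (v 1)) = 0
        rw [go 0 1 (by decide), o1]; ring
      · change (1 - t) * c0 * ip F (cls (v 0)) (cls (v 2)) + t * ip F x' (cls (v 2)) = 0
        rw [go 0 2 (by decide), o2]; ring) (by
      intro h
      rw [h, ip_zero_left hV] at h1
      exact lt_irrefl _ h1)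
    exact lt_asymm h1 h2
  have hnc : NC F (clw v) 0 := by
    intro e he
    obtain ⟨i, hi, h1⟩ := hx.2 e he
    by_contra hcon
    push Not at hcon
    have q1 : ip F e (cls (v 1)) = 0 := hcon 1 (by decide)
    have q2 : ip F e (cls (v 2)) = 0 := hcon 2 (by decide)
    apply h1
    fin_cases i
    · exact absurd rfl hi
    · change ip F e (cls (w 1)) = 0
      rw [e1, map_smul, ip_smul_right hV, q1, mul_zero]
    · change ip F e (cls (w 2)) = 0
      rw [e2, map_add, map_smul, map_smul, ip_add_right hV, ip_smul_right hV,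
        ip_smul_right hV, q1, q2]
      ring
  obtain ⟨a, ha, hs, hh⟩ := hS M v hvP (fun y => by
    obtain ⟨s, hs0, hs⟩ := hv y
    exact ⟨s, hs⟩) hnc x' hxx hx0 o1 o2
  obtain ⟨h1, h2⟩ := comb_update ha1 hb2 hc0 e1 e2 e0 l1 l2 hs hh
  refine ⟨a + l1 • v 1 + l2 • v 2, ?_, h1, h2⟩
  rw [map_add, map_add, map_smul, map_smul, ha, hx']
  abel

end HkCone_288

/-- **HKCONE**. -/
theorem HkCone_288.hkcone_of (hS : STF.{u}) (hB : BPLUS.{u}) : HKCONE.{u} := by
  intro M _ _ _ _ _ _ w hw hk k x hx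
  set σ : Equiv.Perm (Fin 3) := Equiv.swap 0 k with hσ
  have hσ0 : σ 0 = k := Equiv.swap_apply_left 0 k
  set w' : Trip M := fun i => w (σ i) with hw'
  have hP' : Pos3 w' := hw.perm σ
  have hk' : HK w' := hk.perm σ
  have hip : ∀ a b : H2 M, ip (w' 0) a b = ip (w 0) a b := fun a b => hw.ip_eq (σ 0) 0 a b
  have hx' : CCond (w' 0) (clw w') 0 x := by
    rw [Cone_288.ccond_congr hip]
    refine ⟨fun t ht a ha => ?_, fun e he => ?_⟩
    · have h1 := hx.1 t ht (fun i => a (σ.symm i)) (by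
        intro h0
        apply ha
        funext i
        have := congrFun h0 (σ i)
        simpa using this)
      have e : ∑ i, a i • ((1 - t) • clw w' i + t • update (clw w') 0 x i) =
          ∑ i, a (σ.symm i) • ((1 - t) • clw w i + t • update (clw w) k x i) := by
        refine Eq.trans (Finset.sum_congr rfl fun i _ => ?_) (Equiv.sum_comp σ (fun i =>
          a (σ.symm i) • ((1 - t) • clw w i + t • update (clw w) k x i)))
        rw [Equiv.symm_apply_apply]
        have h2 : clw w' i = clw w (σ i) := rfl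
        have h3 : update (clw w') 0 x i = update (clw w) k x (σ i) := by
          by_cases h : i = 0
          · subst h
            rw [update_self, hσ0, update_self]
          · have h4 : σ i ≠ k := by
              intro h5
              apply h
              apply σ.injective
              rw [h5, hσ0]
            rw [update_of_ne h, update_of_ne h4]
            rfl
        rw [h2, h3]
      rw [e]
      exact h1
    · obtain ⟨i, hi, h1⟩ := hx.2 e he
      refine ⟨σ.symm i, ?_, ?_⟩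
      · intro h
        apply hi
        rw [← hσ0, ← h, Equiv.apply_symm_apply]
      · change ip (w 0) e (cls (w (σ (σ.symm i)))) ≠ 0
        rw [Equiv.apply_symm_apply]
        exact h1
  obtain ⟨a, ha, hseg, hh⟩ := HkCone_288.hkcone_zero hS hB M w' hP' hk' x hx'
  have e : (fun i => update w k a (σ i) : Trip M) = update w' 0 a := by
    funext i
    by_cases h : i = 0
    · subst h
      rw [hσ0, update_self, update_self]
    · have h4 : σ i ≠ k := by
        intro h5
        apply h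
        apply σ.injective
        rw [h5, hσ0]
      rw [update_of_ne h, update_of_ne h4]
  refine ⟨a, ha, Seg.of_perm σ ?_, HK.of_perm σ ?_⟩
  · rw [e]
    exact hseg
  · rw [e]
    exact hh

end

end Crest.Agent.R235
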