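import Crest.Agent.R235.IntegD_796

/-!
Row 235 (S0364), package ADJ, leaf X3 (INTEG), helper796: **the Chern form of a line bundle has an
integral integral over every closed `J`-curve**:
`integ : IsLine p → IsChern p a → ∃ n : ℤ, c.T a.1 = n` (`c : JCurve J`).
-/

set_option autoImplicit false
set_option maxSynthPendingDepth 3
set_option linter.unusedSectionVars false

open Set Function Filter Topology Metric MeasureTheory
open scoped ContDiff ComplexConjugate Matrix Manifold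

universe u

namespace Crest.Agent.R235.Integ_796

open Crest.Agent.R240 Crest.Agent.R240.Ch Crest.Agent.R235.Loc_524 Crest.Agent.R235.Lb453
open Crest.Agent.R235.Glob_370 Crest.Agent.R235.Wind_688 Crest.Agent.R235.Pull_129

noncomputable section

variable {M : Type u} [TopologicalSpace M] [T2Space M] [CompactSpace M]
  [ChartedSpace E4 M] [IsManifold 𝓘(ℝ, E4) ∞ M] {J : EndF E4 M}
variable {K : ℕ} {p : M → Matrix (Fin K) (Fin K) ℂ} {a : Z2 M}

/-- a generic section has finitely many zeros on the curve. -/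
theorem exists_generic (c : JCurve J) (hp : IsLine p) :
    ∃ e : Fin K → ℂ, {x | x ∈ range c.f ∧ p x *ᵥ e = 0}.Finite := by
  have : LocallyCompactSpace M := ChartedSpace.locallyCompactSpace E4 M
  have h1 : ∀ x : M, ∃ V : Set M, IsCompact V ∧ x ∈ interior V ∧ V ⊆ (c.L x).U := fun x =>
    exists_compact_subset (c.L x).openU (c.L x).mem
  choose V hVc hVx hVU using h1
  obtain ⟨t, ht⟩ := isCompact_univ.elim_finite_subcover (fun x : M => interior (V x))
    (fun x => isOpen_interior) (fun x _ => mem_iUnion.2 ⟨x, hVx x⟩)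
  have h2 : ∀ (x : M) (j : Fin (c.L x).n), ∃ r : ℝ, r < 1 ∧
      ∀ z ∈ ball (0 : ℂ) 1, (c.L x).u j z ∈ V x → ‖z‖ ≤ r := fun x j => by
    obtain ⟨r, hr, h⟩ := (c.L x).proper j (V x) (hVc x) (hVU x)
    exact ⟨r, hr, h⟩
  choose r hr1 hr using h2
  set q : ∀ x : M, Fin (c.L x).n → ℂ → Matrix (Fin K) (Fin K) ℂ :=
    fun x j z => p ((c.L x).u j z) with hq
  have hsub : ∀ x j, closedBall (0 : ℂ) (r x j) ⊆ ball 0 1 := fun x j =>
    closedBall_subset_ball (hr1 x j)
  have hqs : ∀ x j i k, ContDiffOn ℝ ∞ (fun z => q x j z i k) (ball 0 1) := by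
    intro x j i k
    have h3 : ContMDiffOn 𝓘(ℝ, ℂ) 𝓘(ℝ, ℂ) ∞ (fun z => p ((c.L x).u j z) i k) (ball 0 1) :=
      (hp.smooth i k).comp_contMDiffOn ((c.L x).disc j).hol.smooth
    exact h3.contDiffOn
  have h4 : ∀ x j, IsOpen (Gd (q x j) (closedBall 0 (r x j))) ∧
      Dense (Gd (q x j) (closedBall 0 (r x j))) := fun x j =>
    Gd_open_dense isOpen_ball (hqs x j) (isCompact_closedBall _ _) (hsub x j)
      fun z _ => hp.rank _
  have h5 : Dense (⋂ i : (Σ x : t, Fin (c.L (x : M)).n),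
      Gd (q i.1 i.2) (closedBall 0 (r i.1 i.2))) :=
    dense_iInter_of_isOpen (fun i => (h4 i.1 i.2).1) fun i => (h4 i.1 i.2).2
  obtain ⟨e, he⟩ := h5.nonempty
  rw [mem_iInter] at he
  refine ⟨e, ?_⟩
  have h6 : {x | x ∈ range c.f ∧ p x *ᵥ e = 0} ⊆ ⋃ i : (Σ x : t, Fin (c.L (x : M)).n),
      (c.L (i.1 : M)).u i.2 '' {z | z ∈ closedBall (0 : ℂ) (r i.1 i.2) ∧
        q i.1 i.2 z *ᵥ e = 0} := by
    rintro x ⟨hx, hx0⟩
    obtain ⟨y, hy, hxy⟩ := mem_iUnion₂.1 (ht (mem_univ x))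
    have hxV : x ∈ V y := interior_subset hxy
    have hxU : x ∈ range c.f ∩ (c.L y).U := ⟨hx, hVU y hxV⟩
    rw [(c.L y).supp] at hxU
    obtain ⟨j, z, hz, hzx⟩ := mem_iUnion.1 hxU
    refine mem_iUnion.2 ⟨⟨⟨y, hy⟩, j⟩, z, ⟨?_, ?_⟩, hzx⟩
    · rw [mem_closedBall, dist_zero_right]
      exact hr y j z hz (by rw [hzx]; exact hxV)
    · show p ((c.L y).u j z) *ᵥ e = 0
      rw [hzx]; exact hx0
  refine (finite_iUnion fun i => Finite.image _ ?_).subset h6
  exact finite_zeros isOpen_ball (hqs i.1 i.2) (isCompact_closedBall _ _) (hsub i.1 i.2) (he i)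

/-- **INTEG**. -/
theorem integ (c : JCurve J) (hp : IsLine p) (ha : IsChern p a) : ∃ n : ℤ, c.T a.1 = n := by
  obtain ⟨e, he⟩ := exists_generic c hp
  set Z : Set M := {x | x ∈ range c.f ∧ p x *ᵥ e = 0} with hZ
  obtain ⟨W, hW, hWd⟩ := he.t2_separation
  choose m hm using fun x : M => Om_cover hp x
  set O : M → Set M := fun x => W x ∩ (c.L x).U ∩ Om p (m x) with hO
  have hOo : ∀ x, IsOpen (O x) := fun x =>
    (((hW x).2).inter (c.L x).openU).inter (isOpen_Om hp.smooth (m x))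
  have hOx : ∀ x, x ∈ O x := fun x => ⟨⟨(hW x).1, (c.L x).mem⟩, hm x⟩
  have hdisj : ∀ x ∈ Z, ∀ y ∈ Z, x ≠ y → Disjoint (O x) (O y) := fun x hx y hy hxy =>
    (hWd hx hy hxy).mono (fun z hz => hz.1.1) fun z hz => hz.1.1
  have hcut : ∀ x : M, ∃ χ : M → ℝ, SmoothF E4 χ ∧ (∀ᶠ z in 𝓝 x, χ z = 1) ∧
      tsupport χ ⊆ O x := fun x => by
    obtain ⟨χ, h1, h2, h3⟩ := exists_cut (E := E4) (K := {x}) isClosed_singleton (hOo x)
      (singleton_subset_iff.2 (hOx x))
    exact ⟨χ, h1, h2 x rfl, h3⟩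
  choose χ hχs hχ1 hχO using hcut
  have hloc : ∀ x : Z, ∃ G : Set M, IsOpen G ∧ (x : M) ∈ G ∧ G ⊆ O x ∧ (∀ y ∈ G, χ x y = 1) ∧
      ∀ (S : F1 E4 M) (hS : Smooth1 S),
        (∀ y ∈ range c.f, y ∈ O x → y ∉ G → S =ᶠ[𝓝 y] conn (sn p e)) →
        ∃ n : ℤ, c.T (cX a hS (hχs x)) = n := by
    intro x
    refine local_int c hp ha e (hOo x) (hOx x) (fun y hy => hy.1.2) (fun y hy => hy.2) ?_
      (hχs x) (hχ1 x) (hχO x)
    intro y hyO hyr hy0
    by_contra hne
    exact (disjoint_left.1 (hdisj y ⟨hyr, hy0⟩ x x.2 hne)) (hOx y) hyO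
  choose G hGo hGx hGO hG1 hGS using hloc
  -- the global one-form `S`
  set K0 : Set M := range c.f \ ⋃ x, G x with hK0
  have hK0c : IsClosed K0 := by
    have h1 : IsClosed (range c.f) := (isCompact_range c.cont).isClosed
    exact h1.sdiff (isOpen_iUnion hGo)
  have hK0U : K0 ⊆ {x | 0 < hh p e x} := by
    rintro x ⟨hx1, hx2⟩
    refine nsqv_pos fun h0 => hx2 ?_
    exact mem_iUnion.2 ⟨⟨x, hx1, h0⟩, hGx _⟩
  obtain ⟨S, hS, hSe⟩ := exists_ext1 (E := E4) (s := conn (sn p e)) hK0c (isOpen_hh hp e) hK0U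
    (fun x hx => smAt1_conn (isOpen_hh hp e) (fun z hz l => sc_sn hp.smooth hz l) hx)
  have hSG : ∀ x : Z, ∀ y ∈ range c.f, y ∈ O x → y ∉ G x → S =ᶠ[𝓝 y] conn (sn p e) := by
    intro x y hy hyO hyG
    refine hSe y ⟨hy, fun h => ?_⟩
    obtain ⟨x', hx'⟩ := mem_iUnion.1 h
    have hne : (x' : M) ≠ x := by
      rintro h2
      have : x' = x := Subtype.ext h2
      rw [this] at hx'
      exact hyG hx'
    exact (disjoint_left.1 (hdisj x' x'.2 x x.2 hne)) (hGO x' hx') hyO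
  choose n hn using fun x : Z => hGS x S hS (hSG x)
  have : Fintype Z := he.fintype
  refine ⟨∑ x : Z, n x, ?_⟩
  -- `T a = T (a - dS)`
  have e1 : c.T a.1 = c.T (bX a hS) := by
    have h2 : c.T (⟨dG S, Smooth2.dG hS⟩ : X2 M) = 0 := c.pcur.closed _ (isEx_dG hS)
    unfold bX
    rw [map_sub, h2, sub_zero]
  -- `T (a - dS) = ∑ T (χ (a - dS))`
  have e2 : c.T (bX a hS - ∑ x : Z, cX a hS (hχs x)) = 0 := by
    refine T_eq_zero c fun y hy => ?_
    have h3 : at2 ((bX a hS - ∑ x : Z, cX a hS (hχs x) : X2 M).1 : F2 E4 M) y =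
        at2 ((bX a hS).1 : F2 E4 M) y - ∑ x : Z, χ x y • at2 ((bX a hS).1 : F2 E4 M) y := by
      show ((bX a hS).1 - ((∑ x : Z, cX a hS (hχs x) : X2 M) : F2 E4 M)) y = _
      rw [AddSubmonoidClass.coe_finsetSum]
      show (bX a hS).1 y - (∑ x : Z, ((cX a hS (hχs x) : X2 M) : F2 E4 M)) y = _
      rw [Finset.sum_apply]
      rfl
    rw [h3, ← Finset.sum_smul]
    by_cases hyK : y ∈ K0
    · have h4 : at2 ((bX a hS).1 : F2 E4 M) y = 0 := by
        rw [at2_bX, dG_congr (hSe y hyK), dG_sn hp ha (hK0U hyK), sub_self]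
      rw [h4, smul_zero, sub_zero]
    · have h5 : y ∈ ⋃ x, G x := by
        by_contra h6
        exact hyK ⟨hy, h6⟩
      obtain ⟨x, hx⟩ := mem_iUnion.1 h5
      have h7 : ∑ x' : Z, χ x' y = 1 := by
        rw [Finset.sum_eq_single x]
        · exact hG1 x y hx
        · intro x' _ hne
          have h8 : y ∉ tsupport (χ x') := fun h9 =>
            (disjoint_left.1 (hdisj x' x'.2 x x.2 fun h => hne (Subtype.ext h))) (hχO x' h9)
              (hGO x hx)
          exact image_eq_zero_of_notMem_tsupport h8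
        · intro h8
          exact absurd (Finset.mem_univ x) h8
      rw [h7, one_smul, sub_self]
  rw [map_sub, map_sum, sub_eq_zero] at e2
  rw [e1, e2]
  push_cast
  exact Finset.sum_congr rfl fun x _ => hn x

end

end Crest.Agent.R235.Integ_796
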