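import Crest.Agent.R235.LatG_283
import Crest.Agent.R235.DichProps_723

/-!
Row 235, package LAT, file H: `EVENCLASS` of `DichProps_723`.
-/

open Module

namespace Crest.Agent.R235.LatH_283

open LinearMap (BilinForm)
open LatC_283 LatO_283 LatE_283 LatG_283
open Matrix Filter

section real

variable {V : Type*} [AddCommGroup V] [Module ℝ V] {b : BilinForm ℝ V}
variable {ι : Type} [Fintype ι] [DecidableEq ι] {e : Basis ι ℝ V}

/-- an integral positive frame is a real positive frame -/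
lemma frame_of_pos (hsb : ∀ x y, b x y = b y x) {G : Matrix ι ι ℤ}
    (hG : ∀ i j, b (e i) (e j) = G i j) {k : ℕ} (h : Pos (matZ G) k) :
    ∃ p : Fin k → V, ∀ a : Fin k → ℝ, a ≠ 0 → 0 < b (∑ i, a i • p i) (∑ i, a i • p i) := by
  obtain ⟨f, hf⟩ := h
  set F : Fin k → V := fun i => rv e (f i) with hF
  let H : Matrix (Fin k) (Fin k) ℤ := Matrix.of fun i j => matZ G (f i) (f j)
  have hHR : (Matrix.of fun i j => b (F i) (F j)) = H.map (Int.cast : ℤ → ℝ) := by
    ext i j; simp only [Matrix.of_apply, Matrix.map_apply, hF, b_rv hG, H]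
  have hval : ∀ c : Fin k → ℤ, ((matZ G (∑ i, c i • f i) (∑ i, c i • f i) : ℤ) : ℝ) =
      b (∑ i, (c i : ℝ) • F i) (∑ i, (c i : ℝ) • F i) := by
    intro c
    rw [← rv_sum, b_rv hG]
  have hdet : H.det ≠ 0 := by
    intro h0
    obtain ⟨c, hc0, hc⟩ := Matrix.exists_mulVec_eq_zero_iff.2 h0
    have h1 := hf c hc0
    have h2 := hval c
    rw [sum_form, hHR] at h2
    have h3 : (H.map (Int.cast : ℤ → ℝ)) *ᵥ (fun i => (c i : ℝ)) = 0 := by
      ext i
      have := congrFun hc i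
      simp only [mulVec, dotProduct, Pi.zero_apply, Matrix.map_apply] at this ⊢
      exact_mod_cast this
    rw [h3, dotProduct_zero] at h2
    have : matZ G (∑ i, c i • f i) (∑ i, c i • f i) = 0 := by exact_mod_cast h2
    omega
  have hpsd : ∀ c : Fin k → ℝ, 0 ≤ b (∑ i, c i • F i) (∑ i, c i • F i) := by
    have hcont : Continuous (fun c : Fin k → ℝ => b (∑ i, c i • F i) (∑ i, c i • F i)) := by
      simp only [sum_form]
      unfold dotProduct mulVec dotProduct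
      fun_prop
    have hint : ∀ c : Fin k → ℤ, 0 ≤ b (∑ i, (c i : ℝ) • F i) (∑ i, (c i : ℝ) • F i) := by
      intro c
      rw [← hval]
      by_cases hc : c = 0
      · subst hc; simp
      · exact_mod_cast (hf c hc).le
    intro c
    have hlim : Tendsto (fun N : ℕ => (fun i => ((⌊(N : ℝ) * c i⌋ : ℤ) : ℝ) / N : Fin k → ℝ)) atTop (nhds c) := by
      rw [tendsto_pi_nhds]
      intro i
      exact tendsto_floor_div (c i)
    have hl2 := (hcont.tendsto c).comp hlim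
    refine ge_of_tendsto hl2 (Eventually.of_forall fun N => ?_)
    show 0 ≤ b (∑ i, (((⌊(N : ℝ) * c i⌋ : ℤ) : ℝ) / N) • F i) (∑ i, (((⌊(N : ℝ) * c i⌋ : ℤ) : ℝ) / N) • F i)
    have h3 : ∑ i, (((⌊(N : ℝ) * c i⌋ : ℤ) : ℝ) / N) • F i =
        ((N : ℝ)⁻¹) • ∑ i, ((⌊(N : ℝ) * c i⌋ : ℤ) : ℝ) • F i := by
      rw [Finset.smul_sum]
      refine Finset.sum_congr rfl fun i _ => ?_
      rw [smul_smul, div_eq_inv_mul]
    rw [h3]
    simp only [map_smul, LinearMap.smul_apply, smul_eq_mul]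
    have h4 := hint (fun i => ⌊(N : ℝ) * c i⌋)
    positivity
  refine ⟨F, fun a ha => ?_⟩
  rcases (hpsd a).lt_or_eq with h | h
  · exact h
  · exfalso
    apply ha
    have h3 : (H.map (Int.cast : ℤ → ℝ)).det ≠ 0 := by
      have : (H.map (Int.cast : ℤ → ℝ)).det = (H.det : ℝ) := (Int.cast_det H).symm
      rw [this]; exact_mod_cast hdet
    refine eq_zero_of_mulVec_eq_zero h3 ?_
    ext i
    rw [← hHR]
    simp only [mulVec, dotProduct, Matrix.of_apply, Pi.zero_apply]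
    have h5 : ∑ j, b (F i) (F j) * a j = b (F i) (∑ j, a j • F j) := by
      rw [map_sum]
      exact Finset.sum_congr rfl fun j _ => by rw [map_smul, smul_eq_mul, mul_comm]
    rw [h5]
    -- minimum of a nonnegative quadratic form
    set z := ∑ j, a j • F j with hz
    by_contra hne
    set β := b (F i) z with hβ
    set γ := b (F i) (F i) with hγ
    have hγ0 : 0 ≤ γ := by
      have := hpsd (Pi.single i 1)
      simpa [Pi.single_apply] using this
    have h6 := hpsd (a + (Pi.single i (-β / (γ + 1)) : Fin k → ℝ))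
    have h7 : ∑ j, (a + (Pi.single i (-β / (γ + 1)) : Fin k → ℝ)) j • F j =
        z + (-β / (γ + 1)) • F i := by
      simp [add_smul, Finset.sum_add_distrib, Pi.single_apply, hz]
    rw [h7] at h6
    simp only [map_add, LinearMap.add_apply, map_smul, LinearMap.smul_apply, smul_eq_mul] at h6
    rw [← h, hsb z (F i), ← hβ, ← hγ] at h6
    have h8 : 0 < γ + 1 := by linarith
    have h9 : 0 + -β / (γ + 1) * β + (-β / (γ + 1) * β + -β / (γ + 1) * (-β / (γ + 1) * γ)) =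
        - (β ^ 2 * (γ + 2) / (γ + 1) ^ 2) := by
      field_simp
      ring
    have h10 : 0 < β ^ 2 * (γ + 2) / (γ + 1) ^ 2 := by
      have : 0 < β ^ 2 := by positivity
      positivity
    have h11 : (0 : ℝ) + -β / (γ + 1) * β + (-β / (γ + 1) * β + -β / (γ + 1) * (-β / (γ + 1) * γ)) < 0 := by
      rw [h9]; linarith
    linarith

end real

/-- real form of an integral matrix -/
noncomputable def matR {n : ℕ} (A : Matrix (Fin n) (Fin n) ℝ) : BilinForm ℝ (Fin n → ℝ) :=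
  LinearMap.mk₂ ℝ (fun x y => x ⬝ᵥ (A *ᵥ y))
    (by intros; simp [add_dotProduct]) (by intros; simp)
    (by intros; simp [mulVec_add, dotProduct_add]) (by intros; simp [mulVec_smul])

@[simp] lemma matR_apply {n : ℕ} (A : Matrix (Fin n) (Fin n) ℝ) (x y : Fin n → ℝ) :
    matR A x y = x ⬝ᵥ (A *ᵥ y) := rfl

lemma matR_basis {n : ℕ} (A : Matrix (Fin n) (Fin n) ℤ) (i j : Fin n) :
    matR (A.map (fun z : ℤ => (z : ℝ))) (Pi.basisFun ℝ (Fin n) i) (Pi.basisFun ℝ (Fin n) j) =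
      (A i j : ℝ) := by
  simp

lemma matR_comm {n : ℕ} {A : Matrix (Fin n) (Fin n) ℤ} (h : A.IsSymm) (x y : Fin n → ℝ) :
    matR (A.map (fun z : ℤ => (z : ℝ))) x y = matR (A.map (fun z : ℤ => (z : ℝ))) y x := by
  have hs : (A.map (fun z : ℤ => (z : ℝ)))ᵀ = A.map (fun z : ℤ => (z : ℝ)) := by
    ext i j
    simp only [transpose_apply, Matrix.map_apply]
    rw [h.apply]
  simp only [matR_apply]
  rw [dotProduct_comm, dotProduct_mulVec, ← mulVec_transpose, hs, dotProduct_comm]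

/-- positive index under real congruence -/
lemma pos_congr {n : ℕ} {A B : Matrix (Fin n) (Fin n) ℤ} (hA : A.IsSymm)
    (T : Matrix (Fin n) (Fin n) ℝ) (hT : IsUnit T.det)
    (h : Tᵀ * A.map (fun z : ℤ => (z : ℝ)) * T = B.map (fun z : ℤ => (z : ℝ))) {k : ℕ}
    (hk : Pos (matZ A) k) : Pos (matZ B) k := by
  obtain ⟨p, hp⟩ := frame_of_pos (matR_comm hA) (matR_basis A) hk
  refine pos_of_frame (b := matR (B.map (fun z : ℤ => (z : ℝ)))) (e := Pi.basisFun ℝ (Fin n))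
    (matR_basis B) (fun i => T⁻¹ *ᵥ p i) fun a ha => ?_
  have h1 : ∑ i, a i • T⁻¹ *ᵥ p i = T⁻¹ *ᵥ (∑ i, a i • p i) := by
    rw [mulVec_sum]
    exact Finset.sum_congr rfl fun i _ => by rw [mulVec_smul]
  rw [h1]
  have h2 := hp a ha
  set z := ∑ i, a i • p i
  simp only [matR_apply] at h2 ⊢
  have h3 : T *ᵥ (T⁻¹ *ᵥ z) = z := by
    rw [mulVec_mulVec, mul_nonsing_inv _ hT, one_mulVec]
  rw [← h, ← mulVec_mulVec, ← mulVec_mulVec, h3, dotProduct_mulVec, vecMul_transpose, h3]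
  exact h2

lemma exists_int_pos {n : ℕ} (A : Matrix (Fin n) (Fin n) ℤ)
    (h : ∃ x : Fin n → ℝ, 0 < x ⬝ᵥ (A.map (fun z : ℤ => (z : ℝ))).mulVec x) :
    ∃ x, 0 < matZ A x x := by
  obtain ⟨x, hx⟩ := h
  have h1 : Pos (matZ A) 1 := by
    refine pos_of_frame (b := matR (A.map (fun z : ℤ => (z : ℝ)))) (e := Pi.basisFun ℝ (Fin n))
      (matR_basis A) (fun _ => x) fun a ha => ?_
    have ha0 : a 0 ≠ 0 := by
      intro h
      apply ha
      ext i
      rw [Subsingleton.elim i 0, h]; rfl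
    simp only [Fin.sum_univ_one, map_smul, LinearMap.smul_apply, smul_eq_mul, matR_apply]
    have : 0 < a 0 * a 0 := mul_self_pos.2 ha0
    rw [← mul_assoc]
    exact mul_pos this hx
  obtain ⟨f, hf⟩ := h1
  have := hf (fun _ => 1) (by
    intro h
    have := congrFun h 0
    simp at this)
  exact ⟨_, this⟩

lemma exists_int_neg {n : ℕ} (A : Matrix (Fin n) (Fin n) ℤ)
    (h : ∃ x : Fin n → ℝ, x ⬝ᵥ (A.map (fun z : ℤ => (z : ℝ))).mulVec x < 0) :
    ∃ x, matZ A x x < 0 := by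
  obtain ⟨x, hx⟩ := h
  obtain ⟨y, hy⟩ := exists_int_pos (-A) ⟨x, by
    have : (-A).map (fun z : ℤ => (z : ℝ)) = -(A.map (fun z : ℤ => (z : ℝ))) := by
      ext i j; simp
    rw [this, neg_mulVec, dotProduct_neg]
    linarith⟩
  refine ⟨y, ?_⟩
  simp only [matZ_apply, neg_mulVec, dotProduct_neg] at hy ⊢
  omega

/-- **EVENCLASS.** -/
theorem evenclass : DichProps_723.EVENCLASS := by
  rintro n A B hA hB hdA hdB heA heB ⟨T, hT, hTA⟩ hpos hneg
  -- inverse congruence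
  have hT' : IsUnit (T⁻¹).det := by
    rw [det_nonsing_inv]; exact hT.ringInverse
  have hTB : (T⁻¹)ᵀ * B.map (fun z : ℤ => (z : ℝ)) * T⁻¹ = A.map (fun z : ℤ => (z : ℝ)) := by
    rw [← hTA]
    calc (T⁻¹)ᵀ * (Tᵀ * A.map (fun z : ℤ => (z : ℝ)) * T) * T⁻¹ =
        ((T⁻¹)ᵀ * Tᵀ) * A.map (fun z : ℤ => (z : ℝ)) * (T * T⁻¹) := by
          simp only [Matrix.mul_assoc]
      _ = A.map (fun z : ℤ => (z : ℝ)) := by
          rw [← transpose_mul, mul_nonsing_inv _ hT]; simp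
  have hmv : ∀ z : Fin n → ℝ, (T⁻¹ *ᵥ z) ⬝ᵥ ((B.map (fun z : ℤ => (z : ℝ))) *ᵥ (T⁻¹ *ᵥ z)) =
      z ⬝ᵥ ((A.map (fun z : ℤ => (z : ℝ))) *ᵥ z) := by
    intro z
    conv_rhs => rw [← hTB]
    rw [← mulVec_mulVec, ← mulVec_mulVec, dotProduct_mulVec z, vecMul_transpose]
  have hiA : Indef (matZ A) := ⟨exists_int_pos A hpos, exists_int_neg A hneg⟩
  have hiB : Indef (matZ B) := by
    obtain ⟨x, hx⟩ := hpos
    obtain ⟨y, hy⟩ := hneg
    exact ⟨exists_int_pos B ⟨T⁻¹ *ᵥ x, by rw [hmv]; exact hx⟩,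
      exists_int_neg B ⟨T⁻¹ *ᵥ y, by rw [hmv]; exact hy⟩⟩
  obtain ⟨g, hg⟩ := even_class (Fin n → ℤ) (Fin n → ℤ) (matZ B) (matZ A) (matZ_sy hB)
    (matZ_uni hdB) hiB (even_form hB heB) (matZ_sy hA) (matZ_uni hdA) hiA (even_form hA heA) rfl
    (fun k => ⟨pos_congr hB _ hT' hTB, pos_congr hA T hT hTA⟩)
  refine ⟨LinearMap.toMatrix' (g : (Fin n → ℤ) →ₗ[ℤ] (Fin n → ℤ)), ?_, ?_⟩
  · rw [LinearMap.det_toMatrix']
    exact LinearEquiv.isUnit_det' g
  · ext i j
    have h1 := hg (Pi.single i 1) (Pi.single j 1)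
    simp only [matZ_apply] at h1
    have h2 : ∀ k, g (Pi.single k 1) =
        (LinearMap.toMatrix' (g : (Fin n → ℤ) →ₗ[ℤ] (Fin n → ℤ))) *ᵥ (Pi.single k 1) := by
      intro k
      rw [LinearMap.toMatrix'_mulVec]; rfl
    rw [h2, h2] at h1
    set P := LinearMap.toMatrix' (g : (Fin n → ℤ) →ₗ[ℤ] (Fin n → ℤ))
    have h3 : (P *ᵥ Pi.single i 1) ⬝ᵥ (A *ᵥ (P *ᵥ Pi.single j 1)) =
        (Pᵀ * A * P) i j := by
      rw [← vecMul_transpose, ← dotProduct_mulVec, mulVec_mulVec, mulVec_mulVec]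
      simp
    rw [← h3, h1]
    simp

end Crest.Agent.R235.LatH_283
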