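import Crest.Agent.R235.LatKy_766

/-!
Row 235 (S0364), package LAT, helper766: positive frames in Kummer position, in coordinates.
-/

set_option autoImplicit false

open Finset Filter Set
open scoped Polynomial Topology

namespace Crest.Agent.R235.LatKz_766

open Crest.Agent.R235.LatKx_766 Crest.Agent.R235.LatKy_766

noncomputable section

/-- the real K3 space in coordinates. -/
abbrev V : Type := IK → ℝ

/-- the form. -/
def B : LinearMap.BilinForm ℝ V :=
  LinearMap.mk₂ ℝ qf (fun x y z => qf_add x y z) (fun c x y => qf_smul c x y)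
    (fun x y z => by rw [qf_comm, qf_add, qf_comm y, qf_comm z])
    (fun c x y => by rw [qf_comm, qf_smul, qf_comm y]; rfl)

theorem B_apply (x y : V) : B x y = qf x y := rfl

theorem B_comm (x y : V) : B x y = B y x := qf_comm x y

/-- integer vectors. -/
def rl (n : IK → ℤ) : V := fun k => (n k : ℝ)

theorem B_rl (n m : IK → ℤ) : B (rl n) (rl m) = (qf n m : ℤ) :=
  qf_map (Int.castRingHom ℝ) n m

/-- the sixteen roots. -/
def D (i : Fin 16) : V := rl (dv i)

/-- the three vectors of square four. -/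
def S (i : Fin 3) : V := rl (sv i)

theorem B_DD (i j : Fin 16) : B (D i) (D j) = if i = j then -2 else 0 := by
  rw [D, D, B_rl, qf_dd]
  split_ifs <;> simp

theorem B_SS (i j : Fin 3) : B (S i) (S j) = if i = j then 4 else 0 := by
  rw [S, S, B_rl, qf_ss]
  split_ifs <;> simp

theorem B_SD (i : Fin 3) (j : Fin 16) : B (S i) (D j) = 0 := by
  rw [S, D, B_rl, qf_sd]; simp

/-- the orthogonal projection to the complement of the roots. -/
def pr : V →ₗ[ℝ] V :=
  LinearMap.id + ∑ j, ((1 / 2 : ℝ) • (B.flip (D j))).smulRight (D j)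

theorem pr_apply (v : V) : pr v = v + ∑ j, ((1 / 2 : ℝ) * B v (D j)) • D j := by
  simp [pr, LinearMap.sum_apply]

theorem B_pr (n v : V) : B n (pr v) = B (pr n) v := by
  rw [pr_apply, pr_apply, map_add, map_add, map_sum, map_sum, LinearMap.add_apply,
    LinearMap.sum_apply]
  congr 1
  refine Finset.sum_congr rfl fun j _ => ?_
  rw [map_smul, map_smul, LinearMap.smul_apply, smul_eq_mul, smul_eq_mul, B_comm (D j) v]
  ring

theorem pr_D (i : Fin 16) : pr (D i) = 0 := by
  rw [pr_apply]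
  have : ∑ j, ((1 / 2 : ℝ) * B (D i) (D j)) • D j = - D i := by
    rw [Finset.sum_eq_single i]
    · rw [B_DD, if_pos rfl]; norm_num
    · intro j _ hj
      rw [B_DD, if_neg (Ne.symm hj)]; simp
    · intro h; exact absurd (Finset.mem_univ i) h
  rw [this, add_neg_cancel]

theorem B_D_pr (i : Fin 16) (v : V) : B (D i) (pr v) = 0 := by
  rw [B_pr, pr_D, map_zero, LinearMap.zero_apply]

theorem pr_S (i : Fin 3) : pr (S i) = S i := by
  rw [pr_apply]
  simp [B_SD]

/-- negative definite part. -/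
def phi : ((Fin 3 → ℝ) × (Fin 2 → Fin 8 → ℝ)) →ₗ[ℝ] V where
  toFun n := fun k => match k with
    | Sum.inl (k, s) => if s = 0 then n.1 k else - n.1 k
    | Sum.inr (k, s) => n.2 k s
  map_add' x y := by
    funext k
    rcases k with ⟨k, s⟩ | ⟨k, s⟩
    · simp only [Prod.fst_add, Pi.add_apply]
      split_ifs <;> ring
    · rfl
  map_smul' c x := by
    funext k
    rcases k with ⟨k, s⟩ | ⟨k, s⟩
    · simp only [Prod.smul_fst, Pi.smul_apply, smul_eq_mul, RingHom.id_apply]
      split_ifs <;> ring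
    · rfl

theorem e8_self_pos {x : Fin 8 → ℝ} (hx : x ≠ 0) : 0 < e8 x x := by
  rw [← e8_eq]
  exact LatS_723.e8_pos x hx

theorem e8_self_nonneg (x : Fin 8 → ℝ) : 0 ≤ e8 x x := by
  rw [← e8_eq]
  exact LatS_723.e8_nonneg x

theorem phi_neg (n : (Fin 3 → ℝ) × (Fin 2 → Fin 8 → ℝ)) (hn : n ≠ 0) :
    B (phi n) (phi n) < 0 := by
  have h : B (phi n) (phi n) = -2 * (n.1 0 ^ 2 + n.1 1 ^ 2 + n.1 2 ^ 2) -
      e8 (n.2 0) (n.2 0) - e8 (n.2 1) (n.2 1) := by
    rw [B_apply]
    simp only [qf, hy, phi, LinearMap.coe_mk, AddHom.coe_mk]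
    simp
    ring
  rw [h]
  have h0 := e8_self_nonneg (n.2 0)
  have h1 := e8_self_nonneg (n.2 1)
  by_contra hcon
  push Not at hcon
  have q0 := sq_nonneg (n.1 0)
  have q1 := sq_nonneg (n.1 1)
  have q2 := sq_nonneg (n.1 2)
  have a0 : n.1 0 = 0 := by
    rw [← sq_eq_zero_iff]; linarith
  have a1 : n.1 1 = 0 := by
    rw [← sq_eq_zero_iff]; linarith
  have a2 : n.1 2 = 0 := by
    rw [← sq_eq_zero_iff]; linarith
  have b0 : n.2 0 = 0 := by
    by_contra hb
    have := e8_self_pos hb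
    linarith
  have b1 : n.2 1 = 0 := by
    by_contra hb
    have := e8_self_pos hb
    linarith
  apply hn
  refine Prod.ext ?_ ?_
  · funext k; fin_cases k <;> assumption
  · funext k; fin_cases k <;> assumption

theorem neg (c : Fin 3 → V)
    (hc : ∀ a : Fin 3 → ℝ, a ≠ 0 → 0 < B (∑ i, a i • c i) (∑ i, a i • c i))
    (x : V) (h0 : x ≠ 0) (hx : ∀ i, B x (c i) = 0) : B x x < 0 := by
  refine LatS_723.neg_of_sylvester B B_comm phi phi_neg ?_ c hc x hx h0
  rw [Module.finrank_prod, Module.finrank_fintype_fun_eq_card, Module.finrank_fintype_fun_eq_card,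
    Module.finrank_pi_fintype]
  simp

/-- the form is nondegenerate. -/
theorem nondeg {v : V} (hv : ∀ k, B v (Pi.single k 1) = 0) : v = 0 := by
  have hall : ∀ y : V, B v y = 0 := by
    intro y
    rw [pi_eq_sum_univ' y, map_sum]
    refine Finset.sum_eq_zero fun k _ => ?_
    rw [map_smul, hv k, smul_zero]
  by_contra hne
  let y : V := fun k => match k with
    | Sum.inl (k, s) => v (Sum.inl (k, 1 - s))
    | Sum.inr (k, s) => - v (Sum.inr (k, s))
  have h := hall y
  rw [B_apply] at h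
  have e : qf v y = v (Sum.inl (0, 0)) ^ 2 + v (Sum.inl (0, 1)) ^ 2 + v (Sum.inl (1, 0)) ^ 2 +
      v (Sum.inl (1, 1)) ^ 2 + v (Sum.inl (2, 0)) ^ 2 + v (Sum.inl (2, 1)) ^ 2 +
      e8 (fun s => v (Sum.inr (0, s))) (fun s => v (Sum.inr (0, s))) +
      e8 (fun s => v (Sum.inr (1, s))) (fun s => v (Sum.inr (1, s))) := by
    simp only [qf, hy, y, e8]
    simp
    ring
  rw [e] at h
  have h0 := e8_self_nonneg (fun s => v (Sum.inr (0, s)))
  have h1 := e8_self_nonneg (fun s => v (Sum.inr (1, s)))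
  have q00 := sq_nonneg (v (Sum.inl (0, 0)))
  have q01 := sq_nonneg (v (Sum.inl (0, 1)))
  have q10 := sq_nonneg (v (Sum.inl (1, 0)))
  have q11 := sq_nonneg (v (Sum.inl (1, 1)))
  have q20 := sq_nonneg (v (Sum.inl (2, 0)))
  have q21 := sq_nonneg (v (Sum.inl (2, 1)))
  have a00 : v (Sum.inl (0, 0)) = 0 := by rw [← sq_eq_zero_iff]; linarith
  have a01 : v (Sum.inl (0, 1)) = 0 := by rw [← sq_eq_zero_iff]; linarith
  have a10 : v (Sum.inl (1, 0)) = 0 := by rw [← sq_eq_zero_iff]; linarith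
  have a11 : v (Sum.inl (1, 1)) = 0 := by rw [← sq_eq_zero_iff]; linarith
  have a20 : v (Sum.inl (2, 0)) = 0 := by rw [← sq_eq_zero_iff]; linarith
  have a21 : v (Sum.inl (2, 1)) = 0 := by rw [← sq_eq_zero_iff]; linarith
  have b0 : (fun s => v (Sum.inr (0, s))) = 0 := by
    by_contra hb
    have := e8_self_pos hb
    linarith
  have b1 : (fun s => v (Sum.inr (1, s))) = 0 := by
    by_contra hb
    have := e8_self_pos hb
    linarith
  apply hne
  funext k
  rcases k with ⟨k, s⟩ | ⟨k, s⟩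
  · fin_cases k <;> fin_cases s <;> assumption
  · fin_cases k
    · exact congrFun b0 s
    · exact congrFun b1 s

/-- numbering of the coordinates. -/
def ix : IK → ℕ
  | Sum.inl (i, s) => 2 * i.1 + s.1
  | Sum.inr (i, s) => 6 + 8 * i.1 + s.1

theorem ix_inj : Function.Injective ix := by
  have h : ∀ a b : IK, ix a = ix b → a = b := by decide +kernel
  exact fun a b hab => h a b hab

theorem ix_lt (a : IK) : ix a < 22 := by
  have h : ∀ a : IK, ix a < 22 := by decide +kernel
  exact h a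

/-- the moment curve. -/
def mc (t : ℝ) : V := fun k => t ^ (ix k + 1)

theorem B_mc (v : V) (t : ℝ) : B v (mc t) = ∑ k, B v (Pi.single k 1) * t ^ (ix k + 1) := by
  have e : mc t = ∑ k, t ^ (ix k + 1) • (Pi.single k (1 : ℝ) : V) := by
    funext j
    simp [mc, Finset.sum_apply, Pi.single_apply]
  rw [e, map_sum]
  refine Finset.sum_congr rfl fun k _ => ?_
  rw [map_smul, smul_eq_mul, mul_comm]

/-- the polynomial of an affine functional along the moment curve. -/
def pl (v : V) (a : ℝ) (b : Fin 16 → ℝ) : ℝ[X] :=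
  Polynomial.C a + ∑ k, Polynomial.C (B v (Pi.single k 1)) * Polynomial.X ^ (ix k + 1) +
    ∑ j : Fin 16, Polynomial.C (b j) * Polynomial.X ^ (23 + j.1)

theorem pl_eval (v : V) (a : ℝ) (b : Fin 16 → ℝ) (t : ℝ) :
    (pl v a b).eval t = a + B v (mc t) + ∑ j, b j * t ^ (23 + j.1) := by
  simp [pl, B_mc, Polynomial.eval_finsetSum]

theorem pl_coeff (v : V) (a : ℝ) (b : Fin 16 → ℝ) (k : IK) :
    (pl v a b).coeff (ix k + 1) = B v (Pi.single k 1) := by
  rw [pl, Polynomial.coeff_add, Polynomial.coeff_add, Polynomial.finsetSum_coeff,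
    Polynomial.finsetSum_coeff, Polynomial.coeff_C, if_neg (Nat.succ_ne_zero _),
    Finset.sum_eq_single k, Finset.sum_eq_zero]
  · rw [Polynomial.coeff_C_mul_X_pow, if_pos rfl]; ring
  · intro j _
    rw [Polynomial.coeff_C_mul_X_pow, if_neg (by have := ix_lt k; omega)]
  · intro j _ hj
    rw [Polynomial.coeff_C_mul_X_pow, if_neg]
    intro h
    exact hj (ix_inj (by omega)).symm
  · intro h; exact absurd (Finset.mem_univ k) h

theorem pl_coeff' (v : V) (a : ℝ) (b : Fin 16 → ℝ) (i : Fin 16) :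
    (pl v a b).coeff (23 + i.1) = b i := by
  rw [pl, Polynomial.coeff_add, Polynomial.coeff_add, Polynomial.finsetSum_coeff,
    Polynomial.finsetSum_coeff, Polynomial.coeff_C, if_neg (by omega),
    Finset.sum_eq_single (s := (Finset.univ : Finset (Fin 16))) i, Finset.sum_eq_zero]
  · rw [Polynomial.coeff_C_mul_X_pow, if_pos rfl]; ring
  · intro k _
    rw [Polynomial.coeff_C_mul_X_pow, if_neg (by have := ix_lt k; omega)]
  · intro j _ hj
    rw [Polynomial.coeff_C_mul_X_pow, if_neg]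
    intro h
    exact hj (Fin.ext (by omega)).symm
  · intro h; exact absurd (Finset.mem_univ i) h

theorem pl_ne {v : V} (hv : v ≠ 0) (a : ℝ) (b : Fin 16 → ℝ) : pl v a b ≠ 0 := by
  intro h
  apply hv
  apply nondeg
  intro k
  rw [← pl_coeff v a b k, h, Polynomial.coeff_zero]

theorem pl_ne' (v : V) (a : ℝ) {b : Fin 16 → ℝ} (hb : b ≠ 0) : pl v a b ≠ 0 := by
  intro h
  apply hb
  funext i
  rw [← pl_coeff' v a b i, h, Polynomial.coeff_zero]
  rfl

/-- the bad parameters. -/
def bad (σ : ℝ) : Set ℝ :=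
  ⋃ n : IK → ℤ, ({t | pr (rl n) ≠ 0 ∧ B (rl n) (σ • pr (S 1 + mc t)) = 0} ∪
      {t | n ≠ 0 ∧ B (rl n) (pr (S 0 + mc t) - ∑ j : Fin 16, t ^ (23 + j.1) • D j) = 0})

theorem bad_countable {σ : ℝ} (hσ : σ ≠ 0) : (bad σ).Countable := by
  refine Set.countable_iUnion fun n => Set.Countable.union ?_ ?_
  · by_cases hn : pr (rl n) = 0
    · simp [hn]
    refine Set.Countable.mono (s₂ := {t | (pl (pr (rl n)) (B (pr (rl n)) (S 1)) 0).IsRoot t}) ?_
      (Polynomial.finite_setOfPred_isRoot (pl_ne hn _ _)).countable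
    rintro t ⟨-, h⟩
    rw [map_smul, smul_eq_mul, B_pr, map_add] at h
    rcases mul_eq_zero.1 h with h | h
    · exact absurd h hσ
    · show Polynomial.eval t _ = 0
      rw [pl_eval]
      simpa using h
  · by_cases hn : n = 0
    · simp [hn]
    have hne : pl (pr (rl n)) (B (pr (rl n)) (S 0)) (fun j => - B (rl n) (D j)) ≠ 0 := by
      by_cases h0 : pr (rl n) = 0
      · apply pl_ne'
        intro h
        apply hn
        have h1 : ∀ j, B (rl n) (D j) = 0 := fun j => by
          have := congrFun h j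
          simpa using this
        rw [pr_apply] at h0
        simp only [h1, mul_zero, zero_smul, Finset.sum_const_zero, add_zero] at h0
        funext k
        have := congrFun h0 k
        simpa [rl] using this
      · exact pl_ne h0 _ _
    refine Set.Countable.mono (s₂ := {t | (pl (pr (rl n)) (B (pr (rl n)) (S 0))
      (fun j => - B (rl n) (D j))).IsRoot t}) ?_
      (Polynomial.finite_setOfPred_isRoot hne).countable
    rintro t ⟨-, h⟩
    rw [map_sub, map_sum, B_pr, map_add] at h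
    show Polynomial.eval t _ = 0
    rw [pl_eval]
    have h2 : ∑ j : Fin 16, (fun j => - B (rl n) (D j)) j * t ^ (23 + j.1) =
        - ∑ j : Fin 16, B (rl n) (t ^ (23 + j.1) • D j) := by
      rw [← Finset.sum_neg_distrib]
      refine Finset.sum_congr rfl fun j _ => ?_
      rw [map_smul, smul_eq_mul]
      ring
    rw [h2]
    linarith

/-- the frame. -/
def fr (σ t : ℝ) : Fin 3 → V :=
  ![pr (S 0 + mc t) - ∑ j : Fin 16, t ^ (23 + j.1) • D j, σ • pr (S 1 + mc t), S 2]

theorem continuous_mc : Continuous mc :=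
  continuous_pi fun _ => continuous_pow _

theorem continuous_fr (σ : ℝ) (i : Fin 3) : Continuous fun t => fr σ t i := by
  have h1 : Continuous (pr : V → V) := pr.continuous_of_finiteDimensional
  have h2 := continuous_mc
  fin_cases i
  · show Continuous fun t => pr (S 0 + mc t) - ∑ j : Fin 16, t ^ (23 + j.1) • D j
    fun_prop
  · show Continuous fun t => σ • pr (S 1 + mc t)
    fun_prop
  · show Continuous fun _ => S 2
    fun_prop

theorem continuous_B {f g : ℝ → V} (hf : Continuous f) (hg : Continuous g) :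
    Continuous fun t => B (f t) (g t) := by
  simp only [B_apply, qf, hy, e8]
  have hf' : ∀ k, Continuous fun t => f t k := fun k => (continuous_apply k).comp hf
  have hg' : ∀ k, Continuous fun t => g t k := fun k => (continuous_apply k).comp hg
  fun_prop

theorem mc_zero : mc 0 = 0 := by
  funext k
  simp [mc]

theorem fr_zero (σ : ℝ) : fr σ 0 = ![S 0, σ • S 1, S 2] := by
  simp [fr, mc_zero, pr_S]

theorem gram_zero {σ : ℝ} (hσ : σ * σ = 1) (i j : Fin 3) :
    B (fr σ 0 i) (fr σ 0 j) = if i = j then 4 else 0 := by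
  rw [fr_zero]
  fin_cases i <;> fin_cases j <;> simp [B_SS]
  linear_combination 4 * hσ

/-- nearly diagonal Gram matrices are positive. -/
theorem pos_of_near {c : Fin 3 → V}
    (h : ∀ i j, |B (c i) (c j) - (if i = j then 4 else 0)| < 1) (a : Fin 3 → ℝ) (ha : a ≠ 0) :
    0 < B (∑ i, a i • c i) (∑ i, a i • c i) := by
  have e : B (∑ i, a i • c i) (∑ i, a i • c i) =
      4 * (a 0 ^ 2 + a 1 ^ 2 + a 2 ^ 2) +
        ∑ i, ∑ j, a i * a j * (B (c i) (c j) - (if i = j then 4 else 0)) := by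
    simp only [Fin.sum_univ_three]
    simp
    ring
  rw [e]
  have h1 : ∀ i j, -(|a i| * |a j|) ≤ a i * a j * (B (c i) (c j) - (if i = j then 4 else 0)) := by
    intro i j
    have h2 := (h i j).le
    have h3 : |a i * a j * (B (c i) (c j) - (if i = j then 4 else 0))| ≤ |a i| * |a j| := by
      rw [abs_mul, abs_mul]
      exact mul_le_of_le_one_right (by positivity) h2
    linarith [neg_abs_le (a i * a j * (B (c i) (c j) - (if i = j then 4 else 0)))]
  have h4 : -(∑ i, ∑ j, |a i| * |a j|) ≤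
      ∑ i, ∑ j, a i * a j * (B (c i) (c j) - (if i = j then 4 else 0)) := by
    rw [← Finset.sum_neg_distrib]
    refine Finset.sum_le_sum fun i _ => ?_
    rw [← Finset.sum_neg_distrib]
    exact Finset.sum_le_sum fun j _ => h1 i j
  have h5 : ∑ i, ∑ j, |a i| * |a j| = (|a 0| + |a 1| + |a 2|) ^ 2 := by
    simp only [Fin.sum_univ_three]; ring
  rw [h5] at h4
  have h6 : (|a 0| + |a 1| + |a 2|) ^ 2 ≤ 3 * (a 0 ^ 2 + a 1 ^ 2 + a 2 ^ 2) := by
    rw [← sq_abs (a 0), ← sq_abs (a 1), ← sq_abs (a 2)]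
    nlinarith [sq_nonneg (|a 0| - |a 1|), sq_nonneg (|a 0| - |a 2|), sq_nonneg (|a 1| - |a 2|)]
  have h7 : 0 < a 0 ^ 2 + a 1 ^ 2 + a 2 ^ 2 := by
    by_contra hcon
    push Not at hcon
    have q0 := sq_nonneg (a 0)
    have q1 := sq_nonneg (a 1)
    have q2 := sq_nonneg (a 2)
    apply ha
    funext i
    fin_cases i
    · show a 0 = 0
      rw [← sq_eq_zero_iff]; linarith
    · show a 1 = 0
      rw [← sq_eq_zero_iff]; linarith
    · show a 2 = 0
      rw [← sq_eq_zero_iff]; linarith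
  linarith

theorem root_of {n : IK → ℤ} (hq : B (rl n) (rl n) = -2) (hn : pr (rl n) = 0) :
    ∃ i, n = dv i ∨ n = -dv i := by
  have h1 : qf n n = -2 := by
    rw [B_rl] at hq
    exact_mod_cast hq
  apply roots h1
  intro k
  have h2 := congrFun hn k
  rw [pr_apply] at h2
  simp only [Pi.add_apply, Finset.sum_apply, Pi.smul_apply, smul_eq_mul, Pi.zero_apply] at h2
  have h3 : (2 * (n k : ℝ) + ∑ j, ((qf n (dv j) : ℤ) : ℝ) * (dv j k : ℝ)) = 0 := by
    have h4 : ∑ j, ((qf n (dv j) : ℤ) : ℝ) * (dv j k : ℝ) =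
        2 * ∑ j, (1 / 2 : ℝ) * B (rl n) (D j) * D j k := by
      rw [Finset.mul_sum]
      refine Finset.sum_congr rfl fun j _ => ?_
      rw [D, B_rl, rl]
      ring
    rw [h4]
    have h5 : rl n k = (n k : ℝ) := rfl
    rw [h5] at h2
    linarith
  exact_mod_cast h3

/-- MAIN: positive frames in Kummer position with prescribed orientation. -/
theorem main (p : Fin 3 → V)
    (hp : ∀ a : Fin 3 → ℝ, a ≠ 0 → 0 < B (∑ i, a i • p i) (∑ i, a i • p i)) :
    ∃ b : Fin 3 → V,
      (∀ a : Fin 3 → ℝ, a ≠ 0 → 0 < B (∑ i, a i • b i) (∑ i, a i • b i)) ∧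
      0 < (Matrix.of fun i j => B (b i) (p j)).det ∧
      (∀ i, B (D i) (b 1) = 0) ∧ (∀ i, B (D i) (b 2) = 0) ∧
      (∀ n : IK → ℤ, B (rl n) (rl n) = -2 → B (rl n) (b 1) = 0 → B (rl n) (b 2) = 0 →
        ∃ i, n = dv i ∨ n = -dv i) ∧
      (∀ i, 0 < B (D i) (b 0)) ∧
      (∀ n : IK → ℤ, n ≠ 0 → B (rl n) (b 0) ≠ 0) := by
  have hdet : ∀ σ : ℝ, σ * σ = 1 → (Matrix.of fun i j => B (fr σ 0 i) (p j)).det ≠ 0 := by
    intro σ hσ
    refine LatS_723.det_ne_zero B (fr σ 0) p (fun a ha => ?_) (fun x hx hx' => neg p hp x hx hx')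
    refine pos_of_near (fun i j => ?_) a ha
    rw [gram_zero hσ, sub_self, abs_zero]
    exact one_pos
  have hneg : (Matrix.of fun i j => B (fr (-1) 0 i) (p j)).det =
      - (Matrix.of fun i j => B (fr 1 0 i) (p j)).det := by
    rw [fr_zero, fr_zero, Matrix.det_fin_three, Matrix.det_fin_three]
    simp
    ring
  obtain ⟨σ, hσ, hpos⟩ : ∃ σ : ℝ, σ * σ = 1 ∧
      0 < (Matrix.of fun i j => B (fr σ 0 i) (p j)).det := by
    rcases lt_or_gt_of_ne (hdet 1 (by norm_num)) with h | h
    · exact ⟨-1, by norm_num, by rw [hneg]; linarith⟩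
    · exact ⟨1, by norm_num, h⟩
  have hσ0 : σ ≠ 0 := by rintro rfl; simp at hσ
  have hev1 : ∀ᶠ t in 𝓝 (0 : ℝ), 0 < (Matrix.of fun i j => B (fr σ t i) (p j)).det := by
    have hc : Continuous fun t => (Matrix.of fun i j => B (fr σ t i) (p j)).det := by
      apply Continuous.matrix_det
      refine continuous_pi fun i => continuous_pi fun j => ?_
      exact continuous_B (continuous_fr σ i) continuous_const
    exact hc.continuousAt.eventually (lt_mem_nhds hpos)
  have hev2 : ∀ᶠ t in 𝓝 (0 : ℝ), ∀ i j,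
      |B (fr σ t i) (fr σ t j) - (if i = j then 4 else 0)| < 1 := by
    rw [Filter.eventually_all]
    intro i
    rw [Filter.eventually_all]
    intro j
    have hc : Continuous fun t => |B (fr σ t i) (fr σ t j) - (if i = j then 4 else 0)| :=
      ((continuous_B (continuous_fr σ i) (continuous_fr σ j)).sub continuous_const).abs
    refine hc.continuousAt.eventually (gt_mem_nhds ?_)
    show |B (fr σ 0 i) (fr σ 0 j) - (if i = j then 4 else 0)| < 1
    rw [gram_zero hσ, sub_self, abs_zero]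
    exact one_pos
  obtain ⟨δ, hδ, hball⟩ := Metric.eventually_nhds_iff.1 (hev1.and hev2)
  obtain ⟨t, htb, ht0, htδ⟩ := ((bad_countable hσ0).dense_compl ℝ).exists_between hδ
  obtain ⟨h1, h2⟩ := hball (y := t) (by rw [dist_zero_right, Real.norm_eq_abs, abs_of_pos ht0]
                                        exact htδ)
  have hgood : ∀ n : IK → ℤ, pr (rl n) ≠ 0 → B (rl n) (fr σ t 1) ≠ 0 := fun n hn h =>
    htb (Set.mem_iUnion.2 ⟨n, Or.inl ⟨hn, h⟩⟩)
  have hgood' : ∀ n : IK → ℤ, n ≠ 0 → B (rl n) (fr σ t 0) ≠ 0 := fun n hn h =>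
    htb (Set.mem_iUnion.2 ⟨n, Or.inr ⟨hn, h⟩⟩)
  have hD0 : ∀ i, B (D i) (fr σ t 0) = 2 * t ^ (23 + i.1) := by
    intro i
    show B (D i) (pr (S 0 + mc t) - ∑ j : Fin 16, t ^ (23 + j.1) • D j) = _
    rw [map_sub, B_D_pr, map_sum, Finset.sum_eq_single i]
    · rw [map_smul, B_DD, if_pos rfl, smul_eq_mul]; ring
    · intro j _ hj
      rw [map_smul, B_DD, if_neg (Ne.symm hj), smul_zero]
    · intro h; exact absurd (Finset.mem_univ i) h
  refine ⟨fr σ t, fun a ha => pos_of_near h2 a ha, h1, ?_, ?_, ?_, ?_, ?_⟩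
  · intro i
    show B (D i) (σ • pr (S 1 + mc t)) = 0
    rw [map_smul, B_D_pr, smul_zero]
  · intro i
    show B (D i) (S 2) = 0
    rw [B_comm, B_SD]
  · intro n hn h3 _
    apply root_of hn
    by_contra hne
    exact hgood n hne h3
  · intro i
    rw [hD0]
    positivity
  · exact hgood'

end

end Crest.Agent.R235.LatKz_766
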