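import Crest.Agent.R235.Props_844
import Crest.Agent.R235.Ip2_288
import Crest.Agent.R235.LatKz_766

/-!
Row 235 (S0364), package LAT, helper766: `LATK`, positive frames in Kummer position.
-/

set_option autoImplicit false
set_option maxSynthPendingDepth 3

open Set Function Filter MeasureTheory
open scoped Manifold ContDiff Topology

universe u

namespace Crest.Agent.R235.LatK_766

open Crest.Agent.R240 Crest.Agent.R240.Ch Crest.Agent.R240.Int
open Crest.Agent.R235.LatKx_766 Crest.Agent.R235.LatKy_766 Crest.Agent.R235.LatKz_766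

noncomputable section

section

variable {M : Type u} [TopologicalSpace M] [T2Space M] [CompactSpace M]
  [ChartedSpace E4 M] [IsManifold 𝓘(ℝ, E4) ∞ M]

/-- the intersection form in coordinates. -/
theorem ip_eq {F : Z2 M} (hF : Vol (F.1.1 : F2 E4 M)) (e : Module.Basis IK ℝ (H2 M))
    (hG : ∀ i j, ip F (e i) (e j) = gK3 i j) (x y : H2 M) :
    ip F x y = B (e.equivFun x) (e.equivFun y) := by
  have hx := e.sum_equivFun x
  have hy := e.sum_equivFun y
  calc ip F x y = ip F (∑ i, e.equivFun x i • e i) (∑ j, e.equivFun y j • e j) := by rw [hx, hy]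
    _ = ∑ i, ∑ j, e.equivFun x i * e.equivFun y j * (gK3 i j : ℝ) := by
      rw [ip_sum_left hF]
      refine Finset.sum_congr rfl fun i _ => ?_
      rw [ip_sum_right hF]
      refine Finset.sum_congr rfl fun j _ => ?_
      rw [ip_smul_left hF, ip_smul_right hF, hG]
      ring
    _ = B (e.equivFun x) (e.equivFun y) := qf_eq _ _

theorem ip_eq' {F : Z2 M} (hF : Vol (F.1.1 : F2 E4 M)) (e : Module.Basis IK ℝ (H2 M))
    (hG : ∀ i j, ip F (e i) (e j) = gK3 i j) (x y : V) :
    ip F (e.equivFun.symm x) (e.equivFun.symm y) = B x y := by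
  rw [ip_eq hF e hG, LinearEquiv.apply_symm_apply, LinearEquiv.apply_symm_apply]

omit [T2Space M] [CompactSpace M] in
theorem symm_rl (e : Module.Basis IK ℝ (H2 M)) (n : IK → ℤ) :
    e.equivFun.symm (rl n) = ∑ i, (n i : ℝ) • e i := by
  rw [Module.Basis.equivFun_symm_apply]
  rfl

end

set_option maxHeartbeats 1000000 in
theorem latk : LATK.{u} := by
  intro M _ _ _ _ _ _ w hw hK
  obtain ⟨-, e, hG, hZ⟩ := hK
  have hF : Vol ((w 0).1.1 : F2 E4 M) := hw.vol 0
  have hp : ∀ a : Fin 3 → ℝ, a ≠ 0 →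
      0 < B (∑ i, a i • e.equivFun (cls (w i))) (∑ i, a i • e.equivFun (cls (w i))) := by
    intro a ha
    have h := hw.ip_comb_pos 0 ha
    rw [ip_eq hF e hG] at h
    simpa [map_sum, map_smul] using h
  obtain ⟨b, hb1, hb2, hb3, hb4, hb5, hb6, hb7⟩ := main (fun i => e.equivFun (cls (w i))) hp
  have hroot : ∀ c ∈ Root (w 0), ∃ n : IK → ℤ, c = e.equivFun.symm (rl n) ∧
      B (rl n) (rl n) = -2 := by
    intro c hc
    obtain ⟨hc1, hc2⟩ := hc
    rw [hZ] at hc1
    obtain ⟨n, hn⟩ := hc1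
    refine ⟨n, by rw [symm_rl]; exact hn, ?_⟩
    rw [← ip_eq' hF e hG, symm_rl, ← hn]
    exact hc2
  refine ⟨fun i => e.equivFun.symm (D i), fun i => e.equivFun.symm (b i), ⟨?_, ?_⟩, ⟨⟨?_, ?_, ?_⟩, ?_, ?_, ?_, ?_, ?_⟩⟩
  · refine Matrix.PosDef.of_dotProduct_mulVec_pos ?_ ?_
    · ext j k
      exact ip_comm _ _ _
    · intro c hc
      refine lt_of_lt_of_eq (hb1 c hc) ?_
      simp only [dotProduct, Matrix.mulVec, Matrix.of_apply, Finset.mul_sum, star_trivial,
        map_sum, map_smul, LinearMap.sum_apply, LinearMap.smul_apply, smul_eq_mul]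
      refine Finset.sum_congr rfl fun j _ => Finset.sum_congr rfl fun k _ => ?_
      rw [ip_eq' hF e hG, B_comm (b k) (b j)]
      ring
  · refine lt_of_lt_of_eq hb2 ?_
    congr 2
    funext i j
    rw [← ip_eq' hF e hG, LinearEquiv.symm_apply_apply]
  · intro i
    refine ⟨?_, ?_⟩
    · rw [hZ]
      exact ⟨dv i, symm_rl e (dv i)⟩
    · rw [ip_eq' hF e hG, B_DD, if_pos rfl]
  · intro i j hij
    rw [ip_eq' hF e hG, B_DD, if_neg hij]
  · rw [hZ]
    refine ⟨fun k => (∑ i, dv i k) / 2, ?_⟩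
    rw [← map_sum, ← map_smul, ← symm_rl]
    congr 1
    funext k
    have h := half_d k
    have h2 : (∑ i, dv i k) = 2 * ((∑ i, dv i k) / 2) := by omega
    have h3 : ((∑ i, dv i k : ℤ) : ℝ) = 2 * (((∑ i, dv i k) / 2 : ℤ) : ℝ) := by
      exact_mod_cast h2
    show (1 / 2 : ℝ) * (∑ i, D i) k = (((∑ i, dv i k) / 2 : ℤ) : ℝ)
    rw [Finset.sum_apply]
    have h4 : ∑ i, D i k = ((∑ i, dv i k : ℤ) : ℝ) := by
      rw [Int.cast_sum]; rfl
    rw [h4, h3]
    ring
  · intro i
    rw [ip_eq' hF e hG, hb3]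
  · intro i
    rw [ip_eq' hF e hG, hb4]
  · intro c hc h1 h2
    obtain ⟨n, rfl, hn⟩ := hroot c hc
    rw [ip_eq' hF e hG] at h1 h2
    obtain ⟨i, h | h⟩ := hb5 n hn h1 h2
    · refine ⟨i, Or.inl ?_⟩
      show e.equivFun.symm (rl n) = e.equivFun.symm (D i)
      rw [h, D]
    · refine ⟨i, Or.inr ?_⟩
      show e.equivFun.symm (rl n) = -e.equivFun.symm (D i)
      have h3 : rl n = -D i := by
        rw [h]
        funext k
        simp [rl, D]
      rw [h3, map_neg]
  · intro i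
    rw [ip_eq' hF e hG]
    exact hb6 i
  · intro c hc hc0
    rw [hZ] at hc
    obtain ⟨n, rfl⟩ := hc
    rw [← symm_rl, ip_eq' hF e hG]
    apply hb7 n
    rintro rfl
    apply hc0
    simp

end

end Crest.Agent.R235.LatK_766
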