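import Crest.Agent.R235.STFProps_861
import Crest.Agent.R240.Lin3

/-!
Row 235, package STF, leaf NRM (helper181): in a normalised triple `w 0` is `J`-invariant.
-/

set_option autoImplicit false
set_option maxSynthPendingDepth 3

open Set Function Filter
open scoped Manifold ContDiff Topology

universe u

namespace Crest.Agent.R235.NRM_181

open Crest.Agent.R240 Crest.Agent.R240.Ch Crest.Agent.R235.STF_861

noncomputable section

theorem invp_spos {J : E4 →L[ℝ] E4} (hJ : ∀ v, J (J v) = -v) {a : Bil} (ha : Alt a)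
    (ht : ∀ v, v ≠ 0 → 0 < a v (J v)) : SPos J (invp J a) where
  alt v := by rw [invp_apply, ha v, ha (J v)]; ring
  inv u v := by
    rw [invp_apply, invp_apply, hJ, hJ]
    simp only [map_neg, neg_apply, neg_neg]
    ring
  pos v hv := by
    rw [invp_apply, hJ, map_neg, ha.swap (J v) v, neg_neg]
    have := ht v hv
    linarith

theorem antip_alt {J : E4 →L[ℝ] E4} {a : Bil} (ha : Alt a) : Alt (antip J a) := by
  intro v
  rw [antip_apply, ha v, ha (J v)]; ring

theorem antip_anti {J : E4 →L[ℝ] E4} (hJ : ∀ v, J (J v) = -v) (a : Bil) (u v : E4) :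
    antip J a (J u) (J v) = - antip J a u v := by
  rw [antip_apply, antip_apply, hJ, hJ]
  simp only [map_neg, neg_apply, neg_neg]
  ring

/-- an invariant and an anti-invariant form are orthogonal. -/
theorem W_mixed {J : E4 →L[ℝ] E4} {F b c : Bil} {A : E4 ≃L[ℝ] E4} (h : IsFrame J F A)
    (hb : Alt b) (hc : Alt c) (hbi : ∀ u v, b (J u) (J v) = b u v)
    (hca : ∀ u v, c (J u) (J v) = - c u v) : W b c = 0 := by
  have h1 := W_mixed0 (hc.pull (A : E4 →L[ℝ] E4)) (h.pull_inv hbi) (h.pull_anti hca)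
  rw [W_pull hb hc] at h1
  exact (mul_eq_zero.1 h1).resolve_left (det_ne A)

theorem plane {p q b1 b2 c1 c2 : ℝ} (h1 : p * b1 + q * b2 = 0) (h2 : p * c1 + q * c2 = 0)
    (h3 : b1 * c1 + b2 * c2 = 0) (hb : b1 ^ 2 + b2 ^ 2 ≠ 0) (hc : c1 ^ 2 + c2 ^ 2 ≠ 0) :
    p = 0 ∧ q = 0 := by
  have hd : (b1 * c2 - b2 * c1) ^ 2 = (b1 ^ 2 + b2 ^ 2) * (c1 ^ 2 + c2 ^ 2) := by
    have : (b1 * c2 - b2 * c1) ^ 2 + (b1 * c1 + b2 * c2) ^ 2 =
      (b1 ^ 2 + b2 ^ 2) * (c1 ^ 2 + c2 ^ 2) := by ring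
    rw [h3] at this
    linarith
  have hd0 : b1 * c2 - b2 * c1 ≠ 0 := by
    intro h0
    rw [h0] at hd
    have := mul_ne_zero hb hc
    apply this
    linarith
  have hp : p * (b1 * c2 - b2 * c1) = 0 := by linear_combination c2 * h1 - b2 * h2
  have hq : q * (b1 * c2 - b2 * c1) = 0 := by linear_combination b1 * h2 - c1 * h1
  exact ⟨(mul_eq_zero.1 hp).resolve_right hd0, (mul_eq_zero.1 hq).resolve_right hd0⟩

/-- the pointwise statement. -/
theorem lin {J : E4 →L[ℝ] E4} (hJ : ∀ v, J (J v) = -v) {a b c : Bil} (ha : Alt a) (hb : Alt b)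
    (hc : Alt c) (hba : ∀ u v, b (J u) (J v) = - b u v) (hca : ∀ u v, c (J u) (J v) = - c u v)
    (ht : ∀ v, v ≠ 0 → 0 < a v (J v)) (hab : W a b = 0) (hac : W a c = 0) (hbc : W b c = 0)
    (hbb : W b b ≠ 0) (hcc : W c c ≠ 0) (u v : E4) : a (J u) (J v) = a u v := by
  have hF := invp_spos hJ ha ht
  obtain ⟨A, hA⟩ := exists_frame hJ hF
  have hβ : Alt (antip J a) := antip_alt ha
  have hβa := antip_anti hJ a
  have hsum : a = invp J a + antip J a := (invp_add_antip J a).symm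
  have key : ∀ d : Bil, Alt d → (∀ u v, d (J u) (J v) = - d u v) → W a d = 0 →
      W (pull (A : E4 →L[ℝ] E4) (antip J a)) (pull (A : E4 →L[ℝ] E4) d) = 0 := by
    intro d hd hda had
    have h1 : W (antip J a) d = 0 := by
      have h2 := W_mixed hA hF.alt hd hF.inv hda
      have h3 : W a d = W (invp J a) d + W (antip J a) d := by
        rw [← W_add_left, invp_add_antip]
      rw [had, h2] at h3
      linarith
    rw [W_pull hβ hd, h1, mul_zero]
  have k1 := key b hb hba hab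
  have k2 := key c hc hca hac
  have aB := hA.pull_anti hba
  have aC := hA.pull_anti hca
  have aβ := hA.pull_anti hβa
  have pB := hb.pull (A : E4 →L[ℝ] E4)
  have pC := hc.pull (A : E4 →L[ℝ] E4)
  have pβ := hβ.pull (A : E4 →L[ℝ] E4)
  have k3 : W (pull (A : E4 →L[ℝ] E4) b) (pull (A : E4 →L[ℝ] E4) c) = 0 := by
    rw [W_pull hb hc, hbc, mul_zero]
  have k4 : W (pull (A : E4 →L[ℝ] E4) b) (pull (A : E4 →L[ℝ] E4) b) ≠ 0 := by
    rw [W_pull hb hb]; exact mul_ne_zero (det_ne A) hbb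
  have k5 : W (pull (A : E4 →L[ℝ] E4) c) (pull (A : E4 →L[ℝ] E4) c) ≠ 0 := by
    rw [W_pull hc hc]; exact mul_ne_zero (det_ne A) hcc
  rw [W_anti0 pβ pB aβ aB] at k1
  rw [W_anti0 pβ pC aβ aC] at k2
  rw [W_anti0 pB pC aB aC] at k3
  rw [W_anti0 pB pB aB aB] at k4
  rw [W_anti0 pC pC aC aC] at k5
  obtain ⟨hp, hq⟩ := plane (p := ent (pull (A : E4 →L[ℝ] E4) (antip J a)) 0 2)
    (q := ent (pull (A : E4 →L[ℝ] E4) (antip J a)) 0 3)
    (b1 := ent (pull (A : E4 →L[ℝ] E4) b) 0 2) (b2 := ent (pull (A : E4 →L[ℝ] E4) b) 0 3)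
    (c1 := ent (pull (A : E4 →L[ℝ] E4) c) 0 2) (c2 := ent (pull (A : E4 →L[ℝ] E4) c) 0 3)
    (by linarith) (by linarith) (by linarith)
    (by intro h; apply k4; linarith [h, sq (ent (pull (A : E4 →L[ℝ] E4) b) 0 2),
          sq (ent (pull (A : E4 →L[ℝ] E4) b) 0 3)])
    (by intro h; apply k5; linarith [h, sq (ent (pull (A : E4 →L[ℝ] E4) c) 0 2),
          sq (ent (pull (A : E4 →L[ℝ] E4) c) 0 3)])
  obtain ⟨e13, e12, e01, e23⟩ := anti0_ent pβ aβ
  have hz : pull (A : E4 →L[ℝ] E4) (antip J a) = 0 := by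
    apply alt_ext pβ (fun v => rfl)
    · rw [e01, ent_zero]
    · rw [hp, ent_zero]
    · rw [hq, ent_zero]
    · rw [e12, hq, ent_zero]
    · rw [e13, hp, ent_zero, neg_zero]
    · rw [e23, ent_zero]
  have h0 : antip J a u v = 0 := by
    have h1 : pull (A : E4 →L[ℝ] E4) (antip J a) (A.symm u) (A.symm v) = 0 := by rw [hz]; rfl
    rw [pull_apply] at h1
    simpa using h1
  rw [antip_apply] at h0
  linarith

theorem nrm : STF_861.NRM.{u} := by
  intro M _ _ _ w J hp hn hJ x u v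
  obtain ⟨s, hs⟩ := hn x
  have hs0 : s ≠ 0 := by
    have h := hp x (Pi.single 1 1) (by
      intro h
      have := congrFun h 1
      simp at this)
    have e : (∑ i, (Pi.single 1 1 : Fin 3 → ℝ) i • val (w i) x) = val (w 1) x := by
      rw [Fin.sum_univ_three]
      simp [Pi.single_apply]
    rw [e, hs 1 1, if_pos rfl] at h
    exact h
  refine lin (hJ.sq x) (fun v => (w 0).1.2.1 x v) (fun v => (w 1).1.2.1 x v)
    (fun v => (w 2).1.2.1 x v) (hJ.anti1 x) (hJ.anti2 x) (hJ.tame x) ?_ ?_ ?_ ?_ ?_ u v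
  · exact (hs 0 1).trans (by simp)
  · exact (hs 0 2).trans (by simp)
  · exact (hs 1 2).trans (by simp)
  · intro h; exact hs0 (((hs 1 1).trans (if_pos rfl)).symm.trans h)
  · intro h; exact hs0 (((hs 2 2).trans (if_pos rfl)).symm.trans h)

/-- the normalised matrix `q (w 0) (w i) (w j) = δ_ij`. -/
theorem q_eq {M : Type u} [TopologicalSpace M] [ChartedSpace E4 M] [IsManifold 𝓘(ℝ, E4) ∞ M]
    {w : Trip M} (hp : Pos3 w) (hn : Nrm w) (x : M) (i j : Fin 3) :
    q (val (w 0) x) (val (w i) x) (val (w j) x) = if i = j then 1 else 0 := by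
  obtain ⟨s, hs⟩ := hn x
  have hs0 : s ≠ 0 := by
    have h := hp x (Pi.single 0 1) (by
      intro h
      have := congrFun h 0
      simp at this)
    have e : (∑ i, (Pi.single 0 1 : Fin 3 → ℝ) i • val (w i) x) = val (w 0) x := by
      rw [Fin.sum_univ_three]
      simp [Pi.single_apply]
    rw [e, hs 0 0, if_pos rfl] at h
    exact h
  unfold q
  rw [hs i j, hs 0 0, if_pos rfl]
  split_ifs
  · exact div_self hs0
  · exact zero_div s

end

end Crest.Agent.R235.NRM_181
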