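import Crest.Agent.R235.HDGa_819
import Crest.Agent.R235.Br281f_819
import Crest.Agent.R235.NRM_181

/-!
# R235, package STF, leaf HDG (helper819)

* `hd_of` : the structure `HD` of R281 from `IsJ w J`, normalised pair
* `hdg` : `STF_861.HDG` : a class orthogonal to the pair has a `J`-invariant representative
-/

set_option autoImplicit false
set_option maxSynthPendingDepth 3

open Set Filter Topology MeasureTheory
open scoped Manifold ContDiff

namespace Crest.Agent.R235.HDG_819

open Crest.Agent.R240 Crest.Agent.R240.Ch Crest.Agent.R240.Int Crest.Agent.R235 Crest.Agent.R235.Br281_819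
open Crest.Agent.R235.Br281d_819 Crest.Agent.R235.Br281e_819

noncomputable section

variable {M : Type} [TopologicalSpace M] [ChartedSpace E4 M] [IsManifold 𝓘(ℝ, E4) ∞ M]

/-- the structure `HD` of R281 -/
theorem hd_of [ConnectedSpace M] {w : Trip M} {J : EndF E4 M} (hJ : IsJ w J)
    (h11 : ∀ x, W (val (w 1) x) (val (w 1) x) = W (val (w 2) x) (val (w 2) x))
    (h12 : ∀ x, W (val (w 1) x) (val (w 2) x) = 0)
    (h0 : ∀ x, W (val (w 1) x) (val (w 1) x) ≠ 0)
    {a : Z2 M} (hi : JInv J a) (hp : JPos J a) :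
    ∃ r : ℝ, (r = 1 ∨ r = -1) ∧ Crest.Agent.R281.Al_830.HD (toA J hJ.smooth) (toF a)
      (toF (w 1)) (toF ((-r) • w 2)) := by
  obtain ⟨r, hr, hg⟩ := glob_sign hJ h11 h12 h0
  have hrr : r * r = 1 := by rcases hr with rfl | rfl <;> norm_num
  have hs2 : ∀ x u v, val ((-r) • w 2) x u v = - val (w 1) x (atJ J x u) v := by
    intro x u v
    rw [val_smul, smul_apply, smul_apply, smul_eq_mul, hg]
    linear_combination (- val (w 1) x (atJ J x u) v) * hrr
  refine ⟨r, hr, (sq_iff hJ.smooth).2 hJ.sq, (t11_iff hJ.smooth).2 hi,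
    (pos_iff hJ.smooth).2 hp, fun p z hz u v => ?_, fun p z hz u hu => ?_⟩
  · have e1 := toF_pair (p := (show M from p)) (z := z) (w 1)
      ((toA J hJ.smooth).J (show M from p) z u) v
    have e2 := toF_pair (p := (show M from p)) (z := z) ((-r) • w 2) u v
    have e3 := toA_apply J hJ.smooth (p := (show M from p)) hz u
    have e4 := hs2 ((chartAt E4 (show M from p)).symm z)
      (tcc (show M from p) ((chartAt E4 (show M from p)).symm z)
        ((chartAt E4 (show M from p)).symm z) u)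
      (tcc (show M from p) ((chartAt E4 (show M from p)).symm z)
        ((chartAt E4 (show M from p)).symm z) v)
    rw [e3] at e1
    exact e1.trans (by rw [e2, e4, neg_neg])
  · set x := (chartAt E4 (show M from p)).symm z with hx
    have hxs : x ∈ (chartAt E4 (show M from p)).source := symm_mem hz
    obtain ⟨A, hA⟩ := exists_frame (hJ.sq x) (inv_spos (hJ.sq x) (alt_val (w 0) x) (hJ.tame x))
    refine tcc_bij hxs ?_
    refine anti_nd hA.cplx (alt_val (w 1) x) (hJ.anti1 x) (h0 x) fun v => ?_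
    have e1 := hu (tcc x (show M from p) x v)
    have e2 := toF_pair (p := (show M from p)) (z := z) (w 1) u (tcc x (show M from p) x v)
    rw [← hx, tcc_cancel' hxs] at e2
    exact e2.symm.trans e1

variable [T2Space M] [CompactSpace M]

/-- pointwise orthogonal forms -/
theorem pI_zero {F a b : Z2 M} (h : ∀ x, W (val a x) (val b x) = 0) : pI F a b = 0 := by
  let _ : MeasurableSpace M := borel M
  have _ : BorelSpace M := ⟨rfl⟩
  show ∫ x, qG (F.1.1 : F2 E4 M) (a.1.1 : F2 E4 M) (b.1.1 : F2 E4 M) x ∂_ = 0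
  have e : ∀ x, qG (F.1.1 : F2 E4 M) (a.1.1 : F2 E4 M) (b.1.1 : F2 E4 M) x = 0 := by
    intro x
    show W (val a x) (val b x) / _ = 0
    rw [h x, zero_div]
  simp only [e, integral_zero]

omit [T2Space M] [CompactSpace M] in
theorem cls_comb (p q r : ℝ) (a b c : Z2 M) :
    cls (p • a + q • (r • b) + c) = p • cls a + (q * r) • cls b + cls c := by
  have h1 : cls (p • a + q • (r • b) + c) = cls (p • a + q • (r • b)) + cls c := map_add _ _ _
  have h2 : cls (p • a + q • (r • b)) = cls (p • a) + cls (q • (r • b)) := map_add _ _ _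
  have h3 : cls (p • a) = p • cls a := map_smul _ _ _
  have h4 : q • (r • b) = (q * r) • b := smul_smul _ _ _
  have h5 : cls ((q * r) • b) = (q * r) • cls b := map_smul _ _ _
  have h6 : cls (q • (r • b)) = (q * r) • cls b := (congrArg (fun z => cls z) h4).trans h5
  exact h1.trans (congrArg (fun z => z + cls c) (h2.trans (congrArg₂ (fun z z' => z + z') h3 h6)))

/-- Hodge decomposition over `Defs_837` -/
theorem hodge [ConnectedSpace M] {w : Trip M} {J : EndF E4 M} (hJ : IsJ w J)
    (h11 : ∀ x, W (val (w 1) x) (val (w 1) x) = W (val (w 2) x) (val (w 2) x))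
    (h12 : ∀ x, W (val (w 1) x) (val (w 2) x) = 0)
    (h0 : ∀ x, W (val (w 1) x) (val (w 1) x) ≠ 0)
    {a : Z2 M} (hi : JInv J a) (hp : JPos J a) (b : Z2 M) :
    ∃ (p q : ℝ) (y : Z2 M), JInv J y ∧ cls b = p • cls (w 1) + q • cls (w 2) + cls y := by
  obtain ⟨r, -, D⟩ := hd_of hJ h11 h12 h0 hi hp
  obtain ⟨p, q, y, hy, hex⟩ := Crest.Agent.R235.HDGa_819.hdgF D (toF b)
  have hy' : JInv J (ofF y) := (t11_iff hJ.smooth).1
    (fun p z hz u v => by
      have e := toF_ofF y
      rw [e p z hz, e p z hz]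
      exact hy p z hz u v)
  refine ⟨p, q * (-r), ofF y, hy', ?_⟩
  have e1 : cls b = cls (p • w 1 + q • ((-r) • w 2) + ofF y) := by
    rw [cls_eq_iff]
    rw [toF_add, toF_add, toF_smul, toF_smul]
    exact Crest.Agent.R235.HDGa_819.ex_comb (toF_ofF y) hex
  exact e1.trans (cls_comb p q (-r) (w 1) (w 2) (ofF y))

theorem zero_comb {V : Type*} [AddCommGroup V] [Module ℝ V] {p q : ℝ} {z a b c : V}
    (h : z = p • a + q • b + c) (hp : p = 0) (hq : q = 0) : c = z := by
  subst hp hq
  rw [h, zero_smul, zero_smul, zero_add, zero_add]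

theorem ip_comb {F : Z2 M} (hF : Vol (F.1.1 : F2 E4 M)) {p q : ℝ} {z a b c d : H2 M}
    (h : z = p • a + q • b + c) : ip F z d = p * ip F a d + q * ip F b d + ip F c d := by
  subst h
  have h1 : ip F (p • a + q • b + c) d = ip F (p • a + q • b) d + ip F c d := ip_add_left hF _ _ _
  have h2 : ip F (p • a + q • b) d = ip F (p • a) d + ip F (q • b) d := ip_add_left hF _ _ _
  have h3 : ip F (p • a) d = p * ip F a d := ip_smul_left hF _ _ _
  have h4 : ip F (q • b) d = q * ip F b d := ip_smul_left hF _ _ _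
  rw [h1, h2, h3, h4]

theorem ar1 {z A B C p q : ℝ} (e : z = p * A + q * B + C) (k : z = 0) (b : B = 0) (c : C = 0)
    (hA : A ≠ 0) : p = 0 := by
  subst k b c
  have h : p * A = 0 := by linarith
  exact (mul_eq_zero.1 h).resolve_right hA

theorem ar2 {z A B C p q : ℝ} (e : z = p * A + q * B + C) (k : z = 0) (a : A = 0) (c : C = 0)
    (hB : B ≠ 0) : q = 0 := by
  subst k a c
  have h : q * B = 0 := by linarith
  exact (mul_eq_zero.1 h).resolve_right hB

theorem hdg : STF_861.HDG := by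
  intro M _ _ _ _ _ _ w J hw hn hJ a h1 h2
  have hW : ∀ x (i j : Fin 3), i ≠ j → W (val (w i) x) (val (w j) x) = 0 := by
    intro x i j hij
    obtain ⟨s, hs⟩ := hn x
    rw [hs, if_neg hij]
  have h11 : ∀ x, W (val (w 1) x) (val (w 1) x) = W (val (w 2) x) (val (w 2) x) := by
    intro x
    obtain ⟨s, hs⟩ := hn x
    rw [hs, hs, if_pos rfl, if_pos rfl]
  have hi : JInv J (w 0) := NRM_181.nrm M w J hw hn hJ
  have hp : JPos J (w 0) := fun x v hv => hJ.tame x v hv
  have h0 : ∀ x, W (val (w 1) x) (val (w 1) x) ≠ 0 := fun x => Br281f_819.Pos3.ne w hw 1 x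
  obtain ⟨p, q, y, hy, hc⟩ := hodge hJ h11 (fun x => hW x 1 2 (by decide)) h0 hi hp a
  refine ⟨y, ?_, hy⟩
  have hV := hw.vol 0
  have hym : ∀ x, ∀ b : Z2 M, (∀ u v, val b x (atJ J x u) (atJ J x v) = - val b x u v) →
      W (val y x) (val b x) = 0 := by
    intro x b hb
    have hS : SPos (atJ J x) (val (w 0) x) := ⟨alt_val _ x, hi x, hp x⟩
    obtain ⟨A, hA⟩ := exists_frame (hJ.sq x) hS
    exact NRM_181.W_mixed hA (alt_val _ x) (alt_val _ x) (hy x) hb
  have k1 : ip (w 0) (cls a) (cls (w 1)) = 0 := (ip_cls hV _ _).trans h1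
  have k2 : ip (w 0) (cls a) (cls (w 2)) = 0 := (ip_cls hV _ _).trans h2
  have g12 : ip (w 0) (cls (w 1)) (cls (w 2)) = 0 :=
    (ip_cls hV _ _).trans (pI_zero fun x => hW x 1 2 (by decide))
  have g21 : ip (w 0) (cls (w 2)) (cls (w 1)) = 0 :=
    (ip_cls hV _ _).trans (pI_zero fun x => hW x 2 1 (by decide))
  have gy1 : ip (w 0) (cls y) (cls (w 1)) = 0 :=
    (ip_cls hV _ _).trans (pI_zero fun x => hym x _ (hJ.anti1 x))
  have gy2 : ip (w 0) (cls y) (cls (w 2)) = 0 :=
    (ip_cls hV _ _).trans (pI_zero fun x => hym x _ (hJ.anti2 x))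
  have hp0 : p = 0 := ar1 (ip_comb hV hc) k1 g21 gy1 (hw.ip_self_pos 0 1).ne'
  have hq0 : q = 0 := ar2 (ip_comb hV hc) k2 g12 gy2 (hw.ip_self_pos 0 2).ne'
  exact zero_comb hc hp0 hq0

end

end Crest.Agent.R235.HDG_819
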