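import Crest.Agent.R235.STFProps_861
import Crest.Agent.R240.HB

/-!
Row 235, package STF, leaf KC (task 249; typed by helper785 for helper61's slot): a Kaehler current
in the class, from Hahn-Banach and the signature.
-/

set_option autoImplicit false
set_option maxSynthPendingDepth 3

open Set Function Filter MeasureTheory Metric
open scoped Manifold ContDiff Topology ENNReal

universe u

namespace Crest.Agent.R235.KC_61

noncomputable section

section abs

variable {X : Type*} [AddCommGroup X] [Module ℝ X] (B : X →ₗ[ℝ] X →ₗ[ℝ] ℝ)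

/-- Cauchy-Schwarz for a bilinear form which is `≤ 0` on a subspace. -/
theorem cs_of_nonpos (hB : ∀ x y, B x y = B y x) (x y : X)
    (h : ∀ s t : ℝ, B (s • x + t • y) (s • x + t • y) ≤ 0) :
    (B x y) ^ 2 ≤ B x x * B y y := by
  have e : ∀ s t : ℝ, B (s • x + t • y) (s • x + t • y)
      = s ^ 2 * B x x + 2 * s * t * B x y + t ^ 2 * B y y := by
    intro s t
    simp only [map_add, map_smul, LinearMap.add_apply, LinearMap.smul_apply, smul_eq_mul]
    rw [hB y x]; ring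
  have hx : B x x ≤ 0 := by simpa [e] using h 1 0
  have hy : B y y ≤ 0 := by simpa [e] using h 0 1
  have h1 := h (B y y) (-(B x y))
  rw [e] at h1
  rcases hy.lt_or_eq with hy' | hy'
  · have : B y y * (B x x * B y y - (B x y) ^ 2) ≤ 0 := by nlinarith [h1]
    by_contra hc
    push Not at hc
    nlinarith [mul_pos_of_neg_of_neg hy' (sub_neg.2 hc)]
  · rw [hy', mul_zero]
    by_contra hc
    push Not at hc
    have h4 := h 1 ((1 - B x x) / (2 * B x y))
    rw [e, hy'] at h4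
    have hne : B x y ≠ 0 := by
      rintro h0; rw [h0] at hc; simp at hc
    have h5 : 2 * 1 * ((1 - B x x) / (2 * B x y)) * B x y = 1 - B x x := by
      field_simp
    rw [h5] at h4
    linarith

theorem ssl (x y z : X) (c : ℝ) : B (x - c • y) z = B x z - c * B y z := by
  rw [map_sub, LinearMap.sub_apply, map_smul, LinearMap.smul_apply, smul_eq_mul]

theorem ssr (x y z : X) (c : ℝ) : B z (x - c • y) = B z x - c * B z y := by
  rw [map_sub, map_smul, smul_eq_mul]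

variable (hB : ∀ x y, B x y = B y x) (p p2 : X →ₗ[ℝ] X) (hadd : ∀ b, p b + p2 b = b)
  (hmix : ∀ b c, B (p b) (p2 c) = 0)

include hB hadd hmix

/-- the pairing with an invariant form only sees the invariant part. -/
theorem inv_right (b c : X) (hc : p c = c) : B b c = B (p b) c := by
  have h1 : B (p2 b) c = 0 := by
    rw [hB, ← hc]; exact hmix c b
  conv_lhs => rw [← hadd b]
  rw [map_add, LinearMap.add_apply, h1, add_zero]

theorem self_eq (b : X) : B b b = B (p b) (p b) + B (p2 b) (p2 b) := by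
  have h1 : B (p b) (p2 b) = 0 := hmix b b
  have h2 : B (p2 b) (p b) = 0 := by rw [hB]; exact h1
  conv_lhs => rw [← hadd b]
  simp only [map_add, LinearMap.add_apply, h1, h2]
  ring

/-- the main inequality. -/
theorem main_ineq (hanti : ∀ b, 0 ≤ B (p2 b) (p2 b)) (P : Set X)
    (hPP : ∀ x ∈ P, 0 ≤ B x x) (Z : Submodule ℝ X) (F : X) (hpF : p F = F) (hFZ : F ∈ Z)
    (hFP : ∀ x ∈ P, 0 ≤ B x F) (v : Fin 2 → X) (a : X) (hvZ : ∀ i, v i ∈ Z)
    (hv : ∀ i, p (v i) = 0) (horth : ∀ i j, B (v i) (v j) = if i = j then B F F else 0)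
    (hFF : 0 < B F F)
    (hsig : ∀ b ∈ Z, B b F = 0 → (∀ i, B b (v i) = 0) → B b b ≤ 0)
    (haZ : a ∈ Z) (haa : 0 < B a a) (haF : 0 < B a F) (hav : ∀ i, B a (v i) = 0) :
    ∃ δ : ℝ, 0 < δ ∧ ∀ b ∈ Z, p b ∈ P → δ * B b F ≤ B a b := by
  set N : ℝ := B F F with hN
  set α : ℝ := B a F / N with hα
  have hαpos : 0 < α := div_pos haF hFF
  have hFv : ∀ i, B F (v i) = 0 := by
    intro i
    rw [hB, inv_right B hB p p2 hadd hmix _ _ hpF, hv i, map_zero, LinearMap.zero_apply]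
  -- `a₁`
  set a1 : X := a - α • F with ha1
  have ha1Z : a1 ∈ Z := Z.sub_mem haZ (Z.smul_mem _ hFZ)
  have haF' : B a F = α * N := by rw [hα]; field_simp
  have ha1F : B a1 F = 0 := by
    rw [ha1, map_sub, LinearMap.sub_apply, map_smul, LinearMap.smul_apply, smul_eq_mul, ← hN, haF']
    ring
  have ha1v : ∀ i, B a1 (v i) = 0 := by
    intro i
    rw [ha1, map_sub, LinearMap.sub_apply, map_smul, LinearMap.smul_apply, hFv, hav]; simp
  have ha1a1 : B a1 a1 = B a a - α ^ 2 * N := by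
    have e1 : B a1 a1 = B a1 a - α * B a1 F := ssr B a F a1 α
    have e2 : B a1 a = B a a - α * B F a := ssl B a F a α
    rw [e1, ha1F, e2, hB F a, haF']
    ring
  have ha1n : B a1 a1 ≤ 0 := hsig a1 ha1Z ha1F ha1v
  set κ : ℝ := Real.sqrt (α ^ 2 - B a a / N) with hκ
  have hκ0 : 0 ≤ α ^ 2 - B a a / N := by
    have : B a a / N ≤ α ^ 2 := by
      rw [div_le_iff₀ hFF]; linarith [ha1a1]
    linarith
  have hκsq : κ ^ 2 = α ^ 2 - B a a / N := Real.sq_sqrt hκ0
  have hκα : κ < α := by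
    have h1 : κ ^ 2 < α ^ 2 := by
      rw [hκsq]
      have := div_pos haa hFF
      linarith
    exact lt_of_pow_lt_pow_left₀ 2 hαpos.le h1
  refine ⟨α - κ, sub_pos.2 hκα, fun b hb hbP => ?_⟩
  -- `bt`
  set bt : X := b - ∑ i, (B b (v i) / N) • v i with hbt
  have hbtZ : bt ∈ Z := Z.sub_mem hb (Z.sum_mem fun i _ => Z.smul_mem _ (hvZ i))
  have hbt' : p bt = p b := by
    rw [hbt, map_sub, map_sum]
    simp [hv]
  have hbtv : ∀ j, B bt (v j) = 0 := by
    intro j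
    rw [hbt, map_sub, LinearMap.sub_apply, map_sum, LinearMap.sum_apply]
    simp only [map_smul, LinearMap.smul_apply, smul_eq_mul, horth]
    rw [Finset.sum_eq_single j]
    · rw [if_pos rfl]; field_simp; ring
    · intro i _ hij; rw [if_neg hij, mul_zero]
    · intro hj; exact absurd (Finset.mem_univ j) hj
  have habt : B a bt = B a b := by
    rw [hbt, map_sub, map_sum]
    simp [hav]
  have hbtF : B bt F = B b F := by
    rw [inv_right B hB p p2 hadd hmix _ _ hpF, hbt', ← inv_right B hB p p2 hadd hmix _ _ hpF]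
  set β : ℝ := B b F / N with hβ
  have hbF : B b F = β * N := by rw [hβ]; field_simp
  have hβ0 : 0 ≤ β := by
    refine div_nonneg ?_ hFF.le
    rw [inv_right B hB p p2 hadd hmix _ _ hpF]
    exact hFP _ hbP
  have hbtbt : 0 ≤ B bt bt := by
    rw [self_eq B hB p p2 hadd hmix, hbt']
    exact add_nonneg (hPP _ hbP) (hanti bt)
  set b1 : X := bt - β • F with hb1
  have hb1Z : b1 ∈ Z := Z.sub_mem hbtZ (Z.smul_mem _ hFZ)
  have hb1F : B b1 F = 0 := by
    rw [hb1, map_sub, LinearMap.sub_apply, map_smul, LinearMap.smul_apply, smul_eq_mul, ← hN, hbtF,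
      hbF]
    ring
  have hb1v : ∀ i, B b1 (v i) = 0 := by
    intro i
    rw [hb1, map_sub, LinearMap.sub_apply, map_smul, LinearMap.smul_apply, hFv, hbtv]; simp
  have hb1b1 : B b1 b1 = B bt bt - β ^ 2 * N := by
    have e1 : B b1 b1 = B b1 bt - β * B b1 F := ssr B bt F b1 β
    have e2 : B b1 bt = B bt bt - β * B F bt := ssl B bt F bt β
    rw [e1, hb1F, e2, hB F bt, hbtF, hbF]
    ring
  have hab : B a bt = α * β * N + B a1 b1 := by
    have e1 : B a1 b1 = B a1 bt - β * B a1 F := ssr B bt F a1 β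
    have e2 : B a1 bt = B a bt - α * B F bt := ssl B a F bt α
    rw [e1, ha1F, e2, hB F bt, hbtF, hbF]
    ring
  have hcs : (B a1 b1) ^ 2 ≤ B a1 a1 * B b1 b1 := by
    refine cs_of_nonpos B hB a1 b1 fun s t => hsig _ ?_ ?_ ?_
    · exact Z.add_mem (Z.smul_mem _ ha1Z) (Z.smul_mem _ hb1Z)
    · rw [map_add, map_smul, map_smul, LinearMap.add_apply, LinearMap.smul_apply,
        LinearMap.smul_apply, ha1F, hb1F]
      simp
    · intro i
      rw [map_add, map_smul, map_smul, LinearMap.add_apply, LinearMap.smul_apply,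
        LinearMap.smul_apply, ha1v, hb1v]
      simp
  have hle : (B a1 b1) ^ 2 ≤ (κ * β * N) ^ 2 := by
    have e1 : B a1 a1 = -(κ ^ 2 * N) := by
      rw [ha1a1, hκsq]; field_simp; ring
    have e2 : -(β ^ 2 * N) ≤ B b1 b1 := by rw [hb1b1]; linarith
    have e3 : B a1 a1 * B b1 b1 ≤ (κ ^ 2 * N) * (β ^ 2 * N) := by
      rw [e1]
      have hk : 0 ≤ κ ^ 2 * N := mul_nonneg (sq_nonneg _) hFF.le
      nlinarith [mul_le_mul_of_nonneg_left e2 hk]
    calc (B a1 b1) ^ 2 ≤ _ := hcs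
      _ ≤ _ := e3
      _ = _ := by ring
  have hκn : 0 ≤ κ := Real.sqrt_nonneg _
  have hlow : -(κ * β * N) ≤ B a1 b1 :=
    (abs_le.1 (abs_le_of_sq_le_sq hle (mul_nonneg (mul_nonneg hκn hβ0) hFF.le))).1
  rw [← habt, hab, hbF]
  nlinarith [hlow]

/-- the abstract Kaehler current. -/
theorem kc_abs (hpp : ∀ b, p (p b) = p b) (hanti : ∀ b, 0 ≤ B (p2 b) (p2 b)) (P : Set X)
    (hP0 : (0 : X) ∈ P) (hPadd : ∀ x ∈ P, ∀ y ∈ P, x + y ∈ P)
    (hPsmul : ∀ c : ℝ, 0 ≤ c → ∀ x ∈ P, c • x ∈ P) (hPp : ∀ x ∈ P, p x = x)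
    (hPP : ∀ x ∈ P, 0 ≤ B x x) (Z : Submodule ℝ X) (F : X) (hpF : p F = F) (hFZ : F ∈ Z)
    (hFP : ∀ x ∈ P, 0 ≤ B x F) (hunit : ∀ x, ∃ t : ℝ, t • F - p x ∈ P)
    (v : Fin 2 → X) (a : X) (hvZ : ∀ i, v i ∈ Z)
    (hv : ∀ i, p (v i) = 0) (horth : ∀ i j, B (v i) (v j) = if i = j then B F F else 0)
    (hFF : 0 < B F F)
    (hsig : ∀ b ∈ Z, B b F = 0 → (∀ i, B b (v i) = 0) → B b b ≤ 0)
    (haZ : a ∈ Z) (haa : 0 < B a a) (haF : 0 < B a F) (hav : ∀ i, B a (v i) = 0) :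
    ∃ (δ : ℝ) (Φ : X →ₗ[ℝ] ℝ), 0 < δ ∧ (∀ b, Φ b = Φ (p b)) ∧ (∀ x ∈ P, δ * B x F ≤ Φ x) ∧
      ∀ b ∈ Z, Φ b = B a b := by
  obtain ⟨δ, hδ, hmain⟩ := main_ineq B hB p p2 hadd hmix hanti P hPP Z F hpF hFZ hFP v a hvZ hv
    horth hFF hsig haZ haa haF hav
  obtain ⟨Φ, hΦ⟩ := Crest.Agent.R240.HB.exists_linear_of_rel
    (fun (x : X) (r : ℝ) => ∃ b ∈ Z, ∃ q ∈ P, p x = p b - q ∧ r = B a b - δ * B q F)
    (by
      intro x
      obtain ⟨t, ht⟩ := hunit x
      refine ⟨_, t • F, Z.smul_mem _ hFZ, _, ht, ?_, rfl⟩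
      rw [map_smul, hpF]; abel)
    (by
      rintro x y r s ⟨b, hb, q, hq, h1, rfl⟩ ⟨b', hb', q', hq', h1', rfl⟩
      refine ⟨b + b', Z.add_mem hb hb', q + q', hPadd _ hq _ hq', ?_, ?_⟩
      · rw [map_add, map_add, h1, h1']; abel
      · rw [map_add, map_add, LinearMap.add_apply]; ring)
    (by
      rintro c hc x r ⟨b, hb, q, hq, h1, rfl⟩
      refine ⟨c • b, Z.smul_mem _ hb, c • q, hPsmul c hc.le _ hq, ?_, ?_⟩
      · rw [map_smul, map_smul, h1, smul_sub]
      · rw [map_smul, map_smul, LinearMap.smul_apply, smul_eq_mul, smul_eq_mul]; ring)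
    (by
      rintro r ⟨b, hb, q, hq, h1, rfl⟩
      have h2 : p b = q := by
        rw [map_zero] at h1
        exact (sub_eq_zero.1 h1.symm)
      have h3 := hmain b hb (h2 ▸ hq)
      rw [inv_right B hB p p2 hadd hmix b _ hpF, h2] at h3
      linarith)
  have hnull : ∀ x : X, p x = 0 → Φ x = 0 := by
    intro x hx
    have h1 := hΦ x 0 ⟨0, Z.zero_mem, 0, hP0, by rw [hx]; simp, by simp⟩
    have h2 := hΦ (-x) 0 ⟨0, Z.zero_mem, 0, hP0, by rw [map_neg, hx]; simp, by simp⟩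
    rw [map_neg] at h2
    linarith
  refine ⟨δ, Φ, hδ, ?_, ?_, ?_⟩
  · intro b
    have h1 := hnull (b - p b) (by rw [map_sub, hpp, sub_self])
    rw [map_sub] at h1
    linarith
  · intro x hx
    have h1 := hΦ (-x) (-(δ * B x F)) ⟨0, Z.zero_mem, x, hx, by
      rw [map_neg, hPp x hx]; simp, by simp⟩
    rw [map_neg] at h1
    linarith
  · intro b hb
    have h1 := hΦ b (B a b) ⟨b, hb, 0, hP0, by simp, by simp⟩
    have h2 := hΦ (-b) (-(B a b)) ⟨-b, Z.neg_mem hb, 0, hP0, by simp, by simp⟩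
    rw [map_neg] at h2
    linarith

end abs

open Crest.Agent.R240 Crest.Agent.R240.Ch Crest.Agent.R240.St1 Crest.Agent.R235.STF_861

theorem kc : STF_861.KC.{u} := by
  intro M _ _ _ _ _ _ D v a h
  obtain ⟨δ, Φ, h1, h2, h3, h4⟩ := kc_abs (IX D) (fun b c => I_comm _ _) D.pi' D.pi'' pi_add
    (fun b c => I_mixed b c) pi'_pi' (fun b => I_anti_nonneg b) D.Pp zero_mem_Pp
    (fun x hx y hy => add_mem_Pp hx hy) (fun c hc x hx => smul_mem_Pp hx hc)
    (fun x hx => pi'_of_mem_Pp hx) (fun x hx => I_PP_nonneg hx) (Z2 M) D.FX pi'_FX h.clF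
    (fun x hx => I_PF_nonneg hx) order_unit v a h.clv h.anti h.orth h.posF h.sig h.cla h.pos
    h.posaF h.perp
  exact ⟨δ, Φ, h1, h2, h3, h4⟩

end

end Crest.Agent.R235.KC_61
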