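import Crest.Agent.R235.Br281f_819
import Crest.Agent.R235.STFProps_861

/-!
# R235, package STF, leaf LINK (helper819): Yau's theorem through the bridge
-/

set_option autoImplicit false
set_option maxSynthPendingDepth 3

open Set Filter Topology Function
open scoped Manifold ContDiff

namespace Crest.Agent.R235.Link_819

open Crest.Agent.R240 Crest.Agent.R240.Ch Crest.Agent.R235 Crest.Agent.R235.STF_861

theorem hk_of_nrm {M : Type} [TopologicalSpace M] [ChartedSpace E4 M] [IsManifold 𝓘(ℝ, E4) ∞ M]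
    {w : Trip M} (h : Nrm w) : HK w := by
  refine ⟨1, Matrix.PosDef.one, fun x => ?_⟩
  obtain ⟨s, hs⟩ := h x
  refine ⟨s, fun i j => ?_⟩
  rw [hs, Matrix.one_apply]
  by_cases hij : i = j
  · rw [if_pos hij, if_pos hij, mul_one]
  · rw [if_neg hij, if_neg hij, mul_zero]

theorem link : LINK := by
  intro M _ _ _ _ _ _ w J hw hn hJ a hi hp
  obtain ⟨b, hc, -, -, hs, hk, -⟩ := Br281f_819.hkmove hw (hk_of_nrm hn) hJ hi hp
  exact ⟨b, hc, hs, hk⟩

end Crest.Agent.R235.Link_819
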