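import Crest.Agent.R235.STFProps_861
import Crest.Agent.R240.EllFin
import Crest.Agent.R240.FAFinal
import Crest.Agent.R240.Ch7

/-!
Row 235, package STF, leaf N3E (helper168): R240's Lemma A (node N3) inside the exact forms.

`lemmaA_sub` is helper106's `Ell.lemmaA_man` with the space of the closed forms replaced by an
arbitrary subspace `Z` of smooth forms containing the extensions by zero of `dS s`.
-/

set_option autoImplicit false
set_option maxSynthPendingDepth 3
set_option linter.unusedSectionVars false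

open scoped ContDiff Manifold Topology
open Set Filter

universe u

namespace Crest.Agent.R235.N3E_168

noncomputable section

open Crest.Agent.R240 Crest.Agent.R240.Ch Crest.Agent.R240.KLoc Crest.Agent.R240.Ell

variable {M : Type*} [TopologicalSpace M] [ChartedSpace E4 M] [IsManifold 𝓘(ℝ, E4) ∞ M]

/-- the seminorms on a subspace of smooth forms. -/
def pZs (A : EAtl M) (Z : Submodule ℝ (F2 E4 M)) (hZ : ∀ a ∈ Z, Smooth2 a) (k : ℕ) :
    Seminorm ℝ Z :=
  Seminorm.of (fun w => pn A k w.1) (fun x y => pn_add A k (hZ _ x.2) (hZ _ y.2))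
    (fun r x => pn_smul A k r (hZ _ x.2))

theorem pZs_apply (A : EAtl M) (Z : Submodule ℝ (F2 E4 M)) (hZ : ∀ a ∈ Z, Smooth2 a) (k : ℕ)
    (w : Z) : pZs A Z hZ k w = pn A k w.1 := rfl

/-! ### the main theorem -/

set_option maxHeartbeats 2000000 in
/-- R240's `lemmaA_man` inside an arbitrary subspace `Z` of smooth forms which contains the
extensions by zero of `dS s`. -/
theorem lemmaA_sub [T2Space M] (hloc : LocalThm) (A : EAtl M) {J : EndF E4 M} (hJ : SmoothJ J)
    (hsq : ∀ x v, atJ J x (atJ J x v) = -v) (Z : Submodule ℝ (F2 E4 M))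
    (hZs : ∀ a ∈ Z, Smooth2 a)
    (hZ : ∀ (i : Fin A.n) (s : E4 → E4 →L[ℝ] ℝ), ContDiff ℝ ∞ s → tsupport s ⊆ A.V i →
      ext2 (A.p i) (dS s) ∈ Z) :
    ∃ (m : ℕ) (C : ℝ), 0 ≤ C ∧ ∀ b ∈ Z,
      ∃ c ∈ Z, bpp J c = bpp J b ∧ pn A 0 c ≤ C * pn A m (bpp J b) := by
  classical
  choose JJ hJJs hJJ using fun i => exists_JJ A hJ i
  have hJJsq : ∀ i, ∀ x ∈ A.V i, ∀ v, JJ i x (JJ i x v) = -v := by
    intro i x hx v
    rw [hJJ i x (subset_closure hx)]
    exact repJ_sq hsq (A.V_sub i hx) v
  choose Q K hadd hsmul hreg hid hQb hKt hKf using fun i =>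
    hloc (JJ i) (hJJs i) (A.U i) (A.V i) (A.isOpen_U i) (A.isOpen_V i) (A.bdd_V i)
      (A.closure_U i) (hJJsq i)
  have hT : ∀ (w : XA J) i, Test (JJ i) (A.U i) (loc A i w.1) := fun w i =>
    test_loc A (hJJ i) w.2
  have hKT : ∀ (w : XA J) i, Test (JJ i) (A.V i) (K i (loc A i w.1)) := fun w i =>
    (hreg i _ (hT w i)).2.2
  have hKadm : ∀ (w : XA J) i, Adm A i (K i (loc A i w.1)) := fun w i => adm_of_test A (hKT w i)
  have hloc_add : ∀ (w w' : XA J) i, loc A i (w + w').1 = loc A i w.1 + loc A i w'.1 :=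
    fun w w' i => loc_add A i _ _
  have hloc_smul : ∀ (r : ℝ) (w : XA J) i, loc A i (r • w).1 = r • loc A i w.1 :=
    fun r w i => loc_smul A i _ _
  -- the operators
  let KK : XA J →ₗ[ℝ] XA J :=
    { toFun := fun w => ⟨glob A fun i => K i (loc A i w.1), smooth2_glob A (hKadm w),
        bppL_glob A J _ fun i y _ => anti_of_test A (hJJ i) (hKT w i) y⟩
      map_add' := fun w w' => by
        apply Subtype.ext
        change glob A (fun i => K i (loc A i (w + w').1)) =
          glob A (fun i => K i (loc A i w.1)) + glob A (fun i => K i (loc A i w'.1))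
        rw [← glob_add]
        congr 1
        funext i
        rw [hloc_add, (hadd i _ _ (hT w i) (hT w' i)).2]
      map_smul' := fun r w => by
        apply Subtype.ext
        change glob A (fun i => K i (loc A i (r • w).1)) =
          r • glob A (fun i => K i (loc A i w.1))
        rw [← glob_smul]
        congr 1
        funext i
        rw [hloc_smul, (hsmul i r _ (hT w i)).2] }
  have hKKv : ∀ w, (KK w).1 = glob A fun i => K i (loc A i w.1) := fun w => rfl
  have hQs : ∀ (w : XA J) i, ContDiff ℝ ∞ (Q i (loc A i w.1)) := fun w i =>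
    (hreg i _ (hT w i)).1
  have hQv : ∀ (w : XA J) i, tsupport (Q i (loc A i w.1)) ⊆ A.V i := fun w i =>
    (hreg i _ (hT w i)).2.1
  let SS : XA J →ₗ[ℝ] Z :=
    { toFun := fun w => ⟨glob A fun i => dS (Q i (loc A i w.1)),
        Submodule.sum_mem _ fun i _ => hZ i _ (hQs w i) (hQv w i)⟩
      map_add' := fun w w' => by
        apply Subtype.ext
        change glob A (fun i => dS (Q i (loc A i (w + w').1))) =
          glob A (fun i => dS (Q i (loc A i w.1))) + glob A (fun i => dS (Q i (loc A i w'.1)))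
        rw [← glob_add]
        congr 1
        funext i
        rw [hloc_add, (hadd i _ _ (hT w i) (hT w' i)).1, dS_add (hQs w i) (hQs w' i)]
      map_smul' := fun r w => by
        apply Subtype.ext
        change glob A (fun i => dS (Q i (loc A i (r • w).1))) =
          r • glob A (fun i => dS (Q i (loc A i w.1)))
        rw [← glob_smul]
        congr 1
        funext i
        rw [hloc_smul, (hsmul i r _ (hT w i)).1, dS_smul (hQs w i)] }
  have hSSv : ∀ w, (SS w).1 = glob A fun i => dS (Q i (loc A i w.1)) := fun w => rfl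
  let π : Z →ₗ[ℝ] XA J :=
    { toFun := fun c => ⟨bpp J c.1, smooth2_bpp hJ (hZs c.1 c.2), bpp_bpp hsq⟩
      map_add' := fun c c' => by
        apply Subtype.ext
        exact map_add (bppL J) c.1 c'.1
      map_smul' := fun r c => by
        apply Subtype.ext
        exact map_smul (bppL J) r c.1 }
  have hπv : ∀ c, (π c).1 = bpp J c.1 := fun c => rfl
  have hS : ∀ w, π (SS w) = w + KK w := by
    intro w
    apply Subtype.ext
    rw [hπv, hSSv]
    have h1 : ((w + KK w : XA J) : F2 E4 M) =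
        glob A (fun i => loc A i w.1 + K i (loc A i w.1)) := by
      rw [glob_add, glob_loc]
      rfl
    rw [h1, ← bppL_apply]
    unfold glob
    rw [map_sum]
    refine Finset.sum_congr rfl fun i _ => ?_
    rw [bppL_apply, bpp_ext2]
    refine congrArg _ (funext fun y => ?_)
    by_cases hy : y ∈ closure (A.V i)
    · rw [← hJJ i y hy, hid i _ (hT w i) y]
      rfl
    · simp only [Pi.add_apply]
      rw [(adm_dS A (hQs w i) (hQv w i)).off y hy, antip_zero',
        (hKadm w i).off y hy, (Adm.loc A i w.2.1).off y hy, add_zero]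
  -- estimates
  have hk : ∀ k, ∃ C, ∀ x, pX A J k (KK x) ≤ (1 / 2) * pX A J k x + C * pX A J 0 x := by
    intro k
    obtain ⟨C, hC0, hC⟩ := exists_globC A k
    have hθ : 0 < 1 / (2 * (C + 1)) := by positivity
    choose D hD using fun i => hKt i k (1 / (2 * (C + 1))) hθ
    refine ⟨C * ∑ i, |D i|, fun w => ?_⟩
    rw [pX_apply, hKKv]
    refine (hC _ (hKadm w)).trans ?_
    have h1 : ∀ i, nk k (K i (loc A i w.1)) ≤
        1 / (2 * (C + 1)) * nk k (loc A i w.1) + |D i| * pn A 0 w.1 := by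
      intro i
      have h2 := hD i _ _ _ (hT w i) ((cs_loc A i w.2.1).ckB_nk k) ((cs_loc A i w.2.1).ckB_nk 0)
      refine (nk_le h2).trans ?_
      have h3 : D i * nk 0 (loc A i w.1) ≤ |D i| * pn A 0 w.1 := by
        calc D i * nk 0 (loc A i w.1) ≤ |D i| * nk 0 (loc A i w.1) :=
              mul_le_mul_of_nonneg_right (le_abs_self _) (nk_nonneg _ _)
          _ ≤ |D i| * pn A 0 w.1 := mul_le_mul_of_nonneg_left (nk_le_pn A 0 i _) (abs_nonneg _)
      linarith
    have h4 : ∑ i, nk k (K i (loc A i w.1)) ≤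
        1 / (2 * (C + 1)) * pn A k w.1 + (∑ i, |D i|) * pn A 0 w.1 := by
      refine (Finset.sum_le_sum fun i _ => h1 i).trans ?_
      rw [Finset.sum_add_distrib, ← Finset.mul_sum, ← Finset.sum_mul]
      exact le_rfl
    have h5 : C * (1 / (2 * (C + 1))) ≤ 1 / 2 := by
      rw [mul_one_div, div_le_div_iff₀ (by positivity) (by norm_num)]
      linarith
    have h6 := pn_nonneg A k w.1
    calc C * ∑ i, nk k (K i (loc A i w.1)) ≤
          C * (1 / (2 * (C + 1)) * pn A k w.1 + (∑ i, |D i|) * pn A 0 w.1) := by gcongr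
      _ = (C * (1 / (2 * (C + 1)))) * pn A k w.1 + C * (∑ i, |D i|) * pn A 0 w.1 := by ring
      _ ≤ (1 / 2) * pn A k w.1 + C * (∑ i, |D i|) * pn A 0 w.1 := by gcongr
  -- finite rank
  obtain ⟨C0, hC00, hC0⟩ := exists_globC A 0
  have hθ : 0 < 1 / (2 * (C0 + 1)) := by positivity
  choose n φ l D hφ hladd hlsmul hlb hlK using fun i => hKf i (1 / (2 * (C0 + 1))) hθ
  let ι : Type := Σ i : Fin A.n, Fin (n i)
  let e : ι ≃ Fin (Fintype.card ι) := Fintype.equivFin ι
  let L : ι → XA J →ₗ[ℝ] ℝ := fun q =>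
    { toFun := fun w => l q.1 q.2 (loc A q.1 w.1)
      map_add' := fun w w' => by
        rw [hloc_add, hladd q.1 q.2 _ _ (hT w q.1) (hT w' q.1)]
      map_smul' := fun r w => by
        rw [hloc_smul, hlsmul q.1 q.2 r _ (hT w q.1)]
        rfl }
  have hLv : ∀ q w, L q w = l q.1 q.2 (loc A q.1 w.1) := fun q w => rfl
  have hadm1 : ∀ (i : Fin A.n) (j : Fin (n i)), Adm A i (φ i j) := fun i j =>
    adm_of_test A (hφ i j)
  let Φ : ι → XA J := fun q => ⟨ext2 (A.p q.1) (φ q.1 q.2),
    smooth2_ext2_adm A (hadm1 q.1 q.2), by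
      rw [bppL_apply, bpp_ext2]
      exact ext2_congr fun y _ => anti_of_test A (hJJ q.1) (hφ q.1 q.2) y⟩
  have hΦv : ∀ q, (Φ q).1 = ext2 (A.p q.1) (φ q.1 q.2) := fun q => rfl
  have hmain := EAbs.lemmaA_abs (pX A J) (fun x hx => Subtype.ext (pn_sep A x.2.1 hx))
    (complete_X A J) KK (fun j => L (e.symm j)) (fun j => Φ (e.symm j)) (∑ i, |D i|)
    (by
      intro j w
      rw [hLv]
      have h1 := hlb (e.symm j).1 (e.symm j).2 _ _ (hT w _) ((cs_loc A _ w.2.1).ckB_nk 0)
      refine h1.trans ?_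
      calc D (e.symm j).1 * nk 0 (loc A (e.symm j).1 w.1)
          ≤ |D (e.symm j).1| * nk 0 (loc A (e.symm j).1 w.1) :=
            mul_le_mul_of_nonneg_right (le_abs_self _) (nk_nonneg _ _)
        _ ≤ (∑ i, |D i|) * pn A 0 w.1 := by
            refine mul_le_mul ?_ (nk_le_pn A 0 _ _) (nk_nonneg _ _)
              (Finset.sum_nonneg fun i _ => abs_nonneg _)
            exact Finset.single_le_sum (f := fun i => |D i|) (fun i _ => abs_nonneg _)
              (Finset.mem_univ _))
    (by
      intro w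
      set g : Fin A.n → E4 → Bil := fun i =>
        K i (loc A i w.1) - fun x => ∑ j, l i j (loc A i w.1) • φ i j x with hg
      have hsumeq : ∀ i, (fun x => ∑ j, l i j (loc A i w.1) • φ i j x) =
          ∑ j, l i j (loc A i w.1) • φ i j := by
        intro i
        funext x
        rw [Finset.sum_apply]
        rfl
      have hgadm : ∀ i, Adm A i (g i) := by
        intro i
        refine (hKadm w i).sub A ?_
        rw [hsumeq]
        refine ⟨CS.sum _ fun j _ => (hadm1 i j).cs.smul _, fun y => ?_, fun z hz => ?_⟩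
        · rw [Finset.sum_apply]
          intro v
          have : ∀ s : Finset (Fin (n i)), (∑ j ∈ s, (l i j (loc A i w.1) • φ i j) y) v v = 0 := by
            intro s
            induction s using Finset.induction_on with
            | empty => rfl
            | insert a s ha ih =>
              rw [Finset.sum_insert ha, add_apply, add_apply, ih, add_zero]
              exact Alt.smul' ((hadm1 i a).alt y) _ v
          exact this _
        · rw [Finset.sum_apply]
          refine Finset.sum_eq_zero fun j _ => ?_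
          rw [Pi.smul_apply, (hadm1 i j).off z hz, smul_zero]
      have h1 : ((KK w - ∑ j, L (e.symm j) w • Φ (e.symm j) : XA J) : F2 E4 M) = glob A g := by
        have h2 : ∑ j, L (e.symm j) w • Φ (e.symm j) = ∑ q : ι, L q w • Φ q :=
          Equiv.sum_comp e.symm (fun q => L q w • Φ q)
        rw [h2]
        have h3 : ((KK w - ∑ q : ι, L q w • Φ q : XA J) : F2 E4 M) =
            (KK w).1 - ∑ q : ι, l q.1 q.2 (loc A q.1 w.1) • ext2 (A.p q.1) (φ q.1 q.2) := by
          rw [Submodule.coe_sub, AddSubmonoidClass.coe_finsetSum]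
          rfl
        rw [h3, hKKv, hg]
        have h4 := glob_sub A (fun i => K i (loc A i w.1))
          (fun i x => ∑ j, l i j (loc A i w.1) • φ i j x)
        refine Eq.trans ?_ h4.symm
        congr 1
        unfold glob
        rw [Fintype.sum_sigma]
        refine Finset.sum_congr rfl fun i _ => ?_
        simp only [hsumeq]
        rw [ext2_sum]
        refine Finset.sum_congr rfl fun j _ => ?_
        rw [ext2_smul]
      rw [pX_apply, h1]
      refine (hC0 g hgadm).trans ?_
      have h5 : ∀ i, nk 0 (g i) ≤ 1 / (2 * (C0 + 1)) * nk 0 (loc A i w.1) := fun i =>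
        nk_le (hlK i _ _ (hT w i) ((cs_loc A i w.2.1).ckB_nk 0))
      have h6 : C0 * (1 / (2 * (C0 + 1))) ≤ 1 / 2 := by
        rw [mul_one_div, div_le_div_iff₀ (by positivity) (by norm_num)]
        linarith
      have h7 := pn_nonneg A 0 w.1
      calc C0 * ∑ i, nk 0 (g i) ≤ C0 * ∑ i, 1 / (2 * (C0 + 1)) * nk 0 (loc A i w.1) := by
            gcongr with i _
            exact h5 i
        _ = (C0 * (1 / (2 * (C0 + 1)))) * pn A 0 w.1 := by
            rw [← Finset.mul_sum, pn]; ring
        _ ≤ 1 / 2 * pX A J 0 w := by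
            rw [pX_apply]; gcongr)
    hk (pZs A Z hZs 0) π SS hS
  -- bound of `S`
  choose mm E hE using hQb
  set m := ∑ i, mm i with hm
  have hmi : ∀ i, mm i ≤ m := fun i =>
    Finset.single_le_sum (f := mm) (fun _ _ => Nat.zero_le _) (Finset.mem_univ i)
  have hN : ∃ C, ∀ w, pZs A Z hZs 0 (SS w) ≤ C * (pX A J 0 w + pX A J m w) := by
    refine ⟨C0 * (2 * ∑ i, |E i|), fun w => ?_⟩
    rw [pZs_apply, hSSv, pX_apply, pX_apply]
    refine (hC0 _ fun i => adm_dS A (hQs w i) (hQv w i)).trans ?_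
    rw [mul_assoc]
    refine mul_le_mul_of_nonneg_left ?_ hC00
    rw [mul_assoc, Finset.sum_mul, Finset.mul_sum]
    refine Finset.sum_le_sum fun i _ => ?_
    refine (nk_dS (cs_of_supp A (hQs w i) (hQv w i))).trans ?_
    refine mul_le_mul_of_nonneg_left ?_ (by norm_num)
    refine (nk_le (hE i _ _ (hT w i) ((cs_loc A i w.2.1).ckB_nk (mm i)))).trans ?_
    calc E i * nk (mm i) (loc A i w.1) ≤ |E i| * nk (mm i) (loc A i w.1) :=
          mul_le_mul_of_nonneg_right (le_abs_self _) (nk_nonneg _ _)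
      _ ≤ |E i| * (pn A 0 w.1 + pn A m w.1) := by
          refine mul_le_mul_of_nonneg_left ?_ (abs_nonneg _)
          have h1 := nk_mono (cs_loc A i w.2.1) (hmi i)
          have h2 := nk_le_pn A m i w.1
          have h3 := pn_nonneg A 0 w.1
          linarith
  obtain ⟨C, hC0', hC⟩ := hmain m hN
  refine ⟨m, 2 * C, by positivity, fun b hb => ?_⟩
  obtain ⟨c, hc1, hc2⟩ := hC ⟨b, hb⟩
  refine ⟨c.1, c.2, ?_, ?_⟩
  · have h := congrArg Subtype.val hc1
    rw [hπv, hπv] at h
    exact h
  · rw [pZs_apply, pX_apply, pX_apply, hπv] at hc2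
    refine hc2.trans ?_
    have h1 := pn_mono A (Nat.zero_le m) (smooth2_bpp hJ (hZs b hb))
    have h2 : C * (pn A 0 (bpp J b) + pn A m (bpp J b)) ≤
        C * (pn A m (bpp J b) + pn A m (bpp J b)) := by gcongr
    linarith


/-! ### exact forms -/

variable (M) in
/-- exact forms, as a subspace of `F2`. -/
def EA : Submodule ℝ (F2 E4 M) where
  carrier := {a | IsEx a}
  add_mem' := by
    intro a b ha hb
    obtain ⟨s, hs, rfl⟩ := isEx_iff.1 ha
    obtain ⟨t, ht, rfl⟩ := isEx_iff.1 hb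
    refine isEx_iff.2 ⟨s + t, hs.add ht, ?_⟩
    exact (dG_add hs ht).symm
  zero_mem' := by
    refine isEx_iff.2 ⟨0, smooth1_zero, ?_⟩
    have h := dG_smul (0 : ℝ) (smooth1_zero (E := E4) (M := M))
    simpa using h.symm
  smul_mem' := by
    intro c a ha
    obtain ⟨s, hs, rfl⟩ := isEx_iff.1 ha
    refine isEx_iff.2 ⟨c • s, hs.smul c, ?_⟩
    exact (dG_smul c hs).symm

theorem mem_EA (A : EAtl M) [T2Space M] (i : Fin A.n) (s : E4 → E4 →L[ℝ] ℝ)
    (hs : ContDiff ℝ ∞ s) (h : tsupport s ⊆ A.V i) : ext2 (A.p i) (dS s) ∈ EA M :=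
  isEx_ext2_d1 (A.compact_V i) (A.closure_V i) hs fun _ hy =>
    image_eq_zero_of_notMem_tsupport fun h' => hy (subset_closure (h h'))

/-- **N3E** -/
theorem n3e : STF_861.N3E.{u} := by
  intro M _ _ _ _ _ _ D
  obtain ⟨A⟩ := exists_atl M
  obtain ⟨𝒰⟩ := exists_Cover (M := M)
  obtain ⟨m, C, hC0, hC⟩ := lemmaA_sub FA.localThm A D.smJ D.sq (EA M)
    (fun a ha => IsEx.smooth2 ha) (mem_EA A)
  obtain ⟨C1, hC1, h1⟩ := nr_le_pn D A
  obtain ⟨C2, hC2, h2⟩ := pn_le_cm A 𝒰 m
  refine ⟨𝒰, m, C1 * (C * C2), fun b hb => ?_⟩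
  obtain ⟨c, hc, hcb, hcn⟩ := hC b.1 hb
  have hcs : Smooth2 c := IsEx.smooth2 hc
  refine ⟨⟨c, hcs⟩, hc, Subtype.ext hcb, fun x => ?_⟩
  have h3 := h1 ⟨c, hcs⟩ x
  have h4 := h2 (bpp D.J b.1) (smooth2_bpp D.smJ b.2)
  calc D.nr c x ≤ C1 * pn A 0 c := h3
    _ ≤ C1 * (C * (C2 * 𝒰.cm m (bpp D.J b.1))) := by
        refine mul_le_mul_of_nonneg_left (hcn.trans ?_) hC1
        exact mul_le_mul_of_nonneg_left h4 hC0
    _ = C1 * (C * C2) * 𝒰.cm m ((D.pi'' b : X2 M) : F2 E4 M) := by
        rw [Dat.pi'', antiM_coe]; ring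

end

end Crest.Agent.R235.N3E_168
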