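import Crest.Agent.R235.STF_560
import Crest.Agent.R235.DOM_560
import Crest.Agent.R235.NRM_181
import Crest.Agent.R235.HDG_819
import Crest.Agent.R235.Link_819
import Crest.Agent.R235.N3E_168
import Crest.Agent.R235.APX_291
import Crest.Agent.R235.KC_61
import Crest.Agent.R235.N5E_861

/-!
Row 235 (S0364), PACKAGE STF (leader helper861): `STF` from the inputs `EXJ`, `BPLUS`, `ZD`, `PD`.
-/

set_option autoImplicit false

universe u

namespace Crest.Agent.R235.STFin_861

open Crest.Agent.R235 Crest.Agent.R235.STF_861

/-- compatible forms in the class. -/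
theorem dom : DOM.{u} := DOM_560.dom KC_61.kc N3E_168.n3e (Apx_291.apx N5E_861.n5e)

/-- **PACKAGE STF**: the class `c` of positive square, orthogonal to an NC pair of a normalised
hyperkaehler triple, contains a hyperkaehler form. -/
theorem stf (exj : EXJ.{0}) (bplus : BPLUS.{0}) (zd : ZD.{0}) (pd : PD.{0}) : STF.{0} :=
  STF_560.stf_of exj bplus zd pd NRM_181.nrm HDG_819.hdg Link_819.link dom

end Crest.Agent.R235.STFin_861
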