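import Crest.Agent.R235.Cone_288

/-!
Row 235 (helper47): `SPH` (simple roots perpendicular to the pair are embedded `J`-spheres) from
`ROOT`, `HBN`, `CLS`, `EXJ`, `NEGK`, `BPLUS`.

Proof.  `m = d.w₀ > 0`, `x = w₀ + (m/2) d`, so `x.d = 0` and the segment of frames from `w₀` to `x`
is positive.  `x` is not a taming class (`ROOT`), so by `HBN` some normalised current `S` has
`S(x) ≤ 0`; take `S` minimising `S(x)`.  Its class has negative square (`BPLUS`), `NEGK` gives a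
`J`-sphere of class `d'` with `S = t σ + S'`; minimality gives `x.d' ≤ S(x) (w₀.d') ≤ 0`, and if
`d' ≠ d` then `x.d' ≥ w₀.d' > 0` by simplicity of `d`.
-/

set_option autoImplicit false
set_option maxSynthPendingDepth 3

open Set Function Filter MeasureTheory
open scoped Manifold ContDiff Topology

universe u

namespace Crest.Agent.R235.Sph_47

open Crest.Agent.R240 Crest.Agent.R240.Ch Crest.Agent.R240.Int Crest.Agent.R235
open Crest.Agent.R235.CurB_288 Crest.Agent.R235.Cone_288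

noncomputable section

section Cls

variable {M : Type u} [TopologicalSpace M] [T2Space M] [CompactSpace M]
  [ChartedSpace E4 M] [IsManifold 𝓘(ℝ, E4) ∞ M]

/-- the class of a `J`-sphere is orthogonal to the pair. -/
theorem jsph_perp {w : Trip M} {σ : E3 → M} {d : H2 M} (h : JSph w σ d) (i : Fin 3) (hi : i ≠ 0) :
    ip (w 0) d (cls (w i)) = 0 := by
  rw [← h.rep (w i)]
  have h0 : ∀ y : Metric.sphere (0 : E3) 1, ‖(y : E3)‖ = 1 := fun y => by
    simp
  have hl : ∀ (y : Metric.sphere (0 : E3) 1) (u v : E3),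
      at2 ((w i).1.1 : F2 E4 M) (σ y) (dmap σ y u) (dmap σ y v) = 0 := by
    intro y u v
    fin_cases i
    · exact absurd rfl hi
    · exact h.lag1 y u v (h0 y)
    · exact h.lag2 y u v (h0 y)
  unfold sphI
  simp only [hl, mul_zero, add_zero, integral_zero]

theorem alg_seg {V : Type*} [AddCommGroup V] [Module ℝ V] (c y : Fin 3 → V) (d x : V)
    (a : Fin 3 → ℝ) (t m : ℝ) (hx : x = c 0 + (m / 2) • d) (h0 : y 0 = x) (h1 : y 1 = c 1)
    (h2 : y 2 = c 2) :
    ∑ i, a i • ((1 - t) • c i + t • y i) = ∑ i, a i • c i + (a 0 * t * (m / 2)) • d := by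
  rw [Fin.sum_univ_three, Fin.sum_univ_three, h0, h1, h2, hx]; module

set_option maxHeartbeats 4000000 in
/-- the moved frame. -/
theorem segment {w : Trip M} [Nonempty M] (hw : Pos3 w) {d x : H2 M} {m : ℝ}
    (hx : x = cls (w 0) + (m / 2) • d)
    (hm : ip (w 0) d (cls (w 0)) = m) (h1 : ip (w 0) d (cls (w 1)) = 0)
    (h2 : ip (w 0) d (cls (w 2)) = 0) (hd : ip (w 0) d d = -2) :
    ∀ t ∈ Icc (0 : ℝ) 1, PosCls (w 0)
      (fun i => (1 - t) • clw w i + t • update (clw w) 0 x i) := by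
  intro t ht a ha
  have hV := hw.vol 0
  have e1 : update (clw w) 0 x 1 = cls (w 1) := by rw [update_of_ne (by decide)]; rfl
  have e2 : update (clw w) 0 x 2 = cls (w 2) := by rw [update_of_ne (by decide)]; rfl
  have e : ∑ i, a i • ((1 - t) • clw w i + t • update (clw w) 0 x i) =
      ∑ i, a i • cls (w i) + (a 0 * t * (m / 2)) • d :=
    alg_seg (clw w) (update (clw w) 0 x) d x a t m hx (update_self _ _ _) e1 e2
  rw [e]
  have hPP : 0 < ip (w 0) (∑ i, a i • cls (w i)) (∑ i, a i • cls (w i)) := hw.ip_comb_pos 0 ha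
  have hdP : ip (w 0) d (∑ i, a i • cls (w i)) = a 0 * m := by
    rw [Fin.sum_univ_three, ip_add_right hV, ip_add_right hV, ip_smul_right hV,
      ip_smul_right hV, ip_smul_right hV, hm, h1, h2]
    ring
  revert hPP hdP
  generalize ∑ i, a i • cls (w i) = P
  intro hPP hdP
  have e3 : ip (w 0) (P + (a 0 * t * (m / 2)) • d) (P + (a 0 * t * (m / 2)) • d) =
      ip (w 0) P P + (a 0 * m) ^ 2 * (t - t ^ 2 / 2) := by
    rw [ip_add_left hV, ip_add_right hV, ip_add_right hV, ip_smul_right hV, ip_smul_left hV,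
      ip_smul_left hV, ip_smul_right hV, ip_comm (w 0) P d, hdP, hd]
    ring
  rw [e3]
  have h3 : 0 ≤ t - t ^ 2 / 2 := by nlinarith [ht.1, ht.2]
  have h4 : 0 ≤ (a 0 * m) ^ 2 * (t - t ^ 2 / 2) := mul_nonneg (sq_nonneg _) h3
  linarith

end Cls

/-- **SPH**. -/
theorem sph_of (hR : ROOT.{u}) (hH : HBN.{u}) (hC : CLS.{u}) (hE : EXJ.{u}) (hN : NEGK.{u})
    (hB : BPLUS.{u}) : SPH.{u} := by
  intro M _ _ _ _ _ _ w hw hK d hd h1 h2 h0 hsimple
  have hV := hw.vol 0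
  obtain ⟨J, hJ⟩ := hE M w hw
  obtain ⟨m, hm⟩ : ∃ m, m = ip (w 0) d (cls (w 0)) := ⟨_, rfl⟩
  rw [← hm] at h0
  have hdd : ip (w 0) d d = -2 := hd.2
  obtain ⟨x, hx⟩ : ∃ x : H2 M, x = cls (w 0) + (m / 2) • d := ⟨_, rfl⟩
  obtain ⟨a0, ha0⟩ := cls_surj x
  have hdx : ip (w 0) d x = 0 := by
    rw [hx, ip_add_right hV, ip_smul_right hV, hdd, ← hm]; ring
  -- some normalised current is `≤ 0` on `x`
  have hex : ∃ S : X2 M →ₗ[ℝ] ℝ, PCur J S ∧ S ≠ 0 ∧ S a0.1 ≤ 0 := by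
    by_contra hno
    push Not at hno
    obtain ⟨a, ha, ht⟩ := hH M w J hJ a0 (fun S hS hS0 => hno S hS hS0)
    have hax : cls a = x := ha.trans ha0
    have hw' : Pos3 (update w 0 a) := pos3_update_of_tame hw hJ ht
    have hip : ∀ b c : H2 M, ip (update w 0 a 0) b c = ip (w 0) b c := fun b c => by
      rw [hw'.ip_eq 0 1 b c]
      have e : update w 0 a 1 = w 1 := update_of_ne (by decide) _ _
      rw [e, hw.ip_eq 1 0 b c]
    obtain ⟨i, hi⟩ := hR M (update w 0 a) hw' ((k3Type_congr hip).2 hK) d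
      (by rw [root_congr hip]; exact hd)
    apply hi
    rw [hip]
    fin_cases i
    · simp only [Fin.zero_eta, update_self]
      rw [hax]; exact hdx
    · have e : update w 0 a 1 = w 1 := update_of_ne (by decide) _ _
      change ip (w 0) d (cls (update w 0 a 1)) = 0
      rw [e]; exact h1
    · have e : update w 0 a 2 = w 2 := update_of_ne (by decide) _ _
      change ip (w 0) d (cls (update w 0 a 2)) = 0
      rw [e]; exact h2
  obtain ⟨S1, hS1, hS10, hS1x⟩ := hex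
  have hl := cur_pos hJ hS1 hS10
  -- a minimiser
  have hmem : ((((S1 (w 0).1)⁻¹ • S1 : X2 M →ₗ[ℝ] ℝ)) : X2 M → ℝ) ∈ SS w J :=
    mem_SS.2 ⟨_, PCur.smul hS1 (inv_nonneg.2 hl.le), by
      rw [LinearMap.smul_apply, smul_eq_mul, inv_mul_cancel₀ hl.ne'], rfl⟩
  obtain ⟨f, hf, hfmin⟩ := (isCompact_SS hJ).exists_isMinOn ⟨_, hmem⟩
    (f := fun f : X2 M → ℝ => f a0.1) (continuous_apply a0.1).continuousOn
  obtain ⟨S, hS, hSw, rfl⟩ := mem_SS.1 hf
  set μ := S a0.1 with hμ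
  have hμ0 : μ ≤ 0 := by
    have h3 : S a0.1 ≤ ((S1 (w 0).1)⁻¹ • S1 : X2 M →ₗ[ℝ] ℝ) a0.1 := hfmin hmem
    refine h3.trans ?_
    rw [LinearMap.smul_apply, smul_eq_mul]
    exact mul_nonpos_of_nonneg_of_nonpos (inv_nonneg.2 hl.le) hS1x
  have hmin : ∀ T : X2 M →ₗ[ℝ] ℝ, PCur J T → μ * T (w 0).1 ≤ T a0.1 := by
    intro T hT
    by_cases hT0 : T = 0
    · rw [hT0]; simp
    · have hTp := cur_pos hJ hT hT0
      have hmT : ((((T (w 0).1)⁻¹ • T : X2 M →ₗ[ℝ] ℝ)) : X2 M → ℝ) ∈ SS w J :=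
        mem_SS.2 ⟨_, PCur.smul hT (inv_nonneg.2 hTp.le), by
          rw [LinearMap.smul_apply, smul_eq_mul, inv_mul_cancel₀ hTp.ne'], rfl⟩
      have h3 : S a0.1 ≤ ((T (w 0).1)⁻¹ • T : X2 M →ₗ[ℝ] ℝ) a0.1 := hfmin hmT
      rw [LinearMap.smul_apply, smul_eq_mul, inv_mul_eq_div, le_div_iff₀ hTp] at h3
      exact h3
  -- the class of `S`
  have hS0 : S ≠ 0 := by
    rintro rfl
    simp at hSw
  obtain ⟨s, hs⟩ := hC M w J hw hJ S hS
  have hs0 : 0 < ip (w 0) s (cls (w 0)) := by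
    rw [← hs]; exact cur_pos hJ hS hS0
  have hs1 : ip (w 0) s (cls (w 1)) = 0 := by
    rw [← hs]; exact cur_anti hJ hS.inv (by decide)
  have hs2 : ip (w 0) s (cls (w 2)) = 0 := by
    rw [← hs]; exact cur_anti hJ hS.inv (by decide)
  have hsx : ip (w 0) s x = μ := by
    rw [← ha0, ← hs]
  have hss : ip (w 0) s s < 0 := by
    by_contra hneg
    have h3 := pos_of_segment hw (hB M w hw) (segment hw hx hm.symm h1 h2 hdd) hs1 hs2 hs0
      (not_lt.1 hneg)
    rw [hsx] at h3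
    linarith
  obtain ⟨σ, d', t, S', hσ, hd', ht, -, hS', hSS⟩ := hN M w J hw hJ hK S s hS hs hss
  have hd'1 := jsph_perp hσ 1 (by decide)
  have hd'2 := jsph_perp hσ 2 (by decide)
  have hd'0 := hσ.pos
  by_cases hdd' : d' = d
  · exact ⟨σ, hdd' ▸ hσ⟩
  exfalso
  have h3 : 0 ≤ ip (w 0) d' d := hsimple d' hd' hd'1 hd'2 hd'0 hdd'
  have h4 : 0 < ip (w 0) d' x := by
    rw [hx, ip_add_right hV, ip_smul_right hV]
    have : 0 ≤ m / 2 * ip (w 0) d' d := mul_nonneg (by linarith) h3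
    linarith
  -- minimality
  have h5 := hmin S' hS'
  have e1 : S (w 0).1 = t * ip (w 0) d' (cls (w 0)) + S' (w 0).1 :=
    (hSS (w 0).1).trans (congrArg (fun z : ℝ => t * z + S' (w 0).1) (hσ.rep (w 0)))
  have e2' : sphI σ (a0.1.1 : F2 E4 M) = ip (w 0) d' x :=
    (hσ.rep a0).trans (congrArg (fun z => ip (w 0) d' z) ha0)
  have e2 : S a0.1 = t * ip (w 0) d' x + S' a0.1 :=
    (hSS a0.1).trans (congrArg (fun z : ℝ => t * z + S' a0.1) e2')
  have h6 : μ * (1 - t * ip (w 0) d' (cls (w 0))) ≤ μ - t * ip (w 0) d' x := by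
    have e3 : S' (w 0).1 = 1 - t * ip (w 0) d' (cls (w 0)) := by linarith
    have e4 : S' a0.1 = μ - t * ip (w 0) d' x := by rw [hμ]; linarith
    rw [← e3, ← e4]; exact h5
  have h7 : t * ip (w 0) d' x ≤ μ * (t * ip (w 0) d' (cls (w 0))) := by linarith
  have h8 : 0 < t * ip (w 0) d' x := mul_pos ht h4
  have h9 : μ * (t * ip (w 0) d' (cls (w 0))) ≤ 0 :=
    mul_nonpos_of_nonpos_of_nonneg hμ0 (mul_pos ht hd'0).le
  linarith

end

end Crest.Agent.R235.Sph_47
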