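import Crest.Agent.R235.Top_837

/-!
Row 235 (S0364), helper417: UNIVERSE REDUCTION.  `main_univ : MAIN.{0} → MAIN.{u}`.
A compact manifold has a copy in `Type`; forms are transported by the identity of `E4`.
-/

set_option autoImplicit false
set_option maxSynthPendingDepth 3

open Set Function Filter MeasureTheory
open scoped Manifold ContDiff Topology

universe u v

namespace Crest.Agent.R235.Univ_417

open Crest.Agent.R240 Crest.Agent.R240.Ch Crest.Agent.R235

noncomputable section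

/-! ### smallness -/

theorem small_of_compact (M : Type u) [TopologicalSpace M] [CompactSpace M] [ChartedSpace E4 M] :
    Small.{0} M := by
  obtain ⟨t, ht⟩ := (isCompact_univ (X := M)).elim_nhds_subcover
    (fun x => (chartAt E4 x).source) (fun x _ => chart_source_mem_nhds E4 x)
  have h : ∀ x : M, ∃ i : t, x ∈ (chartAt E4 (i.1)).source := by
    intro x
    have := ht.2 (mem_univ x)
    simp only [mem_iUnion] at this
    obtain ⟨i, hi, hx⟩ := this
    exact ⟨⟨i, hi⟩, hx⟩
  choose f hf using h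
  let e := Fintype.equivFin t
  refine small_of_injective (β := Fin (Fintype.card t) × E4)
    (f := fun x => (e (f x), chartAt E4 (f x).1 x)) ?_
  intro x y hxy
  have h1 : f x = f y := e.injective (Prod.ext_iff.1 hxy).1
  have h2 : chartAt E4 (f x).1 x = chartAt E4 (f y).1 y := (Prod.ext_iff.1 hxy).2
  rw [← h1] at h2
  exact (chartAt E4 (f x).1).injOn (hf x) (by rw [h1]; exact hf y) h2

/-! ### transport -/

section Transport

variable {M : Type u} [TopologicalSpace M] [cM : ChartedSpace E4 M]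
variable {N : Type v} [TopologicalSpace N]

/-- the pulled back charts. -/
@[reducible] def pullC (Φ : N ≃ₜ M) : ChartedSpace E4 N where
  atlas := {e | ∃ e' ∈ atlas E4 M, e = Φ.toOpenPartialHomeomorph.trans e'}
  chartAt y := Φ.toOpenPartialHomeomorph.trans (chartAt E4 (Φ y))
  mem_chart_source y := by simp
  chart_mem_atlas y := ⟨_, chart_mem_atlas _ _, rfl⟩

theorem pullC_manifold [IsManifold 𝓘(ℝ, E4) ∞ M] (Φ : N ≃ₜ M) :
    @IsManifold ℝ _ E4 _ _ E4 _ 𝓘(ℝ, E4) ∞ N _ (pullC Φ) := by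
  let _ := pullC Φ
  have _ : HasGroupoid M (contDiffGroupoid ∞ 𝓘(ℝ, E4)) := inferInstance
  refine @IsManifold.mk ℝ _ E4 _ _ E4 _ 𝓘(ℝ, E4) ∞ N _ _ ⟨?_⟩
  rintro _ _ ⟨a, ha, rfl⟩ ⟨b, hb, rfl⟩
  have h : (Φ.toOpenPartialHomeomorph.trans a).symm.trans (Φ.toOpenPartialHomeomorph.trans b) =
      a.symm.trans b := by
    rw [OpenPartialHomeomorph.trans_symm_eq_symm_trans_symm, OpenPartialHomeomorph.trans_assoc,
      ← OpenPartialHomeomorph.trans_assoc Φ.toOpenPartialHomeomorph.symm,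
      ← Homeomorph.symm_toOpenPartialHomeomorph, ← Homeomorph.trans_toOpenPartialHomeomorph,
      Homeomorph.symm_trans_self, Homeomorph.refl_toOpenPartialHomeomorph,
      OpenPartialHomeomorph.refl_trans]
  rw [h]
  exact StructureGroupoid.compatible _ ha hb

/-- the charts of `N` are the pulled back ones. -/
def IsPull [ChartedSpace E4 N] (Φ : N ≃ₜ M) : Prop :=
  ∀ y : N, chartAt E4 y = Φ.toOpenPartialHomeomorph.trans (chartAt E4 (Φ y))

variable [IsManifold 𝓘(ℝ, E4) ∞ M] [ChartedSpace E4 N] [IsManifold 𝓘(ℝ, E4) ∞ N]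
variable {Φ : N ≃ₜ M}

theorem tcc_pull (h : IsPull Φ) (p q z : N) :
    tcc (E := E4) p q z = tcc (E := E4) (Φ p) (Φ q) (Φ z) := by
  rw [tcc_eq_fderiv, tcc_eq_fderiv, h p, h q]
  have : ((Φ.toOpenPartialHomeomorph.trans (chartAt E4 (Φ q))) ∘
      (Φ.toOpenPartialHomeomorph.trans (chartAt E4 (Φ p))).symm : E4 → E4) =
      (chartAt E4 (Φ q)) ∘ (chartAt E4 (Φ p)).symm := by
    funext y
    simp
  rw [this]
  simp

/-- push-forward of two-forms. -/
def pf2 (Φ : N ≃ₜ M) (a : F2 E4 N) : F2 E4 M := fun x => a (Φ.symm x)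

/-- push-forward of one-forms. -/
def pf1 (Φ : N ≃ₜ M) (a : F1 E4 N) : F1 E4 M := fun x => a (Φ.symm x)

theorem rep_pf2 (h : IsPull Φ) (a : F2 E4 N) (p : N) (y : E4) :
    rep (Φ p) (pf2 Φ a) y = rep p a y := by
  ext u v
  rw [rep_apply, rep_apply, tcc_pull h, h p]
  simp [pf2, at2]

theorem rep_pf1 (h : IsPull Φ) (a : F1 E4 N) (p : N) (y : E4) :
    rep1 (Φ p) (pf1 Φ a) y = rep1 p a y := by
  ext u
  rw [rep1_apply, rep1_apply, tcc_pull h, h p]
  simp [pf1, at1]

omit [IsManifold 𝓘(ℝ, E4) ∞ M] [IsManifold 𝓘(ℝ, E4) ∞ N] in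
theorem target_pull (h : IsPull Φ) (p : N) :
    (chartAt E4 p).target = (chartAt E4 (Φ p)).target := by
  rw [h p]; simp

theorem smooth2_pf2 (h : IsPull Φ) {a : F2 E4 N} : Smooth2 (pf2 Φ a) ↔ Smooth2 a := by
  constructor
  · rintro ⟨h1, h2⟩
    refine ⟨fun x v => ?_, fun p => ?_⟩
    · have := h1 (Φ x) v
      simpa [pf2, at2] using this
    · have := h2 (Φ p)
      rw [target_pull h]
      exact this.congr fun y _ => (rep_pf2 h a p y).symm
  · rintro ⟨h1, h2⟩
    refine ⟨fun x v => h1 (Φ.symm x) v, fun q => ?_⟩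
    obtain ⟨p, rfl⟩ := Φ.surjective q
    have := h2 p
    rw [target_pull h] at this
    exact this.congr fun y _ => rep_pf2 h a p y

theorem smooth1_pf1 (h : IsPull Φ) {a : F1 E4 N} : Smooth1 (pf1 Φ a) ↔ Smooth1 a := by
  constructor
  · intro h2 p
    have := h2 (Φ p)
    rw [target_pull h]
    exact this.congr fun y _ => (rep_pf1 h a p y).symm
  · intro h2 q
    obtain ⟨p, rfl⟩ := Φ.surjective q
    have := h2 p
    rw [target_pull h] at this
    exact this.congr fun y _ => rep_pf1 h a p y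

theorem closed2_pf2 (h : IsPull Φ) {a : F2 E4 N} : Closed2 (pf2 Φ a) ↔ Closed2 a := by
  have hr : ∀ p : N, rep (Φ p) (pf2 Φ a) = rep p a := fun p => funext (rep_pf2 h a p)
  constructor
  · intro h1 p y hy u v w
    have := h1 (Φ p) y (by rwa [← target_pull h]) u v w
    rwa [hr p] at this
  · intro h1 q y hy u v w
    obtain ⟨p, rfl⟩ := Φ.surjective q
    rw [hr p]
    exact h1 p y (by rwa [target_pull h]) u v w

theorem isEx_pf2 (h : IsPull Φ) {a : F2 E4 N} : IsEx (pf2 Φ a) ↔ IsEx a := by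
  have hr : ∀ p : N, rep (Φ p) (pf2 Φ a) = rep p a := fun p => funext (rep_pf2 h a p)
  constructor
  · rintro ⟨S, hS, h1⟩
    have hS' : pf1 Φ (fun y => S (Φ y)) = S := by funext x; simp [pf1]
    refine ⟨fun y => S (Φ y), (smooth1_pf1 h).1 (by rwa [hS']), fun p y hy => ?_⟩
    have := h1 (Φ p) y (by rwa [← target_pull h])
    rw [hr p] at this
    rw [this]
    have h3 : rep1 p (fun y => S (Φ y)) = rep1 (Φ p) S := by
      have := fun y => rep_pf1 h (fun y => S (Φ y)) p y
      rw [hS'] at this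
      exact (funext this).symm
    rw [h3]
  · rintro ⟨S, hS, h1⟩
    refine ⟨pf1 Φ S, (smooth1_pf1 h).2 hS, fun q y hy => ?_⟩
    obtain ⟨p, rfl⟩ := Φ.surjective q
    rw [hr p, h1 p y (by rwa [target_pull h])]
    have h3 : rep1 (Φ p) (pf1 Φ S) = rep1 p S := funext (rep_pf1 h S p)
    rw [h3]

/-- push-forward of smooth two-forms. -/
def pX (h : IsPull Φ) : X2 N ≃ₗ[ℝ] X2 M where
  toFun a := ⟨pf2 Φ a.1, (smooth2_pf2 h).2 a.2⟩
  invFun a := ⟨fun y => a.1 (Φ y), (smooth2_pf2 h).1 (by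
    have : pf2 Φ (fun y => a.1 (Φ y)) = a.1 := by funext x; simp [pf2]
    rw [this]; exact a.2)⟩
  map_add' a b := rfl
  map_smul' r a := rfl
  left_inv a := by apply Subtype.ext; funext y; simp [pf2]
  right_inv a := by apply Subtype.ext; funext y; simp [pf2]

/-- push-forward of closed two-forms. -/
def pZ (h : IsPull Φ) : Z2 N ≃ₗ[ℝ] Z2 M where
  toFun a := ⟨pX h a.1, (closed2_pf2 h).2 a.2⟩
  invFun a := ⟨(pX h).symm a.1, (closed2_pf2 h).1 (by
    have : pf2 Φ ((pX h).symm a.1).1 = a.1.1 := congrArg Subtype.val ((pX h).apply_symm_apply a.1)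
    rw [this]; exact a.2)⟩
  map_add' a b := rfl
  map_smul' r a := rfl
  left_inv a := by apply Subtype.ext; exact (pX h).symm_apply_apply a.1
  right_inv a := by apply Subtype.ext; exact (pX h).apply_symm_apply a.1

theorem val_pZ (h : IsPull Φ) (a : Z2 N) (x : M) : val (pZ h a) x = val a (Φ.symm x) := rfl

/-- push-forward of triples. -/
def pT (h : IsPull Φ) (w : Trip N) : Trip M := fun i => pZ h (w i)

theorem pos3_pT (h : IsPull Φ) {w : Trip N} : Pos3 (pT h w) ↔ Pos3 w := by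
  constructor
  · intro hw x c hc
    have := hw (Φ x) c hc
    simpa [pT, val_pZ] using this
  · intro hw x c hc
    exact hw (Φ.symm x) c hc

theorem hk_pT (h : IsPull Φ) {w : Trip N} (hw : HK w) : HK (pT h w) := by
  obtain ⟨G, hG, h1⟩ := hw
  exact ⟨G, hG, fun x => h1 (Φ.symm x)⟩

theorem seg_pT (h : IsPull Φ) (w w' : Trip N) (t : ℝ) :
    seg (pT h w) (pT h w') t = pT h (seg w w' t) := by
  funext i
  simp [seg, pT]

theorem cls_pT (h : IsPull Φ) {a b : Z2 N} (hab : cls a = cls b) :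
    cls (pZ h a) = cls (pZ h b) := by
  have h1 : a - b ∈ B2 N := (Submodule.Quotient.eq _).1 hab
  refine (Submodule.Quotient.eq _).2 ?_
  have h2 : IsEx (((a - b).1 : X2 N) : F2 E4 N) := h1
  have h3 : IsEx (((pZ h (a - b)).1 : X2 M) : F2 E4 M) := (isEx_pf2 h).2 h2
  rw [map_sub] at h3
  exact h3

theorem joined_pT (h : IsPull Φ) {w w' : Trip N} (hw : Joined w w') :
    Joined (pT h w) (pT h w') := by
  refine Relation.ReflTransGen.lift (pT h) (fun a b hab => ?_) w w' hw
  obtain ⟨h1, h2⟩ := hab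
  refine ⟨fun t ht0 ht1 => ?_, fun i => cls_pT h (h2 i)⟩
  rw [seg_pT]
  exact (pos3_pT h).2 (h1 t ht0 ht1)

end Transport

/-- it is enough to treat manifolds in `Type`. -/
theorem main_univ (H : MAIN.{0}) : MAIN.{u} := by
  intro M _ _ _ _ _ _ w hw
  have _ := small_of_compact M
  let _ : TopologicalSpace (Shrink.{0} M) :=
    TopologicalSpace.induced (equivShrink.{0} M).symm inferInstance
  let Φ : Shrink.{0} M ≃ₜ M := Equiv.toHomeomorphOfIsInducing (equivShrink M).symm ⟨rfl⟩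
  let _ := pullC Φ
  have _ := pullC_manifold (M := M) Φ
  have _ : T2Space (Shrink.{0} M) := Φ.symm.t2Space
  have _ : CompactSpace (Shrink.{0} M) := Φ.symm.compactSpace
  have _ : ConnectedSpace (Shrink.{0} M) := Φ.symm.surjective.connectedSpace Φ.symm.continuous
  have hΦ : IsPull Φ := fun y => rfl
  obtain ⟨w', h1, h2⟩ := H (Shrink.{0} M) (fun i => (pZ hΦ).symm (w i)) (by
    rw [← pos3_pT hΦ]
    have : pT hΦ (fun i => (pZ hΦ).symm (w i)) = w := by funext i; simp [pT]
    rwa [this])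
  refine ⟨pT hΦ w', ?_, hk_pT hΦ h2⟩
  have := joined_pT hΦ h1
  have h3 : pT hΦ (fun i => (pZ hΦ).symm (w i)) = w := by funext i; simp [pT]
  rwa [h3] at this

end

end Crest.Agent.R235.Univ_417
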