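import Crest.Agent.R235.TopR_844
import Crest.Agent.R235.CurTop_844
import Crest.Agent.R235.Cone_288
import Crest.Agent.R235.HkCone_288
import Crest.Agent.R235.Exj_900
import Crest.Agent.R235.Hbn_195
import Crest.Agent.R235.LatK_766
import Crest.Agent.R235.LatTR_723
import Crest.Agent.R235.LatH_283
import Crest.Agent.R235.Dich_723
import Crest.Agent.R235.H1Fin_692
import Crest.Agent.R235.Univ_417
import Crest.Agent.R235.Glue_856
import Crest.Agent.R235.STF_861
import Crest.Agent.R235.PD_819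
import Crest.Agent.R235.Integ_796
import Crest.Agent.R235.Sph_47

/-!
Row 235 (S0364), helper844: FINAL MAP (real torus type), version 2 (20:55Z).
`MAIN` (hence `S0364` by `Glue_856.result_of_main`) from the nodes which are still open:
`SIG235, EVEN235, BPLUS, FAM4W` (⇒ `DICHR`), `ROOT`, `JDEC`, `ADJ`, `KUM`, `TORR`.
`KUM` uses in addition `SPH` (⇐ `NEGK` ⇐ `ISEC, JSAME`) and `DISJ`.
-/

set_option autoImplicit false

universe u

namespace Crest.Agent.R235

open DichProps_723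

/-- `CLS` from Poincaré duality `PD`. -/
theorem cls_of_pd (h : STF_861.PD.{u}) : CLS.{u} := by
  intro M _ _ _ _ _ _ w J hw _ S hS
  obtain ⟨s, hs⟩ := h M w hw S hS.closed
  exact ⟨cls s, fun b => by rw [hs b, ip_cls (hw.vol 0)]⟩

/-- `CLS` from the dichotomy. -/
theorem cls_of_dichr (h : DICHR.{u}) : CLS.{u} := cls_of_pd (PD_819.pd_of_dichr h)

/-- `INTEG` is a theorem. -/
theorem integ : INTEG.{u} := by
  intro M _ _ _ _ _ _ w J _ _ c N p a hp ha
  exact Integ_796.integ c hp ha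

/-- `DICHR` from its open nodes. -/
theorem dichr_open (hS : SIG235.{0}) (hE : EVEN235.{0}) (hB : BPLUS.{0}) (hF4 : FAM4W.{0}) :
    DICHR.{0} :=
  dichr_of HZFin_524.hzlat H1Fin_692.h1bas hS hE hB hF4 LatH_283.evenclass

/-- `NEGN` from the open nodes. -/
theorem negn_open (hD : DICHR.{0}) (hJ : JDEC.{0}) (hA : Adj.ADJ.{0}) : NEGN.{0} :=
  CurTop_844.negn hJ (cls_of_dichr hD) integ hA hD

/-- `ZD` from the open nodes. -/
theorem zd_open (hD : DICHR.{0}) (hJ : JDEC.{0}) (hA : Adj.ADJ.{0}) : STF_861.ZD.{0} :=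
  CurTop_844.zd hJ (cls_of_dichr hD) integ hA hD

/-- `NEGK` from the open nodes. -/
theorem negk_open (hD : DICHR.{0}) (hJ : JDEC.{0}) (hA : Adj.ADJ.{0}) (hI : Adj.ISEC.{0})
    (hE : JSAME.{0}) : NEGK.{0} :=
  CurTop_844.negk hJ (cls_of_dichr hD) integ hA hD hI hE

/-- `STF` from the open nodes. -/
theorem stf_open (hD : DICHR.{0}) (hJ : JDEC.{0}) (hA : Adj.ADJ.{0}) : STF.{0} :=
  STFin_861.stf Exj_900.exj (bplus_of_dichr hD) (zd_open hD hJ hA) (PD_819.pd_of_dichr hD)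

/-- `CONE` from the open nodes. -/
theorem cone_open (hD : DICHR.{0}) (hJ : JDEC.{0}) (hA : Adj.ADJ.{0}) : CONE.{0} :=
  Cone_288.cone_of Hbn_195.hbn Exj_900.exj (cls_of_dichr hD) (negn_open hD hJ hA)
    (bplus_of_dichr hD)

/-- `HKCONE` from the open nodes. -/
theorem hkcone_open (hD : DICHR.{0}) (hJ : JDEC.{0}) (hA : Adj.ADJ.{0}) : HKCONE.{0} :=
  HkCone_288.hkcone_of (stf_open hD hJ hA) (bplus_of_dichr hD)

/-- `SPH` from the open nodes. -/
theorem sph_open (hD : DICHR.{0}) (hR : ROOT.{0}) (hJ : JDEC.{0}) (hA : Adj.ADJ.{0})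
    (hI : Adj.ISEC.{0}) (hE : JSAME.{0}) : SPH.{0} :=
  Sph_47.sph_of hR Hbn_195.hbn (cls_of_dichr hD) Exj_900.exj (negk_open hD hJ hA hI hE)
    (bplus_of_dichr hD)

/-- THE MAP. -/
theorem finalR_of (hS : SIG235.{0}) (hE : EVEN235.{0}) (hB : BPLUS.{0}) (hF4 : FAM4W.{0})
    (hR : ROOT.{0}) (hJ : JDEC.{0}) (hA : Adj.ADJ.{0}) (hK : KUM.{0}) (hT : TORR.{0}) :
    MAIN.{u} :=
  have hD : DICHR.{0} := dichr_open hS hE hB hF4
  Univ_417.main_univ (main_of_props' hD Exj_900.exj hR (cone_open hD hJ hA)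
    (hkcone_open hD hJ hA) LatK_766.latk hK lattr hT)

end Crest.Agent.R235
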