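import Crest.Agent.R235.FvB_844

/-!
Row 235 (S0364), PACKAGE FAM (helper844): **`fwx0c : FWX0C`**.
-/

set_option autoImplicit false
set_option maxSynthPendingDepth 3
set_option linter.unusedSectionVars false

open scoped ContDiff ENNReal NNReal Topology Manifold Bundle RealInnerProductSpace
open MeasureTheory Set Filter Metric Bundle Module

universe v

namespace Crest.Agent.R235.FvX_844

open Crest.Agent.R249.Tv57 Crest.Agent.R247.Ms322 Crest.Agent.R247.Dir593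
open Crest.Agent.R235.SWDefs_53 Crest.Agent.R235.CptB_755 Crest.Agent.R235.Fs4_546
open Crest.Agent.R235.CptC_755 Crest.Agent.R235.Cpt_755 Crest.Agent.R235.Fred_649
open Crest.Agent.R235.Swx_333 Crest.Agent.R235.SWSym_451 Crest.Agent.R235.SWJc_365
open Crest.Agent.R235.FamR_151 Crest.Agent.R235.SWJn_333 Crest.Agent.R235.SWJu_133
open Crest.Agent.R235.FvA_844 Crest.Agent.R235.FamTop_307 Crest.Agent.R235.FamTop2_307
open Crest.Agent.R235.FamW_307

noncomputable section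

local notation "ipp" => Crest.Agent.R249.Tv57.ip 4

section main

variable {M : Type v} [MetricSpace M] [CompactSpace M] [ConnectedSpace M]
  [ChartedSpace (EuclideanSpace ℝ (Fin 4)) M] [IsManifold (𝓡 4) ∞ M]
  [RiemannianBundle (fun p : M => TangentSpace (𝓡 4) p)]
  [IsContMDiffRiemannianBundle (𝓡 4) ∞ (EuclideanSpace ℝ (Fin 4))
    (fun p : M => TangentSpace (𝓡 4) p)]
  [IsRiemannianManifold (𝓡 4) M] [MeasurableSpace M] [BorelSpace M]
  [SecondCountableTopology M] [Nonempty M] [IsFiniteMeasureOnCompacts (μHE[4] : Measure M)]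
  {κ0 κ1 κT : Type} [Fintype κ0] [Fintype κ1] [Fintype κT] {b bp : ℕ}
  {S : SWS M κ0 κ1 κT} {d : SWD M κT}
  {X : Type v} [NormedAddCommGroup X] [InnerProductSpace ℂ X] [CompleteSpace X]
  {eX : X ≃L[ℝ] S.D0.toAD.WE}

/-- the harmonic elements `(0, w_i)`. -/
def HW (hS : S.OK) (hd : d.Adm S) (K : KerD S.DL S.H.A 4) : HarB hS 3 where
  Φ i := el hS hd i.succ
  span v := by
    obtain ⟨hfin, hrank⟩ := finrank_KrS K
    have hspan : Submodule.span ℝ (Set.range (el hS hd)) = ⊤ :=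
      (el_li hS hd).span_eq_top_of_card_eq_finrank' (by rw [hrank, Fintype.card_fin])
    have hv : v ∈ Submodule.span ℝ (Set.range (el hS hd)) := by rw [hspan]; trivial
    obtain ⟨g, hg⟩ := (Submodule.mem_span_range_iff_exists_fun ℝ).1 hv
    refine ⟨g 0, fun i => g i.succ, ?_⟩
    rw [← hg, Fin.sum_univ_succ]
    rfl

theorem HW_har (hS : S.OK) (hd : d.Adm S) (K : KerD S.DL S.H.A 4) :
    (HW hS hd K).har = hpr hd := rfl

/-- the linear isomorphism `t ↦ (⟨r w_t, w_i⟩)_i`. -/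
def Lr (hd : d.Adm S) : E3 ≃L[ℝ] E3 :=
  (LinearEquiv.ofBijective (gA d) (gA_bij hd)).toContinuousLinearEquiv

theorem Lr_apply (hd : d.Adm S) (t : E3) : Lr hd t = gA d t := rfl

/-- **no zero of the reducible part on `|t| = 1`**. -/
theorem seg (hS : S.OK) (hd : d.Adm S) (K : KerD S.DL S.H.A 4) {R : ℝ} (hR : 0 < R)
    {t : E3} (ht : ‖t‖ = 1) {s : ℝ} (hs : s ∈ Icc (0 : ℝ) 1) :
    (1 - s) • Ec eX (HW hS hd K) d R t 0 + s • Lr hd t ≠ 0 := by
  have e : Ec eX (HW hS hd K) d R t 0 = hpr hd (Fq (S := S) d R t 0) := by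
    rw [Ec_of ht.le]
    unfold Ex KA
    rw [map_zero]
    rfl
  rw [e, Lr_apply]
  exact hred hd hs.1 hs.2 ht (V := hpr hd (Fq (S := S) d R t 0)) (hpr_zero hS hd hR ht.le)

end main

/-- a real vector is a vector of the unit cube plus an integral vector. -/
theorem exists_floor {b : ℕ} (h : Fin b → ℝ) :
    ∃ (h' : Fin b → ℝ) (k : Fin b → ℤ), (∀ i, 0 ≤ h' i ∧ h' i ≤ 1) ∧ h = h' + zv k :=
  ⟨fun i => Int.fract (h i), fun i => ⌊h i⌋,
    fun i => ⟨Int.fract_nonneg _, (Int.fract_lt_one _).le⟩, funext fun i => by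
      show h i = Int.fract (h i) + ((⌊h i⌋ : ℤ) : ℝ)
      rw [add_comm]
      exact (Int.floor_add_fract (h i)).symm⟩

/-- **FWX0C**. -/
theorem fwx0c : FWX0C.{v} := by
  intro M _ _ _ _ _ _ _ _ _ _ _ _ _ κ0 κ1 κT _ _ _ S cc J1 j d hS hc hJ hj hd X Y _ _ _ _ _ _
    Φ eX eY φ h hind hK hno
  obtain ⟨K⟩ := hK
  obtain ⟨s0⟩ := spec_DL hS
  obtain ⟨C0, hC00, hC0⟩ := SWJn_900.supJ hS hj hd
  have hm : 0 ≤ √C0 := Real.sqrt_nonneg _
  have hR : 0 < √C0 + 1 := by positivity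
  have hCR : C0 < (√C0 + 1) ^ 2 := by
    have h1 := Real.sq_sqrt hC00
    nlinarith
  have hsup : ∀ (h : Fin 4 → ℝ) (t : E3) (a : κT → M → ℝ) (u : κ0 → M → ℝ), ‖t‖ ≤ 1 →
      TSol S (d.tw j h) (√C0 + 1) t a u →
      ∀ᵐ z ∂(μHE[4] : Measure M), ∑ y, u y z ^ 2 ≤ C0 := fun h t a u ht hT =>
    hC0 h _ hCR hR t a u ht hT
  have hw := swd h hS hc hJ hj hd s0 (HW hS hd K) hR hsup
  obtain ⟨W, hWf, hWs, n, fr, fR, fW, R', hfw, hnz⟩ := fw_nz hw (Lr hd)
    (fun t ht s hs => seg hS hd K hR ht hs) hind (by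
      intro t k x ht h1 h2
      obtain ⟨k', m, hk', rfl⟩ := exists_floor k
      have h3 := hw.shift h2
      have h4 := hw.Ec_U t (-m) x
      rw [h1] at h4
      exact hno t k' _ _ ht hk' (sol_of_zero h hS hj hd s0 (HW hS hd K) hR hCR hsup ht.le h4 h3))
  exact ⟨W, hWf, n, _, fr, Lr hd, fR, fW, R', hWs, hfw, hnz⟩

end

end Crest.Agent.R235.FvX_844
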