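import Crest.Agent.R235.SWJd_952
import Crest.Agent.R275.FredC_685

/-!
Row 235 (S0364), node FAM (helper952), for `FamTop_307.FWXH`: the linearisation at the parallel
section is ONTO.

* `onto_of_ker` : abstract index count: `D` Fredholm of index 0, `K` compact, `dim P = dim Q + N`,
  kernel of `(κ, v) ↦ (A v, D v + L κ + K v)` of dimension `≤ N`: the map is onto;
* `compact_KP'` : (K1);
* `LT`, `LT_apply`, `hasFDerivAt_LT` : the derivative of
  `(h, x) ↦ (KA x, Ah P x + ∑ h_i LI_i x + KP x)` at `(0, x0)`;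
* `onto` : (K2), and `ker_LT : ker = ℝ (0, II x0)`.
-/

set_option autoImplicit false
set_option maxSynthPendingDepth 3
set_option linter.unusedSectionVars false

open scoped ContDiff ENNReal NNReal Topology Manifold Bundle RealInnerProductSpace
open MeasureTheory Set Filter Metric Bundle Module

universe v

noncomputable section

namespace Crest.Agent.R235.SWJo_952

open Crest.Agent.R249.Tv57 Crest.Agent.R247.Ms322 Crest.Agent.R247.Dir593
open Crest.Agent.R235.SWDefs_53 Crest.Agent.R235.CptB_755 Crest.Agent.R235.Fs4_546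
open Crest.Agent.R235.CptC_755 Crest.Agent.R235.Cpt_755 Crest.Agent.R235.Fred_649
open Crest.Agent.R235.Swx_333 Crest.Agent.R235.SWSym_451 Crest.Agent.R235.SWJc_365
open Crest.Agent.R235.SWFre_952 Crest.Agent.R235.SWJd_952 Crest.Agent.R275

/-! ### the index count -/

section count

variable {𝕜 E F P Q : Type*} [RCLike 𝕜] [NormedAddCommGroup E] [NormedSpace 𝕜 E]
  [NormedAddCommGroup F] [NormedSpace 𝕜 F] [NormedAddCommGroup P] [NormedSpace 𝕜 P]
  [NormedAddCommGroup Q] [NormedSpace 𝕜 Q] [FiniteDimensional 𝕜 P] [FiniteDimensional 𝕜 Q]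

theorem compact_of_dom (T : P →L[𝕜] F) : IsCompactOperator T := by
  have := FiniteDimensional.proper 𝕜 P
  have h1 : IsCompactOperator (id : P → P) :=
    isCompactOperator_id_iff_locallyCompactSpace.2 inferInstance
  exact h1.clm_comp T

theorem compact_of_cod (T : E →L[𝕜] Q) : IsCompactOperator T := by
  have := FiniteDimensional.proper 𝕜 Q
  have h1 : IsCompactOperator (id : Q → Q) :=
    isCompactOperator_id_iff_locallyCompactSpace.2 inferInstance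
  exact h1.comp_clm T

/-- block map `(κ, v) ↦ (A v, D v + L κ + K v)`. -/
def blk (D K : E →L[𝕜] F) (L : P →L[𝕜] F) (A : E →L[𝕜] Q) : (P × E) →L[𝕜] Q × F :=
  (A.comp (ContinuousLinearMap.snd 𝕜 P E)).prod
    (D.comp (ContinuousLinearMap.snd 𝕜 P E) + L.comp (ContinuousLinearMap.fst 𝕜 P E) +
      K.comp (ContinuousLinearMap.snd 𝕜 P E))

omit [FiniteDimensional 𝕜 P] [FiniteDimensional 𝕜 Q] in
theorem blk_apply (D K : E →L[𝕜] F) (L : P →L[𝕜] F) (A : E →L[𝕜] Q) (w : P × E) :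
    blk D K L A w = (A w.2, D w.2 + L w.1 + K w.2) := rfl

theorem fred_prod0 {D : E →L[𝕜] F} (hD : Fred685.Fred D) :
    Fred685.Fred ((0 : P →L[𝕜] Q).prodMap D) := by
  obtain ⟨S, h1, h2⟩ := hD
  refine ⟨(0 : Q →L[𝕜] P).prodMap S, ?_, ?_⟩
  · have e : (1 : P × E →L[𝕜] P × E) - ((0 : Q →L[𝕜] P).prodMap S).comp
        ((0 : P →L[𝕜] Q).prodMap D) =
        (ContinuousLinearMap.inl 𝕜 P E).comp (ContinuousLinearMap.fst 𝕜 P E) +
        (ContinuousLinearMap.inr 𝕜 P E).comp (((1 : E →L[𝕜] E) - S.comp D).comp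
          (ContinuousLinearMap.snd 𝕜 P E)) := by
      ext w <;> simp
    rw [e]
    exact ((compact_of_dom (ContinuousLinearMap.inl 𝕜 P E)).comp_clm
      (ContinuousLinearMap.fst 𝕜 P E)).add ((h1.comp_clm (ContinuousLinearMap.snd 𝕜 P E)).clm_comp
        (ContinuousLinearMap.inr 𝕜 P E))
  · have e : (1 : Q × F →L[𝕜] Q × F) - ((0 : P →L[𝕜] Q).prodMap D).comp
        ((0 : Q →L[𝕜] P).prodMap S) =
        (ContinuousLinearMap.inl 𝕜 Q F).comp (ContinuousLinearMap.fst 𝕜 Q F) +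
        (ContinuousLinearMap.inr 𝕜 Q F).comp (((1 : F →L[𝕜] F) - D.comp S).comp
          (ContinuousLinearMap.snd 𝕜 Q F)) := by
      ext w <;> simp
    rw [e]
    exact ((compact_of_dom (ContinuousLinearMap.inl 𝕜 Q F)).comp_clm
      (ContinuousLinearMap.fst 𝕜 Q F)).add ((h2.comp_clm (ContinuousLinearMap.snd 𝕜 Q F)).clm_comp
        (ContinuousLinearMap.inr 𝕜 Q F))

omit [FiniteDimensional 𝕜 P] in
theorem idx_zero : Fred685.idx (0 : P →ₗ[𝕜] Q) = (finrank 𝕜 P : ℤ) - finrank 𝕜 Q := by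
  unfold Fred685.idx
  rw [LinearMap.ker_zero, LinearMap.range_zero, finrank_top,
    (Submodule.quotEquivOfEqBot (⊥ : Submodule 𝕜 Q) rfl).finrank_eq]

theorem finIdx_zero : Fred685.FinIdx (0 : P →ₗ[𝕜] Q) := by
  refine ⟨?_, ?_⟩ <;> infer_instance

variable [CompleteSpace E] [CompleteSpace F]

theorem ind_prod0 {D : E →L[𝕜] F} (hD : Fred685.Fred D) :
    Fred685.ind ((0 : P →L[𝕜] Q).prodMap D) =
      (finrank 𝕜 P : ℤ) - finrank 𝕜 Q + Fred685.ind D := by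
  have h := Fred685.idx_prodMap (finIdx_zero (P := P) (Q := Q) (𝕜 := 𝕜)) hD.finIdx
  rw [idx_zero] at h
  exact h

theorem blk_eq (D K : E →L[𝕜] F) (L : P →L[𝕜] F) (A : E →L[𝕜] Q) :
    blk D K L A = (0 : P →L[𝕜] Q).prodMap D + blk 0 K L A := by
  refine ContinuousLinearMap.ext fun w => ?_
  show (A w.2, D w.2 + L w.1 + K w.2) = ((0 : Q), D w.2) + (A w.2, (0 : F) + L w.1 + K w.2)
  rw [Prod.mk_add_mk]
  simp only [zero_add, add_assoc]

theorem compact_blk {K : E →L[𝕜] F} (hK : IsCompactOperator K) (L : P →L[𝕜] F) (A : E →L[𝕜] Q) :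
    IsCompactOperator (blk 0 K L A) := by
  have e : blk 0 K L A = (ContinuousLinearMap.inl 𝕜 Q F).comp (A.comp
        (ContinuousLinearMap.snd 𝕜 P E)) + (ContinuousLinearMap.inr 𝕜 Q F).comp
        (L.comp (ContinuousLinearMap.fst 𝕜 P E)) + (ContinuousLinearMap.inr 𝕜 Q F).comp
        (K.comp (ContinuousLinearMap.snd 𝕜 P E)) := by
    refine ContinuousLinearMap.ext fun w => ?_
    show (A w.2, (0 : F) + L w.1 + K w.2) = ((A w.2, (0 : F)) + ((0 : Q), L w.1)) +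
      ((0 : Q), K w.2)
    simp
  rw [e]
  exact ((((compact_of_cod A).comp_clm (ContinuousLinearMap.snd 𝕜 P E)).clm_comp
    (ContinuousLinearMap.inl 𝕜 Q F)).add (((compact_of_dom L).comp_clm
      (ContinuousLinearMap.fst 𝕜 P E)).clm_comp (ContinuousLinearMap.inr 𝕜 Q F))).add
    ((hK.comp_clm (ContinuousLinearMap.snd 𝕜 P E)).clm_comp (ContinuousLinearMap.inr 𝕜 Q F))

theorem fred_blk {D K : E →L[𝕜] F} (hD : Fred685.Fred D) (hK : IsCompactOperator K)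
    (L : P →L[𝕜] F) (A : E →L[𝕜] Q) : Fred685.Fred (blk D K L A) := by
  rw [blk_eq]
  exact (fred_prod0 hD).add_compact (compact_blk hK L A)

/-- **the index of the block map**. -/
theorem ind_blk {D K : E →L[𝕜] F} (hD : Fred685.Fred D) (hK : IsCompactOperator K)
    (L : P →L[𝕜] F) (A : E →L[𝕜] Q) :
    Fred685.ind (blk D K L A) = (finrank 𝕜 P : ℤ) - finrank 𝕜 Q + Fred685.ind D := by
  have := FiniteDimensional.complete 𝕜 P
  have := FiniteDimensional.complete 𝕜 Q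
  rw [blk_eq, Fred685.ind_add_compact (fred_prod0 hD) (compact_blk hK L A), ind_prod0 hD]

/-- **the count**: a kernel of dimension at most the index forces surjectivity. -/
theorem onto_of_ker {D K : E →L[𝕜] F} (hD : Fred685.Fred D) (hK : IsCompactOperator K)
    (L : P →L[𝕜] F) (A : E →L[𝕜] Q) {w0 : P × E}
    (hi : (finrank 𝕜 P : ℤ) + Fred685.ind D = finrank 𝕜 Q + 1)
    (hker : ∀ w, blk D K L A w = 0 → w ∈ Submodule.span 𝕜 {w0}) :
    Function.Surjective (blk D K L A) ∧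
      LinearMap.ker (blk D K L A : P × E →ₗ[𝕜] Q × F) = Submodule.span 𝕜 {w0} := by
  have := FiniteDimensional.complete 𝕜 P
  have := FiniteDimensional.complete 𝕜 Q
  obtain ⟨f1, f2⟩ := (fred_blk hD hK L A).finIdx
  have h1 := ind_blk hD hK L A
  have h2 : LinearMap.ker (blk D K L A : P × E →ₗ[𝕜] Q × F) ≤ Submodule.span 𝕜 {w0} :=
    fun w hw => hker w hw
  have h3 := Submodule.finrank_mono h2
  have h4 : finrank 𝕜 (Submodule.span 𝕜 {w0}) ≤ 1 :=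
    (finrank_span_le_card ({w0} : Set (P × E))).trans (by simp)
  unfold Fred685.ind Fred685.idx at h1
  have h5 : finrank 𝕜 ((Q × F) ⧸ LinearMap.range (blk D K L A : P × E →ₗ[𝕜] Q × F)) = 0 := by
    unfold Fred685.ind Fred685.idx at hi
    omega
  have h6 : Subsingleton ((Q × F) ⧸ LinearMap.range (blk D K L A : P × E →ₗ[𝕜] Q × F)) :=
    finrank_zero_iff.1 h5
  have h7 := Submodule.Quotient.subsingleton_iff.1 h6
  refine ⟨LinearMap.range_eq_top.1 h7, Submodule.eq_of_le_of_finrank_le h2 ?_⟩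
  unfold Fred685.ind Fred685.idx at hi
  omega

end count

section real

variable {E F Q : Type*} [NormedAddCommGroup E] [NormedSpace ℝ E]
  [NormedAddCommGroup F] [NormedSpace ℝ F] [NormedAddCommGroup Q] [NormedSpace ℝ Q] {b : ℕ}

/-- `κ ↦ ∑ κ_i l_i x`. -/
def lsum (l : Fin b → E →L[ℝ] F) (x : E) : (Fin b → ℝ) →L[ℝ] F :=
  ∑ i, (ContinuousLinearMap.proj (R := ℝ) (φ := fun _ : Fin b => ℝ) i).smulRight (l i x)

theorem lsum_apply (l : Fin b → E →L[ℝ] F) (x : E) (κ : Fin b → ℝ) :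
    lsum l x κ = ∑ i, κ i • l i x := by
  unfold lsum
  rw [_root_.sum_apply]
  rfl

theorem hasFDerivAt_blk {fA : E → Q} {A : E →L[ℝ] Q} {fK : E → F} {K : E →L[ℝ] F} {x0 : E}
    (hA : HasFDerivAt fA A x0) (hK : HasFDerivAt fK K x0) (D : E →L[ℝ] F)
    (l : Fin b → E →L[ℝ] F) :
    HasFDerivAt (fun w : (Fin b → ℝ) × E => (fA w.2, D w.2 + ∑ i, w.1 i • l i w.2 + fK w.2))
      (blk D K (lsum l x0) A) ((0 : Fin b → ℝ), x0) := by
  have e0 : HasFDerivAt (Prod.snd : (Fin b → ℝ) × E → E)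
      (ContinuousLinearMap.snd ℝ (Fin b → ℝ) E) ((0 : Fin b → ℝ), x0) := hasFDerivAt_snd
  have e1 : HasFDerivAt (fun w : (Fin b → ℝ) × E => fA w.2)
      (A.comp (ContinuousLinearMap.snd ℝ (Fin b → ℝ) E)) ((0 : Fin b → ℝ), x0) :=
    HasFDerivAt.comp (g := fA) (f := Prod.snd) ((0 : Fin b → ℝ), x0) hA e0
  have e2 : HasFDerivAt (fun w : (Fin b → ℝ) × E => fK w.2)
      (K.comp (ContinuousLinearMap.snd ℝ (Fin b → ℝ) E)) ((0 : Fin b → ℝ), x0) :=
    HasFDerivAt.comp (g := fK) (f := Prod.snd) ((0 : Fin b → ℝ), x0) hK e0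
  have e3 : HasFDerivAt (fun w : (Fin b → ℝ) × E => D w.2)
      (D.comp (ContinuousLinearMap.snd ℝ (Fin b → ℝ) E)) ((0 : Fin b → ℝ), x0) :=
    (D.comp (ContinuousLinearMap.snd ℝ (Fin b → ℝ) E)).hasFDerivAt
  have e4 : ∀ i, HasFDerivAt (fun w : (Fin b → ℝ) × E => w.1 i • l i w.2)
      (((ContinuousLinearMap.proj (R := ℝ) (φ := fun _ : Fin b => ℝ) i).smulRight
        (l i x0)).comp (ContinuousLinearMap.fst ℝ (Fin b → ℝ) E)) ((0 : Fin b → ℝ), x0) := by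
    intro i
    have f1 : HasFDerivAt (fun w : (Fin b → ℝ) × E => w.1 i)
        ((ContinuousLinearMap.proj (R := ℝ) (φ := fun _ : Fin b => ℝ) i).comp
          (ContinuousLinearMap.fst ℝ (Fin b → ℝ) E)) ((0 : Fin b → ℝ), x0) :=
      ((ContinuousLinearMap.proj (R := ℝ) (φ := fun _ : Fin b => ℝ) i).comp
          (ContinuousLinearMap.fst ℝ (Fin b → ℝ) E)).hasFDerivAt
    have f2 : HasFDerivAt (fun w : (Fin b → ℝ) × E => l i w.2)
        ((l i).comp (ContinuousLinearMap.snd ℝ (Fin b → ℝ) E)) ((0 : Fin b → ℝ), x0) :=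
      ((l i).comp (ContinuousLinearMap.snd ℝ (Fin b → ℝ) E)).hasFDerivAt
    refine (f1.smul f2).congr_fderiv ?_
    refine ContinuousLinearMap.ext fun w => ?_
    show (0 : ℝ) • l i w.2 + w.1 i • l i x0 = w.1 i • l i x0
    rw [zero_smul, zero_add]
  have e5 : HasFDerivAt (fun w : (Fin b → ℝ) × E => ∑ i, w.1 i • l i w.2)
      ((lsum l x0).comp (ContinuousLinearMap.fst ℝ (Fin b → ℝ) E)) ((0 : Fin b → ℝ), x0) := by
    refine (HasFDerivAt.fun_sum fun i _ => e4 i).congr_fderiv ?_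
    refine ContinuousLinearMap.ext fun w => ?_
    rw [_root_.sum_apply]
    show _ = lsum l x0 w.1
    rw [lsum_apply]
    rfl
  exact e1.prodMk ((e3.add e5).add e2)

theorem blk_lsum (D K : E →L[ℝ] F) (l : Fin b → E →L[ℝ] F) (x0 : E) (A : E →L[ℝ] Q)
    (w : (Fin b → ℝ) × E) : blk D K (lsum l x0) A w =
      (A w.2, D w.2 + ∑ i, w.1 i • l i x0 + K w.2) := by
  rw [blk_apply, lsum_apply]

/-- the count, in coordinates. -/
theorem onto_sum [CompleteSpace E] [CompleteSpace F] [FiniteDimensional ℝ Q] {D K : E →L[ℝ] F}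
    (hD : Fred685.Fred D) (hi : Fred685.ind D = 0) (hK : IsCompactOperator K)
    (l : Fin b → E →L[ℝ] F) (x0 : E) (A : E →L[ℝ] Q) (hb : finrank ℝ Q + 1 = b) (v0 : E)
    (hker : ∀ (κ : Fin b → ℝ) (v : E), A v = 0 → D v + ∑ i, κ i • l i x0 + K v = 0 →
      κ = 0 ∧ ∃ c : ℝ, v = c • v0) :
    (∀ y : Q × F, ∃ (κ : Fin b → ℝ) (v : E), A v = y.1 ∧
      D v + ∑ i, κ i • l i x0 + K v = y.2) ∧
    (∀ w : (Fin b → ℝ) × E, blk D K (lsum l x0) A w = 0 → ∃ c : ℝ, w = (0, c • v0)) ∧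
    ∀ c : ℝ, blk D K (lsum l x0) A (0, c • v0) = 0 := by
  have h0 : ∀ w : (Fin b → ℝ) × E, blk D K (lsum l x0) A w = 0 → ∃ c : ℝ, w = (0, c • v0) := by
    intro w hw
    rw [blk_lsum, Prod.mk_eq_zero] at hw
    obtain ⟨h1, c, h2⟩ := hker w.1 w.2 hw.1 hw.2
    exact ⟨c, Prod.ext h1 h2⟩
  obtain ⟨h1, h2⟩ := onto_of_ker hD hK (lsum l x0) A (w0 := ((0 : Fin b → ℝ), v0)) (by
    rw [hi, Module.finrank_fin_fun]
    omega) fun w hw => by
      obtain ⟨c, hc⟩ := h0 w hw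
      rw [hc]
      refine Submodule.mem_span_singleton.2 ⟨c, ?_⟩
      rw [Prod.smul_mk, smul_zero]
  refine ⟨fun y => ?_, h0, fun c => ?_⟩
  · obtain ⟨w, hw⟩ := h1 y
    rw [blk_lsum] at hw
    exact ⟨w.1, w.2, congrArg Prod.fst hw, congrArg Prod.snd hw⟩
  · have h3 : ((0 : Fin b → ℝ), c • v0) ∈ Submodule.span ℝ {((0 : Fin b → ℝ), v0)} :=
      Submodule.mem_span_singleton.2 ⟨c, by rw [Prod.smul_mk, smul_zero]⟩
    rw [← h2] at h3
    exact h3

end real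

/-! ### the Seiberg-Witten map -/

section main

variable {M : Type v} [MetricSpace M] [CompactSpace M] [ConnectedSpace M]
  [ChartedSpace (EuclideanSpace ℝ (Fin 4)) M] [IsManifold (𝓡 4) ∞ M]
  [RiemannianBundle (fun p : M => TangentSpace (𝓡 4) p)]
  [IsContMDiffRiemannianBundle (𝓡 4) ∞ (EuclideanSpace ℝ (Fin 4))
    (fun p : M => TangentSpace (𝓡 4) p)]
  [IsRiemannianManifold (𝓡 4) M] [MeasurableSpace M] [BorelSpace M]
  [SecondCountableTopology M] [Nonempty M] [IsFiniteMeasureOnCompacts (μHE[4] : Measure M)]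
  {κ0 κ1 κT : Type} [Fintype κ0] [Fintype κ1] [Fintype κT] {b bp : ℕ}

/-! ### the Fredholm property and the index of `Ah P` -/

section fredAh

variable {κ κ' : Type} [Fintype κ] [Fintype κ'] {D0 : Dat 4 M κ} {D1 : Dat 4 M κ'}

theorem cpt_of_range {E F : Type*} [NormedAddCommGroup E] [NormedSpace ℝ E]
    [NormedAddCommGroup F] [NormedSpace ℝ F] (T : E →L[ℝ] F) (N : Submodule ℝ F)
    [FiniteDimensional ℝ N] (h : ∀ x, T x ∈ N) : IsCompactOperator T := by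
  have e : T = N.subtypeL.comp (T.codRestrict N h) := rfl
  rw [e]
  exact (compact_of_cod (T.codRestrict N h)).clm_comp N.subtypeL

theorem fred_Ah {P : OpPair D0 D1} (S0 : Spec D0) (S1 : Spec D1) : Fred685.Fred (Ah P) := by
  refine ⟨Go P S1, ?_, ?_⟩
  · have : FiniteDimensional ℝ (Submodule.span ℝ (Set.range fun k : S0.ker =>
        cW D0 (ph S0 k))) := FiniteDimensional.span_of_finite ℝ (Set.finite_range _)
    refine cpt_of_range _ (Submodule.span ℝ (Set.range fun k : S0.ker => cW D0 (ph S0 k)))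
      fun u => ?_
    have h1 : (1 - (Go P S1).comp (Ah P)) u =
        ∑ k ∈ S0.ker, (⟪D0.toAD.jj u, cH D0 (ph S0 k)⟫ : ℝ) • cW D0 (ph S0 k) := by
      show u - Go P S1 (Ah P u) = _
      rw [Go_Ah (dns4 D0) (dns4 D1) S0 S1, sub_sub_cancel]
    rw [h1]
    exact Submodule.sum_mem _ fun k hk =>
      Submodule.smul_mem _ _ (Submodule.subset_span ⟨⟨k, hk⟩, rfl⟩)
  · have : FiniteDimensional ℝ (Submodule.span ℝ (Set.range fun k : S1.ker =>
        cH D1 (ph S1 k))) := FiniteDimensional.span_of_finite ℝ (Set.finite_range _)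
    refine cpt_of_range _ (Submodule.span ℝ (Set.range fun k : S1.ker => cH D1 (ph S1 k)))
      fun f => ?_
    have h1 : (1 - (Ah P).comp (Go P S1)) f =
        ∑ k ∈ S1.ker, (⟪f, cH D1 (ph S1 k)⟫ : ℝ) • cH D1 (ph S1 k) := by
      show f - Ah P (Go P S1 f) = _
      rw [Ah_Go (dns4 D0) (dns4 D1) S1, sub_sub_cancel, Pk_apply]
    rw [h1]
    exact Submodule.sum_mem _ fun k hk =>
      Submodule.smul_mem _ _ (Submodule.subset_span ⟨⟨k, hk⟩, rfl⟩)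

/-- **the index of `Ah P`** -/
theorem ind_Ah {P : OpPair D0 D1} (S0 : Spec D0) (S1 : Spec D1) :
    Fred685.ind (Ah P) = (S0.ker.card : ℤ) - S1.ker.card := by
  have h1 := finrank_ker (P := P) (dns4 D0) S0
  have h2 := finrank_coker (P := P) (dns4 D0) (dns4 D1) S1
  have h3 := isClosed_range (P := P) (dns4 D0) (dns4 D1) S1
  have : CompleteSpace (LinearMap.range (Ah P : D0.toAD.WE →ₗ[ℝ] D1.toAD.HE)) :=
    h3.completeSpace_coe
  have h4 := (Submodule.quotientEquivOfIsCompl _ _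
    (Submodule.isCompl_orthogonal
      (K := LinearMap.range (Ah P : D0.toAD.WE →ₗ[ℝ] D1.toAD.HE)))).finrank_eq
  unfold Fred685.ind Fred685.idx
  rw [h4, h1, h2]

theorem ind_Ah_kerD {P : OpPair D0 D1} (S0 : Spec D0) (S1 : Spec D1) {d0 d1 : ℕ}
    (h0 : Nonempty (KerD D0 P.A d0)) (h1 : Nonempty (KerD D1 P.B d1)) :
    Fred685.ind (Ah P) = (d0 : ℤ) - d1 := by
  rw [ind_Ah S0 S1, card_ker P S0 h0, card_ker P.swap S1 h1]

end fredAh

/-! ### the Seiberg-Witten map -/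

/-- **(K1)** compactness of `KP'`. -/
theorem compact_KP' {S : SWS M κ0 κ1 κT} {d : SWD M κT} (hS : S.OK) (hd : d.Adm S)
    (s0 : Spec S.DL) (h4 : Emb4 S.D0.toAD.i1) (hT4 : Emb4 S.DT.toAD.i1) {R : ℝ} (hR : 0 < R)
    {t : E3} (ht : t ∈ BB) (u : SmS S.D0) (hu : ∀ z, ∑ y, u.1 y z ^ 2 < R ^ 2) :
    IsCompactOperator (KP' hS hd s0 h4 hT4 R ht u) := by
  obtain ⟨R0, h0, h1, h2⟩ := exists_R0 u hR hu
  exact compact_dKK hS hd s0 h4 hT4 h0 h1 ht u h2

/-- the derivative of the map at `(0, x0)`, `x0 = cW u`. -/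
def LT {S : SWS M κ0 κ1 κT} {d : SWD M κT} {hS : S.OK} (hd : d.Adm S) (s0 : Spec S.DL)
    (h4 : Emb4 S.D0.toAD.i1) (hT4 : Emb4 S.DT.toAD.i1) (R : ℝ) {t : E3} (ht : t ∈ BB)
    (u : SmS S.D0) {j : JD M κT b} (hj : j.OK S) (H : HarB hS bp) :
    ((Fin b → ℝ) × S.D0.toAD.WE) →L[ℝ] EuclideanSpace ℝ (Fin bp) × S.D1.toAD.HE :=
  blk (Ah S.P) (KP' hS hd s0 h4 hT4 R ht u) (lsum (LI hS hj) (cW S.D0 u)) (KA' H hd ht u)

theorem LT_apply {S : SWS M κ0 κ1 κT} {d : SWD M κT} {hS : S.OK} (hd : d.Adm S) (s0 : Spec S.DL)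
    (h4 : Emb4 S.D0.toAD.i1) (hT4 : Emb4 S.DT.toAD.i1) (R : ℝ) {t : E3} (ht : t ∈ BB)
    (u : SmS S.D0) {j : JD M κT b} (hj : j.OK S) (H : HarB hS bp)
    (w : (Fin b → ℝ) × S.D0.toAD.WE) : LT hd s0 h4 hT4 R ht u hj H w =
      (KA' H hd ht u w.2, Ah S.P w.2 + ∑ i, w.1 i • LI hS hj i (cW S.D0 u) +
        KP' hS hd s0 h4 hT4 R ht u w.2) :=
  blk_lsum (Ah S.P) (KP' hS hd s0 h4 hT4 R ht u) (LI hS hj) (cW S.D0 u) (KA' H hd ht u) w

/-- **the joint derivative**. -/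
theorem hasFDerivAt_LT {S : SWS M κ0 κ1 κT} {d : SWD M κT} {hS : S.OK} (hd : d.Adm S)
    (s0 : Spec S.DL) (h4 : Emb4 S.D0.toAD.i1) (hT4 : Emb4 S.DT.toAD.i1) {R : ℝ} (hR : 0 < R)
    {t : E3} (ht : t ∈ BB) (u : SmS S.D0) (hu : ∀ z, ∑ y, u.1 y z ^ 2 < R ^ 2)
    {j : JD M κT b} (hj : j.OK S) (H : HarB hS bp) :
    HasFDerivAt (fun w : (Fin b → ℝ) × S.D0.toAD.WE => (KA H d R t w.2,
      Ah S.P w.2 + ∑ i, w.1 i • LI hS hj i w.2 + KP hS hd s0 R t w.2))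
      (LT hd s0 h4 hT4 R ht u hj H) ((0 : Fin b → ℝ), cW S.D0 u) :=
  hasFDerivAt_blk (dA H hd h4 hR ht u hu) (dP hS hd s0 h4 hT4 hR ht u hu) (Ah S.P) (LI hS hj)

/-- **(K2)**: the derivative is onto and its kernel is the line `ℝ (0, II x0)`. -/
theorem onto_all (hND : ND.{v}) {S : SWS M κ0 κ1 κT}
    {ec : κ1 → κ0 → M → EuclideanSpace ℝ (Fin 4)} {ww : Fin 3 → Fin 3 → M → ℝ}
    {τ : E3 → TD M κT} {C : ℝ} {th : E3 → κT → M → ℝ} {pi : EuclideanSpace ℂ (Fin 2) → E3}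
    {U : EuclideanSpace ℂ (Fin 2) → κ0 → M → ℝ} (hH : HopfD S ww τ C th pi U) {d : SWD M κT}
    (hF : d.FFit S ww τ C th) (hS : S.OK) (hd : d.Adm S) (hsym : Sym S ec) (hg : GrdH S)
    {s : EuclideanSpace ℂ (Fin 2)} (hs : ‖s‖ = 1) (ht : pi s ∈ BB)
    (s0 : Spec S.DL) (sT : Spec S.DT) (h4 : Emb4 S.D0.toAD.i1) (hT4 : Emb4 S.DT.toAD.i1)
    {R : ℝ} (hR : 0 < R) (u : SmS S.D0)
    (hu : u.1 = (τ (pi s)).sc (3 / 4) (fun y z => √(2 * d.r) * U s y z))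
    (huR : ∀ z, ∑ y, u.1 y z ^ 2 < R ^ 2)
    {j : JD M κT b} (hj : j.OK S) (H : HarB hS bp)
    (II : S.D0.toAD.WE →L[ℝ] S.D0.toAD.WE)
    (coe_II : ∀ x, ∀ᵐ z ∂(μHE[4] : Measure M), ∀ y, rp (II x) y z = S.iu (rp x) y z)
    (hfr : Fred685.Fred (Ah S.P)) (hind : Fred685.ind (Ah S.P) = 0) (hb : bp + 1 = b) :
    (∀ y : EuclideanSpace ℝ (Fin bp) × S.D1.toAD.HE, ∃ (κ : Fin b → ℝ) (v : S.D0.toAD.WE),
      KA' H hd ht u v = y.1 ∧ Ah S.P v + ∑ i, κ i • LI hS hj i (cW S.D0 u) +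
        KP' hS hd s0 h4 hT4 R ht u v = y.2) ∧
    (∀ w : (Fin b → ℝ) × S.D0.toAD.WE, LT hd s0 h4 hT4 R ht u hj H w = 0 →
      ∃ c : ℝ, w = (0, c • II (cW S.D0 u))) ∧
    ∀ c : ℝ, LT hd s0 h4 hT4 R ht u hj H (0, c • II (cW S.D0 u)) = 0 :=
  onto_sum hfr hind (compact_KP' hS hd s0 h4 hT4 hR ht u huR) (LI hS hj) (cW S.D0 u)
    (KA' H hd ht u) (by rw [finrank_euclideanSpace_fin]; exact hb) (II (cW S.D0 u))
    fun κ v h1 h2 => ker hND hH hF hS hd hsym hg hs ht s0 sT h4 hT4 hR u hu huR hj H II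
      coe_II κ v h1 h2

/-- surjectivity of `LT`. -/
theorem LT_surj {S : SWS M κ0 κ1 κT} {d : SWD M κT} {hS : S.OK} {hd : d.Adm S} {s0 : Spec S.DL}
    {h4 : Emb4 S.D0.toAD.i1} {hT4 : Emb4 S.DT.toAD.i1} {R : ℝ} {t : E3} {ht : t ∈ BB}
    {u : SmS S.D0} {j : JD M κT b} {hj : j.OK S} {H : HarB hS bp}
    (h : ∀ y : EuclideanSpace ℝ (Fin bp) × S.D1.toAD.HE, ∃ (κ : Fin b → ℝ) (v : S.D0.toAD.WE),
      KA' H hd ht u v = y.1 ∧ Ah S.P v + ∑ i, κ i • LI hS hj i (cW S.D0 u) +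
        KP' hS hd s0 h4 hT4 R ht u v = y.2) :
    ∀ y, ∃ w, LT hd s0 h4 hT4 R ht u hj H w = y := by
  intro y
  obtain ⟨κ, v, h1, h2⟩ := h y
  refine ⟨(κ, v), (LT_apply hd s0 h4 hT4 R ht u hj H (κ, v)).trans ?_⟩
  exact Prod.ext h1 h2

end main

end Crest.Agent.R235.SWJo_952

end
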