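import Mathlib

/-!
Row 235 (S0364), PACKAGE SW, MODEL-4 (helper451): pointwise linear algebra of the eigenline.

`c i` : Clifford matrices, `J`, `J1` complex structures, `P` a projection of real rank two commuting
with `J`.  Every complex linear map `T : im P → im p1` is `v ↦ c(X) J v` for a unique real `X`,
`⟪X, e_i⟫ = (1/2) tr ((c_i J)ᵀ T P)`.
-/

set_option autoImplicit false

open Matrix

namespace Crest.Agent.R235.SWPt_451

noncomputable section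

variable {κ0 κ1 : Type*} [Fintype κ0] [Fintype κ1]

/-- a symmetric idempotent matrix of trace zero vanishes. -/
theorem eq_zero_of_proj {Q : Matrix κ0 κ0 ℝ} (hs : Qᵀ = Q) (hi : Q * Q = Q) (ht : Q.trace = 0) :
    Q = 0 := by
  have h1 : (Qᴴ * Q).trace = 0 := by
    have : Qᴴ = Q := by rw [conjTranspose_eq_transpose_of_trivial, hs]
    rw [this, hi, ht]
  exact trace_conjTranspose_mul_self_eq_zero_iff.1 h1

/-- the data at a point. -/
structure Pnt (p0 J P : Matrix κ0 κ0 ℝ) (p1 J1 : Matrix κ1 κ1 ℝ) (c : Fin 4 → Matrix κ1 κ0 ℝ) :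
    Prop where
  clif : ∀ i j, (c i)ᵀ * c j + (c j)ᵀ * c i = if i = j then 2 • p0 else 0
  cp : ∀ i, c i * p0 = c i
  pc : ∀ i, p1 * c i = c i
  p1s : p1ᵀ = p1
  p1i : p1 * p1 = p1
  p1t : p1.trace = 4
  Js : Jᵀ = - J
  J1s : J1ᵀ = - J1
  Jsq : J * J = - p0
  Jc : ∀ i, J1 * c i = c i * J
  Ps : Pᵀ = P
  PP : P * P = P
  trP : P.trace = 2
  pP : p0 * P = P
  PJ : P * J = J * P

namespace Pnt

variable {p0 J P : Matrix κ0 κ0 ℝ} {p1 J1 : Matrix κ1 κ1 ℝ} {c : Fin 4 → Matrix κ1 κ0 ℝ}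

theorem cc_self (h : Pnt p0 J P p1 J1 c) (i : Fin 4) : (c i)ᵀ * c i = p0 := by
  have h1 := h.clif i i
  rw [if_pos rfl, ← two_smul ℕ] at h1
  have h2 : (2 : ℝ) • ((c i)ᵀ * c i) = (2 : ℝ) • p0 := by
    rw [two_smul, two_smul, ← two_smul ℕ, ← two_smul ℕ]; exact h1
  exact smul_right_injective _ (two_ne_zero' ℝ) h2

/-- a unit vector of the line. -/
theorem exists_unit (h : Pnt p0 J P p1 J1 c) : ∃ u : κ0 → ℝ, P *ᵥ u = u ∧ u ⬝ᵥ u = 1 := by
  classical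
  have hne : P ≠ 0 := by
    intro h0
    have := h.trP
    rw [h0, trace_zero] at this
    norm_num at this
  obtain ⟨v, hv⟩ : ∃ v : κ0 → ℝ, P *ᵥ v ≠ 0 := by
    by_contra hcon
    push Not at hcon
    apply hne
    ext i j
    have h1 := congrFun (hcon (Pi.single j 1)) i
    rw [mulVec_single_one] at h1
    exact h1
  set w := P *ᵥ v with hw
  have hPw : P *ᵥ w = w := by rw [hw, mulVec_mulVec, h.PP]
  have hpos : 0 < w ⬝ᵥ w := by
    have h1 : 0 ≤ w ⬝ᵥ w := by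
      unfold dotProduct
      exact Finset.sum_nonneg fun i _ => mul_self_nonneg _
    refine lt_of_le_of_ne h1 fun h0 => hv ?_
    exact dotProduct_self_eq_zero.1 h0.symm
  refine ⟨(√(w ⬝ᵥ w))⁻¹ • w, ?_, ?_⟩
  · rw [mulVec_smul, hPw]
  · rw [smul_dotProduct, dotProduct_smul, smul_eq_mul, smul_eq_mul]
    have h2 := Real.mul_self_sqrt hpos.le
    have h3 := (Real.sqrt_pos.2 hpos).ne'
    field_simp
    nlinarith

theorem p0_fix (h : Pnt p0 J P p1 J1 c) {u : κ0 → ℝ} (hu : P *ᵥ u = u) : p0 *ᵥ u = u := by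
  conv_lhs => rw [← hu]
  rw [mulVec_mulVec, h.pP, hu]

theorem J_mem (h : Pnt p0 J P p1 J1 c) {u : κ0 → ℝ} (hu : P *ᵥ u = u) : P *ᵥ (J *ᵥ u) = J *ᵥ u := by
  rw [mulVec_mulVec, h.PJ, ← mulVec_mulVec, hu]

theorem J_dot (h : Pnt p0 J P p1 J1 c) (u v : κ0 → ℝ) : (J *ᵥ u) ⬝ᵥ v = - (u ⬝ᵥ (J *ᵥ v)) := by
  have h1 : (J *ᵥ u) ⬝ᵥ v = u ⬝ᵥ (Jᵀ *ᵥ v) := by
    rw [dotProduct_mulVec, vecMul_transpose]
  rw [h1, h.Js, neg_mulVec, dotProduct_neg]

theorem JJ (h : Pnt p0 J P p1 J1 c) {u : κ0 → ℝ} (hu : P *ᵥ u = u) : J *ᵥ (J *ᵥ u) = - u := by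
  rw [mulVec_mulVec, h.Jsq, neg_mulVec, h.p0_fix hu]

theorem J_norm (h : Pnt p0 J P p1 J1 c) {u : κ0 → ℝ} (hu : P *ᵥ u = u) :
    (J *ᵥ u) ⬝ᵥ (J *ᵥ u) = u ⬝ᵥ u := by
  rw [h.J_dot, h.JJ hu, dotProduct_neg, neg_neg]

theorem J_perp (h : Pnt p0 J P p1 J1 c) (u : κ0 → ℝ) : u ⬝ᵥ (J *ᵥ u) = 0 := by
  have h1 := h.J_dot u u
  rw [dotProduct_comm] at h1
  linarith

/-- the projection in terms of a unit vector. -/
theorem P_eq (h : Pnt p0 J P p1 J1 c) {u : κ0 → ℝ} (hu : P *ᵥ u = u) (h1 : u ⬝ᵥ u = 1) :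
    P = vecMulVec u u + vecMulVec (J *ᵥ u) (J *ᵥ u) := by
  set v := J *ᵥ u with hv
  have hPv : P *ᵥ v = v := h.J_mem hu
  have hvv : v ⬝ᵥ v = 1 := by rw [hv, h.J_norm hu, h1]
  have huv : u ⬝ᵥ v = 0 := h.J_perp u
  have hvu : v ⬝ᵥ u = 0 := by rw [dotProduct_comm]; exact huv
  have huP : u ᵥ* P = u := by
    rw [← mulVec_transpose, h.Ps, hu]
  have hvP : v ᵥ* P = v := by
    rw [← mulVec_transpose, h.Ps, hPv]
  have key : P - (vecMulVec u u + vecMulVec v v) = 0 := by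
    apply eq_zero_of_proj
    · rw [transpose_sub, transpose_add, h.Ps, transpose_vecMulVec, transpose_vecMulVec]
    · rw [Matrix.sub_mul, Matrix.mul_sub, Matrix.mul_sub, h.PP, Matrix.mul_add, Matrix.add_mul,
        Matrix.add_mul, Matrix.mul_add, Matrix.mul_add, mul_vecMulVec, mul_vecMulVec, hu, hPv,
        vecMulVec_mul, vecMulVec_mul, huP, hvP, vecMulVec_mul_vecMulVec, vecMulVec_mul_vecMulVec,
        vecMulVec_mul_vecMulVec, vecMulVec_mul_vecMulVec, h1, hvv, huv, hvu]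
      simp only [one_smul, zero_smul, vecMulVec_zero, add_zero, zero_add]
      abel
    · rw [trace_sub, h.trP, trace_add, trace_vecMulVec, trace_vecMulVec, h1, hvv]
      norm_num
  exact sub_eq_zero.1 key

theorem c_dot (h : Pnt p0 J P p1 J1 c) {u : κ0 → ℝ} (hu : p0 *ᵥ u = u) (h1 : u ⬝ᵥ u = 1)
    (i j : Fin 4) : (c i *ᵥ u) ⬝ᵥ (c j *ᵥ u) = if i = j then 1 else 0 := by
  have e : ∀ i j, (c i *ᵥ u) ⬝ᵥ (c j *ᵥ u) = u ⬝ᵥ (((c i)ᵀ * c j) *ᵥ u) := by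
    intro i j
    rw [← mulVec_mulVec, dotProduct_mulVec u, vecMul_transpose]
  have h2 := congrArg (fun A => u ⬝ᵥ (A *ᵥ u)) (h.clif i j)
  simp only [add_mulVec, dotProduct_add] at h2
  rw [← e, ← e, dotProduct_comm (c j *ᵥ u) (c i *ᵥ u)] at h2
  split_ifs with hij
  · rw [if_pos hij, smul_mulVec, hu, dotProduct_smul, h1] at h2
    simp only [nsmul_eq_mul] at h2
    norm_num at h2
    linarith
  · rw [if_neg hij, zero_mulVec, dotProduct_zero] at h2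
    linarith

/-- completeness of `c_i u`. -/
theorem complete (h : Pnt p0 J P p1 J1 c) {u : κ0 → ℝ} (hu : p0 *ᵥ u = u) (h1 : u ⬝ᵥ u = 1) :
    p1 = ∑ i, vecMulVec (c i *ᵥ u) (c i *ᵥ u) := by
  have hp : ∀ i, p1 *ᵥ (c i *ᵥ u) = c i *ᵥ u := by
    intro i; rw [mulVec_mulVec, h.pc]
  have hp' : ∀ i, (c i *ᵥ u) ᵥ* p1 = c i *ᵥ u := by
    intro i; rw [← mulVec_transpose, h.p1s, hp]
  have key : p1 - ∑ i, vecMulVec (c i *ᵥ u) (c i *ᵥ u) = 0 := by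
    apply eq_zero_of_proj
    · rw [transpose_sub, h.p1s, transpose_sum]
      simp only [transpose_vecMulVec]
    · rw [Matrix.sub_mul, Matrix.mul_sub, Matrix.mul_sub, h.p1i, Finset.mul_sum, Finset.sum_mul,
        Finset.sum_mul]
      have e1 : ∀ i, p1 * vecMulVec (c i *ᵥ u) (c i *ᵥ u) = vecMulVec (c i *ᵥ u) (c i *ᵥ u) := by
        intro i; rw [mul_vecMulVec, hp]
      have e2 : ∀ i, vecMulVec (c i *ᵥ u) (c i *ᵥ u) * p1 = vecMulVec (c i *ᵥ u) (c i *ᵥ u) := by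
        intro i; rw [vecMulVec_mul, hp']
      have e3 : ∀ i, vecMulVec (c i *ᵥ u) (c i *ᵥ u) * (∑ j, vecMulVec (c j *ᵥ u) (c j *ᵥ u)) =
          vecMulVec (c i *ᵥ u) (c i *ᵥ u) := by
        intro i
        rw [Finset.mul_sum, Finset.sum_eq_single i]
        · rw [vecMulVec_mul_vecMulVec, h.c_dot hu h1, if_pos rfl, one_smul]
        · intro j _ hj
          rw [vecMulVec_mul_vecMulVec, h.c_dot hu h1, if_neg (Ne.symm hj), zero_smul,
            vecMulVec_zero]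
        · intro hi; exact absurd (Finset.mem_univ i) hi
      simp only [e1, e2, e3]
      abel
    · rw [trace_sub, h.p1t, trace_sum]
      simp only [trace_vecMulVec, h.c_dot hu h1, if_true, Finset.sum_const, Finset.card_univ,
        Fintype.card_fin]
      norm_num
  exact sub_eq_zero.1 key

theorem J1_dot (h : Pnt p0 J P p1 J1 c) (a b : κ1 → ℝ) : (J1 *ᵥ a) ⬝ᵥ b = - (a ⬝ᵥ (J1 *ᵥ b)) := by
  have h1 : (J1 *ᵥ a) ⬝ᵥ b = a ⬝ᵥ (J1ᵀ *ᵥ b) := by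
    rw [dotProduct_mulVec, vecMul_transpose]
  rw [h1, h.J1s, neg_mulVec, dotProduct_neg]

/-- **every complex linear map `im P → im p1` is `v ↦ c(X) J v`.** -/
theorem main (h : Pnt p0 J P p1 J1 c) {T : Matrix κ1 κ0 ℝ} (hT : p1 * T = T)
    (hTJ : J1 * (T * P) = T * J * P) :
    T * P = (∑ i, ((1 / 2) * ((c i * J)ᵀ * (T * P)).trace) • c i) * J * P := by
  obtain ⟨u, hu, h1⟩ := h.exists_unit
  set v := J *ᵥ u with hv
  have hPv : P *ᵥ v = v := h.J_mem hu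
  have hvv : v ⬝ᵥ v = 1 := by rw [hv, h.J_norm hu, h1]
  have hJv : J *ᵥ v = - u := h.JJ hu
  have hP : P = vecMulVec u u + vecMulVec v v := h.P_eq hu h1
  set X : Fin 4 → ℝ := fun i => (T *ᵥ u) ⬝ᵥ (c i *ᵥ v) with hX
  set C : Matrix κ1 κ0 ℝ := ∑ i, X i • c i with hC
  have hJC : J1 * C = C * J := by
    rw [hC, Matrix.mul_sum, Matrix.sum_mul]
    refine Finset.sum_congr rfl fun i _ => ?_
    rw [Matrix.mul_smul, Matrix.smul_mul, h.Jc]
  have hJC' : ∀ a : κ0 → ℝ, J1 *ᵥ (C *ᵥ a) = C *ᵥ (J *ᵥ a) := fun a => by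
    rw [mulVec_mulVec, hJC, ← mulVec_mulVec]
  have hJc' : ∀ i, ∀ a : κ0 → ℝ, J1 *ᵥ (c i *ᵥ a) = c i *ᵥ (J *ᵥ a) := fun i a => by
    rw [mulVec_mulVec, h.Jc, ← mulVec_mulVec]
  have hTu : T *ᵥ u = C *ᵥ v := by
    have h2 := h.complete (h.p0_fix hPv) hvv
    have h3 : p1 *ᵥ (T *ᵥ u) = T *ᵥ u := by rw [mulVec_mulVec, hT]
    rw [← h3, h2, hC, sum_mulVec, sum_mulVec]
    refine Finset.sum_congr rfl fun i _ => ?_
    rw [vecMulVec_mulVec, smul_mulVec, op_smul_eq_smul, hX, dotProduct_comm]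
  have hTv : T *ᵥ v = C *ᵥ (J *ᵥ v) := by
    have h2 := congrArg (fun A => A *ᵥ u) hTJ
    simp only [← mulVec_mulVec, hu] at h2
    rw [← hv, hTu, hJC'] at h2
    exact h2.symm
  have hTP : T * P = C * J * P := by
    rw [hP, Matrix.mul_add, Matrix.mul_add, mul_vecMulVec, mul_vecMulVec, mul_vecMulVec,
      mul_vecMulVec, ← mulVec_mulVec, ← mulVec_mulVec, ← hv, hTu, hTv]
  have htr : ∀ i, (1 / 2) * ((c i * J)ᵀ * (T * P)).trace = X i := by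
    intro i
    have e : ∀ a b : κ0 → ℝ, ((c i * J)ᵀ * vecMulVec (T *ᵥ a) b).trace =
        (T *ᵥ a) ⬝ᵥ (c i *ᵥ (J *ᵥ b)) := by
      intro a b
      rw [mul_vecMulVec, trace_vecMulVec, dotProduct_comm, dotProduct_mulVec, vecMul_transpose,
        ← mulVec_mulVec, dotProduct_comm]
    have e2 : (T *ᵥ v) ⬝ᵥ (c i *ᵥ (J *ᵥ v)) = X i := by
      have e3 : T *ᵥ v = J1 *ᵥ (T *ᵥ u) := by
        rw [hTv, hTu, hJC']
      have e5 : J1 *ᵥ (c i *ᵥ (J *ᵥ v)) = - (c i *ᵥ v) := by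
        rw [hJc', hJv, mulVec_neg, ← hv, mulVec_neg]
      rw [e3, h.J1_dot, e5, dotProduct_neg, neg_neg]
    rw [hP, Matrix.mul_add, mul_vecMulVec, mul_vecMulVec, Matrix.mul_add, trace_add, e, e, e2,
      ← hv]
    show (1 / 2) * (X i + X i) = X i
    ring
  rw [hTP]
  congr 2
  rw [hC]
  refine Finset.sum_congr rfl fun i _ => ?_
  rw [← hTP, htr]

end Pnt

end

end Crest.Agent.R235.SWPt_451
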