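import Crest.Agent.R235.SWSym_451
import Crest.Agent.R235.SWPt_451

/-!
Row 235 (S0364), PACKAGE SW, MODEL-4 (helper451): the shift `sh` of the connection of the eigenline
and the identity DE: `A_a (ρ^{3/4} s) = ρ^{3/4} c(∇^E s)` for sections `s` of `E`.
-/

set_option autoImplicit false
set_option maxSynthPendingDepth 3
set_option linter.unusedSectionVars false

open scoped ContDiff ENNReal NNReal Topology Manifold Bundle RealInnerProductSpace
open MeasureTheory Set Filter Metric Bundle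

universe v

namespace Crest.Agent.R235.SWTd_451

open Crest.Agent.R249.Tv57 Crest.Agent.R247.Ms322 Crest.Agent.R247.Dir593
open Crest.Agent.R247.Frd657
open Crest.Agent.R235.SWDefs_53 Crest.Agent.R235.SWSym_451

noncomputable section

local notation "𝔼4" => EuclideanSpace ℝ (Fin 4)

section basic

variable {M : Type v} [MetricSpace M] [ChartedSpace (EuclideanSpace ℝ (Fin 4)) M]
  [IsManifold (𝓡 4) ∞ M]
  [RiemannianBundle (fun p : M => TangentSpace (𝓡 4) p)]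
  [IsContMDiffRiemannianBundle (𝓡 4) ∞ (EuclideanSpace ℝ (Fin 4))
    (fun p : M => TangentSpace (𝓡 4) p)]
  [IsRiemannianManifold (𝓡 4) M] [MeasurableSpace M] [BorelSpace M]
  [SecondCountableTopology M] [Nonempty M]

theorem md {f : M → ℝ} (hf : ContMDiff (𝓡 4) 𝓘(ℝ, ℝ) ∞ f) (z : M) :
    MDifferentiableAt (𝓡 4) 𝓘(ℝ) f z := hf.mdifferentiableAt (by simp)

theorem Gr_sum' {ι : Type*} (s : Finset ι) {f : ι → M → ℝ}
    (hf : ∀ i ∈ s, ContMDiff (𝓡 4) 𝓘(ℝ, ℝ) ∞ (f i)) (z : M) :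
    Gr (n := 4) (fun y => ∑ i ∈ s, f i y) z = ∑ i ∈ s, Gr (n := 4) (f i) z := by
  classical
  induction s using Finset.induction_on with
  | empty => simpa using Gr_const (n := 4) (0 : ℝ) z
  | insert i s hi ih =>
    have h1 : (fun y => ∑ j ∈ insert i s, f j y) = fun y => f i y + ∑ j ∈ s, f j y := by
      funext y; rw [Finset.sum_insert hi]
    have h2 : ContMDiff (𝓡 4) 𝓘(ℝ, ℝ) ∞ fun y => ∑ j ∈ s, f j y :=
      contMDiff_finsetSum fun j hj => hf j (Finset.mem_insert_of_mem hj)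
    rw [h1, Gr_add (md (hf i (Finset.mem_insert_self i s)) z) (md h2 z),
      ih fun j hj => hf j (Finset.mem_insert_of_mem hj), Finset.sum_insert hi]

variable {κ : Type} [Fintype κ] (D : Dat 4 M κ)

/-- `∇ P = dP + [X, P]`. -/
def nP (P : κ → κ → M → ℝ) (y y' : κ) (z : M) : EuclideanSpace ℝ (Fin 4) :=
  Gr (n := 4) (P y y') z + ∑ c, (P c y' z • D.X y c z - P y c z • D.X c y' z)

theorem smF_nP {P : κ → κ → M → ℝ} (hP : ∀ a b, ContMDiff (𝓡 4) 𝓘(ℝ, ℝ) ∞ (P a b)) (y y' : κ) :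
    SmF (nP D P y y') :=
  (smF_Gr (hP y y')).add (SmF.sum _ fun c _ =>
    ((SmF.smul (hP c y') (D.smX y c)).sub (SmF.smul (hP y c) (D.smX c y'))))

/-- `∇ s = P ∇ s + (∇ P) s` for `P s = s`. -/
theorem cv_P {P : κ → κ → M → ℝ} (hP : ∀ a b, ContMDiff (𝓡 4) 𝓘(ℝ, ℝ) ∞ (P a b))
    {s : κ → M → ℝ} (hs : SmV (n := 4) s) (hPs : ∀ a z, ∑ b, P a b z * s b z = s a z)
    (a : κ) (z : M) :
    D.cv s a z = ∑ b, P a b z • D.cv s b z + ∑ b, s b z • nP D P a b z := by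
  have h1 : Gr (n := 4) (s a) z =
      ∑ b, (P a b z • Gr (n := 4) (s b) z + s b z • Gr (n := 4) (P a b) z) := by
    have h2 : s a = fun y => ∑ b, P a b y * s b y := funext fun y => (hPs a y).symm
    conv_lhs => rw [h2]
    rw [Gr_sum' (f := fun b y => P a b y * s b y) Finset.univ (fun b _ => (hP a b).mul (hs b))]
    refine Finset.sum_congr rfl fun b _ => ?_
    exact Gr_mul (md (hP a b) z) (md (hs b) z)
  have h3 : ∀ c, ∑ b, P c b z * s b z = s c z := fun c => hPs c z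
  unfold Dat.cv nP
  rw [h1]
  simp only [smul_add, Finset.sum_add_distrib, Finset.smul_sum, smul_sub, Finset.sum_sub_distrib,
    smul_smul]
  have e1 : ∑ b, ∑ c, (s b z * P c b z) • D.X a c z = ∑ c, s c z • D.X a c z := by
    rw [Finset.sum_comm]
    refine Finset.sum_congr rfl fun c _ => ?_
    rw [← Finset.sum_smul]
    congr 1
    rw [← h3 c]
    exact Finset.sum_congr rfl fun b _ => mul_comm _ _
  have e2 : ∑ b, ∑ c, (s b z * P a c z) • D.X c b z = ∑ b, ∑ c, (P a b z * s c z) • D.X b c z := by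
    rw [Finset.sum_comm]
    refine Finset.sum_congr rfl fun c _ => Finset.sum_congr rfl fun b _ => ?_
    rw [mul_comm]
  rw [e1, e2]
  abel

theorem Gr_rpow {rr : M → ℝ} (hr : ContMDiff (𝓡 4) 𝓘(ℝ, ℝ) ∞ rr) (hpos : ∀ z, 0 < rr z) (q : ℝ)
    (z : M) : Gr (n := 4) (fun y => rr y ^ q) z = (q * rr z ^ q * (rr z)⁻¹) • Gr (n := 4) rr z := by
  have h1 : DifferentiableAt ℝ (fun t : ℝ => t ^ q) (rr z) :=
    Real.differentiableAt_rpow_const_of_ne q (hpos z).ne'
  rw [Gr_comp (χ := fun t => t ^ q) (md hr z) h1, Real.deriv_rpow_const]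
  congr 1
  rw [Real.rpow_sub_one (hpos z).ne', mul_div_assoc', div_eq_mul_inv]

theorem smooth_rpow {rr : M → ℝ} (hr : ContMDiff (𝓡 4) 𝓘(ℝ, ℝ) ∞ rr) (hpos : ∀ z, 0 < rr z)
    (q : ℝ) : ContMDiff (𝓡 4) 𝓘(ℝ, ℝ) ∞ (fun y => rr y ^ q) := by
  intro z
  have h1 : ContDiffAt ℝ ∞ (fun t : ℝ => t ^ q) (rr z) :=
    Real.contDiffAt_rpow_const_of_ne (hpos z).ne'
  exact h1.contMDiffAt.comp z (hr z)

end basic

section main

variable {M : Type v} [MetricSpace M] [CompactSpace M] [ConnectedSpace M]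
  [ChartedSpace (EuclideanSpace ℝ (Fin 4)) M] [IsManifold (𝓡 4) ∞ M]
  [RiemannianBundle (fun p : M => TangentSpace (𝓡 4) p)]
  [IsContMDiffRiemannianBundle (𝓡 4) ∞ (EuclideanSpace ℝ (Fin 4))
    (fun p : M => TangentSpace (𝓡 4) p)]
  [IsRiemannianManifold (𝓡 4) M] [MeasurableSpace M] [BorelSpace M]
  [SecondCountableTopology M] [Nonempty M]
  {κ0 κ1 κT : Type} [Fintype κ0] [Fintype κ1] [Fintype κT]

/-- a smooth field of projections of `W⁺ ⊗ L`, commuting with `J`. -/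
structure Pj (S : SWS M κ0 κ1 κT) (P : κ0 → κ0 → M → ℝ) : Prop where
  sm : ∀ a b, ContMDiff (𝓡 4) 𝓘(ℝ, ℝ) ∞ (P a b)
  symm : ∀ a b z, P a b z = P b a z
  idem : ∀ a b z, ∑ c, P a c z * P c b z = P a b z
  pP : ∀ a b z, ∑ c, S.D0.p a c z * P c b z = P a b z
  PJ : ∀ a b z, ∑ c, P a c z * S.J c b z = ∑ c, S.J a c z * P c b z

/-- the zeroth order term `Z` of `A_a (ρ^{3/4} s)`. -/
def Zt (S : SWS M κ0 κ1 κT) (cc : κ1 → κ0 → M → EuclideanSpace ℝ (Fin 4)) (rr : M → ℝ)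
    (P : κ0 → κ0 → M → ℝ) (x : κ1) (y : κ0) (z : M) : ℝ :=
  ∑ y', ⟪nP S.D0 P y' y z, cc x y' z⟫ + 3 / 4 * (rr z)⁻¹ * ⟪Gr (n := 4) rr z, cc x y z⟫

/-- `P ∇_a s`. -/
def prj (_S : SWS M κ0 κ1 κT) (P : κ0 → κ0 → M → ℝ) (G : κ0 → M → EuclideanSpace ℝ (Fin 4))
    (y : κ0) (z : M) : EuclideanSpace ℝ (Fin 4) := ∑ y', P y y' z • G y' z

variable {S : SWS M κ0 κ1 κT} {cc : κ1 → κ0 → M → EuclideanSpace ℝ (Fin 4)}

theorem smooth_Zt (H : Sym S cc) {rr : M → ℝ} (hr : ContMDiff (𝓡 4) 𝓘(ℝ, ℝ) ∞ rr)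
    (hpos : ∀ z, 0 < rr z) {P : κ0 → κ0 → M → ℝ} (hP : Pj S P) (x : κ1) (y : κ0) :
    ContMDiff (𝓡 4) 𝓘(ℝ, ℝ) ∞ (Zt S cc rr P x y) := by
  have h1 : ContMDiff (𝓡 4) 𝓘(ℝ, ℝ) ∞ fun z => ∑ y', (⟪nP S.D0 P y' y z, cc x y' z⟫ : ℝ) :=
    contMDiff_finsetSum fun y' _ => (smF_nP S.D0 hP.sm y' y).inner (H.smcc x y')
  have h2 : ContMDiff (𝓡 4) 𝓘(ℝ, ℝ) ∞ fun z => (rr z)⁻¹ := by
    intro z
    have h3 : ContDiffAt ℝ ∞ (fun t : ℝ => t⁻¹) (rr z) := contDiffAt_inv ℝ (hpos z).ne'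
    exact h3.contMDiffAt.comp z (hr z)
  exact h1.add ((contMDiff_const.mul h2).mul ((smF_Gr hr).inner (H.smcc x y)))

/-- **general form of DE.** -/
theorem de_gen (H : Sym S cc) {rr : M → ℝ} (hr : ContMDiff (𝓡 4) 𝓘(ℝ, ℝ) ∞ rr)
    (hpos : ∀ z, 0 < rr z) {P : κ0 → κ0 → M → ℝ} (hP : Pj S P) (a : κT → M → ℝ)
    {s : κ0 → M → ℝ} (hs : SmV (n := 4) s) (hPs : ∀ y z, ∑ b, P y b z * s b z = s y z)
    (x : κ1) (z : M) :
    S.P.A (fun y z => rr z ^ (3 / 4 : ℝ) * s y z) x z +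
      S.cm a (fun y z => rr z ^ (3 / 4 : ℝ) * s y z) x z =
    rr z ^ (3 / 4 : ℝ) * (∑ y, ⟪prj S P (S.nab a s) y z, cc x y z⟫ +
      ∑ y, Zt S cc rr P x y z * s y z) := by
  have hps : ∀ y z, ∑ b, S.D0.p y b z * s b z = s y z := by
    intro y z
    calc ∑ b, S.D0.p y b z * s b z = ∑ b, S.D0.p y b z * ∑ c, P b c z * s c z := by
          refine Finset.sum_congr rfl fun b _ => ?_
          rw [hPs]
      _ = ∑ c, (∑ b, S.D0.p y b z * P b c z) * s c z := by
          simp only [Finset.mul_sum, Finset.sum_mul]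
          rw [Finset.sum_comm]
          refine Finset.sum_congr rfl fun c _ => Finset.sum_congr rfl fun b _ => ?_
          ring
      _ = s y z := by
          simp only [hP.pP]
          exact hPs y z
  have hrq := smooth_rpow hr hpos (3 / 4 : ℝ)
  have hu : SmV (n := 4) (fun y z => rr z ^ (3 / 4 : ℝ) * s y z) := fun y => hrq.mul (hs y)
  have hus : S.D0.Sec (fun y z => rr z ^ (3 / 4 : ℝ) * s y z) := by
    intro y z
    have : ∀ b, S.D0.p y b z * (rr z ^ (3 / 4 : ℝ) * s b z) =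
        rr z ^ (3 / 4 : ℝ) * (S.D0.p y b z * s b z) := fun b => by ring
    simp only [this, ← Finset.mul_sum, hps]
  rw [H.A_eq _ hu hus]
  have hcv : ∀ y, S.D0.cv (fun y z => rr z ^ (3 / 4 : ℝ) * s y z) y z =
      rr z ^ (3 / 4 : ℝ) • (S.D0.cv s y z + (3 / 4 * (rr z)⁻¹ * s y z) • Gr (n := 4) rr z) := by
    intro y
    unfold Dat.cv
    rw [Gr_mul (md hrq z) (md (hs y) z), Gr_rpow hr hpos]
    simp only [smul_add, Finset.smul_sum, smul_smul]
    have e : s y z * (3 / 4 * rr z ^ (3 / 4 : ℝ) * (rr z)⁻¹) =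
        rr z ^ (3 / 4 : ℝ) * (3 / 4 * (rr z)⁻¹ * s y z) := by ring
    rw [e]
    abel
  have hcm : S.cm a (fun y z => rr z ^ (3 / 4 : ℝ) * s y z) x z =
      rr z ^ (3 / 4 : ℝ) * S.cm a s x z := by
    unfold SWS.cm
    rw [Finset.mul_sum]
    refine Finset.sum_congr rfl fun A _ => ?_
    rw [Finset.mul_sum]
    refine Finset.sum_congr rfl fun y _ => ?_
    ring
  rw [hcm]
  simp only [hcv, real_inner_smul_left]
  rw [← Finset.mul_sum, ← mul_add]
  congr 1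
  -- the pointwise identity
  have hcm2 : S.cm a s x z = ∑ y', (∑ y, S.J y' y z * s y z) *
      ⟪∑ A, a A z • S.s A z, cc x y' z⟫ := by
    unfold SWS.cm
    simp only [H.cl_eq, sum_inner, real_inner_smul_left, Finset.mul_sum, Finset.sum_mul]
    have e1 : ∀ A, ∑ y, ∑ y', a A z * s y z * (⟪cc x y' z, S.s A z⟫ * S.J y' y z) =
        ∑ y', ∑ y, a A z * s y z * (⟪cc x y' z, S.s A z⟫ * S.J y' y z) :=
      fun A => Finset.sum_comm
    simp only [e1]
    rw [Finset.sum_comm]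
    refine Finset.sum_congr rfl fun y' _ => ?_
    refine Finset.sum_congr rfl fun A _ => ?_
    refine Finset.sum_congr rfl fun y _ => ?_
    rw [real_inner_comm (S.s A z) (cc x y' z)]
    ring
  have hJP : ∀ y, ∑ y', P y y' z * ∑ b, S.J y' b z * s b z = ∑ b, S.J y b z * s b z := by
    intro y
    calc ∑ y', P y y' z * ∑ b, S.J y' b z * s b z
        = ∑ b, (∑ y', P y y' z * S.J y' b z) * s b z := by
          simp only [Finset.mul_sum, Finset.sum_mul]
          rw [Finset.sum_comm]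
          refine Finset.sum_congr rfl fun b _ => Finset.sum_congr rfl fun y' _ => ?_
          ring
      _ = ∑ b, (∑ y', S.J y y' z * P y' b z) * s b z := by simp only [hP.PJ]
      _ = ∑ y', S.J y y' z * ∑ b, P y' b z * s b z := by
          simp only [Finset.mul_sum, Finset.sum_mul]
          rw [Finset.sum_comm]
          refine Finset.sum_congr rfl fun b _ => Finset.sum_congr rfl fun y' _ => ?_
          ring
      _ = ∑ b, S.J y b z * s b z := by simp only [hPs]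
  have hprj : ∀ y, prj S P (S.nab a s) y z = ∑ b, P y b z • S.D0.cv s b z +
      (∑ b, S.J y b z * s b z) • ∑ A, a A z • S.s A z := by
    intro y
    unfold prj SWS.nab
    simp only [smul_add, Finset.sum_add_distrib]
    congr 1
    simp only [smul_smul]
    rw [← Finset.sum_smul, hJP]
  have hcvP : ∀ y, S.D0.cv s y z =
      ∑ b, P y b z • S.D0.cv s b z + ∑ b, s b z • nP S.D0 P y b z := fun y =>
    cv_P S.D0 hP.sm hs hPs y z
  have hZ : ∑ y, Zt S cc rr P x y z * s y z = ∑ y, (⟪∑ b, s b z • nP S.D0 P y b z, cc x y z⟫ +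
      3 / 4 * (rr z)⁻¹ * s y z * ⟪Gr (n := 4) rr z, cc x y z⟫) := by
    unfold Zt
    simp only [add_mul, Finset.sum_add_distrib, sum_inner, real_inner_smul_left, Finset.sum_mul]
    rw [Finset.sum_comm]
    congr 1
    · refine Finset.sum_congr rfl fun b _ => Finset.sum_congr rfl fun y' _ => ?_
      ring
    · refine Finset.sum_congr rfl fun b _ => ?_
      ring
  rw [hcm2, hZ]
  simp only [hprj]
  rw [← Finset.sum_add_distrib, ← Finset.sum_add_distrib]
  refine Finset.sum_congr rfl fun y _ => ?_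
  conv_lhs => rw [hcvP y]
  simp only [inner_add_left, real_inner_smul_left]
  ring

end main

end

end Crest.Agent.R235.SWTd_451
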