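import Crest.Agent.R235.SWPfB_435
import Crest.Agent.R235.SWTd_451

/-!
Row 235 (S0364), PACKAGE SW, leaf PFX (helper435), part C: the Dirac operator and the complex
structures, gauge transformations (smooth functions with values in the circle).
-/

set_option autoImplicit false
set_option maxSynthPendingDepth 3
set_option linter.unusedSectionVars false

open scoped ContDiff ENNReal NNReal Topology Manifold Bundle RealInnerProductSpace
open MeasureTheory Set Filter Metric Bundle Module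

universe v

namespace Crest.Agent.R235.SWPf_435

open Crest.Agent.R249.Tv57 Crest.Agent.R247.Ms322 Crest.Agent.R247.Dir593
open Crest.Agent.R247.Frd657
open Crest.Agent.R235.SWSym_451 Crest.Agent.R235.Fs4_546 Crest.Agent.R235.Fred_649
open Crest.Agent.R235.FamR_151 Crest.Agent.R235.SWDefs_53 Crest.Agent.R235.L4_433
open Crest.Agent.R235.Cpt_755 Crest.Agent.R275 Crest.Agent.R235.SWPfA_435

noncomputable section

section sys

variable {M : Type v} [MetricSpace M] [CompactSpace M] [ConnectedSpace M]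
  [ChartedSpace (EuclideanSpace ℝ (Fin 4)) M] [IsManifold (𝓡 4) ∞ M]
  [RiemannianBundle (fun p : M => TangentSpace (𝓡 4) p)]
  [IsContMDiffRiemannianBundle (𝓡 4) ∞ (EuclideanSpace ℝ (Fin 4))
    (fun p : M => TangentSpace (𝓡 4) p)]
  [IsRiemannianManifold (𝓡 4) M] [MeasurableSpace M] [BorelSpace M]
  [SecondCountableTopology M] [Nonempty M] [IsFiniteMeasureOnCompacts (μHE[4] : Measure M)]
  {κ0 κ1 κT : Type} [Fintype κ0] [Fintype κ1] [Fintype κT]
  {S : SWS M κ0 κ1 κT} {cc : κ1 → κ0 → M → EuclideanSpace ℝ (Fin 4)} {J1 : κ1 → κ1 → M → ℝ}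

local notation "μM" => (μHE[4] : Measure M)

theorem cs0 (H : Sym S cc) : CS S.D0 S.J := ⟨H.smJ, H.skewJ, H.pJ, H.Jsq⟩
theorem cs1 (C : CJ1 S cc J1) : CS S.D1 J1 := ⟨C.sm, C.skew, C.pJ, C.sq⟩

/-! ### Clifford multiplication -/

/-- `c(V) v`. -/
def cl' (cc : κ1 → κ0 → M → EuclideanSpace ℝ (Fin 4)) (V : EuclideanSpace ℝ (Fin 4)) (v : κ0 → ℝ)
    (z : M) : κ1 → ℝ := fun x => ∑ y, v y * ⟪V, cc x y z⟫

theorem cl_add (V : EuclideanSpace ℝ (Fin 4)) (v w : κ0 → ℝ) (z : M) (x : κ1) :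
    cl' cc V (fun y => v y + w y) z x = cl' cc V v z x + cl' cc V w z x := by
  unfold cl'
  simp only [add_mul, Finset.sum_add_distrib]

theorem cl_smul (V : EuclideanSpace ℝ (Fin 4)) (c : ℝ) (v : κ0 → ℝ) (z : M) (x : κ1) :
    cl' cc V (fun y => c * v y) z x = c * cl' cc V v z x := by
  unfold cl'
  rw [Finset.mul_sum]
  exact Finset.sum_congr rfl fun y _ => by ring

theorem cl_vsmul (c : ℝ) (V : EuclideanSpace ℝ (Fin 4)) (v : κ0 → ℝ) (z : M) (x : κ1) :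
    cl' cc (c • V) v z x = c * cl' cc V v z x := by
  unfold cl'
  rw [Finset.mul_sum]
  exact Finset.sum_congr rfl fun y _ => by rw [real_inner_smul_left]; ring

theorem cl_jv (C : CJ1 S cc J1) (V : EuclideanSpace ℝ (Fin 4)) (v : κ0 → ℝ) (z : M) (x : κ1) :
    cl' cc V (jv S.J v z) z x = jv J1 (cl' cc V v z) z x := by
  have h1 : ∀ y, ⟪V, ∑ x', J1 x x' z • cc x' y z⟫ = ⟪V, ∑ y', S.J y' y z • cc x y' z⟫ :=
    fun y => by rw [C.cc]
  simp only [inner_sum, real_inner_smul_right] at h1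
  unfold cl' jv
  simp only [Finset.mul_sum, Finset.sum_mul]
  rw [Finset.sum_comm]
  calc ∑ y, ∑ y', S.J y' y z * v y * ⟪V, cc x y' z⟫
      = ∑ y, v y * ∑ y', S.J y' y z * ⟪V, cc x y' z⟫ := by
        refine Finset.sum_congr rfl fun y _ => ?_
        rw [Finset.mul_sum]
        exact Finset.sum_congr rfl fun y' _ => by ring
    _ = ∑ y, v y * ∑ x', J1 x x' z * ⟪V, cc x' y z⟫ := by
        refine Finset.sum_congr rfl fun y _ => ?_
        rw [h1]
    _ = ∑ x', ∑ y, J1 x x' z * (v y * ⟪V, cc x' y z⟫) := by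
        simp only [Finset.mul_sum]
        rw [Finset.sum_comm]
        exact Finset.sum_congr rfl fun y _ => Finset.sum_congr rfl fun x' _ => by ring

theorem cl_cv (C : CJ1 S cc J1) (V : EuclideanSpace ℝ (Fin 4)) (c : ℂ) (v : κ0 → ℝ) (z : M)
    (x : κ1) : cl' cc V (cv' S.J c v z) z x = cv' J1 c (cl' cc V v z) z x := by
  have h1 : cl' cc V (cv' S.J c v z) z x = cl' cc V (fun y => c.re * v y) z x +
      cl' cc V (fun y => c.im * jv S.J v z y) z x := cl_add _ _ _ z x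
  rw [h1, cl_smul, cl_smul, cl_jv C]
  rfl

theorem cm_eq (H : Sym S cc) (a : κT → M → ℝ) (u : κ0 → M → ℝ) (x : κ1) (z : M) :
    S.cm a u x z = cl' cc (S.vf a z) (jv S.J (fun y => u y z) z) z x := by
  unfold SWS.cm SWS.vf cl' jv
  simp only [H.cl_eq, sum_inner, real_inner_smul_left, Finset.mul_sum, Finset.sum_mul]
  have e1 : ∀ A : κT, (∑ y : κ0, ∑ y' : κ0,
      a A z * u y z * (⟪cc x y' z, S.s A z⟫ * S.J y' y z) : ℝ) =
      ∑ y' : κ0, ∑ y : κ0, a A z * u y z * (⟪cc x y' z, S.s A z⟫ * S.J y' y z) :=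
    fun A => Finset.sum_comm
  simp only [e1]
  rw [Finset.sum_comm]
  refine Finset.sum_congr rfl fun y' _ => ?_
  refine Finset.sum_congr rfl fun A _ => ?_
  refine Finset.sum_congr rfl fun y _ => ?_
  rw [real_inner_comm (S.s A z) (cc x y' z)]
  ring

theorem cm_cv (H : Sym S cc) (C : CJ1 S cc J1) (a : κT → M → ℝ) (c : M → ℂ) (u : κ0 → M → ℝ)
    (x : κ1) {z : M} (hu : ∀ y, ∑ b, S.D0.p y b z * u b z = u y z) :
    S.cm a (fun y z => cv' S.J (c z) (fun b => u b z) z y) x z =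
      cv' J1 (c z) (fun x' => S.cm a u x' z) z x := by
  rw [cm_eq H]
  have h1 : jv S.J (fun y => cv' S.J (c z) (fun b => u b z) z y) z =
      cv' S.J (c z) (jv S.J (fun b => u b z) z) z := funext fun y => jv_cv (cs0 H) (c z) hu y
  have h2 : (fun x' => S.cm a u x' z) = cl' cc (S.vf a z) (jv S.J (fun y => u y z) z) z :=
    funext fun x' => cm_eq H a u x' z
  rw [h1, cl_cv C, h2]

theorem smcl (H : Sym S cc) (A : κT) (x : κ1) (y : κ0) :
    ContMDiff (𝓡 4) 𝓘(ℝ, ℝ) ∞ (S.cl A x y) := by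
  have h1 : S.cl A x y = fun z => ∑ y', ⟪cc x y' z, S.s A z⟫ * S.J y' y z :=
    funext fun z => H.cl_eq A x y z
  rw [h1]
  exact contMDiff_finsetSum fun y' _ => ((H.smcc x y').inner (H.sms A)).mul (H.smJ y' y)

theorem clsec (H : Sym S cc) (A : κT) (x : κ1) (y : κ0) (z : M) :
    ∑ x', S.D1.p x x' z * S.cl A x' y z = S.cl A x y z := by
  simp only [H.cl_eq, Finset.mul_sum]
  rw [Finset.sum_comm]
  refine Finset.sum_congr rfl fun y' _ => ?_
  have h1 : ⟪∑ x', S.D1.p x x' z • cc x' y' z, S.s A z⟫ = ⟪cc x y' z, S.s A z⟫ := by rw [H.p_cc]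
  rw [sum_inner] at h1
  rw [← h1, Finset.sum_mul]
  refine Finset.sum_congr rfl fun x' _ => ?_
  rw [real_inner_smul_left]
  ring

/-! ### the operator `c(θ) i` -/

/-- the matrix of `c(θ) i`. -/
def mth (S : SWS M κ0 κ1 κT) (θ : κT → M → ℝ) (x : κ1) (y : κ0) (z : M) : ℝ :=
  ∑ A, θ A z * S.cl A x y z

theorem sm_mth (H : Sym S cc) {θ : κT → M → ℝ} (hθ : SmV (n := 4) θ) (x : κ1) (y : κ0) :
    ContMDiff (𝓡 4) 𝓘(ℝ, ℝ) ∞ (mth S θ x y) :=
  contMDiff_finsetSum fun A _ => (hθ A).mul (smcl H A x y)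

theorem cm_mth (θ : κT → M → ℝ) (u : κ0 → M → ℝ) (x : κ1) (z : M) :
    ∑ y, u y z * mth S θ x y z = S.cm θ u x z := by
  unfold mth SWS.cm
  simp only [Finset.mul_sum]
  rw [Finset.sum_comm]
  exact Finset.sum_congr rfl fun A _ => Finset.sum_congr rfl fun y _ => by ring

theorem cm_sec (H : Sym S cc) (a : κT → M → ℝ) (u : κ0 → M → ℝ) (x : κ1)
    (z : M) : ∑ x', S.D1.p x x' z * S.cm a u x' z = S.cm a u x z := by
  unfold SWS.cm
  simp only [Finset.mul_sum]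
  rw [Finset.sum_comm]
  refine Finset.sum_congr rfl fun A _ => ?_
  rw [Finset.sum_comm]
  refine Finset.sum_congr rfl fun y _ => ?_
  rw [← clsec H A x y z, Finset.mul_sum]
  exact Finset.sum_congr rfl fun x' _ => by ring

/-- `c(θ) i : L²(D0) → L²(D1)`. -/
def CH (H : Sym S cc) {θ : κT → M → ℝ} (hθ : SmV (n := 4) θ) : S.D0.toAD.HE →L[ℝ] S.D1.toAD.HE :=
  ((matR fun x y => bm_smooth (sm_mth H hθ x y)).comp S.D0.toAD.HE.subtypeL).codRestrict
    S.D1.toAD.HE fun f => by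
      set F : HH μM κ1 := matR (fun x y => bm_smooth (sm_mth H hθ x y)) (f : HH μM κ0) with hF
      have h1 : ∀ᵐ z ∂μM, ∀ x, (F x : M → ℝ) z = S.cm θ (rf f) x z := by
        filter_upwards [coe_matR (fun x y => bm_smooth (sm_mth H hθ x y)) (f : HH μM κ0)]
          with z e1 x
        rw [e1 x]
        exact cm_mth θ (rf f) x z
      show S.D1.toAD.P F = F
      ext x
      filter_upwards [S.D1.toAD.coe_P F, h1] with z e1 e2
      rw [e1 x, e2 x, ← cm_sec H]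
      exact Finset.sum_congr rfl fun x' _ => by rw [e2 x']; rfl

theorem coe_CH (H : Sym S cc) {θ : κT → M → ℝ} (hθ : SmV (n := 4) θ) (f : S.D0.toAD.HE) :
    ∀ᵐ z ∂μM, ∀ x, rf (CH H hθ f) x z = S.cm θ (rf f) x z := by
  filter_upwards [coe_matR (fun x y => bm_smooth (sm_mth H hθ x y)) (f : HH μM κ0)] with z e1 x
  refine (e1 x).trans ?_
  exact cm_mth θ (rf f) x z

theorem CH_JH (H : Sym S cc) (C : CJ1 S cc J1) {θ : κT → M → ℝ} (hθ : SmV (n := 4) θ)
    (f : S.D0.toAD.HE) : CH H hθ (JH (cs0 H) f) = JH (cs1 C) (CH H hθ f) := by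
  refine HE_ext ?_
  filter_upwards [coe_CH H hθ (JH (cs0 H) f), coe_JH (cs0 H) f, coe_JH (cs1 C) (CH H hθ f),
    coe_CH H hθ f, sec_rf f] with z e1 e2 e3 e4 e5 x
  rw [e1 x, e3 x]
  simp only [e4]
  have h2 : (fun x' => S.cm θ (rf f) x' z) = cl' cc (S.vf θ z) (jv S.J (fun y => rf f y z) z) z :=
    funext fun x' => cm_eq H θ (rf f) x' z
  rw [h2, ← cl_jv C, cm_eq H]
  simp only [e2]

theorem CH_MH (H : Sym S cc) (C : CJ1 S cc J1) {θ : κT → M → ℝ} (hθ : SmV (n := 4) θ)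
    {α β : M → ℝ} (hα : BM μM α) (hβ : BM μM β) (f : S.D0.toAD.HE) :
    CH H hθ (MH (cs0 H) hα hβ f) = MH (cs1 C) hα hβ (CH H hθ f) := by
  refine HE_ext ?_
  filter_upwards [coe_CH H hθ (MH (cs0 H) hα hβ f), coe_MH (cs0 H) hα hβ f,
    coe_MH (cs1 C) hα hβ (CH H hθ f), coe_CH H hθ f, sec_rf f] with z e1 e2 e3 e4 e5 x
  rw [e1 x, e3 x]
  simp only [e4]
  have h1 := cm_cv H C θ (fun z => ⟨α z, β z⟩) (rf f) x (z := z) e5
  rw [← h1]
  unfold SWS.cm
  simp only [e2]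

/-- `c(θ) i : W^{1,2}(D0) → L²(D1)`. -/
def CW (H : Sym S cc) {θ : κT → M → ℝ} (hθ : SmV (n := 4) θ) : S.D0.toAD.WE →L[ℝ] S.D1.toAD.HE :=
  (CH H hθ).comp S.D0.toAD.jj

theorem coe_CW (H : Sym S cc) {θ : κT → M → ℝ} (hθ : SmV (n := 4) θ) (u : S.D0.toAD.WE) :
    ∀ᵐ z ∂μM, ∀ x, rf (CW H hθ u) x z = S.cm θ (rp u) x z := coe_CH H hθ (S.D0.toAD.jj u)

theorem CW_JW (H : Sym S cc) (C : CJ1 S cc J1) {θ : κT → M → ℝ} (hθ : SmV (n := 4) θ)
    (u : S.D0.toAD.WE) : CW H hθ (JW (cs0 H) u) = JH (cs1 C) (CW H hθ u) := by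
  show CH H hθ (S.D0.toAD.jj (JW (cs0 H) u)) = _
  rw [jj_JW, CH_JH H C]
  rfl

theorem CW_MW (H : Sym S cc) (C : CJ1 S cc J1) {θ : κT → M → ℝ} (hθ : SmV (n := 4) θ)
    {α β : M → ℝ} (hα : ContMDiff (𝓡 4) 𝓘(ℝ, ℝ) ∞ α) (hβ : ContMDiff (𝓡 4) 𝓘(ℝ, ℝ) ∞ β)
    (u : S.D0.toAD.WE) : CW H hθ (MW (cs0 H) hα hβ u) =
      MH (cs1 C) (bm_smooth hα) (bm_smooth hβ) (CW H hθ u) := by
  show CH H hθ (S.D0.toAD.jj (MW (cs0 H) hα hβ u)) = _
  rw [jj_MW, CH_MH H C]
  rfl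

theorem compact_CW (H : Sym S cc) {θ : κT → M → ℝ} (hθ : SmV (n := 4) θ) :
    IsCompactOperator (CW H hθ) :=
  (S.D0.toAD.compact_jj Swx_333.fried4).clm_comp (CH H hθ)

/-! ### the Dirac operator on smooth sections -/

theorem md {f : M → ℝ} (hf : ContMDiff (𝓡 4) 𝓘(ℝ, ℝ) ∞ f) (z : M) :
    MDifferentiableAt (𝓡 4) 𝓘(ℝ) f z := hf.mdifferentiableAt (by simp)

theorem cv_add {u w : κ0 → M → ℝ} (hu : SmV (n := 4) u) (hw : SmV (n := 4) w) (y : κ0) (z : M) :
    S.D0.cv (fun a z => u a z + w a z) y z = S.D0.cv u y z + S.D0.cv w y z := by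
  unfold Dat.cv
  rw [Gr_add (md (hu y) z) (md (hw y) z)]
  simp only [add_smul, Finset.sum_add_distrib]
  abel

theorem cv_mul {α : M → ℝ} (hα : ContMDiff (𝓡 4) 𝓘(ℝ, ℝ) ∞ α) {u : κ0 → M → ℝ}
    (hu : SmV (n := 4) u) (y : κ0) (z : M) :
    S.D0.cv (fun a z => α z * u a z) y z = α z • S.D0.cv u y z + u y z • Gr (n := 4) α z := by
  unfold Dat.cv
  rw [Gr_mul (md hα z) (md (hu y) z)]
  simp only [smul_add, Finset.smul_sum, smul_smul]
  abel

theorem cv_J (H : Sym S cc) {u : κ0 → M → ℝ} (hu : SmV (n := 4) u) (y : κ0) (z : M) :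
    S.D0.cv (fun a z => jv S.J (fun b => u b z) z a) y z = ∑ b, S.J y b z • S.D0.cv u b z := by
  have h1 : Gr (n := 4) (fun z => jv S.J (fun b => u b z) z y) z =
      ∑ b, (S.J y b z • Gr (n := 4) (u b) z + u b z • Gr (n := 4) (S.J y b) z) := by
    unfold jv
    rw [SWTd_451.Gr_sum' (f := fun b z => S.J y b z * u b z) Finset.univ
      (fun b _ => (H.smJ y b).mul (hu b))]
    refine Finset.sum_congr rfl fun b _ => ?_
    exact Gr_mul (md (H.smJ y b) z) (md (hu b) z)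
  have h2 : ∀ b, Gr (n := 4) (S.J y b) z =
      - ∑ c, (S.J c b z • S.D0.X y c z - S.J y c z • S.D0.X c b z) := fun b =>
    eq_neg_of_add_eq_zero_left (H.Jpar y b z)
  have h3 : S.D0.cv (fun a z => jv S.J (fun b => u b z) z a) y z =
      Gr (n := 4) (fun z => jv S.J (fun b => u b z) z y) z +
        ∑ c, (∑ b, S.J c b z * u b z) • S.D0.X y c z := rfl
  rw [h3, h1]
  unfold Dat.cv
  simp only [h2, Finset.smul_sum, smul_sub, Finset.sum_sub_distrib, smul_add,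
    Finset.sum_add_distrib, smul_smul, Finset.sum_smul, neg_sub]
  have e1 : ∑ b, ∑ c, (u b z * S.J c b z) • S.D0.X y c z =
      ∑ c, ∑ b, (S.J c b z * u b z) • S.D0.X y c z := by
    rw [Finset.sum_comm]
    exact Finset.sum_congr rfl fun c _ => Finset.sum_congr rfl fun b _ => by rw [mul_comm]
  have e2 : ∑ b, ∑ c, (u b z * S.J y c z) • S.D0.X c b z =
      ∑ b, ∑ c, (S.J y b z * u c z) • S.D0.X b c z := by
    rw [Finset.sum_comm]
    exact Finset.sum_congr rfl fun c _ => Finset.sum_congr rfl fun b _ => by rw [mul_comm]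
  rw [e1, e2]
  abel

theorem A_add (H : Sym S cc) {u w : κ0 → M → ℝ} (hu : SmV (n := 4) u) (hus : S.D0.Sec u)
    (hw : SmV (n := 4) w) (hws : S.D0.Sec w) (x : κ1) (z : M) :
    S.P.A (fun a z => u a z + w a z) x z = S.P.A u x z + S.P.A w x z := by
  have h1 : SmV (n := 4) fun a z => u a z + w a z := fun a => (hu a).add (hw a)
  have h2 : S.D0.Sec fun a z => u a z + w a z := fun a z => by
    simp only [mul_add, Finset.sum_add_distrib, hus a z, hws a z]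
  rw [H.A_eq _ h1 h2, H.A_eq u hu hus, H.A_eq w hw hws, ← Finset.sum_add_distrib]
  refine Finset.sum_congr rfl fun y _ => ?_
  rw [cv_add hu hw, inner_add_left]

theorem A_mul (H : Sym S cc) {α : M → ℝ} (hα : ContMDiff (𝓡 4) 𝓘(ℝ, ℝ) ∞ α) {u : κ0 → M → ℝ}
    (hu : SmV (n := 4) u) (hus : S.D0.Sec u) (x : κ1) (z : M) :
    S.P.A (fun a z => α z * u a z) x z =
      α z * S.P.A u x z + cl' cc (Gr (n := 4) α z) (fun y => u y z) z x := by
  have h1 : SmV (n := 4) fun a z => α z * u a z := fun a => hα.mul (hu a)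
  have h2 : S.D0.Sec fun a z => α z * u a z := fun a z => by
    have h3 : ∀ b, S.D0.p a b z * (α z * u b z) = α z * (S.D0.p a b z * u b z) := fun b => by ring
    simp only [h3, ← Finset.mul_sum, hus a z]
  rw [H.A_eq _ h1 h2, H.A_eq u hu hus]
  unfold cl'
  rw [Finset.mul_sum, ← Finset.sum_add_distrib]
  refine Finset.sum_congr rfl fun y _ => ?_
  rw [cv_mul hα hu, inner_add_left, real_inner_smul_left, real_inner_smul_left]

theorem A_J (H : Sym S cc) (C : CJ1 S cc J1) {u : κ0 → M → ℝ} (hu : SmV (n := 4) u)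
    (hus : S.D0.Sec u) (x : κ1) (z : M) :
    S.P.A (fun a z => jv S.J (fun b => u b z) z a) x z = jv J1 (fun x' => S.P.A u x' z) z x := by
  have h1 : SmV (n := 4) fun a z => jv S.J (fun b => u b z) z a := fun a =>
    contMDiff_finsetSum fun b _ => (H.smJ a b).mul (hu b)
  have h2 : S.D0.Sec fun a z => jv S.J (fun b => u b z) z a := fun a z => p_jv (cs0 H) _ z a
  rw [H.A_eq _ h1 h2]
  have h3 : (fun x' => S.P.A u x' z) = fun x' => ∑ y, ⟪S.D0.cv u y z, cc x' y z⟫ :=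
    funext fun x' => H.A_eq u hu hus x' z
  rw [h3]
  have h4 : ∀ y, ⟪S.D0.cv u y z, ∑ x', J1 x x' z • cc x' y z⟫ =
      ⟪S.D0.cv u y z, ∑ y', S.J y' y z • cc x y' z⟫ := fun y => by rw [C.cc]
  simp only [inner_sum, real_inner_smul_right] at h4
  simp only [cv_J H hu, sum_inner, real_inner_smul_left]
  rw [Finset.sum_comm]
  simp only [← h4]
  unfold jv
  simp only [Finset.mul_sum]
  rw [Finset.sum_comm]

/-- the Leibniz rule for complex functions. -/
theorem A_cv (H : Sym S cc) (C : CJ1 S cc J1) {α β : M → ℝ}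
    (hα : ContMDiff (𝓡 4) 𝓘(ℝ, ℝ) ∞ α) (hβ : ContMDiff (𝓡 4) 𝓘(ℝ, ℝ) ∞ β)
    {u : κ0 → M → ℝ} (hu : SmV (n := 4) u) (hus : S.D0.Sec u) (x : κ1) (z : M) :
    S.P.A (fun a z => cv' S.J ⟨α z, β z⟩ (fun b => u b z) z a) x z =
      cv' J1 ⟨α z, β z⟩ (fun x' => S.P.A u x' z) z x +
        (cl' cc (Gr (n := 4) α z) (fun y => u y z) z x +
          cl' cc (Gr (n := 4) β z) (jv S.J (fun y => u y z) z) z x) := by
  have h1 : SmV (n := 4) fun a z => jv S.J (fun b => u b z) z a := fun a =>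
    contMDiff_finsetSum fun b _ => (H.smJ a b).mul (hu b)
  have h2 : S.D0.Sec fun a z => jv S.J (fun b => u b z) z a := fun a z => p_jv (cs0 H) _ z a
  have h3 : ∀ {γ : M → ℝ} {w : κ0 → M → ℝ}, S.D0.Sec w → S.D0.Sec fun a z => γ z * w a z := by
    intro γ w hw a z
    have h4 : ∀ b, S.D0.p a b z * (γ z * w b z) = γ z * (S.D0.p a b z * w b z) := fun b => by ring
    simp only [h4, ← Finset.mul_sum, hw a z]
  have h5 := A_add H (u := fun a z => α z * u a z)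
    (w := fun a z => β z * jv S.J (fun b => u b z) z a)
    (fun a => hα.mul (hu a)) (h3 hus) (fun a => hβ.mul (h1 a)) (h3 h2) x z
  have h6 := A_mul H hα hu hus x z
  have h7 := A_mul H hβ h1 h2 x z
  rw [A_J H C hu hus] at h7
  refine h5.trans ?_
  rw [h6, h7]
  unfold cv'
  simp only
  have h8 : (fun y => jv S.J (fun b => u b z) z y) = jv S.J (fun y => u y z) z := rfl
  rw [h8]
  ring

/-! ### on `W^{1,2}` -/

theorem Ah_JW (H : Sym S cc) (C : CJ1 S cc J1) (u : S.D0.toAD.WE) :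
    Ah S.P (JW (cs0 H) u) = JH (cs1 C) (Ah S.P u) := by
  have h1 : (fun u : S.D0.toAD.WE => Ah S.P (JW (cs0 H) u)) =
      fun u => JH (cs1 C) (Ah S.P u) := by
    refine (dns4 S.D0).equalizer ((Ah S.P).continuous.comp (JW (cs0 H)).continuous)
      ((JH (cs1 C)).continuous.comp (Ah S.P).continuous) (funext fun w => ?_)
    show Ah S.P (JW (cs0 H) (cW S.D0 w)) = JH (cs1 C) (Ah S.P (cW S.D0 w))
    rw [JW_cW, Ah_cW (dns4 S.D0), Ah_cW (dns4 S.D0), JH_cH]
    congr 1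
    apply Subtype.ext
    funext x z
    exact A_J H C w.2.1 w.2.2 x z
  exact congrFun h1 u

/-- **the gauge transformation** of the Dirac operator. -/
theorem Ah_MW (H : Sym S cc) (C : CJ1 S cc J1) {θ : κT → M → ℝ} (hθ : SmV (n := 4) θ)
    {α β : M → ℝ} (hα : ContMDiff (𝓡 4) 𝓘(ℝ, ℝ) ∞ α) (hβ : ContMDiff (𝓡 4) 𝓘(ℝ, ℝ) ∞ β)
    (h1 : ∀ z, Gr (n := 4) α z = β z • S.vf θ z)
    (h2 : ∀ z, Gr (n := 4) β z = -(α z) • S.vf θ z) (u : S.D0.toAD.WE) :
    Ah S.P (MW (cs0 H) hα hβ u) + CW H hθ (MW (cs0 H) hα hβ u) =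
      MH (cs1 C) (bm_smooth hα) (bm_smooth hβ) (Ah S.P u) := by
  have h3 : (fun u : S.D0.toAD.WE => Ah S.P (MW (cs0 H) hα hβ u) +
      CW H hθ (MW (cs0 H) hα hβ u)) =
      fun u => MH (cs1 C) (bm_smooth hα) (bm_smooth hβ) (Ah S.P u) := by
    refine (dns4 S.D0).equalizer (((Ah S.P).continuous.comp (MW (cs0 H) hα hβ).continuous).add
      ((CW H hθ).continuous.comp (MW (cs0 H) hα hβ).continuous))
      ((MH (cs1 C) (bm_smooth hα) (bm_smooth hβ)).continuous.comp (Ah S.P).continuous)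
      (funext fun w => ?_)
    show Ah S.P (MW (cs0 H) hα hβ (cW S.D0 w)) + CW H hθ (MW (cs0 H) hα hβ (cW S.D0 w)) =
      MH (cs1 C) (bm_smooth hα) (bm_smooth hβ) (Ah S.P (cW S.D0 w))
    rw [MW_cW, Ah_cW (dns4 S.D0), Ah_cW (dns4 S.D0)]
    refine HE_ext ?_
    filter_upwards [rf_add (cH S.D1 (lA S.P (mS (cs0 H) hα hβ w)))
      (CW H hθ (cW S.D0 (mS (cs0 H) hα hβ w))), rf_cH (lA S.P (mS (cs0 H) hα hβ w)),
      coe_CW H hθ (cW S.D0 (mS (cs0 H) hα hβ w)), rp_cW (mS (cs0 H) hα hβ w),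
      coe_MH (cs1 C) (bm_smooth hα) (bm_smooth hβ) (cH S.D1 (lA S.P w)), rf_cH (lA S.P w)]
      with z e1 e2 e3 e4 e5 e6 x
    rw [e1 x, e2 x, e3 x, e5 x]
    simp only [e6]
    have g1 : (lA S.P (mS (cs0 H) hα hβ w)).1 x z =
        S.P.A (fun a z => cv' S.J ⟨α z, β z⟩ (fun b => w.1 b z) z a) x z := rfl
    have g2 : ∀ x', (lA S.P w).1 x' z = S.P.A w.1 x' z := fun _ => rfl
    simp only [g2]
    rw [g1, A_cv H C hα hβ w.2.1 w.2.2, cm_eq H]
    simp only [e4]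
    have g3 : jv S.J (fun y => (mS (cs0 H) hα hβ w).1 y z) z =
        cv' S.J ⟨α z, β z⟩ (jv S.J (fun y => w.1 y z) z) z := funext fun y =>
      jv_cv (cs0 H) _ (fun a => w.2.2 a z) y
    have g4 : cl' cc (S.vf θ z) (cv' S.J ⟨α z, β z⟩ (jv S.J (fun y => w.1 y z) z) z) z x =
        α z * cl' cc (S.vf θ z) (jv S.J (fun y => w.1 y z) z) z x -
          β z * cl' cc (S.vf θ z) (fun y => w.1 y z) z x := by
      have g5 : cv' S.J ⟨α z, β z⟩ (jv S.J (fun y => w.1 y z) z) z =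
          fun y => α z * jv S.J (fun y => w.1 y z) z y + (-(β z)) * w.1 y z := funext fun y => by
        unfold cv'
        rw [jv_jv (cs0 H) (fun a => w.2.2 a z)]
        ring
      rw [g5, cl_add, cl_smul, cl_smul]
      ring
    rw [g3, g4, h1, h2, cl_vsmul, cl_vsmul]
    ring
  exact congrFun h3 u

/-! ### Fredholm property -/

theorem spec0 (H : Sym S cc) : Nonempty (Spec S.D0) := by
  obtain ⟨z⟩ := ‹Nonempty M›
  refine Swx_333.spec4 S.D0 ?_
  by_contra hcon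
  push Not at hcon
  have h1 := H.rk0 z
  simp only [hcon, Finset.sum_const_zero] at h1
  norm_num at h1

theorem spec1 (H : Sym S cc) : Nonempty (Spec S.D1) := by
  obtain ⟨z⟩ := ‹Nonempty M›
  refine Swx_333.spec4 S.D1 ?_
  by_contra hcon
  push Not at hcon
  have h1 := H.rk1 z
  simp only [hcon, Finset.sum_const_zero] at h1
  norm_num at h1

theorem fred_Ah (H : Sym S cc) : Fred685.Fred (Ah S.P) := by
  obtain ⟨S0⟩ := spec0 H
  obtain ⟨S1⟩ := spec1 H
  refine ⟨Go S.P S1, ?_, ?_⟩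
  · have : FiniteDimensional ℝ (Submodule.span ℝ (Set.range fun k : S0.ker =>
        cW S.D0 (ph S0 k))) := FiniteDimensional.span_of_finite ℝ (Set.finite_range _)
    refine cpt_of_range _ (Submodule.span ℝ (Set.range fun k : S0.ker => cW S.D0 (ph S0 k)))
      fun u => ?_
    have h1 : (1 - (Go S.P S1).comp (Ah S.P)) u =
        ∑ k ∈ S0.ker, (⟪S.D0.toAD.jj u, cH S.D0 (ph S0 k)⟫ : ℝ) • cW S.D0 (ph S0 k) := by
      show u - Go S.P S1 (Ah S.P u) = _
      rw [Go_Ah (dns4 S.D0) (dns4 S.D1) S0 S1, sub_sub_cancel]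
    rw [h1]
    exact Submodule.sum_mem _ fun k hk =>
      Submodule.smul_mem _ _ (Submodule.subset_span ⟨⟨k, hk⟩, rfl⟩)
  · have : FiniteDimensional ℝ (Submodule.span ℝ (Set.range fun k : S1.ker =>
        cH S.D1 (ph S1 k))) := FiniteDimensional.span_of_finite ℝ (Set.finite_range _)
    refine cpt_of_range _ (Submodule.span ℝ (Set.range fun k : S1.ker => cH S.D1 (ph S1 k)))
      fun f => ?_
    have h1 : (1 - (Ah S.P).comp (Go S.P S1)) f =
        ∑ k ∈ S1.ker, (⟪f, cH S.D1 (ph S1 k)⟫ : ℝ) • cH S.D1 (ph S1 k) := by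
      show f - Ah S.P (Go S.P S1 f) = _
      rw [Ah_Go (dns4 S.D0) (dns4 S.D1) S1, sub_sub_cancel, Pk_apply]
    rw [h1]
    exact Submodule.sum_mem _ fun k hk =>
      Submodule.smul_mem _ _ (Submodule.subset_span ⟨⟨k, hk⟩, rfl⟩)

end sys

end

end Crest.Agent.R235.SWPf_435
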