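import Crest.Agent.R235.FvA_844
import Crest.Agent.R235.SWJo_952
import Crest.Agent.R235.SWPfC_435

/-!
Row 235 (S0364), PACKAGE FAM (helper952): the fields `der` and `z0` of `FamT_151.HopfP` for the
Seiberg-Witten system over the Jacobian torus, at `Ψ s = eX.symm (QQ hH d.r s)`.

* `transfer` : derivative through real isomorphisms;
* `ind_zero` : `ind_ℝ (Ah P) = 0` from the complex index of `Φ.D 0`;
* `hopf_der`, `hopf_z0`.
-/

set_option autoImplicit false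
set_option maxSynthPendingDepth 3
set_option linter.unusedSectionVars false

open scoped ContDiff ENNReal NNReal Topology Manifold Bundle RealInnerProductSpace
open MeasureTheory Set Filter Metric Bundle Module

universe v

namespace Crest.Agent.R235.FvD_952

open Crest.Agent.R249.Tv57 Crest.Agent.R247.Ms322 Crest.Agent.R247.Dir593
open Crest.Agent.R235.SWDefs_53 Crest.Agent.R235.CptB_755 Crest.Agent.R235.Fs4_546
open Crest.Agent.R235.CptC_755 Crest.Agent.R235.Cpt_755 Crest.Agent.R235.Fred_649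
open Crest.Agent.R235.Swx_333 Crest.Agent.R235.SWSym_451 Crest.Agent.R235.SWJc_365
open Crest.Agent.R235.FamR_151 Crest.Agent.R235.SWJq_365 Crest.Agent.R235.SWJz_365
open Crest.Agent.R235.SWPfA_435 Crest.Agent.R235.SWJo_952 Crest.Agent.R275
open Crest.Agent.R235.FvA_844

noncomputable section

/-! ### real isomorphisms -/

section abs

variable {X Y V W Q : Type*} [NormedAddCommGroup X] [InnerProductSpace ℂ X]
  [NormedAddCommGroup Y] [InnerProductSpace ℂ Y] [NormedAddCommGroup V] [NormedSpace ℝ V]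
  [NormedAddCommGroup W] [NormedSpace ℝ W] [NormedAddCommGroup Q] [NormedSpace ℝ Q] {b : ℕ}

/-- conjugation by the isomorphisms. -/
def cj (eX : X ≃L[ℝ] V) (eY : Y ≃L[ℝ] W) (T : ((Fin b → ℝ) × V) →L[ℝ] Q × W) :
    ((Fin b → ℝ) × X) →L[ℝ] Q × Y :=
  ((ContinuousLinearMap.id ℝ Q).prodMap (eY.symm : W →L[ℝ] Y)).comp
    (T.comp ((ContinuousLinearMap.id ℝ (Fin b → ℝ)).prodMap (eX : X →L[ℝ] V)))

theorem cj_apply (eX : X ≃L[ℝ] V) (eY : Y ≃L[ℝ] W) (T : ((Fin b → ℝ) × V) →L[ℝ] Q × W)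
    (w : (Fin b → ℝ) × X) : cj eX eY T w = ((T (w.1, eX w.2)).1, eY.symm (T (w.1, eX w.2)).2) :=
  rfl

theorem transfer (eX : X ≃L[ℝ] V) (eY : Y ≃L[ℝ] W) {G : (Fin b → ℝ) × V → Q × W}
    {T : ((Fin b → ℝ) × V) →L[ℝ] Q × W} {v0 : V} (hG : HasFDerivAt G T ((0 : Fin b → ℝ), v0)) :
    HasFDerivAt (fun w : (Fin b → ℝ) × X => ((G (w.1, eX w.2)).1, eY.symm (G (w.1, eX w.2)).2))
      (cj eX eY T) ((0 : Fin b → ℝ), eX.symm v0) := by
  have h1 : HasFDerivAt ((ContinuousLinearMap.id ℝ (Fin b → ℝ)).prodMap (eX : X →L[ℝ] V))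
      ((ContinuousLinearMap.id ℝ (Fin b → ℝ)).prodMap (eX : X →L[ℝ] V))
      ((0 : Fin b → ℝ), eX.symm v0) := ContinuousLinearMap.hasFDerivAt _
  have h2 : ((ContinuousLinearMap.id ℝ (Fin b → ℝ)).prodMap (eX : X →L[ℝ] V))
      ((0 : Fin b → ℝ), eX.symm v0) = ((0 : Fin b → ℝ), v0) :=
    Prod.ext rfl (eX.apply_symm_apply v0)
  rw [← h2] at hG
  have h3 := hG.comp ((0 : Fin b → ℝ), eX.symm v0) h1
  exact (((ContinuousLinearMap.id ℝ Q).prodMap (eY.symm : W →L[ℝ] Y)).hasFDerivAt).comp _ h3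

theorem cj_onto (eX : X ≃L[ℝ] V) (eY : Y ≃L[ℝ] W) {T : ((Fin b → ℝ) × V) →L[ℝ] Q × W}
    (h : ∀ y, ∃ w, T w = y) (y : Q × Y) : ∃ w, cj eX eY T w = y := by
  obtain ⟨w, hw⟩ := h (y.1, eY y.2)
  refine ⟨(w.1, eX.symm w.2), ?_⟩
  rw [cj_apply]
  have e : ((w.1, eX (w.1, eX.symm w.2).2) : (Fin b → ℝ) × V) = w :=
    Prod.ext rfl (eX.apply_symm_apply w.2)
  rw [e, hw]
  exact Prod.ext rfl (eY.symm_apply_apply y.2)

theorem cj_ker (eX : X ≃L[ℝ] V) (eY : Y ≃L[ℝ] W) {T : ((Fin b → ℝ) × V) →L[ℝ] Q × W}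
    {w : (Fin b → ℝ) × X} (h : cj eX eY T w = 0) : T (w.1, eX w.2) = 0 := by
  rw [cj_apply, Prod.mk_eq_zero] at h
  exact Prod.ext h.1 ((map_eq_zero_iff eY.symm eY.symm.injective).1 h.2)

end abs

section main

variable {M : Type v} [MetricSpace M] [CompactSpace M] [ConnectedSpace M]
  [ChartedSpace (EuclideanSpace ℝ (Fin 4)) M] [IsManifold (𝓡 4) ∞ M]
  [RiemannianBundle (fun p : M => TangentSpace (𝓡 4) p)]
  [IsContMDiffRiemannianBundle (𝓡 4) ∞ (EuclideanSpace ℝ (Fin 4))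
    (fun p : M => TangentSpace (𝓡 4) p)]
  [IsRiemannianManifold (𝓡 4) M] [MeasurableSpace M] [BorelSpace M]
  [SecondCountableTopology M] [Nonempty M] [IsFiniteMeasureOnCompacts (μHE[4] : Measure M)]
  {κ0 κ1 κT : Type} [Fintype κ0] [Fintype κ1] [Fintype κT] {b bp : ℕ}
  {S : SWS M κ0 κ1 κT} {cc : κ1 → κ0 → M → EuclideanSpace ℝ (Fin 4)} {J1 : κ1 → κ1 → M → ℝ}
  {j : JD M κT b} {d : SWD M κT} {ww : Fin 3 → Fin 3 → M → ℝ} {τ : E3 → TD M κT} {C : ℝ}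
  {th : E3 → κT → M → ℝ} {pi : EuclideanSpace ℂ (Fin 2) → E3}
  {U : EuclideanSpace ℂ (Fin 2) → κ0 → M → ℝ}
  {X Y : Type v} [NormedAddCommGroup X] [InnerProductSpace ℂ X] [CompleteSpace X]
  [NormedAddCommGroup Y] [InnerProductSpace ℂ Y] [CompleteSpace Y]
  {Φ : PFam b X Y} {eX : X ≃L[ℝ] S.D0.toAD.WE} {eY : Y ≃L[ℝ] S.D1.toAD.HE} {φ : Fin b → M → ℝ}

theorem eY_D0 (h : Rep S j J1 Φ eX eY φ) (hS : S.OK) (hj : j.OK S) (x : X) :
    eY (Φ.D 0 x) = Ah S.P (eX x) := by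
  rw [eY_D h hS hj 0 x]
  simp

/-- **the real index of `Ah P`**. -/
theorem ind_zero (h : Rep S j J1 Φ eX eY φ) (hc : Sym S cc) (hS : S.OK) (hj : j.OK S)
    (hind : finrank ℂ (LinearMap.ker (Φ.D 0 : X →ₗ[ℂ] Y)) =
      finrank ℂ ((LinearMap.range (Φ.D 0 : X →ₗ[ℂ] Y))ᗮ : Submodule ℂ Y)) :
    Fred685.ind (Ah S.P) = 0 := by
  have hD := eY_D0 h hS hj
  have h1 := finrank_of_real (kerE hD)
  have h2 := finrank_of_real (cokE h.nY hD)
  obtain ⟨S1⟩ := SWPf_435.spec1 hc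
  have h3 := isClosed_range (P := S.P) (dns4 S.D0) (dns4 S.D1) S1
  have : CompleteSpace (LinearMap.range (Ah S.P : S.D0.toAD.WE →ₗ[ℝ] S.D1.toAD.HE)) :=
    h3.completeSpace_coe
  have h4 := (Submodule.quotientEquivOfIsCompl _ _
    (Submodule.isCompl_orthogonal
      (K := LinearMap.range (Ah S.P : S.D0.toAD.WE →ₗ[ℝ] S.D1.toAD.HE)))).finrank_eq
  unfold Fred685.ind Fred685.idx
  rw [h4]
  omega

/-- multiplication by `i`, in `W^{1,2}`. -/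
def IIx (eX : X ≃L[ℝ] S.D0.toAD.WE) : S.D0.toAD.WE →L[ℝ] S.D0.toAD.WE :=
  (eX : X →L[ℝ] S.D0.toAD.WE).comp
    (((Complex.I • (ContinuousLinearMap.id ℂ X)).restrictScalars ℝ).comp
      (eX.symm : S.D0.toAD.WE →L[ℝ] X))

theorem IIx_apply (eX : X ≃L[ℝ] S.D0.toAD.WE) (x : S.D0.toAD.WE) :
    IIx eX x = eX (Complex.I • eX.symm x) := rfl

theorem coe_IIx (h : Rep S j J1 Φ eX eY φ) (x : S.D0.toAD.WE) :
    ∀ᵐ z ∂(μHE[4] : Measure M), ∀ y, rp (IIx eX x) y z = S.iu (rp x) y z := by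
  have h1 := h.iX (eX.symm x)
  rw [eX.apply_symm_apply] at h1
  exact h1

theorem eX_symm_smul (eX : X ≃L[ℝ] S.D0.toAD.WE) (c : ℝ) (x : S.D0.toAD.WE) :
    eX.symm (c • IIx eX x) = ((c : ℂ) * Complex.I) • eX.symm x := by
  rw [map_smul, IIx_apply, eX.symm_apply_apply, mul_smul]
  rfl

/-- the map, transported. -/
theorem map_eq (h : Rep S j J1 Φ eX eY φ) (hS : S.OK) (hj : j.OK S) (hd : d.Adm S)
    (s0 : Spec S.DL) (H : HarB hS bp) (R : ℝ) (t : E3) (w : (Fin b → ℝ) × X) :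
    (Ex eX H d R t w.2, Φ.D w.1 w.2 + Kx eX eY hS hd s0 R t w.2) =
      (KA H d R t (eX w.2), eY.symm (Ah S.P (eX w.2) + ∑ i, w.1 i • LI hS hj i (eX w.2) +
        KP hS hd s0 R t (eX w.2))) := by
  refine Prod.ext rfl ?_
  apply eY.injective
  show eY (Φ.D w.1 w.2 + Kx eX eY hS hd s0 R t w.2) = eY (eY.symm _)
  rw [eY.apply_symm_apply, map_add, eY_D h hS hj, eY_Kx]

/-- **`HopfP.der`**. -/
theorem hopf_der (hND : ND.{v}) (h : Rep S j J1 Φ eX eY φ) (hc : Sym S cc) (hg : GrdH S)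
    (hj : j.OK S) (hH : HopfD S ww τ C th pi U) (hF : d.FFit S ww τ C th) (hS : S.OK)
    (hd : d.Adm S) (s0 : Spec S.DL) (sT : Spec S.DT) (H : HarB hS bp) {R : ℝ} (hR : 0 < R)
    {s : EuclideanSpace ℂ (Fin 2)} (hs : ‖s‖ = 1)
    (hB : ∀ z, ∑ y, us τ pi U d.r s y z ^ 2 < R ^ 2)
    (hind : finrank ℂ (LinearMap.ker (Φ.D 0 : X →ₗ[ℂ] Y)) =
      finrank ℂ ((LinearMap.range (Φ.D 0 : X →ₗ[ℂ] Y))ᗮ : Submodule ℂ Y)) (hb : bp + 1 = b) :
    ∃ L : ((Fin b → ℝ) × X) →L[ℝ] EuclideanSpace ℝ (Fin bp) × Y,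
      HasFDerivAt (fun w : (Fin b → ℝ) × X =>
        (Ex eX H d R (pi s) w.2, Φ.D w.1 w.2 + Kx eX eY hS hd s0 R (pi s) w.2)) L
        ((0 : Fin b → ℝ), eX.symm (QQ hH d.r s)) ∧
      (∀ w, L w = 0 → ∃ a : ℝ, w = (0, ((a : ℂ) * Complex.I) • eX.symm (QQ hH d.r s))) ∧
      ∀ z, ∃ w, L w = z := by
  have ht : pi s ∈ BB := (hH.npi s hs).le
  have e4 : Emb4 S.D0.toAD.i1 := SWJn_333.e4 _
  have eT : Emb4 S.DT.toAD.i1 := SWJn_333.e4 _
  set u : SmS S.D0 := ⟨us τ pi U d.r s, sm_us hH d.r hs, sec_us hH d.r hs⟩ with hu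
  obtain ⟨k1, k2, -⟩ := onto_all hND hH hF hS hd hc hg hs ht s0 sT e4 eT hR u (us_sc _ _) hB hj H
    (IIx eX) (coe_IIx h) (SWPf_435.fred_Ah hc) (ind_zero h hc hS hj hind) hb
  have k3 := hasFDerivAt_LT (hS := hS) hd s0 e4 eT hR ht u hB hj H
  have hQ : QQ hH d.r s = cW S.D0 u := QQ_eq hH d.r hs
  rw [hQ]
  refine ⟨cj eX eY (LT hd s0 e4 eT R ht u hj H), ?_, fun w hw => ?_,
    fun z => cj_onto eX eY (LT_surj k1) z⟩
  · refine (transfer eX eY k3).congr_of_eventuallyEq (Eventually.of_forall fun w => ?_)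
    exact map_eq h hS hj hd s0 H R (pi s) w
  · obtain ⟨c, hc'⟩ := k2 _ (cj_ker eX eY hw)
    have e5 : eX w.2 = c • IIx eX (cW S.D0 u) := congrArg Prod.snd hc'
    have e6 : w.1 = 0 := congrArg Prod.fst hc'
    refine ⟨c, Prod.ext e6 ?_⟩
    show w.2 = ((c : ℂ) * Complex.I) • eX.symm (cW S.D0 u)
    rw [← eX_symm_smul, ← e5, eX.symm_apply_apply]

/-- **`HopfP.z0`**, over every point of the sphere. -/
theorem hopf_z0 (hZ : ZER.{v}) (h : Rep S j J1 Φ eX eY φ) (hc : Sym S cc)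
    (hj : j.OK S) (hH : HopfD S ww τ C th pi U) (hF : d.FFit S ww τ C th) (hS : S.OK)
    (hd : d.Adm S) (s0 : Spec S.DL) (H : HarB hS bp) {R : ℝ} (hR : 0 < R)
    {s : EuclideanSpace ℂ (Fin 2)} (hs : ‖s‖ = 1)
    (hB : ∀ z, ∑ y, us τ pi U d.r s y z ^ 2 ≤ R ^ 2) :
    Ex eX H d R (pi s) (eX.symm (QQ hH d.r s)) = 0 ∧
      Φ.D 0 (eX.symm (QQ hH d.r s)) + Kx eX eY hS hd s0 R (pi s) (eX.symm (QQ hH d.r s)) = 0 := by
  refine ⟨?_, ?_⟩
  · unfold Ex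
    rw [eX.apply_symm_apply]
    show H.har (Fq d R (pi s) (QQ hH d.r s)) = 0
    rw [fq_us hS hd hH hF hR hs hB, map_zero]
  · rw [dirac_iff h hS hj hd s0 R (pi s) 0, eX.apply_symm_apply]
    have h1 := solP hZ hc hj hS hd hH hF s0 (SWJn_333.e4 _) (SWJn_333.e4 _) hR hs hB
    simpa using h1

end main

end

end Crest.Agent.R235.FvD_952
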