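import Crest.Agent.R235.HopfM_453

/-!
Row 235 (S0364), PACKAGE SW, helper453: **MODB is a theorem** (344's `modb_of` + `hopfm`).
-/

set_option autoImplicit false

namespace Crest.Agent.R235.ModBE_453

/-- **MODB**. -/
theorem modb : SWTop_53.MODB := ModB_344.modb_of HopfM_453.hopfm

/-- **BPLUS** from `BPF`. -/
theorem bplus (hG : SWDefs_53.BPF.{0}) : BPLUS.{0} := SWTop_53.bplus_of hG modb

end Crest.Agent.R235.ModBE_453
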