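import Crest.Agent.R235.SWData_451
import Crest.Agent.R235.SWGeo_659
import Crest.Agent.R235.Uu_291

/-!
Row 235 (S0364), PACKAGE SW (helper451): the properties `TD.OK` of the family `tauF` of `SWData_451`,
from the second identity `T2` (helper483).
-/

set_option autoImplicit false
set_option maxSynthPendingDepth 3
set_option linter.unusedSectionVars false

open scoped ContDiff ENNReal NNReal Topology Manifold Bundle RealInnerProductSpace
open MeasureTheory Set Filter Metric Bundle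

universe v

namespace Crest.Agent.R235.SWOk_451

open Crest.Agent.R240 Crest.Agent.R240.Ch Crest.Agent.R235 Crest.Agent.R235.SWDefs_53
open Crest.Agent.R235.IndTri_451 Crest.Agent.R235.SWTn_451 Crest.Agent.R235.TauJ
open Crest.Agent.R235.SWTf_451 Crest.Agent.R235.SWTe_451 Crest.Agent.R235.SWTd_451
open Crest.Agent.R235.SWJF_451 Crest.Agent.R235.SWData_451
open Crest.Agent.R235.Tau483 (TG TE TC WT bF fld Jm PEf Ch0 PhiF Phi)
open Crest.Agent.R249.Tv57 (Dat OpPair SmF SmV)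
open Crest.Agent.R249.Tz805 (ToF)
open Crest.Agent.R249.Vf281 (VSm)
open Crest.Agent.R247.Ms322 (Gr)

noncomputable section

variable {M : Type v} [MetricSpace M] [CompactSpace M] [ConnectedSpace M]
  [ChartedSpace (EuclideanSpace ℝ (Fin 4)) M] [IsManifold (𝓡 4) ∞ M]
  [RiemannianBundle (fun p : M => TangentSpace (𝓡 4) p)]
  [IsContMDiffRiemannianBundle (𝓡 4) ∞ (EuclideanSpace ℝ (Fin 4))
    (fun p : M => TangentSpace (𝓡 4) p)]
  [IsRiemannianManifold (𝓡 4) M] [MeasurableSpace M] [BorelSpace M]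
  [SecondCountableTopology M] [Nonempty M] [IsFiniteMeasureOnCompacts (μHE[4] : Measure M)]
  {κ0 κ1 κT : Type} [Fintype κ0] [Fintype κ1] [Fintype κT]
  {S : SWS M κ0 κ1 κT} {T : ToF 4 M}
    {c : κ1 → κ0 → (z : M) → TangentSpace (𝓡 4) z}
    {W : κ0 → κ0 → (z : M) → TangentSpace (𝓡 4) z}
    {sT : κT → (z : M) → TangentSpace (𝓡 4) z} {w : Trip M} {e : Fin 3 → F2 E4 M}
    {σ ι : ℝ} {ww : Fin 3 → Fin 3 → M → ℝ} {cE : E3 → Z2 M}

/-- `w_t` is harmonic. -/
theorem harm_wtk (hS : S.OK) (hs : ∀ i k, ContMDiff (𝓡 4) 𝓘(ℝ, ℝ) ∞ (ww i k))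
    (harm : ∀ i x z, S.H.A (Fin.cons (fun _ => 0) (ww i)) x z = 0) (t : E3) (x : κT) (z : M) :
    S.H.A (Fin.cons (fun _ => 0) (wtk ww t)) x z = 0 := by
  have hu : ∀ i, SmV (n := 4) (Fin.cons (fun _ => 0) (ww i) : Fin 4 → M → ℝ) := by
    intro i a
    refine Fin.cases ?_ (fun k => ?_) a
    · exact contMDiff_const
    · exact hs i k
  have hsec : ∀ u : Fin 4 → M → ℝ, S.DL.Sec u := by
    intro u a z
    simp only [hS.fullL]
    simp
  obtain ⟨-, -, h3, -⟩ := SWGeo_659.sum_all S.H Finset.univ (fun i : Fin 3 => t i)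
    (fun i => (Fin.cons (fun _ => 0) (ww i) : Fin 4 → M → ℝ)) hu fun i => hsec _
  have h4 : (Fin.cons (fun _ => 0) (wtk ww t) : Fin 4 → M → ℝ) =
      ∑ i, t i • (Fin.cons (fun _ => 0) (ww i) : Fin 4 → M → ℝ) := by
    funext a z
    rw [Finset.sum_apply, Finset.sum_apply]
    refine Fin.cases ?_ (fun k => ?_) a
    · simp
    · simp [wtk]
  rw [h4, h3]
  simp only [harm, mul_zero, Finset.sum_const_zero]

/-- the closed form `w_t`. -/
theorem wt_tauF (h : Hyp S T c W sT w e σ ι (wwf (fun i => (w i).1.1) e) cE) {t : E3}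
    (ht : t ≠ 0) : WT (tauF S T c W sT w e σ (wwf (fun i => (w i).1.1) e) cE t) e
      (Uu_291.wt w (fun i => t i)) := by
  intro x
  rw [Uu_291.val_wt]
  have h1 : ∀ k, (tauF S T c W sT w e σ (wwf (fun i => (w i).1.1) e) cE t).rr x *
      (tauF S T c W sT w e σ (wwf (fun i => (w i).1.1) e) cE t).n k x =
      ∑ i, t i * wwf (fun i => (w i).1.1) e i k x := fun k => h.lt.mul_nt ht k x
  simp only [h1, Finset.sum_smul]
  rw [Finset.sum_comm]
  refine Finset.sum_congr rfl fun i _ => ?_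
  have h2 : val (w i) x = ∑ k, wwf (fun i => (w i).1.1) e i k x • at2 (e k) x :=
    wwf_eq h.tg.tri i x
  rw [h2, Finset.smul_sum]
  exact Finset.sum_congr rfl fun k _ => by rw [smul_smul]

theorem sm_fE (h : Hyp S T c W sT w e σ ι ww cE) {t : E3} (ht : t ≠ 0) (k : Fin 3) :
    ContMDiff (𝓡 4) 𝓘(ℝ, ℝ) ∞ ((tauF S T c W sT w e σ ww cE t).fE k) :=
  (Crest.Agent.R240.Ch.smoothF_iff _).2 ((h.jf_fE k).sl ht)

/-- **`TD.OK` of the family**, from `T2`. -/
theorem ok_tauF (h : Hyp S T c W sT w e σ ι (wwf (fun i => (w i).1.1) e) cE) (hS : S.OK)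
    (harm : ∀ i x z, S.H.A (Fin.cons (fun _ => 0) (wwf (fun i => (w i).1.1) e i)) x z = 0)
    {t : E3} (ht : t ≠ 0) {C : ℝ}
    (T2 : ∀ (a : κT → M → ℝ) (s s' : κ0 → M → ℝ), SmV (n := 4) a → S.DT.Sec a →
      SmV (n := 4) s → SmV (n := 4) s' →
      (tauF S T c W sT w e σ (wwf (fun i => (w i).1.1) e) cE t).SecE S s →
      (tauF S T c W sT w e σ (wwf (fun i => (w i).1.1) e) cE t).SecE' S s' →
      |∫ z, ((tauF S T c W sT w e σ (wwf (fun i => (w i).1.1) e) cE t).rr z ^ (-(1 / 2) : ℝ) *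
        (∑ x, (S.P.A ((tauF S T c W sT w e σ (wwf (fun i => (w i).1.1) e) cE t).sc (3 / 4) s) +
          S.cm a ((tauF S T c W sT w e σ (wwf (fun i => (w i).1.1) e) cE t).sc (3 / 4) s)) x z *
          (S.P.A ((tauF S T c W sT w e σ (wwf (fun i => (w i).1.1) e) cE t).sc (3 / 4) s') +
          S.cm a ((tauF S T c W sT w e σ (wwf (fun i => (w i).1.1) e) cE t).sc (3 / 4) s')) x z) -
        (tauF S T c W sT w e σ (wwf (fun i => (w i).1.1) e) cE t).rr z *
          ∑ k, (S.H.B a k.succ z +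
            (tauF S T c W sT w e σ (wwf (fun i => (w i).1.1) e) cE t).fE k z) *
            ∑ y, ∑ y', S.rho k y y' z * s y z * s' y' z)
      ∂(μHE[4] : Measure M)| ≤
      C * ∫ z, √(∑ y, ‖(tauF S T c W sT w e σ (wwf (fun i => (w i).1.1) e) cE t).nE S a s y z‖ ^ 2) *
        √(∑ y, s' y z ^ 2) ∂(μHE[4] : Measure M)) :
    (tauF S T c W sT w e σ (wwf (fun i => (w i).1.1) e) cE t).OK S C where
  smrr := (h.te ht).smrr
  pos := (h.te ht).pos
  smn := (h.te ht).smn
  smsh := (h.te ht).smsh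
  secsh := (h.te ht).secsh
  smfE := sm_fE h ht
  norm := (h.te ht).norm
  rsec := h.sym.prho
  invol y y'' z := by
    have h1 := congrFun (congrFun (mR_sq h.sym (m := nt (wwf (fun i => (w i).1.1) e) t) z
      (h.lt.norm_nt ht z)) y) y''
    rw [Matrix.mul_apply] at h1
    simp only [mR_apply] at h1
    exact h1
  harm x z := by
    have h1 : (fun k z => (tauF S T c W sT w e σ (wwf (fun i => (w i).1.1) e) cE t).rr z *
        (tauF S T c W sT w e σ (wwf (fun i => (w i).1.1) e) cE t).n k z) =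
        wtk (wwf (fun i => (w i).1.1) e) t := by
      funext k z
      exact h.lt.mul_nt ht k z
    rw [h1]
    exact harm_wtk hS h.smw harm t x z
  T1 a s ha hsa hs hE :=
    Tau483.t1 hS h.tg (h.te ht) (wt_tauF h ht) (h.tc ht) ha hsa hs hE
  T2 := T2

end

end Crest.Agent.R235.SWOk_451
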