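import Crest.Agent.R235.TauK_483

/-!
Row 235 (S0364), SW-TAU (helper483), part L: uniform estimates (`OO g f : |f| ≤ C g`, uniformly over a
family), families of Taubes data, the integral identity and the estimate `T2`.
-/

set_option autoImplicit false
set_option maxSynthPendingDepth 3
set_option linter.unusedSectionVars false

open scoped ContDiff ENNReal NNReal Topology Manifold Bundle RealInnerProductSpace
open MeasureTheory Set Filter Metric Bundle Matrix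

universe v

namespace Crest.Agent.R235.Tau483

open Crest.Agent.R240 Crest.Agent.R240.Ch Crest.Agent.R240.Int Crest.Agent.R235.SWDefs_53
open Crest.Agent.R235.IndTri_451
open Crest.Agent.R249.Tv57 (Dat OpPair SmF Spec)
open Crest.Agent.R247.Ms322 (Gr)
open Crest.Agent.R249.Vf281 (VSm mCov)
open Crest.Agent.R247.Bo84 (mgrad inner_mgrad)
open Crest.Agent.R249.Tz805 (ToF)

noncomputable section

/-! ### the calculus -/

section OO

variable {X Ξ : Type*}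

/-- `|f| ≤ C g`, uniformly. -/
def OO (g f : Ξ → X → ℝ) : Prop := ∃ C : ℝ, 0 ≤ C ∧ ∀ ξ z, |f ξ z| ≤ C * g ξ z

theorem OO.add {g f1 f2 : Ξ → X → ℝ} (h1 : OO g f1) (h2 : OO g f2) :
    OO g fun ξ z => f1 ξ z + f2 ξ z := by
  obtain ⟨C1, c1, h1⟩ := h1
  obtain ⟨C2, c2, h2⟩ := h2
  refine ⟨C1 + C2, add_nonneg c1 c2, fun ξ z => (abs_add_le _ _).trans ?_⟩
  rw [add_mul]
  exact add_le_add (h1 ξ z) (h2 ξ z)

theorem OO.neg {g f : Ξ → X → ℝ} (h : OO g f) : OO g fun ξ z => - f ξ z := by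
  obtain ⟨C, c, h⟩ := h
  exact ⟨C, c, fun ξ z => by rw [abs_neg]; exact h ξ z⟩

theorem OO.sub {g f1 f2 : Ξ → X → ℝ} (h1 : OO g f1) (h2 : OO g f2) :
    OO g fun ξ z => f1 ξ z - f2 ξ z := by
  have := h1.add h2.neg
  simpa only [← sub_eq_add_neg] using this

theorem OO.mul {g1 g2 f1 f2 : Ξ → X → ℝ} (h1 : OO g1 f1) (h2 : OO g2 f2) :
    OO (fun ξ z => g1 ξ z * g2 ξ z) fun ξ z => f1 ξ z * f2 ξ z := by
  obtain ⟨C1, c1, h1⟩ := h1
  obtain ⟨C2, c2, h2⟩ := h2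
  refine ⟨C1 * C2, mul_nonneg c1 c2, fun ξ z => ?_⟩
  rw [abs_mul]
  have := mul_le_mul (h1 ξ z) (h2 ξ z) (abs_nonneg _) ((abs_nonneg _).trans (h1 ξ z))
  refine this.trans (le_of_eq ?_)
  ring

theorem OO.bmul {g f1 f2 : Ξ → X → ℝ} (h1 : OO (fun _ _ => 1) f1) (h2 : OO g f2) :
    OO g fun ξ z => f1 ξ z * f2 ξ z := by
  have := h1.mul h2
  simpa only [one_mul] using this

theorem OO.mulb {g f1 f2 : Ξ → X → ℝ} (h1 : OO g f1) (h2 : OO (fun _ _ => 1) f2) :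
    OO g fun ξ z => f1 ξ z * f2 ξ z := by
  have := h1.mul h2
  simpa only [mul_one] using this

theorem OO.const (c : ℝ) : OO (fun (_ : Ξ) (_ : X) => (1 : ℝ)) fun _ _ => c :=
  ⟨|c|, abs_nonneg c, fun _ _ => by rw [mul_one]⟩

theorem OO.zero {g : Ξ → X → ℝ} : OO g fun _ _ => 0 :=
  ⟨0, le_rfl, fun _ _ => by rw [abs_zero, zero_mul]⟩

theorem OO.congr {g f1 f2 : Ξ → X → ℝ} (h : OO g f1) (he : ∀ ξ z, f2 ξ z = f1 ξ z) : OO g f2 := by
  have : f2 = f1 := funext fun ξ => funext fun z => he ξ z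
  rwa [this]

theorem OO.sum {κ : Type*} (t : Finset κ) {g : Ξ → X → ℝ} {f : κ → Ξ → X → ℝ}
    (h : ∀ i ∈ t, OO g (f i)) : OO g fun ξ z => ∑ i ∈ t, f i ξ z := by
  classical
  induction t using Finset.induction_on with
  | empty => exact OO.zero.congr fun ξ z => by rw [Finset.sum_empty]
  | insert a t ha ih =>
    refine ((h a (Finset.mem_insert_self _ _)).add
      (ih fun i hi => h i (Finset.mem_insert_of_mem hi))).congr fun ξ z => ?_
    rw [Finset.sum_insert ha]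

theorem OO.pull {Ξ' : Type*} {g f : Ξ → X → ℝ} (h : OO g f) (u : Ξ' → Ξ) :
    OO (fun ξ z => g (u ξ) z) fun ξ z => f (u ξ) z := by
  obtain ⟨C, c, h⟩ := h
  exact ⟨C, c, fun ξ z => h (u ξ) z⟩

/-- bounded entries. -/
def OM {κ κ' : Type*} (A : Ξ → X → Matrix κ κ' ℝ) : Prop :=
  ∀ i j, OO (fun _ _ => 1) fun ξ z => A ξ z i j

theorem OM.mul {κ κ' κ'' : Type*} [Fintype κ'] {A : Ξ → X → Matrix κ κ' ℝ}
    {B : Ξ → X → Matrix κ' κ'' ℝ} (hA : OM A) (hB : OM B) : OM fun ξ z => A ξ z * B ξ z := by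
  intro i j
  exact (OO.sum Finset.univ fun c _ => (hA i c).bmul (hB c j)).congr fun ξ z => rfl

theorem OM.add {κ κ' : Type*} {A B : Ξ → X → Matrix κ κ' ℝ} (hA : OM A) (hB : OM B) :
    OM fun ξ z => A ξ z + B ξ z := fun i j => (hA i j).add (hB i j)

theorem OM.sub {κ κ' : Type*} {A B : Ξ → X → Matrix κ κ' ℝ} (hA : OM A) (hB : OM B) :
    OM fun ξ z => A ξ z - B ξ z := fun i j => (hA i j).sub (hB i j)

theorem OM.smul {κ κ' : Type*} {f : Ξ → X → ℝ} {A : Ξ → X → Matrix κ κ' ℝ}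
    (hf : OO (fun _ _ => 1) f) (hA : OM A) : OM fun ξ z => f ξ z • A ξ z :=
  fun i j => hf.bmul (hA i j)

theorem OM.sum {κ κ' ν : Type*} (t : Finset ν) {A : ν → Ξ → X → Matrix κ κ' ℝ}
    (h : ∀ i ∈ t, OM (A i)) : OM fun ξ z => ∑ i ∈ t, A i ξ z := by
  intro i j
  exact (OO.sum t fun c hc => h c hc i j).congr fun ξ z => Matrix.sum_apply i j t _

/-- entries of `A v`. -/
theorem OM.mulVec {κ κ' : Type*} [Fintype κ'] {A : Ξ → X → Matrix κ κ' ℝ} (hA : OM A)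
    {g : Ξ → X → ℝ} {v : Ξ → X → κ' → ℝ} (hv : ∀ j, OO g fun ξ z => v ξ z j) (i : κ) :
    OO g fun ξ z => (A ξ z *ᵥ v ξ z) i :=
  OO.sum Finset.univ fun j _ => (hA i j).bmul (hv j)

end OO

variable {M : Type v} [MetricSpace M] [CompactSpace M] [ConnectedSpace M]
  [ChartedSpace (EuclideanSpace ℝ (Fin 4)) M] [IsManifold (𝓡 4) ∞ M]
  [RiemannianBundle (fun p : M => TangentSpace (𝓡 4) p)]
  [IsContMDiffRiemannianBundle (𝓡 4) ∞ (EuclideanSpace ℝ (Fin 4))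
    (fun p : M => TangentSpace (𝓡 4) p)]
  [IsRiemannianManifold (𝓡 4) M] [MeasurableSpace M] [BorelSpace M]
  [SecondCountableTopology M] [Nonempty M]
  {κ0 κ1 κT : Type} [Fintype κ0] [Fintype κ1] [Fintype κT]

section bd

variable {Ξ : Type*}

theorem OO.of_cont {f : M → ℝ} (hf : Continuous f) : OO (fun _ _ => 1) fun (_ : Ξ) z => f z := by
  obtain ⟨C, hC⟩ := isCompact_univ.exists_bound_of_continuousOn hf.continuousOn
  exact ⟨max C 0, le_max_right _ _, fun _ z => by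
    rw [mul_one]; exact (hC z (mem_univ z)).trans (le_max_left _ _)⟩

theorem OO.norm_smF {X : M → EuclideanSpace ℝ (Fin 4)} (hX : SmF X) :
    OO (fun _ _ => 1) fun (_ : Ξ) z => ‖X z‖ := by
  obtain ⟨C, hC⟩ := isCompact_univ.exists_bound_of_continuousOn (hX.inner hX).continuous.continuousOn
  refine ⟨√(max C 0), Real.sqrt_nonneg _, fun _ z => ?_⟩
  rw [abs_norm, mul_one]
  refine Real.le_sqrt_of_sq_le ?_
  have := hC z (mem_univ z)
  rw [real_inner_self_eq_norm_sq, Real.norm_of_nonneg (sq_nonneg _)] at this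
  exact this.trans (le_max_left _ _)

/-- the derivative in the direction of a vector of norm one. -/
theorem OO.inner_unit {g : Ξ → M → ℝ} {X : Ξ → M → EuclideanSpace ℝ (Fin 4)}
    (h : OO g fun ξ z => ‖X ξ z‖)
    {v : M → EuclideanSpace ℝ (Fin 4)} (hv : ∀ z, ‖v z‖ = 1) :
    OO g fun ξ z => ⟪X ξ z, v z⟫ := by
  obtain ⟨C, c, h⟩ := h
  refine ⟨C, c, fun ξ z => (abs_real_inner_le_norm _ _).trans ?_⟩
  rw [hv, mul_one]
  have := h ξ z
  rwa [abs_norm] at this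

/-- uniformly bounded with its gradient. -/
structure O1 (f : Ξ → M → ℝ) : Prop where
  sm : ∀ ξ, ContMDiff (𝓡 4) 𝓘(ℝ, ℝ) ∞ (f ξ)
  b0 : OO (fun _ _ => 1) f
  b1 : OO (fun _ _ => 1) fun ξ z => ‖Gr (n := 4) (f ξ) z‖

theorem O1.of {f : M → ℝ} (hf : ContMDiff (𝓡 4) 𝓘(ℝ, ℝ) ∞ f) : O1 fun (_ : Ξ) => f :=
  ⟨fun _ => hf, OO.of_cont hf.continuous, OO.norm_smF (Crest.Agent.R249.Tv57.smF_Gr hf)⟩

theorem O1.add {f g : Ξ → M → ℝ} (hf : O1 f) (hg : O1 g) : O1 fun ξ z => f ξ z + g ξ z := by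
  refine ⟨fun ξ => sm_add (hf.sm ξ) (hg.sm ξ), hf.b0.add hg.b0, ?_⟩
  obtain ⟨C1, c1, h1⟩ := hf.b1
  obtain ⟨C2, c2, h2⟩ := hg.b1
  refine ⟨C1 + C2, add_nonneg c1 c2, fun ξ z => ?_⟩
  have h3 := h1 ξ z
  have h4 := h2 ξ z
  rw [abs_norm, mul_one] at h3 h4 ⊢
  rw [Crest.Agent.R247.Ms322.Gr_add (mdiff (hf.sm ξ) z) (mdiff (hg.sm ξ) z)]
  exact (norm_add_le _ _).trans (add_le_add h3 h4)

theorem O1.mul {f g : Ξ → M → ℝ} (hf : O1 f) (hg : O1 g) : O1 fun ξ z => f ξ z * g ξ z := by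
  refine ⟨fun ξ => sm_mul (hf.sm ξ) (hg.sm ξ), hf.b0.bmul hg.b0, ?_⟩
  obtain ⟨C1, c1, h1⟩ := (hf.b0.bmul hg.b1).add (hg.b0.bmul hf.b1)
  obtain ⟨A, a0, hA⟩ := hf.b0
  obtain ⟨A', a0', hA'⟩ := hf.b1
  obtain ⟨B, b0, hB⟩ := hg.b0
  obtain ⟨B', b0', hB'⟩ := hg.b1
  refine ⟨A * B' + B * A', by positivity, fun ξ z => ?_⟩
  have h3 := hA ξ z
  have h4 := hA' ξ z
  have h5 := hB ξ z
  have h6 := hB' ξ z
  rw [abs_norm, mul_one] at h4 h6
  rw [mul_one] at h3 h5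
  rw [abs_norm, mul_one, Crest.Agent.R247.Ms322.Gr_mul (mdiff (hf.sm ξ) z) (mdiff (hg.sm ξ) z)]
  refine (norm_add_le _ _).trans (add_le_add ?_ ?_)
  · rw [norm_smul, Real.norm_eq_abs]
    exact mul_le_mul h3 h6 (norm_nonneg _) a0
  · rw [norm_smul, Real.norm_eq_abs]
    exact mul_le_mul h5 h4 (norm_nonneg _) b0

theorem O1.const (c : ℝ) : O1 fun (_ : Ξ) (_ : M) => c := O1.of (sm_const c)

theorem O1.neg {f : Ξ → M → ℝ} (hf : O1 f) : O1 fun ξ z => - f ξ z := by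
  have h := (O1.const (M := M) (Ξ := Ξ) (-1)).mul hf
  simpa only [neg_one_mul] using h

theorem O1.sub {f g : Ξ → M → ℝ} (hf : O1 f) (hg : O1 g) : O1 fun ξ z => f ξ z - g ξ z := by
  have h := hf.add hg.neg
  simpa only [← sub_eq_add_neg] using h

theorem O1.sum {κ : Type*} (t : Finset κ) {f : κ → Ξ → M → ℝ} (h : ∀ i ∈ t, O1 (f i)) :
    O1 fun ξ z => ∑ i ∈ t, f i ξ z := by
  classical
  induction t using Finset.induction_on with
  | empty => simpa only [Finset.sum_empty] using O1.const (M := M) (Ξ := Ξ) 0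
  | insert a t ha ih =>
    have h1 := (h a (Finset.mem_insert_self _ _)).add
      (ih fun i hi => h i (Finset.mem_insert_of_mem hi))
    simpa only [Finset.sum_insert ha] using h1

end bd

end

end Crest.Agent.R235.Tau483
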