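import Crest.Agent.R235.TauP_483
import Crest.Agent.R235.TauL_483

/-!
Row 235 (S0364), SW-TAU (helper483): the second estimate `T2`, uniformly over a family of Taubes data.
-/

set_option autoImplicit false
set_option maxSynthPendingDepth 3
set_option linter.unusedSectionVars false

open scoped ContDiff ENNReal NNReal Topology Manifold Bundle RealInnerProductSpace
open MeasureTheory Set Filter Metric Bundle Matrix

universe v

namespace Crest.Agent.R235.Tau483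

open Crest.Agent.R240 Crest.Agent.R240.Ch Crest.Agent.R240.Int Crest.Agent.R235.SWDefs_53
open Crest.Agent.R235.IndTri_451
open Crest.Agent.R249.Tv57 (Dat OpPair SmF Spec)
open Crest.Agent.R247.Ms322 (Gr)
open Crest.Agent.R249.Vf281 (VSm mCov)
open Crest.Agent.R247.Bo84 (mgrad inner_mgrad)
open Crest.Agent.R249.Tz805 (ToF)

noncomputable section

variable {M : Type v} [MetricSpace M] [CompactSpace M] [ConnectedSpace M]
  [ChartedSpace (EuclideanSpace ℝ (Fin 4)) M] [IsManifold (𝓡 4) ∞ M]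
  [RiemannianBundle (fun p : M => TangentSpace (𝓡 4) p)]
  [IsContMDiffRiemannianBundle (𝓡 4) ∞ (EuclideanSpace ℝ (Fin 4))
    (fun p : M => TangentSpace (𝓡 4) p)]
  [IsRiemannianManifold (𝓡 4) M] [MeasurableSpace M] [BorelSpace M]
  [SecondCountableTopology M] [Nonempty M]
  {κ0 κ1 κT : Type} [Fintype κ0] [Fintype κ1] [Fintype κT]

/-- the configurations. -/
structure Cf {Θ : Type*} (τ : Θ → TD M κT) (S : SWS M κ0 κ1 κT) where
  θ : Θ
  a : κT → M → ℝ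
  s : κ0 → M → ℝ
  s' : κ0 → M → ℝ
  sma : Crest.Agent.R249.Tv57.SmV (n := 4) a
  sea : S.DT.Sec a
  sms : Crest.Agent.R249.Tv57.SmV (n := 4) s
  ses : (τ θ).SecE S s
  sms' : Crest.Agent.R249.Tv57.SmV (n := 4) s'
  ses' : (τ θ).SecE' S s'

/-- `|∇^E s|`. -/
def nN {Θ : Type*} {τ : Θ → TD M κT} {S : SWS M κ0 κ1 κT} (ξ : Cf τ S) (z : M) : ℝ :=
  √(∑ y, ‖(τ ξ.θ).nE S ξ.a ξ.s y z‖ ^ 2)

/-- `|s'|`. -/
def ns {Θ : Type*} {τ : Θ → TD M κT} {S : SWS M κ0 κ1 κT} (ξ : Cf τ S) (z : M) : ℝ :=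
  √(∑ y, ξ.s' y z ^ 2)

/-! ### entries of the frame -/

theorem ek_le {w' e : Fin 3 → F2 E4 M} (h : IsTri w' e) (z : M) (k : Fin 3) (i j : Fin 4) :
    |at2 (e k) z (vf e z i) (vf e z j)| ≤ 1 := by
  have H := fr_of h z
  have h0 := H.e0 (ee i) (ee j)
  have h1 := H.e1 (ee i) (ee j)
  have h2 := H.e2 (ee i) (ee j)
  fin_cases k
  · have : at2 (e 0) z (vf e z i) (vf e z j) = _ := h0
    show |at2 (e 0) z (vf e z i) (vf e z j)| ≤ 1
    rw [this]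
    fin_cases i <;> fin_cases j <;> simp
  · have : at2 (e 1) z (vf e z i) (vf e z j) = _ := h1
    show |at2 (e 1) z (vf e z i) (vf e z j)| ≤ 1
    rw [this]
    fin_cases i <;> fin_cases j <;> simp
  · have : at2 (e 2) z (vf e z i) (vf e z j) = _ := h2
    show |at2 (e 2) z (vf e z i) (vf e z j)| ≤ 1
    rw [this]
    fin_cases i <;> fin_cases j <;> simp

variable [IsFiniteMeasureOnCompacts (μHE[4] : Measure M)]

section fam

variable {Θ : Type*} {τ : Θ → TD M κT} {S : SWS M κ0 κ1 κT} {T : ToF 4 M}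
    {cc : κ1 → κ0 → (z : M) → TangentSpace (𝓡 4) z}
    {W : κ0 → κ0 → (z : M) → TangentSpace (𝓡 4) z}
    {sT : κT → (z : M) → TangentSpace (𝓡 4) z} {w : Trip M} {e : Fin 3 → F2 E4 M}
    {σ ι : ℝ} {Z : Θ → κ1 → κ0 → M → ℝ} {cE : Θ → Z2 M} {A : Fin 3 → Fin 3 → M → ℝ}

theorem nvf_one (h : TG S T cc W sT w e σ ι) (z : M) (i : Fin 4) : ‖T.toF z (vf e z i)‖ = 1 := by
  have h1 : ‖T.toF z (vf e z i)‖ ^ 2 = 1 := by
    rw [← real_inner_self_eq_norm_sq, T.inner_toF, inner_vf h.tri h.met, if_pos rfl]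
  have h2 : (‖T.toF z (vf e z i)‖ - 1) * (‖T.toF z (vf e z i)‖ + 1) = 0 := by nlinarith
  rcases mul_eq_zero.1 h2 with h3 | h3
  · linarith
  · have := norm_nonneg (T.toF z (vf e z i))
    linarith

theorem oo_ek {Ξ : Type*} (h : TG S T cc W sT w e σ ι) (k : Fin 3) (i j : Fin 4) :
    OO (fun _ _ => 1) fun (_ : Ξ) z => ek e z k i j :=
  ⟨1, zero_le_one, fun _ z => by rw [mul_one]; exact ek_le h.tri z k i j⟩

theorem oo_Cm {Ξ : Type*} (h : TG S T cc W sT w e σ ι) (i : Fin 4) :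
    OM fun (_ : Ξ) z => Cm cc e z i := by
  intro x y
  obtain ⟨C, c, hC⟩ := OO.of_cont (Ξ := Unit) (S.D0.smp y y).continuous
  refine ⟨√C, Real.sqrt_nonneg _, fun _ z => ?_⟩
  have h1 : ∑ x, Cm cc e z i x y ^ 2 = S.D0.p y y z := by
    have h2 := congrFun (congrFun (Cm_mul h z i i) y) y
    rw [Matrix.mul_apply, Matrix.add_apply, Matrix.smul_apply, Matrix.smul_apply,
      Matrix.sum_apply, if_pos rfl] at h2
    have h3 : ∀ k, (ek e z k i i • (Jm S z * Rm S z k)) y y = 0 := by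
      intro k
      have h4 : ek e z k i i = 0 := by
        have := ek_skew h z k i i
        linarith
      rw [Matrix.smul_apply, h4, zero_smul]
    simp only [h3, Finset.sum_const_zero, smul_zero, add_zero, one_smul] at h2
    have h5 : ∑ x, Cm cc e z i x y ^ 2 = ∑ x, (Cm cc e z i)ᵀ y x * Cm cc e z i x y :=
      Finset.sum_congr rfl fun x _ => sq _
    rw [h5]
    exact h2
  have h2 : Cm cc e z i x y ^ 2 ≤ C := by
    have h3 : Cm cc e z i x y ^ 2 ≤ ∑ x, Cm cc e z i x y ^ 2 :=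
      Finset.single_le_sum (f := fun x => Cm cc e z i x y ^ 2) (fun _ _ => sq_nonneg _)
        (Finset.mem_univ x)
    rw [h1] at h3
    have h4 := hC () z
    rw [mul_one] at h4
    exact h3.trans ((le_abs_self _).trans h4)
  rw [mul_one]
  exact Real.abs_le_sqrt h2

theorem oo_gE (h : TG S T cc W sT w e σ ι) (i : Fin 4) (y : κ0) :
    OO (nN (τ := τ) (S := S)) fun ξ z => gE (τ ξ.θ) S T ξ.a ξ.s z (vf e z i) y := by
  refine ⟨1, zero_le_one, fun ξ z => ?_⟩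
  rw [one_mul]
  refine Real.abs_le_sqrt ?_
  rw [sum_norm_sq h z]
  have h1 : gE (τ ξ.θ) S T ξ.a ξ.s z (vf e z i) y ^ 2 ≤
      Gf T e z (fun y => (τ ξ.θ).nE S ξ.a ξ.s y z) i ⬝ᵥ
        Gf T e z (fun y => (τ ξ.θ).nE S ξ.a ξ.s y z) i := by
    rw [sq]
    exact Finset.single_le_sum
      (f := fun y => Gf T e z (fun y => (τ ξ.θ).nE S ξ.a ξ.s y z) i y *
        Gf T e z (fun y => (τ ξ.θ).nE S ξ.a ξ.s y z) i y)
      (fun _ _ => mul_self_nonneg _) (Finset.mem_univ y)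
  refine h1.trans ?_
  exact Finset.single_le_sum
    (f := fun i => Gf T e z (fun y => (τ ξ.θ).nE S ξ.a ξ.s y z) i ⬝ᵥ
        Gf T e z (fun y => (τ ξ.θ).nE S ξ.a ξ.s y z) i)
    (fun i _ => Finset.sum_nonneg fun _ _ => mul_self_nonneg _) (Finset.mem_univ i)

theorem oo_s' (y : κ0) : OO (ns (τ := τ) (S := S)) fun ξ z => sv ξ.s' z y := by
  refine ⟨1, zero_le_one, fun ξ z => ?_⟩
  rw [one_mul]
  refine Real.abs_le_sqrt ?_
  exact Finset.single_le_sum (f := fun y => ξ.s' y z ^ 2) (fun _ _ => sq_nonneg _)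
    (Finset.mem_univ y)

/-! ### the matrices -/

section mats

variable {Ξ : Type*}

theorem om_P (_hS : S.OK) : OM fun (_ : Ξ) z => Pm S z := fun y y' => OO.of_cont (S.D0.smp y y').continuous

theorem om_J (hS : S.OK) : OM fun (_ : Ξ) z => Jm S z := fun y y' => OO.of_cont (hS.smJ y y').continuous

theorem om_R (hS : S.OK) (k : Fin 3) : OM fun (_ : Ξ) z => Rm S z k :=
  fun y y' => OO.of_cont (hS.smrho k y y').continuous

theorem o1_yk (bn : ∀ k, O1 fun θ => (τ θ).n k) (k l : Fin 3) :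
    O1 fun θ z => Al.yk (nv (τ θ) z) k l := (O1.const _).sub ((bn k).mul (bn l))

theorem o1_Ym (hS : S.OK) (bn : ∀ k, O1 fun θ => (τ θ).n k) (k : Fin 3) (y y' : κ0) :
    O1 fun θ z => Ym (τ θ) S k z y y' := by
  simp only [Ym_apply]
  exact O1.sum _ fun l _ => ((O1.const _).sub ((bn k).mul (bn l))).mul (O1.of (hS.smrho l y y'))

theorem om_Ym (hS : S.OK) (bn : ∀ k, O1 fun θ => (τ θ).n k) (k : Fin 3) :
    OM fun θ z => Ym (τ θ) S k z := fun y y' => (o1_Ym hS bn k y y').b0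

theorem om_P1 (hS : S.OK) (bn : ∀ k, O1 fun θ => (τ θ).n k) :
    OM fun θ z => P1 (Pm S z) (Rm S z) (nv (τ θ) z) :=
  OM.smul (OO.const _) ((om_P hS).add (OM.sum _ fun k _ => OM.smul (bn k).b0 (om_R hS k)))

theorem om_Xm (h : TG S T cc W sT w e σ ι) (i : Fin 4) :
    OM fun (_ : Ξ) z => Xm S T z (vf e z i) := fun y y' =>
  OO.inner_unit (X := fun _ z => S.D0.X y y' z) (OO.norm_smF (S.D0.smX y y')) fun z => nvf_one h z i

theorem om_dYm (hS : S.OK) (h : TG S T cc W sT w e σ ι) (bn : ∀ k, O1 fun θ => (τ θ).n k)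
    (k : Fin 3) (i : Fin 4) : OM fun θ z => dYm (τ θ) S T k z (vf e z i) := fun y y' =>
  OO.inner_unit (X := fun θ z => Gr (n := 4) (fun x => Ym (τ θ) S k x y y') z)
    (o1_Ym hS bn k y y').b1 fun z => nvf_one h z i

theorem om_DYm (hS : S.OK) (h : TG S T cc W sT w e σ ι) (bn : ∀ k, O1 fun θ => (τ θ).n k)
    (k : Fin 3) (i : Fin 4) : OM fun θ z => DYm (τ θ) S T k z (vf e z i) :=
  (om_dYm hS h bn k i).add (((om_Xm h i).mul (om_Ym hS bn k)).sub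
    ((om_Ym hS bn k).mul (om_Xm h i)))

theorem oo_sh (hS : S.OK) (h : TG S T cc W sT w e σ ι)
    (bsh : ∀ B, OO (fun _ _ => 1) fun θ => (τ θ).sh B) (i : Fin 4) :
    OO (fun _ _ => 1) fun θ z => (inner ℝ (fld sT (τ θ).sh z) (vf e z i) : ℝ) := by
  refine (OO.sum Finset.univ fun B _ => (bsh B).bmul
    (OO.inner_unit (X := fun (_ : Θ) z => S.s B z) (OO.norm_smF (hS.sms B))
      fun z => nvf_one h z i)).congr fun θ z => ?_
  rw [← sfld h, sum_inner]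
  exact Finset.sum_congr rfl fun B _ => real_inner_smul_left _ _ _

theorem om_RMm (hS : S.OK) (h : TG S T cc W sT w e σ ι) (bn : ∀ k, O1 fun θ => (τ θ).n k)
    (bsh : ∀ B, OO (fun _ _ => 1) fun θ => (τ θ).sh B) (i : Fin 4) :
    OM fun θ z => RMm (τ θ) S T sT z (vf e z i) :=
  OM.smul (OO.const _) (OM.sum _ fun k _ =>
    (((om_P1 hS bn).mul (om_DYm hS h bn k i)).mul (om_Ym hS bn k)).sub
      (OM.smul (oo_sh hS h bsh i) (((om_Ym hS bn k).mul (om_J hS)).mul (om_Ym hS bn k))))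

theorem om_Mm (hS : S.OK) (h : TG S T cc W sT w e σ ι) (bn : ∀ k, O1 fun θ => (τ θ).n k)
    (bsh : ∀ B, OO (fun _ _ => 1) fun θ => (τ θ).sh B)
    (bZ : ∀ x y, OO (fun _ _ => 1) fun θ => Z θ x y) :
    OM fun θ z => Mm (τ θ) S T cc sT e (Z θ) z :=
  (OM.sum _ fun i _ => (oo_Cm h i).mul (om_RMm hS h bn bsh i)).add fun x y => bZ x y

end mats

/-! ### the error terms -/

theorem oo_cl (h : TG S T cc W sT w e σ ι) (x : κ1) :
    OO (nN (τ := τ) (S := S)) fun ξ z => clG T cc z (fun y => (τ ξ.θ).nE S ξ.a ξ.s y z) x := by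
  refine (OO.sum Finset.univ fun i _ => OM.mulVec (oo_Cm h i) (fun y => oo_gE h i y) x).congr
    fun ξ z => ?_
  rw [clG_eq h, Finset.sum_apply]
  rfl

theorem OM.pull {X Ξ Ξ' κ κ' : Type*} {B : Ξ → X → Matrix κ κ' ℝ} (hB : OM B) (u : Ξ' → Ξ) :
    OM fun ξ z => B (u ξ) z := fun i j => OO.pull (hB i j) u

theorem oo_eM (hS : S.OK) (h : TG S T cc W sT w e σ ι) (brr : O1 fun θ => (τ θ).rr)
    (bn : ∀ k, O1 fun θ => (τ θ).n k)
    (bsh : ∀ B, OO (fun _ _ => 1) fun θ => (τ θ).sh B)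
    (bZ : ∀ x y, OO (fun _ _ => 1) fun θ => Z θ x y) :
    OO (fun (ξ : Cf τ S) z => nN ξ z * ns ξ z) fun ξ z =>
      eM (τ ξ.θ) S T cc sT e (Z ξ.θ) ξ.a ξ.s ξ.s' z :=
  (OO.pull brr.b0 fun ξ : Cf τ S => ξ.θ).bmul (OO.sum Finset.univ fun x _ =>
    (oo_cl h x).mul (OM.mulVec ((om_Mm hS h bn bsh bZ).pull fun ξ : Cf τ S => ξ.θ)
      (fun y => oo_s' y) x))

theorem o1_fc (brr : O1 fun θ => (τ θ).rr) (bn : ∀ k, O1 fun θ => (τ θ).n k)
    (hA : ∀ i j, ContMDiff (𝓡 4) 𝓘(ℝ, ℝ) ∞ (A i j)) (k j : Fin 3) :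
    O1 fun θ => fc (τ θ) A k j :=
  O1.sum _ fun l _ => (brr.mul (o1_yk bn k l)).mul (O1.of (hA l j))

theorem o1_gc (brr : O1 fun θ => (τ θ).rr) (bn : ∀ k, O1 fun θ => (τ θ).n k)
    (hA : ∀ i j, ContMDiff (𝓡 4) 𝓘(ℝ, ℝ) ∞ (A i j)) (k j : Fin 3) :
    O1 fun θ => gc (τ θ) A k j :=
  O1.sum _ fun l _ => (brr.mul (((o1_yk bn k (l + 1)).mul (bn (l + 2))).sub
    ((o1_yk bn k (l + 2)).mul (bn (l + 1))))).mul (O1.of (hA l j))

/-- the one-form `Im ⟨∇α, β⟩` in the frame. -/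
theorem oo_lim (hS : S.OK) (h : TG S T cc W sT w e σ ι) (te : ∀ θ, TE (τ θ) S T cc (Z θ))
    (bn : ∀ k, O1 fun θ => (τ θ).n k) (k : Fin 3) (i : Fin 4) :
    OO (fun (ξ : Cf τ S) z => nN ξ z * ns ξ z) fun ξ z =>
      at1 (lim (tF (τ ξ.θ) S W sT e ξ.a) (hatf S ξ.s) (hatf S (ryf (τ ξ.θ) S k ξ.s'))) z
        (vf e z i) := by
  refine (OO.sum Finset.univ fun y _ => (oo_gE h i y).mul
    (OM.mulVec (om_J hS) (OM.mulVec ((om_Ym hS bn k).pull fun ξ : Cf τ S => ξ.θ)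
      fun y => oo_s' y) y)).congr fun ξ z => ?_
  have ht := te ξ.θ
  have hbE := secE_ryf hS h ht.norm k ξ.ses'
  have h1 := at1_lim (ln_PEf (T := T) (cc := cc) hS h ht.smn ht.norm)
    (a := tF (τ ξ.θ) S W sT e ξ.a) (smV_hatf hS ξ.sms) (PEf_hatf hS h ht.norm hbE) z (vf e z i)
  have h2 := hat_gE hS h ht.norm ξ.a ξ.sms ξ.ses z (vf e z i)
  have h3 := (al_of hS h (n := nv (τ ξ.θ) z) z (ht.norm z)).hp_hat
    (s := gE (τ ξ.θ) S T ξ.a ξ.s z (vf e z i)) (inE_of hbE z).1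
  refine h1.trans ?_
  rw [← h2]
  have h4 : hatf S (ryf (τ ξ.θ) S k ξ.s') z = hat (Jm S z) (sv (ryf (τ ξ.θ) S k ξ.s') z) := rfl
  rw [h4, h3]
  simp only [Complex.add_im, Complex.ofReal_im, Complex.mul_im, Complex.I_re, Complex.I_im,
    Complex.ofReal_re, sv_ryf]
  simp only [dotProduct]
  ring

/-- the one-form `Re ⟨∇α, β⟩` in the frame. -/
theorem oo_lre (hS : S.OK) (h : TG S T cc W sT w e σ ι) (te : ∀ θ, TE (τ θ) S T cc (Z θ))
    (bn : ∀ k, O1 fun θ => (τ θ).n k) (k : Fin 3) (i : Fin 4) :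
    OO (fun (ξ : Cf τ S) z => nN ξ z * ns ξ z) fun ξ z =>
      at1 (lre (tF (τ ξ.θ) S W sT e ξ.a) (hatf S ξ.s) (hatf S (ryf (τ ξ.θ) S k ξ.s'))) z
        (vf e z i) := by
  refine (OO.sum Finset.univ fun y _ => (oo_gE h i y).mul
    (OM.mulVec ((om_Ym hS bn k).pull fun ξ : Cf τ S => ξ.θ)
      (fun y => oo_s' y) y)).congr fun ξ z => ?_
  have ht := te ξ.θ
  have hbE := secE_ryf hS h ht.norm k ξ.ses'
  have h1 := at1_lre (ln_PEf (T := T) (cc := cc) hS h ht.smn ht.norm)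
    (a := tF (τ ξ.θ) S W sT e ξ.a) (smV_hatf hS ξ.sms) (PEf_hatf hS h ht.norm hbE) z (vf e z i)
  have h2 := hat_gE hS h ht.norm ξ.a ξ.sms ξ.ses z (vf e z i)
  have h3 := (al_of hS h (n := nv (τ ξ.θ) z) z (ht.norm z)).hp_hat
    (s := gE (τ ξ.θ) S T ξ.a ξ.s z (vf e z i)) (inE_of hbE z).1
  refine h1.trans ?_
  rw [← h2]
  have h4 : hatf S (ryf (τ ξ.θ) S k ξ.s') z = hat (Jm S z) (sv (ryf (τ ξ.θ) S k ξ.s') z) := rfl
  rw [h4, h3]
  simp only [Complex.add_re, Complex.ofReal_im, Complex.mul_re, Complex.I_re, Complex.I_im,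
    Complex.ofReal_re, sv_ryf]
  simp only [dotProduct]
  ring

/-- `q(df ∧ λ, w_j)`. -/
theorem oo_wed (hS : S.OK) (h : TG S T cc W sT w e σ ι) {B : Fin 3 → Fin 3 → M → ℝ}
    (hB : ∀ i j, Continuous (B i j))
    (hBw : ∀ i x, at2 ((w i).1.1 : F2 E4 M) x = ∑ j, B i j x • at2 (e j) x)
    {f : Θ → M → ℝ} (hf : O1 f) {lm : Cf τ S → F1 E4 M}
    (hl : ∀ i, OO (fun (ξ : Cf τ S) z => nN ξ z * ns ξ z) fun ξ z => at1 (lm ξ) z (vf e z i))
    (j : Fin 3) : OO (fun (ξ : Cf τ S) z => nN ξ z * ns ξ z) fun ξ z =>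
      qG ((w 0).1.1 : F2 E4 M) (wedG (dF (f ξ.θ)) (lm ξ)) ((w j).1.1 : F2 E4 M) z := by
  have hd : ∀ i, OO (fun _ _ => 1) fun (ξ : Cf τ S) z => dr T z (vf e z i) (f ξ.θ) := fun i =>
    OO.inner_unit (X := fun (ξ : Cf τ S) z => Gr (n := 4) (f ξ.θ) z)
      (OO.pull hf.b1 fun ξ : Cf τ S => ξ.θ) fun z => nvf_one h z i
  refine (OO.sum Finset.univ fun l _ => (OO.of_cont (hB j l)).bmul
    ((OO.const (1 / 4)).bmul (OO.sum Finset.univ fun i _ => OO.sum Finset.univ fun i' _ =>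
      (oo_ek h l i i').bmul (((hd i).bmul (hl i')).sub ((hd i').bmul (hl i)))))).congr fun ξ z => ?_
  have hal : Alt (at2 (wedG (dF (f ξ.θ)) (lm ξ)) z) := fun v => by
    rw [at2_wedG]; ring
  have h1 : ∀ l, q (at2 ((w 0).1.1 : F2 E4 M) z) (at2 (wedG (dF (f ξ.θ)) (lm ξ)) z) (at2 (e l) z) =
      1 / 4 * ∑ i, ∑ i', ek e z l i i' * (dr T z (vf e z i) (f ξ.θ) *
        at1 (lm ξ) z (vf e z i') - dr T z (vf e z i') (f ξ.θ) * at1 (lm ξ) z (vf e z i)) := by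
    intro l
    have h2 := q_vf h.tri l z hal
    rw [q_comm]
    have h3 : ∑ i, ∑ i', ek e z l i i' * (dr T z (vf e z i) (f ξ.θ) *
        at1 (lm ξ) z (vf e z i') - dr T z (vf e z i') (f ξ.θ) * at1 (lm ξ) z (vf e z i)) =
        ∑ i, ∑ j, at2 (e l) z (vf e z i) (vf e z j) *
          at2 (wedG (dF (f ξ.θ)) (lm ξ)) z (vf e z i) (vf e z j) :=
      Finset.sum_congr rfl fun i _ => Finset.sum_congr rfl fun i' _ => by
        rw [← dF_dr T (hf.sm ξ.θ) z (vf e z i), ← dF_dr T (hf.sm ξ.θ) z (vf e z i')]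
        refine congrArg (fun t => ek e z l i i' * t) ?_
        refine Eq.trans ?_ (at2_wedG (dF (f ξ.θ)) (lm ξ) z (vf e z i) (vf e z i')).symm
        exact congrArg (fun t => at1 (dF (E := E4) (f ξ.θ)) z (vf e z i) *
          at1 (lm ξ) z (vf e z i') - t) (mul_comm _ _)
    rw [h3, h2]
    ring
  show q (at2 ((w 0).1.1 : F2 E4 M) z) (at2 (wedG (dF (f ξ.θ)) (lm ξ)) z)
    (at2 ((w j).1.1 : F2 E4 M) z) = _
  rw [hBw j z, q_sum_right]
  refine Finset.sum_congr rfl fun l _ => ?_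
  rw [q_smul_right, h1]

theorem oo_erT (hS : S.OK) (h : TG S T cc W sT w e σ ι) (te : ∀ θ, TE (τ θ) S T cc (Z θ))
    (brr : O1 fun θ => (τ θ).rr) (bn : ∀ k, O1 fun θ => (τ θ).n k)
    (bsh : ∀ B, OO (fun _ _ => 1) fun θ => (τ θ).sh B)
    (bZ : ∀ x y, OO (fun _ _ => 1) fun θ => Z θ x y)
    (hA : ∀ i j, ContMDiff (𝓡 4) 𝓘(ℝ, ℝ) ∞ (A i j)) {B : Fin 3 → Fin 3 → M → ℝ}
    (hB : ∀ i j, Continuous (B i j))
    (hBw : ∀ i x, at2 ((w i).1.1 : F2 E4 M) x = ∑ j, B i j x • at2 (e j) x) :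
    OO (fun (ξ : Cf τ S) z => nN ξ z * ns ξ z) fun ξ z =>
      erT (τ ξ.θ) S T cc W sT w e σ ι (Z ξ.θ) A ξ.a ξ.s ξ.s' z :=
  (oo_eM hS h brr bn bsh bZ).add ((OO.const σ).bmul (OO.sum Finset.univ fun k _ =>
    OO.sum Finset.univ fun j _ =>
      (oo_wed (T := T) hS h hB hBw (o1_fc brr bn hA k j)
        (lm := fun ξ : Cf τ S => lim (tF (τ ξ.θ) S W sT e ξ.a) (hatf S ξ.s)
          (hatf S (ryf (τ ξ.θ) S k ξ.s'))) (fun i => oo_lim hS h te bn k i) j).add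
      ((OO.const ι).bmul (oo_wed (T := T) hS h hB hBw (o1_gc brr bn hA k j)
        (lm := fun ξ : Cf τ S => lre (tF (τ ξ.θ) S W sT e ξ.a) (hatf S ξ.s)
          (hatf S (ryf (τ ξ.θ) S k ξ.s'))) (fun i => oo_lre hS h te bn k i) j))))

/-- **(T2)**, uniformly over the family. -/
theorem t2_fam (hS : S.OK) (h : TG S T cc W sT w e σ ι) (te : ∀ θ, TE (τ θ) S T cc (Z θ))
    (tc : ∀ θ, TC (τ θ) S W sT w e σ (cE θ))
    (brr : O1 fun θ => (τ θ).rr) (bn : ∀ k, O1 fun θ => (τ θ).n k)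
    (bsh : ∀ B, OO (fun _ _ => 1) fun θ => (τ θ).sh B)
    (bZ : ∀ x y, OO (fun _ _ => 1) fun θ => Z θ x y) :
    ∃ C : ℝ, 0 ≤ C ∧ ∀ (θ : Θ) (a : κT → M → ℝ) (s s' : κ0 → M → ℝ),
      Crest.Agent.R249.Tv57.SmV (n := 4) a → S.DT.Sec a → Crest.Agent.R249.Tv57.SmV (n := 4) s →
      Crest.Agent.R249.Tv57.SmV (n := 4) s' → (τ θ).SecE S s → (τ θ).SecE' S s' →
      |∫ z, ((τ θ).rr z ^ (-(1 / 2) : ℝ) *
        (∑ x, (S.P.A ((τ θ).sc (3 / 4) s) + S.cm a ((τ θ).sc (3 / 4) s)) x z *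
          (S.P.A ((τ θ).sc (3 / 4) s') + S.cm a ((τ θ).sc (3 / 4) s')) x z) -
        (τ θ).rr z * ∑ k, (S.H.B a k.succ z + (τ θ).fE k z) *
          ∑ y, ∑ y', S.rho k y y' z * s y z * s' y' z)
      ∂(μHE[4] : Measure M)| ≤
    C * ∫ z, √(∑ y, ‖(τ θ).nE S a s y z‖ ^ 2) * √(∑ y, s' y z ^ 2) ∂(μHE[4] : Measure M) := by
  obtain ⟨A, B, hA, hB, hAe, hBw, -, -⟩ := h.tri.coef
  have hA' : ∀ i j, ContMDiff (𝓡 4) 𝓘(ℝ, ℝ) ∞ (A i j) := fun i j => (smoothF_iff _).2 (hA i j)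
  have hB' : ∀ i j, Continuous (B i j) := fun i j => SmoothF.cont (hB i j)
  obtain ⟨C, c, hC⟩ := oo_erT hS h te brr bn bsh bZ hA' hB' hBw
  refine ⟨C, c, fun θ a s s' ha hsa hs hs' hE hE' => ?_⟩
  set ξ : Cf τ S := ⟨θ, a, s, s', ha, hsa, hs, hE, hs', hE'⟩ with hξ
  have h1 := t2_int hS h (te θ) (tc θ) hA' hAe ha hsa hs hE hs' hE'
  unfold pD at h1
  rw [h1, ← integral_const_mul]
  have hc : Continuous fun z => C * (√(∑ y, ‖(τ θ).nE S a s y z‖ ^ 2) * √(∑ y, s' y z ^ 2)) :=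
    continuous_const.mul ((Real.continuous_sqrt.comp (cont_nEsq hS (te θ) ha hs)).mul
      (Real.continuous_sqrt.comp (continuous_finsetSum _ fun y _ => (hs' y).continuous.pow 2)))
  rw [← Real.norm_eq_abs]
  refine norm_integral_le_of_norm_le (int_cont hc) (Filter.Eventually.of_forall fun z => ?_)
  exact hC ξ z

end fam

end

end Crest.Agent.R235.Tau483
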