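import Crest.Agent.R235.MdlXs_399
import Crest.Agent.R235.TauT2_483
import Crest.Agent.R235.SWOk_451

/-!
Row 235 (S0364), MODX (helper399): the uniform `TD.OK` of the family and **`SwcData`** of the system
of a triple and a line bundle.
-/

set_option autoImplicit false
set_option maxSynthPendingDepth 3
set_option linter.unusedSectionVars false

open scoped ContDiff ENNReal NNReal Topology Manifold Bundle RealInnerProductSpace
open MeasureTheory Set Filter Metric Bundle Matrix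

universe v

namespace Crest.Agent.R235.MdlXt_399

open Crest.Agent.R240 Crest.Agent.R240.Ch Crest.Agent.R235 Crest.Agent.R235.SWDefs_53
open Crest.Agent.R235.IndTri_451 Crest.Agent.R235.Tau483 Crest.Agent.R235.TauJ
open Crest.Agent.R249.Tv57 (Dat OpPair SmF SmV KerD)
open Crest.Agent.R249.Tz805 (ToF CPair)
open Crest.Agent.R249.Tz2_805 (PF)
open Crest.Agent.R247.Ms322 (Gr)
open Crest.Agent.R249.Vf281 (VSm)
open Crest.Agent.R235.SWTn_451 Crest.Agent.R235.SWTf_451 Crest.Agent.R235.SWTe_451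
open Crest.Agent.R235.SWTd_451
open Crest.Agent.R235.SWData_451 Crest.Agent.R235.MdlXs_399

noncomputable section

variable {M : Type v} [MetricSpace M] [CompactSpace M] [ConnectedSpace M]
  [ChartedSpace (EuclideanSpace ℝ (Fin 4)) M] [IsManifold (𝓡 4) ∞ M]
  [RiemannianBundle (fun p : M => TangentSpace (𝓡 4) p)]
  [IsContMDiffRiemannianBundle (𝓡 4) ∞ (EuclideanSpace ℝ (Fin 4))
    (fun p : M => TangentSpace (𝓡 4) p)]
  [IsRiemannianManifold (𝓡 4) M] [MeasurableSpace M] [BorelSpace M]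
  [SecondCountableTopology M] [Nonempty M] [IsFiniteMeasureOnCompacts (μHE[4] : Measure M)]

section gen

variable {κ0 κ1 κT : Type} [Fintype κ0] [Fintype κ1] [Fintype κT]
  {S : SWS M κ0 κ1 κT} {T : ToF 4 M}
    {c : κ1 → κ0 → (z : M) → TangentSpace (𝓡 4) z}
    {W : κ0 → κ0 → (z : M) → TangentSpace (𝓡 4) z}
    {sT : κT → (z : M) → TangentSpace (𝓡 4) z} {w : Trip M} {e : Fin 3 → F2 E4 M}
    {σ ι : ℝ} {cE : E3 → Z2 M}

/-- **uniform `TD.OK`.** -/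
theorem ok_unif (h : Hyp S T c W sT w e σ ι (wwf (fun i => (w i).1.1) e) cE) (hS : S.OK)
    (harm : ∀ i x z, S.H.A (Fin.cons (fun _ => 0) (wwf (fun i => (w i).1.1) e i)) x z = 0) :
    ∃ C, 0 ≤ C ∧ ∀ t : E3, ‖t‖ = 1 →
      (tauF S T c W sT w e σ (wwf (fun i => (w i).1.1) e) cE t).OK S C := by
  obtain ⟨B, hB0, hB⟩ := h.bG
  obtain ⟨BZ, hZ0, hZ⟩ := h.bZ
  have hn1 : ∀ t : E3, ‖t‖ = 1 → ∀ k z,
      |(tauF S T c W sT w e σ (wwf (fun i => (w i).1.1) e) cE t).n k z| ≤ 1 := by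
    intro t ht k z
    have h1 := h.lt.norm_nt (Hyp.ne_of ht) z
    have h2 : nt (wwf (fun i => ((w i).1.1 : F2 E4 M)) e) t k z ^ 2 ≤ 1 := by
      rw [← h1]
      exact Finset.single_le_sum (f := fun k => nt (wwf (fun i => ((w i).1.1 : F2 E4 M)) e) t k z ^ 2)
        (fun _ _ => sq_nonneg _) (Finset.mem_univ k)
    exact (sq_le_one_iff_abs_le_one _).1 h2
  obtain ⟨C, hC0, hC⟩ := t2_fam (Θ := {t : E3 // ‖t‖ = 1})
    (τ := fun θ => tauF S T c W sT w e σ (wwf (fun i => (w i).1.1) e) cE θ.1)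
    (Z := fun θ => Zt S (fun x y z => T.toF z (c x y z))
      (rrt (wwf (fun i => (w i).1.1) e) θ.1) (Pr S (nt (wwf (fun i => (w i).1.1) e) θ.1)))
    (cE := fun θ => cE θ.1) hS h.tg (fun θ => h.te (Hyp.ne_of θ.2)) (fun θ => h.tc (Hyp.ne_of θ.2))
    ⟨fun θ => (h.te (Hyp.ne_of θ.2)).smrr,
      ⟨B, hB0, fun θ z => by rw [mul_one]; exact (hB θ.1 θ.2 z).2.2.1⟩,
      ⟨B, hB0, fun θ z => by
        rw [mul_one, abs_of_nonneg (norm_nonneg _)]; exact (hB θ.1 θ.2 z).2.2.2⟩⟩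
    (fun k => ⟨fun θ => (h.te (Hyp.ne_of θ.2)).smn k,
      ⟨1, zero_le_one, fun θ z => by rw [mul_one]; exact hn1 θ.1 θ.2 k z⟩,
      ⟨B, hB0, fun θ z => by
        rw [mul_one, abs_of_nonneg (norm_nonneg _)]; exact (hB θ.1 θ.2 z).2.1 k⟩⟩)
    (fun A => ⟨B, hB0, fun θ z => by rw [mul_one]; exact (hB θ.1 θ.2 z).1 A⟩)
    (fun x y => ⟨BZ, hZ0, fun θ z => by rw [mul_one]; exact hZ θ.1 θ.2 x y z⟩)
  exact ⟨C, hC0, fun t ht => SWOk_451.ok_tauF h hS harm (Hyp.ne_of ht)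
    (fun a s s' h1 h2 h3 h4 h5 h6 => hC ⟨t, ht⟩ a s s' h1 h2 h3 h4 h5 h6)⟩

end gen

variable {κ : Type} [Fintype κ] {N : ℕ}

variable (T : ToF 4 M) (s : PF 4 M κ) {w : Trip M} {e : Fin 3 → F2 E4 M}
  (tri : IsTri (fun i => (w i).1.1) e)
  (hin : ∀ (x : M) (u v : TangentSpace (𝓡 4) x), inner ℝ u v = at2 (gg e) x u v)
  {p : M → Matrix (Fin N) (Fin N) ℂ} (hp : IsLine p) {a : Z2 M} (ha : IsChern p a)

/-- **`TD.OK` uniformly.** -/
theorem ok_tX : ∃ C, 0 ≤ C ∧ ∀ t : E3, ‖t‖ = 1 →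
    (tX T s tri hin hp ha t).OK (SX T s tri hin hp) C :=
  ok_unif (hyp T s tri hin hp ha) (ok T s tri hin hp) (harm T s tri hin hp)

/-- **THE GEOMETRY OF `MODX`.** -/
theorem swcdata : ∃ C K, SwcProd_215.SwcData (SX T s tri hin hp) T (pX s tri hin hp).cc
    (pX s tri hin hp).D0.W s.s w e (-1) (wwf (fun i => (w i).1.1) e) (tX T s tri hin hp ha)
    C K (cls a) := by
  obtain ⟨C, -, hC⟩ := ok_tX T s tri hin hp ha
  obtain ⟨K, hK⟩ := (hyp T s tri hin hp ha).swcdata (ok T s tri hin hp) (harm T s tri hin hp) hC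
    (a := cls a) fun t ht => cX_cls T s tri hin hp ha (Hyp.ne_of ht)
  exact ⟨C, K, hK⟩

end

end Crest.Agent.R235.MdlXt_399
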