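import Crest.Agent.R235.LTwC_453

/-!
Row 235, helper453, L-twist part D: the twisted Clifford pair.

* `ccTw J1 cc L` : the twisted symbol;
* `cloc_tw` : local form of the twisted pair at a point (same constant symbol `c`);
* `twP P hJ0 hJ1 hc L : CPair n M κ (κ0 × Fin N) (κ1 × Fin N)`;
* `ccTw_J` : the twisted symbol intertwines the complex structures `JT`.
-/

set_option autoImplicit false
set_option maxSynthPendingDepth 3
set_option linter.unusedSectionVars false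

open Filter Topology Set Bundle Manifold Matrix
open scoped ContDiff Kronecker
open Crest.GeometryTopology.CoordMetric Crest.GeometryTopology.ChartCurvature
  Crest.GeometryTopology.PointedLimit
open Crest.Agent.R202.Tens Crest.Agent.R247.Bo84 Crest.Agent.R249.FrmB_285 Crest.Agent.R249.Vf281
  Crest.Agent.R249.Tz1_805 Crest.Agent.R249.Tz2_805
open Crest.Agent.R249.Fr129 Crest.Agent.R249.C2_198
open Crest.Agent.R249.Sg129 hiding fg fg_add fg_sub fg_mul fg_const fg_sum ev_fg contMDiff_inner VSm_mCov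
open Crest.Agent.R249.Tz805
open Crest.Agent.R235.Ind167 (PJ PJ.pmul)

noncomputable section

namespace Crest.Agent.R235.LTw_453

variable {n : ℕ} {M : Type*} [TopologicalSpace M] [ChartedSpace (EuclideanSpace ℝ (Fin n)) M]
  [IsManifold 𝓘(ℝ, EuclideanSpace ℝ (Fin n)) ∞ M]
  [RiemannianBundle (fun x : M => TangentSpace 𝓘(ℝ, EuclideanSpace ℝ (Fin n)) x)]
  [IsContMDiffRiemannianBundle 𝓘(ℝ, EuclideanSpace ℝ (Fin n)) ∞ (EuclideanSpace ℝ (Fin n))
      (fun x : M => TangentSpace 𝓘(ℝ, EuclideanSpace ℝ (Fin n)) x)]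

local notation "𝔼" => EuclideanSpace ℝ (Fin n)
local notation "𝓘E" => 𝓘(ℝ, EuclideanSpace ℝ (Fin n))

variable {κ0 κ1 : Type} [Fintype κ0] [Fintype κ1] {N : ℕ}

/-- the twisted symbol. -/
def ccTw (J1 : κ1 → κ1 → M → ℝ)
    (cc : κ1 → κ0 → (p : M) → TangentSpace 𝓘(ℝ, EuclideanSpace ℝ (Fin n)) p) (L : LD n M N)
    (x : κ1 × Fin N) (y : κ0 × Fin N) (z : M) : TangentSpace 𝓘(ℝ, EuclideanSpace ℝ (Fin n)) z :=
  L.r x.2 y.2 z • cc x.1 y.1 z + L.s x.2 y.2 z • ∑ x', J1 x.1 x' z • cc x' y.1 z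

section cl

variable {D0 : Bun n M κ0} {D1 : Bun n M κ1} {J0 : κ0 → κ0 → M → ℝ} {J1 : κ1 → κ1 → M → ℝ}
  {cc : κ1 → κ0 → (p : M) → TangentSpace 𝓘(ℝ, EuclideanSpace ℝ (Fin n)) p} {L : LD n M N}

theorem smJcc (hJ1 : PJ D1 J1) (hcc : ∀ x y q, VSm n ∞ (cc x y) q) (x : κ1) (y : κ0) (q : M) :
    VSm n ∞ (fun q => ∑ x', J1 x x' q • cc x' y q) q :=
  VSm.sum Finset.univ fun c _ => VSm.smul le_rfl (hJ1.sm x c q) (hcc c y q)

theorem sm_ccTw (hJ1 : PJ D1 J1) (hcc : ∀ x y q, VSm n ∞ (cc x y) q) (L : LD n M N)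
    (x : κ1 × Fin N) (y : κ0 × Fin N) (q : M) : VSm n ∞ (ccTw J1 cc L x y) q :=
  (VSm.smul le_rfl (L.smr _ _ q) (hcc _ _ q)).add
    (VSm.smul le_rfl (L.sms _ _ q) (smJcc hJ1 hcc _ _ q))

variable {z : M} {e : Fin n → EuclideanSpace ℝ (Fin n) → EuclideanSpace ℝ (Fin n)}
  (h : ONF (chartMetric n M z) (chartAt (EuclideanSpace ℝ (Fin n)) z).target
      (chartCentre n M z) e)

include h in
theorem g_Jcc (hJ1 : PJ D1 J1) (hcc : ∀ x y q, VSm n ∞ (cc x y) q) (k : Fin n) (x : κ1) (y : κ0) :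
    vg z e (fun q => ∑ x', J1 x x' q • cc x' y q) k =
      (gmat (n := n) z J1 * Matrix.of fun x y => vg z e (cc x y) k) x y := by
  have h1 : vg z e (fun q => ∑ x', J1 x x' q • cc x' y q) k =
      ∑ x', vg z e (fun q => J1 x x' q • cc x' y q) k :=
    vg_sum h Finset.univ (F := fun x' q => J1 x x' q • cc x' y q)
      (fun c q => VSm.smul le_rfl (hJ1.sm x c q) (hcc c y q)) k
  rw [h1, Matrix.mul_apply]
  exact Finset.sum_congr rfl fun c _ => vg_smul h (hJ1.sm x c) (hcc c y) k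

include h in
theorem g_com (hJ0 : PJ D0 J0) (hJ1 : PJ D1 J1) (hcc : ∀ x y q, VSm n ∞ (cc x y) q)
    (hc : ∀ A y z, ∑ B, J1 A B z • cc B y z = ∑ x, J0 x y z • cc A x z) (k : Fin n) :
    gmat (n := n) z J1 * (Matrix.of fun x y => vg z e (cc x y) k) =
      (Matrix.of fun x y => vg z e (cc x y) k) * gmat (n := n) z J0 := by
  ext x y
  rw [← g_Jcc h hJ1 hcc k x y, Matrix.mul_apply]
  have e0 : (fun q => ∑ x', J1 x x' q • cc x' y q) = fun q => ∑ y', J0 y' y q • cc x y' q :=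
    funext fun q => hc x y q
  have h1 : vg z e (fun q => ∑ y', J0 y' y q • cc x y' q) k =
      ∑ y', vg z e (fun q => J0 y' y q • cc x y' q) k :=
    vg_sum h Finset.univ (F := fun y' q => J0 y' y q • cc x y' q)
      (fun c q => VSm.smul le_rfl (hJ0.sm c y q) (hcc x c q)) k
  rw [e0, h1]
  refine Finset.sum_congr rfl fun c _ => ?_
  rw [vg_smul h (hJ0.sm c y) (hcc x c) k, mul_comm]
  rfl

variable {vr vi : Fin N → SG (chartCentre n M z)}
  {ι0 ι1 : Type} [Fintype ι0] [DecidableEq ι0] [Fintype ι1] [DecidableEq ι1]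
  {a0 : Fin n → Matrix ι0 ι0 (SG (chartCentre n M z))}
  {a1 : Fin n → Matrix ι1 ι1 (SG (chartCentre n M z))}
  {c : Fin n → Matrix ι1 ι0 (SG (chartCentre n M z))}
  {j0 : Matrix κ0 ι0 (SG (chartCentre n M z))} {j1 : Matrix κ1 ι1 (SG (chartCentre n M z))}

/-- `c_i` commutes with the complex structures in the frames. -/
theorem c_com (hJ0 : PJ D0 J0) (hJ1 : PJ D1 J1) (hcc : ∀ x y q, VSm n ∞ (cc x y) q)
    (hc : ∀ A y z, ∑ B, J1 A B z • cc B y z = ∑ x, J0 x y z • cc A x z)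
    (C : CLoc D0 D1 cc h a0 a1 c j0 j1) (k : Fin n) :
    (j1ᵀ * gmat (n := n) z J1 * j1) * c k = c k * (j0ᵀ * gmat (n := n) z J0 * j0) := by
  have hs : j1 * c k * j0ᵀ = Matrix.of fun x y => vg z e (cc x y) k := by
    ext x y
    exact (C.sym x y k).symm
  have h1 := g_com h hJ0 hJ1 hcc hc k
  rw [← hs] at h1
  have h2 : j1ᵀ * (gmat (n := n) z J1 * (j1 * c k * j0ᵀ)) * j0 =
      j1ᵀ * (j1 * c k * j0ᵀ * gmat (n := n) z J0) * j0 := by rw [h1]
  have e1 : j1ᵀ * (gmat (n := n) z J1 * (j1 * c k * j0ᵀ)) * j0 =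
      (j1ᵀ * gmat (n := n) z J1 * j1) * c k * (j0ᵀ * j0) := by simp only [Matrix.mul_assoc]
  have e2 : j1ᵀ * (j1 * c k * j0ᵀ * gmat (n := n) z J0) * j0 =
      (j1ᵀ * j1) * c k * (j0ᵀ * gmat (n := n) z J0 * j0) := by simp only [Matrix.mul_assoc]
  rw [e1, e2, C.l0.jtj, C.l1.jtj, Matrix.mul_one, Matrix.one_mul] at h2
  exact h2

/-- **local form of the twisted pair**. -/
theorem cloc_tw (hJ0 : PJ D0 J0) (hJ1 : PJ D1 J1) (hcc : ∀ x y q, VSm n ∞ (cc x y) q)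
    (hc : ∀ A y z, ∑ B, J1 A B z • cc B y z = ∑ x, J0 x y z • cc A x z)
    (C : CLoc D0 D1 cc h a0 a1 c j0 j1) (U : USec L z vr vi) :
    CLoc (twB D0 J0 hJ0 L) (twB D1 J1 hJ1 L) (ccTw J1 cc L) h
      (fun k => a0 k + alf h vr vi k • (j0ᵀ * gmat (n := n) z J0 * j0))
      (fun k => a1 k + alf h vr vi k • (j1ᵀ * gmat (n := n) z J1 * j1)) c
      (Psi (gmat (n := n) z J0) j0 vr vi) (Psi (gmat (n := n) z J1) j1 vr vi) where
  l0 := lf_tw h C.l0 hJ0 U
  l1 := lf_tw h C.l1 hJ1 U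
  cl0 := C.cl0
  cl1 := C.cl1
  par := by
    refine ⟨C.par.const, fun m i => ?_⟩
    rw [Matrix.add_mul, Matrix.mul_add, C.par.par m i, Matrix.smul_mul, Matrix.mul_smul,
      c_com h hJ0 hJ1 hcc hc C i]
    abel
  sym x y k := by
    have hs : j1 * c k * j0ᵀ = Matrix.of fun x y => vg z e (cc x y) k := by
      ext x y
      exact (C.sym x y k).symm
    have hpc : gmat (n := n) z D1.p * (Matrix.of fun x y => vg z e (cc x y) k) =
        Matrix.of fun x y => vg z e (cc x y) k := by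
      rw [← hs, ← Matrix.mul_assoc, ← Matrix.mul_assoc, LF.pj h C.l1]
    have h0 := congrFun (congrFun (Psi_c_Psi (p1 := gmat (n := n) z D1.p) hs (g_Jt hJ0 z)
      (g_com h hJ0 hJ1 hcc hc k) (g_JJ hJ1 z) hpc vr vi) x) y
    have h0' : (Psi (gmat (n := n) z J1) j1 vr vi * c k *
        (Psi (gmat (n := n) z J0) j0 vr vi)ᵀ) x y =
        (vr x.2 * vr y.2 + vi x.2 * vi y.2) * vg z e (cc x.1 y.1) k +
        (vi x.2 * vr y.2 - vr x.2 * vi y.2) *
          (gmat (n := n) z J1 * Matrix.of fun x y => vg z e (cc x y) k) x.1 y.1 := h0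
    rw [h0', U.re, U.im, ← g_Jcc h hJ1 hcc k x.1 y.1]
    have s1 : ∀ q, VSm n ∞ (fun q => L.r x.2 y.2 q • cc x.1 y.1 q) q := fun q =>
      VSm.smul le_rfl (L.smr _ _ q) (hcc _ _ q)
    have s2 : ∀ q, VSm n ∞ (fun q => L.s x.2 y.2 q • ∑ x', J1 x.1 x' q • cc x' y.1 q) q := fun q =>
      VSm.smul le_rfl (L.sms _ _ q) (smJcc hJ1 hcc _ _ q)
    have h1 : vg z e (ccTw J1 cc L x y) k = vg z e (fun q => L.r x.2 y.2 q • cc x.1 y.1 q) k +
        vg z e (fun q => L.s x.2 y.2 q • ∑ x', J1 x.1 x' q • cc x' y.1 q) k := vg_add h s1 s2 k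
    rw [h1, vg_smul h (L.smr _ _) (hcc _ _), vg_smul h (L.sms _ _) (smJcc hJ1 hcc _ _)]

end cl

/-- **the twisted Clifford pair**. -/
def twP {κ : Type} [Fintype κ] (P : CPair n M κ κ0 κ1) {J0 : κ0 → κ0 → M → ℝ}
    {J1 : κ1 → κ1 → M → ℝ} (hJ0 : PJ P.D0 J0) (hJ1 : PJ P.D1 J1)
    (hc : ∀ A y z, ∑ B, J1 A B z • P.cc B y z = ∑ x, J0 x y z • P.cc A x z) (L : LD n M N) :
    CPair n M κ (κ0 × Fin N) (κ1 × Fin N) where
  s := P.s
  D0 := twB P.D0 J0 hJ0 L
  D1 := twB P.D1 J1 hJ1 L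
  cc := ccTw J1 P.cc L
  smc := sm_ccTw hJ1 P.smc L
  loc z := by
    obtain ⟨e, h, ι0, ι1, i1, i2, i3, i4, a0, a1, c, j0, j1, C⟩ := P.loc z
    obtain ⟨vr, vi, U⟩ := exists_usec L z
    exact ⟨e, h, ι0, ι1, i1, i2, i3, i4, _, _, c, _, _, cloc_tw h hJ0 hJ1 P.smc hc C U⟩
  sym0 y y' z := by
    obtain ⟨e, h, ι0, ι1, i1, i2, i3, i4, a0, a1, c, j0, j1, C⟩ := P.loc z
    obtain ⟨vr, vi, U⟩ := exists_usec L z
    exact R249.HK9_714.potQ_symm0 P.s (sm_ccTw hJ1 P.smc L)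
      (cloc_tw h hJ0 hJ1 P.smc hc C U) y y'
  sym1 x x' z := by
    obtain ⟨e, h, ι0, ι1, i1, i2, i3, i4, a0, a1, c, j0, j1, C⟩ := P.loc z
    obtain ⟨vr, vi, U⟩ := exists_usec L z
    exact R249.HK9_714.potQ_symm1 P.s (sm_ccTw hJ1 P.smc L)
      (cloc_tw h hJ0 hJ1 P.smc hc C U) x x'

section com

variable {D0 : Bun n M κ0} {D1 : Bun n M κ1} {J0 : κ0 → κ0 → M → ℝ} {J1 : κ1 → κ1 → M → ℝ}
  {cc : κ1 → κ0 → (p : M) → TangentSpace 𝓘(ℝ, EuclideanSpace ℝ (Fin n)) p}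

theorem zero_of_vg {z : M} {e : Fin n → EuclideanSpace ℝ (Fin n) → EuclideanSpace ℝ (Fin n)}
    (h : ONF (chartMetric n M z) (chartAt (EuclideanSpace ℝ (Fin n)) z).target
      (chartCentre n M z) e) {X : (p : M) → TangentSpace 𝓘(ℝ, EuclideanSpace ℝ (Fin n)) p}
    (hX : ∀ q, VSm n ∞ X q) (h0 : ∀ k, vg z e X k = 0) : X z = 0 := by
  have h1 := fg_inner h hX hX
  have h2 : ∑ k, vg z e X k * vg z e X k = 0 := Finset.sum_eq_zero fun k _ => by
    rw [h0 k, mul_zero]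
  rw [h2] at h1
  have h3 := ev_fg (n := n) (z := z) (Crest.Agent.R249.Sg129.contMDiff_inner hX hX)
  rw [h1, map_zero] at h3
  exact inner_self_eq_zero.1 h3.symm

/-- the symbol takes values in the second bundle. -/
theorem p1_cc {z : M} {e : Fin n → EuclideanSpace ℝ (Fin n) → EuclideanSpace ℝ (Fin n)}
    {h : ONF (chartMetric n M z) (chartAt (EuclideanSpace ℝ (Fin n)) z).target
      (chartCentre n M z) e}
    {ι0 ι1 : Type} [Fintype ι0] [DecidableEq ι0] [Fintype ι1] [DecidableEq ι1]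
    {a0 : Fin n → Matrix ι0 ι0 (SG (chartCentre n M z))}
    {a1 : Fin n → Matrix ι1 ι1 (SG (chartCentre n M z))}
    {c : Fin n → Matrix ι1 ι0 (SG (chartCentre n M z))}
    {j0 : Matrix κ0 ι0 (SG (chartCentre n M z))} {j1 : Matrix κ1 ι1 (SG (chartCentre n M z))}
    (C : CLoc D0 D1 cc h a0 a1 c j0 j1) (hcc : ∀ x y q, VSm n ∞ (cc x y) q) (x : κ1) (y : κ0) :
    ∑ x', D1.p x x' z • cc x' y z = cc x y z := by
  have s1 : ∀ q, VSm n ∞ (fun q => ∑ x', D1.p x x' q • cc x' y q) q := fun q =>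
    VSm.sum Finset.univ fun c _ => VSm.smul le_rfl (D1.smp x c q) (hcc c y q)
  have h1 := zero_of_vg h (X := fun q => ∑ x', D1.p x x' q • cc x' y q - cc x y q)
    (fun q => (s1 q).sub' (hcc x y q)) (fun k => by
      rw [vg_sub h s1 (hcc x y), vg_sum h Finset.univ (F := fun x' q => D1.p x x' q • cc x' y q)
        (fun c q => VSm.smul le_rfl (D1.smp x c q) (hcc c y q))]
      have hs : j1 * c k * j0ᵀ = Matrix.of fun x y => vg z e (cc x y) k := by
        ext x y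
        exact (C.sym x y k).symm
      have hpc : gmat (n := n) z D1.p * (Matrix.of fun x y => vg z e (cc x y) k) =
          Matrix.of fun x y => vg z e (cc x y) k := by
        rw [← hs, ← Matrix.mul_assoc, ← Matrix.mul_assoc, LF.pj h C.l1]
      have h2 := congrFun (congrFun hpc x) y
      rw [Matrix.mul_apply] at h2
      have h3 : ∑ x', vg z e (fun q => D1.p x x' q • cc x' y q) k = vg z e (cc x y) k := by
        refine Eq.trans (Finset.sum_congr rfl fun c _ => ?_) h2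
        exact vg_smul h (D1.smp x c) (hcc c y) k
      rw [h3, sub_self])
  exact sub_eq_zero.1 h1

/-- **the twisted symbol intertwines the complex structures**. -/
theorem ccTw_J (hJ0 : PJ D0 J0) (hJ1 : PJ D1 J1)
    (hp : ∀ x y z, ∑ x', D1.p x x' z • cc x' y z = cc x y z)
    (hc : ∀ A y z, ∑ B, J1 A B z • cc B y z = ∑ x, J0 x y z • cc A x z) (L : LD n M N)
    (A : κ1 × Fin N) (y : κ0 × Fin N) (z : M) :
    ∑ B, JT D1 J1 L A B z • ccTw J1 cc L B y z = ∑ x, JT D0 J0 L x y z • ccTw J1 cc L A x z := by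
  refine ext_inner_right ℝ fun v => ?_
  rw [sum_inner, sum_inner]
  simp only [real_inner_smul_left]
  set Am : Matrix κ1 κ0 ℝ := fun x y => inner ℝ (cc x y z) v with hAm
  set j0 := LD.vm J0 z with hj0
  set j1 := LD.vm J1 z with hj1
  set p0 := LD.vm D0.p z with hp0
  set p1 := LD.vm D1.p z with hp1
  set r := LD.vm L.r z with hr
  set s := LD.vm L.s z with hs
  have q1 : j1 * j1 = - p1 := mat_JJ hJ1 z
  have q0 : j0 * j0 = - p0 := mat_JJ hJ0 z
  have q2 : p1 * j1 = j1 := mat_pJ hJ1 z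
  have f1 : p1 * Am = Am := by
    ext x y
    have h1 := congrArg (fun u => inner ℝ u v) (hp x y z)
    simp only [sum_inner, real_inner_smul_left] at h1
    exact h1
  have f2 : j1 * Am = Am * j0 := by
    ext x y
    have h1 := congrArg (fun u => inner ℝ u v) (hc x y z)
    simp only [sum_inner, real_inner_smul_left] at h1
    rw [Matrix.mul_apply, Matrix.mul_apply]
    refine h1.trans (Finset.sum_congr rfl fun c _ => mul_comm _ _)
  have f3 : Am * p0 = Am := by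
    have h1 : Am * (j0 * j0) = - Am := by
      rw [← Matrix.mul_assoc, ← f2, Matrix.mul_assoc, ← f2, ← Matrix.mul_assoc, q1,
        Matrix.neg_mul, f1]
    rw [q0, Matrix.mul_neg] at h1
    exact neg_injective h1
  have e1 : ∀ x y, inner ℝ (ccTw J1 cc L x y z) v = (Am ⊗ₖ r + (j1 * Am) ⊗ₖ s) x y := by
    intro x y
    have e0 : (j1 * Am) x.1 y.1 = ∑ x', J1 x.1 x' z * inner ℝ (cc x' y.1 z) v := rfl
    rw [Matrix.add_apply, kroneckerMap_apply, kroneckerMap_apply, e0, ccTw, inner_add_left,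
      real_inner_smul_left, real_inner_smul_left, sum_inner]
    simp only [real_inner_smul_left]
    show r x.2 y.2 * Am x.1 y.1 + s x.2 y.2 * _ = _
    ring
  simp only [e1]
  have g1 : Phi p1 j1 (-s) r * (Am ⊗ₖ r + (j1 * Am) ⊗ₖ s) =
      (j1 * Am) ⊗ₖ (r * r - s * s) - Am ⊗ₖ (r * s + s * r) := by
    rw [Phi, Matrix.add_mul, Matrix.mul_add, Matrix.mul_add, ← mul_kronecker_mul,
      ← mul_kronecker_mul, ← mul_kronecker_mul, ← mul_kronecker_mul, f1, ← Matrix.mul_assoc p1,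
      q2, ← Matrix.mul_assoc j1, q1, Matrix.neg_mul p1, f1]
    ext a b
    simp only [Matrix.add_apply, Matrix.sub_apply, Matrix.neg_apply, kroneckerMap_apply,
      Matrix.neg_mul]
    ring
  have g2 : (Am ⊗ₖ r + (j1 * Am) ⊗ₖ s) * Phi p0 j0 (-s) r =
      (j1 * Am) ⊗ₖ (r * r - s * s) - Am ⊗ₖ (r * s + s * r) := by
    have f4 : j1 * Am * p0 = j1 * Am := by rw [Matrix.mul_assoc, f3]
    have f5 : j1 * Am * j0 = - Am := by
      rw [Matrix.mul_assoc, ← f2, ← Matrix.mul_assoc, q1, Matrix.neg_mul, f1]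
    rw [Phi, Matrix.mul_add, Matrix.add_mul, Matrix.add_mul, ← mul_kronecker_mul,
      ← mul_kronecker_mul, ← mul_kronecker_mul, ← mul_kronecker_mul, f3, f4, f5, ← f2]
    ext a b
    simp only [Matrix.add_apply, Matrix.sub_apply, Matrix.neg_apply, kroneckerMap_apply,
      Matrix.mul_neg]
    ring
  have h1 := congrFun (congrFun (g1.trans g2.symm) A) y
  rw [Matrix.mul_apply, Matrix.mul_apply] at h1
  refine Eq.trans (Finset.sum_congr rfl fun B _ => ?_) (h1.trans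
    (Finset.sum_congr rfl fun B _ => ?_))
  · rfl
  · exact mul_comm _ _

end com

end Crest.Agent.R235.LTw_453
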