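import Mathlib

/-!
Row 235 (S0364), PACKAGE ADJ, leaf X3 INTEG (helper984), part 0: linear algebra of rank one
projections and the Sard argument.
-/

set_option autoImplicit false

open Matrix Complex MeasureTheory Set Filter Topology
open scoped ComplexOrder

namespace Crest.Agent.R235.Integ_984

noncomputable section

section Alg

variable {N : ℕ}

/-- rank one projections. -/
structure IsP (P : Matrix (Fin N) (Fin N) ℂ) : Prop where
  idem : P * P = P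
  herm : P.conjTranspose = P
  tr : P.trace = 1

/-- tangent vectors to the space of projections. -/
structure IsT (P X : Matrix (Fin N) (Fin N) ℂ) : Prop where
  herm : X.conjTranspose = X
  off : X = P * X + X * P

theorem IsP.exists_vec {P : Matrix (Fin N) (Fin N) ℂ} (h : IsP P) :
    ∃ l : Fin N → ℂ, P = vecMulVec l (star l) ∧ star l ⬝ᵥ l = 1 := by
  have h0 : ∃ v, P *ᵥ v ≠ 0 := by
    by_contra hc
    push Not at hc
    have h1 : P = 0 := by
      ext i j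
      have := congrFun (hc (Pi.single j 1)) i
      simpa using this
    have h2 := h.tr
    rw [h1] at h2
    simp at h2
  obtain ⟨v, hv⟩ := h0
  set s := P *ᵥ v with hs
  set q := star s ⬝ᵥ s with hq
  have hPs : P *ᵥ s = s := by rw [hs, mulVec_mulVec, h.idem]
  have hq0 : q ≠ 0 := by
    intro h1
    exact hv (dotProduct_star_self_eq_zero.1 h1)
  have hqr : q = ((Real.sqrt q.re : ℝ) : ℂ) ^ 2 := by
    have h1 : q = (∑ i, normSq (s i) : ℝ) := by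
      rw [hq]
      simp only [dotProduct, Pi.star_apply, RCLike.star_def]
      push_cast
      exact Finset.sum_congr rfl fun i _ => by rw [mul_comm, mul_conj]
    have h2 : 0 ≤ q.re := by
      rw [h1, ofReal_re]
      exact Finset.sum_nonneg fun i _ => normSq_nonneg _
    rw [← ofReal_pow, Real.sq_sqrt h2]
    rw [h1]; simp
  set r : ℂ := ((Real.sqrt q.re : ℝ) : ℂ) with hr
  have hr0 : r ≠ 0 := by
    intro h1; rw [h1] at hqr; exact hq0 (by rw [hqr]; simp)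
  have hrs : star r = r := by rw [hr]; simp
  set l : Fin N → ℂ := r⁻¹ • s with hl
  have hls : star l = r⁻¹ • star s := by
    rw [hl, star_smul, star_inv₀, hrs]
  have hll : star l ⬝ᵥ l = 1 := by
    rw [hls, hl, smul_dotProduct, dotProduct_smul, ← hq, hqr]
    simp only [smul_eq_mul]
    field_simp
  have hPl : P *ᵥ l = l := by rw [hl, mulVec_smul, hPs]
  have hlP : star l ᵥ* P = star l := by
    have := congrArg star hPl
    rw [star_mulVec, h.herm] at this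
    exact this
  set Q := P - vecMulVec l (star l) with hQ
  have hQQ : Q * Q = Q := by
    rw [hQ, sub_mul, mul_sub, mul_sub, h.idem, mul_vecMulVec, vecMulVec_mul, hPl, hlP,
      vecMulVec_mul_vecMulVec, hll]
    simp
  have hQH : Q.conjTranspose = Q := by
    rw [hQ, conjTranspose_sub, h.herm, conjTranspose_vecMulVec, star_star]
  have hQt : Q.trace = 0 := by
    rw [hQ, trace_sub, h.tr, trace_vecMulVec, dotProduct_comm, hll, sub_self]
  have hQ0 : Q = 0 := by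
    have h1 : (Q.conjTranspose * Q).trace = 0 := by rw [hQH, hQQ, hQt]
    exact trace_conjTranspose_mul_self_eq_zero_iff.1 h1
  exact ⟨l, sub_eq_zero.1 hQ0, hll⟩

/-- the scalars. -/
theorem key {P X Y : Matrix (Fin N) (Fin N) ℂ} (h : IsP P) (hX : IsT P X) (hY : IsT P Y)
    (v w : Fin N → ℂ) : ∃ (c d a b a' b' t t' : ℂ),
    star (P *ᵥ v) ⬝ᵥ (P *ᵥ v) = c * star c ∧
    star (P *ᵥ w) ⬝ᵥ (P *ᵥ w) = star d * d ∧
    star v ⬝ᵥ (P *ᵥ w) = c * d ∧
    star (P *ᵥ v) ⬝ᵥ (X *ᵥ v) = c * a ∧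
    star (P *ᵥ v) ⬝ᵥ (Y *ᵥ v) = c * b ∧
    star (P *ᵥ w) ⬝ᵥ (X *ᵥ w) = star d * a' ∧
    star v ⬝ᵥ (X *ᵥ w) = c * a' + star a * d ∧
    star (X *ᵥ v) ⬝ᵥ (Y *ᵥ v) = c * t * star c + star a * b ∧
    star (Y *ᵥ v) ⬝ᵥ (X *ᵥ v) = c * t' * star c + star b * a ∧
    (P * (X * Y - Y * X)).trace = t - t' := by
  obtain ⟨l, hl, hll⟩ := h.exists_vec
  have eP : ∀ x, P *ᵥ x = (star l ⬝ᵥ x) • l := by
    intro x
    rw [hl, vecMulVec_mulVec]
    ext i
    simp [mul_comm]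
  have eL : ∀ A : Matrix (Fin N) (Fin N) ℂ, ∀ x y, star x ⬝ᵥ (A *ᵥ y) =
      star (A.conjTranspose *ᵥ x) ⬝ᵥ y := by
    intro A x y
    rw [star_mulVec, conjTranspose_conjTranspose, ← dotProduct_mulVec]
  have eS : ∀ x y : Fin N → ℂ, star x ⬝ᵥ y = star (star y ⬝ᵥ x) := by
    intro x y
    exact star_dotProduct x y
  have lX : star l ⬝ᵥ (X *ᵥ l) = 0 := by
    have h1 := congrArg (fun Z => star l ⬝ᵥ (Z *ᵥ l)) hX.off
    simp only [add_mulVec, ← mulVec_mulVec, eP, dotProduct_add, dotProduct_smul, mulVec_smul,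
      smul_eq_mul, hll] at h1
    linear_combination -h1
  have lY : star l ⬝ᵥ (Y *ᵥ l) = 0 := by
    have h1 := congrArg (fun Z => star l ⬝ᵥ (Z *ᵥ l)) hY.off
    simp only [add_mulVec, ← mulVec_mulVec, eP, dotProduct_add, dotProduct_smul, mulVec_smul,
      smul_eq_mul, hll] at h1
    linear_combination -h1
  have tX : ∀ x, X *ᵥ x = (star l ⬝ᵥ (X *ᵥ x)) • l + (star l ⬝ᵥ x) • (X *ᵥ l) := by
    intro x
    have h1 := congrArg (fun Z => Z *ᵥ x) hX.off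
    simp only [add_mulVec, ← mulVec_mulVec, eP, mulVec_smul] at h1
    exact h1
  have tY : ∀ x, Y *ᵥ x = (star l ⬝ᵥ (Y *ᵥ x)) • l + (star l ⬝ᵥ x) • (Y *ᵥ l) := by
    intro x
    have h1 := congrArg (fun Z => Z *ᵥ x) hY.off
    simp only [add_mulVec, ← mulVec_mulVec, eP, mulVec_smul] at h1
    exact h1
  have eX : ∀ x, star x ⬝ᵥ (X *ᵥ l) = star (star l ⬝ᵥ (X *ᵥ x)) := by
    intro x
    rw [eL, hX.herm, eS]
  have eY : ∀ x, star x ⬝ᵥ (Y *ᵥ l) = star (star l ⬝ᵥ (Y *ᵥ x)) := by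
    intro x
    rw [eL, hY.herm, eS]
  have trl : ∀ A : Matrix (Fin N) (Fin N) ℂ, (P * A).trace = star l ⬝ᵥ (A *ᵥ l) := by
    intro A
    rw [hl, trace_mul_comm, mul_vecMulVec, trace_vecMulVec, dotProduct_comm]
  refine ⟨star v ⬝ᵥ l, star l ⬝ᵥ w, star l ⬝ᵥ (X *ᵥ v), star l ⬝ᵥ (Y *ᵥ v), star l ⬝ᵥ (X *ᵥ w),
    star l ⬝ᵥ (Y *ᵥ w), star (X *ᵥ l) ⬝ᵥ (Y *ᵥ l), star (Y *ᵥ l) ⬝ᵥ (X *ᵥ l), ?_, ?_, ?_, ?_, ?_,
    ?_, ?_, ?_, ?_, ?_⟩
  · rw [eP, star_smul, smul_dotProduct, dotProduct_smul, hll, ← eS v l, ← eS l v]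
    simp [mul_comm]
  · rw [eP, star_smul, smul_dotProduct, dotProduct_smul, hll]
    simp
  · rw [eP, dotProduct_smul, smul_eq_mul, mul_comm]
  · rw [eP, star_smul, smul_dotProduct, ← eS v l, smul_eq_mul]
  · rw [eP, star_smul, smul_dotProduct, ← eS v l, smul_eq_mul]
  · rw [eP, star_smul, smul_dotProduct, smul_eq_mul]
  · rw [tX w, dotProduct_add, dotProduct_smul, dotProduct_smul, eX, smul_eq_mul, smul_eq_mul]
    simp only [dotProduct_add, dotProduct_smul, hll, lX, smul_eq_mul]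
    ring
  · rw [tX v, tY v]
    simp only [star_add, star_smul, add_dotProduct, dotProduct_add, smul_dotProduct,
      dotProduct_smul, smul_eq_mul, hll, lX, lY, ← eS v l]
    have h2 : star (X *ᵥ l) ⬝ᵥ l = 0 := by
      rw [eS, lX, star_zero]
    rw [h2, ← eS l v]
    simp only [mul_one, mul_zero, star_zero, add_zero, zero_add]
    ring
  · rw [tX v, tY v]
    simp only [star_add, star_smul, add_dotProduct, dotProduct_add, smul_dotProduct,
      dotProduct_smul, smul_eq_mul, hll, lX, lY, ← eS v l]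
    have h2 : star (Y *ᵥ l) ⬝ᵥ l = 0 := by
      rw [eS, lY, star_zero]
    rw [h2, ← eS l v]
    simp only [mul_one, mul_zero, star_zero, add_zero, zero_add]
    ring
  · rw [trl, sub_mulVec, dotProduct_sub, ← mulVec_mulVec, ← mulVec_mulVec, eL X l (Y *ᵥ l),
      eL Y l (X *ᵥ l), hX.herm, hY.herm]

/-- the curvature identity. -/
theorem curv {P X Y : Matrix (Fin N) (Fin N) ℂ} (h : IsP P) (hX : IsT P X) (hY : IsT P Y)
    (v : Fin N → ℂ) {μ : ℝ} (hμ : μ = (star (P *ᵥ v) ⬝ᵥ (P *ᵥ v)).re) :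
    μ ^ 2 * ((I / (2 * Real.pi)) * (P * (X * Y - Y * X)).trace).re +
      μ * ((2 * Real.pi)⁻¹ * (2 * (star (X *ᵥ v) ⬝ᵥ (Y *ᵥ v)).im)) -
      ((2 * (star (P *ᵥ v) ⬝ᵥ (X *ᵥ v)).re) *
          ((2 * Real.pi)⁻¹ * (star (P *ᵥ v) ⬝ᵥ (Y *ᵥ v)).im) -
        (2 * (star (P *ᵥ v) ⬝ᵥ (Y *ᵥ v)).re) *
          ((2 * Real.pi)⁻¹ * (star (P *ᵥ v) ⬝ᵥ (X *ᵥ v)).im)) = 0 := by
  obtain ⟨c, -, a, b, -, -, t, t', h1, -, -, h4, h5, -, -, h8, h9, h10⟩ := key h hX hY v v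
  have h0 : (star (X *ᵥ v) ⬝ᵥ (Y *ᵥ v)) = star (star (Y *ᵥ v) ⬝ᵥ (X *ᵥ v)) :=
    star_dotProduct _ _
  have e1 : 2 * (star (X *ᵥ v) ⬝ᵥ (Y *ᵥ v)).im =
      (star (X *ᵥ v) ⬝ᵥ (Y *ᵥ v) - star (Y *ᵥ v) ⬝ᵥ (X *ᵥ v)).im := by
    rw [sub_im, h0]
    simp only [RCLike.star_def, conj_im]
    ring
  have e2 : ((I / (2 * Real.pi)) * (P * (X * Y - Y * X)).trace).re =
      -((2 * Real.pi)⁻¹ * (t - t').im) := by
    rw [h10]
    have : (I / (2 * Real.pi) : ℂ) = ((2 * Real.pi)⁻¹ : ℝ) * I := by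
      push_cast
      rw [div_eq_mul_inv, mul_comm]
    rw [this, mul_assoc, re_ofReal_mul, I_mul_re]
    ring
  rw [e1, e2, h8, h9, h4, h5, hμ, h1]
  simp only [RCLike.star_def, mul_re, mul_im, sub_im, add_im, conj_re, conj_im]
  ring

/-- change of the frame. -/
theorem change {P Y : Matrix (Fin N) (Fin N) ℂ} (h : IsP P) (hY : IsT P Y)
    (v w : Fin N → ℂ) {μ ν : ℝ} (hμ : μ = (star (P *ᵥ v) ⬝ᵥ (P *ᵥ v)).re)
    (hν : ν = (star (P *ᵥ w) ⬝ᵥ (P *ᵥ w)).re) :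
    μ * (star (P *ᵥ w) ⬝ᵥ (Y *ᵥ w)).im - ν * (star (P *ᵥ v) ⬝ᵥ (Y *ᵥ v)).im =
      ((star v ⬝ᵥ (Y *ᵥ w)) * star (star v ⬝ᵥ (P *ᵥ w))).im ∧
      normSq (star v ⬝ᵥ (P *ᵥ w)) = μ * ν := by
  obtain ⟨c, d, a, b, a', b', t, t', h1, h2, h3, h4, h5, h6, h7, -⟩ := key h hY hY v w
  rw [h3, h4, h6, h7, hμ, hν, h1, h2]
  constructor
  · simp only [RCLike.star_def, mul_re, mul_im, map_mul, add_re, add_im, conj_re, conj_im]
    ring
  · rw [normSq_mul]
    simp only [RCLike.star_def, mul_re, conj_re, conj_im, normSq_apply]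
    ring

end Alg

end

end Crest.Agent.R235.Integ_984
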