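import Crest.Agent.R235.LTwB_453
import Crest.Agent.R235.Integ0_984
import Crest.Agent.R235.Defs_837

/-!
Row 235, helper774, L-twist: a complex line bundle `p` of `ℂ^N` (`IsLine p`) as the real data
`LD 4 M N` of `LTwB_453`.
-/

set_option autoImplicit false
set_option maxSynthPendingDepth 3

open Matrix Complex
open scoped Manifold ContDiff Topology

universe u

namespace Crest.Agent.R235.LTwLd_774

open Crest.Agent.R235.LTw_453 Crest.Agent.R235.Integ_984 Crest.Agent.R240

noncomputable section

variable {N : ℕ}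

/-- rank one. -/
theorem rk {P : Matrix (Fin N) (Fin N) ℂ} (h : IsP P) (k l m : Fin N) :
    P k m * P m l = P m m * P k l := by
  obtain ⟨v, hv, -⟩ := h.exists_vec
  rw [hv]
  simp only [vecMulVec_apply]
  ring

theorem hm {P : Matrix (Fin N) (Fin N) ℂ} (h : IsP P) (k l : Fin N) :
    P k l = star (P l k) := by
  have := congrFun (congrFun h.herm k) l
  rw [← this]
  rfl

theorem re_hm {P : Matrix (Fin N) (Fin N) ℂ} (h : IsP P) (k l : Fin N) :
    (P k l).re = (P l k).re := by
  rw [hm h k l]; simp

theorem im_hm {P : Matrix (Fin N) (Fin N) ℂ} (h : IsP P) (k l : Fin N) :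
    (P k l).im = - (P l k).im := by
  rw [hm h k l]; simp

theorem im_diag {P : Matrix (Fin N) (Fin N) ℂ} (h : IsP P) (k : Fin N) : (P k k).im = 0 := by
  have := im_hm h k k
  linarith

variable {M : Type u} [TopologicalSpace M] [T2Space M] [CompactSpace M]
  [ChartedSpace E4 M] [IsManifold 𝓘(ℝ, E4) ∞ M]

theorem isP {p : M → Matrix (Fin N) (Fin N) ℂ} (hp : IsLine p) (x : M) : IsP (p x) :=
  ⟨hp.idem x, hp.herm x, hp.rank x⟩

/-- **the line bundle `p` as real data.** -/
def ldOf (p : M → Matrix (Fin N) (Fin N) ℂ) (hp : IsLine p) : LD 4 M N where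
  r a b z := (p z a b).re
  s a b z := (p z a b).im
  smr a b := Complex.reCLM.contDiff.contMDiff.comp (hp.smooth a b)
  sms a b := Complex.imCLM.contDiff.contMDiff.comp (hp.smooth a b)
  symr a b z := re_hm (isP hp z) a b
  skews a b z := im_hm (isP hp z) a b
  tr z := by
    have h := congrArg Complex.re (hp.rank z)
    rw [Matrix.trace, Complex.re_sum] at h
    simpa using h
  rk1 k l m z := by
    have h := congrArg Complex.re (rk (isP hp z) k l m)
    have h1 := im_diag (isP hp z) m
    rw [Complex.mul_re, Complex.mul_re, h1, re_hm (isP hp z) m l, im_hm (isP hp z) m l] at h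
    linarith
  rk2 k l m z := by
    have h := congrArg Complex.im (rk (isP hp z) k l m)
    have h1 := im_diag (isP hp z) m
    rw [Complex.mul_im, Complex.mul_im, h1, re_hm (isP hp z) m l, im_hm (isP hp z) m l] at h
    linarith

@[simp] theorem ldOf_r (p : M → Matrix (Fin N) (Fin N) ℂ) (hp : IsLine p) (a b : Fin N) (z : M) :
    (ldOf p hp).r a b z = (p z a b).re := rfl

@[simp] theorem ldOf_s (p : M → Matrix (Fin N) (Fin N) ℂ) (hp : IsLine p) (a b : Fin N) (z : M) :
    (ldOf p hp).s a b z = (p z a b).im := rfl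

end

end Crest.Agent.R235.LTwLd_774
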