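import Crest.Agent.R235.IndEvenE_692
import Crest.Agent.R235.LTwD_453
import Crest.Agent.R235.LTwLd_774

/-!
Row 235, package IND, leaf L6 (helper692), part F: the twist exists (453's pair), `EVEN235` is a theorem.

* `twQ q s L`  : the twist of the quaternionic pair by the line bundle `L`;
* `locTw_twQ`  : its local form, curvature `-2π a`;
* `tw_holds : TW`, `even235 : EVEN235`.
-/

set_option autoImplicit false
set_option maxSynthPendingDepth 3
set_option linter.unusedSectionVars false
set_option linter.unusedSimpArgs false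
set_option maxHeartbeats 1000000

open Filter Topology Set Bundle Manifold MeasureTheory
open Matrix hiding J
open scoped ContDiff ENNReal NNReal
open Crest.GeometryTopology.CoordMetric Crest.GeometryTopology.ChartCurvature
open Crest.Agent.R240 Crest.Agent.R240.Ch
open Crest.Agent.R249.Tz2_805 Crest.Agent.R249.Tz1_805
open Crest.Agent.R249.Fr129
open Crest.Agent.R249.C2_198 hiding cp half_two
open Crest.Agent.R249.Sg129 (SG ev ONF)
open Crest.Agent.R249.Tz805 Crest.Agent.R249.Dic805
open Crest.Agent.R235.IndAlg_167 hiding half_two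
open Crest.Agent.R235.Ind167
open Crest.Agent.R235.LTw_453

universe u

noncomputable section

namespace Crest.Agent.R235.IndEven_692

variable {M : Type u} [TopologicalSpace M] [ChartedSpace E4 M] [IsManifold 𝓘(ℝ, E4) ∞ M]
  [RiemannianBundle (fun x : M => TangentSpace 𝓘(ℝ, E4) x)]
  [IsContMDiffRiemannianBundle 𝓘(ℝ, E4) ∞ E4 (fun x : M => TangentSpace 𝓘(ℝ, E4) x)]

/-- **the twist of the quaternionic pair** by a line bundle -/
def twQ (q : QS M) {κ : Type} [Fintype κ] (s : PF 4 M κ) {N : ℕ} (L : LD 4 M N) :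
    CPair 4 M κ (Fin 4 × Fin N) (κ × Fin N) :=
  twP (pairZ q s) (pj_Z0 q s 0) (pj_Z1 q s 0) (fun A y z => cc_J q s 0 A y z) L

variable {q : QS M} {κ : Type} [Fintype κ] {s : PF 4 M κ}
  {z : M} {e : Fin 4 → E4 → E4}
  (h : ONF (chartMetric 4 M z) (chartAt E4 z).target (chartCentre 4 M z) e) (ha : Adp q z e)

theorem gmat_JZ (b : Fin 3) : gmat (n := 4) z (JZ (M := M) b) = J (SG (chartCentre 4 M z)) b := by
  ext x y
  rw [J_cast]
  exact fg_const _

include h ha in
theorem gmat_IP (b : Fin 3) : (tanJ s z e)ᵀ * gmat (n := 4) z (IP q s b) * tanJ s z e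
    = K (SG (chartCentre 4 M z)) b := by
  have h1 : gmat (n := 4) z (IP q s b)
      = tanJ s z e * K (SG (chartCentre 4 M z)) b * (tanJ s z e)ᵀ := by
    ext A B
    exact fg_IP s h ha b A B
  have h2 := tanJ_jtj s h
  rw [h1]
  calc (tanJ s z e)ᵀ * (tanJ s z e * K (SG (chartCentre 4 M z)) b * (tanJ s z e)ᵀ) * tanJ s z e
      = ((tanJ s z e)ᵀ * tanJ s z e) * K (SG (chartCentre 4 M z)) b
          * ((tanJ s z e)ᵀ * tanJ s z e) := by simp only [Matrix.mul_assoc]
    _ = K (SG (chartCentre 4 M z)) b := by rw [h2, Matrix.one_mul, Matrix.mul_one]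

/-- **local form of the twist** -/
theorem locTw_twQ (q : QS M) (s : PF 4 M κ) {N : ℕ} {p : M → Matrix (Fin N) (Fin N) ℂ}
    {a : Z2 M} (hp : IsLine p) (hc : IsChern p a) {L : LD 4 M N}
    (hr : ∀ k l, L.r k l = fun m => (p m k l).re) (hs : ∀ k l, L.s k l = fun m => (p m k l).im) :
    LocTw q (twQ q s L) ((-(2 * Real.pi)) • (a.1.1 : F2 E4 M)) := by
  intro z e h ha
  have C := clocQ s sm_thZ h ha
  rw [vg_thZ h] at C
  obtain ⟨vr, vi, U⟩ := exists_usec L z
  have C' := cloc_tw h (pj_Z0 q s 0) (pj_Z1 q s 0) (smc_ccQ q s)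
    (fun A y z => cc_J q s 0 A y z) C U
  have e0 : ∀ k, bA0 h.frameOf (fun _ _ => 0) k + alf h vr vi k •
      ((1 : Matrix (Fin 4) (Fin 4) (SG (chartCentre 4 M z)))ᵀ * gmat (n := 4) z (JZ (M := M) 0) * 1)
      = bA0 h.frameOf (tw (alf h vr vi)) k := by
    intro k
    rw [Matrix.transpose_one, Matrix.one_mul, Matrix.mul_one, gmat_JZ, bA0_tw]
    rfl
  have e1 : ∀ k, bA1 h.frameOf (fun _ _ => 0) k + alf h vr vi k •
      ((tanJ s z e)ᵀ * gmat (n := 4) z (IP q s 0) * tanJ s z e)
      = bA1 h.frameOf (tw (alf h vr vi)) k := by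
    intro k
    rw [gmat_IP h ha, bA1_tw]
    rfl
  rw [funext e0, funext e1] at C'
  refine ⟨alf h vr vi, _, _, C', ?_⟩
  intro i j
  have h3 := chern_germ h hp hc vr vi
    (fun k l => by rw [← hr k l]; exact (U.re k l).symm)
    (fun k l => by rw [← hs k l]; exact (U.im k l).symm) U.one i j
  refine Eq.trans ?_ (h3.trans ?_)
  · rfl
  · rfl

/-- the line bundle `p` as real data (774's `ldOf` without compactness). -/
def ld {N : ℕ} (p : M → Matrix (Fin N) (Fin N) ℂ) (hp : IsLine p) : LD 4 M N :=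
  have hP : ∀ z, Integ_984.IsP (p z) := fun z => ⟨hp.idem z, hp.herm z, hp.rank z⟩
  { r := fun a b z => (p z a b).re
    s := fun a b z => (p z a b).im
    smr := fun a b => Complex.reCLM.contDiff.contMDiff.comp (hp.smooth a b)
    sms := fun a b => Complex.imCLM.contDiff.contMDiff.comp (hp.smooth a b)
    symr := fun a b z => LTwLd_774.re_hm (hP z) a b
    skews := fun a b z => LTwLd_774.im_hm (hP z) a b
    tr := fun z => by
      have h := congrArg Complex.re (hp.rank z)
      rw [Matrix.trace, Complex.re_sum] at h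
      simpa using h
    rk1 := fun k l m z => by
      have h := congrArg Complex.re (LTwLd_774.rk (hP z) k l m)
      have h1 := LTwLd_774.im_diag (hP z) m
      rw [Complex.mul_re, Complex.mul_re, h1, LTwLd_774.re_hm (hP z) m l,
        LTwLd_774.im_hm (hP z) m l] at h
      linarith
    rk2 := fun k l m z => by
      have h := congrArg Complex.im (LTwLd_774.rk (hP z) k l m)
      have h1 := LTwLd_774.im_diag (hP z) m
      rw [Complex.mul_im, Complex.mul_im, h1, LTwLd_774.re_hm (hP z) m l,
        LTwLd_774.im_hm (hP z) m l] at h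
      linarith }

/-- the twisted symbol intertwines the complex structures -/
theorem cc_twQ (q : QS M) (s : PF 4 M κ) {N : ℕ} (L : LD 4 M N) (A : κ × Fin N)
    (y : Fin 4 × Fin N) (z : M) :
    ∑ B, JT (pairZ q s).D1 (IP q s 0) L A B z • (twQ q s L).cc B y z
      = ∑ x, JT (pairZ q s).D0 (JZ 0) L x y z • (twQ q s L).cc A x z := by
  refine ccTw_J (pj_Z0 q s 0) (pj_Z1 q s 0) (fun x y z => ?_) (fun A y z => cc_J q s 0 A y z)
    L A y z
  obtain ⟨e, h, ha⟩ := exists_adp q z
  exact p1_cc (clocQ s sm_thZ h ha) (smc_ccQ q s) x y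

/-- the twist exists -/
theorem tw_holds : TW.{u} := by
  intro M _ _ _ _ _ q κ _ s N p a hp hc
  exact ⟨_, _, inferInstance, inferInstance, twQ q s (ld p hp), _, _,
    pjT (pj_Z0 q s 0) _, pjT (pj_Z1 q s 0) _, cc_twQ q s _,
    locTw_twQ q s hp hc (fun _ _ => rfl) (fun _ _ => rfl)⟩

/-- **EVEN235 is a theorem**: the intersection form is even on the integral classes. -/
theorem even235 : DichProps_723.EVEN235.{u} := even_of tw_holds

end Crest.Agent.R235.IndEven_692
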