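import Crest.Agent.R235.HodgeEnd_194
import Crest.Agent.R235.IndTW_692
import Crest.Agent.R235.IndNum_692
import Crest.Agent.R235.BPlus_723

/-!
Row 235 (helper692): the numbers of a K3 type manifold for package SW:
`KerD` of the Hodge pair is `4`, of its adjoint `0`; the kernels of a twist.

* `b1_zero`    : `B1Zero` and `HasB1 b` give `b = 0`;
* `finrank_P`  : `b⁺ = 3`;
* `k3_H`       : the Hodge pair has kernels of dimension `4` and `0`;
* `k3_root`    : `d0 = d1 + 2` for a twist with `pI a a = -2`;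
* `k3_flat`    : `d0 = d1 + 4` for a twist with `pI a a = 0`.
-/

set_option autoImplicit false
set_option maxSynthPendingDepth 3
set_option linter.unusedSectionVars false
set_option linter.unusedVariables false
set_option maxHeartbeats 1000000

open Filter Topology Set Bundle Manifold MeasureTheory
open scoped ContDiff ENNReal NNReal
open Crest.Agent.R240 Crest.Agent.R240.Ch
open Crest.Agent.R249.Tz2_805 Crest.Agent.R249.Tz805 Crest.Agent.R249.Vf281
open Crest.Agent.R249.Tv57 hiding GG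
open Crest.Agent.R235.DichProps_723 Crest.Agent.R235.Ind167 Crest.Agent.R235.IndSig_723
open Crest.Agent.R235.IndR_819 Crest.Agent.R235.RiemC_399 Crest.Agent.R235.QSTri_451
open Crest.Agent.R235.IndEven_692

universe u

noncomputable section

namespace Crest.Agent.R235.K3Num_692

section coh

variable {M : Type u} [TopologicalSpace M] [T2Space M] [CompactSpace M]
  [ChartedSpace E4 M] [IsManifold 𝓘(ℝ, E4) ∞ M]

omit [T2Space M] [CompactSpace M] in
theorem b1_zero (hB : B1Zero M) {b : ℕ} (h : HasB1 M b) : b = 0 := by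
  rcases Nat.eq_zero_or_pos b with h0 | h0
  · exact h0
  exfalso
  obtain ⟨s, hs, -, hi⟩ := h
  let i0 : Fin b := ⟨0, h0⟩
  obtain ⟨f, hf, he⟩ := hB (s i0) (hs i0)
  have h1 := hi (Pi.single i0 1) f hf (by
    rw [Finset.sum_eq_single i0]
    · rw [Pi.single_eq_same, one_smul, he]
    · intro j _ hj
      rw [Pi.single_eq_of_ne hj, zero_smul]
    · intro h
      exact absurd (Finset.mem_univ _) h)
  have h2 := congrFun h1 i0
  rw [Pi.single_eq_same] at h2
  exact one_ne_zero h2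

/-- three positive classes whose orthogonal complement is negative: the dimension of the positive
part is three. -/
theorem finrank_of_neg {V : Type*} [AddCommGroup V] [Module ℝ V] [FiniteDimensional ℝ V]
    (B : V →ₗ[ℝ] V →ₗ[ℝ] ℝ) (hB : ∀ x y, B x y = B y x) (P N : Submodule ℝ V) (hs : P ⊔ N = ⊤)
    (hP : ∀ x ∈ P, x ≠ 0 → 0 < B x x) (hN : ∀ x ∈ N, x ≠ 0 → B x x < 0) (b : Fin 3 → V)
    (hb : ∀ a : Fin 3 → ℝ, a ≠ 0 → 0 < B (∑ i, a i • b i) (∑ i, a i • b i))
    (hneg : ∀ c, (∀ i, B c (b i) = 0) → c ≠ 0 → B c c < 0) : Module.finrank ℝ P = 3 := by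
  -- upper bound
  have hle : Module.finrank ℝ P ≤ 3 := by
    by_contra hcon
    push Not at hcon
    let φ : P →ₗ[ℝ] (Fin 3 → ℝ) :=
      { toFun := fun x i => B x (b i)
        map_add' := fun x y => by funext i; simp
        map_smul' := fun r x => by funext i; simp }
    have h1 : ¬ Function.Injective φ := by
      intro hinj
      have := LinearMap.finrank_le_finrank_of_injective hinj
      simp at this
      omega
    rw [injective_iff_map_eq_zero] at h1
    push Not at h1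
    obtain ⟨x, hx, hx0⟩ := h1
    have h2 : (x : V) ≠ 0 := fun h => hx0 (Subtype.ext h)
    have h3 := hneg x (fun i => congrFun hx i) h2
    have h4 := hP x x.2 h2
    linarith
  -- lower bound
  let ψ : (Fin 3 → ℝ) →ₗ[ℝ] V :=
    { toFun := fun a => ∑ i, a i • b i
      map_add' := fun x y => by simp only [Pi.add_apply, add_smul, Finset.sum_add_distrib]
      map_smul' := fun r x => by
        simp only [Pi.smul_apply, smul_eq_mul, mul_smul, Finset.smul_sum, RingHom.id_apply] }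
  have hψ : ∀ a, ψ a = ∑ i, a i • b i := fun _ => rfl
  have hinj : Function.Injective ψ := by
    refine (injective_iff_map_eq_zero ψ).2 fun a ha => ?_
    by_contra h0
    have h1 := hb a h0
    rw [← hψ, ha] at h1
    simp at h1
  have hdis : Disjoint (LinearMap.range ψ) N := by
    rw [Submodule.disjoint_def]
    rintro x ⟨a, rfl⟩ hx
    by_contra h
    have h1 := hN _ hx h
    have h2 : a ≠ 0 := by
      rintro rfl
      exact h (map_zero ψ)
    have h3 := hb a h2
    rw [hψ] at h1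
    linarith
  have h1 := Submodule.finrank_add_finrank_le_of_disjoint hdis
  have h2 : Module.finrank ℝ (LinearMap.range ψ) = 3 := by
    rw [LinearMap.finrank_range_of_inj hinj]
    simp
  have h3 : Module.finrank ℝ V ≤ Module.finrank ℝ P + Module.finrank ℝ N := by
    have h4 := Submodule.finrank_add_le_finrank_add_finrank P N
    rw [hs, finrank_top] at h4
    exact h4
  omega

variable [Nonempty M]

/-- `b⁺ = 3` for the K3 type. -/
theorem finrank_P {w : Trip M} (hw : Pos3 w) (hK : K3Type (w 0)) {P N : Submodule ℝ (H2 M)}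
    (hs : P ⊔ N = ⊤) (hP : ∀ x ∈ P, x ≠ 0 → 0 < ip (w 0) x x)
    (hN : ∀ x ∈ N, x ≠ 0 → ip (w 0) x x < 0) : Module.finrank ℝ P = 3 := by
  obtain ⟨_, e, -, -⟩ := id hK
  have : FiniteDimensional ℝ (H2 M) := e.finiteDimensional_of_finite
  have hF := hw.vol 0
  have hc := BPlus_723.posCls_of_pos3 hw
  exact finrank_of_neg (ipB (w 0) hF) (fun x y => ip_comm (w 0) x y) P N hs hP hN (clw w)
    (fun a ha => hc a ha) (fun c hi h0 => BPlus_723.neg_K3 hF hK (clw w) hc c hi h0)

end coh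

/-- the numbers of HODGE for the K3 type. -/
theorem k3_out {M : Type} [TopologicalSpace M] [T2Space M] [CompactSpace M]
    [ChartedSpace E4 M] [IsManifold 𝓘(ℝ, E4) ∞ M] [Nonempty M]
    {w : Trip M} (hw : Pos3 w) (hK : K3Type (w 0)) {d0H d1H d0R d1R : ℕ}
    (h : HodgeOut w d0H d1H d0R d1R) : d0H = 4 ∧ d1H = 0 := by
  obtain ⟨P, N, hb, -, -, hs, hp, -, h1, h2, -⟩ := h
  have h3 := finrank_P hw hK hs h1 h2
  exact ⟨by omega, b1_zero hK.1 hb⟩

section num

variable {M : Type} [MetricSpace M] [CompactSpace M] [ConnectedSpace M]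
    [ChartedSpace (EuclideanSpace ℝ (Fin 4)) M] [IsManifold (𝓡 4) ∞ M]
    [RiemannianBundle (fun p : M => TangentSpace (𝓡 4) p)]
    [IsContMDiffRiemannianBundle (𝓡 4) ∞ (EuclideanSpace ℝ (Fin 4))
      (fun p : M => TangentSpace (𝓡 4) p)]
    [IsRiemannianManifold (𝓡 4) M] [MeasurableSpace M] [BorelSpace M]
    [SecondCountableTopology M] [Nonempty M] {w : Trip M} {e : Fin 3 → F2 E4 M} (hw : Pos3 w)
    (he : IndTri_451.IsTri (IndTri_451.und w) e)
    (hin : ∀ (x : M) (u v : TangentSpace 𝓘(ℝ, E4) x), inner ℝ u v = at2 (IndTri_451.gg e) x u v)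

include hw in
/-- the output of HODGE with all kernels. -/
theorem hodge_out {κ : Type} [Fintype κ] (T : ToF 4 M) (s : PF 4 M κ) :
    ∃ d0H d1H d0R d1R : ℕ,
      Nonempty (KerD (R249.Wk352.dat0 T (pairH (qs he hin) s))
        (R249.Wk352.dpair T (pairH (qs he hin) s)).A d0H) ∧
      Nonempty (KerD (R249.Wk352.dat0 T (R249.Wk352.swapP (pairH (qs he hin) s)))
        (R249.Wk352.dpair T (pairH (qs he hin) s)).B d1H) ∧ HodgeOut w d0H d1H d0R d1R := by
  obtain ⟨d0H, d1H, k0H, k1H⟩ := exists_H (qs he hin) s T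
  have hC := comp_w he hin
  obtain ⟨d0R, d1R, k0R, k1R, -⟩ := index_R (wdd T (pairR s (isVol_volF hC)))
    (R249.Wk352.dpair T (pairR s (isVol_volF hC)))
  exact ⟨d0H, d1H, d0R, d1R, k0H, k1H,
    Hodge_194.hodge M w hw e he hin _ T s d0H d1H d0R d1R k0H k1H ⟨k0R⟩ ⟨k1R⟩⟩

include hw in
/-- **K3**: the kernels of the Hodge pair. -/
theorem k3_H (hK : K3Type (w 0)) {κ : Type} [Fintype κ] (T : ToF 4 M) (s : PF 4 M κ) :
    Nonempty (KerD (R249.Wk352.dat0 T (pairH (qs he hin) s))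
        (R249.Wk352.dpair T (pairH (qs he hin) s)).A 4) ∧
      Nonempty (KerD (R249.Wk352.dat0 T (R249.Wk352.swapP (pairH (qs he hin) s)))
        (R249.Wk352.dpair T (pairH (qs he hin) s)).B 0) := by
  obtain ⟨d0H, d1H, d0R, d1R, h0, h1, hh⟩ := hodge_out hw he hin T s
  obtain ⟨e0, e1⟩ := k3_out hw hK hh
  subst e0 e1
  exact ⟨h0, h1⟩

theorem hF_qs (x : M) (u v : TangentSpace (𝓡 4) x) :
    at2 ((w 0).1.1 : F2 E4 M) x u v = inner ℝ ((qs he hin).op 0 x u) v := by
  have h1 : ((w 0).1.1 : F2 E4 M) = e 0 := he.e_zero.symm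
  rw [h1]
  exact e_eq_inner he hin 0 x u v

variable {κ κ' κ0 κ1 : Type} [Fintype κ] [Fintype κ'] [Fintype κ0] [Fintype κ1]
  {P : CPair 4 M κ' κ0 κ1} {a : Z2 M} {d0 d1 e0 e1 : ℕ}

include hw in
/-- **K3**: the kernels of a twist. -/
theorem k3_tw (hK : K3Type (w 0)) (T : ToF 4 M) (s : PF 4 M κ)
    (L : LocTw (qs he hin) P ((-(2 * Real.pi)) • (a.1.1 : F2 E4 M))) :
    ∃ d0 d1 : ℕ, Nonempty (KerD (R249.Wk352.dat0 T P) (R249.Wk352.dpair T P).A d0) ∧
      Nonempty (KerD (R249.Wk352.dat0 T (R249.Wk352.swapP P)) (R249.Wk352.dpair T P).B d1) ∧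
      (d0 : ℝ) - d1 = 4 + pI (w 0) a a := by
  obtain ⟨d0, d1, K0, K1⟩ := exists_tw T L
  obtain ⟨H0, H1⟩ := k3_H hw he hin hK T s
  refine ⟨d0, d1, K0, K1, ?_⟩
  have h := num_chern s T K0 K1 H0 H1 (F := w 0) (a := a) (comp_w he hin).cpt
    (hF_qs he hin) L
  rw [h]
  push_cast
  ring

include hw in
/-- **K3, root**: `d0 = d1 + 2`. -/
theorem k3_root (hK : K3Type (w 0)) (T : ToF 4 M) (s : PF 4 M κ)
    (L : LocTw (qs he hin) P ((-(2 * Real.pi)) • (a.1.1 : F2 E4 M)))
    (ha : pI (w 0) a a = -2) :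
    ∃ d0 d1 : ℕ, Nonempty (KerD (R249.Wk352.dat0 T P) (R249.Wk352.dpair T P).A d0) ∧
      Nonempty (KerD (R249.Wk352.dat0 T (R249.Wk352.swapP P)) (R249.Wk352.dpair T P).B d1) ∧
      d0 = d1 + 2 := by
  obtain ⟨d0, d1, K0, K1, h⟩ := k3_tw hw he hin hK T s L
  refine ⟨d0, d1, K0, K1, ?_⟩
  rw [ha] at h
  have h1 : (d0 : ℝ) = ((d1 + 2 : ℕ) : ℝ) := by push_cast; linarith
  exact_mod_cast h1

include hw in
/-- **K3, flat**: `d0 = d1 + 4`. -/
theorem k3_flat (hK : K3Type (w 0)) (T : ToF 4 M) (s : PF 4 M κ)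
    (L : LocTw (qs he hin) P ((-(2 * Real.pi)) • (a.1.1 : F2 E4 M)))
    (ha : pI (w 0) a a = 0) :
    ∃ d0 d1 : ℕ, Nonempty (KerD (R249.Wk352.dat0 T P) (R249.Wk352.dpair T P).A d0) ∧
      Nonempty (KerD (R249.Wk352.dat0 T (R249.Wk352.swapP P)) (R249.Wk352.dpair T P).B d1) ∧
      d0 = d1 + 4 := by
  obtain ⟨d0, d1, K0, K1, h⟩ := k3_tw hw he hin hK T s L
  refine ⟨d0, d1, K0, K1, ?_⟩
  rw [ha] at h
  have h1 : (d0 : ℝ) = ((d1 + 4 : ℕ) : ℝ) := by push_cast; linarith
  exact_mod_cast h1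

end num

end Crest.Agent.R235.K3Num_692
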