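import Crest.Agent.R235.IndQS_167
import Crest.Agent.R249.DenP_714

/-!
Row 235, package IND (helper167), part 4 (IND-4 PAIR): the quaternionic Clifford pairs.

For a quaternionic structure `q : QS M`, a Parseval frame `s : PF 4 M κ` and three smooth vector
fields `th b` (an `so(3)`-connection `θ_b = ⟨th b, ·⟩`):

* `bunQ0 q s hth` : the trivial bundle `ℝ⁴` (functions `u 0 .. u 3`), with connection form
  `W x y = (1/2) ∑_b (K_b x y • etaV b + J_b x y • th b)`;
* `bunQ1 q s hth` : the tangent bundle (as `tanB s`) with the connection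
  `∇ + (1/2) ∑_c (th c - etaV c) ⊗ I_c`;
* symbol `ccQ q s x 0 = s_x`, `ccQ q s x (b+1) = - I_b s_x`:
  `A u = grad u_0 + ∑_b I_b ∇u_b` (as a vector field);
* `clocQ` : local frames `1`, `tanJ`, connection matrices `bA0 F θ'`, `bA1 F θ'`, symbol `cK`;
* `pairQ q s hth : CPair 4 M κ (Fin 4) κ`.

`th = etaV` : HODGE (`bunQ1_W_eta : W = tanW`);  `th = 0` : quaternionic pair.
-/

set_option autoImplicit false
set_option maxSynthPendingDepth 3
set_option linter.unusedSectionVars false
set_option linter.unusedSimpArgs false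
set_option maxHeartbeats 1000000

open Filter Topology Set Bundle Manifold
open Matrix hiding J
open scoped ContDiff Kronecker
open Crest.GeometryTopology.CoordMetric Crest.GeometryTopology.ChartCurvature
  Crest.GeometryTopology.PointedLimit
open Crest.Agent.R202.Tens Crest.Agent.R247.Bo84 Crest.Agent.R249.FrmB_285 Crest.Agent.R249.Vf281
  Crest.Agent.R249.Tz1_805 Crest.Agent.R249.Tz2_805
open Crest.Agent.R249.Fr129
open Crest.Agent.R249.C2_198 hiding cp half_two
open Crest.Agent.R249.Sg129 hiding fg fg_add fg_sub fg_mul fg_const fg_sum ev_fg contMDiff_inner VSm_mCov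
open Crest.Agent.R249.Fr129.Frame (half two_half)
open Crest.Agent.R249.Tz805 Crest.Agent.R249.Dic805
open Crest.Agent.R235.IndAlg_167

noncomputable section

namespace Crest.Agent.R235.Ind167

variable {M : Type*} [TopologicalSpace M] [ChartedSpace (EuclideanSpace ℝ (Fin 4)) M]
  [IsManifold 𝓘(ℝ, EuclideanSpace ℝ (Fin 4)) ∞ M]
  [RiemannianBundle (fun x : M => TangentSpace 𝓘(ℝ, EuclideanSpace ℝ (Fin 4)) x)]
  [IsContMDiffRiemannianBundle 𝓘(ℝ, EuclideanSpace ℝ (Fin 4)) ∞ (EuclideanSpace ℝ (Fin 4))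
      (fun x : M => TangentSpace 𝓘(ℝ, EuclideanSpace ℝ (Fin 4)) x)]

local notation "𝔼" => EuclideanSpace ℝ (Fin 4)
local notation "𝓘E" => 𝓘(ℝ, EuclideanSpace ℝ (Fin 4))

variable (q : QS M) {κ : Type} [Fintype κ] (s : PF 4 M κ)
  {th : Fin 3 → (z : M) → TangentSpace 𝓘(ℝ, EuclideanSpace ℝ (Fin 4)) z}
  (hth : ∀ b z, VSm 4 ∞ (th b) z)

/-- `⟨s_A, I_c s_B⟩` -/
def IP (c : Fin 3) (A B : κ) (z : M) : ℝ := inner ℝ (s.s A z) (q.ap c (s.s B) z)

lemma sm_IP (c : Fin 3) (A B : κ) : ContMDiff 𝓘E 𝓘(ℝ, ℝ) ∞ (IP q s c A B) :=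
  contMDiff_inner (s.sm A) (fun z => q.VSm_ap c (s.sm B z))

lemma IP_skew (c : Fin 3) (A B : κ) (z : M) : IP q s c A B z = - IP q s c B A z := by
  rw [IP, IP, real_inner_comm]
  exact q.op_skew c z _ _

/-- `∑_C ⟨s_A, I_c s_C⟩ p_CB = ⟨s_A, I_c s_B⟩` -/
lemma IP_mul_P (c : Fin 3) (A B : κ) (z : M) :
    ∑ C, IP q s c A C z * tanP s C B z = IP q s c A B z := by
  have h := congrArg (fun v => (inner ℝ (s.s A z) (q.op c z v) : ℝ)) (sum_tanP_smul s B z)
  simp only [q.op_sum, q.op_smul, inner_sum, inner_smul_right] at h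
  rw [IP, QS.ap, ← h]
  refine Finset.sum_congr rfl fun C _ => ?_
  rw [tanP_symm s C B, mul_comm]
  rfl

lemma P_mul_IP (c : Fin 3) (A B : κ) (z : M) :
    ∑ C, tanP s A C z * IP q s c C B z = IP q s c A B z := by
  have h := IP_mul_P q s c B A z
  rw [IP_skew q s c A B, ← h, ← Finset.sum_neg_distrib]
  refine Finset.sum_congr rfl fun C _ => ?_
  rw [IP_skew q s c C B, tanP_symm s C A]
  ring

variable (th) in
/-- connection form of `ℝ⁴` -/
def bW0 (x y : Fin 4) (z : M) : TangentSpace 𝓘(ℝ, EuclideanSpace ℝ (Fin 4)) z :=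
  (1 / 2 : ℝ) • ∑ b, (K ℝ b x y • etaV q s b z + J ℝ b x y • th b z)

variable (th) in
/-- connection form of the tangent bundle -/
def bW1 (A B : κ) (z : M) : TangentSpace 𝓘(ℝ, EuclideanSpace ℝ (Fin 4)) z :=
  tanW s A B z + (1 / 2 : ℝ) • ∑ c, IP q s c A B z • (th c z - etaV q s c z)

include hth in
lemma sm_W0t (x y : Fin 4) (b : Fin 3) (z : M) :
    VSm 4 ∞ (fun z => K ℝ b x y • etaV q s b z + J ℝ b x y • th b z) z :=
  (VSm.smul le_rfl contMDiffAt_const (sm_etaV q s b z)).add
    (VSm.smul le_rfl contMDiffAt_const (hth b z))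

include hth in
lemma sm_W0 (x y : Fin 4) (z : M) : VSm 4 ∞ (bW0 q s th x y) z :=
  VSm.smul le_rfl contMDiffAt_const (VSm.sum _ fun b _ => sm_W0t q s hth x y b z)

include hth in
lemma sm_te (c : Fin 3) (z : M) : VSm 4 ∞ (fun z => th c z - etaV q s c z) z := by
  have h3 := (hth c z).add (sm_etaV q s c z).neg
  have e : (fun z => th c z - etaV q s c z) = fun z => th c z + -etaV q s c z :=
    funext fun z => sub_eq_add_neg _ _
  rw [e]
  exact h3

include hth in
lemma sm_W1t (A B : κ) (c : Fin 3) (z : M) :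
    VSm 4 ∞ (fun z => IP q s c A B z • (th c z - etaV q s c z)) z :=
  VSm.smul le_rfl (sm_IP q s c A B).contMDiffAt (sm_te q s hth c z)

include hth in
lemma sm_W1 (A B : κ) (z : M) : VSm 4 ∞ (bW1 q s th A B) z :=
  ((tanB s).smW A B z).add (VSm.smul le_rfl contMDiffAt_const
    (VSm.sum _ fun c _ => sm_W1t q s hth A B c z))

/-- the trivial bundle `ℝ⁴` -/
def bunQ0 : Bun 4 M (Fin 4) where
  W := bW0 q s th
  p a b _ := if a = b then 1 else 0
  smW := sm_W0 q s hth
  skew a b z := by
    rw [bW0, bW0, ← smul_neg, ← Finset.sum_neg_distrib]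
    congr 1
    refine Finset.sum_congr rfl fun c _ => ?_
    have h1 : K ℝ c a b = - K ℝ c b a := by
      fin_cases c <;> fin_cases a <;> fin_cases b <;> simp [K]
    have h2 : J ℝ c a b = - J ℝ c b a := by
      fin_cases c <;> fin_cases a <;> fin_cases b <;> simp [J]
    rw [h1, h2]; module
  smp _ _ := contMDiff_const
  symmp a b z := by simp only [eq_comm]
  idem a b z := by simp
  par a b z := by
    have h0 : mgrad 4 (fun _ : M => (if a = b then (1:ℝ) else 0)) z = 0 := mgrad_const _
    rw [h0, zero_add]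
    simp

/-- the tangent bundle -/
def bunQ1 : Bun 4 M κ where
  W := bW1 q s th
  p := tanP s
  smW := sm_W1 q s hth
  skew A B z := by
    rw [bW1, bW1, neg_add, ← smul_neg, ← Finset.sum_neg_distrib]
    congr 1
    · exact (tanB s).skew A B z
    · congr 1
      refine Finset.sum_congr rfl fun c _ => ?_
      rw [IP_skew q s c A B, neg_smul]
  smp := smP s
  symmp := tanP_symm s
  idem := tanP_idem s
  par A B z := by
    have h := (tanB s).par A B z
    have e : ∀ C, tanP s C B z • bW1 q s th A C z - tanP s A C z • bW1 q s th C B z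
        = (tanP s C B z • tanW s A C z - tanP s A C z • tanW s C B z)
          + (1 / 2 : ℝ) • ∑ c, (IP q s c A C z * tanP s C B z - tanP s A C z * IP q s c C B z)
            • (th c z - etaV q s c z) := by
      intro C
      rw [bW1, bW1]
      simp only [sub_smul, Finset.sum_sub_distrib, mul_smul]
      rw [smul_add, smul_add, smul_comm (tanP s C B z) (1/2:ℝ), smul_comm (tanP s A C z) (1/2:ℝ),
        Finset.smul_sum (r := tanP s C B z), Finset.smul_sum (r := tanP s A C z)]
      have e1 : ∀ c, tanP s C B z • IP q s c A C z • (th c z - etaV q s c z)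
          = IP q s c A C z • tanP s C B z • (th c z - etaV q s c z) := fun c => smul_comm _ _ _
      simp only [e1]
      module
    rw [Finset.sum_congr rfl fun C _ => e C, Finset.sum_add_distrib, ← add_assoc]
    have h1 : ∑ C, (1 / 2 : ℝ) • ∑ c, (IP q s c A C z * tanP s C B z
        - tanP s A C z * IP q s c C B z) • (th c z - etaV q s c z) = 0 := by
      rw [← Finset.smul_sum, Finset.sum_comm]
      have h2 : ∀ c, ∑ C, (IP q s c A C z * tanP s C B z
        - tanP s A C z * IP q s c C B z) • (th c z - etaV q s c z) = 0 := by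
        intro c
        rw [← Finset.sum_smul, Finset.sum_sub_distrib, IP_mul_P, P_mul_IP, sub_self, zero_smul]
      rw [Finset.sum_eq_zero fun c _ => h2 c, smul_zero]
    rw [h1, add_zero]
    exact h

/-- for `th = etaV` the second bundle is the tangent bundle with the Levi-Civita connection -/
lemma bunQ1_W_eta (hth : ∀ b z, VSm 4 ∞ (etaV q s b) z) (A B : κ) (z : M) :
    (bunQ1 q s hth).W A B z = tanW s A B z := by
  change bW1 q s (etaV q s) A B z = _
  rw [bW1]
  simp

/-- the symbol -/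
def ccQ (x : κ) (y : Fin 4) (z : M) : TangentSpace 𝓘(ℝ, EuclideanSpace ℝ (Fin 4)) z :=
  Fin.cases (s.s x z) (fun b => - q.ap b (s.s x) z) y

lemma ccQ_zero (x : κ) : ccQ q s x 0 = s.s x := rfl
lemma ccQ_succ (x : κ) (b : Fin 3) : ccQ q s x b.succ = fun z => - q.ap b (s.s x) z := rfl

lemma smc_ccQ (x : κ) (y : Fin 4) (z : M) : VSm 4 ∞ (ccQ q s x y) z := by
  refine Fin.cases ?_ (fun b => ?_) y
  · exact s.sm x z
  · exact (q.VSm_ap b (s.sm x z)).neg

/-! ### local frames -/

section frames

variable {q} {z : M} {e : Fin 4 → EuclideanSpace ℝ (Fin 4) → EuclideanSpace ℝ (Fin 4)}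
  (h : ONF (chartMetric 4 M z) (chartAt (EuclideanSpace ℝ (Fin 4)) z).target
      (chartCentre 4 M z) e) (ha : Adp q z e)

variable (th) in
/-- the components of the connection `θ` in the frame `e` -/
def thF (z : M) (e : Fin 4 → EuclideanSpace ℝ (Fin 4) → EuclideanSpace ℝ (Fin 4)) (k : Fin 4)
    (b : Fin 3) : SG (chartCentre 4 M z) := vg z e (th b) k

lemma J_cast (b : Fin 3) (k l : Fin 4) : J (SG (chartCentre 4 M z)) b k l
    = algebraMap ℝ _ (J ℝ b k l) := by
  fin_cases b <;> fin_cases k <;> fin_cases l <;> simp [J]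

include h ha hth in
lemma vg_W0 (x y : Fin 4) (k : Fin 4) :
    vg z e (bW0 q s th x y) k = bA0 h.frameOf (thF th z e) k x y := by
  have e1 : ∀ b, vg z e (fun z => K ℝ b x y • etaV q s b z) k
      = K (SG (chartCentre 4 M z)) b x y * eta h.frameOf k b := by
    intro b
    have e1 := R249.Dic805.vg_smul h (f := fun _ => K ℝ b x y) contMDiff_const (sm_etaV q s b) k
    rw [R249.Dic805.fg_const, vg_etaV s h ha, ← K_cast] at e1
    exact e1
  have e2 : ∀ b, vg z e (fun z => J ℝ b x y • th b z) k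
      = J (SG (chartCentre 4 M z)) b x y * thF th z e k b := by
    intro b
    have e1 := R249.Dic805.vg_smul h (f := fun _ => J ℝ b x y) contMDiff_const (hth b) k
    rw [R249.Dic805.fg_const, ← J_cast] at e1
    exact e1
  have e3 : ∀ b, vg z e (fun z => K ℝ b x y • etaV q s b z + J ℝ b x y • th b z) k
      = K (SG (chartCentre 4 M z)) b x y * eta h.frameOf k b
        + J (SG (chartCentre 4 M z)) b x y * thF th z e k b := by
    intro b
    have := R249.Dic805.vg_add h
      (X := fun z => K ℝ b x y • etaV q s b z) (Y := fun z => J ℝ b x y • th b z)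
      (fun z => VSm.smul le_rfl contMDiffAt_const (sm_etaV q s b z))
      (fun z => VSm.smul le_rfl contMDiffAt_const (hth b z)) k
    rw [e1, e2] at this
    exact this
  have e4 : vg z e (fun z => ∑ b, (K ℝ b x y • etaV q s b z + J ℝ b x y • th b z)) k
      = ∑ b, (K (SG (chartCentre 4 M z)) b x y * eta h.frameOf k b
        + J (SG (chartCentre 4 M z)) b x y * thF th z e k b) := by
    rw [R249.Dic805.vg_sum h Finset.univ (fun b z => sm_W0t q s hth x y b z) k]
    exact Finset.sum_congr rfl fun b _ => e3 b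
  have h1 : vg z e (bW0 q s th x y) k = algebraMap ℝ (SG (chartCentre 4 M z)) (1 / 2)
      * ∑ b, (K (SG (chartCentre 4 M z)) b x y * eta h.frameOf k b
        + J (SG (chartCentre 4 M z)) b x y * thF th z e k b) := by
    have := R249.Dic805.vg_smul h (f := fun _ => (1 / 2 : ℝ))
      (X := fun z => ∑ b, (K ℝ b x y • etaV q s b z + J ℝ b x y • th b z)) contMDiff_const
      (fun z => VSm.sum Finset.univ fun b _ => sm_W0t q s hth x y b z) k
    rw [R249.Dic805.fg_const, e4] at this
    exact this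
  rw [h1, bA0_eq, Kp_eq, JJ_eq, ← Finset.sum_add_distrib, Matrix.smul_apply, Matrix.sum_apply,
    smul_eq_mul]
  change _ = half * _
  congr 1
  refine Finset.sum_congr rfl fun b _ => ?_
  rw [Matrix.add_apply, Matrix.smul_apply, Matrix.smul_apply, smul_eq_mul, smul_eq_mul]
  ring

include h ha in
lemma lf_bunQ0 : LF (bunQ0 q s hth) h (bA0 h.frameOf (thF th z e)) (1 : Matrix (Fin 4) (Fin 4) _)
    where
  jtj := by simp
  jjt := by
    rw [Matrix.transpose_one, Matrix.mul_one]
    ext a b
    rw [Matrix.of_apply]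
    change _ = fg (n := 4) z (fun _ => if a = b then (1:ℝ) else 0)
    rw [R249.Dic805.fg_const, Matrix.one_apply]
    split_ifs <;> simp
  dj k := by
    rw [dM_one, zero_add, Matrix.mul_one, Matrix.one_mul]
    ext x y
    exact vg_W0 s hth h ha x y k

include h ha in
lemma fg_IP (c : Fin 3) (A B : κ) :
    fg (n := 4) z (IP q s c A B)
      = (tanJ s z e * K (SG (chartCentre 4 M z)) c * (tanJ s z e)ᵀ) A B := by
  have h1 := R249.Dic805.fg_inner h (s.sm A) (fun z => q.VSm_ap c (s.sm B z))
  refine h1.trans ?_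
  rw [Matrix.mul_assoc, Matrix.mul_apply]
  refine Finset.sum_congr rfl fun k _ => ?_
  rw [vg_ap h ha c (s.sm B), Matrix.mul_apply]
  rfl

include h ha hth in
lemma vg_W1 (k : Fin 4) : (Matrix.of fun A B => vg z e (bW1 q s th A B) k)
    = (Matrix.of fun A B => vg z e (tanW s A B) k)
      + tanJ s z e * ((half (S := SG (chartCentre 4 M z))) •
        Kp (fun b => thF th z e k b - eta h.frameOf k b)) * (tanJ s z e)ᵀ := by
  ext A B
  rw [Matrix.of_apply, Matrix.add_apply, Matrix.of_apply]
  have hs : ∀ c z, VSm 4 ∞ (fun z => IP q s c A B z • (th c z - etaV q s c z)) z := fun c z =>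
    sm_W1t q s hth A B c z
  have h1 : vg z e (bW1 q s th A B) k = vg z e (tanW s A B) k
      + algebraMap ℝ (SG (chartCentre 4 M z)) (1 / 2)
      * ∑ c, (tanJ s z e * K (SG (chartCentre 4 M z)) c * (tanJ s z e)ᵀ) A B
        * (thF th z e k c - eta h.frameOf k c) := by
    refine (R249.Dic805.vg_add h (fun z => (tanB s).smW A B z) (fun z =>
      VSm.smul le_rfl contMDiffAt_const (VSm.sum Finset.univ fun c _ => hs c z)) k).trans ?_
    congr 1
    refine (R249.Dic805.vg_smul h (f := fun _ => (1 / 2 : ℝ)) contMDiff_const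
      (fun z => VSm.sum Finset.univ fun c _ => hs c z) k).trans ?_
    rw [R249.Dic805.fg_const]
    congr 1
    refine (R249.Dic805.vg_sum h Finset.univ hs k).trans (Finset.sum_congr rfl fun c _ => ?_)
    refine (R249.Dic805.vg_smul h (sm_IP q s c A B) (sm_te q s hth c) k).trans ?_
    rw [fg_IP s h ha]
    congr 1
    refine (R249.Dic805.vg_sub h (hth c) (sm_etaV q s c) k).trans ?_
    rw [vg_etaV s h ha]
    rfl
  rw [h1]
  congr 1
  rw [Kp_eq, Matrix.mul_smul, Matrix.smul_mul, Matrix.smul_apply, smul_eq_mul]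
  change half * _ = _
  congr 1
  rw [Matrix.mul_sum, Matrix.sum_mul, Matrix.sum_apply]
  refine Finset.sum_congr rfl fun c _ => ?_
  rw [Matrix.mul_smul, Matrix.smul_mul, Matrix.smul_apply, smul_eq_mul, mul_comm]

include h ha in
lemma lf_bunQ1 : LF (bunQ1 q s hth) h (bA1 h.frameOf (thF th z e)) (tanJ s z e) where
  jtj := tanJ_jtj s h
  jjt := tanJ_jjt s h
  dj k := by
    have h1 := (lf_tanB s h).dj k
    change dM (h.frameOf.D k) (tanJ s z e)
      + (Matrix.of fun A B => vg z e (bW1 q s th A B) k) * tanJ s z e = _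
    change dM (h.frameOf.D k) (tanJ s z e)
      + (Matrix.of fun A B => vg z e (tanW s A B) k) * tanJ s z e = _ at h1
    rw [vg_W1 s hth h ha, Matrix.add_mul, ← add_assoc, h1, Matrix.mul_assoc, tanJ_jtj s h,
      Matrix.mul_one, ← Matrix.mul_add, bA1]

include h ha in
/-- **the symbol in local frames** -/
theorem clocQ : CLoc (bunQ0 q s hth) (bunQ1 q s hth) (ccQ q s) h (bA0 h.frameOf (thF th z e))
    (bA1 h.frameOf (thF th z e)) (cK (SG (chartCentre 4 M z)))
    (1 : Matrix (Fin 4) (Fin 4) _) (tanJ s z e) where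
  l0 := lf_bunQ0 s hth h ha
  l1 := lf_bunQ1 s hth h ha
  par := par_b h.frameOf _
  cl0 := clif0 _
  cl1 := clif1 _
  sym := by
    intro x y k
    rw [Matrix.transpose_one, Matrix.mul_one, Matrix.mul_apply]
    refine Fin.cases ?_ (fun b => ?_) y
    · rw [ccQ_zero]
      have : ∀ l, cK (SG (chartCentre 4 M z)) k l 0 = if l = k then 1 else 0 := by
        intro l
        change KK (SG (chartCentre 4 M z)) 0 l k = _
        simp [KK, Matrix.one_apply]
      simp only [this, mul_ite, mul_one, mul_zero, Finset.sum_ite_eq', Finset.mem_univ, if_true]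
      rfl
    · rw [ccQ_succ]
      have h1 := h.vg_neg (fun z => q.VSm_ap b (s.sm x z)) k
      refine h1.trans ?_
      have h2 : h.vg (q.ap b (s.s x)) k = vg z e (q.ap b (s.s x)) k := rfl
      rw [h2, vg_ap h ha b (s.sm x), ← Finset.sum_neg_distrib]
      refine Finset.sum_congr rfl fun l _ => ?_
      have h3 : cK (SG (chartCentre 4 M z)) k l b.succ = K (SG (chartCentre 4 M z)) b l k := by
        change KK (SG (chartCentre 4 M z)) b.succ l k = _
        fin_cases b <;> rfl
      have h4 : K (SG (chartCentre 4 M z)) b l k = - K (SG (chartCentre 4 M z)) b k l := by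
        fin_cases b <;> fin_cases k <;> fin_cases l <;> simp [K]
      rw [h3, h4]
      change -(K (SG (chartCentre 4 M z)) b k l * tanJ s z e x l) = _
      ring

end frames

/-- **the quaternionic Clifford pair** with `so(3)`-connection `th` -/
def pairQ : CPair 4 M κ (Fin 4) κ where
  s := s
  D0 := bunQ0 q s hth
  D1 := bunQ1 q s hth
  cc := ccQ q s
  smc := smc_ccQ q s
  loc z := by
    obtain ⟨e, h, ha⟩ := exists_adp q z
    exact ⟨e, h, _, _, _, _, _, _, _, _, _, _, _, clocQ s hth h ha⟩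
  sym0 y y' z := by
    obtain ⟨e, h, ha⟩ := exists_adp q z
    exact R249.HK9_714.potQ_symm0 s (smc_ccQ q s) (clocQ s hth h ha) y y'
  sym1 x x' z := by
    obtain ⟨e, h, ha⟩ := exists_adp q z
    exact R249.HK9_714.potQ_symm1 s (smc_ccQ q s) (clocQ s hth h ha) x x'

/-- the HODGE pair (`th = etaV`): `ℝ ⊕ Λ⁺ → T` -/
def pairH : CPair 4 M κ (Fin 4) κ := pairQ q s (sm_etaV q s)

end Crest.Agent.R235.Ind167
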