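import Crest.Agent.R235.Mdl2_755
import Crest.Agent.R235.IndPair_167

/-!
Row 235 (S0364), PACKAGE SW, MODEL-2 (helper755), part 2: ALGEBRA OF THE QUATERNIONIC CLIFFORD PAIRS
(167's `pairQ` and 453's twists of it by a line bundle).

`Twf q P J Kt` : at every point there are an adapted orthonormal basis `b` and real frames `j0`, `j1`
of the two bundles with symbol `cK`, `J = j0 J_0 j0ᵀ`, `Kt c = j0 K_c j0ᵀ`.  With `ρ_k := - J Kt_k`:

* `rho_symm`, `p_rho`, `rho_p`, `J_rho`, `rho_cl`, `rho_mul`, `J_rho_Kt`, `trace_p0`, `fierzT`;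
* `clf` : `c(X)ᵀ c(Y) = ⟨X,Y⟩ p - ∑_k ⟨I_k X, Y⟩ J ρ_k`;
* `clif1` : the Clifford relation on `D1`;
* `twf_of` : from germs; `twf_pairQ` : the untwisted pair.
-/

set_option autoImplicit false
set_option maxSynthPendingDepth 3
set_option linter.unusedSectionVars false
set_option linter.unusedSimpArgs false
set_option maxHeartbeats 1000000

open Filter Topology Set Bundle Manifold
open Matrix hiding J
open scoped ContDiff
open Crest.GeometryTopology.CoordMetric Crest.GeometryTopology.ChartCurvature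
  Crest.GeometryTopology.PointedLimit
open Crest.Agent.R202.Tens Crest.Agent.R249.FrmB_285 Crest.Agent.R249.Vf281
  Crest.Agent.R249.Tz1_805 Crest.Agent.R249.Tz2_805
open Crest.Agent.R249.Fr129
open Crest.Agent.R249.C2_198 hiding cp half_two
open Crest.Agent.R249.Sg129 (SG germ ev ONF)
open Crest.Agent.R249.Tz805
open Crest.Agent.R235.IndAlg_167 Crest.Agent.R235.Ind167 Crest.Agent.R235.Mdl2_755

noncomputable section

namespace Crest.Agent.R235.SymQ_755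

/-- left multiplication by `i` -/
local notation "Jm" => Crest.Agent.R249.C2_198.J ℝ 0
/-- the three matrices `K_c` -/
local notation "Km" => Crest.Agent.R249.C2_198.K ℝ

/-! ### constant matrices -/

lemma K_t (c : Fin 3) : (K ℝ c)ᵀ = - K ℝ c := by
  ext i j
  fin_cases c <;> fin_cases i <;> fin_cases j <;> simp [K]

lemma J0_t : (J ℝ 0)ᵀ = - J ℝ 0 := by
  ext i j
  fin_cases i <;> fin_cases j <;> simp [J]

lemma J0_sq : J ℝ 0 * J ℝ 0 = -1 := by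
  ext i j
  rw [Matrix.mul_apply, Fin.sum_univ_four]
  fin_cases i <;> fin_cases j <;> simp [J, Matrix.one_apply]

lemma J0_K (c : Fin 3) : J ℝ 0 * K ℝ c = K ℝ c * J ℝ 0 := by
  ext i j
  rw [Matrix.mul_apply, Matrix.mul_apply, Fin.sum_univ_four, Fin.sum_univ_four]
  fin_cases c <;> fin_cases i <;> fin_cases j <;> simp [J, K]

lemma K_cl (c d : Fin 3) : K ℝ c * K ℝ d + K ℝ d * K ℝ c
    = if c = d then (-2 : ℝ) • (1 : Matrix (Fin 4) (Fin 4) ℝ) else 0 := by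
  ext i j
  rw [Matrix.add_apply, Matrix.mul_apply, Matrix.mul_apply, Fin.sum_univ_four, Fin.sum_univ_four]
  fin_cases c <;> fin_cases d <;> fin_cases i <;> fin_cases j <;>
    simp [K, Matrix.one_apply] <;> norm_num

lemma K_mul01 : K ℝ 0 * K ℝ 1 = K ℝ 2 := by
  ext i j
  rw [Matrix.mul_apply, Fin.sum_univ_four]
  fin_cases i <;> fin_cases j <;> simp [K]

lemma K_mul12 : K ℝ 1 * K ℝ 2 = K ℝ 0 := by
  ext i j
  rw [Matrix.mul_apply, Fin.sum_univ_four]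
  fin_cases i <;> fin_cases j <;> simp [K]

lemma K_mul20 : K ℝ 2 * K ℝ 0 = K ℝ 1 := by
  ext i j
  rw [Matrix.mul_apply, Fin.sum_univ_four]
  fin_cases i <;> fin_cases j <;> simp [K]

lemma ctc' (i j : Fin 4) : (cK ℝ i)ᵀ * cK ℝ j
    = (if i = j then (1 : ℝ) else 0) • (1 : Matrix (Fin 4) (Fin 4) ℝ)
      + ∑ c, K ℝ c i j • K ℝ c := by
  rw [ctc i j, Kp_eq]
  congr 1
  split_ifs <;> simp

lemma JK_t (c : Fin 3) : (-(Jm * Km c))ᵀ = -(Jm * Km c) := by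
  rw [Matrix.transpose_neg, Matrix.transpose_mul, K_t, J0_t, neg_mul_neg, J0_K]

lemma J_JK (c : Fin 3) : Jm * -(Jm * Km c) = Km c := by
  rw [mul_neg, ← mul_assoc, J0_sq, neg_mul, one_mul, neg_neg]

lemma JK_J (c : Fin 3) : -(Jm * Km c) * Jm = Km c := by
  rw [neg_mul, mul_assoc, ← J0_K, ← mul_assoc, J0_sq, neg_mul, one_mul, neg_neg]

lemma JK_JK (k l : Fin 3) : -(Jm * Km k) * -(Jm * Km l) = -(Km k * Km l) := by
  rw [neg_mul_neg, J0_K k, mul_assoc, ← mul_assoc Jm, J0_sq, neg_mul, one_mul, mul_neg]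

/-! ### the structure -/

variable {M : Type*} [TopologicalSpace M] [ChartedSpace (EuclideanSpace ℝ (Fin 4)) M]
  [IsManifold 𝓘(ℝ, EuclideanSpace ℝ (Fin 4)) ∞ M]
  [RiemannianBundle (fun x : M => TangentSpace 𝓘(ℝ, EuclideanSpace ℝ (Fin 4)) x)]
  [IsContMDiffRiemannianBundle 𝓘(ℝ, EuclideanSpace ℝ (Fin 4)) ∞ (EuclideanSpace ℝ (Fin 4))
      (fun x : M => TangentSpace 𝓘(ℝ, EuclideanSpace ℝ (Fin 4)) x)]

local notation "𝔼" => EuclideanSpace ℝ (Fin 4)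
local notation "𝓘E" => 𝓘(ℝ, EuclideanSpace ℝ (Fin 4))

variable {κ κ0 κ1 : Type} [Fintype κ] [Fintype κ0] [Fintype κ1]

/-- frames at a point -/
structure Pt (q : QS M) (P : CPair 4 M κ κ0 κ1) (Jf : κ0 → κ0 → M → ℝ)
    (Kt : Fin 3 → κ0 → κ0 → M → ℝ) (z : M) (j0 : Matrix κ0 (Fin 4) ℝ) (j1 : Matrix κ1 (Fin 4) ℝ)
    (b : Fin 4 → TangentSpace 𝓘(ℝ, EuclideanSpace ℝ (Fin 4)) z) : Prop where
  tj0 : j0ᵀ * j0 = 1
  jt0 : j0 * j0ᵀ = pz P.D0 z
  tj1 : j1ᵀ * j1 = 1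
  jt1 : j1 * j1ᵀ = pz P.D1 z
  on : ∀ i j, (inner ℝ (b i) (b j) : ℝ) = if i = j then 1 else 0
  ex : ∀ X : TangentSpace 𝓘(ℝ, EuclideanSpace ℝ (Fin 4)) z,
    ∑ k, (inner ℝ X (b k) : ℝ) • b k = X
  adp : ∀ c i j, (inner ℝ (b i) (q.op c z (b j)) : ℝ) = K ℝ c i j
  cc : ∀ X : TangentSpace 𝓘(ℝ, EuclideanSpace ℝ (Fin 4)) z,
    ccX P.cc z X = j1 * (∑ k, (inner ℝ X (b k) : ℝ) • cK ℝ k) * j0ᵀ
  hJ : (Matrix.of fun y y' => Jf y y' z) = j0 * J ℝ 0 * j0ᵀ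
  hK : ∀ c, (Matrix.of fun y y' => Kt c y y' z) = j0 * K ℝ c * j0ᵀ

/-- **a quaternionic Clifford pair with complex structure** -/
structure Twf (q : QS M) (P : CPair 4 M κ κ0 κ1) (Jf : κ0 → κ0 → M → ℝ)
    (Kt : Fin 3 → κ0 → κ0 → M → ℝ) : Prop where
  smJ : ∀ a b, ContMDiff 𝓘(ℝ, EuclideanSpace ℝ (Fin 4)) 𝓘(ℝ, ℝ) ∞ (Jf a b)
  smK : ∀ c a b, ContMDiff 𝓘(ℝ, EuclideanSpace ℝ (Fin 4)) 𝓘(ℝ, ℝ) ∞ (Kt c a b)
  pt : ∀ z, ∃ j0 j1 b, Pt q P Jf Kt z j0 j1 b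

/-- `ρ_k = - J K_k` -/
def rho (Jf : κ0 → κ0 → M → ℝ) (Kt : Fin 3 → κ0 → κ0 → M → ℝ) (k : Fin 3) (y y' : κ0) (z : M) : ℝ :=
  - ∑ x, Jf y x z * Kt k x y' z

lemma rho_mat (Jf : κ0 → κ0 → M → ℝ) (Kt : Fin 3 → κ0 → κ0 → M → ℝ) (k : Fin 3) (z : M) :
    (Matrix.of fun y y' => rho Jf Kt k y y' z)
      = -((Matrix.of fun y y' => Jf y y' z) * (Matrix.of fun y y' => Kt k y y' z)) := by
  ext y y'
  rw [Matrix.neg_apply, Matrix.mul_apply]
  rfl

namespace Pt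

variable {q : QS M} {P : CPair 4 M κ κ0 κ1} {Jf : κ0 → κ0 → M → ℝ}
  {Kt : Fin 3 → κ0 → κ0 → M → ℝ} {z : M} {j0 : Matrix κ0 (Fin 4) ℝ} {j1 : Matrix κ1 (Fin 4) ℝ}
  {b : Fin 4 → TangentSpace 𝓘(ℝ, EuclideanSpace ℝ (Fin 4)) z} (h : Pt q P Jf Kt z j0 j1 b)
include h

/-- conjugation by `j0` is multiplicative -/
lemma mul0 (A B : Matrix (Fin 4) (Fin 4) ℝ) :
    (j0 * A * j0ᵀ) * (j0 * B * j0ᵀ) = j0 * (A * B) * j0ᵀ := by
  calc (j0 * A * j0ᵀ) * (j0 * B * j0ᵀ) = j0 * (A * ((j0ᵀ * j0) * B)) * j0ᵀ := by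
        simp only [Matrix.mul_assoc]
    _ = _ := by rw [h.tj0, Matrix.one_mul]

lemma t0 (A : Matrix (Fin 4) (Fin 4) ℝ) : (j0 * A * j0ᵀ)ᵀ = j0 * Aᵀ * j0ᵀ := by
  rw [Matrix.transpose_mul, Matrix.transpose_mul, Matrix.transpose_transpose, Matrix.mul_assoc]

lemma p0 : pz P.D0 z = j0 * (1 : Matrix (Fin 4) (Fin 4) ℝ) * j0ᵀ := by rw [Matrix.mul_one, h.jt0]

lemma add0 (A B : Matrix (Fin 4) (Fin 4) ℝ) :
    j0 * A * j0ᵀ + j0 * B * j0ᵀ = j0 * (A + B) * j0ᵀ := by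
  rw [Matrix.mul_add, Matrix.add_mul]

lemma smul0 (r : ℝ) (A : Matrix (Fin 4) (Fin 4) ℝ) :
    r • (j0 * A * j0ᵀ) = j0 * (r • A) * j0ᵀ := by
  rw [Matrix.mul_smul, Matrix.smul_mul]

lemma neg0 (A : Matrix (Fin 4) (Fin 4) ℝ) : -(j0 * A * j0ᵀ) = j0 * (-A) * j0ᵀ := by
  rw [Matrix.mul_neg, Matrix.neg_mul]

lemma rhoM (k : Fin 3) : (Matrix.of fun y y' => rho Jf Kt k y y' z)
    = j0 * (-(Jm * Km k)) * j0ᵀ := by
  rw [rho_mat, h.hJ, h.hK, h.mul0, h.neg0]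

lemma trace0 : (pz P.D0 z).trace = 4 := by
  rw [← h.jt0, Matrix.trace_mul_comm, h.tj0, Matrix.trace_one, Fintype.card_fin]
  norm_num

lemma trace1 : (pz P.D1 z).trace = 4 := by
  rw [← h.jt1, Matrix.trace_mul_comm, h.tj1, Matrix.trace_one, Fintype.card_fin]
  norm_num

lemma JJ : (Matrix.of fun y y' => Jf y y' z) * (Matrix.of fun y y' => Jf y y' z) = - pz P.D0 z := by
  rw [h.hJ, h.mul0, J0_sq, h.p0, h.neg0]

lemma pJ : pz P.D0 z * (Matrix.of fun y y' => Jf y y' z) = Matrix.of fun y y' => Jf y y' z := by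
  rw [h.hJ, h.p0, h.mul0, Matrix.one_mul]

lemma Jp : (Matrix.of fun y y' => Jf y y' z) * pz P.D0 z = Matrix.of fun y y' => Jf y y' z := by
  rw [h.hJ, h.p0, h.mul0, Matrix.mul_one]

lemma Jt : (Matrix.of fun y y' => Jf y y' z)ᵀ = - Matrix.of fun y y' => Jf y y' z := by
  rw [h.hJ, h.t0, J0_t, h.neg0]

lemma rt (k : Fin 3) : (Matrix.of fun y y' => rho Jf Kt k y y' z)ᵀ
    = Matrix.of fun y y' => rho Jf Kt k y y' z := by
  rw [h.rhoM, h.t0, JK_t]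

lemma pr (k : Fin 3) : pz P.D0 z * (Matrix.of fun y y' => rho Jf Kt k y y' z)
    = Matrix.of fun y y' => rho Jf Kt k y y' z := by
  rw [h.rhoM, h.p0, h.mul0, Matrix.one_mul]

lemma rp (k : Fin 3) : (Matrix.of fun y y' => rho Jf Kt k y y' z) * pz P.D0 z
    = Matrix.of fun y y' => rho Jf Kt k y y' z := by
  rw [h.rhoM, h.p0, h.mul0, Matrix.mul_one]

/-- `J ρ_k = K_k` -/
lemma Jr (k : Fin 3) : (Matrix.of fun y y' => Jf y y' z) *
    (Matrix.of fun y y' => rho Jf Kt k y y' z) = Matrix.of fun y y' => Kt k y y' z := by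
  rw [h.rhoM, h.hJ, h.mul0, h.hK, J_JK]

lemma rJ (k : Fin 3) : (Matrix.of fun y y' => rho Jf Kt k y y' z) *
    (Matrix.of fun y y' => Jf y y' z) = Matrix.of fun y y' => Kt k y y' z := by
  rw [h.rhoM, h.hJ, h.mul0, h.hK, JK_J]

lemma rr (k l : Fin 3) : (Matrix.of fun y y' => rho Jf Kt k y y' z) *
      (Matrix.of fun y y' => rho Jf Kt l y y' z)
    + (Matrix.of fun y y' => rho Jf Kt l y y' z) * (Matrix.of fun y y' => rho Jf Kt k y y' z)
    = if k = l then (2:ℝ) • pz P.D0 z else 0 := by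
  rw [h.rhoM, h.rhoM, h.mul0, h.mul0, h.add0, JK_JK, JK_JK, ← neg_add, K_cl]
  by_cases hkl : k = l
  · rw [if_pos hkl, if_pos hkl, h.p0, h.smul0, neg_smul, neg_neg]
  · rw [if_neg hkl, if_neg hkl, neg_zero, Matrix.mul_zero, Matrix.zero_mul]

lemma r01 : (Matrix.of fun y y' => rho Jf Kt 0 y y' z) *
    (Matrix.of fun y y' => rho Jf Kt 1 y y' z) = - Matrix.of fun y y' => Kt 2 y y' z := by
  rw [h.rhoM, h.rhoM, h.mul0, JK_JK, K_mul01, h.hK, h.neg0]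

lemma r12 : (Matrix.of fun y y' => rho Jf Kt 1 y y' z) *
    (Matrix.of fun y y' => rho Jf Kt 2 y y' z) = - Matrix.of fun y y' => Kt 0 y y' z := by
  rw [h.rhoM, h.rhoM, h.mul0, JK_JK, K_mul12, h.hK, h.neg0]

lemma r20 : (Matrix.of fun y y' => rho Jf Kt 2 y y' z) *
    (Matrix.of fun y y' => rho Jf Kt 0 y y' z) = - Matrix.of fun y y' => Kt 1 y y' z := by
  rw [h.rhoM, h.rhoM, h.mul0, JK_JK, K_mul20, h.hK, h.neg0]

/-- `c(X)ᵀ c(Y) = ⟨X,Y⟩ p - ∑_k ⟨I_k X, Y⟩ K_k` -/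
theorem clfM (X Y : TangentSpace 𝓘(ℝ, EuclideanSpace ℝ (Fin 4)) z) :
    (ccX P.cc z X)ᵀ * ccX P.cc z Y = (inner ℝ X Y : ℝ) • pz P.D0 z
      - ∑ k, (inner ℝ (q.op k z X) Y : ℝ) • Matrix.of fun y y' => Kt k y y' z := by
  have e1 : ∀ A B : Matrix (Fin 4) (Fin 4) ℝ,
      (j1 * A * j0ᵀ)ᵀ * (j1 * B * j0ᵀ) = j0 * (Aᵀ * B) * j0ᵀ := by
    intro A B
    rw [Matrix.transpose_mul, Matrix.transpose_mul, Matrix.transpose_transpose]
    calc j0 * (Aᵀ * j1ᵀ) * (j1 * B * j0ᵀ) = j0 * (Aᵀ * ((j1ᵀ * j1) * B)) * j0ᵀ := by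
          simp only [Matrix.mul_assoc]
      _ = j0 * (Aᵀ * B) * j0ᵀ := by rw [h.tj1, Matrix.one_mul]
  have e2 : (∑ k, (inner ℝ X (b k) : ℝ) • cK ℝ k)ᵀ * (∑ k, (inner ℝ Y (b k) : ℝ) • cK ℝ k)
        = ∑ i, ∑ j, ((inner ℝ X (b i) : ℝ) * (inner ℝ Y (b j) : ℝ)) • ((cK ℝ i)ᵀ * cK ℝ j) := by
    rw [Matrix.transpose_sum, Matrix.sum_mul]
    refine Finset.sum_congr rfl fun i _ => ?_
    rw [Matrix.mul_sum]
    refine Finset.sum_congr rfl fun j _ => ?_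
    rw [Matrix.transpose_smul, Matrix.smul_mul, Matrix.mul_smul, smul_smul]
  -- inner products in the basis
  have hXY : (inner ℝ X Y : ℝ) = ∑ i, (inner ℝ X (b i) : ℝ) * (inner ℝ Y (b i) : ℝ) := by
    conv_lhs => rw [← h.ex Y, inner_sum]
    refine Finset.sum_congr rfl fun i _ => ?_
    rw [real_inner_smul_right, mul_comm]
  have hIY : ∀ c, (inner ℝ (q.op c z X) Y : ℝ)
      = - ∑ i, ∑ j, ((inner ℝ X (b i) : ℝ) * (inner ℝ Y (b j) : ℝ)) * Km c i j := by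
    intro c
    rw [q.op_skew]
    congr 1
    conv_lhs => rw [← h.ex Y, ← h.ex X]
    rw [q.op_sum, sum_inner]
    refine Finset.sum_congr rfl fun i _ => ?_
    rw [inner_sum]
    refine Finset.sum_congr rfl fun j _ => ?_
    rw [q.op_smul, real_inner_smul_left, real_inner_smul_right, h.adp]
    ring
  have e3 : ∑ i, ∑ j, ((inner ℝ X (b i) : ℝ) * (inner ℝ Y (b j) : ℝ)) • ((cK ℝ i)ᵀ * cK ℝ j)
      = (inner ℝ X Y : ℝ) • (1 : Matrix (Fin 4) (Fin 4) ℝ)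
        + ∑ c, (-(inner ℝ (q.op c z X) Y : ℝ)) • Km c := by
    simp only [ctc', smul_add, Finset.sum_add_distrib]
    congr 1
    · rw [hXY, Finset.sum_smul]
      refine Finset.sum_congr rfl fun i _ => ?_
      rw [Finset.sum_eq_single i]
      · rw [if_pos rfl, one_smul]
      · intro j _ hj
        rw [if_neg (Ne.symm hj), zero_smul, smul_zero]
      · intro hi
        exact absurd (Finset.mem_univ i) hi
    · simp only [hIY, neg_neg, Finset.sum_smul, Finset.smul_sum, smul_smul]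
      calc ∑ i, ∑ j, ∑ c, ((inner ℝ X (b i) : ℝ) * (inner ℝ Y (b j) : ℝ) * Km c i j)
              • Km c
          = ∑ i, ∑ c, ∑ j, ((inner ℝ X (b i) : ℝ) * (inner ℝ Y (b j) : ℝ) * Km c i j)
              • Km c := Finset.sum_congr rfl fun i _ => Finset.sum_comm
        _ = _ := Finset.sum_comm
  rw [h.cc, h.cc, e1, e2, e3, h.p0, h.smul0, ← h.add0, sub_eq_add_neg, ← Finset.sum_neg_distrib,
    Matrix.mul_sum, Matrix.sum_mul]
  congr 1
  refine Finset.sum_congr rfl fun k _ => ?_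
  rw [h.hK, ← neg_smul, h.smul0]

end Pt

/-- the Clifford relation on `D1`, matrix form -/
theorem clif1M (P : CPair 4 M κ κ0 κ1) (z : M)
    (X Y : TangentSpace 𝓘(ℝ, EuclideanSpace ℝ (Fin 4)) z) :
    ccX P.cc z X * (ccX P.cc z Y)ᵀ + ccX P.cc z Y * (ccX P.cc z X)ᵀ
      = (2 * (inner ℝ X Y : ℝ)) • pz P.D1 z := by
  obtain ⟨ι0, ι1, i1, i2, i3, i4, j0, j1, c, b, h1, h2, h3, h4, h5, h6, h7, h8, h9⟩ := exists_pt P z
  have e1 : ∀ A B : Matrix ι1 ι0 ℝ, (j1 * A * j0ᵀ) * (j1 * B * j0ᵀ)ᵀ = j1 * (A * Bᵀ) * j1ᵀ := by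
    intro A B
    rw [Matrix.transpose_mul, Matrix.transpose_mul, Matrix.transpose_transpose]
    calc j1 * A * j0ᵀ * (j0 * (Bᵀ * j1ᵀ)) = j1 * (A * ((j0ᵀ * j0) * Bᵀ)) * j1ᵀ := by
          simp only [Matrix.mul_assoc]
      _ = j1 * (A * Bᵀ) * j1ᵀ := by rw [h1, Matrix.one_mul]
  have e2 : ∀ U V : TangentSpace 𝓘(ℝ, EuclideanSpace ℝ (Fin 4)) z,
      (∑ k, (inner ℝ U (b k) : ℝ) • c k) * (∑ k, (inner ℝ V (b k) : ℝ) • c k)ᵀ
        = ∑ i, ∑ j, ((inner ℝ U (b i) : ℝ) * (inner ℝ V (b j) : ℝ)) • (c i * (c j)ᵀ) := by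
    intro U V
    rw [Matrix.transpose_sum, Matrix.sum_mul]
    refine Finset.sum_congr rfl fun i _ => ?_
    rw [Matrix.mul_sum]
    refine Finset.sum_congr rfl fun j _ => ?_
    rw [Matrix.transpose_smul, Matrix.smul_mul, Matrix.mul_smul, smul_smul]
  have e3 : ∑ i, ∑ j, ((inner ℝ X (b i) : ℝ) * (inner ℝ Y (b j) : ℝ)) • (c i * (c j)ᵀ)
      + ∑ i, ∑ j, ((inner ℝ Y (b i) : ℝ) * (inner ℝ X (b j) : ℝ)) • (c i * (c j)ᵀ)
      = (2 * (inner ℝ X Y : ℝ)) • (1 : Matrix ι1 ι1 ℝ) := by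
    rw [Finset.sum_comm (f := fun i j =>
      ((inner ℝ Y (b i) : ℝ) * (inner ℝ X (b j) : ℝ)) • (c i * (c j)ᵀ)),
      ← Finset.sum_add_distrib]
    have e4 : ∀ i, (∑ j, ((inner ℝ X (b i) : ℝ) * (inner ℝ Y (b j) : ℝ)) • (c i * (c j)ᵀ)
        + ∑ j, ((inner ℝ Y (b j) : ℝ) * (inner ℝ X (b i) : ℝ)) • (c j * (c i)ᵀ))
        = (2 * ((inner ℝ X (b i) : ℝ) * (inner ℝ Y (b i) : ℝ))) • (1 : Matrix ι1 ι1 ℝ) := by
      intro i
      rw [← Finset.sum_add_distrib]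
      have e5 : ∀ j, (((inner ℝ X (b i) : ℝ) * (inner ℝ Y (b j) : ℝ)) • (c i * (c j)ᵀ)
          + ((inner ℝ Y (b j) : ℝ) * (inner ℝ X (b i) : ℝ)) • (c j * (c i)ᵀ))
          = if i = j then (2 * ((inner ℝ X (b i) : ℝ) * (inner ℝ Y (b i) : ℝ))) •
            (1 : Matrix ι1 ι1 ℝ) else 0 := by
        intro j
        rw [mul_comm (inner ℝ Y (b j) : ℝ), ← smul_add, h6]
        by_cases hij : i = j
        · subst hij
          rw [if_pos rfl, if_pos rfl, smul_smul]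
          congr 1
          ring
        · rw [if_neg hij, if_neg hij, smul_zero]
      simp only [e5, Finset.sum_ite_eq, Finset.mem_univ, if_true]
    rw [Finset.sum_congr rfl fun i _ => e4 i, ← Finset.sum_smul, ← Finset.mul_sum]
    congr 2
    conv_rhs => rw [← h8 Y, inner_sum]
    refine Finset.sum_congr rfl fun i _ => ?_
    rw [real_inner_smul_right, mul_comm]
  rw [h9, h9, e1, e1, ← Matrix.add_mul, ← Matrix.mul_add, e2, e2, e3, Matrix.mul_smul,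
    Matrix.mul_one, Matrix.smul_mul, h4]

/-! ### the facts in the form of functions -/

namespace Twf

variable {q : QS M} {P : CPair 4 M κ κ0 κ1} {Jf : κ0 → κ0 → M → ℝ}
  {Kt : Fin 3 → κ0 → κ0 → M → ℝ} (h : Twf q P Jf Kt) (z : M)
include h

lemma sm_rho (k : Fin 3) (y y' : κ0) : ContMDiff 𝓘E 𝓘(ℝ, ℝ) ∞ (rho Jf Kt k y y') := by
  have h1 : rho Jf Kt k y y' = fun z => - ∑ x, Jf y x z * Kt k x y' z := rfl
  rw [h1]
  exact (contMDiff_finsetSum fun x _ => (h.smJ y x).mul (h.smK k x y')).neg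

lemma J_skew (y y' : κ0) : Jf y y' z = - Jf y' y z := by
  obtain ⟨j0, j1, b, p⟩ := h.pt z
  exact congrFun (congrFun p.Jt y') y

lemma p_J (y y' : κ0) : ∑ c, P.D0.p y c z * Jf c y' z = Jf y y' z := by
  obtain ⟨j0, j1, b, p⟩ := h.pt z
  have := congrFun (congrFun p.pJ y) y'
  rwa [Matrix.mul_apply] at this

lemma J_p (y y' : κ0) : ∑ c, Jf y c z * P.D0.p c y' z = Jf y y' z := by
  obtain ⟨j0, j1, b, p⟩ := h.pt z
  have := congrFun (congrFun p.Jp y) y'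
  rwa [Matrix.mul_apply] at this

lemma J_sq (y y' : κ0) : ∑ c, Jf y c z * Jf c y' z = - P.D0.p y y' z := by
  obtain ⟨j0, j1, b, p⟩ := h.pt z
  have := congrFun (congrFun p.JJ y) y'
  rwa [Matrix.mul_apply] at this

lemma rho_symm (k : Fin 3) (y y' : κ0) : rho Jf Kt k y y' z = rho Jf Kt k y' y z := by
  obtain ⟨j0, j1, b, p⟩ := h.pt z
  exact congrFun (congrFun (p.rt k) y') y

lemma p_rho (k : Fin 3) (y y' : κ0) :
    ∑ c, P.D0.p y c z * rho Jf Kt k c y' z = rho Jf Kt k y y' z := by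
  obtain ⟨j0, j1, b, p⟩ := h.pt z
  have := congrFun (congrFun (p.pr k) y) y'
  rwa [Matrix.mul_apply] at this

lemma rho_p (k : Fin 3) (y y' : κ0) :
    ∑ c, rho Jf Kt k y c z * P.D0.p c y' z = rho Jf Kt k y y' z := by
  obtain ⟨j0, j1, b, p⟩ := h.pt z
  have := congrFun (congrFun (p.rp k) y) y'
  rwa [Matrix.mul_apply] at this

/-- `J ρ_k = K_k` -/
lemma J_rho (k : Fin 3) (y y' : κ0) :
    ∑ c, Jf y c z * rho Jf Kt k c y' z = Kt k y y' z := by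
  obtain ⟨j0, j1, b, p⟩ := h.pt z
  have := congrFun (congrFun (p.Jr k) y) y'
  rwa [Matrix.mul_apply] at this

/-- `ρ_k J = K_k` -/
lemma rho_J (k : Fin 3) (y y' : κ0) :
    ∑ c, rho Jf Kt k y c z * Jf c y' z = Kt k y y' z := by
  obtain ⟨j0, j1, b, p⟩ := h.pt z
  have := congrFun (congrFun (p.rJ k) y) y'
  rwa [Matrix.mul_apply] at this

lemma rho_cl (k l : Fin 3) (y y' : κ0) :
    ∑ c, rho Jf Kt k y c z * rho Jf Kt l c y' z + ∑ c, rho Jf Kt l y c z * rho Jf Kt k c y' z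
      = if k = l then 2 * P.D0.p y y' z else 0 := by
  obtain ⟨j0, j1, b, p⟩ := h.pt z
  have h1 := congrFun (congrFun (p.rr k l) y) y'
  rw [Matrix.add_apply, Matrix.mul_apply, Matrix.mul_apply] at h1
  refine h1.trans ?_
  by_cases hkl : k = l
  · rw [if_pos hkl, if_pos hkl]; rfl
  · rw [if_neg hkl, if_neg hkl]; rfl

lemma rho_mul01 (y y' : κ0) : ∑ c, rho Jf Kt 0 y c z * rho Jf Kt 1 c y' z
    = - ∑ c, Jf y c z * rho Jf Kt 2 c y' z := by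
  rw [h.J_rho]
  obtain ⟨j0, j1, b, p⟩ := h.pt z
  have := congrFun (congrFun p.r01 y) y'
  rwa [Matrix.mul_apply] at this

lemma rho_mul12 (y y' : κ0) : ∑ c, rho Jf Kt 1 y c z * rho Jf Kt 2 c y' z
    = - ∑ c, Jf y c z * rho Jf Kt 0 c y' z := by
  rw [h.J_rho]
  obtain ⟨j0, j1, b, p⟩ := h.pt z
  have := congrFun (congrFun p.r12 y) y'
  rwa [Matrix.mul_apply] at this

lemma rho_mul20 (y y' : κ0) : ∑ c, rho Jf Kt 2 y c z * rho Jf Kt 0 c y' z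
    = - ∑ c, Jf y c z * rho Jf Kt 1 c y' z := by
  rw [h.J_rho]
  obtain ⟨j0, j1, b, p⟩ := h.pt z
  have := congrFun (congrFun p.r20 y) y'
  rwa [Matrix.mul_apply] at this

lemma trace_p0 : ∑ a, P.D0.p a a z = 4 := by
  obtain ⟨j0, j1, b, p⟩ := h.pt z
  exact p.trace0

lemma trace_p1 : ∑ a, P.D1.p a a z = 4 := by
  obtain ⟨j0, j1, b, p⟩ := h.pt z
  exact p.trace1

/-- field `fierz` of `SWS.OK` -/
theorem fierzT (u : κ0 → ℝ) (hu : ∀ y, ∑ y', P.D0.p y y' z * u y' = u y) :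
    ∑ k, (∑ y, ∑ y', rho Jf Kt k y y' z * u y * u y') ^ 2 = (∑ y, u y ^ 2) ^ 2 :=
  fierz_fun (fun a b => P.D0.p a b z) (fun a b => Jf a b z) (fun k a b => rho Jf Kt k a b z)
    (fun a b => P.D0.symmp a b z) (fun a b => P.D0.idem a b z) (h.trace_p0 z)
    (fun a b => h.J_skew z a b) (fun a b => h.p_J z a b) (fun a b => h.J_sq z a b)
    (fun k a b => h.rho_symm z k a b) (fun k a b => h.p_rho z k a b)
    (fun k a b => (h.J_rho z k a b).trans (h.rho_J z k a b).symm)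
    (fun k l a b => h.rho_cl z k l a b) u hu

variable (X Y : TangentSpace 𝓘(ℝ, EuclideanSpace ℝ (Fin 4)) z)

/-- `c(X)ᵀ c(Y) = ⟨X,Y⟩ p - ∑_k ⟨I_k X, Y⟩ J ρ_k` -/
theorem clf (y y' : κ0) :
    ∑ x, (inner ℝ (P.cc x y z) X : ℝ) * (inner ℝ (P.cc x y' z) Y : ℝ)
      = (inner ℝ X Y : ℝ) * P.D0.p y y' z
        - ∑ k, (inner ℝ (q.op k z X) Y : ℝ) * ∑ c, Jf y c z * rho Jf Kt k c y' z := by
  simp only [h.J_rho]
  obtain ⟨j0, j1, b, p⟩ := h.pt z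
  have h1 := congrFun (congrFun (p.clfM X Y) y) y'
  rw [Matrix.mul_apply, Matrix.sub_apply, Matrix.sum_apply] at h1
  exact h1

omit h in
/-- the Clifford relation on `D0` -/
theorem clif0' (P : CPair 4 M κ κ0 κ1) (z : M)
    (X Y : TangentSpace 𝓘(ℝ, EuclideanSpace ℝ (Fin 4)) z) (y y' : κ0) :
    ∑ x, ((inner ℝ (P.cc x y z) X : ℝ) * (inner ℝ (P.cc x y' z) Y : ℝ)
      + (inner ℝ (P.cc x y z) Y : ℝ) * (inner ℝ (P.cc x y' z) X : ℝ))
      = 2 * (inner ℝ X Y : ℝ) * P.D0.p y y' z := by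
  have h1 := congrFun (congrFun (Mdl2_755.clif0 P z X Y) y) y'
  rw [Matrix.add_apply, Matrix.mul_apply, Matrix.mul_apply, ← Finset.sum_add_distrib] at h1
  exact h1

omit h in
/-- the Clifford relation on `D1` -/
theorem clif1' (P : CPair 4 M κ κ0 κ1) (z : M)
    (X Y : TangentSpace 𝓘(ℝ, EuclideanSpace ℝ (Fin 4)) z) (x x' : κ1) :
    ∑ y, ((inner ℝ (P.cc x y z) X : ℝ) * (inner ℝ (P.cc x' y z) Y : ℝ)
      + (inner ℝ (P.cc x y z) Y : ℝ) * (inner ℝ (P.cc x' y z) X : ℝ))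
      = 2 * (inner ℝ X Y : ℝ) * P.D1.p x x' z := by
  have h1 := congrFun (congrFun (clif1M P z X Y) x) x'
  rw [Matrix.add_apply, Matrix.mul_apply, Matrix.mul_apply, ← Finset.sum_add_distrib] at h1
  exact h1

end Twf

/-! ### from germs -/

section germs

variable {q : QS M} (P : CPair 4 M κ κ0 κ1) {Jf : κ0 → κ0 → M → ℝ}
  {Kt : Fin 3 → κ0 → κ0 → M → ℝ} {z : M}
  {e : Fin 4 → EuclideanSpace ℝ (Fin 4) → EuclideanSpace ℝ (Fin 4)}
  (h : ONF (chartMetric 4 M z) (chartAt (EuclideanSpace ℝ (Fin 4)) z).target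
      (chartCentre 4 M z) e) (ha : Adp q z e)

lemma map_K (f : SG (chartCentre 4 M z) →+* ℝ) (c : Fin 3) :
    (K (SG (chartCentre 4 M z)) c).map f = K ℝ c := by
  ext i j
  fin_cases c <;> fin_cases i <;> fin_cases j <;> simp [K]

lemma map_J0 (f : SG (chartCentre 4 M z) →+* ℝ) :
    (J (SG (chartCentre 4 M z)) 0).map f = J ℝ 0 := by
  ext i j
  fin_cases i <;> fin_cases j <;> simp [J]

lemma map_cK (f : SG (chartCentre 4 M z) →+* ℝ) (i : Fin 4) :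
    (cK (SG (chartCentre 4 M z)) i).map f = cK ℝ i := by
  rw [cK_eq, cK_eq]
  ext k l
  fin_cases i <;> fin_cases k <;> fin_cases l <;> simp

include h ha in
/-- an adapted frame at the centre -/
lemma adp_bv (s : PF 4 M κ) (c : Fin 3) (i j : Fin 4) :
    (inner ℝ (h.bv i) (q.op c z (h.bv j)) : ℝ) = K ℝ c i j := by
  -- a smooth field with value `b_j` at `z`
  let V : (p : M) → TangentSpace 𝓘(ℝ, EuclideanSpace ℝ (Fin 4)) p :=
    fun p => ∑ A, (inner ℝ (s.s A z) (h.bv j) : ℝ) • s.s A p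
  have hV : ∀ p, VSm 4 ∞ V p := fun p => VSm.sum Finset.univ fun A _ =>
    VSm.smul le_rfl contMDiffAt_const (s.sm A p)
  have hVz : V z = h.bv j := s.pars z (h.bv j)
  have h1 : (inner ℝ (q.op c z (h.bv j)) (h.bv i) : ℝ) = ev (vg z e (q.ap c V) i) := by
    rw [Crest.Agent.R249.Tz805.ev_vg h (fun p => q.VSm_ap c (hV p)), QS.ap, hVz]
  rw [real_inner_comm, h1, vg_ap h ha c hV, map_sum]
  have h2 : ∀ l, ev (K (SG (chartCentre 4 M z)) c i l * vg z e V l)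
      = K ℝ c i l * (if j = l then 1 else 0) := by
    intro l
    rw [map_mul, Crest.Agent.R249.Tz805.ev_vg h hV, hVz, h.orth_bv, K_cast, AlgHom.commutes]
    rfl
  rw [Finset.sum_congr rfl fun l _ => h2 l]
  simp

include h ha in
/-- **frames at a point from germs** -/
theorem pt_of {a0 : Fin 4 → Matrix (Fin 4) (Fin 4) (SG (chartCentre 4 M z))}
    {a1 : Fin 4 → Matrix (Fin 4) (Fin 4) (SG (chartCentre 4 M z))}
    {j0 : Matrix κ0 (Fin 4) (SG (chartCentre 4 M z))}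
    {j1 : Matrix κ1 (Fin 4) (SG (chartCentre 4 M z))}
    (hC : CLoc P.D0 P.D1 P.cc h a0 a1 (cK (SG (chartCentre 4 M z))) j0 j1)
    (smJ : ∀ a b, ContMDiff 𝓘(ℝ, EuclideanSpace ℝ (Fin 4)) 𝓘(ℝ, ℝ) ∞ (Jf a b))
    (smK : ∀ c a b, ContMDiff 𝓘(ℝ, EuclideanSpace ℝ (Fin 4)) 𝓘(ℝ, ℝ) ∞ (Kt c a b))
    (hJ : (Matrix.of fun a b => fg z (Jf a b)) = j0 * J (SG (chartCentre 4 M z)) 0 * j0ᵀ)
    (hK : ∀ c, (Matrix.of fun a b => fg z (Kt c a b)) = j0 * K (SG (chartCentre 4 M z)) c * j0ᵀ) :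
    ∃ j0 j1 b, Pt q P Jf Kt z j0 j1 b := by
  let f : SG (chartCentre 4 M z) →+* ℝ := (ev : SG (chartCentre 4 M z) →ₐ[ℝ] ℝ).toRingHom
  have evp : ∀ {κ : Type} [Fintype κ] (D : Bun 4 M κ) (j : Matrix κ (Fin 4) (SG (chartCentre 4 M z))),
      j * jᵀ = (Matrix.of fun x y => fg z (D.p x y)) → (j.map f) * (j.map f)ᵀ = pz D z := by
    intro κ _ D j hj
    have h1 : (j.map f) * (j.map f)ᵀ = (j * jᵀ).map f := by
      rw [← Matrix.transpose_map, ← Matrix.map_mul]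
    rw [h1, hj]
    ext x y
    exact Crest.Agent.R249.Tz805.ev_fg (D.smp x y)
  have ev1 : ∀ {κ : Type} [Fintype κ] (j : Matrix κ (Fin 4) (SG (chartCentre 4 M z))),
      jᵀ * j = 1 → (j.map f)ᵀ * (j.map f) = 1 := by
    intro κ _ j hj
    rw [← Matrix.transpose_map, ← Matrix.map_mul, hj, Matrix.map_one _ (map_zero f) (map_one f)]
  refine ⟨j0.map f, j1.map f, h.bv, ev1 j0 hC.l0.jtj, evp P.D0 j0 hC.l0.jjt, ev1 j1 hC.l1.jtj,
    evp P.D1 j1 hC.l1.jjt, h.orth_bv, h.sum_bv, adp_bv h ha P.s, ?_, ?_, ?_⟩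
  · intro X
    ext x y
    have h1 : P.cc x y z = ∑ k, f (vg z e (P.cc x y) k) • h.bv k :=
      Crest.Agent.R249.Tz805.eq_sum_ev_vg h (P.smc x y)
    have h2 : (inner ℝ (P.cc x y z) X : ℝ)
        = ∑ k, f (vg z e (P.cc x y) k) * (inner ℝ X (h.bv k) : ℝ) := by
      rw [h1, sum_inner]
      refine Finset.sum_congr rfl fun k _ => ?_
      rw [real_inner_smul_left, real_inner_comm]
    have h3 : ∀ k, f (vg z e (P.cc x y) k) = ((j1.map f) * (cK ℝ k) * (j0.map f)ᵀ) x y := by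
      intro k
      rw [hC.sym x y k, ← map_cK f, ← Matrix.transpose_map, ← Matrix.map_mul, ← Matrix.map_mul,
        Matrix.map_apply]
    change (inner ℝ (P.cc x y z) X : ℝ) = _
    rw [h2, Matrix.mul_sum, Matrix.sum_mul, Matrix.sum_apply]
    refine Finset.sum_congr rfl fun k _ => ?_
    rw [h3, Matrix.mul_smul, Matrix.smul_mul, Matrix.smul_apply, smul_eq_mul, mul_comm]
  · have h1 : (Matrix.of fun y y' => Jf y y' z) = (Matrix.of fun a b => fg z (Jf a b)).map f := by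
      ext a b
      exact (Crest.Agent.R249.Tz805.ev_fg (smJ a b)).symm
    rw [h1, hJ, Matrix.map_mul, Matrix.map_mul, map_J0, Matrix.transpose_map]
  · intro c
    have h1 : (Matrix.of fun y y' => Kt c y y' z) = (Matrix.of fun a b => fg z (Kt c a b)).map f := by
      ext a b
      exact (Crest.Agent.R249.Tz805.ev_fg (smK c a b)).symm
    rw [h1, hK, Matrix.map_mul, Matrix.map_mul, map_K, Matrix.transpose_map]

end germs

/-! ### the untwisted pair -/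

/-- 167's pair, `J` = left multiplication by `i`, `K_c` constant -/
theorem twf_pairQ (q : QS M) (s : PF 4 M κ)
    {th : Fin 3 → (z : M) → TangentSpace 𝓘(ℝ, EuclideanSpace ℝ (Fin 4)) z}
    (hth : ∀ b z, VSm 4 ∞ (th b) z) :
    Twf q (pairQ q s hth) (fun a b _ => J ℝ 0 a b) (fun c a b _ => K ℝ c a b) where
  smJ _ _ := contMDiff_const
  smK _ _ _ := contMDiff_const
  pt z := by
    obtain ⟨e, h, ha⟩ := exists_adp q z
    refine pt_of (pairQ q s hth) h ha (clocQ s hth h ha) (fun _ _ => contMDiff_const)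
      (fun _ _ _ => contMDiff_const) ?_ ?_
    · rw [Matrix.transpose_one, Matrix.one_mul, Matrix.mul_one]
      ext a b
      rw [Matrix.of_apply, Crest.Agent.R249.Dic805.fg_const]
      exact (J_cast 0 a b).symm
    · intro c
      rw [Matrix.transpose_one, Matrix.one_mul, Matrix.mul_one]
      ext a b
      rw [Matrix.of_apply, Crest.Agent.R249.Dic805.fg_const]
      exact (K_cast c a b).symm

end Crest.Agent.R235.SymQ_755
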