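import Crest.Agent.R235.LTwD_453
import Crest.Agent.R235.SymQ_755

/-!
Row 235, helper453, L-twist part E: 755's `Twf` is preserved by the twist.

* `opT J X L` : the operator `X` (commuting with `J`) on the twisted bundle;
* `twf_tw` : `Twf q P Jf Kt → Twf q (twP P hJ0 hJ1 hc L) (JT P.D0 Jf L) (fun c => opT Jf (Kt c) L)`.
-/

set_option autoImplicit false
set_option maxSynthPendingDepth 3
set_option linter.unusedSectionVars false

open Filter Topology Set Bundle Manifold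
open Matrix hiding J
open scoped ContDiff Kronecker
open Crest.GeometryTopology.CoordMetric Crest.GeometryTopology.ChartCurvature
  Crest.GeometryTopology.PointedLimit
open Crest.Agent.R202.Tens Crest.Agent.R249.FrmB_285 Crest.Agent.R249.Vf281
  Crest.Agent.R249.Tz1_805 Crest.Agent.R249.Tz2_805
open Crest.Agent.R249.Fr129
open Crest.Agent.R249.C2_198 hiding cp half_two
open Crest.Agent.R249.Sg129 (SG germ ev ONF)
open Crest.Agent.R249.Tz805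
open Crest.Agent.R235.IndAlg_167 Crest.Agent.R235.Ind167 Crest.Agent.R235.Mdl2_755
open Crest.Agent.R235.SymQ_755 hiding Pt.p0

noncomputable section

namespace Crest.Agent.R235.LTw_453

section gen

variable {n : ℕ} {M : Type*} [TopologicalSpace M] [ChartedSpace (EuclideanSpace ℝ (Fin n)) M]
  [IsManifold 𝓘(ℝ, EuclideanSpace ℝ (Fin n)) ∞ M]
  [RiemannianBundle (fun x : M => TangentSpace 𝓘(ℝ, EuclideanSpace ℝ (Fin n)) x)]
  [IsContMDiffRiemannianBundle 𝓘(ℝ, EuclideanSpace ℝ (Fin n)) ∞ (EuclideanSpace ℝ (Fin n))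
      (fun x : M => TangentSpace 𝓘(ℝ, EuclideanSpace ℝ (Fin n)) x)]

variable {κ : Type} [Fintype κ] {N : ℕ}

/-- the operator `X` on the twisted bundle (`X` commutes with `J`). -/
def opT (Jf X : κ → κ → M → ℝ) (L : LD n M N) (x y : κ × Fin N) (z : M) : ℝ :=
  L.r x.2 y.2 z * X x.1 y.1 z + L.s x.2 y.2 z * ∑ c, Jf x.1 c z * X c y.1 z

theorem sm_opT {Jf X : κ → κ → M → ℝ}
    (hJ : ∀ a b, ContMDiff 𝓘(ℝ, EuclideanSpace ℝ (Fin n)) 𝓘(ℝ, ℝ) ∞ (Jf a b))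
    (hX : ∀ a b, ContMDiff 𝓘(ℝ, EuclideanSpace ℝ (Fin n)) 𝓘(ℝ, ℝ) ∞ (X a b)) (L : LD n M N)
    (x y : κ × Fin N) :
    ContMDiff 𝓘(ℝ, EuclideanSpace ℝ (Fin n)) 𝓘(ℝ, ℝ) ∞ (opT Jf X L x y) :=
  ((L.smr _ _).mul (hX _ _)).add ((L.sms _ _).mul
    (ContMDiff.sum fun c _ => (hJ x.1 c).mul (hX c y.1)))

/-- a unit vector of `L` at a point. -/
theorem exists_unit (L : LD n M N) (z : M) : ∃ v w : Fin N → ℝ,
    (∀ k l, v k * v l + w k * w l = L.r k l z) ∧ (∀ k l, w k * v l - v k * w l = L.s k l z) ∧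
    ∑ k, (v k * v k + w k * w k) = 1 := by
  obtain ⟨m, hm⟩ : ∃ m, 0 < L.r m m z := by
    by_contra hcon
    push Not at hcon
    have h1 := L.tr z
    have h2 : ∑ a, L.r a a z ≤ 0 := Finset.sum_nonpos fun a _ => hcon a
    linarith
  set t : ℝ := (√(L.r m m z))⁻¹ with ht
  have ht2 : t * t * L.r m m z = 1 := by
    rw [ht, ← mul_inv, Real.mul_self_sqrt hm.le, inv_mul_cancel₀ hm.ne']
  have k1 : ∀ k l, (t * L.r k m z) * (t * L.r l m z) + (t * L.s k m z) * (t * L.s l m z) =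
      L.r k l z := by
    intro k l
    linear_combination (t * t) * L.rk1 k l m z + L.r k l z * ht2
  refine ⟨fun k => t * L.r k m z, fun k => t * L.s k m z, k1, fun k l => ?_, ?_⟩
  · linear_combination (t * t) * L.rk2 k l m z + L.s k l z * ht2
  · simp only [k1, L.tr]

end gen

variable {M : Type*} [TopologicalSpace M] [ChartedSpace (EuclideanSpace ℝ (Fin 4)) M]
  [IsManifold 𝓘(ℝ, EuclideanSpace ℝ (Fin 4)) ∞ M]
  [RiemannianBundle (fun x : M => TangentSpace 𝓘(ℝ, EuclideanSpace ℝ (Fin 4)) x)]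
  [IsContMDiffRiemannianBundle 𝓘(ℝ, EuclideanSpace ℝ (Fin 4)) ∞ (EuclideanSpace ℝ (Fin 4))
      (fun x : M => TangentSpace 𝓘(ℝ, EuclideanSpace ℝ (Fin 4)) x)]

variable {κ κ0 κ1 : Type} [Fintype κ] [Fintype κ0] [Fintype κ1] {N : ℕ}

/-- **the quaternionic structure of the twisted pair** at a point. -/
theorem pt_tw {q : QS M} {P : CPair 4 M κ κ0 κ1} {Jf : κ0 → κ0 → M → ℝ} {J1 : κ1 → κ1 → M → ℝ}
    {Kt : Fin 3 → κ0 → κ0 → M → ℝ} {z : M} {j0 : Matrix κ0 (Fin 4) ℝ} {j1 : Matrix κ1 (Fin 4) ℝ}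
    {b : Fin 4 → TangentSpace 𝓘(ℝ, EuclideanSpace ℝ (Fin 4)) z} (hP : Pt q P Jf Kt z j0 j1 b)
    (hJ0 : PJ P.D0 Jf) (hJ1 : PJ P.D1 J1)
    (hc : ∀ A y z, ∑ B, J1 A B z • P.cc B y z = ∑ x, Jf x y z • P.cc A x z) (L : LD 4 M N)
    {v w : Fin N → ℝ} (hr : ∀ k l, v k * v l + w k * w l = L.r k l z)
    (hs : ∀ k l, w k * v l - v k * w l = L.s k l z)
    (hu : ∑ k, (v k * v k + w k * w k) = 1) :
    Pt q (twP P hJ0 hJ1 hc L) (JT P.D0 Jf L) (fun c => opT Jf (Kt c) L) z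
      (Psi (LD.vm Jf z) j0 v w) (Psi (LD.vm J1 z) j1 v w) b := by
  have q0 : LD.vm Jf z * LD.vm Jf z = - LD.vm P.D0.p z := mat_JJ hJ0 z
  have q1 : LD.vm J1 z * LD.vm J1 z = - LD.vm P.D1.p z := mat_JJ hJ1 z
  have p0 : LD.vm P.D0.p z * LD.vm Jf z = LD.vm Jf z := mat_pJ hJ0 z
  have p1 : LD.vm P.D1.p z * LD.vm J1 z = LD.vm J1 z := mat_pJ hJ1 z
  have r0 : LD.vm Jf z * LD.vm P.D0.p z = LD.vm Jf z := mat_Jp hJ0 z
  have r1 : LD.vm J1 z * LD.vm P.D1.p z = LD.vm J1 z := mat_Jp hJ1 z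
  have t0 : (LD.vm Jf z)ᵀ = - LD.vm Jf z := by
    ext a b; exact hJ0.skew b a z
  have t1 : (LD.vm J1 z)ᵀ = - LD.vm J1 z := by
    ext a b; exact hJ1.skew b a z
  have jt0 : j0 * j0ᵀ = LD.vm P.D0.p z := hP.jt0
  have jt1 : j1 * j1ᵀ = LD.vm P.D1.p z := hP.jt1
  have pj0 : LD.vm P.D0.p z * j0 = j0 := by
    rw [← jt0, Matrix.mul_assoc, hP.tj0, Matrix.mul_one]
  have pj1 : LD.vm P.D1.p z * j1 = j1 := by
    rw [← jt1, Matrix.mul_assoc, hP.tj1, Matrix.mul_one]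
  have z0 : ∑ k, (v k * w k - w k * v k) = 0 := Finset.sum_eq_zero fun k _ => by ring
  have hJ : (Matrix.of fun y y' => Jf y y' z) = j0 * Crest.Agent.R249.C2_198.J ℝ 0 * j0ᵀ := hP.hJ
  have hJ' : j0 * Crest.Agent.R249.C2_198.J ℝ 0 * j0ᵀ = LD.vm Jf z := hP.hJ.symm
  refine ⟨?_, ?_, ?_, ?_, hP.on, hP.ex, hP.adp, ?_, ?_, ?_⟩
  · rw [Psi_tr_mul (p := LD.vm P.D0.p z) hP.tj0 pj0 t0 q0, hu, z0, one_smul, zero_smul, add_zero]
  · rw [Psi_mul_tr jt0 p0 r0 t0 q0]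
    ext x y
    show P.D0.p x.1 y.1 z * (v x.2 * v y.2 + w x.2 * w y.2) +
      Jf x.1 y.1 z * (w x.2 * v y.2 - v x.2 * w y.2) =
      P.D0.p x.1 y.1 z * L.r x.2 y.2 z + Jf x.1 y.1 z * L.s x.2 y.2 z
    rw [hr, hs]
  · rw [Psi_tr_mul (p := LD.vm P.D1.p z) hP.tj1 pj1 t1 q1, hu, z0, one_smul, zero_smul, add_zero]
  · rw [Psi_mul_tr jt1 p1 r1 t1 q1]
    ext x y
    show P.D1.p x.1 y.1 z * (v x.2 * v y.2 + w x.2 * w y.2) +
      J1 x.1 y.1 z * (w x.2 * v y.2 - v x.2 * w y.2) =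
      P.D1.p x.1 y.1 z * L.r x.2 y.2 z + J1 x.1 y.1 z * L.s x.2 y.2 z
    rw [hr, hs]
  · intro X
    have hcX : j1 * (∑ k, (inner ℝ X (b k) : ℝ) • cK ℝ k) * j0ᵀ = ccX P.cc z X := (hP.cc X).symm
    have hcom : LD.vm J1 z * ccX P.cc z X = ccX P.cc z X * LD.vm Jf z := by
      ext x y
      have h1 := congrArg (fun u => inner ℝ u X) (hc x y z)
      simp only [sum_inner, real_inner_smul_left] at h1
      rw [Matrix.mul_apply, Matrix.mul_apply]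
      exact h1.trans (Finset.sum_congr rfl fun c _ => mul_comm _ _)
    have hpc : LD.vm P.D1.p z * ccX P.cc z X = ccX P.cc z X := by
      rw [← hcX, ← Matrix.mul_assoc, ← Matrix.mul_assoc, pj1]
    rw [Psi_c_Psi (p1 := LD.vm P.D1.p z) hcX t0 hcom q1 hpc]
    ext x y
    show inner ℝ (ccTw J1 P.cc L x y z) X = (v x.2 * v y.2 + w x.2 * w y.2) * ccX P.cc z X x.1 y.1 +
      (w x.2 * v y.2 - v x.2 * w y.2) * (LD.vm J1 z * ccX P.cc z X) x.1 y.1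
    rw [hr, hs, ccTw, inner_add_left, real_inner_smul_left, real_inner_smul_left, sum_inner,
      Matrix.mul_apply]
    simp only [real_inner_smul_left]
    rfl
  · have hcom : LD.vm Jf z * LD.vm Jf z = LD.vm Jf z * LD.vm Jf z := rfl
    rw [Psi_c_Psi (p1 := LD.vm P.D0.p z) hJ' t0 hcom q0 p0]
    ext x y
    show P.D0.p x.1 y.1 z * (- L.s x.2 y.2 z) + Jf x.1 y.1 z * L.r x.2 y.2 z =
      (v x.2 * v y.2 + w x.2 * w y.2) * Jf x.1 y.1 z +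
      (w x.2 * v y.2 - v x.2 * w y.2) * (LD.vm Jf z * LD.vm Jf z) x.1 y.1
    rw [hr, hs, q0]
    show _ = L.r x.2 y.2 z * Jf x.1 y.1 z + L.s x.2 y.2 z * (- P.D0.p x.1 y.1 z)
    ring
  · intro c
    have hK' : j0 * K ℝ c * j0ᵀ = LD.vm (Kt c) z := (hP.hK c).symm
    have hcom : LD.vm Jf z * LD.vm (Kt c) z = LD.vm (Kt c) z * LD.vm Jf z := by
      rw [← hJ', ← hK', hP.mul0, hP.mul0, J0_K]
    have hpc : LD.vm P.D0.p z * LD.vm (Kt c) z = LD.vm (Kt c) z := by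
      rw [← hK', ← Matrix.mul_assoc, ← Matrix.mul_assoc, pj0]
    rw [Psi_c_Psi (p1 := LD.vm P.D0.p z) hK' t0 hcom q0 hpc]
    ext x y
    show L.r x.2 y.2 z * Kt c x.1 y.1 z + L.s x.2 y.2 z * ∑ c', Jf x.1 c' z * Kt c c' y.1 z =
      (v x.2 * v y.2 + w x.2 * w y.2) * Kt c x.1 y.1 z +
      (w x.2 * v y.2 - v x.2 * w y.2) * (LD.vm Jf z * LD.vm (Kt c) z) x.1 y.1
    rw [hr, hs]
    rfl

/-- **755's `Twf` for the twisted pair**. -/
theorem twf_tw {q : QS M} {P : CPair 4 M κ κ0 κ1} {Jf : κ0 → κ0 → M → ℝ} {J1 : κ1 → κ1 → M → ℝ}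
    {Kt : Fin 3 → κ0 → κ0 → M → ℝ} (hT : Twf q P Jf Kt) (hJ0 : PJ P.D0 Jf) (hJ1 : PJ P.D1 J1)
    (hc : ∀ A y z, ∑ B, J1 A B z • P.cc B y z = ∑ x, Jf x y z • P.cc A x z) (L : LD 4 M N) :
    Twf q (twP P hJ0 hJ1 hc L) (JT P.D0 Jf L) (fun c => opT Jf (Kt c) L) where
  smJ := (pjT (D := P.D0) hJ0 L).sm
  smK c := sm_opT hT.smJ (hT.smK c) L
  pt z := by
    obtain ⟨j0, j1, b, hP⟩ := hT.pt z
    obtain ⟨v, w, hr, hs, hu⟩ := exists_unit L z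
    exact ⟨_, _, b, pt_tw hP hJ0 hJ1 hc L hr hs hu⟩

section twZ

variable (q : QS M) (s : PF 4 M κ) (L : LD 4 M N)

/-- **167's quaternionic pair twisted by a line bundle** -/
def twZ : CPair 4 M κ (Fin 4 × Fin N) (κ × Fin N) :=
  twP (pairZ q s) (pj_Z0 q s 0) (pj_Z1 q s 0) (cc_J q s 0) L

/-- complex structure of the first bundle of `twZ` -/
def J0Z (x y : Fin 4 × Fin N) (z : M) : ℝ := JT (pairZ q s).D0 (JZ 0) L x y z

/-- complex structure of the second bundle of `twZ` -/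
def J1Z (x y : κ × Fin N) (z : M) : ℝ := JT (pairZ q s).D1 (IP q s 0) L x y z

variable (M) in
/-- the three operators `K_c` on the first bundle of `twZ` -/
def KtZ (L : LD 4 M N) (c : Fin 3) (x y : Fin 4 × Fin N) (z : M) : ℝ :=
  opT (JZ 0) (fun a b _ => K ℝ c a b) L x y z

theorem pj0_twZ : PJ (twZ q s L).D0 (J0Z q s L) := pjT (pj_Z0 q s 0) L

theorem pj1_twZ : PJ (twZ q s L).D1 (J1Z q s L) := pjT (pj_Z1 q s 0) L

theorem hc_twZ (A : κ × Fin N) (y : Fin 4 × Fin N) (z : M) :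
    ∑ B, J1Z q s L A B z • (twZ q s L).cc B y z = ∑ x, J0Z q s L x y z • (twZ q s L).cc A x z := by
  obtain ⟨e, h, ha⟩ := exists_adp q z
  exact ccTw_J (pj_Z0 q s 0) (pj_Z1 q s 0)
    (fun x y z => by
      obtain ⟨e, h, ι0, ι1, i1, i2, i3, i4, a0, a1, c, j0, j1, C⟩ := (pairZ q s).loc z
      exact p1_cc C (pairZ q s).smc x y) (cc_J q s 0) L A y z

theorem twf_twZ : Twf q (twZ q s L) (J0Z q s L) (KtZ M L) :=
  twf_tw (twf_pairQ q s sm_thZ) (pj_Z0 q s 0) (pj_Z1 q s 0) (cc_J q s 0) L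

end twZ

end Crest.Agent.R235.LTw_453
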