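import Crest.Agent.R235.IndPair_167

/-!
Row 235, package IND (helper167), part 5: the parallel complex structures of the quaternionic
Clifford pair `pairZ q s := pairQ q s` with `th = 0`.

* `structure PJ D J` : `J : κ → κ → M → ℝ` is a smooth parallel complex structure of the bundle
  `D : Bun n M κ` (skew, `J p = J = p J`, `J² = -p`, `mgrad J + [W, J] = 0`);
* `par_of_germ` : parallel from the local frames;
* `JZ b` (constant matrix `J ℝ b`) on `bunQ0`, `IP q s b` on `bunQ1`: `pj_Z0`, `pj_Z1`;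
* `cc_J` : `∑_B <s_A, I_b s_B> cc B y = ∑_x cc A x * J_b x y`: the symbol is complex linear;
* `quat0`, `quat1` : `I_0 I_1 = I_2` on both bundles.
-/

set_option autoImplicit false
set_option maxSynthPendingDepth 3
set_option linter.unusedSectionVars false
set_option linter.unusedSimpArgs false
set_option maxHeartbeats 1000000

open Filter Topology Set Bundle Manifold
open Matrix hiding J
open scoped ContDiff Kronecker
open Crest.GeometryTopology.CoordMetric Crest.GeometryTopology.ChartCurvature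
  Crest.GeometryTopology.PointedLimit
open Crest.Agent.R202.Tens Crest.Agent.R247.Bo84 Crest.Agent.R249.FrmB_285 Crest.Agent.R249.Vf281
  Crest.Agent.R249.Tz1_805 Crest.Agent.R249.Tz2_805
open Crest.Agent.R249.Fr129
open Crest.Agent.R249.C2_198 hiding cp half_two
open Crest.Agent.R249.Sg129 hiding fg fg_add fg_sub fg_mul fg_const fg_sum ev_fg contMDiff_inner VSm_mCov
open Crest.Agent.R249.Fr129.Frame (half two_half)
open Crest.Agent.R249.Tz805 Crest.Agent.R249.Dic805
open Crest.Agent.R235.IndAlg_167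

noncomputable section

namespace Crest.Agent.R235.Ind167

section gen

variable {n : ℕ} {M : Type*} [TopologicalSpace M] [ChartedSpace (EuclideanSpace ℝ (Fin n)) M]
  [IsManifold 𝓘(ℝ, EuclideanSpace ℝ (Fin n)) ∞ M]
  [RiemannianBundle (fun x : M => TangentSpace 𝓘(ℝ, EuclideanSpace ℝ (Fin n)) x)]
  [IsContMDiffRiemannianBundle 𝓘(ℝ, EuclideanSpace ℝ (Fin n)) ∞ (EuclideanSpace ℝ (Fin n))
      (fun x : M => TangentSpace 𝓘(ℝ, EuclideanSpace ℝ (Fin n)) x)]

local notation "𝔼" => EuclideanSpace ℝ (Fin n)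
local notation "𝓘E" => 𝓘(ℝ, EuclideanSpace ℝ (Fin n))

variable {κ : Type} [Fintype κ]

/-- a smooth parallel complex structure of the bundle `D` -/
structure PJ (D : Bun n M κ) (Jm : κ → κ → M → ℝ) : Prop where
  sm : ∀ a b, ContMDiff 𝓘(ℝ, EuclideanSpace ℝ (Fin n)) 𝓘(ℝ, ℝ) ∞ (Jm a b)
  skew : ∀ a b z, Jm a b z = - Jm b a z
  mulp : ∀ a b z, ∑ c, Jm a c z * D.p c b z = Jm a b z
  sq : ∀ a b z, ∑ c, Jm a c z * Jm c b z = - D.p a b z
  par : ∀ a b z, mgrad n (Jm a b) z + ∑ c, (Jm c b z • D.W a c z - Jm a c z • D.W c b z) = 0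

lemma PJ.pmul {D : Bun n M κ} {Jm : κ → κ → M → ℝ} (h : PJ D Jm) (a b : κ) (z : M) :
    ∑ c, D.p a c z * Jm c b z = Jm a b z := by
  have h1 := h.mulp b a z
  rw [h.skew a b z, ← h1, ← Finset.sum_neg_distrib]
  refine Finset.sum_congr rfl fun c _ => ?_
  rw [h.skew c b z, D.symmp a c z]
  ring

/-- a matrix field which is `j U jᵀ` in a local frame, with `U` parallel, is parallel -/
lemma par_of_germ {D : Bun n M κ} {z : M}
    {e : Fin n → EuclideanSpace ℝ (Fin n) → EuclideanSpace ℝ (Fin n)}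
    {h : ONF (chartMetric n M z) (chartAt (EuclideanSpace ℝ (Fin n)) z).target
      (chartCentre n M z) e}
    {ι : Type} [Fintype ι] [DecidableEq ι]
    {a : Fin n → Matrix ι ι (SG (chartCentre n M z))}
    {j : Matrix κ ι (SG (chartCentre n M z))} (L : LF D h a j)
    {p : κ → κ → M → ℝ} (smp : ∀ a b, ContMDiff 𝓘E 𝓘(ℝ, ℝ) ∞ (p a b))
    {U : Matrix ι ι (SG (chartCentre n M z))}
    (hp : (Matrix.of fun x y => fg (n := n) z (p x y)) = j * U * jᵀ)
    (hU : ∀ k, dM (h.frameOf.D k) U + a k * U - U * a k = 0)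
    (ha : ∀ k, (a k)ᵀ = - a k) (x y : κ) :
    mgrad n (p x y) z + ∑ c, (p c y z • D.W x c z - p x c z • D.W c y z) = 0 := by
  classical
  have smW := D.smW
  have smg : ∀ a b z, VSm n ∞ (fun q => mgrad n (p a b) q) z := fun a b z =>
    VSm_mgrad (smp a b z) (by simp) le_rfl
  have sm1 : ∀ c z, VSm n ∞ (fun q => p c y q • D.W x c q) z := fun c z =>
    VSm.smul le_rfl (smp c y).contMDiffAt (smW x c z)
  have sm2 : ∀ c z, VSm n ∞ (fun q => p x c q • D.W c y q) z := fun c z =>
    VSm.smul le_rfl (smp x c).contMDiffAt (smW c y z)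
  have sm12 : ∀ c z, VSm n ∞ (fun q => p c y q • D.W x c q - p x c q • D.W c y q) z := fun c z => by
    have := (sm1 c z).add (sm2 c z).neg
    have e1 : (fun q => p c y q • D.W x c q - p x c q • D.W c y q)
      = fun q => p c y q • D.W x c q + -(p x c q • D.W c y q) := funext fun q => sub_eq_add_neg _ _
    rw [e1]; exact this
  have sms : ∀ z, VSm n ∞ (fun q => ∑ c, (p c y q • D.W x c q - p x c q • D.W c y q)) z := fun z =>
    VSm.sum _ fun c _ => sm12 c z
  have smF : ∀ z, VSm n ∞ (fun q => mgrad n (p x y) q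
      + ∑ c, (p c y q • D.W x c q - p x c q • D.W c y q)) z := fun z => (smg x y z).add (sms z)
  set P := (Matrix.of fun x y => fg z (p x y) : Matrix κ κ (SG (chartCentre n M z)))
  have hw : ∀ k, (Matrix.of fun x y => vg z e (D.W x y) k)ᵀ
      = - (Matrix.of fun x y => vg z e (D.W x y) k) := by
    intro k
    ext x y
    change vg z e (D.W y x) k = - vg z e (D.W x y) k
    have e1 : D.W y x = fun q => -(D.W x y q) := funext fun q => D.skew y x q
    rw [e1]
    exact h.vg_neg (smW x y) k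
  have key : ∀ k, dM (h.frameOf.D k) P + ((Matrix.of fun x y => vg z e (D.W x y) k) * P
      - P * (Matrix.of fun x y => vg z e (D.W x y) k)) = 0 := by
    intro k
    set w := (Matrix.of fun x y => vg z e (D.W x y) k : Matrix κ κ (SG (chartCentre n M z)))
    have d1 : dM (h.frameOf.D k) j = j * a k - w * j := eq_sub_of_add_eq (L.dj k)
    have d2 : dM (h.frameOf.D k) jᵀ = - (a k * jᵀ) + jᵀ * w := by
      rw [dM_transpose, d1, Matrix.transpose_sub, Matrix.transpose_mul, Matrix.transpose_mul, hw k,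
        Matrix.mul_neg, sub_neg_eq_add, ha k, Matrix.neg_mul]
    have d3 : dM (h.frameOf.D k) U = U * a k - a k * U := by
      have := hU k
      rw [add_sub_assoc] at this
      rw [eq_neg_of_add_eq_zero_left this, neg_sub]
    rw [hp, dM_mul, dM_mul, d1, d2, d3]
    simp only [Matrix.sub_mul, Matrix.mul_sub, Matrix.add_mul, Matrix.mul_add, Matrix.mul_assoc,
      Matrix.neg_mul, Matrix.mul_neg]
    abel
  have key2 : ∀ k, vg z e (fun q => mgrad n (p x y) q
      + ∑ c, (p c y q • D.W x c q - p x c q • D.W c y q)) k = 0 := by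
    intro k
    have h1 := congrFun (congrFun (key k) x) y
    rw [R249.Dic805.vg_add h (smg x y) sms, R249.Dic805.vg_sum h _ sm12,
      ← R249.Dic805.D_fg h (smp x y)]
    rw [Matrix.add_apply, Matrix.sub_apply, Matrix.mul_apply, Matrix.mul_apply,
      ← Finset.sum_sub_distrib, Matrix.zero_apply] at h1
    rw [← h1]
    congr 1
    refine Finset.sum_congr rfl fun c _ => ?_
    rw [R249.Dic805.vg_sub h (sm1 c) (sm2 c), R249.Dic805.vg_smul h (smp c y) (smW x c),
      R249.Dic805.vg_smul h (smp x c) (smW c y)]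
    simp only [Matrix.of_apply, P]
    ring
  have h2 := h.eq_sum_ev_vg smF
  rw [h2]
  refine Finset.sum_eq_zero fun k _ => ?_
  have : h.vg (fun q => mgrad n (p x y) q
      + ∑ c, (p c y q • D.W x c q - p x c q • D.W c y q)) k = 0 := key2 k
  rw [this, map_zero, zero_smul]

end gen

variable {M : Type*} [TopologicalSpace M] [ChartedSpace (EuclideanSpace ℝ (Fin 4)) M]
  [IsManifold 𝓘(ℝ, EuclideanSpace ℝ (Fin 4)) ∞ M]
  [RiemannianBundle (fun x : M => TangentSpace 𝓘(ℝ, EuclideanSpace ℝ (Fin 4)) x)]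
  [IsContMDiffRiemannianBundle 𝓘(ℝ, EuclideanSpace ℝ (Fin 4)) ∞ (EuclideanSpace ℝ (Fin 4))
      (fun x : M => TangentSpace 𝓘(ℝ, EuclideanSpace ℝ (Fin 4)) x)]

local notation "𝔼" => EuclideanSpace ℝ (Fin 4)
local notation "𝓘E" => 𝓘(ℝ, EuclideanSpace ℝ (Fin 4))

variable (q : QS M) {κ : Type} [Fintype κ] (s : PF 4 M κ)

/-- the zero `so(3)`-connection -/
def thZ (_ : Fin 3) (z : M) : TangentSpace 𝓘(ℝ, EuclideanSpace ℝ (Fin 4)) z := 0

lemma sm_thZ (b : Fin 3) (z : M) : VSm 4 ∞ (thZ (M := M) b) z := VSm_zero z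

/-- **the quaternionic pair** -/
def pairZ : CPair 4 M κ (Fin 4) κ := pairQ q s sm_thZ

/-- the constant complex structures of `ℝ⁴` (left multiplications) -/
def JZ (b : Fin 3) (x y : Fin 4) (_ : M) : ℝ := J ℝ b x y

lemma J_skewR (b : Fin 3) (x y : Fin 4) : J ℝ b x y = - J ℝ b y x := by
  fin_cases b <;> fin_cases x <;> fin_cases y <;> simp [J]

lemma J_sqR (b : Fin 3) : J ℝ b * J ℝ b = -1 := by
  ext x y
  rw [Matrix.mul_apply, Fin.sum_univ_four, Matrix.neg_apply, Matrix.one_apply]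
  fin_cases b <;> fin_cases x <;> fin_cases y <;> simp [J]

lemma JK_commR (b c : Fin 3) : J ℝ b * K ℝ c = K ℝ c * J ℝ b := by
  ext x y
  rw [Matrix.mul_apply, Matrix.mul_apply, Fin.sum_univ_four, Fin.sum_univ_four]
  fin_cases b <;> fin_cases c <;> fin_cases x <;> fin_cases y <;> simp [J, K]

/-- `J_b` is parallel on the first bundle -/
theorem pj_Z0 (b : Fin 3) : PJ (bunQ0 q s sm_thZ) (JZ b) where
  sm _ _ := contMDiff_const
  skew x y _ := J_skewR b x y
  mulp x y z := by
    change ∑ c, J ℝ b x c * (if c = y then (1:ℝ) else 0) = J ℝ b x y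
    simp
  sq x y z := by
    have h := congrFun (congrFun (J_sqR b) x) y
    rw [Matrix.mul_apply, Matrix.neg_apply, Matrix.one_apply] at h
    exact h
  par x y z := by
    have h0 : mgrad 4 (JZ b x y : M → ℝ) z = 0 := mgrad_const _
    rw [h0, zero_add]
    have h1 : ∀ c, JZ b c y z • (bunQ0 q s sm_thZ).W x c z - JZ b x c z • (bunQ0 q s sm_thZ).W c y z
        = (1 / 2 : ℝ) • ∑ d, (K ℝ d x c * J ℝ b c y - J ℝ b x c * K ℝ d c y) • etaV q s d z := by
      intro c
      change J ℝ b c y • bW0 q s thZ x c z - J ℝ b x c • bW0 q s thZ c y z = _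
      rw [bW0, bW0]
      simp only [thZ, smul_zero, add_zero, sub_smul, Finset.sum_sub_distrib, mul_smul]
      rw [smul_comm (J ℝ b c y), smul_comm (J ℝ b x c), ← smul_sub, Finset.smul_sum,
        Finset.smul_sum]
      congr 2
      exact Finset.sum_congr rfl fun d _ => smul_comm _ _ _
    rw [Finset.sum_congr rfl fun c _ => h1 c, ← Finset.smul_sum, Finset.sum_comm]
    have h2 : ∀ d, ∑ c, (K ℝ d x c * J ℝ b c y - J ℝ b x c * K ℝ d c y) • etaV q s d z = 0 := by
      intro d
      rw [← Finset.sum_smul, Finset.sum_sub_distrib]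
      have h3 := congrFun (congrFun (JK_commR b d) x) y
      rw [Matrix.mul_apply, Matrix.mul_apply] at h3
      rw [h3, sub_self, zero_smul]
    rw [Finset.sum_eq_zero fun d _ => h2 d, smul_zero]

lemma IP_IP (b c : Fin 3) (A B : κ) (z : M) :
    ∑ C, IP q s b A C z * IP q s c C B z
      = inner ℝ (s.s A z) (q.op b z (q.op c z (s.s B z))) := by
  have h := congrArg (fun v => (inner ℝ (s.s A z) (q.op b z v) : ℝ))
    (s.pars z (q.op c z (s.s B z)))
  simp only [q.op_sum, q.op_smul, inner_sum, inner_smul_right] at h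
  rw [← h]
  refine Finset.sum_congr rfl fun C _ => ?_
  rw [mul_comm]
  rfl

lemma vg_thZ {z : M} {e : Fin 4 → EuclideanSpace ℝ (Fin 4) → EuclideanSpace ℝ (Fin 4)}
    (h : ONF (chartMetric 4 M z) (chartAt (EuclideanSpace ℝ (Fin 4)) z).target
      (chartCentre 4 M z) e) : thF (thZ (M := M)) z e = fun _ _ => 0 := by
  funext k b
  have h1 := R249.Dic805.vg_smul h (f := fun _ => (0 : ℝ)) (X := thZ (M := M) b) contMDiff_const
    (sm_thZ b) k
  rw [R249.Dic805.fg_const, map_zero, zero_mul] at h1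
  have e : (fun q : M => (0 : ℝ) • thZ (M := M) b q) = thZ b := by
    funext q; exact smul_zero _
  rw [e] at h1
  exact h1

lemma Kp_single (S : Type*) [CommRing S] (b : Fin 3) : Kp (Pi.single b (1 : S)) = K S b := by
  ext i j
  fin_cases b <;> fin_cases i <;> fin_cases j <;> simp [Kp, K]

lemma JJ_single (S : Type*) [CommRing S] (b : Fin 3) : JJ (Pi.single b (1 : S)) = J S b := by
  ext i j
  fin_cases b <;> fin_cases i <;> fin_cases j <;> simp [JJ, J]

section ring

variable {S : Type*} [CommRing S] [Algebra ℝ S] (F : Frame 4 S)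

lemma dM_K (b : Fin 3) (k : Fin 4) : dM (F.D k) (K S b) = 0 := by
  ext x y
  change F.D k (K S b x y) = 0
  fin_cases b <;> fin_cases x <;> fin_cases y <;> simp [K]

lemma dM_J (b : Fin 3) (k : Fin 4) : dM (F.D k) (J S b) = 0 := by
  ext x y
  change F.D k (J S b x y) = 0
  fin_cases b <;> fin_cases x <;> fin_cases y <;> simp [J]

lemma bA1_comm (b : Fin 3) (k : Fin 4) :
    bA1 F (fun _ _ => 0) k * K S b = K S b * bA1 F (fun _ _ => 0) k := by
  rw [bA1_eq]
  have h : Kp (fun _ => (0 : S)) = 0 := by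
    ext i j; fin_cases i <;> fin_cases j <;> simp [Kp]
  rw [h, add_zero, Matrix.smul_mul, Matrix.mul_smul, ← Kp_single, JK_comm]

lemma bA0_comm (b : Fin 3) (k : Fin 4) :
    bA0 F (fun _ _ => 0) k * J S b = J S b * bA0 F (fun _ _ => 0) k := by
  rw [bA0_eq]
  have h : JJ (fun _ => (0 : S)) = 0 := by
    ext i j; fin_cases i <;> fin_cases j <;> simp [JJ]
  rw [h, add_zero, Matrix.smul_mul, Matrix.mul_smul, ← JJ_single, JK_comm]

lemma bA1_t (θ : Fin 4 → Fin 3 → S) (k : Fin 4) : (bA1 F θ k)ᵀ = - bA1 F θ k := by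
  rw [bA1_eq, Matrix.transpose_smul, Matrix.transpose_add, JJ_t, Kp_t, ← neg_add, smul_neg]

lemma bA0_t (θ : Fin 4 → Fin 3 → S) (k : Fin 4) : (bA0 F θ k)ᵀ = - bA0 F θ k := by
  rw [bA0_eq, Matrix.transpose_smul, Matrix.transpose_add, JJ_t, Kp_t, ← neg_add, smul_neg]

end ring

/-- `I_b` is parallel on the second bundle -/
theorem pj_Z1 (b : Fin 3) : PJ (bunQ1 q s sm_thZ) (IP q s b) where
  sm := sm_IP q s b
  skew A B z := IP_skew q s b A B z
  mulp A B z := IP_mul_P q s b A B z
  sq A B z := by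
    rw [IP_IP, q.op_op, inner_neg_right]
    rfl
  par A B z := by
    obtain ⟨e, h, ha⟩ := exists_adp q z
    have hp : (Matrix.of fun x y => fg (n := 4) z (IP q s b x y))
        = tanJ s z e * K (SG (chartCentre 4 M z)) b * (tanJ s z e)ᵀ := by
      ext x y
      exact fg_IP s h ha b x y
    refine par_of_germ (lf_bunQ1 s sm_thZ h ha) (sm_IP q s b) hp (fun k => ?_)
      (fun k => bA1_t _ _ _) A B
    rw [dM_K, zero_add, vg_thZ h, bA1_comm, sub_self]

/-- the symbol intertwines the complex structures -/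
theorem cc_J (b : Fin 3) (A : κ) (y : Fin 4) (z : M) :
    ∑ B, IP q s b A B z • ccQ q s B y z = ∑ x, J ℝ b x y • ccQ q s A x z := by
  have h1 : ∑ B, IP q s b A B z • s.s B z = - q.op b z (s.s A z) := by
    rw [← s.pars z (q.op b z (s.s A z)), ← Finset.sum_neg_distrib]
    refine Finset.sum_congr rfl fun B _ => ?_
    rw [← neg_smul]
    congr 1
    rw [IP, QS.ap, real_inner_comm]
    exact q.op_skew b z (s.s B z) (s.s A z)
  have h2 : ∀ c, ∑ B, IP q s b A B z • (- q.ap c (s.s B) z) = q.op c z (q.op b z (s.s A z)) := by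
    intro c
    have h3 := congrArg (fun v => - q.op c z v) h1
    simp only [q.op_sum, q.op_smul, q.op_neg, neg_neg] at h3
    rw [← h3, ← Finset.sum_neg_distrib]
    exact Finset.sum_congr rfl fun B _ => smul_neg _ _
  have e0 : ∀ B, ccQ q s B 0 z = s.s B z := fun _ => rfl
  have e1 : ∀ B, ccQ q s B 1 z = - q.ap 0 (s.s B) z := fun _ => rfl
  have e2 : ∀ B, ccQ q s B 2 z = - q.ap 1 (s.s B) z := fun _ => rfl
  have e3 : ∀ B, ccQ q s B 3 z = - q.ap 2 (s.s B) z := fun _ => rfl
  have k : ∀ c, q.ap c (s.s A) z = q.op c z (s.s A z) := fun _ => rfl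
  rw [Fin.sum_univ_four (fun x => J ℝ b x y • ccQ q s A x z)]
  rw [e0, e1, e2, e3, k, k, k]
  fin_cases y
  · simp only [Fin.zero_eta, e0, h1]
    fin_cases b <;> simp [J]
  · simp only [Fin.mk_one, e1, h2]
    fin_cases b <;> simp [J, q.op_op, q.op01, q.op02]
  · simp only [Fin.reduceFinMk, e2, h2]
    fin_cases b <;> simp [J, q.op_op, q.op10, q.op12]
  · simp only [Fin.reduceFinMk, e3, h2]
    fin_cases b <;> simp [J, q.op_op, q.op20, q.op21]

/-- the quaternion relation on the first bundle -/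
theorem quat0 (x y : Fin 4) : ∑ c, J ℝ 0 x c * J ℝ 1 c y = J ℝ 2 x y := by
  rw [Fin.sum_univ_four]
  fin_cases x <;> fin_cases y <;> simp [J]

/-- the quaternion relation on the second bundle -/
theorem quat1 (A B : κ) (z : M) : ∑ C, IP q s 0 A C z * IP q s 1 C B z = IP q s 2 A B z := by
  rw [IP_IP, q.op01]
  rfl

end Crest.Agent.R235.Ind167
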