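import Crest.Agent.R235.SWTau_53

/-!
Row 235 (S0364), PACKAGE SW, MODEL-4 (helper451): the structure `Sym S cc` = the algebraic facts on the
symbol `cc`, the complex structure `J` and the matrices `rho_k` of a Seiberg-Witten system `S` which
are used in M4 (`sh`, identity DE) and M5 (T1, T2, T3, helper483).
-/

set_option autoImplicit false
set_option maxSynthPendingDepth 3
set_option linter.unusedSectionVars false

open scoped ContDiff ENNReal NNReal Topology Manifold Bundle RealInnerProductSpace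
open MeasureTheory Set Filter Metric Bundle

universe v

namespace Crest.Agent.R235.SWSym_451

open Crest.Agent.R249.Tv57 Crest.Agent.R247.Ms322 Crest.Agent.R247.Dir593
open Crest.Agent.R235.SWDefs_53

noncomputable section

variable {M : Type v} [MetricSpace M] [CompactSpace M] [ConnectedSpace M]
  [ChartedSpace (EuclideanSpace ℝ (Fin 4)) M] [IsManifold (𝓡 4) ∞ M]
  [RiemannianBundle (fun p : M => TangentSpace (𝓡 4) p)]
  [IsContMDiffRiemannianBundle (𝓡 4) ∞ (EuclideanSpace ℝ (Fin 4))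
    (fun p : M => TangentSpace (𝓡 4) p)]
  [IsRiemannianManifold (𝓡 4) M] [MeasurableSpace M] [BorelSpace M]
  [SecondCountableTopology M] [Nonempty M]
  {κ0 κ1 κT : Type} [Fintype κ0] [Fintype κ1] [Fintype κT]

/-- algebraic facts on the symbol `cc` of the Dirac operator `S.P.A`, on `S.J` and `S.rho`. -/
structure Sym (S : SWS M κ0 κ1 κT) (cc : κ1 → κ0 → M → EuclideanSpace ℝ (Fin 4)) : Prop where
  smcc : ∀ x y, SmF (cc x y)
  A_eq : ∀ u, SmV (n := 4) u → S.D0.Sec u → ∀ x z,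
    S.P.A u x z = ∑ y, ⟪S.D0.cv u y z, cc x y z⟫
  cl_eq : ∀ A x y z, S.cl A x y z = ∑ y', ⟪cc x y' z, S.s A z⟫ * S.J y' y z
  /-- `c p₀ = c` -/
  cc_p : ∀ x y z, ∑ y', S.D0.p y' y z • cc x y' z = cc x y z
  /-- `p₁ c = c` -/
  p_cc : ∀ x y z, ∑ x', S.D1.p x x' z • cc x' y z = cc x y z
  clif0 : ∀ z (X Y : EuclideanSpace ℝ (Fin 4)) y y',
    ∑ x, (⟪cc x y z, X⟫ * ⟪cc x y' z, Y⟫ + ⟪cc x y z, Y⟫ * ⟪cc x y' z, X⟫) =
      2 * ⟪X, Y⟫ * S.D0.p y y' z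
  clif1 : ∀ z (X Y : EuclideanSpace ℝ (Fin 4)) x x',
    ∑ y, (⟪cc x y z, X⟫ * ⟪cc x' y z, Y⟫ + ⟪cc x y z, Y⟫ * ⟪cc x' y z, X⟫) =
      2 * ⟪X, Y⟫ * S.D1.p x x' z
  rk0 : ∀ z, ∑ y, S.D0.p y y z = 4
  rk1 : ∀ z, ∑ x, S.D1.p x x z = 4
  skewJ : ∀ y y' z, S.J y y' z = - S.J y' y z
  smJ : ∀ y y', ContMDiff (𝓡 4) 𝓘(ℝ, ℝ) ∞ (S.J y y')
  pJ : ∀ y y'' z, ∑ y', S.D0.p y y' z * S.J y' y'' z = S.J y y'' z
  Jsq : ∀ y y'' z, ∑ y', S.J y y' z * S.J y' y'' z = - S.D0.p y y'' z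
  /-- `J` is parallel -/
  Jpar : ∀ y y' z, Gr (n := 4) (S.J y y') z +
    ∑ c, (S.J c y' z • S.D0.X y c z - S.J y c z • S.D0.X c y' z) = 0
  /-- the complex structure on the other side -/
  exJ1 : ∀ z, ∃ J1 : κ1 → κ1 → ℝ, (∀ x x', J1 x x' = - J1 x' x) ∧
    ∀ x y, ∑ x', J1 x x' • cc x' y z = ∑ y', S.J y' y z • cc x y' z
  smrho : ∀ k y y', ContMDiff (𝓡 4) 𝓘(ℝ, ℝ) ∞ (S.rho k y y')
  symrho : ∀ k y y' z, S.rho k y y' z = S.rho k y' y z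
  prho : ∀ k y y'' z, ∑ y', S.D0.p y y' z * S.rho k y' y'' z = S.rho k y y'' z
  Jrho : ∀ k y y'' z, ∑ y', S.J y y' z * S.rho k y' y'' z = ∑ y', S.rho k y y' z * S.J y' y'' z
  /-- `ρ_j ρ_k + ρ_k ρ_j = 2 δ_jk p₀` -/
  anti : ∀ j k y y'' z, ∑ y', (S.rho j y y' z * S.rho k y' y'' z +
    S.rho k y y' z * S.rho j y' y'' z) = if j = k then 2 * S.D0.p y y'' z else 0
  /-- `ρ_j ρ_{j+1} = ι J ρ_{j+2}` -/
  cyc : ∃ ι : ℝ, ι ^ 2 = 1 ∧ ∀ j y y'' z, ∑ y', S.rho j y y' z * S.rho (j + 1) y' y'' z =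
    ι * ∑ y', S.J y y' z * S.rho (j + 2) y' y'' z
  /-- the sections of `DT` are the vector fields, `s` is a tight frame -/
  pT : ∀ A B z, S.DT.p A B z = ⟪S.s A z, S.s B z⟫
  tight : ∀ z (X : EuclideanSpace ℝ (Fin 4)), ∑ A, ⟪X, S.s A z⟫ • S.s A z = X
  sms : ∀ A, SmF (S.s A)

end

end Crest.Agent.R235.SWSym_451
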