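import Crest.Agent.R235.SymQ_755
import Crest.Agent.R235.IndPar_167
import Crest.Agent.R235.SWSym_451
import Crest.Agent.R235.TauG_483
import Crest.Agent.R249.WkD_352
import Crest.Agent.R249.Tv12_57

/-!
Row 235 (S0364), PACKAGE SW, MODEL-2/6 (helper755): THE SEIBERG-WITTEN SYSTEM of a quaternionic
Clifford pair `P` (167's pair twisted by a line bundle) and a Hodge pair `H`.

* `swsQ T P Jf Kt H : SWS M κ0 κ1 κ`;
* `ok_of`  : `SWS.OK` from `Twf`, `fullL`, `one` and the Weitzenboeck identity;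
* `sym_of` : 451's `Sym`;
* `tg_of`  : 483's `TG` with `σ = -1`, `ι = -1`, from `HB`, `cvT` and the bridge to the triple.
-/

set_option autoImplicit false
set_option maxSynthPendingDepth 3
set_option linter.unusedSectionVars false
set_option maxHeartbeats 1000000

open scoped ContDiff ENNReal NNReal Topology Manifold Bundle RealInnerProductSpace
open MeasureTheory Set Filter Metric Bundle

universe v

namespace Crest.Agent.R235.SwsQ_755

open Crest.Agent.R240 Crest.Agent.R240.Ch Crest.Agent.R235.SWDefs_53 Crest.Agent.R235.IndTri_451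
open Crest.Agent.R249.Tv57 (Dat OpPair SmF Spec)
open Crest.Agent.R247.Ms322 (Gr)
open Crest.Agent.R249.Vf281 (VSm mCov)
open Crest.Agent.R249.Tz805 (ToF CPair Bun opA)
open Crest.Agent.R249.Wk352 (dat0 dpair swapP)
open Crest.Agent.R235.Ind167 (QS PJ)
open Crest.Agent.R235.Mdl2_755 Crest.Agent.R235.SymQ_755

noncomputable section

variable {M : Type v} [MetricSpace M] [CompactSpace M] [ConnectedSpace M]
  [ChartedSpace (EuclideanSpace ℝ (Fin 4)) M] [IsManifold (𝓡 4) ∞ M]
  [RiemannianBundle (fun p : M => TangentSpace (𝓡 4) p)]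
  [IsContMDiffRiemannianBundle (𝓡 4) ∞ (EuclideanSpace ℝ (Fin 4))
    (fun p : M => TangentSpace (𝓡 4) p)]
  [IsRiemannianManifold (𝓡 4) M] [MeasurableSpace M] [BorelSpace M]
  [SecondCountableTopology M] [Nonempty M]
  {κ κ0 κ1 : Type} [Fintype κ] [Fintype κ0] [Fintype κ1]

/-- `toF` is onto -/
lemma toF_surj (T : ToF 4 M) (z : M) (X : EuclideanSpace ℝ (Fin 4)) :
    ∃ V : TangentSpace (𝓡 4) z, T.toF z V = X := by
  have hinj : Function.Injective (T.toF z) := by
    rw [injective_iff_map_eq_zero]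
    intro V hV
    have h1 := T.inner_toF z V V
    rw [hV, inner_zero_left] at h1
    exact inner_self_eq_zero.1 h1.symm
  have : FiniteDimensional ℝ (TangentSpace (𝓡 4) z) :=
    inferInstanceAs (FiniteDimensional ℝ (EuclideanSpace ℝ (Fin 4)))
  have hd : Module.finrank ℝ (TangentSpace (𝓡 4) z)
      = Module.finrank ℝ (EuclideanSpace ℝ (Fin 4)) := rfl
  exact (LinearMap.injective_iff_surjective_of_finrank_eq_finrank hd).1 hinj X

variable (T : ToF 4 M) (P : CPair 4 M κ κ0 κ1) (Jf : κ0 → κ0 → M → ℝ)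
  (Kt : Fin 3 → κ0 → κ0 → M → ℝ) {DL : Dat 4 M (Fin 4)} {DT : Dat 4 M κ} (H : OpPair DL DT)

/-- **the Seiberg-Witten system** -/
def swsQ : SWS M κ0 κ1 κ where
  D0 := dat0 T P
  D1 := dat0 T (swapP P)
  P := Crest.Agent.R249.Tv57.ofD (dpair T P)
  DL := DL
  DT := DT
  H := H
  s A z := T.toF z (P.s.s A z)
  J := Jf
  cl := clJ P Jf
  rho := rho Jf Kt

lemma swsQ_D0p (a b : κ0) (z : M) : (swsQ T P Jf Kt H).D0.p a b z = P.D0.p a b z := rfl
lemma swsQ_D1p (a b : κ1) (z : M) : (swsQ T P Jf Kt H).D1.p a b z = P.D1.p a b z := rfl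
lemma swsQ_A (u : κ0 → M → ℝ) : (swsQ T P Jf Kt H).P.A u = opA P.D0 P.cc u := rfl

variable {P Jf Kt}

/-- `SWS.OK` from the Weitzenboeck identity -/
theorem ok_of {q : QS M} (h : Twf q P Jf Kt)
    (full : ∀ a b z, DL.p a b z = if a = b then 1 else 0)
    (one : ∀ x z, H.A (Fin.cons (fun _ => 1) fun _ _ => 0) x z = 0)
    (weitz : ∀ (a : κ → M → ℝ) (u w : κ0 → M → ℝ), Crest.Agent.R249.Tv57.SmV (n := 4) a →
      DT.Sec a → Crest.Agent.R249.Tv57.SmV (n := 4) u → P.D0.Sec u →
      Crest.Agent.R249.Tv57.SmV (n := 4) w → P.D0.Sec w →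
      Crest.Agent.R249.Tv57.ip 4 ((swsQ T P Jf Kt H).P.A u + (swsQ T P Jf Kt H).cm a u)
          ((swsQ T P Jf Kt H).P.A w + (swsQ T P Jf Kt H).cm a w) =
        ∫ z, ((∑ y, ⟪(swsQ T P Jf Kt H).nab a u y z, (swsQ T P Jf Kt H).nab a w y z⟫) +
          (∑ y, ∑ y', (swsQ T P Jf Kt H).D0.Q y y' z * u y' z * w y z) +
          ∑ k : Fin 3, H.B a k.succ z * ∑ y, ∑ y', rho Jf Kt k y y' z * u y z * w y' z)
        ∂(μHE[4] : Measure M)) :
    (swsQ T P Jf Kt H).OK where
  smcl := smooth_clJ P Jf h.smJ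
  smrho := h.sm_rho
  smJ := h.smJ
  sms A := T.smooth _ (P.s.sm A)
  symrho k y y' z := h.rho_symm z k y y'
  skewJ y y' z := h.J_skew z y y'
  fullL := full
  one := one
  clsec A x y z := p1_clJ P z Jf A x y
  clbd z a u := clJ_le P z Jf (h.J_skew z) (h.p_J z) (h.J_sq z) a u
  fierz z u hu := h.fierzT z u hu
  weitz := weitz

/-- **451's structure** -/
theorem sym_of {q : QS M} (h : Twf q P Jf Kt) (hJ : PJ P.D0 Jf) {J1 : κ1 → κ1 → M → ℝ}
    (sk1 : ∀ a b z, J1 a b z = - J1 b a z)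
    (cJ : ∀ x y z, ∑ x', J1 x x' z • P.cc x' y z = ∑ y', Jf y' y z • P.cc x y' z)
    (pT : ∀ A B z, DT.p A B z = inner ℝ (P.s.s A z) (P.s.s B z)) :
    Crest.Agent.R235.SWSym_451.Sym (swsQ T P Jf Kt H) (fun x y z => T.toF z (P.cc x y z)) where
  smcc x y := T.smooth _ (P.smc x y)
  A_eq u hu hs x z := by
    rw [swsQ_A]
    refine Finset.sum_congr rfl fun y _ => ?_
    have h1 : (swsQ T P Jf Kt H).D0.cv u y z = T.toF z (P.D0.cv u y z) :=
      Bun.cv_dat T P.D0 _ _ _ _ hu y z
    rw [h1, T.inner_toF]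
  cl_eq A x y z := by
    change clJ P Jf A x y z = _
    rw [clJ]
    refine Finset.sum_congr rfl fun y' _ => ?_
    change _ = (inner ℝ (T.toF z (P.cc x y' z)) (T.toF z (P.s.s A z)) : ℝ) * Jf y' y z
    rw [T.inner_toF]
  cc_p x y z := by
    have h1 : ∑ y', P.D0.p y' y z • P.cc x y' z = P.cc x y z := by
      refine ext_inner_right ℝ fun V => ?_
      rw [sum_inner]
      have h2 := congrFun (congrFun (cc_p0 P z V) x) y
      rw [Matrix.mul_apply] at h2
      refine Eq.trans ?_ h2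
      refine Finset.sum_congr rfl fun y' _ => ?_
      rw [real_inner_smul_left, mul_comm]
      rfl
    have h3 := congrArg (T.toF z) h1
    rw [map_sum] at h3
    simp only [map_smul] at h3
    exact h3
  p_cc x y z := by
    have h1 : ∑ x', P.D1.p x x' z • P.cc x' y z = P.cc x y z := by
      refine ext_inner_right ℝ fun V => ?_
      rw [sum_inner]
      have h2 := congrFun (congrFun (p1_cc P z V) x) y
      rw [Matrix.mul_apply] at h2
      refine Eq.trans ?_ h2
      refine Finset.sum_congr rfl fun y' _ => ?_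
      rw [real_inner_smul_left]
      rfl
    have h3 := congrArg (T.toF z) h1
    rw [map_sum] at h3
    simp only [map_smul] at h3
    exact h3
  clif0 z X Y y y' := by
    obtain ⟨V, rfl⟩ := toF_surj T z X
    obtain ⟨W, rfl⟩ := toF_surj T z Y
    simp only [T.inner_toF]
    exact Twf.clif0' P z V W y y'
  clif1 z X Y x x' := by
    obtain ⟨V, rfl⟩ := toF_surj T z X
    obtain ⟨W, rfl⟩ := toF_surj T z Y
    simp only [T.inner_toF]
    exact Twf.clif1' P z V W x x'
  rk0 := h.trace_p0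
  rk1 := h.trace_p1
  skewJ y y' z := h.J_skew z y y'
  smJ := h.smJ
  pJ y y'' z := h.p_J z y y''
  Jsq y y'' z := h.J_sq z y y''
  Jpar y y' z := by
    have h1 := congrArg (T.toF z) (hJ.par y y' z)
    rw [map_add, map_sum, T.grad _ _ (h.smJ y y')] at h1
    simp only [map_sub, map_smul, map_zero] at h1
    exact h1
  exJ1 z := by
    refine ⟨fun x x' => J1 x x' z, fun x x' => sk1 x x' z, fun x y => ?_⟩
    have h3 := congrArg (T.toF z) (cJ x y z)
    rw [map_sum, map_sum] at h3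
    simp only [map_smul] at h3
    exact h3
  smrho := h.sm_rho
  symrho k y y' z := h.rho_symm z k y y'
  prho k y y'' z := h.p_rho z k y y''
  Jrho k y y'' z := (h.J_rho z k y y'').trans (h.rho_J z k y y'').symm
  anti j k y y'' z := by
    rw [Finset.sum_add_distrib]
    exact h.rho_cl z j k y y''
  cyc := by
    refine ⟨-1, by norm_num, fun j y y'' z => ?_⟩
    fin_cases j
    · rw [neg_one_mul]
      exact h.rho_mul01 z y y''
    · rw [neg_one_mul]
      exact h.rho_mul12 z y y''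
    · rw [neg_one_mul]
      exact h.rho_mul20 z y y''
  pT A B z := (pT A B z).trans (T.inner_toF z _ _).symm
  tight z X := by
    obtain ⟨V, rfl⟩ := toF_surj T z X
    have h1 := congrArg (T.toF z) (P.s.pars z V)
    rw [map_sum] at h1
    simp only [map_smul] at h1
    refine Eq.trans ?_ h1
    refine Finset.sum_congr rfl fun A _ => ?_
    change (inner ℝ (T.toF z V) (T.toF z (P.s.s A z)) : ℝ) • T.toF z (P.s.s A z) = _
    rw [T.inner_toF, real_inner_comm]
  sms A := T.smooth _ (P.s.sm A)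

/-- **483's structure** -/
theorem tg_of {q : QS M} (h : Twf q P Jf Kt) (hJ : PJ P.D0 Jf) {w : Trip M} {e : Fin 3 → F2 E4 M}
    (tri : IsTri (fun i => (w i).1.1) e)
    (met : ∀ (x : M) (u v : TangentSpace (𝓡 4) x), inner ℝ u v = at2 (gg e) x u v)
    (hq : ∀ k z (X Y : TangentSpace (𝓡 4) z), at2 (e k) z X Y = inner ℝ (q.op k z X) Y)
    (HB : ∀ a : κ → M → ℝ, Crest.Agent.R249.Tv57.SmV (n := 4) a → DT.Sec a →
      ∀ (k : Fin 3) (z : M), H.B a k.succ z
        = 2 * (-1) * qG (w 0).1.1 (e k) (dG (RiemB_399.flG (gg e) (Tau483.fld P.s.s a))) z)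
    (cvT : ∀ a : κ → M → ℝ, Crest.Agent.R249.Tv57.SmV (n := 4) a → DT.Sec a →
      ∀ (z : M) (u v : TangentSpace (𝓡 4) z),
      ∑ A, inner ℝ (DT.cv a A z) (T.toF z u) * inner ℝ (P.s.s A z) v =
        inner ℝ (mCov 4 (Tau483.fld P.s.s a) z u) v) :
    Tau483.TG (swsQ T P Jf Kt H) T P.cc P.D0.W P.s.s w e (-1) (-1) where
  tri := tri
  met := met
  X_eq _ _ _ := rfl
  smW := P.D0.smW
  s_eq _ _ := rfl
  smsT := P.s.sm
  J2 y y'' z := h.J_sq z y y''
  pJ y y'' z := h.p_J z y y''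
  parJ y y' z := by
    have h1 := congrArg (T.toF z) (hJ.par y y' z)
    rw [map_add, map_sum, T.grad _ _ (h.smJ y y')] at h1
    simp only [map_sub, map_smul, map_zero] at h1
    exact h1
  Jrho k y y'' z := (h.J_rho z k y y'').trans (h.rho_J z k y y'').symm
  prho k y y'' z := h.p_rho z k y y''
  rho2 j k y y'' z := by
    rw [Finset.sum_add_distrib]
    exact h.rho_cl z j k y y''
  rho3 j y y'' z := by
    fin_cases j
    · rw [neg_one_mul]
      exact h.rho_mul01 z y y''
    · rw [neg_one_mul]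
      exact h.rho_mul12 z y y''
    · rw [neg_one_mul]
      exact h.rho_mul20 z y y''
  tr := h.trace_p0
  clf z X Y y y' := by
    refine (h.clf z X Y y y').trans ?_
    rw [neg_one_mul, ← sub_eq_add_neg]
    simp only [hq]
    rfl
  HB := HB
  cvT := cvT

end

end Crest.Agent.R235.SwsQ_755
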