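import Crest.Agent.R235.MdlA_344
import Crest.Agent.R235.SwsQ_755
import Crest.Agent.R235.Mdl3B_399
import Crest.Agent.R235.LTwE_453
import Crest.Agent.R249.WkD_352

/-!
Row 235, PACKAGE SW, block MODEL (task 337), part 4 (helper344): the Weitzenboeck identity of the
Seiberg-Witten system `swsQ` (755) of a quaternionic Clifford pair with complex structure, with the
Hodge pair `Hp` (399); `SWS.OK`.

* `pj_of` : 167's `PJ` gives `AddJ_344.PJ`;
* `weitzQ` : the field `weitz` of `SWS.OK`;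
* `okQ`    : `(swsQ T P Jf Kt (Hp T q P.s)).OK`;
* `cjZ`, `okZ` : the twist `twZ` (453) of 167's quaternionic pair by a line bundle.
-/

set_option autoImplicit false
set_option maxSynthPendingDepth 3
set_option linter.unusedSectionVars false

open Filter Topology Set Bundle Manifold MeasureTheory Metric
open Matrix hiding J
open scoped ContDiff ENNReal NNReal RealInnerProductSpace
open Crest.GeometryTopology.CoordMetric Crest.GeometryTopology.ChartCurvature
  Crest.GeometryTopology.PointedLimit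
open Crest.Agent.R202.Tens Crest.Agent.R249.FrmB_285 Crest.Agent.R249.Vf281
  Crest.Agent.R249.Tz1_805 Crest.Agent.R249.Tz2_805
open Crest.Agent.R249.Tz805
open Crest.Agent.R249.Wk352 (dat0 dpair swapP weak_int)
open Crest.Agent.R249.Tv57 (SmV)
open Crest.Agent.R235.Ind167 (QS)
open Crest.Agent.R235.Mdl2_755 Crest.Agent.R235.SymQ_755
open Crest.Agent.R249.Idx789 Crest.Agent.R235.SWDefs_53 Crest.Agent.R235.AddJ_344
open Crest.Agent.R235.SwsQ_755 Crest.Agent.R235.Mdl3_399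

universe v

noncomputable section

namespace Crest.Agent.R235.MdlS_344

section bridge

variable {n : ℕ} {M : Type*} [TopologicalSpace M] [ChartedSpace (EuclideanSpace ℝ (Fin n)) M]
  [IsManifold 𝓘(ℝ, EuclideanSpace ℝ (Fin n)) ∞ M]
  [RiemannianBundle (fun x : M => TangentSpace 𝓘(ℝ, EuclideanSpace ℝ (Fin n)) x)]
  [IsContMDiffRiemannianBundle 𝓘(ℝ, EuclideanSpace ℝ (Fin n)) ∞ (EuclideanSpace ℝ (Fin n))
      (fun x : M => TangentSpace 𝓘(ℝ, EuclideanSpace ℝ (Fin n)) x)]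

lemma pj_of {κ : Type} [Fintype κ] {D : Bun n M κ} {J : κ → κ → M → ℝ}
    (h : Crest.Agent.R235.Ind167.PJ D J) : PJ D J where
  sm := h.sm
  skew := h.skew
  pJ := h.pmul
  par := h.par

end bridge

variable {M : Type v} [MetricSpace M] [CompactSpace M] [ConnectedSpace M]
  [ChartedSpace (EuclideanSpace ℝ (Fin 4)) M] [IsManifold (𝓡 4) ∞ M]
  [RiemannianBundle (fun p : M => TangentSpace (𝓡 4) p)]
  [IsContMDiffRiemannianBundle (𝓡 4) ∞ (EuclideanSpace ℝ (Fin 4))
    (fun p : M => TangentSpace (𝓡 4) p)]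
  [IsRiemannianManifold (𝓡 4) M] [MeasurableSpace M] [BorelSpace M]
  [SecondCountableTopology M] [Nonempty M]

variable {κ κ0 κ1 : Type} [Fintype κ] [Fintype κ0] [Fintype κ1]

variable (T : ToF 4 M) {q : QS M} {P : CPair 4 M κ κ0 κ1} {Jf : κ0 → κ0 → M → ℝ}
  {Kt : Fin 3 → κ0 → κ0 → M → ℝ} {J1 : κ1 → κ1 → M → ℝ}

/-- the system with the Hodge pair of `q` -/
local notation "SS" => swsQ T P Jf Kt (Hp T q (CPair.s P))

lemma cm_eq (a : κ → M → ℝ) (u : κ0 → M → ℝ) (x : κ1) (z : M) :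
    (SS).cm a u x z
      = ∑ y, (∑ b, Jf y b z * u b z) * inner ℝ (fieldOf P.s a z) (P.cc x y z) := by
  have h1 : (SS).cm a u x z = ∑ A, ∑ y, a A z * u y z * clJ P Jf A x y z := rfl
  rw [h1, sum_clJ P z Jf (fun A => a A z) (fun y => u y z) x]
  simp only [Matrix.mulVec, dotProduct, ccX, Matrix.of_apply]
  refine Finset.sum_congr rfl fun y _ => ?_
  rw [mul_comm, real_inner_comm]
  rfl

lemma nab_eq {u : κ0 → M → ℝ} (hu : SmV (n := 4) u) (hJ : PJ P.D0 Jf) {a : κ → M → ℝ}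
    (hv : ∀ z, VSm 4 ∞ (fieldOf P.s a) z) (y : κ0) (z : M) :
    (SS).nab a u y z = T.toF z ((addJ P.D0 hJ hv).cv u y z) := by
  have h1 : (SS).nab a u y z = (dat0 T P).cv u y z
      + (∑ y', Jf y y' z * u y' z) • ∑ A, a A z • T.toF z (P.s.s A z) := rfl
  rw [h1, cv_addJ, map_add, map_smul, dat0, Bun.cv_dat T P.D0 _ _ _ _ hu, fieldOf, map_sum]
  simp only [map_smul]

/-- **the Weitzenboeck identity of `A + c(a) i`.** -/
theorem weitzQ (hT : Twf q P Jf Kt) (hJ : CJ P Jf J1) (a : κ → M → ℝ) (u w : κ0 → M → ℝ)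
    (ha : SmV (n := 4) a) (has : (dat0 T (swapP (Crest.Agent.R235.Ind167.pairH q P.s))).Sec a)
    (hu : SmV (n := 4) u) (hus : P.D0.Sec u) (hw : SmV (n := 4) w) (hws : P.D0.Sec w) :
    Crest.Agent.R249.Tv57.ip 4 ((SS).P.A u + (SS).cm a u) ((SS).P.A w + (SS).cm a w) =
      ∫ z, ((∑ y, ⟪(SS).nab a u y z, (SS).nab a w y z⟫) +
        (∑ y, ∑ y', (SS).D0.Q y y' z * u y' z * w y z) +
        ∑ k : Fin 3, (Hp T q P.s).B a k.succ z *
          ∑ y, ∑ y', rho Jf Kt k y y' z * u y z * w y' z)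
      ∂(μHE[4] : Measure M) := by
  have hv : ∀ z, VSm 4 ∞ (fieldOf P.s a) z := fun z => VSm_fieldOf P.s ha z
  have h1 := weak_int (hJ.add hv) hu hw hus hws
  have hA : ∀ (f : κ0 → M → ℝ) (x : κ1) (z : M), opA (hJ.add hv).D0 (hJ.add hv).cc f x z
      = ((SS).P.A f + (SS).cm a f) x z := by
    intro f x z
    have e1 : ((SS).P.A f + (SS).cm a f) x z
        = opA P.D0 P.cc f x z + (SS).cm a f x z := rfl
    rw [e1, cm_eq]
    exact opA_addJ hJ.p0 hv f x z
  rw [Crest.Agent.R249.Tv57.ip]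
  simp only [← hA]
  rw [h1]
  refine integral_congr_ae (Eventually.of_forall fun z => ?_)
  have h2 : ∑ y, ⟪(SS).nab a u y z, (SS).nab a w y z⟫
      = ∑ y, (inner ℝ ((hJ.add hv).D0.cv u y z) ((hJ.add hv).D0.cv w y z) : ℝ) := by
    refine Finset.sum_congr rfl fun y _ => ?_
    rw [nab_eq T hu hJ.p0 hv, nab_eq T hw hJ.p0 hv, T.inner_toF]
    rfl
  have hE : ∀ y y', potE P.s P.cc Jf (fieldOf P.s a) z y y'
      = ∑ k : Fin 3, (Hp T q P.s).B a k.succ z * rho Jf Kt k y y' z := by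
    intro y y'
    rw [potE_eq hT, Matrix.sum_apply]
    refine Finset.sum_congr rfl fun k _ => ?_
    rw [Matrix.smul_apply, Matrix.of_apply, smul_eq_mul]
    congr 1
    exact (opB_pairH q P.s ha has k z).symm
  have h3 : ∑ y, u y z * ∑ y', potQ (hJ.add hv).s (hJ.add hv).D0 (hJ.add hv).cc y y' z * w y' z
      = (∑ y, ∑ y', potQ P.s P.D0 P.cc y y' z * u y' z * w y z)
        + ∑ k : Fin 3, (Hp T q P.s).B a k.succ z *
          ∑ y, ∑ y', rho Jf Kt k y y' z * u y z * w y' z := by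
    have e1 : ∀ y y', potQ (hJ.add hv).s (hJ.add hv).D0 (hJ.add hv).cc y y' z
        = potQ P.s P.D0 P.cc y y' z
          + ∑ k : Fin 3, (Hp T q P.s).B a k.succ z * rho Jf Kt k y y' z := by
      intro y y'
      rw [← hE]
      exact potQ_addJ P.s hJ.p0 hv y y' z
    simp only [e1, add_mul, mul_add, Finset.mul_sum, Finset.sum_mul, Finset.sum_add_distrib]
    congr 1
    · rw [Finset.sum_comm]
      refine Finset.sum_congr rfl fun y _ => Finset.sum_congr rfl fun y' _ => ?_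
      rw [P.sym0 y' y z]
      ring
    · rw [Finset.sum_congr rfl fun y _ => Finset.sum_comm, Finset.sum_comm]
      refine Finset.sum_congr rfl fun k _ => Finset.sum_congr rfl fun y _ =>
        Finset.sum_congr rfl fun y' _ => ?_
      ring
  change (∑ y, (inner ℝ ((hJ.add hv).D0.cv u y z) ((hJ.add hv).D0.cv w y z) : ℝ))
    + ∑ y, u y z * ∑ y', potQ (hJ.add hv).s (hJ.add hv).D0 (hJ.add hv).cc y y' z * w y' z = _
  rw [h3, ← h2, ← add_assoc]
  rfl

/-- **the system satisfies `SWS.OK`.** -/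
theorem okQ (hT : Twf q P Jf Kt) (hJ : CJ P Jf J1) : (SS).OK :=
  ok_of T (Hp T q P.s) hT (Hp_full T q P.s) (Hp_one T q P.s) (weitzQ T hT hJ)

/-! ### the twist by a line bundle -/

section twist

open Crest.Agent.R235.LTw_453

variable (q) (s : PF 4 M κ) {N : ℕ} (L : LD 4 M N)

theorem cjZ : CJ (twZ q s L) (J0Z q s L) (J1Z q s L) where
  p0 := pj_of (pj0_twZ q s L)
  p1 := pj_of (pj1_twZ q s L)
  comm := hc_twZ q s L

/-- **the system of the twist by a line bundle satisfies `SWS.OK`.** -/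
theorem okZ : (swsQ T (twZ q s L) (J0Z q s L) (KtZ M L) (Hp T q s)).OK :=
  okQ T (twf_twZ q s L) (cjZ q s L)

end twist

end Crest.Agent.R235.MdlS_344
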