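import Crest.Agent.R235.SymQ_755
import Crest.Agent.R235.LTwD_453

/-!
Row 235 (S0364), PACKAGE SW, MODEL-2 (helper755), part 3: ALGEBRA OF THE TWISTED QUATERNIONIC PAIR
(453's `twP` of 167's `pairZ q s` by a complex line bundle `L : LD 4 M N`).

* `twL q s L` : the pair; `JL q s L` its complex structure (453's `JT`); `KL L c` the three
  matrix fields `K_c` on the twisted bundle: `r K_c + s J_0 K_c`;
* `clocL` : local form (frames `Psi`) with constant symbol `cK`;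
* `twf_L : Twf q (twL q s L) (JL q s L) (KL L)`.
-/

set_option autoImplicit false
set_option maxSynthPendingDepth 3
set_option linter.unusedSectionVars false
set_option linter.unusedSimpArgs false
set_option maxHeartbeats 1000000

open Filter Topology Set Bundle Manifold
open Matrix hiding J
open scoped ContDiff Kronecker
open Crest.GeometryTopology.CoordMetric Crest.GeometryTopology.ChartCurvature
  Crest.GeometryTopology.PointedLimit
open Crest.Agent.R202.Tens Crest.Agent.R249.FrmB_285 Crest.Agent.R249.Vf281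
  Crest.Agent.R249.Tz1_805 Crest.Agent.R249.Tz2_805
open Crest.Agent.R249.Fr129
open Crest.Agent.R249.C2_198 hiding cp half_two
open Crest.Agent.R249.Sg129 (SG germ ev ONF)
open Crest.Agent.R249.Tz805
open Crest.Agent.R235.IndAlg_167 Crest.Agent.R235.Ind167 Crest.Agent.R235.Mdl2_755
open Crest.Agent.R235.SymQ_755 Crest.Agent.R235.LTw_453

noncomputable section

namespace Crest.Agent.R235.TwfL_755

variable {M : Type*} [TopologicalSpace M] [ChartedSpace (EuclideanSpace ℝ (Fin 4)) M]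
  [IsManifold 𝓘(ℝ, EuclideanSpace ℝ (Fin 4)) ∞ M]
  [RiemannianBundle (fun x : M => TangentSpace 𝓘(ℝ, EuclideanSpace ℝ (Fin 4)) x)]
  [IsContMDiffRiemannianBundle 𝓘(ℝ, EuclideanSpace ℝ (Fin 4)) ∞ (EuclideanSpace ℝ (Fin 4))
      (fun x : M => TangentSpace 𝓘(ℝ, EuclideanSpace ℝ (Fin 4)) x)]

local notation "𝔼" => EuclideanSpace ℝ (Fin 4)
local notation "𝓘E" => 𝓘(ℝ, EuclideanSpace ℝ (Fin 4))

variable {κ : Type} [Fintype κ] {N : ℕ}

/-- the twisted pair -/
def twL (q : QS M) (s : PF 4 M κ) (L : LD 4 M N) : CPair 4 M κ (Fin 4 × Fin N) (κ × Fin N) :=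
  twP (pairZ q s) (pj_Z0 q s 0) (pj_Z1 q s 0) (cc_J q s 0) L

/-- its complex structure on `D0` -/
def JL (q : QS M) (s : PF 4 M κ) (L : LD 4 M N) : Fin 4 × Fin N → Fin 4 × Fin N → M → ℝ :=
  JT (bunQ0 q s sm_thZ) (JZ 0) L

/-- the three matrix fields `K_c` -/
def KL (L : LD 4 M N) (c : Fin 3) (x y : Fin 4 × Fin N) (z : M) : ℝ :=
  L.r x.2 y.2 z * K ℝ c x.1 y.1 + L.s x.2 y.2 z * (J ℝ 0 * K ℝ c) x.1 y.1

/-! ### matrices of germs -/

section ring

variable {S : Type*} [CommRing S]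

lemma J0_tS : (J S 0)ᵀ = - J S 0 := by
  ext i j
  fin_cases i <;> fin_cases j <;> simp [J]

lemma J0_sqS : J S 0 * J S 0 = -1 := by
  ext i j
  rw [Matrix.mul_apply, Fin.sum_univ_four]
  fin_cases i <;> fin_cases j <;> simp [J, Matrix.one_apply]

lemma J0_KS (c : Fin 3) : J S 0 * K S c = K S c * J S 0 := by
  ext i j
  rw [Matrix.mul_apply, Matrix.mul_apply, Fin.sum_univ_four, Fin.sum_univ_four]
  fin_cases c <;> fin_cases i <;> fin_cases j <;> simp [J, K]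

/-- the frame over a unit section `vr + i vi` -/
def Ps (vr vi : Fin N → S) : Matrix (Fin 4 × Fin N) (Fin 4) S :=
  Psi (J S 0) (1 : Matrix (Fin 4) (Fin 4) S) vr vi

/-- `Ψ J_0 Ψᵀ` -/
lemma psi_J (vr vi : Fin N → S) (x y : Fin 4 × Fin N) :
    (Ps vr vi * J S 0 * (Ps vr vi)ᵀ) x y
      = (1 : Matrix (Fin 4) (Fin 4) S) x.1 y.1 * (-(vi x.2 * vr y.2 - vr x.2 * vi y.2))
        + J S 0 x.1 y.1 * (vr x.2 * vr y.2 + vi x.2 * vi y.2) := by
  have h1 := Psi_mul_U (p := (1 : Matrix (Fin 4) (Fin 4) S)) (J := J S 0)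
    (j := (1 : Matrix (Fin 4) (Fin 4) S)) (by rw [Matrix.transpose_one, Matrix.one_mul])
    (Matrix.one_mul _) (Matrix.one_mul _) J0_sqS vr vi
  rw [Matrix.transpose_one, Matrix.one_mul, Matrix.mul_one] at h1
  have h2 := Psi_mul_tr' (p := (1 : Matrix (Fin 4) (Fin 4) S)) (J := J S 0)
    (j := (1 : Matrix (Fin 4) (Fin 4) S)) (by rw [Matrix.transpose_one, Matrix.one_mul])
    (Matrix.one_mul _) (Matrix.mul_one _) J0_tS J0_sqS (-vi) vr vr vi
  have h3 : Ps vr vi * J S 0 * (Ps vr vi)ᵀ = Psi (J S 0) (1 : Matrix (Fin 4) (Fin 4) S) (-vi) vr *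
      (Psi (J S 0) (1 : Matrix (Fin 4) (Fin 4) S) vr vi)ᵀ := by rw [← h1]; rfl
  rw [h3, h2]
  change (1 : Matrix (Fin 4) (Fin 4) S) x.1 y.1 * ((-vi) x.2 * vr y.2 + vr x.2 * vi y.2)
    + J S 0 x.1 y.1 * (vr x.2 * vr y.2 - (-vi) x.2 * vi y.2) = _
  simp only [Pi.neg_apply]
  ring

/-- `Ψ K_c Ψᵀ` -/
lemma psi_K (vr vi : Fin N → S) (c : Fin 3) (x y : Fin 4 × Fin N) :
    (Ps vr vi * K S c * (Ps vr vi)ᵀ) x y
      = (vr x.2 * vr y.2 + vi x.2 * vi y.2) * K S c x.1 y.1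
        + (vi x.2 * vr y.2 - vr x.2 * vi y.2) * (J S 0 * K S c) x.1 y.1 := by
  have h1 := Psi_c_Psi (J0 := J S 0) (J1 := J S 0) (p1 := (1 : Matrix (Fin 4) (Fin 4) S))
    (j0 := (1 : Matrix (Fin 4) (Fin 4) S)) (j1 := (1 : Matrix (Fin 4) (Fin 4) S)) (c := K S c)
    (cc := K S c) (by rw [Matrix.transpose_one, Matrix.one_mul, Matrix.mul_one]) J0_tS (J0_KS c)
    J0_sqS (Matrix.one_mul _) vr vi
  exact congrFun (congrFun h1 x) y

end ring

/-- the germ of the constant complex structure -/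
lemma gmat_JZ (z : M) : gmat (n := 4) z (JZ (M := M) 0) = J (SG (chartCentre 4 M z)) 0 := by
  ext a b
  change fg z (fun _ => J ℝ 0 a b) = _
  rw [Crest.Agent.R249.Dic805.fg_const]
  exact (J_cast 0 a b).symm

lemma fg_lin (z : M) {f g : M → ℝ} (hf : ContMDiff 𝓘(ℝ, EuclideanSpace ℝ (Fin 4)) 𝓘(ℝ, ℝ) ∞ f)
    (hg : ContMDiff 𝓘(ℝ, EuclideanSpace ℝ (Fin 4)) 𝓘(ℝ, ℝ) ∞ g) (a b : ℝ) :
    fg (n := 4) z (fun w => f w * a + g w * b)
      = fg (n := 4) z f * algebraMap ℝ _ a + fg (n := 4) z g * algebraMap ℝ _ b := by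
  have h1 := Crest.Agent.R249.Dic805.fg_add (z := z) (f := fun w => f w * a)
    (g := fun w => g w * b) (hf.mul contMDiff_const) (hg.mul contMDiff_const)
  have h2 := Crest.Agent.R249.Dic805.fg_mul (z := z) (f := f) (g := fun _ => a) hf contMDiff_const
  have h3 := Crest.Agent.R249.Dic805.fg_mul (z := z) (f := g) (g := fun _ => b) hg contMDiff_const
  rw [Crest.Agent.R249.Dic805.fg_const] at h2 h3
  rw [h1, h2, h3]

section loc

variable {q : QS M} (s : PF 4 M κ) (L : LD 4 M N) {z : M}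
  {e : Fin 4 → EuclideanSpace ℝ (Fin 4) → EuclideanSpace ℝ (Fin 4)}
  (h : ONF (chartMetric 4 M z) (chartAt (EuclideanSpace ℝ (Fin 4)) z).target
      (chartCentre 4 M z) e) (ha : Adp q z e)

include h ha in
/-- **frames of the twisted pair at a point** -/
theorem pt_L {vr vi : Fin N → SG (chartCentre 4 M z)} (U : USec L z vr vi) :
    ∃ j0 j1 b, Pt q (twL q s L) (JL q s L) (KL L) z j0 j1 b := by
  have hC := cloc_tw (L := L) h (pj_Z0 q s 0) (pj_Z1 q s 0) (pairZ q s).smc (cc_J q s 0)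
    (clocQ s sm_thZ h ha) U
  refine pt_of (twL q s L) h ha hC ?_ ?_ ?_ ?_
  · exact fun a b => (pjT (pj_Z0 q s 0) L).sm a b
  · exact fun c a b => ((L.smr _ _).mul contMDiff_const).add ((L.sms _ _).mul contMDiff_const)
  · ext x y
    have h1 : Psi (gmat (n := 4) z (JZ (M := M) 0)) (1 : Matrix (Fin 4) (Fin 4)
        (SG (chartCentre 4 M z))) vr vi = Ps vr vi := by rw [gmat_JZ]; rfl
    have h2 := psi_J vr vi x y
    rw [U.re, U.im, ← h1] at h2
    refine Eq.trans ?_ h2.symm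
    have e1 : JL q s L x y = fun w => L.s x.2 y.2 w * (-(1 : Matrix (Fin 4) (Fin 4) ℝ) x.1 y.1)
        + L.r x.2 y.2 w * J ℝ 0 x.1 y.1 := by
      funext w
      change (if x.1 = y.1 then (1 : ℝ) else 0) * (- L.s x.2 y.2 w) + J ℝ 0 x.1 y.1 * L.r x.2 y.2 w
        = _
      rw [Matrix.one_apply]
      ring
    rw [Matrix.of_apply, e1, fg_lin z (L.sms _ _) (L.smr _ _), J_cast, Matrix.one_apply,
      Matrix.one_apply]
    split_ifs <;> simp [mul_comm]
  · intro c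
    ext x y
    have h1 : Psi (gmat (n := 4) z (JZ (M := M) 0)) (1 : Matrix (Fin 4) (Fin 4)
        (SG (chartCentre 4 M z))) vr vi = Ps vr vi := by rw [gmat_JZ]; rfl
    have h2 := psi_K vr vi c x y
    rw [U.re, U.im, ← h1] at h2
    refine Eq.trans ?_ h2.symm
    have e1 : KL L c x y = fun z => L.r x.2 y.2 z * K ℝ c x.1 y.1
        + L.s x.2 y.2 z * (J ℝ 0 * K ℝ c) x.1 y.1 := rfl
    have e2 : (J (SG (chartCentre 4 M z)) 0 * K (SG (chartCentre 4 M z)) c) x.1 y.1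
        = algebraMap ℝ _ ((J ℝ 0 * K ℝ c) x.1 y.1) := by
      rw [Matrix.mul_apply, Matrix.mul_apply, map_sum]
      refine Finset.sum_congr rfl fun i _ => ?_
      rw [J_cast, K_cast, map_mul]
    rw [Matrix.of_apply, e1, fg_lin z (L.smr _ _) (L.sms _ _), K_cast, e2]

end loc

/-- **the twisted pair is a quaternionic Clifford pair with complex structure** -/
theorem twf_L (q : QS M) (s : PF 4 M κ) (L : LD 4 M N) :
    Twf q (twL q s L) (JL q s L) (KL L) where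
  smJ := (pjT (pj_Z0 q s 0) L).sm
  smK c a b := ((L.smr _ _).mul contMDiff_const).add ((L.sms _ _).mul contMDiff_const)
  pt z := by
    obtain ⟨e, h, ha⟩ := exists_adp q z
    obtain ⟨vr, vi, U⟩ := exists_usec L z
    exact pt_L s L h ha U

/-- `ρ_c` of the twisted pair -/
theorem rho_L (q : QS M) (s : PF 4 M κ) (L : LD 4 M N) (c : Fin 3) (x y : Fin 4 × Fin N) (z : M) :
    rho (JL q s L) (KL L) c x y z
      = L.r x.2 y.2 z * (-(J ℝ 0 * K ℝ c) x.1 y.1) + L.s x.2 y.2 z * K ℝ c x.1 y.1 := by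
  set r : Matrix (Fin N) (Fin N) ℝ := Matrix.of fun a b => L.r a b z with hr
  set i : Matrix (Fin N) (Fin N) ℝ := Matrix.of fun a b => L.s a b z with hi
  have i1 : r * r - i * i = r := by
    ext a b
    rw [Matrix.sub_apply, Matrix.mul_apply, Matrix.mul_apply, ← Finset.sum_sub_distrib]
    exact L.id1 a b z
  have i2 : r * i + i * r = i := by
    ext a b
    rw [Matrix.add_apply, Matrix.mul_apply, Matrix.mul_apply, ← Finset.sum_add_distrib]
    exact L.id2 a b z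
  have m1 : (Matrix.of fun x y => JL q s L x y z)
      = (1 : Matrix (Fin 4) (Fin 4) ℝ) ⊗ₖ (-i) + J ℝ 0 ⊗ₖ r := by
    ext x y
    rw [Matrix.add_apply, Matrix.kroneckerMap_apply, Matrix.kroneckerMap_apply, Matrix.one_apply]
    rfl
  have m2 : (Matrix.of fun x y => KL L c x y z) = K ℝ c ⊗ₖ r + (J ℝ 0 * K ℝ c) ⊗ₖ i := by
    ext x y
    rw [Matrix.add_apply, Matrix.kroneckerMap_apply, Matrix.kroneckerMap_apply,
      mul_comm (K ℝ c x.1 y.1), mul_comm ((J ℝ 0 * K ℝ c) x.1 y.1)]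
    rfl
  have h1 : (Matrix.of fun x y => rho (JL q s L) (KL L) c x y z)
      = -((1 : Matrix (Fin 4) (Fin 4) ℝ) ⊗ₖ (-i) + J ℝ 0 ⊗ₖ r)
        * (K ℝ c ⊗ₖ r + (J ℝ 0 * K ℝ c) ⊗ₖ i) := by
    rw [rho_mat, m1, m2, neg_mul]
  have h2 : -((1 : Matrix (Fin 4) (Fin 4) ℝ) ⊗ₖ (-i) + J ℝ 0 ⊗ₖ r)
        * (K ℝ c ⊗ₖ r + (J ℝ 0 * K ℝ c) ⊗ₖ i)
      = (-(J ℝ 0 * K ℝ c)) ⊗ₖ (r * r - i * i) + K ℝ c ⊗ₖ (r * i + i * r) := by
    have j1 : J ℝ 0 * (J ℝ 0 * K ℝ c) = - K ℝ c := by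
      rw [← Matrix.mul_assoc, J0_sq, Matrix.neg_mul, Matrix.one_mul]
    rw [Matrix.neg_mul, Matrix.add_mul, Matrix.mul_add, Matrix.mul_add,
      ← Matrix.mul_kronecker_mul, ← Matrix.mul_kronecker_mul, ← Matrix.mul_kronecker_mul,
      ← Matrix.mul_kronecker_mul, j1, Matrix.one_mul, Matrix.one_mul]
    ext x y
    simp only [Matrix.add_apply, Matrix.neg_apply, Matrix.sub_apply, Matrix.kroneckerMap_apply,
      Matrix.neg_mul]
    ring
  rw [h2, i1, i2] at h1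
  have h3 := congrFun (congrFun h1 x) y
  rw [Matrix.add_apply, Matrix.kroneckerMap_apply, Matrix.kroneckerMap_apply] at h3
  refine h3.trans ?_
  rw [Matrix.neg_apply]
  change -(J ℝ 0 * K ℝ c) x.1 y.1 * L.r x.2 y.2 z + K ℝ c x.1 y.1 * L.s x.2 y.2 z = _
  ring

end Crest.Agent.R235.TwfL_755
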