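import Crest.Agent.R235.SwsQ_755
import Crest.Agent.R235.TwfL_755
import Crest.Agent.R235.Mdl3B_399

/-!
Row 235 (S0364), PACKAGE SW, MODEL-6 (helper755): THE SEIBERG-WITTEN SYSTEM OF THE TWIST by a complex
line bundle `L : LD 4 M N`.

* `SL T q s L : SWS M (Fin 4 × Fin N) (κ × Fin N) κ`;
* `sym_L` : 451's `Sym`; `tg_L` : 483's `TG`; `ok_L` : `SWS.OK` from the Weitzenboeck identity.
-/

set_option autoImplicit false
set_option maxSynthPendingDepth 3
set_option linter.unusedSectionVars false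
set_option maxHeartbeats 1000000

open scoped ContDiff ENNReal NNReal Topology Manifold Bundle RealInnerProductSpace
open MeasureTheory Set Filter Metric Bundle

universe v

namespace Crest.Agent.R235.SwsL_755

open Crest.Agent.R240 Crest.Agent.R240.Ch Crest.Agent.R235.SWDefs_53 Crest.Agent.R235.IndTri_451
open Crest.Agent.R249.Tv57 (Dat OpPair SmF Spec)
open Crest.Agent.R247.Ms322 (Gr)
open Crest.Agent.R249.Vf281 (VSm mCov)
open Crest.Agent.R249.Tz805 (ToF CPair Bun opA)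
open Crest.Agent.R249.Wk352 (dat0 dpair swapP)
open Crest.Agent.R235.Ind167
open Crest.Agent.R235.Mdl2_755 Crest.Agent.R235.SymQ_755 Crest.Agent.R235.SwsQ_755
open Crest.Agent.R235.TwfL_755 Crest.Agent.R235.LTw_453 Crest.Agent.R235.Mdl3_399
open Crest.Agent.R249.Tz2_805 (PF)

noncomputable section

variable {M : Type v} [MetricSpace M] [CompactSpace M] [ConnectedSpace M]
  [ChartedSpace (EuclideanSpace ℝ (Fin 4)) M] [IsManifold (𝓡 4) ∞ M]
  [RiemannianBundle (fun p : M => TangentSpace (𝓡 4) p)]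
  [IsContMDiffRiemannianBundle (𝓡 4) ∞ (EuclideanSpace ℝ (Fin 4))
    (fun p : M => TangentSpace (𝓡 4) p)]
  [IsRiemannianManifold (𝓡 4) M] [MeasurableSpace M] [BorelSpace M]
  [SecondCountableTopology M] [Nonempty M]
  {κ : Type} [Fintype κ] {N : ℕ}

variable (T : ToF 4 M) (q : QS M) (s : PF 4 M κ) (L : LD 4 M N)

/-- **the Seiberg-Witten system of the twist** -/
def SL : SWS M (Fin 4 × Fin N) (κ × Fin N) κ :=
  swsQ T (twL q s L) (JL q s L) (KL L) (Hp T q s)

/-- the symbol is complex linear -/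
theorem cJ_L (x : κ × Fin N) (y : Fin 4 × Fin N) (z : M) :
    ∑ x', JT (bunQ1 q s sm_thZ) (IP q s 0) L x x' z • (twL q s L).cc x' y z
      = ∑ y', JL q s L y' y z • (twL q s L).cc x y' z := by
  refine ccTw_J (pj_Z0 q s 0) (pj_Z1 q s 0) (fun x y z => ?_) (cc_J q s 0) L x y z
  obtain ⟨e, h, ι0, ι1, i1, i2, i3, i4, a0, a1, c, j0, j1, C⟩ := (pairZ q s).loc z
  exact LTw_453.p1_cc C (pairZ q s).smc x y

/-- the vector fields of the symbol -/
def ccF (x : κ × Fin N) (y : Fin 4 × Fin N) (z : M) : EuclideanSpace ℝ (Fin 4) :=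
  T.toF z ((twL q s L).cc x y z)

/-- **451's structure** -/
theorem sym_L : Crest.Agent.R235.SWSym_451.Sym (SL T q s L) (ccF T q s L) :=
  sym_of T (Hp T q s) (twf_L q s L) (pjT (pj_Z0 q s 0) L)
    (J1 := JT (bunQ1 q s sm_thZ) (IP q s 0) L) (pjT (pj_Z1 q s 0) L).skew (cJ_L q s L)
    (Hp_pT T q s)

/-- **483's structure** -/
theorem tg_L {w : Trip M} {e : Fin 3 → F2 E4 M} (tri : IsTri (fun i => (w i).1.1) e)
    (hin : ∀ (x : M) (u v : TangentSpace (𝓡 4) x), inner ℝ u v = at2 (gg e) x u v) :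
    Tau483.TG (SL T (QSTri_451.qs tri hin) s L) T (twL (QSTri_451.qs tri hin) s L).cc
      (twL (QSTri_451.qs tri hin) s L).D0.W s.s w e (-1) (-1) :=
  tg_of T (Hp T (QSTri_451.qs tri hin) s) (twf_L (QSTri_451.qs tri hin) s L)
    (pjT (pj_Z0 (QSTri_451.qs tri hin) s 0) L) tri hin
    (fun k z X Y => QSTri_451.e_eq_inner tri hin k z X Y)
    (fun _ ha hs k z => Hp_HB T s tri hin ha hs k z)
    (fun _ ha hs z u v => Hp_cvT T (QSTri_451.qs tri hin) s ha hs z u v)

/-- `SWS.OK` from the Weitzenboeck identity -/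
theorem ok_L
    (weitz : ∀ (a : κ → M → ℝ) (u w : Fin 4 × Fin N → M → ℝ),
      Crest.Agent.R249.Tv57.SmV (n := 4) a → (dat0 T (swapP (pairH q s))).Sec a →
      Crest.Agent.R249.Tv57.SmV (n := 4) u → (twL q s L).D0.Sec u →
      Crest.Agent.R249.Tv57.SmV (n := 4) w → (twL q s L).D0.Sec w →
      Crest.Agent.R249.Tv57.ip 4 ((SL T q s L).P.A u + (SL T q s L).cm a u)
          ((SL T q s L).P.A w + (SL T q s L).cm a w) =
        ∫ z, ((∑ y, ⟪(SL T q s L).nab a u y z, (SL T q s L).nab a w y z⟫) +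
          (∑ y, ∑ y', (SL T q s L).D0.Q y y' z * u y' z * w y z) +
          ∑ k : Fin 3, (SL T q s L).H.B a k.succ z *
            ∑ y, ∑ y', (SL T q s L).rho k y y' z * u y z * w y' z)
        ∂(μHE[4] : Measure M)) :
    (SL T q s L).OK :=
  ok_of T (Hp T q s) (twf_L q s L) (Hp_full T q s) (Hp_one T q s) weitz

end

end Crest.Agent.R235.SwsL_755
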