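import Crest.Agent.R235.FamH_692
import Crest.Agent.R235.K3Num_692
import Crest.Agent.R235.MdlS_344
import Crest.Agent.R235.SwsL_755
import Crest.Agent.R235.SWTop_53
import Crest.Agent.R235.LTwLd_774

/-!
Row 235 (S0364), package SW (helper692): **MODR** from the concrete family (`CEX`) and the second identity
(`T2X`).
-/

set_option autoImplicit false
set_option maxSynthPendingDepth 3
set_option linter.unusedSectionVars false
set_option maxHeartbeats 1000000

open scoped ContDiff ENNReal NNReal Topology Manifold Bundle RealInnerProductSpace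
open MeasureTheory Set Filter Metric Bundle Matrix

universe v

namespace Crest.Agent.R235.ModR_692

open Crest.Agent.R240 Crest.Agent.R240.Ch Crest.Agent.R240.Int Crest.Agent.R235.SWDefs_53
open Crest.Agent.R235.IndTri_451 Crest.Agent.R235.Tau483 Crest.Agent.R235.TauOK_692
open Crest.Agent.R235.SWData_451 Crest.Agent.R235.SWTn_451
open Crest.Agent.R249.Tz805 (ToF)
open Crest.Agent.R249.Tz2_805 (PF)
open Crest.Agent.R249.Tv57 (KerD)
open Crest.Agent.R235.Ind167
open Crest.Agent.R235.SwsL_755 Crest.Agent.R235.TwfL_755 Crest.Agent.R235.LTw_453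
open Crest.Agent.R235.LTwLd_774 (ldOf)
open Crest.Agent.R235.QSTri_451 (qs)
open Crest.Agent.R235.FamR_692

noncomputable section

section sys

variable {M : Type v} [MetricSpace M] [CompactSpace M] [ConnectedSpace M]
  [ChartedSpace (EuclideanSpace ℝ (Fin 4)) M] [IsManifold (𝓡 4) ∞ M]
  [RiemannianBundle (fun p : M => TangentSpace (𝓡 4) p)]
  [IsContMDiffRiemannianBundle (𝓡 4) ∞ (EuclideanSpace ℝ (Fin 4))
    (fun p : M => TangentSpace (𝓡 4) p)]
  [IsRiemannianManifold (𝓡 4) M] [MeasurableSpace M] [BorelSpace M]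
  [SecondCountableTopology M] [Nonempty M] [IsFiniteMeasureOnCompacts (μHE[4] : Measure M)]
  {κ : Type} [Fintype κ] {N : ℕ}

/-- **`SWS.OK`** of 755's system. -/
theorem okL (T : ToF 4 M) (q : QS M) (s : PF 4 M κ) (L : LD 4 M N) : (SL T q s L).OK :=
  MdlS_344.okQ T (twf_L q s L) (MdlS_344.cjZ q s L)

/-- the components of the triple are harmonic. -/
theorem harmL {w : Trip M} {e : Fin 3 → F2 E4 M} (T : ToF 4 M) (s : PF 4 M κ) (L : LD 4 M N)
    (he : IsTri (und w) e)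
    (hin : ∀ (x : M) (u v : TangentSpace (𝓡 4) x), inner ℝ u v = at2 (gg e) x u v)
    (i : Fin 3) (x : κ) (z : M) :
    (SL T (qs he hin) s L).H.A (Fin.cons (fun _ => 0) (wwf (und w) e i)) x z = 0 := by
  have h1 := Mdl3_399.Hp_harm T s he hin (fun i => (w i).2) i x z
  have h2 : Mdl3_399.ww (und w) e i = wwf (und w) e i := by
    funext k z
    unfold Mdl3_399.ww wwf qG
    exact q_comm _ _ _
  rw [h2] at h1
  exact h1

end sys

/-- **CEX** : the closed forms `cE t` of the eigenlines, of class `cls a`. -/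
def CEX : Prop :=
  ∀ (M : Type) [MetricSpace M] [CompactSpace M] [ConnectedSpace M]
    [ChartedSpace (EuclideanSpace ℝ (Fin 4)) M] [IsManifold (𝓡 4) ∞ M]
    [RiemannianBundle (fun p : M => TangentSpace (𝓡 4) p)]
    [IsContMDiffRiemannianBundle (𝓡 4) ∞ (EuclideanSpace ℝ (Fin 4))
      (fun p : M => TangentSpace (𝓡 4) p)]
    [IsRiemannianManifold (𝓡 4) M] [MeasurableSpace M] [BorelSpace M]
    [SecondCountableTopology M] [Nonempty M] [IsFiniteMeasureOnCompacts (μHE[4] : Measure M)]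
    (w : Trip M) (e : Fin 3 → F2 E4 M) (he : IsTri (und w) e)
    (hin : ∀ (x : M) (u v : TangentSpace 𝓘(ℝ, E4) x), inner ℝ u v = at2 (gg e) x u v)
    (N : ℕ) (p : M → Matrix (Fin N) (Fin N) ℂ) (a : Z2 M) (hp : IsLine p) (_ : IsChern p a)
    (κ : Type) [Fintype κ] (T : ToF 4 M) (s : PF 4 M κ),
    ∃ cE : E3 → Z2 M,
      Hyp (SL T (qs he hin) s (ldOf p hp)) T (twL (qs he hin) s (ldOf p hp)).cc
        (twL (qs he hin) s (ldOf p hp)).D0.W s.s w e (-1) (-1) (wwf (und w) e) cE ∧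
      ∀ t : E3, ‖t‖ = 1 → cls (cE t) = cls a

/-- **T2X** : the second identity with a uniform constant. -/
def T2X : Prop :=
  ∀ (M : Type) [MetricSpace M] [CompactSpace M] [ConnectedSpace M]
    [ChartedSpace (EuclideanSpace ℝ (Fin 4)) M] [IsManifold (𝓡 4) ∞ M]
    [RiemannianBundle (fun p : M => TangentSpace (𝓡 4) p)]
    [IsContMDiffRiemannianBundle (𝓡 4) ∞ (EuclideanSpace ℝ (Fin 4))
      (fun p : M => TangentSpace (𝓡 4) p)]
    [IsRiemannianManifold (𝓡 4) M] [MeasurableSpace M] [BorelSpace M]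
    [SecondCountableTopology M] [Nonempty M] [IsFiniteMeasureOnCompacts (μHE[4] : Measure M)]
    (κ0 κ1 κT : Type) [Fintype κ0] [Fintype κ1] [Fintype κT] (S : SWS M κ0 κ1 κT) (T : ToF 4 M)
    (c : κ1 → κ0 → (z : M) → TangentSpace (𝓡 4) z)
    (W : κ0 → κ0 → (z : M) → TangentSpace (𝓡 4) z)
    (sT : κT → (z : M) → TangentSpace (𝓡 4) z) (w : Trip M) (e : Fin 3 → F2 E4 M) (σ ι : ℝ)
    (ww : Fin 3 → Fin 3 → M → ℝ) (cE : E3 → Z2 M), S.OK → Hyp S T c W sT w e σ ι ww cE →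
    ∃ C, ∀ t : E3, ‖t‖ = 1 → T2P (tauF S T c W sT w e σ ww cE t) S C

section num

variable {M : Type} [MetricSpace M] [CompactSpace M] [ConnectedSpace M]
  [ChartedSpace (EuclideanSpace ℝ (Fin 4)) M] [IsManifold (𝓡 4) ∞ M]
  [RiemannianBundle (fun p : M => TangentSpace (𝓡 4) p)]
  [IsContMDiffRiemannianBundle (𝓡 4) ∞ (EuclideanSpace ℝ (Fin 4))
    (fun p : M => TangentSpace (𝓡 4) p)]
  [IsRiemannianManifold (𝓡 4) M] [MeasurableSpace M] [BorelSpace M]
  [SecondCountableTopology M] [Nonempty M] {w : Trip M} {e : Fin 3 → F2 E4 M} (hw : Pos3 w)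
  (he : IsTri (und w) e)
  (hin : ∀ (x : M) (u v : TangentSpace 𝓘(ℝ, E4) x), inner ℝ u v = at2 (gg e) x u v)
  {κ : Type} [Fintype κ] (T : ToF 4 M) (s : PF 4 M κ)

include hw in
/-- the numbers for a root. -/
theorem nums_root {N : ℕ} {p : M → Matrix (Fin N) (Fin N) ℂ} {a : Z2 M} (hp : IsLine p)
    (hc : IsChern p a) (hK : K3Type (w 0)) (ha : pI (w 0) a a = -2) :
    ∃ d0 d1 : ℕ, Nonempty (KerD (SL T (qs he hin) s (ldOf p hp)).D0
        (SL T (qs he hin) s (ldOf p hp)).P.A d0) ∧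
      Nonempty (KerD (SL T (qs he hin) s (ldOf p hp)).D1
        (SL T (qs he hin) s (ldOf p hp)).P.B d1) ∧ d1 < d0 ∧
      Nonempty (KerD (SL T (qs he hin) s (ldOf p hp)).DL
        (SL T (qs he hin) s (ldOf p hp)).H.A 4) := by
  obtain ⟨d0, d1, K0, K1, h⟩ := K3Num_692.k3_root hw he hin hK T s
    (IndEven_692.locTw_twQ (qs he hin) s hp hc (L := ldOf p hp)
      (fun _ _ => rfl) (fun _ _ => rfl)) ha
  exact ⟨d0, d1, K0, K1, by omega, (K3Num_692.k3_H hw he hin hK T s).1⟩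

include hw in
/-- the numbers for a class of square zero (MODF). -/
theorem nums_flat {N : ℕ} {p : M → Matrix (Fin N) (Fin N) ℂ} {a : Z2 M} (hp : IsLine p)
    (hc : IsChern p a) (hK : K3Type (w 0)) (ha : pI (w 0) a a = 0) :
    ∃ d0 d1 : ℕ, Nonempty (KerD (SL T (qs he hin) s (ldOf p hp)).D0
        (SL T (qs he hin) s (ldOf p hp)).P.A d0) ∧
      Nonempty (KerD (SL T (qs he hin) s (ldOf p hp)).D1
        (SL T (qs he hin) s (ldOf p hp)).P.B d1) ∧ d1 < d0 ∧
      Nonempty (KerD (SL T (qs he hin) s (ldOf p hp)).DL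
        (SL T (qs he hin) s (ldOf p hp)).H.A 4) := by
  obtain ⟨d0, d1, K0, K1, h⟩ := K3Num_692.k3_flat hw he hin hK T s
    (IndEven_692.locTw_twQ (qs he hin) s hp hc (L := ldOf p hp)
      (fun _ _ => rfl) (fun _ _ => rfl)) ha
  exact ⟨d0, d1, K0, K1, by omega, (K3Num_692.k3_H hw he hin hK T s).1⟩

end num

/-- **MODR**. -/
theorem modr_of (hC : CEX) (hT : T2X) : SWTop_53.MODR := by
  intro M _ _ _ _ _ _ _ _ _ _ _ _ _ w e hw he hin hK d hd hort
  obtain ⟨⟨N, p, a, hp, hc, rfl⟩, hdd⟩ := hd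
  obtain ⟨m, ⟨s⟩⟩ := R249.Tz2_805.exists_PF (n := 4) (M := M)
  let T : ToF 4 M := R249.Tof352.tof 4 M
  have hV := hw.vol 0
  have haa : pI (w 0) a a = -2 := by rw [← ip_cls hV]; exact hdd
  obtain ⟨cE, H, hcl⟩ := hC M w e he hin N p a hp hc _ T s
  have hS := okL T (qs he hin) s (ldOf p hp)
  obtain ⟨C, hF⟩ := fam_of H hS (fun i x z => harmL T s (ldOf p hp) he hin i x z) hcl
    (hT M _ _ _ _ T _ _ _ w e _ _ _ cE hS H) hort
  obtain ⟨d0, d1, K0, K1, hlt, K4⟩ := nums_root hw he hin T s hp hc hK haa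
  refine ⟨_, _, _, inferInstance, inferInstance, inferInstance, _, _, _, C, _, d0, d1, hF, ?_,
    K0, K1, hlt, K4⟩
  rw [haa]
  have := Real.pi_pos
  nlinarith [mul_pos this this]

end

end Crest.Agent.R235.ModR_692
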