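import Crest.Agent.R235.MdlD_489
import Crest.Agent.R235.MdlXt_399
import Crest.Agent.R235.ModR_692
import Crest.Agent.R235.Ip_288

/-!
Row 235 (S0364), PACKAGE SW (helper53): the end of `MODF`: the model for a line bundle of real class
zero, from helper489's flat family (`Mh.ffam`), helper399's concrete system, helper453's link and
helper692's numbers.
-/

set_option autoImplicit false
set_option maxSynthPendingDepth 3
set_option linter.unusedSectionVars false
set_option maxHeartbeats 1000000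

open scoped ContDiff ENNReal NNReal Topology Manifold Bundle RealInnerProductSpace
open MeasureTheory Set Filter Metric Bundle Matrix

namespace Crest.Agent.R235.ModF_53

open Crest.Agent.R240 Crest.Agent.R240.Ch Crest.Agent.R240.Int Crest.Agent.R235.SWDefs_53
open Crest.Agent.R235.IndTri_451 Crest.Agent.R235.Tau483
open Crest.Agent.R235.SWData_451 Crest.Agent.R235.SWTn_451
open Crest.Agent.R249.Tz805 (ToF CPair)
open Crest.Agent.R249.Tz2_805 (PF)
open Crest.Agent.R249.Tv57 (KerD)
open Crest.Agent.R235.Ind167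
open Crest.Agent.R235.LTwLd_774 (ldOf)
open Crest.Agent.R235.QSTri_451 (qs)
open Crest.Agent.R235.MdlXs_399 Crest.Agent.R235.MdlD_489 Crest.Agent.R235.MdlA_489
open Crest.Agent.R235.MdlC_489

noncomputable section

section gen

variable {M : Type} [MetricSpace M] [CompactSpace M] [ConnectedSpace M]
  [ChartedSpace (EuclideanSpace ℝ (Fin 4)) M] [IsManifold (𝓡 4) ∞ M]
  [RiemannianBundle (fun p : M => TangentSpace (𝓡 4) p)]
  [IsContMDiffRiemannianBundle (𝓡 4) ∞ (EuclideanSpace ℝ (Fin 4))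
    (fun p : M => TangentSpace (𝓡 4) p)]
  [IsRiemannianManifold (𝓡 4) M] [MeasurableSpace M] [BorelSpace M]
  [SecondCountableTopology M] [Nonempty M] [IsFiniteMeasureOnCompacts (μHE[4] : Measure M)]
  {κ : Type} [Fintype κ] {N : ℕ}

variable (T : ToF 4 M) (s : PF 4 M κ) {w : Trip M} {e : Fin 3 → F2 E4 M}
  (tri : IsTri (fun i => (w i).1.1) e)
  (hin : ∀ (x : M) (u v : TangentSpace (𝓡 4) x), inner ℝ u v = at2 (gg e) x u v)
  {p : M → Matrix (Fin N) (Fin N) ℂ} (hp : IsLine p) {a : Z2 M} (ha : IsChern p a)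

/-- **489's hypotheses for the concrete system.** -/
theorem exists_mh : ∃ (D : Fin 3 → ℝ) (C : ℝ), Mh (SX T s tri hin hp) T (pX s tri hin hp).cc
    (pX s tri hin hp).D0.W s.s w e (-1) (wwf (fun i => (w i).1.1) e) D p
    (tX T s tri hin hp ha) (cX T s tri hin hp ha) C := by
  have H := hyp T s tri hin hp ha
  obtain ⟨D, hD1, hDp⟩ := exists_D H.lt fun i => (H.smw i i).continuous
  obtain ⟨C, -, hC⟩ := MdlXt_399.ok_tX T s tri hin hp ha
  refine ⟨D, C, ?_⟩
  exact
    { ok := ok T s tri hin hp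
      sym := H.sym
      tg := H.tg
      tws := tws T s tri hin hp
      line := hp
      lt := H.lt
      smw := H.smw
      harm := harm T s tri hin hp
      D1 := hD1
      Dp := hDp
      n_eq := fun _ _ _ => rfl
      rr_eq := fun _ _ => rfl
      jsh := H.jf_sh
      tau := hC
      fE := fun t ht k x => by
        have h4 := (H.tc ht).fE k x
        refine h4.trans ?_
        unfold qG
        rw [at2_PhiF]
        ring
      ch := fun t ht => (H.tc ht).ch
      ti := s.pars
      pT := fun A B z => rfl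
      HB := ⟨(pairH (qX tri hin) s).D1, (pairH (qX tri hin) s).cc, (pairH (qX tri hin) s).smc,
        fun a => rfl⟩ }

end gen

/-- **MODF**. -/
theorem modf : SWTop_53.MODF := by
  intro M _ _ _ _ _ _ _ _ _ _ _ _ _ w e hw he hin hK N p a hp hc ha
  obtain ⟨m, ⟨s⟩⟩ := R249.Tz2_805.exists_PF (n := 4) (M := M)
  let T : ToF 4 M := R249.Tof352.tof 4 M
  have hV := hw.vol 0
  have haa : pI (w 0) a a = 0 := by
    rw [← ip_cls hV, ha]
    exact ip_zero_left hV _
  obtain ⟨b0, hb0, hab⟩ := isEx_iff.1 (cls_eq_zero.1 ha)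
  obtain ⟨D, C, hM⟩ := exists_mh T s he hin hp hc
  have ha0 : Smooth1 ((2 * Real.pi) • b0) := hb0.smul _
  have hF := hM.ffam ha0 (cL := a) hc (fun x => by
    have h1 : at2 (dG ((2 * Real.pi) • b0)) x = (2 * Real.pi) • at2 (dG b0) x := by
      rw [dG_smul]
      · rfl
      · exact hb0
    rw [h1, ← hab]
    rfl)
  obtain ⟨d0, d1, K0, K1, hlt, K4⟩ := ModR_692.nums_flat hw he hin T s hp hc hK haa
  refine ⟨_, _, _, inferInstance, inferInstance, inferInstance, _, _, _, _, C, _, d0, d1, hF,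
    hM.sym, K0, K1, hlt, K4, ?_⟩
  intro t u ht hu
  have ht0 := MdlD_489.ne_of ht
  obtain ⟨s0, hs0, hs1⟩ := exists_s0 MdlL_453.q4 (muT_sq hM.D1 ht0)
  obtain ⟨hVI, -⟩ := vi_t hM.tws hM.line hM.lt hM.smw hM.D1 hM.Dp ht0 (hM.n_eq t) hs0 hs1
  obtain ⟨h1, h2, h3, -⟩ := MdlL_453.Tws.link hM.ok hM.tws hp hVI (hM.tau t ht).norm hu.sm hu.sec
    (fun z => by rw [hu.nrm z]; norm_num)
  exact ⟨_, h1, fun x => ⟨h2 x, h3 x⟩⟩

end

end Crest.Agent.R235.ModF_53
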