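import Crest.Agent.R235.MdlJ_399
import Crest.Agent.R235.SwsQ_755

/-!
Row 235, package SW, MODEL-9 (helper399), part 2: the system `swsQ T P Jf Kt (Hp T q s)` of helper755.

* `Hp_grd`  : `H.A (f, 0) = ⟨grad f, s_A⟩`;
* `grdH`    : `GrdH (swsQ T P Jf Kt (Hp T q s))`;
* `ht`      : `HT` for the same system;
* `jd`      : `H1Bas r → ∃ j : JD M κ b, j.OK (swsQ ..)`.
-/

set_option autoImplicit false
set_option maxSynthPendingDepth 3
set_option linter.unusedSectionVars false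

open Set Function Filter Bundle Manifold MeasureTheory
open scoped Manifold ContDiff Topology ENNReal RealInnerProductSpace
open Crest.Agent.R240 Crest.Agent.R240.Ch Crest.Agent.R240.Int
open Crest.Agent.R249.Vf281 Crest.Agent.R249.Tz2_805 Crest.Agent.R249.Tz1_805
open Crest.Agent.R249.Tz805 Crest.Agent.R249.Idx789
open Crest.Agent.R249.Tv57 (Dat OpPair SmV ofD)
open Crest.Agent.R247.Ms322 (Gr)
open Crest.Agent.R247.Bo84 (mgrad mgrad_const)
open Crest.Agent.R249.Wk352 (dat0 dpair swapP)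
open Crest.Agent.R235.RiemB_399 (flG)
open Crest.Agent.R235.Ind167 Crest.Agent.R235.IndTri_451
open Crest.Agent.R235.Mdl3_399 Crest.Agent.R235.SWDefs_53 Crest.Agent.R235.RiemQ_399
open Crest.Agent.R235.DichProps_723 (H1Bas IsInt1)
open Crest.Agent.R235.SwsQ_755

noncomputable section

namespace Crest.Agent.R235.MdlJ_399

local notation "E4" => EuclideanSpace ℝ (Fin 4)

section gen

variable {M : Type*} [MetricSpace M] [CompactSpace M] [ChartedSpace E4 M] [IsManifold (𝓡 4) ∞ M]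
  [RiemannianBundle (fun p : M => TangentSpace (𝓡 4) p)]
  [IsContMDiffRiemannianBundle (𝓡 4) ∞ E4 (fun p : M => TangentSpace (𝓡 4) p)]
  [IsRiemannianManifold (𝓡 4) M] [MeasurableSpace M] [BorelSpace M]
  [SecondCountableTopology M] [Nonempty M]

variable (T : ToF 4 M) (q : QS M) {κ κ0 κ1 : Type} [Fintype κ] [Fintype κ0] [Fintype κ1]
  (s : PF 4 M κ)

theorem Hp_grd {f : M → ℝ} (hf : ContMDiff (𝓡 4) 𝓘(ℝ, ℝ) ∞ f) (A : κ) (z : M) :
    (Hp T q s).A (Fin.cons f fun _ _ => 0) A z = ⟪Gr (n := 4) f z, T.toF z (s.s A z)⟫ := by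
  have h0 : mgrad 4 (fun _ : M => (0 : ℝ)) z = 0 := mgrad_const _
  have h1 : ∀ b, bet q s (fun _ _ => 0) b z = 0 := by
    intro b
    simp only [bet, h0, zero_smul, add_zero, sub_zero]
  rw [← T.grad f z hf, T.inner_toF]
  refine (opA_cons q s f (fun _ _ => 0) A z).trans ?_
  simp only [h1, inner_zero_left, Finset.sum_const_zero, sub_zero]

variable [ConnectedSpace M]

theorem grdH (P : CPair 4 M κ κ0 κ1) (Jf : κ0 → κ0 → M → ℝ) (Kt : Fin 3 → κ0 → κ0 → M → ℝ)
    (hP : P.s = s) : GrdH (swsQ T P Jf Kt (Hp T q s)) := by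
  refine ⟨1, one_ne_zero, fun f hf A z => ?_⟩
  rw [one_mul]
  subst hP
  exact Hp_grd T q _ hf A z

end gen

section tri

variable {M : Type} [MetricSpace M] [CompactSpace M] [ConnectedSpace M] [ChartedSpace E4 M]
  [IsManifold (𝓡 4) ∞ M]
  [RiemannianBundle (fun p : M => TangentSpace (𝓡 4) p)]
  [IsContMDiffRiemannianBundle (𝓡 4) ∞ E4 (fun p : M => TangentSpace (𝓡 4) p)]
  [IsRiemannianManifold (𝓡 4) M] [MeasurableSpace M] [BorelSpace M]
  [SecondCountableTopology M] [Nonempty M]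
  {κ0 κ1 κ : Type} [Fintype κ0] [Fintype κ1] [Fintype κ]

variable (T : ToF 4 M) (s : PF 4 M κ) {w e : Fin 3 → F2 E4 M} (h : IsTri w e)
  (hin : ∀ (x : M) (u v : TangentSpace (𝓡 4) x), inner ℝ u v = at2 (gg e) x u v)
  (P : CPair 4 M κ κ0 κ1) (Jf : κ0 → κ0 → M → ℝ) (Kt : Fin 3 → κ0 → κ0 → M → ℝ)

theorem ht (hP : P.s = s) : HT (swsQ T P Jf Kt (Hp T (qsTri hin h) s)) T s w e where
  pT _ _ _ := rfl
  s_eq A z := by subst hP; rfl
  B0 a ha hs z := Hp_B_zero T (qsTri hin h) s ha hs z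
  HB a ha hs k z := Hp_HB T s h hin ha hs k z

/-- **the Jacobian data of the model.** -/
theorem jd (hP : P.s = s) (hw : Smooth2 (w 0)) {b : ℕ} {r : Fin b → F1 E4 M} (hr : H1Bas r) :
    ∃ j : JD M κ b, j.OK (swsQ T P Jf Kt (Hp T (qsTri hin h) s)) :=
  jd_ok T s (ht T s h hin P Jf Kt hP) h hin hw hr

end tri

end Crest.Agent.R235.MdlJ_399

end
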