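import Crest.Agent.R235.TauC_483
import Crest.Agent.R235.Cdr_524

/-!
Row 235 (S0364), SW-TAU (MODEL-5 of helper483), leaf ISO (helper470): the Chern class of a line
bundle does not change under a smooth isometry `V` (`Vᴴ V = p`, `V Vᴴ = p'`):
`c' = c - (1/π) ∑ d(Re V_ij) ∧ d(Im V_ij)`.
-/

set_option autoImplicit false
set_option maxSynthPendingDepth 3
set_option linter.unusedSectionVars false

open Set Function Filter MeasureTheory Matrix Complex
open scoped Manifold ContDiff Topology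

universe u

namespace Crest.Agent.R235.TauIso

open Crest.Agent.R240 Crest.Agent.R240.Ch Crest.Agent.R240.Int
open Crest.Agent.R235.Tau483

noncomputable section

/-! ### algebra -/

section Alg

variable {ι ι' : Type*} [Fintype ι] [Fintype ι']

theorem tr_aux {P Y Q : Matrix ι ι ℂ} (hPP : P * P = P) (hY : Y = Y * P + P * Y) (hQ : Q * P = Q) :
    (P * Q * Y).trace = 0 := by
  have h1 : P * Y * P = 0 := by
    have h2 : P * Y * P = P * Y * P + P * Y * P := by
      conv_lhs => rw [hY]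
      rw [Matrix.mul_add, Matrix.add_mul, ← Matrix.mul_assoc, ← Matrix.mul_assoc, hPP,
        Matrix.mul_assoc (P * Y) P P, hPP]
    exact left_eq_add.1 h2
  have h5 : Q * P * Y * P = Q * (P * Y * P) := by simp only [Matrix.mul_assoc]
  calc (P * Q * Y).trace = (P * (Q * Y)).trace := by rw [Matrix.mul_assoc]
    _ = (Q * Y * P).trace := Matrix.trace_mul_comm _ _
    _ = (Q * P * Y * P).trace := by rw [hQ]
    _ = 0 := by rw [h5, h1, Matrix.mul_zero, Matrix.trace_zero]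

/-- one half of the identity. -/
theorem half {V A B : Matrix ι' ι ℂ} {P X Y : Matrix ι ι ℂ} (h1 : Vᴴ * V = P) (hPP : P * P = P)
    (hPH : Pᴴ = P) (hVP : V * P = V) (hX : X = Aᴴ * V + Vᴴ * A) (hY : Y = Bᴴ * V + Vᴴ * B)
    (hYP : Y = Y * P + P * Y) (hB : B * P + V * Y = B) :
    (V * Vᴴ * ((A * Vᴴ + V * Aᴴ) * (B * Vᴴ + V * Bᴴ))).trace =
      (Aᴴ * B).trace - (X * Y).trace + (P * X * Y).trace + (Aᴴ * V * (Bᴴ * V)).trace := by
  have hPV : P * Vᴴ = Vᴴ := by
    have := congrArg conjTranspose hVP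
    rwa [conjTranspose_mul, hPH] at this
  -- expansion
  have e0 : (V * Vᴴ * ((A * Vᴴ + V * Aᴴ) * (B * Vᴴ + V * Bᴴ))).trace =
      (Vᴴ * A * (Vᴴ * B)).trace + (Vᴴ * A * P * (Bᴴ * V)).trace + (P * (Aᴴ * B)).trace +
        (Aᴴ * V * (Bᴴ * V)).trace := by
    rw [Matrix.add_mul, Matrix.mul_add, Matrix.mul_add, Matrix.mul_add, Matrix.mul_add,
      Matrix.mul_add, Matrix.trace_add, Matrix.trace_add, Matrix.trace_add]
    have a1 : (V * Vᴴ * (A * Vᴴ * (B * Vᴴ))).trace = (Vᴴ * A * (Vᴴ * B)).trace := by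
      have : V * Vᴴ * (A * Vᴴ * (B * Vᴴ)) = V * (Vᴴ * A * (Vᴴ * B) * Vᴴ) := by
        simp only [Matrix.mul_assoc]
      have hω0 : P * (Vᴴ * A) = Vᴴ * A := by rw [← Matrix.mul_assoc, hPV]
      rw [this, Matrix.trace_mul_comm, Matrix.mul_assoc, h1, Matrix.trace_mul_comm,
        ← Matrix.mul_assoc P (Vᴴ * A), hω0]
    have a2 : (V * Vᴴ * (A * Vᴴ * (V * Bᴴ))).trace = (Vᴴ * A * P * (Bᴴ * V)).trace := by
      have : V * Vᴴ * (A * Vᴴ * (V * Bᴴ)) = V * (Vᴴ * A * (Vᴴ * V) * Bᴴ) := by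
        simp only [Matrix.mul_assoc]
      rw [this, Matrix.trace_mul_comm, h1, Matrix.mul_assoc]
    have a3 : (V * Vᴴ * (V * Aᴴ * (B * Vᴴ))).trace = (P * (Aᴴ * B)).trace := by
      have : V * Vᴴ * (V * Aᴴ * (B * Vᴴ)) = V * ((Vᴴ * V) * (Aᴴ * B) * Vᴴ) := by
        simp only [Matrix.mul_assoc]
      rw [this, Matrix.trace_mul_comm, h1, Matrix.mul_assoc, h1, Matrix.trace_mul_comm,
        ← Matrix.mul_assoc, hPP]
    have a4 : (V * Vᴴ * (V * Aᴴ * (V * Bᴴ))).trace = (Aᴴ * V * (Bᴴ * V)).trace := by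
      have : V * Vᴴ * (V * Aᴴ * (V * Bᴴ)) = (V * (Vᴴ * V)) * (Aᴴ * V * Bᴴ) := by
        simp only [Matrix.mul_assoc]
      rw [this, h1, hVP, Matrix.trace_mul_comm, Matrix.mul_assoc]
    rw [a1, a2, a3, a4]
    ring
  -- `B^H V = Y - V^H B`
  have hBV : Bᴴ * V = Y - Vᴴ * B := by rw [hY]; abel
  have hω : P * (Vᴴ * A) = Vᴴ * A := by rw [← Matrix.mul_assoc, hPV]
  have hω' : P * (Vᴴ * B) = Vᴴ * B := by rw [← Matrix.mul_assoc, hPV]
  -- (i)
  have i1 : (Vᴴ * A * P * Y).trace = 0 := by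
    have j1 : (Vᴴ * A * Y).trace = (Vᴴ * A * (Y * P)).trace := by
      conv_lhs => rw [← hω]
      rw [Matrix.mul_assoc P, Matrix.trace_mul_comm, Matrix.mul_assoc]
    have j2 : Vᴴ * A * Y = Vᴴ * A * (Y * P) + Vᴴ * A * P * Y := by
      conv_lhs => rw [hYP]
      rw [Matrix.mul_add, ← Matrix.mul_assoc (Vᴴ * A) P Y]
    have j3 := congrArg Matrix.trace j2
    rw [Matrix.trace_add, ← j1] at j3
    exact left_eq_add.1 j3
  have i2 : (Vᴴ * A * P * (Bᴴ * V)).trace = - (Vᴴ * A * (Vᴴ * B)).trace := by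
    rw [hBV, Matrix.mul_sub, Matrix.trace_sub, i1, Matrix.mul_assoc (Vᴴ * A) P, hω', zero_sub]
  -- (ii)
  have i3 : (P * X * Y).trace = (Vᴴ * A * Y).trace := by
    have k1 : (P * (Aᴴ * V) * Y).trace = 0 :=
      tr_aux hPP hYP (by rw [Matrix.mul_assoc, hVP])
    rw [hX, Matrix.mul_add, Matrix.add_mul, Matrix.trace_add, k1, zero_add, hω]
  have i4 : (P * (Aᴴ * B)).trace = (Aᴴ * B).trace - (X * Y).trace + (Vᴴ * A * Y).trace := by
    have l1 : (Aᴴ * B).trace = (P * (Aᴴ * B)).trace + (Aᴴ * V * Y).trace := by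
      conv_lhs => rw [← hB]
      rw [Matrix.mul_add, Matrix.trace_add, ← Matrix.mul_assoc, Matrix.trace_mul_comm _ P,
        ← Matrix.mul_assoc Aᴴ V Y]
    have l2 : Aᴴ * V = X - Vᴴ * A := by rw [hX]; abel
    rw [l2, Matrix.sub_mul, Matrix.trace_sub] at l1
    rw [l1]; ring
  rw [e0, i2, i4, i3]
  ring

theorem alg {V A B : Matrix ι' ι ℂ} {P X Y : Matrix ι ι ℂ} (h1 : Vᴴ * V = P) (hPP : P * P = P)
    (hPH : Pᴴ = P) (hVP : V * P = V) (hX : X = Aᴴ * V + Vᴴ * A) (hY : Y = Bᴴ * V + Vᴴ * B)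
    (hXP : X = X * P + P * X) (hYP : Y = Y * P + P * Y) (hA : A * P + V * X = A)
    (hB : B * P + V * Y = B) :
    (V * Vᴴ * ((A * Vᴴ + V * Aᴴ) * (B * Vᴴ + V * Bᴴ) -
      (B * Vᴴ + V * Bᴴ) * (A * Vᴴ + V * Aᴴ))).trace =
      (P * (X * Y - Y * X)).trace + ((Aᴴ * B).trace - (Bᴴ * A).trace) := by
  rw [Matrix.mul_sub, Matrix.trace_sub, half h1 hPP hPH hVP hX hY hYP hB,
    half h1 hPP hPH hVP hY hX hXP hA, Matrix.mul_sub, Matrix.trace_sub, Matrix.mul_assoc P X Y,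
    Matrix.mul_assoc P Y X, Matrix.trace_mul_comm X Y, Matrix.trace_mul_comm (Aᴴ * V)]
  ring

end Alg

/-! ### the manifold -/

section Man

variable {M : Type u} [TopologicalSpace M] [ChartedSpace E4 M] [IsManifold 𝓘(ℝ, E4) ∞ M]
variable {ι ι' : Type*} [Fintype ι] [Fintype ι'] {p : M → Matrix ι ι ℂ} {p' : M → Matrix ι' ι' ℂ}

/-- the differential of a matrix valued map. -/
def dM (V : M → Matrix ι' ι ℂ) (x : M) (u : E4) : Matrix ι' ι ℂ := fun i j =>
  dC (fun y => V y i j) x u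

theorem d1' {V : M → Matrix ι' ι ℂ} (hV : ∀ i j, SmC fun x => V x i j)
    (h1 : ∀ x, (V x)ᴴ * V x = p x) (x : M) (u : E4) :
    dmt p x u = (dM V x u)ᴴ * V x + (V x)ᴴ * dM V x u := by
  ext i j
  have e : (fun y => p y i j) = fun y => ∑ k, star (V y k i) * V y k j := by
    funext y; rw [← h1 y]; rfl
  rw [dmt_eq, e, dC_sum _ fun k _ => SmC.mul (SmC.star (hV k i)) (hV k j), Matrix.add_apply,
    Matrix.mul_apply, Matrix.mul_apply, ← Finset.sum_add_distrib]
  refine Finset.sum_congr rfl fun k _ => ?_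
  rw [dC_mul (SmC.star (hV k i)) (hV k j), dC_star (hV k i)]
  rfl

theorem d2' {V : M → Matrix ι' ι ℂ} (hV : ∀ i j, SmC fun x => V x i j)
    (h2 : ∀ x, V x * (V x)ᴴ = p' x) (x : M) (u : E4) :
    dmt p' x u = dM V x u * (V x)ᴴ + V x * (dM V x u)ᴴ := by
  ext i j
  have e : (fun y => p' y i j) = fun y => ∑ k, V y i k * star (V y j k) := by
    funext y; rw [← h2 y]; rfl
  rw [dmt_eq, e, dC_sum _ fun k _ => SmC.mul (hV i k) (SmC.star (hV j k)), Matrix.add_apply,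
    Matrix.mul_apply, Matrix.mul_apply, ← Finset.sum_add_distrib]
  refine Finset.sum_congr rfl fun k _ => ?_
  rw [dC_mul (hV i k) (SmC.star (hV j k)), dC_star (hV j k)]
  rfl

open scoped ComplexOrder in
theorem VP {V : Matrix ι' ι ℂ} {P : Matrix ι ι ℂ} (hPP : P * P = P) (hPH : Pᴴ = P)
    (h1 : Vᴴ * V = P) : V * P = V := by
  have h : (V * P - V)ᴴ * (V * P - V) = 0 := by
    rw [conjTranspose_sub, conjTranspose_mul, hPH, Matrix.sub_mul, Matrix.mul_sub, Matrix.mul_sub,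
      Matrix.mul_assoc P Vᴴ, ← Matrix.mul_assoc Vᴴ V P, h1, Matrix.mul_assoc P Vᴴ V, h1, hPP, hPP]
    simp
  have h2 := Matrix.conjTranspose_mul_self_eq_zero.1 h
  exact sub_eq_zero.1 h2

theorem d3' (hp : Ln p) {V : M → Matrix ι' ι ℂ} (hV : ∀ i j, SmC fun x => V x i j)
    (h1 : ∀ x, (V x)ᴴ * V x = p x) (x : M) (u : E4) :
    dM V x u * p x + V x * dmt p x u = dM V x u := by
  ext i j
  have e : (fun y => V y i j) = fun y => ∑ k, V y i k * p y k j := by
    funext y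
    conv_lhs => rw [← VP (hp.idem y) (hp.herm y) (h1 y)]
    rfl
  have e2 : dM V x u i j = dC (fun y => V y i j) x u := rfl
  rw [e2, e, dC_sum _ fun k _ => SmC.mul (hV i k) (hp.smooth k j), Matrix.add_apply,
    Matrix.mul_apply, Matrix.mul_apply, ← Finset.sum_add_distrib]
  refine Finset.sum_congr rfl fun k _ => ?_
  rw [dC_mul (hV i k) (hp.smooth k j)]
  rfl

/-- the primitive. -/
def prS (V : M → Matrix ι' ι ℂ) : F1 E4 M :=
  ∑ i, ∑ j, fmul1 (fun x => (V x i j).re) (dF fun x => (V x i j).im)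

theorem smooth_prS {V : M → Matrix ι' ι ℂ} (hV : ∀ i j, SmC fun x => V x i j) :
    Smooth1 (prS V) :=
  Tau_692.smooth1_sum _ fun i _ => Tau_692.smooth1_sum _ fun j _ =>
    Smooth1.fmul (hV i j).re (Smooth1.dF (hV i j).im)

theorem dG_prS {V : M → Matrix ι' ι ℂ} (hV : ∀ i j, SmC fun x => V x i j) (x : M) (u v : E4) :
    at2 (dG (prS V)) x u v = ((dM V x u)ᴴ * dM V x v).trace.im := by
  unfold prS
  rw [Tau_692.dG_sum _ fun i _ => Tau_692.smooth1_sum _ fun j _ =>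
    Smooth1.fmul (hV i j).re (Smooth1.dF (hV i j).im), Tau_692.at2_sum]
  have e1 : ∀ i, at2 (dG (∑ j, fmul1 (fun x => (V x i j).re) (dF (E := E4) fun x => (V x i j).im))) x u v
      = ∑ j, ((dM V x u i j).re * (dM V x v i j).im - (dM V x v i j).re * (dM V x u i j).im) := by
    intro i
    rw [Tau_692.dG_sum _ fun j _ => Smooth1.fmul (hV i j).re (Smooth1.dF (hV i j).im),
      Tau_692.at2_sum]
    refine Finset.sum_congr rfl fun j _ => ?_
    rw [dG_fd (hV i j).re (hV i j).im, at2_wedG, ← dC_re (hV i j), ← dC_re (hV i j),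
      ← dC_im (hV i j), ← dC_im (hV i j)]
    show _ = (dC (fun y => V y i j) x u).re * (dC (fun y => V y i j) x v).im -
      (dC (fun y => V y i j) x v).re * (dC (fun y => V y i j) x u).im
    ring
  simp only [e1]
  rw [Matrix.trace, Complex.im_sum, Finset.sum_comm]
  refine Finset.sum_congr rfl fun j _ => ?_
  rw [Matrix.diag_apply, Matrix.mul_apply, Complex.im_sum]
  refine Finset.sum_congr rfl fun i _ => ?_
  rw [Matrix.conjTranspose_apply, Complex.mul_im]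
  have s1 : (star (dM V x u i j)).re = (dM V x u i j).re := rfl
  have s2 : (star (dM V x u i j)).im = -(dM V x u i j).im := rfl
  rw [s1, s2]
  ring

/-- **ISO**: the Chern class does not change under an isometry. -/
theorem iso_chern (hp : Ln p) (hp' : Ln p') {c : Z2 M} (hc : Ch0 p c)
    {V : M → Matrix ι' ι ℂ} (hV : ∀ i j, SmC fun x => V x i j)
    (h1 : ∀ x, (V x)ᴴ * V x = p x) (h2 : ∀ x, V x * (V x)ᴴ = p' x) :
    ∃ c' : Z2 M, Ch0 p' c' ∧ cls c' = cls c := by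
  have hs := smooth_prS hV
  have hsm : Smooth2 ((c.1.1 : F2 E4 M) + (-(1 / Real.pi)) • dG (prS V)) :=
    Smooth2.add c.1.2 (Smooth2.smul _ (Smooth2.dG hs))
  have hcl : Closed2 ((c.1.1 : F2 E4 M) + (-(1 / Real.pi)) • dG (prS V)) :=
    Closed2.add c.1.2 (Smooth2.smul _ (Smooth2.dG hs)) c.2
      (Closed2.smul _ (Smooth2.dG hs) (Closed2.dG hs))
  refine ⟨⟨⟨(c.1.1 : F2 E4 M) + (-(1 / Real.pi)) • dG (prS V), hsm⟩, hcl⟩, ?_, ?_⟩
  · intro x u v
    have hval : val (⟨⟨(c.1.1 : F2 E4 M) + (-(1 / Real.pi)) • dG (prS V), hsm⟩, hcl⟩ : Z2 M) x u v =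
      val c x u v + (-(1 / Real.pi)) * at2 (dG (prS V)) x u v := rfl
    rw [hval, dG_prS hV, hc x u v]
    set A := dM V x u with hA
    set B := dM V x v with hB
    have key := alg (V := V x) (A := A) (B := B) (P := p x) (X := dmt p x u) (Y := dmt p x v)
      (h1 x) (hp.idem x) (hp.herm x) (VP (hp.idem x) (hp.herm x) (h1 x)) (d1' hV h1 x u)
      (d1' hV h1 x v) (dmt_line hp x u) (dmt_line hp x v) (d3' hp hV h1 x u) (d3' hp hV h1 x v)
    rw [h2 x, ← d2' hV h2 x u, ← d2' hV h2 x v] at key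
    rw [key]
    have hst : (Bᴴ * A).trace = star ((Aᴴ * B).trace) := by
      rw [← Matrix.trace_conjTranspose, conjTranspose_mul, conjTranspose_conjTranspose]
    rw [hst]
    set t := (Aᴴ * B).trace with ht
    have h5 : t - star t = ((2 * t.im : ℝ) : ℂ) * Complex.I := by
      apply Complex.ext
      · simp
      · simp; ring
    rw [h5]
    have hπ : (Real.pi : ℝ) ≠ 0 := Real.pi_ne_zero
    have h6 : (Complex.I / (2 * Real.pi)) * ((p x * (dmt p x u * dmt p x v - dmt p x v * dmt p x u)).trace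
        + ((2 * t.im : ℝ) : ℂ) * Complex.I) =
        (Complex.I / (2 * Real.pi)) * (p x * (dmt p x u * dmt p x v - dmt p x v * dmt p x u)).trace
        + ((-(1 / Real.pi) * t.im : ℝ) : ℂ) := by
      have hc' : (Real.pi : ℂ) ≠ 0 := by exact_mod_cast hπ
      push_cast
      field_simp
      linear_combination ((t.im : ℂ) * 2) * Complex.I_sq
    rw [h6, Complex.add_re, Complex.ofReal_re]
  · unfold cls
    rw [Submodule.mkQ_apply, Submodule.mkQ_apply, Submodule.Quotient.eq]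
    have e : ((c.1.1 : F2 E4 M) + (-(1 / Real.pi)) • dG (prS V)) - c.1.1 =
        dG ((-(1 / Real.pi)) • prS V) := by
      rw [dG_smul _ hs, add_sub_cancel_left]
    show IsEx (((c.1.1 : F2 E4 M) + (-(1 / Real.pi)) • dG (prS V)) - c.1.1)
    rw [e]
    exact isEx_dG (hs.smul _)

end Man

end

end Crest.Agent.R235.TauIso
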