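import Crest.Agent.R235.Defs_837

/-!
Row 235 (S0364), PACKAGE SW, MODEL (helper470): the isometry `V` of helper483 #2200 (f).

Twisted format of helper453 (#2149): for real matrices `A`, `JA` on `κ` (`JA = J A`) and a complex
matrix `q` on `Fin N`,  `tw q A JA (a,k) (b,l) = Re q_kl A_ab + Im q_kl (JA)_ab`.

With a quaternionic structure `J, ρ_1, ρ_2, ρ_3` on `ℝ^κ` (card κ = 4), `P = (1 + ∑ n_k ρ_k)/2`,
`n : M → S²` smooth with `s n_{k0} > -1` for one sign `s` and one index `k0`, and `q : M → Mat_N(ℂ)`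
a line:  `V_{(a,k),l} = h_a q_kl`, `h = (u₀ - i J u₀)/√2`, `u₀ = P v/|P v|`:
`V^* V = q`, `V V^* = (Π - i J' Π)/2`, `Π = tw q P (J P)`, `J' = tw q J (-1)`.
-/

set_option autoImplicit false
set_option maxSynthPendingDepth 3
set_option linter.unusedSectionVars false

open Set Function Filter Matrix
open scoped Manifold ContDiff Topology

universe u

namespace Crest.Agent.R235.VIso_470

open Crest.Agent.R240 Crest.Agent.R240.Ch Crest.Agent.R235

noncomputable section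

/-! ### algebra -/

section Alg

variable {κ : Type} [Fintype κ] [DecidableEq κ]

/-- a quaternionic structure on `ℝ^κ`. -/
structure Q4 (J : Matrix κ κ ℝ) (ρ : Fin 3 → Matrix κ κ ℝ) : Prop where
  skew : Jᵀ = -J
  sq : J * J = -1
  sym : ∀ k, (ρ k)ᵀ = ρ k
  com : ∀ k, J * ρ k = ρ k * J
  anti : ∀ j k, ρ j * ρ k + ρ k * ρ j = if j = k then (2 : ℝ) • (1 : Matrix κ κ ℝ) else 0
  card : Fintype.card κ = 4

variable {J : Matrix κ κ ℝ} {ρ : Fin 3 → Matrix κ κ ℝ}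

theorem Q4.rsq (h : Q4 J ρ) (k : Fin 3) : ρ k * ρ k = 1 := by
  have h1 := h.anti k k
  rw [if_pos rfl, ← two_smul ℝ] at h1
  exact smul_right_injective _ (two_ne_zero (α := ℝ)) h1

theorem Q4.tr (h : Q4 J ρ) (k : Fin 3) : (ρ k).trace = 0 := by
  have hk : k + 1 ≠ k := by fin_cases k <;> decide
  have h1 := h.anti k (k + 1)
  rw [if_neg (Ne.symm hk)] at h1
  have h2 : ρ k = - (ρ (k + 1) * ρ k * ρ (k + 1)) := by
    have h3 := congrArg (fun A => A * ρ (k + 1)) h1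
    simp only [Matrix.add_mul, Matrix.zero_mul] at h3
    rw [Matrix.mul_assoc (ρ k), h.rsq, Matrix.mul_one] at h3
    exact eq_neg_of_add_eq_zero_left h3
  have h3 := congrArg Matrix.trace h2
  rw [Matrix.trace_neg, Matrix.trace_mul_comm, ← Matrix.mul_assoc, h.rsq, Matrix.one_mul] at h3
  linarith

/-- `P = (1 + ∑ n_k ρ_k) / 2`. -/
def PP (ρ : Fin 3 → Matrix κ κ ℝ) (n : Fin 3 → ℝ) : Matrix κ κ ℝ :=
  (1 / 2 : ℝ) • (1 + ∑ k, n k • ρ k)

theorem Q4.sumsq (h : Q4 J ρ) {n : Fin 3 → ℝ} (hn : ∑ k, n k ^ 2 = 1) :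
    (∑ k, n k • ρ k) * (∑ k, n k • ρ k) = 1 := by
  have h1 : (∑ k, n k • ρ k) * (∑ k, n k • ρ k) = ∑ j, ∑ k, (n j * n k) • (ρ j * ρ k) := by
    rw [Finset.sum_mul]
    refine Finset.sum_congr rfl fun j _ => ?_
    rw [Finset.mul_sum]
    refine Finset.sum_congr rfl fun k _ => ?_
    rw [Matrix.smul_mul, Matrix.mul_smul, smul_smul]
  have h2 : (2 : ℝ) • ∑ j, ∑ k, (n j * n k) • (ρ j * ρ k) =
      ∑ j, ∑ k, (n j * n k) • (ρ j * ρ k + ρ k * ρ j) := by
    simp only [smul_add, Finset.sum_add_distrib]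
    rw [two_smul]
    congr 1
    rw [Finset.sum_comm]
    refine Finset.sum_congr rfl fun j _ => Finset.sum_congr rfl fun k _ => ?_
    rw [mul_comm]
  have h3 : ∑ j, ∑ k, (n j * n k) • (ρ j * ρ k + ρ k * ρ j) = (2 : ℝ) • (1 : Matrix κ κ ℝ) := by
    have h4 : ∀ j, ∑ k, (n j * n k) • (ρ j * ρ k + ρ k * ρ j) =
        (n j ^ 2 * 2) • (1 : Matrix κ κ ℝ) := by
      intro j
      rw [Finset.sum_eq_single j]
      · rw [h.anti, if_pos rfl, smul_smul, pow_two]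
      · intro k _ hk
        rw [h.anti, if_neg (Ne.symm hk), smul_zero]
      · intro hj; exact absurd (Finset.mem_univ j) hj
    simp only [h4]
    rw [← Finset.sum_smul, ← Finset.sum_mul, hn, one_mul]
  rw [h1]
  refine smul_right_injective _ (two_ne_zero (α := ℝ)) ?_
  beta_reduce
  rw [h2, h3]

theorem Q4.PP_idem (h : Q4 J ρ) {n : Fin 3 → ℝ} (hn : ∑ k, n k ^ 2 = 1) :
    PP ρ n * PP ρ n = PP ρ n := by
  unfold PP
  set A := ∑ k, n k • ρ k with hA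
  have h1 : A * A = 1 := h.sumsq hn
  rw [Matrix.smul_mul, Matrix.mul_smul, smul_smul, Matrix.add_mul, Matrix.mul_add, Matrix.mul_add,
    h1, Matrix.one_mul, Matrix.mul_one, Matrix.one_mul]
  have h2 : (1 + A + (A + 1) : Matrix κ κ ℝ) = (2 : ℝ) • (1 + A) := by
    rw [two_smul]; abel
  rw [h2, smul_smul]
  norm_num

theorem Q4.PP_sym (h : Q4 J ρ) (n : Fin 3 → ℝ) : (PP ρ n)ᵀ = PP ρ n := by
  unfold PP
  rw [Matrix.transpose_smul, Matrix.transpose_add, Matrix.transpose_one, Matrix.transpose_sum]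
  simp only [Matrix.transpose_smul, h.sym]

theorem Q4.PP_com (h : Q4 J ρ) (n : Fin 3 → ℝ) : J * PP ρ n = PP ρ n * J := by
  unfold PP
  rw [Matrix.mul_smul, Matrix.smul_mul, Matrix.mul_add, Matrix.add_mul, Matrix.mul_one,
    Matrix.one_mul, Finset.mul_sum, Finset.sum_mul]
  simp only [Matrix.mul_smul, Matrix.smul_mul, h.com]

theorem Q4.PP_tr (h : Q4 J ρ) (n : Fin 3 → ℝ) : (PP ρ n).trace = 2 := by
  unfold PP
  rw [Matrix.trace_smul, Matrix.trace_add, Matrix.trace_one, Matrix.trace_sum, h.card]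
  simp only [Matrix.trace_smul, h.tr, smul_zero, Finset.sum_const_zero]
  norm_num

theorem skew_dot {A : Matrix κ κ ℝ} (hA : Aᵀ = -A) (v : κ → ℝ) : v ⬝ᵥ (A *ᵥ v) = 0 := by
  have h1 : v ⬝ᵥ (A *ᵥ v) = (Aᵀ *ᵥ v) ⬝ᵥ v := by
    rw [Matrix.mulVec_transpose, Matrix.dotProduct_mulVec]
  rw [hA, Matrix.neg_mulVec, neg_dotProduct, dotProduct_comm (A *ᵥ v)] at h1
  linarith

theorem mv_dot (A : Matrix κ κ ℝ) (v w : κ → ℝ) : (A *ᵥ v) ⬝ᵥ w = v ⬝ᵥ (Aᵀ *ᵥ w) := by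
  rw [Matrix.mulVec_transpose, dotProduct_comm, Matrix.dotProduct_mulVec, dotProduct_comm]

theorem Q4.Jv (h : Q4 J ρ) (v : κ → ℝ) : (J *ᵥ v) ⬝ᵥ (J *ᵥ v) = v ⬝ᵥ v := by
  rw [mv_dot, Matrix.mulVec_mulVec, h.skew, Matrix.neg_mul, h.sq, neg_neg, Matrix.one_mulVec]

/-- the projection is `u uᵀ + (J u) (J u)ᵀ`. -/
theorem Q4.PP_eq (h : Q4 J ρ) {n : Fin 3 → ℝ} (hn : ∑ k, n k ^ 2 = 1) {u : κ → ℝ}
    (hu : PP ρ n *ᵥ u = u) (h1 : u ⬝ᵥ u = 1) :
    PP ρ n = vecMulVec u u + vecMulVec (J *ᵥ u) (J *ᵥ u) := by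
  set P := PP ρ n with hP
  have hJu : P *ᵥ (J *ᵥ u) = J *ᵥ u := by
    rw [Matrix.mulVec_mulVec, ← h.PP_com, ← Matrix.mulVec_mulVec, hu]
  have hJ1 : (J *ᵥ u) ⬝ᵥ (J *ᵥ u) = 1 := by rw [h.Jv, h1]
  have hJ0 : u ⬝ᵥ (J *ᵥ u) = 0 := skew_dot h.skew u
  have hJ0' : (J *ᵥ u) ⬝ᵥ u = 0 := by rw [dotProduct_comm]; exact hJ0
  set R := P - (vecMulVec u u + vecMulVec (J *ᵥ u) (J *ᵥ u)) with hR
  have hs : Rᵀ = R := by
    rw [hR, Matrix.transpose_sub, Matrix.transpose_add, Matrix.transpose_vecMulVec,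
      Matrix.transpose_vecMulVec, h.PP_sym]
  have hPu : P * vecMulVec u u = vecMulVec u u := by rw [Matrix.mul_vecMulVec, hu]
  have hPJ : P * vecMulVec (J *ᵥ u) (J *ᵥ u) = vecMulVec (J *ᵥ u) (J *ᵥ u) := by
    rw [Matrix.mul_vecMulVec, hJu]
  have huP : vecMulVec u u * P = vecMulVec u u := by
    have := congrArg Matrix.transpose hPu
    rwa [Matrix.transpose_mul, Matrix.transpose_vecMulVec, h.PP_sym] at this
  have hJP : vecMulVec (J *ᵥ u) (J *ᵥ u) * P = vecMulVec (J *ᵥ u) (J *ᵥ u) := by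
    have := congrArg Matrix.transpose hPJ
    rwa [Matrix.transpose_mul, Matrix.transpose_vecMulVec, h.PP_sym] at this
  have hR2 : R * R = R := by
    rw [hR, Matrix.sub_mul, Matrix.mul_sub, Matrix.mul_sub, h.PP_idem hn, Matrix.mul_add, hPu, hPJ,
      Matrix.add_mul, huP, hJP, Matrix.add_mul, Matrix.mul_add, Matrix.mul_add]
    simp only [Matrix.vecMulVec_mul_vecMulVec, h1, hJ1, hJ0, hJ0', one_smul, zero_smul,
      Matrix.vecMulVec_zero]
    abel
  have htr : R.trace = 0 := by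
    rw [hR, Matrix.trace_sub, Matrix.trace_add, h.PP_tr, Matrix.trace_vecMulVec,
      Matrix.trace_vecMulVec, h1, hJ1]
    norm_num
  have h0 : R = 0 := by
    have e1 : ∑ i, ∑ j, R i j * R i j = 0 := by
      have h2 : (R * Rᵀ).trace = 0 := by rw [hs, hR2, htr]
      simpa [Matrix.trace, Matrix.mul_apply] using h2
    ext i j
    have h3 := (Finset.sum_eq_zero_iff_of_nonneg (fun i _ =>
      Finset.sum_nonneg fun j _ => mul_self_nonneg (R i j))).1 e1 i (Finset.mem_univ i)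
    have h4 := (Finset.sum_eq_zero_iff_of_nonneg (fun j _ => mul_self_nonneg (R i j))).1 h3 j
      (Finset.mem_univ j)
    simpa using h4
  exact sub_eq_zero.1 h0

/-- a constant vector whose projection does not vanish. -/
theorem Q4.exists_v (h : Q4 J ρ) (k0 : Fin 3) {s : ℝ} (hs : s ^ 2 = 1) :
    ∃ v : κ → ℝ, v ⬝ᵥ v = 1 ∧ ∀ n : Fin 3 → ℝ, v ⬝ᵥ (PP ρ n *ᵥ v) = (1 + s * n k0) / 2 := by
  classical
  -- an eigenvector
  have hex : ∃ w : κ → ℝ, w + s • (ρ k0 *ᵥ w) ≠ 0 := by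
    by_contra hn
    push Not at hn
    have e1 : (1 : Matrix κ κ ℝ) + s • ρ k0 = 0 := by
      refine Matrix.ext_of_mulVec_single fun i => ?_
      rw [Matrix.add_mulVec, Matrix.one_mulVec, Matrix.smul_mulVec, hn, Matrix.zero_mulVec]
    have e2 := congrArg Matrix.trace e1
    rw [Matrix.trace_add, Matrix.trace_smul, h.tr, Matrix.trace_one, h.card] at e2
    norm_num at e2
  obtain ⟨w, hw⟩ := hex
  set v0 := w + s • (ρ k0 *ᵥ w) with hv0
  have hev0 : ρ k0 *ᵥ v0 = s • v0 := by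
    rw [hv0, Matrix.mulVec_add, Matrix.mulVec_smul, Matrix.mulVec_mulVec, h.rsq,
      Matrix.one_mulVec, smul_add, smul_smul, ← pow_two, hs, one_smul, add_comm]
  have hpos : 0 < v0 ⬝ᵥ v0 := by
    have h1 : 0 ≤ v0 ⬝ᵥ v0 := Finset.sum_nonneg fun i _ => mul_self_nonneg _
    refine lt_of_le_of_ne h1 fun h2 => hw ?_
    exact dotProduct_self_eq_zero.1 h2.symm
  set c := (√(v0 ⬝ᵥ v0))⁻¹ with hc
  have hc2 : c ^ 2 * (v0 ⬝ᵥ v0) = 1 := by
    rw [hc, inv_pow, Real.sq_sqrt hpos.le, inv_mul_cancel₀ hpos.ne']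
  refine ⟨c • v0, ?_, fun n => ?_⟩
  · rw [smul_dotProduct, dotProduct_smul, smul_eq_mul, smul_eq_mul, ← mul_assoc, ← pow_two, hc2]
  set v := c • v0 with hv
  have hv1 : v ⬝ᵥ v = 1 := by
    rw [hv, smul_dotProduct, dotProduct_smul, smul_eq_mul, smul_eq_mul, ← mul_assoc, ← pow_two, hc2]
  have hev : ρ k0 *ᵥ v = s • v := by
    rw [hv, Matrix.mulVec_smul, hev0, smul_comm]
  have hj : ∀ j, v ⬝ᵥ (ρ j *ᵥ v) = if j = k0 then s else 0 := by
    intro j
    split_ifs with hjk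
    · rw [hjk, hev, dotProduct_smul, hv1, smul_eq_mul, mul_one]
    · have h1 := congrArg (fun A => v ⬝ᵥ (A *ᵥ v)) (h.anti j k0)
      simp only [if_neg hjk, Matrix.add_mulVec, Matrix.zero_mulVec, dotProduct_zero,
        dotProduct_add] at h1
      rw [← Matrix.mulVec_mulVec, ← Matrix.mulVec_mulVec, hev, Matrix.mulVec_smul,
        dotProduct_smul] at h1
      have h2 : v ⬝ᵥ (ρ k0 *ᵥ (ρ j *ᵥ v)) = s • (v ⬝ᵥ (ρ j *ᵥ v)) := by
        have h3 := mv_dot (ρ k0) v (ρ j *ᵥ v)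
        rw [h.sym, hev, smul_dotProduct] at h3
        exact h3.symm
      rw [h2, smul_eq_mul] at h1
      have hs0 : s ≠ 0 := by rintro rfl; norm_num at hs
      have h4 : s * (v ⬝ᵥ (ρ j *ᵥ v)) = 0 := by linarith
      exact (mul_eq_zero.1 h4).resolve_left hs0
  have h5 : v ⬝ᵥ ((∑ k, n k • ρ k) *ᵥ v) = ∑ k, n k * (v ⬝ᵥ (ρ k *ᵥ v)) := by
    rw [Matrix.sum_mulVec, dotProduct_sum]
    refine Finset.sum_congr rfl fun k _ => ?_
    rw [Matrix.smul_mulVec, dotProduct_smul, smul_eq_mul]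
  unfold PP
  rw [Matrix.smul_mulVec, dotProduct_smul, Matrix.add_mulVec, Matrix.one_mulVec, dotProduct_add,
    hv1, h5]
  simp only [hj]
  rw [Finset.sum_eq_single k0]
  · rw [if_pos rfl, smul_eq_mul]; ring
  · intro k _ hk; rw [if_neg hk, mul_zero]
  · intro hk; exact absurd (Finset.mem_univ _) hk

/-! ### the twisted format -/

variable {N : ℕ}

/-- `tw J C A = Re C ⊗ A + Im C ⊗ J A`. -/
def tw (J : Matrix κ κ ℝ) (C : Matrix (Fin N) (Fin N) ℂ) (A : Matrix κ κ ℝ) :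
    Matrix (κ × Fin N) (κ × Fin N) ℝ := fun y y' =>
  (C y.2 y'.2).re * A y.1 y'.1 + (C y.2 y'.2).im * (J * A) y.1 y'.1

omit [DecidableEq κ] in
theorem tw_add (J : Matrix κ κ ℝ) (C : Matrix (Fin N) (Fin N) ℂ) (A B : Matrix κ κ ℝ) :
    tw J C (A + B) = tw J C A + tw J C B := by
  ext y y'
  simp only [tw, Matrix.mul_add, Matrix.add_apply]
  ring

omit [DecidableEq κ] in
theorem tw_smul (J : Matrix κ κ ℝ) (C : Matrix (Fin N) (Fin N) ℂ) (r : ℝ) (A : Matrix κ κ ℝ) :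
    tw J C (r • A) = r • tw J C A := by
  ext y y'
  simp only [tw, Matrix.mul_smul, Matrix.smul_apply, smul_eq_mul]
  ring

omit [DecidableEq κ] in
theorem tw_sum {α : Type*} (t : Finset α) (J : Matrix κ κ ℝ) (C : Matrix (Fin N) (Fin N) ℂ)
    (A : α → Matrix κ κ ℝ) : tw J C (∑ k ∈ t, A k) = ∑ k ∈ t, tw J C (A k) := by
  classical
  induction t using Finset.induction_on with
  | empty =>
    ext y y'
    simp [tw]
  | insert a t ha ih => rw [Finset.sum_insert ha, Finset.sum_insert ha, tw_add, ih]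

/-- multiplicativity. -/
theorem tw_mul (hJ : J * J = -1) (C D : Matrix (Fin N) (Fin N) ℂ) {A : Matrix κ κ ℝ}
    (hA : J * A = A * J) (B : Matrix κ κ ℝ) : tw J C A * tw J D B = tw J (C * D) (A * B) := by
  ext ⟨a, k⟩ ⟨b, l⟩
  have e1 : ∀ (X Y : Matrix κ κ ℝ) (f g : Fin N → ℝ),
      ∑ y : κ × Fin N, (f y.2 * X a y.1) * (g y.2 * Y y.1 b) = (∑ m, f m * g m) * (X * Y) a b := by
    intro X Y f g
    rw [Fintype.sum_prod_type, Matrix.mul_apply, Finset.sum_mul_sum, Finset.sum_comm]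
    refine Finset.sum_congr rfl fun m _ => Finset.sum_congr rfl fun c _ => ?_
    ring
  have hJA : ∀ X : Matrix κ κ ℝ, J * A * (J * X) = -(A * X) := by
    intro X
    rw [hA, Matrix.mul_assoc, ← Matrix.mul_assoc J J, hJ, Matrix.neg_mul, Matrix.one_mul,
      Matrix.mul_neg]
  have hAJ : ∀ X : Matrix κ κ ℝ, A * (J * X) = J * (A * X) := by
    intro X
    rw [← Matrix.mul_assoc, ← hA, Matrix.mul_assoc]
  simp only [Matrix.mul_apply (M := tw J C A), tw]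
  have e2 : ∀ y : κ × Fin N, ((C k y.2).re * A a y.1 + (C k y.2).im * (J * A) a y.1) *
      ((D y.2 l).re * B y.1 b + (D y.2 l).im * (J * B) y.1 b) =
      ((C k y.2).re * A a y.1) * ((D y.2 l).re * B y.1 b) +
      ((C k y.2).re * A a y.1) * ((D y.2 l).im * (J * B) y.1 b) +
      ((C k y.2).im * (J * A) a y.1) * ((D y.2 l).re * B y.1 b) +
      ((C k y.2).im * (J * A) a y.1) * ((D y.2 l).im * (J * B) y.1 b) := by
    intro y; ring
  simp only [e2, Finset.sum_add_distrib]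
  rw [e1 A B (fun m => (C k m).re) (fun m => (D m l).re),
    e1 A (J * B) (fun m => (C k m).re) (fun m => (D m l).im),
    e1 (J * A) B (fun m => (C k m).im) (fun m => (D m l).re),
    e1 (J * A) (J * B) (fun m => (C k m).im) (fun m => (D m l).im), hAJ, hJA, Matrix.mul_assoc J A B]
  have e3 : ((C * D) k l).re = ∑ m, (C k m).re * (D m l).re - ∑ m, (C k m).im * (D m l).im := by
    rw [Matrix.mul_apply, Complex.re_sum, ← Finset.sum_sub_distrib]
    exact Finset.sum_congr rfl fun m _ => Complex.mul_re _ _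
  have e4 : ((C * D) k l).im = ∑ m, (C k m).re * (D m l).im + ∑ m, (C k m).im * (D m l).re := by
    rw [Matrix.mul_apply, Complex.im_sum, ← Finset.sum_add_distrib]
    exact Finset.sum_congr rfl fun m _ => Complex.mul_im _ _
  rw [e3, e4, Matrix.neg_apply]
  ring

/-- the projection onto `E = ℓ ⊗ L`. -/
def PE (J : Matrix κ κ ℝ) (C : Matrix (Fin N) (Fin N) ℂ) (A : Matrix κ κ ℝ)
    (y y' : κ × Fin N) : ℂ :=
  (1 / 2) * ((tw J C A y y' : ℝ) - Complex.I * (tw J (Complex.I • C) A y y' : ℝ))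

/-- the column `(u - i J u)/√2`. -/
def hc (J : Matrix κ κ ℝ) (u : κ → ℝ) (a : κ) : ℂ :=
  ((√2)⁻¹ : ℝ) * ((u a : ℂ) - Complex.I * ((J *ᵥ u) a : ℝ))

theorem Q4.sum_hc (h : Q4 J ρ) {u : κ → ℝ} (h1 : u ⬝ᵥ u = 1) :
    ∑ a, star (hc J u a) * hc J u a = 1 := by
  have e : ∀ a, star (hc J u a) * hc J u a =
      (((1 / 2) * (u a * u a + (J *ᵥ u) a * (J *ᵥ u) a) : ℝ) : ℂ) := by
    intro a
    have h2 : ((√2)⁻¹ : ℝ) * ((√2)⁻¹ : ℝ) = 1 / 2 := by
      rw [← mul_inv, Real.mul_self_sqrt (by norm_num)]; norm_num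
    have h3 : ((((√2)⁻¹ : ℝ) : ℂ)) * (((√2)⁻¹ : ℝ) : ℂ) = ((1 / 2 : ℝ) : ℂ) := by
      rw [← Complex.ofReal_mul, h2]
    unfold hc
    simp only [star_mul', star_sub, Complex.star_def, Complex.conj_ofReal, Complex.conj_I]
    have h4 : ∀ x y w : ℂ, w * (x - -Complex.I * y) * (w * (x - Complex.I * y)) =
        (w * w) * (x * x - (Complex.I * Complex.I) * (y * y)) := by intros; ring
    rw [h4, h3, Complex.I_mul_I]
    push_cast
    ring
  simp only [e]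
  rw [← Complex.ofReal_sum, ← Finset.mul_sum, Finset.sum_add_distrib]
  have h5 : ∑ a, u a * u a = 1 := h1
  have h6 : ∑ a, (J *ᵥ u) a * (J *ᵥ u) a = 1 := by
    have := h.Jv u
    rw [h1] at this
    exact this
  rw [h5, h6]
  norm_num

theorem Q4.hc_mul (h : Q4 J ρ) {n : Fin 3 → ℝ} (hn : ∑ k, n k ^ 2 = 1) {u : κ → ℝ}
    (hu : PP ρ n *ᵥ u = u) (h1 : u ⬝ᵥ u = 1) (a b : κ) :
    hc J u a * star (hc J u b) = (1 / 2) * ((PP ρ n a b : ℝ) - Complex.I * ((J * PP ρ n) a b : ℝ)) := by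
  have hP := h.PP_eq hn hu h1
  have e1 : PP ρ n a b = u a * u b + (J *ᵥ u) a * (J *ᵥ u) b := by
    rw [hP]; rfl
  have e2 : (J * PP ρ n) a b = (J *ᵥ u) a * u b - u a * (J *ᵥ u) b := by
    rw [hP, Matrix.mul_add, Matrix.mul_vecMulVec, Matrix.mul_vecMulVec, Matrix.mulVec_mulVec,
      h.sq, Matrix.neg_mulVec, Matrix.one_mulVec]
    simp only [Matrix.add_apply, Matrix.vecMulVec_apply, Pi.neg_apply]
    ring
  have h3 : ((((√2)⁻¹ : ℝ) : ℂ)) * (((√2)⁻¹ : ℝ) : ℂ) = ((1 / 2 : ℝ) : ℂ) := by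
    rw [← Complex.ofReal_mul, ← mul_inv, Real.mul_self_sqrt (by norm_num)]; norm_num
  rw [e1, e2]
  unfold hc
  simp only [star_mul', star_sub, Complex.star_def, Complex.conj_ofReal, Complex.conj_I]
  have h4 : ∀ x y x' y' w : ℂ, w * (x - Complex.I * y) * (w * (x' - -Complex.I * y')) =
      (w * w) * (x * x' - (Complex.I * Complex.I) * (y * y') - Complex.I * (y * x' - x * y')) := by
    intros; ring
  rw [h4, h3, Complex.I_mul_I]
  push_cast
  ring

theorem PE_apply (J : Matrix κ κ ℝ) (C : Matrix (Fin N) (Fin N) ℂ) (A : Matrix κ κ ℝ)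
    (y y' : κ × Fin N) : PE J C A y y' =
      C y.2 y'.2 * ((1 / 2) * ((A y.1 y'.1 : ℝ) - Complex.I * ((J * A) y.1 y'.1 : ℝ))) := by
  unfold PE tw
  have e1 : ((Complex.I • C) y.2 y'.2).re = - (C y.2 y'.2).im := by
    simp [Matrix.smul_apply]
  have e2 : ((Complex.I • C) y.2 y'.2).im = (C y.2 y'.2).re := by
    simp [Matrix.smul_apply]
  rw [e1, e2]
  conv_rhs => rw [← Complex.re_add_im (C y.2 y'.2)]
  push_cast
  have hI := Complex.I_mul_I
  linear_combination ((1/2 : ℂ) * (C y.2 y'.2).im * ((J * A) y.1 y'.1 : ℝ)) * hI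

end Alg

/-! ### the isometry -/

section Man

variable {M : Type u} [TopologicalSpace M] [ChartedSpace E4 M] [IsManifold 𝓘(ℝ, E4) ∞ M]
variable {κ : Type} [Fintype κ] [DecidableEq κ] {J : Matrix κ κ ℝ} {ρ : Fin 3 → Matrix κ κ ℝ}
variable {N : ℕ}

omit [IsManifold 𝓘(ℝ, E4) ∞ M] in
theorem cmul {f g : M → ℂ} (hf : ContMDiff 𝓘(ℝ, E4) 𝓘(ℝ, ℂ) ∞ f)
    (hg : ContMDiff 𝓘(ℝ, E4) 𝓘(ℝ, ℂ) ∞ g) : ContMDiff 𝓘(ℝ, E4) 𝓘(ℝ, ℂ) ∞ (fun z => f z * g z) := by
  have h1 : ContDiff ℝ ∞ (fun w : ℂ × ℂ => w.1 * w.2) := contDiff_fst.mul contDiff_snd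
  exact h1.contMDiff.comp (hf.prodMk_space hg)

omit [IsManifold 𝓘(ℝ, E4) ∞ M] in
/-- a smooth unit section of the eigenline. -/
theorem exists_unit (h : Q4 J ρ) {n : Fin 3 → M → ℝ}
    (hsm : ∀ k, ContMDiff 𝓘(ℝ, E4) 𝓘(ℝ, ℝ) ∞ (n k)) (hn : ∀ z, ∑ k, n k z ^ 2 = 1) (k0 : Fin 3)
    {s : ℝ} (hs : s ^ 2 = 1) (hpos : ∀ z, -1 < s * n k0 z) :
    ∃ u : κ → M → ℝ, (∀ a, ContMDiff 𝓘(ℝ, E4) 𝓘(ℝ, ℝ) ∞ (u a)) ∧
      ∀ z, (PP ρ (fun k => n k z) *ᵥ (fun a => u a z) = fun a => u a z) ∧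
        (fun a => u a z) ⬝ᵥ (fun a => u a z) = 1 := by
  obtain ⟨v, hv1, hv⟩ := h.exists_v k0 hs
  have hf0 : ∀ z, 0 < (1 + s * n k0 z) / 2 := fun z => by linarith [hpos z]
  have hPs : ∀ a, ContMDiff 𝓘(ℝ, E4) 𝓘(ℝ, ℝ) ∞
      (fun z => (PP ρ (fun k => n k z) *ᵥ v) a) := by
    intro a
    have e : ∀ z, (PP ρ (fun k => n k z) *ᵥ v) a =
        (1 / 2) * (v a + ∑ k, n k z * (ρ k *ᵥ v) a) := by
      intro z
      unfold PP
      rw [Matrix.smul_mulVec, Matrix.add_mulVec, Matrix.one_mulVec, Matrix.sum_mulVec]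
      simp only [Matrix.smul_mulVec, Pi.smul_apply, Pi.add_apply, Finset.sum_apply, smul_eq_mul]
    simp only [e]
    refine contMDiff_const.mul (contMDiff_const.add ?_)
    exact contMDiff_finsetSum fun k _ => (hsm k).mul contMDiff_const
  have hg : ContMDiff 𝓘(ℝ, E4) 𝓘(ℝ, ℝ) ∞ (fun z => (√((1 + s * n k0 z) / 2))⁻¹) := by
    have h1 : ContMDiff 𝓘(ℝ, E4) 𝓘(ℝ, ℝ) ∞ (fun z => (1 + s * n k0 z) / 2) := by
      simp only [div_eq_mul_inv]
      exact (contMDiff_const.add (contMDiff_const.mul (hsm k0))).mul contMDiff_const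
    intro z
    have h2 : ContDiffAt ℝ ∞ (fun r : ℝ => (√r)⁻¹) ((1 + s * n k0 z) / 2) :=
      (Real.contDiffAt_sqrt (hf0 z).ne').inv (Real.sqrt_pos.2 (hf0 z)).ne'
    exact ContMDiffAt.comp (g := fun r : ℝ => (√r)⁻¹) (f := fun z => (1 + s * n k0 z) / 2) z
      h2.contMDiffAt (h1 z)
  refine ⟨fun a z => (√((1 + s * n k0 z) / 2))⁻¹ * (PP ρ (fun k => n k z) *ᵥ v) a,
    fun a => hg.mul (hPs a), fun z => ?_⟩
  set c := (√((1 + s * n k0 z) / 2))⁻¹ with hc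
  set P := PP ρ (fun k => n k z) with hP
  have hPP : P * P = P := h.PP_idem (hn z)
  have hu : (fun a => c * (P *ᵥ v) a) = c • (P *ᵥ v) := rfl
  rw [hu]
  refine ⟨?_, ?_⟩
  · rw [Matrix.mulVec_smul, Matrix.mulVec_mulVec, hPP]
  · rw [smul_dotProduct, dotProduct_smul, mv_dot, h.PP_sym, Matrix.mulVec_mulVec, hPP, hv,
      smul_eq_mul, smul_eq_mul, ← mul_assoc, ← pow_two, hc, inv_pow, Real.sq_sqrt (hf0 z).le,
      inv_mul_cancel₀ (hf0 z).ne']

/-- **the isometry `V`**. -/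
theorem exists_V (h : Q4 J ρ) {q : M → Matrix (Fin N) (Fin N) ℂ} (hq : IsLine q)
    {n : Fin 3 → M → ℝ} (hsm : ∀ k, ContMDiff 𝓘(ℝ, E4) 𝓘(ℝ, ℝ) ∞ (n k))
    (hn : ∀ z, ∑ k, n k z ^ 2 = 1) (k0 : Fin 3)
    {s : ℝ} (hs : s ^ 2 = 1) (hpos : ∀ z, -1 < s * n k0 z) :
    ∃ V : M → Matrix (κ × Fin N) (Fin N) ℂ,
      (∀ y l, ContMDiff 𝓘(ℝ, E4) 𝓘(ℝ, ℂ) ∞ (fun z => V z y l)) ∧
      (∀ z, (V z).conjTranspose * V z = q z) ∧
      (∀ z, V z * (V z).conjTranspose = Matrix.of (PE J (q z) (PP ρ (fun k => n k z)))) ∧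
      ∀ z, V z * q z = V z := by
  obtain ⟨u, hu1, hu2⟩ := exists_unit h hsm hn k0 hs hpos
  refine ⟨fun z => Matrix.of fun y l => hc J (fun a => u a z) y.1 * q z y.2 l,
    fun y l => ?_, fun z => ?_, fun z => ?_, fun z => ?_⟩
  · have e1 : ContMDiff 𝓘(ℝ, E4) 𝓘(ℝ, ℂ) ∞ (fun z => hc J (fun a => u a z) y.1) := by
      have c1 : ∀ {f : M → ℝ}, ContMDiff 𝓘(ℝ, E4) 𝓘(ℝ, ℝ) ∞ f →
          ContMDiff 𝓘(ℝ, E4) 𝓘(ℝ, ℂ) ∞ (fun z => (f z : ℂ)) := fun hf =>
        (Complex.ofRealCLM.contDiff.contMDiff).comp hf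
      unfold hc
      refine cmul contMDiff_const ((c1 (hu1 y.1)).sub (cmul contMDiff_const (c1 ?_)))
      have e : ∀ z, (J *ᵥ fun a => u a z) y.1 = ∑ b, J y.1 b * u b z := fun z => rfl
      simp only [e]
      exact contMDiff_finsetSum fun b _ => contMDiff_const.mul (hu1 b)
    exact cmul e1 (hq.smooth y.2 l)
  · obtain ⟨hu3, hu4⟩ := hu2 z
    ext l l'
    rw [Matrix.mul_apply]
    simp only [Matrix.conjTranspose_apply, Matrix.of_apply, star_mul']
    rw [Fintype.sum_prod_type]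
    have e1 : ∀ (a : κ) (k : Fin N), star (hc J (fun a => u a z) a) * star (q z k l) *
        (hc J (fun a => u a z) a * q z k l') =
        (star (hc J (fun a => u a z) a) * hc J (fun a => u a z) a) *
          ((q z).conjTranspose l k * q z k l') := by
      intro a k
      rw [Matrix.conjTranspose_apply]; ring
    simp only [e1]
    simp only [← Finset.mul_sum]
    rw [← Finset.sum_mul, h.sum_hc hu4, one_mul, ← Matrix.mul_apply, hq.herm, hq.idem]
  · obtain ⟨hu3, hu4⟩ := hu2 z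
    ext y y'
    rw [Matrix.mul_apply]
    simp only [Matrix.conjTranspose_apply, Matrix.of_apply, star_mul']
    rw [PE_apply]
    have e1 : ∀ l, hc J (fun a => u a z) y.1 * q z y.2 l *
        (star (hc J (fun a => u a z) y'.1) * star (q z y'.2 l)) =
        (hc J (fun a => u a z) y.1 * star (hc J (fun a => u a z) y'.1)) *
          (q z y.2 l * (q z).conjTranspose l y'.2) := by
      intro l
      rw [Matrix.conjTranspose_apply]; ring
    simp only [e1]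
    rw [← Finset.mul_sum, ← Matrix.mul_apply, hq.herm, hq.idem, h.hc_mul (hn z) hu3 hu4]
    ring
  · ext y l
    rw [Matrix.mul_apply]
    simp only [Matrix.of_apply, mul_assoc]
    rw [← Finset.mul_sum, ← Matrix.mul_apply, hq.idem]

/-! ### the sign -/

omit [IsManifold 𝓘(ℝ, E4) ∞ M] [ChartedSpace E4 M] in
theorem const_sign [ConnectedSpace M] {f : M → ℝ} (hf : Continuous f) (h0 : ∀ z, f z ≠ 0) :
    ∃ s : ℝ, s ^ 2 = 1 ∧ ∀ z, 0 < s * f z := by
  obtain ⟨z0⟩ := (inferInstance : Nonempty M)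
  have hpre : IsPreconnected (range f) := isPreconnected_range hf
  have key : ∀ z z', 0 < f z → 0 < f z' := by
    intro z z' hz
    by_contra hn
    have hz' : f z' < 0 := lt_of_le_of_ne (not_lt.1 hn) (h0 z')
    have h1 := hpre.Icc_subset (mem_range_self z') (mem_range_self z) ⟨hz'.le, hz.le⟩
    obtain ⟨w, hw⟩ := h1
    exact h0 w hw
  rcases lt_or_gt_of_ne (h0 z0) with h | h
  · refine ⟨-1, by norm_num, fun z => ?_⟩
    rw [neg_one_mul]
    have : ¬ 0 < f z := fun hz => absurd (key z z0 hz) (not_lt.2 h.le)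
    have := lt_of_le_of_ne (not_lt.1 this) (h0 z)
    linarith
  · exact ⟨1, by norm_num, fun z => by rw [one_mul]; exact key z0 z h⟩

omit [IsManifold 𝓘(ℝ, E4) ∞ M] [ChartedSpace E4 M] in
/-- **the sign trick** : `ww` lower triangular (`IsTri.coef`), `t ≠ 0`. -/
theorem exists_sign [ConnectedSpace M] {ww : Fin 3 → Fin 3 → M → ℝ}
    (hc : ∀ i, Continuous (ww i i)) (h0 : ∀ i z, ww i i z ≠ 0)
    (hl : ∀ i j z, i < j → ww i j z = 0) {t : Fin 3 → ℝ} (ht : t ≠ 0) {rr : M → ℝ}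
    (hrr : ∀ z, 0 < rr z) {n : Fin 3 → M → ℝ}
    (hn : ∀ k z, rr z * n k z = ∑ i, t i * ww i k z) :
    ∃ (k0 : Fin 3) (s : ℝ), s ^ 2 = 1 ∧ ∀ z, 0 < s * n k0 z := by
  have hex : ∃ i, t i ≠ 0 ∧ ∀ j, i < j → t j = 0 := by
    by_cases h2 : t 2 = 0
    · by_cases h1 : t 1 = 0
      · refine ⟨0, fun h => ht ?_, ?_⟩
        · funext j; fin_cases j
          · exact h
          · exact h1
          · exact h2
        · intro j hj; fin_cases j
          · exact absurd hj (by decide)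
          · exact h1
          · exact h2
      · refine ⟨1, h1, ?_⟩
        intro j hj; fin_cases j
        · exact absurd hj (by decide)
        · exact absurd hj (by decide)
        · exact h2
    · refine ⟨2, h2, ?_⟩
      intro j hj; fin_cases j
      · exact absurd hj (by decide)
      · exact absurd hj (by decide)
      · exact absurd hj (by decide)
  obtain ⟨k, hk, hkj⟩ := hex
  have e : ∀ z, rr z * n k z = t k * ww k k z := by
    intro z
    rw [hn, Finset.sum_eq_single k]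
    · intro i _ hi
      rcases lt_or_gt_of_ne hi with h | h
      · rw [hl i k z h, mul_zero]
      · rw [hkj i h, zero_mul]
    · intro h; exact absurd (Finset.mem_univ k) h
  obtain ⟨s, hs, hpos⟩ := const_sign (f := fun z => t k * ww k k z) (continuous_const.mul (hc k))
    fun z => mul_ne_zero hk (h0 k z)
  refine ⟨k, s, hs, fun z => ?_⟩
  have h1 := hpos z
  beta_reduce at h1
  rw [← e z] at h1
  have h2 : 0 < rr z * (s * n k z) := by linarith [mul_left_comm s (rr z) (n k z)]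
  exact (mul_pos_iff_of_pos_left (hrr z)).1 h2

end Man

end

end Crest.Agent.R235.VIso_470
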