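import Crest.Agent.R235.T2X_692
import Crest.Agent.R235.SWGen_53

/-!
Row 235 (S0364), package SW (helper692): `CEX` from 53's `SWGen_53.ch_g`; **MODR is a theorem**.
-/

set_option autoImplicit false
set_option maxSynthPendingDepth 3
set_option linter.unusedSectionVars false

open scoped ContDiff ENNReal NNReal Topology Manifold Bundle RealInnerProductSpace
open MeasureTheory Set Filter Metric Bundle Matrix

namespace Crest.Agent.R235.ModR_692

open Crest.Agent.R240 Crest.Agent.R240.Ch Crest.Agent.R240.Int Crest.Agent.R235.SWDefs_53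
open Crest.Agent.R235.IndTri_451 Crest.Agent.R235.Tau483
open Crest.Agent.R235.SWData_451 Crest.Agent.R235.SWTn_451
open Crest.Agent.R249.Tz805 (ToF)
open Crest.Agent.R249.Tz2_805 (PF)
open Crest.Agent.R235.Ind167
open Crest.Agent.R235.SwsL_755 Crest.Agent.R235.TwfL_755
open Crest.Agent.R235.LTwLd_774 (ldOf)
open Crest.Agent.R235.QSTri_451 (qs)

noncomputable section

variable {M : Type} [MetricSpace M] [CompactSpace M] [ConnectedSpace M]
  [ChartedSpace (EuclideanSpace ℝ (Fin 4)) M] [IsManifold (𝓡 4) ∞ M]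
  [RiemannianBundle (fun p : M => TangentSpace (𝓡 4) p)]
  [IsContMDiffRiemannianBundle (𝓡 4) ∞ (EuclideanSpace ℝ (Fin 4))
    (fun p : M => TangentSpace (𝓡 4) p)]
  [IsRiemannianManifold (𝓡 4) M] [MeasurableSpace M] [BorelSpace M]
  [SecondCountableTopology M] [Nonempty M] [IsFiniteMeasureOnCompacts (μHE[4] : Measure M)]
  {w : Trip M} {e : Fin 3 → F2 E4 M} (he : IsTri (und w) e)
  (hin : ∀ (x : M) (u v : TangentSpace 𝓘(ℝ, E4) x), inner ℝ u v = at2 (gg e) x u v)
  {N : ℕ} {p : M → Matrix (Fin N) (Fin N) ℂ} {a : Z2 M} (hp : IsLine p) (hc : IsChern p a)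
  {κ : Type} [Fintype κ] (T : ToF 4 M) (s : PF 4 M κ)

include hc in
/-- 451's `Hyp` for the concrete system, with the class of `cE`. -/
theorem hyp_g : Hyp (SL T (qs he hin) s (ldOf p hp)) T (twL (qs he hin) s (ldOf p hp)).cc
    (twL (qs he hin) s (ldOf p hp)).D0.W s.s w e (-1) (-1) (wwf (und w) e)
    (SWGen_53.cEg T s he hin (ldOf p hp)) where
  tg := SWGen_53.tg_g T s he hin (ldOf p hp)
  sym := SWGen_53.sym_g T s he hin (ldOf p hp)
  smc x y z := (twL (qs he hin) s (ldOf p hp)).smc x y z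
  lt := SWGen_53.lt_g he
  smw := SWGen_53.sm_g he
  ch _ ht := (SWGen_53.ch_g T s he hin hp (okL T (qs he hin) s (ldOf p hp)) hc ht).1

include hc in
theorem cls_g {t : E3} (ht : t ≠ 0) : cls (SWGen_53.cEg T s he hin (ldOf p hp) t) = cls a :=
  (SWGen_53.ch_g T s he hin hp (okL T (qs he hin) s (ldOf p hp)) hc ht).2

/-- **CEX**. -/
theorem cex : CEX := by
  intro M _ _ _ _ _ _ _ _ _ _ _ _ _ w e he hin N p a hp hc κ _ T s
  exact ⟨_, hyp_g he hin hp hc T s, fun t ht => cls_g he hin hp hc T s (Hyp.ne_of ht)⟩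

/-- **MODR**. -/
theorem modr : SWTop_53.MODR := modr_of_cex cex

end

end Crest.Agent.R235.ModR_692
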