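import Crest.Agent.R235.SWTau_53

/-!
Row 235 (S0364), PACKAGE SW (helper53): what the GEOMETRY of a positive triple and a line bundle has
to deliver (`Geo`), and the end of the argument (`geo_false`): `SWX`, `TAUX`, `TAUF` exclude it.
-/

set_option autoImplicit false
set_option maxSynthPendingDepth 3
set_option linter.unusedSectionVars false

open scoped ContDiff ENNReal NNReal Topology Manifold Bundle RealInnerProductSpace
open MeasureTheory Set Filter Metric Bundle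

universe v

namespace Crest.Agent.R235.SWDefs_53

open Crest.Agent.R249.Tv57 Crest.Agent.R247.Ms322 Crest.Agent.R247.Dir593

noncomputable section

variable {M : Type v} [MetricSpace M] [CompactSpace M] [ConnectedSpace M]
  [ChartedSpace (EuclideanSpace ℝ (Fin 4)) M] [IsManifold (𝓡 4) ∞ M]
  [RiemannianBundle (fun p : M => TangentSpace (𝓡 4) p)]
  [IsContMDiffRiemannianBundle (𝓡 4) ∞ (EuclideanSpace ℝ (Fin 4))
    (fun p : M => TangentSpace (𝓡 4) p)]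
  [IsRiemannianManifold (𝓡 4) M] [MeasurableSpace M] [BorelSpace M]
  [SecondCountableTopology M] [Nonempty M]
  {κ0 κ1 κT : Type} [Fintype κ0] [Fintype κ1] [Fintype κT]

/-- the family of Taubes data of a positive triple `w_t = ∑ t_i w_i` (`ww i k` = component of `w_i`
in the orthonormal self-dual frame) and of a line bundle with `∫ F ∧ F = e2`, `∫ F ∧ w_t = 0`. -/
structure Fam (S : SWS M κ0 κ1 κT) (ww : Fin 3 → Fin 3 → M → ℝ) (τ : E3 → TD M κT) (C e2 : ℝ) :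
    Prop where
  ok : S.OK
  smw : ∀ i k, ContMDiff (𝓡 4) 𝓘(ℝ, ℝ) ∞ (ww i k)
  harm : ∀ i x z, S.H.A (Fin.cons (fun _ => 0) (ww i)) x z = 0
  /-- `w_t` vanishes nowhere -/
  ndeg : ∀ (t : E3) z, t ≠ 0 → ∃ k, ∑ i, t i * ww i k z ≠ 0
  rr : ∀ (t : E3) z, ‖t‖ = 1 → (τ t).rr z = √(∑ k, (∑ i, t i * ww i k z) ^ 2)
  nn : ∀ (t : E3) k z, ‖t‖ = 1 → (τ t).rr z * (τ t).n k z = ∑ i, t i * ww i k z
  cfE : ∀ k, ContinuousOn (fun q : E3 × M => (τ q.1).fE k q.2) {q | ‖q.1‖ = 1}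
  tau : ∀ t : E3, ‖t‖ = 1 → (τ t).OK S C
  top : ∀ t : E3, ‖t‖ = 1 →
    ∫ z, ∑ k, (τ t).rr z * (τ t).n k z * (τ t).fE k z ∂(μHE[4] : Measure M) ≤ 0
  t3 : ∀ t : E3, ‖t‖ = 1 → ∃ (fF : M → ℝ) (g : κT → M → EuclideanSpace ℝ (Fin 4)),
    (τ t).T3 S C fF g ∧ ∫ z, fF z ∂(μHE[4] : Measure M) = e2

/-- **GEOX** : such a family with `e2 ≠ 0`, `b⁺ = 3` and positive index does not exist. -/
def GEOX : Prop :=
  ∀ (M : Type v) [MetricSpace M] [CompactSpace M] [ConnectedSpace M]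
    [ChartedSpace (EuclideanSpace ℝ (Fin 4)) M] [IsManifold (𝓡 4) ∞ M]
    [RiemannianBundle (fun p : M => TangentSpace (𝓡 4) p)]
    [IsContMDiffRiemannianBundle (𝓡 4) ∞ (EuclideanSpace ℝ (Fin 4))
      (fun p : M => TangentSpace (𝓡 4) p)]
    [IsRiemannianManifold (𝓡 4) M] [MeasurableSpace M] [BorelSpace M]
    [SecondCountableTopology M] [Nonempty M] [IsFiniteMeasureOnCompacts (μHE[4] : Measure M)]
    (κ0 κ1 κT : Type) [Fintype κ0] [Fintype κ1] [Fintype κT]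
    (S : SWS M κ0 κ1 κT) (ww : Fin 3 → Fin 3 → M → ℝ) (τ : E3 → TD M κT) (C e2 : ℝ),
    Fam S ww τ C e2 → e2 ≠ 0 →
    ∀ d0 d1 : ℕ, Nonempty (KerD S.D0 S.P.A d0) → Nonempty (KerD S.D1 S.P.B d1) → d1 < d0 →
    Nonempty (KerD S.DL S.H.A 4) → False

end

end Crest.Agent.R235.SWDefs_53
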