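import Crest.Agent.R235.SWSym_451
import Crest.Agent.R235.SWModel_53

/-!
Row 235 (S0364), PACKAGE SW (helper53): FLAT line bundles and the JACOBIAN TORUS.

* `SWS.Reg S th`  : elliptic regularity of `A + c(th) i` (from `S.OK`, `Sym`);
* `GrdH S`        : `H.A (f, 0) = c grad f`, `c ≠ 0`;
* `UNI`           : FLAT TAUBES.  If the curvature of `E_t` with the form `th_t` vanishes, every solution
                    at `t` has `a = 0` and `u = ρ^{3/4} s`, `s` smooth, parallel, `|s|² = 2 r`;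
* `ND`            : the linearised system at such a solution has kernel `ℝ i u`;
* `FFam`, `GEOFL` : flat family, `b⁺ = 3`, positive index ⇒ for some `t` the bundle `E_t = ℓ_t ⊗ L` has a
                    smooth parallel section of length one (FLATK);
* `JD`, `JD.OK`   : harmonic one-forms with integral periods `al j`, circle valued maps `gc + i gs`;
* `SWD.tw`        : the data with the form `th_t + 2π ∑ h_j al_j`;
* `HopfD`         : the solutions at `|t| = 1` for `L` trivial: `S³ ∋ s ↦ ρ^{3/4} U s`;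
* `ZER`           : they are all the solutions at `|t| = 1`, up to gauge;
* `SWJA`          : such a system with `b⁺ ≥ 4` does not exist (consumer of `FamG_151`, `FdJ_778`);
* `BPF`           : hence `b⁺ ≤ 3`.
-/

set_option autoImplicit false
set_option maxSynthPendingDepth 3
set_option linter.unusedSectionVars false

open scoped ContDiff ENNReal NNReal Topology Manifold Bundle RealInnerProductSpace
open MeasureTheory Set Filter Metric Bundle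

universe v

namespace Crest.Agent.R235.SWDefs_53

open Crest.Agent.R249.Tv57 Crest.Agent.R247.Ms322 Crest.Agent.R247.Dir593
open Crest.Agent.R235.SWSym_451

noncomputable section

local notation "ipp" => Crest.Agent.R249.Tv57.ip 4

section defs

variable {M : Type v} [MetricSpace M] [CompactSpace M] [ConnectedSpace M]
  [ChartedSpace (EuclideanSpace ℝ (Fin 4)) M] [IsManifold (𝓡 4) ∞ M]
  [RiemannianBundle (fun p : M => TangentSpace (𝓡 4) p)]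
  [IsContMDiffRiemannianBundle (𝓡 4) ∞ (EuclideanSpace ℝ (Fin 4))
    (fun p : M => TangentSpace (𝓡 4) p)]
  [IsRiemannianManifold (𝓡 4) M] [MeasurableSpace M] [BorelSpace M]
  [SecondCountableTopology M] [Nonempty M] [IsFiniteMeasureOnCompacts (μHE[4] : Measure M)]
  {κ0 κ1 κT : Type} [Fintype κ0] [Fintype κ1] [Fintype κT]

/-- elliptic regularity of the Dirac operator with the connection form `th`. -/
def SWS.Reg (S : SWS M κ0 κ1 κT) (th : κT → M → ℝ) : Prop :=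
  ∀ u : κ0 → M → ℝ, InW S.D0 u → WkA S.P u (fun x z => - S.cm th u x z) →
    ∃ u' : κ0 → M → ℝ, SmV (n := 4) u' ∧ S.D0.Sec u' ∧
      ∀ᵐ z ∂(μHE[4] : Measure M), ∀ y, u y z = u' y z

/-- the function part of the Hodge operator is the gradient. -/
def GrdH (S : SWS M κ0 κ1 κT) : Prop :=
  ∃ c : ℝ, c ≠ 0 ∧ ∀ f : M → ℝ, ContMDiff (𝓡 4) 𝓘(ℝ, ℝ) ∞ f → ∀ A z,
    S.H.A (Fin.cons f fun _ _ => 0) A z = c * ⟪Gr (n := 4) f z, S.s A z⟫

/-- the vector field of a section of `DT`. -/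
def SWS.vf (S : SWS M κ0 κ1 κT) (a : κT → M → ℝ) (z : M) : EuclideanSpace ℝ (Fin 4) :=
  ∑ A, a A z • S.s A z

/-- `i u`. -/
def SWS.iu (S : SWS M κ0 κ1 κT) (u : κ0 → M → ℝ) : κ0 → M → ℝ :=
  fun y z => ∑ y', S.J y y' z * u y' z

/-- `E_t` with the form `th` is flat (self-dual part). -/
def TD.Flat (τ : TD M κT) (S : SWS M κ0 κ1 κT) (th : κT → M → ℝ) : Prop :=
  ∀ k z, τ.fE k z + S.H.B th k.succ z = 0

/-- a smooth section of `E` of constant length `√(2 r)`, parallel for the form `th`. -/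
structure TD.PSec (τ : TD M κT) (S : SWS M κ0 κ1 κT) (th : κT → M → ℝ) (r : ℝ)
    (s : κ0 → M → ℝ) : Prop where
  sm : SmV (n := 4) s
  sec : τ.SecE S s
  nrm : ∀ z, ∑ y, s y z ^ 2 = 2 * r
  par : ∀ y z, τ.nE S th s y z = 0

/-- a flat family. -/
structure FFam (S : SWS M κ0 κ1 κT) (ww : Fin 3 → Fin 3 → M → ℝ) (τ : E3 → TD M κT) (C : ℝ)
    (th : E3 → κT → M → ℝ) : Prop where
  ok : S.OK
  smw : ∀ i k, ContMDiff (𝓡 4) 𝓘(ℝ, ℝ) ∞ (ww i k)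
  harm : ∀ i x z, S.H.A (Fin.cons (fun _ => 0) (ww i)) x z = 0
  ndeg : ∀ (t : E3) z, t ≠ 0 → ∃ k, ∑ i, t i * ww i k z ≠ 0
  rr : ∀ (t : E3) z, ‖t‖ = 1 → (τ t).rr z = √(∑ k, (∑ i, t i * ww i k z) ^ 2)
  nn : ∀ (t : E3) k z, ‖t‖ = 1 → (τ t).rr z * (τ t).n k z = ∑ i, t i * ww i k z
  tau : ∀ t : E3, ‖t‖ = 1 → (τ t).OK S C
  smth : ∀ t : E3, ‖t‖ = 1 → SmV (n := 4) (th t)
  secth : ∀ t : E3, ‖t‖ = 1 → S.DT.Sec (th t)
  cth : ∀ A, ContinuousOn (fun q : E3 × M => th q.1 A q.2) {q | ‖q.1‖ = 1}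
  cdth : ∀ k, ContinuousOn (fun q : E3 × M => S.H.B (th q.1) k q.2) {q | ‖q.1‖ = 1}
  flat : ∀ t : E3, ‖t‖ = 1 → (τ t).Flat S (th t)

/-! ### the Jacobian torus -/

/-- harmonic one-forms with integral periods. -/
structure JD (M : Type v) (κT : Type) (b : ℕ) where
  al : Fin b → κT → M → ℝ
  /-- real and imaginary part of the map `g_j : M → U(1)`, `dg_j = 2π i al_j g_j` -/
  gc : Fin b → M → ℝ
  gs : Fin b → M → ℝ

/-- properties of the Jacobian data. -/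
structure JD.OK {b : ℕ} (j : JD M κT b) (S : SWS M κ0 κ1 κT) : Prop where
  sm : ∀ i, SmV (n := 4) (j.al i)
  sec : ∀ i, S.DT.Sec (j.al i)
  harm : ∀ i k z, S.H.B (j.al i) k z = 0
  li : LinearIndependent ℝ j.al
  span : ∀ w : κT → M → ℝ, SmV (n := 4) w → S.DT.Sec w → (∀ k z, S.H.B w k z = 0) →
    ∃ c : Fin b → ℝ, w = ∑ i, c i • j.al i
  smc : ∀ i, ContMDiff (𝓡 4) 𝓘(ℝ, ℝ) ∞ (j.gc i)
  sms : ∀ i, ContMDiff (𝓡 4) 𝓘(ℝ, ℝ) ∞ (j.gs i)
  unit : ∀ i z, j.gc i z ^ 2 + j.gs i z ^ 2 = 1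
  dgc : ∀ i z, Gr (n := 4) (j.gc i) z = (-(2 * Real.pi * j.gs i z)) • S.vf (j.al i) z
  dgs : ∀ i z, Gr (n := 4) (j.gs i) z = (2 * Real.pi * j.gc i z) • S.vf (j.al i) z
  /-- `∑ h_i al_i` has integral periods only for integral `h` -/
  int : ∀ (h : Fin b → ℝ) (c s : M → ℝ), ContMDiff (𝓡 4) 𝓘(ℝ, ℝ) ∞ c →
    ContMDiff (𝓡 4) 𝓘(ℝ, ℝ) ∞ s → (∀ z, c z ^ 2 + s z ^ 2 = 1) →
    (∀ z, Gr (n := 4) c z = (-(2 * Real.pi * s z)) • ∑ i, h i • S.vf (j.al i) z) →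
    (∀ z, Gr (n := 4) s z = (2 * Real.pi * c z) • ∑ i, h i • S.vf (j.al i) z) →
    ∀ i, ∃ k : ℤ, h i = k

/-- the form `2π ∑ h_i al_i`. -/
def JD.fm {b : ℕ} (j : JD M κT b) (h : Fin b → ℝ) : κT → M → ℝ :=
  fun A z => 2 * Real.pi * ∑ i, h i * j.al i A z

/-- the data twisted by the flat bundle with parameter `h`. -/
def SWD.tw {b : ℕ} (d : SWD M κT) (j : JD M κT b) (h : Fin b → ℝ) : SWD M κT where
  th := fun t => d.th t + j.fm h
  mu := d.mu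
  ww := d.ww
  et := d.et
  r := d.r

/-- the gauge transformation `g^k u` (`g = gc + i gs`). -/
def JD.gau {b : ℕ} (j : JD M κT b) (S : SWS M κ0 κ1 κT) (k : Fin b → ℤ) (u : κ0 → M → ℝ) :
    κ0 → M → ℝ :=
  fun y z =>
    (∏ i, ((j.gc i z : ℂ) + (j.gs i z : ℂ) * Complex.I) ^ k i).re * u y z +
      (∏ i, ((j.gc i z : ℂ) + (j.gs i z : ℂ) * Complex.I) ^ k i).im * S.iu u y z

/-- the solutions at `|t| = 1` for `L` trivial. `pi` is the Hopf map. -/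
structure HopfD (S : SWS M κ0 κ1 κT) (ww : Fin 3 → Fin 3 → M → ℝ) (τ : E3 → TD M κT) (C : ℝ)
    (th : E3 → κT → M → ℝ) (pi : EuclideanSpace ℂ (Fin 2) → E3)
    (U : EuclideanSpace ℂ (Fin 2) → κ0 → M → ℝ) : Prop where
  fam : FFam S ww τ C th
  cpi : Continuous pi
  npi : ∀ s, ‖s‖ = 1 → ‖pi s‖ = 1
  spi : ∀ t : E3, ‖t‖ = 1 → ∃ s, ‖s‖ = 1 ∧ pi s = t
  fpi : ∀ s s', ‖s‖ = 1 → ‖s'‖ = 1 → (pi s = pi s' ↔ ∃ z : ℂ, ‖z‖ = 1 ∧ s' = z • s)
  psec : ∀ s, ‖s‖ = 1 → (τ (pi s)).PSec S (th (pi s)) (1 / 2) (U s)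
  eqU : ∀ s (z : ℂ), ‖s‖ = 1 → ‖z‖ = 1 → ∀ y x, U (z • s) y x = z.re * U s y x + z.im * S.iu (U s) y x
  cU : ∀ y, ContinuousOn (fun q : EuclideanSpace ℂ (Fin 2) × M => U q.1 y q.2) {q | ‖q.1‖ = 1}

/-- the data `d` belong to the flat family. -/
structure SWD.FFit (d : SWD M κT) (S : SWS M κ0 κ1 κT) (ww : Fin 3 → Fin 3 → M → ℝ)
    (τ : E3 → TD M κT) (C : ℝ) (th : E3 → κT → M → ℝ) : Prop where
  adm : d.Adm S
  ww : d.ww = ww
  rpos : 0 < d.r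
  mu : ∀ t : E3, ‖t‖ = 1 → ∀ z, d.mu t z = (τ t).rr z ^ (-(1 / 2) : ℝ)
  et : ∀ t : E3, ‖t‖ = 1 → ∀ k z, d.et t k z = 0
  th : ∀ t : E3, ‖t‖ = 1 → d.th t = th t
  rbig : ∀ t : E3, ‖t‖ = 1 → ∀ z, C ^ 2 ≤ d.r * (τ t).rr z ^ 3

end defs

/-- **UNI** : flat Taubes. -/
def UNI : Prop :=
  ∀ (M : Type v) [MetricSpace M] [CompactSpace M] [ConnectedSpace M]
    [ChartedSpace (EuclideanSpace ℝ (Fin 4)) M] [IsManifold (𝓡 4) ∞ M]
    [RiemannianBundle (fun p : M => TangentSpace (𝓡 4) p)]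
    [IsContMDiffRiemannianBundle (𝓡 4) ∞ (EuclideanSpace ℝ (Fin 4))
      (fun p : M => TangentSpace (𝓡 4) p)]
    [IsRiemannianManifold (𝓡 4) M] [MeasurableSpace M] [BorelSpace M]
    [SecondCountableTopology M] [Nonempty M] [IsFiniteMeasureOnCompacts (μHE[4] : Measure M)]
    (κ0 κ1 κT : Type) [Fintype κ0] [Fintype κ1] [Fintype κT]
    (S : SWS M κ0 κ1 κT) (d : SWD M κT) (τ : TD M κT) (C : ℝ) (t : E3), S.OK → τ.OK S C →
    τ.Fit S d t → 0 < d.r → (∀ z, C ^ 2 ≤ d.r * τ.rr z ^ 3) → τ.Flat S (d.th t) →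
    S.Reg (d.th t) → ∀ (a : κT → M → ℝ) (u : κ0 → M → ℝ), Sol S d t a u →
    (∀ᵐ z ∂(μHE[4] : Measure M), ∀ A, a A z = 0) ∧
      ∃ s : κ0 → M → ℝ, τ.PSec S (d.th t) d.r s ∧
        ∀ᵐ z ∂(μHE[4] : Measure M), ∀ y, u y z = τ.sc (3 / 4) s y z

/-- **ND** : nondegeneracy of the flat Taubes solutions. -/
def ND : Prop :=
  ∀ (M : Type v) [MetricSpace M] [CompactSpace M] [ConnectedSpace M]
    [ChartedSpace (EuclideanSpace ℝ (Fin 4)) M] [IsManifold (𝓡 4) ∞ M]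
    [RiemannianBundle (fun p : M => TangentSpace (𝓡 4) p)]
    [IsContMDiffRiemannianBundle (𝓡 4) ∞ (EuclideanSpace ℝ (Fin 4))
      (fun p : M => TangentSpace (𝓡 4) p)]
    [IsRiemannianManifold (𝓡 4) M] [MeasurableSpace M] [BorelSpace M]
    [SecondCountableTopology M] [Nonempty M] [IsFiniteMeasureOnCompacts (μHE[4] : Measure M)]
    (κ0 κ1 κT : Type) [Fintype κ0] [Fintype κ1] [Fintype κT]
    (S : SWS M κ0 κ1 κT) (cc : κ1 → κ0 → M → EuclideanSpace ℝ (Fin 4)) (d : SWD M κT)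
    (τ : TD M κT) (C : ℝ) (t : E3) (s : κ0 → M → ℝ), S.OK → Sym S cc → GrdH S → τ.OK S C →
    τ.Fit S d t → 0 < d.r → (∀ z, C ^ 2 ≤ d.r * τ.rr z ^ 3) → τ.Flat S (d.th t) →
    τ.PSec S (d.th t) d.r s →
    ∀ (a η : κT → M → ℝ) (v : κ0 → M → ℝ), InW S.DT a → NoHarm S a → SmV (n := 4) η →
    S.DT.Sec η → (∀ k z, S.H.B η k z = 0) → InW S.D0 v →
    WkA S.H.swap a (Fin.cons (fun _ => 0) fun k z =>
      d.mu t z * ∑ y, ∑ y', S.rho k y y' z * τ.sc (3 / 4) s y z * v y' z) →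
    WkA S.P v (fun x z => - S.cm (d.th t) v x z - S.cm (a + η) (τ.sc (3 / 4) s) x z) →
    (∀ᵐ z ∂(μHE[4] : Measure M), ∀ A, a A z = 0) ∧ η = 0 ∧
      ∃ c : ℝ, ∀ᵐ z ∂(μHE[4] : Measure M), ∀ y, v y z = c * S.iu (τ.sc (3 / 4) s) y z

/-- **REG** : elliptic regularity of the Dirac operator with a smooth connection form. -/
def REG : Prop :=
  ∀ (M : Type v) [MetricSpace M] [CompactSpace M] [ConnectedSpace M]
    [ChartedSpace (EuclideanSpace ℝ (Fin 4)) M] [IsManifold (𝓡 4) ∞ M]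
    [RiemannianBundle (fun p : M => TangentSpace (𝓡 4) p)]
    [IsContMDiffRiemannianBundle (𝓡 4) ∞ (EuclideanSpace ℝ (Fin 4))
      (fun p : M => TangentSpace (𝓡 4) p)]
    [IsRiemannianManifold (𝓡 4) M] [MeasurableSpace M] [BorelSpace M]
    [SecondCountableTopology M] [Nonempty M] [IsFiniteMeasureOnCompacts (μHE[4] : Measure M)]
    (κ0 κ1 κT : Type) [Fintype κ0] [Fintype κ1] [Fintype κT]
    (S : SWS M κ0 κ1 κT) (cc : κ1 → κ0 → M → EuclideanSpace ℝ (Fin 4)), S.OK → Sym S cc →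
    ∀ th : κT → M → ℝ, SmV (n := 4) th → S.DT.Sec th → S.Reg th

/-- **GEOFL** : a flat family with `b⁺ = 3` and positive index has, for some `t`, a smooth parallel
section of `E_t` of length one. -/
def GEOFL : Prop :=
  ∀ (M : Type v) [MetricSpace M] [CompactSpace M] [ConnectedSpace M]
    [ChartedSpace (EuclideanSpace ℝ (Fin 4)) M] [IsManifold (𝓡 4) ∞ M]
    [RiemannianBundle (fun p : M => TangentSpace (𝓡 4) p)]
    [IsContMDiffRiemannianBundle (𝓡 4) ∞ (EuclideanSpace ℝ (Fin 4))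
      (fun p : M => TangentSpace (𝓡 4) p)]
    [IsRiemannianManifold (𝓡 4) M] [MeasurableSpace M] [BorelSpace M]
    [SecondCountableTopology M] [Nonempty M] [IsFiniteMeasureOnCompacts (μHE[4] : Measure M)]
    (κ0 κ1 κT : Type) [Fintype κ0] [Fintype κ1] [Fintype κT]
    (S : SWS M κ0 κ1 κT) (cc : κ1 → κ0 → M → EuclideanSpace ℝ (Fin 4))
    (ww : Fin 3 → Fin 3 → M → ℝ) (τ : E3 → TD M κT) (C : ℝ)
    (th : E3 → κT → M → ℝ), FFam S ww τ C th → Sym S cc →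
    ∀ d0 d1 : ℕ, Nonempty (KerD S.D0 S.P.A d0) → Nonempty (KerD S.D1 S.P.B d1) → d1 < d0 →
    Nonempty (KerD S.DL S.H.A 4) →
    ∃ (t : E3) (s : κ0 → M → ℝ), ‖t‖ = 1 ∧ (τ t).PSec S (th t) (1 / 2) s

/-- **ZER** : the solutions at `|t| = 1` for `L` trivial. -/
def ZER : Prop :=
  ∀ (M : Type v) [MetricSpace M] [CompactSpace M] [ConnectedSpace M]
    [ChartedSpace (EuclideanSpace ℝ (Fin 4)) M] [IsManifold (𝓡 4) ∞ M]
    [RiemannianBundle (fun p : M => TangentSpace (𝓡 4) p)]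
    [IsContMDiffRiemannianBundle (𝓡 4) ∞ (EuclideanSpace ℝ (Fin 4))
      (fun p : M => TangentSpace (𝓡 4) p)]
    [IsRiemannianManifold (𝓡 4) M] [MeasurableSpace M] [BorelSpace M]
    [SecondCountableTopology M] [Nonempty M] [IsFiniteMeasureOnCompacts (μHE[4] : Measure M)]
    (κ0 κ1 κT : Type) [Fintype κ0] [Fintype κ1] [Fintype κT]
    (S : SWS M κ0 κ1 κT) (cc : κ1 → κ0 → M → EuclideanSpace ℝ (Fin 4)) (b : ℕ) (j : JD M κT b)
    (d : SWD M κT) (ww : Fin 3 → Fin 3 → M → ℝ) (τ : E3 → TD M κT) (C : ℝ)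
    (th : E3 → κT → M → ℝ) (pi : EuclideanSpace ℂ (Fin 2) → E3)
    (U : EuclideanSpace ℂ (Fin 2) → κ0 → M → ℝ), Sym S cc → j.OK S → HopfD S ww τ C th pi U →
    d.FFit S ww τ C th → ∀ (t : E3) (h : Fin b → ℝ) (a : κT → M → ℝ) (u : κ0 → M → ℝ), ‖t‖ = 1 →
    (Sol S (d.tw j h) t a u ↔ (∀ᵐ z ∂(μHE[4] : Measure M), ∀ A, a A z = 0) ∧
      ∃ (k : Fin b → ℤ) (s : EuclideanSpace ℂ (Fin 2)), ‖s‖ = 1 ∧ pi s = t ∧ (∀ i, h i = k i) ∧
        ∀ᵐ z ∂(μHE[4] : Measure M), ∀ y,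
          u y z = √(2 * d.r) * (τ t).rr z ^ (3 / 4 : ℝ) * j.gau S (fun i => - k i) (U s) y z)

/-- **SWJA** : a system over the Jacobian torus, with `L` trivial and `b⁺ ≥ 4`, does not exist
(`hfix`: no solution with `u = 0`, by a perturbation in a fourth direction). -/
def SWJA : Prop :=
  ∀ (M : Type v) [MetricSpace M] [CompactSpace M] [ConnectedSpace M]
    [ChartedSpace (EuclideanSpace ℝ (Fin 4)) M] [IsManifold (𝓡 4) ∞ M]
    [RiemannianBundle (fun p : M => TangentSpace (𝓡 4) p)]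
    [IsContMDiffRiemannianBundle (𝓡 4) ∞ (EuclideanSpace ℝ (Fin 4))
      (fun p : M => TangentSpace (𝓡 4) p)]
    [IsRiemannianManifold (𝓡 4) M] [MeasurableSpace M] [BorelSpace M]
    [SecondCountableTopology M] [Nonempty M] [IsFiniteMeasureOnCompacts (μHE[4] : Measure M)]
    (κ0 κ1 κT : Type) [Fintype κ0] [Fintype κ1] [Fintype κT]
    (S : SWS M κ0 κ1 κT) (cc : κ1 → κ0 → M → EuclideanSpace ℝ (Fin 4)) (b : ℕ) (j : JD M κT b)
    (d : SWD M κT) (ww : Fin 3 → Fin 3 → M → ℝ) (τ : E3 → TD M κT) (C : ℝ)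
    (th : E3 → κT → M → ℝ) (pi : EuclideanSpace ℂ (Fin 2) → E3)
    (U : EuclideanSpace ℂ (Fin 2) → κ0 → M → ℝ), Sym S cc → GrdH S → j.OK S →
    HopfD S ww τ C th pi U → d.FFit S ww τ C th →
    (∀ t : E3, ‖t‖ ≤ 1 → ∃ φ : Fin 4 → M → ℝ, SmV (n := 4) φ ∧ (∀ x z, S.H.A φ x z = 0) ∧
      ipp (rhs S d t 0) φ ≠ 0) →
    ∀ d0 d1 bp : ℕ, Nonempty (KerD S.D0 S.P.A d0) → Nonempty (KerD S.D1 S.P.B d1) →
    Nonempty (KerD S.DL S.H.A (1 + bp)) → d0 + b = d1 + 1 + bp → False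

/-- **BPF** : consequence of `SWJA`: `b⁺ ≤ 3`. -/
def BPF : Prop :=
  ∀ (M : Type v) [MetricSpace M] [CompactSpace M] [ConnectedSpace M]
    [ChartedSpace (EuclideanSpace ℝ (Fin 4)) M] [IsManifold (𝓡 4) ∞ M]
    [RiemannianBundle (fun p : M => TangentSpace (𝓡 4) p)]
    [IsContMDiffRiemannianBundle (𝓡 4) ∞ (EuclideanSpace ℝ (Fin 4))
      (fun p : M => TangentSpace (𝓡 4) p)]
    [IsRiemannianManifold (𝓡 4) M] [MeasurableSpace M] [BorelSpace M]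
    [SecondCountableTopology M] [Nonempty M] [IsFiniteMeasureOnCompacts (μHE[4] : Measure M)]
    (κ0 κ1 κT : Type) [Fintype κ0] [Fintype κ1] [Fintype κT]
    (S : SWS M κ0 κ1 κT) (cc : κ1 → κ0 → M → EuclideanSpace ℝ (Fin 4)) (b : ℕ) (j : JD M κT b)
    (ww : Fin 3 → Fin 3 → M → ℝ) (τ : E3 → TD M κT) (C : ℝ)
    (th : E3 → κT → M → ℝ) (pi : EuclideanSpace ℂ (Fin 2) → E3)
    (U : EuclideanSpace ℂ (Fin 2) → κ0 → M → ℝ), Sym S cc → GrdH S → j.OK S →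
    HopfD S ww τ C th pi U →
    ∀ d0 d1 bp : ℕ, Nonempty (KerD S.D0 S.P.A d0) → Nonempty (KerD S.D1 S.P.B d1) →
    Nonempty (KerD S.DL S.H.A (1 + bp)) → d0 + b = d1 + 1 + bp → bp ≤ 3

end

end Crest.Agent.R235.SWDefs_53
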