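import Crest.Agent.R235.Defs_837
import Crest.Agent.R249.Tv12_57

/-!
Row 235 (S0364), PACKAGE SW (leader helper53): COMMON DEFINITIONS of the analysis layer and its
output Props.  Format = R249 `Tv57` (`Dat`, `OpPair`, `Spec`, `AD.WE`).

* `InW D u`      : `u` is (a representative of) a `W^{1,2}` section of `D`;
* `WkA P u f`    : weakly `A u = f`, `f ∈ L²(D1)`;
* `SWS`          : a Seiberg-Witten system: Dirac pair `P`, Hodge pair `H` (`A (f0,f) = grad f0 + d^* f`,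
                   `B a = (d^* a, d^+ a)`), complex structure `J`, `cl` = `c(·) i`, `rho` = action of `Λ⁺`;
* `SWS.OK`       : its algebraic properties and the Weitzenboeck identity of `A + c(a) i`;
* `SWD`          : the `t`-dependent data: Dirac equation `A ψ + c(a + ϑ_t) i ψ = 0`, curvature equation
                   `d^+ a = μ_t q(ψ) + r w_t + η_t`, `w_t = ∑ t_i w_i`, `a` coexact (`SWB`: `ϑ = 0`);
* `TSol`, `Sol`  : solutions of the truncated / true system;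
* `SUPB`, `SWX`  : the sup bound and the abstract existence theorem.
-/

set_option autoImplicit false
set_option maxSynthPendingDepth 3
set_option linter.unusedSectionVars false

open scoped ContDiff ENNReal NNReal Topology Manifold Bundle RealInnerProductSpace
open MeasureTheory Set Filter Metric Bundle

universe v

namespace Crest.Agent.R235.SWDefs_53

open Crest.Agent.R249.Tv57 Crest.Agent.R247.Ms322 Crest.Agent.R247.Dir593

noncomputable section

/-- the `L²` product of vector valued functions -/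
local notation "ipp" => Crest.Agent.R249.Tv57.ip 4

section defs

variable {M : Type v} [MetricSpace M] [CompactSpace M] [ConnectedSpace M]
  [ChartedSpace (EuclideanSpace ℝ (Fin 4)) M] [IsManifold (𝓡 4) ∞ M]
  [RiemannianBundle (fun p : M => TangentSpace (𝓡 4) p)]
  [IsContMDiffRiemannianBundle (𝓡 4) ∞ (EuclideanSpace ℝ (Fin 4))
    (fun p : M => TangentSpace (𝓡 4) p)]
  [IsRiemannianManifold (𝓡 4) M] [MeasurableSpace M] [BorelSpace M]
  [SecondCountableTopology M] [Nonempty M] [IsFiniteMeasureOnCompacts (μHE[4] : Measure M)]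

variable {κ κ' : Type} [Fintype κ] [Fintype κ']

/-- `u` represents an element of `W^{1,2}(D)`. -/
def InW (D : Dat 4 M κ) (u : κ → M → ℝ) : Prop :=
  ∃ w : D.toAD.WE, ∀ a, (D.toAD.i1 w a : M → ℝ) =ᵐ[(μHE[4] : Measure M)] u a

/-- weakly `A u = f`, with `f` an `L²` section of `D1`. -/
def WkA {D0 : Dat 4 M κ} {D1 : Dat 4 M κ'} (P : OpPair D0 D1) (u : κ → M → ℝ)
    (f : κ' → M → ℝ) : Prop :=
  (∀ b, MemLp (f b) 2 (μHE[4] : Measure M)) ∧
  (∀ᵐ z ∂(μHE[4] : Measure M), ∀ b, ∑ c, D1.p b c z * f c z = f b z) ∧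
  ∀ w : κ' → M → ℝ, SmV (n := 4) w → D1.Sec w → ipp f w = ipp u (P.B w)

end defs

/-- a Seiberg-Witten system on `M`. -/
structure SWS (M : Type v) [MetricSpace M] [CompactSpace M] [ConnectedSpace M]
    [ChartedSpace (EuclideanSpace ℝ (Fin 4)) M] [IsManifold (𝓡 4) ∞ M]
    [RiemannianBundle (fun p : M => TangentSpace (𝓡 4) p)]
    [IsContMDiffRiemannianBundle (𝓡 4) ∞ (EuclideanSpace ℝ (Fin 4))
      (fun p : M => TangentSpace (𝓡 4) p)]
    [IsRiemannianManifold (𝓡 4) M] [MeasurableSpace M] [BorelSpace M]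
    [SecondCountableTopology M] [Nonempty M] (κ0 κ1 κT : Type)
    [Fintype κ0] [Fintype κ1] [Fintype κT] where
  /-- `W⁺ ⊗ L` (real), with its connection; `D0.Q` = curvature term of the reference connection -/
  D0 : Dat 4 M κ0
  /-- `W⁻ ⊗ L` -/
  D1 : Dat 4 M κ1
  /-- Dirac operator of the reference connection and its adjoint -/
  P : OpPair D0 D1
  /-- `ℝ ⊕ Λ⁺`, trivialised by `1, e_1, e_2, e_3` -/
  DL : Dat 4 M (Fin 4)
  /-- `TM = Λ¹` -/
  DT : Dat 4 M κT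
  /-- Hodge pair: `A (f0, f) = grad f0 + d^* f`, `B a = (d^* a, d^+ a)` -/
  H : OpPair DL DT
  /-- the vector field of a section `a` of `DT` is `∑ a_A s_A` -/
  s : κT → M → EuclideanSpace ℝ (Fin 4)
  /-- complex structure of `W⁺ ⊗ L` -/
  J : κ0 → κ0 → M → ℝ
  /-- `c(a) i u = ∑ a_A u_y cl_{A x y}` -/
  cl : κT → κ1 → κ0 → M → ℝ
  /-- action of `i e_k` on `W⁺ ⊗ L` -/
  rho : Fin 3 → κ0 → κ0 → M → ℝ

namespace SWS

variable {M : Type v} [MetricSpace M] [CompactSpace M] [ConnectedSpace M]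
  [ChartedSpace (EuclideanSpace ℝ (Fin 4)) M] [IsManifold (𝓡 4) ∞ M]
  [RiemannianBundle (fun p : M => TangentSpace (𝓡 4) p)]
  [IsContMDiffRiemannianBundle (𝓡 4) ∞ (EuclideanSpace ℝ (Fin 4))
    (fun p : M => TangentSpace (𝓡 4) p)]
  [IsRiemannianManifold (𝓡 4) M] [MeasurableSpace M] [BorelSpace M]
  [SecondCountableTopology M] [Nonempty M]
  {κ0 κ1 κT : Type} [Fintype κ0] [Fintype κ1] [Fintype κT] (S : SWS M κ0 κ1 κT)

/-- Clifford multiplication `c(a) i u`. -/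
def cm (a : κT → M → ℝ) (u : κ0 → M → ℝ) : κ1 → M → ℝ :=
  fun x z => ∑ A, ∑ y, a A z * u y z * S.cl A x y z

/-- the covariant derivative of the connection `∇ + i a`. -/
def nab (a : κT → M → ℝ) (u : κ0 → M → ℝ) (y : κ0) (z : M) : EuclideanSpace ℝ (Fin 4) :=
  S.D0.cv u y z + (∑ y', S.J y y' z * u y' z) • ∑ A, a A z • S.s A z

/-- `⟨ρ_k u, u⟩`. -/
def rq (k : Fin 3) (u : κ0 → M → ℝ) (z : M) : ℝ :=
  ∑ y, ∑ y', S.rho k y y' z * u y z * u y' z

/-- properties of a Seiberg-Witten system. -/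
structure OK : Prop where
  smcl : ∀ A x y, ContMDiff (𝓡 4) 𝓘(ℝ, ℝ) ∞ (S.cl A x y)
  smrho : ∀ k y y', ContMDiff (𝓡 4) 𝓘(ℝ, ℝ) ∞ (S.rho k y y')
  smJ : ∀ y y', ContMDiff (𝓡 4) 𝓘(ℝ, ℝ) ∞ (S.J y y')
  sms : ∀ A, SmF (S.s A)
  symrho : ∀ k y y' z, S.rho k y y' z = S.rho k y' y z
  skewJ : ∀ y y' z, S.J y y' z = - S.J y' y z
  fullL : ∀ a b z, S.DL.p a b z = if a = b then 1 else 0
  one : ∀ x z, S.H.A (Fin.cons (fun _ => 1) fun _ _ => 0) x z = 0
  clsec : ∀ A x y z, ∑ x', S.D1.p x x' z * S.cl A x' y z = S.cl A x y z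
  clbd : ∀ z (a : κT → ℝ) (u : κ0 → ℝ),
    ∑ x, (∑ A, ∑ y, a A * u y * S.cl A x y z) ^ 2 ≤ (∑ A, a A ^ 2) * ∑ y, u y ^ 2
  fierz : ∀ z (u : κ0 → ℝ), (∀ y, ∑ y', S.D0.p y y' z * u y' = u y) →
    ∑ k, (∑ y, ∑ y', S.rho k y y' z * u y * u y') ^ 2 = (∑ y, u y ^ 2) ^ 2
  weitz : ∀ (a : κT → M → ℝ) (u w : κ0 → M → ℝ), SmV (n := 4) a → S.DT.Sec a →
    SmV (n := 4) u → S.D0.Sec u → SmV (n := 4) w → S.D0.Sec w →
    ipp (S.P.A u + S.cm a u) (S.P.A w + S.cm a w) =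
      ∫ z, ((∑ y, ⟪S.nab a u y z, S.nab a w y z⟫) +
        (∑ y, ∑ y', S.D0.Q y y' z * u y' z * w y z) +
        ∑ k : Fin 3, S.H.B a k.succ z * ∑ y, ∑ y', S.rho k y y' z * u y z * w y' z)
      ∂(μHE[4] : Measure M)

end SWS

/-- the `t`-dependent data. -/
structure SWD (M : Type v) (κT : Type) where
  /-- shift `ϑ_t` of the connection in the Dirac equation -/
  th : E3 → κT → M → ℝ
  /-- conformal weight of `q(ψ)` -/
  mu : E3 → M → ℝ
  /-- the three forms `w_i` in the frame `e_k` of `Λ⁺` -/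
  ww : Fin 3 → Fin 3 → M → ℝ
  /-- lower order terms, including minus the self-dual curvature of the reference connection -/
  et : E3 → Fin 3 → M → ℝ
  /-- size -/
  r : ℝ

section sol

variable {M : Type v} [MetricSpace M] [CompactSpace M] [ConnectedSpace M]
  [ChartedSpace (EuclideanSpace ℝ (Fin 4)) M] [IsManifold (𝓡 4) ∞ M]
  [RiemannianBundle (fun p : M => TangentSpace (𝓡 4) p)]
  [IsContMDiffRiemannianBundle (𝓡 4) ∞ (EuclideanSpace ℝ (Fin 4))
    (fun p : M => TangentSpace (𝓡 4) p)]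
  [IsRiemannianManifold (𝓡 4) M] [MeasurableSpace M] [BorelSpace M]
  [SecondCountableTopology M] [Nonempty M] [IsFiniteMeasureOnCompacts (μHE[4] : Measure M)]
  {κ0 κ1 κT : Type} [Fintype κ0] [Fintype κ1] [Fintype κT]

/-- the form `w_t`. -/
def SWD.wt (d : SWD M κT) (t : E3) (k : Fin 3) (z : M) : ℝ := ∑ i, t i * d.ww i k z

/-- truncation at `|u| ≤ R`. -/
def trc (R : ℝ) (u : κ0 → M → ℝ) : κ0 → M → ℝ :=
  fun y z => min 1 (R / √(∑ y', u y' z ^ 2)) * u y z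

/-- right hand side of the curvature equation, as a section of `ℝ ⊕ Λ⁺`;
`q(u)_k = (1/2) ⟨ρ_k u, u⟩`. -/
def rhs (S : SWS M κ0 κ1 κT) (d : SWD M κT) (t : E3) (u : κ0 → M → ℝ) : Fin 4 → M → ℝ :=
  Fin.cons (fun _ => 0) fun k z => d.mu t z * ((1 / 2) * S.rq k u z) + d.r * d.wt t k z + d.et t k z

/-- `a` is orthogonal to the harmonic one-forms. -/
def NoHarm (S : SWS M κ0 κ1 κT) (a : κT → M → ℝ) : Prop :=
  ∀ w : κT → M → ℝ, SmV (n := 4) w → S.DT.Sec w → (∀ k z, S.H.B w k z = 0) → ipp a w = 0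

/-- solutions of the truncated system. -/
structure TSol (S : SWS M κ0 κ1 κT) (d : SWD M κT) (R : ℝ) (t : E3) (a : κT → M → ℝ)
    (u : κ0 → M → ℝ) : Prop where
  wa : InW S.DT a
  wu : InW S.D0 u
  dir : WkA S.P u (fun x z => - S.cm (a + d.th t) u x z)
  cur : WkA S.H.swap a (rhs S d t (trc R u))
  har : NoHarm S a

/-- bounded solutions of the true system. -/
structure Sol (S : SWS M κ0 κ1 κT) (d : SWD M κT) (t : E3) (a : κT → M → ℝ)
    (u : κ0 → M → ℝ) : Prop where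
  wa : InW S.DT a
  wu : InW S.D0 u
  bd : ∃ C : ℝ, ∀ᵐ z ∂(μHE[4] : Measure M), ∑ y, u y z ^ 2 ≤ C
  dir : WkA S.P u (fun x z => - S.cm (a + d.th t) u x z)
  cur : WkA S.H.swap a (rhs S d t u)
  har : NoHarm S a

/-- admissible data: continuity on the closed unit ball, `μ > 0`, `w_i` closed (harmonic), and `r`
large compared with `η` on the unit sphere. -/
structure SWD.Adm (S : SWS M κ0 κ1 κT) (d : SWD M κT) : Prop where
  smth : ∀ t, SmV (n := 4) (d.th t)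
  secth : ∀ t, S.DT.Sec (d.th t)
  cth : ∀ A, ContinuousOn (fun q : E3 × M => d.th q.1 A q.2) {q | ‖q.1‖ ≤ 1}
  cdth : ∀ k, ContinuousOn (fun q : E3 × M => S.H.B (d.th q.1) k q.2) {q | ‖q.1‖ ≤ 1}
  smw : ∀ i k, ContMDiff (𝓡 4) 𝓘(ℝ, ℝ) ∞ (d.ww i k)
  cmu : ContinuousOn (fun q : E3 × M => d.mu q.1 q.2) {q | ‖q.1‖ ≤ 1}
  pmu : ∀ t z, ‖t‖ ≤ 1 → 0 < d.mu t z
  cet : ∀ k, ContinuousOn (fun q : E3 × M => d.et q.1 k q.2) {q | ‖q.1‖ ≤ 1}
  harm : ∀ i x z, S.H.A (Fin.cons (fun _ => 0) (d.ww i)) x z = 0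
  big : ∀ t : E3, ‖t‖ = 1 →
    |∫ z, ∑ k, d.et t k z * d.wt t k z ∂(μHE[4] : Measure M)| <
      |d.r| * ∫ z, ∑ k, d.wt t k z ^ 2 ∂(μHE[4] : Measure M)

end sol

/-- **SUPB**: sup bound of the spinor, uniform in the truncation. -/
def SUPB : Prop :=
  ∀ (M : Type v) [MetricSpace M] [CompactSpace M] [ConnectedSpace M]
    [ChartedSpace (EuclideanSpace ℝ (Fin 4)) M] [IsManifold (𝓡 4) ∞ M]
    [RiemannianBundle (fun p : M => TangentSpace (𝓡 4) p)]
    [IsContMDiffRiemannianBundle (𝓡 4) ∞ (EuclideanSpace ℝ (Fin 4))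
      (fun p : M => TangentSpace (𝓡 4) p)]
    [IsRiemannianManifold (𝓡 4) M] [MeasurableSpace M] [BorelSpace M]
    [SecondCountableTopology M] [Nonempty M] [IsFiniteMeasureOnCompacts (μHE[4] : Measure M)]
    (κ0 κ1 κT : Type) [Fintype κ0] [Fintype κ1] [Fintype κT]
    (S : SWS M κ0 κ1 κT) (d : SWD M κT), S.OK → d.Adm S →
    ∃ C0 : ℝ, ∀ R : ℝ, C0 < R ^ 2 → 0 < R → ∀ (t : E3) (a : κT → M → ℝ) (u : κ0 → M → ℝ),
      ‖t‖ ≤ 1 → TSol S d R t a u → ∀ᵐ z ∂(μHE[4] : Measure M), ∑ y, u y z ^ 2 ≤ C0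

/-- **SWX**: the abstract theorem.  If the index of the Dirac operator is positive, the space of
harmonic elements of `ℝ ⊕ Λ⁺` has dimension `4` (`b⁺ = 3`), the system has a (bounded) solution
for some `t` of norm `1`. -/
def SWX : Prop :=
  ∀ (M : Type v) [MetricSpace M] [CompactSpace M] [ConnectedSpace M]
    [ChartedSpace (EuclideanSpace ℝ (Fin 4)) M] [IsManifold (𝓡 4) ∞ M]
    [RiemannianBundle (fun p : M => TangentSpace (𝓡 4) p)]
    [IsContMDiffRiemannianBundle (𝓡 4) ∞ (EuclideanSpace ℝ (Fin 4))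
      (fun p : M => TangentSpace (𝓡 4) p)]
    [IsRiemannianManifold (𝓡 4) M] [MeasurableSpace M] [BorelSpace M]
    [SecondCountableTopology M] [Nonempty M] [IsFiniteMeasureOnCompacts (μHE[4] : Measure M)]
    (κ0 κ1 κT : Type) [Fintype κ0] [Fintype κ1] [Fintype κT]
    (S : SWS M κ0 κ1 κT) (d : SWD M κT), S.OK → d.Adm S →
    ∀ (d0 d1 : ℕ), Nonempty (KerD S.D0 S.P.A d0) → Nonempty (KerD S.D1 S.P.B d1) → d1 < d0 →
    Nonempty (KerD S.DL S.H.A 4) →
    ∃ (t : E3) (a : κT → M → ℝ) (u : κ0 → M → ℝ), ‖t‖ = 1 ∧ Sol S d t a u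

end

end Crest.Agent.R235.SWDefs_53
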