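import Crest.Agent.R235.W12_109

/-!
# Row 235, SW-FS (helper109), part 2: test sections `h(|ψ|²) ψ`, first order operators

* `RF h h' C` : `h` is `C¹` on `[0,∞)`, `|h| ≤ C`, `|s h'(s)| ≤ C`;
* `RF.mul u a` : `h(|u|²) u_a` in `L²`, in `V` if `u` is, with its gradient;
* `AD.tst H w : A.WE`, `coe_tst`, `cv_tst` : `∇(h(|u|²)u)_a = h ∇u_a + 2 h' u_a q`,
  `q = ∑_b u_b ∇u_b`;
* `innF`, `opC` : `(opC w)_x = ∑_y ⟪∇u_y, c_xy⟫`, `opC_tst`.
-/

set_option autoImplicit false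
set_option linter.unusedSectionVars false
open MeasureTheory Set Filter Topology
open scoped ENNReal NNReal RealInnerProductSpace

noncomputable section
namespace Crest.Agent.R235.W12_109

open Crest.Agent.R247.Dir593 Crest.Agent.R249.Tv57
open Crest.Agent.R247.Dir593.GradS

/-- radial multipliers -/
structure RF (h h' : ℝ → ℝ) (C : ℝ) : Prop where
  nonneg : 0 ≤ C
  hd : ∀ s, 0 ≤ s → HasDerivWithinAt h (h' s) (Ici 0) s
  hc : ContinuousOn h' (Ici 0)
  b0 : ∀ s, 0 ≤ s → |h s| ≤ C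
  b1 : ∀ s, 0 ≤ s → |s * h' s| ≤ C

section rf

variable {X : Type*} [MetricSpace X] [CompactSpace X] [MeasurableSpace X] [BorelSpace X]
  {F : Type*} [NormedAddCommGroup F] [InnerProductSpace ℝ F] {μ : Measure X}
  [IsFiniteMeasure μ] {S : GradS X F μ} {κ : Type} [Fintype κ]
  {h h' : ℝ → ℝ} {C : ℝ}

theorem RF.cont (H : RF h h' C) : Continuous fun y : κ → ℝ => h (nsq y) := by
  obtain ⟨χ, h1, h2, -⟩ := ext_C1 H.hd H.hc
  have e : (fun y : κ → ℝ => h (nsq y)) = fun y => χ (nsq y) :=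
    funext fun y => (h2 _ (nsq_nonneg y)).symm
  rw [e]
  refine h1.continuous.comp ?_
  unfold nsq
  exact continuous_finsetSum _ fun a _ => (continuous_apply a).pow 2

theorem RF.cont' (H : RF h h' C) : Continuous fun y : κ → ℝ => h' (nsq y) := by
  have h1 : Continuous (nsq : (κ → ℝ) → ℝ) := by
    unfold nsq
    exact continuous_finsetSum _ fun a _ => (continuous_apply a).pow 2
  exact H.hc.comp_continuous h1 fun y => nsq_nonneg y

theorem RF.abs_le (H : RF h h' C) (y : κ → ℝ) : |h (nsq y)| ≤ C := H.b0 _ (nsq_nonneg y)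

theorem RF.abs_le' (H : RF h h' C) (y : κ → ℝ) (a b : κ) :
    |2 * h' (nsq y) * y a * y b| ≤ 2 * C := by
  have h1 := abs_mul_le_nsq y a b
  have h2 := H.b1 _ (nsq_nonneg y)
  rw [abs_mul, abs_of_nonneg (nsq_nonneg y)] at h2
  have e : 2 * h' (nsq y) * y a * y b = 2 * (h' (nsq y) * (y a * y b)) := by ring
  rw [e, abs_mul, abs_two, abs_mul]
  have h3 : |h' (nsq y)| * |y a * y b| ≤ |h' (nsq y)| * nsq y :=
    mul_le_mul_of_nonneg_left h1 (abs_nonneg _)
  linarith [mul_comm (|h' (nsq y)|) (nsq y)]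

theorem aem_vec (u : κ → Lp ℝ 2 μ) : AEStronglyMeasurable (fun x => fun b => u b x) μ :=
  (aemeasurable_pi_lambda (fun x b => u b x)
    fun b => (Lp.aestronglyMeasurable (u b)).aemeasurable).aestronglyMeasurable

theorem RF.memLp (H : RF h h' C) (u : κ → Lp ℝ 2 μ) (a : κ) :
    MemLp (fun x => h (nsq fun b => u b x) * u a x) 2 μ := by
  refine (Lp.memLp (u a)).of_le_mul (c := C)
    ((H.cont.comp_aestronglyMeasurable (aem_vec u)).mul (Lp.aestronglyMeasurable (u a)))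
    (Eventually.of_forall fun x => ?_)
  rw [norm_mul, Real.norm_eq_abs]
  exact mul_le_mul_of_nonneg_right (H.abs_le _) (norm_nonneg _)

/-- `h(|u|²) u_a` -/
def RF.mul (H : RF h h' C) (u : κ → Lp ℝ 2 μ) (a : κ) : Lp ℝ 2 μ := (H.memLp u a).toLp _

theorem RF.coe_mul (H : RF h h' C) (u : κ → Lp ℝ 2 μ) :
    ∀ᵐ x ∂μ, ∀ a, (H.mul u a : X → ℝ) x = h (nsq fun b => u b x) * u a x :=
  ae_all_iff.2 fun a => (H.memLp u a).coeFn_toLp

theorem RF.mul_mem (H : RF h h' C) {u : κ → Lp ℝ 2 μ} (hu : ∀ a, u a ∈ S.V) (a : κ) :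
    H.mul u a ∈ S.V ∧ (S.D (H.mul u a) : X → F) =ᵐ[μ] fun x =>
      h (nsq fun b => u b x) • S.D (u a) x +
        ∑ b, (2 * h' (nsq fun b => u b x) * u a x * u b x) • S.D (u b) x := by
  classical
  obtain ⟨h1, h2⟩ := good_rad_mul (S := S) (κ := κ) H.hd H.hc a
  have hb : ∀ b y, |pd (fun y : κ → ℝ => h (nsq y) * y a) b y| ≤ 3 * C := fun b y => by
    rw [h2]
    refine (abs_add_le _ _).trans ?_
    have e1 : |if b = a then h (nsq y) else 0| ≤ C := by
      split_ifs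
      · exact H.abs_le y
      · rw [abs_zero]; exact H.nonneg
    have e2 := H.abs_le' y a b
    linarith
  obtain ⟨h3, h4⟩ := h1.chain (by have := H.nonneg; positivity) hb hu
    (w := H.mul u a) (H.memLp u a).coeFn_toLp
  refine ⟨h3, ?_⟩
  filter_upwards [h4] with x hx
  rw [hx]
  simp only [h2, add_smul, Finset.sum_add_distrib, ite_smul, zero_smul, Finset.sum_ite_eq',
    Finset.mem_univ, if_true]

end rf

section inn

variable {X : Type*} [MeasurableSpace X] {μ : Measure X} {F : Type*} [NormedAddCommGroup F]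
  [InnerProductSpace ℝ F]

lemma BM.memLp_inn {c : X → F} (hc : BM μ c) (g : Lp F 2 μ) :
    MemLp (fun x => (⟪g x, c x⟫ : ℝ)) 2 μ := by
  obtain ⟨K, hK0, hK⟩ := hc.bd
  refine (Lp.memLp g).of_le_mul (c := K) ((Lp.aestronglyMeasurable g).inner hc.meas) ?_
  filter_upwards [hK] with x hx
  refine (norm_inner_le_norm _ _).trans ?_
  rw [mul_comm]
  exact mul_le_mul_of_nonneg_right hx (norm_nonneg _)

/-- contraction with a bounded field -/
def innF {c : X → F} (hc : BM μ c) : Lp F 2 μ →L[ℝ] Lp ℝ 2 μ :=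
  LinearMap.mkContinuousOfExistsBound
    { toFun := fun g => (BM.memLp_inn hc g).toLp _
      map_add' := fun u v => by
        ext1
        filter_upwards [(BM.memLp_inn hc (u + v)).coeFn_toLp, (BM.memLp_inn hc u).coeFn_toLp,
          (BM.memLp_inn hc v).coeFn_toLp, Lp.coeFn_add u v,
          Lp.coeFn_add ((BM.memLp_inn hc u).toLp _) ((BM.memLp_inn hc v).toLp _)]
          with x e1 e2 e3 e4 e5
        rw [e1, e5, Pi.add_apply, e2, e3, e4, Pi.add_apply, inner_add_left]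
      map_smul' := fun r u => by
        ext1
        filter_upwards [(BM.memLp_inn hc (r • u)).coeFn_toLp, (BM.memLp_inn hc u).coeFn_toLp,
          Lp.coeFn_smul r u, Lp.coeFn_smul r ((BM.memLp_inn hc u).toLp _)] with x e1 e2 e3 e4
        simp only [RingHom.id_apply]
        rw [e1, e4, Pi.smul_apply, e2, e3, Pi.smul_apply, smul_eq_mul, real_inner_smul_left] }
    (by
      obtain ⟨K, hK0, hK⟩ := hc.bd
      refine ⟨K, fun u => ?_⟩
      refine norm_le_of_ae hK0 ?_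
      filter_upwards [(BM.memLp_inn hc u).coeFn_toLp, hK] with x e1 e2
      simp only [LinearMap.coe_mk, AddHom.coe_mk]
      rw [e1]
      refine (norm_inner_le_norm _ _).trans ?_
      rw [mul_comm]
      exact mul_le_mul_of_nonneg_right e2 (norm_nonneg _))

lemma coe_innF {c : X → F} (hc : BM μ c) (g : Lp F 2 μ) :
    (innF hc g : X → ℝ) =ᵐ[μ] fun x => (⟪g x, c x⟫ : ℝ) := (BM.memLp_inn hc g).coeFn_toLp

/-- matrix contraction `(c g)_x = ∑_y ⟪g_y, c_xy⟫` -/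
def matI {κ κ' : Type} [Fintype κ] [Fintype κ'] {c : κ' → κ → X → F}
    (hc : ∀ a b, BM μ (c a b)) : GG F μ κ →L[ℝ] HH μ κ' :=
  ((PiLp.continuousLinearEquiv 2 ℝ (fun _ : κ' => Lp ℝ 2 μ)).symm :
      (∀ _ : κ', Lp ℝ 2 μ) →L[ℝ] PiLp 2 (fun _ : κ' => Lp ℝ 2 μ)).comp
    (ContinuousLinearMap.pi fun a => ∑ b, (innF (hc a b)).comp (PiLp.proj 2 _ b))

lemma matI_apply {κ κ' : Type} [Fintype κ] [Fintype κ'] {c : κ' → κ → X → F}
    (hc : ∀ a b, BM μ (c a b)) (g : GG F μ κ) (a : κ') :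
    matI hc g a = ∑ b, innF (hc a b) (g b) := by
  simp [matI]

lemma coe_matI {κ κ' : Type} [Fintype κ] [Fintype κ'] {c : κ' → κ → X → F}
    (hc : ∀ a b, BM μ (c a b)) (g : GG F μ κ) :
    ∀ᵐ x ∂μ, ∀ a, (matI hc g a : Lp ℝ 2 μ) x = ∑ b, ⟪g b x, c a b x⟫ := by
  rw [ae_all_iff]
  intro a
  have h1 : ∀ᵐ x ∂μ, ∀ b, (innF (hc a b) (g b) : Lp ℝ 2 μ) x = ⟪g b x, c a b x⟫ :=
    ae_all_iff.2 fun b => coe_innF (hc a b) (g b)
  filter_upwards [h1, Lp.coeFn_fun_finsetSum Finset.univ (fun b => innF (hc a b) (g b))]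
    with x e1 e2
  rw [matI_apply, e2]
  exact Finset.sum_congr rfl fun b _ => e1 b

end inn

section ad

variable {X : Type*} [MetricSpace X] [CompactSpace X] [MeasurableSpace X] [BorelSpace X]
  {F : Type*} [NormedAddCommGroup F] [InnerProductSpace ℝ F] {μ : Measure X}
  [IsFiniteMeasure μ] {S : GradS X F μ} {κ κ' : Type} [Fintype κ] [Fintype κ']
  {h h' : ℝ → ℝ} {C : ℝ} (A : AD S κ)

theorem i1_mem (w : A.WE) (a : κ) : A.i1 w a ∈ S.V := S.mem_V.2 ⟨_, w.2.1 a⟩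

theorem D_i1 (w : A.WE) (a : κ) : S.D (A.i1 w a) = (w : A.Amb).snd a := S.D_eq (w.2.1 a)

/-- the value of the covariant derivative -/
theorem coe_c1 (w : A.WE) : ∀ᵐ x ∂μ, ∀ a, (A.c1 w a : Lp F 2 μ) x =
    (w : A.Amb).snd a x + ∑ b, (A.i1 w b : Lp ℝ 2 μ) x • A.w a b x := by
  have e : ∀ a, A.c1 w a = (w : A.Amb).snd a + matF A.hw (A.i1 w) a := fun a => rfl
  have h1 : ∀ᵐ x ∂μ, ∀ a, (A.c1 w a : Lp F 2 μ) x =
      (w : A.Amb).snd a x + (matF A.hw (A.i1 w) a : Lp F 2 μ) x := by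
    rw [ae_all_iff]
    intro a
    rw [e a]
    exact Lp.coeFn_add _ _
  filter_upwards [h1, coe_matF A.hw (A.i1 w)] with x e1 e2 a
  rw [e1 a, e2 a]

/-- the test section `h(|ψ|²) ψ` -/
def tst (H : RF h h' C) (w : A.WE) : A.WE :=
  A.mkW (WithLp.toLp 2 fun a => H.mul (fun b => A.i1 w b) a)
    (fun a => (H.mul_mem (fun b => i1_mem A w b) a).1) (by
      have hP : A.P (A.i1 w) = A.i1 w := w.2.2
      ext a
      filter_upwards [A.coe_P (WithLp.toLp 2 fun a => H.mul (fun b => A.i1 w b) a),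
        A.coe_P (A.i1 w), H.coe_mul (fun b => A.i1 w b)] with x e1 e2 e3
      rw [e1 a]
      rw [hP] at e2
      simp only [e3]
      rw [e2 a, Finset.mul_sum]
      exact Finset.sum_congr rfl fun b _ => by ring)

theorem tst_i1 (H : RF h h' C) (w : A.WE) (a : κ) :
    A.i1 (tst A H w) a = H.mul (fun b => A.i1 w b) a := rfl

theorem coe_tst (H : RF h h' C) (w : A.WE) : ∀ᵐ x ∂μ, ∀ a,
    (A.i1 (tst A H w) a : Lp ℝ 2 μ) x = h (nsq fun b => A.i1 w b x) * A.i1 w a x :=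
  H.coe_mul (fun b => A.i1 w b)

/-- half the gradient of `|ψ|²` -/
def qf (w : A.WE) (x : X) : F := ∑ b, (A.i1 w b : Lp ℝ 2 μ) x • (A.c1 w b : Lp F 2 μ) x

/-- by skewness the covariant and the ordinary gradient give the same `q` -/
theorem qf_eq (w : A.WE) : ∀ᵐ x ∂μ, qf A w x = ∑ b, (A.i1 w b : Lp ℝ 2 μ) x •
    ((w : A.Amb).snd b : Lp F 2 μ) x := by
  filter_upwards [coe_c1 A w] with x e1
  unfold qf
  simp only [e1, smul_add, Finset.sum_add_distrib, Finset.smul_sum]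
  have hz : ∑ b, ∑ c, (A.i1 w b : Lp ℝ 2 μ) x • (A.i1 w c : Lp ℝ 2 μ) x • A.w b c x = 0 := by
    have h1 : ∑ b, ∑ c, (A.i1 w b : Lp ℝ 2 μ) x • (A.i1 w c : Lp ℝ 2 μ) x • A.w b c x =
        -∑ b, ∑ c, (A.i1 w b : Lp ℝ 2 μ) x • (A.i1 w c : Lp ℝ 2 μ) x • A.w b c x := by
      conv_lhs => rw [Finset.sum_comm]
      rw [← Finset.sum_neg_distrib]
      refine Finset.sum_congr rfl fun b _ => ?_
      rw [← Finset.sum_neg_distrib]
      refine Finset.sum_congr rfl fun c _ => ?_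
      rw [A.skew c b x, smul_neg, smul_neg, smul_smul, smul_smul, mul_comm]
    have h2 : (2 : ℝ) • ∑ b, ∑ c, (A.i1 w b : Lp ℝ 2 μ) x • (A.i1 w c : Lp ℝ 2 μ) x •
        A.w b c x = 0 := by
      rw [two_smul]
      nth_rewrite 1 [h1]
      exact neg_add_cancel _
    exact (smul_eq_zero.1 h2).resolve_left two_ne_zero
  rw [hz, add_zero]

/-- **covariant derivative of the test section** -/
theorem cv_tst (H : RF h h' C) (w : A.WE) : ∀ᵐ x ∂μ, ∀ a,
    (A.c1 (tst A H w) a : Lp F 2 μ) x = h (nsq fun b => A.i1 w b x) • (A.c1 w a : Lp F 2 μ) x +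
      (2 * h' (nsq fun b => A.i1 w b x) * A.i1 w a x) • qf A w x := by
  have h1 : ∀ᵐ x ∂μ, ∀ a, ((tst A H w : A.Amb).snd a : Lp F 2 μ) x =
      h (nsq fun b => A.i1 w b x) • S.D (A.i1 w a) x +
        ∑ b, (2 * h' (nsq fun b => A.i1 w b x) * A.i1 w a x * A.i1 w b x) • S.D (A.i1 w b) x :=
    ae_all_iff.2 fun a => (H.mul_mem (fun b => i1_mem A w b) a).2
  filter_upwards [h1, coe_c1 A w, coe_c1 A (tst A H w), coe_tst A H w, qf_eq A w]
    with x e1 e2 e3 e4 e5 a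
  have t1 : (2 * h' (nsq fun b => A.i1 w b x) * A.i1 w a x) • ∑ b, (A.i1 w b : Lp ℝ 2 μ) x •
      ((w : A.Amb).snd b : Lp F 2 μ) x =
      ∑ b, (2 * h' (nsq fun b => A.i1 w b x) * A.i1 w a x * A.i1 w b x) •
        ((w : A.Amb).snd b : Lp F 2 μ) x := by
    rw [Finset.smul_sum]
    exact Finset.sum_congr rfl fun b _ => smul_smul _ _ _
  have t2 : h (nsq fun b => A.i1 w b x) • ∑ b, (A.i1 w b : Lp ℝ 2 μ) x • A.w a b x =
      ∑ b, (h (nsq fun b => A.i1 w b x) * A.i1 w b x) • A.w a b x := by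
    rw [Finset.smul_sum]
    exact Finset.sum_congr rfl fun b _ => smul_smul _ _ _
  rw [e3 a, e1 a, e2 a, e5, smul_add, t1, t2]
  simp only [e4, D_i1]
  abel

/-- the first order operator with symbol `c` -/
def opC {c : κ' → κ → X → F} (hc : ∀ a b, BM μ (c a b)) : A.WE →L[ℝ] HH μ κ' :=
  (matI hc).comp A.c1

theorem coe_opC {c : κ' → κ → X → F} (hc : ∀ a b, BM μ (c a b)) (w : A.WE) :
    ∀ᵐ x ∂μ, ∀ a, (opC A hc w a : Lp ℝ 2 μ) x = ∑ b, ⟪(A.c1 w b : Lp F 2 μ) x, c a b x⟫ :=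
  coe_matI hc (A.c1 w)

/-- **the operator on the test section** -/
theorem opC_tst {c : κ' → κ → X → F} (hc : ∀ a b, BM μ (c a b)) (H : RF h h' C) (w : A.WE) :
    ∀ᵐ x ∂μ, ∀ a, (opC A hc (tst A H w) a : Lp ℝ 2 μ) x =
      h (nsq fun b => A.i1 w b x) * (opC A hc w a : Lp ℝ 2 μ) x +
        2 * h' (nsq fun b => A.i1 w b x) * ∑ b, A.i1 w b x * ⟪qf A w x, c a b x⟫ := by
  filter_upwards [coe_opC A hc w, coe_opC A hc (tst A H w), cv_tst A H w] with x e1 e2 e3 a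
  rw [e1 a, e2 a, Finset.mul_sum, Finset.mul_sum, ← Finset.sum_add_distrib]
  refine Finset.sum_congr rfl fun b _ => ?_
  rw [e3 b, inner_add_left, real_inner_smul_left, real_inner_smul_left]
  ring

end ad

end Crest.Agent.R235.W12_109
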