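import Crest.Agent.R235.Dns_433
import Crest.Agent.R235.SWDefs_53
import Crest.Agent.R235.W12b_109

/-!
# Row 235, SW-SUPB, part A (helper433)

* `Ah_of_WkA` : a weak equation `A u = f` is `Ah P U = f` a.e.;
* `hh C0`, `rf_hh` : the radial test function `h(s) = ((s-C0)⁺)² / (1+s)²`;
* `nabW`, `cmW`, `wInt`, `WtzH` : the Weitzenboeck identity on `W^{1,2}` (producer: task 335);
* `pt_lower` : the pointwise lower bound.
-/

set_option autoImplicit false
set_option linter.unusedSectionVars false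
set_option maxSynthPendingDepth 3
open scoped ContDiff ENNReal NNReal Topology Manifold Bundle RealInnerProductSpace
open MeasureTheory Set Filter Metric Bundle

universe v

noncomputable section
namespace Crest.Agent.R235.SupbA_433

open Crest.Agent.R247.Dir593 Crest.Agent.R247.Ms322 Crest.Agent.R247.Frd657
open Crest.Agent.R249.Tv57 Crest.Agent.R235.Dens_433 Crest.Agent.R235.Fs4_546
open Crest.Agent.R235.Dns_433 Crest.Agent.R235.SWDefs_53 Crest.Agent.R235.W12_109

/-! ### the radial function -/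

/-- `h(s) = ((s-C)⁺)² / (1+s)²` -/
def hh (C s : ℝ) : ℝ := (max (s - C) 0) ^ 2 / (1 + s) ^ 2

/-- its derivative on `[0,∞)` -/
def hh' (C s : ℝ) : ℝ := 2 * max (s - C) 0 * (1 + C) / (1 + s) ^ 3

theorem hasDerivAt_maxsq (C s : ℝ) :
    HasDerivAt (fun s => (max (s - C) 0) ^ 2) (2 * max (s - C) 0) s := by
  rcases lt_trichotomy s C with h | h | h
  · have h1 : (fun s => (max (s - C) 0) ^ 2) =ᶠ[𝓝 s] fun _ => (0:ℝ) := by
      filter_upwards [Iio_mem_nhds h] with x hx
      rw [max_eq_right (by linarith [show x < C from hx])]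
      norm_num
    rw [max_eq_right (by linarith), mul_zero]
    exact (hasDerivAt_const s (0:ℝ)).congr_of_eventuallyEq h1
  · subst h
    rw [sub_self, max_self, mul_zero]
    rw [hasDerivAt_iff_isLittleO]
    simp only [sub_self, max_self, ne_eq, OfNat.ofNat_ne_zero, not_false_eq_true, zero_pow,
      sub_zero, smul_zero]
    have h1 : (fun x' : ℝ => max (x' - s) 0 ^ 2) =O[𝓝 s] fun x' => (x' - s) ^ 2 := by
      refine Asymptotics.isBigO_of_le _ fun x => ?_
      rw [Real.norm_of_nonneg (by positivity), Real.norm_of_nonneg (by positivity)]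
      rcases le_total (x - s) 0 with h | h
      · rw [max_eq_right h, zero_pow two_ne_zero]; exact sq_nonneg _
      · rw [max_eq_left h]
    refine h1.trans_isLittleO ?_
    have h2 : (fun x' : ℝ => (x' - s) ^ 2) = fun x' => (x' - s) * (x' - s) := by
      funext x; ring
    rw [h2]
    have h3 : Tendsto (fun x' : ℝ => x' - s) (𝓝 s) (𝓝 0) := by
      have : Tendsto (fun x' : ℝ => x' - s) (𝓝 s) (𝓝 (s - s)) :=
        (continuous_id.sub continuous_const).tendsto s
      rwa [sub_self] at this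
    have h4 := (Asymptotics.isLittleO_one_iff ℝ).2 h3
    have h5 := h4.mul_isBigO (Asymptotics.isBigO_refl (fun x' : ℝ => x' - s) (𝓝 s))
    simpa using h5
  · have h1 : (fun s => (max (s - C) 0) ^ 2) =ᶠ[𝓝 s] fun s => (s - C) ^ 2 := by
      filter_upwards [Ioi_mem_nhds h] with x hx
      rw [max_eq_left (by linarith [show C < x from hx])]
    rw [max_eq_left (by linarith)]
    have h2 : HasDerivAt (fun s : ℝ => (s - C) ^ 2) (2 * (s - C)) s := by
      have := ((hasDerivAt_id s).sub_const C).fun_pow 2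
      refine this.congr_deriv ?_
      simp
    exact h2.congr_of_eventuallyEq h1

theorem hh_nonneg (C s : ℝ) : 0 ≤ hh C s := by unfold hh; positivity

theorem hh'_nonneg {C s : ℝ} (hC : 0 ≤ C) (hs : 0 ≤ s) : 0 ≤ hh' C s := by
  unfold hh'
  have : 0 ≤ max (s - C) 0 := le_max_right _ _
  positivity

theorem hh_pos {C s : ℝ} (hC : 0 ≤ C) (hs : C < s) : 0 < hh C s := by
  unfold hh
  rw [max_eq_left (by linarith)]
  have : 0 < s - C := by linarith
  have : 0 < 1 + s := by linarith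
  positivity

theorem hh_zero {C s : ℝ} (hs : s ≤ C) : hh C s = 0 := by
  unfold hh
  rw [max_eq_right (by linarith)]
  simp

theorem rf_hh {C : ℝ} (hC : 0 ≤ C) : RF (hh C) (hh' C) 2 where
  nonneg := by norm_num
  hd := fun s hs => by
    have h1 : HasDerivAt (hh C) (hh' C s) s := by
      have h2 := hasDerivAt_maxsq C s
      have h3 : HasDerivAt (fun s : ℝ => (1 + s) ^ 2) (2 * (1 + s)) s := by
        have := ((hasDerivAt_id s).const_add 1).fun_pow 2
        refine this.congr_deriv ?_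
        simp
      have h4 : (1 + s) ^ 2 ≠ 0 := by positivity
      have h5 := h2.div h3 h4
      refine h5.congr_deriv ?_
      unfold hh'
      have h6 : 1 + s ≠ 0 := by positivity
      rcases le_total (s - C) 0 with h | h
      · rw [max_eq_right h]; simp
      · rw [max_eq_left h]
        field_simp
        ring
    exact h1.hasDerivWithinAt
  hc := by
    unfold hh'
    refine ContinuousOn.div (by fun_prop) (by fun_prop) fun s hs => ?_
    have : 0 ≤ s := hs
    positivity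
  b0 := fun s hs => by
    rw [abs_of_nonneg (hh_nonneg _ _)]
    unfold hh
    have h1 : max (s - C) 0 ≤ 1 + s := max_le (by linarith) (by linarith)
    have h2 : 0 ≤ max (s - C) 0 := le_max_right _ _
    rw [div_le_iff₀ (by positivity)]
    nlinarith [pow_le_pow_left₀ h2 h1 2]
  b1 := fun s hs => by
    have h0 := hh'_nonneg hC hs
    rw [abs_of_nonneg (mul_nonneg hs h0)]
    unfold hh'
    rcases le_total (s - C) 0 with h | h
    · rw [max_eq_right h]; simp
    · rw [max_eq_left h, ← mul_div_assoc, div_le_iff₀ (by positivity)]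
      have h1 : s * (2 * (s - C) * (1 + C)) ≤ (1 + s) * (2 * (1 + s) * (1 + s)) := by
        gcongr <;> linarith
      calc s * (2 * (s - C) * (1 + C)) ≤ (1 + s) * (2 * (1 + s) * (1 + s)) := h1
        _ = 2 * (1 + s) ^ 3 := by ring

/-! ### weak equations -/

section weak
variable {M : Type v} [MetricSpace M] [CompactSpace M] [ConnectedSpace M]
  [ChartedSpace (EuclideanSpace ℝ (Fin 4)) M] [IsManifold (𝓡 4) ∞ M]
  [RiemannianBundle (fun p : M => TangentSpace (𝓡 4) p)]
  [IsContMDiffRiemannianBundle (𝓡 4) ∞ (EuclideanSpace ℝ (Fin 4))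
    (fun p : M => TangentSpace (𝓡 4) p)]
  [IsRiemannianManifold (𝓡 4) M] [MeasurableSpace M] [BorelSpace M]
  [SecondCountableTopology M] [Nonempty M] [IsFiniteMeasureOnCompacts (μHE[4] : Measure M)]
  {κ κ' : Type} [Fintype κ] [Fintype κ']

/-- **a weak equation holds for the extended operator** -/
theorem Ah_of_WkA {D0 : Dat 4 M κ} {D1 : Dat 4 M κ'} (P : OpPair D0 D1) {u : κ → M → ℝ}
    {f : κ' → M → ℝ} (h : WkA P u f) (U : D0.toAD.WE)
    (hU : ∀ a, (D0.toAD.i1 U a : M → ℝ) =ᵐ[(μHE[4] : Measure M)] u a) :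
    ∀ᵐ z ∂(μHE[4] : Measure M), ∀ b,
      (((Ah P U : D1.toAD.HE) : HH (μHE[4] : Measure M) κ') b : M → ℝ) z = f b z := by
  obtain ⟨hf, hp, hw⟩ := h
  set F : HH (μHE[4] : Measure M) κ' := WithLp.toLp 2 (fun b => (hf b).toLp (f b)) with hFd
  have hFe : ∀ᵐ z ∂(μHE[4] : Measure M), ∀ b, (F b : M → ℝ) z = f b z := by
    rw [ae_all_iff]
    intro b
    exact (hf b).coeFn_toLp
  have hPF : D1.toAD.P F = F := by
    ext b
    filter_upwards [D1.toAD.coe_P F, hFe, hp] with z e1 e2 e3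
    rw [e1 b, e2 b, ← e3 b]
    exact Finset.sum_congr rfl fun c _ => by rw [e2 c]; rfl
  have key : Ah P U = (⟨F, hPF⟩ : D1.toAD.HE) := by
    refine eq_of_inner_cH D1 (by norm_num) fun w => ?_
    have h1 : (⟪Ah P U, cH D1 w⟫ : ℝ) = ⟪D0.toAD.jj U, Ah P.swap (cW D1 w)⟫ := by
      rw [← jj_cW]
      exact adj (dns D0 (by norm_num)) (dns D1 (by norm_num)) U (cW D1 w)
    have h2 : (⟪D0.toAD.jj U, Ah P.swap (cW D1 w)⟫ : ℝ) =
        ∫ z, ∑ a, u a z * P.B w.1 a z ∂(μHE[4] : Measure M) := by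
      rw [Ah_cW (dns D1 (by norm_num))]
      exact inner_HH (D0.toAD.i1 U) (clH (P.B w.1) (P.smB _ w.2.1 w.2.2)) (ae_all_iff.2 hU)
        (coe_clH _ _)
    have h3 : (⟪(⟨F, hPF⟩ : D1.toAD.HE), cH D1 w⟫ : ℝ) =
        ∫ z, ∑ b, f b z * w.1 b z ∂(μHE[4] : Measure M) :=
      inner_HH F (clH w.1 w.2.1) hFe (coe_clH _ _)
    rw [h1, h2, h3]
    exact (hw w.1 w.2.1 w.2.2).symm
  rw [key]
  exact hFe

end weak

/-! ### the Weitzenboeck identity -/

section wtz
variable {M : Type v} [MetricSpace M] [CompactSpace M] [ConnectedSpace M]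
  [ChartedSpace (EuclideanSpace ℝ (Fin 4)) M] [IsManifold (𝓡 4) ∞ M]
  [RiemannianBundle (fun p : M => TangentSpace (𝓡 4) p)]
  [IsContMDiffRiemannianBundle (𝓡 4) ∞ (EuclideanSpace ℝ (Fin 4))
    (fun p : M => TangentSpace (𝓡 4) p)]
  [IsRiemannianManifold (𝓡 4) M] [MeasurableSpace M] [BorelSpace M]
  [SecondCountableTopology M] [Nonempty M] [IsFiniteMeasureOnCompacts (μHE[4] : Measure M)]
  {κ0 κ1 κT : Type} [Fintype κ0] [Fintype κ1] [Fintype κT] (S : SWS M κ0 κ1 κT)

/-- representatives -/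
def rp {κ : Type} [Fintype κ] {D : Dat 4 M κ} (w : D.toAD.WE) : κ → M → ℝ :=
  fun a z => (D.toAD.i1 w a : M → ℝ) z

/-- the covariant derivative of `∇ + i α` -/
def nabW (α : S.DT.toAD.WE) (U : S.D0.toAD.WE) (y : κ0) (z : M) : EuclideanSpace ℝ (Fin 4) :=
  (S.D0.toAD.c1 U y : M → EuclideanSpace ℝ (Fin 4)) z +
    (∑ y', S.J y y' z * rp U y' z) • ∑ A, rp α A z • S.s A z

/-- the right hand side of the Weitzenboeck identity -/
def wInt (α : S.DT.toAD.WE) (U W : S.D0.toAD.WE) (z : M) : ℝ :=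
  (∑ y, ⟪nabW S α U y z, nabW S α W y z⟫) +
    (∑ y, ∑ y', S.D0.Q y y' z * rp U y' z * rp W y z) +
    ∑ k : Fin 3, (((Ah S.H.swap α : S.DL.toAD.HE) : HH (μHE[4] : Measure M) (Fin 4)) k.succ : M → ℝ) z *
      ∑ y, ∑ y', S.rho k y y' z * rp U y z * rp W y' z

/-- `(A + c(α) i) U` -/
def dirW (α : S.DT.toAD.WE) (U : S.D0.toAD.WE) (x : κ1) (z : M) : ℝ :=
  (((Ah S.P U : S.D1.toAD.HE) : HH (μHE[4] : Measure M) κ1) x : M → ℝ) z + S.cm (rp α) (rp U) x z

/-- **the Weitzenboeck identity on `W^{1,2}`** -/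
def WtzH : Prop := ∀ (α : S.DT.toAD.WE) (U W : S.D0.toAD.WE),
  Integrable (wInt S α U W) (μHE[4] : Measure M) ∧
    ∫ z, ∑ x, dirW S α U x z * dirW S α W x z ∂(μHE[4] : Measure M) =
      ∫ z, wInt S α U W z ∂(μHE[4] : Measure M)

end wtz

end Crest.Agent.R235.SupbA_433
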