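import Crest.Agent.R235.SWZerB_463
import Crest.Agent.R235.Fred_649

/-!
Row 235 (S0364), PACKAGE SW, task 445 (helper463): **`UNI → REG → ZER`** (`zer_of`): the solutions at
`|t| = 1` for `L` trivial are the gauge transforms of the Hopf family.

`sol_of_psec` : the converse of `UNI`: `(0, ρ^{3/4} s)` is a solution for every parallel `s`.
-/

set_option autoImplicit false
set_option maxSynthPendingDepth 3
set_option linter.unusedSectionVars false
set_option linter.unusedVariables false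

open scoped ContDiff ENNReal NNReal Topology Manifold Bundle RealInnerProductSpace
open MeasureTheory Set Filter Metric Bundle

universe v

namespace Crest.Agent.R235.SWZer_463

open Crest.Agent.R249.Tv57 Crest.Agent.R247.Ms322 Crest.Agent.R247.Dir593
open Crest.Agent.R247.Frd657
open Crest.Agent.R235.SWDefs_53 Crest.Agent.R235.SWSym_451 Crest.Agent.R235.SWTd_451
open Crest.Agent.R235.SWZerA_463 Crest.Agent.R235.SWZerB_463
open Crest.Agent.R235.Fs4_546 Crest.Agent.R235.Fred_649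

noncomputable section

local notation "𝔼4" => EuclideanSpace ℝ (Fin 4)
local notation "ipp" => Crest.Agent.R249.Tv57.ip 4

section main

variable {M : Type v} [MetricSpace M] [CompactSpace M] [ConnectedSpace M]
  [ChartedSpace (EuclideanSpace ℝ (Fin 4)) M] [IsManifold (𝓡 4) ∞ M]
  [RiemannianBundle (fun p : M => TangentSpace (𝓡 4) p)]
  [IsContMDiffRiemannianBundle (𝓡 4) ∞ (EuclideanSpace ℝ (Fin 4))
    (fun p : M => TangentSpace (𝓡 4) p)]
  [IsRiemannianManifold (𝓡 4) M] [MeasurableSpace M] [BorelSpace M]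
  [SecondCountableTopology M] [Nonempty M] [IsFiniteMeasureOnCompacts (μHE[4] : Measure M)]
  {κ0 κ1 κT : Type} [Fintype κ0] [Fintype κ1] [Fintype κT]
  {S : SWS M κ0 κ1 κT} {cc : κ1 → κ0 → M → EuclideanSpace ℝ (Fin 4)} {τ : TD M κT}

/-- `ρ^{3/4} s` is smooth. -/
theorem smV_sc {C : ℝ} (hτ : τ.OK S C) {s : κ0 → M → ℝ} (hs : SmV (n := 4) s) (q : ℝ) :
    SmV (n := 4) (τ.sc q s) := fun y => (smooth_rpow hτ.smrr hτ.pos q).mul (hs y)

theorem sec_sc {s : κ0 → M → ℝ} (hs : S.D0.Sec s) (q : ℝ) : S.D0.Sec (τ.sc q s) := by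
  intro y z
  have h1 := hs y z
  unfold TD.sc
  calc ∑ b, S.D0.p y b z * (τ.rr z ^ q * s b z) = τ.rr z ^ q * ∑ b, S.D0.p y b z * s b z := by
        rw [Finset.mul_sum]
        exact Finset.sum_congr rfl fun b _ => by ring
    _ = _ := by rw [h1]

theorem smV_cm (hok : S.OK) {a : κT → M → ℝ} {u : κ0 → M → ℝ} (ha : SmV (n := 4) a)
    (hu : SmV (n := 4) u) : SmV (n := 4) (S.cm a u) := fun x =>
  contMDiff_finsetSum fun A _ => contMDiff_finsetSum fun y _ =>
    ((ha A).mul (hu y)).mul (hok.smcl A x y)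

/-- **`A_th (ρ^{3/4} s) = 0` for a parallel section `s` of the flat line bundle `E`** (first Stokes
identity). -/
theorem dir_zero (hok : S.OK) {C : ℝ} (hτ : τ.OK S C) {th : κT → M → ℝ}
    (hth : SmV (n := 4) th) (hths : S.DT.Sec th) (hfl : τ.Flat S th) {r : ℝ} {s : κ0 → M → ℝ}
    (hs : τ.PSec S th r s) (x : κ1) (z : M) :
    S.P.A (τ.sc (3 / 4) s) x z + S.cm th (τ.sc (3 / 4) s) x z = 0 := by
  have hu := smV_sc hτ hs.sm (3 / 4)
  have hus := sec_sc (τ := τ) hs.sec.1 (3 / 4)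
  set u0 := τ.sc (3 / 4) s with hu0
  set v : κ1 → M → ℝ := fun x z => τ.rr z ^ (-(1 / 4) : ℝ) * (S.P.A u0 + S.cm th u0) x z with hv
  have hvs : SmV (n := 4) v := fun x =>
    (smooth_rpow hτ.smrr hτ.pos _).mul ((S.P.smA u0 hu hus x).add (smV_cm hok hth hu x))
  have h1 := hτ.T1 th s hth hths hs.sm hs.sec
  have h2 : ∫ z, (τ.rr z * (∑ y, ‖τ.nE S th s y z‖ ^ 2) -
      τ.rr z * (∑ k, (S.H.B th k.succ z + τ.fE k z) * τ.n k z) * ∑ y, s y z ^ 2)
      ∂(μHE[4] : Measure M) = 0 := by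
    have h3 : ∀ z, (τ.rr z * (∑ y, ‖τ.nE S th s y z‖ ^ 2) -
      τ.rr z * (∑ k, (S.H.B th k.succ z + τ.fE k z) * τ.n k z) * ∑ y, s y z ^ 2) = 0 := by
      intro z
      have h4 : ∀ k, S.H.B th k.succ z + τ.fE k z = 0 := fun k => by
        rw [add_comm]; exact hfl k z
      simp [hs.par, h4]
    simp only [h3, integral_zero]
  rw [h2] at h1
  have h3 : ipp v v = 0 := by
    rw [← h1]
    unfold Crest.Agent.R249.Tv57.ip
    refine integral_congr_ae (Eventually.of_forall fun z => ?_)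
    show ∑ x, v x z * v x z = τ.rr z ^ (-(1 / 2) : ℝ) *
      ∑ x, ((S.P.A u0 + S.cm th u0) x z) ^ 2
    rw [Finset.mul_sum]
    refine Finset.sum_congr rfl fun x _ => ?_
    have h4 : τ.rr z ^ (-(1 / 2) : ℝ) = τ.rr z ^ (-(1 / 4) : ℝ) * τ.rr z ^ (-(1 / 4) : ℝ) := by
      rw [← Real.rpow_add (hτ.pos z)]
      norm_num
    rw [h4, hv]
    ring
  have h4 := eq_zero_of_ip hvs h3 x z
  have h5 : τ.rr z ^ (-(1 / 4) : ℝ) ≠ 0 := (Real.rpow_pos_of_pos (hτ.pos z) _).ne'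
  exact (mul_eq_zero.1 h4).resolve_left h5

/-- the right hand side of the curvature equation vanishes at `ρ^{3/4} s`. -/
theorem rhs_zero (H : Sym S cc) {C : ℝ} (hτ : τ.OK S C) {d : SWD M κT} {t : E3}
    (hfit : τ.Fit S d t) (hfl : τ.Flat S (d.th t)) {s : κ0 → M → ℝ}
    (hs : τ.PSec S (d.th t) d.r s) {u : κ0 → M → ℝ} {z : M}
    (hu : ∀ y, u y z = τ.sc (3 / 4) s y z) (b : Fin 4) : rhs S d t u b z = 0 := by
  refine Fin.cases rfl (fun k => ?_) b
  show d.mu t z * ((1 / 2) * S.rq k u z) + d.r * d.wt t k z + d.et t k z = 0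
  have h1 : S.rq k u z = τ.rr z ^ (3 / 2 : ℝ) * S.rq k s z := by
    unfold SWS.rq
    rw [Finset.mul_sum]
    refine Finset.sum_congr rfl fun y _ => ?_
    rw [Finset.mul_sum]
    refine Finset.sum_congr rfl fun y' _ => ?_
    have h4 : τ.rr z ^ (3 / 2 : ℝ) = τ.rr z ^ (3 / 4 : ℝ) * τ.rr z ^ (3 / 4 : ℝ) := by
      rw [← Real.rpow_add (hτ.pos z)]
      norm_num
    rw [hu y, hu y', h4]
    unfold TD.sc
    ring
  have h2 : τ.rr z ^ (-(1 / 2) : ℝ) * τ.rr z ^ (3 / 2 : ℝ) = τ.rr z := by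
    rw [← Real.rpow_add (hτ.pos z)]
    norm_num
  rw [h1, rq_E H hs.sec, hs.nrm, hfit.mu, hfit.wt, hfit.et, hfl k z]
  calc τ.rr z ^ (-(1 / 2) : ℝ) * (1 / 2 * (τ.rr z ^ (3 / 2 : ℝ) * (-τ.n k z * (2 * d.r)))) +
      d.r * (τ.rr z * τ.n k z) + -0 =
      (τ.rr z ^ (-(1 / 2) : ℝ) * τ.rr z ^ (3 / 2 : ℝ)) * (- τ.n k z * d.r) +
      d.r * (τ.rr z * τ.n k z) := by ring
    _ = 0 := by rw [h2]; ring

/-- **`(0, ρ^{3/4} s)` is a solution.** -/
theorem sol_of_psec (hok : S.OK) (H : Sym S cc) {C : ℝ} (hτ : τ.OK S C) {d : SWD M κT} {t : E3}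
    (hfit : τ.Fit S d t) (hfl : τ.Flat S (d.th t)) {s : κ0 → M → ℝ}
    (hs : τ.PSec S (d.th t) d.r s) {a : κT → M → ℝ} {u : κ0 → M → ℝ}
    (ha : ∀ᵐ z ∂(μHE[4] : Measure M), ∀ A, a A z = 0)
    (hu : ∀ᵐ z ∂(μHE[4] : Measure M), ∀ y, u y z = τ.sc (3 / 4) s y z) : Sol S d t a u := by
  have hu0 := smV_sc hτ hs.sm (3 / 4)
  have hus := sec_sc (τ := τ) hs.sec.1 (3 / 4)
  set W : SmS S.D0 := ⟨τ.sc (3 / 4) s, hu0, hus⟩ with hW
  have hrep : ∀ y, rp (cW S.D0 W) y =ᵐ[(μHE[4] : Measure M)] u y := by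
    intro y
    filter_upwards [coe_clH W.1 W.2.1, hu] with z e1 e2
    show (clH W.1 W.2.1 y : M → ℝ) z = u y z
    rw [e1 y, e2 y]
  refine ⟨?_, ⟨cW S.D0 W, hrep⟩, ?_, ?_, ?_, ?_⟩
  · refine ⟨cW S.DT 0, fun A => ?_⟩
    filter_upwards [coe_clH (0 : SmS S.DT).1 (0 : SmS S.DT).2.1, ha] with z e1 e2
    show (clH (0 : SmS S.DT).1 (0 : SmS S.DT).2.1 A : M → ℝ) z = a A z
    rw [e1 A, e2 A]
    rfl
  · have hc : Continuous fun z => ∑ y, τ.sc (3 / 4) s y z ^ 2 :=
      continuous_finsetSum _ fun y _ => (hu0 y).continuous.pow 2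
    obtain ⟨K, hK⟩ := isCompact_univ.exists_bound_of_continuousOn hc.continuousOn
    refine ⟨K, ?_⟩
    filter_upwards [hu] with z e2
    have h1 : ∑ y, u y z ^ 2 = ∑ y, τ.sc (3 / 4) s y z ^ 2 :=
      Finset.sum_congr rfl fun y _ => by rw [e2 y]
    rw [h1]
    exact (le_abs_self _).trans (hK z (mem_univ z))
  · refine (wkA_iff hrep).2 fun x => ?_
    rw [Ah_cW (dns4 S.D0)]
    filter_upwards [coe_clH (lA S.P W).1 (lA S.P W).2.1, hu, ha] with z e1 e2 e3
    show (clH (lA S.P W).1 (lA S.P W).2.1 x : M → ℝ) z = _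
    rw [e1 x]
    have h1 := dir_zero hok hτ hfit.smth hfit.secth hfl hs x z
    have h2 : S.cm (a + d.th t) u x z = S.cm (d.th t) (τ.sc (3 / 4) s) x z := by
      unfold SWS.cm
      refine Finset.sum_congr rfl fun A _ => Finset.sum_congr rfl fun y _ => ?_
      rw [e2 y, Pi.add_apply, Pi.add_apply, e3 A, zero_add]
    rw [h2]
    exact eq_neg_of_add_eq_zero_left h1
  · have hr : ∀ᵐ z ∂(μHE[4] : Measure M), ∀ b, rhs S d t u b z = 0 := by
      filter_upwards [hu] with z hz b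
      exact rhs_zero H hτ hfit hfl hs hz b
    refine ⟨fun b => ?_, ?_, fun w hw hws => ?_⟩
    · have h1 : rhs S d t u b =ᵐ[(μHE[4] : Measure M)] fun _ => 0 := by
        filter_upwards [hr] with z hz
        exact hz b
      exact (memLp_congr_ae h1).2 MemLp.zero'
    · filter_upwards [hr] with z hz b
      simp [hz]
    · have h1 : ipp (rhs S d t u) w = 0 := by
        refine integral_eq_zero_of_ae ?_
        filter_upwards [hr] with z hz
        exact Finset.sum_eq_zero fun b _ => by rw [hz b, zero_mul]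
      have h2 : ipp a (S.H.swap.B w) = 0 := by
        refine integral_eq_zero_of_ae ?_
        filter_upwards [ha] with z hz
        exact Finset.sum_eq_zero fun b _ => by rw [hz b, zero_mul]
      rw [h1, h2]
  · intro w _ _ _
    refine integral_eq_zero_of_ae ?_
    filter_upwards [ha] with z hz
    exact Finset.sum_eq_zero fun b _ => by rw [hz b, zero_mul]

/-! ### the Jacobian data -/

variable {b : ℕ} {j : JD M κT b}

theorem vf_fm (S : SWS M κ0 κ1 κT) (j : JD M κT b) (h : Fin b → ℝ) (z : M) :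
    S.vf (j.fm h) z = (2 * Real.pi) • ∑ i, h i • S.vf (j.al i) z := by
  unfold SWS.vf JD.fm
  simp only [Finset.smul_sum, Finset.mul_sum, Finset.sum_smul, smul_smul]
  rw [Finset.sum_comm]

/-- `2 π ∑ h_i al_i` as a smooth section. -/
theorem fm_mem (hj : j.OK S) (h : Fin b → ℝ) : j.fm h ∈ SmS S.DT := by
  have h1 : j.fm h = (2 * Real.pi) • ∑ i, h i • j.al i := by
    funext A z
    simp [JD.fm, Finset.sum_apply]
  rw [h1]
  exact (SmS S.DT).smul_mem _ ((SmS S.DT).sum_mem fun i _ =>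
    (SmS S.DT).smul_mem _ ⟨hj.sm i, hj.sec i⟩)

theorem B_fm (hj : j.OK S) (h : Fin b → ℝ) (k : Fin 4) (z : M) : S.H.B (j.fm h) k z = 0 := by
  set al' : Fin b → SmS S.DT := fun i => ⟨j.al i, hj.sm i, hj.sec i⟩ with hal
  have h1 : (⟨j.fm h, fm_mem hj h⟩ : SmS S.DT) = (2 * Real.pi) • ∑ i, h i • al' i := by
    apply Subtype.ext
    funext A z
    simp [JD.fm, hal, Finset.sum_apply]
  have h2 : ∀ i, lA S.H.swap (al' i) = 0 := by
    intro i
    apply Subtype.ext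
    funext k z
    exact hj.harm i k z
  have h3 : lA S.H.swap (⟨j.fm h, fm_mem hj h⟩ : SmS S.DT) = 0 := by
    rw [h1, map_smul, map_sum]
    rw [Finset.sum_eq_zero (fun i _ => by rw [map_smul, h2, smul_zero]), smul_zero]
  have h4 := congrArg (fun w : SmS S.DL => w.1 k z) h3
  exact h4

theorem B_add (P : OpPair S.DL S.DT) {a c : κT → M → ℝ} (ha : SmV (n := 4) a)
    (has : S.DT.Sec a) (hc : SmV (n := 4) c) (hcs : S.DT.Sec c) (k : Fin 4) (z : M) :
    P.B (a + c) k z = P.B a k z + P.B c k z := by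
  have h1 := (lA P.swap).map_add (⟨a, ha, has⟩ : SmS S.DT) (⟨c, hc, hcs⟩ : SmS S.DT)
  have h4 := congrArg (fun w : SmS S.DL => w.1 k z) h1
  exact h4

/-- the circle valued maps of the Jacobian data. -/
theorem cm_g (hj : j.OK S) (i : Fin b) :
    Cm (S.vf (j.al i)) (fun z => (j.gc i z : ℂ) + (j.gs i z : ℂ) * Complex.I) := by
  have h1 : Cm (S.vf (j.al i)) (fun z => (⟨j.gc i z, j.gs i z⟩ : ℂ)) :=
    ⟨hj.smc i, hj.sms i, hj.unit i, hj.dgc i, hj.dgs i⟩
  exact h1.congr (fun _ => rfl) (fun z => (Complex.mk_eq_add_mul_I _ _).symm)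

theorem cm_gk (hj : j.OK S) (k : Fin b → ℤ) :
    Cm (fun z => ∑ i, (k i : ℝ) • S.vf (j.al i) z)
      (fun z => ∏ i, ((j.gc i z : ℂ) + (j.gs i z : ℂ) * Complex.I) ^ k i) :=
  Cm.prod Finset.univ (V := fun i z => (k i : ℝ) • S.vf (j.al i) z)
    (f := fun i z => ((j.gc i z : ℂ) + (j.gs i z : ℂ) * Complex.I) ^ k i)
    fun i _ => (cm_g hj i).zpow (k i)

theorem fit_tw {d : SWD M κT} {ww : Fin 3 → Fin 3 → M → ℝ} {τ : E3 → TD M κT} {C : ℝ}
    {th : E3 → κT → M → ℝ} (hj : j.OK S) (hfam : FFam S ww τ C th) (hd : d.FFit S ww τ C th)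
    {t : E3} (ht : ‖t‖ = 1) (h : Fin b → ℝ) :
    (τ t).Flat S ((d.tw j h).th t) ∧ (τ t).Fit S (d.tw j h) t := by
  have hth : (d.tw j h).th t = th t + j.fm h := by
    show d.th t + j.fm h = _
    rw [hd.th t ht]
  have hfm := fm_mem (S := S) hj h
  have hfl : (τ t).Flat S ((d.tw j h).th t) := by
    intro k z
    rw [hth, B_add S.H (hfam.smth t ht) (hfam.secth t ht) hfm.1 hfm.2, B_fm hj, add_zero]
    exact hfam.flat t ht k z
  refine ⟨hfl, ?_, ?_, ?_, ?_, ?_⟩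
  · exact hd.mu t ht
  · intro k z
    rw [hfam.nn t k z ht]
    show ∑ i, t i * d.ww i k z = _
    rw [hd.ww]
  · intro k z
    show d.et t k z = _
    rw [hd.et t ht, hfl k z, neg_zero]
  · rw [hth]
    exact fun A => (hfam.smth t ht A).add (hfm.1 A)
  · rw [hth]
    exact ((SmS S.DT).add_mem (show th t ∈ SmS S.DT from ⟨hfam.smth t ht, hfam.secth t ht⟩) hfm).2

end main

/-- **task 445**: flat Taubes and elliptic regularity ⇒ the solutions at `|t| = 1`. -/
theorem zer_of : UNI.{v} → REG.{v} → ZER.{v} := by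
  intro hUNI hREG M _ _ _ _ _ _ _ _ _ _ _ _ _ κ0 κ1 κT _ _ _ S cc b j d ww τ C th pi U H hj hh hd
    t h a u ht
  have hfam := hh.fam
  have hτ := hfam.tau t ht
  obtain ⟨hflat, hfit⟩ := fit_tw (S := S) (j := j) hj hfam hd ht h
  have hth : (d.tw j h).th t = th t + j.fm h := by
    show d.th t + j.fm h = _
    rw [hd.th t ht]
  have hr : √(2 * d.r) ^ 2 = 2 * d.r := Real.sq_sqrt (by have := hd.rpos; positivity)
  have hr0 : 0 < √(2 * d.r) := Real.sqrt_pos.2 (by have := hd.rpos; positivity)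
  have hPU : ∀ s0, ‖s0‖ = 1 → pi s0 = t → (τ t).PSec S (th t) (1 / 2) (U s0) := by
    intro s0 h1 h2
    have h3 := hh.psec s0 h1
    rwa [h2] at h3
  have hW : ∀ z, S.vf (j.fm h) z = (2 * Real.pi) • ∑ i, h i • S.vf (j.al i) z := vf_fm S j h
  constructor
  · intro hsol
    obtain ⟨ha, s, hs, hu⟩ := hUNI M κ0 κ1 κT S (d.tw j h) (τ t) C t hfam.ok hτ hfit hd.rpos
      (hd.rbig t ht) hflat (hREG M κ0 κ1 κT S cc hfam.ok H _ hfit.smth hfit.secth) a u hsol
    refine ⟨ha, ?_⟩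
    obtain ⟨s0, hs0, hpi⟩ := hh.spi t ht
    have hU := hPU s0 hs0 hpi
    rw [hth] at hs
    obtain ⟨f, hf, hsf⟩ := exists_act H hτ.norm hW hU hr hr0 hs
    -- integrality
    have hint : ∀ i, ∃ k : ℤ, h i = k := by
      have h1 := hf.inv
      refine hj.int h (fun z => ((f z)⁻¹).re) (fun z => ((f z)⁻¹).im) h1.smr h1.smi h1.nrm
        (fun z => ?_) (fun z => ?_)
      · rw [h1.dr, neg_neg]
      · rw [h1.di, neg_neg]
    choose k hk using hint
    have hG := cm_gk hj k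
    have hfG : Cm (fun _ : M => (0 : 𝔼4))
        (fun z => f z * ∏ i, ((j.gc i z : ℂ) + (j.gs i z : ℂ) * Complex.I) ^ k i) := by
      refine (hf.mul hG).congr (fun z => ?_) (fun _ => rfl)
      simp only [hk]
      rw [neg_add_cancel]
    obtain ⟨p0⟩ : Nonempty M := inferInstance
    set z0 : ℂ := f p0 * ∏ i, ((j.gc i p0 : ℂ) + (j.gs i p0 : ℂ) * Complex.I) ^ k i with hz0
    have hz1 : ‖z0‖ = 1 := hfG.norm_eq p0
    have hfz : ∀ z, f z =
        (∏ i, ((j.gc i z : ℂ) + (j.gs i z : ℂ) * Complex.I) ^ (- k i)) * z0 := by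
      intro z
      have h1 : f z * ∏ i, ((j.gc i z : ℂ) + (j.gs i z : ℂ) * Complex.I) ^ k i = z0 :=
        hfG.const z p0
      have h2 := hG.ne_zero z
      have h3 : (∏ i, ((j.gc i z : ℂ) + (j.gs i z : ℂ) * Complex.I) ^ (- k i)) =
          (∏ i, ((j.gc i z : ℂ) + (j.gs i z : ℂ) * Complex.I) ^ k i)⁻¹ := by
        rw [← Finset.prod_inv_distrib]
        exact Finset.prod_congr rfl fun i _ => zpow_neg _ _
      rw [h3, ← h1, mul_comm (f z), ← mul_assoc, inv_mul_cancel₀ h2, one_mul]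
    have hs' : ‖z0 • s0‖ = 1 := by rw [norm_smul, hz1, hs0, one_mul]
    refine ⟨k, z0 • s0, hs', ?_, hk, ?_⟩
    · rw [← hpi]
      exact ((hh.fpi s0 (z0 • s0) hs0 hs').2 ⟨z0, hz1, rfl⟩).symm
    · have hact : act S (fun _ => z0) (U s0) = U (z0 • s0) := by
        funext y z
        exact (hh.eqU s0 z0 hs0 hz1 y z).symm
      filter_upwards [hu] with z hz y
      have h1 : act S f (U s0) y z = j.gau S (fun i => - k i) (U (z0 • s0)) y z := by
        rw [gau_eq, ← hact, ← act_mul H _ _ hU.sec.1]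
        have h2 : f = fun z =>
          (∏ i, ((j.gc i z : ℂ) + (j.gs i z : ℂ) * Complex.I) ^ (- k i)) * z0 := funext hfz
        conv_lhs => rw [h2]
      rw [hz y]
      show (τ t).rr z ^ (3 / 4 : ℝ) * s y z = _
      rw [hsf y z, h1]
      ring
  · rintro ⟨ha, k, s0, hs0, hpi, hk, hu⟩
    have hU := hPU s0 hs0 hpi
    have hG := (cm_gk hj (fun i => - k i))
    have hG' : Cm (fun z => - ∑ i, h i • S.vf (j.al i) z)
        (fun z => ∏ i, ((j.gc i z : ℂ) + (j.gs i z : ℂ) * Complex.I) ^ (- k i)) := by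
      refine hG.congr (fun z => ?_) (fun _ => rfl)
      rw [← Finset.sum_neg_distrib]
      refine Finset.sum_congr rfl fun i _ => ?_
      rw [hk i]
      push_cast
      rw [neg_smul]
    have hP := psec_act H hW hU hG' hr
    rw [← hth] at hP
    refine sol_of_psec hfam.ok H hτ hfit hflat hP ha ?_
    filter_upwards [hu] with z hz y
    rw [hz y, gau_eq]
    unfold TD.sc
    ring

end

end Crest.Agent.R235.SWZer_463
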