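import Crest.Agent.R235.SWJa_365
import Crest.Agent.R235.SWJn_900
import Crest.Agent.R235.SWZer_463
import Crest.Agent.R235.SWReg_433

/-!
Row 235 (S0364), node SWJA (owner helper365): **`swja : ND → ZER → SWJA`**.
-/

set_option autoImplicit false
set_option maxSynthPendingDepth 3
set_option linter.unusedSectionVars false

open scoped ContDiff ENNReal NNReal Topology Manifold Bundle RealInnerProductSpace
open MeasureTheory Set Filter Metric Bundle

noncomputable section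

namespace Crest.Agent.R235.SWJf_365

open Crest.Agent.R249.Tv57 Crest.Agent.R247.Ms322 Crest.Agent.R247.Dir593
open Crest.Agent.R235.SWDefs_53 Crest.Agent.R235.CptB_755 Crest.Agent.R235.Fs4_546
open Crest.Agent.R235.CptC_755 Crest.Agent.R235.Cpt_755 Crest.Agent.R235.Fred_649
open Crest.Agent.R235.Swx_333 Crest.Agent.R235.SWSym_451 Crest.Agent.R235.SWJc_365
open Crest.Agent.R235.SwjAbs_844 Crest.Agent.R235.SWJq_365 Crest.Agent.R235.SWJz_365
open Crest.Agent.R235.SWJa_365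

/-- **SWJA**, from `ND` and `ZER`. -/
theorem swja (hND : ND.{0}) (hZ : ZER.{0}) : SWJA.{0} := by
  intro M _ _ _ _ _ _ _ _ _ _ _ _ _ κ0 κ1 κT _ _ _ S ec b j d ww τ C th pi U hc hg hj hH hF hfix
    d0 d1 bp hK0 hK1 hK hnum
  have hS : S.OK := hH.fam.ok
  have hd : d.Adm S := hF.adm
  obtain ⟨s0⟩ := spec_DL hS
  obtain ⟨sT⟩ := spec4 S.DT (exists_p_ne S.H s0)
  obtain ⟨HB⟩ := exists_HarB hS hK
  obtain ⟨J1, CJ⟩ := SWJ1_133.j1x M κ0 κ1 κT S ec hc
  obtain ⟨C0, hC00, hC0⟩ := SWJn_900.supJ hS hj hd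
  obtain ⟨B, hB0, hB⟩ := us_bdd hH hF.rpos
  have hm : 0 ≤ √(max C0 B) := Real.sqrt_nonneg _
  have hR : 0 < √(max C0 B) + 1 := by positivity
  have hR2 : max C0 B < (√(max C0 B) + 1) ^ 2 := by
    have h1 := Real.sq_sqrt (hC00.trans (le_max_left C0 B))
    nlinarith
  have hCR : C0 < (√(max C0 B) + 1) ^ 2 := (le_max_left _ _).trans_lt hR2
  have hsup : ∀ (h : Fin b → ℝ) (t : E3) (a : κT → M → ℝ) (u : κ0 → M → ℝ), ‖t‖ ≤ 1 →
      TSol S (d.tw j h) (√(max C0 B) + 1) t a u →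
      ∀ᵐ z ∂(μHE[4] : Measure M), ∑ y, u y z ^ 2 ≤ C0 := fun h t a u ht hT =>
    hC0 h _ hCR hR t a u ht hT
  obtain ⟨ρ, -, hρ⟩ := SWJn_900.bddJ hS hj hd s0 HB (SWJn_333.e4 _) (SWJn_333.e4 _) hR hsup
    fun h t x ht h1 h2 => (SWJn_333.zero_iff hS hj hd s0 HB hR h ht x).1 ⟨h1, h2⟩
  exact (jdata hND hZ hc hg hj hH hF hfix hK0 hK1 hnum hS hd s0 sT HB CJ hR hCR hsup ⟨ρ, hρ⟩
    fun s hs z => (hB s hs z).trans_lt ((le_max_right _ _).trans_lt hR2)).false

/-- **SWJA**, from the energy inequality and the nondegeneracy. -/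
theorem swja_of (hT : TAUX.{0}) (hND : ND.{0}) : SWJA.{0} :=
  swja hND (SWZer_463.zer_of (SWUni_312.uni_of hT) SWReg_433.reg)

end Crest.Agent.R235.SWJf_365

end
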