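import Crest.Agent.R235.SWNdE_918
import Crest.Agent.R235.SWJDefs_53

/-!
Row 235 (S0364), PACKAGE SW, ND (helper918): **nondegeneracy of the flat Taubes solutions**.
-/

set_option autoImplicit false
set_option maxSynthPendingDepth 3
set_option linter.unusedSectionVars false

open scoped ContDiff ENNReal NNReal Topology Manifold Bundle RealInnerProductSpace Matrix
open MeasureTheory Set Filter Metric Bundle

universe v

namespace Crest.Agent.R235.SWNd_918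

open Crest.Agent.R249.Tv57 Crest.Agent.R247.Ms322 Crest.Agent.R247.Dir593
open Crest.Agent.R247.Frd657
open Crest.Agent.R235.SWDefs_53 Crest.Agent.R235.SWSym_451 Crest.Agent.R235.SWTd_451
open Crest.Agent.R235.SWTe_451 Crest.Agent.R235.Fs4_546 Crest.Agent.R235.Cpt_755
open Crest.Agent.R235.L4_433 Crest.Agent.R235.Dens_433 Crest.Agent.R235.W12_109

noncomputable section

local notation "ipp" => Crest.Agent.R249.Tv57.ip 4
local notation "𝔼4" => EuclideanSpace ℝ (Fin 4)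

variable {M : Type v} [MetricSpace M] [CompactSpace M] [ConnectedSpace M]
  [ChartedSpace (EuclideanSpace ℝ (Fin 4)) M] [IsManifold (𝓡 4) ∞ M]
  [RiemannianBundle (fun p : M => TangentSpace (𝓡 4) p)]
  [IsContMDiffRiemannianBundle (𝓡 4) ∞ (EuclideanSpace ℝ (Fin 4))
    (fun p : M => TangentSpace (𝓡 4) p)]
  [IsRiemannianManifold (𝓡 4) M] [MeasurableSpace M] [BorelSpace M]
  [SecondCountableTopology M] [Nonempty M] [IsFiniteMeasureOnCompacts (μHE[4] : Measure M)]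
  {κ0 κ1 κT : Type} [Fintype κ0] [Fintype κ1] [Fintype κT]

variable {S : SWS M κ0 κ1 κT} {cc : κ1 → κ0 → M → EuclideanSpace ℝ (Fin 4)} {τ : TD M κT}
  {C r : ℝ} {th : κT → M → ℝ} {s0 : κ0 → M → ℝ}

namespace Hyp

theorem Sq_ae (h : Hyp S cc τ C r th s0) (q : ℝ) (W : S.D0.toAD.WE) :
    ∀ᵐ z ∂(μHE[4] : Measure M), ∀ y, (S.D0.toAD.i1 (h.Sq q W) y : M → ℝ) z =
      τ.rr z ^ q * (S.D0.toAD.i1 W y : M → ℝ) z := by
  filter_upwards [coe_mulS S.D0 S.D0 (h.sm_msc q) (h.p_msc q) W, Fred_649.sec_rp W] with z e1 e2 y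
  refine (e1 y).trans ?_
  have e3 := e2 y
  have e4 : ∑ b, τ.rr z ^ q * S.D0.p y b z * (S.D0.toAD.i1 W b : M → ℝ) z =
      τ.rr z ^ q * ∑ b, S.D0.p y b z * Fred_649.rp W b z := by
    rw [Finset.mul_sum]
    refine Finset.sum_congr rfl fun b _ => ?_
    show _ = τ.rr z ^ q * (S.D0.p y b z * (S.D0.toAD.i1 W b : M → ℝ) z)
    ring
  rw [e4, e3]
  rfl

theorem Sq_Sq (h : Hyp S cc τ C r th s0) (W : S.D0.toAD.WE) :
    h.Sq (3 / 4) (h.Sq (-(3 / 4)) W) = W := by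
  refine i1_injective S.D0.toAD ?_
  ext y
  filter_upwards [h.Sq_ae (3 / 4) (h.Sq (-(3 / 4)) W), h.Sq_ae (-(3 / 4)) W] with z e1 e2
  rw [e1 y, e2 y, ← mul_assoc, ← Real.rpow_add (h.tau.pos z)]
  norm_num

theorem A_add (h : Hyp S cc τ C r th s0) (W : S.D0.toAD.WE) : h.A0 W + h.A1 W = W := by
  refine i1_injective S.D0.toAD ?_
  have e0 : S.D0.toAD.i1 (h.A0 W + h.A1 W) = S.D0.toAD.i1 (h.A0 W) + S.D0.toAD.i1 (h.A1 W) :=
    map_add _ _ _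
  rw [e0]
  ext y
  filter_upwards [Lp.coeFn_add (S.D0.toAD.i1 (h.A0 W) y) (S.D0.toAD.i1 (h.A1 W) y),
    coe_mulS S.D0 S.D0 (pj0 h.sym h.tau).sm (pj0 h.sym h.tau).pP W,
    coe_mulS S.D0 S.D0 (pj1 h.sym h.tau).sm (pj1 h.sym h.tau).pP W, Fred_649.sec_rp W]
    with z e1 e2 e3 e4
  have e5 : ((S.D0.toAD.i1 (h.A0 W) + S.D0.toAD.i1 (h.A1 W)) y : M → ℝ) z =
      (S.D0.toAD.i1 (h.A0 W) y : M → ℝ) z + (S.D0.toAD.i1 (h.A1 W) y : M → ℝ) z := e1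
  have e2' : (S.D0.toAD.i1 (h.A0 W) y : M → ℝ) z = _ := e2 y
  have e3' : (S.D0.toAD.i1 (h.A1 W) y : M → ℝ) z = _ := e3 y
  rw [e5, e2', e3', ← Finset.sum_add_distrib]
  refine Eq.trans ?_ (e4 y)
  refine Finset.sum_congr rfl fun b _ => ?_
  rw [← add_mul, P0_add_P1]
  rfl

/-- `XL + YL` -/
theorem XY_eq (h : Hyp S cc τ C r th s0) (α : S.DT.toAD.WE) (W : S.D0.toAD.WE) :
    h.XL (α, h.Sq (-(3 / 4)) W) + h.YL (α, h.Sq (-(3 / 4)) W) =
      h.DL W + matR (κ' := κ1) h.bm_cS (S.DT.toAD.i1 α) := by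
  show h.DL (h.Sq (3 / 4) (h.A0 (h.Sq (-(3 / 4)) W))) + matR (κ' := κ1) h.bm_cS (S.DT.toAD.i1 α) +
    h.DL (h.Sq (3 / 4) (h.A1 (h.Sq (-(3 / 4)) W))) = _
  have e1 : h.DL W = h.DL (h.Sq (3 / 4) (h.A0 (h.Sq (-(3 / 4)) W))) +
      h.DL (h.Sq (3 / 4) (h.A1 (h.Sq (-(3 / 4)) W))) := by
    rw [← map_add, ← map_add, h.A_add, h.Sq_Sq]
  rw [e1]
  abel

/-- `D_th v`, representatives -/
theorem DL_ae (h : Hyp S cc τ C r th s0) (W : S.D0.toAD.WE) : ∀ᵐ z ∂(μHE[4] : Measure M), ∀ x,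
    (h.DL W x : M → ℝ) z =
      (((Ah S.P W : S.D1.toAD.HE) : HH (μHE[4] : Measure M) κ1) x : M → ℝ) z +
      ∑ y, (S.D0.toAD.i1 W y : M → ℝ) z * ∑ A, th A z * S.cl A x y z := by
  have h1 : ∀ᵐ z ∂(μHE[4] : Measure M), ∀ x, (h.DL W x : M → ℝ) z =
      (((Ah S.P W : S.D1.toAD.HE) : HH (μHE[4] : Measure M) κ1) x : M → ℝ) z +
      (matR (κ' := κ1) h.bm_cth (S.D0.toAD.i1 W) x : M → ℝ) z := by
    rw [ae_all_iff]
    intro x
    exact Lp.coeFn_add (((Ah S.P W : S.D1.toAD.HE) : HH (μHE[4] : Measure M) κ1) x)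
      (matR (κ' := κ1) h.bm_cth (S.D0.toAD.i1 W) x)
  filter_upwards [h1, coe_matR (κ' := κ1) h.bm_cth (S.D0.toAD.i1 W)] with z e1 e2 x
  rw [e1 x, e2 x]

/-- the Dirac equation -/
theorem hD (h : Hyp S cc τ C r th s0) {b : κT → M → ℝ} {v : κ0 → M → ℝ} {α : S.DT.toAD.WE}
    {W : S.D0.toAD.WE}
    (hα : ∀ᵐ z ∂(μHE[4] : Measure M), ∀ A, (S.DT.toAD.i1 α A : M → ℝ) z = b A z)
    (hW : ∀ y, Fred_649.rp W y =ᵐ[(μHE[4] : Measure M)] v y)
    (h2 : WkA S.P v (fun x z => - S.cm th v x z - S.cm b (τ.sc (3 / 4) s0) x z)) :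
    h.XL (α, h.Sq (-(3 / 4)) W) + h.YL (α, h.Sq (-(3 / 4)) W) = 0 := by
  rw [h.XY_eq]
  refine eq_zero_of_ae ?_
  have h1 : ∀ᵐ z ∂(μHE[4] : Measure M), ∀ x,
      ((h.DL W + matR (κ' := κ1) h.bm_cS (S.DT.toAD.i1 α)) x : M → ℝ) z =
      (h.DL W x : M → ℝ) z + (matR (κ' := κ1) h.bm_cS (S.DT.toAD.i1 α) x : M → ℝ) z := by
    rw [ae_all_iff]
    intro x
    exact Lp.coeFn_add (h.DL W x) (matR (κ' := κ1) h.bm_cS (S.DT.toAD.i1 α) x)
  have h3 : ∀ᵐ z ∂(μHE[4] : Measure M), ∀ x,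
      (((Ah S.P W : S.D1.toAD.HE) : HH (μHE[4] : Measure M) κ1) x : M → ℝ) z =
      - S.cm th v x z - S.cm b (τ.sc (3 / 4) s0) x z := by
    rw [ae_all_iff]
    exact (Fred_649.wkA_iff hW).1 h2
  have h4 : ∀ᵐ z ∂(μHE[4] : Measure M), ∀ y, (S.D0.toAD.i1 W y : M → ℝ) z = v y z := by
    rw [ae_all_iff]
    exact hW
  filter_upwards [h1, h3, h4, hα, h.DL_ae W, coe_matR (κ' := κ1) h.bm_cS (S.DT.toAD.i1 α)]
    with z e1 e3 e4 e5 e6 e7 x
  rw [e1 x, e6 x, e3 x, e7 x]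
  have g1 : ∑ y, (S.D0.toAD.i1 W y : M → ℝ) z * ∑ A, th A z * S.cl A x y z = S.cm th v x z := by
    unfold SWS.cm
    rw [Finset.sum_comm]
    refine Finset.sum_congr rfl fun y _ => ?_
    rw [e4 y, Finset.mul_sum]
    exact Finset.sum_congr rfl fun A _ => by ring
  have g2 : ∑ A, (S.DT.toAD.i1 α A : M → ℝ) z * ∑ y, τ.sc (3 / 4) s0 y z * S.cl A x y z =
      S.cm b (τ.sc (3 / 4) s0) x z := by
    unfold SWS.cm
    refine Finset.sum_congr rfl fun A _ => ?_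
    rw [e5 A, Finset.mul_sum]
    exact Finset.sum_congr rfl fun y _ => by ring
  rw [g1, g2]
  ring

theorem Ah_harm {η : SmS S.DT} (hB : ∀ k z, S.H.B η.1 k z = 0) :
    Ah S.H.swap (cW S.DT η) = 0 := by
  rw [Ah_cW (Fred_649.dns4 S.DT)]
  have e : lA S.H.swap η = 0 := Subtype.ext (funext fun k => funext fun z => hB k z)
  rw [e, map_zero]

/-- the curvature equation -/
theorem hC (h : Hyp S cc τ C r th s0) {a : κT → M → ℝ} {v : κ0 → M → ℝ} {mu : M → ℝ}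
    (hmu : ∀ z, mu z = τ.rr z ^ (-(1 / 2) : ℝ)) {Aw : S.DT.toAD.WE} {η : SmS S.DT}
    (hB : ∀ k z, S.H.B η.1 k z = 0) {W : S.D0.toAD.WE}
    (hA : ∀ A, Fred_649.rp Aw A =ᵐ[(μHE[4] : Measure M)] a A)
    (hW : ∀ y, Fred_649.rp W y =ᵐ[(μHE[4] : Measure M)] v y)
    (h1 : WkA S.H.swap a (Fin.cons (fun _ => 0) fun k z =>
      mu z * ∑ y, ∑ y', S.rho k y y' z * τ.sc (3 / 4) s0 y z * v y' z)) :
    ∀ᵐ z ∂(μHE[4] : Measure M), ∀ k : Fin 3,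
      (h.BL (Aw + cW S.DT η, h.Sq (-(3 / 4)) W) k.succ : M → ℝ) z =
      τ.rr z * ∑ y, ∑ y', S.rho k y y' z * s0 y z *
        (S.D0.toAD.i1 (h.Sq (-(3 / 4)) W) y' : M → ℝ) z := by
  have e0 : h.BL (Aw + cW S.DT η, h.Sq (-(3 / 4)) W) =
      ((Ah S.H.swap Aw : S.DL.toAD.HE) : HH (μHE[4] : Measure M) (Fin 4)) := by
    show ((Ah S.H.swap (Aw + cW S.DT η) : S.DL.toAD.HE) : HH (μHE[4] : Measure M) (Fin 4)) = _
    rw [map_add, Ah_harm hB, add_zero]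
  rw [e0]
  have h3 := (Fred_649.wkA_iff hA).1 h1
  have h3' : ∀ᵐ z ∂(μHE[4] : Measure M), ∀ k : Fin 3,
      (((Ah S.H.swap Aw : S.DL.toAD.HE) : HH (μHE[4] : Measure M) (Fin 4)) k.succ : M → ℝ) z =
      mu z * ∑ y, ∑ y', S.rho k y y' z * τ.sc (3 / 4) s0 y z * v y' z := by
    rw [ae_all_iff]
    intro k
    exact h3 k.succ
  have h4 : ∀ᵐ z ∂(μHE[4] : Measure M), ∀ y, (S.D0.toAD.i1 W y : M → ℝ) z = v y z := by
    rw [ae_all_iff]
    exact hW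
  filter_upwards [h3', h4, h.Sq_ae (-(3 / 4)) W] with z e1 e2 e3 k
  rw [e1 k, hmu z, Finset.mul_sum, Finset.mul_sum]
  refine Finset.sum_congr rfl fun y _ => ?_
  rw [Finset.mul_sum, Finset.mul_sum]
  refine Finset.sum_congr rfl fun y' _ => ?_
  rw [e3 y', e2 y', TD.sc]
  have p := h.tau.pos z
  have g1 : τ.rr z ^ (-(1 / 2) : ℝ) * τ.rr z ^ (3 / 4 : ℝ) =
      τ.rr z * τ.rr z ^ (-(3 / 4) : ℝ) := by
    nth_rewrite 3 [← Real.rpow_one (τ.rr z)]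
    rw [← Real.rpow_add p, ← Real.rpow_add p]
    norm_num
  calc τ.rr z ^ (-(1 / 2) : ℝ) * (S.rho k y y' z * (τ.rr z ^ (3 / 4 : ℝ) * s0 y z) * v y' z)
      = (τ.rr z ^ (-(1 / 2) : ℝ) * τ.rr z ^ (3 / 4 : ℝ)) * (S.rho k y y' z * s0 y z * v y' z) := by
        ring
    _ = _ := by rw [g1]; ring

/-- `a + η` is orthogonal to the gradients -/
theorem coEx (h : Hyp S cc τ C r th s0) {a : κT → M → ℝ} {Aw : S.DT.toAD.WE} {η : SmS S.DT}
    (hB : ∀ k z, S.H.B η.1 k z = 0)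
    (hA : ∀ A, Fred_649.rp Aw A =ᵐ[(μHE[4] : Measure M)] a A) {G : Fin 3 → M → ℝ}
    (h1 : WkA S.H.swap a (Fin.cons (fun _ => 0) G)) : h.CoEx (Aw + cW S.DT η) := by
  intro f hf
  rw [map_add, inner_add_left]
  have e1 : (⟪S.DT.toAD.jj (cW S.DT η), cH S.DT (lA S.H (fn0 h.ok hf))⟫ : ℝ) = 0 := by
    rw [jj_cW, real_inner_comm, inner_cH]
    have e2 := S.H.adj (fn0 h.ok hf).1 η.1 (fn0 h.ok hf).2.1 (fn0 h.ok hf).2.2 η.2.1 η.2.2
    refine e2.trans ?_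
    unfold Crest.Agent.R249.Tv57.ip
    simp only [hB, mul_zero, Finset.sum_const_zero, integral_zero]
  have e3 : (⟪S.DT.toAD.jj Aw, cH S.DT (lA S.H (fn0 h.ok hf))⟫ : ℝ) = 0 := by
    rw [← Fred_649.ip_rp Aw (lA S.H (fn0 h.ok hf))]
    have e4 := h1.2.2 (fn0 h.ok hf).1 (fn0 h.ok hf).2.1 (fn0 h.ok hf).2.2
    have e5 : ipp (Fred_649.rp Aw) (lA S.H (fn0 h.ok hf)).1 =
        ipp a (S.H.swap.B (fn0 h.ok hf).1) := by
      unfold Crest.Agent.R249.Tv57.ip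
      refine integral_congr_ae ?_
      have h4 : ∀ᵐ z ∂(μHE[4] : Measure M), ∀ A, Fred_649.rp Aw A z = a A z := by
        rw [ae_all_iff]
        exact hA
      filter_upwards [h4] with z g1
      refine Finset.sum_congr rfl fun A _ => ?_
      rw [g1 A]
      rfl
    rw [e5, ← e4]
    unfold Crest.Agent.R249.Tv57.ip
    refine (integral_congr_ae (Eventually.of_forall fun z => ?_)).trans (integral_zero M ℝ)
    simp only [fn0]
    rw [Fin.sum_univ_succ]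
    simp only [Fin.cons_zero, Fin.cons_succ, zero_mul, mul_zero, Finset.sum_const_zero, add_zero]
  rw [e1, e3, add_zero]

theorem U0_fix (h : Hyp S cc τ C r th s0) (v : VV S) : ∀ᵐ z ∂(μHE[4] : Measure M),
    mP S (fun k z => - τ.n k z) z *ᵥ (fun y => (h.U0 v y : M → ℝ) z) =
      fun y => (h.U0 v y : M → ℝ) z := by
  filter_upwards [h.U0_ae v] with z e1
  funext y
  rw [← P0_vec]
  simp only [e1]
  exact pj_idem (pj0 h.sym h.tau) (fun b _ => (S.D0.toAD.i1 v.2 b : M → ℝ) z) y z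

theorem s0_fix (h : Hyp S cc τ C r th s0) (z : M) :
    mP S (fun k z => - τ.n k z) z *ᵥ (fun y => s0 y z) = fun y => s0 y z := by
  funext y
  rw [← P0_vec]
  exact (secE_iff h.sym h.tau).1 h.par.sec y z

/-- **nondegeneracy** -/
theorem fin (h : Hyp S cc τ C r th s0) {a η : κT → M → ℝ} {v : κ0 → M → ℝ} {mu : M → ℝ}
    (hmu : ∀ z, mu z = τ.rr z ^ (-(1 / 2) : ℝ)) (ha : InW S.DT a) (hN : NoHarm S a)
    (sη : SmV (n := 4) η) (hη : S.DT.Sec η) (hB : ∀ k z, S.H.B η k z = 0) (hv : InW S.D0 v)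
    (h1 : WkA S.H.swap a (Fin.cons (fun _ => 0) fun k z =>
      mu z * ∑ y, ∑ y', S.rho k y y' z * τ.sc (3 / 4) s0 y z * v y' z))
    (h2 : WkA S.P v (fun x z => - S.cm th v x z - S.cm (a + η) (τ.sc (3 / 4) s0) x z)) :
    (∀ᵐ z ∂(μHE[4] : Measure M), ∀ A, a A z = 0) ∧ η = 0 ∧
      ∃ c : ℝ, ∀ᵐ z ∂(μHE[4] : Measure M), ∀ y, v y z = c * S.iu (τ.sc (3 / 4) s0) y z := by
  obtain ⟨Aw, hA⟩ := ha
  obtain ⟨W, hW⟩ := hv
  set ηS : SmS S.DT := ⟨η, sη, hη⟩ with hηS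
  set α : S.DT.toAD.WE := Aw + cW S.DT ηS with hα
  set U : S.D0.toAD.WE := h.Sq (-(3 / 4)) W with hU
  have hA' : ∀ᵐ z ∂(μHE[4] : Measure M), ∀ A, (S.DT.toAD.i1 Aw A : M → ℝ) z = a A z := by
    rw [ae_all_iff]
    exact hA
  have hW' : ∀ᵐ z ∂(μHE[4] : Measure M), ∀ y, (S.D0.toAD.i1 W y : M → ℝ) z = v y z := by
    rw [ae_all_iff]
    exact hW
  have rα : ∀ᵐ z ∂(μHE[4] : Measure M), ∀ A, (S.DT.toAD.i1 α A : M → ℝ) z = (a + η) A z := by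
    have g1 : ∀ᵐ z ∂(μHE[4] : Measure M), ∀ A, (S.DT.toAD.i1 α A : M → ℝ) z =
        (S.DT.toAD.i1 Aw A : M → ℝ) z + (clH ηS.1 ηS.2.1 A : M → ℝ) z := by
      rw [ae_all_iff]
      intro A
      exact Lp.coeFn_add (S.DT.toAD.i1 Aw A) (clH ηS.1 ηS.2.1 A)
    filter_upwards [g1, hA', coe_clH ηS.1 ηS.2.1] with z e1 e2 e3 A
    rw [e1 A, e2 A, e3 A]
    rfl
  obtain ⟨hNL, hs0, hU1⟩ := h.step4 (α, U) (h.hD rα hW h2) (h.hC (η := ηS) hmu hB hA hW h1)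
  obtain ⟨hAS, hα0⟩ := h.alpha_zero (v := (α, U)) (h.coEx (η := ηS) hB hA h1) hNL
  have hGY : h.GY (α, U) = 0 := by
    show matR (κ' := Fin 4) h.bm_cJS (h.NL (α, U)) - (2 * r) • h.AS α = 0
    have hAS' : h.AS α = 0 := hAS
    rw [hNL, hAS', map_zero, smul_zero, sub_zero]
  obtain ⟨c, hc⟩ := h.y_const hGY
  have hsum : ∀ᵐ z ∂(μHE[4] : Measure M), ∀ A, a A z + η A z = 0 := by
    have g1 : ∀ᵐ z ∂(μHE[4] : Measure M), ∀ A, (S.DT.toAD.i1 α A : M → ℝ) z = 0 := by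
      have hα0' : α = 0 := hα0
      rw [hα0', ae_all_iff]
      intro A
      exact Lp.coeFn_zero _ _ _
    filter_upwards [g1, rα] with z e1 e2 A
    rw [← e1 A, e2 A]
    rfl
  have hη0 : η = 0 := by
    have g1 := hN η sη hη hB
    have g2 : ipp η η = 0 := by
      have g3 : ipp a η = - ipp η η := by
        unfold Crest.Agent.R249.Tv57.ip
        rw [← integral_neg]
        refine integral_congr_ae ?_
        filter_upwards [hsum] with z e1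
        rw [← Finset.sum_neg_distrib]
        refine Finset.sum_congr rfl fun A _ => ?_
        rw [eq_neg_of_add_eq_zero_left (e1 A)]
        ring
      linarith
    funext A z
    exact eq_zero_of_ip sη g2 A z
  refine ⟨?_, hη0, c / (2 * r), ?_⟩
  · filter_upwards [hsum] with z e1 A
    have e2 := e1 A
    rw [hη0] at e2
    simpa using e2
  · filter_upwards [hc, hs0, hU1, h.U0_fix (α, U), h.U0_ae (α, U), h.U1_ae (α, U), hW',
      h.Sq_ae (-(3 / 4)) W, sec_ae U] with z e1 e2 e3 e4 e5 e6 e7 e8 e9 y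
    have p := h.tau.pos z
    have hr := h.rpos
    have k1 := eq_of_E h.sym h.tau z h.rpos (h.s0_fix z) e4 (h.nrm_s0 z) e2
    have k2 : (fun y => (h.U0 (α, U) y : M → ℝ) z) ⬝ᵥ (mJ S z *ᵥ fun y => s0 y z) = c := e1
    rw [k2] at k1
    have k3 : (h.U0 (α, U) y : M → ℝ) z = (1 / (2 * r)) * c * S.iu s0 y z := congrFun k1 y
    have k4 : (S.D0.toAD.i1 U y : M → ℝ) z = (h.U0 (α, U) y : M → ℝ) z := by
      have k5 : (S.D0.toAD.i1 U y : M → ℝ) z = ∑ b, S.D0.p y b z * (S.D0.toAD.i1 U b : M → ℝ) z :=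
        (congrFun e9 y).symm
      have k6 := e6 y
      rw [e3 y] at k6
      rw [k5, e5 y, ← add_zero (∑ b, P0 S τ y b z * _), k6, ← Finset.sum_add_distrib]
      refine Finset.sum_congr rfl fun b _ => ?_
      rw [← add_mul, P0_add_P1]
    have k7 : v y z = τ.rr z ^ (3 / 4 : ℝ) * (S.D0.toAD.i1 U y : M → ℝ) z := by
      rw [e8 y, e7 y, ← mul_assoc, ← Real.rpow_add p]
      norm_num
    have k8 : S.iu (τ.sc (3 / 4) s0) y z = τ.rr z ^ (3 / 4 : ℝ) * S.iu s0 y z := by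
      unfold SWS.iu TD.sc
      rw [Finset.mul_sum]
      exact Finset.sum_congr rfl fun b _ => by ring
    rw [k7, k4, k3, k8]
    ring

end Hyp

/-- **ND** : nondegeneracy of the flat Taubes solutions. -/
theorem nd : ND.{v} := by
  intro M _ _ _ _ _ _ _ _ _ _ _ _ _ κ0 κ1 κT _ _ _ S cc d τ C t s hOK hsym hgrd htau hfit hr hbig
    hflat hpar a η v ha hN sη hη hB hv h1 h2
  have h : Hyp S cc τ C d.r (d.th t) s :=
    ⟨hOK, hsym, hgrd, htau, hfit.smth, hfit.secth, hr, hbig, hflat, hpar⟩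
  exact h.fin hfit.mu ha hN sη hη hB hv h1 h2

end

end Crest.Agent.R235.SWNd_918
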