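import Crest.Agent.R235.Swx3_333

/-!
Row 235 (S0364), PACKAGE SW, leaf SWX (helper333), part 4: the norm bound of the zeros, and the
existence of the eigenbases.

* `zero_bound` : zeros with `|ψ|² ≤ C0` are bounded in `W^{1,2}`;
* `exists_p_ne` : if `D0` has a `Spec` and `P : OpPair D0 D1`, then `D1` is not zero;
* `specs` : all four `Spec`s.
-/

set_option autoImplicit false
set_option maxSynthPendingDepth 3
set_option linter.unusedSectionVars false

open scoped ContDiff ENNReal NNReal Topology Manifold Bundle RealInnerProductSpace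
open MeasureTheory Set Filter Metric Bundle

universe v

noncomputable section

namespace Crest.Agent.R235.Swx_333

open Crest.Agent.R249.Tv57 Crest.Agent.R247.Ms322 Crest.Agent.R247.Dir593
open Crest.Agent.R235.SWDefs_53 Crest.Agent.R235.CptB_755 Crest.Agent.R235.Fs4_546
open Crest.Agent.R235.CptC_755 Crest.Agent.R235.Cpt_755 Crest.Agent.R235.Fred_649

local notation "ipp" => Crest.Agent.R249.Tv57.ip 4

section main

variable {M : Type v} [MetricSpace M] [CompactSpace M] [ConnectedSpace M]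
  [ChartedSpace (EuclideanSpace ℝ (Fin 4)) M] [IsManifold (𝓡 4) ∞ M]
  [RiemannianBundle (fun p : M => TangentSpace (𝓡 4) p)]
  [IsContMDiffRiemannianBundle (𝓡 4) ∞ (EuclideanSpace ℝ (Fin 4))
    (fun p : M => TangentSpace (𝓡 4) p)]
  [IsRiemannianManifold (𝓡 4) M] [MeasurableSpace M] [BorelSpace M]
  [SecondCountableTopology M] [Nonempty M] [IsFiniteMeasureOnCompacts (μHE[4] : Measure M)]
  {κ0 κ1 κT : Type} [Fintype κ0] [Fintype κ1] [Fintype κT]

/-- the volume. -/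
def vol (M : Type v) [MetricSpace M] [MeasurableSpace M] [BorelSpace M] : ℝ :=
  ((μHE[4] : Measure M) univ).toReal

theorem norm_sq_HH {κ : Type} [Fintype κ] (f : HH (μHE[4] : Measure M) κ) :
    ‖f‖ ^ 2 = ∫ z, ∑ a, (f a : M → ℝ) z ^ 2 ∂(μHE[4] : Measure M) := by
  rw [← real_inner_self_eq_norm_sq]
  rw [inner_HH f f (f := fun a => (f a : M → ℝ)) (g := fun a => (f a : M → ℝ))
    (Eventually.of_forall fun _ _ => rfl) (Eventually.of_forall fun _ _ => rfl)]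
  refine integral_congr_ae (Eventually.of_forall fun z => ?_)
  exact Finset.sum_congr rfl fun a _ => (sq _).symm

theorem int_sq {κ : Type} [Fintype κ] (f : HH (μHE[4] : Measure M) κ) :
    Integrable (fun z => ∑ a, (f a : M → ℝ) z ^ 2) (μHE[4] : Measure M) :=
  integrable_finsetSum _ fun a _ => (Lp.memLp (f a)).integrable_sq

/-- bound of the norm by a sup bound. -/
theorem norm_sq_le {κ : Type} [Fintype κ] (f : HH (μHE[4] : Measure M) κ) {B : ℝ}
    (h : ∀ᵐ z ∂(μHE[4] : Measure M), ∑ a, (f a : M → ℝ) z ^ 2 ≤ B) :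
    ‖f‖ ^ 2 ≤ B * vol M := by
  have := finM (M := M)
  rw [norm_sq_HH]
  calc ∫ z, ∑ a, (f a : M → ℝ) z ^ 2 ∂(μHE[4] : Measure M)
      ≤ ∫ _z : M, B ∂(μHE[4] : Measure M) :=
        integral_mono_ae (int_sq f) (integrable_const _) h
    _ = B * vol M := by
        rw [integral_const, smul_eq_mul, mul_comm]
        rfl

theorem th_bdd {S : SWS M κ0 κ1 κT} {d : SWD M κT} (hd : d.Adm S) :
    ∃ C : ℝ, 0 ≤ C ∧ ∀ t ∈ BB, ∀ z, ∑ A, d.th t A z ^ 2 ≤ C := by
  choose C hC0 hC using fun A => unif_bdd (hd.cth A)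
  refine ⟨∑ A, C A ^ 2, Finset.sum_nonneg fun A _ => sq_nonneg _, fun t ht z => ?_⟩
  refine Finset.sum_le_sum fun A _ => ?_
  rw [← sq_abs]
  exact pow_le_pow_left₀ (abs_nonneg _) (hC A t ht z) 2

set_option maxHeartbeats 1600000 in
/-- **the norm bound of the zeros**. -/
theorem zero_bound {S : SWS M κ0 κ1 κT} {d : SWD M κT} (hS : S.OK) (hd : d.Adm S)
    (s0 : Spec S.DL) (h4 : Emb4 S.D0.toAD.i1) (hT4 : Emb4 S.DT.toAD.i1) {R : ℝ}
    (hR : 0 < R) (C0 : ℝ) : ∃ r : ℝ, 0 < r ∧ ∀ t ∈ BB, ∀ p : S.D0.toAD.WE,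
      Ah S.P p + PL S.D1 (KKt hS hd s0 R t p) = 0 →
      (∀ᵐ z ∂(μHE[4] : Measure M), ∑ y, rp p y z ^ 2 ≤ C0) → ‖p‖ < r := by
  have := finM (M := M)
  obtain ⟨B, hB0, hB⟩ := (nemOK hS hd hR (μHE[4] : Measure M)).bd
  obtain ⟨Θ, hΘ0, hΘ⟩ := th_bdd hd
  obtain ⟨C, hC, hG⟩ := garding (P := S.P) (dns4 S.D0)
  have hv : 0 ≤ vol M := ENNReal.toReal_nonneg
  set C1 := max C0 0 with hC1
  have hC10 : 0 ≤ C1 := le_max_right _ _
  set N := ‖S.DT.toAD.i1‖ * ‖(GG1 S s0)‖ with hN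
  have hN0 : 0 ≤ N := by positivity
  set Q := C * (C1 * (2 * (N ^ 2 * ((4 * B ^ 2) * vol M)) + 2 * (Θ * vol M)) + C1 * vol M) with hQ
  refine ⟨√Q + 1, by positivity, fun t ht p hz hb => ?_⟩
  have hb1 : ∀ᵐ z ∂(μHE[4] : Measure M), ∑ y, rp p y z ^ 2 ≤ C1 := by
    filter_upwards [hb] with z hz
    exact hz.trans (le_max_left _ _)
  -- the `L²` norm
  have h1 : ‖S.D0.toAD.jj p‖ ^ 2 ≤ C1 * vol M := norm_sq_le (S.D0.toAD.i1 p) hb1
  -- the right hand side
  have h2 : ‖Fq d R t p‖ ^ 2 ≤ (4 * B ^ 2) * vol M := by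
    refine norm_sq_le _ ?_
    filter_upwards [coe_nem (nemOK hS hd hR (μHE[4] : Measure M)) ht (S.D0.toAD.i1 p)] with z e1
    have e2 : ∀ l, (Fq d R t p l : M → ℝ) z ^ 2 ≤ B ^ 2 := by
      intro l
      have e3 : (Fq d R t p l : M → ℝ) z =
        Qf S d R t z (fun a => (S.D0.toAD.i1 p a : M → ℝ) z) l := e1 l
      rw [e3, ← sq_abs]
      exact pow_le_pow_left₀ (abs_nonneg _) (hB t ht z _ l) 2
    refine (Finset.sum_le_sum fun l _ => e2 l).trans (le_of_eq ?_)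
    rw [Finset.sum_const, Finset.card_univ, Fintype.card_fin, nsmul_eq_mul]
    norm_num
  set a := GG1 S s0 (Fq d R t p) with ha
  have h3 : ‖S.DT.toAD.i1 a‖ ^ 2 ≤ N ^ 2 * ((4 * B ^ 2) * vol M) := by
    have e1 : ‖S.DT.toAD.i1 a‖ ≤ N * ‖Fq d R t p‖ := by
      refine (S.DT.toAD.i1.le_opNorm a).trans ?_
      rw [hN, mul_assoc]
      exact mul_le_mul_of_nonneg_left ((GG1 S s0).le_opNorm _) (norm_nonneg _)
    calc ‖S.DT.toAD.i1 a‖ ^ 2 ≤ (N * ‖Fq d R t p‖) ^ 2 :=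
          pow_le_pow_left₀ (norm_nonneg _) e1 2
      _ = N ^ 2 * ‖Fq d R t p‖ ^ 2 := mul_pow _ _ _
      _ ≤ _ := mul_le_mul_of_nonneg_left h2 (sq_nonneg _)
  -- the Dirac term
  have h5 : ‖Ah S.P p‖ ^ 2 ≤ C1 * (2 * (N ^ 2 * ((4 * B ^ 2) * vol M)) + 2 * (Θ * vol M)) := by
    have e0 : Ah S.P p = -PL S.D1 (KKt hS hd s0 R t p) := eq_neg_of_add_eq_zero_left hz
    have e1 : ‖Ah S.P p‖ = ‖KKt hS hd s0 R t p‖ := by
      rw [e0, norm_neg]
      have : ‖PL S.D1 (KKt hS hd s0 R t p)‖ = ‖S.D1.toAD.P (KKt hS hd s0 R t p)‖ := rfl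
      rw [this, P_KKt hS hd s0 h4 hT4]
    rw [e1, norm_sq_HH]
    have e2 : ∀ᵐ z ∂(μHE[4] : Measure M), ∑ x, (KKt hS hd s0 R t p x : M → ℝ) z ^ 2 ≤
        C1 * (2 * (∑ A, (S.DT.toAD.i1 a A : M → ℝ) z ^ 2) + 2 * Θ) := by
      filter_upwards [coe_KKt hS hd s0 h4 hT4 R t p, hb1] with z f1 f2
      simp only [f1]
      have g1 : ∑ x, S.cm (rp (GG1 S s0 (Fq d R t p)) + d.th t) (rp p) x z ^ 2 ≤
          (∑ A, ((rp (GG1 S s0 (Fq d R t p)) + d.th t) A z) ^ 2) * ∑ y, rp p y z ^ 2 :=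
        hS.clbd z (fun A => (rp (GG1 S s0 (Fq d R t p)) + d.th t) A z) (fun y => rp p y z)
      have g2 : ∑ A, ((rp (GG1 S s0 (Fq d R t p)) + d.th t) A z) ^ 2 ≤
          2 * (∑ A, (S.DT.toAD.i1 a A : M → ℝ) z ^ 2) + 2 * Θ := by
        have g3 : ∀ A, ((rp (GG1 S s0 (Fq d R t p)) + d.th t) A z) ^ 2 ≤
            2 * (S.DT.toAD.i1 a A : M → ℝ) z ^ 2 + 2 * d.th t A z ^ 2 := by
          intro A
          have g4 : (rp (GG1 S s0 (Fq d R t p)) + d.th t) A z =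
              (S.DT.toAD.i1 a A : M → ℝ) z + d.th t A z := rfl
          rw [g4]
          nlinarith [sq_nonneg ((S.DT.toAD.i1 a A : M → ℝ) z - d.th t A z)]
        refine (Finset.sum_le_sum fun A _ => g3 A).trans ?_
        rw [Finset.sum_add_distrib, ← Finset.mul_sum, ← Finset.mul_sum]
        have := hΘ t ht z
        linarith
      have g5 : 0 ≤ ∑ A, ((rp (GG1 S s0 (Fq d R t p)) + d.th t) A z) ^ 2 :=
        Finset.sum_nonneg fun A _ => sq_nonneg _
      calc _ ≤ _ := g1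
        _ ≤ (∑ A, ((rp (GG1 S s0 (Fq d R t p)) + d.th t) A z) ^ 2) * C1 :=
            mul_le_mul_of_nonneg_left f2 g5
        _ ≤ (2 * (∑ A, (S.DT.toAD.i1 a A : M → ℝ) z ^ 2) + 2 * Θ) * C1 :=
            mul_le_mul_of_nonneg_right g2 hC10
        _ = _ := mul_comm _ _
    have e3 : Integrable (fun z => C1 * (2 * (∑ A, (S.DT.toAD.i1 a A : M → ℝ) z ^ 2) + 2 * Θ))
        (μHE[4] : Measure M) :=
      (((int_sq (S.DT.toAD.i1 a)).const_mul 2).add (integrable_const _)).const_mul C1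
    refine (integral_mono_ae (int_sq (KKt hS hd s0 R t p)) e3 e2).trans ?_
    rw [integral_const_mul, integral_add ((int_sq (S.DT.toAD.i1 a)).const_mul 2)
      (integrable_const _), integral_const_mul, ← norm_sq_HH, integral_const, smul_eq_mul]
    refine mul_le_mul_of_nonneg_left (add_le_add ?_ (le_of_eq ?_)) hC10
    · exact mul_le_mul_of_nonneg_left h3 (by norm_num)
    · have : (μHE[4] : Measure M).real univ = vol M := rfl
      rw [this]; ring
  have h6 : ‖p‖ ^ 2 ≤ Q := by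
    refine (hG p).trans ?_
    rw [hQ]
    exact mul_le_mul_of_nonneg_left (add_le_add h5 h1) hC.le
  have h7 : ‖p‖ ≤ √Q := Real.le_sqrt_of_sq_le h6
  linarith

/-! ### the eigenbases -/

/-- a nonzero projection has a nonzero diagonal entry. -/
theorem sec_zero {κ : Type} [Fintype κ] (D : Dat 4 M κ) (h : ∀ a z, D.p a a z = 0)
    {u : κ → M → ℝ} (hu : D.Sec u) : u = 0 := by
  have h1 : ∀ a b z, D.p a b z = 0 := by
    intro a b z
    have h2 := D.idem a a z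
    rw [h a z] at h2
    have h3 : ∑ c, D.p a c z ^ 2 = 0 := by
      rw [← h2]
      exact Finset.sum_congr rfl fun c _ => by rw [sq, D.symmp c a z]
    have h4 := (Finset.sum_eq_zero_iff_of_nonneg fun c _ => sq_nonneg (D.p a c z)).1 h3 b
      (Finset.mem_univ b)
    exact pow_eq_zero_iff two_ne_zero |>.1 h4
  funext a z
  rw [← hu a z]
  simp only [h1, zero_mul, Finset.sum_const_zero]
  rfl

theorem exists_p_ne {κ κ' : Type} [Fintype κ] [Fintype κ'] {D0 : Dat 4 M κ} {D1 : Dat 4 M κ'}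
    (P : OpPair D0 D1) (S0 : Spec D0) : ∃ a z, D1.p a a z ≠ 0 := by
  by_contra hcon
  push Not at hcon
  have h1 : ∀ k, S0.μ k = 0 := by
    intro k
    have h2 : Green_649.al P (Green_649.ef S0 k) = 0 :=
      Green_649.ext_ss (sec_zero D1 hcon (Green_649.sse (Green_649.al P (Green_649.ef S0 k))))
    have h3 := Green_649.inner_al P S0 k (Green_649.ef S0 k)
    rw [Green_649.inner_ef, if_pos rfl, mul_one, h2, map_zero, inner_zero_left] at h3
    exact h3.symm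
  obtain ⟨k, hk⟩ := (S0.lim.eventually_ge_atTop 1).exists
  rw [h1 k] at hk
  linarith

theorem exists_p_ne_of_ker {κ κ' : Type} [Fintype κ] [Fintype κ'] {D0 : Dat 4 M κ}
    {A : (κ → M → ℝ) → κ' → M → ℝ} {N : ℕ} (K : KerD D0 A N) (hN : 0 < N) :
    ∃ a z, D0.p a a z ≠ 0 := by
  by_contra hcon
  push Not at hcon
  exact K.li.ne_zero ⟨0, hN⟩ (sec_zero D0 hcon (K.sec ⟨0, hN⟩))

/-- the Friedrichs property. -/
theorem fried4 : AD.Fried (gradS 4 M) := by
  obtain ⟨k, hk, hRic⟩ := Crest.Agent.R249.Grn324.exists_ricciLowerBound 4 M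
  exact fried_M (by norm_num) hk hRic

theorem spec4 {κ : Type} [Fintype κ] (D : Dat 4 M κ) (h : ∃ a z, D.p a a z ≠ 0) :
    Nonempty (Spec D) := by
  obtain ⟨k, hk, hRic⟩ := Crest.Agent.R249.Grn324.exists_ricciLowerBound 4 M
  obtain ⟨a, z, hz⟩ := h
  exact exists_spec (by norm_num) hk hRic D hz

theorem spec_DL {S : SWS M κ0 κ1 κT} (hS : S.OK) : Nonempty (Spec S.DL) := by
  obtain ⟨z⟩ := ‹Nonempty M›
  exact spec4 S.DL ⟨0, z, by rw [hS.fullL, if_pos rfl]; norm_num⟩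

end main

end Crest.Agent.R235.Swx_333

end
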