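import Crest.Agent.R235.SWJDefs_53
import Crest.Agent.R235.Fred_649
import Crest.Agent.R235.Swx4_333

/-!
Row 235 (S0364), PACKAGE SW, task 442 (helper312): **UNI**, flat Taubes.

`uni_of : TAUX → UNI`.
-/

set_option autoImplicit false
set_option maxSynthPendingDepth 3
set_option linter.unusedSectionVars false

open scoped ContDiff ENNReal NNReal Topology Manifold Bundle RealInnerProductSpace
open MeasureTheory Set Filter Metric Bundle

universe v

namespace Crest.Agent.R235.SWUni_312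

open Crest.Agent.R249.Tv57 Crest.Agent.R247.Ms322 Crest.Agent.R247.Dir593
open Crest.Agent.R247.Frd657
open Crest.Agent.R235.SWDefs_53 Crest.Agent.R235.Fred_649 Crest.Agent.R235.Fs4_546

noncomputable section

local notation "ipp" => Crest.Agent.R249.Tv57.ip 4

section alg

/-- the algebra of Taubes' equality. -/
theorem eq_neg_of_sums {q n : Fin 3 → ℝ} {c : ℝ} (h1 : ∑ k, n k * q k = - c)
    (h2 : ∑ k, q k ^ 2 = c ^ 2) (h3 : ∑ k, n k ^ 2 = 1) (k : Fin 3) : q k = - (c * n k) := by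
  have h : ∑ k, (q k + c * n k) ^ 2 = 0 := by
    have e : ∀ k, (q k + c * n k) ^ 2 = q k ^ 2 + 2 * c * (n k * q k) + c ^ 2 * n k ^ 2 :=
      fun k => by ring
    simp only [e]
    rw [Finset.sum_add_distrib, Finset.sum_add_distrib, ← Finset.mul_sum, ← Finset.mul_sum, h1, h2,
      h3]
    ring
  have h4 := (Finset.sum_eq_zero_iff_of_nonneg fun k _ => sq_nonneg _).1 h k (Finset.mem_univ k)
  have h5 := pow_eq_zero_iff two_ne_zero |>.1 h4
  linarith

theorem rpow_id {x : ℝ} (hx : 0 < x) :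
    x ^ (-(1 / 2) : ℝ) * (x ^ (3 / 4 : ℝ) * x ^ (3 / 4 : ℝ)) = x := by
  rw [← Real.rpow_add hx, ← Real.rpow_add hx]
  norm_num

theorem rpow_inv {x : ℝ} (hx : 0 < x) (p : ℝ) : x ^ p * x ^ (-p) = 1 := by
  rw [← Real.rpow_add hx]
  simp

end alg

section main

variable {M : Type v} [MetricSpace M] [CompactSpace M] [ConnectedSpace M]
  [ChartedSpace (EuclideanSpace ℝ (Fin 4)) M] [IsManifold (𝓡 4) ∞ M]
  [RiemannianBundle (fun p : M => TangentSpace (𝓡 4) p)]
  [IsContMDiffRiemannianBundle (𝓡 4) ∞ (EuclideanSpace ℝ (Fin 4))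
    (fun p : M => TangentSpace (𝓡 4) p)]
  [IsRiemannianManifold (𝓡 4) M] [MeasurableSpace M] [BorelSpace M]
  [SecondCountableTopology M] [Nonempty M]

theorem smooth_rpow {rr : M → ℝ} (hr : ContMDiff (𝓡 4) 𝓘(ℝ, ℝ) ∞ rr) (hpos : ∀ z, 0 < rr z)
    (q : ℝ) : ContMDiff (𝓡 4) 𝓘(ℝ, ℝ) ∞ (fun y => rr y ^ q) := by
  intro z
  have h1 : ContDiffAt ℝ ∞ (fun t : ℝ => t ^ q) (rr z) :=
    Real.contDiffAt_rpow_const_of_ne (hpos z).ne'
  exact h1.contMDiffAt.comp z (hr z)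

variable {κ0 κ1 κT : Type} [Fintype κ0] [Fintype κ1] [Fintype κT]

/-- `nE` of a smooth section is smooth. -/
theorem smF_nE {S : SWS M κ0 κ1 κT} {τ : TD M κT} {C : ℝ} (hS : S.OK) (hτ : τ.OK S C)
    {a : κT → M → ℝ} (ha : SmV (n := 4) a) {s : κ0 → M → ℝ} (hs : SmV (n := 4) s) (y : κ0) :
    SmF (fun z => τ.nE S a s y z) := by
  have hJ : ∀ y, ContMDiff (𝓡 4) 𝓘(ℝ, ℝ) ∞ fun z => ∑ y', S.J y y' z * s y' z := fun y =>
    contMDiff_finsetSum fun y' _ => (hS.smJ y y').mul (hs y')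
  have h1 : ∀ {b : κT → M → ℝ}, SmV (n := 4) b → SmF (fun z => ∑ A, b A z • S.s A z) :=
    fun hb => SmF.sum _ fun A _ => SmF.smul (hb A) (hS.sms A)
  have h2 : ∀ y, SmF (fun z => S.nab a s y z) := fun y =>
    (smF_cv S.D0 hs y).add (SmF.smul (hJ y) (h1 ha))
  have h3 : SmF (fun z => ∑ y', ((1 / 2) * (S.D0.p y y' z - ∑ k, τ.n k z * S.rho k y y' z)) •
      S.nab a s y' z) := by
    refine SmF.sum _ fun y' _ => SmF.smul ?_ (h2 y')
    exact contMDiff_const.mul ((S.D0.smp y y').sub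
      (contMDiff_finsetSum fun k _ => (hτ.smn k).mul (hS.smrho k y y')))
  exact h3.add (SmF.smul (hJ y) (h1 hτ.smsh))

variable [IsFiniteMeasureOnCompacts (μHE[4] : Measure M)]

theorem wkA_congr {κ κ' : Type} [Fintype κ] [Fintype κ'] {D0 : Dat 4 M κ} {D1 : Dat 4 M κ'}
    {P : OpPair D0 D1} {u : κ → M → ℝ} {f f' : κ' → M → ℝ}
    (hf : ∀ᵐ z ∂(μHE[4] : Measure M), ∀ b, f b z = f' b z) (h : WkA P u f) : WkA P u f' := by
  obtain ⟨h1, h2, h3⟩ := h
  refine ⟨fun b => (memLp_congr_ae ?_).1 (h1 b), ?_, fun w hw hsw => ?_⟩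
  · filter_upwards [hf] with z hz
    exact hz b
  · filter_upwards [hf, h2] with z hz h2z b
    have := h2z b
    simp only [hz] at this
    exact this
  · rw [← h3 w hw hsw]
    unfold Crest.Agent.R249.Tv57.ip
    refine integral_congr_ae ?_
    filter_upwards [hf] with z hz
    exact Finset.sum_congr rfl fun b _ => by rw [hz b]

/-- **(1)** Stokes: the topological term of a flat bundle vanishes. -/
theorem flat_int {S : SWS M κ0 κ1 κT} {τ : TD M κT} {C : ℝ} (hS : S.OK) (hτ : τ.OK S C)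
    {th : κT → M → ℝ} (hth : SmV (n := 4) th) (hsth : S.DT.Sec th) (hfl : τ.Flat S th) :
    ∫ z, ∑ k, τ.rr z * τ.n k z * τ.fE k z ∂(μHE[4] : Measure M) = 0 := by
  set u : Fin 4 → M → ℝ := Fin.cons (fun _ => 0) fun k z => τ.rr z * τ.n k z with hu
  have hsm : SmV (n := 4) u := by
    intro a
    refine Fin.cases ?_ (fun k => ?_) a
    · exact contMDiff_const
    · exact hτ.smrr.mul (hτ.smn k)
  have hsec : S.DL.Sec u := by
    intro a z
    simp only [hS.fullL, ite_mul, one_mul, zero_mul, Finset.sum_ite_eq, Finset.mem_univ, if_true]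
  have h := S.H.adj u th hsm hsec hth hsth
  have e1 : Crest.Agent.R249.Tv57.ip 4 (S.H.A u) th = 0 := by
    unfold Crest.Agent.R249.Tv57.ip
    simp only [hu, hτ.harm, zero_mul, Finset.sum_const_zero, integral_zero]
  have e2 : Crest.Agent.R249.Tv57.ip 4 u (S.H.B th) =
      - ∫ z, ∑ k, τ.rr z * τ.n k z * τ.fE k z ∂(μHE[4] : Measure M) := by
    unfold Crest.Agent.R249.Tv57.ip
    rw [← integral_neg]
    refine integral_congr_ae (Eventually.of_forall fun z => ?_)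
    simp only []
    rw [Fin.sum_univ_succ, ← Finset.sum_neg_distrib]
    have e3 : u 0 z = 0 := rfl
    rw [e3, zero_mul, zero_add]
    refine Finset.sum_congr rfl fun k _ => ?_
    have e4 : u k.succ z = τ.rr z * τ.n k z := rfl
    have e5 := hfl k z
    rw [e4, show S.H.B th k.succ z = - τ.fE k z by linarith]
    ring
  rw [e1, e2] at h
  linarith

/-- the quadratic terms, at a point. -/
theorem rho_pt {S : SWS M κ0 κ1 κT} {τ : TD M κT} {C r : ℝ} (hS : S.OK) (hτ : τ.OK S C) {z : M}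
    {s : κ0 → ℝ} (hp : ∀ y, ∑ y', S.D0.p y y' z * s y' = s y) (hn : ∑ y, s y ^ 2 = 2 * r)
    (hR : ∀ y, ∑ k, ∑ y', τ.n k z * S.rho k y y' z * s y' = - s y) (k : Fin 3) :
    ∑ y, ∑ y', S.rho k y y' z * s y * s y' = - (2 * r * τ.n k z) := by
  refine eq_neg_of_sums (q := fun k => ∑ y, ∑ y', S.rho k y y' z * s y * s y')
    (n := fun k => τ.n k z) (c := 2 * r) ?_ ?_ (hτ.norm z) k
  · have e : ∀ k, τ.n k z * (∑ y, ∑ y', S.rho k y y' z * s y * s y') =
        ∑ y, (∑ y', τ.n k z * S.rho k y y' z * s y') * s y := by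
      intro k
      rw [Finset.mul_sum]
      refine Finset.sum_congr rfl fun y _ => ?_
      rw [Finset.mul_sum, Finset.sum_mul]
      exact Finset.sum_congr rfl fun y' _ => by ring
    simp only [e]
    rw [Finset.sum_comm]
    have e' : ∀ y, ∑ k, (∑ y', τ.n k z * S.rho k y y' z * s y') * s y = - s y ^ 2 := by
      intro y
      rw [← Finset.sum_mul, hR y]
      ring
    simp only [e']
    rw [Finset.sum_neg_distrib, hn]
  · rw [← hn]
    exact hS.fierz z s hp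

/-- **(2)** the right hand side of the curvature equation vanishes at a point. -/
theorem rhs_pt {S : SWS M κ0 κ1 κT} {d : SWD M κT} {τ : TD M κT} {C : ℝ} {t : E3} (hS : S.OK)
    (hτ : τ.OK S C) (hF : τ.Fit S d t) (hfl : τ.Flat S (d.th t)) {z : M} {u : κ0 → M → ℝ}
    {s : κ0 → ℝ} (hu : ∀ y, s y = τ.rr z ^ (-(3 / 4) : ℝ) * u y z)
    (hp : ∀ y, ∑ y', S.D0.p y y' z * s y' = s y) (hn : ∑ y, s y ^ 2 = 2 * d.r)
    (hR : ∀ y, ∑ k, ∑ y', τ.n k z * S.rho k y y' z * s y' = - s y) (b : Fin 4) :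
    rhs S d t u b z = 0 := by
  refine Fin.cases rfl (fun k => ?_) b
  have hx := hτ.pos z
  have hu' : ∀ y, u y z = τ.rr z ^ (3 / 4 : ℝ) * s y := by
    intro y
    rw [hu y, ← mul_assoc, rpow_inv hx, one_mul]
  have e0 : rhs S d t u k.succ z =
      d.mu t z * ((1 / 2) * S.rq k u z) + d.r * d.wt t k z + d.et t k z := rfl
  have e1 : S.rq k u z = (τ.rr z ^ (3 / 4 : ℝ) * τ.rr z ^ (3 / 4 : ℝ)) *
      (- (2 * d.r * τ.n k z)) := by
    rw [← rho_pt hS hτ hp hn hR k]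
    unfold SWS.rq
    rw [Finset.mul_sum]
    refine Finset.sum_congr rfl fun y _ => ?_
    rw [Finset.mul_sum]
    refine Finset.sum_congr rfl fun y' _ => ?_
    rw [hu' y, hu' y']
    ring
  have e2 : d.et t k z = 0 := by
    rw [hF.et k z, hfl k z, neg_zero]
  rw [e0, e1, e2, hF.mu z, hF.wt k z]
  have e3 : τ.rr z ^ (-(1 / 2) : ℝ) * (1 / 2 * (τ.rr z ^ (3 / 4 : ℝ) * τ.rr z ^ (3 / 4 : ℝ) *
      -(2 * d.r * τ.n k z))) =
      (τ.rr z ^ (-(1 / 2) : ℝ) * (τ.rr z ^ (3 / 4 : ℝ) * τ.rr z ^ (3 / 4 : ℝ))) *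
        (- (d.r * τ.n k z)) := by ring
  rw [e3, rpow_id hx]
  ring

/-- **(3)** the homogeneous curvature equation. -/
theorem a_zero {S : SWS M κ0 κ1 κT} (hS : S.OK) {a : κT → M → ℝ} (ha : InW S.DT a)
    (hw : WkA S.H.swap a (fun _ _ => 0)) (hn : NoHarm S a) :
    ∀ᵐ z ∂(μHE[4] : Measure M), ∀ A, a A z = 0 := by
  obtain ⟨s0⟩ := Swx_333.spec_DL hS
  obtain ⟨sT⟩ := Swx_333.spec4 S.DT (Swx_333.exists_p_ne S.H s0)
  obtain ⟨U, hU⟩ := ha
  have h0 : ∀ b, (((0 : S.DL.toAD.HE) : HH (μHE[4] : Measure M) (Fin 4)) b : M → ℝ)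
      =ᵐ[(μHE[4] : Measure M)] (fun _ _ => 0 : Fin 4 → M → ℝ) b := by
    intro b
    exact Lp.coeFn_zero ℝ 2 _
  have h1 := ((cur_iff S s0 sT (A := U) (a := a) hU h0).1 ⟨hw, hn⟩).1
  rw [map_zero] at h1
  rw [ae_all_iff]
  intro A
  have h2 : (S.DT.toAD.i1 U A : M → ℝ) =ᵐ[(μHE[4] : Measure M)] 0 := by
    rw [h1, map_zero]
    exact Lp.coeFn_zero ℝ 2 _
  exact (hU A).symm.trans h2

end main

/-- **UNI** -/
theorem uni_of (hT : TAUX.{v}) : UNI.{v} := by
  intro M _ _ _ _ _ _ _ _ _ _ _ _ _ κ0 κ1 κT _ _ _ S d τ C t hS hτ hF hr hb hfl hreg a u hu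
  have := isOpenPosMeasure 4 M
  obtain ⟨w, hw⟩ := hT M κ0 κ1 κT S d τ C t hS hτ hF hr hb
    (le_of_eq (flat_int hS hτ hF.smth hF.secth hfl)) a u hu
  have hp := sec_rp w
  have hrhs : ∀ᵐ z ∂(μHE[4] : Measure M), ∀ b, rhs S d t u b z = 0 := by
    filter_upwards [hp, hw.rep, hw.nrm, hw.sec] with z e1 e2 e3 e4 b
    exact rhs_pt hS hτ hF hfl (s := fun y => (S.D0.toAD.i1 w y : M → ℝ) z) e2 e1 e3 e4 b
  have ha := a_zero hS hu.wa (wkA_congr hrhs hu.cur) hu.har
  refine ⟨ha, ?_⟩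
  have hdir : WkA S.P u (fun x z => - S.cm (d.th t) u x z) := by
    refine wkA_congr ?_ hu.dir
    filter_upwards [ha] with z hz x
    unfold SWS.cm
    simp only [Pi.add_apply, hz, zero_add]
  obtain ⟨u', hsm, hse, hue⟩ := hreg u hu.wu hdir
  set s : κ0 → M → ℝ := fun y z => τ.rr z ^ (-(3 / 4) : ℝ) * u' y z with hs
  have hrq := smooth_rpow hτ.smrr hτ.pos (-(3 / 4) : ℝ)
  have hssm : SmV (n := 4) s := fun y => hrq.mul (hsm y)
  have hsw : ∀ᵐ z ∂(μHE[4] : Measure M), ∀ y, (S.D0.toAD.i1 w y : M → ℝ) z = s y z := by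
    filter_upwards [hw.rep, hue] with z e1 e2 y
    rw [e1 y, e2 y]
  obtain ⟨hssec, hsW⟩ := Dens_433.exists_secW S.D0 hssm hsw
  have hc1 := Dens_433.coe_c1_secW S.D0 hssm hssec
  rw [hsW] at hc1
  refine ⟨s, ⟨hssm, ⟨hssec, ?_⟩, ?_, ?_⟩, ?_⟩
  · -- `R s = - s`
    intro y
    have hc : Continuous fun z => τ.R S s y z := by
      unfold TD.R
      exact continuous_finsetSum _ fun k _ => continuous_finsetSum _ fun y' _ =>
        ((hτ.smn k).continuous.mul (hS.smrho k y y').continuous).mul (hssm y').continuous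
    have h1 : (fun z => τ.R S s y z) =ᵐ[(μHE[4] : Measure M)] fun z => - s y z := by
      filter_upwards [hw.sec, hsw] with z e1 e2
      have e3 := e1 y
      simp only [e2] at e3
      exact e3
    intro z
    exact congrFun ((hc.ae_eq_iff_eq _ (hssm y).continuous.neg).1 h1) z
  · -- the norm
    have hc : Continuous fun z => ∑ y, s y z ^ 2 :=
      continuous_finsetSum _ fun y _ => (hssm y).continuous.pow 2
    have h1 : (fun z => ∑ y, s y z ^ 2) =ᵐ[(μHE[4] : Measure M)] fun _ => 2 * d.r := by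
      filter_upwards [hw.nrm, hsw] with z e1 e2
      simp only [e2] at e1
      exact e1
    intro z
    exact congrFun ((hc.ae_eq_iff_eq _ continuous_const).1 h1) z
  · -- parallel
    intro y
    have hN := smF_nE hS hτ hF.smth hssm y
    have hc : Continuous fun z => (⟪τ.nE S (d.th t) s y z, τ.nE S (d.th t) s y z⟫ : ℝ) :=
      (hN.inner hN).continuous
    have h1 : (fun z => (⟪τ.nE S (d.th t) s y z, τ.nE S (d.th t) s y z⟫ : ℝ))
        =ᵐ[(μHE[4] : Measure M)] fun _ => (0:ℝ) := by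
      filter_upwards [hw.par, hsw, hc1, ha] with z e1 e2 e3 e4
      have e5 : τ.nE S (d.th t) s y z = 0 := by
        rw [← e1 y]
        unfold TD.nE TD.prE SWS.nab
        simp only [e2, e3, e4, zero_add]
      simp only [e5, inner_zero_left]
    intro z
    have h2 := congrFun ((hc.ae_eq_iff_eq _ continuous_const).1 h1) z
    exact inner_self_eq_zero.1 h2
  · -- `u = sc s`
    filter_upwards [hue] with z e1 y
    rw [e1 y]
    show u' y z = τ.rr z ^ (3 / 4 : ℝ) * (τ.rr z ^ (-(3 / 4) : ℝ) * u' y z)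
    rw [← mul_assoc, rpow_inv (hτ.pos z), one_mul]

end

end Crest.Agent.R235.SWUni_312
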