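import Crest.Agent.R235.Swx_333
import Crest.Agent.R235.Sob4_984

/-!
Row 235 (S0364), PACKAGE SW, leaf SWX (helper333): `SUPB → SWX` with the Sobolev embedding of
`Sob4_984`.
-/

set_option autoImplicit false

universe v

namespace Crest.Agent.R235.Swx_333

theorem emb4_all : EMB4.{v} := by
  intro M _ _ _ _ _ _ _ _ _ _ _ _ _ κ _ D
  exact Crest.Agent.R235.Sob4_984.emb4_Dat D

/-- **SWX from SUPB**. -/
theorem swx_of (hS : Crest.Agent.R235.SWDefs_53.SUPB.{v}) :
    Crest.Agent.R235.SWDefs_53.SWX.{v} := swx_of_emb emb4_all hS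

end Crest.Agent.R235.Swx_333
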