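import Crest.Agent.R235.Tauf_433
import Crest.Agent.R235.Sob4_984

/-!
# Row 235 (helper433): `TAUF`, unconditional
-/

set_option autoImplicit false
open scoped ContDiff Topology Manifold

universe v

noncomputable section
namespace Crest.Agent.R235.TaufF_433

open Crest.Agent.R235.SWDefs_53

/-- **TAUF** : a parallel section forces `∫ F ∧ F = 0` -/
theorem tauf : TAUF.{v} :=
  Tauf_433.tauf_of fun M _ _ _ _ _ _ _ _ _ _ _ _ _ _ _ D => Sob4_984.emb4_Dat D

end Crest.Agent.R235.TaufF_433
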