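import Crest.Agent.R235.TauxE_433

/-!
# Row 235, SW-TAUX (helper433): `taux : TAUX`, the energy inequality of Taubes
-/

set_option autoImplicit false
set_option linter.unusedSectionVars false
set_option linter.unusedVariables false
set_option maxSynthPendingDepth 3
open scoped ContDiff ENNReal NNReal Topology Manifold Bundle RealInnerProductSpace
open MeasureTheory Set Filter Metric Bundle

universe v

noncomputable section
namespace Crest.Agent.R235.TauxF_433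

open Crest.Agent.R247.Dir593 Crest.Agent.R247.Ms322 Crest.Agent.R247.Frd657
open Crest.Agent.R249.Tv57 Crest.Agent.R235.Dens_433 Crest.Agent.R235.Fs4_546
open Crest.Agent.R235.Dns_433 Crest.Agent.R235.SWDefs_53 Crest.Agent.R235.W12_109
open Crest.Agent.R235.SupbA_433 Crest.Agent.R235.Cpt_755 Crest.Agent.R235.L4_433
open Crest.Agent.R235.CptC_755 Crest.Agent.R235.WtzW_86 Crest.Agent.R235.Tauf_433
open Crest.Agent.R235.TauxB_433 Crest.Agent.R235.TauxA_433 Crest.Agent.R235.TauxC_433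
open Crest.Agent.R235.TauxE_433

section mfd
variable {M : Type v} [MetricSpace M] [CompactSpace M] [ConnectedSpace M]
  [ChartedSpace (EuclideanSpace ℝ (Fin 4)) M] [IsManifold (𝓡 4) ∞ M]
  [RiemannianBundle (fun p : M => TangentSpace (𝓡 4) p)]
  [IsContMDiffRiemannianBundle (𝓡 4) ∞ (EuclideanSpace ℝ (Fin 4))
    (fun p : M => TangentSpace (𝓡 4) p)]
  [IsRiemannianManifold (𝓡 4) M] [MeasurableSpace M] [BorelSpace M]
  [SecondCountableTopology M] [Nonempty M] [IsFiniteMeasureOnCompacts (μHE[4] : Measure M)]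
  {κ0 κ1 κT : Type} [Fintype κ0] [Fintype κ1] [Fintype κT] (S : SWS M κ0 κ1 κT)

variable {τ : TD M κT} {C : ℝ}

/-- the form `w_t = ρ n` as a section of `ℝ ⊕ Λ⁺` -/
def wS (hOK : S.OK) (hτ : τ.OK S C) : SmS S.DL :=
  ⟨Fin.cons (fun _ => 0) fun k z => τ.rr z * τ.n k z, by
    intro a
    refine Fin.cases ?_ (fun k => ?_) a
    · exact contMDiff_const
    · exact hτ.smrr.mul (hτ.smn k), by
    intro a z
    simp only [hOK.fullL, ite_mul, one_mul, zero_mul, Finset.sum_ite_eq, Finset.mem_univ, if_true]⟩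

/-- **the topological term** -/
theorem top (hOK : S.OK) (hτ : τ.OK S C) (β : S.DT.toAD.WE) :
    Integrable (fun z => ∑ k, τ.rr z * τ.n k z * cur S β k z) (μHE[4] : Measure M) ∧
    ∫ z, ∑ k, τ.rr z * τ.n k z * cur S β k z ∂(μHE[4] : Measure M) = 0 := by
  have h1 : (⟪Ah S.H.swap β, S.DL.toAD.jj (cW S.DL (wS S hOK hτ))⟫ : ℝ) =
      ⟪S.DT.toAD.jj β, Ah S.H.swap.swap (cW S.DL (wS S hOK hτ))⟫ :=
    adj (dns S.DT (by norm_num)) (dns S.DL (by norm_num)) β _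
  have h2 : Ah S.H.swap.swap (cW S.DL (wS S hOK hτ)) = 0 := by
    rw [Ah_cW (dns S.DL (by norm_num))]
    have h3 : lA S.H.swap.swap (wS S hOK hτ) = 0 := by
      refine Subtype.ext ?_
      funext x z
      exact hτ.harm x z
    rw [h3, map_zero]
  rw [h2, inner_zero_right] at h1
  obtain ⟨h4, h5⟩ := inner_HH' ((Ah S.H.swap β : S.DL.toAD.HE) : HH (μHE[4] : Measure M) (Fin 4))
    (clH (wS S hOK hτ).1 (wS S hOK hτ).2.1)
    (f := fun b z => (((Ah S.H.swap β : S.DL.toAD.HE) : HH (μHE[4] : Measure M) (Fin 4)) b :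
      M → ℝ) z) (Eventually.of_forall fun _ _ => rfl) (coe_clH _ _)
  have h6 : ∀ z, ∑ b : Fin 4, (((Ah S.H.swap β : S.DL.toAD.HE) :
      HH (μHE[4] : Measure M) (Fin 4)) b : M → ℝ) z * (wS S hOK hτ).1 b z =
      ∑ k, τ.rr z * τ.n k z * cur S β k z := by
    intro z
    rw [Fin.sum_univ_succ]
    have e0 : (wS S hOK hτ).1 0 z = 0 := rfl
    have e1 : ∀ k : Fin 3, (wS S hOK hτ).1 k.succ z = τ.rr z * τ.n k z := fun k => rfl
    rw [e0, mul_zero, zero_add]
    exact Finset.sum_congr rfl fun k _ => by rw [e1 k, mul_comm]; rfl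
  refine ⟨h5.congr (Eventually.of_forall h6), ?_⟩
  rw [← integral_congr_ae (Eventually.of_forall h6), ← h4]
  exact h1

variable {d : SWD M κT} {t : E3} {a : κT → M → ℝ} {u : κ0 → M → ℝ}

/-- the full connection form and its curvature -/
theorem beta_ex (hfit : τ.Fit S d t) (hτ : τ.OK S C) (hsol : Sol S d t a u) :
    ∃ β : S.DT.toAD.WE,
      (∀ᵐ z ∂(μHE[4] : Measure M), ∀ A, rp β A z = a A z + d.th t A z) ∧
      ∀ᵐ z ∂(μHE[4] : Measure M), ∀ k : Fin 3, cur S β k z + τ.fE k z =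
        τ.rr z ^ (-(1 / 2) : ℝ) * ((1 / 2) * S.rq k u z) + d.r * (τ.rr z * τ.n k z) := by
  obtain ⟨α0, hα0⟩ := hsol.wa
  have hα0e : ∀ᵐ z ∂(μHE[4] : Measure M), ∀ A, rp α0 A z = a A z := ae_all_iff.2 hα0
  set T : SmS S.DT := ⟨d.th t, hfit.smth, hfit.secth⟩ with hT
  refine ⟨α0 + cW S.DT T, ?_, ?_⟩
  · have h1 : ∀ᵐ z ∂(μHE[4] : Measure M), ∀ A, rp (α0 + cW S.DT T) A z =
        rp α0 A z + rp (cW S.DT T) A z := by
      unfold rp
      rw [map_add]
      exact ae_all_iff.2 fun x => Lp.coeFn_add _ _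
    filter_upwards [h1, hα0e, rp_cWT S T] with z e1 e2 e3 A
    rw [e1 A, e2 A, e3 A]
  · have h1 : ∀ᵐ z ∂(μHE[4] : Measure M), ∀ k : Fin 3, cur S (α0 + cW S.DT T) k z =
        cur S α0 k z + cur S (cW S.DT T) k z := by
      unfold cur
      rw [map_add]
      exact ae_all_iff.2 fun x => Lp.coeFn_add _ _
    filter_upwards [h1, Ah_of_WkA S.H.swap hsol.cur α0 hα0, cur_cW S T] with z e1 e2 e3 k
    rw [e1 k, e3 k]
    have e4 : cur S α0 k z = rhs S d t u k.succ z := e2 k.succ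
    have e5 : rhs S d t u k.succ z =
        d.mu t z * ((1 / 2) * S.rq k u z) + d.r * d.wt t k z + d.et t k z := rfl
    rw [e4, e5, hfit.mu z, hfit.wt k z, hfit.et k z]
    ring

/-- the Dirac equation -/
theorem dir0 (hsol : Sol S d t a u) {β : S.DT.toAD.WE}
    (hβ : ∀ᵐ z ∂(μHE[4] : Measure M), ∀ A, rp β A z = a A z + d.th t A z) {U : S.D0.toAD.WE}
    (hU : ∀ y, (S.D0.toAD.i1 U y : M → ℝ) =ᵐ[(μHE[4] : Measure M)] u y) :
    ∀ᵐ z ∂(μHE[4] : Measure M), ∀ x, dirW S β U x z = 0 := by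
  have hUe : ∀ᵐ z ∂(μHE[4] : Measure M), ∀ y, rp U y z = u y z := ae_all_iff.2 hU
  filter_upwards [Ah_of_WkA S.P hsol.dir U hU, hβ, hUe] with z e1 e2 e3 x
  unfold dirW
  rw [e1 x]
  have : S.cm (rp β) (rp U) x z = S.cm (a + d.th t) u x z := by
    unfold SWS.cm
    exact Finset.sum_congr rfl fun A _ => Finset.sum_congr rfl fun y _ => by
      rw [e2 A, e3 y]; rfl
  rw [this]
  ring

/-- **the energy inequality** -/
theorem taux_one (hOK : S.OK) (hτ : τ.OK S C) (hfit : τ.Fit S d t) (hr : 0 < d.r)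
    (hbig : ∀ z, C ^ 2 ≤ d.r * τ.rr z ^ 3)
    (htop : ∫ z, ∑ k, τ.rr z * τ.n k z * τ.fE k z ∂(μHE[4] : Measure M) ≤ 0)
    (hsol : Sol S d t a u) : ∃ w : S.D0.toAD.WE, τ.Par S d t a u w := by
  obtain ⟨β, hβ, hcur⟩ := beta_ex S hfit hτ hsol
  obtain ⟨U, hU⟩ := hsol.wu
  have hUe : ∀ᵐ z ∂(μHE[4] : Measure M), ∀ y, rp U y z = u y z := ae_all_iff.2 hU
  obtain ⟨h6i, h6⟩ := top S hOK hτ β
  have hc := core S hOK hτ hr hbig htop hUe hcur (dir0 S hsol hβ hU) h6i h6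
  refine ⟨zW S hOK hτ (scW S hτ (-(3 / 4)) U), ?_, ?_, ?_, ?_⟩
  · filter_upwards [hc, z_add_o S hOK hτ (scW S hτ (-(3 / 4)) U), coe_scW S hτ (-(3 / 4)) U, hUe]
      with z e1 e2 e3 e4 y
    have h1 := e2 y
    rw [e1.1 y, add_zero, e3 y, e4 y] at h1
    exact h1
  · filter_upwards [hc] with z e1
    exact e1.2.2
  · filter_upwards [R_zW S hOK hτ (scW S hτ (-(3 / 4)) U)] with z e1 y
    have h1 := e1 y
    rw [neg_one_mul] at h1
    exact h1
  · filter_upwards [hc, hβ] with z e1 e2 y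
    refine Eq.trans ?_ (e1.2.1 y)
    unfold TD.prE nabW
    simp only [e2]
    rfl

end mfd

/-- **TAUX** -/
theorem taux : TAUX.{v} := by
  intro M _ _ _ _ _ _ _ _ _ _ _ _ _ κ0 κ1 κT _ _ _ S d τ C t hOK hτ hfit hr hbig htop a u hsol
  exact taux_one S hOK hτ hfit hr hbig htop hsol

end Crest.Agent.R235.TauxF_433
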