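import Crest.Agent.R235.SWTop_53
import Crest.Agent.R235.SWEnd_53
import Crest.Agent.R235.SwxT_333
import Crest.Agent.R235.SupbF_433
import Crest.Agent.R235.TaufF_433
import Crest.Agent.R235.TauxF_433
import Crest.Agent.R235.SWGeo_659
import Crest.Agent.R235.SWReg_433
import Crest.Agent.R235.SWUni_312
import Crest.Agent.R235.ModRE_692
import Crest.Agent.R235.ModF_53
import Crest.Agent.R235.SWZer_463
import Crest.Agent.R235.SWJf_365
import Crest.Agent.R235.ModBE_453
import Crest.Agent.R235.SWNd_918

/-!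
Row 235 (S0364), PACKAGE SW (helper53): `ROOT`, `FLATK`, `SWJA`, `BPLUS`.
-/

set_option autoImplicit false

namespace Crest.Agent.R235.SWFin_53

open Crest.Agent.R235.SWDefs_53 Crest.Agent.R235.SWTop_53

universe v

/-- the abstract existence theorem. -/
theorem swx : SWX.{v} := Swx_333.swx_of SupbF_433.supb

theorem geox : GEOX.{v} := SWEnd_53.geox_of swx TauxF_433.taux TaufF_433.tauf

theorem uni : UNI.{v} := SWUni_312.uni_of TauxF_433.taux

theorem zer : ZER.{v} := SWZer_463.zer_of uni SWReg_433.reg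

/-- **ROOT**. -/
theorem root : ROOT.{0} := root_of geox ModR_692.modr

/-- **FLATK**. -/
theorem flatk : FLATK.{0} := flatk_of (SWGeo_659.geofl_of swx SWReg_433.reg uni) ModF_53.modf

/-- **SWJA**. -/
theorem swja : SWJA.{0} := SWJf_365.swja SWNd_918.nd zer

/-- **BPLUS**. -/
theorem bplus : BPLUS.{0} := bplus_of (SWGeo_659.bpf_of swja) ModBE_453.modb

end Crest.Agent.R235.SWFin_53
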