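import Crest.Agent.R235.FvY_143
import Crest.Agent.R235.FvD_952
import Crest.Agent.R235.SWFin_53

/-!
Row 235 (S0364), block FAM (helper143, helper952, helper844, helper151): **`fwxh : FWXH`**.
-/

set_option autoImplicit false
set_option maxSynthPendingDepth 3
set_option linter.unusedSectionVars false

open scoped ContDiff ENNReal NNReal Topology Manifold Bundle RealInnerProductSpace
open MeasureTheory Set Filter Metric Bundle Module

universe v

noncomputable section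

namespace Crest.Agent.R235.FvZ_143

open Crest.Agent.R249.Tv57 Crest.Agent.R247.Ms322 Crest.Agent.R247.Dir593
open Crest.Agent.R235.SWDefs_53 Crest.Agent.R235.CptB_755 Crest.Agent.R235.Fs4_546
open Crest.Agent.R235.CptC_755 Crest.Agent.R235.Cpt_755 Crest.Agent.R235.Fred_649
open Crest.Agent.R235.Swx_333 Crest.Agent.R235.SWSym_451 Crest.Agent.R235.SWJc_365
open Crest.Agent.R235.SWJq_365 Crest.Agent.R235.SWJz_365 Crest.Agent.R235.FvA_844
open Crest.Agent.R235.FamR_151 Crest.Agent.R235.FamTop_307 Crest.Agent.R235.FamW_307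
open Crest.Agent.R235.FvX_844 Crest.Agent.R235.FvY_143
open Crest.Agent.R235.Hopf_143 (hopf)

/-- **FWXH**. -/
theorem fwxh (hZ : ZER.{v}) : FWXH.{v} := by
  intro M _ _ _ _ _ _ _ _ _ _ _ _ _ κ0 κ1 κT _ _ _ S cc J1 j d ww τ C th pi U hc hJ hg hj hH hF
    hA X Y _ _ _ _ _ _ Φ eX eY φ h hind hK
  have hS : S.OK := hH.fam.ok
  have hd : d.Adm S := hF.adm
  obtain ⟨A, hA⟩ := hA
  obtain ⟨K⟩ := hK
  obtain ⟨s0⟩ := spec_DL hS
  obtain ⟨sT⟩ := spec4 S.DT (exists_p_ne S.H s0)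
  obtain ⟨C0, hC00, hC0⟩ := SWJn_900.supJ hS hj hd
  obtain ⟨B, hB0, hB⟩ := us_bdd hH hF.rpos
  have hm : 0 ≤ √(max C0 B) := Real.sqrt_nonneg _
  have hR : 0 < √(max C0 B) + 1 := by positivity
  have hR2 : max C0 B < (√(max C0 B) + 1) ^ 2 := by
    have h1 := Real.sq_sqrt (hC00.trans (le_max_left C0 B))
    nlinarith
  have hCR : C0 < (√(max C0 B) + 1) ^ 2 := (le_max_left _ _).trans_lt hR2
  have hsup : ∀ (h : Fin 4 → ℝ) (t : E3) (a : κT → M → ℝ) (u : κ0 → M → ℝ), ‖t‖ ≤ 1 →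
      TSol S (d.tw j h) (√(max C0 B) + 1) t a u →
      ∀ᵐ z ∂(μHE[4] : Measure M), ∑ y, u y z ^ 2 ≤ C0 := fun h t a u ht hT =>
    hC0 h _ hCR hR t a u ht hT
  have hBR : ∀ s : C2, ‖s‖ = 1 → ∀ z, ∑ y, us τ pi U d.r s y z ^ 2 < (√(max C0 B) + 1) ^ 2 :=
    fun s hs z => (hB s hs z).trans_lt ((le_max_right _ _).trans_lt hR2)
  have hw := swd h hS hc hJ hj hd s0 (HW hS hd K) hR hsup
  have hP := hopfP h hZ hc hj hS hd hH hF s0 (HW hS hd K) hR hCR hsup A hA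
    (FvD_952.hopf_z0 hZ h hc hj hH hF hS hd s0 (HW hS hd K) hR Hopf_143.norm_s0
      fun z => (hBR _ Hopf_143.norm_s0 z).le)
    (FvD_952.hopf_der SWNd_918.nd h hc hg hj hH hF hS hd s0 sT (HW hS hd K) hR Hopf_143.norm_s0
      (hBR _ Hopf_143.norm_s0) hind rfl)
  obtain ⟨W, hWf, hWs, n, fr, fR, fW, R', hfw, hone, hnz⟩ := fw_hopf hw A hP (Lr hd)
    (fun t ht s hs => FvX_844.seg hS hd K hR ht hs) hind
  exact ⟨W, hWf, n, _, fr, _, fR, fW, R', hWs, hfw, hone, fun i k _ t h' ψ ht hh hψ h1 h2 =>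
    hnz t h' ψ ht (slice_half hh) hψ h1 h2⟩

/-- **FWXH**, unconditional. -/
theorem fwxh0 : FWXH.{v} := fwxh SWFin_53.zer

end Crest.Agent.R235.FvZ_143

end
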