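import Crest.Agent.R235.Glob7_370

/-!
Row 235 (S0364), REG-GLOB (helper370), part 8: the curve of a connected clopen part; `GLOB`.
-/

set_option autoImplicit false
set_option maxSynthPendingDepth 3
set_option linter.unusedSectionVars false

open Set Function Filter MeasureTheory Metric Topology
open scoped Manifold ContDiff Topology

universe u

namespace Crest.Agent.R235.Glob_370

open Crest.Agent.R240 Crest.Agent.R240.Ch

noncomputable section

variable {M : Type u} [TopologicalSpace M] [ChartedSpace E4 M] [IsManifold 𝓘(ℝ, E4) ∞ M]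
variable {J : EndF E4 M} {S : Set M}

lemma IsJHol.congr {u v : ℂ → M} {O : Set ℂ} (h : IsJHol J u O) (hO : IsOpen O)
    (huv : ∀ z ∈ O, v z = u z) : IsJHol J v O := by
  refine ⟨h.smooth.congr huv, fun z hz t => ?_⟩
  have hev : v =ᶠ[𝓝 z] u := by
    filter_upwards [hO.mem_nhds hz] with w hw using huv w hw
  rw [dmap_congr hev, huv z hz]
  exact h.jhol z hz t

lemma IsJHol.dmap_I {u : ℂ → M} {O : Set ℂ} (h : IsJHol J u O) {z : ℂ} (hz : z ∈ O) :
    dmap u z Complex.I = atJ J (u z) (dmap u z 1) := by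
  have := h.jhol z hz 1
  rwa [mul_one] at this

lemma pb_inv {u : ℂ → M} {O : Set ℂ} (h : IsJHol J u O)
    (hJ : ∀ x v, atJ J x (atJ J x v) = -v) {b c : F2 E4 M} (hb : Smooth2 b)
    (hbc : ∀ x, invp (atJ J x) (at2 b x) = at2 c x) {z : ℂ} (hz : z ∈ O) :
    pb u b z = pb u c z := by
  unfold pb
  rw [← hbc, invp_apply, h.dmap_I hz, hJ, map_neg, hb.antisymm _ (atJ J (u z) (dmap u z 1))]
  ring

lemma pb_nonneg {u : ℂ → M} {O : Set ℂ} (h : IsJHol J u O) {b : F2 E4 M} (hb : PosG J b)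
    {z : ℂ} (hz : z ∈ O) : 0 ≤ pb u b z := by
  unfold pb
  rw [h.dmap_I hz]
  exact (hb _).nonneg _

variable [T2Space M] [CompactSpace M] {L : ∀ p, LocForm J S p}

theorem TK_pcur (hJ : ∀ x v, atJ J x (atJ J x v) = -v) (P : PU L) {K : Set (NN L)}
    (hK : IsClopen K) : PCur J (TK P K) where
  inv b c hbc := by
    rw [TK_apply, TK_apply]
    refine Finset.sum_congr rfl fun i _ => Finset.sum_congr rfl fun j _ => ?_
    refine setIntegral_congr_fun measurableSet_ball fun z hz => ?_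
    simp only [pb_fmul]
    rw [pb_inv ((L (P.p i)).disc j.1).hol hJ b.2 hbc hz]
  nonneg b hb := by
    rw [TK_apply]
    refine Finset.sum_nonneg fun i _ => Finset.sum_nonneg fun j _ => ?_
    refine setIntegral_nonneg measurableSet_ball fun z hz => ?_
    rw [pb_fmul]
    exact mul_nonneg (P.nonneg _ _) (pb_nonneg ((L (P.p i)).disc j.1).hol hb hz)
  closed b hb := TK_closed P hK b hb

/-! ### the curve of a component -/

section comp

variable (L) (K : Set (NN L))

/-- the branches inside `K`. -/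
abbrev IK : Type u := {a : Ix L // range (phi (uu L) a) ⊆ K}

variable {L K}

/-- the parametrisations. -/
def phK (a : IK L K) (z : ball (0 : ℂ) 1) : K := ⟨phi (uu L) a.1 z, a.2 ⟨z, rfl⟩⟩

lemma phK_emb (a : IK L K) : IsOpenEmbedding (phK a) := by
  have h := (adm L).openEmb a.1
  refine IsOpenEmbedding.of_continuous_injective_isOpenMap ?_ ?_ ?_
  · exact (continuous_phi _ _).subtype_mk _
  · intro z w hzw
    exact h.injective (congrArg Subtype.val hzw)
  · intro V hV
    have h1 := h.isOpenMap V hV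
    have h2 : phK a '' V = Subtype.val ⁻¹' (phi (uu L) a.1 '' V) := by
      ext x
      constructor
      · rintro ⟨z, hz, rfl⟩
        exact ⟨z, hz, rfl⟩
      · rintro ⟨z, hz, hzx⟩
        exact ⟨z, hz, Subtype.ext hzx⟩
    rw [h2]
    exact h1.preimage continuous_subtype_val

/-- the charts. -/
def chK (a : IK L K) : OpenPartialHomeomorph K ℂ :=
  ((phK_emb a).toOpenPartialHomeomorph _).symm.trans inc

lemma chK_source (a : IK L K) : (chK a).source = range (phK a) := by
  rw [chK, OpenPartialHomeomorph.trans_source, inc_source]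
  simp

lemma chK_target (a : IK L K) : (chK a).target = ball 0 1 := by
  rw [chK, OpenPartialHomeomorph.trans_target, inc_target]
  simp

lemma chK_phK (a : IK L K) (z : ball (0 : ℂ) 1) : chK a (phK a z) = z := by
  have h : (((phK_emb a).toOpenPartialHomeomorph _).symm) (phK a z) = z :=
    (phK_emb a).toOpenPartialHomeomorph_left_inv
  show inc ((((phK_emb a).toOpenPartialHomeomorph _).symm) (phK a z)) = z
  rw [h]
  rfl

lemma chK_symm (a : IK L K) {z : ℂ} (hz : z ∈ ball (0 : ℂ) 1) :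
    (chK a).symm z = phK a ⟨z, hz⟩ := by
  show phK a (inc.symm z) = _
  rw [inc_symm hz]

lemma chK_trans (a b : IK L K) {z : ℂ} (hz : z ∈ ball (0 : ℂ) 1)
    (hb : phK a ⟨z, hz⟩ ∈ range (phK b)) :
    DifferentiableAt ℂ (fun z => chK b ((chK a).symm z)) z ∧
      deriv (fun z => chK b ((chK a).symm z)) z ≠ 0 := by
  have hb' : phi (uu L) a.1 ⟨z, hz⟩ ∈ range (phi (uu L) b.1) := by
    obtain ⟨w, hw⟩ := hb
    exact ⟨w, congrArg Subtype.val hw⟩
  have hev : (fun z => chK b ((chK a).symm z)) =ᶠ[𝓝 z]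
      fun z => chart L b.1 ((chart L a.1).symm z) := by
    have h1 : z ∈ (atl L).dom a.1 b.1 := by
      refine ⟨?_, ?_⟩
      · show z ∈ (chart L a.1).target
        rw [chart_target]; exact hz
      · show (chart L a.1).symm z ∈ (chart L b.1).source
        rw [chart_symm L _ hz, chart_source]; exact hb'
    filter_upwards [((atl L).isOpen_dom a.1 b.1).mem_nhds h1] with w hw
    have hw1 : w ∈ ball (0 : ℂ) 1 := by
      have h2 : w ∈ (chart L a.1).target := hw.1
      rwa [chart_target] at h2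
    have hw2 : (chart L a.1).symm w ∈ (chart L b.1).source := hw.2
    rw [chart_symm L _ hw1, chart_source] at hw2
    obtain ⟨t, ht⟩ := hw2
    rw [chart_symm L _ hw1, chK_symm _ hw1, ← ht, chart_phi]
    have h3 : phK a ⟨w, hw1⟩ = phK b t := Subtype.ext ht.symm
    rw [h3, chK_phK]
  obtain ⟨h1, h2⟩ := chart_trans L a.1 b.1 hz hb'
  exact ⟨h1.congr_of_eventuallyEq hev, by rwa [hev.deriv_eq]⟩

lemma exists_phK (hK : IsClopen K) {p : M} (x : K) (hx : ff L x ∈ (L p).U) :
    ∃ (j : Bk L K p) (z : ball (0 : ℂ) 1), phK (⟨⟨p, j.1⟩, j.2⟩ : IK L K) z = x := by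
  obtain ⟨j, z, hz⟩ := exists_phi_of_mem (p := p) L x.1 hx
  have h2 : x.1 ∈ range (phi (uu L) ⟨p, j⟩) := ⟨z, hz⟩
  exact ⟨⟨j, range_sub hK _ h2 x.2⟩, z, Subtype.ext hz⟩

/-- the atlas of `K`. -/
def atK (hK : IsClopen K) : RS.CAtl.{u, u} K where
  ι := IK L K
  c := chK
  cover x := by
    obtain ⟨j, z, hz⟩ := exists_phK hK x (L (ff L x)).mem
    exact ⟨_, by rw [chK_source]; exact ⟨z, hz⟩⟩
  hol a b := by
    rintro z ⟨hz, hz2⟩
    rw [chK_target] at hz
    rw [chK_symm a hz, chK_source] at hz2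
    exact (chK_trans a b hz hz2).1.differentiableWithinAt

/-- the enumeration of the branches at `p`. -/
def enK (K : Set (NN L)) (p : M) : Fin (Fintype.card (Bk L K p)) ≃ Bk L K p :=
  (Fintype.equivFin _).symm

/-- the local form of the image of `K`. -/
def locK (hK : IsClopen K) (p : M) : LocForm J (range fun x : K => ff L x.1) p where
  U := (L p).U
  openU := (L p).openU
  mem := (L p).mem
  n := Fintype.card (Bk L K p)
  u j := (L p).u (enK K p j).1
  disc j := (L p).disc _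
  centre j := (L p).centre _
  disj i j hij z hz w hw h := (L p).disj _ _ (fun h1 => hij ((enK K p).injective
    (Subtype.ext h1))) z hz w hw h
  supp := by
    ext x
    constructor
    · rintro ⟨⟨y, rfl⟩, hx⟩
      obtain ⟨j, z, hz⟩ := exists_phK hK y hx
      refine mem_iUnion.2 ⟨(enK K p).symm j, z, z.2, ?_⟩
      simp only [Equiv.apply_symm_apply]
      have h1 : ff L (phi (uu L) ⟨p, j.1⟩ z) = ff L y := by
        rw [← hz]; rfl
      rw [ff_phi] at h1
      exact h1
    · intro hx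
      obtain ⟨j, z, hz, rfl⟩ := mem_iUnion.1 hx
      refine ⟨⟨phK ⟨⟨p, (enK K p j).1⟩, (enK K p j).2⟩ ⟨z, hz⟩, ?_⟩, ((L p).maps _ hz).2⟩
      exact ff_phi L _ _
  proper j := (L p).proper _

/-- the parametrisation on the plane. -/
def phC (K : Set (NN L)) (p : M) (j : Fin (Fintype.card (Bk L K p))) (z : ℂ) : K := by
  classical
  exact phK ⟨⟨p, (enK K p j).1⟩, (enK K p j).2⟩
    (if h : z ∈ ball (0 : ℂ) 1 then ⟨z, h⟩ else ⟨0, mem_ball_self one_pos⟩)

lemma phC_eq {p : M} (j : Fin (Fintype.card (Bk L K p))) {z : ℂ} (hz : z ∈ ball (0 : ℂ) 1) :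
    phC K p j z = phK ⟨⟨p, (enK K p j).1⟩, (enK K p j).2⟩ ⟨z, hz⟩ := by
  unfold phC
  rw [dif_pos hz]

/-- the finite exceptional set. -/
def excK (P : PU L) : Set K := {x | ∃ i, ff L x = P.p i}

lemma PU.exists_mem (P : PU L) (x : M) : ∃ i, x ∈ (L (P.p i)).U := by
  by_contra h
  push Not at h
  have h1 : ∑ i, P.χ i x = 0 :=
    Finset.sum_eq_zero fun i _ => P.zero i fun hx => h i (P.supp i hx)
  rw [P.sum] at h1
  exact one_ne_zero h1

lemma finite_fib (p : M) : {x : NN L | ff L x = p}.Finite := by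
  refine (Set.finite_range fun j : Fin (L p).n =>
    phi (uu L) ⟨p, j⟩ ⟨0, mem_ball_self one_pos⟩).subset ?_
  intro x hx
  obtain ⟨j, hj⟩ := centre_of_ff L x hx
  exact ⟨j, hj⟩

lemma excK_finite (P : PU L) : (excK P : Set K).Finite := by
  have h1 : (⋃ i, {x : NN L | ff L x = P.p i}).Finite :=
    Set.finite_iUnion fun i => finite_fib (P.p i)
  refine (h1.preimage (f := (Subtype.val : K → NN L)) Subtype.val_injective.injOn).subset ?_
  rintro x ⟨i, hi⟩
  exact mem_iUnion.2 ⟨i, hi⟩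

lemma inj_off (P : PU L) {x y : NN L} (hx : ∀ i, ff L x ≠ P.p i) (h : ff L x = ff L y) :
    x = y := by
  obtain ⟨i, hi⟩ := P.exists_mem (ff L x)
  obtain ⟨j, z, rfl⟩ := exists_phi_of_mem L x hi
  obtain ⟨k, w, rfl⟩ := exists_phi_of_mem (p := P.p i) L y (h ▸ hi)
  have hne := hx i
  rw [ff_phi, ff_phi] at h
  rw [ff_phi] at hne
  by_cases hjk : j = k
  · subst hjk
    have : (z : ℂ) = w := ((L (P.p i)).disc j).inj z.2 w.2 h
    rw [Subtype.ext this]
  · exact absurd ((L (P.p i)).disj' hjk z.2 w.2 h) hne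

lemma imm_off (P : PU L) (a : Ix L) {z : ℂ} (hz : z ∈ ball (0 : ℂ) 1)
    (hx : ∀ i, uu L a z ≠ P.p i) {v : ℂ} (hv : dmap (uu L a) z v = 0) : v = 0 := by
  obtain ⟨i, hi⟩ := P.exists_mem (uu L a z)
  obtain ⟨j, r, h, hr, hrO, hd, hd0, hh⟩ := trans_exists L a ⟨z, hz⟩ hi
  obtain ⟨h2, h3⟩ := hh z (mem_ball_self hr) hz
  have h4 : uu L a z = (L (P.p i)).u j (h z) := by
    have := congrArg (ff L) h3
    rw [ff_phi, ff_phi] at this
    exact this
  have hne : h z ≠ 0 := by
    intro h0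
    apply hx i
    rw [h4, h0, (L (P.p i)).centre]
  have hev : uu L a =ᶠ[𝓝 z] fun w => (L (P.p i)).u j (h w) := by
    filter_upwards [isOpen_ball.mem_nhds (mem_ball_self (x := z) hr)] with w hw
    obtain ⟨h5, h6⟩ := hh w hw (hrO hw)
    have := congrArg (ff L) h6
    rw [ff_phi, ff_phi] at this
    exact this
  have hdz := hd.differentiableAt (isOpen_ball.mem_nhds (mem_ball_self (x := z) hr))
  rw [dmap_congr hev, dmap_comp_hol (((L (P.p i)).disc j).hol.at isOpen_ball h2) hdz] at hv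
  have h7 := ((L (P.p i)).disc j).imm _ h2 hne _ hv
  exact (mul_eq_zero.1 h7).resolve_left (hd0 z (mem_ball_self hr))

section fields

lemma hol_K (a : IK L K) : IsJHol J (fun z => ff L ((chK a).symm z).1) (chK a).target := by
  rw [chK_target]
  refine ((L a.1.1).disc a.1.2).hol.congr isOpen_ball fun z hz => ?_
  rw [chK_symm a hz]
  exact ff_phi L _ _

variable {p : M} (j : Fin (Fintype.card (Bk L K p)))

lemma phC_cont : ContinuousOn (phC K p j) (ball 0 1) := by
  rw [continuousOn_iff_continuous_domRestrict]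
  have h2 : (ball (0 : ℂ) 1).domRestrict (phC K p j) =
      phK ⟨⟨p, (enK K p j).1⟩, (enK K p j).2⟩ := by
    funext z
    exact phC_eq j z.2
  rw [h2]
  exact (phK_emb _).continuous

lemma phC_inj : InjOn (phC K p j) (ball 0 1) := by
  intro z hz w hw hzw
  rw [phC_eq j hz, phC_eq j hw] at hzw
  exact congrArg Subtype.val ((phK_emb _).injective hzw)

lemma phC_open (O : Set ℂ) (hO : IsOpen O) (hOb : O ⊆ ball 0 1) : IsOpen (phC K p j '' O) := by
  have h2 : phC K p j '' O = phK ⟨⟨p, (enK K p j).1⟩, (enK K p j).2⟩ '' (Subtype.val ⁻¹' O) := by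
    ext x
    constructor
    · rintro ⟨z, hz, rfl⟩
      exact ⟨⟨z, hOb hz⟩, hz, (phC_eq j (hOb hz)).symm⟩
    · rintro ⟨z, hz, rfl⟩
      exact ⟨z, hz, phC_eq j z.2⟩
  rw [h2]
  exact (phK_emb _).isOpenMap _ (hO.preimage continuous_subtype_val)

lemma phC_hol (i : IK L K) : DifferentiableOn ℂ (fun z => chK i (phC K p j z))
    {z | z ∈ ball (0 : ℂ) 1 ∧ phC K p j z ∈ (chK i).source} := by
  rintro z ⟨hz, hzi⟩
  refine DifferentiableAt.differentiableWithinAt ?_
  rw [phC_eq j hz, chK_source] at hzi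
  refine (chK_trans _ i hz hzi).1.congr_of_eventuallyEq ?_
  filter_upwards [isOpen_ball.mem_nhds hz] with w hw
  rw [phC_eq j hw, chK_symm _ hw]

lemma phC_imm (i : IK L K) (z : ℂ) (hz : z ∈ ball (0 : ℂ) 1)
    (hzi : phC K p j z ∈ (chK i).source) : deriv (fun z => chK i (phC K p j z)) z ≠ 0 := by
  rw [phC_eq j hz, chK_source] at hzi
  have h1 := (chK_trans _ i hz hzi).2
  have h2 : (fun z => chK i (phC K p j z)) =ᶠ[𝓝 z] fun z => chK i
      ((chK (⟨⟨p, (enK K p j).1⟩, (enK K p j).2⟩ : IK L K)).symm z) := by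
    filter_upwards [isOpen_ball.mem_nhds hz] with w hw
    rw [phC_eq j hw, chK_symm _ hw]
  rwa [h2.deriv_eq]

lemma phC_f (z : ℂ) (hz : z ∈ ball (0 : ℂ) 1) :
    ff L (phC K p j z).1 = (L p).u (enK K p j).1 z := by
  rw [phC_eq j hz]
  exact ff_phi L _ _

lemma phC_cover (hK : IsClopen K) (p : M) (x : K) (hx : ff L x.1 ∈ (L p).U) :
    ∃ j, ∃ z ∈ ball (0 : ℂ) 1, phC K p j z = x := by
  obtain ⟨j, z, hz⟩ := exists_phK hK x hx
  refine ⟨(enK K p).symm j, z, z.2, ?_⟩
  rw [phC_eq _ z.2]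
  simp only [Equiv.apply_symm_apply]
  exact hz

lemma phC_disj (i : Fin (Fintype.card (Bk L K p))) (hij : i ≠ j) (z : ℂ)
    (hz : z ∈ ball (0 : ℂ) 1) (w : ℂ) (hw : w ∈ ball (0 : ℂ) 1) :
    phC K p i z ≠ phC K p j w := by
  intro h
  rw [phC_eq i hz, phC_eq j hw] at h
  have h1 := phi_ne L (congrArg Subtype.val h)
  exact hij ((enK K p).injective (Subtype.ext h1))

lemma cur_K (P : PU L) (hK : IsClopen K) (p : M) : (locK hK p).Cur (TK P K) := by
  intro b K1 h1 h2 h3
  rw [TK_loc P hK h1 h2 b h3]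
  unfold loc
  exact (Equiv.sum_comp (enK K p) fun k : Bk L K p =>
    ∫ z in ball (0 : ℂ) 1, pb ((L p).u k.1) (b.1 : F2 E4 M) z).symm

lemma fin_imm (P : PU L) (a : IK L K) (z : ℂ) (hz : z ∈ (chK a).target)
    (hzF : (chK a).symm z ∉ excK P) (v : ℂ)
    (hv : dmap (fun z => ff L ((chK a).symm z).1) z v = 0) : v = 0 := by
  rw [chK_target] at hz
  rw [chK_symm a hz] at hzF
  refine imm_off P a.1 hz (fun i hi => hzF ⟨i, (ff_phi L _ _).trans hi⟩) (v := v) ?_
  rw [← hv]
  refine congrFun (dmap_congr ?_) v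
  filter_upwards [isOpen_ball.mem_nhds hz] with w hw
  rw [chK_symm a hw]
  exact (ff_phi L a.1 ⟨w, hw⟩).symm

end fields

/-- **the curve of a component**. -/
def curveK (hJ : ∀ x v, atJ J x (atJ J x v) = -v) (P : PU L) (hK : IsClopen K)
    (hKc : IsConnected K) : JCurve J where
  N := K
  cpt := haveI := compact_NN L; isCompact_iff_compactSpace.1 hK.isClosed.isCompact
  conn := isConnected_iff_connectedSpace.1 hKc
  A := atK hK
  f x := ff L x.1
  cont := (ff_cont L).comp continuous_subtype_val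
  hol a := hol_K (K := K) a
  T := TK P K
  pcur := TK_pcur hJ P hK
  L := locK hK
  φ := phC K
  φ_cont p j := phC_cont (K := K) (p := p) j
  φ_inj p j := phC_inj (K := K) (p := p) j
  φ_open p j := phC_open (K := K) (p := p) j
  φ_hol p j i := phC_hol (K := K) (p := p) j i
  φ_imm p j i := phC_imm (K := K) (p := p) j i
  φ_f p j := phC_f (K := K) (p := p) j
  φ_cover := phC_cover hK
  φ_disj p i j := phC_disj (K := K) (p := p) j i
  cur := cur_K P hK
  fin := ⟨excK P, excK_finite P, fun _ _ hx hxy =>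
    Subtype.ext (inj_off P (fun i hi => hx ⟨i, hi⟩) hxy), fun a => fin_imm (K := K) P a⟩

end comp

/-- **REG-GLOB**. -/
theorem glob : GLOB.{u} := by
  intro M _ _ _ _ _ _ J hJs hJ S C hC
  choose L hL using hC
  obtain ⟨P⟩ := exists_PU L
  have := compact_NN L
  have := locConn_NN L
  set e := (Finite.equivFin (ConnectedComponents (NN L))).symm with he
  set K : Fin (Nat.card (ConnectedComponents (NN L))) → Set (NN L) :=
    fun i => ConnectedComponents.mk ⁻¹' {e i} with hKdef
  have hKx : ∀ i, ∃ x, K i = connectedComponent x := by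
    intro i
    obtain ⟨x, hx⟩ := ConnectedComponents.surjective_coe (e i)
    refine ⟨x, ?_⟩
    rw [hKdef]
    simp only
    rw [← hx, connectedComponents_preimage_singleton]
  have hKo : ∀ i, IsClopen (K i) := by
    intro i
    obtain ⟨x, hx⟩ := hKx i
    rw [hx]
    exact ⟨isClosed_connectedComponent, isOpen_connectedComponent⟩
  have hKc : ∀ i, IsConnected (K i) := by
    intro i
    obtain ⟨x, hx⟩ := hKx i
    rw [hx]
    exact isConnected_connectedComponent
  have hKu : ∀ x : NN L, x ∈ K (e.symm (ConnectedComponents.mk x)) := by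
    intro x
    rw [hKdef]
    simp
  have hKd : ∀ i j x, x ∈ K i → x ∈ K j → i = j := by
    intro i j x hi hj
    have h1 : ConnectedComponents.mk x = e i := hi
    have h2 : ConnectedComponents.mk x = e j := hj
    exact e.injective (h1.symm.trans h2)
  refine ⟨_, fun i => curveK hJ P (hKo i) (hKc i), ?_, ?_, ?_⟩
  · -- the current
    ext b
    rw [LinearMap.sum_apply]
    show C b = ∑ i, TK P (K i) b
    have h1 : ∀ (p : M) (b' : F2 E4 M), ∑ i, loc (K i) p b' =
        ∑ j : Fin (L p).n, ∫ z in ball (0 : ℂ) 1, pb ((L p).u j) b' z := by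
      intro p b'
      unfold loc
      have h := (Fintype.sum_sigma' (fun (i : Fin (Nat.card (ConnectedComponents (NN L))))
        (j : Bk L (K i) p) => ∫ z in ball (0 : ℂ) 1, pb ((L p).u j.1) b' z)).symm
      refine h.trans ?_
      refine Fintype.sum_bijective (fun x : (i : Fin (Nat.card (ConnectedComponents (NN L)))) ×
        Bk L (K i) p => x.2.1) ⟨?_, ?_⟩ _ _ fun x => rfl
      · rintro ⟨i, j⟩ ⟨i', j'⟩ hjj
        have h0 : j.1 = j'.1 := hjj
        have hx : phi (uu L) ⟨p, j.1⟩ ⟨0, mem_ball_self one_pos⟩ ∈ K i := j.2 ⟨_, rfl⟩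
        have hx' : phi (uu L) ⟨p, j.1⟩ ⟨0, mem_ball_self one_pos⟩ ∈ K i' := by
          rw [h0]
          exact j'.2 ⟨_, rfl⟩
        obtain rfl := hKd i i' _ hx hx'
        obtain rfl : j = j' := Subtype.ext h0
        rfl
      · intro j
        have hx := hKu (phi (uu L) ⟨p, j⟩ ⟨0, mem_ball_self one_pos⟩)
        exact ⟨⟨_, ⟨j, range_sub (hKo _) _ ⟨_, rfl⟩ hx⟩⟩, rfl⟩
    simp only [TK_apply]
    rw [Finset.sum_comm]
    simp only [h1]
    conv_lhs => rw [← P.sum_fm b, map_sum]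
    refine Finset.sum_congr rfl fun k _ => ?_
    exact hL (P.p k) _ _ (P.compact k) (P.supp k) (P.fm_zero k b)
  · -- the support
    ext x
    constructor
    · intro hx
      have h1 : x ∈ S ∩ (L x).U := ⟨hx, (L x).mem⟩
      rw [(L x).supp] at h1
      obtain ⟨j, z, hz, hzx⟩ := mem_iUnion.1 h1
      refine mem_iUnion.2 ⟨_, ⟨⟨phi (uu L) ⟨x, j⟩ ⟨z, hz⟩, hKu _⟩, ?_⟩⟩
      exact (ff_phi L _ _).trans hzx
    · intro hx
      obtain ⟨i, y, rfl⟩ := mem_iUnion.1 hx
      obtain ⟨a, z, hz⟩ := exists_phi (u := uu L) y.1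
      show ff L y.1 ∈ S
      rw [← hz, ff_phi]
      exact uu_mem L a z.2
  · -- intersections
    intro i j hij
    refine (Set.finite_range P.p).subset ?_
    rintro x ⟨⟨y, hy⟩, ⟨y', hy'⟩⟩
    by_contra hcon
    have h1 : y.1 = y'.1 := by
      refine inj_off P (fun k hk => hcon ⟨k, ?_⟩) (hy.trans hy'.symm)
      exact hk.symm.trans hy
    exact hij (hKd i j y.1 y.2 (h1 ▸ y'.2))

end

end Crest.Agent.R235.Glob_370
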