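import Crest.Agent.R235.HodgePr_194
import Crest.Agent.R235.IndVol_57
import Crest.Agent.R235.Ip_288

/-!
Row 235 (S0364), package IND, leaf IND-7 HODGE (helper194), part 10: the main theorem.

* `kerA_of`, `kerB_of` : `KerD` bases of the kernels of a Clifford pair;
* `hodge_main`         : two Hodge pairs (`SDp`, `SDm`) ⇒ Betti numbers, `H² = P ⊕ N`, dimensions.
-/

set_option autoImplicit false
set_option maxSynthPendingDepth 3
set_option linter.unusedSectionVars false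

open Set Function Filter MeasureTheory Bundle
open scoped Manifold ContDiff Topology ENNReal
open Crest.GeometryTopology.CoordMetric Crest.GeometryTopology.ChartCurvature
  Crest.GeometryTopology.PointedLimit
open Crest.Agent.R202.Tens Crest.Agent.R247.Bo84 Crest.Agent.R249.Vf281
open Crest.Agent.R249.Tz2_805 Crest.Agent.R249.Tz805 Crest.Agent.R249.Idx789

namespace Crest.Agent.R235.Hodge_194

open Crest.Agent.R240 Crest.Agent.R240.Ch Crest.Agent.R240.Int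
open Crest.Agent.R235.HodgeAbs_194
open Crest.Agent.R249.Tv57 (KerD)

noncomputable section

section sign

variable {M : Type} [TopologicalSpace M] [T2Space M] [CompactSpace M]
  [ChartedSpace E4 M] [IsManifold 𝓘(ℝ, E4) ∞ M] [MeasurableSpace M] [BorelSpace M]

theorem Fr.I_pp {F : F2 E4 M} {e : Fin 3 → F2 E4 M} (h : Fr F e) {p : X2 M}
    (hp : p ∈ SDp F e) (h0 : p ≠ 0) : 0 < IL F h.vol p p := by
  have h1 : 0 ≤ IL F h.vol p p := by
    refine integral_nonneg fun x => ?_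
    show 0 ≤ qG F p.1 p.1 x
    rw [h.qG_pp hp]
    exact Finset.sum_nonneg fun i _ => sq_nonneg _
  exact lt_of_le_of_ne h1 fun h2 => h0 (h.spl.def1 p hp h2.symm)

theorem Fr.I_mm {F : F2 E4 M} {e : Fin 3 → F2 E4 M} (h : Fr F e) {m : X2 M}
    (hm : m ∈ SDm F e) (h0 : m ≠ 0) : IL F h.vol m m < 0 := by
  have h1 : IL F h.vol m m ≤ 0 := by
    refine integral_nonpos fun x => ?_
    show qG F m.1 m.1 x ≤ 0
    by_cases hx : at2 m.1 x = 0
    · have : qG F m.1 m.1 x = 0 := by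
        show q _ _ _ = 0
        rw [hx]
        unfold q
        rw [Fund.W_zero_right, zero_div]
      exact this.le
    · exact (h.qG_mm hm hx).le
  exact lt_of_le_of_ne h1 fun h2 => h0 (h.spl.def2 m hm h2)

end sign

variable {M : Type} [MetricSpace M] [ChartedSpace (EuclideanSpace ℝ (Fin 4)) M]
  [IsManifold (𝓡 4) ∞ M]
  [RiemannianBundle (fun p : M => TangentSpace (𝓡 4) p)]
  [IsContMDiffRiemannianBundle (𝓡 4) ∞ (EuclideanSpace ℝ (Fin 4)) (fun p : M => TangentSpace (𝓡 4) p)]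
  [IsRiemannianManifold (𝓡 4) M] [MeasurableSpace M] [BorelSpace M]
  [SecondCountableTopology M] [Nonempty M] [CompactSpace M]

local notation "𝔼" => EuclideanSpace ℝ (Fin 4)
local notation "𝓘E" => 𝓘(ℝ, EuclideanSpace ℝ (Fin 4))
local notation "μ4" => (μHE[4] : Measure M)

variable {κ κ0 κ0' κ1 : Type} [Fintype κ] [Fintype κ0] [Fintype κ0'] [Fintype κ1]

/-- dimension of a kernel -/
def KDim {S S' : Type*} [AddCommGroup S] [Module ℝ S] [AddCommGroup S'] [Module ℝ S']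
    (A : S →ₗ[ℝ] S') (N : ℕ) : Prop :=
  FiniteDimensional ℝ (LinearMap.ker A) ∧ Module.finrank ℝ (LinearMap.ker A) = N

theorem kerA_of (P : CPair 4 M κ κ0 κ1) {T : ToF 4 M} {N : ℕ}
    (K : KerD (Crest.Agent.R249.Wk352.dat0 T P) (opA P.D0 P.cc) N) : KDim (AL P) N := by
  refine finrank_ker (AL P) K.u (fun i => ⟨K.smooth i, K.sec i⟩)
    (fun i => Subtype.ext (funext fun b => funext fun z => K.ker i b z)) K.li fun v hv => ?_
  refine ⟨fun i => Crest.Agent.R249.Tv57.ip 4 v.1 (K.u i), funext fun a => funext fun z => ?_⟩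
  have h1 : ∀ b z, opA P.D0 P.cc v.1 b z = 0 := fun b z =>
    congrFun (congrFun (congrArg Subtype.val hv) b) z
  rw [K.span v.1 v.2.1 v.2.2 h1 a z, Finset.sum_apply, Finset.sum_apply]
  rfl

theorem kerB_of (P : CPair 4 M κ κ0 κ1) {T : ToF 4 M} {N : ℕ}
    (K : KerD (Crest.Agent.R249.Wk352.dat0 T (Crest.Agent.R249.Wk352.swapP P))
      (opB P.D1 P.cc) N) : KDim (BL P) N := by
  refine finrank_ker (BL P) K.u (fun i => ⟨K.smooth i, K.sec i⟩)
    (fun i => Subtype.ext (funext fun b => funext fun z => K.ker i b z)) K.li fun v hv => ?_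
  refine ⟨fun i => Crest.Agent.R249.Tv57.ip 4 v.1 (K.u i), funext fun a => funext fun z => ?_⟩
  have h1 : ∀ b z, opB P.D1 P.cc v.1 b z = 0 := fun b z =>
    congrFun (congrFun (congrArg Subtype.val hv) b) z
  rw [K.span v.1 v.2.1 v.2.2 h1 a z, Finset.sum_apply, Finset.sum_apply]
  rfl

set_option maxHeartbeats 2000000 in
/-- **the Hodge theorem** -/
theorem hodge_main [ConnectedSpace M] {F : Z2 M} {e : Fin 3 → F2 E4 M}
    (h0 : e 0 = (F.1.1 : F2 E4 M)) (fr : Fr (e 0) e) {P : CPair 4 M κ κ0 κ}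
    {P' : CPair 4 M κ κ0' κ} {s : PF 4 M κ} (R : Inp P s fr.vol (SDp (e 0) e))
    (R' : Inp P' s fr.vol (SDm (e 0) e)) {d0 d1 d0' d1' : ℕ} (K0 : KDim (AL P) d0)
    (K1 : KDim (BL P) d1) (K0' : KDim (AL P') d0') (K1' : KDim (BL P') d1') :
    ∃ (b1 bp bm : ℕ) (Pp Nn : Submodule ℝ (H2 M)),
      (∃ t : Fin b1 → F1 E4 M, (∀ i, Closed1 (t i)) ∧
        (∀ r : F1 E4 M, Closed1 r → ∃ (c : Fin b1 → ℝ) (f : M → ℝ), SmoothF E4 f ∧
          r = (∑ i, c i • t i) + dF f) ∧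
        ∀ (c : Fin b1 → ℝ) (f : M → ℝ), SmoothF E4 f → (∑ i, c i • t i) = dF f → c = 0) ∧
      FiniteDimensional ℝ (H2 M) ∧ Pp ⊔ Nn = ⊤ ∧
      Module.finrank ℝ Pp = bp ∧ Module.finrank ℝ Nn = bm ∧
      (∀ x ∈ Pp, x ≠ 0 → 0 < Crest.Agent.R235.ip F x x) ∧
      (∀ x ∈ Nn, x ≠ 0 → Crest.Agent.R235.ip F x x < 0) ∧
      (∀ x ∈ Pp, ∀ y ∈ Nn, Crest.Agent.R235.ip F x y = 0) ∧
      d0 = 1 + bp ∧ d1 = b1 ∧ d0' = 1 + bm ∧ d1' = b1 := by
  have S := fr.spl
  have S' := S.swap (IL_symm fr.vol)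
  have f0 : FiniteDimensional ℝ (LinearMap.ker R.hpr.A) := K0.1
  have f1 : FiniteDimensional ℝ (LinearMap.ker R.hpr.B) := K1.1
  have f0' : FiniteDimensional ℝ (LinearMap.ker R'.hpr.A) := K0'.1
  have a1 := R.hpr.finrank_kerA
  have a2 := R.hpr.finrank_kerB S
  have a3 := R'.hpr.finrank_kerA
  have a4 := R'.hpr.finrank_kerB S'
  have c0 : Module.finrank ℝ (LinearMap.ker R.hpr.A) = d0 := K0.2
  have c1 : Module.finrank ℝ (LinearMap.ker R.hpr.B) = d1 := K1.2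
  have c0' : Module.finrank ℝ (LinearMap.ker R'.hpr.A) = d0' := K0'.2
  have c1' : Module.finrank ℝ (LinearMap.ker R'.hpr.B) = d1' := K1'.2
  have hk : Module.finrank ℝ (LinearMap.ker (Hs s fr.vol).D) = 1 := finrank_kerDL
  have g1 := a1.2
  have g2 := a3.2
  have hZ : ∀ a, a ∈ Z2 M ↔ a ∈ (Hs s fr.vol).Z := fun a => mem_Z2_iff fr.vol a
  have hB : ∀ z : Z2 M, z ∈ B2 M ↔ ∃ α, (z : X2 M) = (Hs s fr.vol).d α := by
    intro z
    rw [mem_B2, isEx_iff]
    constructor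
    · rintro ⟨α, hα, he⟩
      exact ⟨⟨α, hα⟩, Subtype.ext he⟩
    · rintro ⟨α, he⟩
      exact ⟨α.1, α.2, congrArg Subtype.val he⟩
  obtain ⟨Pp, Nn, hc, ⟨e1⟩, ⟨e2⟩, r1, r2⟩ := HSys.quot (H := Hs s fr.vol) hZ hB S
    (fun φ hφ h => R.hpr.solve S R.hs φ hφ h)
  have hF : Vol (F.1.1 : F2 E4 M) := h0 ▸ fr.vol
  have hip : ∀ a b : Z2 M, Crest.Agent.R235.ip F (cls a) (cls b) = IL (e 0) fr.vol a.1 b.1 := by
    intro a b
    rw [ip_cls hF, Crest.Agent.R235.IndVol_57.pI_eq_I, IL_apply, h0]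
  have fP : FiniteDimensional ℝ Pp := e1.finiteDimensional
  have fN : FiniteDimensional ℝ Nn := e2.finiteDimensional
  -- one-forms
  have fH : FiniteDimensional ℝ (Hs s fr.vol).Harm := by
    have h1 : LinearMap.ker R.hpr.B = (Hs s fr.vol).Harm.comap
        (R.hpr.Ψ : SS P.D1 →ₗ[ℝ] X1 M) := by
      ext w
      rw [LinearMap.mem_ker, R.hpr.kerB S]
      rfl
    rw [h1] at f1
    exact (R.hpr.Ψ.ofSubmodule' (Hs s fr.vol).Harm).finiteDimensional
  let B := Module.finBasis ℝ (Hs s fr.vol).Harm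
  obtain ⟨b1s, b1i⟩ := basis_H1 (H := Hs s fr.vol) (poissonL s) B
  refine ⟨Module.finrank ℝ (Hs s fr.vol).Harm, Module.finrank ℝ Pp, Module.finrank ℝ Nn, Pp, Nn,
    ⟨fun i => (B i : X1 M).1, fun i => (closed1_iff _).2 (B i).2.2, fun r hr => ?_,
      fun c f hf hcf => ?_⟩, ?_, hc.sup_eq_top, rfl, rfl, ?_, ?_, ?_, ?_, ?_, ?_, ?_⟩
  · obtain ⟨c, f, hcf⟩ := b1s ⟨r, hr.1⟩ ((closed1_iff ⟨r, hr.1⟩).1 hr)
    refine ⟨c, f.1, f.2, ?_⟩
    have h1 := congrArg Subtype.val hcf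
    refine h1.trans ?_
    rw [Submodule.coe_add, Submodule.coe_sum]
    rfl
  · refine b1i c ⟨f, hf⟩ (Subtype.ext ?_)
    rw [Submodule.coe_sum]
    exact hcf
  · have h1 : FiniteDimensional ℝ (Pp ⊔ Nn : Submodule ℝ (H2 M)) := inferInstance
    rw [hc.sup_eq_top] at h1
    exact Module.finite_def.2 (Module.Finite.iff_fg.1 h1)
  · intro x hx hx0
    obtain ⟨z, hz, rfl⟩ := r1 x hx
    have h1 := hip z z
    refine lt_of_lt_of_eq (fr.I_pp hz fun h2 => hx0 ?_) h1.symm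
    have : z = 0 := Subtype.ext h2
    rw [this, map_zero]
  · intro x hx hx0
    obtain ⟨z, hz, rfl⟩ := r2 x hx
    have h1 := hip z z
    refine lt_of_eq_of_lt h1 (fr.I_mm hz fun h2 => hx0 ?_)
    have : z = 0 := Subtype.ext h2
    rw [this, map_zero]
  · intro x hx y hy
    obtain ⟨z, hz, rfl⟩ := r1 x hx
    obtain ⟨t, ht, rfl⟩ := r2 y hy
    exact (hip z t).trans (S.orth _ hz _ ht)
  · rw [← c0, a1.1, hk, e1.finrank_eq]
  · rw [← c1, a2]
  · rw [← c0', a3.1, hk, e2.finrank_eq]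
  · rw [← c1', a4]

end

end Crest.Agent.R235.Hodge_194
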