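import Crest.Agent.R235.IndSolveB_956
import Crest.Agent.R249.Tv12_57
import Crest.Agent.R249.WkD_352
import Crest.Agent.R249.TofM_352

/-!
# R235, PACKAGE IND, node IND-6 SOLVE (helper956): smooth solvability for Clifford pairs on a closed
connected Riemannian manifold (setting of R249).

* `solve_dat`      : Fredholm alternative for `D* D + Q` on smooth sections (weak form, no sign of `Q`);
* `opPair_solve`   : `f` a smooth section orthogonal to `ker A` => `f = B (A v)`, `v` a smooth section;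
* `opPair_decomp`  : `f = ∑ ⟨f, k_i⟩ k_i + B (A v)` (with a `KerD` basis);
* `exists_ker`     : `KerD` bases exist (no index theorem needed);
* `cpair_solve`, `cpair_decomp`, `cpair_ker` : the same for `opA`, `opB` of a `CPair`.
-/

set_option autoImplicit false
set_option linter.unusedSectionVars false
set_option maxSynthPendingDepth 3
open scoped ContDiff ENNReal NNReal Topology Manifold Bundle RealInnerProductSpace
open MeasureTheory Set Filter Metric Bundle

noncomputable section
namespace Crest.Agent.R235.IndSolve_956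

open Crest.Agent.R247.Dir593 Crest.Agent.R247.Ms322 Crest.Agent.R247.Frd657
open Crest.GeometryTopology.CoordMetric Crest.GeometryTopology.ChartCurvature
open Crest.GeometryTopology.PointedLimit Crest.Agent.R247.Mcp688
open Crest.Agent.R249.Tv57 Crest.Agent.R249.Tz805

section transfer
variable {n : ℕ} {M : Type*} [MetricSpace M] [ChartedSpace (EuclideanSpace ℝ (Fin n)) M]
  [IsManifold (𝓡 n) ∞ M]
  [RiemannianBundle (fun p : M => TangentSpace (𝓡 n) p)]
  [IsContMDiffRiemannianBundle (𝓡 n) ∞ (EuclideanSpace ℝ (Fin n)) (fun p : M => TangentSpace (𝓡 n) p)]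
  [IsRiemannianManifold (𝓡 n) M] [MeasurableSpace M] [BorelSpace M]
  [SecondCountableTopology M] [Nonempty M] [CompactSpace M]
  [IsFiniteMeasureOnCompacts (μHE[n] : Measure M)] {κ : Type} [Fintype κ]

local notation "𝔼" => EuclideanSpace ℝ (Fin n)

/-- the class of a smooth section -/
def cls {v : κ → M → ℝ} (hv : SmV (n := n) v) : HH (μHE[n] : Measure M) κ :=
  WithLp.toLp 2 (fun a => GradS.tL (isT_smooth (hv a)))

theorem cls_ae {v : κ → M → ℝ} (hv : SmV (n := n) v) :
    ∀ᵐ x ∂(μHE[n] : Measure M), ∀ a, (cls hv a : M → ℝ) x = v a x := by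
  rw [ae_all_iff]
  intro a
  exact GradS.coe_tL (isT_smooth (hv a))

theorem cls_mem {v : κ → M → ℝ} (hv : SmV (n := n) v) (a : κ) : cls hv a ∈ (gradS n M).V :=
  (gradS n M).tL_mem (isT_smooth (hv a))

theorem cls_D {v : κ → M → ℝ} (hv : SmV (n := n) v) :
    ∀ᵐ x ∂(μHE[n] : Measure M), ∀ a, ((gradS n M).D (cls hv a) : M → 𝔼) x = Gr (n := n) (v a) x := by
  rw [ae_all_iff]
  intro a
  exact (gradS n M).D_tL (isT_smooth (hv a))

/-- a class with a smooth representative is the class of that representative -/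
theorem eq_cls {u : HH (μHE[n] : Measure M) κ} {φ : κ → M → ℝ} (hφ : SmV (n := n) φ)
    (he : ∀ᵐ x ∂(μHE[n] : Measure M), ∀ a, (u a : M → ℝ) x = φ a x) : u = cls hφ := by
  ext a
  filter_upwards [he, cls_ae hφ] with x e1 e2
  rw [e1 a, e2 a]

theorem en_cls (D : Dat n M κ) {u v : κ → M → ℝ} (hu : SmV (n := n) u) (hv : SmV (n := n) v) :
    ∫ x, D.toAD.en (cls hu) (cls hv) x ∂(μHE[n] : Measure M) =
      ∫ x, D.ed u v x ∂(μHE[n] : Measure M) := by
  refine integral_congr_ae ?_
  filter_upwards [cls_ae hu, cls_ae hv, cls_D hu, cls_D hv] with x e1 e2 e3 e4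
  rw [AD.en, Dat.ed]
  congr 1
  · refine Finset.sum_congr rfl fun a _ => ?_
    have c1 : D.cv u a x = D.toAD.cvf (cls hu) a x := by
      rw [Dat.cv, AD.cvf, e3 a]
      congr 1
      exact Finset.sum_congr rfl fun b _ => by rw [e1 b]; rfl
    have c2 : D.cv v a x = D.toAD.cvf (cls hv) a x := by
      rw [Dat.cv, AD.cvf, e4 a]
      congr 1
      exact Finset.sum_congr rfl fun b _ => by rw [e2 b]; rfl
    rw [c1, c2]
  · refine Finset.sum_congr rfl fun a _ => Finset.sum_congr rfl fun b _ => ?_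
    rw [e1 b, e2 a]
    rfl

theorem inner_cls {u v : κ → M → ℝ} (hu : SmV (n := n) u) (hv : SmV (n := n) v) :
    ⟪cls hu, cls hv⟫ = ip n u v := inner_HH _ _ (cls_ae hu) (cls_ae hv)

theorem P_cls (D : Dat n M κ) {u : κ → M → ℝ} (hu : SmV (n := n) u) (hs : D.Sec u) :
    D.toAD.P (cls hu) = cls hu := by
  ext a
  filter_upwards [D.toAD.coe_P (cls hu), cls_ae hu] with x e1 e2
  rw [e1 a, e2 a, ← hs a x]
  exact Finset.sum_congr rfl fun b _ => by rw [e2 b]; rfl

theorem sec_cls (D : Dat n M κ) {u : κ → M → ℝ} (hu : SmV (n := n) u)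
    (hP : D.toAD.P (cls hu) = cls hu) : D.Sec u := by
  have := isOpenPosMeasure n M
  intro a
  have hc : Continuous fun z => ∑ b, D.p a b z * u b z :=
    continuous_finsetSum _ fun b _ => (D.smp a b).continuous.mul (hu b).continuous
  have h1 : (fun z => ∑ b, D.p a b z * u b z) =ᵐ[(μHE[n] : Measure M)] u a := by
    have h2 := D.toAD.coe_P (cls hu)
    rw [hP] at h2
    filter_upwards [h2, cls_ae hu] with z e1 e2
    rw [← e2 a, e1 a]
    refine Finset.sum_congr rfl fun b _ => ?_
    rw [e2 b]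
    rfl
  intro z
  exact congrFun ((hc.ae_eq_iff_eq _ (hu a).continuous).1 h1) z

end transfer

universe v
variable {n : ℕ} {M : Type v} [MetricSpace M] [CompactSpace M] [ConnectedSpace M]
    [ChartedSpace (EuclideanSpace ℝ (Fin n)) M]
    [IsManifold (𝓡 n) ∞ M]
    [RiemannianBundle (fun p : M => TangentSpace (𝓡 n) p)]
    [IsContMDiffRiemannianBundle (𝓡 n) ∞ (EuclideanSpace ℝ (Fin n))
      (fun p : M => TangentSpace (𝓡 n) p)]
    [IsRiemannianManifold (𝓡 n) M]
    [MeasurableSpace M] [BorelSpace M] [SecondCountableTopology M] [Nonempty M]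
variable {κ κ' : Type} [Fintype κ] [Fintype κ']

local notation "𝔼" => EuclideanSpace ℝ (Fin n)

/-- sections of a bundle of rank zero vanish -/
theorem sec_zero (D : Dat n M κ) (h : ∀ a z, D.p a a z = 0) {u : κ → M → ℝ} (hs : D.Sec u) (a : κ)
    (z : M) : u a z = 0 := by
  have h1 : ∀ b, D.p a b z = 0 := by
    have h2 : ∑ c, D.p a c z ^ 2 = 0 := by
      rw [← h a z, ← D.idem a a z]
      exact Finset.sum_congr rfl fun c _ => by rw [D.symmp c a z, sq]
    intro b
    have h3 := (Finset.sum_eq_zero_iff_of_nonneg fun c _ => sq_nonneg (D.p a c z)).1 h2 b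
      (Finset.mem_univ b)
    exact pow_eq_zero_iff two_ne_zero |>.1 h3
  rw [← hs a z]
  exact Finset.sum_eq_zero fun b _ => by rw [h1 b, zero_mul]

/-- **Fredholm alternative for `D* D + Q` on smooth sections** (weak form) -/
theorem solve_dat (hn : 1 ≤ n) (D : Dat n M κ) {f : κ → M → ℝ} (hf : SmV (n := n) f)
    (hs : D.Sec f)
    (hk : ∀ φ : κ → M → ℝ, SmV (n := n) φ → D.Sec φ →
      (∀ v : κ → M → ℝ, SmV (n := n) v → ∫ z, D.ed φ v z ∂(μHE[n] : Measure M) = 0) →
      ip n φ f = 0) :
    ∃ v : κ → M → ℝ, SmV (n := n) v ∧ D.Sec v ∧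
      ∀ w : κ → M → ℝ, SmV (n := n) w → ∫ z, D.ed v w z ∂(μHE[n] : Measure M) = ip n f w := by
  have := Crest.Agent.R247.HR216.properSpace_of_riemannian n M
  have := isLocallyFinite_muHE n M
  have := isOpenPosMeasure n M
  have : IsFiniteMeasure (μHE[n] : Measure M) := ⟨isCompact_univ.measure_lt_top⟩
  obtain ⟨k, hk0, hRic⟩ := Crest.Agent.R249.Grn324.exists_ricciLowerBound n M
  by_cases hz : ∀ a z, D.p a a z = 0
  · have hf0 : ∀ a z, f a z = 0 := sec_zero D hz hs
    refine ⟨fun _ _ => 0, fun a => contMDiff_const, fun a z => by simp, fun w hw => ?_⟩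
    have hcv : ∀ a z, D.cv (fun _ _ => (0:ℝ)) a z = 0 := by
      intro a z
      rw [Dat.cv]
      have h1 : Gr (n := n) (fun _ : M => (0:ℝ)) z = 0 := Gr_off (by
        have : tsupport (fun _ : M => (0:ℝ)) = ∅ := tsupport_eq_empty_iff.2 rfl
        rw [this]; exact fun h => h)
      rw [h1]
      simp
    have h2 : ∀ z, D.ed (fun _ _ => (0:ℝ)) w z = 0 := by
      intro z
      simp [Dat.ed, hcv]
    simp only [h2, integral_zero]
    unfold ip
    simp only [hf0, zero_mul, Finset.sum_const_zero, integral_zero]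
  · push Not at hz
    obtain ⟨a, z, hz⟩ := hz
    obtain ⟨u, hV, hP, hu⟩ := weakSolve D.toAD (fried_M hn hk0 hRic) (gradS n M).dense_V
      (D.toAD.not_finiteDimensional (fun x => muHE_singleton n hn x) (a := a) (x0 := z) hz)
      (f := cls hf) (P_cls D hf hs) (by
        intro u hV hP hu
        obtain ⟨φ, hφ', he⟩ := smooth_rhs D (g := 0) (f := fun _ _ => 0) hV
          (fun a => contMDiff_const) (by
            rw [ae_all_iff]
            intro a
            filter_upwards [Lp.coeFn_zero ℝ 2 (μHE[n] : Measure M)] with x hx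
            exact hx) (by
            intro v hv
            rw [hu v hv, inner_zero_left])
        have hφ : SmV (n := n) φ := hφ'
        have h1 := eq_cls (n := n) hφ he
        subst h1
        rw [inner_cls]
        refine hk φ hφ (sec_cls D hφ hP) fun v hv => ?_
        rw [← en_cls D hφ hv]
        exact hu _ (cls_mem hv))
    obtain ⟨φ, hφ', he⟩ := smooth_rhs D hV hf (cls_ae hf) hu
    have hφ : SmV (n := n) φ := hφ'
    have h1 := eq_cls (n := n) hφ he
    subst h1
    refine ⟨φ, hφ, sec_cls D hφ hP, fun w hw => ?_⟩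
    rw [← en_cls D hφ hw, hu _ (cls_mem hw), inner_cls]

variable {D0 : Dat n M κ} {D1 : Dat n M κ'}

theorem ip_sub_left [IsFiniteMeasureOnCompacts (μHE[n] : Measure M)] {u v w : κ → M → ℝ}
    (hu : SmV (n := n) u) (hv : SmV (n := n) v) (hw : SmV (n := n) w) :
    ip n (fun a z => u a z - v a z) w = ip n u w - ip n v w := by
  unfold ip
  rw [← integral_sub (integrable_ip hu hw) (integrable_ip hv hw)]
  refine integral_congr_ae (Eventually.of_forall fun z => ?_)
  simp only [sub_mul, Finset.sum_sub_distrib]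

/-- **a smooth section orthogonal to the kernel of `A` is `B A v`** -/
theorem opPair_solve (hn : 1 ≤ n) (P : OpPair D0 D1) {f : κ → M → ℝ} (hf : SmV (n := n) f)
    (hs : D0.Sec f) (hk : ∀ k : κ → M → ℝ, SmV (n := n) k → D0.Sec k → (∀ b z, P.A k b z = 0) →
      ip n k f = 0) :
    ∃ v : κ → M → ℝ, SmV (n := n) v ∧ D0.Sec v ∧ ∀ a z, P.B (P.A v) a z = f a z := by
  have := Crest.Agent.R247.HR216.properSpace_of_riemannian n M
  have := isLocallyFinite_muHE n M
  obtain ⟨v, hv, hvs, h⟩ := solve_dat hn D0 hf hs (by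
    intro φ hφ hφs h
    refine hk φ hφ hφs (eq_zero_of_ip (P.smA φ hφ hφs) ?_)
    rw [← P.enA φ φ hφ hφs hφ hφs, h φ hφ])
  refine ⟨v, hv, hvs, ?_⟩
  have a1 := P.smA v hv hvs
  have a2 := P.secA v hv hvs
  have b1 := P.smB _ a1 a2
  have b2 := P.secB _ a1 a2
  set w : κ → M → ℝ := fun a z => P.B (P.A v) a z - f a z with hw
  have hws : SmV (n := n) w := fun a => (b1 a).sub (hf a)
  have hwS : D0.Sec w := by
    intro a z
    simp only [hw, mul_sub, Finset.sum_sub_distrib, hs a z, b2 a z]
  have h0 : ip n w w = 0 := by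
    have e1 : ip n w w = ip n (P.B (P.A v)) w - ip n f w := ip_sub_left b1 hf hws
    have e2 : ip n (P.A v) (P.A w) = ip n (P.B (P.A v)) w := by
      rw [ip_comm (P.A v), P.adj w (P.A v) hws hwS a1 a2, ip_comm]
    rw [e1, ← e2, ← P.enA v w hv hvs hws hwS, h w hws, sub_self]
  intro a z
  have := eq_zero_of_ip hws h0 a z
  simp only [hw] at this
  linarith

/-- **orthogonal decomposition** of a smooth section of the first bundle -/
theorem opPair_decomp (hn : 1 ≤ n) (P : OpPair D0 D1) {N : ℕ} (K : KerD D0 P.A N) {f : κ → M → ℝ}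
    (hf : SmV (n := n) f) (hs : D0.Sec f) :
    ∃ v : κ → M → ℝ, SmV (n := n) v ∧ D0.Sec v ∧
      ∀ a z, f a z = ∑ i, ip n f (K.u i) * K.u i a z + P.B (P.A v) a z := by
  have := Crest.Agent.R247.HR216.properSpace_of_riemannian n M
  have := isLocallyFinite_muHE n M
  set g : κ → M → ℝ := fun a z => ∑ i, ip n f (K.u i) * K.u i a z with hg
  have hgs : SmV (n := n) g := fun a =>
    contMDiff_finsetSum fun i _ => contMDiff_const.mul (K.smooth i a)
  have hgS : D0.Sec g := by
    intro a z
    simp only [hg, Finset.mul_sum]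
    rw [Finset.sum_comm]
    refine Finset.sum_congr rfl fun i _ => ?_
    rw [← K.sec i a z, Finset.mul_sum]
    exact Finset.sum_congr rfl fun b _ => by ring
  have hgk : ∀ j, ip n g (K.u j) = ip n f (K.u j) := by
    intro j
    have e1 : ip n g (K.u j) = ∑ i, ip n f (K.u i) * ip n (K.u i) (K.u j) := by
      unfold ip
      simp only [hg]
      simp only [← integral_const_mul]
      rw [← integral_finsetSum]
      · refine integral_congr_ae (Eventually.of_forall fun z => ?_)
        simp only [ip, Finset.sum_mul, Finset.mul_sum]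
        rw [Finset.sum_comm]
        exact Finset.sum_congr rfl fun k _ => Finset.sum_congr rfl fun a _ => by ring
      · intro k _
        exact (integrable_ip (K.smooth k) (K.smooth j)).const_mul _
    rw [e1]
    simp only [K.ortho, mul_ite, mul_one, mul_zero]
    rw [Finset.sum_ite_eq' Finset.univ j]
    simp
  obtain ⟨v, hv, hvs, h⟩ := opPair_solve hn P (f := fun a z => f a z - g a z)
    (fun a => (hf a).sub (hgs a)) (by
      intro a z
      simp only [mul_sub, Finset.sum_sub_distrib, hs a z, hgS a z]) (by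
      intro k hk hks hA
      have hd : ∀ j, ip n (fun a z => f a z - g a z) (K.u j) = 0 := by
        intro j
        rw [ip_sub_left hf hgs (K.smooth j), hgk j, sub_self]
      have hkk : k = fun a z => ∑ i, ip n k (K.u i) * K.u i a z := by
        funext a z
        exact K.span k hk hks hA a z
      have e1 : ip n k (fun a z => f a z - g a z) =
          ∑ i, ip n k (K.u i) * ip n (K.u i) (fun a z => f a z - g a z) := by
        have e2 : ip n k (fun a z => f a z - g a z) =
            ip n (fun a z => ∑ i, ip n k (K.u i) * K.u i a z) (fun a z => f a z - g a z) := by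
          rw [← hkk]
        rw [e2]
        unfold ip
        simp only [← integral_const_mul]
        rw [← integral_finsetSum]
        · refine integral_congr_ae (Eventually.of_forall fun z => ?_)
          simp only [Finset.sum_mul, Finset.mul_sum]
          rw [Finset.sum_comm]
          exact Finset.sum_congr rfl fun k _ => Finset.sum_congr rfl fun a _ => by ring
        · intro k _
          exact (integrable_ip (K.smooth k) (fun a => (hf a).sub (hgs a))).const_mul _
      rw [e1]
      refine Finset.sum_eq_zero fun i _ => ?_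
      rw [ip_comm (K.u i), hd i, mul_zero])
  refine ⟨v, hv, hvs, fun a z => ?_⟩
  rw [h a z]
  simp only [hg]
  ring

/-- **the kernel of `A` is finite dimensional** -/
theorem exists_ker (hn : 1 ≤ n) (P : OpPair D0 D1) : ∃ N : ℕ, Nonempty (KerD D0 P.A N) := by
  have := Crest.Agent.R247.HR216.properSpace_of_riemannian n M
  have := isLocallyFinite_muHE n M
  obtain ⟨k, hk0, hRic⟩ := Crest.Agent.R249.Grn324.exists_ricciLowerBound n M
  by_cases hz : ∀ a z, D0.p a a z = 0
  · refine ⟨0, ⟨⟨fun i => i.elim0, fun i => i.elim0, fun i => i.elim0, fun i => i.elim0, ?_,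
      fun i => i.elim0, ?_⟩⟩⟩
    · exact linearIndependent_empty_type
    · intro v _ hs _ a z
      simp [sec_zero D0 hz hs a z]
  · push Not at hz
    obtain ⟨a, z, hz⟩ := hz
    obtain ⟨S0⟩ := exists_spec hn hk0 hRic D0 hz
    exact ⟨_, exists_kerD P S0⟩

/-! ### Clifford pairs -/

section cpair
variable {κ0 κ1 : Type} [Fintype κ0] [Fintype κ1] (P : CPair n M κ κ0 κ1)

/-- orthonormal basis of the kernel of the operator `opA` of a Clifford pair -/
structure KerC (N : ℕ) where
  u : Fin N → κ0 → M → ℝ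
  smooth : ∀ i, SmU (n := n) (u i)
  sec : ∀ i, P.D0.Sec (u i)
  ker : ∀ i b z, opA P.D0 P.cc (u i) b z = 0
  li : LinearIndependent ℝ u
  ortho : ∀ i j, ip n (u i) (u j) = if i = j then 1 else 0
  span : ∀ v, SmU (n := n) v → P.D0.Sec v → (∀ b z, opA P.D0 P.cc v b z = 0) →
    ∀ a z, v a z = ∑ i, ip n v (u i) * u i a z

theorem cpair_ker (hn : 1 ≤ n) : ∃ N : ℕ, Nonempty (KerC P N) := by
  obtain ⟨N, ⟨K⟩⟩ := exists_ker hn
    (ofD (Crest.Agent.R249.Wk352.dpair (Crest.Agent.R249.Tof352.tof n M) P))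
  exact ⟨N, ⟨⟨K.u, K.smooth, K.sec, K.ker, K.li, K.ortho, K.span⟩⟩⟩

theorem cpair_solve (hn : 1 ≤ n) {f : κ0 → M → ℝ} (hf : SmU (n := n) f) (hs : P.D0.Sec f)
    (hk : ∀ k : κ0 → M → ℝ, SmU (n := n) k → P.D0.Sec k → (∀ x z, opA P.D0 P.cc k x z = 0) →
      ip n k f = 0) :
    ∃ v : κ0 → M → ℝ, SmU (n := n) v ∧ P.D0.Sec v ∧
      ∀ y z, opB P.D1 P.cc (opA P.D0 P.cc v) y z = f y z :=
  opPair_solve hn (ofD (Crest.Agent.R249.Wk352.dpair (Crest.Agent.R249.Tof352.tof n M) P)) hf hs hk

theorem cpair_decomp (hn : 1 ≤ n) {N : ℕ} (K : KerC P N) {f : κ0 → M → ℝ}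
    (hf : SmU (n := n) f) (hs : P.D0.Sec f) :
    ∃ v : κ0 → M → ℝ, SmU (n := n) v ∧ P.D0.Sec v ∧
      ∀ y z, f y z = ∑ i, ip n f (K.u i) * K.u i y z + opB P.D1 P.cc (opA P.D0 P.cc v) y z :=
  opPair_decomp hn (ofD (Crest.Agent.R249.Wk352.dpair (Crest.Agent.R249.Tof352.tof n M) P))
    (N := N) ⟨K.u, K.smooth, K.sec, K.ker, K.li, K.ortho, K.span⟩ hf hs

end cpair

end Crest.Agent.R235.IndSolve_956
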