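import Crest.Agent.R235.HodgeH_194
import Crest.Agent.R235.IndSolve_956

/-!
Row 235 (S0364), package IND, leaf IND-7 HODGE (helper194), part 5: Clifford pairs with second bundle
the tangent bundle as `HPr`.

* `SS D`            : smooth sections of a bundle;
* `PsiL s D hp`     : `SS D ≃ X1 M` if `D.p = tanP s`;
* `AL P`, `BL P`    : the operators of a Clifford pair;
* `Inp`             : the data `Φ`, `form`, `form0`; `Inp.hpr : HPr ..`, `Inp.solve`;
* `finrank_ker`     : dimension of the kernel from a `KerD`-type basis.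
-/

set_option autoImplicit false
set_option maxSynthPendingDepth 3
set_option linter.unusedSectionVars false

open Set Function Filter MeasureTheory Bundle
open scoped Manifold ContDiff Topology ENNReal
open Crest.GeometryTopology.CoordMetric Crest.GeometryTopology.ChartCurvature
  Crest.GeometryTopology.PointedLimit
open Crest.Agent.R202.Tens Crest.Agent.R247.Bo84 Crest.Agent.R249.Vf281
open Crest.Agent.R249.Tz2_805 Crest.Agent.R249.Tz805 Crest.Agent.R249.Idx789

namespace Crest.Agent.R235.Hodge_194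

open Crest.Agent.R240 Crest.Agent.R240.Ch Crest.Agent.R240.Int
open Crest.Agent.R235.HodgeAbs_194
open Crest.Agent.R249.Tv57 (SmV memLp_smooth integrable_ip eq_zero_of_ip)

noncomputable section

section fin

/-- the dimension of a kernel. -/
theorem finrank_ker {V S' : Type*} [AddCommGroup V] [Module ℝ V] [AddCommGroup S'] [Module ℝ S']
    {K : Submodule ℝ V} (A : K →ₗ[ℝ] S') {N : ℕ} (u : Fin N → V) (hu : ∀ i, u i ∈ K)
    (hk : ∀ i, A ⟨u i, hu i⟩ = 0) (li : LinearIndependent ℝ u)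
    (span : ∀ v : K, A v = 0 → ∃ c : Fin N → ℝ, (v : V) = ∑ i, c i • u i) :
    FiniteDimensional ℝ (LinearMap.ker A) ∧ Module.finrank ℝ (LinearMap.ker A) = N := by
  let b : Fin N → LinearMap.ker A := fun i => ⟨⟨u i, hu i⟩, hk i⟩
  have hb : LinearIndependent ℝ b := by
    have h1 : LinearIndependent ℝ ((K.subtype.comp (LinearMap.ker A).subtype) ∘ b) := li
    exact h1.of_comp _
  have hs : ⊤ ≤ Submodule.span ℝ (Set.range b) := by
    rintro v -
    obtain ⟨c, hc⟩ := span v.1 v.2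
    have h1 : v = ∑ i, c i • b i := by
      apply Subtype.ext
      apply Subtype.ext
      rw [Submodule.coe_sum, Submodule.coe_sum, hc]
      rfl
    rw [h1]
    exact Submodule.sum_mem _ fun i _ =>
      Submodule.smul_mem _ _ (Submodule.subset_span (Set.mem_range_self i))
  let B := Module.Basis.mk hb hs
  exact ⟨B.finiteDimensional_of_finite, by rw [Module.finrank_eq_card_basis B, Fintype.card_fin]⟩

end fin

section pr

variable {M : Type} [MetricSpace M] [ChartedSpace (EuclideanSpace ℝ (Fin 4)) M]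
  [IsManifold (𝓡 4) ∞ M]
  [RiemannianBundle (fun p : M => TangentSpace (𝓡 4) p)]
  [IsContMDiffRiemannianBundle (𝓡 4) ∞ (EuclideanSpace ℝ (Fin 4)) (fun p : M => TangentSpace (𝓡 4) p)]
  [IsRiemannianManifold (𝓡 4) M] [MeasurableSpace M] [BorelSpace M]
  [SecondCountableTopology M] [Nonempty M] [CompactSpace M]

local notation "𝔼" => EuclideanSpace ℝ (Fin 4)
local notation "𝓘E" => 𝓘(ℝ, EuclideanSpace ℝ (Fin 4))
local notation "μ4" => (μHE[4] : Measure M)
local notation "ip" => Crest.Agent.R249.Tv57.ip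

variable {κ κ0 κ1 : Type} [Fintype κ] [Fintype κ0] [Fintype κ1]

/-- smooth sections -/
def SS (D : Bun 4 M κ0) : Submodule ℝ (κ0 → M → ℝ) where
  carrier := {u | SmU (n := 4) u ∧ D.Sec u}
  zero_mem' := ⟨fun _ => contMDiff_const, fun a z => by simp⟩
  add_mem' := by
    intro u v hu hv
    refine ⟨fun a => (hu.1 a).add (hv.1 a), fun a z => ?_⟩
    show ∑ b, D.p a b z * (u b z + v b z) = u a z + v a z
    rw [← hu.2 a z, ← hv.2 a z, ← Finset.sum_add_distrib]
    exact Finset.sum_congr rfl fun b _ => mul_add _ _ _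
  smul_mem' := by
    intro r u hu
    refine ⟨fun a => contMDiff_const.mul (hu.1 a), fun a z => ?_⟩
    show ∑ b, D.p a b z * (r * u b z) = r * u a z
    rw [← hu.2 a z, Finset.mul_sum]
    exact Finset.sum_congr rfl fun b _ => by ring

theorem fieldOf_add (s : PF 4 M κ) (w v : κ → M → ℝ) :
    fieldOf s (w + v) = fun z => fieldOf s w z + fieldOf s v z := by
  funext z
  simp only [fieldOf, Pi.add_apply, add_smul, Finset.sum_add_distrib]

theorem fieldOf_smul (s : PF 4 M κ) (r : ℝ) (w : κ → M → ℝ) :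
    fieldOf s (r • w) = fun z => r • fieldOf s w z := by
  funext z
  simp only [fieldOf, Pi.smul_apply, smul_eq_mul, mul_smul, Finset.smul_sum]

/-- sections of the tangent bundle = one-forms -/
def PsiL (s : PF 4 M κ) (D : Bun 4 M κ) (hp : ∀ a b z, D.p a b z = tanP s a b z) :
    SS D ≃ₗ[ℝ] X1 M where
  toFun w := ⟨flat (fieldOf s w.1), smooth1_flat fun z => VSm_fieldOf s w.2.1 z⟩
  map_add' w v := by
    apply Subtype.ext
    funext z
    apply ContinuousLinearMap.ext
    intro x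
    show (@inner ℝ (TangentSpace 𝓘E z) _ (fieldOf s (w.1 + v.1) z) x : ℝ) =
      (@inner ℝ (TangentSpace 𝓘E z) _ (fieldOf s w.1 z) x : ℝ) +
        (@inner ℝ (TangentSpace 𝓘E z) _ (fieldOf s v.1 z) x : ℝ)
    rw [fieldOf_add]
    exact @inner_add_left ℝ (TangentSpace 𝓘E z) _ _ _ _ _ (x : TangentSpace 𝓘E z)
  map_smul' r w := by
    apply Subtype.ext
    funext z
    apply ContinuousLinearMap.ext
    intro x
    show (@inner ℝ (TangentSpace 𝓘E z) _ (fieldOf s (r • w.1) z) x : ℝ) =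
      r * (@inner ℝ (TangentSpace 𝓘E z) _ (fieldOf s w.1 z) x : ℝ)
    rw [fieldOf_smul]
    exact @real_inner_smul_left (TangentSpace 𝓘E z) _ _ _ (x : TangentSpace 𝓘E z) r
  invFun α := ⟨cof s α.1, smU_cof s α.2, fun a z => by
    simp only [hp]
    exact sec_cof s α.1 a z⟩
  left_inv w := by
    apply Subtype.ext
    exact cof_flat s fun a z => by
      simp only [← hp]
      exact w.2.2 a z
  right_inv α := Subtype.ext (flat_shp s α.1)

theorem PsiL_coe (s : PF 4 M κ) (D : Bun 4 M κ) (hp : ∀ a b z, D.p a b z = tanP s a b z)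
    (w : SS D) : ((PsiL s D hp w : X1 M) : F1 E4 M) = flat (fieldOf s w.1) := rfl

theorem δL_PsiL (s : PF 4 M κ) (D : Bun 4 M κ) (hp : ∀ a b z, D.p a b z = tanP s a b z)
    (w : SS D) (z : M) : (δL s (PsiL s D hp w)).1 z = mDiv 4 (fieldOf s w.1) z := by
  rw [δL_apply, PsiL_coe, shp_flat]

theorem lin_sm {u v : κ0 → M → ℝ} (hu : SmU (n := 4) u) (hv : SmU (n := 4) v)
    (O : (κ0 → M → ℝ) → κ1 → M → ℝ)
    (hO : ∀ (a b : ℝ) (u v : κ0 → M → ℝ), SmU (n := 4) u → SmU (n := 4) v →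
      O (fun x z => a * u x z + b * v x z) = fun x z => a * O u x z + b * O v x z) :
    O (u + v) = O u + O v := by
  have h := hO 1 1 u v hu hv
  have e1 : (fun x z => (1:ℝ) * u x z + 1 * v x z) = u + v := by
    funext x z; simp
  have e2 : (fun x z => (1:ℝ) * O u x z + 1 * O v x z) = O u + O v := by
    funext x z; simp
  rw [e1, e2] at h
  exact h

theorem lin_smul {u : κ0 → M → ℝ} (hu : SmU (n := 4) u) (r : ℝ)
    (O : (κ0 → M → ℝ) → κ1 → M → ℝ)
    (hO : ∀ (a b : ℝ) (u v : κ0 → M → ℝ), SmU (n := 4) u → SmU (n := 4) v →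
      O (fun x z => a * u x z + b * v x z) = fun x z => a * O u x z + b * O v x z) :
    O (r • u) = r • O u := by
  have h := hO r 0 u u hu hu
  have e1 : (fun x z => r * u x z + 0 * u x z) = r • u := by
    funext x z; simp
  have e2 : (fun x z => r * O u x z + 0 * O u x z) = r • O u := by
    funext x z; simp
  rw [e1, e2] at h
  exact h

/-- the operator `A` -/
def AL (P : CPair 4 M κ κ0 κ1) : SS P.D0 →ₗ[ℝ] SS P.D1 where
  toFun u := ⟨opA P.D0 P.cc u.1, Crest.Agent.R249.Wk352.sm_opA P.smc u.2.1,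
    Crest.Agent.R249.Wk352.sec_opA P u.2.1 u.2.2⟩
  map_add' u v := Subtype.ext (lin_sm u.2.1 v.2.1 _ fun a b u v hu hv =>
    Crest.Agent.R249.Wk352.opA_lin P.D0 P.cc a b u v hu hv)
  map_smul' r u := Subtype.ext (lin_smul u.2.1 r _ fun a b u v hu hv =>
    Crest.Agent.R249.Wk352.opA_lin P.D0 P.cc a b u v hu hv)

/-- the operator `B` -/
def BL (P : CPair 4 M κ κ0 κ1) : SS P.D1 →ₗ[ℝ] SS P.D0 where
  toFun u := ⟨opB P.D1 P.cc u.1, Crest.Agent.R249.Wk352.sm_opB P.smc u.2.1,
    Crest.Agent.R249.Wk352.sec_opB P u.2.1 u.2.2⟩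
  map_add' u v := Subtype.ext (lin_sm u.2.1 v.2.1 _ fun a b u v hu hv =>
    Crest.Agent.R249.Wk352.opB_lin P.D1 P.cc a b u v hu hv)
  map_smul' r u := Subtype.ext (lin_smul u.2.1 r _ fun a b u v hu hv =>
    Crest.Agent.R249.Wk352.opB_lin P.D1 P.cc a b u v hu hv)

/-- the input of the Hodge system of a Clifford pair `P`, `P.D1` = tangent bundle -/
structure Inp (P : CPair 4 M κ κ0 κ) (s : PF 4 M κ) {F : F2 E4 M} (hF : Vol F)
    (X : Submodule ℝ (X2 M)) where
  hp : ∀ a b z, P.D1.p a b z = tanP s a b z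
  Φ : SS P.D0 ≃ₗ[ℝ] CFn M × X
  c : ℝ
  c0 : c ≠ 0
  c' : ℝ
  c'0 : c' ≠ 0
  form : ∀ (u : SS P.D0) (w : SS P.D1), ip 4 u.1 (opB P.D1 P.cc w.1) =
    - JL (Φ u).1 (δL s (PsiL s P.D1 hp w)) + c * IL F hF (Φ u).2 (dL (PsiL s P.D1 hp w))
  form0 : ∀ u v : SS P.D0, ip 4 u.1 v.1 = JL (Φ u).1 (Φ v).1 + c' * IL F hF (Φ u).2 (Φ v).2

namespace Inp

variable {P : CPair 4 M κ κ0 κ} {s : PF 4 M κ} {F : F2 E4 M} {hF : Vol F}
  {X : Submodule ℝ (X2 M)} (R : Inp P s hF X)

/-- the Hodge pair -/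
def hpr : HPr (Hs s hF) X (SS P.D0) (SS P.D1) where
  A := AL P
  B := BL P
  i0 u v := ip 4 u.1 v.1
  i1 u v := ip 4 u.1 v.1
  i0def u h := by
    have := fin4 (M := M)
    apply Subtype.ext
    funext a z
    exact eq_zero_of_ip (n := 4) u.2.1 h a z
  i1def u h := by
    have := fin4 (M := M)
    apply Subtype.ext
    funext a z
    exact eq_zero_of_ip (n := 4) u.2.1 h a z
  adj u w := Crest.Agent.R249.Wk352.adj_int P u.2.1 w.2.1 u.2.2 w.2.2
  Φ := R.Φ
  Ψ := PsiL s P.D1 R.hp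
  c := R.c
  c0 := R.c0
  c' := R.c'
  c'0 := R.c'0
  form := R.form
  form0 := R.form0

theorem hs [ConnectedSpace M] (u : SS P.D0)
    (h : ∀ k, R.hpr.A k = 0 → R.hpr.i0 u k = 0) : ∃ w, R.hpr.B w = u := by
  obtain ⟨v, hv, hvs, he⟩ := Crest.Agent.R235.IndSolve_956.cpair_solve P (by norm_num)
    (f := u.1) u.2.1 u.2.2 (fun k hk hks hA => by
      rw [Crest.Agent.R249.Tv57.ip_comm]
      refine h ⟨k, hk, hks⟩ ?_
      apply Subtype.ext
      funext x z
      exact hA x z)
  refine ⟨AL P ⟨v, hv, hvs⟩, ?_⟩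
  apply Subtype.ext
  funext y z
  exact he y z

end Inp

end pr

end

end Crest.Agent.R235.Hodge_194
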