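import Crest.Agent.R235.HodgeAda_194
import Crest.Agent.R235.HodgePr_194
import Crest.Agent.R235.IndPair_167

/-!
Row 235 (S0364), package IND, leaf IND-7 HODGE (helper194), part 9: the pair `pairH` (`ℝ⁴ → T`).

* `opB_H0`, `opB_H1` : `(B w)_0 = - div X`, `(B w)_{b+1} = - 2 q(e_b, d X♭)`;
* `PhiH`             : `u ↦ (u 0, ∑ u_{b+1} e_b)`;
* `inpH`             : `Inp (pairH q s) s fr.vol (SDp (e 0) e)`, `c = -1`, `c' = 1/2`.
-/

set_option autoImplicit false
set_option maxSynthPendingDepth 3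
set_option linter.unusedSectionVars false

open Set Function Filter MeasureTheory Bundle
open scoped Manifold ContDiff Topology ENNReal
open Crest.GeometryTopology.CoordMetric Crest.GeometryTopology.ChartCurvature
  Crest.GeometryTopology.PointedLimit
open Crest.Agent.R202.Tens Crest.Agent.R247.Bo84 Crest.Agent.R249.Vf281
open Crest.Agent.R249.Tz2_805 Crest.Agent.R249.Tz805 Crest.Agent.R249.Idx789

namespace Crest.Agent.R235.Hodge_194

open Crest.Agent.R240 Crest.Agent.R240.Ch Crest.Agent.R240.Int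
open Crest.Agent.R235.HodgeAbs_194
open Crest.Agent.R235.Ind167 (QS pairH)
open Crest.Agent.R249.Tv57 (SmV memLp_smooth integrable_ip eq_zero_of_ip)

noncomputable section

variable {M : Type} [MetricSpace M] [ChartedSpace (EuclideanSpace ℝ (Fin 4)) M]
  [IsManifold (𝓡 4) ∞ M]
  [RiemannianBundle (fun p : M => TangentSpace (𝓡 4) p)]
  [IsContMDiffRiemannianBundle (𝓡 4) ∞ (EuclideanSpace ℝ (Fin 4)) (fun p : M => TangentSpace (𝓡 4) p)]
  [IsRiemannianManifold (𝓡 4) M] [MeasurableSpace M] [BorelSpace M]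
  [SecondCountableTopology M] [Nonempty M] [CompactSpace M]

local notation "𝔼" => EuclideanSpace ℝ (Fin 4)
local notation "𝓘E" => 𝓘(ℝ, EuclideanSpace ℝ (Fin 4))
local notation "μ4" => (μHE[4] : Measure M)
local notation "ip" => Crest.Agent.R249.Tv57.ip

variable {κ : Type} [Fintype κ] (Q : QS M) (s : PF 4 M κ)

theorem hWH (a b : κ) (z : M) : (pairH Q s).D1.W a b z = tanW s a b z :=
  Crest.Agent.R235.Ind167.bunQ1_W_eta Q s (Crest.Agent.R235.Ind167.sm_etaV Q s) a b z

theorem hpH (a b : κ) (z : M) : (pairH Q s).D1.p a b z = tanP s a b z := rfl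

theorem opB_H0 (w : SS (pairH Q s).D1) (z : M) :
    opB (pairH Q s).D1 (pairH Q s).cc w.1 0 z = - mDiv 4 (fieldOf s w.1) z := by
  have hsec : ∀ a z, ∑ b, tanP s a b z * w.1 b z = w.1 a z := w.2.2
  obtain ⟨e, he⟩ := exists_onb (M := M) z
  have hY := VSm_fieldOf s w.2.1
  rw [mDiv_frame ((hY z).of_le (by simp)) he, opB]
  congr 1
  have h1 := sum_pars s z he (Crest.Agent.R249.Idx789.mCovL (fieldOf s w.1) z)
  simp only [Crest.Agent.R249.Idx789.mCovL_apply] at h1
  rw [← h1]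
  exact Finset.sum_congr rfl fun A _ => inner_cv s (hWH Q s) w.2.1 hsec A z _

theorem opB_H1 (w : SS (pairH Q s).D1) (b : Fin 3) (z : M) :
    opB (pairH Q s).D1 (pairH Q s).cc w.1 b.succ z =
      ∑ A, inner ℝ (mCov 4 (fieldOf s w.1) z (Q.op b z (s.s A z))) (s.s A z) := by
  have hsec : ∀ a z, ∑ b, tanP s a b z * w.1 b z = w.1 a z := w.2.2
  rw [opB, ← Finset.sum_neg_distrib]
  refine Finset.sum_congr rfl fun A _ => ?_
  have h1 := inner_cv s (hWH Q s) w.2.1 hsec A z (- Q.op b z (s.s A z))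
  have h2 : mCov 4 (fieldOf s w.1) z (- Q.op b z (s.s A z)) =
      - mCov 4 (fieldOf s w.1) z (Q.op b z (s.s A z)) := map_neg (Crest.Agent.R249.Idx789.mCovL (fieldOf s w.1) z) _
  rw [h2, inner_neg_left] at h1
  rw [← neg_eq_iff_eq_neg] at h1
  rw [← h1]
  rfl

/-- the geometric hypotheses -/
structure HH (Q : QS M) (e : Fin 3 → F2 E4 M) : Prop where
  fr : Fr (e 0) e
  ad : ∀ z, ∃ E, AdF e z E
  op : ∀ b z (u v : TangentSpace 𝓘(ℝ, EuclideanSpace ℝ (Fin 4)) z),
    at2 (e b) z u v = inner ℝ (Q.op b z u) v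

variable {Q} {e : Fin 3 → F2 E4 M} (hH : HH Q e)
include hH

theorem opB_H (w : SS (pairH Q s).D1) (b : Fin 3) (z : M) :
    opB (pairH Q s).D1 (pairH Q s).cc w.1 b.succ z =
      - 2 * qG (e 0) (e b) (dL (PsiL s (pairH Q s).D1 (hpH Q s) w)).1 z := by
  rw [opB_H1]
  set Y := fieldOf s w.1 with hY
  have hYs : ∀ q, VSm 4 ∞ Y q := fun q => VSm_fieldOf s w.2.1 q
  obtain ⟨E, hE⟩ := hH.ad z
  have h1 := sum_sd hE s (fun i => hH.fr.alt i z) (hH.fr.ne z)
    ((dL (PsiL s (pairH Q s).D1 (hpH Q s) w)).2.1 z) b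
  set m : κ → κ → ℝ := fun A B => inner ℝ (mCov 4 Y z (s.s A z)) (s.s B z) with hm
  have h2 : ∀ A B, at2 (dL (PsiL s (pairH Q s).D1 (hpH Q s) w)).1 z (s.s A z) (s.s B z) =
      m A B - m B A := fun A B => at2_dG_flat hYs z (s.s A z) (s.s B z)
  set i : κ → κ → ℝ := fun A B => inner ℝ (Q.op b z (s.s A z)) (s.s B z) with hi
  have h3 : ∀ A B, at2 (e b) z (s.s A z) (s.s B z) = i A B := fun A B => hH.op b z _ _
  have h4 : ∀ A B, i A B = - i B A := by
    intro A B
    simp only [hi]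
    rw [Q.op_skew, real_inner_comm]
  have h5 : ∑ A, ∑ B, i A B * m A B = - ∑ A, ∑ B, i A B * m B A := by
    rw [Finset.sum_comm, ← Finset.sum_neg_distrib]
    refine Finset.sum_congr rfl fun A _ => ?_
    rw [← Finset.sum_neg_distrib]
    exact Finset.sum_congr rfl fun B _ => by rw [h4 B A, neg_mul]
  have h6 : ∀ A, ∑ B, i A B * m B A =
      (inner ℝ (mCov 4 Y z (Q.op b z (s.s A z))) (s.s A z) : ℝ) := by
    intro A
    have e1 : mCov 4 Y z (Q.op b z (s.s A z)) =
        ∑ B, (inner ℝ (s.s B z) (Q.op b z (s.s A z)) : ℝ) • mCov 4 Y z (s.s B z) := by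
      conv_lhs => rw [← Crest.Agent.R249.Idx789.mCovL_apply, ← s.pars z (Q.op b z (s.s A z)),
        map_sum]
      exact Finset.sum_congr rfl fun B _ => by
        rw [map_smul, Crest.Agent.R249.Idx789.mCovL_apply]
    rw [e1, sum_inner]
    refine Finset.sum_congr rfl fun B _ => ?_
    rw [real_inner_smul_left, real_inner_comm (Q.op b z (s.s A z))]
  have h7 : ∑ A, ∑ B, at2 (e b) z (s.s A z) (s.s B z) *
      at2 (dL (PsiL s (pairH Q s).D1 (hpH Q s) w)).1 z (s.s A z) (s.s B z) =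
      ∑ A, ∑ B, i A B * (m A B - m B A) :=
    Finset.sum_congr rfl fun A _ => Finset.sum_congr rfl fun B _ =>
      congrArg₂ (· * ·) (h3 A B) (h2 A B)
  rw [h7] at h1
  simp only [mul_sub, Finset.sum_sub_distrib] at h1
  rw [h5] at h1
  simp only [h6] at h1
  have h8 : qG (e 0) (e b) (dL (PsiL s (pairH Q s).D1 (hpH Q s) w)).1 z =
    q (at2 (e 0) z) (at2 (e b) z) (at2 (dL (PsiL s (pairH Q s).D1 (hpH Q s) w)).1 z) := rfl
  rw [h8]
  linarith

/-- the components of a section -/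
def cmpH (u : SS (pairH Q s).D0) (i : Fin 4) : CFn M := ⟨u.1 i, (smoothF_iff' _).2 (u.2.1 _)⟩

/-- **sections of `ℝ⁴`** -/
def PhiH : SS (pairH Q s).D0 ≃ₗ[ℝ] CFn M × SDp (e 0) e where
  toFun u := (cmpH s u 0, ⟨hH.fr.sdf fun b => cmpH s u b.succ, hH.fr.sdf_mem _⟩)
  map_add' u v := by
    refine Prod.ext rfl (Subtype.ext (Subtype.ext (funext fun z => ?_)))
    show (∑ i : Fin 3, (u.1 i.succ z + v.1 i.succ z) • at2 (e i) z : Bil) =
      (∑ i : Fin 3, u.1 i.succ z • at2 (e i) z) + ∑ i : Fin 3, v.1 i.succ z • at2 (e i) z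
    rw [← Finset.sum_add_distrib]
    exact Finset.sum_congr rfl fun i _ => add_smul _ _ _
  map_smul' r u := by
    refine Prod.ext rfl (Subtype.ext (Subtype.ext (funext fun z => ?_)))
    show (∑ i : Fin 3, (r * u.1 i.succ z) • at2 (e i) z : Bil) =
      r • ∑ i : Fin 3, u.1 i.succ z • at2 (e i) z
    rw [Finset.smul_sum]
    exact Finset.sum_congr rfl fun i _ => mul_smul _ _ _
  invFun p := ⟨fun i z => Fin.cases (p.1.1 z) (fun b => (hH.fr.cf p.2.1 b).1 z) i, by
    refine ⟨fun i => ?_, fun a z => ?_⟩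
    · refine Fin.cases ?_ (fun b => ?_) i
      · exact smf p.1
      · exact smf (hH.fr.cf p.2.1 b)
    · show ∑ b, (if a = b then (1:ℝ) else 0) * _ = _
      simp only [ite_mul, one_mul, zero_mul, Finset.sum_ite_eq, Finset.mem_univ, if_true]⟩
  left_inv u := by
    apply Subtype.ext
    funext i z
    refine Fin.cases ?_ (fun b => ?_) i
    · rfl
    · exact hH.fr.q_sdf _ b z
  right_inv p := by
    refine Prod.ext rfl (Subtype.ext ?_)
    exact hH.fr.sdf_cf p.2.2

theorem PhiH_val (u : SS (pairH Q s).D0) (b : Fin 3) (z : M) :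
    qG (e 0) (PhiH s hH u).2.1.1 (e b) z = u.1 b.succ z := hH.fr.q_sdf _ b z

theorem q_PhiH (u : SS (pairH Q s).D0) (γ : X2 M) (z : M) :
    qG (e 0) (PhiH s hH u).2.1.1 γ.1 z = ∑ b : Fin 3, u.1 b.succ z * qG (e 0) (e b) γ.1 z := by
  rw [hH.fr.q_left (PhiH s hH u).2.2]
  exact Finset.sum_congr rfl fun b _ => by rw [PhiH_val, qG_comm (e 0) γ.1]

variable (hI : ∀ a b : F2 E4 M, Int.I (e 0) a b = ∫ x, 2 * qG (e 0) a b x ∂(μHE[4] : Measure M))
include hI

theorem form0H (u v : SS (pairH Q s).D0) : ip 4 u.1 v.1 =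
    JL (PhiH s hH u).1 (PhiH s hH v).1 +
      (1 / 2) * IL (e 0) hH.fr.vol (PhiH s hH u).2.1 (PhiH s hH v).2.1 := by
  have := fin4 (M := M)
  have key : ∀ z, 1 / 2 * (2 * qG (e 0) (PhiH s hH u).2.1.1 (PhiH s hH v).2.1.1 z) =
      ∑ b : Fin 3, u.1 b.succ z * v.1 b.succ z := by
    intro z
    rw [q_PhiH s hH u, ← mul_assoc, one_div, inv_mul_cancel₀ two_ne_zero, one_mul]
    exact Finset.sum_congr rfl fun b _ => by rw [qG_comm, PhiH_val]
  unfold Crest.Agent.R249.Tv57.ip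
  rw [IL_apply, hI, ← integral_const_mul, JL_apply, ← integral_add]
  · refine integral_congr_ae (Eventually.of_forall fun z => ?_)
    beta_reduce
    refine (Fin.sum_univ_succ (fun a : Fin 4 => u.1 a z * v.1 a z)).trans ?_
    exact congrArg (fun t : ℝ => u.1 0 z * v.1 0 z + t) (key z).symm
  · exact int_ff _ _
  · have h1 := integrable_ip (n := 4) (u := fun y : Fin 3 => u.1 y.succ)
      (v := fun y : Fin 3 => v.1 y.succ) (fun y => u.2.1 _) (fun y => v.2.1 _)
    exact h1.congr (Eventually.of_forall fun z => (key z).symm)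

theorem formH (u : SS (pairH Q s).D0) (w : SS (pairH Q s).D1) :
    ip 4 u.1 (opB (pairH Q s).D1 (pairH Q s).cc w.1) =
      - JL (PhiH s hH u).1 (δL s (PsiL s (pairH Q s).D1 (hpH Q s) w)) +
        (-1) * IL (e 0) hH.fr.vol (PhiH s hH u).2.1
          (dL (PsiL s (pairH Q s).D1 (hpH Q s) w)) := by
  have := fin4 (M := M)
  have hB := Crest.Agent.R249.Wk352.sm_opB (D1 := (pairH Q s).D1) (pairH Q s).smc w.2.1
  have key : ∀ z, -1 * (2 * qG (e 0) (PhiH s hH u).2.1.1
      (dL (PsiL s (pairH Q s).D1 (hpH Q s) w)).1 z) =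
      ∑ b : Fin 3, u.1 b.succ z * opB (pairH Q s).D1 (pairH Q s).cc w.1 b.succ z := by
    intro z
    rw [q_PhiH s hH u, Finset.mul_sum, Finset.mul_sum]
    exact Finset.sum_congr rfl fun b _ => by rw [opB_H s hH w b z]; ring
  unfold Crest.Agent.R249.Tv57.ip
  rw [IL_apply, hI, ← integral_const_mul, JL_apply, ← integral_neg, ← integral_add]
  · refine integral_congr_ae (Eventually.of_forall fun z => ?_)
    beta_reduce
    refine (Fin.sum_univ_succ (fun a : Fin 4 =>
      u.1 a z * opB (pairH Q s).D1 (pairH Q s).cc w.1 a z)).trans ?_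
    have h9 := δL_PsiL s (pairH Q s).D1 (hpH Q s) w z
    have h10 := opB_H0 Q s w z
    refine congrArg₂ (· + ·) ?_ (key z).symm
    rw [h10, mul_neg, h9]
    rfl
  · exact (int_ff _ _).neg
  · have h1 := integrable_ip (n := 4) (u := fun y : Fin 3 => u.1 y.succ)
      (v := fun y : Fin 3 => opB (pairH Q s).D1 (pairH Q s).cc w.1 y.succ)
      (fun y => u.2.1 _) (fun y => hB _)
    exact h1.congr (Eventually.of_forall fun z => (key z).symm)

/-- **the input of the pair `pairH`** -/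
def inpH : Inp (pairH Q s) s hH.fr.vol (SDp (e 0) e) where
  hp := hpH Q s
  Φ := PhiH s hH
  c := -1
  c0 := by norm_num
  c' := 1 / 2
  c'0 := by norm_num
  form := formH s hH hI
  form0 := form0H s hH hI

end

end Crest.Agent.R235.Hodge_194
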