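import Mathlib

/-!
Row 235, package IND, leaf L1 (INTERP): an integer valued family of integrals which is polynomial in
`s` is constant.  (helper277)
-/

set_option autoImplicit false

open MeasureTheory

namespace Crest.Agent.R235.IndInt_277

/-- a continuous integer valued function on the line is constant. -/
theorem const_of_int {F : ℝ → ℝ} (hF : Continuous F) (hi : ∀ s, ∃ n : ℤ, F s = n) (s t : ℝ) :
    F s = F t := by
  choose n hn using hi
  have h1 : F = (fun k : ℤ => (k : ℝ)) ∘ n := funext hn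
  have h2 : Continuous n := by
    rw [Int.isClosedEmbedding_coe_real.isEmbedding.isInducing.continuous_iff]
    have h3 : ((↑) : ℤ → ℝ) ∘ n = F := h1.symm
    rw [h3]
    exact hF
  rw [hn s, hn t, PreconnectedSpace.constant (by infer_instance) h2 (x := s) (y := t)]

section main

variable {M : Type*} [MeasurableSpace M] {μ : Measure M} {r0 c2 c3 c4 : M → ℝ}

/-- the coefficients are integrable. -/
theorem integrable_coef
    (h : ∀ s : ℝ, Integrable (fun z => r0 z + s ^ 2 * c2 z + s ^ 3 * c3 z + s ^ 4 * c4 z) μ) :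
    Integrable r0 μ ∧ Integrable c2 μ ∧ Integrable c3 μ ∧ Integrable c4 μ := by
  have h0 : Integrable r0 μ := by
    refine (h 0).congr (Filter.Eventually.of_forall fun z => ?_)
    simp
  have h1 := h 1
  have h2 := h (-1)
  have h3 := h 2
  have i3 : Integrable c3 μ := by
    refine ((h1.sub h2).const_mul (1 / 2)).congr (Filter.Eventually.of_forall fun z => ?_)
    simp only [Pi.sub_apply]
    ring
  have i24 : Integrable (fun z => c2 z + c4 z) μ := by
    refine (((h1.add h2).const_mul (1 / 2)).sub h0).congr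
      (Filter.Eventually.of_forall fun z => ?_)
    simp only [Pi.sub_apply, Pi.add_apply]
    ring
  have i4 : Integrable c4 μ := by
    refine ((((h3.sub h0).sub (i3.const_mul 8)).sub (i24.const_mul 4)).const_mul (1 / 12)).congr
      (Filter.Eventually.of_forall fun z => ?_)
    simp only [Pi.sub_apply]
    ring
  have i2 : Integrable c2 μ := by
    refine (i24.sub i4).congr (Filter.Eventually.of_forall fun z => ?_)
    simp only [Pi.sub_apply]
    ring
  exact ⟨h0, i2, i3, i4⟩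

/-- the integral is a polynomial in `s`. -/
theorem integral_poly
    (h : ∀ s : ℝ, Integrable (fun z => r0 z + s ^ 2 * c2 z + s ^ 3 * c3 z + s ^ 4 * c4 z) μ)
    (s : ℝ) : ∫ z, (r0 z + s ^ 2 * c2 z + s ^ 3 * c3 z + s ^ 4 * c4 z) ∂μ =
      ∫ z, r0 z ∂μ + s ^ 2 * ∫ z, c2 z ∂μ + s ^ 3 * ∫ z, c3 z ∂μ + s ^ 4 * ∫ z, c4 z ∂μ := by
  obtain ⟨i0, i2, i3, i4⟩ := integrable_coef h
  have j2 := i2.const_mul (s ^ 2)
  have j3 := i3.const_mul (s ^ 3)
  have j4 := i4.const_mul (s ^ 4)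
  have e1 := integral_add (μ := μ) (f := fun z => r0 z + s ^ 2 * c2 z + s ^ 3 * c3 z)
    (g := fun z => s ^ 4 * c4 z) ((i0.add j2).add j3) j4
  have e2 := integral_add (μ := μ) (f := fun z => r0 z + s ^ 2 * c2 z)
    (g := fun z => s ^ 3 * c3 z) (i0.add j2) j3
  have e3 := integral_add (μ := μ) (f := r0) (g := fun z => s ^ 2 * c2 z) i0 j2
  rw [e1, e2, e3, integral_const_mul, integral_const_mul, integral_const_mul]

/-- **L1 (INTERP)**. -/
theorem interp
    (h : ∀ s : ℝ, Integrable (fun z => r0 z + s ^ 2 * c2 z + s ^ 3 * c3 z + s ^ 4 * c4 z) μ)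
    (hi : ∀ s : ℝ, ∃ n : ℤ,
      ∫ z, (r0 z + s ^ 2 * c2 z + s ^ 3 * c3 z + s ^ 4 * c4 z) ∂μ = n) :
    (Integrable r0 μ ∧ Integrable c2 μ ∧ Integrable c3 μ ∧ Integrable c4 μ) ∧
    ∀ s : ℝ, ∫ z, (r0 z + s ^ 2 * c2 z + s ^ 3 * c3 z + s ^ 4 * c4 z) ∂μ = ∫ z, r0 z ∂μ := by
  refine ⟨integrable_coef h, fun s => ?_⟩
  have hc : Continuous fun s : ℝ =>
      ∫ z, (r0 z + s ^ 2 * c2 z + s ^ 3 * c3 z + s ^ 4 * c4 z) ∂μ := by
    simp only [integral_poly h]
    fun_prop
  have h1 := const_of_int hc hi s 0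
  simp only [ne_eq, OfNat.ofNat_ne_zero, not_false_eq_true, zero_pow, zero_mul, add_zero] at h1
  exact h1

/-- the interpolation when the family is only known almost everywhere to be polynomial. -/
theorem interp_ae {f : ℝ → M → ℝ}
    (hf : ∀ s : ℝ, f s =ᵐ[μ] fun z => r0 z + s ^ 2 * c2 z + s ^ 3 * c3 z + s ^ 4 * c4 z)
    (h : ∀ s : ℝ, Integrable (f s) μ) (hi : ∀ s : ℝ, ∃ n : ℤ, ∫ z, f s z ∂μ = n) (s : ℝ) :
    ∫ z, f s z ∂μ = ∫ z, f 0 z ∂μ ∧ ∫ z, f 0 z ∂μ = ∫ z, r0 z ∂μ := by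
  have h1 : ∀ s : ℝ, Integrable (fun z => r0 z + s ^ 2 * c2 z + s ^ 3 * c3 z + s ^ 4 * c4 z) μ :=
    fun s => (h s).congr (hf s)
  have h2 : ∀ s : ℝ, ∫ z, f s z ∂μ =
      ∫ z, (r0 z + s ^ 2 * c2 z + s ^ 3 * c3 z + s ^ 4 * c4 z) ∂μ := fun s =>
    integral_congr_ae (hf s)
  have h3 := (interp h1 fun s => by obtain ⟨n, hn⟩ := hi s; exact ⟨n, by rw [← h2, hn]⟩).2
  exact ⟨by rw [h2 s, h2 0, h3 s, h3 0], by rw [h2 0, h3 0]⟩

end main

end Crest.Agent.R235.IndInt_277
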