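import Crest.Agent.R235.IndQ_167
import Crest.Agent.R235.IndInt_277

/-!
Row 235, package IND (helper167), part 7 (leaf L3 (c), (d)): the index of `pairQ` with
`th = s0 • etaV` does not depend on `s0`; in particular `ind (pairH) = ind (pairZ)`.

* `rZ T q s` : the density `dn D0 z - dn D1 z` of the quaternionic pair `pairZ`;
  `rZ_eq` : `rZ z = 1/(192π²) ev (TT F)` in every adapted frame;
* `dens_poly` : density of `pairQ` with `th = s0 • etaV` = `rZ + s0² c2 + s0³ c3 + s0⁴ c4`;
* `index_H` : index theorem for `pairH`: `d0 - d1 = ∫ rZ`;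
* `index_Z` : index theorem for `pairZ`: `d0 - d1 = ∫ rZ`;  `dens_H` : density of `pairH`.
-/

set_option autoImplicit false
set_option maxSynthPendingDepth 3
set_option linter.unusedSectionVars false
set_option linter.unusedSimpArgs false
set_option maxHeartbeats 1000000

open Filter Topology Set Bundle Manifold MeasureTheory
open Matrix hiding J
open scoped ContDiff ENNReal NNReal
open Crest.GeometryTopology.CoordMetric Crest.GeometryTopology.ChartCurvature
  Crest.GeometryTopology.PointedLimit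
open Crest.Agent.R202.Tens Crest.Agent.R247.Bo84 Crest.Agent.R249.FrmB_285 Crest.Agent.R249.Vf281
  Crest.Agent.R249.Tz1_805 Crest.Agent.R249.Tz2_805
open Crest.Agent.R249.Fr129
open Crest.Agent.R249.C2_198 hiding cp half_two
open Crest.Agent.R249.Sg129 hiding fg fg_add fg_sub fg_mul fg_const fg_sum ev_fg contMDiff_inner VSm_mCov
open Crest.Agent.R249.Tz805 Crest.Agent.R249.Dic805
open Crest.Agent.R249.Tv57 hiding GG
open Crest.Agent.R249.HK9_714
open Crest.Agent.R235.IndAlg_167 Crest.Agent.R235.IndDen_167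

noncomputable section

namespace Crest.Agent.R235.Ind167

section ring

variable {S : Type*} [CommRing S] [Algebra ℝ S] (F : Frame 4 S)

/-- the linear part of the curvature of `s0 • eta` -/
def GX (k l : Fin 4) (c : Fin 3) : S :=
  F.D k (eta F l c) - F.D l (eta F k c) - ∑ m, F.T k l m * eta F m c

/-- the quadratic part -/
def GY (k l : Fin 4) (c : Fin 3) : S := cp (eta F k) (eta F l) c

lemma GG_smul (r : ℝ) (k l : Fin 4) (c : Fin 3) :
    GG F (fun k b => algebraMap ℝ S r * eta F k b) k l c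
      = algebraMap ℝ S r * GX F k l c + algebraMap ℝ S r ^ 2 * GY F k l c := by
  have hD : ∀ k (x : S), F.D k (algebraMap ℝ S r * x) = algebraMap ℝ S r * F.D k x := by
    intro k x; rw [F.D_mul, Derivation.map_algebraMap]; ring
  have hs : ∑ m, F.T k l m * (algebraMap ℝ S r * eta F m c)
      = algebraMap ℝ S r * ∑ m, F.T k l m * eta F m c := by
    rw [Finset.mul_sum]
    exact Finset.sum_congr rfl fun m _ => by ring
  have hc : cp (fun b => algebraMap ℝ S r * eta F k b) (fun b => algebraMap ℝ S r * eta F l b) c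
      = algebraMap ℝ S r ^ 2 * cp (eta F k) (eta F l) c := by
    fin_cases c <;> simp [cp] <;> ring
  rw [GG, GX, GY, hD, hD, hs, hc]
  ring

lemma GG_zeroθ (k l : Fin 4) (c : Fin 3) : GG F (fun _ _ => 0) k l c = 0 := by
  have := GG_smul F 0 k l c
  simpa using this

/-- mixed Pfaffian -/
def pfm (X Y : Fin 4 → Fin 4 → S) : S :=
  X 0 1 * Y 2 3 + Y 0 1 * X 2 3 - (X 0 2 * Y 1 3 + Y 0 2 * X 1 3)
    + (X 0 3 * Y 1 2 + Y 0 3 * X 1 2)

lemma pf_lin (r : S) (X Y : Fin 4 → Fin 4 → S) :
    pf (fun i j => r * X i j + r ^ 2 * Y i j)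
      = r ^ 2 * pf X + r ^ 3 * pfm X Y + r ^ 4 * pf Y := by
  simp only [pf, pfm]; ring

lemma sum_pf_smul (r : ℝ) :
    ∑ c, pf (fun i j => GG F (fun k b => algebraMap ℝ S r * eta F k b) i j c)
      = algebraMap ℝ S r ^ 2 * ∑ c, pf (fun i j => GX F i j c)
        + algebraMap ℝ S r ^ 3 * ∑ c, pfm (fun i j => GX F i j c) (fun i j => GY F i j c)
        + algebraMap ℝ S r ^ 4 * ∑ c, pf (fun i j => GY F i j c) := by
  simp only [GG_smul, pf_lin, Finset.sum_add_distrib, Finset.mul_sum]

end ring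

section gen

universe v

variable {M : Type v} [MetricSpace M] [ChartedSpace (EuclideanSpace ℝ (Fin 4)) M]
  [IsManifold (𝓡 4) ∞ M]
  [RiemannianBundle (fun p : M => TangentSpace (𝓡 4) p)]
  [IsContMDiffRiemannianBundle (𝓡 4) ∞ (EuclideanSpace ℝ (Fin 4)) (fun p : M => TangentSpace (𝓡 4) p)]
  [IsRiemannianManifold (𝓡 4) M] [MeasurableSpace M] [BorelSpace M]
  [SecondCountableTopology M] [Nonempty M]

variable {κ : Type} [Fintype κ]

/-- the density of a Clifford pair -/
def dens {κ0 κ1 : Type} [Fintype κ0] [Fintype κ1] (T : ToF 4 M) (P : CPair 4 M κ κ0 κ1)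
    (z : M) : ℝ :=
  dn (R249.Wk352.dat0 T P) z - dn (R249.Wk352.dat0 T (R249.Wk352.swapP P)) z

variable (T : ToF 4 M) (q : QS M) (s : PF 4 M κ)

/-- the scaled connection form -/
def thS (r : ℝ) (b : Fin 3) (z : M) : TangentSpace 𝓘(ℝ, EuclideanSpace ℝ (Fin 4)) z :=
  r • etaV q s b z

lemma sm_thS (r : ℝ) (b : Fin 3) (z : M) : VSm 4 ∞ (thS q s r b) z :=
  VSm.smul le_rfl contMDiffAt_const (sm_etaV q s b z)

variable {q} {z : M} {e : Fin 4 → EuclideanSpace ℝ (Fin 4) → EuclideanSpace ℝ (Fin 4)}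
  (h : ONF (chartMetric 4 M z) (chartAt (EuclideanSpace ℝ (Fin 4)) z).target
      (chartCentre 4 M z) e) (ha : Adp q z e)

include h ha in
lemma thF_thS (r : ℝ) : thF (thS q s r) z e
    = fun k b => algebraMap ℝ (SG (chartCentre 4 M z)) r * eta h.frameOf k b := by
  funext k b
  have h1 := R249.Dic805.vg_smul h (f := fun _ => r) contMDiff_const (sm_etaV q s b) k
  rw [R249.Dic805.fg_const, vg_etaV s h ha] at h1
  exact h1

include h ha in
lemma thF_etaV : thF (etaV q s) z e = eta h.frameOf := by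
  funext k b
  exact vg_etaV s h ha b k

include h ha in
/-- density of the quaternionic pair -/
theorem rZ_eq : dens T (pairZ q s) z = 1 / (192 * Real.pi ^ 2) * ev (TT h.frameOf) := by
  have h1 := densQ q s sm_thZ (wdd T (pairZ q s)) h ha
  rw [vg_thZ h] at h1
  simp only [GG_zeroθ] at h1
  have h0 : pf (fun _ _ => (0 : SG (chartCentre 4 M z))) = 0 := by simp [pf]
  rw [h0, Finset.sum_const_zero, mul_zero, map_zero, mul_zero, zero_add] at h1
  exact h1

include h ha in
/-- density of the HODGE pair -/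
theorem dens_H : dens T (pairH q s) z
    = 1 / (32 * Real.pi ^ 2) * ev (-4 * ∑ c, pf (fun i j => EE h.frameOf i j c))
      + dens T (pairZ q s) z := by
  have h1 := densQ q s (sm_etaV q s) (wdd T (pairH q s)) h ha
  rw [thF_etaV s h ha, ← rZ_eq T s h ha] at h1
  simp only [GG_eta] at h1
  exact h1

variable (q)

/-- the coefficient functions -/
def cf (j : Fin 3) (z : M) : ℝ :=
  1 / (32 * Real.pi ^ 2) * ev (-4 * (![∑ c, pf (fun i j => GX (exists_adp q z).choose_spec.choose.frameOf i j c),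
    ∑ c, pfm (fun i j => GX (exists_adp q z).choose_spec.choose.frameOf i j c)
      (fun i j => GY (exists_adp q z).choose_spec.choose.frameOf i j c),
    ∑ c, pf (fun i j => GY (exists_adp q z).choose_spec.choose.frameOf i j c)] j))

/-- **the density is a polynomial in `r`** -/
theorem dens_poly (r : ℝ) (z : M) : dens T (pairQ q s (sm_thS q s r)) z
    = dens T (pairZ q s) z + r ^ 2 * cf q 0 z + r ^ 3 * cf q 1 z + r ^ 4 * cf q 2 z := by
  have ha := (exists_adp q z).choose_spec.choose_spec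
  set h := (exists_adp q z).choose_spec.choose with hh
  have h1 := densQ q s (sm_thS q s r) (wdd T (pairQ q s (sm_thS q s r))) h ha
  rw [thF_thS s h ha, sum_pf_smul, ← rZ_eq T s h ha] at h1
  change dens T (pairQ q s (sm_thS q s r)) z = _ at h1
  rw [h1]
  simp only [cf, Matrix.cons_val_zero, Matrix.cons_val_one, Matrix.cons_val]
  have h3 : ev (algebraMap ℝ (SG (chartCentre 4 M z)) r) = r := by
    rw [algebraMap_eq, ev_germ]
  simp only [map_mul, map_add, map_pow, h3]
  ring

variable [CompactSpace M] [ConnectedSpace M]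

/-- **index theorem for the quaternionic pair** -/
theorem index_Z : ∃ (d0 d1 : ℕ)
    (_ : KerD (R249.Wk352.dat0 T (pairZ q s)) (R249.Wk352.dpair T (pairZ q s)).A d0)
    (_ : KerD (R249.Wk352.dat0 T (R249.Wk352.swapP (pairZ q s)))
      (R249.Wk352.dpair T (pairZ q s)).B d1),
    Integrable (dens T (pairZ q s)) (μHE[4] : Measure M) ∧
    (d0 : ℝ) - d1 = ∫ z, dens T (pairZ q s) z ∂(μHE[4] : Measure M) :=
  indexQ q s sm_thZ T

/-- the integral of the density of `pairQ q s (r etaV)` does not depend on `r` -/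
theorem integral_dens (r : ℝ) : ∫ z, dens T (pairQ q s (sm_thS q s r)) z ∂(μHE[4] : Measure M)
    = ∫ z, dens T (pairZ q s) z ∂(μHE[4] : Measure M) := by
  have h1 : ∀ r : ℝ, Integrable (fun z => dens T (pairZ q s) z + r ^ 2 * cf q 0 z
      + r ^ 3 * cf q 1 z + r ^ 4 * cf q 2 z) (μHE[4] : Measure M) := by
    intro r
    obtain ⟨d0, d1, k0, k1, hi, he⟩ := indexQ q s (sm_thS q s r) T
    refine hi.congr (Filter.Eventually.of_forall fun z => ?_)
    exact dens_poly T q s r z
  have h2 : ∀ r : ℝ, ∃ n : ℤ, ∫ z, (dens T (pairZ q s) z + r ^ 2 * cf q 0 z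
      + r ^ 3 * cf q 1 z + r ^ 4 * cf q 2 z) ∂(μHE[4] : Measure M) = n := by
    intro r
    obtain ⟨d0, d1, k0, k1, hi, he⟩ := indexQ q s (sm_thS q s r) T
    refine ⟨(d0 : ℤ) - d1, ?_⟩
    push_cast
    rw [he]
    exact integral_congr_ae (Filter.Eventually.of_forall fun z => (dens_poly T q s r z).symm)
  have h3 := (IndInt_277.interp h1 h2).2 r
  rw [← h3]
  exact integral_congr_ae (Filter.Eventually.of_forall fun z => dens_poly T q s r z)

lemma dens_H_poly (z : M) : dens T (pairH q s) z = dens T (pairQ q s (sm_thS q s 1)) z := by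
  obtain ⟨e, h, ha⟩ := exists_adp q z
  have h1 := densQ q s (sm_etaV q s) (wdd T (pairH q s)) h ha
  have h2 := densQ q s (sm_thS q s 1) (wdd T (pairQ q s (sm_thS q s 1))) h ha
  have h3 : thF (thS q s 1) z e = thF (etaV q s) z e := by
    rw [thF_thS s h ha, thF_etaV s h ha, map_one]
    funext k b
    rw [one_mul]
  rw [h3] at h2
  exact h1.trans h2.symm

/-- **index theorem for the HODGE pair**: the index is the integral of the density of `pairZ` -/
theorem index_H : ∃ (d0 d1 : ℕ)
    (_ : KerD (R249.Wk352.dat0 T (pairH q s)) (R249.Wk352.dpair T (pairH q s)).A d0)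
    (_ : KerD (R249.Wk352.dat0 T (R249.Wk352.swapP (pairH q s)))
      (R249.Wk352.dpair T (pairH q s)).B d1),
    Integrable (dens T (pairH q s)) (μHE[4] : Measure M) ∧
    (d0 : ℝ) - d1 = ∫ z, dens T (pairZ q s) z ∂(μHE[4] : Measure M) := by
  obtain ⟨d0, d1, k0, k1, hi, he⟩ := indexQ q s (sm_etaV q s) T
  refine ⟨d0, d1, k0, k1, hi, ?_⟩
  rw [he, ← integral_dens T q s 1]
  exact integral_congr_ae (Filter.Eventually.of_forall fun z => dens_H_poly T q s z)

end gen

end Crest.Agent.R235.Ind167
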