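import Crest.Agent.R235.IndDen_167
import Crest.Agent.R235.IndPair_167
import Crest.Agent.R235.RiemC_399
import Crest.Agent.R249.Tz6_805
import Crest.Agent.R249.Tv12_57
import Crest.Agent.R249.WkD_352
import Crest.Agent.R249.TofM_352
import Crest.Agent.R249.HKEnd_286

/-!
Row 235, package IND, leaf L4 DENR (helper819).

The Clifford pair of the TRUE `Λ⁻` (`pairR s hv` of R249/Tz6_805, `ℝ ⊕ Λ⁻ → T`) over the volume form
`volF F` (`RiemC_399`), and its index density in the flipped adapted frame.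

* `flipE e = (e_0, e_1, e_2, -e_3)`; `onf_flip`; `Rm_flipE`;
* ring level: `pf_EE_flip : pf EE'_c = - pf PP_c`, `TT_flip : TT F' = - TT F`;
* `volAt_flip` : an adapted frame is negative for `F = ⟨I_b ·, ·⟩`, so `VolAt (volF F) z (flipE e)`;
* `dnR` : `dn D0 z - dn D1 z = 1/(32π²) ev (4 ∑ pf PP_c) - 1/(192π²) ev (TT F)` (adapted frame);
* `dnH` : the same for `pairH` : `1/(32π²) ev (-4 ∑ pf EE_c) + 1/(192π²) ev (TT F)`;
* `dn_HR` : `(dn D0H - dn D1H) - (dn D0R - dn D1R) = -4 (1/(192π²) ev (TT F))`;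
* `int_HR` : the integrated form;
* `index_R` : `d0 - d1 = ∫ (dn D0 - dn D1)` for `pairR`.
-/

set_option autoImplicit false
set_option maxSynthPendingDepth 3
set_option linter.unusedSectionVars false
set_option linter.unusedSimpArgs false
set_option linter.unusedVariables false

open Filter Topology Set Bundle Manifold MeasureTheory
open Matrix hiding J
open scoped ContDiff ENNReal NNReal
open Crest.GeometryTopology.CoordMetric Crest.GeometryTopology.ChartCurvature
open Crest.Agent.R202.Tens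
open Crest.Agent.R249.Fr129
open Crest.Agent.R249.C2_198 (EE eta e0 cK tO K)
open Crest.Agent.R249.Sg129 (ONF SG ev)
open Crest.Agent.R235.IndAlg_167 Crest.Agent.R235.IndDen_167

noncomputable section

namespace Crest.Agent.R235.IndR_819

/-! ### ring level -/

section ring

open Crest.Agent.R249.Fr129.Frame (e3 e3_sq half)

variable {S : Type*} [CommRing S] [Algebra ℝ S] {F F' : R249.Fr129.Frame 4 S}
  (hR : ∀ i j k l, F'.Rm i j k l
    = (e3 i : S) * e3 j * e3 k * e3 l * F.Rm i j k l)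

include hR in
lemma EE_flip (i j : Fin 4) (c : Fin 3) :
    EE F' i j c = - ((e3 c.succ : S) * e3 i * e3 j * F.PP i j c) := by
  fin_cases c <;> simp [EE, R249.Fr129.Frame.PP, hR, e3] <;> ring

include hR in
lemma PP_flip (i j : Fin 4) (c : Fin 3) :
    F'.PP i j c = - ((e3 c.succ : S) * e3 i * e3 j * EE F i j c) := by
  fin_cases c <;> simp [EE, R249.Fr129.Frame.PP, hR, e3] <;> ring

lemma e3_sq' (i : Fin 4) : (e3 i : S) * e3 i = 1 := R249.Fr129.Frame.cast_sq e3_sq i

include hR in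
/-- `pf EE'_c = - pf PP_c` -/
theorem pf_EE_flip (c : Fin 3) :
    pf (fun i j => EE F' i j c) = - pf (fun i j => F.PP i j c) := by
  simp only [pf, EE_flip hR]
  have h := e3_sq' (S := S) c.succ
  have h0 : (e3 0 : S) = 1 := by simp [e3]
  have h1 : (e3 1 : S) = 1 := by simp [e3]
  have h2 : (e3 2 : S) = 1 := by simp [e3]
  have h3 : (e3 3 : S) = -1 := by simp [e3]
  rw [h0, h1, h2, h3]
  linear_combination (-(F.PP 0 1 c * F.PP 2 3 c - F.PP 0 2 c * F.PP 1 3 c
    + F.PP 0 3 c * F.PP 1 2 c)) * h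

include hR in
/-- `TT F' = - TT F` -/
theorem TT_flip : TT F' = - TT F := by
  rw [TT, TT, ← Finset.sum_neg_distrib]
  refine Finset.sum_congr rfl fun i _ => ?_
  rw [← Finset.sum_neg_distrib]
  refine Finset.sum_congr rfl fun j _ => ?_
  have hi := e3_sq' (S := S) i
  have hj := e3_sq' (S := S) j
  have e1 : ∀ c, F'.PP i j c ^ 2 = EE F i j c ^ 2 := by
    intro c
    have h := e3_sq' (S := S) c.succ
    rw [PP_flip hR]
    calc (-((e3 c.succ : S) * e3 i * e3 j * EE F i j c)) ^ 2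
        = ((e3 c.succ : S) * e3 c.succ) * ((e3 i : S) * e3 i) * ((e3 j : S) * e3 j)
          * EE F i j c ^ 2 := by ring
      _ = EE F i j c ^ 2 := by rw [h, hi, hj]; ring
  have e2 : ∀ c, EE F' i j c ^ 2 = F.PP i j c ^ 2 := by
    intro c
    have h := e3_sq' (S := S) c.succ
    rw [EE_flip hR]
    calc (-((e3 c.succ : S) * e3 i * e3 j * F.PP i j c)) ^ 2
        = ((e3 c.succ : S) * e3 c.succ) * ((e3 i : S) * e3 i) * ((e3 j : S) * e3 j)
          * F.PP i j c ^ 2 := by ring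
      _ = F.PP i j c ^ 2 := by rw [h, hi, hj]; ring
  simp only [e1, e2]
  ring

end ring

/-! ### the flipped frame -/

section flip

open Crest.Agent.R249.Fr129.Frame (e3 e3_sq)

/-- `(e_0, e_1, e_2, -e_3)` -/
def flipE (e : Fin 4 → EuclideanSpace ℝ (Fin 4) → EuclideanSpace ℝ (Fin 4)) :
    Fin 4 → EuclideanSpace ℝ (Fin 4) → EuclideanSpace ℝ (Fin 4) :=
  fun i y => ((e3 i : ℤ) : ℝ) • e i y

variable {g : MetricField 4} {U : Set (EuclideanSpace ℝ (Fin 4))} {x : EuclideanSpace ℝ (Fin 4)}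
  {e : Fin 4 → EuclideanSpace ℝ (Fin 4) → EuclideanSpace ℝ (Fin 4)}

lemma e3r (i : Fin 4) : ((e3 i : ℤ) : ℝ) * ((e3 i : ℤ) : ℝ) = 1 := by
  exact_mod_cast congrArg (Int.cast (R := ℝ)) (e3_sq i)

theorem onf_flip (h : ONF g U x e) : ONF g U x (flipE e) where
  riem := h.riem
  mem := h.mem
  smooth i := (contDiffAt_const (c := ((e3 i : ℤ) : ℝ))).smul (h.smooth i)
  orth := by
    filter_upwards [h.orth] with y hy
    intro i j
    have h1 := hy i j
    simp only [flipE, map_smul, _root_.smul_apply, smul_eq_mul]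
    rw [h1]
    split_ifs with hij
    · subst hij
      linarith [e3r i]
    · simp

theorem curv_smul_all {E : Type*} [NormedAddCommGroup E] [NormedSpace ℝ E]
    (Γ : E → E →L[ℝ] E →L[ℝ] E) (x W X Y : E) (a b c : ℝ) :
    curv Γ x (a • W) (b • X) (c • Y) = (a * b * c) • curv Γ x W X Y := by
  unfold curv
  simp only [map_smul, _root_.smul_apply, smul_sub, smul_add, smul_smul]
  congr 1
  · congr 1
    · congr 1
      · congr 1; ring
      · congr 1; ring
    · congr 1; ring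
  · congr 1; ring

theorem Rm_flipE (h : ONF g U x e) (h' : ONF g U x (flipE e)) (i j k l : Fin 4) :
    h'.frameOf.Rm i j k l = (e3 i : SG x) * e3 j * e3 k * e3 l * h.frameOf.Rm i j k l := by
  have h1 := h'.Rm_germ i j k l
  have h2 := h.Rm_germ i j k l
  have h3 : (e3 i : SG x) * e3 j * e3 k * e3 l
      = algebraMap ℝ (SG x) (((e3 i : ℤ) : ℝ) * ((e3 j : ℤ) : ℝ) * ((e3 k : ℤ) : ℝ)
        * ((e3 l : ℤ) : ℝ)) := by
    simp only [map_mul, map_intCast]
  rw [h1, h2, h3, R249.Sg129.algebraMap_eq, R249.Sg129.germ_mul]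
  refine R249.Sg129.germ_eq (Eventually.of_forall fun y => ?_)
  simp only [flipE, curv_smul_all, map_smul, _root_.smul_apply, smul_eq_mul]
  ring

end flip

/-! ### orientation -/

section orient

open Crest.Agent.R249.Fr129.Frame (e3)
open Crest.Agent.R240 Crest.Agent.R240.Ch
open Crest.Agent.R235.RiemB_399 Crest.Agent.R235.RiemC_399 Crest.Agent.R235.IndVol_57
open Crest.Agent.R249.Tz2_805 Crest.Agent.R249.Vf281 Crest.Agent.R247.Bo84
open Crest.Agent.R249.Dic805 (tvy inner_tvy)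
open Crest.Agent.R235.Ind167

variable {M : Type*} [TopologicalSpace M] [ChartedSpace E4 M] [IsManifold 𝓘(ℝ, E4) ∞ M]
  [RiemannianBundle (fun x : M => TangentSpace 𝓘(ℝ, E4) x)]
  [IsContMDiffRiemannianBundle 𝓘(ℝ, E4) ∞ E4 (fun x : M => TangentSpace 𝓘(ℝ, E4) x)]

variable {q : QS M} {b : Fin 3} {F : F2 E4 M} {J : EndF E4 M}
  (hq : ∀ (x : M) (u v : TangentSpace 𝓘(ℝ, E4) x), at2 F x u v = inner ℝ (q.op b x u) v)
  {z : M} {e : Fin 4 → E4 → E4}
  (h : ONF (chartMetric 4 M z) (chartAt E4 z).target (chartCentre 4 M z) e) (ha : Adp q z e)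

include hq h ha in
/-- the values of the form on an adapted frame -/
theorem rep_adp (i j : Fin 4) : rep z F (chartCentre 4 M z) (e i (chartCentre 4 M z))
    (e j (chartCentre 4 M z)) = K ℝ b j i := by
  have hc := centre_mem (n := 4) z
  have ha0 := ha.self_of_nhds
  have ho := h.orth.self_of_nhds
  have hu : (inner ℝ (tvy z (chartCentre 4 M z) (e 0 (chartCentre 4 M z)))
      (tvy z (chartCentre 4 M z) (e 0 (chartCentre 4 M z))) : ℝ) = 1 := by
    rw [inner_tvy hc, ho 0 0, if_pos rfl]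
  have h1 := dSy_tcc z hc (e i (chartCentre 4 M z))
  have h2 := dSy_tcc z hc (e j (chartCentre 4 M z))
  rw [rep_apply, ← h1, ← h2]
  refine (hq _ _ _).trans ?_
  change (inner ℝ (q.op b _ (tvy z (chartCentre 4 M z) (e i (chartCentre 4 M z))))
    (tvy z (chartCentre 4 M z) (e j (chartCentre 4 M z))) : ℝ) = _
  rw [ha0 i, ha0 j, q.op_fr, sum_inner]
  simp only [real_inner_smul_left, q.fr_orth _ hu]
  simp

include hq h ha in
/-- **an adapted frame is negative** -/
theorem WF_adp : WF (rep z F (chartCentre 4 M z)) (rep z F (chartCentre 4 M z))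
    (fun i => e i (chartCentre 4 M z)) = -2 := by
  unfold WF
  simp only [rep_adp hq h ha]
  fin_cases b <;> simp [K] <;> norm_num

include hq h ha in
theorem WF_flip : WF (rep z F (chartCentre 4 M z)) (rep z F (chartCentre 4 M z))
    (fun i => flipE e i (chartCentre 4 M z)) = 2 := by
  have h1 := WF_adp hq h ha
  unfold WF at h1 ⊢
  simp only [flipE, map_smul, _root_.smul_apply, smul_eq_mul]
  have h0 : ((e3 0 : ℤ) : ℝ) = 1 := by simp [e3]
  have h1' : ((e3 1 : ℤ) : ℝ) = 1 := by simp [e3]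
  have h2 : ((e3 2 : ℤ) : ℝ) = 1 := by simp [e3]
  have h3 : ((e3 3 : ℤ) : ℝ) = -1 := by simp [e3]
  rw [h0, h1', h2, h3]
  linarith

include hq h ha in
/-- **the flipped adapted frame is positive** -/
theorem volAt_flip (hC : Comp F J) : R249.Tz805.VolAt (volF F) z (flipE e) :=
  volAt_volF hC z (onf_flip h) (by rw [WF_flip hq h ha]; norm_num)

end orient

/-! ### densities -/

section dens

open Crest.Agent.R249.Tz1_805 Crest.Agent.R249.Tz2_805 Crest.Agent.R249.Tz805
open Crest.Agent.R249.Tv57 Crest.Agent.R249.HK9_714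
open Crest.Agent.R235.Ind167
open Crest.Agent.R240 Crest.Agent.R240.Ch
open Crest.Agent.R235.RiemC_399

variable {M : Type*} [MetricSpace M] [ChartedSpace (EuclideanSpace ℝ (Fin 4)) M]
  [IsManifold (𝓡 4) ∞ M]
  [RiemannianBundle (fun p : M => TangentSpace (𝓡 4) p)]
  [IsContMDiffRiemannianBundle (𝓡 4) ∞ (EuclideanSpace ℝ (Fin 4)) (fun p : M => TangentSpace (𝓡 4) p)]
  [IsRiemannianManifold (𝓡 4) M] [MeasurableSpace M] [BorelSpace M]
  [SecondCountableTopology M] [Nonempty M]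

variable {κ : Type} [Fintype κ] {s : PF 4 M κ}
  {z : M} {e : Fin 4 → EuclideanSpace ℝ (Fin 4) → EuclideanSpace ℝ (Fin 4)}
  (h : ONF (chartMetric 4 M z) (chartAt (EuclideanSpace ℝ (Fin 4)) z).target
      (chartCentre 4 M z) e)

section R

variable {vol : (z : M) → (Fin 4 → TangentSpace 𝓘(ℝ, EuclideanSpace ℝ (Fin 4)) z) → ℝ}
  {hv : IsVol vol} {T : ToF 4 M} {D0 : Dat 4 M (Option (κ × κ))} {D1 : Dat 4 M κ}
  (W : WD T (pairR s hv) D0 D1)

include h W in
/-- the index density of `ℝ ⊕ Λ⁻ → T` in a positive frame -/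
theorem dnR_vol (hz : VolAt vol z e) : dn D0 z - dn D1 z
    = 1 / (32 * Real.pi ^ 2) * ev (-4 * ∑ c, pf (fun i j => EE h.frameOf i j c))
      + 1 / (192 * Real.pi ^ 2) * ev (TT h.frameOf) := by
  rw [W.dn0 (cloc_R s hv h hz), W.dn1 (cloc_R s hv h hz)]
  have t1 := congrArg ev (trQQ h.frameOf (eta h.frameOf))
  have t2 := congrArg ev (tO_b h.frameOf (eta h.frameOf))
  rw [bA0_eta, bA1_eta, map_sub] at t1 t2
  simp only [GG_eta] at t1
  linear_combination (1 / (32 * Real.pi ^ 2)) * t1 + (1 / (192 * Real.pi ^ 2)) * t2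

include h W in
/-- **the index density of `ℝ ⊕ Λ⁻ → T` in a frame whose flip is positive** -/
theorem dnR (hz : VolAt vol z (flipE e)) : dn D0 z - dn D1 z
    = 1 / (32 * Real.pi ^ 2) * ev (4 * ∑ c, pf (fun i j => h.frameOf.PP i j c))
      - 1 / (192 * Real.pi ^ 2) * ev (TT h.frameOf) := by
  have hR := Rm_flipE h (onf_flip h)
  rw [dnR_vol (onf_flip h) W hz, TT_flip hR]
  simp only [pf_EE_flip hR, Finset.sum_neg_distrib, map_neg, map_mul, map_ofNat]
  ring

end R

section H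

variable {q : QS M} (ha : Adp q z e) {T : ToF 4 M} {D0 : Dat 4 M (Fin 4)} {D1 : Dat 4 M κ}
  (W : WD T (pairH q s) D0 D1)

lemma thF_eta : thF (etaV q s) z e = fun k c => vg z e (etaV q s c) k := rfl

include h W ha in
/-- **the index density of the HODGE pair in an adapted frame** -/
theorem dnH : dn D0 z - dn D1 z
    = 1 / (32 * Real.pi ^ 2) * ev (-4 * ∑ c, pf (fun i j => EE h.frameOf i j c))
      + 1 / (192 * Real.pi ^ 2) * ev (TT h.frameOf) := by
  have hC := clocQ s (sm_etaV q s) h ha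
  have hth : thF (etaV q s) z e = eta h.frameOf := by
    funext k c
    exact vg_etaV s h ha c k
  rw [hth] at hC
  rw [W.dn0 hC, W.dn1 hC]
  have t1 := congrArg ev (trQQ h.frameOf (eta h.frameOf))
  have t2 := congrArg ev (tO_b h.frameOf (eta h.frameOf))
  rw [map_sub] at t1 t2
  simp only [GG_eta] at t1
  linear_combination (1 / (32 * Real.pi ^ 2)) * t1 + (1 / (192 * Real.pi ^ 2)) * t2

end H

section HR

variable {q : QS M} {vol : (z : M) → (Fin 4 → TangentSpace 𝓘(ℝ, EuclideanSpace ℝ (Fin 4)) z) → ℝ}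
  {hv : IsVol vol} {T : ToF 4 M}
  {D0 : Dat 4 M (Fin 4)} {D1 : Dat 4 M κ} (WH : WD T (pairH q s) D0 D1)
  {E0 : Dat 4 M (Option (κ × κ))} {E1 : Dat 4 M κ} (WR : WD T (pairR s hv) E0 E1)

include h WH WR in
/-- **`H - R = -4 ρ`** -/
theorem dn_HR (ha : Adp q z e) (hz : VolAt vol z (flipE e)) :
    (dn D0 z - dn D1 z) - (dn E0 z - dn E1 z)
      = -4 * (1 / (192 * Real.pi ^ 2) * ev (TT h.frameOf)) := by
  rw [dnH h ha WH, dnR h WR hz]
  have t := congrArg ev (TT_eq h.frameOf)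
  rw [Finset.sum_add_distrib, mul_add, map_add] at t
  generalize (∑ c, pf (fun i j => EE h.frameOf i j c)) = A at t ⊢
  generalize (∑ c, pf (fun i j => h.frameOf.PP i j c)) = B at t ⊢
  have e1 : ev (-4 * A) = - ev (4 * A) := by rw [neg_mul, map_neg]
  have hpi : Real.pi ^ 2 ≠ 0 := by positivity
  have t2 : ev (4 * A) = ev (TT h.frameOf) - ev (4 * B) := by linarith
  rw [e1, t2]
  field_simp
  ring

/-- **integrated form**: for the true `Λ⁻` of `F = ⟨I_b ·, ·⟩` and `r0 = 1/(192π²) ev (TT F)` -/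
theorem int_HR {b : Fin 3} {F : F2 E4 M} {J : EndF E4 M} (hC : Comp F J)
    (hq : ∀ (x : M) (u v : TangentSpace 𝓘(ℝ, E4) x), at2 F x u v = inner ℝ (q.op b x u) v)
    {D0 : Dat 4 M (Fin 4)} {D1 : Dat 4 M κ} (WH : WD T (pairH q s) D0 D1)
    {E0 : Dat 4 M (Option (κ × κ))} {E1 : Dat 4 M κ} (WR : WD T (pairR s (isVol_volF hC)) E0 E1)
    {r0 : M → ℝ} (hr0 : ∀ (z : M) (e : Fin 4 → EuclideanSpace ℝ (Fin 4) → EuclideanSpace ℝ (Fin 4))
      (h : ONF (chartMetric 4 M z) (chartAt (EuclideanSpace ℝ (Fin 4)) z).target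
        (chartCentre 4 M z) e), Adp q z e → r0 z = 1 / (192 * Real.pi ^ 2) * ev (TT h.frameOf))
    (iH : Integrable (fun z => dn D0 z - dn D1 z) (μHE[4] : Measure M))
    (iR : Integrable (fun z => dn E0 z - dn E1 z) (μHE[4] : Measure M)) :
    (∫ z, (dn D0 z - dn D1 z) ∂(μHE[4] : Measure M)) - ∫ z, (dn E0 z - dn E1 z) ∂(μHE[4] : Measure M)
      = -4 * ∫ z, r0 z ∂(μHE[4] : Measure M) := by
  rw [← integral_sub iH iR, ← integral_const_mul]
  congr 1
  funext z
  obtain ⟨e, h, ha⟩ := exists_adp q z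
  rw [hr0 z e h ha]
  exact dn_HR h WH WR ha (volAt_flip hq h ha hC)

end HR

/-- **the index formula for `pairR`** -/
theorem index_R {M : Type*} [MetricSpace M] [CompactSpace M] [ConnectedSpace M]
    [ChartedSpace (EuclideanSpace ℝ (Fin 4)) M] [IsManifold (𝓡 4) ∞ M]
    [RiemannianBundle (fun p : M => TangentSpace (𝓡 4) p)]
    [IsContMDiffRiemannianBundle (𝓡 4) ∞ (EuclideanSpace ℝ (Fin 4))
      (fun p : M => TangentSpace (𝓡 4) p)]
    [IsRiemannianManifold (𝓡 4) M] [MeasurableSpace M] [BorelSpace M]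
    [SecondCountableTopology M] [Nonempty M] {κ : Type} [Fintype κ] {s : PF 4 M κ}
    {vol : (z : M) → (Fin 4 → TangentSpace 𝓘(ℝ, EuclideanSpace ℝ (Fin 4)) z) → ℝ}
    {hv : IsVol vol} {T : ToF 4 M} {D0 : Dat 4 M (Option (κ × κ))} {D1 : Dat 4 M κ}
    (W : WD T (pairR s hv) D0 D1) (R : DPair D0 D1) :
    ∃ (d0 d1 : ℕ) (_ : KerD D0 R.A d0) (_ : KerD D1 R.B d1),
      Integrable (fun z => dn D0 z - dn D1 z) (μHE[4] : Measure M) ∧
      (d0 : ℝ) - d1 = ∫ z, (dn D0 z - dn D1 z) ∂(μHE[4] : Measure M) := by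
  have z0 : M := Classical.arbitrary M
  have hr : ∀ z : M, ∑ a, D0.p a a z = 4 ∧ ∑ a, D1.p a a z = 4 := by
    intro z
    obtain ⟨e, h, hz⟩ := hv z
    have h0 := W.rank0 (cloc_R s hv h hz)
    have h1 := W.rank1 (cloc_R s hv h hz)
    simp only [Fintype.card_fin] at h0 h1
    exact ⟨by exact_mod_cast h0, by exact_mod_cast h1⟩
  refine index_D R249.HK286.chartStmt R
    (W.exists_ne0 z0 (by rw [(hr z0).1]; norm_num))
    (by
      obtain ⟨a, -, ha⟩ := Finset.exists_ne_zero_of_sum_ne_zero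
        (show ∑ a, D1.p a a z0 ≠ 0 by rw [(hr z0).2]; norm_num)
      exact ⟨z0, a, ha⟩)
    (fun z => by rw [(hr z).1, (hr z).2]) (fun z => ?_)
  obtain ⟨e, h, hz⟩ := hv z
  rw [W.tr0 (cloc_R s hv h hz), W.tr1 (cloc_R s hv h hz)]
  have t1 := congrArg ev (IndDen_167.trQ h.frameOf (eta h.frameOf))
  rw [bA0_eta, bA1_eta] at t1
  exact t1

end dens

end Crest.Agent.R235.IndR_819
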