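import Crest.Agent.R235.IndSig_723
import Crest.Agent.R235.IndQ2_167
import Crest.Agent.R235.IndR_819

/-!
Row 235 (S0364), package IND, leaf L5 (helper723), part 2: `SIG235` from `KER4` (quaternionic kernels)
and `HODGE` (helper194).

* `KER4`  : the kernels of the quaternionic pair have dimensions divisible by four;
* `HODGE` : the kernels of `pairH` and `pairR` in terms of `H¹`, `H²`;
* `sig235_of_hodge : KER4 → HODGE → SIG235.{0}`.
-/

set_option autoImplicit false
set_option maxSynthPendingDepth 3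
set_option linter.unusedSectionVars false
set_option linter.unusedVariables false
set_option maxHeartbeats 1000000

open Filter Topology Set Bundle Manifold MeasureTheory
open scoped ContDiff ENNReal NNReal
open Crest.GeometryTopology.CoordMetric Crest.GeometryTopology.ChartCurvature
  Crest.GeometryTopology.PointedLimit
open Crest.Agent.R240 Crest.Agent.R240.Ch
open Crest.Agent.R249.Tz2_805 Crest.Agent.R249.Tz805 Crest.Agent.R249.Vf281
open Crest.Agent.R249.HK9_714 Crest.Agent.R249.FrmB_285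
open Crest.Agent.R249.Tv57 hiding GG
open Crest.Agent.R235.DichProps_723 Crest.Agent.R235.Ind167 Crest.Agent.R235.IndSig_723
open Crest.Agent.R235.IndR_819 Crest.Agent.R235.RiemC_399 Crest.Agent.R235.QSTri_451

noncomputable section

namespace Crest.Agent.R235.IndSig2_723

/-- **KER4** : the kernels of the quaternionic pair. -/
def KER4 : Prop :=
  ∀ (M : Type) [MetricSpace M] [CompactSpace M] [ConnectedSpace M]
    [ChartedSpace (EuclideanSpace ℝ (Fin 4)) M] [IsManifold (𝓡 4) ∞ M]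
    [RiemannianBundle (fun p : M => TangentSpace (𝓡 4) p)]
    [IsContMDiffRiemannianBundle (𝓡 4) ∞ (EuclideanSpace ℝ (Fin 4))
      (fun p : M => TangentSpace (𝓡 4) p)]
    [IsRiemannianManifold (𝓡 4) M] [MeasurableSpace M] [BorelSpace M]
    [SecondCountableTopology M] [Nonempty M] (κ : Type) [Fintype κ] (T : ToF 4 M) (q : QS M)
    (s : PF 4 M κ) (d0 d1 : ℕ),
    Nonempty (KerD (R249.Wk352.dat0 T (pairZ q s)) (R249.Wk352.dpair T (pairZ q s)).A d0) →
    Nonempty (KerD (R249.Wk352.dat0 T (R249.Wk352.swapP (pairZ q s)))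
      (R249.Wk352.dpair T (pairZ q s)).B d1) → 4 ∣ d0 ∧ 4 ∣ d1

/-- **HODGE** : the kernels of `pairH` and `pairR`. -/
def HODGE : Prop :=
  ∀ (M : Type) [MetricSpace M] [CompactSpace M] [ConnectedSpace M]
    [ChartedSpace (EuclideanSpace ℝ (Fin 4)) M] [IsManifold (𝓡 4) ∞ M]
    [RiemannianBundle (fun p : M => TangentSpace (𝓡 4) p)]
    [IsContMDiffRiemannianBundle (𝓡 4) ∞ (EuclideanSpace ℝ (Fin 4))
      (fun p : M => TangentSpace (𝓡 4) p)]
    [IsRiemannianManifold (𝓡 4) M] [MeasurableSpace M] [BorelSpace M]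
    [SecondCountableTopology M] [Nonempty M] (w : Trip M) (hw : Pos3 w)
    (e : Fin 3 → F2 E4 M) (he : IndTri_451.IsTri (IndTri_451.und w) e)
    (hin : ∀ (x : M) (u v : TangentSpace 𝓘(ℝ, E4) x), inner ℝ u v = at2 (IndTri_451.gg e) x u v)
    (κ : Type) [Fintype κ] (T : ToF 4 M) (s : PF 4 M κ) (d0H d1H d0R d1R : ℕ),
    Nonempty (KerD (R249.Wk352.dat0 T (pairH (qs he hin) s))
      (R249.Wk352.dpair T (pairH (qs he hin) s)).A d0H) →
    Nonempty (KerD (R249.Wk352.dat0 T (R249.Wk352.swapP (pairH (qs he hin) s)))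
      (R249.Wk352.dpair T (pairH (qs he hin) s)).B d1H) →
    Nonempty (KerD (R249.Wk352.dat0 T (pairR s (isVol_volF (comp_w he hin))))
      (R249.Wk352.dpair T (pairR s (isVol_volF (comp_w he hin)))).A d0R) →
    Nonempty (KerD (R249.Wk352.dat0 T (R249.Wk352.swapP (pairR s (isVol_volF (comp_w he hin)))))
      (R249.Wk352.dpair T (pairR s (isVol_volF (comp_w he hin)))).B d1R) →
    HodgeOut w d0H d1H d0R d1R

theorem inst_of (h4 : KER4) (hH : HODGE) : Inst := by
  intro M _ _ _ _ _ _ _ _ _ _ _ _ w hw e he hin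
  obtain ⟨m, ⟨s⟩⟩ := R249.Tz2_805.exists_PF (n := 4) (M := M)
  let T : ToF 4 M := R249.Tof352.tof 4 M
  set q : QS M := qs he hin with hq
  obtain ⟨d0H, d1H, k0H, k1H, iH, eH⟩ := index_H T q s
  obtain ⟨d00, d01, k00, k01, i0, e0⟩ := index_Z T q s
  have hC := comp_w he hin
  obtain ⟨d0R, d1R, k0R, k1R, iR, eR⟩ := index_R (wdd T (pairR s (isVol_volF hC)))
    (R249.Wk352.dpair T (pairR s (isVol_volF hC)))
  obtain ⟨h40, h41⟩ := h4 M _ T q s d00 d01 ⟨k00⟩ ⟨k01⟩
  have hout := hH M w hw e he hin _ T s d0H d1H d0R d1R ⟨k0H⟩ ⟨k1H⟩ ⟨k0R⟩ ⟨k1R⟩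
  have hqq : ∀ (x : M) (u v : TangentSpace 𝓘(ℝ, E4) x),
      at2 (IndTri_451.und w 0) x u v = inner ℝ (q.op 0 x u) v := by
    intro x u v
    rw [← he.e_zero]
    exact e_eq_inner he hin 0 x u v
  have hHR := int_HR (b := 0) hC hqq (wdd T (pairH q s)) (wdd T (pairR s (isVol_volF hC)))
    (r0 := dens T (pairZ q s)) (fun z e h ha => rZ_eq T s h ha) iH iR
  -- the integral of the density of `pairH`
  have hHi : ∫ z, dens T (pairH q s) z ∂(μHE[4] : Measure M) =
      ∫ z, dens T (pairZ q s) z ∂(μHE[4] : Measure M) := by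
    rw [← integral_dens T q s 1]
    exact integral_congr_ae (Filter.Eventually.of_forall fun z => dens_H_poly T q s z)
  exact sigOut_of hout (eH.trans hHi.symm) eR e0 hHi hHR h40 h41

/-- **`SIG235`** from `KER4` and `HODGE`. -/
theorem sig235_of_hodge (h4 : KER4) (hH : HODGE) : SIG235.{0} := sig235_of (inst_of h4 hH)

end Crest.Agent.R235.IndSig2_723
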