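import Crest.Agent.R235.HodgeR2_194
import Crest.Agent.R235.HodgeP1_194
import Crest.Agent.R235.HodgeMain_194
import Crest.Agent.R235.QSTri_451
import Crest.Agent.R235.IndTriB_451
import Crest.Agent.R235.IndSig2_723

/-!
Row 235 (S0364), package IND, leaf IND-7 HODGE (helper194), part 11: `hodge : IndSig2_723.HODGE`.
-/

set_option autoImplicit false
set_option maxSynthPendingDepth 3
set_option linter.unusedSectionVars false

open Set Function Filter MeasureTheory Bundle
open scoped Manifold ContDiff Topology ENNReal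
open Crest.GeometryTopology.CoordMetric Crest.GeometryTopology.ChartCurvature
  Crest.GeometryTopology.PointedLimit
open Crest.Agent.R202.Tens Crest.Agent.R247.Bo84 Crest.Agent.R249.Vf281
open Crest.Agent.R249.Tz2_805 Crest.Agent.R249.Tz805 Crest.Agent.R249.Idx789

namespace Crest.Agent.R235.Hodge_194

open Crest.Agent.R240 Crest.Agent.R240.Ch Crest.Agent.R240.Int
open Crest.Agent.R235.IndTri_451 (IsTri und gg II)
open Crest.Agent.R235.QSTri_451 (qs e_eq_inner comp comp_w)
open Crest.Agent.R235.RiemC_399 (volF isVol_volF)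
open Crest.Agent.R235.Ind167 (QS pairH)

noncomputable section

section tri

variable {M : Type} [TopologicalSpace M] [ChartedSpace E4 M] [IsManifold 𝓘(ℝ, E4) ∞ M]
  [RiemannianBundle (fun x : M => TangentSpace 𝓘(ℝ, E4) x)]
  [IsContMDiffRiemannianBundle 𝓘(ℝ, E4) ∞ E4 (fun x : M => TangentSpace 𝓘(ℝ, E4) x)]
  {w e : Fin 3 → F2 E4 M} (h : IsTri w e)
  (hin : ∀ (x : M) (u v : TangentSpace 𝓘(ℝ, E4) x), inner ℝ u v = at2 (gg e) x u v)

include h in
theorem fr_tri : Fr (e 0) e where
  smF := h.smooth 0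
  ne x := by rw [h.e_zero]; exact h.W_ne x
  sm := h.smooth
  orth i j x := by rw [h.W_e i j x, h.e_zero]

include h hin in
theorem adf_tri (z : M) : ∃ E, AdF e z E := by
  obtain ⟨b, hb⟩ := exists_onb (M := M) z
  have hu : at2 (gg e) z (b 0) (b 0) = 1 := by
    have h1 := hin z (b 0) (b 0)
    have h2 := hb 0 0
    rw [if_pos rfl] at h2
    exact h1.symm.trans h2
  have H := h.fr z hu
  set T := IndTri_451.frm (at2 (e 1) z) (at2 (e 2) z) (at2 (e 0) z) (b 0) with hT
  refine ⟨fun a => T (ee a), fun a c => ?_, fun i a c => ?_⟩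
  · refine (hin z (T (ee a)) (T (ee c))).trans ((H.g (ee a) (ee c)).trans ?_)
    fin_cases a <;> fin_cases c <;> simp
  · show at2 (e i) z (T (ee a)) (T (ee c)) = sdm i a c
    fin_cases i
    · refine (H.e0 (ee a) (ee c)).trans ?_
      fin_cases a <;> fin_cases c <;> simp [sdm]
    · refine (H.e1 (ee a) (ee c)).trans ?_
      fin_cases a <;> fin_cases c <;> simp [sdm]
    · refine (H.e2 (ee a) (ee c)).trans ?_
      fin_cases a <;> fin_cases c <;> simp [sdm]

include h hin in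
theorem hr_tri : HR (volF (w 0)) e where
  fr := fr_tri h
  ad := adf_tri h hin
  vol z v := by rw [h.e_zero]; rfl

end tri

section blk

variable {M : Type} [MetricSpace M] [ChartedSpace (EuclideanSpace ℝ (Fin 4)) M]
  [IsManifold (𝓡 4) ∞ M]
  [RiemannianBundle (fun p : M => TangentSpace (𝓡 4) p)]
  [IsContMDiffRiemannianBundle (𝓡 4) ∞ (EuclideanSpace ℝ (Fin 4)) (fun p : M => TangentSpace (𝓡 4) p)]
  [IsRiemannianManifold (𝓡 4) M] [MeasurableSpace M] [BorelSpace M]
  [SecondCountableTopology M] [Nonempty M] [CompactSpace M]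
  {w e : Fin 3 → F2 E4 M} (h : IsTri w e)
  (hin : ∀ (x : M) (u v : TangentSpace 𝓘(ℝ, E4) x), inner ℝ u v = at2 (gg e) x u v)

theorem hh_tri : HH (qs h hin) e where
  fr := fr_tri h
  ad := adf_tri h hin
  op b z u v := e_eq_inner h hin b z u v

include h hin in
theorem hI_tri (a b : F2 E4 M) :
    Int.I (e 0) a b = ∫ x, 2 * qG (e 0) a b x ∂(μHE[4] : Measure M) :=
  Crest.Agent.R235.IndVol_57.I_eq (comp h hin 0).cpt a b

end blk

/-- **HODGE** -/
theorem hodge : IndSig2_723.HODGE := by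
  intro M _ _ _ _ _ _ _ _ _ _ _ _ w hw e he hin κ _ T s d0H d1H d0R d1R K0 K1 K0' K1'
  obtain ⟨K0⟩ := K0
  obtain ⟨K1⟩ := K1
  obtain ⟨K0'⟩ := K0'
  obtain ⟨K1'⟩ := K1'
  have hI := hI_tri he hin
  obtain ⟨b1, bp, bm, P, N, h1, h2, h3, h4, h5, h6, h7, h8, h9, h10, h11, h12⟩ :=
    hodge_main (F := w 0) he.e_zero (fr_tri he) (inpH s (hh_tri he hin) hI)
      (inpR s (isVol_volF (comp_w he hin)) (hr_tri he hin) hI) (kerA_of _ K0) (kerB_of _ K1)
      (kerA_of _ K0') (kerB_of _ K1')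
  subst h10
  refine ⟨P, N, h1, h12.symm, h2, h3, ?_, ?_, h6, h7, h8⟩
  · rw [h4, h9, add_comm]
  · rw [h5, h11, add_comm]

end

end Crest.Agent.R235.Hodge_194
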