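import Mathlib
import Crest.Agent.R275.FredC_685

/-!
# R235, TOP/IND: quaternionic parity of the index (helper435)

* `four_dvd_finrank`: a real vector space with `I² = J² = -1`, `IJ = -JI` has real dimension
  divisible by `4`;
* `four_dvd_ind`: a Fredholm operator which commutes with two such pairs modulo compact operators
  has index divisible by `4` (symmetrise over the quaternion group);
* `b1_cases`: the numerical consequence for a closed four-manifold with a positive triple
  (`b⁺ = 3`, `4 - 4 b₁ + 5 b⁺ - b⁻ = 0`).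
-/

set_option autoImplicit false

namespace Crest.Agent.R235.QInd_435

open Crest.Agent.R275.Fred685 LinearMap
open scoped Quaternion

/-- a real vector space with a quaternionic structure has dimension divisible by four. -/
theorem four_dvd_finrank {V : Type*} [AddCommGroup V] [Module ℝ V] (I J : V →ₗ[ℝ] V)
    (hI : ∀ v, I (I v) = -v) (hJ : ∀ v, J (J v) = -v) (hIJ : ∀ v, I (J v) = -J (I v)) :
    4 ∣ Module.finrank ℝ V := by
  classical
  let q : QuaternionAlgebra.Basis (Module.End ℝ V) (-1 : ℝ) 0 (-1) :=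
    { i := I
      j := J
      k := I * J
      i_mul_i := by
        ext v
        simp [hI]
      j_mul_j := by
        ext v
        simp [hJ]
      i_mul_j := rfl
      j_mul_i := by
        ext v
        simp only [Module.End.mul_apply, zero_smul, zero_sub]
        show J (I v) = -(I (J v))
        rw [hIJ, neg_neg] }
  let f : ℍ[ℝ] →ₐ[ℝ] Module.End ℝ V := q.liftHom
  let _ : Module ℍ[ℝ] V := Module.compHom V f.toRingHom
  have hs : ∀ (a : ℍ[ℝ]) (v : V), a • v = f a v := fun _ _ => rfl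
  have : IsScalarTower ℝ ℍ[ℝ] V := by
    refine ⟨fun r a v => ?_⟩
    rw [hs, hs, map_smul]
    rfl
  have h := Module.finrank_mul_finrank ℝ ℍ[ℝ] V
  rw [Quaternion.finrank_eq_four] at h
  exact ⟨_, h.symm⟩

section main

variable {E F : Type*} [NormedAddCommGroup E] [NormedSpace ℝ E] [NormedAddCommGroup F]
  [NormedSpace ℝ F] [CompleteSpace E] [CompleteSpace F]

omit [CompleteSpace E] [CompleteSpace F] in
/-- the index of an operator commuting with quaternionic structures. -/
theorem four_dvd_ind_of_comm (T : E →L[ℝ] F) (I J : E →L[ℝ] E) (I' J' : F →L[ℝ] F)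
    (hI : ∀ v, I (I v) = -v) (hJ : ∀ v, J (J v) = -v) (hIJ : ∀ v, I (J v) = -J (I v))
    (hI' : ∀ v, I' (I' v) = -v) (hJ' : ∀ v, J' (J' v) = -v) (hIJ' : ∀ v, I' (J' v) = -J' (I' v))
    (cI : ∀ v, T (I v) = I' (T v)) (cJ : ∀ v, T (J v) = J' (T v)) :
    (4 : ℤ) ∣ ind T := by
  have h1 : 4 ∣ Module.finrank ℝ (ker (T : E →ₗ[ℝ] F)) := by
    refine four_dvd_finrank
      ((I : E →ₗ[ℝ] E).restrict (p := ker (T : E →ₗ[ℝ] F)) (q := ker (T : E →ₗ[ℝ] F)) ?_)
      ((J : E →ₗ[ℝ] E).restrict (p := ker (T : E →ₗ[ℝ] F)) (q := ker (T : E →ₗ[ℝ] F)) ?_)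
      ?_ ?_ ?_
    · intro v hv
      have hv' : T v = 0 := hv
      show T (I v) = 0
      rw [cI, hv', map_zero]
    · intro v hv
      have hv' : T v = 0 := hv
      show T (J v) = 0
      rw [cJ, hv', map_zero]
    · intro v
      apply Subtype.ext
      exact hI v
    · intro v
      apply Subtype.ext
      exact hJ v
    · intro v
      apply Subtype.ext
      exact hIJ v
  have h2 : 4 ∣ Module.finrank ℝ (F ⧸ range (T : E →ₗ[ℝ] F)) := by
    refine four_dvd_finrank
      (Submodule.mapQ (range (T : E →ₗ[ℝ] F)) (range (T : E →ₗ[ℝ] F)) (I' : F →ₗ[ℝ] F) ?_)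
      (Submodule.mapQ (range (T : E →ₗ[ℝ] F)) (range (T : E →ₗ[ℝ] F)) (J' : F →ₗ[ℝ] F) ?_)
      ?_ ?_ ?_
    · rintro _ ⟨v, rfl⟩
      exact ⟨I v, cI v⟩
    · rintro _ ⟨v, rfl⟩
      exact ⟨J v, cJ v⟩
    · intro v
      obtain ⟨v, rfl⟩ := Submodule.mkQ_surjective _ v
      show (Submodule.mkQ _) (I' (I' v)) = -(Submodule.mkQ _) v
      rw [hI', map_neg]
    · intro v
      obtain ⟨v, rfl⟩ := Submodule.mkQ_surjective _ v
      show (Submodule.mkQ _) (J' (J' v)) = -(Submodule.mkQ _) v
      rw [hJ', map_neg]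
    · intro v
      obtain ⟨v, rfl⟩ := Submodule.mkQ_surjective _ v
      show (Submodule.mkQ _) (I' (J' v)) = -(Submodule.mkQ _) (J' (I' v))
      rw [hIJ', map_neg]
  obtain ⟨a, ha⟩ := h1
  obtain ⟨b, hb⟩ := h2
  refine ⟨(a : ℤ) - b, ?_⟩
  show idx (T : E →ₗ[ℝ] F) = _
  rw [idx, ha, hb]
  push_cast
  ring

/-- **quaternionic parity**: a Fredholm operator commuting modulo compact operators with
quaternionic structures has index divisible by four. -/
theorem four_dvd_ind (T : E →L[ℝ] F) (hT : Fred T) (I J : E →L[ℝ] E) (I' J' : F →L[ℝ] F)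
    (hI : ∀ v, I (I v) = -v) (hJ : ∀ v, J (J v) = -v) (hIJ : ∀ v, I (J v) = -J (I v))
    (hI' : ∀ v, I' (I' v) = -v) (hJ' : ∀ v, J' (J' v) = -v) (hIJ' : ∀ v, I' (J' v) = -J' (I' v))
    (cI : IsCompactOperator (T.comp I - I'.comp T))
    (cJ : IsCompactOperator (T.comp J - J'.comp T)) :
    (4 : ℤ) ∣ ind T := by
  -- first symmetrise over `I`, then over `J`
  set T1 : E →L[ℝ] F := (1 / 2 : ℝ) • (T - I'.comp (T.comp I)) with hT1
  set T2 : E →L[ℝ] F := (1 / 2 : ℝ) • (T1 - J'.comp (T1.comp J)) with hT2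
  have e1 : T1 - T = (-(1 / 2 : ℝ)) • I'.comp (T.comp I - I'.comp T) := by
    ext v
    simp only [hT1, ContinuousLinearMap.comp_apply, _root_.sub_apply, _root_.smul_apply,
      map_sub, hI', smul_sub, smul_neg]
    module
  have k1 : IsCompactOperator (T1 - T) := by
    rw [e1]
    exact (cI.clm_comp I').smul _
  have cJ1 : IsCompactOperator (T1.comp J - J'.comp T1) := by
    have : T1.comp J - J'.comp T1 =
        (T.comp J - J'.comp T) + ((T1 - T).comp J - J'.comp (T1 - T)) := by
      ext v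
      simp only [ContinuousLinearMap.comp_apply, _root_.sub_apply, _root_.add_apply, map_sub]
      abel
    rw [this]
    exact cJ.add ((k1.comp_clm J).sub (k1.clm_comp J'))
  have e2 : T2 - T1 = (-(1 / 2 : ℝ)) • J'.comp (T1.comp J - J'.comp T1) := by
    ext v
    simp only [hT2, ContinuousLinearMap.comp_apply, _root_.sub_apply, _root_.smul_apply,
      map_sub, hJ', smul_sub, smul_neg]
    module
  have k2 : IsCompactOperator (T2 - T1) := by
    rw [e2]
    exact (cJ1.clm_comp J').smul _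
  have hF1 : Fred T1 := hT.congr k1
  have i1 : ind T1 = ind T := ind_congr hT k1
  have i2 : ind T2 = ind T1 := ind_congr hF1 k2
  rw [← i1, ← i2]
  have c1 : ∀ v, T1 (I v) = I' (T1 v) := by
    intro v
    simp only [hT1, ContinuousLinearMap.comp_apply, _root_.sub_apply, _root_.smul_apply,
      map_sub, map_smul, hI, hI', map_neg]
    module
  refine four_dvd_ind_of_comm T2 I J I' J' hI hJ hIJ hI' hJ' hIJ' ?_ ?_
  · intro v
    have a1 : T1 (J (I v)) = -(I' (T1 (J v))) := by
      have : J (I v) = -I (J v) := by rw [hIJ, neg_neg]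
      rw [this, map_neg, c1]
    have a2 : J' (I' (T1 (J v))) = -(I' (J' (T1 (J v)))) := by rw [hIJ', neg_neg]
    simp only [hT2, ContinuousLinearMap.comp_apply, _root_.sub_apply, _root_.smul_apply,
      map_sub, map_smul]
    rw [a1, c1, map_neg, a2, neg_neg]
  · intro v
    simp only [hT2, ContinuousLinearMap.comp_apply, _root_.sub_apply, _root_.smul_apply,
      map_sub, map_smul, hJ, hJ', map_neg]
    module

end main

/-- numerical consequence: `b₁ ∈ {0, 4}`, with the values of `b⁻`. -/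
theorem b1_cases {b1 bm : ℕ} {i : ℤ} (h4 : (4 : ℤ) ∣ i) (hi : i = 1 - b1 + 3 ∨ i = b1 - 1 - 3)
    (hs : (4 : ℤ) - 4 * b1 + 5 * 3 - bm = 0) :
    (b1 = 0 ∧ bm = 19) ∨ (b1 = 4 ∧ bm = 3) := by
  have : b1 ≤ 4 := by omega
  interval_cases b1 <;> omega

end Crest.Agent.R235.QInd_435
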