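import Crest.Agent.R235.IndSig2_723
import Crest.Agent.R235.IndKer4_936

/-!
Row 235 (S0364), package IND, leaf L5 (helper723), part 3: `KER4` is a theorem (helper936), hence
`sig235_of_HODGE : HODGE → SIG235.{0}`.
-/

set_option autoImplicit false
set_option maxSynthPendingDepth 3

open scoped Manifold ContDiff

namespace Crest.Agent.R235.IndSig2_723

theorem ker4 : KER4 := by
  intro M _ _ _ _ _ _ _ _ _ _ _ _ κ _ T q s d0 d1 h0 h1
  obtain ⟨k0⟩ := h0
  obtain ⟨k1⟩ := h1
  exact ⟨IndKer4_936.ker4_A q s (fun _ _ _ => rfl) k0, IndKer4_936.ker4_B q s (fun _ _ _ => rfl) k1⟩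

/-- **`SIG235`** from `HODGE`. -/
theorem sig235_of_HODGE (hH : HODGE) : DichProps_723.SIG235.{0} := sig235_of_hodge ker4 hH

end Crest.Agent.R235.IndSig2_723
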