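import Crest.Agent.R235.K12Defs_417

/-!
Row 235, package KUM, block K12 (helper417), leaf PHI (helper291): the neck parametrisation
`z ↦ (z̄ i z / |z|², t z̄ k z)`.
-/

set_option autoImplicit false
set_option maxSynthPendingDepth 3

open Set Function Filter
open scoped ContDiff Topology RealInnerProductSpace

namespace Crest.Agent.R235.K12Phi_291

open Crest.Agent.R240 Crest.Agent.R240.Ch Crest.Agent.R235 Crest.Agent.R235.K12_417

noncomputable section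

theorem n4 (z : E4) : ‖z‖ ^ 2 = z 0 ^ 2 + z 1 ^ 2 + z 2 ^ 2 + z 3 ^ 2 := by
  rw [EuclideanSpace.norm_sq_eq, Fin.sum_univ_four]
  simp [sq_abs]

theorem n3 (z : E3) : ‖z‖ ^ 2 = z 0 ^ 2 + z 1 ^ 2 + z 2 ^ 2 := by
  rw [EuclideanSpace.norm_sq_eq, Fin.sum_univ_three]
  simp [sq_abs]

theorem i4 (a b : E4) : ⟪a, b⟫ = a 0 * b 0 + a 1 * b 1 + a 2 * b 2 + a 3 * b 3 := by
  rw [PiLp.inner_apply, Fin.sum_univ_four]
  simp [mul_comm]

theorem i3 (a b : E3) : ⟪a, b⟫ = a 0 * b 0 + a 1 * b 1 + a 2 * b 2 := by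
  rw [PiLp.inner_apply, Fin.sum_univ_three]
  simp [mul_comm]

/-- `z̄ i z`. -/
def nN (z : E4) : E3 :=
  !₂[z 0 ^ 2 + z 1 ^ 2 - z 2 ^ 2 - z 3 ^ 2, 2 * (z 1 * z 2 - z 0 * z 3),
    2 * (z 1 * z 3 + z 0 * z 2)]

/-- `z̄ j z`. -/
def nJ (z : E4) : E3 :=
  !₂[2 * (z 1 * z 2 + z 0 * z 3), z 0 ^ 2 - z 1 ^ 2 + z 2 ^ 2 - z 3 ^ 2,
    2 * (z 2 * z 3 - z 0 * z 1)]

/-- the derivative of `nN`. -/
def dN (z v : E4) : E3 :=
  !₂[2 * (z 0 * v 0 + z 1 * v 1 - z 2 * v 2 - z 3 * v 3),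
    2 * (z 1 * v 2 + v 1 * z 2 - z 0 * v 3 - v 0 * z 3),
    2 * (z 1 * v 3 + v 1 * z 3 + z 0 * v 2 + v 0 * z 2)]

/-- the derivative of `hP`. -/
def dP (z v : E4) : E3 :=
  !₂[2 * (z 1 * v 3 + v 1 * z 3 - z 0 * v 2 - v 0 * z 2),
    2 * (z 2 * v 3 + v 2 * z 3 + z 0 * v 1 + v 0 * z 1),
    2 * (z 0 * v 0 - z 1 * v 1 - z 2 * v 2 + z 3 * v 3)]

theorem hQ_eq (z : E4) : hQ z = (‖z‖ ^ 2)⁻¹ • nN z := rfl

theorem nsq_nN (z : E4) : ‖nN z‖ = ‖z‖ ^ 2 := by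
  have h : ‖nN z‖ ^ 2 = (‖z‖ ^ 2) ^ 2 := by
    rw [n3, n4]; simp [nN]; ring
  exact (pow_left_inj₀ (norm_nonneg _) (by positivity) two_ne_zero).1 h

theorem nsq_hP (z : E4) : ‖hP z‖ = ‖z‖ ^ 2 := by
  have h : ‖hP z‖ ^ 2 = (‖z‖ ^ 2) ^ 2 := by
    rw [n3, n4]; simp [hP]; ring
  exact (pow_left_inj₀ (norm_nonneg _) (by positivity) two_ne_zero).1 h

theorem inner_nN_hP (z : E4) : ⟪nN z, hP z⟫ = 0 := by
  rw [i3]; simp [nN, hP]; ring

theorem sq_ne {z : E4} (hz : z ≠ 0) : ‖z‖ ^ 2 ≠ 0 := by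
  have : 0 < ‖z‖ := norm_pos_iff.2 hz
  positivity

theorem mem (z : E4) (t : ℝ) (hz : z ≠ 0) :
    ‖hQ z‖ = 1 ∧ ⟪hQ z, t • hP z⟫ = 0 ∧ ‖hP z‖ = ‖z‖ ^ 2 := by
  refine ⟨?_, ?_, nsq_hP z⟩
  · rw [hQ_eq, norm_smul, nsq_nN, norm_inv, norm_pow, norm_norm, inv_mul_cancel₀ (sq_ne hz)]
  · rw [hQ_eq, real_inner_smul_left, real_inner_smul_right, inner_nN_hP]; ring

theorem nN_neg (z : E4) : nN (-z) = nN z := by
  ext i; fin_cases i <;> simp [nN]

theorem hP_neg (z : E4) : hP (-z) = hP z := by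
  ext i; fin_cases i <;> simp [hP]

theorem even (z : E4) (t : ℝ) : hh t (-z) = hh t z := by
  simp only [hh, hQ_eq, nN_neg, hP_neg, norm_neg]

/-- products of the coordinates. -/
theorem prod_eq {z z' : E4} (hz : z ≠ 0) (hn : ‖z‖ ^ 2 = ‖z'‖ ^ 2) (hN : nN z = nN z')
    (hPe : hP z = hP z') (a b : Fin 4) : z a * z b = z' a * z' b := by
  have e0 : nN z 0 = nN z' 0 := by rw [hN]
  have e1 : nN z 1 = nN z' 1 := by rw [hN]
  have e2 : nN z 2 = nN z' 2 := by rw [hN]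
  have f0 : hP z 0 = hP z' 0 := by rw [hPe]
  have f1 : hP z 1 = hP z' 1 := by rw [hPe]
  have f2 : hP z 2 = hP z' 2 := by rw [hPe]
  have hn0 := sq_ne hz
  have g : ∀ w : E4, ‖w‖ ^ 2 * nJ w 0 = hP w 1 * nN w 2 - hP w 2 * nN w 1 ∧
      ‖w‖ ^ 2 * nJ w 1 = hP w 2 * nN w 0 - hP w 0 * nN w 2 ∧
      ‖w‖ ^ 2 * nJ w 2 = hP w 0 * nN w 1 - hP w 1 * nN w 0 := by
    intro w
    rw [n4]
    simp only [nJ, hP, nN]
    refine ⟨?_, ?_, ?_⟩ <;> simp <;> ring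
  have g0 : nJ z 0 = nJ z' 0 := by
    apply mul_left_cancel₀ hn0
    rw [(g z).1, hn, (g z').1, hN, hPe]
  have g1 : nJ z 1 = nJ z' 1 := by
    apply mul_left_cancel₀ hn0
    rw [(g z).2.1, hn, (g z').2.1, hN, hPe]
  have g2 : nJ z 2 = nJ z' 2 := by
    apply mul_left_cancel₀ hn0
    rw [(g z).2.2, hn, (g z').2.2, hN, hPe]
  rw [n4, n4] at hn
  simp [nN] at e0 e1 e2
  simp [hP] at f0 f1 f2
  simp [nJ] at g0 g1 g2
  fin_cases a <;> fin_cases b <;> simp <;> linarith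

theorem inj_aux {z z' : E4} (hz : z ≠ 0) (h : ∀ a b, z a * z b = z' a * z' b) :
    z' = z ∨ z' = -z := by
  obtain ⟨a, ha⟩ : ∃ a, z a ≠ 0 := by
    by_contra hc
    push Not at hc
    exact hz (by ext i; simpa using hc i)
  have h1 : (z' a - z a) * (z' a + z a) = 0 := by
    have := h a a
    linear_combination -this
  rcases mul_eq_zero.1 h1 with h2 | h2
  · left
    have h3 : z' a = z a := by linarith
    ext b
    have := h a b
    rw [h3] at this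
    exact (mul_left_cancel₀ ha this).symm
  · right
    have h3 : z' a = - z a := by linarith
    ext b
    have := h a b
    rw [h3] at this
    have h4 : z a * z b = z a * (- z' b) := by rw [this]; ring
    have := mul_left_cancel₀ ha h4
    simp only [PiLp.neg_apply]
    linarith

theorem inj (z z' : E4) (t : ℝ) (hz : z ≠ 0) (hz' : z' ≠ 0) (ht : t ≠ 0)
    (h : hh t z = hh t z') : z' = z ∨ z' = -z := by
  have h1 : hQ z = hQ z' := congrArg Prod.fst h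
  have h2 : t • hP z = t • hP z' := congrArg Prod.snd h
  have h3 : hP z = hP z' := smul_right_injective _ ht h2
  have hn : ‖z‖ ^ 2 = ‖z'‖ ^ 2 := by rw [← nsq_hP, ← nsq_hP, h3]
  have hN : nN z = nN z' := by
    rw [hQ_eq, hQ_eq, hn] at h1
    exact smul_right_injective _ (inv_ne_zero (sq_ne hz')) h1
  exact inj_aux hz (prod_eq hz hn hN h3)

/-- `(a + b i) w`. -/
def mu (a b : ℝ) (w : E4) : E4 := a • w + b • qI w

theorem mu0 (a b : ℝ) (w : E4) : mu a b w 0 = a * w 0 - b * w 1 := by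
  simp [mu, qI]; ring
theorem mu1 (a b : ℝ) (w : E4) : mu a b w 1 = a * w 1 + b * w 0 := by
  simp [mu, qI]
theorem mu2 (a b : ℝ) (w : E4) : mu a b w 2 = a * w 2 - b * w 3 := by
  simp [mu, qI]; ring
theorem mu3 (a b : ℝ) (w : E4) : mu a b w 3 = a * w 3 + b * w 2 := by
  simp [mu, qI]

theorem norm_mu (a b : ℝ) (w : E4) : ‖mu a b w‖ ^ 2 = (a ^ 2 + b ^ 2) * ‖w‖ ^ 2 := by
  rw [n4, n4, mu0, mu1, mu2, mu3]; ring

theorem nN_mu (a b : ℝ) (w : E4) : nN (mu a b w) = (a ^ 2 + b ^ 2) • nN w := by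
  ext i
  fin_cases i <;> simp [nN, mu0, mu1, mu2, mu3] <;> ring

theorem hP_mu (a b : ℝ) (w : E4) :
    hP (mu a b w) = (a ^ 2 - b ^ 2) • hP w + (2 * a * b) • nJ w := by
  ext i
  fin_cases i <;> simp [hP, nJ, mu0, mu1, mu2, mu3] <;> ring

theorem basis (w : E4) (x : E3) : (‖w‖ ^ 2) ^ 2 • x =
    ⟪nN w, x⟫ • nN w + ⟪nJ w, x⟫ • nJ w + ⟪hP w, x⟫ • hP w := by
  rw [n4, i3, i3, i3]
  ext i
  fin_cases i <;> simp [nN, nJ, hP] <;> ring

theorem exists_w (q : E3) (hq : ‖q‖ = 1) : ∃ w : E4, w ≠ 0 ∧ nN w = ‖w‖ ^ 2 • q := by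
  have hq2 : q 0 ^ 2 + q 1 ^ 2 + q 2 ^ 2 = 1 := by rw [← n3, hq]; norm_num
  by_cases h : q 0 = -1
  · have h1 : q 1 = 0 ∧ q 2 = 0 := by
      rw [h] at hq2
      constructor <;> nlinarith [sq_nonneg (q 1), sq_nonneg (q 2)]
    refine ⟨!₂[0, 0, 1, 0], ?_, ?_⟩
    · intro h0
      have := congrFun (congrArg (fun x : E4 => (x : Fin 4 → ℝ)) h0) 2
      simp at this
    · rw [n4]
      ext i
      fin_cases i <;> simp [nN, h, h1.1, h1.2]
  · refine ⟨!₂[1 + q 0, 0, q 2, - q 1], ?_, ?_⟩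
    · intro h0
      have := congrFun (congrArg (fun x : E4 => (x : Fin 4 → ℝ)) h0) 0
      simp at this
      exact h (by linarith)
    · rw [n4]
      have e : q 2 ^ 2 = 1 - q 0 ^ 2 - q 1 ^ 2 := by linarith
      ext i
      fin_cases i <;> simp [nN] <;> rw [e] <;> ring

theorem surj (q p : E3) (t : ℝ) (hq : ‖q‖ = 1) (hqp : ⟪q, p⟫ = 0) (hp : p ≠ 0) (ht : 0 < t) :
    ∃ z : E4, z ≠ 0 ∧ hh t z = (q, p) := by
  obtain ⟨w, hw, hwq⟩ := exists_w q hq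
  have hn := sq_ne hw
  set n : ℝ := ‖w‖ ^ 2 with hndef
  set A : ℝ := ⟪hP w, p⟫ / (t * n ^ 2) with hA
  set B : ℝ := ⟪nJ w, p⟫ / (t * n ^ 2) with hB
  obtain ⟨c, hc⟩ := IsAlgClosed.exists_pow_nat_eq (⟨A, B⟩ : ℂ) (n := 2) (by norm_num)
  have hcA : c.re ^ 2 - c.im ^ 2 = A := by
    have := congrArg Complex.re hc
    simp [pow_two] at this
    linarith
  have hcB : 2 * c.re * c.im = B := by
    have := congrArg Complex.im hc
    simp [pow_two] at this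
    linarith
  have hperp : ⟪nN w, p⟫ = 0 := by
    rw [hwq, real_inner_smul_left, hqp, mul_zero]
  have hb := basis w p
  rw [hperp, zero_smul, zero_add] at hb
  have hPz : t • hP (mu c.re c.im w) = p := by
    rw [hP_mu, hcA, hcB, hA, hB]
    have h1 : n ^ 2 • (t • ((⟪hP w, p⟫ / (t * n ^ 2)) • hP w + (⟪nJ w, p⟫ / (t * n ^ 2)) • nJ w)) =
        n ^ 2 • p := by
      rw [hb, smul_add, smul_add, smul_smul, smul_smul, smul_smul, smul_smul]
      have e1 : ∀ x : ℝ, n ^ 2 * t * (x / (t * n ^ 2)) = x := by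
        intro x
        field_simp
      rw [e1, e1]
      abel
    exact smul_right_injective _ (pow_ne_zero 2 hn) h1
  have hz : mu c.re c.im w ≠ 0 := by
    intro h0
    apply hp
    rw [← hPz, h0]
    have : hP (0 : E4) = 0 := by
      have := nsq_hP 0
      rw [norm_zero] at this
      exact norm_eq_zero.1 (by rw [this]; norm_num)
    rw [this, smul_zero]
  refine ⟨mu c.re c.im w, hz, ?_⟩
  have hQz : hQ (mu c.re c.im w) = q := by
    have h0 := sq_ne hz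
    rw [hQ_eq, nN_mu, hwq, smul_smul, smul_smul, norm_mu, mul_assoc]
    rw [norm_mu] at h0
    rw [inv_mul_cancel₀ h0, one_smul]
  rw [hh, hQz, hPz]

/-! ### derivatives -/

/-- the derivative of `nN` as a linear map. -/
def LN (z : E4) : E4 →L[ℝ] E3 :=
  LinearMap.toContinuousLinearMap
    { toFun := fun v => dN z v
      map_add' := fun a b => by
        ext i; fin_cases i <;> simp [dN] <;> ring
      map_smul' := fun c a => by
        ext i; fin_cases i <;> simp [dN] <;> ring }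

/-- the derivative of `hP` as a linear map. -/
def LP (z : E4) : E4 →L[ℝ] E3 :=
  LinearMap.toContinuousLinearMap
    { toFun := fun v => dP z v
      map_add' := fun a b => by
        ext i; fin_cases i <;> simp [dP] <;> ring
      map_smul' := fun c a => by
        ext i; fin_cases i <;> simp [dP] <;> ring }

theorem LN_apply (z v : E4) : LN z v = dN z v := rfl

theorem LP_apply (z v : E4) : LP z v = dP z v := rfl

/-- quadratic maps. -/
theorem quad {f : E4 → E3} {L : E4 →L[ℝ] E3} {z : E4} (h : ∀ v, f (z + v) = f z + L v + f v)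
    (hn : ∀ v, ‖f v‖ = ‖v‖ ^ 2) : HasFDerivAt f L z := by
  rw [hasFDerivAt_iff_isLittleO_nhds_zero]
  have h1 : (fun v => f (z + v) - f z - L v) = f := by
    funext v; rw [h]; abel
  rw [h1]
  have h2 : f =O[𝓝 0] fun v : E4 => ‖v‖ ^ 2 :=
    Asymptotics.IsBigO.of_bound 1 (Filter.Eventually.of_forall fun v => by
      rw [hn, one_mul, norm_pow, norm_norm])
  refine h2.trans_isLittleO ?_
  have h3 := Asymptotics.isLittleO_norm_pow_id (E' := E4) (n := 2) (by norm_num)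
  exact h3

theorem hasFDerivAt_nN (z : E4) : HasFDerivAt nN (LN z) z := by
  refine quad (fun v => ?_) nsq_nN
  rw [LN_apply]
  ext i
  fin_cases i <;> simp [nN, dN] <;> ring

theorem hasFDerivAt_hP (z : E4) : HasFDerivAt hP (LP z) z := by
  refine quad (fun v => ?_) nsq_hP
  rw [LP_apply]
  ext i
  fin_cases i <;> simp [hP, dP] <;> ring

/-- the derivative of `(‖z‖ ^ 2)⁻¹`. -/
def cI (z v : E4) : ℝ := -(2 * ⟪z, v⟫) / (‖z‖ ^ 2) ^ 2

theorem fd (z v : E4) (t : ℝ) (hz : z ≠ 0) : fderiv ℝ (hh t) z v =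
    ((‖z‖ ^ 2)⁻¹ • dN z v + cI z v • nN z, t • dP z v) := by
  have h1 : HasFDerivAt (fun z : E4 => ‖z‖ ^ 2) (2 • innerSL ℝ z) z :=
    (hasStrictFDerivAt_norm_sq z).hasFDerivAt
  have h2 := (hasDerivAt_inv (sq_ne hz)).comp_hasFDerivAt z h1
  have h3 := h2.smul (hasFDerivAt_nN z)
  have h4 := (hasFDerivAt_hP z).const_smul t
  have h5 : HasFDerivAt (hh t) _ z := h3.prodMk h4
  rw [h5.fderiv]
  refine Prod.ext ?_ ?_
  · simp only [cI]
    show (‖z‖ ^ 2)⁻¹ • LN z v + (_ * ((2 : ℕ) • ⟪z, v⟫)) • nN z = _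
    rw [LN_apply]
    congr 2
    simp
    ring
  · rfl

theorem id1 (z v : E4) : ⟪hP z, dN z v⟫ = 2 * ‖z‖ ^ 2 * ⟪qJ z, v⟫ := by
  rw [i3, i4, n4]; simp [hP, dN, qJ]; ring

theorem id2 (z v : E4) : ⟪hP z, cr (nN z) (dN z v)⟫ = -(2 * (‖z‖ ^ 2) ^ 2 * ⟪qK z, v⟫) := by
  rw [i3, i4, n4]; simp [hP, dN, nN, cr, qK]; ring

theorem id3 (z v : E4) : ⟪cr (nN z) (hP z), dP z v⟫ = -(2 * (‖z‖ ^ 2) ^ 2 * ⟪qI z, v⟫) := by
  rw [i3, i4, n4]; simp [hP, dP, nN, cr, qI]; ring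

theorem id4 (z v : E4) : ⟪hP z, dP z v⟫ = 2 * ‖z‖ ^ 2 * ⟪z, v⟫ := by
  rw [i3, i4, n4]; simp [hP, dP]; ring

theorem id5 (z v : E4) : ‖z‖ ^ 2 • v = ⟪z, v⟫ • z + ⟪qI z, v⟫ • qI z + ⟪qJ z, v⟫ • qJ z +
    ⟪qK z, v⟫ • qK z := by
  rw [n4, i4, i4, i4, i4]
  ext i
  fin_cases i <;> simp [qI, qJ, qK] <;> ring

theorem cr_self (a : E3) : cr a a = 0 := by
  ext i; fin_cases i <;> simp [cr] <;> ring

theorem cr_smul_left (c : ℝ) (a b : E3) : cr (c • a) b = c • cr a b := by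
  ext i; fin_cases i <;> simp [cr] <;> ring

theorem cr_smul_right (c : ℝ) (a b : E3) : cr a (c • b) = c • cr a b := by
  ext i; fin_cases i <;> simp [cr] <;> ring

theorem cr_add_right (a b c : E3) : cr a (b + c) = cr a b + cr a c := by
  ext i; fin_cases i <;> simp [cr] <;> ring

theorem pl1 (z v : E4) (t : ℝ) (hz : z ≠ 0) :
    l1 (hh t z) (fderiv ℝ (hh t) z v) = 2 * t * ⟪qJ z, v⟫ := by
  rw [fd z v t hz]
  show ⟪t • hP z, (‖z‖ ^ 2)⁻¹ • dN z v + cI z v • nN z⟫ = _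
  have hn := sq_ne hz
  rw [real_inner_smul_left, inner_add_right, real_inner_smul_right, real_inner_smul_right,
    id1, real_inner_comm (nN z) (hP z), inner_nN_hP]
  field_simp
  ring

theorem pl2 (z v : E4) (t : ℝ) (hz : z ≠ 0) :
    l2 (hh t z) (fderiv ℝ (hh t) z v) = -(2 * t * ⟪qK z, v⟫) := by
  rw [fd z v t hz]
  show ⟪t • hP z, cr ((‖z‖ ^ 2)⁻¹ • nN z) ((‖z‖ ^ 2)⁻¹ • dN z v + cI z v • nN z)⟫ = _
  have hn := sq_ne hz
  rw [cr_add_right, cr_smul_right, cr_smul_left, cr_smul_right, cr_smul_left, cr_self,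
    smul_zero, smul_zero, add_zero, real_inner_smul_left, real_inner_smul_right,
    real_inner_smul_right, id2]
  field_simp

theorem pps (z v : E4) (t : ℝ) (hz : z ≠ 0) (ht : 0 < t) :
    ps (hh t z) (fderiv ℝ (hh t) z v) = -(2 * ⟪qI z, v⟫ / ‖z‖ ^ 2) := by
  rw [fd z v t hz]
  show (‖t • hP z‖ ^ 2)⁻¹ * ⟪cr ((‖z‖ ^ 2)⁻¹ • nN z) (t • hP z), t • dP z v⟫ = _
  have hn := sq_ne hz
  rw [cr_smul_left, cr_smul_right, real_inner_smul_left, real_inner_smul_left,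
    real_inner_smul_right, id3, norm_smul, nsq_hP, Real.norm_eq_abs, mul_pow, sq_abs]
  field_simp

theorem imm (z v : E4) (t : ℝ) (hz : z ≠ 0) (ht : t ≠ 0) (h : fderiv ℝ (hh t) z v = 0) :
    v = 0 := by
  rw [fd z v t hz] at h
  have hn := sq_ne hz
  have h1 : (‖z‖ ^ 2)⁻¹ • dN z v + cI z v • nN z = 0 := congrArg Prod.fst h
  have h2 : dP z v = 0 := (smul_eq_zero.1 (congrArg Prod.snd h : t • dP z v = 0)).resolve_left ht
  have h3 : ⟪z, v⟫ = 0 := by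
    have := id4 z v
    rw [h2, inner_zero_right] at this
    have h4 : 2 * ‖z‖ ^ 2 ≠ 0 := mul_ne_zero two_ne_zero hn
    exact (mul_eq_zero.1 this.symm).resolve_left h4
  have h5 : dN z v = 0 := by
    have h6 : cI z v = 0 := by rw [cI, h3]; simp
    rw [h6, zero_smul, add_zero] at h1
    exact (smul_eq_zero.1 h1).resolve_left (inv_ne_zero hn)
  have hI : ⟪qI z, v⟫ = 0 := by
    have := id3 z v
    rw [h2, inner_zero_right] at this
    have h4 : 2 * (‖z‖ ^ 2) ^ 2 ≠ 0 := mul_ne_zero two_ne_zero (pow_ne_zero 2 hn)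
    exact (mul_eq_zero.1 (neg_eq_zero.1 this.symm)).resolve_left h4
  have hJ : ⟪qJ z, v⟫ = 0 := by
    have := id1 z v
    rw [h5, inner_zero_right] at this
    have h4 : 2 * ‖z‖ ^ 2 ≠ 0 := mul_ne_zero two_ne_zero hn
    exact (mul_eq_zero.1 this.symm).resolve_left h4
  have hK : ⟪qK z, v⟫ = 0 := by
    have := id2 z v
    have h0 : cr (nN z) 0 = 0 := by
      have := cr_smul_right 0 (nN z) 0
      simpa using this
    rw [h5, h0, inner_zero_right] at this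
    have h4 : 2 * (‖z‖ ^ 2) ^ 2 ≠ 0 := mul_ne_zero two_ne_zero (pow_ne_zero 2 hn)
    exact (mul_eq_zero.1 (neg_eq_zero.1 this.symm)).resolve_left h4
  have h7 := id5 z v
  rw [h3, hI, hJ, hK] at h7
  simp only [zero_smul, add_zero] at h7
  exact (smul_eq_zero.1 h7).resolve_left hn

theorem contDiff_nN : ContDiff ℝ ∞ nN := by
  rw [contDiff_euclidean]
  have c : ∀ i : Fin 4, ContDiff ℝ ∞ (fun z : E4 => z i) := fun i =>
    (EuclideanSpace.proj (𝕜 := ℝ) i).contDiff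
  intro i
  fin_cases i
  · exact (((c 0).pow 2).add ((c 1).pow 2)).sub ((c 2).pow 2) |>.sub ((c 3).pow 2)
  · exact contDiff_const.mul (((c 1).mul (c 2)).sub ((c 0).mul (c 3)))
  · exact contDiff_const.mul (((c 1).mul (c 3)).add ((c 0).mul (c 2)))

theorem contDiff_hP : ContDiff ℝ ∞ hP := by
  rw [contDiff_euclidean]
  have c : ∀ i : Fin 4, ContDiff ℝ ∞ (fun z : E4 => z i) := fun i =>
    (EuclideanSpace.proj (𝕜 := ℝ) i).contDiff
  intro i
  fin_cases i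
  · exact contDiff_const.mul (((c 1).mul (c 3)).sub ((c 0).mul (c 2)))
  · exact contDiff_const.mul (((c 2).mul (c 3)).add ((c 0).mul (c 1)))
  · exact (((c 0).pow 2).sub ((c 1).pow 2)).sub ((c 2).pow 2) |>.add ((c 3).pow 2)

theorem smooth (t : ℝ) : ContDiffOn ℝ ∞ (hh t) {0}ᶜ := by
  intro z hz
  have hz' : z ≠ 0 := hz
  have h1 : ContDiffAt ℝ ∞ (fun z : E4 => (‖z‖ ^ 2)⁻¹) z :=
    ((contDiff_norm_sq ℝ).contDiffAt).inv (sq_ne hz')
  have h2 : ContDiffAt ℝ ∞ (fun z : E4 => (‖z‖ ^ 2)⁻¹ • nN z) z := h1.smul contDiff_nN.contDiffAt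
  have h3 : ContDiffAt ℝ ∞ (fun z : E4 => t • hP z) z := (contDiff_hP.const_smul t).contDiffAt
  exact (h2.prodMk h3).contDiffWithinAt

/-- **leaf PHI**. -/
theorem phi : PHI where
  mem := mem
  even := even
  inj := inj
  surj := surj
  smooth := smooth
  imm := imm
  pl1 := pl1
  pl2 := pl2
  pps := pps

end

end Crest.Agent.R235.K12Phi_291
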