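import Crest.Agent.R235.K12Defs_417
import Crest.Agent.R213.J0bGen

/-!
Row 235 (S0364), package KUM, block K12, leaf RPRIM (helper82): the relative Poincaré lemma on the
disc bundle of `T S²`.
-/

set_option autoImplicit false
set_option maxSynthPendingDepth 3

open Set Function Filter MeasureTheory
open scoped Manifold ContDiff Topology RealInnerProductSpace Interval

namespace Crest.Agent.R235.K12Rprim_82

open Crest.Agent.R240 Crest.Agent.R240.Ch Crest.Agent.R235 Crest.Agent.R235.K12_417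

noncomputable section

/-! ### parametric integrals on open sets -/

section Pint

variable {E F : Type} [NormedAddCommGroup E] [NormedSpace ℝ E] [NormedAddCommGroup F]
  [NormedSpace ℝ F]

theorem pint_hasFDerivAt {H : ℝ × E → F} {Ω : Set (ℝ × E)} (hΩ : IsOpen Ω)
    (hH : ContDiffOn ℝ ∞ H Ω) {O : Set E} (hO : IsOpen O) (hs : Icc (0 : ℝ) 1 ×ˢ O ⊆ Ω)
    {q : E} (hq : q ∈ O) :
    HasFDerivAt (fun q => ∫ t in (0 : ℝ)..1, H (t, q))
      (∫ t in (0 : ℝ)..1, (fderiv ℝ H (t, q)).comp (ContinuousLinearMap.inr ℝ ℝ E)) q := by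
  obtain ⟨δ, hδ, hb⟩ := Metric.isOpen_iff.1 hO q hq
  have hsub : Icc (0 : ℝ) 1 ×ˢ Metric.ball q δ ⊆ Ω := (prod_mono_right hb).trans hs
  have hc : ContinuousOn (fun z : ℝ × E => (fderiv ℝ H z).comp (ContinuousLinearMap.inr ℝ ℝ E))
      (Icc (0 : ℝ) 1 ×ˢ Metric.ball q δ) :=
    ((hH.continuousOn_fderiv_of_isOpen hΩ (by simp)).mono hsub).clm_comp continuousOn_const
  have h := R213.hasFDerivWithinAt_pint (a := 0) (b := 1) zero_le_one (convex_ball q δ)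
    (H := H) (H' := fun z : ℝ × E => (fderiv ℝ H z).comp (ContinuousLinearMap.inr ℝ ℝ E))
    (hH.continuousOn.mono hsub) hc (fun r hr p hp => by
      have hm : (r, p) ∈ Ω := hsub ⟨hr, hp⟩
      have h1 := ((hH.contDiffAt (hΩ.mem_nhds hm)).differentiableAt (by simp)).hasFDerivAt
      have h2 : HasFDerivAt (fun q : E => ((r, q) : ℝ × E)) (ContinuousLinearMap.inr ℝ ℝ E) p :=
        (hasFDerivAt_const r p).prodMk (hasFDerivAt_id p)
      exact (HasFDerivAt.comp p (g := H) h1 h2).hasFDerivWithinAt) (Metric.mem_ball_self hδ)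
  exact h.hasFDerivAt (Metric.ball_mem_nhds q hδ)

theorem pint_smooth {H : ℝ × E → F} {Ω : Set (ℝ × E)}
    (hH : ContDiffOn ℝ ∞ H Ω) {O : Set E} (hO : IsOpen O) (hs : Icc (0 : ℝ) 1 ×ˢ O ⊆ Ω) :
    ContDiffOn ℝ ∞ (fun q => ∫ t in (0 : ℝ)..1, H (t, q)) O := by
  intro q hq
  obtain ⟨δ, hδ, hb⟩ := Metric.isOpen_iff.1 hO q hq
  have h := R213.contDiffOn_pint (a := 0) (b := 1) zero_lt_one (convex_ball q δ)
    (Metric.isOpen_ball.uniqueDiffOn) (H := H) (hH.mono ((prod_mono_right hb).trans hs))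
  exact (h.contDiffAt (Metric.ball_mem_nhds q hδ)).contDiffWithinAt

theorem pint_fderiv [CompleteSpace F] {H : ℝ × E → F} {Ω : Set (ℝ × E)} (hΩ : IsOpen Ω)
    (hH : ContDiffOn ℝ ∞ H Ω) {O : Set E} (hO : IsOpen O) (hs : Icc (0 : ℝ) 1 ×ˢ O ⊆ Ω)
    {q : E} (hq : q ∈ O) (w : E) :
    fderiv ℝ (fun q => ∫ t in (0 : ℝ)..1, H (t, q)) q w =
      ∫ t in (0 : ℝ)..1, fderiv ℝ (fun q => H (t, q)) q w := by
  have hc : ContinuousOn (fun t : ℝ => (fderiv ℝ H (t, q)).comp (ContinuousLinearMap.inr ℝ ℝ E))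
      (uIcc (0 : ℝ) 1) := by
    rw [uIcc_of_le zero_le_one]
    have h1 : ContinuousOn (fun t : ℝ => fderiv ℝ H (t, q)) (Icc (0 : ℝ) 1) :=
      (hH.continuousOn_fderiv_of_isOpen hΩ (by simp)).comp (by fun_prop)
        (fun t ht => hs ⟨ht, hq⟩)
    exact h1.clm_comp continuousOn_const
  rw [(pint_hasFDerivAt hΩ hH hO hs hq).fderiv,
    ContinuousLinearMap.intervalIntegral_apply hc.intervalIntegrable]
  refine intervalIntegral.integral_congr fun r hr => ?_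
  rw [uIcc_of_le zero_le_one] at hr
  have hm : (r, q) ∈ Ω := hs ⟨hr, hq⟩
  have h1 := ((hH.contDiffAt (hΩ.mem_nhds hm)).differentiableAt (by simp)).hasFDerivAt
  have h2 : HasFDerivAt (fun q : E => ((r, q) : ℝ × E)) (ContinuousLinearMap.inr ℝ ℝ E) q :=
    (hasFDerivAt_const r q).prodMk (hasFDerivAt_id q)
  have h3 : fderiv ℝ (fun q : E => H (r, q)) q = _ :=
    (HasFDerivAt.comp q (g := H) h1 h2).fderiv
  rw [h3]

end Pint

/-! ### the retraction -/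

theorem Pi_smooth {z : E6} (hz : z.1 ≠ 0) : ContDiffAt ℝ ∞ Pi z := by
  have h1 : ContDiffAt ℝ ∞ (fun z : E6 => ‖z.1‖) z := contDiffAt_fst.norm ℝ hz
  have hn : ‖z.1‖ ≠ 0 := norm_ne_zero_iff.2 hz
  exact ((h1.inv hn).smul contDiffAt_fst).prodMk
    (contDiffAt_snd.sub (((contDiffAt_fst.inner ℝ contDiffAt_snd).div (h1.pow 2)
      (pow_ne_zero 2 hn)).smul contDiffAt_fst))

theorem isOpen_ne : IsOpen {z : E6 | z.1 ≠ 0} :=
  isOpen_compl_singleton.preimage continuous_fst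

theorem isOpen_OS (r : ℝ) : IsOpen (OS r) := by
  have h1 : ContinuousOn Pi {z : E6 | z.1 ≠ 0} := fun z hz =>
    (Pi_smooth hz).continuousAt.continuousWithinAt
  have h2 : IsOpen {z : E6 | ‖z.2‖ < r} := isOpen_lt (by fun_prop) continuous_const
  have h3 := h1.isOpen_inter_preimage isOpen_ne h2
  have h4 : OS r = {z : E6 | z.1 ≠ 0} ∩ Pi ⁻¹' {z : E6 | ‖z.2‖ < r} := by
    ext z
    exact Iff.rfl
  rw [h4]
  exact h3

theorem Pi_one {z : E6} (hz : z.1 ≠ 0) : ‖(Pi z).1‖ = 1 := by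
  have hn : ‖z.1‖ ≠ 0 := norm_ne_zero_iff.2 hz
  show ‖‖z.1‖⁻¹ • z.1‖ = 1
  rw [norm_smul, norm_inv, norm_norm, inv_mul_cancel₀ hn]

/-- `(q, p) ↦ (q, 0)`. -/
def A0 : E6 →L[ℝ] E6 := (ContinuousLinearMap.inl ℝ E3 E3).comp (ContinuousLinearMap.fst ℝ E3 E3)

/-- `(q, p) ↦ (0, p)`. -/
def B0 : E6 →L[ℝ] E6 := (ContinuousLinearMap.inr ℝ E3 E3).comp (ContinuousLinearMap.snd ℝ E3 E3)

/-- `(q, p) ↦ (q, t p)`. -/
def Sc (t : ℝ) : E6 →L[ℝ] E6 := A0 + t • B0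

theorem B0_apply (z : E6) : B0 z = (0, z.2) := rfl

theorem Sc_apply (t : ℝ) (z : E6) : Sc t z = (z.1, t • z.2) := by
  simp [Sc, A0, B0]

theorem Sc_one (z : E6) : Sc 1 z = z := by
  rw [Sc_apply, one_smul]

theorem Pi_Sc (t : ℝ) (z : E6) : Pi (Sc t z) = Sc t (Pi z) := by
  rw [Sc_apply, Sc_apply]
  unfold Pi
  refine Prod.ext rfl ?_
  show t • z.2 - (⟪z.1, t • z.2⟫ / ‖z.1‖ ^ 2) • z.1 =
    t • (z.2 - (⟪z.1, z.2⟫ / ‖z.1‖ ^ 2) • z.1)
  rw [inner_smul_right, smul_sub, smul_smul, mul_div_assoc]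

theorem Sc_mem {r t : ℝ} (ht : t ∈ Icc (0 : ℝ) 1) {z : E6} (hz : z ∈ OS r) : Sc t z ∈ OS r := by
  refine ⟨?_, ?_⟩
  · rw [Sc_apply]
    exact hz.1
  · rw [Pi_Sc, Sc_apply]
    show ‖t • (Pi z).2‖ < r
    rw [norm_smul, Real.norm_of_nonneg ht.1]
    exact lt_of_le_of_lt (mul_le_of_le_one_left (norm_nonneg _) ht.2) hz.2

theorem TS_sub {r : ℝ} : TS r ⊆ OS r := by
  rintro z ⟨h1, h2, h3⟩
  refine ⟨fun h => by simp [h] at h1, ?_⟩
  show ‖z.2 - (⟪z.1, z.2⟫ / ‖z.1‖ ^ 2) • z.1‖ < r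
  rw [h2, zero_div, zero_smul, sub_zero]
  exact h3

theorem fderiv_Pi_Sc {z : E6} (hz : z.1 ≠ 0) (t : ℝ) (U : E6) :
    fderiv ℝ Pi (Sc t z) (Sc t U) = Sc t (fderiv ℝ Pi z U) := by
  have hz' : (Sc t z).1 ≠ 0 := by rw [Sc_apply]; exact hz
  have h1 : HasFDerivAt (fun y => Pi (Sc t y)) ((fderiv ℝ Pi (Sc t z)).comp (Sc t)) z :=
    HasFDerivAt.comp z (g := Pi) ((Pi_smooth hz').differentiableAt (by simp)).hasFDerivAt
      (Sc t).hasFDerivAt
  have h2 : HasFDerivAt (fun y => Sc t (Pi y)) ((Sc t).comp (fderiv ℝ Pi z)) z :=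
    (Sc t).hasFDerivAt.comp z ((Pi_smooth hz).differentiableAt (by simp)).hasFDerivAt
  have h3 : (fun y => Pi (Sc t y)) = fun y => Sc t (Pi y) := funext fun y => Pi_Sc t y
  rw [h3] at h1
  have h4 := h1.unique h2
  exact congrArg (fun L : E6 →L[ℝ] E6 => L U) h4

theorem hasDerivAt_Sc (z : E6) (t : ℝ) : HasDerivAt (fun t => Sc t z) (B0 z) t := by
  have h : (fun t => Sc t z) = fun t : ℝ => A0 z + t • B0 z := by
    funext t
    rfl
  rw [h]
  simpa using ((hasDerivAt_id t).smul_const (B0 z)).const_add (A0 z)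

theorem fderiv_Pi_B0 {z : E6} (hz : z.1 ≠ 0) (t : ℝ) :
    fderiv ℝ Pi (Sc t z) (B0 z) = B0 (Pi z) := by
  have hz' : (Sc t z).1 ≠ 0 := by rw [Sc_apply]; exact hz
  have hP : HasFDerivAt Pi (fderiv ℝ Pi (Sc t z)) (Sc t z) :=
    ((Pi_smooth hz').differentiableAt (by simp)).hasFDerivAt
  have h1 : HasDerivAt (fun t => Pi (Sc t z)) (fderiv ℝ Pi (Sc t z) (B0 z)) t :=
    HasFDerivAt.comp_hasDerivAt t (l := Pi) hP (hasDerivAt_Sc z t)
  have h2 := hasDerivAt_Sc (Pi z) t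
  have h3 : (fun t => Pi (Sc t z)) = fun t => Sc t (Pi z) := funext fun t => Pi_Sc t z
  rw [h3] at h1
  exact h1.unique h2

theorem fderiv_Pi_orth {z : E6} (hz : z.1 ≠ 0) (U : E6) :
    ⟪(Pi z).1, (fderiv ℝ Pi z U).1⟫ = 0 := by
  have h0 := ((Pi_smooth hz).differentiableAt (by simp)).hasFDerivAt
  have h1 : HasFDerivAt (fun y => (Pi y).1)
      ((ContinuousLinearMap.fst ℝ E3 E3).comp (fderiv ℝ Pi z)) z :=
    (ContinuousLinearMap.fst ℝ E3 E3).hasFDerivAt.comp z h0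
  have h2 := h1.inner ℝ h1
  have h3 : (fun y : E6 => ⟪(Pi y).1, (Pi y).1⟫) =ᶠ[𝓝 z] fun _ => (1 : ℝ) := by
    filter_upwards [isOpen_ne.mem_nhds hz] with y hy
    rw [real_inner_self_eq_norm_sq, Pi_one hy, one_pow]
  have h4 : HasFDerivAt (fun y : E6 => ⟪(Pi y).1, (Pi y).1⟫) (0 : E6 →L[ℝ] ℝ) z :=
    (hasFDerivAt_const (1 : ℝ) z).congr_of_eventuallyEq h3
  have h5 := congrArg (fun L : E6 →L[ℝ] ℝ => L U) (h2.unique h4)
  simp only [zero_apply] at h5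
  have h6 : ⟪(Pi z).1, (fderiv ℝ Pi z U).1⟫ + ⟪(fderiv ℝ Pi z U).1, (Pi z).1⟫ = 0 := by
    simpa using h5
  have h7 := real_inner_comm (Pi z).1 (fderiv ℝ Pi z U).1
  linarith

/-! ### the primitive -/

/-- the integrand. -/
def HH (W : E6 → B6) (x : ℝ × E6) : E6 →L[ℝ] ℝ := (W (Sc x.1 x.2) (B0 x.2)).comp (Sc x.1)

/-- the primitive. -/
def bt (W : E6 → B6) (z : E6) : E6 →L[ℝ] ℝ := ∫ t in (0 : ℝ)..1, HH W (t, z)

theorem HH_apply (W : E6 → B6) (t : ℝ) (z V : E6) :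
    HH W (t, z) V = W (Sc t z) (B0 z) (Sc t V) := rfl

/-- the domain of the integrand. -/
def Om (r : ℝ) : Set (ℝ × E6) := {x | Sc x.1 x.2 ∈ OS r}

theorem Sc_contDiff : ContDiff ℝ ∞ (fun x : ℝ × E6 => Sc x.1 x.2) := by
  have : (fun x : ℝ × E6 => Sc x.1 x.2) = fun x => A0 x.2 + x.1 • B0 x.2 := rfl
  rw [this]
  fun_prop

theorem Sc_contDiff' : ContDiff ℝ ∞ (fun x : ℝ × E6 => Sc x.1) := by
  unfold Sc
  fun_prop

theorem cSc (z : E6) : Continuous (fun t : ℝ => Sc t z) := by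
  have h : (fun t => Sc t z) = fun t : ℝ => A0 z + t • B0 z := by
    funext t
    rfl
  rw [h]
  fun_prop

theorem isOpen_Om (r : ℝ) : IsOpen (Om r) := (isOpen_OS r).preimage Sc_contDiff.continuous

theorem sub_Om (r : ℝ) : Icc (0 : ℝ) 1 ×ˢ OS r ⊆ Om r := fun _ hx => Sc_mem hx.1 hx.2

variable {r : ℝ} {W : E6 → B6}

theorem HH_smooth (hW : Bas r W) : ContDiffOn ℝ ∞ (HH W) (Om r) := by
  have h1 : ContDiffOn ℝ ∞ (fun x : ℝ × E6 => W (Sc x.1 x.2)) (Om r) :=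
    hW.smooth.comp Sc_contDiff.contDiffOn (fun x hx => hx)
  have h2 : ContDiffOn ℝ ∞ (fun x : ℝ × E6 => W (Sc x.1 x.2) (B0 x.2)) (Om r) :=
    h1.clm_apply (by fun_prop)
  exact h2.clm_comp Sc_contDiff'.contDiffOn

theorem cont_line (hW : Bas r W) {z : E6} (hz : z ∈ OS r) :
    ContinuousOn (fun t : ℝ => HH W (t, z)) (Icc 0 1) :=
  (HH_smooth hW).continuousOn.comp (by fun_prop) (fun _ ht => sub_Om r ⟨ht, hz⟩)

theorem int_line (hW : Bas r W) {z : E6} (hz : z ∈ OS r) :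
    IntervalIntegrable (fun t : ℝ => HH W (t, z)) volume 0 1 := by
  refine ContinuousOn.intervalIntegrable ?_
  rw [uIcc_of_le zero_le_one]
  exact cont_line hW hz

theorem bt_apply (hW : Bas r W) {z : E6} (hz : z ∈ OS r) (V : E6) :
    bt W z V = ∫ t in (0 : ℝ)..1, W (Sc t z) (B0 z) (Sc t V) :=
  ContinuousLinearMap.intervalIntegral_apply (int_line hW hz) V

theorem bt_smooth (hW : Bas r W) : ContDiffOn ℝ ∞ (bt W) (OS r) :=
  pint_smooth (HH_smooth hW) (isOpen_OS r) (sub_Om r)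

theorem Bas.bil_alt (hW : Bas r W) {z : E6} (hz : z ∈ OS r) (U V : E6) :
    W z U V = - W z V U := by
  have h := hW.alt z hz (U + V)
  simp only [map_add, add_apply, hW.alt z hz U, hW.alt z hz V] at h
  linarith

theorem Pi_mem {z : E6} (hz : z ∈ OS r) : Pi z ∈ OS r := by
  have h1 := Pi_one hz.1
  have h0 : (Pi z).1 ≠ 0 := fun h => by simp [h] at h1
  have hn : ‖z.1‖ ≠ 0 := norm_ne_zero_iff.2 hz.1
  refine ⟨h0, ?_⟩
  have h2 : ⟪(Pi z).1, (Pi z).2⟫ = 0 := by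
    show ⟪‖z.1‖⁻¹ • z.1, z.2 - (⟪z.1, z.2⟫ / ‖z.1‖ ^ 2) • z.1⟫ = 0
    rw [inner_smul_left, inner_sub_right, inner_smul_right, real_inner_self_eq_norm_sq]
    field_simp
    simp
  show ‖(Pi z).2 - (⟪(Pi z).1, (Pi z).2⟫ / ‖(Pi z).1‖ ^ 2) • (Pi z).1‖ < r
  rw [h2, zero_div, zero_smul, sub_zero]
  exact hz.2

theorem bt_bas (hW : Bas r W) : Bas1 r (bt W) where
  smooth := bt_smooth hW
  bas z hz U := by
    rw [bt_apply hW hz, bt_apply hW (Pi_mem hz)]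
    refine intervalIntegral.integral_congr fun t ht => ?_
    rw [uIcc_of_le zero_le_one] at ht
    show W (Sc t z) (B0 z) (Sc t U) = W (Sc t (Pi z)) (B0 (Pi z)) (Sc t (fderiv ℝ Pi z U))
    rw [hW.bas _ (Sc_mem ht hz), Pi_Sc, fderiv_Pi_B0 hz.1, fderiv_Pi_Sc hz.1]

/-- the derivative of the integrand. -/
theorem HH_fderiv (hW : Bas r W) {z : E6} (hz : z ∈ OS r) {t : ℝ} (ht : t ∈ Icc (0 : ℝ) 1)
    (U V : E6) : fderiv ℝ (fun z => HH W (t, z)) z U V =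
      fderiv ℝ W (Sc t z) (Sc t U) (B0 z) (Sc t V) + W (Sc t z) (B0 U) (Sc t V) := by
  have h0 : HasFDerivAt W (fderiv ℝ W (Sc t z)) (Sc t z) :=
    ((hW.smooth.contDiffAt ((isOpen_OS r).mem_nhds (Sc_mem ht hz))).differentiableAt
      (by simp)).hasFDerivAt
  have h1 : HasFDerivAt (fun y => W (Sc t y)) ((fderiv ℝ W (Sc t z)).comp (Sc t)) z :=
    HasFDerivAt.comp z h0 (Sc t).hasFDerivAt
  have h2 := (h1.clm_apply B0.hasFDerivAt).clm_comp (hasFDerivAt_const (Sc t) z)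
  have h3 : fderiv ℝ (fun z => HH W (t, z)) z = _ := h2.fderiv
  rw [h3]
  simp
  ring

/-- the derivative of `t ↦ S_t^* W`. -/
theorem line_deriv (hW : Bas r W) {z : E6} (hz : z ∈ OS r) {t : ℝ} (ht : t ∈ Icc (0 : ℝ) 1)
    (U V : E6) : HasDerivAt (fun t => W (Sc t z) (Sc t U) (Sc t V))
      (fderiv ℝ W (Sc t z) (B0 z) (Sc t U) (Sc t V) + W (Sc t z) (B0 U) (Sc t V)
        + W (Sc t z) (Sc t U) (B0 V)) t := by
  have h0 : HasFDerivAt W (fderiv ℝ W (Sc t z)) (Sc t z) :=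
    ((hW.smooth.contDiffAt ((isOpen_OS r).mem_nhds (Sc_mem ht hz))).differentiableAt
      (by simp)).hasFDerivAt
  have h1 : HasDerivAt (fun t => W (Sc t z)) (fderiv ℝ W (Sc t z) (B0 z)) t :=
    h0.comp_hasDerivAt t (hasDerivAt_Sc z t)
  have h2 := (h1.clm_apply (hasDerivAt_Sc U t)).clm_apply (hasDerivAt_Sc V t)
  refine h2.congr_deriv ?_
  simp only [add_apply]

theorem bt_d1 (hW : Bas r W)
    (h0 : ∀ q u v : E3, ‖q‖ = 1 → ⟪q, u⟫ = 0 → ⟪q, v⟫ = 0 → W (q, 0) (u, 0) (v, 0) = 0)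
    {z : E6} (hz : z ∈ OS r) : d1 (bt W) z = W z := by
  refine ContinuousLinearMap.ext fun U => ContinuousLinearMap.ext fun V => ?_
  rw [d1_apply]
  have hI : ∀ U V : E6, fderiv ℝ (bt W) z U V = ∫ t in (0 : ℝ)..1,
      (fderiv ℝ W (Sc t z) (Sc t U) (B0 z) (Sc t V) + W (Sc t z) (B0 U) (Sc t V)) := by
    intro U V
    have hd : HasFDerivAt (bt W) (fderiv ℝ (bt W) z) z :=
      (((bt_smooth hW).contDiffAt ((isOpen_OS r).mem_nhds hz)).differentiableAt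
        (by simp)).hasFDerivAt
    have e1 : fderiv ℝ (bt W) z U V = fderiv ℝ (fun z => bt W z V) z U := by
      have := (hd.clm_apply (hasFDerivAt_const V z)).fderiv
      have e' : fderiv ℝ (fun z => bt W z V) z = _ := this
      rw [e']
      simp
    have sV : ContDiffOn ℝ ∞ (fun x : ℝ × E6 => HH W x V) (Om r) :=
      (HH_smooth hW).clm_apply contDiffOn_const
    have e2 : fderiv ℝ (fun z => bt W z V) z =
        fderiv ℝ (fun z => ∫ t in (0 : ℝ)..1, HH W (t, z) V) z := by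
      refine Filter.EventuallyEq.fderiv_eq ?_
      filter_upwards [(isOpen_OS r).mem_nhds hz] with y hy
      exact bt_apply hW hy V
    rw [e1, e2, pint_fderiv (isOpen_Om r) sV (isOpen_OS r) (sub_Om r) hz]
    refine intervalIntegral.integral_congr fun t ht => ?_
    rw [uIcc_of_le zero_le_one] at ht
    show fderiv ℝ (fun z => HH W (t, z) V) z U = _
    rw [← HH_fderiv hW hz ht]
    have hm : (t, z) ∈ Om r := sub_Om r ⟨ht, hz⟩
    have h5 := (((HH_smooth hW).contDiffAt ((isOpen_Om r).mem_nhds hm)).differentiableAt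
      (by simp)).hasFDerivAt
    have h6 : HasFDerivAt (fun q : E6 => ((t, q) : ℝ × E6)) (ContinuousLinearMap.inr ℝ ℝ E6) z :=
      (hasFDerivAt_const t z).prodMk (hasFDerivAt_id z)
    have h7 : DifferentiableAt ℝ (fun z => HH W (t, z)) z :=
      (HasFDerivAt.comp z (g := HH W) h5 h6).differentiableAt
    have h8 := (h7.hasFDerivAt.clm_apply (hasFDerivAt_const V z)).fderiv
    have h9 : fderiv ℝ (fun z => HH W (t, z) V) z = _ := h8
    rw [h9]
    simp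
  rw [hI, hI]
  have cW : ContinuousOn (fun t : ℝ => W (Sc t z)) (Icc 0 1) :=
    ContinuousOn.comp (g := W) hW.smooth.continuousOn (cSc z).continuousOn
      (fun t ht => Sc_mem ht hz)
  have cD : ContinuousOn (fun t : ℝ => fderiv ℝ W (Sc t z)) (Icc 0 1) :=
    ContinuousOn.comp (g := fderiv ℝ W)
      (hW.smooth.continuousOn_fderiv_of_isOpen (isOpen_OS r) (by simp))
      (cSc z).continuousOn (fun t ht => Sc_mem ht hz)
  have cS : ∀ U : E6, ContinuousOn (fun t : ℝ => Sc t U) (Icc 0 1) := fun U =>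
    (cSc U).continuousOn
  have hint : ∀ U V : E6, IntervalIntegrable (fun t : ℝ =>
      fderiv ℝ W (Sc t z) (Sc t U) (B0 z) (Sc t V) + W (Sc t z) (B0 U) (Sc t V)) volume 0 1 := by
    intro U V
    refine ContinuousOn.intervalIntegrable ?_
    rw [uIcc_of_le zero_le_one]
    exact (((cD.clm_apply (cS U)).clm_apply continuousOn_const).clm_apply (cS V)).add
      ((cW.clm_apply continuousOn_const).clm_apply (cS V))
  rw [← intervalIntegral.integral_sub (hint U V) (hint V U)]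
  have hL : ∀ t ∈ uIcc (0 : ℝ) 1, HasDerivAt (fun t => W (Sc t z) (Sc t U) (Sc t V))
      (fderiv ℝ W (Sc t z) (Sc t U) (B0 z) (Sc t V) + W (Sc t z) (B0 U) (Sc t V) -
        (fderiv ℝ W (Sc t z) (Sc t V) (B0 z) (Sc t U) + W (Sc t z) (B0 V) (Sc t U))) t := by
    intro t ht
    rw [uIcc_of_le zero_le_one] at ht
    refine (line_deriv hW hz ht U V).congr_deriv ?_
    have h1 := hW.closed _ (Sc_mem ht hz) (B0 z) (Sc t U) (Sc t V)
    unfold dd at h1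
    have h2 := Bas.bil_alt hW (Sc_mem ht hz) (Sc t U) (B0 V)
    -- the derivative of the alternating form is alternating
    have h3 : fderiv ℝ W (Sc t z) (Sc t V) (B0 z) (Sc t U) =
        - fderiv ℝ W (Sc t z) (Sc t V) (Sc t U) (B0 z) := by
      have hd : HasFDerivAt W (fderiv ℝ W (Sc t z)) (Sc t z) :=
        ((hW.smooth.contDiffAt ((isOpen_OS r).mem_nhds (Sc_mem ht hz))).differentiableAt
          (by simp)).hasFDerivAt
      have e1 := (hd.clm_apply (hasFDerivAt_const (B0 z) (Sc t z))).clm_apply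
        (hasFDerivAt_const (Sc t U) (Sc t z))
      have e2 := (hd.clm_apply (hasFDerivAt_const (Sc t U) (Sc t z))).clm_apply
        (hasFDerivAt_const (B0 z) (Sc t z))
      have e3 := e1.add e2
      have e4 : (fun y => W y (B0 z) (Sc t U) + W y (Sc t U) (B0 z)) =ᶠ[𝓝 (Sc t z)]
          fun _ => (0 : ℝ) := by
        filter_upwards [(isOpen_OS r).mem_nhds (Sc_mem ht hz)] with y hy
        rw [Bas.bil_alt hW hy (B0 z) (Sc t U)]
        ring
      have e5 : HasFDerivAt (fun y => W y (B0 z) (Sc t U) + W y (Sc t U) (B0 z))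
          (0 : E6 →L[ℝ] ℝ) (Sc t z) :=
        (hasFDerivAt_const (0 : ℝ) (Sc t z)).congr_of_eventuallyEq e4
      have e6 := congrArg (fun L : E6 →L[ℝ] ℝ => L (Sc t V)) (e3.unique e5)
      have e7 : fderiv ℝ W (Sc t z) (Sc t V) (B0 z) (Sc t U) +
          fderiv ℝ W (Sc t z) (Sc t V) (Sc t U) (B0 z) = 0 := by
        simpa using e6
      linarith
    rw [h2]
    linarith
  have hc : ContinuousOn (fun t : ℝ => fderiv ℝ W (Sc t z) (Sc t U) (B0 z) (Sc t V) +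
      W (Sc t z) (B0 U) (Sc t V) - (fderiv ℝ W (Sc t z) (Sc t V) (B0 z) (Sc t U) +
        W (Sc t z) (B0 V) (Sc t U))) (uIcc 0 1) := by
    rw [uIcc_of_le zero_le_one]
    exact ((((cD.clm_apply (cS U)).clm_apply continuousOn_const).clm_apply (cS V)).add
      ((cW.clm_apply continuousOn_const).clm_apply (cS V))).sub
      ((((cD.clm_apply (cS V)).clm_apply continuousOn_const).clm_apply (cS U)).add
      ((cW.clm_apply continuousOn_const).clm_apply (cS U)))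
  rw [intervalIntegral.integral_eq_sub_of_hasDerivAt hL hc.intervalIntegrable, Sc_one, Sc_one,
    Sc_one]
  have h00 : W (Sc 0 z) (Sc 0 U) (Sc 0 V) = 0 := by
    have h01 : (0 : ℝ) ∈ Icc (0 : ℝ) 1 := ⟨le_rfl, zero_le_one⟩
    rw [hW.bas _ (Sc_mem h01 hz), Pi_Sc, fderiv_Pi_Sc hz.1, fderiv_Pi_Sc hz.1]
    simp only [Sc_apply, zero_smul]
    exact h0 _ _ _ (Pi_one hz.1) (fderiv_Pi_orth hz.1 U) (fderiv_Pi_orth hz.1 V)
  rw [h00, sub_zero]

/-! ### the bounds -/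

/-- the closed disc bundle. -/
def KS (r' : ℝ) : Set E6 := {z | ‖z.1‖ = 1 ∧ ⟪z.1, z.2⟫ = 0 ∧ ‖z.2‖ ≤ r'}

theorem isCompact_KS (r' : ℝ) : IsCompact (KS r') := by
  refine Metric.isCompact_of_isClosed_isBounded ?_ ?_
  · have h1 : IsClosed {z : E6 | ‖z.1‖ = 1} := isClosed_eq (by fun_prop) continuous_const
    have h2 : IsClosed {z : E6 | ⟪z.1, z.2⟫ = 0} := isClosed_eq (by fun_prop) continuous_const
    have h3 : IsClosed {z : E6 | ‖z.2‖ ≤ r'} := isClosed_le (by fun_prop) continuous_const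
    exact h1.inter (h2.inter h3)
  · refine (Metric.isBounded_iff_subset_closedBall 0).2 ⟨max 1 r', ?_⟩
    rintro z ⟨h1, _, h3⟩
    rw [mem_closedBall_zero_iff, Prod.norm_def]
    exact max_le_max h1.le h3

theorem KS_sub {r' : ℝ} (h : r' < r) : KS r' ⊆ OS r := fun _ hz =>
  TS_sub ⟨hz.1, hz.2.1, lt_of_le_of_lt hz.2.2 h⟩

theorem Sc_KS {r' : ℝ} {t : ℝ} (ht : t ∈ Icc (0 : ℝ) 1) {z : E6} (hz : z ∈ KS r') :
    Sc t z ∈ KS r' := by
  rw [Sc_apply]
  refine ⟨hz.1, ?_, ?_⟩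
  · show ⟪z.1, t • z.2⟫ = 0
    rw [inner_smul_right, hz.2.1, mul_zero]
  · show ‖t • z.2‖ ≤ r'
    rw [norm_smul, Real.norm_of_nonneg ht.1]
    exact (mul_le_of_le_one_left (norm_nonneg _) ht.2).trans hz.2.2

theorem norm_B0 (z : E6) : ‖B0 z‖ = ‖z.2‖ := by
  rw [B0_apply, Prod.norm_def]
  simp

theorem norm_Sc {t : ℝ} (ht : t ∈ Icc (0 : ℝ) 1) (V : E6) : ‖Sc t V‖ ≤ ‖V‖ := by
  rw [Sc_apply, Prod.norm_def, Prod.norm_def]
  refine max_le_max le_rfl ?_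
  show ‖t • V.2‖ ≤ ‖V.2‖
  rw [norm_smul, Real.norm_of_nonneg ht.1]
  exact mul_le_of_le_one_left (norm_nonneg _) ht.2

theorem bt_bound (hW : Bas r W) {z : E6} (hz : z ∈ OS r) {C : ℝ} (hC0 : 0 ≤ C)
    (hC : ∀ t ∈ Icc (0 : ℝ) 1, ‖W (Sc t z)‖ ≤ C) : ‖bt W z‖ ≤ C * ‖z.2‖ := by
  refine ContinuousLinearMap.opNorm_le_bound _ (by positivity) fun V => ?_
  rw [bt_apply hW hz]
  have h1 : ∀ t ∈ Ι (0 : ℝ) 1, ‖W (Sc t z) (B0 z) (Sc t V)‖ ≤ C * ‖z.2‖ * ‖V‖ := by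
    intro t ht
    rw [uIoc_of_le zero_le_one] at ht
    have ht' : t ∈ Icc (0 : ℝ) 1 := ⟨ht.1.le, ht.2⟩
    calc ‖W (Sc t z) (B0 z) (Sc t V)‖ ≤ ‖W (Sc t z) (B0 z)‖ * ‖Sc t V‖ :=
          ContinuousLinearMap.le_opNorm _ _
      _ ≤ (‖W (Sc t z)‖ * ‖B0 z‖) * ‖Sc t V‖ :=
          mul_le_mul_of_nonneg_right (ContinuousLinearMap.le_opNorm _ _) (norm_nonneg _)
      _ ≤ (C * ‖z.2‖) * ‖V‖ := by
          rw [norm_B0]
          exact mul_le_mul (mul_le_mul_of_nonneg_right (hC t ht') (norm_nonneg _))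
            (norm_Sc ht' V) (norm_nonneg _) (by positivity)
  have h2 := intervalIntegral.norm_integral_le_of_norm_le_const h1
  simpa using h2

/-- LEAF RPRIM. -/
theorem rprim : RPRIM := by
  intro r W _ hW h0
  refine ⟨bt W, bt_bas hW, fun z hz => bt_d1 hW h0 hz, ?_, ?_⟩
  · intro r' hr'
    obtain ⟨C, hC⟩ := (isCompact_KS r').exists_bound_of_continuousOn
      (hW.smooth.continuousOn.mono (KS_sub hr'))
    refine ⟨max C 0, fun z hz => ?_⟩
    have hz' : z ∈ KS r' := ⟨hz.1, hz.2.1, hz.2.2.le⟩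
    exact bt_bound hW (KS_sub hr' hz') (le_max_right _ _) fun t ht =>
      (hC _ (Sc_KS ht hz')).trans (le_max_left _ _)
  · intro hq r' hr'
    obtain ⟨C, hC⟩ := (isCompact_KS r').exists_bound_of_continuousOn
      ((hW.smooth.continuousOn_fderiv_of_isOpen (isOpen_OS r) (by simp)).mono (KS_sub hr'))
    refine ⟨max C 0, fun z hz => ?_⟩
    have hz' : z ∈ KS r' := ⟨hz.1, hz.2.1, hz.2.2.le⟩
    have hzO := KS_sub hr' hz'
    have key : ∀ t ∈ Icc (0 : ℝ) 1, ‖W (Sc t z)‖ ≤ max C 0 * ‖z.2‖ := by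
      intro t ht
      have h1 : ∀ s ∈ Icc (0 : ℝ) 1, HasDerivWithinAt (fun s => W (Sc s z))
          (fderiv ℝ W (Sc s z) (B0 z)) (Icc 0 1) s := by
        intro s hs
        have h2 : HasFDerivAt W (fderiv ℝ W (Sc s z)) (Sc s z) :=
          ((hW.smooth.contDiffAt ((isOpen_OS r).mem_nhds (Sc_mem hs hzO))).differentiableAt
            (by simp)).hasFDerivAt
        exact (h2.comp_hasDerivAt s (hasDerivAt_Sc z s)).hasDerivWithinAt
      have h3 : ∀ s ∈ Icc (0 : ℝ) 1, ‖fderiv ℝ W (Sc s z) (B0 z)‖ ≤ max C 0 * ‖z.2‖ := by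
        intro s hs
        refine (ContinuousLinearMap.le_opNorm _ _).trans ?_
        rw [norm_B0]
        exact mul_le_mul_of_nonneg_right ((hC _ (Sc_KS hs hz')).trans (le_max_left _ _))
          (norm_nonneg _)
      have h4 := (convex_Icc (0 : ℝ) 1).norm_image_sub_le_of_norm_hasDerivWithin_le h1 h3
        (⟨le_rfl, zero_le_one⟩ : (0 : ℝ) ∈ Icc (0 : ℝ) 1) ht
      have h5 : W (Sc 0 z) = 0 := by
        rw [Sc_apply, zero_smul]
        exact hq z.1 hz.1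
      rw [h5, sub_zero, sub_zero, Real.norm_of_nonneg ht.1] at h4
      refine h4.trans ?_
      exact mul_le_of_le_one_right (by positivity) ht.2
    have h6 := bt_bound hW hzO (by positivity) key
    calc ‖bt W z‖ ≤ max C 0 * ‖z.2‖ * ‖z.2‖ := h6
      _ = max C 0 * ‖z.2‖ ^ 2 := by ring

end

end Crest.Agent.R235.K12Rprim_82
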