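import Crest.Agent.R235.K12S2C_423
import Crest.Agent.R106.Cal

/-!
Row 235 (S0364), package KUM, block K12, leaf S2PRIM (task 315, helper423): final part:
Stokes' formula, normalisation, conclusion.
-/

set_option autoImplicit false
set_option maxSynthPendingDepth 3

open Set MeasureTheory Filter Module
open scoped ContDiff Topology RealInnerProductSpace

namespace Crest.Agent.R235.K12S2_423

open Crest.Agent.R235 Crest.Agent.R240.Ch Crest.Agent.R235.K12_417

noncomputable section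

/-! ### polar coordinates -/

theorem int_hom {s : E3 → ℝ} (hs : ∀ (r : ℝ) (y : E3), 0 < r → s (r • y) = s y) (h : ℝ → ℝ) :
    ∫ y : E3, s y * h ‖y‖ =
      (∫ u : Metric.sphere (0 : E3) 1, s u ∂(volume : Measure E3).toSphere) *
        ∫ r : Ioi (0 : ℝ), h r ∂(Measure.volumeIoiPow (finrank ℝ E3 - 1)) := by
  calc ∫ y : E3, s y * h ‖y‖
      = ∫ x : ({(0)}ᶜ : Set E3), s x.1 * h ‖x.1‖ ∂((volume : Measure E3).comap (↑)) := by
        rw [integral_subtype_comap (measurableSet_singleton _).compl fun x => s x * h ‖x‖,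
          restrict_compl_singleton]
    _ = ∫ x, s (x.1 : E3) * h (x.2 : ℝ) ∂((volume : Measure E3).toSphere.prod
          (.volumeIoiPow (finrank ℝ E3 - 1))) := by
        rw [← (volume : Measure E3).measurePreserving_homeomorphUnitSphereProd.integral_comp
          (Homeomorph.measurableEmbedding _)
          (fun x : Metric.sphere (0 : E3) 1 × Ioi (0 : ℝ) => s (x.1 : E3) * h (x.2 : ℝ))]
        congr 1
        funext x
        simp only [homeomorphUnitSphereProd_apply_fst_coe, homeomorphUnitSphereProd_apply_snd_coe]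
        rw [hs]
        exact inv_pos.2 (norm_pos_iff.2 x.2)
    _ = _ := integral_prod_mul (fun u : Metric.sphere (0 : E3) 1 => s u)
        (fun r : Ioi (0 : ℝ) => h r)

/-! ### the radial cut-off -/

/-- a bump on `(1, 2)`. -/
def bmp : ContDiffBump (3 / 2 : ℝ) := ⟨1 / 4, 1 / 2, by norm_num, by norm_num⟩

/-- the radial bump. -/
def ph (x : E3) : ℝ := bmp ‖x‖

theorem ph_zero_in {x : E3} (hx : ‖x‖ < 1) : ph x = 0 := by
  refine bmp.zero_of_le_dist ?_
  change (1 / 2 : ℝ) ≤ dist ‖x‖ (3 / 2)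
  rw [Real.dist_eq, abs_of_neg (by linarith)]
  linarith

theorem ph_zero_out {x : E3} (hx : 2 < ‖x‖) : ph x = 0 := by
  refine bmp.zero_of_le_dist ?_
  change (1 / 2 : ℝ) ≤ dist ‖x‖ (3 / 2)
  rw [Real.dist_eq, abs_of_pos (by linarith)]
  linarith

theorem ph_near {x : E3} (hx : x = 0) : ph =ᶠ[𝓝 x] fun _ => 0 := by
  have h : {y : E3 | ‖y‖ < 1} ∈ 𝓝 x := (isOpen_lt (by fun_prop) (by fun_prop)).mem_nhds
    (by rw [hx]; simp)
  filter_upwards [h] with y hy using ph_zero_in hy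

theorem ph_smooth : ContDiff ℝ ∞ ph := by
  rw [contDiff_iff_contDiffAt]
  intro x
  by_cases hx : x = 0
  · exact contDiffAt_const.congr_of_eventuallyEq (ph_near hx)
  · exact bmp.contDiff.contDiffAt.comp x (contDiffAt_norm ℝ hx)

theorem ph_supp : HasCompactSupport ph := by
  refine HasCompactSupport.intro (isCompact_closedBall (0 : E3) 2) fun x hx => ?_
  refine ph_zero_out ?_
  rw [mem_closedBall_zero_iff, not_le] at hx
  exact hx

theorem ph_deriv {x : E3} (hx : x ≠ 0) (v : E3) :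
    fderiv ℝ ph x v = deriv (fun r => bmp r) ‖x‖ * (‖x‖⁻¹ * ⟪x, v⟫) := by
  have h1 : HasDerivAt (fun r => bmp r) (deriv (fun r => bmp r) ‖x‖) ‖x‖ :=
    (bmp.contDiffAt.differentiableAt (n := 1) (by simp)).hasDerivAt
  have h2 : HasDerivAt (fun τ : ℝ => ‖x + τ • v‖) (⟪x, v⟫ / ‖x‖) 0 := norm_line hx
  have h3 : HasFDerivAt ph (fderiv ℝ ph x) (x + (0 : ℝ) • v) := by
    rw [zero_smul, add_zero]
    exact (ph_smooth.contDiffAt.differentiableAt (by simp)).hasFDerivAt
  have e0 : HasDerivAt (fun τ : ℝ => x + τ • v) v 0 := by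
    simpa using ((hasDerivAt_id (0 : ℝ)).smul_const v).const_add x
  have c1 := h3.comp_hasDerivAt (0 : ℝ) e0
  have h4 : HasDerivAt (fun r => bmp r) (deriv (fun r => bmp r) ‖x‖) ‖x + (0 : ℝ) • v‖ := by
    rw [zero_smul, add_zero]; exact h1
  have c2 := h4.comp (0 : ℝ) h2
  have c3 := c1.unique c2
  rw [c3]
  ring

/-! ### Stokes -/

variable {γ : E3 → E3 →L[ℝ] ℝ}

/-- the test function. -/
def tf (γ : E3 → E3 →L[ℝ] ℝ) (u w x : E3) : ℝ := ph x * (γ x u * ⟪x, w⟫)

theorem tf_smooth (hγ : ContDiffOn ℝ ∞ γ {0}ᶜ) (u w : E3) : ContDiff ℝ ∞ (tf γ u w) := by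
  rw [contDiff_iff_contDiffAt]
  intro x
  by_cases hx : x = 0
  · refine (contDiffAt_const (c := (0 : ℝ))).congr_of_eventuallyEq ?_
    filter_upwards [ph_near hx] with y hy
    rw [tf, hy, zero_mul]
  · have h1 : ContDiffAt ℝ ∞ γ x := hγ.contDiffAt (isOpen_compl_singleton.mem_nhds hx)
    refine ph_smooth.contDiffAt.mul ((h1.clm_apply contDiffAt_const).mul ?_)
    exact (contDiff_id.inner ℝ contDiff_const).contDiffAt

theorem tf_supp (u w : E3) : HasCompactSupport (tf γ u w) := ph_supp.mul_right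

theorem tf_deriv (hγ : ContDiffOn ℝ ∞ γ {0}ᶜ) (u w e : E3) {x : E3} (hx : x ≠ 0) :
    fderiv ℝ (tf γ u w) x e = fderiv ℝ ph x e * (γ x u * ⟪x, w⟫) +
      ph x * (fderiv ℝ γ x e u * ⟪x, w⟫ + γ x u * ⟪e, w⟫) := by
  have h1 : HasFDerivAt γ (fderiv ℝ γ x) x :=
    ((hγ.contDiffAt (isOpen_compl_singleton.mem_nhds hx)).differentiableAt (by simp)).hasFDerivAt
  have e0 : HasDerivAt (fun τ : ℝ => x + τ • e) e 0 := by
    simpa using ((hasDerivAt_id (0 : ℝ)).smul_const e).const_add x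
  have g1 : HasFDerivAt γ (fderiv ℝ γ x) (x + (0 : ℝ) • e) := by
    rw [zero_smul, add_zero]; exact h1
  have g2 := g1.comp_hasDerivAt (0 : ℝ) e0
  have g3 := g2.clm_apply (hasDerivAt_const (0 : ℝ) u)
  have p1 : HasFDerivAt ph (fderiv ℝ ph x) (x + (0 : ℝ) • e) := by
    rw [zero_smul, add_zero]
    exact (ph_smooth.contDiffAt.differentiableAt (by simp)).hasFDerivAt
  have p2 := p1.comp_hasDerivAt (0 : ℝ) e0
  have i1 : HasDerivAt (fun τ : ℝ => ⟪x + τ • e, w⟫) ⟪e, w⟫ 0 := by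
    have := e0.inner ℝ (hasDerivAt_const (0 : ℝ) w)
    simpa using this
  have q := p2.mul (g3.mul i1)
  have t1 : HasFDerivAt (tf γ u w) (fderiv ℝ (tf γ u w) x) (x + (0 : ℝ) • e) := by
    rw [zero_smul, add_zero]
    exact ((tf_smooth hγ u w).contDiffAt.differentiableAt (by simp)).hasFDerivAt
  have t2 := t1.comp_hasDerivAt (0 : ℝ) e0
  have t3 := t2.unique q
  rw [t3]
  simp

theorem tf_int (hγ : ContDiffOn ℝ ∞ γ {0}ᶜ) (u w e : E3) :
    Integrable (fun x => fderiv ℝ (tf γ u w) x e) ∧ ∫ x, fderiv ℝ (tf γ u w) x e = 0 :=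
  ⟨R106.UQ.integrable_fderiv _ ((tf_smooth hγ u w).of_le (by exact_mod_cast le_top)) (tf_supp u w) e,
   R106.UQ.integral_fderiv_eq_zero _ ((tf_smooth hγ u w).of_le (by exact_mod_cast le_top))
    (tf_supp u w) e⟩

/-- Stokes: `f · area = dγ` implies `∫ f = 0`. -/
theorem stokes {f : E3 → ℝ} (hf : Hom0 f) (hγ : ContDiffOn ℝ ∞ γ {0}ᶜ)
    (hd : ∀ x : E3, x ≠ 0 → ∀ u v, d1 γ x u v = GG f x * ⟪x, cr u v⟫) :
    ∫ y : Metric.sphere (0 : E3) 1, f y ∂((volume : Measure E3).toSphere) = 0 := by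
  set a := ee 0 with ha
  set b := ee 1 with hb
  set c := ee 2 with hc
  have key : ∀ x : E3, (fderiv ℝ (tf γ b c) x a - fderiv ℝ (tf γ c b) x a) +
      (fderiv ℝ (tf γ c a) x b - fderiv ℝ (tf γ a c) x b) +
      (fderiv ℝ (tf γ a b) x c - fderiv ℝ (tf γ b a) x c) =
      f x * (bmp ‖x‖ * ‖x‖⁻¹) := by
    intro x
    by_cases hx : x = 0
    · have h1 : ∀ u w e : E3, fderiv ℝ (tf γ u w) x e = 0 := by
        intro u w e
        have h : tf γ u w =ᶠ[𝓝 x] fun _ => 0 := by
          filter_upwards [ph_near hx] with y hy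
          rw [tf, hy, zero_mul]
        rw [h.fderiv_eq]; simp
      rw [h1, h1, h1, h1, h1, h1, hx]; simp
    · have hn : ‖x‖ ≠ 0 := norm_ne_zero_iff.2 hx
      have hN := normsq3 x
      have k1 := hd x hx a b
      have k2 := hd x hx b c
      have k3 := hd x hx c a
      rw [d1_apply] at k1 k2 k3
      simp only [tf_deriv hγ _ _ _ hx, ph_deriv hx]
      have x0 : ⟪x, a⟫ = x 0 := by rw [inner3]; simp [ha, ee]
      have x1 : ⟪x, b⟫ = x 1 := by rw [inner3]; simp [hb, ee]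
      have x2 : ⟪x, c⟫ = x 2 := by rw [inner3]; simp [hc, ee]
      have y1 : ⟪a, b⟫ = 0 := by rw [inner3]; simp [ha, hb, ee]
      have y2 : ⟪b, a⟫ = 0 := by rw [inner3]; simp [ha, hb, ee]
      have y3 : ⟪a, c⟫ = 0 := by rw [inner3]; simp [ha, hc, ee]
      have y4 : ⟪c, a⟫ = 0 := by rw [inner3]; simp [ha, hc, ee]
      have y5 : ⟪b, c⟫ = 0 := by rw [inner3]; simp [hb, hc, ee]
      have y6 : ⟪c, b⟫ = 0 := by rw [inner3]; simp [hb, hc, ee]
      have z1 : ⟪x, cr a b⟫ = x 2 := by rw [inner3, cr0, cr1, cr2]; simp [ha, hb, ee]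
      have z2 : ⟪x, cr b c⟫ = x 0 := by rw [inner3, cr0, cr1, cr2]; simp [hb, hc, ee]
      have z3 : ⟪x, cr c a⟫ = x 1 := by rw [inner3, cr0, cr1, cr2]; simp [hc, ha, ee]
      rw [z1] at k1
      rw [z2] at k2
      rw [z3] at k3
      rw [x0, x1, x2, y1, y2, y3, y4, y5, y6]
      have hG : GG f x * ‖x‖ ^ 2 = f x * ‖x‖⁻¹ := by
        unfold GG; field_simp
      have hp : ph x = bmp ‖x‖ := rfl
      rw [hp]
      have h9 : f x * (bmp ‖x‖ * ‖x‖⁻¹) = bmp ‖x‖ * (GG f x * (x 0 ^ 2 + x 1 ^ 2 + x 2 ^ 2)) := by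
        rw [← hN, hG]; ring
      rw [h9]
      linear_combination (bmp ‖x‖ * x 2) * k1 + (bmp ‖x‖ * x 0) * k2 + (bmp ‖x‖ * x 1) * k3
  have hint : ∫ x : E3, f x * (bmp ‖x‖ * ‖x‖⁻¹) = 0 := by
    simp only [← key]
    have t : ∀ u w e u' w' e' : E3,
        Integrable (fun x => fderiv ℝ (tf γ u w) x e - fderiv ℝ (tf γ u' w') x e') ∧
        ∫ x, (fderiv ℝ (tf γ u w) x e - fderiv ℝ (tf γ u' w') x e') = 0 := by
      intro u w e u' w' e'
      refine ⟨(tf_int hγ u w e).1.sub (tf_int hγ u' w' e').1, ?_⟩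
      rw [integral_sub (tf_int hγ u w e).1 (tf_int hγ u' w' e').1, (tf_int hγ u w e).2,
        (tf_int hγ u' w' e').2, sub_zero]
    have t2 : Integrable (fun x => (fderiv ℝ (tf γ b c) x a - fderiv ℝ (tf γ c b) x a) +
        (fderiv ℝ (tf γ c a) x b - fderiv ℝ (tf γ a c) x b)) := (t _ _ _ _ _ _).1.add
          (t _ _ _ _ _ _).1
    rw [integral_add t2 (t _ _ _ _ _ _).1, integral_add (t _ _ _ _ _ _).1 (t _ _ _ _ _ _).1,
      (t _ _ _ _ _ _).2, (t _ _ _ _ _ _).2, (t _ _ _ _ _ _).2, add_zero, add_zero]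
  have h1 := int_hom (s := f) (fun r y hr => hf.2 r y hr) (fun r => bmp r * r⁻¹)
  have h2 := int_hom (s := fun _ => (1 : ℝ)) (fun _ _ _ => rfl) (fun r => bmp r * r⁻¹)
  rw [hint] at h1
  have hpos : 0 < ∫ y : E3, (1 : ℝ) * (bmp ‖y‖ * ‖y‖⁻¹) := by
    simp only [one_mul]
    have hcont : Continuous fun y : E3 => bmp ‖y‖ * ‖y‖⁻¹ := by
      rw [continuous_iff_continuousAt]
      intro x
      by_cases hx : x = 0
      · have h : (fun y : E3 => bmp ‖y‖ * ‖y‖⁻¹) =ᶠ[𝓝 x] fun _ => 0 := by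
          filter_upwards [ph_near hx] with y hy
          have : bmp ‖y‖ = 0 := hy
          rw [this, zero_mul]
        exact continuousAt_const.congr h.symm
      · have : ContinuousAt (fun y : E3 => ‖y‖⁻¹) x :=
          continuousAt_id.norm.inv₀ (norm_ne_zero_iff.2 hx)
        exact (bmp.continuous.comp continuous_norm).continuousAt.mul this
    refine Continuous.integral_pos_of_hasCompactSupport_nonneg_nonzero hcont ?_ ?_
      (x := (3 / 2 : ℝ) • ee 0) ?_
    · exact (ph_supp : HasCompactSupport fun y : E3 => bmp ‖y‖).mul_right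
    · intro y
      exact mul_nonneg bmp.nonneg (inv_nonneg.2 (norm_nonneg _))
    · have h3 : ‖(3 / 2 : ℝ) • ee 0‖ = 3 / 2 := by
        rw [norm_smul, norm_ee, mul_one, Real.norm_eq_abs]; norm_num
      rw [h3, bmp.one_of_mem_closedBall (Metric.mem_closedBall_self (by
        change (0 : ℝ) ≤ 1 / 4; norm_num))]
      norm_num
  rw [h2] at hpos
  have h3 : (∫ r : Ioi (0 : ℝ), bmp (r : ℝ) * (r : ℝ)⁻¹
      ∂(Measure.volumeIoiPow (finrank ℝ E3 - 1))) ≠ 0 := by
    intro h; rw [h, mul_zero] at hpos; exact lt_irrefl _ hpos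
  exact (mul_eq_zero.1 h1.symm).resolve_right h3

/-! ### linearity and conclusion -/

theorem one_Hom0 : Hom0 (fun _ => (1 : ℝ)) := ⟨contDiffOn_const, fun _ _ _ => rfl⟩

theorem sub_Hom0 {f : E3 → ℝ} (hf : Hom0 f) (c : ℝ) : Hom0 (fun x => f x - c) :=
  ⟨hf.1.sub contDiffOn_const, fun t q ht => by
    change f (t • q) - c = f q - c
    rw [hf.2 t q ht]⟩

theorem HH_int {f : E3 → ℝ} (hf : Hom0 f) {a : E3} (ha : ‖a‖ = 1) {x : E3} (hx : x ∈ VV a) :
    IntervalIntegrable (fun t : ℝ => HH f a (t, x)) volume 0 1 := by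
  have h : Continuous fun t : ℝ => HH f a (t, x) := by
    rw [← continuousOn_univ]
    exact (HH_smooth hf ha).continuousOn.comp (by fun_prop) fun r _ => ⟨mem_univ _, hx⟩
  exact h.intervalIntegrable _ _

theorem FF_sub {f : E3 → ℝ} (hf : Hom0 f) (c : ℝ) {a : E3} (ha : ‖a‖ = 1) {x : E3}
    (hx : x ∈ VV a) : FF (fun x => f x - c) a x = FF f a x - c * FF (fun _ => 1) a x := by
  unfold FF
  rw [← intervalIntegral.integral_const_mul, ← intervalIntegral.integral_sub (HH_int hf ha hx)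
    ((HH_int one_Hom0 ha hx).const_mul c)]
  refine intervalIntegral.integral_congr fun t _ => ?_
  simp only [HH, GG]
  ring

theorem lam_cont {f : E3 → ℝ} (hf : Hom0 f) :
    Continuous fun s : ℝ => lam f (Complex.exp (s * Complex.I)) := by
  have h := ell_cont (lam_Hc hf) (one_ne_zero (α := ℂ))
  have h2 : (fun s : ℝ => lam f (Complex.exp (s * Complex.I))) = ell (lam f) 1 := by
    funext s; rw [ell, mul_one]
  rw [h2]; exact h

theorem mean_sub {f : E3 → ℝ} (hf : Hom0 f) (c : ℝ) :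
    mean2 (lam (fun x => f x - c)) = mean2 (lam f) - c * mean2 (lam (fun _ => 1)) := by
  unfold mean2
  rw [← intervalIntegral.integral_const_mul, ← intervalIntegral.integral_sub
    ((lam_cont hf).intervalIntegrable _ _)
    (((lam_cont one_Hom0).intervalIntegrable _ _).const_mul c)]
  refine intervalIntegral.integral_congr fun s _ => ?_
  have hz : prC (inC (Complex.exp (s * Complex.I))) ≠ 0 := by
    rw [prC_inC]; exact Complex.exp_ne_zero _
  simp only [lam, LL]
  rw [FF_sub hf c (norm_ee 2) (off_V hz), FF_sub hf c (norm_nee 2) (off_V' hz)]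
  ring

/-- **S2PRIM.** -/
theorem s2prim : S2PRIM := by
  intro f hf hf0
  have hS : ((volume : Measure E3).toSphere).real univ ≠ 0 := by
    have : Nonempty (Metric.sphere (0 : E3) 1) := ⟨⟨ee 0, by simp [norm_ee]⟩⟩
    exact (measureReal_univ_pos (μ := (volume : Measure E3).toSphere)).ne'
  have h1 : mean2 (lam (fun _ => 1)) ≠ 0 := by
    intro h
    have := stokes one_Hom0 (Gam_smooth one_Hom0) (fun x hx u v => Gam_d1 one_Hom0 h hx u v)
    simp only [integral_const, smul_eq_mul, mul_one] at this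
    exact hS this
  set c : ℝ := mean2 (lam f) / mean2 (lam (fun _ => 1)) with hc
  have h2 : mean2 (lam (fun x => f x - c)) = 0 := by
    rw [mean_sub hf c, hc]; field_simp; ring
  have hfc := sub_Hom0 hf c
  have h3 := stokes hfc (Gam_smooth hfc) (fun x hx u v => Gam_d1 hfc h2 hx u v)
  have hcf : Continuous fun y : Metric.sphere (0 : E3) 1 => f y := by
    rw [← continuousOn_univ]
    refine hf.1.continuousOn.comp continuous_subtype_val.continuousOn fun y _ => ?_
    have h4 : ‖(y : E3)‖ = 1 := mem_sphere_zero_iff_norm.1 y.2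
    intro h5
    have h6 : (y : E3) = 0 := h5
    rw [h6, norm_zero] at h4
    exact zero_ne_one h4
  have hif : Integrable (fun y : Metric.sphere (0 : E3) 1 => f y)
      ((volume : Measure E3).toSphere) :=
    hcf.integrable_of_hasCompactSupport (HasCompactSupport.of_compactSpace _)
  rw [integral_sub hif (integrable_const c), hf0, integral_const, smul_eq_mul, zero_sub,
    neg_eq_zero] at h3
  have hc0 : c = 0 := (mul_eq_zero.1 h3).resolve_left hS
  have h4 : mean2 (lam f) = 0 := by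
    rw [hc] at hc0
    exact (div_eq_zero_iff.1 hc0).resolve_right h1
  refine ⟨Gam f, Gam_smooth hf, Gam_self f, fun t q ht _ => Gam_hom hf t q ht, ?_⟩
  intro q u v hq _ _
  have hq0 : q ≠ 0 := by
    intro h; rw [h, norm_zero] at hq; exact zero_ne_one hq
  rw [Gam_d1 hf h4 hq0, GG, hq]
  norm_num

end

end Crest.Agent.R235.K12S2_423
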