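import Crest.Agent.R235.K12Defs_417

/-!
Row 235 (S0364), block K12 (helper417's plan), leaf EXT (helper168): a basic one-form on `OS r` with
support in `{|p| ≤ r'}`, `r' < r`, extends by zero to a smooth one-form on `M`.
-/

set_option autoImplicit false
set_option maxSynthPendingDepth 3
set_option linter.unusedSectionVars false

open Set Function Filter MeasureTheory
open scoped Manifold ContDiff Topology RealInnerProductSpace

universe u

namespace Crest.Agent.R235.K12Ext_168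

open Crest.Agent.R240 Crest.Agent.R240.Ch Crest.Agent.R235 Crest.Agent.R235.K12_417
  Crest.Agent.R235.PB_604

noncomputable section

/-! ### the model space -/

section Model

variable {E : Type*} [NormedAddCommGroup E] [NormedSpace ℝ E]

lemma rep1_model (p : E) (s : F1 E E) (y : E) : rep1 p s y = at1 s y := by
  have h (w : E) : tcc (E := E) (M := E) p y y w = w := by
    rw [tcc_eq_fderiv]
    show fderiv ℝ (id : E → E) y w = w
    rw [fderiv_id]; rfl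
  ext u
  rw [rep1_apply]
  show at1 s y (tcc p y y u) = at1 s y u
  rw [h]

end Model

/-! ### the retraction -/

lemma contDiffAt_Pi {z : E6} (hz : z.1 ≠ 0) : ContDiffAt ℝ ∞ Pi z := by
  have h1 : ContDiffAt ℝ ∞ (fun z : E6 => z.1) z := contDiffAt_fst
  have h2 : ContDiffAt ℝ ∞ (fun z : E6 => z.2) z := contDiffAt_snd
  have h3 : ContDiffAt ℝ ∞ (fun z : E6 => ‖z.1‖) z := h1.norm ℝ hz
  have hne : ‖z.1‖ ≠ 0 := norm_ne_zero_iff.2 hz
  have h4 : ContDiffAt ℝ ∞ (fun z : E6 => ‖z.1‖⁻¹) z := h3.inv hne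
  have h5 : ContDiffAt ℝ ∞ (fun z : E6 => ⟪z.1, z.2⟫ / ‖z.1‖ ^ 2) z :=
    (h1.inner ℝ h2).div (h3.pow 2) (pow_ne_zero 2 hne)
  exact (h4.smul h1).prodMk (h2.sub (h5.smul h1))

lemma Pi_fst_norm {z : E6} (hz : z.1 ≠ 0) : ‖(Pi z).1‖ = 1 := by
  have hne : ‖z.1‖ ≠ 0 := norm_ne_zero_iff.2 hz
  simp only [Pi, norm_smul, norm_inv, norm_norm]
  exact inv_mul_cancel₀ hne

lemma Pi_inner {z : E6} (hz : z.1 ≠ 0) : ⟪(Pi z).1, (Pi z).2⟫ = 0 := by
  have hne : ‖z.1‖ ≠ 0 := norm_ne_zero_iff.2 hz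
  simp only [Pi, real_inner_smul_left, inner_sub_right, inner_smul_right,
    real_inner_self_eq_norm_sq]
  field_simp
  ring

lemma Pi_mem_TS {r : ℝ} {z : E6} (hz : z ∈ OS r) : Pi z ∈ TS r :=
  ⟨Pi_fst_norm hz.1, Pi_inner hz.1, hz.2⟩

lemma Pi_of_TS {r : ℝ} {z : E6} (hz : z ∈ TS r) : Pi z = z := by
  obtain ⟨h1, h2, -⟩ := hz
  simp only [Pi, h1, h2, inv_one, one_smul, zero_div, zero_smul, sub_zero]

lemma TS_subset_OS (r : ℝ) : TS r ⊆ OS r := by
  intro z hz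
  refine ⟨?_, ?_⟩
  · intro h
    have := hz.1
    rw [h, norm_zero] at this
    exact zero_ne_one this
  · rw [Pi_of_TS hz]; exact hz.2.2

lemma isOpen_OS (r : ℝ) : IsOpen (OS r) := by
  rw [isOpen_iff_mem_nhds]
  intro z hz
  have h1 : ∀ᶠ w : E6 in 𝓝 z, w.1 ≠ 0 := continuousAt_fst.eventually_ne hz.1
  have h2 : ∀ᶠ w : E6 in 𝓝 z, ‖(Pi w).2‖ < r :=
    ((contDiffAt_Pi hz.1).continuousAt.snd.norm).eventually_lt_const hz.2
  filter_upwards [h1, h2] with w h1 h2 using ⟨h1, h2⟩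

lemma isCompact_TSle (r' : ℝ) : IsCompact {z : E6 | ‖z.1‖ = 1 ∧ ⟪z.1, z.2⟫ = 0 ∧ ‖z.2‖ ≤ r'} := by
  have hsub : {z : E6 | ‖z.1‖ = 1 ∧ ⟪z.1, z.2⟫ = 0 ∧ ‖z.2‖ ≤ r'} ⊆
      Metric.closedBall (0 : E3) 1 ×ˢ Metric.closedBall (0 : E3) r' := by
    rintro z ⟨h1, -, h3⟩
    exact ⟨by simp [h1], by simpa using h3⟩
  refine ((isCompact_closedBall (0 : E3) 1).prod (isCompact_closedBall (0 : E3) r')).of_isClosed_subset
    ?_ hsub
  have c1 : Continuous fun z : E6 => ‖z.1‖ := continuous_fst.norm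
  have c2 : Continuous fun z : E6 => (⟪z.1, z.2⟫ : ℝ) := continuous_fst.inner continuous_snd
  have c3 : Continuous fun z : E6 => ‖z.2‖ := continuous_snd.norm
  exact (isClosed_eq c1 continuous_const).inter
    ((isClosed_eq c2 continuous_const).inter (isClosed_le c3 continuous_const))

section Man

variable {M : Type u} [TopologicalSpace M] [T2Space M] [CompactSpace M]
  [ChartedSpace E4 M] [IsManifold 𝓘(ℝ, E4) ∞ M]

variable {σ : E3 → M} {r : ℝ} {Ps : E6 → M} {G : M → E6} {U : Set M}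

lemma smoothAt (h : Tube σ r Ps G U) {z : E6} (hz : z ∈ OS r) :
    ContMDiffAt 𝓘(ℝ, E6) 𝓘(ℝ, E4) ∞ Ps z :=
  h.smooth.contMDiffAt ((isOpen_OS r).mem_nhds hz)

lemma smoothGAt (h : Tube σ r Ps G U) {x : M} (hx : x ∈ U) :
    ContMDiffAt 𝓘(ℝ, E4) 𝓘(ℝ, E6) ∞ G x :=
  h.smoothG.contMDiffAt (h.openU.mem_nhds hx)

/-- the image of `{|p| ≤ r'}`. -/
def KK (r' : ℝ) (Ps : E6 → M) : Set M :=
  Ps '' {z : E6 | ‖z.1‖ = 1 ∧ ⟪z.1, z.2⟫ = 0 ∧ ‖z.2‖ ≤ r'}

lemma mem_TS_of {r' : ℝ} (hr : r' < r) {z : E6}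
    (hz : ‖z.1‖ = 1 ∧ ⟪z.1, z.2⟫ = 0 ∧ ‖z.2‖ ≤ r') : z ∈ TS r :=
  ⟨hz.1, hz.2.1, lt_of_le_of_lt hz.2.2 hr⟩

lemma isClosed_KK (h : Tube σ r Ps G U) {r' : ℝ} (hr : r' < r) : IsClosed (KK r' Ps) := by
  refine ((isCompact_TSle r').image_of_continuousOn ?_).isClosed
  intro z hz
  exact (smoothAt h (TS_subset_OS r (mem_TS_of hr hz))).continuousAt.continuousWithinAt

lemma KK_subset (h : Tube σ r Ps G U) {r' : ℝ} (hr : r' < r) : KK r' Ps ⊆ U := by
  rintro _ ⟨z, hz, rfl⟩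
  exact h.maps z (TS_subset_OS r (mem_TS_of hr hz))

open Classical in
/-- the extension by zero. -/
def sx (G : M → E6) (U : Set M) (β : E6 → E6 →L[ℝ] ℝ) : F1 E4 M :=
  fun x => if x ∈ U then pb1 (E := E4) (F := E6) (X := M) (M := E6) G β x else 0

lemma sx_of_mem {β : E6 → E6 →L[ℝ] ℝ} {x : M} (hx : x ∈ U) :
    at1 (sx G U β) x = at1 (pb1 (E := E4) (F := E6) (X := M) (M := E6) G β) x := by
  show sx G U β x = _
  unfold sx
  rw [if_pos hx]
  rfl

lemma sx_zero (h : Tube σ r Ps G U) {β : E6 → E6 →L[ℝ] ℝ} {r' : ℝ}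
    (hβ : ∀ z ∈ TS r, r' ≤ ‖z.2‖ → β z = 0) {x : M} (hx : x ∉ KK r' Ps) :
    at1 (sx G U β) x = 0 := by
  by_cases hU : x ∈ U
  · rw [sx_of_mem hU, at1_pb1]
    have h1 := h.mapsG x hU
    have h2 : β (G x) = 0 := by
      refine hβ _ h1 ?_
      by_contra hc
      exact hx ⟨G x, ⟨h1.1, h1.2.1, (not_le.1 hc).le⟩, h.left x hU⟩
    show (β (G x)).comp _ = 0
    rw [h2, ContinuousLinearMap.zero_comp]
  · show sx G U β x = _
    unfold sx
    rw [if_neg hU]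

lemma rep1_congr_ev {a b : F1 E4 M} {p x : M} (hp : x ∈ (chartAt E4 p).source)
    (h : ∀ᶠ y in 𝓝 x, at1 a y = at1 b y) :
    rep1 p a =ᶠ[𝓝 (chartAt E4 p x)] rep1 p b := by
  have hs : Tendsto (chartAt E4 p).symm (𝓝 (chartAt E4 p x)) (𝓝 x) := by
    have := (chartAt E4 p).continuousAt_symm ((chartAt E4 p).map_source hp)
    rw [ContinuousAt, (chartAt E4 p).left_inv hp] at this
    exact this
  filter_upwards [hs.eventually h] with y hy
  ext u
  rw [rep1_apply, rep1_apply, hy]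

lemma rep1_sx_zero (h : Tube σ r Ps G U) {β : E6 → E6 →L[ℝ] ℝ} {r' : ℝ} (hr : r' < r)
    (hβ : ∀ z ∈ TS r, r' ≤ ‖z.2‖ → β z = 0) {x : M} (hx : x ∉ KK r' Ps) :
    rep1 x (sx G U β) =ᶠ[𝓝 (chartAt E4 x x)] fun _ => 0 := by
  have h1 : ∀ᶠ y in 𝓝 x, at1 (sx G U β) y = at1 (0 : F1 E4 M) y := by
    filter_upwards [(isClosed_KK h hr).isOpen_compl.mem_nhds hx] with y hy
    exact sx_zero h hβ hy
  exact rep1_congr_ev (mem_chart_source E4 x) h1

lemma smooth_sx (h : Tube σ r Ps G U) {β : E6 → E6 →L[ℝ] ℝ} {r' : ℝ} (hr : r' < r)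
    (hs : ContDiffOn ℝ ∞ β (OS r)) (hβ : ∀ z ∈ TS r, r' ≤ ‖z.2‖ → β z = 0) :
    Smooth1 (sx G U β) := by
  refine Smooth1.of_local fun x => ⟨x, mem_chart_source E4 x, ?_⟩
  by_cases hx : x ∈ U
  · have hG := smoothGAt h hx
    have hxs := mem_chart_source E4 x
    have hGs := mem_chart_source E6 (G x)
    have h1 := rep1_congr_ev (a := sx G U β)
      (b := pb1 (E := E4) (F := E6) (X := M) (M := E6) G β) hxs
      (by filter_upwards [h.openU.mem_nhds hx] with y hy using sx_of_mem hy)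
    refine ContDiffAt.congr_of_eventuallyEq ?_ (h1.trans (rep1_pb1_ev hG hxs hGs β))
    have hφ := mrep_smooth hG hxs hGs
    have hφe : mrep E4 E6 x (G x) G (chartAt E4 x x) = G x := mrep_apply hxs
    have hb : ContDiffAt ℝ ∞ (rep1 (G x) (β : F1 E6 E6)) (mrep E4 E6 x (G x) G (chartAt E4 x x)) := by
      rw [hφe]
      have : rep1 (G x) (β : F1 E6 E6) = β := by
        funext y
        exact rep1_model (G x) (β : F1 E6 E6) y
      rw [this]
      exact hs.contDiffAt ((isOpen_OS r).mem_nhds (TS_subset_OS r (h.mapsG x hx)))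
    exact (hb.comp (chartAt E4 x x) hφ).clm_comp (hφ.fderiv_right (m := ∞) (by simp))
  · have hK : x ∉ KK r' Ps := fun hc => hx (KK_subset h hr hc)
    exact contDiffAt_const.congr_of_eventuallyEq (rep1_sx_zero h hr hβ hK)

/-- `G ∘ Ps = Pi` near the points of `OS r`. -/
lemma comp_ev (h : Tube σ r Ps G U) {z : E6} (hz : z ∈ OS r) : G ∘ Ps =ᶠ[𝓝 z] Pi := by
  filter_upwards [(isOpen_OS r).mem_nhds hz] with w hw using h.right w hw

lemma D1_Pi (z : E6) : D1 E6 E6 Pi z = fderiv ℝ Pi z := rfl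

/-- the pull-back of the extension. -/
lemma pb1_sx (h : Tube σ r Ps G U) {β : E6 → E6 →L[ℝ] ℝ} (hb : Bas1 r β) {z : E6}
    (hz : z ∈ OS r) :
    at1 (pb1 (E := E6) (F := E4) (X := E6) (M := M) Ps (sx G U β)) z = β z := by
  have hU : Ps z ∈ U := h.maps z hz
  have hP : ContMDiffAt 𝓘(ℝ, E6) 𝓘(ℝ, E4) 1 Ps z := (smoothAt h hz).of_le one_le_infty
  have hG : ContMDiffAt 𝓘(ℝ, E4) 𝓘(ℝ, E6) 1 G (Ps z) := (smoothGAt h hU).of_le one_le_infty
  have h1 : at1 (pb1 (E := E6) (F := E4) (X := E6) (M := M) Ps (sx G U β)) z =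
      at1 (pb1 (E := E6) (F := E4) (X := E6) (M := M) Ps
        (pb1 (E := E4) (F := E6) (X := M) (M := E6) G β)) z := by
    rw [at1_pb1, at1_pb1, sx_of_mem hU]
  have h2 := pb1_comp (E := E6) (F := E4) (G := E6) (X := E6) (M := M) (N := E6) hP hG
    (β : F1 E6 E6)
  rw [h1, ← h2, at1_pb1, D1_congr (comp_ev h hz), D1_Pi]
  refine ContinuousLinearMap.ext fun u => ?_
  show β (G (Ps z)) (fderiv ℝ Pi z u) = β z u
  rw [h.right z hz, ← hb.bas z hz u]

variable (M) in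
/-- LEAF EXT. -/
theorem ext : K12_417.EXT M := by
  intro σ r Ps G U hT β r' hr hb hβ
  have hs : Smooth1 (sx G U β) := smooth_sx hT hr hb.smooth hβ
  refine ⟨⟨⟨dG (sx G U β), Smooth2.dG hs⟩, Closed2.dG hs⟩, ⟨sx G U β, hs, rfl⟩, ?_, ?_⟩
  · intro x hx
    have hK : x ∉ KK r' Ps := by
      rintro ⟨z, hz, rfl⟩
      exact hx z (mem_TS_of hr hz) hz.2.2 rfl
    show d1 (rep1 x (sx G U β)) (chartAt E4 x x) = 0
    exact d1_zero_of_ev (rep1_sx_zero hT hr hβ hK)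
  · intro z hz
    have hP := smoothAt hT hz
    have hzs := mem_chart_source E6 z
    have hxs := mem_chart_source E4 (Ps z)
    have hφ := mrep_smooth hP hzs hxs
    have hφe : mrep E6 E4 z (Ps z) Ps z = chartAt E4 (Ps z) (Ps z) := mrep_apply hzs
    have hev := rep1_pb1_ev hP hzs hxs (sx G U β)
    have hev2 : ∀ᶠ y in 𝓝 z, β y = (rep1 (Ps z) (sx G U β) (mrep E6 E4 z (Ps z) Ps y)).comp
        (fderiv ℝ (mrep E6 E4 z (Ps z) Ps) y) := by
      filter_upwards [hev, (isOpen_OS r).mem_nhds hz] with y h1 h2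
      rw [← h1, rep1_model, pb1_sx hT hb h2]
    have hsd : DifferentiableAt ℝ (rep1 (Ps z) (sx G U β)) (mrep E6 E4 z (Ps z) Ps z) := by
      rw [hφe]
      exact (hs.at (mem_chart_target E4 (Ps z))).differentiableAt infty_ne_zero
    have key : ∀ u v : E6, d1 β z u v = d1 (rep1 (Ps z) (sx G U β)) (chartAt E4 (Ps z) (Ps z))
        (D1 E6 E4 Ps z u) (D1 E6 E4 Ps z v) := by
      intro u v
      have h1 := d1_pullback' (y := z) hφ hsd hev2 u v
      rw [hφe] at h1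
      exact h1
    refine ContinuousLinearMap.ext fun u => ContinuousLinearMap.ext fun v => ?_
    exact (key u v).symm

end Man

end

end Crest.Agent.R235.K12Ext_168
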