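import Crest.Agent.R235.KumThB_785
import Crest.Agent.R235.K12Geo_128

/-!
Row 235 (S0364), block K12, leaf FGL (helper417): the form `FG g = - d (g(|p|) ψ)`.
-/

set_option autoImplicit false
set_option maxSynthPendingDepth 3

open Set Function Filter MeasureTheory
open scoped Manifold ContDiff Topology RealInnerProductSpace

namespace Crest.Agent.R235.K12Fgl_417

open Crest.Agent.R240 Crest.Agent.R240.Ch Crest.Agent.R235 Crest.Agent.R235.K12_417
  Crest.Agent.R235.K12An_776 Crest.Agent.R235.KumThB_785 Crest.Agent.R235.K12Ext_168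
  Crest.Agent.R235.K12Geo_128 Crest.Agent.R235.PB_604

noncomputable section

/-! ### the area form -/

theorem ar_apply (z U V : E6) : ar z U V = ⟪z.1, cr U.1 V.1⟫ := by
  have hw : ∀ i j, wd (dq i) (dq j) U V = U.1 i * V.1 j - U.1 j * V.1 i := by
    intro i j
    rfl
  rw [ar]
  simp only [add_apply, smul_apply, hw, smul_eq_mul]
  rw [in3]
  simp only [cr_0, cr_1, cr_2]

theorem PB2_ar {z : E6} (hz : z.1 ≠ 0) : PB2 ar z = Ar z := by
  refine ContinuousLinearMap.ext fun U => ContinuousLinearMap.ext fun V => ?_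
  rw [PB2, pl_apply, ar_apply, Ar_apply, fderiv_nn hz, fderiv_nn hz]
  rfl

/-! ### profiles -/

section Prof

variable {g : ℝ → ℝ} {c K t₀ : ℝ}

theorem kf_of_le {t : ℝ} (h : t ≤ t₀) : kf g c K t₀ t = K / 2 := by
  unfold kf; rw [if_pos h]

/-- `kf t * t² = g t - c` for `t ≠ 0`. -/
theorem kf_eq (hp : Prof g c K t₀) {t : ℝ} (ht : t ≠ 0) : kf g c K t₀ t = (g t - c) / t ^ 2 := by
  unfold kf
  split_ifs with h
  · rw [hp.eq t h]; field_simp; ring
  · rfl

theorem cda_kf (hp : Prof g c K t₀) (t : ℝ) : ContDiffAt ℝ ∞ (kf g c K t₀) t := by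
  by_cases ht : t < t₀
  · have h1 : kf g c K t₀ =ᶠ[𝓝 t] fun _ => K / 2 := by
      filter_upwards [eventually_lt_nhds ht] with s hs using kf_of_le hs.le
    exact contDiffAt_const.congr_of_eventuallyEq h1
  · have ht0 : t ≠ 0 := by
      have := hp.pos; intro h; apply ht; rw [h]; exact this
    have h1 : kf g c K t₀ =ᶠ[𝓝 t] fun s => (g s - c) / s ^ 2 := by
      filter_upwards [eventually_ne_nhds ht0] with s hs using kf_eq hp hs
    refine ContDiffAt.congr_of_eventuallyEq ?_ h1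
    exact (hp.smooth.contDiffAt.sub contDiffAt_const).div (contDiffAt_id.pow 2)
      (pow_ne_zero 2 ht0)

end Prof

/-! ### the primitive -/

/-- the primitive on `E6`. -/
def bt (g : ℝ → ℝ) (c K t₀ : ℝ) (y : E6) : E6 →L[ℝ] ℝ := (- kf g c K t₀ ‖y.2‖) • l3 y

theorem contDiff_l3 : ContDiff ℝ ∞ l3 := by
  unfold l3
  have h1 : ContDiff ℝ ∞ (fun z : E6 => cr z.1 z.2) := by
    have h2 : (fun z : E6 => cr z.1 z.2) = fun z => crB z.1 z.2 := rfl
    rw [h2]
    exact (crB.contDiff.comp contDiff_fst).clm_apply contDiff_snd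
  have h3 : ContDiff ℝ ∞ (fun z : E6 => innerSL ℝ (cr z.1 z.2)) := (innerSL ℝ).contDiff.comp h1
  exact h3.clm_comp contDiff_const

theorem l3_apply (z V : E6) : l3 z V = ⟪cr z.1 z.2, V.2⟫ := rfl

section Beta

variable {g : ℝ → ℝ} {c K t₀ : ℝ}

theorem bt_small {z : E6} (hz : z.2 = 0) (h0 : 0 < t₀) :
    bt g c K t₀ =ᶠ[𝓝 z] fun y => (- (K / 2)) • l3 y := by
  have h1 : ∀ᶠ y : E6 in 𝓝 z, ‖y.2‖ < t₀ := by
    have : ContinuousAt (fun y : E6 => ‖y.2‖) z := by fun_prop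
    refine this.eventually (gt_mem_nhds ?_)
    show ‖z.2‖ < t₀
    rw [hz, norm_zero]; exact h0
  filter_upwards [h1] with y hy
  rw [bt, kf_of_le hy.le]

theorem cda_bt (hp : Prof g c K t₀) (z : E6) : ContDiffAt ℝ ∞ (bt g c K t₀) z := by
  by_cases hz : z.2 = 0
  · exact (contDiff_l3.contDiffAt.const_smul (- (K / 2))).congr_of_eventuallyEq
      (bt_small hz hp.pos)
  · have h1 : ContDiffAt ℝ ∞ (fun y : E6 => ‖y.2‖) z := contDiffAt_snd.norm ℝ hz
    have h2 : ContDiffAt ℝ ∞ (fun y : E6 => kf g c K t₀ ‖y.2‖) z :=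
      ContDiffAt.comp (g := kf g c K t₀) (f := fun y : E6 => ‖y.2‖) z (cda_kf hp _) h1
    exact h2.neg.smul contDiff_l3.contDiffAt

theorem PB1_bt (y : E6) : PB1 (bt g c K t₀) y = (- kf g c K t₀ (rho y)) • PB1 l3 y := by
  rw [PB1, bt, PB1, rho, ContinuousLinearMap.smul_comp]

theorem FG_eq (z : E6) : FG g c K t₀ z = d1 (PB1 (bt g c K t₀)) z + c • PB2 ar z := by
  have h : (fun y => (- kf g c K t₀ (rho y)) • PB1 l3 y) = PB1 (bt g c K t₀) :=
    funext fun y => (PB1_bt y).symm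
  rw [FG, h]

theorem dbt (r : ℝ) (hp : Prof g c K t₀) {z : E6} (hz : z ∈ OS r) :
    d1 (PB1 (bt g c K t₀)) z = PB2 (d1 (bt g c K t₀)) z :=
  d1PB r _ z hz ((cda_bt hp _).differentiableAt (by simp))

/-- a two-form on `OS r` which is basic. -/
theorem bas_Ar (r : ℝ) : Bas r (fun z => PB2 ar z) := by
  refine ⟨?_, fun z hz U => ?_, fun z hz U V Y => ?_, fun z hz U V => ?_⟩
  · refine ContDiffOn.congr (f := Ar) (fun z hz => (contDiffAt_Ar hz.1).contDiffWithinAt) ?_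
    exact fun z hz => PB2_ar hz.1
  · rw [PB2_ar hz.1, Ar_alt]
  · have h1 : (fun z => PB2 ar z) =ᶠ[𝓝 z] Ar := by
      filter_upwards [fst_ne_ev hz.1] with y hy using PB2_ar hy
    have h2 := dd_Ar hz.1 U V Y
    unfold dd at h2 ⊢
    rw [h1.fderiv_eq]
    exact h2
  · show PB2 ar z U V = PB2 ar (Pi z) (fderiv ℝ Pi z U) (fderiv ℝ Pi z V)
    rw [PB2, PB2, pl_apply, pl_apply, Pi_Pi hz.1, fderiv_fderiv hz.1, fderiv_fderiv hz.1]

theorem bas (r : ℝ) (g : ℝ → ℝ) (c K t₀ : ℝ) (hp : Prof g c K t₀) : Bas r (FG g c K t₀) := by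
  have h1 : Bas r (d1 (PB1 (bt g c K t₀))) := basd r _ (bas1 r _ fun z _ => cda_bt hp _)
  have h2 := bas_Ar r
  have hF : FG g c K t₀ = fun z => d1 (PB1 (bt g c K t₀)) z + c • PB2 ar z := funext FG_eq
  rw [hF]
  have hs : ∀ z ∈ OS r, DifferentiableAt ℝ (d1 (PB1 (bt g c K t₀))) z := fun z hz =>
    (h1.smooth.contDiffAt ((isOpen_OS r).mem_nhds hz)).differentiableAt (by simp)
  have hs' : ∀ z ∈ OS r, DifferentiableAt ℝ (fun z => PB2 ar z) z := fun z hz =>
    (h2.smooth.contDiffAt ((isOpen_OS r).mem_nhds hz)).differentiableAt (by simp)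
  refine ⟨h1.smooth.add (h2.smooth.const_smul c), ?_, ?_, ?_⟩
  · intro z hz U
    have e1 := h1.alt z hz U
    have e2 : PB2 ar z U U = 0 := h2.alt z hz U
    simp only [add_apply, smul_apply, e1, e2, smul_zero,
      add_zero]
  · intro z hz U V Y
    have e1 := h1.closed z hz U V Y
    have e2 := h2.closed z hz U V Y
    unfold dd at e1 e2 ⊢
    have h3 : fderiv ℝ (fun z => d1 (PB1 (bt g c K t₀)) z + c • PB2 ar z) z =
        fderiv ℝ (d1 (PB1 (bt g c K t₀))) z + c • fderiv ℝ (fun z => PB2 ar z) z := by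
      have e3 : DifferentiableAt ℝ (fun z => c • PB2 ar z) z := (hs' z hz).const_smul c
      rw [fderiv_fun_add (hs z hz) e3, fderiv_fun_const_smul (hs' z hz)]
    rw [h3]
    simp only [add_apply, smul_apply, smul_eq_mul]
    linear_combination e1 + c * e2
  · intro z hz U V
    have e1 := h1.bas z hz U V
    have e2 : PB2 ar z U V = PB2 ar (Pi z) (fderiv ℝ Pi z U) (fderiv ℝ Pi z V) :=
      h2.bas z hz U V
    simp only [add_apply, smul_apply]
    rw [e1, e2]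

/-! ### the entries -/

theorem cr_fr {q e : E3} (h : IsFr q e) : ⟪q, cr e (cr q e)⟫ = 1 := by
  obtain ⟨h1, h2, h3⟩ := h
  have a1 : q 0 ^ 2 + q 1 ^ 2 + q 2 ^ 2 = 1 := by rw [← norm_sq3, h1]; norm_num
  have a2 : e 0 ^ 2 + e 1 ^ 2 + e 2 ^ 2 = 1 := by rw [← norm_sq3, h2]; norm_num
  have a3 : q 0 * e 0 + q 1 * e 1 + q 2 * e 2 = 0 := by rw [← in3]; exact h3
  rw [in3]
  simp only [cr_0, cr_1, cr_2]
  linear_combination (e 0 ^ 2 + e 1 ^ 2 + e 2 ^ 2) * a1 + a2 -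
    (q 0 * e 0 + q 1 * e 1 + q 2 * e 2) * a3

theorem en_ar {z : E6} {e : E3} (h : IsFr z.1 e) (i j : Fin 4) : en (ar z) z e i j =
    if i = 0 ∧ j = 1 then 1 else if i = 1 ∧ j = 0 then -1 else 0 := by
  have h1 := cr_fr h
  have h2 : ⟪z.1, cr (cr z.1 e) e⟫ = -1 := by rw [inner_cr_swap, h1]
  have h3 : ∀ x : E3, cr x x = 0 := cr_self
  have h4 : ∀ x : E3, cr x 0 = 0 := by intro x; ext i; fin_cases i <;> simp
  have h5 : ∀ x : E3, cr 0 x = 0 := by intro x; ext i; fin_cases i <;> simp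
  rw [en, ar_apply]
  fin_cases i <;> fin_cases j <;> simp [X, hor, ver, h1, h2, h3, h4, h5]

/-- the differential of `l3` at the zero section. -/
theorem d1_l3 {z : E6} (hz : z.2 = 0) (U V : E6) :
    d1 l3 z U V = 2 * ⟪cr z.1 U.2, V.2⟫ := by
  have hl : HasFDerivAt (fun y : E6 => cr y.1 y.2) ((crB z.1).comp (ContinuousLinearMap.snd ℝ E3 E3)
      + (crB.flip z.2).comp (ContinuousLinearMap.fst ℝ E3 E3)) z := by
    have h1 : HasFDerivAt (fun y : E6 => crB y.1 y.2) _ z :=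
      (crB.hasFDerivAt.comp z hasFDerivAt_fst).clm_apply hasFDerivAt_snd
    refine h1.congr_fderiv ?_
    ext V <;> simp
  have hd : ∀ U V : E6, fderiv ℝ l3 z U V = ⟪cr z.1 U.2, V.2⟫ + ⟪cr U.1 z.2, V.2⟫ := by
    intro U V
    have h2 : HasFDerivAt (fun y : E6 => l3 y V) (fderiv ℝ l3 z |>.flip V) z := by
      have h3 := (contDiff_l3.differentiable (by simp) z).hasFDerivAt
      have h4 := h3.clm_apply (hasFDerivAt_const V z)
      refine h4.congr_fderiv ?_
      ext U <;> simp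
    have h5 : HasFDerivAt (fun y : E6 => l3 y V) _ z := hl.inner ℝ (hasFDerivAt_const V.2 z)
    have h6 := congrArg (fun L : E6 →L[ℝ] ℝ => L U) (h2.unique h5)
    simp at h6
    rw [h6, inner_add_left]
  rw [d1_apply, hd, hd, hz]
  have h4 : ∀ x : E3, cr x 0 = 0 := by intro x; ext i; fin_cases i <;> simp
  rw [h4, h4, inner_zero_left, inner_zero_left, add_zero, add_zero]
  rw [in3, in3]
  simp only [cr_0, cr_1, cr_2]
  ring

/-- the entries of `d bt`. -/
theorem en_dbt (hR : RADF) (hp : Prof g c K t₀) {r : ℝ} {z : E6} {e : E3} (hz : z ∈ TS r)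
    (he : IsFr z.1 e) (i j : Fin 4) : en (d1 (bt g c K t₀) z) z e i j =
      if i = 0 ∧ j = 1 then g ‖z.2‖ - c else if i = 1 ∧ j = 0 then - (g ‖z.2‖ - c)
      else if i = 2 ∧ j = 3 then - gd g K ‖z.2‖
      else if i = 3 ∧ j = 2 then gd g K ‖z.2‖ else 0 := by
  by_cases h0 : z.2 = 0
  · have h1 : d1 (bt g c K t₀) z = d1 (fun y => (- (K / 2)) • l3 y) z :=
      d1_congr (bt_small h0 hp.pos)
    have h2 : ∀ U V, d1 (fun y => (- (K / 2)) • l3 y) z U V = - K * ⟪cr z.1 U.2, V.2⟫ := by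
      intro U V
      have h3 : fderiv ℝ (fun y => (- (K / 2)) • l3 y) z = (- (K / 2)) • fderiv ℝ l3 z :=
        fderiv_fun_const_smul (contDiff_l3.differentiable (by simp) z) _
      have h4 := d1_l3 h0 U V
      rw [d1_apply] at h4 ⊢
      rw [h3]
      simp only [smul_apply, smul_eq_mul]
      linear_combination (- (K / 2)) * h4
    have h5 : ⟪cr z.1 e, cr z.1 e⟫ = 1 := by
      obtain ⟨a1, a2, a3⟩ := he
      have b1 : z.1 0 ^ 2 + z.1 1 ^ 2 + z.1 2 ^ 2 = 1 := by rw [← norm_sq3, a1]; norm_num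
      have b2 : e 0 ^ 2 + e 1 ^ 2 + e 2 ^ 2 = 1 := by rw [← norm_sq3, a2]; norm_num
      have b3 : z.1 0 * e 0 + z.1 1 * e 1 + z.1 2 * e 2 = 0 := by rw [← in3]; exact a3
      rw [in3]
      simp only [cr_0, cr_1, cr_2]
      linear_combination (e 0 ^ 2 + e 1 ^ 2 + e 2 ^ 2) * b1 + b2 -
        (z.1 0 * e 0 + z.1 1 * e 1 + z.1 2 * e 2) * b3
    have h6 : ⟪cr z.1 e, e⟫ = 0 := by
      rw [in3]; simp only [cr_0, cr_1, cr_2]; ring
    have h7 : ⟪cr z.1 (cr z.1 e), e⟫ = -1 := by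
      rw [← h5, in3, in3]; simp only [cr_0, cr_1, cr_2]; ring
    have h8 : ⟪cr z.1 (cr z.1 e), cr z.1 e⟫ = 0 := by
      rw [in3]; simp only [cr_0, cr_1, cr_2]; ring
    have h9 : ∀ x : E3, cr x 0 = 0 := by intro x; ext i; fin_cases i <;> simp
    have hg : g ‖z.2‖ = c := by
      rw [h0, norm_zero, hp.eq 0 hp.pos.le]; ring
    have hgd : gd g K ‖z.2‖ = K := by rw [h0, norm_zero, gd, if_pos rfl]
    have h10 : ‖cr z.1 e‖ ^ 2 = 1 := by rw [← real_inner_self_eq_norm_sq, h5]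
    rw [h1, en, h2, hg, hgd]
    fin_cases i <;> fin_cases j <;> simp [X, hor, ver, h0, h6, h7, h8, h9, h10]
  · have h1 : bt g c K t₀ =ᶠ[𝓝 z] fun y => (fun t => - (g t - c)) ‖y.2‖ • ps y := by
      have h2 : ∀ᶠ y : E6 in 𝓝 z, y.2 ≠ 0 := continuousAt_snd.eventually_ne h0
      filter_upwards [h2] with y hy
      have hy' : ‖y.2‖ ≠ 0 := norm_ne_zero_iff.2 hy
      rw [bt, kf_eq hp hy', ps, l3, smul_smul]
      congr 1
      field_simp
    have h2 : ContDiffAt ℝ 1 (fun t => - (g t - c)) ‖z.2‖ :=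
      ((hp.smooth.sub contDiff_const).neg.contDiffAt).of_le (by simp)
    have h3 : deriv (fun t => - (g t - c)) ‖z.2‖ = - deriv g ‖z.2‖ := by
      have h4 : (fun t => - (g t - c)) = fun t => - (fun t => g t - c) t := rfl
      rw [h4, deriv.fun_neg, deriv_sub_const]
    rw [d1_congr h1, hR.psf z r e _ hz h0 he h2 i j, h3, gd, if_neg (norm_ne_zero_iff.2 h0)]
    fin_cases i <;> fin_cases j <;> simp <;> ring

theorem entries (hR : RADF) (r : ℝ) (g : ℝ → ℝ) (c K t₀ : ℝ) (hp : Prof g c K t₀) (z : E6) (e : E3)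
    (hz : z ∈ TS r) (he : IsFr z.1 e) (i j : Fin 4) : en (FG g c K t₀ z) z e i j =
      if i = 0 ∧ j = 1 then g ‖z.2‖ else if i = 1 ∧ j = 0 then - g ‖z.2‖
      else if i = 2 ∧ j = 3 then - gd g K ‖z.2‖
      else if i = 3 ∧ j = 2 then gd g K ‖z.2‖ else 0 := by
  have h1 : en (FG g c K t₀ z) z e i j = en (PB2 (d1 (bt g c K t₀)) z) z e i j +
      c * en (PB2 ar z) z e i j := by
    rw [FG_eq, dbt r hp (TS_subset_OS r hz)]
    simp only [en, add_apply, smul_apply, smul_eq_mul]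
  rw [h1, en_PB2 r _ z e hz he, en_PB2 r _ z e hz he, en_dbt hR hp hz he, en_ar he]
  fin_cases i <;> fin_cases j <;> simp <;> ring

end Beta

/-! ### the other fields -/

theorem add (r : ℝ) (g g' : ℝ → ℝ) (c K t₀ c' K' t₀' : ℝ) (hp : Prof g c K t₀)
    (hp' : Prof g' c' K' t₀') (t : ℝ) (t₁ : ℝ) (h1 : 0 < t₁) (h2 : t₁ ≤ t₀) (h3 : t₁ ≤ t₀')
    (z : E6) (hz : z ∈ OS r) :
      FG (fun x => g x + t * g' x) (c + t * c') (K + t * K') t₁ z =
        FG g c K t₀ z + t • FG g' c' K' t₀' z := by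
  have hp1 : Prof (fun x => g x + t * g' x) (c + t * c') (K + t * K') t₁ :=
    ⟨hp.smooth.add (contDiff_const.mul hp'.smooth), h1, fun s hs => by
      rw [hp.eq s (hs.trans h2), hp'.eq s (hs.trans h3)]; ring⟩
  have hk : ∀ s, kf (fun x => g x + t * g' x) (c + t * c') (K + t * K') t₁ s =
      kf g c K t₀ s + t * kf g' c' K' t₀' s := by
    intro s
    by_cases hs : s = 0
    · rw [hs, kf_of_le h1.le, kf_of_le hp.pos.le, kf_of_le hp'.pos.le]; ring
    · rw [kf_eq hp1 hs, kf_eq hp hs, kf_eq hp' hs]; field_simp; ring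
  have hb : bt (fun x => g x + t * g' x) (c + t * c') (K + t * K') t₁ =
      fun y => bt g c K t₀ y + t • bt g' c' K' t₀' y := by
    funext y
    rw [bt, bt, bt, hk]
    module
  have hd : ∀ y, DifferentiableAt ℝ (bt g c K t₀) y := fun y => (cda_bt hp y).differentiableAt (by simp)
  have hd' : ∀ y, DifferentiableAt ℝ (bt g' c' K' t₀') y :=
    fun y => (cda_bt hp' y).differentiableAt (by simp)
  have h5 : d1 (bt (fun x => g x + t * g' x) (c + t * c') (K + t * K') t₁) (Pi z) =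
      d1 (bt g c K t₀) (Pi z) + t • d1 (bt g' c' K' t₀') (Pi z) := by
    have h6 : fderiv ℝ (fun y => bt g c K t₀ y + t • bt g' c' K' t₀' y) (Pi z) =
        fderiv ℝ (bt g c K t₀) (Pi z) + t • fderiv ℝ (bt g' c' K' t₀') (Pi z) := by
      have e3 : DifferentiableAt ℝ (fun y => t • bt g' c' K' t₀' y) (Pi z) :=
        (hd' _).const_smul t
      rw [fderiv_fun_add (hd _) e3, fderiv_fun_const_smul (hd' _)]
    rw [hb]
    refine ContinuousLinearMap.ext fun U => ContinuousLinearMap.ext fun V => ?_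
    rw [d1_apply, h6]
    simp only [add_apply, smul_apply, smul_eq_mul, d1_apply]
    ring
  rw [FG_eq, FG_eq, FG_eq, dbt r hp1 hz, dbt r hp hz, dbt r hp' hz]
  refine ContinuousLinearMap.ext fun U => ContinuousLinearMap.ext fun V => ?_
  simp only [PB2, h5, add_apply, smul_apply, pl_apply, smul_eq_mul]
  ring

theorem rho_cont {z : E6} (hz : z.1 ≠ 0) : ContinuousAt rho z :=
  (contDiffAt_Pi hz).continuousAt.snd.norm

theorem congr (r : ℝ) (g g' : ℝ → ℝ) (c K t₀ t₀' : ℝ) (hp : Prof g c K t₀)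
    (hp' : Prof g' c K t₀') (ρ : ℝ) (h : ∀ t < ρ, g t = g' t) (z : E6) (hz : z ∈ OS r)
    (hρ : rho z < ρ) : FG g c K t₀ z = FG g' c K t₀' z := by
  have hk : ∀ s < ρ, kf g c K t₀ s = kf g' c K t₀' s := by
    intro s hs
    by_cases h0 : s = 0
    · rw [h0, kf_of_le hp.pos.le, kf_of_le hp'.pos.le]
    · rw [kf_eq hp h0, kf_eq hp' h0, h s hs]
  have h1 : PB1 (bt g c K t₀) =ᶠ[𝓝 z] PB1 (bt g' c K t₀') := by
    filter_upwards [(rho_cont hz.1).eventually (gt_mem_nhds hρ)] with y hy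
    rw [PB1_bt, PB1_bt, hk _ hy]
  rw [FG_eq, FG_eq, d1_congr h1]

theorem supp (hR : RADF) (r : ℝ) (g : ℝ → ℝ) (c K t₀ : ℝ) (hp : Prof g c K t₀) (ρ : ℝ)
    (h : ∀ t, ρ ≤ t → g t = 0) (z : E6) (hz : z ∈ OS r) (hρ : ρ ≤ rho z) :
    FG g c K t₀ z = 0 := by
  have hPz := Pi_mem_TS hz
  obtain ⟨e, he⟩ := exists_fr hPz.1
  have hg0 : g ‖(Pi z).2‖ = 0 := h _ hρ
  have hgd : gd g K ‖(Pi z).2‖ = 0 := by
    by_cases h0 : ‖(Pi z).2‖ = 0
    · rw [gd, if_pos h0]
      have h1 : ρ ≤ 0 := by rw [← h0]; exact hρ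
      have h2 := hp.eq 0 hp.pos.le
      have h3 := hp.eq t₀ le_rfl
      rw [h 0 h1] at h2
      rw [h t₀ (h1.trans hp.pos.le)] at h3
      have h4 := hp.pos
      have h5 : c = 0 := by linarith
      have h6 : K * t₀ ^ 2 = 0 := by rw [h5] at h3; linarith
      exact (mul_eq_zero.1 h6).resolve_right (pow_ne_zero 2 h4.ne')
    · rw [gd, if_neg h0]
      have h1 : deriv g ‖(Pi z).2‖ = 0 := by
        have h2 : HasDerivAt g (deriv g ‖(Pi z).2‖) ‖(Pi z).2‖ :=
          (hp.smooth.differentiable (by simp) _).hasDerivAt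
        have h3 : HasDerivWithinAt g (deriv g ‖(Pi z).2‖) (Ici ‖(Pi z).2‖) ‖(Pi z).2‖ :=
          h2.hasDerivWithinAt
        have h4 : HasDerivWithinAt g 0 (Ici ‖(Pi z).2‖) ‖(Pi z).2‖ := by
          refine (hasDerivWithinAt_const _ _ (0 : ℝ)).congr (fun s hs => ?_) hg0
          exact h s (le_trans hρ hs)
        exact (uniqueDiffOn_Ici _ _ self_mem_Ici).eq_deriv _ h3 h4
      rw [h1, zero_div]
  have hen : ∀ i j, FG g c K t₀ (Pi z) (X (Pi z) e i) (X (Pi z) e j) = 0 := by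
    intro i j
    have h1 := entries hR r g c K t₀ hp (Pi z) e hPz he i j
    rw [hg0, hgd] at h1
    rw [en] at h1
    rw [h1]
    simp
  refine ContinuousLinearMap.ext fun U => ContinuousLinearMap.ext fun V => ?_
  rw [(bas r g c K t₀ hp).bas z hz U V]
  rw [tan_expand he (tan_fderiv_Pi hz.1 U), tan_expand he (tan_fderiv_Pi hz.1 V)]
  simp only [map_add, map_smul, add_apply, smul_apply, smul_eq_mul, hen, mul_zero, add_zero]
  rfl

/-- **FGL.** -/
theorem fgl (hR : RADF) : K12An_776.FGL where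
  bas := bas
  e := entries hR
  add := add
  congr := congr
  supp := supp hR

end

end Crest.Agent.R235.K12Fgl_417
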