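import Crest.Agent.R235.Defs_837
import Crest.Agent.R281.Mc5_673

/-!
# Row 235, TOR / FIB-B1 (helper153): pull-back of forms by a smooth map from a normed space

* `Dm σ y`        : the differential of `σ : V → M` at `y` (`dmap` as a continuous linear map)
* `pbF σ a y`     : the pull-back of the two-form `a`
* `pbF_contDiffAt`, `pbF_closed`, `pbF_alt` : smooth, closed, antisymmetric
* `clF_pbF`       : the pull-back by a smooth periodic map of the tube is a `ClF`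
-/

set_option autoImplicit false
set_option maxSynthPendingDepth 3

open Set Function Filter
open scoped Manifold ContDiff Topology

universe u

namespace Crest.Agent.R235.Pull_153

open Crest.Agent.R240 Crest.Agent.R240.Ch

noncomputable section

section General

variable {V : Type} [NormedAddCommGroup V] [NormedSpace ℝ V]
variable {M : Type u} [TopologicalSpace M] [ChartedSpace E4 M]

/-- the differential of `σ` at `y`, read in the preferred chart at `σ y`. -/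
def Dm (σ : V → M) (y : V) : V →L[ℝ] E4 := fderiv ℝ (fun z : V => chartAt E4 (σ y) (σ z)) y

theorem dmap_eq (σ : V → M) (y v : V) : dmap σ y v = Dm σ y v := rfl

/-- the pull-back of a two-form. -/
def pbF (σ : V → M) (a : F2 E4 M) (y : V) : V →L[ℝ] V →L[ℝ] ℝ :=
  (at2 a (σ y)).bilinearComp (Dm σ y) (Dm σ y)

theorem pbF_apply (σ : V → M) (a : F2 E4 M) (y u v : V) :
    pbF σ a y u v = at2 a (σ y) (Dm σ y u) (Dm σ y v) := rfl

variable [IsManifold 𝓘(ℝ, E4) ∞ M]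

/-- a chart composed with a smooth map -/
theorem chart_comp {σ : V → M} {y : V} {n : WithTop ℕ∞} (hn : n ≤ ∞)
    (hσ : ContMDiffAt 𝓘(ℝ, V) 𝓘(ℝ, E4) n σ y) {p : M}
    (hp : σ y ∈ (chartAt E4 p).source) : ContDiffAt ℝ n (fun z => chartAt E4 p (σ z)) y := by
  have hc : ContMDiffAt 𝓘(ℝ, E4) 𝓘(ℝ, E4) n (chartAt E4 p) (σ y) :=
    ((contMDiffOn_chart (I := 𝓘(ℝ, E4)) (n := ∞) (x := p)).contMDiffAt
      ((chartAt E4 p).open_source.mem_nhds hp)).of_le hn
  exact (hc.comp y hσ).contDiffAt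

/-- the differential in another chart -/
theorem fderiv_chart {σ : V → M} {y : V} (hσ : ContMDiffAt 𝓘(ℝ, V) 𝓘(ℝ, E4) 1 σ y) {p : M}
    (hp : σ y ∈ (chartAt E4 p).source) :
    fderiv ℝ (fun z => chartAt E4 p (σ z)) y = (tcc (σ y) p (σ y)).comp (Dm σ y) := by
  have h1 : DifferentiableAt ℝ (fun z => chartAt E4 (σ y) (σ z)) y :=
    (chart_comp (by simp) hσ (mem_chart_source E4 (σ y))).differentiableAt (by simp)
  have hy : chartAt E4 (σ y) (σ y) ∈ (chartAt E4 (σ y)).target :=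
    (chartAt E4 (σ y)).map_source (mem_chart_source E4 (σ y))
  have hq : (chartAt E4 (σ y)).symm (chartAt E4 (σ y) (σ y)) ∈ (chartAt E4 p).source := by
    rw [(chartAt E4 (σ y)).left_inv (mem_chart_source E4 (σ y))]; exact hp
  have h2 : DifferentiableAt ℝ (trans (E := E4) (σ y) p) (chartAt E4 (σ y) (σ y)) :=
    (trans_contDiffAt hy hq).differentiableAt (by simp)
  have hev : (fun z => chartAt E4 p (σ z)) =ᶠ[𝓝 y]
      (trans (E := E4) (σ y) p) ∘ fun z => chartAt E4 (σ y) (σ z) := by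
    have h3 : ∀ᶠ z in 𝓝 y, σ z ∈ (chartAt E4 (σ y)).source :=
      hσ.continuousAt.preimage_mem_nhds
        ((chartAt E4 (σ y)).open_source.mem_nhds (mem_chart_source E4 (σ y)))
    filter_upwards [h3] with z hz
    exact (trans_apply hz).symm
  rw [hev.fderiv_eq, fderiv_comp y h2 h1, tcc_eq_fderiv_trans]
  rfl

/-- the pull-back in a chart -/
theorem pbF_eq {σ : V → M} {y : V} (hσ : ContMDiffAt 𝓘(ℝ, V) 𝓘(ℝ, E4) 1 σ y) {p : M}
    (hp : σ y ∈ (chartAt E4 p).source) (a : F2 E4 M) :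
    pbF σ a y = (rep p a (chartAt E4 p (σ y))).bilinearComp
      (fderiv ℝ (fun z => chartAt E4 p (σ z)) y) (fderiv ℝ (fun z => chartAt E4 p (σ z)) y) := by
  ext u v
  rw [pbF_apply, apply_eq_rep hp, fderiv_chart hσ hp]
  rfl

/-- the chain rule for maps of normed spaces -/
theorem Dm_comp {V' : Type} [NormedAddCommGroup V'] [NormedSpace ℝ V'] {σ : V → M} {g : V' → V}
    {y : V'} (hσ : ContMDiffAt 𝓘(ℝ, V) 𝓘(ℝ, E4) 1 σ (g y)) (hg : DifferentiableAt ℝ g y) :
    Dm (σ ∘ g) y = (Dm σ (g y)).comp (fderiv ℝ g y) := by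
  have h1 : DifferentiableAt ℝ (fun z => chartAt E4 (σ (g y)) (σ z)) (g y) :=
    (chart_comp (by simp) hσ (mem_chart_source E4 (σ (g y)))).differentiableAt (by simp)
  exact fderiv_comp y h1 hg

theorem pbF_comp {V' : Type} [NormedAddCommGroup V'] [NormedSpace ℝ V'] {σ : V → M} {g : V' → V}
    {y : V'} (hσ : ContMDiffAt 𝓘(ℝ, V) 𝓘(ℝ, E4) 1 σ (g y)) (hg : DifferentiableAt ℝ g y)
    (a : F2 E4 M) :
    pbF (σ ∘ g) a y = (pbF σ a (g y)).bilinearComp (fderiv ℝ g y) (fderiv ℝ g y) := by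
  ext u v
  rw [pbF_apply, Dm_comp hσ hg]
  rfl

end General

section Local

variable {V : Type} [NormedAddCommGroup V] [NormedSpace ℝ V]
variable {E : Type} [NormedAddCommGroup E] [NormedSpace ℝ E]

/-- the pull-back of `b` by `φ` -/
def pl (b : E → E →L[ℝ] E →L[ℝ] ℝ) (φ : V → E) (y : V) : V →L[ℝ] V →L[ℝ] ℝ :=
  (b (φ y)).bilinearComp (fderiv ℝ φ y) (fderiv ℝ φ y)

theorem pl_apply (b : E → E →L[ℝ] E →L[ℝ] ℝ) (φ : V → E) (y u v : V) :
    pl b φ y u v = b (φ y) (fderiv ℝ φ y u) (fderiv ℝ φ y v) := rfl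

theorem bilinearComp_eq (b : E →L[ℝ] E →L[ℝ] ℝ) (D : V →L[ℝ] E) :
    b.bilinearComp D D = ((ContinuousLinearMap.compL ℝ V E ℝ).flip D).comp (b.comp D) := by
  ext u v; rfl

theorem pl_contDiffAt {b : E → E →L[ℝ] E →L[ℝ] ℝ} {φ : V → E} {y : V}
    (hb : ContDiffAt ℝ ∞ b (φ y)) (hφ : ContDiffAt ℝ ∞ φ y) : ContDiffAt ℝ ∞ (pl b φ) y := by
  have h1 : ContDiffAt ℝ ∞ (fderiv ℝ φ) y := hφ.fderiv_right (by simp)
  have h2 : ContDiffAt ℝ ∞ (fun z => b (φ z)) y := hb.comp y hφ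
  have h3 : ContDiffAt ℝ ∞ (fun z => (ContinuousLinearMap.compL ℝ V E ℝ).flip (fderiv ℝ φ z)) y :=
    (ContinuousLinearMap.compL ℝ V E ℝ).flip.contDiff.contDiffAt.comp y h1
  have h4 : pl b φ = fun z => ((ContinuousLinearMap.compL ℝ V E ℝ).flip (fderiv ℝ φ z)).comp
      ((b (φ z)).comp (fderiv ℝ φ z)) := by
    funext z
    exact bilinearComp_eq _ _
  rw [h4]
  exact h3.clm_comp (h2.clm_comp h1)

/-- derivative of the pull-back -/
theorem fderiv_pl {b : E → E →L[ℝ] E →L[ℝ] ℝ} {φ : V → E} {y : V}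
    (hb : DifferentiableAt ℝ b (φ y)) (hφ : ContDiffAt ℝ ∞ φ y) (u v w : V) :
    fderiv ℝ (pl b φ) y u v w =
      fderiv ℝ b (φ y) (fderiv ℝ φ y u) (fderiv ℝ φ y v) (fderiv ℝ φ y w) +
      b (φ y) (fderiv ℝ (fderiv ℝ φ) y u v) (fderiv ℝ φ y w) +
      b (φ y) (fderiv ℝ φ y v) (fderiv ℝ (fderiv ℝ φ) y u w) := by
  have hd : DifferentiableAt ℝ φ y := hφ.differentiableAt (by simp)
  have h1 : DifferentiableAt ℝ (fderiv ℝ φ) y :=
    (hφ.fderiv_right (m := ∞) (by simp)).differentiableAt (by simp)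
  have h2 : DifferentiableAt ℝ (fun z => b (φ z)) y := hb.comp y hd
  have hpl : DifferentiableAt ℝ (pl b φ) y := by
    have h4 : pl b φ = fun z => ((ContinuousLinearMap.compL ℝ V E ℝ).flip (fderiv ℝ φ z)).comp
        ((b (φ z)).comp (fderiv ℝ φ z)) := by
      funext z
      exact bilinearComp_eq _ _
    rw [h4]
    have h3 : DifferentiableAt ℝ
        (fun z => (ContinuousLinearMap.compL ℝ V E ℝ).flip (fderiv ℝ φ z)) y :=
      ((ContinuousLinearMap.compL ℝ V E ℝ).flip.differentiableAt).comp y h1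
    exact h3.clm_comp (h2.clm_comp h1)
  have e1 : fderiv ℝ (pl b φ) y u v w = fderiv ℝ (fun z => pl b φ z v w) y u := by
    have h5 : DifferentiableAt ℝ (fun z => pl b φ z v) y := hpl.clm_apply (differentiableAt_const v)
    rw [fderiv_clm_apply h5 (differentiableAt_const w),
      fderiv_clm_apply hpl (differentiableAt_const v)]
    simp
  have hv : DifferentiableAt ℝ (fun z => fderiv ℝ φ z v) y := h1.clm_apply (differentiableAt_const v)
  have hw : DifferentiableAt ℝ (fun z => fderiv ℝ φ z w) y := h1.clm_apply (differentiableAt_const w)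
  have e2 : fderiv ℝ (fun z => pl b φ z v w) y u =
      fderiv ℝ (fun z => b (φ z)) y u (fderiv ℝ φ y v) (fderiv ℝ φ y w) +
      b (φ y) (fderiv ℝ (fun z => fderiv ℝ φ z v) y u) (fderiv ℝ φ y w) +
      b (φ y) (fderiv ℝ φ y v) (fderiv ℝ (fun z => fderiv ℝ φ z w) y u) := by
    have h6 : DifferentiableAt ℝ (fun z => b (φ z) (fderiv ℝ φ z v)) y := h2.clm_apply hv
    show fderiv ℝ (fun z => b (φ z) (fderiv ℝ φ z v) (fderiv ℝ φ z w)) y u = _
    rw [fderiv_clm_apply h6 hw, fderiv_clm_apply h2 hv]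
    simp only [add_apply, ContinuousLinearMap.comp_apply, ContinuousLinearMap.flip_apply]
    ring
  have e3 : fderiv ℝ (fun z => b (φ z)) y u = fderiv ℝ b (φ y) (fderiv ℝ φ y u) := by
    have := fderiv_comp y hb hd
    have h7 : fderiv ℝ (fun z => b (φ z)) y = (fderiv ℝ b (φ y)).comp (fderiv ℝ φ y) := this
    rw [h7]; rfl
  have e4 : ∀ x : V, fderiv ℝ (fun z => fderiv ℝ φ z x) y u = fderiv ℝ (fderiv ℝ φ) y u x := by
    intro x
    rw [fderiv_clm_apply h1 (differentiableAt_const x)]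
    simp
  rw [e1, e2, e3, e4, e4]

/-- **the pull-back of a closed form is closed** -/
theorem pl_closed {b : E → E →L[ℝ] E →L[ℝ] ℝ} {φ : V → E} {y : V}
    (hb : DifferentiableAt ℝ b (φ y)) (hφ : ContDiffAt ℝ ∞ φ y)
    (halt : ∀ u v, b (φ y) u v = - b (φ y) v u)
    (halt' : ∀ t u v, fderiv ℝ b (φ y) t u v = - fderiv ℝ b (φ y) t v u)
    (hcl : ∀ u v w, dd b (φ y) u v w = 0) (u v w : V) :
    fderiv ℝ (pl b φ) y u v w + fderiv ℝ (pl b φ) y v w u + fderiv ℝ (pl b φ) y w u v = 0 := by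
  have hsym : ∀ s t, fderiv ℝ (fderiv ℝ φ) y s t = fderiv ℝ (fderiv ℝ φ) y t s := by
    intro s t
    have h : IsSymmSndFDerivAt ℝ φ y := by
      refine hφ.isSymmSndFDerivAt ?_
      simp only [minSmoothness_of_isRCLikeNormedField]
      exact ENat.LEInfty.out
    exact h s t
  rw [fderiv_pl hb hφ, fderiv_pl hb hφ, fderiv_pl hb hφ]
  have h1 := hcl (fderiv ℝ φ y u) (fderiv ℝ φ y v) (fderiv ℝ φ y w)
  simp only [dd] at h1
  rw [halt' (fderiv ℝ φ y v) (fderiv ℝ φ y u) (fderiv ℝ φ y w)] at h1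
  rw [hsym v u, hsym w u, hsym w v,
    halt (fderiv ℝ φ y w) (fderiv ℝ (fderiv ℝ φ) y u v),
    halt (fderiv ℝ φ y u) (fderiv ℝ (fderiv ℝ φ) y v w),
    halt (fderiv ℝ φ y v) (fderiv ℝ (fderiv ℝ φ) y u w)] 
  linarith

end Local

section Forms

variable {V : Type} [NormedAddCommGroup V] [NormedSpace ℝ V]
variable {M : Type u} [TopologicalSpace M] [ChartedSpace E4 M] [IsManifold 𝓘(ℝ, E4) ∞ M]
variable {σ : V → M} {y : V} {O : Set V}

theorem pbF_eventuallyEq (hσ : ContMDiffAt 𝓘(ℝ, V) 𝓘(ℝ, E4) ∞ σ y) (a : F2 E4 M) :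
    pbF σ a =ᶠ[𝓝 y] pl (rep (σ y) a) (fun z => chartAt E4 (σ y) (σ z)) := by
  have h1 : ∀ᶠ z in 𝓝 y, σ z ∈ (chartAt E4 (σ y)).source :=
    hσ.continuousAt.preimage_mem_nhds
      ((chartAt E4 (σ y)).open_source.mem_nhds (mem_chart_source E4 (σ y)))
  have h2 : ∀ᶠ z in 𝓝 y, ContMDiffAt 𝓘(ℝ, V) 𝓘(ℝ, E4) 1 σ z :=
    (contMDiffAt_iff_contMDiffAt_nhds (by simp)).1 (ContMDiffAt.of_le hσ (by simp))
  filter_upwards [h1, h2] with z h1 h2
  exact pbF_eq h2 h1 a

theorem pbF_contDiffAt (hσ : ContMDiffAt 𝓘(ℝ, V) 𝓘(ℝ, E4) ∞ σ y) {a : F2 E4 M}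
    (ha : Smooth2 a) : ContDiffAt ℝ ∞ (pbF σ a) y := by
  refine ContDiffAt.congr_of_eventuallyEq ?_ (pbF_eventuallyEq hσ a)
  refine pl_contDiffAt ?_ (chart_comp le_rfl hσ (mem_chart_source E4 (σ y)))
  exact (ha.2 (σ y)).contDiffAt ((chartAt E4 (σ y)).open_target.mem_nhds
    ((chartAt E4 (σ y)).map_source (mem_chart_source E4 (σ y))))

theorem pbF_alt {a : F2 E4 M} (ha : Smooth2 a) (u v : V) :
    pbF σ a y u v = - pbF σ a y v u := ha.antisymm _ _ _

theorem pbF_closed (hσ : ContMDiffAt 𝓘(ℝ, V) 𝓘(ℝ, E4) ∞ σ y) {a : F2 E4 M}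
    (ha : Smooth2 a) (hc : Closed2 a) (u v w : V) :
    fderiv ℝ (pbF σ a) y u v w + fderiv ℝ (pbF σ a) y v w u + fderiv ℝ (pbF σ a) y w u v = 0 := by
  rw [(pbF_eventuallyEq hσ a).fderiv_eq]
  have ht : chartAt E4 (σ y) (σ y) ∈ (chartAt E4 (σ y)).target :=
    (chartAt E4 (σ y)).map_source (mem_chart_source E4 (σ y))
  have hd : DifferentiableAt ℝ (rep (σ y) a) (chartAt E4 (σ y) (σ y)) := ha.diff ht
  refine pl_closed (b := rep (σ y) a) hd (chart_comp le_rfl hσ (mem_chart_source E4 (σ y)))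
    (fun u v => ha.antisymm_rep _ _ _ _) (fun t u v => ?_) (fun u v w => hc _ _ ht u v w) u v w
  have e : ∀ p q : E4, fderiv ℝ (rep (σ y) a) (chartAt E4 (σ y) (σ y)) t p q =
      fderiv ℝ (fun z => rep (σ y) a z p q) (chartAt E4 (σ y) (σ y)) t := by
    intro p q
    have h5 : DifferentiableAt ℝ (fun z => rep (σ y) a z p) (chartAt E4 (σ y) (σ y)) :=
      hd.clm_apply (differentiableAt_const p)
    rw [fderiv_clm_apply h5 (differentiableAt_const q),
      fderiv_clm_apply hd (differentiableAt_const p)]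
    simp
  rw [e, e]
  have : (fun z => rep (σ y) a z u v) = fun z => - rep (σ y) a z v u :=
    funext fun z => ha.antisymm_rep _ _ _ _
  rw [this, fderiv_fun_neg]
  rfl

end Forms

section Tube

open Crest.Agent.R281.Mc673

variable {M : Type u} [TopologicalSpace M] [ChartedSpace E4 M] [IsManifold 𝓘(ℝ, E4) ∞ M]

/-- the pull-back of a closed form to a periodic tube -/
theorem clF_pbF {T : W 2 → M} {r : ℝ}
    (hT : ∀ p ∈ tube 2 r, ContMDiffAt 𝓘(ℝ, W 2) 𝓘(ℝ, E4) ∞ T p)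
    (hper : ∀ (k : Fin 2 → ℤ), ∀ p : W 2, T (p.1 + kv k, p.2) = T p) (a : Z2 M) :
    ClF r (pbF T (a.1.1 : F2 E4 M)) where
  sm := fun p hp => (pbF_contDiffAt (hT p hp) a.1.2).contDiffWithinAt
  alt := fun p _ u v => pbF_alt a.1.2 u v
  cl := fun p hp u v z => pbF_closed (hT p hp) a.1.2 a.2 u v z
  per := fun k p _ => by
    have h1 : T ∘ (fun q : W 2 => q + (kv k, 0)) = T := by
      funext q
      have : q + ((kv k, 0) : W 2) = (q.1 + kv k, q.2) := by
        ext1 <;> simp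
      show T (q + (kv k, 0)) = T q
      rw [this, hper]
    have h2 : ((p.1 + kv k, p.2) : W 2) = p + (kv k, 0) := by
      ext1 <;> simp
    have h3 : T (p + (kv k, 0)) = T p := congrFun h1 p
    have h4 : Dm T (p + (kv k, 0)) = Dm T p := by
      unfold Dm
      rw [h3]
      have h5 : (fun z : W 2 => chartAt E4 (T p) (T z)) =
          fun z => (fun z' : W 2 => chartAt E4 (T p) (T z')) (z + (kv k, 0)) := by
        funext z
        show chartAt E4 (T p) (T z) = chartAt E4 (T p) (T (z + (kv k, 0)))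
        rw [show T (z + (kv k, 0)) = T z from congrFun h1 z]
      have h6 := fderiv_comp_add_right (𝕜 := ℝ) (f := fun z' : W 2 => chartAt E4 (T p) (T z'))
        (x := p) ((kv k, 0) : W 2)
      rw [← h6, ← h5]
    rw [h2]
    unfold pbF
    rw [h4, h3]

end Tube

end

end Crest.Agent.R235.Pull_153
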