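import Crest.Agent.R235.K12TubDefs_417
import Crest.Agent.R235.K12Ext_168
import Crest.Agent.R235.Pull_153

/-!
Row 235 (S0364), block K12 (helper417), leaf TUBA (helper930): the abstract tube theorem round an
embedded sphere.

`tuba : TUBA M`
-/

set_option autoImplicit false
set_option maxSynthPendingDepth 3

open Set Function Filter
open scoped Manifold ContDiff Topology RealInnerProductSpace

universe u

namespace Crest.Agent.R235.K12Tuba_930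

open Crest.Agent.R240 Crest.Agent.R240.Ch Crest.Agent.R235 Crest.Agent.R235.K12_417
  Crest.Agent.R235.K12Ext_168 Crest.Agent.R235.Pull_153

noncomputable section

/-! ### the constraints -/

/-- the constraint functions `|q|²`, `q · p`. -/
def co (z : E6) : ℝ × ℝ := (⟪z.1, z.1⟫, ⟪z.1, z.2⟫)

lemma contDiff_co : ContDiff ℝ ∞ co :=
  (contDiff_fst.inner ℝ contDiff_fst).prodMk (contDiff_fst.inner ℝ contDiff_snd)

lemma fderiv_co (z U : E6) : fderiv ℝ co z U = (2 * ⟪z.1, U.1⟫, ⟪z.1, U.2⟫ + ⟪U.1, z.2⟫) := by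
  have h1 : HasFDerivAt (fun z : E6 => z.1) (ContinuousLinearMap.fst ℝ E3 E3) z := hasFDerivAt_fst
  have h2 : HasFDerivAt (fun z : E6 => z.2) (ContinuousLinearMap.snd ℝ E3 E3) z := hasFDerivAt_snd
  have h3 := (h1.inner ℝ h1).prodMk (h1.inner ℝ h2)
  have h4 : HasFDerivAt co _ z := h3
  rw [h4.fderiv]
  ext1
  · simp [real_inner_comm U.1 z.1]; ring
  · simp

lemma co_TS {r : ℝ} {z : E6} (hz : z ∈ TS r) : co z = (1, 0) := by
  obtain ⟨h1, h2, -⟩ := hz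
  unfold co
  rw [real_inner_self_eq_norm_sq, h1, h2, one_pow]

lemma ne_of_TS {r : ℝ} {z : E6} (hz : z ∈ TS r) : z.1 ≠ 0 := (TS_subset_OS r hz).1

lemma norm_of_co {z : E6} (h : co z = (1, 0)) : ‖z.1‖ = 1 ∧ ⟪z.1, z.2⟫ = 0 := by
  have h1 : ⟪z.1, z.1⟫ = (1 : ℝ) := congrArg Prod.fst h
  have h2 : ⟪z.1, z.2⟫ = (0 : ℝ) := congrArg Prod.snd h
  refine ⟨?_, h2⟩
  rw [real_inner_self_eq_norm_sq] at h1
  have h3 := norm_nonneg z.1
  nlinarith

section Man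

variable {M : Type u} [TopologicalSpace M] [ChartedSpace E4 M] [IsManifold 𝓘(ℝ, E4) ∞ M]

/-- the extended map in the chart at `p`. -/
def Fx (Ps : E6 → M) (p : M) (z : E6) : E4 × (ℝ × ℝ) := (chartAt E4 p (Ps z), co z)

/-- `Ps` together with the constraints is immersive at `z`. -/
def Good (Ps : E6 → M) (z : E6) : Prop := ∀ U : E6, Dm Ps z U = 0 → fderiv ℝ co z U = 0 → U = 0

variable {Ps : E6 → M}

lemma Fx_contDiffAt {z : E6} (h : ContMDiffAt 𝓘(ℝ, E6) 𝓘(ℝ, E4) ∞ Ps z) {p : M}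
    (hp : Ps z ∈ (chartAt E4 p).source) : ContDiffAt ℝ ∞ (Fx Ps p) z :=
  (chart_comp le_rfl h hp).prodMk contDiff_co.contDiffAt

lemma fderiv_Fx {z : E6} (h : ContMDiffAt 𝓘(ℝ, E6) 𝓘(ℝ, E4) ∞ Ps z) {p : M}
    (hp : Ps z ∈ (chartAt E4 p).source) (U : E6) :
    fderiv ℝ (Fx Ps p) z U = (tcc (E := E4) (Ps z) p (Ps z) (Dm Ps z U), fderiv ℝ co z U) := by
  have h1 : DifferentiableAt ℝ (fun z => chartAt E4 p (Ps z)) z :=
    (chart_comp le_rfl h hp).differentiableAt (by simp)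
  have h2 : DifferentiableAt ℝ co z := contDiff_co.contDiffAt.differentiableAt (by simp)
  have h3 : HasFDerivAt (Fx Ps p) _ z := h1.hasFDerivAt.prodMk h2.hasFDerivAt
  rw [h3.fderiv, fderiv_chart (h.of_le (by simp)) hp]
  rfl

lemma good_iff {z : E6} (h : ContMDiffAt 𝓘(ℝ, E6) 𝓘(ℝ, E4) ∞ Ps z) {p : M}
    (hp : Ps z ∈ (chartAt E4 p).source) : Good Ps z ↔ Injective (fderiv ℝ (Fx Ps p) z) := by
  rw [injective_iff_map_eq_zero]
  constructor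
  · intro h1 U h0
    rw [fderiv_Fx h hp] at h0
    have h2 : tcc (E := E4) (Ps z) p (Ps z) (Dm Ps z U) = 0 := congrArg Prod.fst h0
    have h3 : fderiv ℝ co z U = 0 := congrArg Prod.snd h0
    refine h1 U ?_ h3
    have h4 := congrArg (tcc (E := E4) p (Ps z) (Ps z)) h2
    rwa [tcc_cancel' hp, map_zero] at h4
  · intro h1 U h2 h3
    refine h1 U ?_
    rw [fderiv_Fx h hp, h2, h3, map_zero]
    rfl

omit [IsManifold 𝓘(ℝ, E4) ∞ M] in
lemma smooth_at (hs : ContMDiffOn 𝓘(ℝ, E6) 𝓘(ℝ, E4) ∞ Ps {z | z.1 ≠ 0}) {z : E6}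
    (hz : z.1 ≠ 0) : ContMDiffAt 𝓘(ℝ, E6) 𝓘(ℝ, E4) ∞ Ps z :=
  hs.contMDiffAt ((isOpen_ne_fun continuous_fst continuous_const).mem_nhds hz)

lemma good_nhds (hs : ContMDiffOn 𝓘(ℝ, E6) 𝓘(ℝ, E4) ∞ Ps {z | z.1 ≠ 0}) {z : E6}
    (hz : z.1 ≠ 0) (hg : Good Ps z) : ∀ᶠ y in 𝓝 z, Good Ps y := by
  have h := smooth_at hs hz
  have hp := mem_chart_source E4 (Ps z)
  have h1 : ContinuousAt (fderiv ℝ (Fx Ps (Ps z))) z :=
    ((Fx_contDiffAt h hp).fderiv_right (m := ∞) (by simp)).continuousAt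
  have h2 : ∀ᶠ y in 𝓝 z, Injective (fderiv ℝ (Fx Ps (Ps z)) y) :=
    h1.eventually (ContinuousLinearMap.isOpen_injective.mem_nhds ((good_iff h hp).1 hg))
  have h3 : ∀ᶠ y in 𝓝 z, Ps y ∈ (chartAt E4 (Ps z)).source :=
    h.continuousAt.eventually ((chartAt E4 (Ps z)).open_source.mem_nhds hp)
  have h4 : ∀ᶠ y : E6 in 𝓝 z, y.1 ≠ 0 := continuousAt_fst.eventually_ne hz
  filter_upwards [h2, h3, h4] with y h2 h3 h4
  exact (good_iff (smooth_at hs h4) h3).2 h2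

lemma exists_equiv {z : E6} (h : ContMDiffAt 𝓘(ℝ, E6) 𝓘(ℝ, E4) ∞ Ps z) (hg : Good Ps z) :
    ∃ e : E6 ≃L[ℝ] E4 × (ℝ × ℝ), HasFDerivAt (Fx Ps (Ps z)) (e : E6 →L[ℝ] E4 × (ℝ × ℝ)) z := by
  have hp := mem_chart_source E4 (Ps z)
  have hi : Injective (fderiv ℝ (Fx Ps (Ps z)) z) := (good_iff h hp).1 hg
  have hd : Module.finrank ℝ E6 = Module.finrank ℝ (E4 × (ℝ × ℝ)) := by
    simp [Module.finrank_prod]
  let e0 : E6 ≃ₗ[ℝ] E4 × (ℝ × ℝ) :=
    LinearEquiv.ofInjectiveOfFinrankEq (fderiv ℝ (Fx Ps (Ps z)) z : E6 →ₗ[ℝ] E4 × (ℝ × ℝ)) hi hd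
  refine ⟨e0.toContinuousLinearEquiv, ?_⟩
  have h1 : ((e0.toContinuousLinearEquiv : E6 ≃L[ℝ] E4 × (ℝ × ℝ)) : E6 →L[ℝ] E4 × (ℝ × ℝ)) =
      fderiv ℝ (Fx Ps (Ps z)) z := by
    exact ContinuousLinearMap.ext fun U => rfl
  rw [h1]
  exact ((Fx_contDiffAt h hp).differentiableAt (by simp)).hasFDerivAt

/-- local injectivity. -/
lemma loc_inj {z : E6} (h : ContMDiffAt 𝓘(ℝ, E6) 𝓘(ℝ, E4) ∞ Ps z) (hg : Good Ps z) :
    ∃ O : Set E6, O ∈ 𝓝 z ∧ ∀ y ∈ O, ∀ y' ∈ O, Ps y = Ps y' → co y = co y' → y = y' := by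
  obtain ⟨e, he⟩ := exists_equiv h hg
  have hF := Fx_contDiffAt h (mem_chart_source E4 (Ps z))
  have hinf : (∞ : WithTop ℕ∞) ≠ 0 := by simp
  set Φ := hF.toOpenPartialHomeomorph (Fx Ps (Ps z)) he hinf with hΦ
  refine ⟨Φ.source, Φ.open_source.mem_nhds (hF.mem_toOpenPartialHomeomorph_source he hinf), ?_⟩
  intro y hy y' hy' h1 h2
  refine Φ.injOn hy hy' ?_
  show Fx Ps (Ps z) y = Fx Ps (Ps z) y'
  unfold Fx
  rw [h1, h2]

/-- local sections. -/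
lemma loc_section {z : E6} (h : ContMDiffAt 𝓘(ℝ, E6) 𝓘(ℝ, E4) ∞ Ps z) (hg : Good Ps z) :
    ∃ s : M → E6, ContMDiffAt 𝓘(ℝ, E4) 𝓘(ℝ, E6) ∞ s (Ps z) ∧ s (Ps z) = z ∧
      ∀ᶠ x in 𝓝 (Ps z), Ps (s x) = x ∧ co (s x) = co z := by
  obtain ⟨e, he⟩ := exists_equiv h hg
  have hp := mem_chart_source E4 (Ps z)
  have hF := Fx_contDiffAt h hp
  have hinf : (∞ : WithTop ℕ∞) ≠ 0 := by simp
  set Φ := hF.toOpenPartialHomeomorph (Fx Ps (Ps z)) he hinf with hΦ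
  have hsrc : z ∈ Φ.source := hF.mem_toOpenPartialHomeomorph_source he hinf
  have hval : Φ z = (chartAt E4 (Ps z) (Ps z), co z) := rfl
  have hsm : ContDiffAt ℝ ∞ Φ.symm (chartAt E4 (Ps z) (Ps z), co z) :=
    hF.to_localInverse he hinf
  have hs0 : Φ.symm (chartAt E4 (Ps z) (Ps z), co z) = z := by
    rw [← hval]; exact Φ.left_inv hsrc
  have ht : (chartAt E4 (Ps z) (Ps z), co z) ∈ Φ.target := by
    rw [← hval]; exact Φ.map_source hsrc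
  have hc : ContMDiffAt 𝓘(ℝ, E4) 𝓘(ℝ, E4 × (ℝ × ℝ)) ∞
      (fun x : M => (chartAt E4 (Ps z) x, co z)) (Ps z) := by
    have h1 : ContMDiffAt 𝓘(ℝ, E4) 𝓘(ℝ, E4) ∞ (chartAt E4 (Ps z)) (Ps z) :=
      (contMDiffOn_chart (I := 𝓘(ℝ, E4)) (x := Ps z) (n := ∞)).contMDiffAt
        ((chartAt E4 (Ps z)).open_source.mem_nhds hp)
    exact h1.prodMk_space contMDiffAt_const
  have hS : ContMDiffAt 𝓘(ℝ, E4) 𝓘(ℝ, E6) ∞
      (fun x : M => Φ.symm (chartAt E4 (Ps z) x, co z)) (Ps z) :=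
    ContMDiffAt.comp (Ps z) (g := Φ.symm) (f := fun x : M => (chartAt E4 (Ps z) x, co z))
      hsm.contMDiffAt hc
  refine ⟨fun x => Φ.symm (chartAt E4 (Ps z) x, co z), hS, hs0, ?_⟩
  have e1 : ∀ᶠ x in 𝓝 (Ps z), (chartAt E4 (Ps z) x, co z) ∈ Φ.target :=
    hc.continuousAt.eventually (Φ.open_target.mem_nhds ht)
  have e2 : ∀ᶠ x in 𝓝 (Ps z), x ∈ (chartAt E4 (Ps z)).source :=
    (chartAt E4 (Ps z)).open_source.mem_nhds hp
  have e3 : ∀ᶠ x in 𝓝 (Ps z), Ps (Φ.symm (chartAt E4 (Ps z) x, co z)) ∈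
      (chartAt E4 (Ps z)).source := by
    have h1 : ContinuousAt (fun x : M => Ps (Φ.symm (chartAt E4 (Ps z) x, co z))) (Ps z) := by
      refine ContinuousAt.comp (g := Ps) ?_ hS.continuousAt
      show ContinuousAt Ps (Φ.symm (chartAt E4 (Ps z) (Ps z), co z))
      rw [hs0]; exact h.continuousAt
    refine h1.eventually ((chartAt E4 (Ps z)).open_source.mem_nhds ?_)
    show Ps (Φ.symm (chartAt E4 (Ps z) (Ps z), co z)) ∈ _
    rw [hs0]; exact hp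
  filter_upwards [e1, e2, e3] with x h1 h2 h3
  have h4 : Fx Ps (Ps z) (Φ.symm (chartAt E4 (Ps z) x, co z)) = (chartAt E4 (Ps z) x, co z) :=
    Φ.right_inv h1
  have h5 : chartAt E4 (Ps z) (Ps (Φ.symm (chartAt E4 (Ps z) x, co z))) = chartAt E4 (Ps z) x :=
    congrArg Prod.fst h4
  exact ⟨(chartAt E4 (Ps z)).injOn h3 h2 h5, congrArg Prod.snd h4⟩

end Man

/-! ### uniformity along the sphere -/

lemma tube_of_nhds {P : E6 → Prop} (h : ∀ q : E3, ‖q‖ = 1 → ∀ᶠ z in 𝓝 ((q, 0) : E6), P z) :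
    ∃ r : ℝ, 0 < r ∧ ∀ z ∈ TS r, P z := by
  have h1 : ∀ᶠ v in 𝓝 (0 : E3), ∀ y ∈ Metric.sphere (0 : E3) 1, P (y, v) := by
    refine (isCompact_sphere (0 : E3) 1).eventually_forall_of_forall_eventually fun y hy => ?_
    have hsw : Tendsto (fun z : E3 × E3 => (z.2, z.1)) (𝓝 (0, y)) (𝓝 (y, 0)) :=
      (continuous_snd.prodMk continuous_fst).tendsto' _ _ rfl
    exact hsw.eventually (h y (by simpa using hy))
  obtain ⟨r, hr, hr'⟩ := Metric.eventually_nhds_iff.1 h1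
  refine ⟨r, hr, fun z hz => ?_⟩
  exact hr' (y := z.2) (by rw [dist_zero_right]; exact hz.2.2) z.1 (by simpa using hz.1)

lemma tube_of_nhds2 {P : E6 → E6 → Prop}
    (h : ∀ q q' : E3, ‖q‖ = 1 → ‖q'‖ = 1 → ∀ᶠ z in 𝓝 (((q, 0), (q', 0)) : E6 × E6), P z.1 z.2) :
    ∃ r : ℝ, 0 < r ∧ ∀ z ∈ TS r, ∀ z' ∈ TS r, P z z' := by
  have h1 : ∀ᶠ v in 𝓝 ((0, 0) : E3 × E3), ∀ y ∈ Metric.sphere (0 : E3) 1 ×ˢ
      Metric.sphere (0 : E3) 1, P (y.1, v.1) (y.2, v.2) := by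
    refine ((isCompact_sphere (0 : E3) 1).prod
      (isCompact_sphere (0 : E3) 1)).eventually_forall_of_forall_eventually fun y hy => ?_
    have hsw : Tendsto (fun z : (E3 × E3) × (E3 × E3) => (((z.2.1, z.1.1), (z.2.2, z.1.2)) : E6 × E6))
        (𝓝 ((0, 0), y)) (𝓝 ((y.1, 0), (y.2, 0))) := by
      have : Continuous fun z : (E3 × E3) × (E3 × E3) =>
          (((z.2.1, z.1.1), (z.2.2, z.1.2)) : E6 × E6) := by fun_prop
      exact this.tendsto' _ _ rfl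
    exact hsw.eventually (h y.1 y.2 (by simpa using hy.1) (by simpa using hy.2))
  obtain ⟨r, hr, hr'⟩ := Metric.eventually_nhds_iff.1 h1
  refine ⟨r, hr, fun z hz z' hz' => ?_⟩
  refine hr' (y := (z.2, z'.2)) ?_ (z.1, z'.1) ⟨by simpa using hz.1, by simpa using hz'.1⟩
  rw [Prod.dist_eq]
  simp only [dist_zero_right]
  exact max_lt hz.2.2 hz'.2.2

/-! ### the theorem -/

variable (M : Type u) [TopologicalSpace M] [T2Space M] [CompactSpace M]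
  [ChartedSpace E4 M] [IsManifold 𝓘(ℝ, E4) ∞ M]

/-- LEAF TUBA. -/
theorem tuba : TUBA M := by
  classical
  intro σ Ps hσ hs hf hz hi O hO hσO
  have hne : ∀ q : E3, ‖q‖ = 1 → ((q, 0) : E6).1 ≠ 0 := by
    intro q hq h
    have h1 : q = 0 := h
    rw [h1, norm_zero] at hq
    exact zero_ne_one hq
  have hcont : ∀ q : E3, ‖q‖ = 1 → ContinuousAt Ps ((q, 0) : E6) := fun q hq =>
    (smooth_at hs (hne q hq)).continuousAt
  have hgood : ∀ q : E3, ‖q‖ = 1 → Good Ps ((q, 0) : E6) := by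
    rintro q hq ⟨u, v⟩ h1 h2
    rw [fderiv_co, Prod.mk_eq_zero] at h2
    obtain ⟨h3, h4⟩ := h2
    simp only [inner_zero_right, add_zero] at h3 h4
    have h5 : ⟪q, u⟫ = (0 : ℝ) := by linarith
    obtain ⟨h6, h7⟩ := hi q u v hq h5 h4 h1
    rw [h6, h7]; rfl
  obtain ⟨r1, hr1, h1⟩ := tube_of_nhds (P := Good Ps)
    fun q hq => good_nhds hs (hne q hq) (hgood q hq)
  obtain ⟨r2, hr2, h2⟩ := tube_of_nhds (P := fun z => Ps z ∈ O) fun q hq => by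
    refine (hcont q hq).eventually (hO.mem_nhds ?_)
    rw [hz q hq]
    exact hσO ⟨q, by simpa using hq, rfl⟩
  obtain ⟨r3, hr3, h3⟩ := tube_of_nhds2 (P := fun z z' => co z = (1, 0) → co z' = (1, 0) →
      Ps z = Ps z' → z = z') fun q q' hq hq' => by
    by_cases hqq : q = q'
    · subst hqq
      obtain ⟨N, hN, hN'⟩ := loc_inj (smooth_at hs (hne q hq)) (hgood q hq)
      filter_upwards [prod_mem_nhds hN hN] with z hzN h4 h5 h6
      exact hN' z.1 hzN.1 z.2 hzN.2 h6 (by rw [h4, h5])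
    · have hne' : σ q ≠ σ q' := fun h => hqq (hσ.inj q q' hq hq' h)
      have hop : IsOpen {q : M × M | q.1 ≠ q.2} := isClosed_diagonal.isOpen_compl
      have hc : ContinuousAt (fun z : E6 × E6 => (Ps z.1, Ps z.2)) ((q, 0), (q', 0)) := by
        refine ContinuousAt.prodMk ?_ ?_
        · exact ContinuousAt.comp (g := Ps) (hcont q hq) continuousAt_fst
        · exact ContinuousAt.comp (g := Ps) (hcont q' hq') continuousAt_snd
      have hmem : (Ps ((q, 0) : E6), Ps ((q', 0) : E6)) ∈ {q : M × M | q.1 ≠ q.2} := by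
        rw [hz q hq, hz q' hq']; exact hne'
      filter_upwards [hc.eventually (hop.mem_nhds hmem)] with z h4 _ _ h5
      exact absurd h5 h4
  set r := min r1 (min r2 r3) with hr
  have hr0 : 0 < r := lt_min hr1 (lt_min hr2 hr3)
  have hsub : ∀ {ρ : ℝ}, r ≤ ρ → TS r ⊆ TS ρ := fun h z hz => ⟨hz.1, hz.2.1, hz.2.2.trans_le h⟩
  have g1 : ∀ z ∈ TS r, Good Ps z := fun z hz => h1 z (hsub (min_le_left _ _) hz)
  have g2 : ∀ z ∈ TS r, Ps z ∈ O := fun z hz =>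
    h2 z (hsub ((min_le_right _ _).trans (min_le_left _ _)) hz)
  have g3 : ∀ z ∈ TS r, ∀ z' ∈ TS r, Ps z = Ps z' → z = z' := fun z hz z' hz' h =>
    h3 z (hsub ((min_le_right _ _).trans (min_le_right _ _)) hz) z'
      (hsub ((min_le_right _ _).trans (min_le_right _ _)) hz') (co_TS hz) (co_TS hz') h
  let G : M → E6 := fun x => if h : ∃ z ∈ TS r, Ps z = x then h.choose else 0
  have hG : ∀ z ∈ TS r, G (Ps z) = z := by
    intro z hz
    have hex : ∃ z' ∈ TS r, Ps z' = Ps z := ⟨z, hz, rfl⟩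
    have h4 : G (Ps z) = hex.choose := dif_pos hex
    rw [h4]
    exact g3 _ hex.choose_spec.1 z hz hex.choose_spec.2
  -- the local sections
  have key : ∀ z ∈ TS r, ∃ s : M → E6, ContMDiffAt 𝓘(ℝ, E4) 𝓘(ℝ, E6) ∞ s (Ps z) ∧
      ∀ᶠ x in 𝓝 (Ps z), s x ∈ TS r ∧ Ps (s x) = x := by
    intro z hzr
    obtain ⟨s, hs1, hs2, hs3⟩ := loc_section (smooth_at hs (ne_of_TS hzr)) (g1 z hzr)
    refine ⟨s, hs1, ?_⟩
    have h4 : ∀ᶠ x in 𝓝 (Ps z), ‖(s x).2‖ < r := by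
      have h5 : ContinuousAt (fun x => ‖(s x).2‖) (Ps z) := hs1.continuousAt.snd.norm
      refine h5.eventually_lt_const ?_
      show ‖(s (Ps z)).2‖ < r
      rw [hs2]; exact hzr.2.2
    filter_upwards [hs3, h4] with x h5 h6
    have h7 := norm_of_co (h5.2.trans (co_TS hzr))
    exact ⟨⟨h7.1, h7.2, h6⟩, h5.1⟩
  refine ⟨r, G, Ps '' TS r, ⟨hr0, ?_, ?_, hz, ?_, ?_, ?_, ?_, ?_, ?_⟩, ?_⟩
  · exact hs.mono fun z hz => hz.1
  · exact fun z hz => hf z hz.1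
  · rw [isOpen_iff_mem_nhds]
    rintro _ ⟨z, hzr, rfl⟩
    obtain ⟨s, -, hs2⟩ := key z hzr
    filter_upwards [hs2] with x hx
    exact ⟨s x, hx.1, hx.2⟩
  · intro z hzr
    exact ⟨Pi z, Pi_mem_TS hzr, hf z hzr.1⟩
  · rintro _ ⟨z, hzr, rfl⟩
    obtain ⟨s, hs1, hs2⟩ := key z hzr
    refine (hs1.congr_of_eventuallyEq ?_).contMDiffWithinAt
    filter_upwards [hs2] with x hx
    have h4 := hG (s x) hx.1
    rwa [hx.2] at h4
  · rintro _ ⟨z, hzr, rfl⟩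
    rw [hG z hzr]; exact hzr
  · rintro _ ⟨z, hzr, rfl⟩
    rw [hG z hzr]
  · intro z hzr
    rw [← hf z hzr.1]
    exact hG (Pi z) (Pi_mem_TS hzr)
  · rintro _ ⟨z, hzr, rfl⟩
    exact g2 z hzr

end

end Crest.Agent.R235.K12Tuba_930
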