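import Crest.Agent.R235.K12OneA_776
import Crest.Agent.R235.K12Fgl_417
import Crest.Agent.R235.K12NuB_417

/-!
Row 235 (S0364), block K12 (helper417): **`K12T`, without hypotheses.**
-/

set_option autoImplicit false
set_option maxSynthPendingDepth 3

open scoped Manifold ContDiff

universe u

namespace Crest.Agent.R235.K12_417

open Crest.Agent.R240 Crest.Agent.R240.Ch Crest.Agent.R235

/-- **Node K12T of row 235.** -/
theorem k12t : K12T.{u} :=
  K12OneA_776.k12t_of (K12Fgl_417.fgl K12Radf_843.radf) fun M _ _ _ _ _ => tube (M := M)

end Crest.Agent.R235.K12_417
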