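import Crest.Agent.R235.K12Defs_417

/-!
Row 235 (S0364), package KUM, KDOWN leaf L11 (helper856): an embedded sphere has empty interior.
-/

set_option autoImplicit false
set_option maxSynthPendingDepth 3

open Set Function Filter
open scoped Manifold ContDiff Topology ENNReal NNReal

universe u

namespace Crest.Agent.R235.KDense_856

open Crest.Agent.R240 Crest.Agent.R240.Ch Crest.Agent.R235 Crest.Agent.R235.K12_417

noncomputable section

theorem interior_im {M : Type u} [TopologicalSpace M] [T2Space M] [CompactSpace M]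
    [ChartedSpace E4 M] [IsManifold 𝓘(ℝ, E4) ∞ M] (σ : E3 → M) (hσ : EmbS σ) :
    interior (im σ) = ∅ := by
  by_contra hne
  obtain ⟨x, hx⟩ := nonempty_iff_ne_empty.2 hne
  set e := chartAt E4 x with he
  have hxe : x ∈ e.source := mem_chart_source E4 x
  set U : Set M := interior (im σ) ∩ e.source with hU
  have hUo : IsOpen U := isOpen_interior.inter e.open_source
  have hVo : IsOpen (e '' U) := e.isOpen_image_of_subset_source hUo inter_subset_right
  have hVne : (interior (e '' U)).Nonempty := by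
    rw [hVo.interior_eq]
    exact ⟨e x, x, ⟨hx, hxe⟩, rfl⟩
  have h0 : IsOpen ({0}ᶜ : Set E3) := isOpen_compl_singleton
  set S : Set E3 := {0}ᶜ ∩ σ ⁻¹' e.source with hS
  have hSo : IsOpen S := hσ.smooth.continuousOn.isOpen_inter_preimage h0 e.open_source
  have hsub : e '' U ⊆ (fun y => e (σ y)) '' S := by
    rintro _ ⟨z, ⟨hz1, hz2⟩, rfl⟩
    obtain ⟨y, hy, rfl⟩ := interior_subset hz1
    refine ⟨y, ⟨?_, hz2⟩, rfl⟩
    rintro rfl
    simp at hy
  have hf : ∀ y ∈ S, ContDiffAt ℝ 1 (fun y => e (σ y)) y := by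
    intro y hy
    have h1 : ContMDiffAt 𝓘(ℝ, E3) 𝓘(ℝ, E4) ∞ σ y :=
      hσ.smooth.contMDiffAt (h0.mem_nhds hy.1)
    have h2 : ContMDiffAt 𝓘(ℝ, E4) 𝓘(ℝ, E4) ∞ e (σ y) :=
      (contMDiffOn_chart (I := 𝓘(ℝ, E4)) (n := ∞) (x := x)).contMDiffAt
        (e.open_source.mem_nhds hy.2)
    have h3 : ContMDiffAt 𝓘(ℝ, E3) 𝓘(ℝ, E4) ∞ (fun y => e (σ y)) y := h2.comp y h1
    exact (contMDiffAt_iff_contDiffAt.1 h3).of_le (by simp)
  have h1 : dimH ((fun y => e (σ y)) '' S) ≤ dimH S := by
    refine dimH_image_le_of_locally_lipschitzOn fun y hy => ?_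
    obtain ⟨K, t, ht, hK⟩ := (hf y hy).exists_lipschitzOnWith
    exact ⟨K, t, mem_nhdsWithin_of_mem_nhds ht, hK⟩
  have h2 : dimH (e '' U) = Module.finrank ℝ E4 := Real.dimH_of_nonempty_interior hVne
  have h3 : dimH S ≤ Module.finrank ℝ E3 := by
    rw [← Real.dimH_univ_eq_finrank E3]
    exact dimH_mono (subset_univ _)
  have h4 := (dimH_mono hsub).trans (h1.trans h3)
  rw [h2] at h4
  have h5 : Module.finrank ℝ E4 = 4 := by simp
  have h6 : Module.finrank ℝ E3 = 3 := by simp
  rw [h5, h6] at h4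
  norm_num at h4

end

end Crest.Agent.R235.KDense_856
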