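import Crest.Agent.R235.KLin_604

/-!
Row 235, KUM KUP/KDOWN leaf L4 (helper57, statement helper604 #2184): openness of positivity of
triples of bilinear forms, with a uniform margin on compact sets, and closeness of nearby members
of a continuous family over a compact set.
-/

set_option autoImplicit false
set_option maxSynthPendingDepth 3

open Set Function Filter
open scoped ContDiff Topology

namespace Crest.Agent.R235.KClose_57

open Crest.Agent.R240 Crest.Agent.R235.KLin_604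

noncomputable section

/-- positivity of a triple: every nonzero combination has nonzero square. -/
def PosB (c : Fin 3 → Bil) : Prop :=
  ∀ x : Fin 3 → ℝ, x ≠ 0 → W (∑ i, x i • c i) (∑ i, x i • c i) ≠ 0

theorem W_smul_self (r : ℝ) (b : Bil) : W (r • b) (r • b) = r ^ 2 * W b b := by
  rw [W_smul_left, W_smul_right]; ring

theorem posB_of_sphere {c : Fin 3 → Bil}
    (h : ∀ x ∈ Metric.sphere (0 : Fin 3 → ℝ) 1, W (∑ i, x i • c i) (∑ i, x i • c i) ≠ 0) :
    PosB c := by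
  intro x hx
  have hn : ‖x‖ ≠ 0 := norm_ne_zero_iff.2 hx
  have hy : ‖x‖⁻¹ • x ∈ Metric.sphere (0 : Fin 3 → ℝ) 1 := by
    rw [mem_sphere_zero_iff_norm, norm_smul, norm_inv, norm_norm, inv_mul_cancel₀ hn]
  have h2 := h _ hy
  intro h0
  apply h2
  have e : ∑ i, (‖x‖⁻¹ • x) i • c i = ‖x‖⁻¹ • ∑ i, x i • c i := by
    rw [Finset.smul_sum]
    refine Finset.sum_congr rfl fun i _ => ?_
    rw [Pi.smul_apply, smul_eq_mul, mul_smul]
  rw [e, W_smul_self, h0, mul_zero]

theorem cont_comb1 {X : Type*} [TopologicalSpace X] {a : Fin 3 → X → Bil} {c : Fin 3 → X → ℝ}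
    (ha : ∀ i, Continuous (a i)) (hc : ∀ i, Continuous (c i)) :
    Continuous (fun z => ∑ i, c i z • a i z) := by
  refine continuous_finsetSum _ fun i _ => ?_
  exact (hc i).smul (ha i)

theorem cont_WW {X : Type*} [TopologicalSpace X] {a b : X → Bil} (ha : Continuous a)
    (hb : Continuous b) : Continuous (fun z => W (a z) (b z)) := by
  rw [continuous_iff_continuousAt]
  intro x
  have ea := fun i j => continuousAt_ent ha.continuousAt (x := x) i j
  have eb := fun i j => continuousAt_ent hb.continuousAt (x := x) i j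
  unfold W
  exact ((((((ea 0 1).mul (eb 2 3)).sub ((ea 0 2).mul (eb 1 3))).add
    ((ea 0 3).mul (eb 1 2))).add ((ea 1 2).mul (eb 0 3))).sub
    ((ea 1 3).mul (eb 0 2))).add ((ea 2 3).mul (eb 0 1))

theorem continuous_Wc :
    Continuous (fun p : (Fin 3 → Bil) × (Fin 3 → ℝ) =>
      W (∑ i, p.2 i • p.1 i) (∑ i, p.2 i • p.1 i)) := by
  have h1 : Continuous (fun p : (Fin 3 → Bil) × (Fin 3 → ℝ) => ∑ i, p.2 i • p.1 i) :=
    cont_comb1 (X := (Fin 3 → Bil) × (Fin 3 → ℝ)) (a := fun i p => p.1 i) (c := fun i p => p.2 i)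
      (fun i => (continuous_apply i).comp continuous_fst)
      (fun i => (continuous_apply i).comp continuous_snd)
  exact cont_WW h1 h1

theorem isOpen_PosB : IsOpen {c : Fin 3 → Bil | PosB c} := by
  rw [isOpen_iff_mem_nhds]
  intro c hc
  have hS : IsCompact (Metric.sphere (0 : Fin 3 → ℝ) 1) := isCompact_sphere _ _
  have key : ∀ᶠ c' in 𝓝 c, ∀ x ∈ Metric.sphere (0 : Fin 3 → ℝ) 1,
      W (∑ i, x i • c' i) (∑ i, x i • c' i) ≠ 0 := by
    refine hS.eventually_forall_of_forall_eventually fun x hx => ?_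
    have hx0 : x ≠ 0 := by
      rintro rfl
      rw [mem_sphere_zero_iff_norm, norm_zero] at hx
      exact zero_ne_one hx
    exact continuous_Wc.continuousAt.eventually_ne (hc x hx0)
  filter_upwards [key] with c' hc'
  exact posB_of_sphere hc'

theorem pos_margin {T : Set (Fin 3 → Bil)} (hT : IsCompact T) (hp : ∀ c ∈ T, PosB c) :
    ∃ m : ℝ, 0 < m ∧ ∀ c ∈ T, ∀ c' : Fin 3 → Bil, (∀ a, ‖c' a - c a‖ ≤ m) → PosB c' := by
  obtain ⟨m, hm, hsub⟩ := hT.exists_cthickening_subset_open isOpen_PosB hp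
  refine ⟨m, hm, fun c hc c' h => ?_⟩
  apply hsub
  refine Metric.mem_cthickening_of_dist_le c' c m T hc ?_
  rw [dist_pi_le_iff hm.le]
  intro a
  rw [dist_eq_norm]
  exact h a

theorem seg_close {K : Set E4} (hK : IsCompact K) (ν : ℝ → E4 → Fin 3 → Bil)
    (hc : ContinuousOn (fun p : ℝ × E4 => ν p.1 p.2) (Icc (0 : ℝ) 1 ×ˢ K))
    (hp : ∀ t ∈ Icc (0 : ℝ) 1, ∀ z ∈ K, PosB (ν t z)) :
    ∃ δ : ℝ, 0 < δ ∧ ∀ t ∈ Icc (0 : ℝ) 1, ∀ t' ∈ Icc (0 : ℝ) 1, |t - t'| < δ →
      ∀ z ∈ K, ∀ σ ∈ Icc (0 : ℝ) 1, PosB (fun a => (1 - σ) • ν t z a + σ • ν t' z a) := by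
  have hD : IsCompact (Icc (0 : ℝ) 1 ×ˢ K) := isCompact_Icc.prod hK
  obtain ⟨m, hm, hmp⟩ := pos_margin (hD.image_of_continuousOn hc) (by
    rintro c ⟨p, hp', rfl⟩
    exact hp p.1 hp'.1 p.2 hp'.2)
  have hu := hD.uniformContinuousOn_of_continuous hc
  rw [Metric.uniformContinuousOn_iff] at hu
  obtain ⟨δ, hδ, h⟩ := hu m hm
  refine ⟨δ, hδ, fun t ht t' ht' htt z hz σ hσ => ?_⟩
  refine hmp (ν t z) ⟨(t, z), ⟨ht, hz⟩, rfl⟩ _ fun a => ?_
  have h1 : dist (ν t' z) (ν t z) < m := by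
    refine h (t', z) ⟨ht', hz⟩ (t, z) ⟨ht, hz⟩ ?_
    rw [Prod.dist_eq, dist_self, max_eq_left dist_nonneg, Real.dist_eq, abs_sub_comm]
    exact htt
  have h2 : ‖ν t' z a - ν t z a‖ ≤ m := by
    rw [← dist_eq_norm]
    exact (dist_le_pi_dist _ _ a).trans h1.le
  have e : (1 - σ) • ν t z a + σ • ν t' z a - ν t z a = σ • (ν t' z a - ν t z a) := by
    rw [sub_smul, one_smul, smul_sub]; abel
  rw [e, norm_smul, Real.norm_eq_abs, abs_of_nonneg hσ.1]
  calc σ * ‖ν t' z a - ν t z a‖ ≤ 1 * ‖ν t' z a - ν t z a‖ :=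
        mul_le_mul_of_nonneg_right hσ.2 (norm_nonneg _)
    _ ≤ m := by rw [one_mul]; exact h2

end

end Crest.Agent.R235.KClose_57
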