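import Crest.Agent.R235.KForm_604
import Crest.Agent.R235.KClose_57

/-!
Row 235, KUM-K5 (helper604): the leaves L12, L13 (scaling of `rho`, orientation of a definite triple).
-/

set_option autoImplicit false
set_option maxSynthPendingDepth 3

open Set Function Filter
open scoped Manifold ContDiff Topology RealInnerProductSpace

universe u

namespace Crest.Agent.R235.KRhoL_604

open Crest.Agent.R240 Crest.Agent.R240.Ch Crest.Agent.R235 Crest.Agent.R235.PB_604
  Crest.Agent.R235.KLin_604 Crest.Agent.R235.KForm_604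

noncomputable section

lemma g_pl {b c : Bil} (hb : Alt b) (hc : Alt c) (L : E4 →L[ℝ] E4) :
    g (pl L b) (pl L c) = LinearMap.det (L : E4 →ₗ[ℝ] E4) * g b c := by
  unfold g
  rw [W_pl hb hc]; ring

lemma pl_sub' (A : E4 →L[ℝ] E4) (b c : Bil) : pl A (b - c) = pl A b - pl A c := by
  ext v v'
  rfl

theorem rho_pl {c : Fin 3 → Bil} (h : Def3 c) {L : E4 →L[ℝ] E4}
    (hL : 0 < LinearMap.det (L : E4 →ₗ[ℝ] E4)) (a b : Fin 3) :
    rho (fun a => pl L (c a)) a b = √(LinearMap.det (L : E4 →ₗ[ℝ] E4)) * rho c a b := by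
  set D := LinearMap.det (L : E4 →ₗ[ℝ] E4) with hD
  set k := √D with hk
  have hk0 : 0 < k := Real.sqrt_pos.2 hL
  have hkk : k * k = D := Real.mul_self_sqrt hL.le
  set c' : Fin 3 → Bil := fun a => pl L (c a) with hc'
  have ae1 : Alt (e1 c) := by
    obtain ⟨x, hx⟩ := e1_eq c
    intro v
    rw [hx]
    show x * c 0 v v + 1 * c 1 v v + 0 * c 2 v v = 0
    rw [h.alt 0 v, h.alt 1 v, h.alt 2 v]; ring
  have ae2 : Alt (e2 c) := by
    obtain ⟨x, y, hx⟩ := e2_eq c
    intro v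
    rw [hx]
    show x * c 0 v v + y * c 1 v v + 1 * c 2 v v = 0
    rw [h.alt 0 v, h.alt 1 v, h.alt 2 v]; ring
  have S0 : s0 c' = k * s0 c := by
    unfold s0
    rw [show c' 0 = pl L (c 0) from rfl, g_pl (h.alt 0) (h.alt 0), Real.sqrt_mul hL.le]
  have Z0 : z0 c' = k⁻¹ • pl L (z0 c) := by
    unfold z0
    rw [S0, pl_smul, smul_smul, mul_inv]
  have G1 : g (c' 1) (z0 c') = k * g (c 1) (z0 c) := by
    rw [Z0, g_smul_right, show c' 1 = pl L (c 1) from rfl, g_pl (h.alt 1) h.alt_z0, ← hD, ← hkk]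
    field_simp
  have G2 : g (c' 2) (z0 c') = k * g (c 2) (z0 c) := by
    rw [Z0, g_smul_right, show c' 2 = pl L (c 2) from rfl, g_pl (h.alt 2) h.alt_z0, ← hD, ← hkk]
    field_simp
  have E1 : e1 c' = pl L (e1 c) := by
    unfold e1
    rw [G1, Z0, pl_sub', pl_smul, smul_smul]
    have : k * g (c 1) (z0 c) * k⁻¹ = g (c 1) (z0 c) := by field_simp
    rw [this]
  have S1 : s1 c' = k * s1 c := by
    unfold s1
    rw [E1, g_pl ae1 ae1, Real.sqrt_mul hL.le]
  have Z1 : z1 c' = k⁻¹ • pl L (z1 c) := by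
    unfold z1
    rw [S1, E1, pl_smul, smul_smul, mul_inv]
  have G3 : g (c' 2) (z1 c') = k * g (c 2) (z1 c) := by
    rw [Z1, g_smul_right, show c' 2 = pl L (c 2) from rfl, g_pl (h.alt 2) h.alt_z1, ← hD, ← hkk]
    field_simp
  have E2 : e2 c' = pl L (e2 c) := by
    unfold e2
    rw [G2, G3, Z0, Z1, pl_sub', pl_sub', pl_smul, pl_smul, smul_smul, smul_smul]
    have t1 : k * g (c 2) (z0 c) * k⁻¹ = g (c 2) (z0 c) := by field_simp
    have t2 : k * g (c 2) (z1 c) * k⁻¹ = g (c 2) (z1 c) := by field_simp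
    rw [t1, t2]
  have S2 : s2 c' = k * s2 c := by
    unfold s2
    rw [E2, g_pl ae2 ae2, Real.sqrt_mul hL.le]
  fin_cases a <;> fin_cases b
  · show s0 c' = k * s0 c
    exact S0
  · show (0 : ℝ) = k * 0
    rw [mul_zero]
  · show (0 : ℝ) = k * 0
    rw [mul_zero]
  · exact G1
  · exact S1
  · show (0 : ℝ) = k * 0
    rw [mul_zero]
  · exact G2
  · exact G3
  · exact S2

lemma cont_S (c : Fin 3 → Bil) : Continuous fun x : Fin 3 → ℝ => (∑ i, x i • c i : Bil) := by
  refine continuous_finsetSum _ fun i _ => ?_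
  exact (continuous_apply i).smul continuous_const

/-- the sign of a nondegenerate triple is constant. -/
lemma sign_const {c : Fin 3 → Bil} (hc : PosB c) :
    (∀ x : Fin 3 → ℝ, x ≠ 0 → 0 < W (∑ i, x i • c i) (∑ i, x i • c i)) ∨
    (∀ x : Fin 3 → ℝ, x ≠ 0 → W (∑ i, x i • c i) (∑ i, x i • c i) < 0) := by
  have hcont := KClose_57.cont_WW (cont_S c) (cont_S c)
  have hrank : 1 < Module.rank ℝ (Fin 3 → ℝ) := by
    rw [rank_fin_fun]
    norm_cast
  have hconn : IsPreconnected ({0}ᶜ : Set (Fin 3 → ℝ)) :=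
    (isConnected_compl_singleton_of_one_lt_rank hrank 0).isPreconnected
  by_contra hcon
  push Not at hcon
  obtain ⟨⟨x, hx, hx1⟩, ⟨y, hy, hy1⟩⟩ := hcon
  have h0 := (hconn.image _ hcont.continuousOn).Icc_subset ⟨x, hx, rfl⟩ ⟨y, hy, rfl⟩
    (mem_Icc.2 ⟨hx1, hy1⟩)
  obtain ⟨z, hz, hz0⟩ := h0
  exact hc z hz hz0

/-- an involution with negative determinant. -/
lemma exists_refl : ∃ N : E4 →L[ℝ] E4, (∀ v, N (N v) = v) ∧
    LinearMap.det (N : E4 →ₗ[ℝ] E4) = -1 := by
  set v : E4 := ee 0 with hv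
  have hv0 : v ≠ 0 := by
    intro h0
    have := congrArg (fun x : E4 => x 0) h0
    simp [hv] at this
  set K : Submodule ℝ E4 := (ℝ ∙ v)ᗮ with hK
  refine ⟨(K.reflection.toContinuousLinearEquiv : E4 →L[ℝ] E4), fun w => ?_, ?_⟩
  · exact K.reflection_reflection w
  · have h1 := K.det_reflection (𝕜 := ℝ)
    have h2 : Module.finrank ℝ Kᗮ = 1 := by
      rw [hK, Submodule.orthogonal_orthogonal]
      exact finrank_span_singleton hv0
    rw [h2, pow_one] at h1
    exact h1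

theorem def3_or {c : Fin 3 → Bil} (ha : ∀ a, Alt (c a)) (hc : PosB c) :
    ∃ N : E4 →L[ℝ] E4, (∀ v, N (N v) = v) ∧ Def3 (fun a => pl N (c a)) := by
  rcases sign_const hc with h | h
  · refine ⟨ContinuousLinearMap.id ℝ E4, fun v => rfl, ?_, ?_⟩
    · intro a v
      exact ha a v
    · intro x hx
      exact h x hx
  · obtain ⟨N, hN, hd⟩ := exists_refl
    refine ⟨N, hN, ?_, ?_⟩
    · intro a v
      exact ha a (N v)
    · intro x hx
      rw [← pl_sum, W_pl (alt_sum ha x) (alt_sum ha x), hd]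
      have := h x hx
      linarith

end

end Crest.Agent.R235.KRhoL_604
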