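import Crest.Agent.R235.KFin_604
import Crest.Agent.R235.KRhoL_604
import Crest.Agent.R235.KDense_856

/-!
Row 235, KUM-K5 (helper604): the algebraic relations and `KDOWN`.
-/

set_option autoImplicit false
set_option maxSynthPendingDepth 3
set_option linter.unusedSectionVars false

open Set Function Filter
open scoped Manifold ContDiff Topology RealInnerProductSpace

universe u

namespace Crest.Agent.R235.KDown_604

open Crest.Agent.R240 Crest.Agent.R240.Ch Crest.Agent.R235 Crest.Agent.R235.PB_604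
  Crest.Agent.R235.KLin_604 Crest.Agent.R235.KT_604 Crest.Agent.R235.KGlue_604
  Crest.Agent.R235.KForm_604 Crest.Agent.R235.K12_417 Crest.Agent.R235.KUp_604
  Crest.Agent.R235.KReal_604 Crest.Agent.R235.KState_604 Crest.Agent.R235.KSegm_604
  Crest.Agent.R235.KInit_604 Crest.Agent.R235.KFin_604

noncomputable section

/-! ### the relations -/

/-- the relations at a point. -/
def Rel (c : Fin 3 → Bil) : Prop :=
  W (c 1) (c 1) = W (c 2) (c 2) ∧ W (c 1) (c 2) = 0 ∧ W (c 0) (c 1) = 0 ∧ W (c 0) (c 2) = 0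

lemma Rel.pl {c : Fin 3 → Bil} (h : Rel c) (hc : ∀ a, Alt (c a)) (A : E4 →L[ℝ] E4) :
    Rel fun a => pl A (c a) := by
  obtain ⟨h1, h2, h3, h4⟩ := h
  refine ⟨?_, ?_, ?_, ?_⟩
  · rw [W_pl (hc _) (hc _), W_pl (hc _) (hc _), h1]
  · rw [W_pl (hc _) (hc _), h2, mul_zero]
  · rw [W_pl (hc _) (hc _), h3, mul_zero]
  · rw [W_pl (hc _) (hc _), h4, mul_zero]

lemma rel_of_pl {b c : Fin 3 → Bil} (hb : ∀ a, Alt (b a)) {A : E4 →L[ℝ] E4}
    (hA : ∀ v, A v = 0 → v = 0) (h : ∀ a, PB_604.pl A (b a) = c a) (hc : Rel c) : Rel b := by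
  have hd := det_of_inj hA
  obtain ⟨h1, h2, h3, h4⟩ := hc
  rw [← h, ← h, W_pl (hb _) (hb _), W_pl (hb _) (hb _)] at h1
  rw [← h, ← h, W_pl (hb _) (hb _)] at h2 h3 h4
  exact ⟨mul_left_cancel₀ hd h1, (mul_eq_zero.1 h2).resolve_left hd,
    (mul_eq_zero.1 h3).resolve_left hd, (mul_eq_zero.1 h4).resolve_left hd⟩

lemma Rel.diag {c : Fin 3 → Bil} (h : Rel c) {k : Fin 3 → ℝ} (hk : k 1 = k 2) :
    Rel fun a => k a • c a := by
  obtain ⟨h1, h2, h3, h4⟩ := h
  refine ⟨?_, ?_, ?_, ?_⟩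
  · rw [W_smul_left, W_smul_right, W_smul_left, W_smul_right, h1, hk]
  · rw [W_smul_left, W_smul_right, h2, mul_zero, mul_zero]
  · rw [W_smul_left, W_smul_right, h3, mul_zero, mul_zero]
  · rw [W_smul_left, W_smul_right, h4, mul_zero, mul_zero]

lemma rel_neckT {g : ℝ → ℝ} {z : E4} (hz : z ≠ 0) (hg : DifferentiableAt ℝ g (‖z‖ ^ 2)) :
    Rel (neckT g z) := by
  refine ⟨?_, ?_, W_lg_et1 hz hg, W_lg_et2 hz hg⟩
  · show W (et 1) (et 1) = W (et 2) (et 2)
    rw [W_et, W_et]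
  · show W (et 1) (et 2) = 0
    rw [W_et_et, if_neg (by decide)]

lemma rel_et : Rel et := by
  refine ⟨?_, ?_, ?_, ?_⟩
  · rw [W_et, W_et]
  · rw [W_et_et, if_neg (by decide)]
  · rw [W_et_et, if_neg (by decide)]
  · rw [W_et_et, if_neg (by decide)]

/-- recombination by an inverse matrix. -/
lemma sum_inv {A : Matrix (Fin 3) (Fin 3) ℝ} {r : Fin 3 → Fin 3 → ℝ} {κ : ℝ}
    (h : ∀ a d, ∑ b, A a b * r b d = if a = d then κ else 0) (x : Fin 3 → Bil) (a : Fin 3) :
    ∑ b, A a b • ∑ d, r b d • x d = κ • x a := by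
  have h1 : ∑ b, A a b • ∑ d, r b d • x d = ∑ d, (∑ b, A a b * r b d) • x d := by
    simp only [Finset.smul_sum, smul_smul, Finset.sum_smul]
    rw [Finset.sum_comm]
  rw [h1]
  simp only [h, ite_smul, zero_smul]
  rw [Finset.sum_ite_eq]
  simp

section Man

variable {M : Type u} [TopologicalSpace M] [T2Space M] [CompactSpace M]
  [ChartedSpace E4 M] [IsManifold 𝓘(ℝ, E4) ∞ M]

lemma val_rec3 (A : Matrix (Fin 3) (Fin 3) ℝ) (w : Trip M) (a : Fin 3) (x : M) :
    val (rec3 A w a) x = ∑ b, A a b • val (w b) x := by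
  rw [Fin.sum_univ_three]
  show val (∑ b, A a b • w b) x = _
  rw [Fin.sum_univ_three]
  rfl

/-- the relations hold on the closure. -/
lemma rel_closure {w : Trip M} {D : Set M} (h : ∀ x ∈ D, Rel fun a => val (w a) x) {y : M}
    (hy : ∃ᶠ x in 𝓝 y, x ∈ D) : Rel fun a => val (w a) y := by
  set φ := chartAt E4 y with hφ
  have hys : y ∈ φ.source := mem_chart_source E4 y
  set f : Fin 3 → Fin 3 → M → ℝ := fun a b x =>
    W (rep y ((w a).1.1 : F2 E4 M) (φ x)) (rep y ((w b).1.1 : F2 E4 M) (φ x)) with hf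
  have hfx : ∀ x ∈ φ.source, ∃ d : ℝ, d ≠ 0 ∧ ∀ a b : Fin 3,
      f a b x = d * W (val (w a) x) (val (w b) x) := by
    intro x hx
    refine ⟨_, Int.det_tcc_ne hx, fun a b => ?_⟩
    have h1 := Int.W_rep (b := ((w a).1.1 : F2 E4 M)) (c := ((w b).1.1 : F2 E4 M))
      (fun x => alt_val (w a) x) (fun x => alt_val (w b) x) y (φ x)
    rw [hφ, (chartAt E4 y).left_inv hx] at h1
    exact h1
  have hc : ∀ a b, ContinuousAt (f a b) y := by
    intro a b
    have h1 : ∀ a, ContinuousAt (fun x => rep y ((w a).1.1 : F2 E4 M) (φ x)) y := by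
      intro a
      have h2 : ContinuousAt (rep y ((w a).1.1 : F2 E4 M)) (φ y) :=
        (z2At_val (w a) y).sm.continuousAt
      exact ContinuousAt.comp (f := φ) h2 (φ.continuousAt hys)
    exact (continuous_W.continuousAt).comp (f := fun x =>
      (rep y ((w a).1.1 : F2 E4 M) (φ x), rep y ((w b).1.1 : F2 E4 M) (φ x)))
      ((h1 a).prodMk (h1 b))
  have key : ∀ (a b a' b' : Fin 3) (k : ℝ), (∀ x ∈ D, W (val (w a) x) (val (w b) x) =
      k * W (val (w a') x) (val (w b') x)) → W (val (w a) y) (val (w b) y) =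
      k * W (val (w a') y) (val (w b') y) := by
    intro a b a' b' k hD
    have h1 : f a b y = k * f a' b' y := by
      by_contra hne
      have h2 : ContinuousAt (fun x => f a b x - k * f a' b' x) y :=
        (hc a b).sub ((hc a' b').const_mul k)
      have h3 : ∀ᶠ x in 𝓝 y, f a b x - k * f a' b' x ≠ 0 :=
        h2.eventually_ne (sub_ne_zero.2 hne)
      have h4 : ∀ᶠ x in 𝓝 y, x ∈ φ.source := φ.open_source.mem_nhds hys
      obtain ⟨x, hx, hx3, hx4⟩ := (hy.and_eventually (h3.and h4)).exists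
      obtain ⟨d, _, hd⟩ := hfx x hx4
      refine hx3 ?_
      rw [hd, hd, hD x hx]
      ring
    obtain ⟨d, hd0, hd⟩ := hfx y hys
    rw [hd, hd] at h1
    refine mul_left_cancel₀ hd0 ?_
    rw [h1]; ring
  refine ⟨?_, ?_, ?_, ?_⟩
  · have := key 1 1 2 2 1 fun x hx => by rw [one_mul]; exact (h x hx).1
    rwa [one_mul] at this
  · have := key 1 2 1 2 0 fun x hx => by rw [zero_mul]; exact (h x hx).2.1
    rwa [zero_mul] at this
  · have := key 0 1 1 2 0 fun x hx => by rw [zero_mul]; exact (h x hx).2.2.1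
    rwa [zero_mul] at this
  · have := key 0 2 1 2 0 fun x hx => by rw [zero_mul]; exact (h x hx).2.2.2
    rwa [zero_mul] at this

/-- the relations on the spheres. -/
lemma rel_sphere {m : ℕ} {σ : Fin m → E3 → M} {w : Trip M} {R r₀ : Fin m → ℝ}
    {g : Fin m → ℝ → ℝ} {K : KIn M m} (hS : Std σ w K.phi 1 R r₀ g)
    (hσ : ∀ i, EmbS (σ i)) (hKC : ∀ i, K.C i = im (σ i)) (i : Fin m) {y : M} (hy : y ∈ K.C i) :
    Rel fun a => val (w a) y := by
  refine rel_closure (D := K.phi i '' PB 1) ?_ ?_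
  · rintro x ⟨z, hz, rfl⟩
    refine rel_of_pl (fun a => alt_val _ _) (K.imm i z hz) (c := fun a => R i • neckT (g i) z a)
      (fun a => std_pl hS i hz a) ?_
    exact (rel_neckT hz.1 (std_df hS i hz.1)).diag (k := fun _ => R i) rfl
  · intro hcon
    have h1 : K.C i ∪ K.phi i '' PB 1 ∈ 𝓝 y := (K.nbh i 1 one_pos le_rfl).mem_nhds (Or.inl hy)
    have h2 : K.C i ∈ 𝓝 y := by
      filter_upwards [h1, hcon] with x hx hx2
      exact hx.resolve_right hx2
    rw [hKC i] at h2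
    have h3 : y ∈ interior (im (σ i)) := mem_interior_iff_mem_nhds.2 h2
    rw [KDense_856.interior_im (σ i) (hσ i)] at h3
    exact h3

end Man

/-! ### flat triples -/

section Flat

variable {X : Type u} [TopologicalSpace X] [T2Space X] [CompactSpace X]
  [ChartedSpace E4 X] [IsManifold 𝓘(ℝ, E4) ∞ X]

/-- the coframe at `x` as a linear map. -/
def cof (s : Fin 4 → F1 E4 X) (x : X) : E4 →L[ℝ] E4 :=
  ∑ j, (at1 (s j) x).smulRight (ee j)

lemma cof_apply (s : Fin 4 → F1 E4 X) (x : X) (v : E4) (j : Fin 4) :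
    cof s x v j = at1 (s j) x v := by
  unfold cof
  rw [Fin.sum_univ_four]
  simp only [add_apply, ContinuousLinearMap.smulRight_apply]
  fin_cases j <;> simp

/-- the constant coefficient triple. -/
def c0 (c : Fin 3 → Fin 4 → Fin 4 → ℝ) (k : Fin 3) : Bil :=
  ∑ a, ∑ b, c k a b • wed (dx a) (dx b)

lemma c0_apply (c : Fin 3 → Fin 4 → Fin 4 → ℝ) (k : Fin 3) (u v : E4) :
    c0 c k u v = ∑ a, ∑ b, c k a b * (u a * v b - u b * v a) := by
  unfold c0
  simp only [Fin.sum_univ_four, add_apply, smul_apply, wed_apply, dx_apply, smul_eq_mul]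

lemma alt_c0 (c : Fin 3 → Fin 4 → Fin 4 → ℝ) (k : Fin 3) : Alt (c0 c k) := by
  intro v
  rw [c0_apply]
  refine Finset.sum_eq_zero fun a _ => Finset.sum_eq_zero fun b _ => ?_
  ring

lemma val_flat {u : Trip X} {s : Fin 4 → F1 E4 X} {c : Fin 3 → Fin 4 → Fin 4 → ℝ}
    (hc : ∀ k x, val (u k) x = ∑ i, ∑ j, c k i j • wed (at1 (s i) x) (at1 (s j) x)) (k : Fin 3)
    (x : X) : val (u k) x = pl (cof s x) (c0 c k) := by
  ext v v'
  rw [pl_apply, c0_apply, hc]
  simp only [Fin.sum_univ_four, add_apply, smul_apply, wed_apply, smul_eq_mul, cof_apply]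

/-- the matrix of a flat triple. -/
theorem flat_matrix [Nonempty X] {u : Trip X} (hu : Pos3 u) {s : Fin 4 → F1 E4 X}
    (hf : FlatIn u s) : ∃ A : Matrix (Fin 3) (Fin 3) ℝ, A.det ≠ 0 ∧
      (∀ x, Rel fun a => ∑ b, A a b • val (u b) x) ∧
      ∀ (x : X) (L : E4 →L[ℝ] E4), (∀ v, L v = 0 → v = 0) →
        Def3 (fun a => pl L (val (u a) x)) → ∃ κ : ℝ, 0 < κ ∧
        ∀ a d, ∑ b, A a b * rho (fun a => pl L (val (u a) x)) b d = if a = d then κ else 0 := by
  obtain ⟨_, hind, c, hc⟩ := hf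
  have hT : ∀ x v, cof s x v = 0 → v = 0 := by
    intro x v hv
    refine hind x v fun j => ?_
    rw [← cof_apply s x v j, hv]
    rfl
  obtain ⟨x0⟩ := ‹Nonempty X›
  have hpos : PosB (c0 c) := by
    refine (posB_pl (alt_c0 c) (hT x0)).1 ?_
    have h1 : (fun a => pl (cof s x0) (c0 c a)) = fun a => val (u a) x0 :=
      funext fun a => (val_flat hc a x0).symm
    rw [h1]
    exact hu x0
  obtain ⟨N, hN, hd⟩ := KRhoL_604.def3_or (alt_c0 c) hpos
  have hNinj : ∀ v, N v = 0 → v = 0 := by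
    intro v hv
    rw [← hN v, hv, map_zero]
  have hNN : ∀ b : Bil, pl N (pl N b) = b := by
    intro b
    ext v v'
    rw [pl_apply, pl_apply, hN, hN]
  obtain ⟨A, hA0, hA1, hA2⟩ := KFlat_129.flat_alg hd
  have hval : ∀ (x : X) (L : E4 →L[ℝ] E4) a, pl L (val (u a) x) =
      pl (N.comp ((cof s x).comp L)) (pl N (c0 c a)) := by
    intro x L a
    rw [val_flat hc a x, pl_pl, ← hNN (c0 c a), pl_pl, hNN]
  refine ⟨A, hA0, fun x => ?_, fun x L hL hdef => ?_⟩
  · have h1 : (fun a => ∑ b, A a b • val (u b) x) =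
        fun a => pl (N.comp (cof s x)) (zz (fun a => pl N (c0 c a)) a) := by
      funext a
      rw [← hA2 a, pl_sum]
      refine Finset.sum_congr rfl fun b _ => ?_
      have h2 := hval x (ContinuousLinearMap.id ℝ E4) b
      rw [pl_id, ContinuousLinearMap.comp_id] at h2
      rw [h2]
    rw [h1]
    refine Rel.pl ⟨?_, ?_, ?_, ?_⟩ hd.alt_zz _
    · have e1 := hd.g_z1_z1
      have e2 := hd.g_z2_z2
      unfold g at e1 e2
      show W (z1 _) (z1 _) = W (z2 _) (z2 _)
      linarith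
    · have e1 := hd.g_z2_z1
      rw [g_comm] at e1
      unfold g at e1
      show W (z1 _) (z2 _) = 0
      linarith
    · have e1 := hd.g_z1_z0
      rw [g_comm] at e1
      unfold g at e1
      show W (z0 _) (z1 _) = 0
      linarith
    · have e1 := hd.g_z2_z0
      rw [g_comm] at e1
      unfold g at e1
      show W (z0 _) (z2 _) = 0
      linarith
  · set Q := N.comp ((cof s x).comp L) with hQ
    have hQd : 0 < LinearMap.det (Q : E4 →ₗ[ℝ] E4) := by
      have h1 := hdef.g0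
      have h2 := hd.g0
      have h3 : g (pl L (val (u 0) x)) (pl L (val (u 0) x)) =
          LinearMap.det (Q : E4 →ₗ[ℝ] E4) * g (pl N (c0 c 0)) (pl N (c0 c 0)) := by
        rw [hval x L 0]
        unfold g
        rw [W_pl (hd.alt 0) (hd.alt 0)]
        ring
      have h1' : 0 < g (pl L (val (u 0) x)) (pl L (val (u 0) x)) := h1
      have h2' : 0 < g (pl N (c0 c 0)) (pl N (c0 c 0)) := h2
      rw [h3] at h1'
      exact (pos_iff_pos_of_mul_pos h1').2 h2'
    refine ⟨√(LinearMap.det (Q : E4 →ₗ[ℝ] E4)), Real.sqrt_pos.2 hQd, fun a d => ?_⟩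
    have h1 : (fun a => pl L (val (u a) x)) = fun a => pl Q (pl N (c0 c a)) :=
      funext fun a => hval x L a
    rw [h1]
    have h2 : ∀ b, A a b * rho (fun a => pl Q (pl N (c0 c a))) b d =
        √(LinearMap.det (Q : E4 →ₗ[ℝ] E4)) * (A a b * rho (fun a => pl N (c0 c a)) b d) := by
      intro b
      rw [KRhoL_604.rho_pl hd hQd b d]
      ring
    simp only [h2]
    rw [← Finset.mul_sum, hA1 a d]
    split_ifs <;> simp

end Flat

/-! ### KDOWN -/

set_option maxHeartbeats 1000000 in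
theorem kdown (M : Type u) [TopologicalSpace M] [T2Space M] [CompactSpace M] [ConnectedSpace M]
    [ChartedSpace E4 M] [IsManifold 𝓘(ℝ, E4) ∞ M] (w : Trip M) (hw : Pos3 w)
    (m : ℕ) (σ : Fin m → E3 → M) (φ : Fin m → E4 → M) (R r₀ : Fin m → ℝ)
    (g : Fin m → ℝ → ℝ) (hS : Std σ w φ 1 R r₀ g) (hσ : ∀ i, EmbS (σ i)) (K : KIn M m)
    (hKC : ∀ i, K.C i = im (σ i))
    (hKp : K.phi = φ) (X : Type u) [TopologicalSpace X] [T2Space X] [CompactSpace X]
    [ConnectedSpace X] [ChartedSpace E4 X] [IsManifold 𝓘(ℝ, E4) ∞ X] (O : KOut K X)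
    (u u' : Trip X) (hu : Pos3 u) (hl : LiftT w O R r₀ u) (hple : PLE O.io u u') (hu' : Pos3 u')
    (s : Fin 4 → F1 E4 X) (hf : FlatIn u' s) (ho : ∀ i, Odd1 O.io (s i)) :
    ∃ w' : Trip M, PL w w' ∧ Pos3 w' ∧
      ∃ A : Matrix (Fin 3) (Fin 3) ℝ, A.det ≠ 0 ∧ KRel (rec3 A w') := by
  subst hKp
  obtain ⟨C, hC, hpar⟩ := exists_par g hS.g_smooth hS.g_pos
  obtain ⟨A', th', hst', hp', hev⟩ := chain hS hw hC (st_init hS hl) (prim_init hl) hple
  choose Θ hΘ using fun i => exists_flat O hf ho i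
  have hfin := fin_step (g := g) hS hw hC hst' hu' hp' hΘ
  obtain ⟨ε, δ, hε, hε1, hδ, h1, h2⟩ := (hev.and hfin).exists
  obtain ⟨P⟩ := hpar ε δ hε hε1 hδ
  obtain ⟨W0, hW0⟩ := exists_real hS P (st_init hS hl) (prim_init hl)
  obtain ⟨W1, hW1⟩ := exists_real hS P hst' hp'
  have hs0 : Seg w W0 := init_step P hS hw hu hl hW0
  have hs1 : PL W0 W1 := h1 P W0 W1 hW0 hW1
  obtain ⟨F, V, hF, hV, hs2⟩ := h2 P W1 hW1
  have hVpos : Pos3 V := by
    have := hs2 1 zero_le_one le_rfl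
    rwa [seg_one] at this
  obtain ⟨A, hA0, hA1, hA2⟩ := flat_matrix hu' hf
  refine ⟨V, ((Relation.ReflTransGen.single hs0).trans hs1).trans
    (Relation.ReflTransGen.single hs2), hVpos, A, hA0, ?_⟩
  intro y
  show Rel fun a => val (rec3 A V a) y
  have hκ : ∀ i, ∃ κ : ℝ, 0 < κ ∧ ∀ a d, ∑ b, A a b * rD O u' i b d =
      if a = d then κ else 0 := by
    intro i
    exact hA2 (O.ch i 0) (D1 E4 E4 (O.ch i) 0) (O.ch_imm i 0 (by simp)) (hst'.def3 i)
  have hrec : (fun a => val (rec3 A V a) y) = fun a => ∑ b, A a b • val (V b) y :=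
    funext fun a => val_rec3 A V a y
  rw [hrec]
  have halt : ∀ y a, Alt (∑ b, A a b • val (V b) y) := fun y a =>
    alt_sum (fun b => alt_val _ _) (A a)
  rcases cases_M O hε1 y with ⟨i, hi⟩ | ⟨i, z, hz, rfl⟩ | ⟨x, hx, hx2, rfl⟩
  · obtain ⟨κ, hκ0, hκ1⟩ := hκ i
    have e1 : (fun a => ∑ b, A a b • val (V b) y) =
        fun a => (κ * (P.mu i a / R i)) • val (w a) y := by
      funext a
      have e2 : ∀ b, val (V b) y = ∑ d, rD O u' i b d • ((P.mu i d / R i) • val (w d) y) := by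
        intro b
        rw [hV.c i b y hi]
        exact Finset.sum_congr rfl fun d _ => by rw [smul_smul]
      simp only [e2]
      rw [sum_inv hκ1, smul_smul]
    rw [e1]
    exact (rel_sphere hS hσ hKC i hi).diag (k := fun a => κ * (P.mu i a / R i)) rfl
  · obtain ⟨κ, hκ0, hκ1⟩ := hκ i
    refine rel_of_pl (halt _) (K.imm i z hz) (c := fun a => ∑ b, A a b •
      nu P i (rD O u' i) (F i) (fun _ _ => 0) b z) (fun a => ?_) ?_
    · show pl (D1 E4 E4 (K.phi i) z) (∑ b, A a b • val (V b) (K.phi i z)) = _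
      rw [pl_sum]
      exact Finset.sum_congr rfl fun b _ => by rw [hV.n i b z hz]
    · rcases lt_or_ge ‖z‖ P.r0 with hz1 | hz1
      · have e1 : (fun a => ∑ b, A a b • nu P i (rD O u' i) (F i) (fun _ _ => 0) b z) =
            fun a => κ • neckT (P.gd i) z a := by
          funext a
          have e2 : ∀ b, nu P i (rD O u' i) (F i) (fun _ _ => 0) b z =
              ∑ d, rD O u' i b d • neckT (P.gd i) z d := fun b => nu_core (hF i) b hz1
          simp only [e2]
          rw [sum_inv hκ1]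
        rw [e1]
        exact (rel_neckT hz.1 (gd_df P i hz.1)).diag (k := fun _ => κ) rfl
      · have e1 : (fun a => ∑ b, A a b • nu P i (rD O u' i) (F i) (fun _ _ => 0) b z) =
            fun a => κ • pl (fderiv ℝ (F i) z) (et a) := by
          funext a
          have e2 : ∀ b, nu P i (rD O u' i) (F i) (fun _ _ => 0) b z =
              ∑ d, rD O u' i b d • pl (fderiv ℝ (F i) z) (et d) := by
            intro b
            have h3 : d1 (fun y : E4 => P.χ y • (0 : E4 →L[ℝ] ℝ)) z = 0 :=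
              d1_zero_of_ev (Eventually.of_forall fun _ => smul_zero _)
            unfold nu
            rw [gd_one P i hz hz1, sub_self, smul_zero, add_zero, h3, add_zero]
          simp only [e2]
          rw [sum_inv hκ1]
        rw [e1]
        exact (rel_et.pl alt_et _).diag (k := fun _ => κ) rfl
  · refine rel_of_pl (halt _) (O.pr_imm x hx) (c := fun a => ∑ b, A a b • val (u' b) x)
      (fun a => ?_) (hA1 x)
    show pl (D1 E4 E4 O.pr x) (∑ b, A a b • val (V b) (O.pr x)) = _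
    rw [pl_sum]
    exact Finset.sum_congr rfl fun b _ => by rw [hV.o b x hx hx2]

/-- **KDOWN** (helper152's statement, `KumDefs2_152`). -/
theorem kdown_stmt : KDOWN.{u} := fun M _ _ _ _ _ _ w hw m σ φ R r₀ g hS hσ K hKC hKp X _ _ _ _ _ _
    O u u' hu hl hple hu' _ s hf ho =>
  kdown M w hw m σ φ R r₀ g hS hσ K hKC hKp X O u u' hu hl hple hu' s hf ho

end

end Crest.Agent.R235.KDown_604
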