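import Crest.Agent.R235.KTB_172

/-!
Row 235 (S0364), package KUM, step K3 (helper172), part C: the manifold structure of `X K` and the
theorem `kt : KT`.
-/

set_option autoImplicit false
set_option maxSynthPendingDepth 3
set_option linter.unusedSectionVars false

open Set Function Filter Topology
open scoped Manifold ContDiff Topology

universe u

namespace Crest.Agent.R235.KTA_172

open Crest.Agent.R240 Crest.Agent.R240.Ch Crest.Agent.R235 Crest.Agent.R235.KT_604

noncomputable section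

variable {M : Type u} [TopologicalSpace M] [T2Space M] [ChartedSpace E4 M]
  [IsManifold 𝓘(ℝ, E4) ∞ M] {m : ℕ} {K : KIn M m}

/-- the preferred charts. -/
def cht : X K → OpenPartialHomeomorph (X K) E4
  | X.pt p => (sh p).hom.trans (chartAt E4 p.1.1)
  | X.en i => (par i).symm

lemma mem_cht (x : X K) : x ∈ (cht x).source := by
  cases x with
  | pt p =>
    show X.pt p ∈ ((sh p).hom.trans (chartAt E4 p.1.1)).source
    rw [OpenPartialHomeomorph.trans_source]
    exact ⟨mem_sh p, mem_chart_source E4 p.1.1⟩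
  | en i =>
    show X.en i ∈ ch K i '' Metric.ball 0 1
    exact ⟨0, by simp, ch_zero i⟩

instance : ChartedSpace E4 (X K) where
  atlas := range cht
  chartAt := cht
  mem_chart_source := mem_cht
  chart_mem_atlas := mem_range_self

lemma cht_pt_apply (p : Vd K) (x : X K) : cht (X.pt p) x = chartAt E4 p.1.1 (pr K x) := rfl

lemma cht_pt_symm (p : Vd K) (y : E4) :
    (cht (X.pt p)).symm y = (sh p).inv ((chartAt E4 p.1.1).symm y) := rfl

lemma cht_en_symm (i : Fin m) (z : E4) : (cht (X.en i : X K)).symm z = ch K i z := rfl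

lemma cht_en_target (i : Fin m) : (cht (X.en i : X K)).target = Metric.ball 0 1 := rfl

lemma cht_en_source (i : Fin m) : (cht (X.en i : X K)).source = ch K i '' Metric.ball 0 1 := rfl

lemma cht_en_apply {i : Fin m} {z : E4} (hz : z ∈ Metric.ball (0 : E4) 1) :
    cht (X.en i : X K) (ch K i z) = z := (cht (X.en i : X K)).right_inv hz

lemma mem_pt_source {p : Vd K} {x : X K} : x ∈ (cht (X.pt p)).source ↔
    x ∈ (sh p).inv '' (sh p).U ∧ pr K x ∈ (chartAt E4 p.1.1).source := by
  show x ∈ ((sh p).hom.trans (chartAt E4 p.1.1)).source ↔ _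
  rw [OpenPartialHomeomorph.trans_source]
  rfl

lemma mem_pt_target {p : Vd K} {y : E4} : y ∈ (cht (X.pt p)).target ↔
    y ∈ (chartAt E4 p.1.1).target ∧ (chartAt E4 p.1.1).symm y ∈ (sh p).U := by
  show y ∈ ((sh p).hom.trans (chartAt E4 p.1.1)).target ↔ _
  rw [OpenPartialHomeomorph.trans_target]
  rfl

/-- the transition from a chart at a new point to a regular chart. -/
lemma trans_en_pt (i : Fin m) (q : Vd K) {z : E4}
    (hz : z ∈ ((par i).trans (cht (X.pt q))).source) : z ∈ PB 1 ∧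
    K.phi i z ∈ (chartAt E4 q.1.1).source := by
  rw [OpenPartialHomeomorph.trans_source] at hz
  obtain ⟨hz1, hz2⟩ := hz
  have hz3 : ch K i z ∈ (cht (X.pt q)).source := hz2
  rw [mem_pt_source, Sheet.mem_iff] at hz3
  have hz4 : z ∈ PB 1 := by
    rcases ball_PB hz1 with h | h
    · rw [h, ch_zero] at hz3
      exact absurd rfl (hz3.1.1 i)
    · exact h
  refine ⟨hz4, ?_⟩
  rw [← pr_ch hz4]
  exact hz3.2

lemma trans_en_pt_ev (i : Fin m) (q : Vd K) {z : E4} (hz : z ∈ PB 1) :
    (fun w => ((par i).trans (cht (X.pt q))) w) =ᶠ[𝓝 z] fun w => chartAt E4 q.1.1 (K.phi i w) := by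
  filter_upwards [(isOpen_PB 1).mem_nhds hz] with w hw
  show chartAt E4 q.1.1 (pr K (ch K i w)) = _
  rw [pr_ch hw]

lemma trans_cd (i : Fin m) (q : Vd K) {z : E4}
    (hz : z ∈ ((par i).trans (cht (X.pt q))).source) :
    ContDiffAt ℝ ∞ ((par i).trans (cht (X.pt q))) z ∧
      ∃ L : E4 ≃L[ℝ] E4, HasFDerivAt ((par i).trans (cht (X.pt q))) (L : E4 →L[ℝ] E4) z := by
  obtain ⟨h1, h2⟩ := trans_en_pt i q hz
  have hcd : ContDiffAt ℝ ∞ (fun y => chartAt E4 q.1.1 (K.phi i y)) z :=
    Dm_61.contDiffAt_chart (phi_at h1) h2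
  have hcd' : ContDiffAt ℝ ∞ ((par i).trans (cht (X.pt q))) z :=
    hcd.congr_of_eventuallyEq (trans_en_pt_ev i q h1)
  refine ⟨hcd', ?_⟩
  have hder := (hcd'.differentiableAt (by simp)).hasFDerivAt
  set f' := fderiv ℝ ((par i).trans (cht (X.pt q))) z with hf'
  have hinj : Function.Injective f' := by
    rw [injective_iff_map_eq_zero]
    intro v hv
    have h3 : fderiv ℝ (fun y => chartAt E4 q.1.1 (K.phi i y)) z v = 0 := by
      have h4 := (trans_en_pt_ev i q h1).fderiv_eq (𝕜 := ℝ)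
      rw [← h4]
      exact hv
    exact K.imm i z h1 v ((Dm_61.dmap_eq_zero_iff (phi_at h1) h2 v).2 h3)
  refine ⟨(LinearEquiv.ofInjectiveEndo (f' : E4 →ₗ[ℝ] E4) hinj).toContinuousLinearEquiv, ?_⟩
  have hL : (((LinearEquiv.ofInjectiveEndo (f' : E4 →ₗ[ℝ] E4)
      hinj).toContinuousLinearEquiv : E4 ≃L[ℝ] E4) : E4 →L[ℝ] E4) = f' := by
    ext v
    rfl
  rw [hL]
  exact hder

lemma trans_smooth (x y : X K) :
    ContDiffOn ℝ ∞ ((cht x).symm.trans (cht y)) ((cht x).symm.trans (cht y)).source := by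
  cases x with
  | pt p =>
    cases y with
    | pt q =>
      intro z hz
      rw [OpenPartialHomeomorph.trans_source] at hz
      obtain ⟨hz1, hz2⟩ := hz
      have hz1' : z ∈ (cht (X.pt p)).target := hz1
      have hz2' : (cht (X.pt p)).symm z ∈ (cht (X.pt q)).source := hz2
      rw [mem_pt_target] at hz1'
      rw [mem_pt_source, cht_pt_symm, (sh p).pr_inv hz1'.2] at hz2'
      have h1 : ContDiffAt ℝ ∞ (Ch.trans (E := E4) p.1.1 q.1.1) z :=
        trans_contDiffAt hz1'.1 hz2'.2
      refine (h1.congr_of_eventuallyEq ?_).contDiffWithinAt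
      filter_upwards [(cht (X.pt p)).open_target.mem_nhds hz1] with w hw
      rw [mem_pt_target] at hw
      show chartAt E4 q.1.1 (pr K ((sh p).inv ((chartAt E4 p.1.1).symm w))) = _
      rw [(sh p).pr_inv hw.2]
      rfl
    | en i =>
      intro z hz
      have he : (cht (X.pt p)).symm.trans (cht (X.en i)) = ((par i).trans (cht (X.pt p))).symm := by
        rw [OpenPartialHomeomorph.trans_symm_eq_symm_trans_symm]
        rfl
      rw [he] at hz ⊢
      set T := (par i).trans (cht (X.pt p)) with hT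
      have hz1 : z ∈ T.target := hz
      have hz2 : T.symm z ∈ T.source := T.map_target hz1
      obtain ⟨h1, L, hL⟩ := trans_cd i p hz2
      exact (T.contDiffAt_symm hz1 hL h1).contDiffWithinAt
  | en i =>
    cases y with
    | pt q =>
      intro z hz
      exact (trans_cd i q hz).1.contDiffWithinAt
    | en j =>
      intro z hz
      rw [OpenPartialHomeomorph.trans_source] at hz
      obtain ⟨hz1, hz2⟩ := hz
      have hz1' : z ∈ Metric.ball (0 : E4) 1 := hz1
      have hz2' : ch K i z ∈ ch K j '' Metric.ball 0 1 := hz2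
      obtain ⟨w, hw, hwz⟩ := hz2'
      have hij : i = j := by
        by_contra hne
        exact ch_sep (Ne.symm hne) hw hz1' hwz
      subst hij
      refine (contDiffAt_id.congr_of_eventuallyEq ?_).contDiffWithinAt
      filter_upwards [Metric.isOpen_ball.mem_nhds hz1'] with w' hw'
      exact cht_en_apply hw'

instance manX : IsManifold 𝓘(ℝ, E4) ∞ (X K) := by
  refine isManifold_of_contDiffOn _ _ _ ?_
  rintro _ _ ⟨x, rfl⟩ ⟨y, rfl⟩
  have h := trans_smooth x y
  simpa using h

/-! ### smoothness of the maps -/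

lemma ch_smooth (i : Fin m) : ContMDiffOn 𝓘(ℝ, E4) 𝓘(ℝ, E4) ∞ (ch K i) (Metric.ball 0 1) :=
  contMDiffOn_chart_symm (I := 𝓘(ℝ, E4)) (x := (X.en i : X K))

lemma chartAt_eq (x : X K) : chartAt E4 x = cht x := rfl

lemma ch_imm (i : Fin m) {z : E4} (hz : z ∈ Metric.ball (0 : E4) 1) (v : E4)
    (hv : dmap (ch K i) z v = 0) : v = 0 := by
  rcases ball_PB hz with rfl | hz1
  · have h1 : (fun w : E4 => chartAt E4 (ch K i 0) (ch K i w)) =ᶠ[𝓝 0] id := by
      filter_upwards [Metric.isOpen_ball.mem_nhds hz] with w hw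
      rw [chartAt_eq, ch_zero]
      exact cht_en_apply hw
    unfold dmap at hv
    rw [h1.fderiv_eq, fderiv_id] at hv
    exact hv
  · refine K.imm i z hz1 v ?_
    have h1 : (fun w : E4 => chartAt E4 (ch K i z) (ch K i w)) =ᶠ[𝓝 z]
        fun w => chartAt E4 (K.phi i z) (K.phi i w) := by
      filter_upwards [(isOpen_PB 1).mem_nhds hz1] with w hw
      rw [chartAt_eq, ch_pt hz1, cht_pt_apply, pr_ch hw]
    unfold dmap at hv ⊢
    rwa [h1.fderiv_eq] at hv

lemma pr_ev (p : Vd K) : (fun y : E4 => chartAt E4 p.1.1 (pr K ((cht (X.pt p)).symm y)))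
    =ᶠ[𝓝 (cht (X.pt p) (X.pt p))] id := by
  filter_upwards [(cht (X.pt p)).open_target.mem_nhds
    ((cht (X.pt p)).map_source (mem_cht _))] with y hy
  rw [mem_pt_target] at hy
  rw [cht_pt_symm, (sh p).pr_inv hy.2]
  exact (chartAt E4 p.1.1).right_inv hy.1

lemma pr_smooth_at (p : Vd K) : ContMDiffAt 𝓘(ℝ, E4) 𝓘(ℝ, E4) ∞ (pr K) (X.pt p) := by
  rw [contMDiffAt_iff]
  refine ⟨continuousAt_pr_pt p, ?_⟩
  have h : ContDiffAt ℝ ∞ (fun y : E4 => chartAt E4 p.1.1 (pr K ((cht (X.pt p)).symm y)))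
      (cht (X.pt p) (X.pt p)) := contDiffAt_id.congr_of_eventuallyEq (pr_ev p)
  have h2 := h.contDiffWithinAt (s := univ)
  simpa [Function.comp_def, chartAt_eq] using h2

lemma pr_imm (p : Vd K) (v : E4) (hv : dX (E := E4) (F := E4) (pr K) (X.pt p) v = 0) : v = 0 := by
  unfold dX at hv
  have h := (pr_ev p).fderiv_eq (𝕜 := ℝ)
  rw [fderiv_id] at h
  have h2 : fderiv ℝ (fun y : E4 => chartAt E4 (pr K (X.pt p))
      (pr K ((chartAt E4 (X.pt p : X K)).symm y))) (chartAt E4 (X.pt p : X K) (X.pt p)) =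
      ContinuousLinearMap.id ℝ E4 := h
  rw [h2] at hv
  exact hv

lemma io_smooth_at (x : X K) : ContMDiffAt 𝓘(ℝ, E4) 𝓘(ℝ, E4) ∞ (io K) x := by
  rw [contMDiffAt_iff]
  refine ⟨continuous_io.continuousAt, ?_⟩
  cases x with
  | pt p =>
    have h : ContDiffAt ℝ ∞ (fun y : E4 => cht (io K (X.pt p)) (io K ((cht (X.pt p)).symm y)))
        (cht (X.pt p) (X.pt p)) := by
      refine contDiffAt_id.congr_of_eventuallyEq ?_
      filter_upwards [pr_ev p] with y hy
      rw [io_pt, cht_pt_apply, pr_io]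
      exact hy
    have h2 := h.contDiffWithinAt (s := univ)
    simpa [Function.comp_def, chartAt_eq] using h2
  | en i =>
    have h : ContDiffAt ℝ ∞ (fun y : E4 => cht (io K (X.en i)) (io K ((cht (X.en i)).symm y)))
        (cht (X.en i : X K) (X.en i)) := by
      refine (contDiff_neg (𝕜 := ℝ) (F := E4) (n := ∞)).contDiffAt.congr_of_eventuallyEq ?_
      have h0 : cht (X.en i : X K) (X.en i) ∈ Metric.ball (0 : E4) 1 :=
        (cht (X.en i : X K)).map_source (mem_cht _)
      filter_upwards [Metric.isOpen_ball.mem_nhds h0] with y hy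
      rw [io_en, cht_en_symm, io_ch]
      exact cht_en_apply (by simpa using hy)
    have h2 := h.contDiffWithinAt (s := univ)
    simpa [Function.comp_def, chartAt_eq] using h2

lemma reg_iff {x : X K} : (∀ i, x ≠ ch K i 0) ↔ ∀ i, x ≠ X.en i := by
  simp only [ch_zero]

/-- the output structure. -/
def kout (K : KIn M m) : KOut K (X K) where
  pr := pr K
  io := io K
  ch := ch K
  lf := lf K
  ch_smooth := ch_smooth
  ch_imm := fun i z hz v hv => ch_imm i hz v hv
  ch_inj := ch_injOn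
  ch_sep := fun i j hij z hz z' hz' => ch_sep hij hz hz'
  ch_open := fun i r _ hr1 => isOpen_ch_image i Metric.isOpen_ball (Metric.ball_subset_ball hr1)
  ch_nhds := by
    intro i O hO hi
    rw [ch_zero] at hi
    obtain ⟨r, hr, hr1, h⟩ := (isOpen_X.1 hO).2 i hi
    refine ⟨r, hr, hr1, ?_⟩
    rintro _ ⟨z, hz, rfl⟩
    rcases ball_PB hz with h' | h'
    · rw [h', ch_zero]; exact hi
    · exact h z h'
  io_smooth := io_smooth_at
  io_io := io_io
  io_ch := fun i z _ => io_ch i z
  io_ne := by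
    intro x hx h
    obtain ⟨p, rfl⟩ := exists_pt (reg_iff.1 hx)
    have h1 := congrArg (lf K) h
    rw [lf_io, lf_pt] at h1
    have h0 : p.1.2 ≠ 0 := (tw_eq p.2).1
    have h5 : (2 : ℂ) • p.1.2 = 0 := by
      rw [two_smul]
      nth_rewrite 1 [← h1]
      simp
    exact h0 ((smul_eq_zero.1 h5).resolve_left two_ne_zero)
  pr_smooth := by
    intro x hx
    obtain ⟨p, rfl⟩ := exists_pt (reg_iff.1 hx)
    exact (pr_smooth_at p).contMDiffWithinAt
  pr_imm := by
    intro x hx v hv
    obtain ⟨p, rfl⟩ := exists_pt (reg_iff.1 hx)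
    exact pr_imm p v hv
  pr_out := by
    intro x hx i
    obtain ⟨p, rfl⟩ := exists_pt (reg_iff.1 hx)
    exact p.2.1 i
  pr_surj := by
    intro y hy
    obtain ⟨U, hU, v, _, hv⟩ := K.tw_loc y hy
    have hyv : (y, v y) ∈ Vd K := by
      refine ⟨hy, ?_⟩
      rw [(hv y (mem_of_mem_nhds hU)).2]
      exact Or.inl rfl
    exact ⟨X.pt ⟨(y, v y), hyv⟩, reg_iff.2 (fun i h => by cases h), rfl⟩
  pr_io := fun x _ => pr_io x
  pr_inj := by
    intro x x' hx hx' h
    obtain ⟨p, rfl⟩ := exists_pt (reg_iff.1 hx)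
    obtain ⟨q, rfl⟩ := exists_pt (reg_iff.1 hx')
    have h' : p.1.1 = q.1.1 := h
    have h1 := q.2.2
    rw [← h', (tw_eq p.2).2] at h1
    rcases h1 with h1 | h1
    · left
      exact ext_pt (reg_iff.1 hx') (reg_iff.1 hx) h.symm h1
    · right
      rw [mem_singleton_iff] at h1
      refine ext_pt (reg_iff.1 hx') (fun j h => by cases h) ?_ ?_
      · rw [pr_io]; exact h.symm
      · rw [lf_io]; exact h1
  pr_ch := fun i z hz => pr_ch hz
  lf_cont := fun x hx => (continuousAt_lf (reg_iff.1 hx)).continuousWithinAt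
  lf_mem := fun x hx => (reg_mem (reg_iff.1 hx)).2
  lf_io := fun x _ => lf_io x
  lf_ch := fun i z hz => lf_ch hz

/-- **K3**: the manifold exists. -/
theorem kt : KT.{u} := by
  intro M _ _ _ _ _ _ m hm K
  exact ⟨X K, inferInstance, t2X, compactX, connX hm, inferInstance, manX, ⟨kout K⟩⟩

end

end Crest.Agent.R235.KTA_172
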