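import Crest.Agent.R235.Defs_837

/-!
Row 235 (S0364), package KUM, step K3 (helper604): INTERFACE for the closed four-manifold `X`
(the double cover of `M` minus the spheres `C i`, with one point added at each end).

`KIn M m` = the data on `M`; `KOut K X` = everything which is used of `X`;
`KT` = the existence statement (a `Prop`, owner: helper172 / helper604).
-/

set_option autoImplicit false
set_option maxSynthPendingDepth 3

open Set Function Filter MeasureTheory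
open scoped Manifold ContDiff Topology

universe u

namespace Crest.Agent.R235.KT_604

open Crest.Agent.R240 Crest.Agent.R240.Ch Crest.Agent.R235

noncomputable section

/-- the punctured ball. -/
def PB (r : ℝ) : Set E4 := {z | z ≠ 0 ∧ ‖z‖ < r}

/-- the differential of a map in the preferred charts. -/
def dX {E F : Type} [NormedAddCommGroup E] [NormedSpace ℝ E] [NormedAddCommGroup F]
    [NormedSpace ℝ F] {X M : Type u} [TopologicalSpace X] [ChartedSpace E X]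
    [TopologicalSpace M] [ChartedSpace F M] (f : X → M) (x : X) : E →L[ℝ] F :=
  fderiv ℝ (fun y : E => chartAt F (f x) (f ((chartAt E x).symm y))) (chartAt E x x)

/-- the target of the double-valued function. -/
abbrev CN (N : ℕ) : Type := EuclideanSpace ℂ (Fin N)

/-- the data on `M`: compact sets `C i` (the spheres) with necks `phi i : ball ∖ 0 → M ∖ ⋃ C`,
two-to-one, and a double-valued function `tw` on `M ∖ ⋃ C` with monodromy `-1` on the necks. -/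
structure KIn (M : Type u) [TopologicalSpace M] [ChartedSpace E4 M] (m : ℕ) where
  C : Fin m → Set M
  cpt : ∀ i, IsCompact (C i)
  disj : ∀ i j, i ≠ j → Disjoint (C i) (C j)
  phi : Fin m → E4 → M
  smooth : ∀ i, ContMDiffOn 𝓘(ℝ, E4) 𝓘(ℝ, E4) ∞ (phi i) (PB 1)
  even : ∀ i, ∀ z ∈ PB 1, phi i (-z) = phi i z
  inj : ∀ i, ∀ z ∈ PB 1, ∀ z' ∈ PB 1, phi i z = phi i z' → z' = z ∨ z' = -z
  imm : ∀ i, ∀ z ∈ PB 1, ∀ v : E4, dmap (phi i) z v = 0 → v = 0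
  out : ∀ i j, ∀ z ∈ PB 1, phi i z ∉ C j
  sep : ∀ i j, i ≠ j → ∀ z ∈ PB 1, ∀ z' ∈ PB 1, phi i z ≠ phi j z'
  nbh : ∀ i (r : ℝ), 0 < r → r ≤ 1 → IsOpen (C i ∪ phi i '' PB r)
  shrink : ∀ i (O : Set M), IsOpen O → C i ⊆ O → ∃ r : ℝ, 0 < r ∧ r ≤ 1 ∧ phi i '' PB r ⊆ O
  N : ℕ
  tw : M → Set (CN N)
  tw_loc : ∀ x, (∀ i, x ∉ C i) → ∃ U ∈ 𝓝 x, ∃ v : M → CN N, ContinuousOn v U ∧
    ∀ y ∈ U, v y ≠ 0 ∧ tw y = {v y, - v y}
  psi : Fin m → E4 → CN N
  psi_cont : ∀ i, ContinuousOn (psi i) (PB 1)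
  psi_mem : ∀ i, ∀ z ∈ PB 1, psi i z ∈ tw (phi i z)
  psi_odd : ∀ i, ∀ z ∈ PB 1, psi i (-z) = - psi i z

/-- the closed four-manifold `X`, with the projection `pr` (off the points `ch i 0`), the
involution `io`, the charts `ch i` round the new points and the lift `lf` of the double-valued
function. -/
structure KOut {M : Type u} [TopologicalSpace M] [ChartedSpace E4 M] {m : ℕ} (K : KIn M m)
    (X : Type u) [TopologicalSpace X] [ChartedSpace E4 X] where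
  pr : X → M
  io : X → X
  ch : Fin m → E4 → X
  lf : X → CN K.N
  /- the charts round the new points -/
  ch_smooth : ∀ i, ContMDiffOn 𝓘(ℝ, E4) 𝓘(ℝ, E4) ∞ (ch i) (Metric.ball 0 1)
  ch_imm : ∀ i, ∀ z ∈ Metric.ball (0 : E4) 1, ∀ v : E4, dmap (ch i) z v = 0 → v = 0
  ch_inj : ∀ i, InjOn (ch i) (Metric.ball 0 1)
  ch_sep : ∀ i j, i ≠ j → ∀ z ∈ Metric.ball (0 : E4) 1, ∀ z' ∈ Metric.ball (0 : E4) 1,
    ch i z ≠ ch j z'
  ch_open : ∀ i (r : ℝ), 0 < r → r ≤ 1 → IsOpen (ch i '' Metric.ball 0 r)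
  ch_nhds : ∀ i (O : Set X), IsOpen O → ch i 0 ∈ O → ∃ r : ℝ, 0 < r ∧ r ≤ 1 ∧
    ch i '' Metric.ball 0 r ⊆ O
  /- the involution -/
  io_smooth : ContMDiff 𝓘(ℝ, E4) 𝓘(ℝ, E4) ∞ io
  io_io : ∀ x, io (io x) = x
  io_ch : ∀ i, ∀ z ∈ Metric.ball (0 : E4) 1, io (ch i z) = ch i (-z)
  io_ne : ∀ x, (∀ i, x ≠ ch i 0) → io x ≠ x
  /- the projection -/
  pr_smooth : ContMDiffOn 𝓘(ℝ, E4) 𝓘(ℝ, E4) ∞ pr {x | ∀ i, x ≠ ch i 0}
  pr_imm : ∀ x, (∀ i, x ≠ ch i 0) → ∀ v : E4, dX (E := E4) (F := E4) pr x v = 0 → v = 0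
  pr_out : ∀ x, (∀ i, x ≠ ch i 0) → ∀ i, pr x ∉ K.C i
  pr_surj : ∀ y : M, (∀ i, y ∉ K.C i) → ∃ x, (∀ i, x ≠ ch i 0) ∧ pr x = y
  pr_io : ∀ x, (∀ i, x ≠ ch i 0) → pr (io x) = pr x
  pr_inj : ∀ x x', (∀ i, x ≠ ch i 0) → (∀ i, x' ≠ ch i 0) → pr x = pr x' → x' = x ∨ x' = io x
  pr_ch : ∀ i, ∀ z ∈ PB 1, pr (ch i z) = K.phi i z
  /- the lift of the double-valued function -/
  lf_cont : ContinuousOn lf {x | ∀ i, x ≠ ch i 0}
  lf_mem : ∀ x, (∀ i, x ≠ ch i 0) → lf x ∈ K.tw (pr x)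
  lf_io : ∀ x, (∀ i, x ≠ ch i 0) → lf (io x) = - lf x
  lf_ch : ∀ i, ∀ z ∈ PB 1, lf (ch i z) = K.psi i z

/-- KT: the manifold exists. -/
def KT : Prop :=
  ∀ (M : Type u) [TopologicalSpace M] [T2Space M] [CompactSpace M] [ConnectedSpace M]
    [ChartedSpace E4 M] [IsManifold 𝓘(ℝ, E4) ∞ M] (m : ℕ), 0 < m → ∀ K : KIn M m,
    ∃ (X : Type u) (_ : TopologicalSpace X) (_ : T2Space X) (_ : CompactSpace X)
      (_ : ConnectedSpace X) (_ : ChartedSpace E4 X) (_ : IsManifold 𝓘(ℝ, E4) ∞ X),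
      Nonempty (KOut K X)

end

end Crest.Agent.R235.KT_604
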