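import Crest.Agent.R240.Ch4
import Crest.Agent.R240.XInst

/-!
Row 235 (helper604): PULL BACK of one- and two-forms under smooth maps `f : X → M` between
manifolds charted on (different) normed spaces `E`, `F`; forms as in R240 (`F1`, `F2`, `rep`).

* `D1 E F f x : E →L[ℝ] F` differential of `f` in the preferred charts;
* `pb1 f s`, `pb2 f a` pull backs;
* `fderiv_mrep`: the differential in arbitrary charts; `rep_pb2`, `rep1_pb1`;
* `Z2At a x`: `a` is alternating, smooth and closed at `x`; `Z2At.pb2`, `Z2At.congr`;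
* `D1_comp`, `pb2_comp`: functoriality; `exists_localInv`: local inverses.
-/

set_option autoImplicit false
set_option maxSynthPendingDepth 3
set_option linter.unusedSectionVars false

open Set Function Filter
open scoped Manifold ContDiff Topology

namespace Crest.Agent.R235.PB_604

open Crest.Agent.R240 Crest.Agent.R240.Ch

noncomputable section

/-! ### calculus in normed spaces -/

section Normed

variable {E F : Type*} [NormedAddCommGroup E] [NormedSpace ℝ E] [NormedAddCommGroup F]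
  [NormedSpace ℝ F]

/-- pull back of a bilinear form by a linear map. -/
def pl (A : E →L[ℝ] F) (b : F →L[ℝ] F →L[ℝ] ℝ) : E →L[ℝ] E →L[ℝ] ℝ :=
  ((ContinuousLinearMap.compL ℝ E F ℝ).flip A).comp (b.comp A)

@[simp] lemma pl_apply (A : E →L[ℝ] F) (b : F →L[ℝ] F →L[ℝ] ℝ) (u v : E) :
    pl A b u v = b (A u) (A v) := by
  simp [pl]

lemma pl_add (A : E →L[ℝ] F) (b c : F →L[ℝ] F →L[ℝ] ℝ) : pl A (b + c) = pl A b + pl A c := by
  ext u v; simp

lemma pl_smul (A : E →L[ℝ] F) (r : ℝ) (b : F →L[ℝ] F →L[ℝ] ℝ) : pl A (r • b) = r • pl A b := by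
  ext u v; simp

lemma contDiffAt_pl {G : Type*} [NormedAddCommGroup G] [NormedSpace ℝ G] {n : WithTop ℕ∞}
    {A : G → E →L[ℝ] F} {b : G → F →L[ℝ] F →L[ℝ] ℝ} {y : G}
    (hA : ContDiffAt ℝ n A y) (hb : ContDiffAt ℝ n b y) :
    ContDiffAt ℝ n (fun z => pl (A z) (b z)) y := by
  unfold pl
  have h1 : ContDiffAt ℝ n (fun z => (ContinuousLinearMap.compL ℝ E F ℝ).flip (A z)) y :=
    ((ContinuousLinearMap.compL ℝ E F ℝ).flip.contDiff.contDiffAt).comp y hA
  exact h1.clm_comp (hb.clm_comp hA)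

lemma fderiv_pair' {b : E → F →L[ℝ] F →L[ℝ] ℝ} {Y Z : E → F} {y : E}
    (hb : DifferentiableAt ℝ b y) (hY : DifferentiableAt ℝ Y y) (hZ : DifferentiableAt ℝ Z y)
    (u : E) :
    fderiv ℝ (fun z => b z (Y z) (Z z)) y u =
      fderiv ℝ b y u (Y y) (Z y) + b y (fderiv ℝ Y y u) (Z y) + b y (Y y) (fderiv ℝ Z y u) := by
  have h1 : DifferentiableAt ℝ (fun z => b z (Y z)) y := hb.clm_apply hY
  rw [fderiv_clm_apply h1 hZ, fderiv_clm_apply hb hY]
  simp only [add_apply, ContinuousLinearMap.comp_apply, ContinuousLinearMap.flip_apply]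
  ring

/-- symmetry of the second derivative -/
lemma snd_symm' {φ : E → F} {y : E} (h : ContDiffAt ℝ ∞ φ y) (u v : E) :
    fderiv ℝ (fderiv ℝ φ) y u v = fderiv ℝ (fderiv ℝ φ) y v u := by
  have h1 : IsSymmSndFDerivAt ℝ φ y := (h.of_le two_le_infty).isSymmSndFDerivAt (by simp)
  exact h1 u v

/-- naturality of the exterior derivative of one-forms. -/
lemma d1_pullback' {s : F → F →L[ℝ] ℝ} {t : E → E →L[ℝ] ℝ} {φ : E → F} {y : E}
    (hφ : ContDiffAt ℝ ∞ φ y) (hs : DifferentiableAt ℝ s (φ y))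
    (ht : ∀ᶠ z in 𝓝 y, t z = (s (φ z)).comp (fderiv ℝ φ z)) (u v : E) :
    d1 t y u v = d1 s (φ y) (fderiv ℝ φ y u) (fderiv ℝ φ y v) := by
  have hd : DifferentiableAt ℝ φ y := hφ.differentiableAt infty_ne_zero
  have hdd : DifferentiableAt ℝ (fderiv ℝ φ) y :=
    (hφ.fderiv_right (m := ∞) (by simp)).differentiableAt infty_ne_zero
  have key : ∀ u v, fderiv ℝ t y u v = fderiv ℝ s (φ y) (fderiv ℝ φ y u) (fderiv ℝ φ y v)
      + s (φ y) (fderiv ℝ (fderiv ℝ φ) y u v) := by
    intro u v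
    rw [Filter.EventuallyEq.fderiv_eq ht]
    have h1 : DifferentiableAt ℝ (fun z => s (φ z)) y := hs.comp y hd
    have h2 : fderiv ℝ (fun z => s (φ z)) y = (fderiv ℝ s (φ y)).comp (fderiv ℝ φ y) :=
      fderiv_comp y hs hd
    rw [fderiv_clm_comp h1 hdd, h2]
    simp only [add_apply, ContinuousLinearMap.comp_apply, ContinuousLinearMap.compL_apply,
      ContinuousLinearMap.flip_apply]
    ring
  rw [d1_apply, d1_apply, key, key, snd_symm' hφ u v]
  ring

/-- naturality of the exterior derivative of two-forms. -/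
lemma dd_pullback' {b : F → F →L[ℝ] F →L[ℝ] ℝ} {t : E → E →L[ℝ] E →L[ℝ] ℝ} {φ : E → F} {y : E}
    (hφ : ContDiffAt ℝ ∞ φ y)
    (hb : DifferentiableAt ℝ b (φ y)) (halt : ∀ u v, b (φ y) u v = - b (φ y) v u)
    (htd : DifferentiableAt ℝ t y)
    (ht : ∀ᶠ z in 𝓝 y, ∀ u v, t z u v = b (φ z) (fderiv ℝ φ z u) (fderiv ℝ φ z v)) (u v w : E) :
    dd t y u v w = dd b (φ y) (fderiv ℝ φ y u) (fderiv ℝ φ y v) (fderiv ℝ φ y w) := by
  have hd : DifferentiableAt ℝ φ y := hφ.differentiableAt infty_ne_zero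
  have hdd : DifferentiableAt ℝ (fderiv ℝ φ) y :=
    (hφ.fderiv_right (m := ∞) (by simp)).differentiableAt infty_ne_zero
  have hc : ∀ v : E, DifferentiableAt ℝ (fun z => fderiv ℝ φ z v) y := fun v =>
    hdd.clm_apply (differentiableAt_const v)
  have hcv : ∀ u v : E, fderiv ℝ (fun z => fderiv ℝ φ z v) y u = fderiv ℝ (fderiv ℝ φ) y u v := by
    intro u v
    rw [fderiv_clm_apply hdd (differentiableAt_const v)]
    simp
  have hbφ : DifferentiableAt ℝ (fun z => b (φ z)) y := hb.comp y hd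
  have hbφ' : fderiv ℝ (fun z => b (φ z)) y = (fderiv ℝ b (φ y)).comp (fderiv ℝ φ y) :=
    fderiv_comp y hb hd
  have key : ∀ u v w, fderiv ℝ t y u v w =
      fderiv ℝ b (φ y) (fderiv ℝ φ y u) (fderiv ℝ φ y v) (fderiv ℝ φ y w)
      + b (φ y) (fderiv ℝ (fderiv ℝ φ) y u v) (fderiv ℝ φ y w)
      + b (φ y) (fderiv ℝ φ y v) (fderiv ℝ (fderiv ℝ φ) y u w) := by
    intro u v w
    have h1 : fderiv ℝ (fun z => t z v w) y u = fderiv ℝ t y u v w := by
      have h2 : DifferentiableAt ℝ (fun z => t z v) y := htd.clm_apply (differentiableAt_const v)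
      rw [fderiv_clm_apply h2 (differentiableAt_const w),
        fderiv_clm_apply htd (differentiableAt_const v)]
      simp
    have h3 : (fun z => t z v w) =ᶠ[𝓝 y] fun z => b (φ z) (fderiv ℝ φ z v) (fderiv ℝ φ z w) :=
      ht.mono fun z hz => hz v w
    rw [← h1, h3.fderiv_eq, fderiv_pair' hbφ (hc v) (hc w), hcv, hcv, hbφ']
    rfl
  unfold dd
  rw [key, key, key, snd_symm' hφ v u, snd_symm' hφ w u, snd_symm' hφ w v,
    halt (fderiv ℝ (fderiv ℝ φ) y u w) (fderiv ℝ φ y v)]
  ring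

end Normed

/-! ### maps between manifolds -/

section Man

variable {E F G : Type*} [NormedAddCommGroup E] [NormedSpace ℝ E] [NormedAddCommGroup F]
  [NormedSpace ℝ F] [NormedAddCommGroup G] [NormedSpace ℝ G]
variable {X M N : Type*} [TopologicalSpace X] [ChartedSpace E X] [TopologicalSpace M]
  [ChartedSpace F M] [TopologicalSpace N] [ChartedSpace G N]

/-- the map `f` in the charts at `p` and `q`. -/
def mrep (E F : Type*) [NormedAddCommGroup E] [NormedSpace ℝ E] [NormedAddCommGroup F]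
    [NormedSpace ℝ F] {X M : Type*} [TopologicalSpace X] [ChartedSpace E X] [TopologicalSpace M]
    [ChartedSpace F M] (p : X) (q : M) (f : X → M) : E → F := fun y => chartAt F q (f ((chartAt E p).symm y))

/-- the differential of `f` at `x`, in the preferred charts. -/
def D1 (E F : Type*) [NormedAddCommGroup E] [NormedSpace ℝ E] [NormedAddCommGroup F]
    [NormedSpace ℝ F] {X M : Type*} [TopologicalSpace X] [ChartedSpace E X] [TopologicalSpace M]
    [ChartedSpace F M] (f : X → M) (x : X) : E →L[ℝ] F :=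
  fderiv ℝ (mrep E F x (f x) f) (chartAt E x x)

lemma mrep_apply {p : X} {q : M} {f : X → M} {x : X} (hx : x ∈ (chartAt E p).source) :
    mrep E F p q f (chartAt E p x) = chartAt F q (f x) := by
  rw [mrep, (chartAt E p).left_inv hx]

variable [IsManifold 𝓘(ℝ, E) ∞ X] [IsManifold 𝓘(ℝ, F) ∞ M] [IsManifold 𝓘(ℝ, G) ∞ N]

lemma mrep_contMDiffAt {n : WithTop ℕ∞} (hn : n ≤ ∞) {f : X → M} {x : X}
    (hf : ContMDiffAt 𝓘(ℝ, E) 𝓘(ℝ, F) n f x) {p : X} {q : M}
    (hp : x ∈ (chartAt E p).source) (hq : f x ∈ (chartAt F q).source) :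
    ContDiffAt ℝ n (mrep E F p q f) (chartAt E p x) := by
  have hs : ContMDiffAt 𝓘(ℝ, E) 𝓘(ℝ, E) n (chartAt E p).symm (chartAt E p x) :=
    ((contMDiffOn_chart_symm (I := 𝓘(ℝ, E)) (x := p) (n := ∞)).contMDiffAt
      ((chartAt E p).open_target.mem_nhds ((chartAt E p).map_source hp))).of_le hn
  have hc : ContMDiffAt 𝓘(ℝ, F) 𝓘(ℝ, F) n (chartAt F q) (f x) :=
    ((contMDiffOn_chart (I := 𝓘(ℝ, F)) (x := q) (n := ∞)).contMDiffAt
      ((chartAt F q).open_source.mem_nhds hq)).of_le hn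
  have hf' : ContMDiffAt 𝓘(ℝ, E) 𝓘(ℝ, F) n f ((chartAt E p).symm (chartAt E p x)) := by
    rw [(chartAt E p).left_inv hp]; exact hf
  have h1 : ContMDiffAt 𝓘(ℝ, E) 𝓘(ℝ, F) n (fun y => f ((chartAt E p).symm y))
      (chartAt E p x) := hf'.comp (chartAt E p x) hs
  have hc' : ContMDiffAt 𝓘(ℝ, F) 𝓘(ℝ, F) n (chartAt F q)
      (f ((chartAt E p).symm (chartAt E p x))) := by
    rw [(chartAt E p).left_inv hp]; exact hc
  exact (hc'.comp (chartAt E p x) h1).contDiffAt

lemma mrep_smooth {f : X → M} {x : X}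
    (hf : ContMDiffAt 𝓘(ℝ, E) 𝓘(ℝ, F) ∞ f x) {p : X} {q : M}
    (hp : x ∈ (chartAt E p).source) (hq : f x ∈ (chartAt F q).source) :
    ContDiffAt ℝ ∞ (mrep E F p q f) (chartAt E p x) := mrep_contMDiffAt le_rfl hf hp hq

lemma mrep_diff {f : X → M} {x : X}
    (hf : ContMDiffAt 𝓘(ℝ, E) 𝓘(ℝ, F) 1 f x) {p : X} {q : M}
    (hp : x ∈ (chartAt E p).source) (hq : f x ∈ (chartAt F q).source) :
    DifferentiableAt ℝ (mrep E F p q f) (chartAt E p x) :=
  (mrep_contMDiffAt one_le_infty hf hp hq).differentiableAt one_ne_zero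

omit [IsManifold 𝓘(ℝ, E) ∞ X] [IsManifold 𝓘(ℝ, F) ∞ M] in
/-- smooth at a point implies `C¹` nearby. -/
lemma c1_eventually {f : X → M} {x : X} [IsManifold 𝓘(ℝ, E) 1 X] [IsManifold 𝓘(ℝ, F) 1 M]
    (hf : ContMDiffAt 𝓘(ℝ, E) 𝓘(ℝ, F) ∞ f x) :
    ∀ᶠ x' in 𝓝 x, ContMDiffAt 𝓘(ℝ, E) 𝓘(ℝ, F) 1 f x' :=
  (contMDiffAt_iff_contMDiffAt_nhds (by simp)).1 (hf.of_le one_le_infty)

/-- the chart representation of a composition, near a point. -/
lemma mrep_comp_ev {f : X → M} {g : M → N} {x : X} (hf : ContinuousAt f x) {p : X} {q : M}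
    {r : N} (hp : x ∈ (chartAt E p).source) (hq : f x ∈ (chartAt F q).source) :
    mrep E G p r (g ∘ f) =ᶠ[𝓝 (chartAt E p x)] mrep F G q r g ∘ mrep E F p q f := by
  have h1 : ContinuousAt (fun y => f ((chartAt E p).symm y)) (chartAt E p x) := by
    have h2 : ContinuousAt (chartAt E p).symm (chartAt E p x) :=
      (chartAt E p).continuousAt_symm ((chartAt E p).map_source hp)
    refine ContinuousAt.comp ?_ h2
    rw [(chartAt E p).left_inv hp]; exact hf
  have h3 : ∀ᶠ y in 𝓝 (chartAt E p x), f ((chartAt E p).symm y) ∈ (chartAt F q).source := by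
    refine h1.eventually ((chartAt F q).open_source.mem_nhds ?_)
    show f ((chartAt E p).symm (chartAt E p x)) ∈ _
    rw [(chartAt E p).left_inv hp]; exact hq
  filter_upwards [h3] with y hy
  simp only [mrep, comp_apply]
  rw [(chartAt F q).left_inv hy]

/-- the differential in arbitrary charts. -/
lemma fderiv_mrep {f : X → M} {x : X} (hf : ContMDiffAt 𝓘(ℝ, E) 𝓘(ℝ, F) 1 f x) {p : X} {q : M}
    (hp : x ∈ (chartAt E p).source) (hq : f x ∈ (chartAt F q).source) (u : E) :
    fderiv ℝ (mrep E F p q f) (chartAt E p x) u =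
      tcc (f x) q (f x) (D1 E F f x (tcc p x x u)) := by
  have hx := mem_chart_source E x
  have hfx := mem_chart_source F (f x)
  -- `mrep E F p q f = trans (f x) q ∘ mrep E F x (f x) f ∘ trans p x` near the point
  have hcont := hf.continuousAt
  have hy : chartAt E p x ∈ (chartAt E p).target := (chartAt E p).map_source hp
  have hpx : (chartAt E p).symm (chartAt E p x) ∈ (chartAt E x).source := by
    rw [(chartAt E p).left_inv hp]; exact hx
  have ht1 : DifferentiableAt ℝ (Ch.trans (E := E) p x) (chartAt E p x) :=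
    (trans_contDiffAt hy hpx).differentiableAt infty_ne_zero
  have ht1e : Ch.trans (E := E) p x (chartAt E p x) = chartAt E x x := trans_apply hp
  have hm : DifferentiableAt ℝ (mrep E F x (f x) f) (chartAt E x x) := mrep_diff hf hx hfx
  have hme : mrep E F x (f x) f (chartAt E x x) = chartAt F (f x) (f x) := mrep_apply hx
  have hty : chartAt F (f x) (f x) ∈ (chartAt F (f x)).target := mem_chart_target F (f x)
  have hfq : (chartAt F (f x)).symm (chartAt F (f x) (f x)) ∈ (chartAt F q).source := by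
    rw [(chartAt F (f x)).left_inv hfx]; exact hq
  have ht2 : DifferentiableAt ℝ (Ch.trans (E := F) (f x) q) (chartAt F (f x) (f x)) :=
    (trans_contDiffAt hty hfq).differentiableAt infty_ne_zero
  have hev : mrep E F p q f =ᶠ[𝓝 (chartAt E p x)]
      fun y => Ch.trans (E := F) (f x) q (mrep E F x (f x) f (Ch.trans (E := E) p x y)) := by
    have h1 : ContinuousAt (fun y => f ((chartAt E p).symm y)) (chartAt E p x) := by
      have h2 : ContinuousAt (chartAt E p).symm (chartAt E p x) :=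
        (chartAt E p).continuousAt_symm hy
      refine ContinuousAt.comp ?_ h2
      rw [(chartAt E p).left_inv hp]; exact hcont
    have h3 : ∀ᶠ y in 𝓝 (chartAt E p x), f ((chartAt E p).symm y) ∈ (chartAt F (f x)).source := by
      refine h1.eventually ((chartAt F (f x)).open_source.mem_nhds ?_)
      show f ((chartAt E p).symm (chartAt E p x)) ∈ _
      rw [(chartAt E p).left_inv hp]; exact hfx
    have h4 : ∀ᶠ y in 𝓝 (chartAt E p x), (chartAt E p).symm y ∈ (chartAt E x).source := by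
      refine ((chartAt E p).continuousAt_symm hy).eventually
        ((chartAt E x).open_source.mem_nhds hpx)
    filter_upwards [h3, h4] with y hy3 hy4
    simp only [mrep, Ch.trans, comp_apply]
    rw [(chartAt E x).left_inv hy4, (chartAt F (f x)).left_inv hy3]
  rw [hev.fderiv_eq]
  have hm' : DifferentiableAt ℝ (mrep E F x (f x) f) (Ch.trans (E := E) p x (chartAt E p x)) := by
    rw [ht1e]; exact hm
  have h5 : DifferentiableAt ℝ (fun y => mrep E F x (f x) f (Ch.trans (E := E) p x y))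
      (chartAt E p x) := hm'.comp _ ht1
  have h6 : DifferentiableAt ℝ (Ch.trans (E := F) (f x) q)
      (mrep E F x (f x) f (Ch.trans (E := E) p x (chartAt E p x))) := by
    rw [ht1e, hme]; exact ht2
  have h7 : fderiv ℝ (fun y => Ch.trans (E := F) (f x) q (mrep E F x (f x) f (Ch.trans (E := E) p x y)))
      (chartAt E p x) = (fderiv ℝ (Ch.trans (E := F) (f x) q)
        (mrep E F x (f x) f (Ch.trans (E := E) p x (chartAt E p x)))).comp
        ((fderiv ℝ (mrep E F x (f x) f) (Ch.trans (E := E) p x (chartAt E p x))).comp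
          (fderiv ℝ (Ch.trans (E := E) p x) (chartAt E p x))) := by
    have h8 := fderiv_comp (chartAt E p x) h6 h5
    have h9 := fderiv_comp (chartAt E p x) hm' ht1
    rw [show (fun y => Ch.trans (E := F) (f x) q (mrep E F x (f x) f (Ch.trans (E := E) p x y))) =
      (Ch.trans (E := F) (f x) q) ∘ (fun y => mrep E F x (f x) f (Ch.trans (E := E) p x y)) from rfl, h8,
      show (fun y => mrep E F x (f x) f (Ch.trans (E := E) p x y)) =
      (mrep E F x (f x) f) ∘ (Ch.trans (E := E) p x) from rfl, h9]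
  rw [h7, ht1e, hme, tcc_eq_fderiv_trans, tcc_eq_fderiv_trans]
  rfl

/-- chain rule for `D1`. -/
lemma D1_comp {f : X → M} {g : M → N} {x : X} (hf : ContMDiffAt 𝓘(ℝ, E) 𝓘(ℝ, F) 1 f x)
    (hg : ContMDiffAt 𝓘(ℝ, F) 𝓘(ℝ, G) 1 g (f x)) :
    D1 E G (g ∘ f) x = (D1 F G g (f x)).comp (D1 E F f x) := by
  have hx := mem_chart_source E x
  have hfx := mem_chart_source F (f x)
  have hgx := mem_chart_source G (g (f x))
  have h1 := mrep_comp_ev (E := E) (F := F) (G := G) (g := g) (r := g (f x)) hf.continuousAt hx hfx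
  have h2 : DifferentiableAt ℝ (mrep E F x (f x) f) (chartAt E x x) := mrep_diff hf hx hfx
  have h3 : mrep E F x (f x) f (chartAt E x x) = chartAt F (f x) (f x) := mrep_apply hx
  have h4 : DifferentiableAt ℝ (mrep F G (f x) (g (f x)) g) (mrep E F x (f x) f (chartAt E x x)) := by
    rw [h3]; exact mrep_diff hg hfx hgx
  have h5 := fderiv_comp (chartAt E x x) h4 h2
  unfold D1
  rw [show (g ∘ f) x = g (f x) from rfl, h1.fderiv_eq, h5, h3]

omit [IsManifold 𝓘(ℝ, E) ∞ X] [IsManifold 𝓘(ℝ, F) ∞ M] in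
lemma D1_congr {f g : X → M} {x : X} (h : f =ᶠ[𝓝 x] g) : (D1 E F f x : E →L[ℝ] F) = D1 E F g x := by
  unfold D1
  have hx := mem_chart_source E x
  rw [h.eq_of_nhds]
  refine Filter.EventuallyEq.fderiv_eq ?_
  have h2 : Tendsto (chartAt E x).symm (𝓝 (chartAt E x x)) (𝓝 x) := by
    have := (chartAt E x).continuousAt_symm ((chartAt E x).map_source hx)
    rw [ContinuousAt, (chartAt E x).left_inv hx] at this
    exact this
  filter_upwards [h2.eventually h] with y hy
  simp only [mrep]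
  rw [hy]

omit [IsManifold 𝓘(ℝ, E) ∞ X] in
lemma D1_id (x : X) : D1 E E (id : X → X) x = ContinuousLinearMap.id ℝ E := by
  unfold D1
  have hx := mem_chart_source E x
  have h : mrep E E x x (id : X → X) =ᶠ[𝓝 (chartAt E x x)] id := by
    filter_upwards [(chartAt E x).open_target.mem_nhds ((chartAt E x).map_source hx)] with y hy
    simp only [mrep, id]
    exact (chartAt E x).right_inv hy
  rw [show (id x : X) = x from rfl, h.fderiv_eq]
  exact fderiv_id

/-! ### pull back of forms -/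

/-- pull back of a one-form. -/
def pb1 (f : X → M) (s : F1 F M) : F1 E X := fun x => (at1 s (f x)).comp (D1 E F f x)

/-- pull back of a two-form. -/
def pb2 (f : X → M) (a : F2 F M) : F2 E X := fun x => pl (D1 E F f x) (at2 a (f x))

omit [IsManifold 𝓘(ℝ, E) ∞ X] [IsManifold 𝓘(ℝ, F) ∞ M] in
lemma at2_pb2 (f : X → M) (a : F2 F M) (x : X) :
    at2 (pb2 (E := E) f a) x = pl (D1 E F f x) (at2 a (f x)) := rfl

omit [IsManifold 𝓘(ℝ, E) ∞ X] [IsManifold 𝓘(ℝ, F) ∞ M] in
lemma at1_pb1 (f : X → M) (s : F1 F M) (x : X) :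
    at1 (pb1 (E := E) f s) x = (at1 s (f x)).comp (D1 E F f x) := rfl

lemma rep_pb2 {f : X → M} {x : X} (hf : ContMDiffAt 𝓘(ℝ, E) 𝓘(ℝ, F) 1 f x) {p : X} {q : M}
    (hp : x ∈ (chartAt E p).source) (hq : f x ∈ (chartAt F q).source) (a : F2 F M) (u v : E) :
    rep p (pb2 f a) (chartAt E p x) u v = rep q a (chartAt F q (f x))
      (fderiv ℝ (mrep E F p q f) (chartAt E p x) u) (fderiv ℝ (mrep E F p q f) (chartAt E p x) v) := by
  rw [rep_apply, (chartAt E p).left_inv hp, at2_pb2, pl_apply, fderiv_mrep hf hp hq,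
    fderiv_mrep hf hp hq]
  exact apply_eq_rep hq a _ _

lemma rep1_pb1 {f : X → M} {x : X} (hf : ContMDiffAt 𝓘(ℝ, E) 𝓘(ℝ, F) 1 f x) {p : X} {q : M}
    (hp : x ∈ (chartAt E p).source) (hq : f x ∈ (chartAt F q).source) (s : F1 F M) (u : E) :
    rep1 p (pb1 f s) (chartAt E p x) u = rep1 q s (chartAt F q (f x))
      (fderiv ℝ (mrep E F p q f) (chartAt E p x) u) := by
  rw [rep1_apply, (chartAt E p).left_inv hp, at1_pb1, ContinuousLinearMap.comp_apply,
    fderiv_mrep hf hp hq]
  exact apply_eq_rep1 hq s _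

lemma rep_pb2_ev {f : X → M} {x : X} (hf : ContMDiffAt 𝓘(ℝ, E) 𝓘(ℝ, F) ∞ f x) {p : X} {q : M}
    (hp : x ∈ (chartAt E p).source) (hq : f x ∈ (chartAt F q).source) (a : F2 F M) :
    ∀ᶠ y in 𝓝 (chartAt E p x),
      rep p (pb2 f a) y = pl (fderiv ℝ (mrep E F p q f) y) (rep q a (mrep E F p q f y)) := by
  have hy : chartAt E p x ∈ (chartAt E p).target := (chartAt E p).map_source hp
  have hs : Tendsto (chartAt E p).symm (𝓝 (chartAt E p x)) (𝓝 x) := by
    have := (chartAt E p).continuousAt_symm hy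
    rw [ContinuousAt, (chartAt E p).left_inv hp] at this
    exact this
  have : IsManifold 𝓘(ℝ, E) 1 X := IsManifold.of_le (n := ∞) one_le_infty
  have : IsManifold 𝓘(ℝ, F) 1 M := IsManifold.of_le (n := ∞) one_le_infty
  have h1 := hs.eventually (c1_eventually hf)
  have h2 : ∀ᶠ x' in 𝓝 x, f x' ∈ (chartAt F q).source :=
    hf.continuousAt.eventually ((chartAt F q).open_source.mem_nhds hq)
  filter_upwards [h1, hs.eventually h2, (chartAt E p).open_target.mem_nhds hy] with y h1 h2 h3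
  have h4 : chartAt E p ((chartAt E p).symm y) = y := (chartAt E p).right_inv h3
  ext u v
  have h5 := rep_pb2 h1 ((chartAt E p).map_target h3) h2 a u v
  rw [h4] at h5
  rw [pl_apply]
  exact h5

lemma rep1_pb1_ev {f : X → M} {x : X} (hf : ContMDiffAt 𝓘(ℝ, E) 𝓘(ℝ, F) ∞ f x) {p : X} {q : M}
    (hp : x ∈ (chartAt E p).source) (hq : f x ∈ (chartAt F q).source) (s : F1 F M) :
    ∀ᶠ y in 𝓝 (chartAt E p x),
      rep1 p (pb1 f s) y = (rep1 q s (mrep E F p q f y)).comp (fderiv ℝ (mrep E F p q f) y) := by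
  have hy : chartAt E p x ∈ (chartAt E p).target := (chartAt E p).map_source hp
  have hs : Tendsto (chartAt E p).symm (𝓝 (chartAt E p x)) (𝓝 x) := by
    have := (chartAt E p).continuousAt_symm hy
    rw [ContinuousAt, (chartAt E p).left_inv hp] at this
    exact this
  have : IsManifold 𝓘(ℝ, E) 1 X := IsManifold.of_le (n := ∞) one_le_infty
  have : IsManifold 𝓘(ℝ, F) 1 M := IsManifold.of_le (n := ∞) one_le_infty
  have h1 := hs.eventually (c1_eventually hf)
  have h2 : ∀ᶠ x' in 𝓝 x, f x' ∈ (chartAt F q).source :=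
    hf.continuousAt.eventually ((chartAt F q).open_source.mem_nhds hq)
  filter_upwards [h1, hs.eventually h2, (chartAt E p).open_target.mem_nhds hy] with y h1 h2 h3
  have h4 : chartAt E p ((chartAt E p).symm y) = y := (chartAt E p).right_inv h3
  ext u
  have h5 := rep1_pb1 h1 ((chartAt E p).map_target h3) h2 s u
  rw [h4] at h5
  rw [ContinuousLinearMap.comp_apply]
  exact h5

/-- functoriality. -/
lemma pb2_comp {f : X → M} {g : M → N} {x : X} (hf : ContMDiffAt 𝓘(ℝ, E) 𝓘(ℝ, F) 1 f x)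
    (hg : ContMDiffAt 𝓘(ℝ, F) 𝓘(ℝ, G) 1 g (f x)) (a : F2 G N) :
    at2 (pb2 (E := E) (g ∘ f) a) x = at2 (pb2 (E := E) f (pb2 (E := F) g a)) x := by
  rw [at2_pb2, at2_pb2, at2_pb2, D1_comp hf hg]
  ext u v
  simp

lemma pb1_comp {f : X → M} {g : M → N} {x : X} (hf : ContMDiffAt 𝓘(ℝ, E) 𝓘(ℝ, F) 1 f x)
    (hg : ContMDiffAt 𝓘(ℝ, F) 𝓘(ℝ, G) 1 g (f x)) (s : F1 G N) :
    at1 (pb1 (E := E) (g ∘ f) s) x = at1 (pb1 (E := E) f (pb1 (E := F) g s)) x := by
  rw [at1_pb1, at1_pb1, at1_pb1, D1_comp hf hg]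
  rfl

/-! ### forms which are smooth and closed at a point -/

/-- `a` is alternating, smooth and closed at `x`. -/
structure Z2At (a : F2 E X) (x : X) : Prop where
  alt : ∀ v, at2 a x v v = 0
  sm : ContDiffAt ℝ ∞ (rep x a) (chartAt E x x)
  cl : ∀ u v w, dd (rep x a) (chartAt E x x) u v w = 0

omit [IsManifold 𝓘(ℝ, E) ∞ X] in
lemma alt_swap {b : E →L[ℝ] E →L[ℝ] ℝ} (hb : ∀ v, b v v = 0) (u v : E) : b u v = - b v u := by
  have h := hb (u + v)
  have h1 := hb u
  have h2 := hb v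
  simp only [map_add, add_apply] at h
  linarith

lemma rep_congr_ev {a b : F2 E X} {p x : X} (hp : x ∈ (chartAt E p).source)
    (h : ∀ᶠ y in 𝓝 x, at2 a y = at2 b y) :
    rep p a =ᶠ[𝓝 (chartAt E p x)] rep p b := by
  have hs : Tendsto (chartAt E p).symm (𝓝 (chartAt E p x)) (𝓝 x) := by
    have := (chartAt E p).continuousAt_symm ((chartAt E p).map_source hp)
    rw [ContinuousAt, (chartAt E p).left_inv hp] at this
    exact this
  filter_upwards [hs.eventually h] with y hy
  ext u v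
  rw [rep_apply, rep_apply, hy]

theorem Z2At.congr {a b : F2 E X} {x : X} (ha : Z2At a x)
    (h : ∀ᶠ y in 𝓝 x, at2 a y = at2 b y) : Z2At b x := by
  have h1 := rep_congr_ev (mem_chart_source E x) h
  refine ⟨fun v => ?_, ha.sm.congr_of_eventuallyEq h1.symm, fun u v w => ?_⟩
  · rw [← h.self_of_nhds]; exact ha.alt v
  · rw [← dd_congr h1]; exact ha.cl u v w

theorem Z2At.pb2 {f : X → M} {x : X} {a : F2 F M} (ha : Z2At a (f x))
    (hf : ContMDiffAt 𝓘(ℝ, E) 𝓘(ℝ, F) ∞ f x) : Z2At (pb2 (E := E) f a) x := by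
  have hx := mem_chart_source E x
  have hfx := mem_chart_source F (f x)
  have hφ := mrep_smooth hf hx hfx
  have hφe : mrep E F x (f x) f (chartAt E x x) = chartAt F (f x) (f x) := mrep_apply hx
  have hev := rep_pb2_ev hf hx hfx a
  have hb : ContDiffAt ℝ ∞ (rep (f x) a) (mrep E F x (f x) f (chartAt E x x)) := by
    rw [hφe]; exact ha.sm
  have hsm : ContDiffAt ℝ ∞ (rep x (Crest.Agent.R235.PB_604.pb2 (E := E) f a)) (chartAt E x x) := by
    refine ContDiffAt.congr_of_eventuallyEq ?_ hev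
    exact contDiffAt_pl (hφ.fderiv_right (m := ∞) (by simp)) (hb.comp _ hφ)
  refine ⟨fun v => ?_, hsm, fun u v w => ?_⟩
  · rw [at2_pb2, pl_apply]; exact ha.alt _
  · have halt : ∀ u v, rep (f x) a (mrep E F x (f x) f (chartAt E x x)) u v =
        - rep (f x) a (mrep E F x (f x) f (chartAt E x x)) v u := by
      intro u v
      rw [hφe, rep_apply, rep_apply, (chartAt F (f x)).left_inv hfx]
      exact alt_swap ha.alt _ _
    rw [dd_pullback' hφ (hb.differentiableAt infty_ne_zero) halt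
      (hsm.differentiableAt infty_ne_zero)
      (hev.mono fun z hz u v => by rw [hz, pl_apply]), hφe]
    exact ha.cl _ _ _

theorem z2At_of_mem {a : F2 E X} (ha : Smooth2 a) (hc : Closed2 a) (x : X) : Z2At a x :=
  ⟨ha.1 x, ha.at (mem_chart_target E x), hc x _ (mem_chart_target E x)⟩

theorem smooth2_of_z2At {a : F2 E X} (h : ∀ x, Z2At a x) : Smooth2 a :=
  Smooth2.of_local (fun x v => (h x).alt v) fun x => ⟨x, mem_chart_source E x, (h x).sm⟩

theorem closed2_of_z2At {a : F2 E X} (h : ∀ x, Z2At a x) : Closed2 a :=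
  Closed2.of_local (smooth2_of_z2At h) fun x => ⟨x, mem_chart_source E x, (h x).cl⟩

end Man

/-! ### local inverses -/

section Inv

variable {E F : Type*} [NormedAddCommGroup E] [NormedSpace ℝ E] [NormedAddCommGroup F]
  [NormedSpace ℝ F] [CompleteSpace E]
variable {X M : Type*} [TopologicalSpace X] [ChartedSpace E X] [TopologicalSpace M]
  [ChartedSpace F M] [IsManifold 𝓘(ℝ, E) ∞ X] [IsManifold 𝓘(ℝ, F) ∞ M]

/-- local inverse of a local diffeomorphism. -/
theorem exists_localInv {f : X → M} {x : X} (hf : ContMDiffAt 𝓘(ℝ, E) 𝓘(ℝ, F) ∞ f x)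
    (e : E ≃L[ℝ] F) (he : (e : E →L[ℝ] F) = D1 E F f x) :
    ∃ g : M → X, ContMDiffAt 𝓘(ℝ, F) 𝓘(ℝ, E) ∞ g (f x) ∧ g (f x) = x ∧
      (∀ᶠ x' in 𝓝 x, g (f x') = x') ∧ (∀ᶠ y in 𝓝 (f x), f (g y) = y) := by
  have hx := mem_chart_source E x
  have hfx := mem_chart_source F (f x)
  have hφ := mrep_smooth hf hx hfx
  have hφe : mrep E F x (f x) f (chartAt E x x) = chartAt F (f x) (f x) := mrep_apply hx
  have hd : HasFDerivAt (mrep E F x (f x) f) (e : E →L[ℝ] F) (chartAt E x x) := by
    rw [he]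
    exact (hφ.differentiableAt infty_ne_zero).hasFDerivAt
  set P := hφ.toOpenPartialHomeomorph (mrep E F x (f x) f) hd infty_ne_zero with hP
  have hPc : (P : E → F) = mrep E F x (f x) f := hφ.toOpenPartialHomeomorph_coe hd infty_ne_zero
  have hPs : chartAt E x x ∈ P.source := hφ.mem_toOpenPartialHomeomorph_source hd infty_ne_zero
  have hPt : chartAt F (f x) (f x) ∈ P.target := by
    have := hφ.image_mem_toOpenPartialHomeomorph_target hd infty_ne_zero
    rw [hφe] at this
    exact this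
  have hPi : P.symm (chartAt F (f x) (f x)) = chartAt E x x := by
    rw [← hφe, ← hPc]; exact P.left_inv hPs
  have hsm : ContDiffAt ℝ ∞ P.symm (chartAt F (f x) (f x)) := by
    have := hφ.to_localInverse hd infty_ne_zero
    rw [hφe] at this
    exact this
  refine ⟨fun y => (chartAt E x).symm (P.symm (chartAt F (f x) y)), ?_, ?_, ?_, ?_⟩
  · have h1 : ContMDiffAt 𝓘(ℝ, F) 𝓘(ℝ, F) ∞ (chartAt F (f x)) (f x) :=
      (contMDiffOn_chart (I := 𝓘(ℝ, F)) (x := f x) (n := ∞)).contMDiffAt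
        ((chartAt F (f x)).open_source.mem_nhds hfx)
    have h2 : ContMDiffAt 𝓘(ℝ, E) 𝓘(ℝ, E) ∞ (chartAt E x).symm
        (P.symm (chartAt F (f x) (f x))) := by
      rw [hPi]
      exact (contMDiffOn_chart_symm (I := 𝓘(ℝ, E)) (x := x) (n := ∞)).contMDiffAt
        ((chartAt E x).open_target.mem_nhds ((chartAt E x).map_source hx))
    exact h2.comp (f x) (hsm.contMDiffAt.comp (f x) h1)
  · show (chartAt E x).symm (P.symm (chartAt F (f x) (f x))) = x
    rw [hPi, (chartAt E x).left_inv hx]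
  · have h1 : ∀ᶠ x' in 𝓝 x, chartAt E x x' ∈ P.source :=
      ((chartAt E x).continuousAt hx).eventually (P.open_source.mem_nhds hPs)
    have h2 : ∀ᶠ x' in 𝓝 x, x' ∈ (chartAt E x).source := (chartAt E x).open_source.mem_nhds hx
    filter_upwards [h1, h2] with x' h1 h2
    have h3 : chartAt F (f x) (f x') = P (chartAt E x x') := by
      rw [hPc, mrep_apply h2]
    rw [h3, P.left_inv h1, (chartAt E x).left_inv h2]
  · have h1 : ∀ᶠ y in 𝓝 (f x), chartAt F (f x) y ∈ P.target :=
      ((chartAt F (f x)).continuousAt hfx).eventually (P.open_target.mem_nhds hPt)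
    have h2 : ∀ᶠ y in 𝓝 (f x), y ∈ (chartAt F (f x)).source :=
      (chartAt F (f x)).open_source.mem_nhds hfx
    have h4 : ∀ᶠ y in 𝓝 (f x), f ((chartAt E x).symm (P.symm (chartAt F (f x) y))) ∈
        (chartAt F (f x)).source := by
      have h5 : ContinuousAt (fun y => f ((chartAt E x).symm (P.symm (chartAt F (f x) y))))
          (f x) := by
        have h6 : ContinuousAt (fun y => P.symm (chartAt F (f x) y)) (f x) :=
          ContinuousAt.comp (P.continuousAt_symm hPt) ((chartAt F (f x)).continuousAt hfx)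
        have h7 : ContinuousAt (chartAt E x).symm (P.symm (chartAt F (f x) (f x))) := by
          rw [hPi]; exact (chartAt E x).continuousAt_symm ((chartAt E x).map_source hx)
        have h8 : ContinuousAt (fun y => (chartAt E x).symm (P.symm (chartAt F (f x) y)))
            (f x) := ContinuousAt.comp (f := fun y => P.symm (chartAt F (f x) y)) h7 h6
        refine ContinuousAt.comp (f := fun y => (chartAt E x).symm (P.symm (chartAt F (f x) y)))
          ?_ h8
        show ContinuousAt f ((chartAt E x).symm (P.symm (chartAt F (f x) (f x))))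
        rw [hPi, (chartAt E x).left_inv hx]
        exact hf.continuousAt
      refine h5.eventually ((chartAt F (f x)).open_source.mem_nhds ?_)
      show f ((chartAt E x).symm (P.symm (chartAt F (f x) (f x)))) ∈ _
      rw [hPi, (chartAt E x).left_inv hx]
      exact hfx
    filter_upwards [h1, h2, h4] with y h1 h2 h4
    have h3 : P (P.symm (chartAt F (f x) y)) = chartAt F (f x) y := P.right_inv h1
    rw [hPc] at h3
    have h5 : chartAt F (f x) (f ((chartAt E x).symm (P.symm (chartAt F (f x) y)))) =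
        chartAt F (f x) y := h3
    exact (chartAt F (f x)).injOn h4 h2 h5

end Inv

/-! ### the model space -/

section Model

variable {E : Type*} [NormedAddCommGroup E] [NormedSpace ℝ E]

lemma rep_model (p : E) (b : F2 E E) (y : E) : rep p b y = at2 b y := by
  have h (w : E) : tcc (E := E) (M := E) p y y w = w := by
    rw [tcc_eq_fderiv]
    show fderiv ℝ (id : E → E) y w = w
    rw [fderiv_id]; rfl
  ext u v
  rw [rep_apply]
  show at2 b y (tcc p y y u) (tcc p y y v) = at2 b y u v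
  rw [h, h]

end Model

end

end Crest.Agent.R235.PB_604
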