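import Crest.Agent.R235.KLin_604
import Crest.Agent.R235.K12Defs_417

/-!
Row 235, KUM-K4 (helper604): local forms on `E4`: `Z2At` for constant forms, `d1 θ`, pull backs;
the form `d1 (lg g)`; positive triples `PosB`.
-/

set_option autoImplicit false
set_option maxSynthPendingDepth 3
set_option linter.unusedSectionVars false

open Set Function Filter
open scoped Manifold ContDiff Topology RealInnerProductSpace

universe u

namespace Crest.Agent.R235.KForm_604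

open Crest.Agent.R240 Crest.Agent.R240.Ch Crest.Agent.R235.PB_604 Crest.Agent.R235.KLin_604
  Crest.Agent.R235.K12_417

noncomputable section

/-! ### calculus of `Z2At` -/

section Z2

variable {M : Type*} [TopologicalSpace M] [ChartedSpace E4 M] [IsManifold 𝓘(ℝ, E4) ∞ M]

lemma _root_.Crest.Agent.R235.PB_604.Z2At.add {a b : F2 E4 M} {x : M} (ha : Z2At a x)
    (hb : Z2At b x) : Z2At (fun y => at2 a y + at2 b y : F2 E4 M) x := by
  have h1 : rep x (fun y => at2 a y + at2 b y : F2 E4 M) = fun y => rep x a y + rep x b y := rfl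
  refine ⟨fun v => ?_, ?_, fun u v w => ?_⟩
  · show at2 a x v v + at2 b x v v = 0
    rw [ha.alt, hb.alt, add_zero]
  · rw [h1]; exact ha.sm.add hb.sm
  · rw [h1, dd_add (ha.sm.differentiableAt infty_ne_zero) (hb.sm.differentiableAt infty_ne_zero),
      ha.cl, hb.cl, add_zero]

lemma _root_.Crest.Agent.R235.PB_604.Z2At.smul {a : F2 E4 M} {x : M} (ha : Z2At a x) (c : ℝ) :
    Z2At (fun y => c • at2 a y : F2 E4 M) x := by
  have h1 : rep x (fun y => c • at2 a y : F2 E4 M) = fun y => c • rep x a y := rfl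
  refine ⟨fun v => ?_, ?_, fun u v w => ?_⟩
  · show c * at2 a x v v = 0
    rw [ha.alt, mul_zero]
  · rw [h1]; exact ha.sm.const_smul c
  · rw [h1, dd_const_smul c (ha.sm.differentiableAt infty_ne_zero), ha.cl, mul_zero]

lemma z2At_zero (x : M) : Z2At (fun _ => 0 : F2 E4 M) x := by
  have h1 : rep x (fun _ => 0 : F2 E4 M) = fun _ => 0 := rfl
  refine ⟨fun v => rfl, ?_, fun u v w => ?_⟩
  · rw [h1]; exact contDiffAt_const
  · rw [h1]
    unfold dd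
    simp

lemma z2At_sum {ι : Type*} (s : Finset ι) {a : ι → F2 E4 M} {x : M}
    (h : ∀ i ∈ s, Z2At (a i) x) : Z2At (fun y => ∑ i ∈ s, at2 (a i) y : F2 E4 M) x := by
  classical
  induction s using Finset.induction_on with
  | empty => simpa using z2At_zero x
  | insert i s hi ih =>
    have h1 := (h i (Finset.mem_insert_self i s)).add
      (ih fun j hj => h j (Finset.mem_insert_of_mem hj))
    refine h1.congr (Eventually.of_forall fun y => ?_)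
    show at2 (a i) y + ∑ j ∈ s, at2 (a j) y = ∑ j ∈ insert i s, at2 (a j) y
    rw [Finset.sum_insert hi]

end Z2

/-- `Z2At` on the model space. -/
lemma z2At_model {b : E4 → Bil} {z : E4} (h0 : ∀ v, b z v v = 0) (hs : ContDiffAt ℝ ∞ b z)
    (hc : ∀ u v w, dd b z u v w = 0) : Z2At (b : F2 E4 E4) z := by
  have h1 : rep z (b : F2 E4 E4) = b := funext fun y => rep_model z b y
  refine ⟨h0, ?_, ?_⟩
  · rw [h1]; exact hs
  · rw [h1]; exact hc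

lemma z2At_const {b : Bil} (hb : Alt b) (z : E4) : Z2At ((fun _ => b) : F2 E4 E4) z :=
  z2At_model (fun v => hb v) contDiffAt_const fun u v w => by
    unfold dd
    simp

lemma z2At_d1 {θ : E4 → E4 →L[ℝ] ℝ} {z : E4} (h : ContDiffAt ℝ ∞ θ z) :
    Z2At ((fun y => d1 θ y) : F2 E4 E4) z :=
  z2At_model (fun v => d1_self θ z v) (d1_contDiffAt h) fun u v w => dd_d1 h u v w

lemma D1_eq_fderiv (F : E4 → E4) (z : E4) : D1 E4 E4 F z = fderiv ℝ F z := rfl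

lemma z2At_pl {F : E4 → E4} {z : E4} (hF : ContDiffAt ℝ ∞ F z) {b : Bil} (hb : Alt b) :
    Z2At ((fun y => pl (fderiv ℝ F y) b) : F2 E4 E4) z :=
  (z2At_const hb (F z)).pb2 (f := F) hF.contMDiffAt

/-! ### odd maps -/

lemma fderiv_odd {G : Type*} [NormedAddCommGroup G] [NormedSpace ℝ G] {f : E4 → G}
    (h : ∀ z, f (-z) = - f z) (z : E4) : fderiv ℝ f (-z) = fderiv ℝ f z := by
  have h1 : (f ∘ (ContinuousLinearEquiv.neg ℝ : E4 ≃L[ℝ] E4)) = fun x => - f x := funext h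
  have h2 := (ContinuousLinearEquiv.neg ℝ : E4 ≃L[ℝ] E4).comp_right_fderiv (f := f) (x := z)
  rw [h1, fderiv_fun_neg] at h2
  ext v
  have h3 := DFunLike.congr_fun h2 v
  have h4 : (fderiv ℝ f (-z)) (-v) = - fderiv ℝ f z v := h3.symm
  rw [map_neg, neg_inj] at h4
  exact h4

lemma d1_odd {θ : E4 → E4 →L[ℝ] ℝ} (h : ∀ z, θ (-z) = - θ z) (z : E4) : d1 θ (-z) = d1 θ z := by
  unfold d1
  rw [fderiv_odd h]

/-! ### the standard forms -/

lemma et_qI (u v : E4) : et 0 u v = ⟪qI u, v⟫ := by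
  rw [et0_apply]
  simp [qI, PiLp.inner_apply, Fin.sum_univ_four]
  ring

lemma et_qJ (u v : E4) : et 1 u v = ⟪qJ u, v⟫ := by
  rw [et1_apply]
  simp [qJ, PiLp.inner_apply, Fin.sum_univ_four]
  ring

lemma et_qK (u v : E4) : et 2 u v = ⟪qK u, v⟫ := by
  rw [et2_apply]
  simp [qK, PiLp.inner_apply, Fin.sum_univ_four]
  ring

/-- `z ↦ ⟨i z, ·⟩ / 2`. -/
def lin0 : E4 →L[ℝ] E4 →L[ℝ] ℝ := (1 / 2 : ℝ) • et 0

lemma lg_eq (g : ℝ → ℝ) (z : E4) : lg g z = (g (‖z‖ ^ 2) / ‖z‖ ^ 2) • lin0 z := by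
  ext v
  show (g (‖z‖ ^ 2) / ‖z‖ ^ 2 / 2) * ⟪qI z, v⟫ = (g (‖z‖ ^ 2) / ‖z‖ ^ 2) * ((1 / 2 : ℝ) * et 0 z v)
  rw [et_qI]; ring

lemma nsq_cd (z : E4) : ContDiffAt ℝ ∞ (fun z : E4 => ‖z‖ ^ 2) z := (contDiff_norm_sq ℝ).contDiffAt

lemma nsq_pos {z : E4} (hz : z ≠ 0) : 0 < ‖z‖ ^ 2 := by
  have := norm_pos_iff.2 hz
  positivity

lemma contDiffAt_lg {g : ℝ → ℝ} {z : E4} (hz : z ≠ 0) (hg : ContDiffAt ℝ ∞ g (‖z‖ ^ 2)) :
    ContDiffAt ℝ ∞ (lg g) z := by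
  have h : lg g = fun z => (g (‖z‖ ^ 2) / ‖z‖ ^ 2) • lin0 z := funext fun z => lg_eq g z
  rw [h]
  exact ((hg.comp z (nsq_cd z)).div (nsq_cd z) (nsq_pos hz).ne').smul lin0.contDiff.contDiffAt

lemma d1_lin0 (z : E4) : d1 (fun z => lin0 z) z = et 0 := by
  ext u v
  rw [d1_apply]
  have h : fderiv ℝ (fun z => lin0 z) z = lin0 := lin0.fderiv
  rw [h]
  show (1 / 2 : ℝ) * et 0 u v - (1 / 2 : ℝ) * et 0 v u = et 0 u v
  rw [(alt_et 0).swap v u]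
  ring

lemma d1_lg {g : ℝ → ℝ} {z : E4} (hz : z ≠ 0) (hg : DifferentiableAt ℝ g (‖z‖ ^ 2)) (u v : E4) :
    d1 (lg g) z u v = g (‖z‖ ^ 2) / ‖z‖ ^ 2 * et 0 u v +
      (deriv g (‖z‖ ^ 2) * ‖z‖ ^ 2 - g (‖z‖ ^ 2)) / (‖z‖ ^ 2) ^ 2 *
        (⟪z, u⟫ * et 0 z v - ⟪z, v⟫ * et 0 z u) := by
  have h : lg g = fun z => (g (‖z‖ ^ 2) / ‖z‖ ^ 2) • lin0 z := funext fun z => lg_eq g z
  have hn : HasFDerivAt (fun z : E4 => ‖z‖ ^ 2) (2 • innerSL ℝ z) z := by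
    simpa using (hasStrictFDerivAt_norm_sq z).hasFDerivAt
  have h0 := (nsq_pos hz).ne'
  have h1 : HasDerivAt (fun t => g t / t)
      ((deriv g (‖z‖ ^ 2) * ‖z‖ ^ 2 - g (‖z‖ ^ 2) * 1) / (‖z‖ ^ 2) ^ 2) (‖z‖ ^ 2) :=
    hg.hasDerivAt.fun_div (hasDerivAt_id' _) h0
  have h2 : HasFDerivAt (fun z : E4 => g (‖z‖ ^ 2) / ‖z‖ ^ 2)
      (((deriv g (‖z‖ ^ 2) * ‖z‖ ^ 2 - g (‖z‖ ^ 2) * 1) / (‖z‖ ^ 2) ^ 2) • (2 • innerSL ℝ z)) z :=
    HasDerivAt.comp_hasFDerivAt (h₂ := fun t => g t / t) z h1 hn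
  rw [h, d1_smul h2.differentiableAt lin0.differentiableAt, d1_lin0, h2.fderiv]
  have e1 : ∀ w : E4, lin0 z w = 1 / 2 * et 0 z w := fun w => rfl
  rw [e1, e1]
  simp only [smul_apply, smul_eq_mul, nsmul_eq_mul, innerSL_apply_apply]
  field_simp
  push_cast
  ring

lemma lg_neg (g : ℝ → ℝ) (z : E4) : lg g (-z) = - lg g z := by
  rw [lg_eq, lg_eq, norm_neg, map_neg, smul_neg]

lemma d1_lg_neg (g : ℝ → ℝ) (z : E4) : d1 (lg g) (-z) = d1 (lg g) z := d1_odd (lg_neg g) z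

/-- near points where `g t = t`, `d1 (lg g) = et 0`. -/
lemma d1_lg_id {g : ℝ → ℝ} {z : E4} (hz : z ≠ 0) (h1 : g (‖z‖ ^ 2) = ‖z‖ ^ 2)
    (h2 : HasDerivAt g 1 (‖z‖ ^ 2)) : d1 (lg g) z = et 0 := by
  ext u v
  rw [d1_lg hz h2.differentiableAt, h2.deriv, h1, one_mul, sub_self, zero_div, zero_mul, add_zero,
    div_self (nsq_pos hz).ne', one_mul]

/-- linear dependence on `g`. -/
lemma d1_lg_comb {g k : ℝ → ℝ} {z : E4} (hz : z ≠ 0) (hg : DifferentiableAt ℝ g (‖z‖ ^ 2))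
    (hk : DifferentiableAt ℝ k (‖z‖ ^ 2)) (a b : ℝ) :
    d1 (lg fun t => a * g t + b * k t) z = a • d1 (lg g) z + b • d1 (lg k) z := by
  have h : HasDerivAt (fun t => a * g t + b * k t) (a * deriv g (‖z‖ ^ 2) + b * deriv k (‖z‖ ^ 2))
      (‖z‖ ^ 2) := (hg.hasDerivAt.const_mul a).fun_add (hk.hasDerivAt.const_mul b)
  ext u v
  show _ = a * d1 (lg g) z u v + b * d1 (lg k) z u v
  rw [d1_lg hz h.differentiableAt, d1_lg hz hg, d1_lg hz hk, h.deriv]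
  ring

lemma d1_lg_smul {g : ℝ → ℝ} {z : E4} (hz : z ≠ 0) (hg : DifferentiableAt ℝ g (‖z‖ ^ 2))
    (a : ℝ) : d1 (lg fun t => a * g t) z = a • d1 (lg g) z := by
  have h : HasDerivAt (fun t => a * g t) (a * deriv g (‖z‖ ^ 2)) (‖z‖ ^ 2) :=
    hg.hasDerivAt.const_mul a
  ext u v
  show _ = a * d1 (lg g) z u v
  rw [d1_lg hz h.differentiableAt, d1_lg hz hg, h.deriv]
  ring

lemma lg_congr_ev {g k : ℝ → ℝ} {z : E4} (h : g =ᶠ[𝓝 (‖z‖ ^ 2)] k) : lg g =ᶠ[𝓝 z] lg k := by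
  have hc : Tendsto (fun z : E4 => ‖z‖ ^ 2) (𝓝 z) (𝓝 (‖z‖ ^ 2)) := by
    have : Continuous fun z : E4 => ‖z‖ ^ 2 := by fun_prop
    exact this.tendsto z
  filter_upwards [hc.eventually h] with y hy
  rw [lg_eq, lg_eq, hy]

lemma d1_lg_congr {g k : ℝ → ℝ} {z : E4} (h : g =ᶠ[𝓝 (‖z‖ ^ 2)] k) :
    d1 (lg g) z = d1 (lg k) z := d1_congr (lg_congr_ev h)

/-! ### wedge products -/

lemma alt_d1 (θ : E4 → E4 →L[ℝ] ℝ) (z : E4) : Alt (d1 θ z) := fun v => d1_self θ z v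

lemma norm_sq_four (z : E4) : ‖z‖ ^ 2 = z 0 ^ 2 + z 1 ^ 2 + z 2 ^ 2 + z 3 ^ 2 := by
  rw [EuclideanSpace.norm_sq_eq, Fin.sum_univ_four]
  simp

lemma inner_ee (z : E4) (i : Fin 4) : ⟪z, ee i⟫ = z i := by
  simp [ee, EuclideanSpace.inner_single_right]

/-- the entries of the second part. -/
lemma ent_d1_lg {g : ℝ → ℝ} {z : E4} (hz : z ≠ 0) (hg : DifferentiableAt ℝ g (‖z‖ ^ 2))
    (i j : Fin 4) : ent (d1 (lg g) z) i j = g (‖z‖ ^ 2) / ‖z‖ ^ 2 * et 0 (ee i) (ee j) +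
      (deriv g (‖z‖ ^ 2) * ‖z‖ ^ 2 - g (‖z‖ ^ 2)) / (‖z‖ ^ 2) ^ 2 *
        (z i * et 0 z (ee j) - z j * et 0 z (ee i)) := by
  show d1 (lg g) z (ee i) (ee j) = _
  rw [d1_lg hz hg, inner_ee, inner_ee]

lemma W_lg {g : ℝ → ℝ} {z : E4} (hz : z ≠ 0) (hg : DifferentiableAt ℝ g (‖z‖ ^ 2)) :
    W (d1 (lg g) z) (d1 (lg g) z) = 2 * (g (‖z‖ ^ 2) * deriv g (‖z‖ ^ 2)) / ‖z‖ ^ 2 := by
  have hn := (nsq_pos hz).ne'
  unfold W
  simp only [ent_d1_lg hz hg]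
  simp only [et0_apply, ee_apply]
  simp only [Fin.reduceEq, if_true, if_false]
  generalize deriv g (‖z‖ ^ 2) = p
  generalize g (‖z‖ ^ 2) = q
  have h4 := norm_sq_four z
  generalize ‖z‖ ^ 2 = t at *
  field_simp
  rw [h4]
  ring

lemma W_lg_et1 {g : ℝ → ℝ} {z : E4} (hz : z ≠ 0) (hg : DifferentiableAt ℝ g (‖z‖ ^ 2)) :
    W (d1 (lg g) z) (et 1) = 0 := by
  unfold W
  simp only [ent_d1_lg hz hg, ent_et]
  simp only [et0_apply, et1_apply, ee_apply]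
  simp only [Fin.reduceEq, if_true, if_false]
  ring

lemma W_lg_et2 {g : ℝ → ℝ} {z : E4} (hz : z ≠ 0) (hg : DifferentiableAt ℝ g (‖z‖ ^ 2)) :
    W (d1 (lg g) z) (et 2) = 0 := by
  unfold W
  simp only [ent_d1_lg hz hg, ent_et]
  simp only [et0_apply, et2_apply, ee_apply]
  simp only [Fin.reduceEq, if_true, if_false]
  ring

lemma W_et_et (a b : Fin 3) : W (et a) (et b) = if a = b then 2 else 0 := by
  have := g_et a b
  unfold g at this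
  split_ifs at this ⊢ <;> linarith

/-! ### positive triples -/

/-- nondegenerate combinations. -/
def PosB (c : Fin 3 → Bil) : Prop :=
  ∀ x : Fin 3 → ℝ, x ≠ 0 → W (∑ i, x i • c i) (∑ i, x i • c i) ≠ 0

lemma alt_sum {c : Fin 3 → Bil} (h : ∀ a, Alt (c a)) (x : Fin 3 → ℝ) :
    Alt (∑ i, x i • c i) := by
  intro v
  rw [Fin.sum_univ_three]
  show x 0 * c 0 v v + x 1 * c 1 v v + x 2 * c 2 v v = 0
  rw [h 0 v, h 1 v, h 2 v]; ring

lemma pl_sum (A : E4 →L[ℝ] E4) (x : Fin 3 → ℝ) (c : Fin 3 → Bil) :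
    pl A (∑ i, x i • c i) = ∑ i, x i • pl A (c i) := by
  rw [Fin.sum_univ_three, Fin.sum_univ_three, pl_add, pl_add, pl_smul, pl_smul, pl_smul]

lemma W_pl {b c : Bil} (hb : Alt b) (hc : Alt c) (A : E4 →L[ℝ] E4) :
    W (pl A b) (pl A c) = LinearMap.det (A : E4 →ₗ[ℝ] E4) * W b c := W_pull hb hc A

lemma posB_pl {c : Fin 3 → Bil} (h : ∀ a, Alt (c a)) {A : E4 →L[ℝ] E4}
    (hA : ∀ v, A v = 0 → v = 0) : PosB (fun a => pl A (c a)) ↔ PosB c := by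
  have hd := det_of_inj hA
  constructor
  · intro hp x hx h0
    refine hp x hx ?_
    rw [← pl_sum, W_pl (alt_sum h x) (alt_sum h x), h0, mul_zero]
  · intro hp x hx
    rw [← pl_sum, W_pl (alt_sum h x) (alt_sum h x)]
    exact mul_ne_zero hd (hp x hx)

lemma posB_of_pl {b c : Fin 3 → Bil} (hb : ∀ a, Alt (b a)) {A : E4 →L[ℝ] E4}
    (hA : ∀ v, A v = 0 → v = 0) (h : ∀ a, pl A (b a) = c a) (hc : PosB c) : PosB b := by
  refine (posB_pl hb hA).1 ?_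
  have h1 : (fun a => pl A (b a)) = c := funext h
  rw [h1]; exact hc

lemma posB_of_eq_pl {b c : Fin 3 → Bil} (hb : ∀ a, Alt (b a)) {A : E4 →L[ℝ] E4}
    (hA : ∀ v, A v = 0 → v = 0) (h : ∀ a, c a = pl A (b a)) (hc : PosB b) : PosB c := by
  have h1 : c = fun a => pl A (b a) := funext h
  rw [h1]
  exact (posB_pl hb hA).2 hc

/-- recombination by an injective matrix. -/
lemma posB_comb {c : Fin 3 → Bil} (hc : PosB c) {r : Fin 3 → Fin 3 → ℝ}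
    (hr : ∀ x : Fin 3 → ℝ, x ≠ 0 → (fun b => ∑ a, x a * r a b) ≠ 0) :
    PosB (fun a => ∑ b, r a b • c b) := by
  intro x hx
  have h1 : ∑ a, x a • ∑ b, r a b • c b = ∑ b, (∑ a, x a * r a b) • c b := by
    simp only [Finset.smul_sum, smul_smul, Finset.sum_smul]
    rw [Finset.sum_comm]
  rw [h1]
  exact hc _ (hr x hx)

lemma posB_et : PosB et := by
  intro x hx
  have := (ket_def3 (κ := 1) one_pos).pos x hx
  have h : ∀ i, ket 1 i = et i := fun i => one_smul ℝ _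
  simp only [h] at this
  exact this.ne'

/-- the triple on the necks is positive. -/
lemma posB_neck {g : ℝ → ℝ} {z : E4} (hz : z ≠ 0) (hg : DifferentiableAt ℝ g (‖z‖ ^ 2))
    (h1 : 0 < g (‖z‖ ^ 2)) (h2 : 0 < deriv g (‖z‖ ^ 2)) :
    PosB ![d1 (lg g) z, et 1, et 2] := by
  intro x hx
  rw [Fin.sum_univ_three]
  show W (x 0 • d1 (lg g) z + x 1 • et 1 + x 2 • et 2)
    (x 0 • d1 (lg g) z + x 1 • et 1 + x 2 • et 2) ≠ 0
  have hh : W (x 0 • d1 (lg g) z + x 1 • et 1 + x 2 • et 2)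
      (x 0 • d1 (lg g) z + x 1 • et 1 + x 2 • et 2) =
      x 0 ^ 2 * (2 * (g (‖z‖ ^ 2) * deriv g (‖z‖ ^ 2)) / ‖z‖ ^ 2) + 2 * x 1 ^ 2 + 2 * x 2 ^ 2 := by
    simp only [W_add_left, W_add_right, W_smul_left, W_smul_right, W_lg hz hg, W_lg_et1 hz hg,
      W_lg_et2 hz hg, W_comm (et 1) (d1 (lg g) z), W_comm (et 2) (d1 (lg g) z), W_et_et]
    simp
    ring
  rw [hh]
  have hk : 0 < 2 * (g (‖z‖ ^ 2) * deriv g (‖z‖ ^ 2)) / ‖z‖ ^ 2 := by
    have := nsq_pos hz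
    positivity
  have e0 := mul_nonneg (sq_nonneg (x 0)) hk.le
  have e1 := sq_nonneg (x 1)
  have e2 := sq_nonneg (x 2)
  intro hcon
  have h0 : x 0 ^ 2 * (2 * (g (‖z‖ ^ 2) * deriv g (‖z‖ ^ 2)) / ‖z‖ ^ 2) = 0 := by linarith
  have h0' : x 0 ^ 2 = 0 := (mul_eq_zero.1 h0).resolve_right hk.ne'
  have h1' : x 1 ^ 2 = 0 := by linarith
  have h2' : x 2 ^ 2 = 0 := by linarith
  refine hx (funext fun i => ?_)
  fin_cases i
  · exact (pow_eq_zero_iff two_ne_zero).1 h0'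
  · exact (pow_eq_zero_iff two_ne_zero).1 h1'
  · exact (pow_eq_zero_iff two_ne_zero).1 h2'

end

end Crest.Agent.R235.KForm_604
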