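import Crest.Agent.R235.KumDefs_152
import Crest.Agent.R235.K12Defs_417

/-!
Row 235 (S0364), PACKAGE KUM (leader helper152): nodes, part 2 (they use `K12Defs_417`).

`K12T` = `K12` with the tubes; `NECKTH` = Thom forms and discs from the tubes; `KCODE` = a code
word of weight `8`; `KUP` = the lift of the triple to the double cover; `KDOWN` = descent of an
even path on the double cover (owner helper604).
-/

set_option autoImplicit false
set_option maxSynthPendingDepth 3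

open Set Function Filter MeasureTheory
open scoped Manifold ContDiff Topology RealInnerProductSpace

universe u

namespace Crest.Agent.R235

open Crest.Agent.R240 Crest.Agent.R240.Ch Crest.Agent.R235.KT_604 Crest.Agent.R235.K12_417

noncomputable section

section Closed

variable {M : Type u} [TopologicalSpace M] [T2Space M] [CompactSpace M]
  [ChartedSpace E4 M] [IsManifold 𝓘(ℝ, E4) ∞ M]

/-- the neck of the sphere `σ` is given by a tube. -/
def HasTube (σ : E3 → M) (φ : E4 → M) : Prop :=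
  ∃ (r t : ℝ) (Ps : E6 → M) (G : M → E6) (U : Set M), K12_417.Tube σ r Ps G U ∧ 0 < t ∧ t < r ∧
    ∀ z ∈ PB 1, φ z = Ps (hh t z)

/-- the recombination of a triple by a matrix. -/
def rec3 (A : Matrix (Fin 3) (Fin 3) ℝ) (w : Trip M) : Trip M := fun i => ∑ j, A i j • w j

/-- the algebraic relations of a Kaehler triple with a holomorphic symplectic pair. -/
def KRel (w : Trip M) : Prop :=
  ∀ x, W (val (w 1) x) (val (w 1) x) = W (val (w 2) x) (val (w 2) x) ∧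
    W (val (w 1) x) (val (w 2) x) = 0 ∧ W (val (w 0) x) (val (w 1) x) = 0 ∧
    W (val (w 0) x) (val (w 2) x) = 0

/-- `u` is the lift of the triple `w` to `X`, flat in the balls. -/
structure LiftT {m : ℕ} (w : Trip M) {K : KIn M m} {X : Type u} [TopologicalSpace X]
    [ChartedSpace E4 X] [IsManifold 𝓘(ℝ, E4) ∞ X] (O : KOut K X) (R r₀ : Fin m → ℝ)
    (u : Trip X) : Prop where
  even : EvenT O.io u
  pull : ∀ k x, (∀ i, x ∉ O.ch i '' Metric.ball 0 (r₀ i)) → ∀ v v' : E4,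
    val (u k) x v v' = val (w k) (O.pr x) (dX (E := E4) (F := E4) O.pr x v)
      (dX (E := E4) (F := E4) O.pr x v')
  flat0 : ∀ i, ∀ z ∈ Metric.ball (0 : E4) 1, ∀ v v' : E4,
    val (u 0) (O.ch i z) (dmap (O.ch i) z v) (dmap (O.ch i) z v') = R i * ⟪qI v, v'⟫
  flat1 : ∀ i, ∀ z ∈ Metric.ball (0 : E4) 1, ∀ v v' : E4,
    val (u 1) (O.ch i z) (dmap (O.ch i) z v) (dmap (O.ch i) z v') = R i * ⟪qJ v, v'⟫
  flat2 : ∀ i, ∀ z ∈ Metric.ball (0 : E4) 1, ∀ v v' : E4,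
    val (u 2) (O.ch i z) (dmap (O.ch i) z v) (dmap (O.ch i) z v') = R i * ⟪qK v, v'⟫

end Closed

/-! ### nodes -/

/-- K12T (owner helper417): `K12` with the tubes. -/
def K12T : Prop :=
  ∀ (M : Type u) [TopologicalSpace M] [T2Space M] [CompactSpace M] [ConnectedSpace M]
    [ChartedSpace E4 M] [IsManifold 𝓘(ℝ, E4) ∞ M] (w : Trip M), Pos3 w →
    ∀ (m : ℕ) (σ : Fin m → E3 → M), (∀ i, EmbS (σ i)) →
    (∀ i, ∀ y u v : E3, ‖y‖ = 1 → val (w 1) (σ i y) (dmap (σ i) y u) (dmap (σ i) y v) = 0) →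
    (∀ i, ∀ y u v : E3, ‖y‖ = 1 → val (w 2) (σ i y) (dmap (σ i) y u) (dmap (σ i) y v) = 0) →
    (∀ i, 0 < sphI (σ i) ((w 0).1.1 : F2 E4 M)) →
    (∀ i j, i ≠ j → Disjoint (im (σ i)) (im (σ j))) →
    ∃ (w' : Trip M) (φ : Fin m → E4 → M) (s : ℝ) (R r₀ : Fin m → ℝ) (g : Fin m → ℝ → ℝ),
      PL w w' ∧ Pos3 w' ∧ Std σ w' φ s R r₀ g ∧ ∀ i, HasTube (σ i) (φ i)

/-- NECKTH: Thom forms and discs from the tubes. -/
def NECKTH : Prop :=
  ∀ (M : Type u) [TopologicalSpace M] [T2Space M] [CompactSpace M] [ConnectedSpace M]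
    [ChartedSpace E4 M] [IsManifold 𝓘(ℝ, E4) ∞ M] (w : Trip M), Pos3 w → K3Type (w 0) →
    ∀ (m : ℕ) (σ : Fin m → E3 → M) (d : Fin m → H2 M), (∀ i, JSph w (σ i) (d i)) →
    (∀ i, d i ∈ Root (w 0)) → ∀ K : Neck M m, (∀ i, K.C i = im (σ i)) →
    (∀ i, HasTube (σ i) (K.phi i)) → NeckT K d

/-- KCODE: a code word of weight `8`. -/
def KCODE : Prop :=
  ∀ (M : Type u) [TopologicalSpace M] [T2Space M] [CompactSpace M] [ConnectedSpace M]
    [ChartedSpace E4 M] [IsManifold 𝓘(ℝ, E4) ∞ M] (w : Trip M) (d : Fin 16 → H2 M), Pos3 w →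
    K3Type (w 0) → KumPos (w 0) d (clw w) →
    ∃ I : Finset (Fin 16), I.card = 8 ∧ ((1 : ℝ) / 2) • ∑ i ∈ I, d i ∈ HZ M

/-- KUP (helper604): the lift of the standardised triple to the double cover. -/
def KUP : Prop :=
  ∀ (M : Type u) [TopologicalSpace M] [T2Space M] [CompactSpace M] [ConnectedSpace M]
    [ChartedSpace E4 M] [IsManifold 𝓘(ℝ, E4) ∞ M] (w : Trip M), Pos3 w →
    ∀ (m : ℕ) (σ : Fin m → E3 → M) (φ : Fin m → E4 → M) (R r₀ : Fin m → ℝ)
    (g : Fin m → ℝ → ℝ), Std σ w φ 1 R r₀ g → ∀ K : KIn M m, (∀ i, K.C i = im (σ i)) →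
    K.phi = φ → ∀ (X : Type u) [TopologicalSpace X] [T2Space X] [CompactSpace X]
    [ConnectedSpace X] [ChartedSpace E4 X] [IsManifold 𝓘(ℝ, E4) ∞ X] (O : KOut K X),
    ∃ u : Trip X, Pos3 u ∧ LiftT w O R r₀ u

/-- KDOWN (helper604): descent of an even path. -/
def KDOWN : Prop :=
  ∀ (M : Type u) [TopologicalSpace M] [T2Space M] [CompactSpace M] [ConnectedSpace M]
    [ChartedSpace E4 M] [IsManifold 𝓘(ℝ, E4) ∞ M] (w : Trip M), Pos3 w →
    ∀ (m : ℕ) (σ : Fin m → E3 → M) (φ : Fin m → E4 → M) (R r₀ : Fin m → ℝ)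
    (g : Fin m → ℝ → ℝ), Std σ w φ 1 R r₀ g → (∀ i, EmbS (σ i)) → ∀ K : KIn M m, (∀ i, K.C i = im (σ i)) →
    K.phi = φ → ∀ (X : Type u) [TopologicalSpace X] [T2Space X] [CompactSpace X]
    [ConnectedSpace X] [ChartedSpace E4 X] [IsManifold 𝓘(ℝ, E4) ∞ X] (O : KOut K X)
    (u u' : Trip X), Pos3 u → LiftT w O R r₀ u → PLE O.io u u' → Pos3 u' → EvenT O.io u' →
    ∀ s : Fin 4 → F1 E4 X, FlatIn u' s → (∀ i, Odd1 O.io (s i)) →
    ∃ w' : Trip M, PL w w' ∧ Pos3 w' ∧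
      ∃ A : Matrix (Fin 3) (Fin 3) ℝ, A.det ≠ 0 ∧ KRel (rec3 A w')

end

end Crest.Agent.R235
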