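import Crest.Agent.R235.LatK_766

/-!
Row 235 (S0364), packages LAT/KUM, helper766: a Kummer configuration in a lattice of K3 type has a
word of weight eight (node (B) of the KUM chain).
-/

set_option autoImplicit false
set_option maxSynthPendingDepth 3

open Set Function Filter MeasureTheory
open scoped Manifold ContDiff Topology

universe u

namespace Crest.Agent.R235.KumCode_766

open Crest.Agent.R240 Crest.Agent.R240.Ch Crest.Agent.R240.Int
open Crest.Agent.R235.LatKx_766 Crest.Agent.R235.LatKz_766 Crest.Agent.R235.LatK_766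

/-- unimodularity of the K3 form over any ring. -/
theorem nondegR {R : Type*} [CommRing R] {v : IK → R} (hv : ∀ k, qf v (Pi.single k 1) = 0) :
    v = 0 := by
  have a00 := hv (Sum.inl (0, 1))
  have a01 := hv (Sum.inl (0, 0))
  have a10 := hv (Sum.inl (1, 1))
  have a11 := hv (Sum.inl (1, 0))
  have a20 := hv (Sum.inl (2, 1))
  have a21 := hv (Sum.inl (2, 0))
  simp [qf, hy, e8] at a00 a01 a10 a11 a20 a21
  have hE0 : ∀ s : Fin 8, v (Sum.inr (0, s)) = 0 := by
    have h0 := hv (Sum.inr (0, 0))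
    have h1 := hv (Sum.inr (0, 1))
    have h2 := hv (Sum.inr (0, 2))
    have h3 := hv (Sum.inr (0, 3))
    have h4 := hv (Sum.inr (0, 4))
    have h5 := hv (Sum.inr (0, 5))
    have h6 := hv (Sum.inr (0, 6))
    have h7 := hv (Sum.inr (0, 7))
    simp [qf, hy, e8] at h0 h1 h2 h3 h4 h5 h6 h7
    intro s
    fin_cases s
    · show v (Sum.inr (0, 0)) = 0
      linear_combination -((4)*h0 + (5)*h1 + (7)*h2 + (10)*h3 + (8)*h4 + (6)*h5 + (4)*h6 + (2)*h7)
    · show v (Sum.inr (0, 1)) = 0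
      linear_combination -((5)*h0 + (8)*h1 + (10)*h2 + (15)*h3 + (12)*h4 + (9)*h5 + (6)*h6 + (3)*h7)
    · show v (Sum.inr (0, 2)) = 0
      linear_combination -((7)*h0 + (10)*h1 + (14)*h2 + (20)*h3 + (16)*h4 + (12)*h5 + (8)*h6 + (4)*h7)
    · show v (Sum.inr (0, 3)) = 0
      linear_combination -((10)*h0 + (15)*h1 + (20)*h2 + (30)*h3 + (24)*h4 + (18)*h5 + (12)*h6 + (6)*h7)
    · show v (Sum.inr (0, 4)) = 0
      linear_combination -((8)*h0 + (12)*h1 + (16)*h2 + (24)*h3 + (20)*h4 + (15)*h5 + (10)*h6 + (5)*h7)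
    · show v (Sum.inr (0, 5)) = 0
      linear_combination -((6)*h0 + (9)*h1 + (12)*h2 + (18)*h3 + (15)*h4 + (12)*h5 + (8)*h6 + (4)*h7)
    · show v (Sum.inr (0, 6)) = 0
      linear_combination -((4)*h0 + (6)*h1 + (8)*h2 + (12)*h3 + (10)*h4 + (8)*h5 + (6)*h6 + (3)*h7)
    · show v (Sum.inr (0, 7)) = 0
      linear_combination -((2)*h0 + (3)*h1 + (4)*h2 + (6)*h3 + (5)*h4 + (4)*h5 + (3)*h6 + (2)*h7)
  have hE1 : ∀ s : Fin 8, v (Sum.inr (1, s)) = 0 := by
    have h0 := hv (Sum.inr (1, 0))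
    have h1 := hv (Sum.inr (1, 1))
    have h2 := hv (Sum.inr (1, 2))
    have h3 := hv (Sum.inr (1, 3))
    have h4 := hv (Sum.inr (1, 4))
    have h5 := hv (Sum.inr (1, 5))
    have h6 := hv (Sum.inr (1, 6))
    have h7 := hv (Sum.inr (1, 7))
    simp [qf, hy, e8] at h0 h1 h2 h3 h4 h5 h6 h7
    intro s
    fin_cases s
    · show v (Sum.inr (1, 0)) = 0
      linear_combination -((4)*h0 + (5)*h1 + (7)*h2 + (10)*h3 + (8)*h4 + (6)*h5 + (4)*h6 + (2)*h7)
    · show v (Sum.inr (1, 1)) = 0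
      linear_combination -((5)*h0 + (8)*h1 + (10)*h2 + (15)*h3 + (12)*h4 + (9)*h5 + (6)*h6 + (3)*h7)
    · show v (Sum.inr (1, 2)) = 0
      linear_combination -((7)*h0 + (10)*h1 + (14)*h2 + (20)*h3 + (16)*h4 + (12)*h5 + (8)*h6 + (4)*h7)
    · show v (Sum.inr (1, 3)) = 0
      linear_combination -((10)*h0 + (15)*h1 + (20)*h2 + (30)*h3 + (24)*h4 + (18)*h5 + (12)*h6 + (6)*h7)
    · show v (Sum.inr (1, 4)) = 0
      linear_combination -((8)*h0 + (12)*h1 + (16)*h2 + (24)*h3 + (20)*h4 + (15)*h5 + (10)*h6 + (5)*h7)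
    · show v (Sum.inr (1, 5)) = 0
      linear_combination -((6)*h0 + (9)*h1 + (12)*h2 + (18)*h3 + (15)*h4 + (12)*h5 + (8)*h6 + (4)*h7)
    · show v (Sum.inr (1, 6)) = 0
      linear_combination -((4)*h0 + (6)*h1 + (8)*h2 + (12)*h3 + (10)*h4 + (8)*h5 + (6)*h6 + (3)*h7)
    · show v (Sum.inr (1, 7)) = 0
      linear_combination -((2)*h0 + (3)*h1 + (4)*h2 + (6)*h3 + (5)*h4 + (4)*h5 + (3)*h6 + (2)*h7)
  funext k
  rcases k with ⟨k, s⟩ | ⟨k, s⟩
  · fin_cases k <;> fin_cases s <;> assumption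
  · fin_cases k
    · exact hE0 s
    · exact hE1 s

theorem qf_even (n : IK → ℤ) : ∃ z, qf n n = 2 * z := by
  refine ⟨n (Sum.inl (0, 0)) * n (Sum.inl (0, 1)) + n (Sum.inl (1, 0)) * n (Sum.inl (1, 1)) +
    n (Sum.inl (2, 0)) * n (Sum.inl (2, 1)) - ?_ - ?_, ?_⟩
  · exact (n (Sum.inr (0, 0)) * n (Sum.inr (0, 0)) + n (Sum.inr (0, 1)) * n (Sum.inr (0, 1)) +
      n (Sum.inr (0, 2)) * n (Sum.inr (0, 2)) + n (Sum.inr (0, 3)) * n (Sum.inr (0, 3)) +
      n (Sum.inr (0, 4)) * n (Sum.inr (0, 4)) + n (Sum.inr (0, 5)) * n (Sum.inr (0, 5)) +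
      n (Sum.inr (0, 6)) * n (Sum.inr (0, 6)) + n (Sum.inr (0, 7)) * n (Sum.inr (0, 7))) -
      (n (Sum.inr (0, 0)) * n (Sum.inr (0, 2)) + n (Sum.inr (0, 1)) * n (Sum.inr (0, 3)) +
      n (Sum.inr (0, 2)) * n (Sum.inr (0, 3)) + n (Sum.inr (0, 3)) * n (Sum.inr (0, 4)) +
      n (Sum.inr (0, 4)) * n (Sum.inr (0, 5)) + n (Sum.inr (0, 5)) * n (Sum.inr (0, 6)) +
      n (Sum.inr (0, 6)) * n (Sum.inr (0, 7)))
  · exact (n (Sum.inr (1, 0)) * n (Sum.inr (1, 0)) + n (Sum.inr (1, 1)) * n (Sum.inr (1, 1)) +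
      n (Sum.inr (1, 2)) * n (Sum.inr (1, 2)) + n (Sum.inr (1, 3)) * n (Sum.inr (1, 3)) +
      n (Sum.inr (1, 4)) * n (Sum.inr (1, 4)) + n (Sum.inr (1, 5)) * n (Sum.inr (1, 5)) +
      n (Sum.inr (1, 6)) * n (Sum.inr (1, 6)) + n (Sum.inr (1, 7)) * n (Sum.inr (1, 7))) -
      (n (Sum.inr (1, 0)) * n (Sum.inr (1, 2)) + n (Sum.inr (1, 1)) * n (Sum.inr (1, 3)) +
      n (Sum.inr (1, 2)) * n (Sum.inr (1, 3)) + n (Sum.inr (1, 3)) * n (Sum.inr (1, 4)) +
      n (Sum.inr (1, 4)) * n (Sum.inr (1, 5)) + n (Sum.inr (1, 5)) * n (Sum.inr (1, 6)) +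
      n (Sum.inr (1, 6)) * n (Sum.inr (1, 7)))
  · simp only [qf, hy, e8]; ring

/-- the form modulo two. -/
def B2 : LinearMap.BilinForm (ZMod 2) (IK → ZMod 2) :=
  LinearMap.mk₂ (ZMod 2) qf (fun x y z => qf_add x y z) (fun c x y => qf_smul c x y)
    (fun x y z => by rw [qf_comm, qf_add, qf_comm y, qf_comm z])
    (fun c x y => by rw [qf_comm, qf_smul, qf_comm y]; rfl)

theorem B2_apply (x y : IK → ZMod 2) : B2 x y = qf x y := rfl

/-- isotropic subspaces have dimension at most eleven. -/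
theorem isotropic (W : Submodule (ZMod 2) (IK → ZMod 2))
    (hW : ∀ x ∈ W, ∀ y ∈ W, qf x y = 0) : Module.finrank (ZMod 2) W ≤ 11 := by
  have hrefl : B2.IsRefl := fun x y h => by rw [B2_apply, qf_comm]; exact h
  have hnd : B2.Nondegenerate := by
    refine (LinearMap.IsRefl.nondegenerate_iff_separatingLeft hrefl).2 ?_
    intro x hx
    exact nondegR fun k => hx _
  have h1 := LinearMap.BilinForm.finrank_orthogonal hnd W
  have h2 : W ≤ B2.orthogonal W := by
    intro x hx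
    rw [LinearMap.BilinForm.mem_orthogonal_iff]
    intro y hy
    exact hW y hy x hx
  have h3 := Submodule.finrank_mono h2
  have h4 : Module.finrank (ZMod 2) (IK → ZMod 2) = 22 := by
    rw [Module.finrank_fintype_fun_eq_card]; rfl
  omega

/-- sixteen orthogonal roots with half sum: a word which is neither zero nor everything. -/
theorem exists_word (n : Fin 16 → IK → ℤ) (hn : ∀ i j, qf (n i) (n j) = if i = j then -2 else 0) :
    ∃ I : Finset (Fin 16), I.Nonempty ∧ Iᶜ.Nonempty ∧ ∀ k, (2 : ℤ) ∣ ∑ i ∈ I, n i k := by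
  let φ : (Fin 16 → ZMod 2) →ₗ[ZMod 2] (IK → ZMod 2) :=
    Fintype.linearCombination (ZMod 2) (fun i k => ((n i k : ℤ) : ZMod 2))
  have hφ : ∀ c, φ c = ∑ i, c i • (fun k => ((n i k : ℤ) : ZMod 2) : IK → ZMod 2) := fun c => by
    simp [φ, Fintype.linearCombination_apply]
  have hbb : ∀ i j, B2 (fun k => ((n i k : ℤ) : ZMod 2)) (fun k => ((n j k : ℤ) : ZMod 2)) = 0 := by
    intro i j
    have h := qf_map (Int.castRingHom (ZMod 2)) (n i) (n j)
    rw [B2_apply]
    refine h.trans ?_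
    rw [hn]
    split_ifs
    · decide
    · simp
  have hiso : ∀ x ∈ LinearMap.range φ, ∀ y ∈ LinearMap.range φ, qf x y = 0 := by
    rintro _ ⟨c, rfl⟩ _ ⟨c', rfl⟩
    rw [← B2_apply, hφ, hφ]
    simp only [map_sum, map_smul, LinearMap.sum_apply, LinearMap.smul_apply, hbb, smul_zero,
      Finset.sum_const_zero]
  have h1 := isotropic _ hiso
  have h2 := LinearMap.finrank_range_add_finrank_ker φ
  rw [Module.finrank_fintype_fun_eq_card, Fintype.card_fin] at h2
  have h3 : ¬ LinearMap.ker φ ≤ Submodule.span (ZMod 2) {(1 : Fin 16 → ZMod 2)} := by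
    intro h
    have h4 := Submodule.finrank_mono h
    have h5 := finrank_span_le_card (R := ZMod 2) ({(1 : Fin 16 → ZMod 2)} : Set _)
    simp at h5
    omega
  obtain ⟨c, hc, hc'⟩ := SetLike.not_le_iff_exists.1 h3
  have h01 : ∀ z : ZMod 2, z = 0 ∨ z = 1 := by decide
  refine ⟨Finset.univ.filter fun i => c i = 1, ?_, ?_, ?_⟩
  · by_contra hne
    rw [Finset.not_nonempty_iff_eq_empty, Finset.filter_eq_empty_iff] at hne
    apply hc'
    have : c = 0 := by
      funext i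
      exact (h01 (c i)).resolve_right (hne (Finset.mem_univ i))
    rw [this]
    exact Submodule.zero_mem _
  · by_contra hne
    rw [Finset.not_nonempty_iff_eq_empty, Finset.compl_eq_empty_iff] at hne
    apply hc'
    have : c = 1 := by
      funext i
      have : i ∈ Finset.univ.filter fun i => c i = 1 := by rw [hne]; exact Finset.mem_univ i
      exact (Finset.mem_filter.1 this).2
    rw [this]
    exact Submodule.mem_span_singleton_self _
  · intro k
    have h4 : φ c = 0 := hc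
    rw [hφ] at h4
    have h5 := congrFun h4 k
    simp only [Finset.sum_apply, Pi.smul_apply, smul_eq_mul, Pi.zero_apply] at h5
    have h6 : ((∑ i ∈ Finset.univ.filter (fun i => c i = 1), n i k : ℤ) : ZMod 2) = 0 := by
      rw [Int.cast_sum, Finset.sum_filter]
      refine Eq.trans (Finset.sum_congr rfl fun i _ => ?_) h5
      rcases h01 (c i) with h | h
      · rw [h, zero_mul, if_neg (by decide)]
      · rw [h, one_mul, if_pos rfl]
    exact (ZMod.intCast_zmod_eq_zero_iff_dvd _ 2).1 h6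

/-- a word `J` of the code, as a vector. -/
theorem word_vec (n : Fin 16 → IK → ℤ) (J : Finset (Fin 16)) (hJ : ∀ k, (2 : ℤ) ∣ ∑ i ∈ J, n i k) :
    ∃ h : IK → ℤ, rl h = ((1 : ℝ) / 2) • ∑ i ∈ J, rl (n i) := by
  refine ⟨fun k => (∑ i ∈ J, n i k) / 2, ?_⟩
  funext k
  have h2 : (∑ i ∈ J, n i k) = 2 * ((∑ i ∈ J, n i k) / 2) := by
    have := hJ k
    omega
  have h3 : ((∑ i ∈ J, n i k : ℤ) : ℝ) = 2 * (((∑ i ∈ J, n i k) / 2 : ℤ) : ℝ) := by
    exact_mod_cast h2
  show (((∑ i ∈ J, n i k) / 2 : ℤ) : ℝ) = (1 / 2 : ℝ) * (∑ i ∈ J, rl (n i)) k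
  rw [Finset.sum_apply]
  have h4 : ∑ i ∈ J, rl (n i) k = ((∑ i ∈ J, n i k : ℤ) : ℝ) := by
    rw [Int.cast_sum]; rfl
  rw [h4, h3]
  ring

theorem word_card (n : Fin 16 → IK → ℤ) (hn : ∀ i j, qf (n i) (n j) = if i = j then -2 else 0)
    (b1 b2 : V) (h1 : ∀ i, B (rl (n i)) b1 = 0) (h2 : ∀ i, B (rl (n i)) b2 = 0)
    (only : ∀ m : IK → ℤ, qf m m = -2 → B (rl m) b1 = 0 → B (rl m) b2 = 0 →
      ∃ i, m = n i ∨ m = - n i)
    (J : Finset (Fin 16)) (hne : J.Nonempty) (hJ : ∀ k, (2 : ℤ) ∣ ∑ i ∈ J, n i k) :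
    4 ∣ J.card ∧ 8 ≤ J.card := by
  obtain ⟨h, hh⟩ := word_vec n J hJ
  have hB : ∀ i j, B (rl (n i)) (rl (n j)) = if i = j then -2 else 0 := by
    intro i j
    rw [B_rl, hn]
    split_ifs <;> simp
  have hhn : ∀ i ∈ J, B (rl h) (rl (n i)) = -1 := by
    intro i hi
    rw [hh, map_smul, map_sum, LinearMap.smul_apply, LinearMap.sum_apply]
    simp only [hB, Finset.sum_ite_eq', hi, if_true, smul_eq_mul]
    norm_num
  have hhh : B (rl h) (rl h) = -(J.card : ℝ) / 2 := by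
    calc B (rl h) (rl h) = B (rl h) (((1 : ℝ) / 2) • ∑ i ∈ J, rl (n i)) := by rw [← hh]
      _ = (1 / 2 : ℝ) * ∑ i ∈ J, B (rl h) (rl (n i)) := by
        rw [map_smul, map_sum, smul_eq_mul]
      _ = (1 / 2 : ℝ) * ∑ i ∈ J, (-1 : ℝ) := by rw [Finset.sum_congr rfl hhn]
      _ = -(J.card : ℝ) / 2 := by
        rw [Finset.sum_const, nsmul_eq_mul]; ring
  obtain ⟨z, hz⟩ := qf_even h
  have hcz : (J.card : ℤ) = -4 * z := by
    have h3 : B (rl h) (rl h) = ((2 * z : ℤ) : ℝ) := by rw [B_rl, hz]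
    have h4 : (J.card : ℝ) = ((-4 * z : ℤ) : ℝ) := by
      rw [hhh] at h3
      push_cast at h3 ⊢
      linarith
    exact_mod_cast h4
  have hpos : 0 < J.card := hne.card_pos
  have hz1 : z ≠ -1 := by
    intro hz1
    have hq : qf h h = -2 := by rw [hz, hz1]; norm_num
    have hp1 : B (rl h) b1 = 0 := by
      rw [hh, map_smul, map_sum, LinearMap.smul_apply, LinearMap.sum_apply]
      simp [h1]
    have hp2 : B (rl h) b2 = 0 := by
      rw [hh, map_smul, map_sum, LinearMap.smul_apply, LinearMap.sum_apply]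
      simp [h2]
    obtain ⟨i, hi⟩ := only h hq hp1 hp2
    obtain ⟨m, hm⟩ := hne
    have h5 := hhn m hm
    have h6 : rl h = rl (n i) ∨ rl h = - rl (n i) := by
      rcases hi with hi | hi
      · left; rw [hi]
      · right
        rw [hi]
        funext k
        simp [rl]
    rcases h6 with h6 | h6
    · rw [h6, hB] at h5
      split_ifs at h5 <;> norm_num at h5
    · rw [h6, map_neg, LinearMap.neg_apply, hB] at h5
      split_ifs at h5 <;> norm_num at h5
  constructor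
  · have : (4 : ℤ) ∣ (J.card : ℤ) := ⟨-z, by rw [hcz]; ring⟩
    exact_mod_cast this
  · omega

section

variable {M : Type u} [TopologicalSpace M] [T2Space M] [CompactSpace M]
  [ChartedSpace E4 M] [IsManifold 𝓘(ℝ, E4) ∞ M]

set_option maxHeartbeats 1000000 in
/-- KUM node (B): sixteen roots in Kummer position contain a word of weight eight. -/
theorem exists_eight {F : Z2 M} (hF : Vol (F.1.1 : F2 E4 M)) (hK : K3Type F)
    {d : Fin 16 → H2 M} {b : Fin 3 → H2 M} (hP : KumPos F d b) :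
    ∃ I : Finset (Fin 16), I.card = 8 ∧ ((1 : ℝ) / 2) • ∑ i ∈ I, d i ∈ HZ M := by
  obtain ⟨-, e, hG, hZ⟩ := hK
  have hint : ∀ c ∈ HZ M, ∃ n : IK → ℤ, c = e.equivFun.symm (rl n) := by
    intro c hc
    rw [hZ] at hc
    obtain ⟨n, hn⟩ := hc
    exact ⟨n, by rw [symm_rl]; exact hn⟩
  have hint' : ∀ n : IK → ℤ, e.equivFun.symm (rl n) ∈ HZ M := by
    intro n
    rw [hZ, symm_rl]
    exact ⟨n, rfl⟩
  choose n hn using fun i => hint (d i) (hP.conf.root i).1
  have hqn : ∀ i j, qf (n i) (n j) = if i = j then -2 else 0 := by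
    intro i j
    have h1 : ((qf (n i) (n j) : ℤ) : ℝ) = ip F (d i) (d j) := by
      rw [← B_rl, hn i, hn j, ip_eq' hF e hG]
    split_ifs with h
    · subst h
      have h2 := (hP.conf.root i).2
      rw [← h1] at h2
      exact_mod_cast h2
    · rw [hP.conf.orth i j h] at h1
      exact_mod_cast h1
  have hb : ∀ m : IK → ℤ, ∀ x : H2 M,
      B (rl m) (e.equivFun x) = ip F (e.equivFun.symm (rl m)) x := by
    intro m x
    rw [ip_eq hF e hG, LinearEquiv.apply_symm_apply]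
  have h1 : ∀ i, B (rl (n i)) (e.equivFun (b 1)) = 0 := fun i => by
    rw [hb, ← hn i, hP.perp1]
  have h2 : ∀ i, B (rl (n i)) (e.equivFun (b 2)) = 0 := fun i => by
    rw [hb, ← hn i, hP.perp2]
  have hinj : ∀ m m' : IK → ℤ, rl m = rl m' → m = m' := by
    intro m m' h
    funext k
    have : (m k : ℝ) = (m' k : ℝ) := congrFun h k
    exact_mod_cast this
  have only : ∀ m : IK → ℤ, qf m m = -2 → B (rl m) (e.equivFun (b 1)) = 0 →
      B (rl m) (e.equivFun (b 2)) = 0 → ∃ i, m = n i ∨ m = - n i := by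
    intro m hm hm1 hm2
    rw [hb] at hm1 hm2
    have hr : e.equivFun.symm (rl m) ∈ Root F := by
      refine ⟨hint' m, ?_⟩
      rw [ip_eq' hF e hG, B_rl, hm]
      norm_num
    obtain ⟨i, hi⟩ := hP.only _ hr hm1 hm2
    refine ⟨i, ?_⟩
    rw [hn i] at hi
    rcases hi with hi | hi
    · left
      exact hinj _ _ (e.equivFun.symm.injective hi)
    · right
      rw [← map_neg] at hi
      have h3 := e.equivFun.symm.injective hi
      apply hinj
      rw [h3]
      funext k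
      simp [rl]
  obtain ⟨m, hm⟩ := hint _ hP.conf.half
  have hall : ∀ k, ∑ i, n i k = 2 * m k := by
    intro k
    have h3 : ∑ i, d i = e.equivFun.symm (∑ i, rl (n i)) := by
      rw [map_sum]
      exact Finset.sum_congr rfl fun i _ => hn i
    rw [h3, ← map_smul] at hm
    have h4 := congrFun (e.equivFun.symm.injective hm) k
    have h5 : ∑ i, rl (n i) k = ((∑ i, n i k : ℤ) : ℝ) := by
      rw [Int.cast_sum]; rfl
    have h6 : (1 / 2 : ℝ) * ((∑ i, n i k : ℤ) : ℝ) = (m k : ℝ) := by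
      rw [← h5, ← Finset.sum_apply]
      exact h4
    have h7 : ((∑ i, n i k : ℤ) : ℝ) = ((2 * m k : ℤ) : ℝ) := by
      push_cast at h6 ⊢
      linarith
    exact_mod_cast h7
  obtain ⟨I, hI1, hI2, hI3⟩ := exists_word n hqn
  have hI4 : ∀ k, (2 : ℤ) ∣ ∑ i ∈ Iᶜ, n i k := by
    intro k
    have h3 := Finset.sum_add_sum_compl I (fun i => n i k)
    have h4 := hall k
    have h5 := hI3 k
    omega
  have c1 := word_card n hqn _ _ h1 h2 only I hI1 hI3
  have c2 := word_card n hqn _ _ h1 h2 only Iᶜ hI2 hI4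
  have c3 := Finset.card_add_card_compl I
  rw [Fintype.card_fin] at c3
  have hI8 : I.card = 8 := by
    clear h1 h2 only hall hm hP
    omega
  refine ⟨I, hI8, ?_⟩
  obtain ⟨h, hh⟩ := word_vec n I hI3
  have h8 : ((1 : ℝ) / 2) • ∑ i ∈ I, d i = e.equivFun.symm (rl h) := by
    rw [hh, map_smul, map_sum]
    congr 1
    exact Finset.sum_congr rfl fun i _ => hn i
  rw [h8]
  exact hint' h

end

end Crest.Agent.R235.KumCode_766
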