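import Crest.Agent.R235.KumDefs2_152

/-!
Row 235 (S0364), PACKAGE KUM, node NECKTH (b) (helper601): the disc through `C i` and the assembly
of NECKTH from the Thom forms.
-/

set_option autoImplicit false
set_option maxSynthPendingDepth 3

open Set Function Filter MeasureTheory
open scoped Manifold ContDiff Topology RealInnerProductSpace

universe u

namespace Crest.Agent.R235.KumDisc_601

open Crest.Agent.R240 Crest.Agent.R240.Ch Crest.Agent.R235 Crest.Agent.R235.KT_604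
open Crest.Agent.R235.K12_417

noncomputable section

/-- the point of `S²` over which the disc lives. -/
def q0 : E3 := !₂[1, 0, 0]

/-- `x ↦ t (x₁ e₁ + x₀ e₂)`. -/
def p0 (t : ℝ) (x : Ep) : E3 := !₂[0, t * x 1, t * x 0]

theorem norm_q0 : ‖q0‖ = 1 := by
  simp [q0, EuclideanSpace.norm_eq, Fin.sum_univ_three]

theorem inner_q0_p0 (t : ℝ) (x : Ep) : ⟪q0, p0 t x⟫ = 0 := by
  simp [q0, p0, PiLp.inner_apply, Fin.sum_univ_three]

theorem norm_p0 (t : ℝ) (x : Ep) : ‖p0 t x‖ = |t| * ‖x‖ := by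
  rw [EuclideanSpace.norm_eq, EuclideanSpace.norm_eq, Fin.sum_univ_three, Fin.sum_univ_two,
    ← Real.sqrt_sq_eq_abs, ← Real.sqrt_mul (sq_nonneg t)]
  congr 1
  simp only [p0, Real.norm_eq_abs, sq_abs, PiLp.toLp_apply]
  simp
  ring

theorem contDiff_p0 (t : ℝ) : ContDiff ℝ ∞ (p0 t) := by
  rw [contDiff_euclidean]
  intro i
  fin_cases i
  · simp only [p0]
    exact contDiff_const
  · simp only [p0]
    exact contDiff_const.mul (contDiff_piLp_apply (p := 2) (i := (1 : Fin 2)))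
  · simp only [p0]
    exact contDiff_const.mul (contDiff_piLp_apply (p := 2) (i := (0 : Fin 2)))

theorem mem_OS {r : ℝ} {q p : E3} (hq : ‖q‖ = 1) (hqp : ⟪q, p⟫ = 0) (hp : ‖p‖ < r) :
    ((q, p) : E6) ∈ OS r := by
  refine ⟨?_, ?_⟩
  · intro h
    have h' : q = 0 := h
    rw [h', norm_zero] at hq
    exact zero_ne_one hq
  · simp only [Pi, hqp, zero_div, zero_smul, sub_zero]
    exact hp

/-- the half-angle points. -/
theorem hh_half {t₀ r t : ℝ} (hr : 0 < r) :
    hh t₀ (√r • (Real.cos (t / 2) • ee 0 + Real.sin (t / 2) • qi (ee 0))) =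
      (q0, p0 t₀ (WithLp.toLp 2 ![r * Real.cos t, r * Real.sin t])) := by
  have hs : √r * √r = r := Real.mul_self_sqrt hr.le
  have hc : Real.cos t = Real.cos (t / 2) ^ 2 - Real.sin (t / 2) ^ 2 := by
    conv_lhs => rw [show t = 2 * (t / 2) by ring]
    rw [Real.cos_two_mul, Real.sin_sq]
    ring
  have hsn : Real.sin t = 2 * Real.sin (t / 2) * Real.cos (t / 2) := by
    conv_lhs => rw [show t = 2 * (t / 2) by ring]
    rw [Real.sin_two_mul]
  set z : E4 := √r • (Real.cos (t / 2) • ee 0 + Real.sin (t / 2) • qi (ee 0)) with hz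
  have hz0 : z 0 = √r * Real.cos (t / 2) := by simp [hz, qi]
  have hz1 : z 1 = √r * Real.sin (t / 2) := by simp [hz, qi]
  have hz2 : z 2 = 0 := by simp [hz, qi]
  have hz3 : z 3 = 0 := by simp [hz, qi]
  have hn : ‖z‖ ^ 2 = r := by
    rw [EuclideanSpace.norm_sq_eq, Fin.sum_univ_four, hz0, hz1, hz2, hz3]
    simp only [Real.norm_eq_abs, sq_abs, abs_zero]
    have := Real.sin_sq_add_cos_sq (t / 2)
    nlinarith
  refine Prod.ext ?_ ?_
  · simp only [hh, hQ, hn, hz0, hz1, hz2, hz3, q0]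
    have h1 : (√r * Real.cos (t / 2)) ^ 2 + (√r * Real.sin (t / 2)) ^ 2 = r := by
      have := Real.sin_sq_add_cos_sq (t / 2)
      nlinarith
    ext i
    fin_cases i
    · simp [h1, hr.ne']
    · simp
    · simp
  · simp only [hh, hP, hz0, hz1, hz2, hz3, p0]
    ext i
    fin_cases i
    · simp
    · simp [hsn]
      left
      linear_combination (2 * Real.sin (t / 2) * Real.cos (t / 2)) * hs
    · simp [hc]
      left
      linear_combination (Real.cos (t / 2) ^ 2 - Real.sin (t / 2) ^ 2) * hs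

theorem norm_half {r t : ℝ} (hr : 0 < r) :
    ‖√r • (Real.cos (t / 2) • ee 0 + Real.sin (t / 2) • qi (ee 0))‖ = √r := by
  have hs : √r * √r = r := Real.mul_self_sqrt hr.le
  set z : E4 := √r • (Real.cos (t / 2) • ee 0 + Real.sin (t / 2) • qi (ee 0)) with hz
  have hz0 : z 0 = √r * Real.cos (t / 2) := by simp [hz, qi]
  have hz1 : z 1 = √r * Real.sin (t / 2) := by simp [hz, qi]
  have hz2 : z 2 = 0 := by simp [hz, qi]
  have hz3 : z 3 = 0 := by simp [hz, qi]
  have hn : ‖z‖ ^ 2 = r := by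
    rw [EuclideanSpace.norm_sq_eq, Fin.sum_univ_four, hz0, hz1, hz2, hz3]
    simp only [Real.norm_eq_abs, sq_abs, abs_zero]
    have := Real.sin_sq_add_cos_sq (t / 2)
    nlinarith
  rw [← hn, Real.sqrt_sq (norm_nonneg _)]

section Closed

variable {M : Type u} [TopologicalSpace M] [ChartedSpace E4 M]

/-- the disc. -/
theorem disc_of {m : ℕ} (K : Neck M m) (i : Fin m) {σ : E3 → M} (hC : K.C i = im σ)
    (hT : HasTube σ (K.phi i)) : IsDisc K i := by
  obtain ⟨r, t₀, Ps, G, U, hP, ht0, htr, hphi⟩ := hT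
  have hmem : ∀ x : Ep, ‖x‖ < 1 → ((q0, p0 t₀ x) : E6) ∈ OS r := by
    intro x hx
    refine mem_OS norm_q0 (inner_q0_p0 t₀ x) ?_
    rw [norm_p0, abs_of_pos ht0]
    nlinarith [norm_nonneg x]
  refine ⟨ee 0, fun x => Ps (q0, p0 t₀ x), 1, ?_, one_pos, le_rfl, ?_, ?_, ?_⟩
  · simp [ee]
  · have h1 : ContMDiffOn 𝓘(ℝ, Ep) 𝓘(ℝ, E6) ∞ (fun x : Ep => ((q0, p0 t₀ x) : E6))
        (Metric.ball 0 1) :=
      (contDiff_const.prodMk (contDiff_p0 t₀)).contMDiff.contMDiffOn
    refine hP.smooth.comp h1 fun x hx => ?_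
    rw [mem_ball_zero_iff] at hx
    exact hmem x hx
  · have h1 : p0 t₀ 0 = 0 := by
      ext j
      fin_cases j <;> simp [p0]
    simp only [h1]
    rw [hP.zero q0 norm_q0, hC]
    exact ⟨q0, by simp [norm_q0], rfl⟩
  · intro ρ t hρ hρ1
    have hz : √ρ • (Real.cos (t / 2) • ee 0 + Real.sin (t / 2) • qi (ee 0)) ∈ PB 1 := by
      have h2 : 0 < √ρ := Real.sqrt_pos.2 hρ
      have h3 : √ρ < 1 := by
        rw [Real.sqrt_lt' one_pos]
        simpa using hρ1
      refine ⟨?_, ?_⟩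
      · rw [← norm_pos_iff, norm_half hρ]
        exact h2
      · rw [norm_half hρ]
        exact h3
    rw [hphi _ hz, hh_half hρ]

end Closed

/-- NECKTH (a): Thom forms of the tubes. -/
def THOMN : Prop :=
  ∀ (M : Type u) [TopologicalSpace M] [T2Space M] [CompactSpace M] [ConnectedSpace M]
    [ChartedSpace E4 M] [IsManifold 𝓘(ℝ, E4) ∞ M] (w : Trip M), Pos3 w → K3Type (w 0) →
    ∀ (m : ℕ) (σ : Fin m → E3 → M) (d : Fin m → H2 M), (∀ i, JSph w (σ i) (d i)) →
    (∀ i, d i ∈ Root (w 0)) → ∀ K : Neck M m, (∀ i, K.C i = im (σ i)) →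
    (∀ i, HasTube (σ i) (K.phi i)) → ∀ i, ∃ T : Z2 M, IsThom K i (d i) T

/-- assembly of NECKTH. -/
theorem neckth_of (h : THOMN.{u}) : NECKTH.{u} := by
  intro M _ _ _ _ _ _ w hw hK m σ d hσ hd K hC hT
  exact ⟨h M w hw hK m σ d hσ hd K hC hT, fun i => disc_of K i (hC i) (hT i)⟩

end

end Crest.Agent.R235.KumDisc_601
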