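import Crest.Agent.R235.TorAlg2_68

/-!
Row 235 (S0364), package TOR, helper68: pointwise algebra, the combined second segment.
-/

set_option autoImplicit false
set_option linter.unusedVariables false

namespace Crest.Agent.R235.TorAlg_68

open Crest.Agent.R240

noncomputable section

/-- numerical lemma. -/
theorem num3 {C δ N x y e D : ℝ} (hC : 0 ≤ C) (hδ : 0 < δ) (hx : |x| ≤ C)
    (hy : |y| ≤ C) (he : |e| ≤ C) (hD : δ / 2 ≤ D)
    (hN : C ^ 2 + 2 / δ * (C + C ^ 2) ^ 2 + 1 ≤ N) :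
    (y - x * e) ^ 2 < (N - x ^ 2) * D := by
  have h1 : |y - x * e| ≤ C + C ^ 2 := by
    calc |y - x * e| ≤ |y| + |x * e| := abs_sub _ _
      _ = |y| + |x| * |e| := by rw [abs_mul]
      _ ≤ C + C * C := by gcongr
      _ = C + C ^ 2 := by ring
  have h2 : (y - x * e) ^ 2 ≤ (C + C ^ 2) ^ 2 := by
    rw [← sq_abs]; gcongr
  have h3 : x ^ 2 ≤ C ^ 2 := by rw [← sq_abs]; gcongr
  have h5 : 2 / δ * (C + C ^ 2) ^ 2 + 1 ≤ N - x ^ 2 := by linarith
  have h6 : 0 < 2 / δ * (C + C ^ 2) ^ 2 + 1 := by positivity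
  have h7 : (2 / δ * (C + C ^ 2) ^ 2 + 1) * (δ / 2) ≤ (N - x ^ 2) * D :=
    mul_le_mul h5 hD (by linarith) (by linarith)
  have h8 : (2 / δ * (C + C ^ 2) ^ 2 + 1) * (δ / 2) = (C + C ^ 2) ^ 2 + δ / 2 := by
    field_simp
  linarith

section Seg

variable {a1 a2 l1 l2 : E4 →L[ℝ] ℝ} {u p q : Bil} {h : ℝ}

/-- combined second segment: `(u + K r, p, q) → (K r - ε a1∧a2, p0, τ q0)`, `K = ε K1`. -/
theorem segB {C δ K1 m s τ ε : ℝ} (hW : W (wed a1 a2) (wed l1 l2) ≠ 0)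
    (hp : p = p0 a1 a2 l1 l2 + h • wed l1 l2) (hq : W q (wed l1 l2) = 0)
    (hτ : τ ^ 2 = 1) (hε : ε ^ 2 = 1)
    (hs0 : 0 ≤ s) (hs1 : s ≤ 1) (hC : 0 ≤ C) (hδ : 0 < δ) (hδ1 : δ ≤ 1)
    (h1 : |W u u / W p p| ≤ C) (h2 : |W u p / W p p| ≤ C)
    (h3 : |W u (p0 a1 a2 l1 l2) / W p p| ≤ C) (h4 : |W u q / W p p| ≤ C)
    (h5 : |W u (q0 a1 a2 l1 l2) / W p p| ≤ C) (h6 : |W p q / W p p| ≤ C)
    (h6a : |W (wed a1 a2) u / W p p| ≤ C) (h6b : |W (wed a1 a2) p / W p p| ≤ C)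
    (h6c : |W (wed a1 a2) q / W p p| ≤ C)
    (h7 : δ ≤ W q q / W p p - (W p q / W p p) ^ 2)
    (h8 : 0 ≤ τ * (W q (q0 a1 a2 l1 l2) / W p p))
    (hm : m ≤ ε * (W u (wed l1 l2) / W p p)) (hm2 : m ≤ 1 / 2) (hK1 : 0 ≤ K1) (hm0 : 0 ≤ m)
    (h9 : C ^ 2 + 2 / δ * (C + C ^ 2) ^ 2 + 1 ≤ 2 * (K1 * m) - C) :
    PT ((1 - s) • (u + (ε * K1) • wed l1 l2) + s • ((ε * K1) • wed l1 l2 + (-ε) • wed a1 a2))
      ((1 - s) • p + s • p0 a1 a2 l1 l2)
      ((1 - s) • q + s • (τ • q0 a1 a2 l1 l2)) := by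
  have hF : W p p ≠ 0 := by
    rw [Wpp hp, W_p0_p0]; simpa using hW
  have f1 := Wpp hp
  have f2 := Wpp0 hp
  have f3 := Wpq0 hp
  have f4 := Wpr hp
  have f5 := Wp0q hp hq
  have hRR := W_r_r l1 l2
  have hrp := W_r_p0 a1 a2 l1 l2
  have hrq := W_r_q0 a1 a2 l1 l2
  have hp0q0 := W_p0_q0 a1 a2 l1 l2
  have hq0q0 : W (q0 a1 a2 l1 l2) (q0 a1 a2 l1 l2) = W p p := by
    rw [f1, W_p0_p0, W_q0_q0]
  have hAA : W (wed a1 a2) (wed a1 a2) = 0 := W_r_r a1 a2
  have hAr : W (wed a1 a2) (wed l1 l2) = - W p p / 2 := by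
    rw [f1, W_p0_p0]; ring
  have hAP : W (wed a1 a2) (p0 a1 a2 l1 l2) = 0 := by
    unfold p0 W; simp only [ent_add]; simp only [ent, wed_apply]; ring
  have hAQ : W (wed a1 a2) (q0 a1 a2 l1 l2) = 0 := by
    unfold q0 W; simp only [ent_sub]; simp only [ent, wed_apply]; ring
  generalize hr : wed l1 l2 = r at *
  generalize hP0 : p0 a1 a2 l1 l2 = P0 at *
  generalize hQ0 : q0 a1 a2 l1 l2 = Q0 at *
  generalize hA0 : wed a1 a2 = A at *
  have g1 : W ((1 - s) • p + s • P0) ((1 - s) • p + s • P0) = W p p := by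
    simp only [W_add_left, W_add_right, W_smul_left, W_smul_right]
    rw [W_comm P0 p, f2, ← f1]; ring
  have g2 : W ((1 - s) • p + s • P0) ((1 - s) • q + s • (τ • Q0)) = (1 - s) * W p q := by
    simp only [W_add_left, W_add_right, W_smul_left, W_smul_right]
    rw [f5, f3, hp0q0]; ring
  have g3 : W ((1 - s) • q + s • (τ • Q0)) ((1 - s) • q + s • (τ • Q0)) =
      (1 - s) ^ 2 * W q q + 2 * s * (1 - s) * (τ * W q Q0) + s ^ 2 * W p p := by
    simp only [W_add_left, W_add_right, W_smul_left, W_smul_right]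
    rw [W_comm Q0 q, hq0q0]
    linear_combination s ^ 2 * W p p * hτ
  have g4 : W ((1 - s) • (u + (ε * K1) • r) + s • ((ε * K1) • r + (-ε) • A))
      ((1 - s) • p + s • P0) =
      (1 - s) * ((1 - s) * W u p + s * W u P0 - s * (ε * W A p)) := by
    simp only [W_add_left, W_add_right, W_smul_left, W_smul_right]
    rw [W_comm r p, f4, hrp, hAP]; ring
  have g5 : W ((1 - s) • (u + (ε * K1) • r) + s • ((ε * K1) • r + (-ε) • A))
      ((1 - s) • q + s • (τ • Q0)) =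
      (1 - s) * ((1 - s) * W u q + s * (τ * W u Q0) - s * (ε * W A q)) := by
    simp only [W_add_left, W_add_right, W_smul_left, W_smul_right]
    rw [W_comm r q, hq, hrq, hAQ]; ring
  have g6 : W ((1 - s) • (u + (ε * K1) • r) + s • ((ε * K1) • r + (-ε) • A))
      ((1 - s) • (u + (ε * K1) • r) + s • ((ε * K1) • r + (-ε) • A)) =
      (1 - s) ^ 2 * (W u u + 2 * K1 * (ε * W u r)) + 2 * s * (1 - s) *
        (K1 * (ε * W u r) - ε * W A u + K1 * W p p / 2) + s ^ 2 * (K1 * W p p) := by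
    simp only [W_add_left, W_add_right, W_smul_left, W_smul_right]
    rw [W_comm r u, hRR, W_comm u A, W_comm r A, hAA, hAr]
    linear_combination (s * (1 - s) * K1 * W p p + s ^ 2 * K1 * W p p) * hε
  have habs1 : ∀ {a : ℝ}, a ^ 2 = 1 → |a| = 1 := by
    intro a ha
    have : |a| ^ 2 = 1 := by rw [sq_abs]; exact ha
    exact (pow_eq_one_iff_of_nonneg (abs_nonneg a) two_ne_zero).1 this
  have hτ1 := habs1 hτ
  have hε1 := habs1 hε
  have hs1' : 0 ≤ 1 - s := by linarith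
  -- the quotient D
  have hDD : δ / 2 ≤ ((1 - s) ^ 2 * W q q + 2 * s * (1 - s) * (τ * W q Q0) + s ^ 2 * W p p) / W p p
      - ((1 - s) * W p q / W p p) ^ 2 := by
    have : ((1 - s) ^ 2 * W q q + 2 * s * (1 - s) * (τ * W q Q0) + s ^ 2 * W p p) / W p p
      - ((1 - s) * W p q / W p p) ^ 2 = (1 - s) ^ 2 * (W q q / W p p - (W p q / W p p) ^ 2)
        + 2 * s * (1 - s) * (τ * (W q Q0 / W p p)) + s ^ 2 := by
      field_simp
      ring
    rw [this]
    have e1 : (1 - s) ^ 2 * δ ≤ (1 - s) ^ 2 * (W q q / W p p - (W p q / W p p) ^ 2) :=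
      mul_le_mul_of_nonneg_left h7 (sq_nonneg _)
    have e2 : 0 ≤ 2 * s * (1 - s) * (τ * (W q Q0 / W p p)) := by positivity
    have e3 : s ^ 2 * δ ≤ s ^ 2 * 1 := mul_le_mul_of_nonneg_left hδ1 (sq_nonneg s)
    have e4 : 0 ≤ δ * (1 - 2 * s) ^ 2 := mul_nonneg hδ.le (sq_nonneg _)
    have e5 : (1 - s) ^ 2 * δ + s ^ 2 * δ - δ / 2 = (δ * (1 - 2 * s) ^ 2) / 2 := by ring
    linarith
  have hss : 0 ≤ s * s := mul_nonneg hs0 hs0
  have hb : ∀ {a b c : ℝ}, |a| ≤ C → |b| ≤ C → |c| ≤ C →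
      |(1 - s) * ((1 - s) * a + s * b - s * c)| ≤ C := by
    intro a b c ha hb hc
    have e1 : |(1 - s) * a + s * b - s * c| ≤ (1 + s) * C := by
      calc |(1 - s) * a + s * b - s * c| ≤ |(1 - s) * a + s * b| + |s * c| := abs_sub _ _
        _ ≤ |(1 - s) * a| + |s * b| + |s * c| := by gcongr; exact abs_add_le _ _
        _ = (1 - s) * |a| + s * |b| + s * |c| := by
          rw [abs_mul, abs_mul, abs_mul, abs_of_nonneg hs1', abs_of_nonneg hs0]
        _ ≤ (1 - s) * C + s * C + s * C := by gcongr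
        _ = (1 + s) * C := by ring
    rw [abs_mul, abs_of_nonneg hs1']
    calc (1 - s) * |(1 - s) * a + s * b - s * c| ≤ (1 - s) * ((1 + s) * C) := by gcongr
      _ = C - s * s * C := by ring
      _ ≤ C := by
        have := mul_nonneg hss hC
        linarith
  refine PT.of (by rw [g1]; exact hF) ?_ ?_
  · rw [g1, g2, g3]
    linarith
  · rw [g1, g2, g3, g4, g5, g6]
    have e0 : ((1 - s) ^ 2 * (W u u + 2 * K1 * (ε * W u r)) + 2 * s * (1 - s) *
        (K1 * (ε * W u r) - ε * W A u + K1 * W p p / 2) + s ^ 2 * (K1 * W p p)) / W p p =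
        (1 - s) ^ 2 * (W u u / W p p + 2 * K1 * (ε * (W u r / W p p))) + 2 * s * (1 - s) *
        (K1 * (ε * (W u r / W p p)) - ε * (W A u / W p p) + K1 / 2) + s ^ 2 * K1 := by
      field_simp
    rw [e0]
    refine num3 (e := (1 - s) * W p q / W p p) hC hδ ?_ ?_ ?_ hDD ?_
    · have : (1 - s) * ((1 - s) * W u p + s * W u P0 - s * (ε * W A p)) / W p p =
        (1 - s) * ((1 - s) * (W u p / W p p) + s * (W u P0 / W p p)
          - s * (ε * (W A p / W p p))) := by ring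
      rw [this]
      refine hb h2 h3 ?_
      rw [abs_mul, hε1, one_mul]; exact h6b
    · have : (1 - s) * ((1 - s) * W u q + s * (τ * W u Q0) - s * (ε * W A q)) / W p p =
        (1 - s) * ((1 - s) * (W u q / W p p) + s * (τ * (W u Q0 / W p p))
          - s * (ε * (W A q / W p p))) := by ring
      rw [this]
      refine hb h4 ?_ ?_
      · rw [abs_mul, hτ1, one_mul]; exact h5
      · rw [abs_mul, hε1, one_mul]; exact h6c
    · have : (1 - s) * W p q / W p p = (1 - s) * (W p q / W p p) := by ring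
      rw [this, abs_mul, abs_of_nonneg hs1']
      calc (1 - s) * |W p q / W p p| ≤ 1 * C := by gcongr; linarith
        _ = C := one_mul C
    · -- lower bound of the first entry
      have b1 : -C ≤ W u u / W p p := (abs_le.1 h1).1
      have b2 : -C ≤ -(ε * (W A u / W p p)) := by
        have : |ε * (W A u / W p p)| ≤ C := by rw [abs_mul, hε1, one_mul]; exact h6a
        have := (abs_le.1 this).2
        linarith
      have b3 : K1 * m ≤ K1 * (ε * (W u r / W p p)) := mul_le_mul_of_nonneg_left hm hK1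
      have b4 : K1 * m ≤ K1 * (1 / 2) := mul_le_mul_of_nonneg_left hm2 hK1
      have c1 : (1 - s) ^ 2 * (2 * (K1 * m) - C) ≤
          (1 - s) ^ 2 * (W u u / W p p + 2 * K1 * (ε * (W u r / W p p))) :=
        mul_le_mul_of_nonneg_left (by linarith) (sq_nonneg _)
      have c2 : 2 * s * (1 - s) * (2 * (K1 * m) - C) ≤ 2 * s * (1 - s) *
        (K1 * (ε * (W u r / W p p)) - ε * (W A u / W p p) + K1 / 2) :=
        mul_le_mul_of_nonneg_left (by linarith) (by positivity)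
      have c3 : s ^ 2 * (2 * (K1 * m) - C) ≤ s ^ 2 * K1 :=
        mul_le_mul_of_nonneg_left (by linarith) (sq_nonneg _)
      have c4 : (1 - s) ^ 2 * (2 * (K1 * m) - C) + 2 * s * (1 - s) * (2 * (K1 * m) - C)
        + s ^ 2 * (2 * (K1 * m) - C) = 2 * (K1 * m) - C := by ring
      linarith

end Seg

end

end Crest.Agent.R235.TorAlg_68
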