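import Crest.Agent.R235.TorDefs_225
import Crest.Agent.R235.TorAlg3_68
import Crest.Agent.R235.TorWed_68
import Crest.Agent.R235.FibLin_129
import Crest.Agent.R235.Ip2_288

/-!
Row 235 (S0364), package TOR (helper68): FLATC, a closed coframe adapted to the pair gives a
hyperkaehler triple by two straight segments.
-/

set_option autoImplicit false
set_option maxSynthPendingDepth 3

open Set Function Filter MeasureTheory
open scoped Manifold ContDiff Topology

universe u

namespace Crest.Agent.R235.TorFlat_68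

open Crest.Agent.R240 Crest.Agent.R240.Ch Crest.Agent.R240.Int TorAlg_68

noncomputable section

/-- a nonzero volume from independence. -/
theorem W_ne_of_ind {a0 a1 l0 l1 : E4 →L[ℝ] ℝ}
    (h : ∀ v, l0 v = 0 → l1 v = 0 → a0 v = 0 → a1 v = 0 → v = 0) :
    W (wed l0 l1) (wed a0 a1) ≠ 0 := by
  change FibLin_129.del l0 l1 a0 a1 ≠ 0
  rw [FibLin_129.del_eq]
  intro h0
  obtain ⟨v, hv, hne⟩ := (Submodule.ne_bot_iff _).1
    (bot_lt_iff_ne_bot.1 (LinearMap.bot_lt_ker_of_det_eq_zero h0))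
  have hv' : FibLin_129.cof l0 l1 a0 a1 v = 0 := hv
  apply hne
  apply h
  · rw [← FibLin_129.cof_0 (l0 := l0) (l1 := l1) (a0 := a0) (a1 := a1), hv']; rfl
  · rw [← FibLin_129.cof_1 (l0 := l0) (l1 := l1) (a0 := a0) (a1 := a1), hv']; rfl
  · rw [← FibLin_129.cof_2 (l0 := l0) (l1 := l1) (a0 := a0) (a1 := a1), hv']; rfl
  · rw [← FibLin_129.cof_3 (l0 := l0) (l1 := l1) (a0 := a0) (a1 := a1), hv']; rfl

section Basic

variable {M : Type u} [TopologicalSpace M] [ChartedSpace E4 M] [IsManifold 𝓘(ℝ, E4) ∞ M]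

theorem pos3_iff_PT {w : Trip M} :
    Pos3 w ↔ ∀ x, PT (val (w 0) x) (val (w 1) x) (val (w 2) x) := by
  constructor
  · intro h x a b c habc
    have h1 := h x ![a, b, c] (by
      intro h0
      have e0 := congrFun h0 0
      have e1 := congrFun h0 1
      have e2 := congrFun h0 2
      simp at e0 e1 e2
      rcases habc with h | h | h
      · exact h e0
      · exact h e1
      · exact h e2)
    rw [Fin.sum_univ_three] at h1
    simpa using h1
  · intro h x c hc
    rw [Fin.sum_univ_three]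
    apply h x
    by_contra hcon
    push Not at hcon
    apply hc
    funext i
    fin_cases i
    · exact hcon.1
    · exact hcon.2.1
    · exact hcon.2.2

end Basic

section Closed

variable {M : Type u} [TopologicalSpace M] [CompactSpace M]
  [ChartedSpace E4 M] [IsManifold 𝓘(ℝ, E4) ∞ M]

omit [CompactSpace M] in
theorem cont_q {F : Z2 M} (hF : Vol (F.1.1 : F2 E4 M)) (a b : Z2 M) :
    Continuous fun x => W (val a x) (val b x) / W (val F x) (val F x) :=
  continuous_qG hF (cont2_coe a) (cont2_coe b)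

omit [ChartedSpace E4 M] [IsManifold 𝓘(ℝ, E4) ∞ M] in
theorem exists_bound {f : M → ℝ} (hf : Continuous f) : ∃ C : ℝ, 0 ≤ C ∧ ∀ x, |f x| ≤ C := by
  obtain ⟨C, hC⟩ := (isCompact_range hf).isBounded.exists_norm_le
  refine ⟨|C|, abs_nonneg C, fun x => ?_⟩
  have := hC (f x) ⟨x, rfl⟩
  rw [Real.norm_eq_abs] at this
  exact this.trans (le_abs_self C)

omit [ChartedSpace E4 M] [IsManifold 𝓘(ℝ, E4) ∞ M] in
theorem exists_lower [Nonempty M] {f : M → ℝ} (hf : Continuous f) (hpos : ∀ x, 0 < f x) :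
    ∃ m : ℝ, 0 < m ∧ ∀ x, m ≤ f x := by
  obtain ⟨x0, -, hx0⟩ := isCompact_univ.exists_isMinOn (univ_nonempty (α := M)) hf.continuousOn
  exact ⟨f x0, hpos x0, fun x => hx0 (mem_univ x)⟩

omit [CompactSpace M] [ChartedSpace E4 M] [IsManifold 𝓘(ℝ, E4) ∞ M] in
theorem exists_sign [ConnectedSpace M] {f : M → ℝ} (hf : Continuous f) (hne : ∀ x, f x ≠ 0) :
    ∃ ε : ℝ, (ε = 1 ∨ ε = -1) ∧ ∀ x, 0 < ε * f x := by
  obtain ⟨x0⟩ : Nonempty M := inferInstance
  have key : ∀ g : M → ℝ, Continuous g → (∀ x, g x ≠ 0) → 0 < g x0 → ∀ x, 0 < g x := by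
    intro g hg hgn h0 x
    by_contra hx
    have hx' : g x ≤ 0 := not_lt.1 hx
    obtain ⟨y, -, hy⟩ := isPreconnected_univ.intermediate_value (mem_univ x) (mem_univ x0)
      hg.continuousOn ⟨hx', h0.le⟩
    exact hgn y hy
  rcases lt_or_gt_of_ne (hne x0) with h | h
  · refine ⟨-1, Or.inr rfl, fun x => ?_⟩
    have := key (fun x => -1 * f x) (continuous_const.mul hf)
      (fun x => mul_ne_zero (by norm_num) (hne x)) (by linarith) x
    exact this
  · exact ⟨1, Or.inl rfl, fun x => by rw [one_mul]; exact key f hf hne h x⟩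

set_option maxHeartbeats 2000000 in
/-- the two segments. -/
theorem flatc_main [ConnectedSpace M] {w : Trip M} (hw : Pos3 w) {l a : Fin 2 → F1 E4 M}
    (hc : Cofr w l a) :
    ∃ w1 w' : Trip M, Seg w w1 ∧ Seg w1 w' ∧ HK w' ∧
      (∃ K : ℝ, w1 1 = w 1 ∧ w1 2 = w 2 ∧
        ∀ x, val (w1 0) x = val (w 0) x + K • wed (at1 (l 0) x) (at1 (l 1) x)) ∧
      ∃ (K c : ℝ), (∀ x, val (w' 0) x = K • wed (at1 (l 0) x) (at1 (l 1) x)
          + c • wed (at1 (a 0) x) (at1 (a 1) x)) ∧
        (∀ x, val (w' 1) x = wed (at1 (a 0) x) (at1 (l 0) x) + wed (at1 (a 1) x) (at1 (l 1) x)) ∧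
        ∃ s : ℝ, (s = 1 ∨ s = -1) ∧ ∀ x, val (w' 2) x =
          s • (wed (at1 (a 1) x) (at1 (l 0) x) - wed (at1 (a 0) x) (at1 (l 1) x)) := by
  have hne : Nonempty M := inferInstance
  have hW : ∀ x, W (wed (at1 (a 0) x) (at1 (a 1) x)) (wed (at1 (l 0) x) (at1 (l 1) x)) ≠ 0 := by
    intro x
    rw [W_comm]
    apply W_ne_of_ind
    intro v h1 h2 h3 h4
    refine hc.ind x v ?_ ?_
    · intro k; fin_cases k
      · exact h1
      · exact h2
    · intro k; fin_cases k
      · exact h3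
      · exact h4
  have hp : ∀ x, ∃ h : ℝ, val (w 1) x = p0 (at1 (a 0) x) (at1 (a 1) x) (at1 (l 0) x) (at1 (l 1) x)
      + h • wed (at1 (l 0) x) (at1 (l 1) x) := fun x => hc.w1 x
  have hq : ∀ x, W (val (w 2) x) (wed (at1 (l 0) x) (at1 (l 1) x)) = 0 := by
    intro x
    have hd : FibLin_129.del (at1 (l 0) x) (at1 (l 1) x) (at1 (a 0) x) (at1 (a 1) x) ≠ 0 := by
      have := hW x
      rwa [W_comm] at this
    obtain ⟨p, q, r, s, m, h⟩ := FibLin_129.expand5 hd (val_alt (w 2) x) (by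
      intro u v h1 h2 h3 h4
      apply hc.w2 x u v
      · intro k; fin_cases k
        · exact h1
        · exact h2
      · intro k; fin_cases k
        · exact h3
        · exact h4)
    rw [h]
    simp only [W_add_left, W_smul_left]
    rw [W_comm (wed (at1 (a 0) x) (at1 (l 0) x)), W_comm (wed (at1 (a 0) x) (at1 (l 1) x)),
      W_comm (wed (at1 (a 1) x) (at1 (l 0) x)), W_comm (wed (at1 (a 1) x) (at1 (l 1) x)),
      W_r_11, W_r_12, W_r_21, W_r_22, W_r_r]
    ring
  have hPT := pos3_iff_PT.1 hw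
  have hV : Vol ((w 1).1.1 : F2 E4 M) := hw.vol 1
  -- the forms
  obtain ⟨r, hr⟩ := exists_wz (hc.cl 0) (hc.cl 1)
  obtain ⟨A, hA⟩ := exists_wz (hc.ca 0) (hc.ca 1)
  obtain ⟨b00, hb00⟩ := exists_wz (hc.ca 0) (hc.cl 0)
  obtain ⟨b11, hb11⟩ := exists_wz (hc.ca 1) (hc.cl 1)
  obtain ⟨b10, hb10⟩ := exists_wz (hc.ca 1) (hc.cl 0)
  obtain ⟨b01, hb01⟩ := exists_wz (hc.ca 0) (hc.cl 1)
  have hP : ∀ x, val (b00 + b11) x =
      p0 (at1 (a 0) x) (at1 (a 1) x) (at1 (l 0) x) (at1 (l 1) x) := by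
    intro x; rw [val_add, hb00, hb11]; rfl
  have hQ : ∀ x, val (b10 - b01) x =
      q0 (at1 (a 0) x) (at1 (a 1) x) (at1 (l 0) x) (at1 (l 1) x) := by
    intro x; rw [val_sub, hb10, hb01]; rfl
  generalize hPe : b00 + b11 = P at hP
  generalize hQe : b10 - b01 = Q at hQ
  -- constants
  have hbd : ∀ b c : Z2 M, ∃ C : ℝ, 0 ≤ C ∧
      ∀ x, |W (val b x) (val c x) / W (val (w 1) x) (val (w 1) x)| ≤ C := fun b c =>
    exists_bound (cont_q hV b c)
  choose Cf hC0 hCf using hbd
  obtain ⟨C, hC⟩ : ∃ C, C = Cf (w 0) (w 0) + Cf (w 0) (w 1) + Cf (w 0) P + Cf (w 0) (w 2)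
    + Cf (w 0) Q + Cf (w 1) (w 2) + Cf A (w 0) + Cf A (w 1) + Cf A (w 2) := ⟨_, rfl⟩
  have d1 := hC0 (w 0) (w 0)
  have d2 := hC0 (w 0) (w 1)
  have d3 := hC0 (w 0) P
  have d4 := hC0 (w 0) (w 2)
  have d5 := hC0 (w 0) Q
  have d6 := hC0 (w 1) (w 2)
  have d7 := hC0 A (w 0)
  have d8 := hC0 A (w 1)
  have d9 := hC0 A (w 2)
  have hCn : 0 ≤ C := by rw [hC]; linarith
  obtain ⟨δ1, hδ1, hδ⟩ := exists_lower
    (f := fun x => W (val (w 2) x) (val (w 2) x) / W (val (w 1) x) (val (w 1) x)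
      - (W (val (w 1) x) (val (w 2) x) / W (val (w 1) x) (val (w 1) x)) ^ 2)
    ((cont_q hV (w 2) (w 2)).sub ((cont_q hV (w 1) (w 2)).pow 2))
    (fun x => by have := (hPT x).hD; linarith)
  obtain ⟨ε, hε, hεp⟩ := exists_sign (cont_q hV (w 0) r) (fun x => by
    obtain ⟨h, hh⟩ := hp x
    refine div_ne_zero ?_ (hPT x).ne
    rw [hr]
    exact ne_ur (hW x) (hPT x) hh (hq x))
  obtain ⟨τ, hτ, hτp⟩ := exists_sign (cont_q hV (w 2) Q) (fun x => by
    obtain ⟨h, hh⟩ := hp x
    refine div_ne_zero ?_ (hPT x).ne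
    rw [hQ]
    exact ne_qq (hW x) (hPT x) hh (hq x))
  obtain ⟨m1, hm1, hm⟩ := exists_lower
    (f := fun x => ε * (W (val (w 0) x) (val r x) / W (val (w 1) x) (val (w 1) x)))
    (continuous_const.mul (cont_q hV (w 0) r)) hεp
  have hε2 : ε ^ 2 = 1 := by rcases hε with h | h <;> rw [h] <;> norm_num
  have hτ2 : τ ^ 2 = 1 := by rcases hτ with h | h <;> rw [h] <;> norm_num
  obtain ⟨δ, hδe⟩ : ∃ δ, δ = min δ1 1 := ⟨_, rfl⟩
  have hδ0 : 0 < δ := by rw [hδe]; exact lt_min hδ1 one_pos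
  obtain ⟨m, hme⟩ : ∃ m, m = min m1 (1 / 2) := ⟨_, rfl⟩
  have hm0 : 0 < m := by rw [hme]; exact lt_min hm1 (by norm_num)
  obtain ⟨K1, hK1⟩ : ∃ K1, K1 = (C ^ 2 + 2 / δ * (C + C ^ 2) ^ 2 + 1 + C) / (2 * m) := ⟨_, rfl⟩
  have hK1p : 0 < K1 := by rw [hK1]; positivity
  have hK1e : 2 * (K1 * m) = C ^ 2 + 2 / δ * (C + C ^ 2) ^ 2 + 1 + C := by
    rw [hK1]; field_simp
  refine ⟨![w 0 + (ε * K1) • r, w 1, w 2], ![(ε * K1) • r + (-ε) • A, P, τ • Q], ?_, ?_, ?_, ?_, ?_⟩
  · -- first segment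
    intro t ht0 ht1
    rw [pos3_iff_PT]
    intro x
    simp only [val_seg]
    have e0 : (1 - t) • val (w 0) x + t • val ((![w 0 + (ε * K1) • r, w 1, w 2] : Trip M) 0) x =
        val (w 0) x + (t * (ε * K1)) • wed (at1 (l 0) x) (at1 (l 1) x) := by
      change (1 - t) • val (w 0) x + t • val (w 0 + (ε * K1) • r) x = _
      rw [val_add, val_smul, hr]
      module
    have e1 : (1 - t) • val (w 1) x + t • val ((![w 0 + (ε * K1) • r, w 1, w 2] : Trip M) 1) x =
        val (w 1) x := by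
      change (1 - t) • val (w 1) x + t • val (w 1) x = _
      module
    have e2 : (1 - t) • val (w 2) x + t • val ((![w 0 + (ε * K1) • r, w 1, w 2] : Trip M) 2) x =
        val (w 2) x := by
      change (1 - t) • val (w 2) x + t • val (w 2) x = _
      module
    rw [e0, e1, e2]
    obtain ⟨h, hh⟩ := hp x
    refine seg1 (hPT x) (W_r_r _ _) (Wpr hh) (hq x) ?_
    have := hεp x
    rw [hr] at this
    have h2 : t * (ε * K1) * (W (val (w 0) x) (wed (at1 (l 0) x) (at1 (l 1) x)) /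
        W (val (w 1) x) (val (w 1) x)) = t * K1 * (ε * (W (val (w 0) x)
          (wed (at1 (l 0) x) (at1 (l 1) x)) / W (val (w 1) x) (val (w 1) x))) := by ring
    rw [h2]
    exact mul_nonneg (mul_nonneg ht0 hK1p.le) this.le
  · -- second segment
    intro s hs0 hs1
    rw [pos3_iff_PT]
    intro x
    simp only [val_seg]
    have e0 : (1 - s) • val ((![w 0 + (ε * K1) • r, w 1, w 2] : Trip M) 0) x +
        s • val ((![(ε * K1) • r + (-ε) • A, P, τ • Q] : Trip M) 0) x =
        (1 - s) • (val (w 0) x + (ε * K1) • wed (at1 (l 0) x) (at1 (l 1) x)) +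
        s • ((ε * K1) • wed (at1 (l 0) x) (at1 (l 1) x)
          + (-ε) • wed (at1 (a 0) x) (at1 (a 1) x)) := by
      change (1 - s) • val (w 0 + (ε * K1) • r) x + s • val ((ε * K1) • r + (-ε) • A) x = _
      rw [val_add, val_add, val_smul, val_smul, hr, hA]
    have e1 : (1 - s) • val ((![w 0 + (ε * K1) • r, w 1, w 2] : Trip M) 1) x +
        s • val ((![(ε * K1) • r + (-ε) • A, P, τ • Q] : Trip M) 1) x =
        (1 - s) • val (w 1) x + s • p0 (at1 (a 0) x) (at1 (a 1) x) (at1 (l 0) x) (at1 (l 1) x) := by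
      change (1 - s) • val (w 1) x + s • val P x = _
      rw [hP]
    have e2 : (1 - s) • val ((![w 0 + (ε * K1) • r, w 1, w 2] : Trip M) 2) x +
        s • val ((![(ε * K1) • r + (-ε) • A, P, τ • Q] : Trip M) 2) x =
        (1 - s) • val (w 2) x +
        s • (τ • q0 (at1 (a 0) x) (at1 (a 1) x) (at1 (l 0) x) (at1 (l 1) x)) := by
      change (1 - s) • val (w 2) x + s • val (τ • Q) x = _
      rw [val_smul, hQ]
    rw [e0, e1, e2]
    obtain ⟨h, hh⟩ := hp x
    have k1 := hCf (w 0) (w 0) x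
    have k2 := hCf (w 0) (w 1) x
    have k3 := hCf (w 0) P x
    have k4 := hCf (w 0) (w 2) x
    have k5 := hCf (w 0) Q x
    have k6 := hCf (w 1) (w 2) x
    have k7 := hCf A (w 0) x
    have k8 := hCf A (w 1) x
    have k9 := hCf A (w 2) x
    rw [hP] at k3
    rw [hQ] at k5
    rw [hA] at k7 k8 k9
    have kε := hm x
    rw [hr] at kε
    have kτ := hτp x
    rw [hQ] at kτ
    have kδ := hδ x
    refine segB (C := C) (δ := δ) (m := m) (hW x) hh (hq x) hτ2 hε2 hs0 hs1 hCn hδ0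
      (by rw [hδe]; exact min_le_right _ _)
      (k1.trans (by rw [hC]; linarith)) (k2.trans (by rw [hC]; linarith))
      (k3.trans (by rw [hC]; linarith)) (k4.trans (by rw [hC]; linarith))
      (k5.trans (by rw [hC]; linarith)) (k6.trans (by rw [hC]; linarith))
      (k7.trans (by rw [hC]; linarith)) (k8.trans (by rw [hC]; linarith))
      (k9.trans (by rw [hC]; linarith)) ?_ kτ.le ?_ ?_ hK1p.le hm0.le ?_
    · exact le_trans (by rw [hδe]; exact min_le_left _ _) kδ
    · exact le_trans (by rw [hme]; exact min_le_left _ _) kε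
    · rw [hme]; exact min_le_right _ _
    · rw [hK1e]; linarith
  · -- hyperkaehler
    refine ⟨Matrix.diagonal ![K1, 1, 1], ?_, fun x =>
      ⟨W (val P x) (val P x), ?_⟩⟩
    · refine Matrix.posDef_diagonal_iff.2 fun i => ?_
      fin_cases i
      · exact hK1p
      · exact one_pos
      · exact one_pos
    · have v0 : val ((![(ε * K1) • r + (-ε) • A, P, τ • Q] : Trip M) 0) x =
          (ε * K1) • wed (at1 (l 0) x) (at1 (l 1) x)
            + (-ε) • wed (at1 (a 0) x) (at1 (a 1) x) := by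
        change val ((ε * K1) • r + (-ε) • A) x = _
        rw [val_add, val_smul, val_smul, hr, hA]
      have v1 : val ((![(ε * K1) • r + (-ε) • A, P, τ • Q] : Trip M) 1) x =
          p0 (at1 (a 0) x) (at1 (a 1) x) (at1 (l 0) x) (at1 (l 1) x) := by
        change val P x = _
        rw [hP]
      have v2 : val ((![(ε * K1) • r + (-ε) • A, P, τ • Q] : Trip M) 2) x =
          τ • q0 (at1 (a 0) x) (at1 (a 1) x) (at1 (l 0) x) (at1 (l 1) x) := by
        change val (τ • Q) x = _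
        rw [val_smul, hQ]
      have t1 := W_r_r (at1 (l 0) x) (at1 (l 1) x)
      have t2 := W_r_r (at1 (a 0) x) (at1 (a 1) x)
      have t3 := W_r_p0 (at1 (a 0) x) (at1 (a 1) x) (at1 (l 0) x) (at1 (l 1) x)
      have t4 := W_r_q0 (at1 (a 0) x) (at1 (a 1) x) (at1 (l 0) x) (at1 (l 1) x)
      have t5 := W_p0_q0 (at1 (a 0) x) (at1 (a 1) x) (at1 (l 0) x) (at1 (l 1) x)
      have t6 := W_p0_p0 (at1 (a 0) x) (at1 (a 1) x) (at1 (l 0) x) (at1 (l 1) x)
      have t7 := W_q0_q0 (at1 (a 0) x) (at1 (a 1) x) (at1 (l 0) x) (at1 (l 1) x)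
      have t8 : W (wed (at1 (a 0) x) (at1 (a 1) x))
          (p0 (at1 (a 0) x) (at1 (a 1) x) (at1 (l 0) x) (at1 (l 1) x)) = 0 := by
        unfold p0 W; simp only [ent_add]; simp only [ent, wed_apply]; ring
      have t9 : W (wed (at1 (a 0) x) (at1 (a 1) x))
          (q0 (at1 (a 0) x) (at1 (a 1) x) (at1 (l 0) x) (at1 (l 1) x)) = 0 := by
        unfold q0 W; simp only [ent_sub]; simp only [ent, wed_apply]; ring
      have s00 : W (val ((![(ε * K1) • r + (-ε) • A, P, τ • Q] : Trip M) 0) x)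
          (val ((![(ε * K1) • r + (-ε) • A, P, τ • Q] : Trip M) 0) x) =
          W (val P x) (val P x) * K1 := by
        rw [v0, hP, t6]
        simp only [W_add_left, W_add_right, W_smul_left, W_smul_right]
        rw [t1, t2, W_comm (wed (at1 (l 0) x) (at1 (l 1) x))
          (wed (at1 (a 0) x) (at1 (a 1) x))]
        linear_combination (-2 * K1 * W (wed (at1 (a 0) x) (at1 (a 1) x))
          (wed (at1 (l 0) x) (at1 (l 1) x))) * hε2
      have s11 : W (val ((![(ε * K1) • r + (-ε) • A, P, τ • Q] : Trip M) 1) x)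
          (val ((![(ε * K1) • r + (-ε) • A, P, τ • Q] : Trip M) 1) x) =
          W (val P x) (val P x) * 1 := by
        rw [v1, hP, mul_one]
      have s22 : W (val ((![(ε * K1) • r + (-ε) • A, P, τ • Q] : Trip M) 2) x)
          (val ((![(ε * K1) • r + (-ε) • A, P, τ • Q] : Trip M) 2) x) =
          W (val P x) (val P x) * 1 := by
        rw [v2, hP, W_smul_left, W_smul_right, t6, t7]
        linear_combination (-2 * W (wed (at1 (a 0) x) (at1 (a 1) x))
          (wed (at1 (l 0) x) (at1 (l 1) x))) * hτ2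
      have s01 : W (val ((![(ε * K1) • r + (-ε) • A, P, τ • Q] : Trip M) 0) x)
          (val ((![(ε * K1) • r + (-ε) • A, P, τ • Q] : Trip M) 1) x) = 0 := by
        rw [v0, v1]
        simp only [W_add_left, W_smul_left]
        rw [t3, t8]; ring
      have s02 : W (val ((![(ε * K1) • r + (-ε) • A, P, τ • Q] : Trip M) 0) x)
          (val ((![(ε * K1) • r + (-ε) • A, P, τ • Q] : Trip M) 2) x) = 0 := by
        rw [v0, v2]
        simp only [W_add_left, W_smul_left, W_smul_right]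
        rw [t4, t9]; ring
      have s12 : W (val ((![(ε * K1) • r + (-ε) • A, P, τ • Q] : Trip M) 1) x)
          (val ((![(ε * K1) • r + (-ε) • A, P, τ • Q] : Trip M) 2) x) = 0 := by
        rw [v1, v2, W_smul_right, t5]; ring
      intro i j
      fin_cases i <;> fin_cases j
      · simpa using s00
      · simpa using s01
      · simpa using s02
      · rw [W_comm]; simpa using s01
      · simpa using s11
      · simpa using s12
      · rw [W_comm]; simpa using s02
      · rw [W_comm]; simpa using s12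
      · change W (val ((![(ε * K1) • r + (-ε) • A, P, τ • Q] : Trip M) 2) x)
          (val ((![(ε * K1) • r + (-ε) • A, P, τ • Q] : Trip M) 2) x) =
          W (val P x) (val P x) * 1
        exact s22
  · refine ⟨ε * K1, rfl, rfl, fun x => ?_⟩
    change val (w 0 + (ε * K1) • r) x = _
    rw [val_add, val_smul, hr]
  · refine ⟨ε * K1, -ε, fun x => ?_, fun x => ?_, τ, hτ, fun x => ?_⟩
    · change val ((ε * K1) • r + (-ε) • A) x = _
      rw [val_add, val_smul, val_smul, hr, hA]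
    · change val P x = _
      rw [hP]; rfl
    · change val (τ • Q) x = _
      rw [val_smul, hQ]; rfl

end Closed

/-- FLATC. -/
theorem flatc : FLATC.{u} := by
  intro M _ _ _ _ _ _ w hw l a hc
  exact flatc_main hw hc

end

end Crest.Agent.R235.TorFlat_68
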