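import Crest.Agent.R235.KumEv_510
import Crest.Agent.R235.TorMin_510
import Crest.Agent.R235.FibTop_129
import Crest.Agent.R235.TorFlat_68

/-!
Row 235 (S0364), PACKAGE KUM (helper152): node `EVT`
`EVMOVE, TORUSR, ATLAS, INTT, COFRAMEI, FLATC ⇒ EVT`.
-/

set_option autoImplicit false
set_option maxSynthPendingDepth 3

open Set Function Filter MeasureTheory
open scoped Manifold ContDiff Topology

universe u

namespace Crest.Agent.R235.KumEvt_152

open Crest.Agent.R240 Crest.Agent.R240.Ch Crest.Agent.R235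

noncomputable section

section Basic

variable {M : Type u} [TopologicalSpace M] [T2Space M] [CompactSpace M]
  [ChartedSpace E4 M] [IsManifold 𝓘(ℝ, E4) ∞ M]

omit [T2Space M] [CompactSpace M] [IsManifold 𝓘(ℝ, E4) ∞ M] in
/-- the wedge of odd one-forms is even. -/
theorem wed_even {τ : M → M} {s t : F1 E4 M} (hs : Odd1 τ s) (ht : Odd1 τ t) (x : M) (u v : E4) :
    wed (at1 s (τ x)) (at1 t (τ x)) (dself τ x u) (dself τ x v) =
      wed (at1 s x) (at1 t x) u v := by
  simp only [wed_apply, hs x u, hs x v, ht x u, ht x v]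
  ring

/-- the coframe `(l 0, l 1, a 0, a 1)`. -/
def fr (l a : Fin 2 → F1 E4 M) : Fin 4 → F1 E4 M := ![l 0, l 1, a 0, a 1]

end Basic

/-- EVT. -/
theorem evt_of (hMv : EVMOVE.{u}) (hTo : TORUSR.{u}) (hA : ATLAS.{u}) (hI : INTT.{u})
    (hCo : COFRAMEI.{u}) (hF : FLATC.{u}) : EVT.{u} := by
  intro X _ _ _ _ _ _ w τ hw hT hi hm
  obtain ⟨e, w1, hTP, hP1, hw1, hE1, hT1⟩ := hMv X w τ hw hT hi hm
  obtain ⟨k, hk, hne⟩ := hTo X w1 e hw1 hT1 hTP
  obtain ⟨T, hTA⟩ := hA X w1 e hw1 hT1 hTP k hk hne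
  have hV : Int.Vol ((w1 0).1.1 : F2 E4 X) := hw1.vol 0
  have hi1 : Invol w1 τ := ⟨hi.smooth, hi.inv, hE1⟩
  have hff : ip (w1 0) ((k : ℝ) • e) ((k : ℝ) • e) = 0 := by
    rw [ip_smul_left hV, ip_smul_right hV, hTP.iso, mul_zero, mul_zero]
  obtain ⟨l, a, hC, hol, hoa⟩ := hCo X w1 _ hw1 hT1 T hTA τ hi1 hm
    (TorMin_510.leaves hI hw1 hT1 hi1 hm hff hTA)
  obtain ⟨w2, w', hs1, hs2, hHK, ⟨K, h21, h22, h20⟩, K', c', h0', h1', s', hs', h2'⟩ :=
    hF X w1 hw1 l a hC
  have hE2 : EvenT τ w2 := by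
    intro i x u v
    fin_cases i
    · show val (w2 0) (τ x) (dself τ x u) (dself τ x v) = val (w2 0) x u v
      rw [h20, h20]
      show val (w1 0) (τ x) (dself τ x u) (dself τ x v) +
        K * wed (at1 (l 0) (τ x)) (at1 (l 1) (τ x)) (dself τ x u) (dself τ x v) =
        val (w1 0) x u v + K * wed (at1 (l 0) x) (at1 (l 1) x) u v
      rw [hE1 0 x u v, wed_even (hol 0) (hol 1)]
    · show val (w2 1) (τ x) (dself τ x u) (dself τ x v) = val (w2 1) x u v
      rw [h21]
      exact hE1 1 x u v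
    · show val (w2 2) (τ x) (dself τ x u) (dself τ x v) = val (w2 2) x u v
      rw [h22]
      exact hE1 2 x u v
  have hE' : EvenT τ w' := by
    intro i x u v
    fin_cases i
    · show val (w' 0) (τ x) (dself τ x u) (dself τ x v) = val (w' 0) x u v
      rw [h0', h0']
      show K' * wed (at1 (l 0) (τ x)) (at1 (l 1) (τ x)) (dself τ x u) (dself τ x v) +
        c' * wed (at1 (a 0) (τ x)) (at1 (a 1) (τ x)) (dself τ x u) (dself τ x v) =
        K' * wed (at1 (l 0) x) (at1 (l 1) x) u v + c' * wed (at1 (a 0) x) (at1 (a 1) x) u v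
      rw [wed_even (hol 0) (hol 1), wed_even (hoa 0) (hoa 1)]
    · show val (w' 1) (τ x) (dself τ x u) (dself τ x v) = val (w' 1) x u v
      rw [h1', h1']
      show wed (at1 (a 0) (τ x)) (at1 (l 0) (τ x)) (dself τ x u) (dself τ x v) +
        wed (at1 (a 1) (τ x)) (at1 (l 1) (τ x)) (dself τ x u) (dself τ x v) =
        wed (at1 (a 0) x) (at1 (l 0) x) u v + wed (at1 (a 1) x) (at1 (l 1) x) u v
      rw [wed_even (hoa 0) (hol 0), wed_even (hoa 1) (hol 1)]
    · show val (w' 2) (τ x) (dself τ x u) (dself τ x v) = val (w' 2) x u v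
      rw [h2', h2']
      show s' * (wed (at1 (a 1) (τ x)) (at1 (l 0) (τ x)) (dself τ x u) (dself τ x v) -
        wed (at1 (a 0) (τ x)) (at1 (l 1) (τ x)) (dself τ x u) (dself τ x v)) =
        s' * (wed (at1 (a 1) x) (at1 (l 0) x) u v - wed (at1 (a 0) x) (at1 (l 1) x) u v)
      rw [wed_even (hoa 1) (hol 0), wed_even (hoa 0) (hol 1)]
  refine ⟨w', fr l a, ?_, hs2.right, hE', ⟨?_, ?_, ?_⟩, ?_⟩
  · exact (hP1.tail ⟨hs1, hE1, hE2⟩).tail ⟨hs2, hE2, hE'⟩
  · intro i
    fin_cases i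
    · exact hC.cl 0
    · exact hC.cl 1
    · exact hC.ca 0
    · exact hC.ca 1
  · intro x v hv
    refine hC.ind x v (fun k => ?_) fun k => ?_
    · fin_cases k
      · exact hv 0
      · exact hv 1
    · fin_cases k
      · exact hv 2
      · exact hv 3
  · refine ⟨![fun i j => if i = 0 ∧ j = 1 then K' else if i = 2 ∧ j = 3 then c' else 0,
      fun i j => if i = 2 ∧ j = 0 then 1 else if i = 3 ∧ j = 1 then 1 else 0,
      fun i j => if i = 3 ∧ j = 0 then s' else if i = 2 ∧ j = 1 then -s' else 0], ?_⟩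
    intro k x
    fin_cases k
    · show val (w' 0) x = _
      rw [h0']
      simp [Fin.sum_univ_four, fr]
    · show val (w' 1) x = _
      rw [h1']
      simp [Fin.sum_univ_four, fr]
    · show val (w' 2) x = _
      rw [h2']
      simp [Fin.sum_univ_four, fr]
      module
  · intro i
    fin_cases i
    · exact hol 0
    · exact hol 1
    · exact hoa 0
    · exact hoa 1

/-- EVT from the external nodes. -/
theorem evt_of' (hex : EXJ.{u}) (hcone : CONE.{u}) (hLT : LATTR.{u}) (hTo : TORUSR.{u})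
    (hA : ATLAS.{u}) (hI : INTT.{u}) : EVT.{u} :=
  evt_of (TorMin_510.evmove hex hcone hLT) hTo hA hI FibTop_129.coframei TorFlat_68.flatc

end

end Crest.Agent.R235.KumEvt_152
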