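import Crest.Agent.R235.KumDefs_152
import Crest.Agent.R235.Loc_524
import Crest.Agent.R235.Ip_288
import Crest.Agent.R235.TorMinA_510

/-!
Row 235, package KUM, node KTW (c) (helper57): on a manifold of K3 type every locally constant
`U(1)` cocycle on a finite open cover is a locally constant coboundary (from `FLATK`).
-/

set_option autoImplicit false
set_option maxSynthPendingDepth 3
set_option linter.unusedSectionVars false

open Set Function Filter MeasureTheory
open scoped Manifold ContDiff Topology ComplexConjugate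

universe u

namespace Crest.Agent.R235.KumTwC_57

open Crest.Agent.R240 Crest.Agent.R240.Ch Crest.Agent.R235.Loc_524

noncomputable section

/-! ### linear algebra -/

theorem trace_comm_zero {n : ℕ} {P A B : Matrix (Fin n) (Fin n) ℂ} (hP : P.transpose = P)
    (hA : A.transpose = A) (hB : B.transpose = B) : (P * (A * B - B * A)).trace = 0 := by
  have h1 : (P * (A * B)).trace = (P * (B * A)).trace := by
    rw [← Matrix.trace_transpose, Matrix.transpose_mul, Matrix.transpose_mul, hP, hA, hB,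
      Matrix.trace_mul_comm]
  rw [Matrix.mul_sub, Matrix.trace_sub, h1, sub_self]

theorem trace_conj_zero {n : ℕ} {G P A B : Matrix (Fin n) (Fin n) ℂ}
    (hG : G.conjTranspose * G = 1) (hP : P.transpose = P)
    (hA : A.transpose = A) (hB : B.transpose = B) :
    ((G * P * G.conjTranspose) * ((G * A * G.conjTranspose) * (G * B * G.conjTranspose) -
      (G * B * G.conjTranspose) * (G * A * G.conjTranspose))).trace = 0 := by
  have h1 : ∀ X Y : Matrix (Fin n) (Fin n) ℂ,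
      (G * X * G.conjTranspose) * (G * Y * G.conjTranspose) = G * (X * Y) * G.conjTranspose := by
    intro X Y
    calc (G * X * G.conjTranspose) * (G * Y * G.conjTranspose)
        = G * X * (G.conjTranspose * G) * Y * G.conjTranspose := by
          simp only [Matrix.mul_assoc]
      _ = G * (X * Y) * G.conjTranspose := by rw [hG, Matrix.mul_one]; simp only [Matrix.mul_assoc]
  rw [h1, h1, ← Matrix.sub_mul, ← Matrix.mul_sub, h1, Matrix.trace_mul_comm, ← Matrix.mul_assoc,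
    hG, Matrix.one_mul]
  exact trace_comm_zero hP hA hB

/-- locally constant `U(1)` cocycle on a finite open cover. -/
structure LCoc {M : Type u} [TopologicalSpace M] {n : ℕ} (U : Fin n → Set M)
    (g : Fin n → Fin n → M → ℂ) : Prop where
  op : ∀ a, IsOpen (U a)
  cov : ∀ x, ∃ a, x ∈ U a
  unit : ∀ a b x, x ∈ U a → x ∈ U b → ‖g a b x‖ = 1
  lc : ∀ a b x, x ∈ U a → x ∈ U b → ∀ᶠ y in 𝓝 x, g a b y = g a b x
  coc : ∀ a b c x, x ∈ U a → x ∈ U b → x ∈ U c → g a b x * g b c x = g a c x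

namespace LCoc

variable {M : Type u} [TopologicalSpace M] {n : ℕ} {U : Fin n → Set M}
  {g : Fin n → Fin n → M → ℂ} (h : LCoc U g)

include h

theorem ne {a b : Fin n} {x : M} (ha : x ∈ U a) (hb : x ∈ U b) : g a b x ≠ 0 := by
  intro h0
  have := h.unit a b x ha hb
  rw [h0, norm_zero] at this
  exact zero_ne_one this

theorem self {a : Fin n} {x : M} (ha : x ∈ U a) : g a a x = 1 := by
  have h1 := h.coc a a a x ha ha ha
  have h2 := h.ne ha ha
  exact mul_left_cancel₀ h2 (by rw [h1, mul_one])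

theorem conj_eq {a b : Fin n} {x : M} (ha : x ∈ U a) (hb : x ∈ U b) :
    conj (g a b x) = g b a x := by
  have h1 := h.coc a b a x ha hb ha
  rw [h.self ha] at h1
  have h2 : g a b x * conj (g a b x) = 1 := by
    rw [Complex.mul_conj, Complex.normSq_eq_norm_sq, h.unit a b x ha hb]
    norm_num
  exact mul_left_cancel₀ (h.ne ha hb) (h2.trans h1.symm)

end LCoc

/-! ### smooth square partition of unity -/

section Part

variable {M : Type u} [TopologicalSpace M] [T2Space M] [CompactSpace M]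
  [ChartedSpace E4 M] [IsManifold 𝓘(ℝ, E4) ∞ M]

theorem exists_sq_part {n : ℕ} {U : Fin n → Set M} (ho : ∀ a, IsOpen (U a))
    (hc : ∀ x, ∃ a, x ∈ U a) : ∃ χ : Fin n → M → ℝ,
    (∀ a, ContMDiff 𝓘(ℝ, E4) 𝓘(ℝ, ℝ) ∞ (χ a)) ∧ (∀ a, tsupport (χ a) ⊆ U a) ∧
    ∀ x, ∑ a, χ a x ^ 2 = 1 := by
  obtain ⟨f, hf⟩ := SmoothPartitionOfUnity.exists_isSubordinate 𝓘(ℝ, E4) (s := (univ : Set M))
    isClosed_univ U ho (fun x _ => mem_iUnion.2 (hc x))
  have hsum : ∀ x, ∑ a, f a x = 1 := by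
    intro x
    have h1 := f.sum_eq_one (mem_univ x)
    rwa [finsum_eq_sum_of_fintype] at h1
  have hpos : ∀ x, 0 < ∑ a, f a x ^ 2 := by
    intro x
    by_contra h0
    push Not at h0
    have h1 : ∑ a, f a x ^ 2 = 0 := le_antisymm h0 (Finset.sum_nonneg fun a _ => sq_nonneg _)
    have h2 : ∀ a, f a x = 0 := by
      intro a
      have := (Finset.sum_eq_zero_iff_of_nonneg (fun a _ => sq_nonneg (f a x))).1 h1 a
        (Finset.mem_univ a)
      exact pow_eq_zero_iff (two_ne_zero) |>.1 this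
    have h3 := hsum x
    simp [h2] at h3
  refine ⟨fun a x => f a x / √(∑ b, f b x ^ 2), fun a => ?_, fun a => ?_, fun x => ?_⟩
  · have h1 : ContMDiff 𝓘(ℝ, E4) 𝓘(ℝ, ℝ) ∞ (fun x => ∑ b, f b x ^ 2) := by
      refine contMDiff_finsetSum fun b _ => ?_
      exact (f b).contMDiff.pow 2
    have h2 : ContMDiff 𝓘(ℝ, E4) 𝓘(ℝ, ℝ) ∞ (fun x => √(∑ b, f b x ^ 2)) := by
      intro x
      have h3 : ContDiffAt ℝ ∞ Real.sqrt (∑ b, f b x ^ 2) := Real.contDiffAt_sqrt (hpos x).ne'
      exact h3.contMDiffAt.comp x (h1 x)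
    exact (f a).contMDiff.div₀ h2 (fun x => (Real.sqrt_pos.2 (hpos x)).ne')
  · refine subset_trans (closure_mono ?_) (hf a)
    intro x hx
    rw [mem_support] at hx ⊢
    intro h0
    exact hx (by show f a x / _ = 0; rw [h0, zero_div])
  · have h1 : ∀ a, (f a x / √(∑ b, f b x ^ 2)) ^ 2 = f a x ^ 2 / (∑ b, f b x ^ 2) := by
      intro a
      rw [div_pow, Real.sq_sqrt (hpos x).le]
    simp only [h1]
    rw [← Finset.sum_div, div_self (hpos x).ne']

/-- smooth square partition of unity. -/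
structure SqPart {n : ℕ} (U : Fin n → Set M) (χ : Fin n → M → ℝ) : Prop where
  sm : ∀ a, ContMDiff 𝓘(ℝ, E4) 𝓘(ℝ, ℝ) ∞ (χ a)
  supp : ∀ a, tsupport (χ a) ⊆ U a
  sq : ∀ x, ∑ a, χ a x ^ 2 = 1

variable {n : ℕ} {U : Fin n → Set M} {g : Fin n → Fin n → M → ℂ} {χ : Fin n → M → ℝ}

theorem SqPart.zero (hχ : SqPart U χ) {a : Fin n} {x : M} (hx : x ∉ U a) :
    ∀ᶠ y in 𝓝 x, χ a y = 0 := by
  have h1 : x ∉ tsupport (χ a) := fun h => hx (hχ.supp a h)
  exact cut_zero h1

theorem SqPart.mem (hχ : SqPart U χ) {a : Fin n} {x : M} (hx : χ a x ≠ 0) : x ∈ U a :=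
  hχ.supp a (subset_tsupport _ hx)

/-- the projection. -/
def pr (χ : Fin n → M → ℝ) (g : Fin n → Fin n → M → ℂ) (x : M) : Matrix (Fin n) (Fin n) ℂ :=
  fun a b => (χ a x : ℂ) * (χ b x : ℂ) * g a b x

/-- local form of the projection. -/
theorem pr_local (h : LCoc U g) (hχ : SqPart U χ) (x : M) : ∃ γ : Fin n → ℂ,
    (∀ a, ‖γ a‖ = 1) ∧ ∀ᶠ y in 𝓝 x, ∀ a b,
      pr χ g y a b = ((χ a y * χ b y : ℝ) : ℂ) * (γ a * conj (γ b)) := by
  classical
  obtain ⟨a0, ha0⟩ := h.cov x
  refine ⟨fun a => if x ∈ U a then g a a0 x else 1, fun a => ?_, ?_⟩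
  · dsimp only
    split_ifs with ha
    · exact h.unit a a0 x ha ha0
    · exact norm_one
  · rw [eventually_all]
    intro a
    rw [eventually_all]
    intro b
    by_cases ha : x ∈ U a
    · by_cases hb : x ∈ U b
      · filter_upwards [h.lc a b x ha hb] with y hy
        unfold pr
        simp only [if_pos ha, if_pos hb]
        rw [hy, h.conj_eq hb ha0, h.coc a a0 b x ha ha0 hb]
        push_cast
        ring
      · filter_upwards [hχ.zero hb] with y hy
        unfold pr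
        rw [hy]; simp
    · filter_upwards [hχ.zero ha] with y hy
      unfold pr
      rw [hy]; simp

theorem contMDiff_ofReal {f : M → ℝ} {x : M} (hf : ContMDiffAt 𝓘(ℝ, E4) 𝓘(ℝ, ℝ) ∞ f x) :
    ContMDiffAt 𝓘(ℝ, E4) 𝓘(ℝ, ℂ) ∞ (fun y => (f y : ℂ)) x :=
  (Complex.ofRealCLM.contDiff (n := ∞)).contMDiff.contMDiffAt.comp x hf

theorem contMDiff_mulC {f f' : M → ℂ} {x : M} (hf : ContMDiffAt 𝓘(ℝ, E4) 𝓘(ℝ, ℂ) ∞ f x)
    (hf' : ContMDiffAt 𝓘(ℝ, E4) 𝓘(ℝ, ℂ) ∞ f' x) :
    ContMDiffAt 𝓘(ℝ, E4) 𝓘(ℝ, ℂ) ∞ (fun y => f y * f' y) x := by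
  have h1 : ContDiff ℝ ∞ (fun p : ℂ × ℂ => p.1 * p.2) := contDiff_fst.mul contDiff_snd
  exact h1.contMDiff.contMDiffAt.comp x (hf.prodMk_space hf')

theorem isLine_pr (h : LCoc U g) (hχ : SqPart U χ) : IsLine (pr χ g) where
  smooth a b := by
    intro x
    obtain ⟨γ, -, hγ⟩ := pr_local h hχ x
    have h1 : ContMDiffAt 𝓘(ℝ, E4) 𝓘(ℝ, ℂ) ∞
        (fun y => ((χ a y * χ b y : ℝ) : ℂ) * (γ a * conj (γ b))) x :=
      contMDiff_mulC (contMDiff_ofReal ((hχ.sm a x).mul (hχ.sm b x))) contMDiffAt_const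
    refine h1.congr_of_eventuallyEq ?_
    filter_upwards [hγ] with y hy using hy a b
  idem x := by
    ext a c
    rw [Matrix.mul_apply]
    have h1 : ∀ b, pr χ g x a b * pr χ g x b c = (χ b x ^ 2 : ℝ) * pr χ g x a c := by
      intro b
      unfold pr
      by_cases ha : χ a x = 0
      · rw [ha]; simp
      by_cases hc : χ c x = 0
      · rw [hc]; simp
      by_cases hb : χ b x = 0
      · rw [hb]; simp
      rw [← h.coc a b c x (hχ.mem ha) (hχ.mem hb) (hχ.mem hc)]
      push_cast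
      ring
    rw [Finset.sum_congr rfl fun b _ => h1 b, ← Finset.sum_mul, ← Complex.ofReal_sum, hχ.sq x,
      Complex.ofReal_one, one_mul]
  herm x := by
    ext a b
    rw [Matrix.conjTranspose_apply]
    unfold pr
    by_cases ha : χ a x = 0
    · rw [ha]; simp
    by_cases hb : χ b x = 0
    · rw [hb]; simp
    have h1 := h.conj_eq (hχ.mem hb) (hχ.mem ha)
    simp only [star_mul', Complex.star_def, Complex.conj_ofReal]
    rw [h1]; ring
  rank x := by
    unfold Matrix.trace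
    have h1 : ∀ a, (pr χ g x).diag a = ((χ a x ^ 2 : ℝ) : ℂ) := by
      intro a
      rw [Matrix.diag_apply]
      unfold pr
      by_cases ha : χ a x = 0
      · rw [ha]; simp
      rw [h.self (hχ.mem ha)]
      push_cast; ring
    rw [Finset.sum_congr rfl fun a _ => h1 a, ← Complex.ofReal_sum, hχ.sq x, Complex.ofReal_one]

theorem isChern_pr (h : LCoc U g) (hχ : SqPart U χ) : IsChern (pr χ g) 0 := by
  intro x u v
  obtain ⟨γ, hγ1, hγ⟩ := pr_local h hχ x
  set G : Matrix (Fin n) (Fin n) ℂ := Matrix.diagonal γ with hG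
  have hGG : G.conjTranspose * G = 1 := by
    rw [hG, Matrix.diagonal_conjTranspose, Matrix.diagonal_mul_diagonal, ← Matrix.diagonal_one]
    congr 1
    funext a
    show conj (γ a) * γ a = 1
    rw [mul_comm, Complex.mul_conj, Complex.normSq_eq_norm_sq, hγ1 a]
    norm_num
  have hentry : ∀ (A : Matrix (Fin n) (Fin n) ℂ) a b, (G * A * G.conjTranspose) a b =
      A a b * (γ a * conj (γ b)) := by
    intro A a b
    rw [hG, Matrix.diagonal_conjTranspose, Matrix.mul_diagonal, Matrix.diagonal_mul]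
    show γ a * A a b * conj (γ b) = _
    ring
  set y0 := chartAt E4 x x with hy0
  set R : Fin n → Fin n → E4 → ℝ := fun a b y =>
    χ a ((chartAt E4 x).symm y) * χ b ((chartAt E4 x).symm y) with hR
  have hRs : ∀ a b, R a b = R b a := by
    intro a b; funext y; exact mul_comm _ _
  have hRd : ∀ a b, DifferentiableAt ℝ (R a b) y0 := by
    intro a b
    have h1 : SmoothF E4 (fun x => χ a x * χ b x) :=
      Int.smoothF_of_contMDiff ((hχ.sm a).mul (hχ.sm b))
    exact Int.SmoothF.diffAt h1 (mem_chart_target E4 x)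
  have hd : ∀ w : E4, dmat (pr χ g) x w = G * (Matrix.of fun a b =>
      ((fderiv ℝ (R a b) y0 w : ℝ) : ℂ)) * G.conjTranspose := by
    intro w
    ext a b
    rw [hentry]
    unfold dmat
    have h1 : (fun y : E4 => pr χ g ((chartAt E4 x).symm y) a b) =ᶠ[𝓝 y0]
        fun y => ((R a b y : ℝ) : ℂ) * (γ a * conj (γ b)) := by
      have h2 := (tendsto_symm' (E := E4) (mem_chart_source E4 x)).eventually hγ
      filter_upwards [h2] with y hy using hy a b
    rw [h1.fderiv_eq]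
    have h3 : HasFDerivAt (fun y => ((R a b y : ℝ) : ℂ) * (γ a * conj (γ b)))
        ((γ a * conj (γ b)) • (Complex.ofRealCLM.comp (fderiv ℝ (R a b) y0))) y0 := by
      have h4 : HasFDerivAt (fun y => ((R a b y : ℝ) : ℂ))
          (Complex.ofRealCLM.comp (fderiv ℝ (R a b) y0)) y0 :=
        Complex.ofRealCLM.hasFDerivAt.comp y0 (hRd a b).hasFDerivAt
      have h5 := h4.const_mul (γ a * conj (γ b))
      have h6 : (fun y => ((R a b y : ℝ) : ℂ) * (γ a * conj (γ b))) =
          fun y => (γ a * conj (γ b)) * ((R a b y : ℝ) : ℂ) := by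
        funext y; exact mul_comm _ _
      rw [h6]; exact h5
    rw [h3.fderiv]
    show (γ a * conj (γ b)) * ((fderiv ℝ (R a b) y0 w : ℝ) : ℂ) = _
    rw [Matrix.of_apply, mul_comm]
  have hp : pr χ g x = G * (Matrix.of fun a b => ((R a b y0 : ℝ) : ℂ)) * G.conjTranspose := by
    ext a b
    rw [hentry, hγ.self_of_nhds a b, Matrix.of_apply]
    simp only [hR, hy0]
    rw [(chartAt E4 x).left_inv (mem_chart_source E4 x)]
  rw [hp, hd, hd, trace_conj_zero hGG]
  · simp [val_zero]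
  · ext a b; simp only [Matrix.transpose_apply, Matrix.of_apply]; rw [hRs]
  · ext a b; simp only [Matrix.transpose_apply, Matrix.of_apply]; rw [hRs]
  · ext a b; simp only [Matrix.transpose_apply, Matrix.of_apply]; rw [hRs]

/-! ### the local frames of the parallel section -/

/-- the coefficient of the section in the local frame `b`. -/
def lam (χ : Fin n → M → ℝ) (g : Fin n → Fin n → M → ℂ) (s : M → Fin n → ℂ) (b : Fin n) (x : M) :
    ℂ := ∑ c, (χ c x : ℂ) * g b c x * s x c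

theorem s_eq {s : M → Fin n → ℂ} {x : M} (hs : (pr χ g x).mulVec (s x) = s x) (a : Fin n) :
    s x a = (χ a x : ℂ) * lam χ g s a x := by
  have h1 := congrFun hs a
  rw [← h1, Matrix.mulVec, dotProduct, lam, Finset.mul_sum]
  refine Finset.sum_congr rfl fun c _ => ?_
  unfold pr
  ring

theorem lam_trans (h : LCoc U g) (hχ : SqPart U χ) (s : M → Fin n → ℂ) {a b : Fin n} {x : M}
    (ha : x ∈ U a) (hb : x ∈ U b) : lam χ g s a x = g a b x * lam χ g s b x := by
  unfold lam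
  rw [Finset.mul_sum]
  refine Finset.sum_congr rfl fun c _ => ?_
  by_cases hc : χ c x = 0
  · rw [hc]; simp
  · rw [← h.coc a b c x ha hb (hχ.mem hc)]; ring

theorem lam_ne (h : LCoc U g) (hχ : SqPart U χ) {s : M → Fin n → ℂ} {x : M}
    (hs : (pr χ g x).mulVec (s x) = s x) (h0 : s x ≠ 0) {b : Fin n} (hb : x ∈ U b) :
    lam χ g s b x ≠ 0 := by
  intro hl
  apply h0
  funext a
  rw [s_eq hs a]
  by_cases ha : χ a x = 0
  · rw [ha]; simp
  · rw [lam_trans h hχ s (hχ.mem ha) hb, hl]; simp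

theorem lam_smooth (h : LCoc U g) (hχ : SqPart U χ) {s : M → Fin n → ℂ}
    (hsm : ∀ j, ContMDiff 𝓘(ℝ, E4) 𝓘(ℝ, ℂ) ∞ (fun x => s x j)) {b : Fin n} {x : M}
    (hb : x ∈ U b) : ContMDiffAt 𝓘(ℝ, E4) 𝓘(ℝ, ℂ) ∞ (lam χ g s b) x := by
  unfold lam
  refine contMDiffAt_finsetSum fun c _ => ?_
  by_cases hc : x ∈ U c
  · have h1 : ContMDiffAt 𝓘(ℝ, E4) 𝓘(ℝ, ℂ) ∞
        (fun y => (χ c y : ℂ) * g b c x * s y c) x :=
      contMDiff_mulC (contMDiff_mulC (contMDiff_ofReal (hχ.sm c x)) contMDiffAt_const) (hsm c x)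
    refine h1.congr_of_eventuallyEq ?_
    filter_upwards [h.lc b c x hb hc] with y hy
    rw [hy]
  · have h1 : ContMDiffAt 𝓘(ℝ, E4) 𝓘(ℝ, ℂ) ∞ (fun _ : M => (0 : ℂ)) x := contMDiffAt_const
    refine h1.congr_of_eventuallyEq ?_
    filter_upwards [hχ.zero hc] with y hy
    rw [hy]; simp

/-! ### from non-vanishing functions to locally constant ones -/

theorem smAtF_of_contMDiffAt {f : M → ℝ} {x : M} (hf : ContMDiffAt 𝓘(ℝ, E4) 𝓘(ℝ, ℝ) ∞ f x) :
    SmAtF E4 f x := by
  have hy : chartAt E4 x x ∈ (chartAt E4 x).target := mem_chart_target E4 x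
  have hs : ContMDiffAt 𝓘(ℝ, E4) 𝓘(ℝ, E4) ∞ (chartAt E4 x).symm (chartAt E4 x x) :=
    (contMDiffOn_chart_symm (I := 𝓘(ℝ, E4)) (x := x)).contMDiffAt
      ((chartAt E4 x).open_target.mem_nhds hy)
  have hf' : ContMDiffAt 𝓘(ℝ, E4) 𝓘(ℝ, ℝ) ∞ f ((chartAt E4 x).symm (chartAt E4 x x)) := by
    rw [(chartAt E4 x).left_inv (mem_chart_source E4 x)]; exact hf
  exact (hf'.comp _ hs).contDiffAt

/-- a function with vanishing differential near `x` is constant near `x`. -/
theorem const_near {D : M → ℝ} {x : M} (h1 : ∀ᶠ y in 𝓝 x, SmAtF E4 D y)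
    (h2 : ∀ᶠ y in 𝓝 x, at1 (dF (E := E4) D) y = 0) : ∀ᶠ y in 𝓝 x, D y = D x := by
  set φ := chartAt E4 x with hφ
  have hx : x ∈ φ.source := mem_chart_source E4 x
  have hx' : φ x ∈ φ.target := mem_chart_target E4 x
  have h3 := (tendsto_symm' (E := E4) hx).eventually (h1.and h2)
  obtain ⟨r, hr, hrs⟩ := Metric.eventually_nhds_iff_ball.1
    (h3.and (φ.open_target.mem_nhds hx'))
  set V : Set M := φ.source ∩ φ ⁻¹' (Metric.ball (φ x) r) with hV
  have hVo : IsOpen V := φ.isOpen_inter_preimage Metric.isOpen_ball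
  have himg : φ '' V = Metric.ball (φ x) r := by
    apply Subset.antisymm
    · rintro _ ⟨y, hy, rfl⟩; exact hy.2
    · intro z hz
      have hz' := (hrs z hz).2
      exact ⟨φ.symm z, ⟨φ.map_target hz', by
        rw [mem_preimage, φ.right_inv hz']; exact hz⟩, φ.right_inv hz'⟩
  have hmem : ∀ y ∈ V, SmAtF E4 D y ∧ at1 (dF (E := E4) D) y = 0 := by
    intro y hy
    have := (hrs (φ y) hy.2).1
    rwa [φ.left_inv hy.1] at this
  obtain ⟨c, hc⟩ := const_loc (E := E4) (p := x) hVo inter_subset_left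
    (by rw [← hφ, himg]; exact convex_ball _ _) (fun y hy => (hmem y hy).1)
    (fun y hy => (hmem y hy).2)
  have hxV : x ∈ V := ⟨hx, Metric.mem_ball_self hr⟩
  filter_upwards [hVo.mem_nhds hxV] with y hy
  rw [hc y hy, hc x hxV]

/-- the argument is locally determined by the exponential. -/
theorem exp_near {X : Type*} [TopologicalSpace X] {D : X → ℝ} {x : X} (hD : ContinuousAt D x)
    (hc : ∀ᶠ y in 𝓝 x, Complex.exp (D y * Complex.I) = Complex.exp (D x * Complex.I)) :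
    ∀ᶠ y in 𝓝 x, D y = D x := by
  have h1 : ∀ᶠ y in 𝓝 x, |D y - D x| < Real.pi := by
    have := Metric.tendsto_nhds.1 hD.tendsto Real.pi Real.pi_pos
    filter_upwards [this] with y hy
    rwa [Real.dist_eq] at hy
  filter_upwards [h1, hc] with y hy1 hy2
  obtain ⟨k, hk⟩ := Complex.exp_eq_exp_iff_exists_int.1 hy2
  have h3 : (D y : ℝ) = D x + k * (2 * Real.pi) := by
    have h4 := congrArg Complex.im hk
    simpa using h4
  have hk0 : k = 0 := by
    by_contra hk0
    have h5 : (1 : ℝ) ≤ |(k : ℝ)| := by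
      rw [← Int.cast_abs]
      exact_mod_cast Int.one_le_abs hk0
    rw [h3, add_sub_cancel_left, abs_mul, abs_of_pos (by positivity : (0:ℝ) < 2 * Real.pi)] at hy1
    nlinarith [Real.pi_pos]
  rw [h3, hk0]; simp

/-- the unit part. -/
def up (l : M → ℂ) (y : M) : ℂ := l y / (‖l y‖ : ℂ)

/-- the phase of `l y / l x`. -/
def ph (l : M → ℂ) (x y : M) : ℝ := (Complex.log (l y * (l x)⁻¹)).im

theorem norm_up {l : M → ℂ} {y : M} (h : l y ≠ 0) : ‖up l y‖ = 1 := by
  unfold up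
  rw [norm_div, Complex.norm_real, norm_norm, div_self (norm_ne_zero_iff.2 h)]

theorem up_mul_conj {l : M → ℂ} {y : M} (h : l y ≠ 0) : up l y * conj (up l y) = 1 := by
  rw [Complex.mul_conj, Complex.normSq_eq_norm_sq, norm_up h]
  norm_num

theorem up_eq {l : M → ℂ} {x y : M} (hx : l x ≠ 0) (hy : l y ≠ 0) :
    up l y = up l x * Complex.exp (ph l x y * Complex.I) := by
  unfold up ph
  rw [Complex.log_im]
  have h1 := Complex.norm_mul_exp_arg_mul_I (l y * (l x)⁻¹)
  rw [norm_mul, norm_inv] at h1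
  have hnx : (‖l x‖ : ℂ) ≠ 0 := by exact_mod_cast norm_ne_zero_iff.2 hx
  have hny : (‖l y‖ : ℂ) ≠ 0 := by exact_mod_cast norm_ne_zero_iff.2 hy
  push_cast at h1
  set e := Complex.exp ((l y * (l x)⁻¹).arg * Complex.I) with he
  have h2 : l y = l x * (‖l y‖ * (‖l x‖ : ℂ)⁻¹ * e) := by
    rw [h1]; field_simp
  calc l y / (‖l y‖ : ℂ) = l x * (‖l y‖ * (‖l x‖ : ℂ)⁻¹ * e) / (‖l y‖ : ℂ) := by rw [← h2]
    _ = l x / ‖l x‖ * e := by field_simp

theorem up_mul {l l' : M → ℂ} {y : M} {γ : ℂ} (hγ : ‖γ‖ = 1) (h : l y = γ * l' y) :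
    up l y = γ * up l' y := by
  unfold up
  rw [h, norm_mul, hγ, one_mul, mul_div_assoc]

theorem ph_smooth {l : M → ℂ} {x y : M} (hl : ContMDiffAt 𝓘(ℝ, E4) 𝓘(ℝ, ℂ) ∞ l y)
    (hs : l y * (l x)⁻¹ ∈ Complex.slitPlane) :
    ContMDiffAt 𝓘(ℝ, E4) 𝓘(ℝ, ℝ) ∞ (ph l x) y := by
  have h1 : ContDiffAt ℝ ∞ Complex.log (l y * (l x)⁻¹) :=
    (Complex.contDiffAt_log hs).restrict_scalars ℝ
  have h2 : ContMDiffAt 𝓘(ℝ, E4) 𝓘(ℝ, ℂ) ∞ (fun z => l z * (l x)⁻¹) y :=
    contMDiff_mulC hl contMDiffAt_const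
  have h3 : ContMDiffAt 𝓘(ℝ, E4) 𝓘(ℝ, ℂ) ∞ (fun z => Complex.log (l z * (l x)⁻¹)) y :=
    h1.contMDiffAt.comp y h2
  exact (Complex.imCLM.contDiff (n := ∞)).contMDiff.contMDiffAt.comp y h3

theorem ph_near {l : M → ℂ} {x : M} (hl : ∀ᶠ y in 𝓝 x, ContMDiffAt 𝓘(ℝ, E4) 𝓘(ℝ, ℂ) ∞ l y)
    (hx : l x ≠ 0) : ∀ᶠ y in 𝓝 x, ContMDiffAt 𝓘(ℝ, E4) 𝓘(ℝ, ℝ) ∞ (ph l x) y := by
  have hc : ContinuousAt l x := hl.self_of_nhds.continuousAt
  have h1 : ContinuousAt (fun y => l y * (l x)⁻¹) x := hc.mul continuousAt_const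
  have h2 : l x * (l x)⁻¹ ∈ Complex.slitPlane := by
    rw [mul_inv_cancel₀ hx]; exact Complex.one_mem_slitPlane
  have h3 := h1.eventually (Complex.isOpen_slitPlane.mem_nhds h2)
  filter_upwards [hl, h3] with y hy1 hy2 using ph_smooth hy1 hy2

theorem dF_add_const (f : M → ℝ) (k : ℝ) (x : M) :
    at1 (dF (E := E4) (fun z => f z + k)) x = at1 (dF (E := E4) f) x := by
  show fderiv ℝ (fun y => repF x f y + k) (chartAt E4 x x) = fderiv ℝ (repF x f) (chartAt E4 x x)
  rw [fderiv_add_const]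

/-- **a locally constant cocycle which is the coboundary of non-vanishing functions.** -/
theorem coboundary (h : LCoc U g) (hB : B1Zero M) {l : Fin n → M → ℂ}
    (hl : ∀ b x, x ∈ U b → ContMDiffAt 𝓘(ℝ, E4) 𝓘(ℝ, ℂ) ∞ (l b) x)
    (hn : ∀ b x, x ∈ U b → l b x ≠ 0)
    (ht : ∀ a b x, x ∈ U a → x ∈ U b → l a x = g a b x * l b x) :
    ∃ c : Fin n → M → ℂ, (∀ a x, x ∈ U a → ‖c a x‖ = 1 ∧ ∀ᶠ y in 𝓝 x, c a y = c a x) ∧
      ∀ a b x, x ∈ U a → x ∈ U b → g a b x = c a x * conj (c b x) := by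
  choose β hβ using h.cov
  have hU : ∀ b x, x ∈ U b → ∀ᶠ y in 𝓝 x, y ∈ U b := fun b x hx => (h.op b).mem_nhds hx
  -- the local phases
  set F : M → M → ℝ := fun x => ph (l (β x)) x with hF
  have hFs : ∀ x, ∀ᶠ y in 𝓝 x, ContMDiffAt 𝓘(ℝ, E4) 𝓘(ℝ, ℝ) ∞ (F x) y := by
    intro x
    refine ph_near ?_ (hn _ _ (hβ x))
    filter_upwards [hU _ _ (hβ x)] with y hy using hl _ _ hy
  have hup : ∀ x, ∀ᶠ y in 𝓝 x,
      up (l (β x)) y = up (l (β x)) x * Complex.exp (F x y * Complex.I) := by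
    intro x
    filter_upwards [hU _ _ (hβ x)] with y hy using up_eq (hn _ _ (hβ x)) (hn _ _ hy)
  -- two local phases differ by a constant
  have claim1 : ∀ x, ∀ᶠ y in 𝓝 x, ∃ k : ℝ, F x =ᶠ[𝓝 y] fun z => F y z + k := by
    intro x
    filter_upwards [eventually_eventually_nhds.2 (hup x), hFs x, hU _ _ (hβ x)] with y hy1 hy2 hy3
    set γ := g (β x) (β y) y with hγ
    have hγ1 : ‖γ‖ = 1 := h.unit _ _ y hy3 (hβ y)
    have hg := h.lc (β x) (β y) y hy3 (hβ y)
    have hc : ContinuousAt (fun z => F x z - F y z) y :=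
      hy2.continuousAt.sub (hFs y).self_of_nhds.continuousAt
    have h0 : ∀ᶠ z in 𝓝 y, up (l (β x)) x * Complex.exp (F x z * Complex.I) =
        γ * (up (l (β y)) y * Complex.exp (F y z * Complex.I)) := by
      filter_upwards [hy1, hg, hup y, hU _ _ hy3, hU _ _ (hβ y)] with z h1 h2 h3 h4 h5
      rw [← h1, ← h3]
      refine up_mul hγ1 ?_
      rw [ht _ _ z h4 h5, h2]
    have hux : up (l (β x)) x ≠ 0 := by
      intro h0
      have := norm_up (hn _ _ (hβ x))
      rw [h0, norm_zero] at this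
      exact zero_ne_one this
    have hexp : ∀ᶠ z in 𝓝 y, Complex.exp ((F x z - F y z : ℝ) * Complex.I) =
        (up (l (β x)) x)⁻¹ * γ * up (l (β y)) y := by
      filter_upwards [h0] with z hz
      have e1 : Complex.exp ((F x z - F y z : ℝ) * Complex.I) =
          Complex.exp (F x z * Complex.I) * (Complex.exp (F y z * Complex.I))⁻¹ := by
        rw [← Complex.exp_neg, ← Complex.exp_add]
        congr 1
        push_cast; ring
      have e2 : Complex.exp (F x z * Complex.I) = (up (l (β x)) x)⁻¹ *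
          (γ * (up (l (β y)) y * Complex.exp (F y z * Complex.I))) := by
        rw [← hz, inv_mul_cancel_left₀ hux]
      rw [e1, e2]
      have e3 := Complex.exp_ne_zero (F y z * Complex.I)
      field_simp
    have hD := exp_near hc (by
      filter_upwards [hexp] with z hz
      rw [hz, hexp.self_of_nhds])
    refine ⟨F x y - F y y, ?_⟩
    filter_upwards [hD] with z hz
    linarith
  -- the global closed one-form
  set μ : F1 E4 M := fun x => (dF (E := E4) (F x)) x with hμ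
  have claim2 : ∀ x, ∀ᶠ y in 𝓝 x, μ y = dF (E := E4) (F x) y := by
    intro x
    filter_upwards [claim1 x] with y hy
    obtain ⟨k, hk⟩ := hy
    have h1 := dF_congr (E := E4) hk
    rw [dF_add_const] at h1
    exact h1.symm
  have hloc : ∀ x, ∃ G : M → ℝ, SmoothF E4 G ∧ G =ᶠ[𝓝 x] F x ∧ μ =ᶠ[𝓝 x] dF (E := E4) G := by
    intro x
    obtain ⟨V, hV1, hV2, hV3⟩ := eventually_nhds_iff.1 (hFs x)
    obtain ⟨G, hG1, hG2⟩ := exists_extF (E := E4) (K := {x}) (U := V) (f := F x)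
      isClosed_singleton hV2 (by intro y hy; rw [mem_singleton_iff] at hy; rwa [hy])
      (fun y hy => smAtF_of_contMDiffAt (hV1 y hy))
    have hG3 := hG2 x (mem_singleton x)
    refine ⟨G, hG1, hG3, ?_⟩
    filter_upwards [claim2 x, hG3.eventuallyEq_nhds] with y h1 h2
    rw [h1]
    exact (dF_congr (E := E4) h2).symm
  have hcl : Closed1 μ := by
    rw [TorMin_510.closed1_iff]
    refine ⟨smooth1_iff_smAt.2 fun x => ?_, ?_⟩
    · obtain ⟨G, h1, -, h3⟩ := hloc x
      exact (smAt1_of_smooth (Smooth1.dF h1) x).congr h3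
    · funext x
      obtain ⟨G, h1, -, h3⟩ := hloc x
      have h4 := dG_congr h3
      rw [dG_dF h1] at h4
      exact h4
  obtain ⟨f, hf1, hf2⟩ := hB μ hcl
  have hfs : ∀ x, SmAtF E4 f x := fun x => smAtF_of_smooth hf1 x
  -- the locally constant functions
  refine ⟨fun a y => up (l a) y * Complex.exp (-(f y * Complex.I)), fun a x ha => ⟨?_, ?_⟩, ?_⟩
  · rw [norm_mul, norm_up (hn _ _ ha), one_mul, ← neg_mul, ← Complex.ofReal_neg,
      Complex.norm_exp_ofReal_mul_I]
  · -- first for `β x`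
    have hb : ∀ᶠ y in 𝓝 x, up (l (β x)) y * Complex.exp (-(f y * Complex.I)) =
        up (l (β x)) x * Complex.exp (-(f x * Complex.I)) := by
      have hD : ∀ᶠ y in 𝓝 x, F x y - f y = F x x - f x := by
        refine const_near (D := fun y => F x y - f y) ?_ ?_
        · filter_upwards [hFs x] with y hy
          exact (smAtF_of_contMDiffAt hy).sub (hfs y)
        · filter_upwards [hFs x, claim2 x] with y hy1 hy2
          rw [dF_sub_at (smAtF_of_contMDiffAt hy1) (hfs y)]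
          have h1 : at1 (dF (E := E4) (F x)) y = at1 μ y := hy2.symm
          rw [h1, hf2]
          exact sub_self _
      filter_upwards [hup x, hD] with y h1 h2
      have h3 := (hup x).self_of_nhds
      rw [h1]
      have hxx : up (l (β x)) x * Complex.exp (-(f x * Complex.I)) =
          up (l (β x)) x * (Complex.exp (F x x * Complex.I) *
            Complex.exp (-(f x * Complex.I))) := by
        rw [← mul_assoc, ← h3]
      rw [hxx, mul_assoc, ← Complex.exp_add, ← Complex.exp_add]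
      congr 2
      have h4 : (F x y : ℂ) - f y = F x x - f x := by exact_mod_cast h2
      linear_combination Complex.I * h4
    have hg := h.lc a (β x) x ha (hβ x)
    have hγ1 := h.unit a (β x) x ha (hβ x)
    have hgen : ∀ᶠ y in 𝓝 x, up (l a) y = g a (β x) x * up (l (β x)) y := by
      filter_upwards [hg, hU _ _ ha, hU _ _ (hβ x)] with y h1 h2 h3
      refine up_mul hγ1 ?_
      rw [ht _ _ y h2 h3, h1]
    filter_upwards [hb, hgen] with y h1 h2
    rw [h2, mul_assoc, h1, ← mul_assoc, ← hgen.self_of_nhds]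
  · intro a b x ha hb
    have hγ1 := h.unit a b x ha hb
    have h1 : up (l a) x = g a b x * up (l b) x := up_mul hγ1 (ht _ _ x ha hb)
    have h2 := up_mul_conj (hn _ _ hb)
    have h3 : Complex.exp (-(f x * Complex.I)) * conj (Complex.exp (-(f x * Complex.I))) = 1 := by
      rw [Complex.mul_conj, Complex.normSq_eq_norm_sq, ← neg_mul, ← Complex.ofReal_neg,
        Complex.norm_exp_ofReal_mul_I]
      norm_num
    show g a b x = up (l a) x * Complex.exp (-(f x * Complex.I)) *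
      conj (up (l b) x * Complex.exp (-(f x * Complex.I)))
    rw [h1, map_mul]
    linear_combination (-(g a b x) * (Complex.exp (-(f x * Complex.I)) *
      conj (Complex.exp (-(f x * Complex.I))))) * h2 - g a b x * h3

end Part

/-- **KTW (c)**. -/
theorem ktwc (hF : FLATK.{u}) {M : Type u} [TopologicalSpace M] [T2Space M] [CompactSpace M]
    [ConnectedSpace M] [ChartedSpace E4 M] [IsManifold 𝓘(ℝ, E4) ∞ M] {w : Trip M} (hw : Pos3 w)
    (hK : K3Type (w 0)) {n : ℕ} {U : Fin n → Set M} {g : Fin n → Fin n → M → ℂ}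
    (h : LCoc U g) :
    ∃ c : Fin n → M → ℂ, (∀ a x, x ∈ U a → ‖c a x‖ = 1 ∧ ∀ᶠ y in 𝓝 x, c a y = c a x) ∧
      ∀ a b x, x ∈ U a → x ∈ U b → g a b x = c a x * conj (c b x) := by
  obtain ⟨χ, h1, h2, h3⟩ := exists_sq_part h.op h.cov
  have hχ : SqPart U χ := ⟨h1, h2, h3⟩
  obtain ⟨s, hs1, hs2⟩ := hF M w hw hK n (pr χ g) 0 (isLine_pr h hχ) (isChern_pr h hχ)
    (map_zero _)
  exact coboundary h hK.1 (l := lam χ g s) (fun b x hx => lam_smooth h hχ hs1 hx)
    (fun b x hx => lam_ne h hχ (hs2 x).2 (hs2 x).1 hx)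
    (fun a b x ha hb => lam_trans h hχ s ha hb)

/-- **KTW (c)** for any finite index type. -/
theorem ktwc_finite (hF : FLATK.{u}) {M : Type u} [TopologicalSpace M] [T2Space M]
    [CompactSpace M] [ConnectedSpace M] [ChartedSpace E4 M] [IsManifold 𝓘(ℝ, E4) ∞ M]
    {w : Trip M} (hw : Pos3 w) (hK : K3Type (w 0)) {ι : Type*} [Finite ι] {U : ι → Set M}
    {g : ι → ι → M → ℂ} (op : ∀ a, IsOpen (U a)) (cov : ∀ x, ∃ a, x ∈ U a)
    (unit : ∀ a b x, x ∈ U a → x ∈ U b → ‖g a b x‖ = 1)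
    (lc : ∀ a b x, x ∈ U a → x ∈ U b → ∀ᶠ y in 𝓝 x, g a b y = g a b x)
    (coc : ∀ a b c x, x ∈ U a → x ∈ U b → x ∈ U c → g a b x * g b c x = g a c x) :
    ∃ c : ι → M → ℂ, (∀ a x, x ∈ U a → ‖c a x‖ = 1 ∧ ∀ᶠ y in 𝓝 x, c a y = c a x) ∧
      ∀ a b x, x ∈ U a → x ∈ U b → g a b x = c a x * conj (c b x) := by
  obtain ⟨n, ⟨e⟩⟩ := Finite.exists_equiv_fin ι
  obtain ⟨c, hc1, hc2⟩ := ktwc hF hw hK (U := fun a => U (e.symm a))
    (g := fun a b => g (e.symm a) (e.symm b))
    ⟨fun a => op _, fun x => by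
      obtain ⟨a, ha⟩ := cov x
      exact ⟨e a, by rwa [e.symm_apply_apply]⟩, fun a b x => unit _ _ x, fun a b x => lc _ _ x,
      fun a b c x => coc _ _ _ x⟩
  refine ⟨fun a => c (e a), fun a x ha => hc1 (e a) x (by rwa [e.symm_apply_apply]),
    fun a b x ha hb => ?_⟩
  have := hc2 (e a) (e b) x (by rwa [e.symm_apply_apply]) (by rwa [e.symm_apply_apply])
  simpa only [e.symm_apply_apply] using this

end

end Crest.Agent.R235.KumTwC_57
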