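import Crest.Agent.R235.KumDefs_152
import Crest.Agent.R235.KumTwC_57

/-!
Row 235 (S0364), package KUM, node K4T: the double cover is of torus type.

`COC` = locally constant `U(1)` cocycles on a closed manifold of K3 type are coboundaries
(helper57, from `FLATK`).  `k4t_of : DICH → COC → K4T`.
-/

set_option autoImplicit false
set_option maxSynthPendingDepth 3

open Set Function Filter
open scoped Manifold ContDiff Topology

universe u

namespace Crest.Agent.R235.KumK4T_305

open Crest.Agent.R240 Crest.Agent.R240.Ch Crest.Agent.R235 Crest.Agent.R235.KT_604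

noncomputable section

/-- locally constant `U(1)` cocycles are coboundaries (K3 type). -/
def COC : Prop :=
  ∀ (X : Type u) [TopologicalSpace X] [T2Space X] [CompactSpace X] [ConnectedSpace X]
    [ChartedSpace E4 X] [IsManifold 𝓘(ℝ, E4) ∞ X] (w : Trip X), Pos3 w → K3Type (w 0) →
    ∀ (n : ℕ) (U : Fin n → Set X) (g : Fin n → Fin n → X → ℂ), (∀ a, IsOpen (U a)) →
    (∀ x, ∃ a, x ∈ U a) → (∀ a b, ∀ x ∈ U a, x ∈ U b → ‖g a b x‖ = 1) →
    (∀ a b, ∀ x ∈ U a, x ∈ U b → ∀ᶠ y in 𝓝 x, g a b y = g a b x) →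
    (∀ a b c, ∀ x ∈ U a, x ∈ U b → x ∈ U c → g a b x * g b c x = g a c x) →
    ∃ c : Fin n → X → ℂ, (∀ a, ∀ x ∈ U a, ‖c a x‖ = 1) ∧
      (∀ a, ∀ x ∈ U a, ∀ᶠ y in 𝓝 x, c a y = c a x) ∧
      ∀ a b, ∀ x ∈ U a, x ∈ U b → c a x = g a b x * c b x

/-- helper57's theorem. -/
theorem coc (hF : FLATK.{u}) : COC.{u} := by
  intro X _ _ _ _ _ _ w hw hk n U g hU hcov h1 hl hcc
  obtain ⟨c, hc1, hc2⟩ := KumTwC_57.ktwc hF hw hk (U := U) (g := g)
    ⟨hU, hcov, fun a b x ha hb => h1 a b x ha hb, fun a b x ha hb => hl a b x ha hb,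
      fun a b c x ha hb hc => hcc a b c x ha hb hc⟩
  refine ⟨c, fun a x hx => (hc1 a x hx).1, fun a x hx => (hc1 a x hx).2, ?_⟩
  intro a b x ha hb
  have h3 := (hc1 b x hb).1
  have h4 : (starRingEnd ℂ) (c b x) * c b x = 1 := by
    rw [mul_comm, Complex.mul_conj, Complex.normSq_eq_norm_sq, h3]
    norm_num
  rw [hc2 a b x ha hb, mul_assoc, h4, mul_one]

/-! ### pure topology -/

/-- the inverse of an injective continuous map on a compact set is continuous. -/
theorem continuousOn_invFunOn {A B : Type*} [TopologicalSpace A] [TopologicalSpace B]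
    [T2Space B] [Nonempty A] {f : A → B} {K L : Set A} (hK : IsCompact K) (hKL : K ⊆ L)
    (hf : ContinuousOn f K) (hi : InjOn f L) : ContinuousOn (invFunOn f L) (f '' K) := by
  rw [continuousOn_iff_isClosed]
  intro t ht
  refine ⟨f '' (K ∩ t), ((hK.inter_right ht).image_of_continuousOn
    (hf.mono inter_subset_left)).isClosed, ?_⟩
  ext y
  constructor
  · rintro ⟨h1, ⟨z, hz, rfl⟩⟩
    have h2 : invFunOn f L (f z) = z := hi.leftInvOn_invFunOn (hKL hz)
    refine ⟨⟨z, ⟨hz, ?_⟩, rfl⟩, ⟨z, hz, rfl⟩⟩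
    rw [mem_preimage, h2] at h1
    exact h1
  · rintro ⟨⟨z, ⟨hz, hzt⟩, rfl⟩, _⟩
    refine ⟨?_, ⟨z, hz, rfl⟩⟩
    rw [mem_preimage, hi.leftInvOn_invFunOn (hKL hz)]
    exact hzt

/-- two double-valued descriptions differ by a sign. -/
theorem pair_sign {V : Type*} [AddCommGroup V] {v w : V} {D : Set V} (hv : D = {v, -v})
    (hw : D = {w, -w}) : v = w ∨ v = -w := by
  have : v ∈ D := by rw [hv]; simp
  rw [hw] at this
  simpa using this

theorem eq_zero_of_eq_neg {N : ℕ} {v : CN N} (h : v = -v) : v = 0 := by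
  have h1 : v + v = 0 := by
    nth_rewrite 1 [h]
    exact neg_add_cancel v
  have h2 : (2 : ℂ) • v = 0 := by rw [two_smul, h1]
  exact (smul_eq_zero.1 h2).resolve_left two_ne_zero

theorem eventually_ne_of_ne {A : Type*} [TopologicalSpace A] {N : ℕ} {f g : A → CN N} {x : A}
    (hf : ContinuousAt f x) (hg : ContinuousAt g x) (h : f x ≠ g x) : ∀ᶠ y in 𝓝 x, f y ≠ g y := by
  have h1 : ContinuousAt (fun y => f y - g y) x := hf.sub hg
  filter_upwards [h1.eventually_ne (sub_ne_zero.2 h)] with y hy h2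
  exact hy (sub_eq_zero.2 h2)

set_option linter.unusedSectionVars false

section Main

variable {M : Type u} [TopologicalSpace M] [ChartedSpace E4 M] {m : ℕ} {K : Neck M m}
  {t : Twist K (fun _ => -1)} {σ : Fin m → ℝ} (s : Twist K σ)
  {X : Type u} [TopologicalSpace X] [T2Space X] [ChartedSpace E4 X] (O : KOut (K.kin t) X)

/-- the complement of the new points. -/
def Xo : Set X := {x | ∀ i, x ≠ O.ch i 0}

theorem isOpen_Xo : IsOpen (Xo O) := by
  have : (Xo O) = (Set.range fun i => O.ch i 0)ᶜ := by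
    ext x
    simp [Xo, eq_comm]
  rw [this]
  exact (Set.finite_range _).isClosed.isOpen_compl

theorem ch_mem_Xo {i : Fin m} {z : E4} (hz : z ∈ PB 1) : O.ch i z ∈ Xo O := by
  intro j hj
  have hz1 : z ∈ Metric.ball (0 : E4) 1 := by simpa using hz.2
  by_cases hij : i = j
  · subst hij
    exact hz.1 (O.ch_inj i hz1 (Metric.mem_ball_self one_pos) hj)
  · exact O.ch_sep i j hij z hz1 0 (Metric.mem_ball_self one_pos) hj

theorem io_mem_Xo {x : X} (hx : x ∈ Xo O) : O.io x ∈ Xo O := by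
  intro i hi
  have h1 := O.io_io x
  have h2 := O.io_ch i 0 (Metric.mem_ball_self one_pos)
  rw [hi, h2, neg_zero] at h1
  exact hx i h1.symm

/-- local sections of the pulled back double-valued function. -/
theorem loc_sec (x : X) : ∃ (U : Set X) (v : X → CN s.N), IsOpen U ∧ x ∈ U ∧
    ContinuousOn v (U ∩ Xo O) ∧
    (∀ y ∈ U, y ∈ Xo O → v y ≠ 0 ∧ s.tw (O.pr y) = {v y, -v y}) ∧
    (∀ i, O.ch i 0 ∈ U → x = O.ch i 0) ∧
    (∀ i, x = O.ch i 0 → ∀ z ∈ PB (1 / 2), O.ch i z ∈ U ∧ v (O.ch i z) = s.psi i z) := by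
  by_cases hx : x ∈ Xo O
  · obtain ⟨U₀, hU₀, v₀, hv₀, hU⟩ := s.tw_loc (O.pr x) (fun i => O.pr_out x hx i)
    have hprc : ContinuousOn O.pr (Xo O) := O.pr_smooth.continuousOn
    refine ⟨Xo O ∩ O.pr ⁻¹' (interior U₀), fun y => v₀ (O.pr y),
      hprc.isOpen_inter_preimage (isOpen_Xo O) isOpen_interior,
      ⟨hx, mem_interior_iff_mem_nhds.2 hU₀⟩, ?_, ?_, ?_, ?_⟩
    · refine hv₀.comp (hprc.mono inter_subset_right) ?_
      intro y hy
      exact interior_subset hy.1.2
    · intro y hy _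
      exact hU _ (interior_subset hy.2)
    · intro i hi
      exact absurd rfl (hi.1 i)
    · intro i hi
      exact absurd hi (hx i)
  · have : ∃ i, x = O.ch i 0 := by
      by_contra h
      push Not at h
      exact hx h
    obtain ⟨i, rfl⟩ := this
    have hsub : Metric.closedBall (0 : E4) (1 / 2) ⊆ Metric.ball 0 1 :=
      Metric.closedBall_subset_ball (by norm_num)
    have hc : ContinuousOn (O.ch i) (Metric.closedBall 0 (1 / 2)) :=
      (O.ch_smooth i).continuousOn.mono hsub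
    have hinv := continuousOn_invFunOn (isCompact_closedBall (0 : E4) (1 / 2)) hsub hc (O.ch_inj i)
    have hleft : ∀ z ∈ Metric.ball (0 : E4) 1,
        invFunOn (O.ch i) (Metric.ball 0 1) (O.ch i z) = z :=
      fun z hz => (O.ch_inj i).leftInvOn_invFunOn hz
    -- points of the punctured image
    have hpt : ∀ y ∈ O.ch i '' Metric.ball 0 (1 / 2), y ∈ Xo O →
        ∃ z ∈ PB (1 / 2), y = O.ch i z := by
      rintro y ⟨z, hz, rfl⟩ hy
      refine ⟨z, ⟨?_, by simpa using hz⟩, rfl⟩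
      rintro rfl
      exact hy i rfl
    have hPB : ∀ z ∈ PB (1 / 2), z ∈ PB 1 := fun z hz => ⟨hz.1, by linarith [hz.2]⟩
    have hPB' : ∀ z ∈ PB (1 / 2), z ∈ Metric.ball (0 : E4) 1 := fun z hz => by
      simpa using (hPB z hz).2
    refine ⟨O.ch i '' Metric.ball 0 (1 / 2),
      fun y => s.psi i (invFunOn (O.ch i) (Metric.ball 0 1) y),
      O.ch_open i (1 / 2) (by norm_num) (by norm_num),
      ⟨0, Metric.mem_ball_self (by norm_num), rfl⟩, ?_, ?_, ?_, ?_⟩
    · refine (s.psi_cont i).comp (hinv.mono ?_) ?_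
      · intro y hy
        exact image_mono Metric.ball_subset_closedBall hy.1
      · intro y hy
        obtain ⟨z, hz, rfl⟩ := hpt y hy.1 hy.2
        rw [hleft z (hPB' z hz)]
        exact hPB z hz
    · intro y hy hyo
      obtain ⟨z, hz, rfl⟩ := hpt y hy hyo
      simp only [hleft z (hPB' z hz)]
      have h1 := s.psi_mem i z (hPB z hz)
      have h2 : O.pr (O.ch i z) = K.phi i z := O.pr_ch i z (hPB z hz)
      rw [h2]
      obtain ⟨U₀, hU₀, v₀, hv₀, hU⟩ := s.tw_loc (K.phi i z) (fun j => K.out i j z (hPB z hz))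
      obtain ⟨h3, h4⟩ := hU _ (mem_of_mem_nhds hU₀)
      rw [h4] at h1
      rcases h1 with h1 | h1
      · rw [h1, h4]
        exact ⟨h3, rfl⟩
      · have h5 : s.psi i z = - v₀ (K.phi i z) := h1
        rw [h5, h4]
        refine ⟨neg_ne_zero.2 h3, ?_⟩
        rw [neg_neg, pair_comm]
    · rintro j ⟨z, hz, hzj⟩
      have hz1 : z ∈ Metric.ball (0 : E4) 1 :=
        Metric.ball_subset_ball (by norm_num) hz
      by_cases hij : i = j
      · rw [hij]
      · exact absurd hzj (O.ch_sep i j hij z hz1 0 (Metric.mem_ball_self one_pos))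
    · intro j hj z hz
      have hij : i = j := by
        by_contra hij
        exact O.ch_sep i j hij 0 (Metric.mem_ball_self one_pos) 0 (Metric.mem_ball_self one_pos) hj
      subst hij
      refine ⟨⟨z, by simpa using hz.2, rfl⟩, ?_⟩
      simp only [hleft z (hPB' z hz)]

/-- the global section of the pulled back double-valued function. -/
theorem glob_sec (hC : COC.{u}) [CompactSpace X] [ConnectedSpace X]
    [IsManifold 𝓘(ℝ, E4) ∞ X] (w : Trip X) (hw : Pos3 w) (hk : K3Type (w 0)) :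
    ∃ W : X → CN s.N, ContinuousOn W (Xo O) ∧
      (∀ y ∈ Xo O, W y ≠ 0 ∧ s.tw (O.pr y) = {W y, -W y}) ∧
      ∀ i, ∃ (r : ℝ) (η : ℂ), 0 < r ∧ r ≤ 1 / 2 ∧
        ∀ z ∈ PB r, W (O.ch i z) = η • s.psi i z := by
  classical
  choose U v hUo hxU hvc hvD hsp hch using loc_sec s O
  obtain ⟨T, -, hT⟩ := isCompact_univ.elim_nhds_subcover U
    (fun x _ => (hUo x).mem_nhds (hxU x))
  obtain ⟨n, a, hainj, hacov⟩ : ∃ (n : ℕ) (a : Fin n → X), Injective a ∧ ∀ x, ∃ j, x ∈ U (a j) := by
    refine ⟨T.card, fun j => (T.equivFin.symm j : X), ?_, ?_⟩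
    · intro j k hjk
      exact T.equivFin.symm.injective (Subtype.ext hjk)
    · intro x
      have := hT (mem_univ x)
      simp only [mem_iUnion] at this
      obtain ⟨y, hy, hxy⟩ := this
      refine ⟨T.equivFin ⟨y, hy⟩, ?_⟩
      simpa using hxy
  -- different sets meet in `Xo`
  have hover : ∀ j k, j ≠ k → ∀ x, x ∈ U (a j) → x ∈ U (a k) → x ∈ Xo O := by
    intro j k hjk x hj hk i hi
    rw [hi] at hj hk
    exact hjk (hainj ((hsp _ i hj).trans (hsp _ i hk).symm))
  set g : Fin n → Fin n → X → ℂ := fun j k x => if v (a j) x = v (a k) x then 1 else -1 with hg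
  have hgv : ∀ j k, ∀ x, x ∈ U (a j) → x ∈ U (a k) → x ∈ Xo O →
      v (a j) x = g j k x • v (a k) x := by
    intro j k x hj hk hx
    by_cases h : v (a j) x = v (a k) x
    · simp [hg, h]
    · have h1 := pair_sign (hvD _ x hj hx).2 (hvD _ x hk hx).2
      rcases h1 with h1 | h1
      · exact absurd h1 h
      · simp only [hg, if_neg h]
        rw [h1]
        simp
  have hgself : ∀ j x, g j j x = 1 := by
    intro j x
    simp [hg]
  have hgsq : ∀ j k x, g j k x * g j k x = 1 := by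
    intro j k x
    simp only [hg]
    split_ifs <;> norm_num
  have hgnorm : ∀ j k x, ‖g j k x‖ = 1 := by
    intro j k x
    simp only [hg]
    split_ifs <;> simp
  have hvat : ∀ j, ∀ x, x ∈ U (a j) → x ∈ Xo O → ContinuousAt (v (a j)) x := by
    intro j x hj hx
    exact (hvc (a j)).continuousAt (((hUo _).inter (isOpen_Xo O)).mem_nhds ⟨hj, hx⟩)
  have hgloc : ∀ j k, ∀ x ∈ U (a j), x ∈ U (a k) → ∀ᶠ y in 𝓝 x, g j k y = g j k x := by
    intro j k x hj hk
    by_cases hjk : j = k
    · subst hjk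
      exact Eventually.of_forall fun y => by rw [hgself, hgself]
    · have hx := hover j k hjk x hj hk
      have hc1 := hvat j x hj hx
      have hc2 := hvat k x hk hx
      have hev : ∀ᶠ y in 𝓝 x, y ∈ U (a j) ∧ y ∈ U (a k) ∧ y ∈ Xo O := by
        filter_upwards [(hUo _).mem_nhds hj, (hUo _).mem_nhds hk, (isOpen_Xo O).mem_nhds hx]
          with y h1 h2 h3 using ⟨h1, h2, h3⟩
      by_cases h : v (a j) x = v (a k) x
      · have h2 : v (a j) x ≠ - v (a k) x := by
          intro h3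
          have h4 : v (a k) x = - v (a k) x := h ▸ h3
          exact (hvD _ x hk hx).1 (eq_zero_of_eq_neg h4)
        have h3 : ∀ᶠ y in 𝓝 x, v (a j) y ≠ - v (a k) y :=
          eventually_ne_of_ne hc1 hc2.neg h2
        filter_upwards [h3, hev] with y hy hy2
        have h5 : v (a j) y = v (a k) y := by
          rcases pair_sign (hvD _ y hy2.1 hy2.2.2).2 (hvD _ y hy2.2.1 hy2.2.2).2 with h6 | h6
          · exact h6
          · exact absurd h6 hy
        simp only [hg, if_pos h, if_pos h5]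
      · have h3 : ∀ᶠ y in 𝓝 x, v (a j) y ≠ v (a k) y := eventually_ne_of_ne hc1 hc2 h
        filter_upwards [h3] with y hy
        simp only [hg, if_neg h, if_neg hy]
  have hgcoc : ∀ j k l, ∀ x ∈ U (a j), x ∈ U (a k) → x ∈ U (a l) →
      g j k x * g k l x = g j l x := by
    intro j k l x hj hk hl
    by_cases hx : x ∈ Xo O
    · have h1 := hgv j k x hj hk hx
      have h2 := hgv k l x hk hl hx
      have h3 := hgv j l x hj hl hx
      rw [h2, smul_smul, h3] at h1
      have h4 : (g j k x * g k l x - g j l x) • v (a l) x = 0 := by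
        rw [sub_smul, ← h1, sub_self]
      rcases smul_eq_zero.1 h4 with h5 | h5
      · exact sub_eq_zero.1 h5
      · exact absurd h5 (hvD _ x hl hx).1
    · have h1 : j = k := by
        by_contra h
        exact hx (hover j k h x hj hk)
      have h2 : k = l := by
        by_contra h
        exact hx (hover k l h x hk hl)
      subst h1 h2
      rw [hgself, one_mul]
  obtain ⟨c, hc1, hcloc, hcg⟩ := hC X w hw hk n (fun j => U (a j)) g (fun j => hUo _) hacov
    (fun j k x _ _ => hgnorm j k x) hgloc hgcoc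
  choose idx hidx using hacov
  -- the square is constant
  have hsq : ∀ j k, ∀ x, x ∈ U (a j) → x ∈ U (a k) → c j x ^ 2 = c k x ^ 2 := by
    intro j k x hj hk
    rw [hcg j k x hj hk, mul_pow, pow_two (g j k x), hgsq, one_mul]
  have hlc : IsLocallyConstant (fun x => c (idx x) x ^ 2) := by
    rw [IsLocallyConstant.iff_eventually_eq]
    intro x
    filter_upwards [hcloc (idx x) x (hidx x), (hUo (a (idx x))).mem_nhds (hidx x)] with y hy hy2
    rw [hsq (idx y) (idx x) y (hidx y) hy2, hy]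
  obtain ⟨x₀⟩ : Nonempty X := inferInstance
  have hconst : ∀ x, c (idx x) x ^ 2 = c (idx x₀) x₀ ^ 2 :=
    fun x => hlc.apply_eq_of_preconnectedSpace x x₀
  obtain ⟨κ, hκ⟩ := IsAlgClosed.exists_pow_nat_eq (c (idx x₀) x₀ ^ 2) (n := 2) (by norm_num)
  have hc0 : c (idx x₀) x₀ ≠ 0 := by
    intro h
    have := hc1 _ x₀ (hidx x₀)
    rw [h] at this
    simp at this
  have hκ0 : κ ≠ 0 := by
    intro h
    rw [h] at hκ
    exact pow_ne_zero 2 hc0 (by rw [← hκ]; norm_num)
  have hεsq : ∀ j x, x ∈ U (a j) → (c j x / κ) = 1 ∨ (c j x / κ) = -1 := by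
    intro j x hj
    refine sq_eq_one_iff.1 ?_
    rw [div_pow, hκ, hsq j (idx x) x hj (hidx x), hconst x]
    exact div_self (pow_ne_zero 2 hc0)
  have hWj : ∀ j, ∀ y, y ∈ U (a j) → y ∈ Xo O →
      (c (idx y) y / κ) • v (a (idx y)) y = (c j y / κ) • v (a j) y := by
    intro j y hj hy
    rw [hgv (idx y) j y (hidx y) hj hy, hcg (idx y) j y (hidx y) hj, smul_smul]
    congr 1
    have := hgsq (idx y) j y
    rw [mul_div_assoc, mul_comm (g (idx y) j y) (c j y / κ), mul_assoc, this, mul_one]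
  refine ⟨fun y => (c (idx y) y / κ) • v (a (idx y)) y, ?_, ?_, ?_⟩
  · intro x hx
    refine ContinuousAt.continuousWithinAt ?_
    have h1 : ContinuousAt (fun y => (c (idx x) x / κ) • v (a (idx x)) y) x :=
      (hvat _ x (hidx x) hx).const_smul (c (idx x) x / κ)
    refine h1.congr ?_
    filter_upwards [hcloc (idx x) x (hidx x), (hUo (a (idx x))).mem_nhds (hidx x),
      (isOpen_Xo O).mem_nhds hx] with y hy1 hy2 hy3
    rw [hWj (idx x) y hy2 hy3, hy1]
  · intro y hy
    obtain ⟨h1, h2⟩ := hvD (a (idx y)) y (hidx y) hy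
    rcases hεsq (idx y) y (hidx y) with h3 | h3
    · simp only [h3, one_smul]
      exact ⟨h1, h2⟩
    · simp only [h3, neg_smul, one_smul, neg_neg]
      exact ⟨neg_ne_zero.2 h1, by rw [h2, pair_comm]⟩
  · intro i
    have hai : a (idx (O.ch i 0)) = O.ch i 0 := hsp _ i (hidx _)
    have h1 := hcloc (idx (O.ch i 0)) (O.ch i 0) (hidx _)
    obtain ⟨V, hV, hVo, hVm⟩ := mem_nhds_iff.1 h1
    obtain ⟨r, hr, hr1, hrV⟩ := O.ch_nhds i V hVo hVm
    refine ⟨min r (1 / 2), c (idx (O.ch i 0)) (O.ch i 0) / κ, lt_min hr (by norm_num),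
      min_le_right _ _, ?_⟩
    intro z hz
    have hz2 : z ∈ PB (1 / 2) := ⟨hz.1, lt_of_lt_of_le hz.2 (min_le_right _ _)⟩
    have hz1 : z ∈ PB 1 := ⟨hz.1, lt_of_lt_of_le hz2.2 (by norm_num)⟩
    obtain ⟨h2, h3⟩ := hch (a (idx (O.ch i 0))) i hai z hz2
    have h4 : O.ch i z ∈ V := hrV ⟨z, by
      have := lt_of_lt_of_le hz.2 (min_le_left r (1 / 2))
      simpa using this, rfl⟩
    have h5 : c (idx (O.ch i 0)) (O.ch i z) = c (idx (O.ch i 0)) (O.ch i 0) := hV h4
    change (c (idx (O.ch i z)) (O.ch i z) / κ) • v (a (idx (O.ch i z))) (O.ch i z) = _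
    rw [hWj (idx (O.ch i 0)) (O.ch i z) h2 (ch_mem_Xo O hz1), h5, h3]

/-- the monodromies of a double-valued function with a global section are all equal. -/
theorem sign_eq [ConnectedSpace X] {W : X → CN s.N} (hWc : ContinuousOn W (Xo O))
    (hWD : ∀ y ∈ Xo O, W y ≠ 0 ∧ s.tw (O.pr y) = {W y, -W y})
    (hWch : ∀ i, ∃ (r : ℝ) (η : ℂ), 0 < r ∧ r ≤ 1 / 2 ∧
        ∀ z ∈ PB r, W (O.ch i z) = η • s.psi i z)
    (hσ : ∀ i, σ i = 1 ∨ σ i = -1) (i j : Fin m) (hi : σ i = 1) (hj : σ j = -1) : False := by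
  have hWat : ∀ x ∈ Xo O, ContinuousAt W x := fun x hx =>
    hWc.continuousAt ((isOpen_Xo O).mem_nhds hx)
  have hWio : ∀ x ∈ Xo O, ContinuousAt (fun y => W (O.io y)) x := by
    intro x hx
    exact ContinuousAt.comp (hWat _ (io_mem_Xo O hx)) O.io_smooth.continuous.continuousAt
  have hdich : ∀ x ∈ Xo O, W (O.io x) = W x ∨ W (O.io x) = - W x := by
    intro x hx
    refine pair_sign (hWD _ (io_mem_Xo O hx)).2 ?_
    rw [O.pr_io x hx]
    exact (hWD x hx).2
  -- the values near the new points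
  have hnear : ∀ k, ∀ᶠ y in 𝓝 (O.ch k 0), y ∈ Xo O → W (O.io y) = σ k • W y := by
    intro k
    obtain ⟨r, η, hr, hr2, h⟩ := hWch k
    have h1 : O.ch k '' Metric.ball 0 r ∈ 𝓝 (O.ch k 0) :=
      (O.ch_open k r hr (by linarith)).mem_nhds ⟨0, Metric.mem_ball_self hr, rfl⟩
    filter_upwards [h1] with y hy hyo
    obtain ⟨z, hz, rfl⟩ := hy
    have hzr : ‖z‖ < r := by simpa using hz
    have hz0 : z ≠ 0 := by
      rintro rfl
      exact hyo k rfl
    have hzP : z ∈ PB r := ⟨hz0, hzr⟩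
    have hzN : -z ∈ PB r := ⟨neg_ne_zero.2 hz0, by rwa [norm_neg]⟩
    have hz1 : z ∈ PB 1 := ⟨hz0, by linarith⟩
    rw [O.io_ch k z (by simpa using hz1.2), h z hzP, h (-z) hzN, s.psi_par k z hz1,
      smul_comm]
  -- the clopen set
  let P : Set X := {x | (x ∈ Xo O ∧ W (O.io x) = W x) ∨ ∃ k, x = O.ch k 0 ∧ σ k = 1}
  have hch : ∀ x, x ∉ Xo O → ∃ k, x = O.ch k 0 := by
    intro x hx
    by_contra h
    push Not at h
    exact hx h
  have hchinj : ∀ k l, O.ch k 0 = O.ch l 0 → k = l := by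
    intro k l h
    by_contra hkl
    exact O.ch_sep k l hkl 0 (Metric.mem_ball_self one_pos) 0 (Metric.mem_ball_self one_pos) h
  have hPo : ∀ x ∈ Xo O, (x ∈ P ↔ W (O.io x) = W x) := by
    intro x hx
    constructor
    · rintro (h | ⟨k, hk, _⟩)
      · exact h.2
      · exact absurd hk (hx k)
    · intro h
      exact Or.inl ⟨hx, h⟩
  have hPch : ∀ k, (O.ch k 0 ∈ P ↔ σ k = 1) := by
    intro k
    constructor
    · rintro (h | ⟨l, hl, hl1⟩)
      · exact absurd rfl (h.1 k)
      · rw [hchinj k l hl]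
        exact hl1
    · intro h
      exact Or.inr ⟨k, rfl, h⟩
  have hloc : ∀ x, ∀ᶠ y in 𝓝 x, (y ∈ P ↔ x ∈ P) := by
    intro x
    by_cases hx : x ∈ Xo O
    · have hne : W x ≠ - W x := fun h => (hWD x hx).1 (eq_zero_of_eq_neg h)
      rcases hdich x hx with h | h
      · have h2 : ∀ᶠ y in 𝓝 x, W (O.io y) ≠ - W y :=
          eventually_ne_of_ne (hWio x hx) (hWat x hx).neg (by rw [h]; exact hne)
        filter_upwards [h2, (isOpen_Xo O).mem_nhds hx] with y hy hyo
        rw [hPo x hx, hPo y hyo]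
        exact ⟨fun _ => h, fun _ => (hdich y hyo).resolve_right hy⟩
      · have h2 : W (O.io x) ≠ W x := by
          rw [h]
          exact fun h3 => hne h3.symm
        have h3 : ∀ᶠ y in 𝓝 x, W (O.io y) ≠ W y :=
          eventually_ne_of_ne (hWio x hx) (hWat x hx) h2
        filter_upwards [h3, (isOpen_Xo O).mem_nhds hx] with y hy hyo
        rw [hPo x hx, hPo y hyo]
        exact ⟨fun h4 => absurd h4 hy, fun h4 => absurd h4 h2⟩
    · obtain ⟨k, rfl⟩ := hch x hx
      -- near the point `ch k 0`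
      have h1 : O.ch k '' Metric.ball 0 1 ∈ 𝓝 (O.ch k 0) :=
        (O.ch_open k 1 one_pos le_rfl).mem_nhds ⟨0, Metric.mem_ball_self one_pos, rfl⟩
      filter_upwards [hnear k, h1] with y hy hyb
      by_cases hyo : y ∈ Xo O
      · rw [hPo y hyo, hPch k, hy hyo]
        have hW0 := (hWD y hyo).1
        rcases hσ k with h2 | h2
        · rw [h2]
          simp
        · rw [h2]
          constructor
          · intro h3
            exact absurd (eq_zero_of_eq_neg (by simpa using h3.symm)) hW0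
          · intro h3
            norm_num at h3
      · obtain ⟨l, rfl⟩ := hch y hyo
        obtain ⟨z, hz, hzl⟩ := hyb
        have hkl : k = l := by
          by_contra hkl
          exact O.ch_sep k l hkl z hz 0 (Metric.mem_ball_self one_pos) hzl
        rw [hkl]
  have hclopen : IsClopen P := by
    constructor
    · rw [← isOpen_compl_iff, isOpen_iff_mem_nhds]
      intro x hx
      filter_upwards [hloc x] with y hy hyP
      exact hx (hy.1 hyP)
    · rw [isOpen_iff_mem_nhds]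
      intro x hx
      filter_upwards [hloc x] with y hy
      exact hy.2 hx
  have huniv : P = univ := hclopen.eq_univ ⟨O.ch i 0, (hPch i).2 hi⟩
  have : O.ch j 0 ∈ P := by rw [huniv]; trivial
  rw [hPch j, hj] at this
  norm_num at this

end Main

/-- **K4T.** -/
theorem k4t_of (hD : DICHR.{u}) (hC : COC.{u}) : K4T.{u} := by
  intro M _ _ _ _ _ _ m K t I hI hI' hs X _ _ _ _ _ _ O u hu
  rcases hD X u hu with h | h
  · exfalso
    obtain ⟨s⟩ := hs
    obtain ⟨W, h1, h2, h3⟩ := glob_sec s O hC u hu h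
    obtain ⟨j, hj⟩ := hI
    obtain ⟨i, hi⟩ : ∃ i, i ∉ I := by
      by_contra hcon
      push Not at hcon
      exact hI' (Finset.eq_univ_iff_forall.2 hcon)
    refine sign_eq s O h1 h2 h3 ?_ i j (by simp [hi]) (by simp [hj])
    intro k
    by_cases hk : k ∈ I
    · right; simp [hk]
    · left; simp [hk]
  · exact h

/-- **K4T** from `DICHR` and `FLATK`. -/
theorem k4t (hD : DICHR.{u}) (hF : FLATK.{u}) : K4T.{u} := k4t_of hD (coc hF)

end

end Crest.Agent.R235.KumK4T_305
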