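import Crest.Agent.R235.KumDefs_152
import Crest.Agent.R235.Pull_129
import Crest.Agent.R235.PB_604
import Crest.Agent.R235.Loc_524
import Crest.Agent.R235.TorMin_510

/-!
Row 235 (S0364), package KUM, task 329 (helper918): node `MINUSX`.
If `b₁(M) = 0` then the involution of the double cover `X` acts by `-1` on `H¹(X)`.
-/

set_option autoImplicit false
set_option maxSynthPendingDepth 3
set_option linter.unusedSectionVars false

open Set Function Filter MeasureTheory
open scoped Manifold ContDiff Topology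

universe u

namespace Crest.Agent.R235.KumMinus_918

open Crest.Agent.R240 Crest.Agent.R240.Ch Crest.Agent.R235 Crest.Agent.R235.KT_604

noncomputable section

/-! ### linear algebra and topology of `E4` -/

lemma bij_of_inj {A : E4 →L[ℝ] E4} (h : ∀ v, A v = 0 → v = 0) : Bijective A := by
  have h1 : Injective (A : E4 →ₗ[ℝ] E4) := (injective_iff_map_eq_zero A).2 h
  exact ⟨h1, LinearMap.injective_iff_surjective.1 h1⟩

/-- cancel a surjective linear map. -/
lemma cancel {A : E4 →L[ℝ] E4} (h : Surjective A) {l k : E4 →L[ℝ] ℝ} (e : l.comp A = k.comp A) :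
    l = k := by
  ext v
  obtain ⟨w, rfl⟩ := h v
  exact congrArg (fun L : E4 →L[ℝ] ℝ => L w) e

lemma isOpen_PB (r : ℝ) : IsOpen (PB r) :=
  (isOpen_ne_fun continuous_id continuous_const).inter (isOpen_lt continuous_norm continuous_const)

lemma preconn_PB (r : ℝ) : IsPreconnected (PB r) := by
  have h1 : PB r = (fun p : ℝ × E4 => p.1 • p.2) '' (Ioo 0 r ×ˢ Metric.sphere (0 : E4) 1) := by
    ext v
    constructor
    · rintro ⟨h0, hr⟩
      have h0' : 0 < ‖v‖ := norm_pos_iff.2 h0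
      refine ⟨(‖v‖, ‖v‖⁻¹ • v), ⟨⟨h0', hr⟩, ?_⟩, ?_⟩
      · simp [norm_smul, h0]
      · simp [smul_smul, h0]
    · rintro ⟨⟨a, w⟩, ⟨⟨ha0, har⟩, hw⟩, rfl⟩
      have hw' : ‖w‖ = 1 := by simpa using hw
      have hw0 : w ≠ 0 := by
        rintro rfl
        simp at hw'
      refine ⟨smul_ne_zero (ne_of_gt ha0) hw0, ?_⟩
      show ‖a • w‖ < r
      rw [norm_smul, hw', mul_one, Real.norm_eq_abs, abs_of_pos ha0]
      exact har
  rw [h1]
  have h2 : 1 < Module.rank ℝ E4 := by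
    rw [← Module.finrank_eq_rank]
    simp
  exact (isPreconnected_Ioo.prod (isPreconnected_sphere h2 0 1)).image _ (by fun_prop)

/-! ### closed at a point -/

section Loc

variable {M : Type u} [TopologicalSpace M] [ChartedSpace E4 M] [IsManifold 𝓘(ℝ, E4) ∞ M]

/-- smooth and closed at `x`. -/
def Cl1 (s : F1 E4 M) (x : M) : Prop := Loc_524.SmAt1 s x ∧ at2 (dG s) x = 0

theorem closed1_iff_cl1 {s : F1 E4 M} : Closed1 s ↔ ∀ x, Cl1 s x := by
  rw [TorMin_510.closed1_iff, Loc_524.smooth1_iff_smAt]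
  constructor
  · rintro ⟨h1, h2⟩ x
    exact ⟨h1 x, by rw [h2]; rfl⟩
  · intro h
    exact ⟨fun x => (h x).1, funext fun x => (h x).2⟩

theorem Cl1.congr {s t : F1 E4 M} {x : M} (hs : Cl1 s x) (h : t =ᶠ[𝓝 x] s) : Cl1 t x :=
  ⟨hs.1.congr h, by rw [Loc_524.dG_congr h]; exact hs.2⟩

theorem cl1_zero (x : M) : Cl1 (0 : F1 E4 M) x := by
  refine closed1_iff_cl1.1 (TorMin_510.closed1_iff.2 ⟨smooth1_zero, ?_⟩) x
  have h := dG_smul (0 : ℝ) (smooth1_zero (E := E4) (M := M))
  simpa using h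

/-- closed at `Φ q` if the pull-back is. -/
theorem cl1_of_pb {Φ : E4 → M} {U : Set E4} {q : E4} (hU : IsOpen U)
    (h : ContMDiffOn 𝓘(ℝ, E4) 𝓘(ℝ, E4) ∞ Φ U)
    (hb : ∀ z ∈ U, Bijective (Pull_129.dL (E := E4) Φ z)) (hq : q ∈ U) {s : F1 E4 M}
    (hs : ContDiffAt ℝ ∞ (Pull_129.pb1 Φ s) q) (hc : d1 (Pull_129.pb1 Φ s) q = 0) :
    Cl1 s (Φ q) :=
  ⟨Pull_129.rep1_contDiffAt hU h hb hq (mem_chart_source E4 _) hs,
    Pull_129.rep1_closed hU h hb hq (mem_chart_source E4 _) hs hc⟩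

/-- the differential of a function is the differential of a map. -/
theorem dF_eq_D1 (f : M → ℝ) (x : M) : at1 (dF (E := E4) f) x = PB_604.D1 E4 ℝ f x := rfl

end Loc

/-! ### the double cover -/

section Cover

variable {M : Type u} [TopologicalSpace M] [ChartedSpace E4 M] [IsManifold 𝓘(ℝ, E4) ∞ M]
variable {X : Type u} [TopologicalSpace X] [T2Space X] [CompactSpace X]
  [ChartedSpace E4 X] [IsManifold 𝓘(ℝ, E4) ∞ X]
variable {m : ℕ} {K : KIn M m} (O : KOut K X)

/-- the points over `M ∖ ⋃ C i`. -/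
def good : Set X := {x | ∀ i, x ≠ O.ch i 0}

lemma isOpen_good : IsOpen (good O) := by
  have h : good O = ⋂ i, {O.ch i 0}ᶜ := by
    ext x
    simp [good]
  rw [h]
  exact isOpen_iInter_of_finite fun i => isOpen_compl_singleton

lemma zero_mem : (0 : E4) ∈ Metric.ball (0 : E4) 1 := Metric.mem_ball_self one_pos

lemma neg_mem {z : E4} {r : ℝ} (hz : z ∈ Metric.ball (0 : E4) r) : -z ∈ Metric.ball (0 : E4) r := by
  rw [mem_ball_zero_iff] at hz ⊢
  rwa [norm_neg]

lemma io_good {x : X} (hx : x ∈ good O) : O.io x ∈ good O := by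
  intro i h
  have h1 := congrArg O.io h
  rw [O.io_io, O.io_ch i 0 zero_mem, neg_zero] at h1
  exact hx i h1

lemma ch_good {i : Fin m} {z : E4} (hz : z ∈ PB 1) : O.ch i z ∈ good O := by
  have hz1 : z ∈ Metric.ball (0 : E4) 1 := mem_ball_zero_iff.2 hz.2
  intro j h
  rcases eq_or_ne i j with rfl | hij
  · exact hz.1 (O.ch_inj i hz1 zero_mem h)
  · exact O.ch_sep i j hij z hz1 0 zero_mem h

/-- uniqueness of the coordinates. -/
lemma ch_uniq {i j : Fin m} {z w : E4} (hz : z ∈ Metric.ball (0 : E4) 1)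
    (hw : w ∈ Metric.ball (0 : E4) 1) (h : O.ch i z = O.ch j w) : i = j ∧ z = w := by
  rcases eq_or_ne i j with rfl | hij
  · exact ⟨rfl, O.ch_inj i hz hw h⟩
  · exact (O.ch_sep i j hij z hz w hw h).elim

lemma bij_ch (i : Fin m) {z : E4} (hz : z ∈ Metric.ball (0 : E4) 1) :
    Bijective (Pull_129.dL (E := E4) (O.ch i) z) :=
  bij_of_inj fun v hv => O.ch_imm i z hz v hv

lemma bij_pr {x : X} (hx : x ∈ good O) : Bijective (PB_604.D1 E4 E4 O.pr x) :=
  bij_of_inj fun v hv => O.pr_imm x hx v hv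

lemma pr_at {x : X} (hx : x ∈ good O) : ContMDiffAt 𝓘(ℝ, E4) 𝓘(ℝ, E4) ∞ O.pr x :=
  O.pr_smooth.contMDiffAt ((isOpen_good O).mem_nhds hx)

lemma ch_at (i : Fin m) {z : E4} (hz : z ∈ Metric.ball (0 : E4) 1) :
    ContMDiffAt 𝓘(ℝ, E4) 𝓘(ℝ, E4) ∞ (O.ch i) z :=
  (O.ch_smooth i).contMDiffAt (Metric.isOpen_ball.mem_nhds hz)

/-- even one-forms. -/
def Even1 (r : F1 E4 X) : Prop := ∀ x v, at1 r (O.io x) (dself O.io x v) = at1 r x v

/-! #### even primitives near the new points -/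

/-- the pull-back of an even form by `ch i` is odd. -/
lemma pb_neg {r : F1 E4 X} (he : Even1 O r) (i : Fin m) {z : E4}
    (hz : z ∈ Metric.ball (0 : E4) 1) (v : E4) :
    Pull_129.pb1 (O.ch i) r (-z) (-v) = Pull_129.pb1 (O.ch i) r z v := by
  have hnz := neg_mem hz
  have hd : DifferentiableAt ℝ (fun y : E4 => -y) z := differentiableAt_id.neg
  have hf : fderiv ℝ (fun y : E4 => -y) z = -ContinuousLinearMap.id ℝ E4 := by
    have := (hasFDerivAt_id (𝕜 := ℝ) z).neg
    exact this.fderiv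
  have h1 := Pull_129.pb1_comp (Φ := O.ch i) (g := fun y : E4 => -y) (z := z) (ch_at O i hnz) hd r
  have h2 : (fun y => O.ch i (-y)) =ᶠ[𝓝 z] fun y => O.io (O.ch i y) := by
    filter_upwards [Metric.isOpen_ball.mem_nhds hz] with y hy
    exact (O.io_ch i y hy).symm
  rw [Pull_129.pb1_congr h2, hf] at h1
  have h3 := congrArg (fun L : E4 →L[ℝ] ℝ => L v) h1
  have h4 : Pull_129.pb1 (O.ch i) r (-z) (-v) =
      Pull_129.pb1 (fun y => O.io (O.ch i y)) r z v := h3.symm
  rw [h4]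
  have h5 : Pull_129.dL (E := E4) (fun y => O.io (O.ch i y)) z v =
      dself O.io (O.ch i z) (Pull_129.dL (E := E4) (O.ch i) z v) :=
    TorMin_510.dmap_comp O.io_smooth (ch_at O i hz) v
  rw [Pull_129.pb1_apply, h5]
  exact he _ _

/-- even primitives in the charts `ch i`. -/
lemma exists_prim {r : F1 E4 X} (hr : Closed1 r) (he : Even1 O r) (i : Fin m) :
    ∃ g : E4 → ℝ, (∀ z ∈ Metric.ball (0 : E4) 1,
      HasFDerivAt g (Pull_129.pb1 (O.ch i) r z) z) ∧
      ContDiffOn ℝ ∞ g (Metric.ball 0 1) ∧ ∀ z ∈ Metric.ball (0 : E4) 1, g (-z) = g z := by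
  obtain ⟨hr1, hr2⟩ := TorMin_510.closed1_iff.1 hr
  have hs := Pull_129.pb1_contDiffOn Metric.isOpen_ball (O.ch_smooth i) hr1
  obtain ⟨g, hg⟩ := R281.Poi_234.poincare1 Metric.isOpen_ball (convex_ball (0 : E4) 1) hs (by
    intro z hz v w
    have h1 := Pull_129.d1_pb1 Metric.isOpen_ball (O.ch_smooth i) hz hr1 v w
    rw [hr2, d1_apply] at h1
    have h2 : Pull_129.pb2 (O.ch i) (0 : F2 E4 X) z v w = 0 := rfl
    rw [h2] at h1
    linarith)
  refine ⟨g, hg, R281.Poi_234.contDiffOn_of_hasFDerivAt Metric.isOpen_ball hs hg, ?_⟩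
  have hd : ∀ z ∈ Metric.ball (0 : E4) 1,
      HasFDerivAt (fun y => g (-y) - g y) (0 : E4 →L[ℝ] ℝ) z := by
    intro z hz
    have h1 : HasFDerivAt (fun y : E4 => g (-y))
        ((Pull_129.pb1 (O.ch i) r (-z)).comp (-ContinuousLinearMap.id ℝ E4)) z :=
      HasFDerivAt.comp z (g := g) (hg (-z) (neg_mem hz)) (hasFDerivAt_id z).neg
    have h2 := h1.sub (hg z hz)
    have h3 : (Pull_129.pb1 (O.ch i) r (-z)).comp (-ContinuousLinearMap.id ℝ E4) -
        Pull_129.pb1 (O.ch i) r z = 0 := by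
      ext v
      have h4 := pb_neg O he i hz v
      show Pull_129.pb1 (O.ch i) r (-z) (-v) - Pull_129.pb1 (O.ch i) r z v = 0
      rw [h4, sub_self]
    rw [h3] at h2
    exact h2
  intro z hz
  have h1 := (convex_ball (0 : E4) 1).is_const_of_fderivWithin_eq_zero (𝕜 := ℝ)
    (f := fun y => g (-y) - g y) (fun y hy => (hd y hy).differentiableAt.differentiableWithinAt)
    (fun y hy => by
      rw [fderivWithin_of_isOpen Metric.isOpen_ball hy]
      exact (hd y hy).fderiv) hz zero_mem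
  simp only [neg_zero, sub_self] at h1
  linarith

/-- the compact neighbourhood of the new points. -/
def Kn : Set X := ⋃ i, O.ch i '' Metric.closedBall 0 (1 / 2)

lemma half_sub : Metric.closedBall (0 : E4) (1 / 2) ⊆ Metric.ball 0 1 :=
  Metric.closedBall_subset_ball (by norm_num)

lemma isClosed_Kn : IsClosed (Kn O) := by
  refine (isCompact_iUnion fun i => ?_).isClosed
  exact (isCompact_closedBall _ _).image_of_continuousOn
    ((O.ch_smooth i).continuousOn.mono half_sub)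

/-- a function near the new points which is an even primitive of an even closed form. -/
lemma exists_primF {r : F1 E4 X} (hr : Closed1 r) (he : Even1 O r) :
    ∃ F : X → ℝ, ∀ i, ∀ z ∈ Metric.ball (0 : E4) 1, Loc_524.SmAtF E4 F (O.ch i z) ∧
      at1 (dF (E := E4) F) (O.ch i z) = at1 r (O.ch i z) ∧
      F (O.io (O.ch i z)) = F (O.ch i z) := by
  classical
  choose g hg hgs hge using exists_prim O hr he
  let F : X → ℝ := fun x =>
    if h : ∃ p : Fin m × E4, p.2 ∈ Metric.ball (0 : E4) 1 ∧ O.ch p.1 p.2 = x then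
      g h.choose.1 h.choose.2 else 0
  have hF : ∀ i, ∀ z ∈ Metric.ball (0 : E4) 1, F (O.ch i z) = g i z := by
    intro i z hz
    have h : ∃ p : Fin m × E4, p.2 ∈ Metric.ball (0 : E4) 1 ∧ O.ch p.1 p.2 = O.ch i z :=
      ⟨(i, z), hz, rfl⟩
    have h1 : F (O.ch i z) = g h.choose.1 h.choose.2 := dif_pos h
    obtain ⟨h2, h3⟩ := ch_uniq O h.choose_spec.1 hz h.choose_spec.2
    rw [h1, h2, h3]
  refine ⟨F, fun i z hz => ?_⟩
  have hev : (fun y => F (O.ch i y)) =ᶠ[𝓝 z] g i := by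
    filter_upwards [Metric.isOpen_ball.mem_nhds hz] with y hy
    exact hF i y hy
  have hsm : Loc_524.SmAtF E4 F (O.ch i z) :=
    Pull_129.repF_contDiffAt (ch_at O i hz) (bij_ch O i hz) (mem_chart_source E4 _)
      (((hgs i).contDiffAt (Metric.isOpen_ball.mem_nhds hz)).congr_of_eventuallyEq hev)
  refine ⟨hsm, ?_, ?_⟩
  · refine cancel (bij_ch O i hz).2 ?_
    have h1 := Pull_129.pb1_dF_at (ch_at O i hz) hsm
    rw [hev.fderiv_eq, (hg i z hz).fderiv] at h1
    exact h1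
  · rw [O.io_ch i z hz, hF i _ (neg_mem hz), hF i z hz, hge i z hz]

/-- a global even function whose differential is `r` near the new points. -/
lemma exists_F1 {r : F1 E4 X} (hr : Closed1 r) (he : Even1 O r) :
    ∃ F : X → ℝ, SmoothF E4 F ∧ (∀ x, F (O.io x) = F x) ∧
      ∀ x ∈ Kn O, at1 (dF (E := E4) F) x = at1 r x := by
  obtain ⟨F, hF⟩ := exists_primF O hr he
  have hU : IsOpen (⋃ i, O.ch i '' Metric.ball 0 1) :=
    isOpen_iUnion fun i => O.ch_open i 1 one_pos le_rfl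
  obtain ⟨g, hg, hgF⟩ := Loc_524.exists_extF (E := E4) (f := F) (isClosed_Kn O) hU
    (iUnion_mono fun i => image_mono half_sub) (by
      intro x hx
      obtain ⟨i, hi⟩ := mem_iUnion.1 hx
      obtain ⟨z, hz, rfl⟩ := hi
      exact (hF i z hz).1)
  have hg2 : SmoothF E4 (fun x => g x + g (O.io x)) := hg.add (TorMin_510.SmoothF.pb O.io_smooth hg)
  refine ⟨fun x => (1 / 2 : ℝ) * (g x + g (O.io x)), (smoothF_const _).mul hg2, ?_, ?_⟩
  · intro x
    simp only [O.io_io]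
    ring
  · intro x hx
    obtain ⟨i, hi⟩ := mem_iUnion.1 hx
    obtain ⟨z, hz, rfl⟩ := hi
    have hz1 := half_sub hz
    have hx' : O.io (O.ch i z) ∈ Kn O := by
      rw [O.io_ch i z hz1]
      refine mem_iUnion.2 ⟨i, mem_image_of_mem _ ?_⟩
      rw [mem_closedBall_zero_iff] at hz ⊢
      rwa [norm_neg]
    have e1 : ∀ᶠ y in 𝓝 (O.ch i z), g (O.io y) = F (O.io y) :=
      O.io_smooth.continuous.continuousAt.eventually (hgF _ hx')
    have e2 : ∀ᶠ y in 𝓝 (O.ch i z), y ∈ O.ch i '' Metric.ball 0 1 :=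
      (O.ch_open i 1 one_pos le_rfl).mem_nhds (mem_image_of_mem _ hz1)
    have e3 : (fun x => (1 / 2 : ℝ) * (g x + g (O.io x))) =ᶠ[𝓝 (O.ch i z)] F := by
      filter_upwards [hgF _ hx, e1, e2] with y h1 h2 h3
      obtain ⟨w, hw, rfl⟩ := h3
      rw [h1, h2, (hF i w hw).2.2]
      ring
    rw [Loc_524.dF_congr e3, (hF i z hz1).2.1]

/-! #### descent -/

/-- descent of an even form to `M`. -/
lemma descend {s : F1 E4 X} (he : Even1 O s) :
    ∃ t : F1 E4 M, (∀ x ∈ good O, (at1 t (O.pr x)).comp (PB_604.D1 E4 E4 O.pr x) = at1 s x) ∧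
      ∀ y, (∀ x ∈ good O, O.pr x ≠ y) → at1 t y = 0 := by
  classical
  let t : F1 E4 M := fun y =>
    if h : (∃ x ∈ good O, O.pr x = y) ∧ ∃ l : E4 →L[ℝ] ℝ, ∀ x ∈ good O, O.pr x = y →
      l.comp (PB_604.D1 E4 E4 O.pr x) = at1 s x then h.2.choose else 0
  refine ⟨t, fun x hx => ?_, fun y hy => dif_neg fun h => ?_⟩
  · have hb := bij_pr O hx
    let e : E4 ≃L[ℝ] E4 := ContinuousLinearEquiv.ofBijective (PB_604.D1 E4 E4 O.pr x)
      (LinearMap.ker_eq_bot.2 hb.1) (LinearMap.range_eq_top.2 hb.2)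
    have hl : ((at1 s x).comp (e.symm : E4 →L[ℝ] E4)).comp (PB_604.D1 E4 E4 O.pr x) =
        at1 s x := by
      ext v
      show at1 s x (e.symm (e v)) = _
      rw [e.symm_apply_apply]
    have h : (∃ x' ∈ good O, O.pr x' = O.pr x) ∧ ∃ l : E4 →L[ℝ] ℝ, ∀ x' ∈ good O,
        O.pr x' = O.pr x → l.comp (PB_604.D1 E4 E4 O.pr x') = at1 s x' := by
      refine ⟨⟨x, hx, rfl⟩, (at1 s x).comp (e.symm : E4 →L[ℝ] E4), fun x' hx' hxx => ?_⟩
      rcases O.pr_inj x x' hx hx' hxx.symm with rfl | rfl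
      · exact hl
      · have h1 : O.pr ∘ O.io =ᶠ[𝓝 x] O.pr := by
          filter_upwards [(isOpen_good O).mem_nhds hx] with y hy
          exact O.pr_io y hy
        have h2 := PB_604.D1_comp (E := E4) (F := E4) (G := E4) (f := O.io) (g := O.pr) (x := x)
          ((O.io_smooth x).of_le one_le_infty) ((pr_at O hx').of_le one_le_infty)
        rw [PB_604.D1_congr h1] at h2
        have h3 : dself O.io x = PB_604.D1 E4 E4 O.io x := TorMin_510.dself_eq O.io_smooth x
        have h4 : Surjective (dself O.io x) := by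
          intro v
          refine ⟨dself O.io (O.io x) v, ?_⟩
          have h5 := TorMin_510.dself_dself O.io_smooth O.io_io (O.io x) v
          rwa [O.io_io] at h5
        refine cancel h4 ?_
        have h6 : (at1 s (O.io x)).comp (dself O.io x) = at1 s x :=
          ContinuousLinearMap.ext fun v => he x v
        rw [h6, ContinuousLinearMap.comp_assoc, h3, ← h2]
        exact hl
    have h1 : at1 t (O.pr x) = h.2.choose := dif_pos h
    rw [h1]
    exact h.2.choose_spec x hx rfl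
  · obtain ⟨x, hx, hxy⟩ := h.1
    exact hy x hx hxy

/-- the descended form is closed over the good points. -/
lemma cl1_descend {s : F1 E4 X} (hs : Closed1 s) {t : F1 E4 M}
    (ht : ∀ x ∈ good O, (at1 t (O.pr x)).comp (PB_604.D1 E4 E4 O.pr x) = at1 s x)
    {x : X} (hx : x ∈ good O) : Cl1 t (O.pr x) := by
  obtain ⟨hs1, hs2⟩ := hs
  set U : Set E4 := (chartAt E4 x).target ∩ (chartAt E4 x).symm ⁻¹' good O with hUdef
  have hU : IsOpen U := (chartAt E4 x).isOpen_inter_preimage_symm (isOpen_good O)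
  have hΦ : ContMDiffOn 𝓘(ℝ, E4) 𝓘(ℝ, E4) ∞ (fun y => O.pr ((chartAt E4 x).symm y)) U := by
    intro y hy
    have h1 : ContMDiffAt 𝓘(ℝ, E4) 𝓘(ℝ, E4) ∞ (chartAt E4 x).symm y :=
      (contMDiffOn_chart_symm (I := 𝓘(ℝ, E4)) (x := x)).contMDiffAt
        ((chartAt E4 x).open_target.mem_nhds hy.1)
    exact ((pr_at O hy.2).comp y h1).contMDiffWithinAt
  -- the differential
  have hdL : ∀ y ∈ U, ∀ u, Pull_129.dL (E := E4) (fun y => O.pr ((chartAt E4 x).symm y)) y u =
      PB_604.D1 E4 E4 O.pr ((chartAt E4 x).symm y)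
        (tcc x ((chartAt E4 x).symm y) ((chartAt E4 x).symm y) u) := by
    intro y hy u
    have h1 := PB_604.fderiv_mrep (E := E4) (F := E4) (f := O.pr) (x := (chartAt E4 x).symm y)
      ((pr_at O hy.2).of_le one_le_infty) (p := x) (q := O.pr ((chartAt E4 x).symm y))
      (symm_mem hy.1) (mem_chart_source E4 _) u
    rw [(chartAt E4 x).right_inv hy.1, tcc_self (mem_chart_source E4 _)] at h1
    exact h1
  have hb : ∀ y ∈ U, Bijective
      (Pull_129.dL (E := E4) (fun y => O.pr ((chartAt E4 x).symm y)) y) := by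
    intro y hy
    refine bij_of_inj fun v hv => ?_
    rw [hdL y hy] at hv
    have h1 := O.pr_imm _ hy.2 _ hv
    have h2 := tcc_cancel (symm_mem hy.1) v
    rw [h1, map_zero] at h2
    exact h2.symm
  have hpb : ∀ y ∈ U, Pull_129.pb1 (fun y => O.pr ((chartAt E4 x).symm y)) t y = rep1 x s y := by
    intro y hy
    ext u
    rw [Pull_129.pb1_apply, hdL y hy, rep1_apply, ← ht _ hy.2]
    rfl
  have hq : chartAt E4 x x ∈ U := by
    refine ⟨mem_chart_target E4 x, ?_⟩
    show (chartAt E4 x).symm (chartAt E4 x x) ∈ good O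
    rw [(chartAt E4 x).left_inv (mem_chart_source E4 x)]
    exact hx
  have hev : Pull_129.pb1 (fun y => O.pr ((chartAt E4 x).symm y)) t =ᶠ[𝓝 (chartAt E4 x x)]
      rep1 x s := by
    filter_upwards [hU.mem_nhds hq] with y hy
    exact hpb y hy
  have h := cl1_of_pb hU hΦ hb hq (s := t)
    ((hs1.at (mem_chart_target E4 x)).congr_of_eventuallyEq hev)
    (by rw [d1_congr hev]; exact hs2 x _ (mem_chart_target E4 x))
  simp only [(chartAt E4 x).left_inv (mem_chart_source E4 x)] at h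
  exact h

/-- the descended form vanishes near the removed sets. -/
lemma zero_descend {s : F1 E4 X} (hs : ∀ x ∈ Kn O, at1 s x = 0) {t : F1 E4 M}
    (ht : ∀ x ∈ good O, (at1 t (O.pr x)).comp (PB_604.D1 E4 E4 O.pr x) = at1 s x)
    (ht0 : ∀ y, (∀ x ∈ good O, O.pr x ≠ y) → at1 t y = 0) (i : Fin m) :
    ∀ y ∈ K.C i ∪ K.phi i '' PB (1 / 2), at1 t y = 0 := by
  rintro y (hy | ⟨z, hz, rfl⟩)
  · exact ht0 y fun x hx h => O.pr_out x hx i (h ▸ hy)
  · have hz1 : z ∈ PB 1 := ⟨hz.1, hz.2.trans (by norm_num)⟩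
    have h1 := ht _ (ch_good O (i := i) hz1)
    rw [O.pr_ch i z hz1, hs (O.ch i z) (mem_iUnion.2 ⟨i, mem_image_of_mem _
      (mem_closedBall_zero_iff.2 hz.2.le)⟩)] at h1
    exact cancel (bij_pr O (ch_good O (i := i) hz1)).2 (by rw [h1]; rfl)

/-- the descended form is closed. -/
lemma closed_descend {s : F1 E4 X} (hs : Closed1 s) (hs0 : ∀ x ∈ Kn O, at1 s x = 0)
    {t : F1 E4 M}
    (ht : ∀ x ∈ good O, (at1 t (O.pr x)).comp (PB_604.D1 E4 E4 O.pr x) = at1 s x)
    (ht0 : ∀ y, (∀ x ∈ good O, O.pr x ≠ y) → at1 t y = 0) : Closed1 t := by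
  rw [closed1_iff_cl1]
  intro y
  by_cases hy : ∃ i, y ∈ K.C i
  · obtain ⟨i, hi⟩ := hy
    refine (cl1_zero y).congr ?_
    filter_upwards [(K.nbh i (1 / 2) (by norm_num) (by norm_num)).mem_nhds (Or.inl hi)] with z hz
    exact zero_descend O hs0 ht ht0 i z hz
  · push Not at hy
    obtain ⟨x, hx, rfl⟩ := O.pr_surj y hy
    exact cl1_descend O hs ht hx

/-! #### the function on `X` -/

/-- a function on `M`, locally constant near the removed sets, is constant on the necks. -/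
lemma const_neck {h : M → ℝ} (hh : SmoothF E4 h) (i : Fin m)
    (h0 : ∀ y ∈ K.C i ∪ K.phi i '' PB (1 / 2), at1 (dF (E := E4) h) y = 0) :
    ∃ c : ℝ, ∀ z ∈ PB (1 / 2), h (K.phi i z) = c := by
  have hsub : PB (1 / 2) ⊆ PB 1 := fun z hz => ⟨hz.1, hz.2.trans (by norm_num)⟩
  have hat : ∀ z ∈ PB (1 / 2), ContMDiffAt 𝓘(ℝ, E4) 𝓘(ℝ, E4) ∞ (K.phi i) z := fun z hz =>
    (K.smooth i).contMDiffAt ((isOpen_PB 1).mem_nhds (hsub hz))
  refine IsOpen.exists_is_const_of_fderiv_eq_zero (𝕜 := ℝ) (f := fun z => h (K.phi i z))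
    (isOpen_PB (1 / 2)) (preconn_PB (1 / 2)) ?_ ?_
  · intro z hz
    exact ((Pull_129.comp_contDiffAt (hat z hz) (mem_chart_source E4 _)
      (hh.at (mem_chart_target E4 _))).differentiableAt infty_ne_zero).differentiableWithinAt
  · intro z hz
    have h1 := Pull_129.pb1_dF (hat z hz) hh
    show fderiv ℝ (fun z => h (K.phi i z)) z = 0
    rw [← h1]
    ext v
    rw [Pull_129.pb1_apply, h0 _ (Or.inr (mem_image_of_mem _ hz))]
    rfl

/-- lift of a function on `M` which is constant near the removed sets. -/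
lemma lift_fun {h : M → ℝ} (hh : SmoothF E4 h) {c : Fin m → ℝ}
    (hc : ∀ i, ∀ z ∈ PB (1 / 2), h (K.phi i z) = c i) :
    ∃ H : X → ℝ, SmoothF E4 H ∧ (∀ i, ∀ z ∈ Metric.ball (0 : E4) (1 / 2),
      at1 (dF (E := E4) H) (O.ch i z) = 0) ∧
      ∀ x ∈ good O, at1 (dF (E := E4) H) x =
        (at1 (dF (E := E4) h) (O.pr x)).comp (PB_604.D1 E4 E4 O.pr x) := by
  classical
  let H : X → ℝ := fun x => if hx : ∃ i, x = O.ch i 0 then c hx.choose else h (O.pr x)
  have hH0 : ∀ i, H (O.ch i 0) = c i := by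
    intro i
    have hx : ∃ j, O.ch i 0 = O.ch j 0 := ⟨i, rfl⟩
    have h1 : H (O.ch i 0) = c hx.choose := dif_pos hx
    rw [h1, (ch_uniq O zero_mem zero_mem hx.choose_spec).1.symm]
  have hH1 : ∀ x ∈ good O, H x = h (O.pr x) := by
    intro x hx
    refine dif_neg ?_
    rintro ⟨i, hi⟩
    exact hx i hi
  have hH2 : ∀ i, ∀ z ∈ Metric.ball (0 : E4) (1 / 2), H (O.ch i z) = c i := by
    intro i z hz
    by_cases hz0 : z = 0
    · rw [hz0, hH0]
    · have hz2 : z ∈ PB (1 / 2) := ⟨hz0, mem_ball_zero_iff.1 hz⟩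
      have hz1 : z ∈ PB 1 := ⟨hz0, hz2.2.trans (by norm_num)⟩
      rw [hH1 _ (ch_good O hz1), O.pr_ch i z hz1, hc i z hz2]
  have hev : ∀ i, ∀ z ∈ Metric.ball (0 : E4) (1 / 2), H =ᶠ[𝓝 (O.ch i z)] fun _ => c i := by
    intro i z hz
    filter_upwards [(O.ch_open i (1 / 2) (by norm_num) (by norm_num)).mem_nhds
      (mem_image_of_mem _ hz)] with y hy
    obtain ⟨w, hw, rfl⟩ := hy
    exact hH2 i w hw
  have hev2 : ∀ x ∈ good O, H =ᶠ[𝓝 x] h ∘ O.pr := by
    intro x hx
    filter_upwards [(isOpen_good O).mem_nhds hx] with y hy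
    exact hH1 y hy
  have hhM : ContMDiff 𝓘(ℝ, E4) 𝓘(ℝ, ℝ) ∞ h := (smoothF_iff h).2 hh
  refine ⟨H, Loc_524.smoothF_iff_smAt.2 fun x => ?_, fun i z hz => ?_, fun x hx => ?_⟩
  · by_cases hx : x ∈ good O
    · refine Loc_524.SmAtF.congr ?_ (hev2 x hx)
      exact (contMDiffAt_F (mem_chart_source E4 x) _).1 ((hhM _).comp x (pr_at O hx))
    · have : ∃ i, x = O.ch i 0 := by
        by_contra hcon
        push Not at hcon
        exact hx hcon
      obtain ⟨i, rfl⟩ := this
      exact Loc_524.SmAtF.congr (Loc_524.smAtF_of_smooth (smoothF_const (E := E4) (c i)) _)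
        (hev i 0 (Metric.mem_ball_self (by norm_num)))
  · rw [Loc_524.dF_congr (hev i z hz)]
    show fderiv ℝ (fun _ => c i) _ = 0
    exact (hasFDerivAt_const (c i) _).fderiv
  · rw [Loc_524.dF_congr (hev2 x hx), dF_eq_D1, dF_eq_D1]
    exact PB_604.D1_comp (E := E4) (F := E4) (G := ℝ) ((pr_at O hx).of_le one_le_infty)
      ((hhM _).of_le one_le_infty)

end Cover

/-- **MINUSX**: if `b₁(M) = 0` then the involution of the double cover acts by `-1` on `H¹`. -/
theorem minusx : MINUSX.{u} := by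
  intro M _ _ _ _ _ _ hM m K X _ _ _ _ _ _ O s hs
  have hpb : Closed1 (TorMin_510.pb1 O.io s) := TorMin_510.Closed1.pb O.io_smooth hs
  -- the even form
  obtain ⟨r, hr⟩ : ∃ r : F1 E4 X, r = s + TorMin_510.pb1 O.io s := ⟨_, rfl⟩
  have hrc : Closed1 r := by rw [hr]; exact TorMin_510.Closed1.add hs hpb
  have hrv : ∀ x v, at1 r x v = at1 s x v + at1 s (O.io x) (dself O.io x v) := by
    intro x v
    rw [hr]
    rfl
  have hre : Even1 O r := by
    intro x v
    rw [hrv, hrv, O.io_io, TorMin_510.dself_dself O.io_smooth O.io_io, add_comm]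
  obtain ⟨F, hF, hFe, hFr⟩ := exists_F1 O hrc hre
  -- the even form, zero near the new points
  obtain ⟨q, hq⟩ : ∃ q : F1 E4 X, q = r + (-1 : ℝ) • dF F := ⟨_, rfl⟩
  have hqc : Closed1 q := by
    rw [hq]
    exact TorMin_510.Closed1.add hrc (TorMin_510.Closed1.smul _ (TorMin_510.closed1_dF hF))
  have hqv : ∀ x v, at1 q x v = at1 r x v + (-1 : ℝ) * at1 (dF F) x v := by
    intro x v
    rw [hq]
    rfl
  have hqe : Even1 O q := by
    intro x v
    have h1 : at1 (dF (E := E4) F) (O.io x) (dself O.io x v) = at1 (dF F) x v := by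
      have h2 := TorMin_510.pb1_dF O.io_smooth hF
      have h3 : (fun x => F (O.io x)) = F := funext hFe
      rw [h3] at h2
      rw [← TorMin_510.at1_pb1, h2]
    rw [hqv, hqv, hre x v, h1]
  have hq0 : ∀ x ∈ Kn O, at1 q x = 0 := by
    intro x hx
    ext v
    rw [hqv, hFr x hx]
    show _ = (0 : ℝ)
    ring
  -- descent
  obtain ⟨t, ht, ht0⟩ := descend O hqe
  obtain ⟨h, hh, hth⟩ := hM t (closed_descend O hqc hq0 ht ht0)
  have hz : ∀ i, ∃ c : ℝ, ∀ z ∈ PB (1 / 2), h (K.phi i z) = c := by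
    intro i
    refine const_neck hh i ?_
    rw [← hth]
    exact zero_descend O hq0 ht ht0 i
  choose c hc using hz
  obtain ⟨H, hH, hH0, hH1⟩ := lift_fun O hh hc
  have hHq : ∀ x v, at1 (dF (E := E4) H) x v = at1 q x v := by
    intro x v
    by_cases hx : x ∈ good O
    · rw [hH1 x hx, ← hth, ht x hx]
    · have : ∃ i, x = O.ch i 0 := by
        by_contra hcon
        push Not at hcon
        exact hx hcon
      obtain ⟨i, rfl⟩ := this
      rw [hH0 i 0 (Metric.mem_ball_self (by norm_num)), hq0]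
      exact mem_iUnion.2 ⟨i, mem_image_of_mem _ (Metric.mem_closedBall_self (by norm_num))⟩
  refine ⟨fun x => F x + H x, hF.add hH, fun x v => ?_⟩
  rw [TorMin_510.dF_add hF hH]
  have h1 : at1 (dF (E := E4) F + dF H) x v = at1 (dF F) x v + at1 (dF H) x v := rfl
  rw [h1, hHq, hqv, hrv]
  ring

end

end Crest.Agent.R235.KumMinus_918
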