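import Crest.Agent.R235.KumThC_785
import Crest.Agent.R235.KumDefs2_152
import Crest.Agent.R235.LatK_766

/-!
Row 235 (S0364), package KUM, node NECKTH (a) (helper785): the Thom form of a tube,
`thom : PHI → RADF → S2PRIM → RPRIM → … → ∃ T, IsThom K i d T`.
-/

set_option autoImplicit false
set_option maxSynthPendingDepth 3
set_option linter.unusedSectionVars false

open Set Function Filter MeasureTheory
open scoped Manifold ContDiff Topology RealInnerProductSpace

universe u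

namespace Crest.Agent.R235.KumThom_785

open Crest.Agent.R240 Crest.Agent.R240.Ch Crest.Agent.R240.Int Crest.Agent.R235
  Crest.Agent.R235.K12_417 Crest.Agent.R235.KT_604
  Crest.Agent.R235.PB_604 Crest.Agent.R235.K12Ext_168 Crest.Agent.R235.KumThA_785
  Crest.Agent.R235.KumThB_785 Crest.Agent.R235.KumThC_785

noncomputable section

/-! ### the profile -/

/-- the profile: `-1/(2π)` for `x ≤ 1/10`, `0` for `x ≥ 1/5`. -/
def fp (x : ℝ) : ℝ := (-1 / (2 * Real.pi)) * Real.smoothTransition ((1 / 5 - x) * 10)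

lemma contDiff_fp : ContDiff ℝ ∞ fp :=
  contDiff_const.mul (Real.smoothTransition.contDiff.comp
    ((contDiff_const.sub contDiff_id).mul contDiff_const))

lemma fp_small {x : ℝ} (hx : x ≤ 1 / 10) : fp x = -1 / (2 * Real.pi) := by
  unfold fp
  rw [Real.smoothTransition.one_of_one_le (by linarith), mul_one]

lemma fp_large {x : ℝ} (hx : 1 / 5 ≤ x) : fp x = 0 := by
  unfold fp
  rw [Real.smoothTransition.zero_of_nonpos (by linarith), mul_zero]

/-- the profile as a function of `|p|`. -/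
def Fp (t s : ℝ) : ℝ := fp (s / t)

lemma contDiff_Fp (t : ℝ) : ContDiff ℝ ∞ (Fp t) := contDiff_fp.comp (contDiff_id.div_const t)

lemma Fp_small {t s : ℝ} (ht : 0 < t) (hs : s < t / 10) : Fp t s = -1 / (2 * Real.pi) := by
  unfold Fp
  apply fp_small
  rw [div_le_iff₀ ht]; linarith

lemma Fp_zero {t : ℝ} (ht : 0 < t) : Fp t 0 = -1 / (2 * Real.pi) := Fp_small ht (by linarith)

lemma Fp_large {t s : ℝ} (ht : 0 < t) (hs : t / 5 ≤ s) : Fp t s = 0 := by
  unfold Fp
  apply fp_large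
  rw [le_div_iff₀ ht]; linarith

/-! ### the total mass of the sphere -/

lemma sphere_real : ((volume : Measure E3).toSphere).real univ = 4 * Real.pi := by
  rw [Measure.toSphere_real_apply_univ]
  have h : (volume : Measure E3).real (Metric.ball 0 1) = Real.pi * 4 / 3 := by
    unfold Measure.real
    rw [EuclideanSpace.volume_ball_fin_three]
    simp only [ENNReal.ofReal_one, one_pow, one_mul]
    exact ENNReal.toReal_ofReal (by positivity)
  rw [h]
  simp
  ring

section Man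

variable {M : Type u} [TopologicalSpace M] [T2Space M] [CompactSpace M]
  [ChartedSpace E4 M] [IsManifold 𝓘(ℝ, E4) ∞ M]

variable {σ : E3 → M} {r : ℝ} {Ps : E6 → M} {G : M → E6} {U : Set M}

lemma nn_gy {y : E3} (hy : y ≠ 0) : Pi (gy y) = gy y := Pi_of_TS (gy_mem_TS one_pos hy)

/-- the integral of the model form over the sphere. -/
theorem sphI_s2 (hR : RADF) (h : K12_417.Tube σ r Ps G U) (hσ : EmbS σ) {F : ℝ → ℝ} {δ : ℝ} (hδ : 0 < δ)
    (hF : ∀ s < δ, F s = F 0) : sphI σ (s2 G U (BB F)) = F 0 * (4 * Real.pi) := by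
  have key : ∀ y : Metric.sphere (0 : E3) 1,
      ((y : E3) 2 * at2 (s2 G U (BB F)) (σ y) (dmap σ y (EuclideanSpace.single 0 1))
        (dmap σ y (EuclideanSpace.single 1 1)) +
      (y : E3) 0 * at2 (s2 G U (BB F)) (σ y) (dmap σ y (EuclideanSpace.single 1 1))
        (dmap σ y (EuclideanSpace.single 2 1)) +
      (y : E3) 1 * at2 (s2 G U (BB F)) (σ y) (dmap σ y (EuclideanSpace.single 2 1))
        (dmap σ y (EuclideanSpace.single 0 1))) = F 0 := by
    intro y
    have hy : ‖(y : E3)‖ = 1 := by simp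
    have hy0 := ne_of_norm hy
    have hs : ContMDiffAt 𝓘(ℝ, E3) 𝓘(ℝ, E4) ∞ σ (y : E3) :=
      hσ.smooth.contMDiffAt (isOpen_ne.mem_nhds hy0)
    have hev := sigma_ev h hσ hy0
    have hmem : ∀ x : E3, x ≠ 0 → gy x ∈ OS r := fun x hx =>
      TS_subset_OS r (gy_mem_TS h.r_pos hx)
    have hU : σ (y : E3) ∈ U := by
      rw [hev.self_of_nhds]
      exact h.maps _ (hmem _ hy0)
    have hg : ∀ᶠ x in 𝓝 (y : E3), G (σ x) = gy x := by
      filter_upwards [hev, isOpen_ne.mem_nhds hy0] with x hx hx0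
      rw [hx, h.right _ (hmem x hx0), nn_gy hx0]
    have hp := fun u v => s2_pull h (B := BB F) hs hU hg u v
    have hz1 : (gy (y : E3)).1 ≠ 0 := by
      show sn (y : E3) ≠ 0
      exact ne_of_norm (norm_sn hy0)
    have hz2 : ‖(Pi (gy (y : E3))).2‖ < δ := by
      rw [nn_gy hy0]
      show ‖(0 : E3)‖ < δ
      rw [norm_zero]; exact hδ
    have hnn : ∀ u, fderiv ℝ nn (gy (y : E3)) (fderiv ℝ gy (y : E3) u) =
        u - ⟪(y : E3), u⟫ • (y : E3) := by
      intro u
      have h1 := fderiv_comp (y : E3) ((contDiffAt_nn hz1).differentiableAt infty_ne_zero)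
        ((contDiffAt_gy hy0).differentiableAt infty_ne_zero)
      have h2 : nn ∘ gy =ᶠ[𝓝 (y : E3)] sn := by
        filter_upwards [isOpen_ne.mem_nhds hy0] with x hx0
        show (Pi (gy x)).1 = sn x
        rw [nn_gy hx0]; rfl
      rw [← fderiv_sn hy, ← h2.fderiv_eq, h1]
      rfl
    have hval : ∀ u v : E3, at2 (s2 G U (BB F)) (σ y) (dmap σ y u) (dmap σ y v) =
        F 0 * ⟪(y : E3), cr u v⟫ := by
      intro u v
      rw [hp, BB_of_lt hR hF hz1 hz2]
      show F 0 * (Ar _ _ _) = _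
      rw [Ar_apply, hnn, hnn]
      have h3 : nn (gy (y : E3)) = y := by
        show (Pi (gy (y : E3))).1 = y
        rw [nn_gy hy0]
        show sn (y : E3) = y
        exact sn_of_norm hy
      rw [h3, cr_proj]
    simp only [hval]
    exact cf_area hy (fun u v => F 0 * ⟪(y : E3), cr u v⟫) fun u v => rfl
  unfold sphI
  rw [integral_congr_ae (Eventually.of_forall key), integral_const, sphere_real]
  show 4 * Real.pi * F 0 = _
  ring

/-- the pairing of forms with disjoint supports. -/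
lemma pI_zero {F a b : Z2 M} (h : ∀ x, val a x = 0 ∨ val b x = 0) : pI F a b = 0 := by
  let _ : MeasurableSpace M := borel M
  have _ : BorelSpace M := ⟨rfl⟩
  show Int.I (F.1.1 : F2 E4 M) (a.1.1 : F2 E4 M) (b.1.1 : F2 E4 M) = 0
  unfold Int.I
  have h0 : ∀ x, qG (F.1.1 : F2 E4 M) (a.1.1 : F2 E4 M) (b.1.1 : F2 E4 M) x = 0 := by
    intro x
    unfold qG q
    have hW : W (at2 (a.1.1 : F2 E4 M) x) (at2 (b.1.1 : F2 E4 M) x) = 0 := by
      rcases h x with h1 | h1
      · have h2 : at2 (a.1.1 : F2 E4 M) x = 0 := h1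
        rw [h2]; unfold W; simp only [ent_zero]; ring
      · have h2 : at2 (b.1.1 : F2 E4 M) x = 0 := h1
        rw [h2]; unfold W; simp only [ent_zero]; ring
    rw [hW, zero_div]
  simp [h0]

/-- nondegeneracy of `ip` for K3 type. -/
lemma ip_nondeg {F : Z2 M} (hF : Vol (F.1.1 : F2 E4 M)) (hK : K3Type F) {c : H2 M}
    (hc : ∀ x, ip F c x = 0) : c = 0 := by
  obtain ⟨-, e, hG, -⟩ := hK
  have h1 : e.equivFun c = 0 := by
    refine LatKz_766.nondeg fun k => ?_
    have h2 := LatK_766.ip_eq hF e hG c (e k)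
    rw [hc] at h2
    rw [h2]
    congr 1
    funext j
    rw [Module.Basis.equivFun_self]
    by_cases hjk : k = j
    · subst hjk; simp
    · rw [if_neg hjk, Pi.single_eq_of_ne (Ne.symm hjk)]
  exact e.equivFun.map_eq_zero_iff.1 h1


/-! ### the neck -/

lemma norm_tP (hP : PHI) {t : ℝ} (ht : 0 < t) {z : E4} (hz : z ≠ 0) :
    ‖t • K12_417.hP z‖ = t * ‖z‖ ^ 2 := by
  rw [norm_smul, Real.norm_of_nonneg ht.le]
  congr 1
  exact (hP.mem z t hz).2.2

lemma hh_mem (hP : PHI) {t : ℝ} (ht : 0 < t) (htr : t < r) {z : E4} (hz : z ∈ PB 1) :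
    hh t z ∈ TS r := by
  obtain ⟨h1, h2, h3⟩ := hP.mem z t hz.1
  refine ⟨h1, h2, ?_⟩
  show ‖t • K12_417.hP z‖ < r
  rw [norm_tP hP ht hz.1]
  have h4 : ‖z‖ ^ 2 ≤ 1 := pow_le_one₀ (norm_nonneg _) hz.2.le
  nlinarith

lemma isOpen_PB (s : ℝ) : IsOpen (PB s) := by
  have : PB s = {0}ᶜ ∩ Metric.ball (0 : E4) s := by
    ext z
    simp only [PB, mem_ofPred_eq, mem_inter_iff, mem_compl_iff, mem_singleton_iff, mem_ball_zero_iff]
  rw [this]
  exact isOpen_compl_singleton.inter Metric.isOpen_ball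

/-- the pull-back of the model primitive under `hh`. -/
lemma bb_hh (hP : PHI) {t : ℝ} (ht : 0 < t) {w : E4} (hw : w ≠ 0) (v : E4) :
    bb (Fp t) (hh t w) (fderiv ℝ (hh t) w v) = (fp (‖w‖ ^ 2) • thL w) v := by
  have hmem : ∀ x : E4, x ≠ 0 → Pi (hh t x) = hh t x := by
    intro x hx
    obtain ⟨h1, h2, h3⟩ := hP.mem x t hx
    exact Pi_of_TS (r := ‖(hh t x).2‖ + 1) ⟨h1, h2, lt_add_one _⟩
  have hd : ContDiffAt ℝ ∞ (hh t) w := (hP.smooth t).contDiffAt (isOpen_ne.mem_nhds hw)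
  have hz1 : (hh t w).1 ≠ 0 := by
    have := (hP.mem w t hw).1
    intro h0
    have h1 : hQ w = 0 := h0
    rw [h1, norm_zero] at this
    exact zero_ne_one this
  have hcomp : fderiv ℝ Pi (hh t w) (fderiv ℝ (hh t) w v) = fderiv ℝ (hh t) w v := by
    have h1 := fderiv_comp w ((contDiffAt_Pi hz1).differentiableAt infty_ne_zero)
      (hd.differentiableAt infty_ne_zero)
    have h2 : Pi ∘ hh t =ᶠ[𝓝 w] hh t := by
      filter_upwards [isOpen_ne.mem_nhds hw] with x hx
      exact hmem x hx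
    have h3 := h2.fderiv_eq (𝕜 := ℝ)
    rw [h1] at h3
    exact congrArg (fun L : E4 →L[ℝ] E6 => L v) h3
  have hpsb : psb (hh t w) (fderiv ℝ (hh t) w v) = -(2 * ⟪qI w, v⟫ / ‖w‖ ^ 2) := by
    show ps (Pi (hh t w)) (fderiv ℝ Pi (hh t w) (fderiv ℝ (hh t) w v)) = _
    rw [hcomp, hmem w hw]
    exact hP.pps w v t hw ht
  have hn : ‖(Pi (hh t w)).2‖ = t * ‖w‖ ^ 2 := by
    rw [hmem w hw]
    exact norm_tP hP ht hw
  show (-(Fp t ‖(Pi (hh t w)).2‖)) * psb (hh t w) (fderiv ℝ (hh t) w v) =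
    fp (‖w‖ ^ 2) * ((2 / ‖w‖ ^ 2) * ⟪qi w, v⟫)
  rw [hpsb, hn]
  have e1 : Fp t (t * ‖w‖ ^ 2) = fp (‖w‖ ^ 2) := by
    unfold Fp
    rw [mul_div_cancel_left₀ _ ht.ne']
  have e2 : qi w = qI w := rfl
  rw [e1, e2]
  ring

/-- **the Thom form**. -/
theorem thom (hP : PHI) (hR : RADF) (hS : S2PRIM) (hQ : RPRIM) [ConnectedSpace M] {w : Trip M}
    (hw : Pos3 w) (hK3 : K3Type (w 0)) {d : H2 M} (hσ : JSph w σ d) (hd : d ∈ Root (w 0)) {m : ℕ}
    (K : Neck M m) (i : Fin m) (hC : K.C i = im σ) (hT : HasTube σ (K.phi i)) :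
    ∃ T : Z2 M, IsThom K i d T := by
  obtain ⟨r, t, Ps, G, U, h, ht, htr, hφ⟩ := hT
  have hF : Vol ((w 0).1.1 : F2 E4 M) := hw.vol 0
  have hFs : ∀ s < t / 10, Fp t s = Fp t 0 := fun s hs => by rw [Fp_small ht hs, Fp_zero ht]
  have hz2 : ∀ z ∈ TS r, Z2At (E := E6) (X := E6) (BB (Fp t)) z := fun z hz =>
    BB_z2 hR (contDiff_Fp t) (by linarith : 0 < t / 10) hFs (TS_subset_OS r hz).1
  have hz0 : ∀ z ∈ TS r, t / 5 < ‖z.2‖ → BB (Fp t) z = 0 := fun z hz hzt => by
    refine BB_zero (s₀ := t / 5) (by linarith) (fun s hs => Fp_large ht hs)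
      (TS_subset_OS r hz).1 ?_
    rw [Pi_of_TS hz]; exact hzt
  have hz0' : ∀ z ∈ TS r, t / 4 ≤ ‖z.2‖ → BB (Fp t) z = 0 := fun z hz hzt =>
    hz0 z hz (by linarith)
  set T : Z2 M := thZ h (by linarith : t / 4 < r) hz2 hz0' with hTdef
  have hTv : ∀ x, val T x = at2 (s2 G U (BB (Fp t))) x := fun x => rfl
  -- vanishing of `T`
  have hT0 : ∀ x, (x ∈ U → t / 5 < ‖(G x).2‖) → val T x = 0 := by
    intro x hx
    rw [hTv]
    by_cases hU : x ∈ U
    · rw [s2_of_mem hU, at2_pb2]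
      have h2 : BB (Fp t) (G x) = 0 := hz0 _ (h.mapsG x hU) (hx hU)
      show pl _ (BB (Fp t) (G x)) = 0
      rw [h2]
      ext u v
      simp
    · show s2 G U (BB (Fp t)) x = _
      unfold s2
      rw [if_neg hU]
  have hsph : sphI σ (T.1.1 : F2 E4 M) = -2 := by
    have h1 := sphI_s2 hR h hσ.emb (by linarith : 0 < t / 10) hFs
    rw [Fp_zero ht] at h1
    have h2 : sphI σ (T.1.1 : F2 E4 M) = sphI σ (s2 G U (BB (Fp t))) := rfl
    rw [h2, h1]
    have := Real.pi_ne_zero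
    field_simp
    norm_num
  refine ⟨T, ?_, ?_, ?_⟩
  · -- the class
    have hdd : ip (w 0) d d = -2 := hd.2
    have hker : ∀ c : H2 M, ip (w 0) d c = 0 → ip (w 0) (cls T) c = 0 := by
      intro c hc
      obtain ⟨b, rfl⟩ := cls_surj c
      have h0 : sphI σ (b.1.1 : F2 E4 M) = 0 := by rw [hσ.rep b, hc]
      obtain ⟨b', hb', hbz⟩ := kill hS hQ h hσ.emb ht htr b h0
      rw [ip_cls hF, ← pI_congr_right hF T hb']
      refine pI_zero fun x => ?_
      by_cases hx : x ∈ U ∧ ‖(G x).2‖ < t / 2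
      · exact Or.inr (hbz x hx.1 hx.2)
      · refine Or.inl (hT0 x fun hU => ?_)
        have : t / 2 ≤ ‖(G x).2‖ := by
          by_contra hlt
          exact hx ⟨hU, not_le.1 hlt⟩
        linarith
    have hTd : ip (w 0) (cls T) d = -2 := by
      rw [ip_comm, ← hσ.rep T, hsph]
    have hall : ∀ c, ip (w 0) (cls T) c = ip (w 0) d c := by
      intro c
      have h1 : ip (w 0) d (c + (ip (w 0) d c / 2) • d) = 0 := by
        rw [ip_add_right hF, ip_smul_right hF, hdd]; ring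
      have h2 := hker _ h1
      rw [ip_add_right hF, ip_smul_right hF, hTd] at h2
      linarith
    have h3 : cls T - d = 0 := ip_nondeg hF hK3 fun c => by
      rw [ip_sub_left hF, hall, sub_self]
    exact sub_eq_zero.1 h3
  · -- the support
    intro x hxC hxφ
    refine hT0 x fun hU => ?_
    have hG := h.mapsG x hU
    have hxG := h.left x hU
    by_cases hp : (G x).2 = 0
    · exfalso
      apply hxC
      rw [hC]
      refine ⟨(G x).1, ?_, ?_⟩
      · rw [mem_sphere_zero_iff_norm]; exact hG.1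
      · rw [← h.zero _ hG.1, ← hp]
        exact hxG
    · obtain ⟨z, hz0, hz⟩ := hP.surj (G x).1 (G x).2 t hG.1 hG.2.1 hp ht
      have hn : ‖(G x).2‖ = t * ‖z‖ ^ 2 := by
        rw [← norm_tP hP ht hz0]
        have := congrArg Prod.snd hz
        exact congrArg norm this.symm
      have hz2 : 1 / 2 ≤ ‖z‖ := by
        by_contra hlt
        have hlt' : ‖z‖ < 1 / 2 := not_le.1 hlt
        refine hxφ z ⟨hz0, hlt'⟩ ?_
        rw [hφ z ⟨hz0, by linarith⟩, hz]
        exact hxG.symm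
      rw [hn]
      have h4 : 1 / 4 ≤ ‖z‖ ^ 2 := by nlinarith
      have h5 := mul_le_mul_of_nonneg_left h4 ht.le
      linarith
  · refine ⟨fp, contDiff_fp, ⟨1 / 10, by norm_num, fun s hs => fp_small hs.le⟩,
      fun s hs => fp_large (by linarith), ?_⟩
    intro z hz u v
    have hev : ∀ᶠ x in 𝓝 z, x ∈ PB 1 := (isOpen_PB 1).mem_nhds hz
    have hf : ContMDiffAt 𝓘(ℝ, E4) 𝓘(ℝ, E4) ∞ (K.phi i) z :=
      (K.smooth i).contMDiffAt ((isOpen_PB 1).mem_nhds hz)
    have hU : K.phi i z ∈ U := by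
      rw [hφ z hz]
      exact h.maps _ (TS_subset_OS r (hh_mem hP ht htr hz))
    have hg : ∀ᶠ x in 𝓝 z, G (K.phi i x) = hh t x := by
      filter_upwards [hev] with x hx
      have h1 := hh_mem hP ht htr hx
      rw [hφ x hx, h.right _ (TS_subset_OS r h1), Pi_of_TS h1]
    rw [hTv, s2_pull h hf hU hg u v]
    have hz1 := hh_mem hP ht htr hz
    have hp : (Pi (hh t z)).2 ≠ 0 := by
      rw [Pi_of_TS hz1]
      intro h0
      have h1 := norm_tP hP ht hz.1
      have h2 : t • K12_417.hP z = 0 := h0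
      rw [h2, norm_zero] at h1
      have h3 : 0 < ‖z‖ := norm_pos_iff.2 hz.1
      have : 0 < t * ‖z‖ ^ 2 := by positivity
      linarith
    rw [BB_of_ne _ hp]
    have hd : ContDiffAt ℝ ∞ (hh t) z := (hP.smooth t).contDiffAt (isOpen_ne.mem_nhds hz.1)
    refine (d1_pullback' hd ((contDiffAt_bb (contDiff_Fp t) (TS_subset_OS r hz1).1
      hp).differentiableAt infty_ne_zero) ?_ u v).symm
    filter_upwards [hev] with x hx
    refine ContinuousLinearMap.ext fun v => ?_
    exact (bb_hh hP ht hx.1 v).symm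

end Man

end

end Crest.Agent.R235.KumThom_785
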