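import Crest.Agent.R235.KumDefs2_152
import Crest.Agent.R235.TopA_844

/-!
Row 235 (S0364), PACKAGE KUM (helper152): ASSEMBLY
`SPH, DISJ, K12T, NECKTH, KTW, KCODE, KT, K4T, MINUSX, EVT, KUP, KDOWN, YAUK ⇒ KUM`.
-/

set_option autoImplicit false
set_option maxSynthPendingDepth 3

open Set Function Filter MeasureTheory
open scoped Manifold ContDiff Topology RealInnerProductSpace

universe u

namespace Crest.Agent.R235.KumTop_152

open Crest.Agent.R240 Crest.Agent.R240.Ch Crest.Agent.R235 Crest.Agent.R235.KT_604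
  Crest.Agent.R235.K12_417

noncomputable section

section Basic

variable {M : Type u} [TopologicalSpace M] [T2Space M] [CompactSpace M]
  [ChartedSpace E4 M] [IsManifold 𝓘(ℝ, E4) ∞ M]

theorem rec3_seg (A : Matrix (Fin 3) (Fin 3) ℝ) (w w' : Trip M) (t : ℝ) :
    seg (rec3 A w) (rec3 A w') t = rec3 A (seg w w' t) := by
  funext i
  simp only [seg, rec3, Finset.smul_sum, ← Finset.sum_add_distrib]
  refine Finset.sum_congr rfl fun j _ => ?_
  rw [smul_add, smul_comm (1 - t) (A i j), smul_comm t (A i j)]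

theorem rec3_pos {A : Matrix (Fin 3) (Fin 3) ℝ} (hA : A.det ≠ 0) {w : Trip M} (hw : Pos3 w) :
    Pos3 (rec3 A w) := hw.linear hA

theorem rec3_Seg {A : Matrix (Fin 3) (Fin 3) ℝ} (hA : A.det ≠ 0) {w w' : Trip M}
    (h : Seg w w') : Seg (rec3 A w) (rec3 A w') := fun t h0 h1 => by
  rw [rec3_seg]; exact rec3_pos hA (h t h0 h1)

theorem rec3_PL {A : Matrix (Fin 3) (Fin 3) ℝ} (hA : A.det ≠ 0) {w w' : Trip M}
    (h : PL w w') : PL (rec3 A w) (rec3 A w') := by
  induction h with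
  | refl => exact Relation.ReflTransGen.refl
  | tail _ h ih => exact ih.tail (rec3_Seg hA h)

theorem rec3_HK {A : Matrix (Fin 3) (Fin 3) ℝ} (hA : A.det ≠ 0) {w : Trip M} (h : HK w) :
    HK (rec3 A w) := h.linear hA

theorem rec3_mul (A B : Matrix (Fin 3) (Fin 3) ℝ) (w : Trip M) :
    rec3 A (rec3 B w) = rec3 (A * B) w := by
  funext i
  simp only [rec3, Finset.smul_sum, smul_smul, Matrix.mul_apply, Finset.sum_smul]
  rw [Finset.sum_comm]

theorem rec3_one (w : Trip M) : rec3 1 w = w := by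
  funext i
  simp only [rec3, Matrix.one_apply, ite_smul, one_smul, zero_smul, Finset.sum_ite_eq,
    Finset.mem_univ, if_true]

/-- the sign change of the last form. -/
def fl (s : ℝ) : Matrix (Fin 3) (Fin 3) ℝ := Matrix.diagonal ![1, 1, s]

theorem fl_fl {s : ℝ} (hs : s = 1 ∨ s = -1) : fl s * fl s = 1 := by
  unfold fl
  rw [Matrix.diagonal_mul_diagonal, ← Matrix.diagonal_one]
  congr 1
  funext i
  fin_cases i <;> rcases hs with rfl | rfl <;> simp

theorem fl_det {s : ℝ} (hs : s = 1 ∨ s = -1) : (fl s).det ≠ 0 := by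
  intro h
  have := congrArg Matrix.det (fl_fl hs)
  rw [Matrix.det_mul, h, Matrix.det_one] at this
  norm_num at this

theorem rec3_fl (s : ℝ) (w : Trip M) : rec3 (fl s) w = fun i => (![1, 1, s] i : ℝ) • w i := by
  funext i
  simp only [rec3, fl, Matrix.diagonal_apply, ite_smul, zero_smul, Finset.sum_ite_eq,
    Finset.mem_univ, if_true]

theorem std_fl {m : ℕ} {σ : Fin m → E3 → M} {w : Trip M} {φ : Fin m → E4 → M} {s : ℝ}
    {R r₀ : Fin m → ℝ} {g : Fin m → ℝ → ℝ} (h : Std σ w φ s R r₀ g) :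
    Std σ (rec3 (fl s) w) φ 1 R r₀ g := by
  have hs2 : s * s = 1 := by rcases h.sgn with rfl | rfl <;> norm_num
  have hw : ∀ i, rec3 (fl s) w i = (![1, 1, s] i : ℝ) • w i := fun i => by rw [rec3_fl]
  exact
    { smooth := h.smooth
      even := h.even
      inj := h.inj
      imm := h.imm
      out := h.out
      sep := h.sep
      nbh := h.nbh
      shrink := h.shrink
      sgn := Or.inl rfl
      R_pos := h.R_pos
      r_pos := h.r_pos
      w1 := fun i z hz u v => by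
        rw [hw 1, ← h.w1 i z hz u v]
        show (1 : ℝ) * val (w 1) _ _ _ = _
        rw [one_mul]
      w2 := fun i z hz u v => by
        rw [hw 2]
        show s * val (w 2) _ _ _ = _
        rw [h.w2 i z hz u v]
        calc s * (s * R i * ⟪qK u, v⟫) = (s * s) * (R i * ⟪qK u, v⟫) := by ring
          _ = 1 * R i * ⟪qK u, v⟫ := by rw [hs2]; ring
      w0 := fun i z hz u v => by
        rw [hw 0, ← h.w0 i z hz u v]
        show (1 : ℝ) * val (w 0) _ _ _ = _
        rw [one_mul]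
      g_smooth := h.g_smooth
      g_pos := h.g_pos
      g_flat := h.g_flat }

/-- the neck of a standardised triple. -/
def neckOf {m : ℕ} {σ : Fin m → E3 → M} {w : Trip M} {φ : Fin m → E4 → M} {s : ℝ}
    {R r₀ : Fin m → ℝ} {g : Fin m → ℝ → ℝ} (h : Std σ w φ s R r₀ g)
    (hσ : ∀ i, EmbS (σ i)) (hd : ∀ i j, i ≠ j → Disjoint (im (σ i)) (im (σ j))) : Neck M m where
  C := fun i => im (σ i)
  cpt := fun i => (isCompact_sphere (0 : E3) 1).image_of_continuousOn
    ((hσ i).smooth.continuousOn.mono fun y hy => by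
      have : ‖y‖ = 1 := by simpa using hy
      intro h0
      rw [h0, norm_zero] at this
      exact zero_ne_one this)
  disj := hd
  phi := φ
  smooth := h.smooth
  even := h.even
  inj := h.inj
  imm := h.imm
  out := h.out
  sep := h.sep
  nbh := h.nbh
  shrink := h.shrink

end Basic

/-- ASSEMBLY of package KUM. -/
theorem kum_of (hSPH : SPH.{u}) (hDISJ : DISJ.{u}) (hK12 : K12T.{u}) (hN : NECKTH.{u})
    (hTW : KTW.{u}) (hCode : KCODE.{u}) (hKT : KT.{u}) (hK4 : K4T.{u}) (hMin : MINUSX.{u})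
    (hEVT : EVT.{u}) (hUp : KUP.{u}) (hDn : KDOWN.{u}) (hY : YAUK.{u}) : KUM.{u} := by
  intro M _ _ _ _ _ _ w d hw hK hd
  -- the spheres
  have hsph : ∀ i, ∃ σ : E3 → M, JSph w σ (d i) := by
    intro i
    refine hSPH M w hw hK (d i) (hd.conf.root i) (hd.perp1 i) (hd.perp2 i) (hd.pos i) ?_
    intro d' hd' h1 h2 h3 hne
    obtain ⟨j, rfl | rfl⟩ := hd.only d' hd' h1 h2
    · rw [hd.conf.orth j i fun h => hne (by rw [h])]
    · exfalso
      have h4 : ip (w 0) (-(d j)) (cls (w 0)) = - ip (w 0) (d j) (cls (w 0)) :=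
        ip_neg_left (hw.vol 0) _ _
      have h5 : 0 < ip (w 0) (d j) (cls (w 0)) := hd.pos j
      rw [h4] at h3
      linarith
  choose σ hσ using hsph
  have hdne : ∀ i j, i ≠ j → d i ≠ d j := by
    intro i j hij h
    have h1 := hd.conf.orth i j hij
    have h2 : ip (w 0) (d i) (d i) = -2 := (hd.conf.root i).2
    rw [← h, h2] at h1
    norm_num at h1
  have hdisj : ∀ i j, i ≠ j → Disjoint (im (σ i)) (im (σ j)) := by
    intro i j hij
    have h1 := (hDISJ M w hw (σ i) (σ j) (d i) (d j) (hσ i) (hσ j) (hdne i j hij)).2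
      (hd.conf.orth i j hij)
    rw [Set.disjoint_left]
    rintro x ⟨y, hy, rfl⟩ ⟨z, hz, hyz⟩
    have hy1 : ‖y‖ = 1 := by simpa using hy
    have hz1 : ‖z‖ = 1 := by simpa using hz
    refine h1 y z ?_ ?_ hyz.symm
    · rintro rfl; rw [norm_zero] at hy1; exact zero_ne_one hy1
    · rintro rfl; rw [norm_zero] at hz1; exact zero_ne_one hz1
  -- standardisation
  obtain ⟨w', φ, s, R, r₀, g, hPL, hw', hstd, htube⟩ := hK12 M w hw 16 σ (fun i => (hσ i).emb)
    (fun i => (hσ i).lag1) (fun i => (hσ i).lag2)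
    (fun i => by rw [(hσ i).rep (w 0)]; exact (hσ i).pos) hdisj
  have hs := hstd.sgn
  set w1 : Trip M := rec3 (fl s) w' with hw1def
  have hw1 : Pos3 w1 := rec3_pos (fl_det hs) hw'
  have hstd1 : Std σ w1 φ 1 R r₀ g := std_fl hstd
  -- the neck and the double cover
  let K : Neck M 16 := neckOf hstd (fun i => (hσ i).emb) hdisj
  have hNT : NeckT K d := hN M w hw hK 16 σ d hσ hd.conf.root K (fun _ => rfl) htube
  obtain ⟨t0⟩ := hTW M w hw hK 16 K d hNT Finset.univ hd.conf.half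
  have ht0 : (fun i : Fin 16 => if i ∈ (Finset.univ : Finset (Fin 16)) then (-1 : ℝ) else 1) =
      fun _ => (-1 : ℝ) := by
    funext i
    rw [if_pos (Finset.mem_univ i)]
  obtain ⟨t⟩ : Nonempty (Twist K (fun _ => -1)) := by
    rw [← ht0]; exact ⟨t0⟩
  obtain ⟨I, hI, hIZ⟩ := hCode M w d hw hK hd
  have hIne : I.Nonempty := by
    rw [← Finset.card_pos, hI]; norm_num
  have hIu : I ≠ Finset.univ := by
    intro h
    rw [h, Finset.card_univ, Fintype.card_fin] at hI
    norm_num at hI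
  obtain ⟨X, iT, iT2, iC, iCn, iCh, iM, ⟨O⟩⟩ := hKT M 16 (by norm_num) (K.kin t)
  obtain ⟨u, hu, hL⟩ := hUp M w1 hw1 16 σ φ R r₀ g hstd1 (K.kin t) (fun _ => rfl) rfl X O
  have hT4 : T4R (u 0) := hK4 M 16 K t I hIne hIu (hTW M w hw hK 16 K d hNT I hIZ) X O u hu
  have hMO : MinusOne O.io := hMin M hK.1 16 (K.kin t) X O
  have hInv : Invol u O.io := ⟨O.io_smooth, O.io_io, hL.even⟩
  obtain ⟨u', sf, hP, hu', hev, hflat, hodd⟩ := hEVT X u O.io hu hT4 hInv hMO
  obtain ⟨w2, hPL2, hw2, A, hA, hrel⟩ := hDn M w1 hw1 16 σ φ R r₀ g hstd1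
    (fun i => (hσ i).emb) (K.kin t) (fun _ => rfl) rfl X O u u' hu hL hP hu' hev sf hflat hodd
  obtain ⟨v', hseg, hHK⟩ := hY M (rec3 A w2) (rec3_pos hA hw2) hrel
  -- back
  have hAi : (A⁻¹).det ≠ 0 := by
    have h1 : A⁻¹.det * A.det = 1 := by
      rw [← Matrix.det_mul, Matrix.nonsing_inv_mul A (isUnit_iff_ne_zero.2 hA), Matrix.det_one]
    intro h2
    rw [h2, zero_mul] at h1
    exact zero_ne_one h1
  have hseg2 : Seg w2 (rec3 A⁻¹ v') := by
    have := rec3_Seg hAi hseg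
    rwa [rec3_mul, Matrix.nonsing_inv_mul A (isUnit_iff_ne_zero.2 hA), rec3_one] at this
  have hPL3 : PL w1 (rec3 A⁻¹ v') := hPL2.tail hseg2
  have hPL4 : PL w' (rec3 (fl s) (rec3 A⁻¹ v')) := by
    have := rec3_PL (fl_det hs) hPL3
    rwa [hw1def, rec3_mul, fl_fl hs, rec3_one] at this
  exact ⟨rec3 (fl s) (rec3 A⁻¹ v'), hPL.trans hPL4, rec3_HK (fl_det hs) (rec3_HK hAi hHK)⟩

end

end Crest.Agent.R235.KumTop_152
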