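import Crest.Agent.R235.KumDefs_152
import Crest.Agent.R235.Pull_129
import Crest.Agent.R235.Loc_524

/-!
Row 235 (S0364), package KUM, node KTW, part (d) (helper800): the connection form `τ`.

`exists_tau`: if `NeckT K d` and `c = ½ ∑_{i ∈ I} d i` is the class of the closed form `a`, there is
a one-form `τ` on `M`, smooth outside of the removed sets with `dτ = a`, and a smooth one-form `s₀`
on `M` such that on the neck `i`, near the removed set,
`phi i ^* τ = phi i ^* s₀ - 1/(4π) θ` (`i ∈ I`), `phi i ^* τ = phi i ^* s₀` (`i ∉ I`).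
-/

set_option autoImplicit false
set_option maxSynthPendingDepth 3

open Set Function Filter MeasureTheory
open scoped Manifold ContDiff Topology

universe u

namespace Crest.Agent.R235.KumTau_800

open Crest.Agent.R240 Crest.Agent.R240.Ch Crest.Agent.R235.KT_604 Crest.Agent.R235.Loc_524
open Crest.Agent.R235.Pull_129 (dL pb1 pb2 inC pb1_apply)

noncomputable section

theorem isOpen_PB (r : ℝ) : IsOpen (PB r) :=
  (isOpen_ne_fun continuous_id continuous_const).inter (isOpen_lt continuous_norm continuous_const)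

theorem neg_mem_PB {r : ℝ} {z : E4} (hz : z ∈ PB r) : -z ∈ PB r :=
  ⟨neg_ne_zero.2 hz.1, by rw [norm_neg]; exact hz.2⟩

theorem bij_of_inj {A : E4 →L[ℝ] E4} (h : ∀ v, A v = 0 → v = 0) : Bijective A := by
  have h1 : Injective (A : E4 →ₗ[ℝ] E4) := (injective_iff_map_eq_zero A).2 h
  exact ⟨h1, LinearMap.injective_iff_surjective.1 h1⟩

section Neck

variable {M : Type u} [TopologicalSpace M] [ChartedSpace E4 M]
variable {m : ℕ} (K : Neck M m)

theorem phi_at (i : Fin m) {z : E4} (hz : z ∈ PB 1) :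
    ContMDiffAt 𝓘(ℝ, E4) 𝓘(ℝ, E4) ∞ (K.phi i) z :=
  (K.smooth i).contMDiffAt ((isOpen_PB 1).mem_nhds hz)

theorem bij_dL (i : Fin m) {z : E4} (hz : z ∈ PB 1) :
    Bijective (dL (E := E4) (K.phi i) z) :=
  bij_of_inj fun v hv => K.imm i z hz v hv

/-- the removed set with the closed half neck is closed. -/
theorem isClosed_half [T2Space M] (i : Fin m) :
    IsClosed (K.C i ∪ K.phi i '' {z | z ≠ 0 ∧ ‖z‖ ≤ 1 / 2}) := by
  rw [← isOpen_compl_iff, isOpen_iff_mem_nhds]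
  intro x hx
  rw [mem_compl_iff, mem_union, not_or] at hx
  obtain ⟨O, O', hO, hO', hCO, hxO', hdis⟩ := (K.cpt i).separation_of_notMem hx.1
  obtain ⟨r, hr0, hr1, hrO⟩ := K.shrink i O hO hCO
  have hS : IsCompact {z : E4 | r / 2 ≤ ‖z‖ ∧ ‖z‖ ≤ 1 / 2} := by
    refine (isCompact_closedBall (0 : E4) (1 / 2)).of_isClosed_subset
      ((isClosed_le continuous_const continuous_norm).inter
        (isClosed_le continuous_norm continuous_const)) fun z hz => ?_
    rw [mem_closedBall_zero_iff]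
    exact hz.2
  have hSP : {z : E4 | r / 2 ≤ ‖z‖ ∧ ‖z‖ ≤ 1 / 2} ⊆ PB 1 := fun z hz =>
    ⟨norm_pos_iff.1 (lt_of_lt_of_le (by positivity) hz.1), lt_of_le_of_lt hz.2 (by norm_num)⟩
  have hS2 : IsCompact (K.phi i '' {z : E4 | r / 2 ≤ ‖z‖ ∧ ‖z‖ ≤ 1 / 2}) :=
    hS.image_of_continuousOn ((K.smooth i).continuousOn.mono hSP)
  have hx2 : x ∉ K.phi i '' {z : E4 | r / 2 ≤ ‖z‖ ∧ ‖z‖ ≤ 1 / 2} := by
    rintro ⟨z, hz, rfl⟩
    exact hx.2 ⟨z, ⟨(hSP hz).1, hz.2⟩, rfl⟩
  filter_upwards [hO'.mem_nhds hxO', hS2.isClosed.isOpen_compl.mem_nhds hx2] with y h1 h2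
  rintro (h3 | ⟨z, hz, rfl⟩)
  · exact Set.disjoint_left.1 hdis (hCO h3) h1
  · by_cases h4 : r / 2 ≤ ‖z‖
    · exact h2 ⟨z, ⟨h4, hz.2⟩, rfl⟩
    · push Not at h4
      exact Set.disjoint_left.1 hdis (hrO ⟨z, ⟨hz.1, h4.trans (by linarith)⟩, rfl⟩) h1

/-- the differential at `-z`. -/
theorem dL_neg [IsManifold 𝓘(ℝ, E4) ∞ M] (i : Fin m) {z : E4} (hz : z ∈ PB 1) :
    dL (E := E4) (K.phi i) (-z) = -dL (E := E4) (K.phi i) z := by
  have h1 : (fun y : E4 => K.phi i (-y)) =ᶠ[𝓝 z] K.phi i := by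
    filter_upwards [(isOpen_PB 1).mem_nhds hz] with y hy
    exact K.even i y hy
  have h2 := Pull_129.dL_comp (E := E4) (Φ := K.phi i) (g := fun y : E4 => -y) (z := z)
    (phi_at K i (neg_mem_PB hz)) (by fun_prop)
  rw [Pull_129.dL_congr h1] at h2
  rw [h2]
  ext1 v
  rw [neg_apply, ContinuousLinearMap.comp_apply, fderiv_fun_neg, neg_apply, map_neg, neg_neg]
  simp

/-- push-forward of an odd covector field. -/
theorem exists_push [IsManifold 𝓘(ℝ, E4) ∞ M] (i : Fin m) {T : E4 → E4 →L[ℝ] ℝ} (hT : ∀ z ∈ PB 1, T (-z) = -T z) :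
    ∃ η : F1 E4 M, (∀ z ∈ PB 1, pb1 (K.phi i) η z = T z) ∧
      ∀ x, (∀ z ∈ PB 1, x ≠ K.phi i z) → at1 η x = 0 := by
  classical
  let η : F1 E4 M := fun x => if h : (∃ z ∈ PB 1, x = K.phi i z) ∧ ∃ l : E4 →L[ℝ] ℝ,
    ∀ z ∈ PB 1, x = K.phi i z → l.comp (dL (K.phi i) z) = T z then h.2.choose else 0
  refine ⟨η, fun z hz => ?_, fun x hx => dif_neg fun h => ?_⟩
  · have hb := bij_dL K i hz
    let e : E4 ≃L[ℝ] E4 := ContinuousLinearEquiv.ofBijective (dL (K.phi i) z)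
      (LinearMap.ker_eq_bot.2 hb.1) (LinearMap.range_eq_top.2 hb.2)
    have hl : ((T z).comp (e.symm : E4 →L[ℝ] E4)).comp (dL (K.phi i) z) = T z := by
      ext1 v
      show T z (e.symm (e v)) = _
      rw [e.symm_apply_apply]
    have h : (∃ z' ∈ PB 1, K.phi i z = K.phi i z') ∧ ∃ l : E4 →L[ℝ] ℝ, ∀ z' ∈ PB 1,
        K.phi i z = K.phi i z' → l.comp (dL (K.phi i) z') = T z' := by
      refine ⟨⟨z, hz, rfl⟩, (T z).comp (e.symm : E4 →L[ℝ] E4), fun z' hz' hzz => ?_⟩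
      rcases K.inj i z hz z' hz' hzz with rfl | rfl
      · exact hl
      · rw [dL_neg K i hz, hT z hz, ContinuousLinearMap.comp_neg, hl]
    have h1 : at1 η (K.phi i z) = h.2.choose := dif_pos h
    show (at1 η (K.phi i z)).comp (dL (K.phi i) z) = T z
    rw [h1]
    exact h.2.choose_spec z hz rfl
  · obtain ⟨z, hz, hxz⟩ := h.1
    exact hx z hz hxz

end Neck

section Smooth

variable {M : Type u} [TopologicalSpace M] [ChartedSpace E4 M] [IsManifold 𝓘(ℝ, E4) ∞ M]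
variable {m : ℕ} (K : Neck M m)

theorem smAt_of_pb (i : Fin m) {η : F1 E4 M} {z : E4} (hz : z ∈ PB 1)
    (h : ContDiffAt ℝ ∞ (pb1 (K.phi i) η) z) : SmAt1 η (K.phi i z) :=
  Pull_129.rep1_contDiffAt (isOpen_PB 1) (K.smooth i) (fun _ hz => bij_dL K i hz) hz
    (mem_chart_source E4 _) h

theorem dG_of_pb (i : Fin m) {η : F1 E4 M} {z : E4} (hz : z ∈ PB 1)
    (h : ContDiffAt ℝ ∞ (pb1 (K.phi i) η) z) (u v : E4) :
    at2 (dG η) (K.phi i z) (dL (K.phi i) z u) (dL (K.phi i) z v) = d1 (pb1 (K.phi i) η) z u v := by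
  have hs := smAt_of_pb K i hz h
  have hp := mem_chart_source E4 (K.phi i z)
  have h0 := phi_at K i hz
  rw [Pull_129.d1_pull (Pull_129.inC_contDiffAt h0 hp)
    (ContDiffAt.differentiableAt hs infty_ne_zero)
    (Pull_129.pb1_chart_ev (isOpen_PB 1) (K.smooth i) hz hp η)]
  rfl

/-- a 2-tensor is determined by its pull-back. -/
theorem bil_ext {A : E4 →L[ℝ] E4} (h : Surjective A) {b b' : Bil}
    (e : ∀ u v, b (A u) (A v) = b' (A u) (A v)) : b = b' := by
  ext1 u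
  ext1 v
  obtain ⟨u', rfl⟩ := h u
  obtain ⟨v', rfl⟩ := h v
  exact e u' v'

theorem thL_neg (z : E4) : thL (-z) = -thL z := by
  have h1 : qi (-z) = -qi z := by
    ext j; fin_cases j <;> simp [qi]
  rw [thL, thL, norm_neg, h1, map_neg, smul_neg]

theorem contDiff_qi : ContDiff ℝ ∞ qi := by
  refine contDiff_euclidean.2 fun j => ?_
  fin_cases j
  · show ContDiff ℝ ∞ (fun z : E4 => -z 1)
    fun_prop
  · show ContDiff ℝ ∞ (fun z : E4 => z 0)
    fun_prop
  · show ContDiff ℝ ∞ (fun z : E4 => -z 3)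
    fun_prop
  · show ContDiff ℝ ∞ (fun z : E4 => z 2)
    fun_prop

theorem contDiffAt_thL {z : E4} (hz : z ≠ 0) : ContDiffAt ℝ ∞ thL z := by
  have h1 : ContDiffAt ℝ ∞ (fun z : E4 => 2 / ‖z‖ ^ 2) z :=
    contDiffAt_const.div (contDiff_norm_sq ℝ).contDiffAt (by positivity)
  exact h1.smul ((innerSL ℝ (E := E4)).contDiff.contDiffAt.comp z contDiff_qi.contDiffAt)

/-- the primitive of a Thom form. -/
theorem exists_eta [T2Space M] [CompactSpace M] {i : Fin m} {d : H2 M} {T : Z2 M}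
    (hT : IsThom K i d T) : ∃ η : F1 E4 M, (∀ x, x ∉ K.C i → SmAt1 η x ∧
      at2 (dG η) x = val T x) ∧ (∃ r > 0, r ≤ 1 ∧ ∀ z ∈ PB r,
        pb1 (K.phi i) η z = (-1 / (2 * Real.pi)) • thL z) ∧
      ∀ x, (∀ z ∈ PB 1, x ≠ K.phi i z) → at1 η x = 0 := by
  obtain ⟨-, hsupp, f, hf, ⟨r, hr0, hr⟩, hf0, hpull⟩ := hT
  obtain ⟨η, h1, h2⟩ := exists_push K i (T := fun y => f (‖y‖ ^ 2) • thL y) (fun z hz => by
    rw [norm_neg, thL_neg, smul_neg])
  have hsm : ∀ z ∈ PB 1, ContDiffAt ℝ ∞ (fun y : E4 => f (‖y‖ ^ 2) • thL y) z := fun z hz =>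
    ((hf.comp (contDiff_norm_sq ℝ)).contDiffAt (x := z)).smul (contDiffAt_thL hz.1)
  have hev : ∀ z ∈ PB 1, pb1 (K.phi i) η =ᶠ[𝓝 z] fun y : E4 => f (‖y‖ ^ 2) • thL y := fun z hz => by
    filter_upwards [(isOpen_PB 1).mem_nhds hz] with y hy
    exact h1 y hy
  refine ⟨η, fun x hx => ?_, ⟨min (min r 1) 1, by positivity, min_le_right _ _, fun z hz => ?_⟩, h2⟩
  · by_cases hxn : ∃ z ∈ PB 1, x = K.phi i z
    · obtain ⟨z, hz, rfl⟩ := hxn
      have h3 : ContDiffAt ℝ ∞ (pb1 (K.phi i) η) z :=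
        (hsm z hz).congr_of_eventuallyEq (hev z hz)
      refine ⟨smAt_of_pb K i hz h3, bil_ext (bij_dL K i hz).2 fun u v => ?_⟩
      rw [dG_of_pb K i hz h3, d1_congr (hev z hz)]
      exact (hpull z hz u v).symm
    · push Not at hxn
      have h3 : η =ᶠ[𝓝 x] (0 : F1 E4 M) := by
        have h4 : x ∉ K.C i ∪ K.phi i '' {z | z ≠ 0 ∧ ‖z‖ ≤ 1 / 2} := by
          rintro (h | ⟨z, hz, h⟩)
          · exact hx h
          · exact hxn z ⟨hz.1, lt_of_le_of_lt hz.2 (by norm_num)⟩ h.symm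
        filter_upwards [(isClosed_half K i).isOpen_compl.mem_nhds h4] with y hy
        by_cases hy1 : ∃ z ∈ PB 1, y = K.phi i z
        · obtain ⟨z, hz, rfl⟩ := hy1
          have h5 : 1 / 2 < ‖z‖ := by
            by_contra hcon
            push Not at hcon
            exact hy (Or.inr ⟨z, ⟨hz.1, hcon⟩, rfl⟩)
          have h6 : pb1 (K.phi i) η z = 0 := by
            rw [h1 z hz, hf0 _ (by nlinarith), zero_smul]
          refine ContinuousLinearMap.ext fun v => ?_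
          obtain ⟨w, rfl⟩ := (bij_dL K i hz).2 v
          exact congrArg (fun L : E4 →L[ℝ] ℝ => L w) h6
        · push Not at hy1
          exact h2 y hy1
      have h7 : SmAt1 (0 : F1 E4 M) x := smAt1_of_smooth smooth1_zero x
      refine ⟨h7.congr h3, ?_⟩
      have h8 : dG (0 : F1 E4 M) = 0 := by
        have h := dG_smul (0 : ℝ) (smooth1_zero (E := E4) (M := M))
        simpa using h
      rw [dG_congr h3, h8, hsupp x hx fun z hz h => hxn z ⟨hz.1, hz.2.trans (by norm_num)⟩ h]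
      rfl
  · have hz1 : ‖z‖ < 1 := hz.2.trans_le (min_le_right _ _)
    have hzr : ‖z‖ < r := hz.2.trans_le ((min_le_left _ _).trans (min_le_left _ _))
    rw [h1 z ⟨hz.1, hz1⟩, hr]
    nlinarith [norm_nonneg z]

end Smooth

section Tau

variable {M : Type u} [TopologicalSpace M] [T2Space M] [CompactSpace M] [ChartedSpace E4 M]
  [IsManifold 𝓘(ℝ, E4) ∞ M]
variable {m : ℕ} (K : Neck M m)

omit [T2Space M] [CompactSpace M] in
theorem dG_add_at {s t : F1 E4 M} {x : M} (hs : SmAt1 s x) (ht : SmAt1 t x) :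
    at2 (dG (s + t)) x = at2 (dG s) x + at2 (dG t) x :=
  d1_add (ContDiffAt.differentiableAt hs infty_ne_zero)
    (ContDiffAt.differentiableAt ht infty_ne_zero)

omit [T2Space M] [CompactSpace M] in
theorem dG_smul_at (c : ℝ) {s : F1 E4 M} {x : M} (hs : SmAt1 s x) :
    at2 (dG (c • s)) x = c • at2 (dG s) x := by
  have hd := ContDiffAt.differentiableAt hs infty_ne_zero
  show d1 (fun y => c • rep1 x s y) (chartAt E4 x x) = c • d1 (rep1 x s) (chartAt E4 x x)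
  ext u v
  simp only [d1_apply, smul_apply, smul_eq_mul]
  rw [fderiv_fun_const_smul hd]
  simp only [smul_apply, smul_eq_mul]
  ring

omit [T2Space M] [CompactSpace M] in
theorem sum_at {ι : Type*} (I : Finset ι) {η : ι → F1 E4 M} {b : ι → Bil} {x : M}
    (h : ∀ i, SmAt1 (η i) x ∧ at2 (dG (η i)) x = b i) :
    SmAt1 (∑ i ∈ I, η i) x ∧ at2 (dG (∑ i ∈ I, η i)) x = ∑ i ∈ I, b i := by
  classical
  induction I using Finset.induction_on with
  | empty =>
    rw [Finset.sum_empty, Finset.sum_empty]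
    refine ⟨smAt1_of_smooth smooth1_zero x, ?_⟩
    have h8 : dG (0 : F1 E4 M) = 0 := by
      have h := dG_smul (0 : ℝ) (smooth1_zero (E := E4) (M := M))
      simpa using h
    rw [h8]
    rfl
  | insert i I hi ih =>
    rw [Finset.sum_insert hi, Finset.sum_insert hi]
    exact ⟨(h i).1.add ih.1, by rw [dG_add_at (h i).1 ih.1, (h i).2, ih.2]⟩

omit [T2Space M] [CompactSpace M] in
theorem pb1_sum {ι : Type*} (I : Finset ι) (Φ : E4 → M) (η : ι → F1 E4 M) (z : E4) :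
    pb1 Φ (∑ i ∈ I, η i) z = ∑ i ∈ I, pb1 Φ (η i) z := by
  classical
  induction I using Finset.induction_on with
  | empty => rfl
  | insert i I hi ih => rw [Finset.sum_insert hi, Finset.sum_insert hi, Pull_129.pb1_add, ih]

omit [T2Space M] [CompactSpace M] in
theorem val_sum {ι : Type*} (I : Finset ι) (T : ι → Z2 M) (x : M) :
    val (∑ i ∈ I, T i) x = ∑ i ∈ I, val (T i) x := by
  classical
  induction I using Finset.induction_on with
  | empty => rfl
  | insert i I hi ih =>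
    rw [Finset.sum_insert hi, Finset.sum_insert hi, ← ih]
    rfl

/-- **the connection form `τ`.** -/
theorem exists_tau {d : Fin m → H2 M} (hN : NeckT K d) (I : Finset (Fin m)) {a : Z2 M}
    (ha : cls a = ((1 : ℝ) / 2) • ∑ i ∈ I, d i) :
    ∃ (τ s₀ : F1 E4 M), Smooth1 s₀ ∧
      (∀ x, (∀ i, x ∉ K.C i) → SmAt1 τ x ∧ at2 (dG τ) x = val a x) ∧
      ∃ r > 0, r ≤ 1 ∧ ∀ i, ∀ z ∈ PB r, pb1 (K.phi i) τ z = pb1 (K.phi i) s₀ z +
        ((if i ∈ I then -1 else 0) / (4 * Real.pi)) • thL z := by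
  choose T hT using hN.thom
  choose η h1 h2 h3 using fun i => exists_eta K (hT i)
  choose r hr0 hr1 hr using h2
  -- the exact part
  have hex : a - ((1 : ℝ) / 2) • ∑ i ∈ I, T i ∈ B2 M := by
    rw [← Submodule.Quotient.mk_eq_zero]
    show cls _ = 0
    rw [map_sub, map_smul, map_sum, ha]
    simp only [(hT _).1]
    exact sub_self _
  obtain ⟨s₀, hs₀, hs₁⟩ := isEx_iff.1 hex
  refine ⟨s₀ + ((1 : ℝ) / 2) • ∑ i ∈ I, η i, s₀, hs₀, fun x hx => ?_, ?_⟩
  · obtain ⟨k1, k2⟩ := sum_at I (x := x) (η := η) (b := fun i => val (T i) x)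
      (fun i => h1 i x (hx i))
    refine ⟨(smAt1_of_smooth hs₀ x).add (k1.smul _), ?_⟩
    rw [dG_add_at (smAt1_of_smooth hs₀ x) (k1.smul _), dG_smul_at _ k1, k2, ← hs₁, ← val_sum]
    show (val a x - ((1 : ℝ) / 2) • val (∑ i ∈ I, T i) x) + _ = _
    exact sub_add_cancel _ _
  · have hev : ∀ᶠ ρ : ℝ in 𝓝[>] 0, 0 < ρ ∧ ρ ≤ 1 ∧ ∀ i, ρ ≤ r i := by
      have e1 : ∀ᶠ ρ : ℝ in 𝓝[>] 0, 0 < ρ := self_mem_nhdsWithin
      have e2 : ∀ c : ℝ, 0 < c → ∀ᶠ ρ : ℝ in 𝓝[>] 0, ρ ≤ c := fun c hc =>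
        nhdsWithin_le_nhds (Iic_mem_nhds hc)
      filter_upwards [e1, e2 1 one_pos, eventually_all.2 fun i => e2 (r i) (hr0 i)] with ρ a b c
      exact ⟨a, b, c⟩
    obtain ⟨ρ, hρ0, hρ1, hρ⟩ := hev.exists
    refine ⟨ρ, hρ0, hρ1, fun i z hz => ?_⟩
    rw [Pull_129.pb1_add, Pull_129.pb1_smul, pb1_sum]
    congr 1
    have hz1 : z ∈ PB 1 := ⟨hz.1, hz.2.trans_le hρ1⟩
    have k1 : ∀ j, j ≠ i → pb1 (K.phi i) (η j) z = 0 := fun j hj => by
      have : at1 (η j) (K.phi i z) = 0 := h3 j _ fun z' hz' => K.sep i j hj.symm z hz1 z' hz'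
      show (at1 (η j) (K.phi i z)).comp _ = 0
      rw [this, ContinuousLinearMap.zero_comp]
    by_cases hi : i ∈ I
    · rw [if_pos hi, Finset.sum_eq_single i (fun j _ hj => k1 j hj) (fun h => absurd hi h),
        hr i z ⟨hz.1, hz.2.trans_le (hρ i)⟩, smul_smul]
      congr 1
      have := Real.pi_ne_zero
      field_simp
      ring
    · rw [if_neg hi, Finset.sum_eq_zero fun j hj => k1 j (fun h => hi (h ▸ hj)), smul_zero,
        zero_div, zero_smul]

end Tau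

end

end Crest.Agent.R235.KumTau_800
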