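import Mathlib
import Crest.Agent.R235.KumDefs_152
import Crest.Agent.R235.Pull_129

/-!
Row 235, PACKAGE KUM, node KTW (b), helper303: the monodromy sign of a parallel section on a neck.

`ode_sign`: if `y' = (i s / 2 + 2 π i α) y` on `[0, 2π]`, `y (2π) = c y (0)`, with `|α| ≤ C r` for
small `r`, then `c = exp (π i s)`.
`sign`: the manifold version (disc through the removed sphere).
-/

set_option autoImplicit false
set_option maxSynthPendingDepth 3

open Set Function Filter MeasureTheory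
open scoped Manifold ContDiff Topology

universe u

namespace Crest.Agent.R235.KumTwB_303

open Crest.Agent.R240 Crest.Agent.R240.Ch Crest.Agent.R235.KT_604 Crest.Agent.R235.Pull_129
open Complex

noncomputable section

/-! ### the ordinary differential equation -/

/-- one loop: the holonomy is close to `exp (i s π)`. -/
theorem loop_bound {y : ℝ → ℂ} {α : ℝ → ℝ} {s B : ℝ} {c : ℂ} (hB : 0 ≤ B)
    (h0 : y 0 ≠ 0) (hc : y (2 * Real.pi) = c * y 0)
    (hy : ∀ t ∈ Icc (0 : ℝ) (2 * Real.pi),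
      HasDerivAt y ((I * (s / 2) + 2 * Real.pi * I * α t) * y t) t)
    (hα : ∀ t ∈ Icc (0 : ℝ) (2 * Real.pi), |α t| ≤ B) :
    ‖Complex.exp (-(I * (s * Real.pi))) * c - 1‖ ≤
      Real.exp (2 * Real.pi * B * (2 * Real.pi)) - 1 := by
  set g : ℝ → ℂ := fun t => Complex.exp (-(I * (s / 2)) * t) * y t with hg
  have hg' : ∀ t ∈ Icc (0 : ℝ) (2 * Real.pi),
      HasDerivAt g (2 * Real.pi * I * α t * g t) t := by
    intro t ht
    have h1 : HasDerivAt (fun t : ℝ => -(I * (s / 2 : ℂ)) * (t : ℂ)) (-(I * (s / 2 : ℂ)) * 1) t :=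
      (Complex.ofRealCLM.hasDerivAt (x := t)).const_mul _
    have h2 := h1.cexp.mul (hy t ht)
    refine h2.congr_deriv ?_
    simp only [hg]
    ring
  have hpi : 0 < Real.pi := Real.pi_pos
  have hn : ∀ t ∈ Icc (0 : ℝ) (2 * Real.pi), ‖2 * Real.pi * I * α t * g t‖ ≤
      2 * Real.pi * B * ‖g t‖ := by
    intro t ht
    rw [norm_mul, norm_mul, norm_mul, norm_mul, Complex.norm_I, mul_one, Complex.norm_real,
      Complex.norm_real, Complex.norm_ofNat, Real.norm_of_nonneg hpi.le, Real.norm_eq_abs]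
    exact mul_le_mul_of_nonneg_right (mul_le_mul_of_nonneg_left (hα t ht) (by positivity))
      (norm_nonneg _)
  have hK : 0 ≤ 2 * Real.pi * B := by positivity
  have hgr := norm_le_gronwallBound_of_norm_deriv_right_le (f := fun t => g t - g 0)
    (f' := fun t => 2 * Real.pi * I * α t * g t) (δ := 0) (K := 2 * Real.pi * B)
    (ε := 2 * Real.pi * B * ‖g 0‖) (a := 0) (b := 2 * Real.pi)
    (fun t ht => ((hg' t ht).sub_const (g 0)).continuousAt.continuousWithinAt)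
    (fun t ht => ((hg' t ⟨ht.1, ht.2.le⟩).sub_const (g 0)).hasDerivWithinAt)
    (by simp)
    (fun t ht => by
      refine (hn t ⟨ht.1, ht.2.le⟩).trans ?_
      rw [← mul_add]
      refine mul_le_mul_of_nonneg_left ?_ hK
      calc ‖g t‖ = ‖(g t - g 0) + g 0‖ := by ring_nf
        _ ≤ _ := norm_add_le _ _)
    (2 * Real.pi) ⟨by positivity, le_rfl⟩
  have hbound : gronwallBound 0 (2 * Real.pi * B) (2 * Real.pi * B * ‖g 0‖) (2 * Real.pi - 0) =
      ‖g 0‖ * (Real.exp (2 * Real.pi * B * (2 * Real.pi)) - 1) := by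
    by_cases hz : 2 * Real.pi * B = 0
    · rw [hz, gronwallBound_K0]; simp
    · rw [gronwallBound_of_K_ne_0 hz]
      simp only [zero_mul, zero_add, sub_zero]
      rw [mul_comm (2 * Real.pi * B) ‖g 0‖, mul_div_assoc, div_self hz, mul_one]
  rw [hbound] at hgr
  have hg0 : g 0 = y 0 := by simp [hg]
  have hg2 : g (2 * Real.pi) = Complex.exp (-(I * (s * Real.pi))) * c * y 0 := by
    simp only [hg]
    rw [hc]
    rw [show (-(I * ((s : ℂ) / 2)) * ((2 * Real.pi : ℝ) : ℂ)) = -(I * (s * Real.pi)) by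
      push_cast; ring]
    ring
  have hpos : 0 < ‖y 0‖ := norm_pos_iff.2 h0
  rw [hg2, hg0] at hgr
  have e : Complex.exp (-(I * (s * Real.pi))) * c * y 0 - y 0 =
      y 0 * (Complex.exp (-(I * (s * Real.pi))) * c - 1) := by ring
  rw [e, norm_mul] at hgr
  exact le_of_mul_le_mul_left hgr hpos

/-- the holonomy of small loops. -/
theorem ode_sign {s C r₀ : ℝ} {c : ℂ} (hC : 0 ≤ C) (hr₀ : 0 < r₀)
    (h : ∀ r : ℝ, 0 < r → r < r₀ → ∃ (y : ℝ → ℂ) (α : ℝ → ℝ), y 0 ≠ 0 ∧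
      y (2 * Real.pi) = c * y 0 ∧
      (∀ t ∈ Icc (0 : ℝ) (2 * Real.pi),
        HasDerivAt y ((I * (s / 2) + 2 * Real.pi * I * α t) * y t) t) ∧
      ∀ t ∈ Icc (0 : ℝ) (2 * Real.pi), |α t| ≤ C * r) :
    c = Complex.exp (Real.pi * I * s) := by
  have h1 : ∀ᶠ r : ℝ in 𝓝[>] 0, ‖Complex.exp (-(I * (s * Real.pi))) * c - 1‖ ≤
      Real.exp (2 * Real.pi * (C * r) * (2 * Real.pi)) - 1 := by
    filter_upwards [Ioo_mem_nhdsGT hr₀] with r hr
    obtain ⟨y, α, h2, h3, h4, h5⟩ := h r hr.1 hr.2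
    exact loop_bound (mul_nonneg hC hr.1.le) h2 h3 h4 h5
  have h2 : Tendsto (fun r : ℝ => Real.exp (2 * Real.pi * (C * r) * (2 * Real.pi)) - 1)
      (𝓝[>] 0) (𝓝 0) := by
    have hc : Continuous fun r : ℝ => Real.exp (2 * Real.pi * (C * r) * (2 * Real.pi)) - 1 := by
      fun_prop
    have := (hc.tendsto 0).mono_left (nhdsWithin_le_nhds (s := Ioi (0 : ℝ)))
    simpa using this
  have h3 : ‖Complex.exp (-(I * (s * Real.pi))) * c - 1‖ ≤ 0 := ge_of_tendsto h2 h1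
  have h4 : Complex.exp (-(I * (s * Real.pi))) * c = 1 := by
    rw [← sub_eq_zero]
    exact norm_le_zero_iff.1 h3
  have h5 : Complex.exp (Real.pi * I * s) * Complex.exp (-(I * (s * Real.pi))) = 1 := by
    rw [← Complex.exp_add]
    rw [show (Real.pi * I * s : ℂ) + -(I * (s * Real.pi)) = 0 by ring, Complex.exp_zero]
  calc c = Complex.exp (Real.pi * I * s) * Complex.exp (-(I * (s * Real.pi))) * c := by
        rw [h5, one_mul]
    _ = Complex.exp (Real.pi * I * s) * (Complex.exp (-(I * (s * Real.pi))) * c) := by ring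
    _ = _ := by rw [h4, mul_one]

/-! ### quaternions -/

theorem qi_add (z w : E4) : qi (z + w) = qi z + qi w := by
  ext i; fin_cases i <;> simp [qi] <;> ring

theorem qi_smul (a : ℝ) (z : E4) : qi (a • z) = a • qi z := by
  ext i; fin_cases i <;> simp [qi]

theorem qi_qi (z : E4) : qi (qi z) = -z := by
  ext i; fin_cases i <;> simp [qi]

theorem inner_qi (z : E4) : inner ℝ z (qi z) = 0 := by
  simp [PiLp.inner_apply, Fin.sum_univ_four, qi]
  ring

theorem norm_qi (z : E4) : ‖qi z‖ = ‖z‖ := by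
  rw [EuclideanSpace.norm_eq, EuclideanSpace.norm_eq]
  congr 1
  simp [Fin.sum_univ_four, qi]
  ring

/-- the half loop. -/
def zz (v : E4) (r t : ℝ) : E4 := √r • (Real.cos (t / 2) • v + Real.sin (t / 2) • qi v)

theorem norm_zz {v : E4} (hv : ‖v‖ = 1) (r t : ℝ) : ‖zz v r t‖ = √r := by
  unfold zz
  rw [norm_smul, Real.norm_of_nonneg (Real.sqrt_nonneg r)]
  have h : ‖Real.cos (t / 2) • v + Real.sin (t / 2) • qi v‖ ^ 2 = 1 := by
    rw [norm_add_sq_real, norm_smul, norm_smul, norm_qi, hv, real_inner_smul_left,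
      real_inner_smul_right, inner_qi]
    simp
  have h2 : ‖Real.cos (t / 2) • v + Real.sin (t / 2) • qi v‖ = 1 := by
    rw [← Real.sqrt_sq (norm_nonneg (Real.cos (t / 2) • v + Real.sin (t / 2) • qi v)), h,
      Real.sqrt_one]
  rw [h2, mul_one]

theorem hasDerivAt_zz (v : E4) (r t : ℝ) :
    HasDerivAt (zz v r) ((1 / 2 : ℝ) • qi (zz v r t)) t := by
  have hh : HasDerivAt (fun t : ℝ => t / 2) (1 / 2) t := (hasDerivAt_id t).div_const 2
  have h1 : HasDerivAt (fun t : ℝ => Real.cos (t / 2)) (-Real.sin (t / 2) * (1 / 2)) t :=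
    hh.cos
  have h2 : HasDerivAt (fun t : ℝ => Real.sin (t / 2)) (Real.cos (t / 2) * (1 / 2)) t :=
    hh.sin
  have h3 := ((h1.smul_const v).add (h2.smul_const (qi v))).const_smul (√r)
  refine h3.congr_deriv ?_
  unfold zz
  rw [qi_smul, qi_add, qi_smul, qi_smul, qi_qi]
  module

theorem zz_end (v : E4) (r : ℝ) : zz v r (2 * Real.pi) = - zz v r 0 := by
  unfold zz
  rw [show 2 * Real.pi / 2 = Real.pi by ring]
  simp

theorem thL_zz {z : E4} (hz : z ≠ 0) : thL z ((1 / 2 : ℝ) • qi z) = 1 := by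
  unfold thL
  have h : ‖z‖ ≠ 0 := norm_ne_zero_iff.2 hz
  simp only [smul_apply, innerSL_apply_apply, smul_eq_mul, real_inner_smul_right,
    real_inner_self_eq_norm_sq, norm_qi]
  field_simp

/-! ### circles in the plane -/

/-- the circle of radius `r`. -/
def ee (r t : ℝ) : Ep := WithLp.toLp 2 ![r * Real.cos t, r * Real.sin t]

/-- its velocity. -/
def ee' (r t : ℝ) : Ep := WithLp.toLp 2 ![r * -Real.sin t, r * Real.cos t]

theorem norm_ee {r : ℝ} (hr : 0 ≤ r) (t : ℝ) : ‖ee r t‖ = r := by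
  rw [EuclideanSpace.norm_eq]
  have : ∑ i : Fin 2, ‖(ee r t) i‖ ^ 2 = r ^ 2 := by
    simp only [ee, Fin.sum_univ_two, Real.norm_eq_abs, sq_abs]
    simp only [Matrix.cons_val_zero, Matrix.cons_val_one]
    nlinarith [Real.sin_sq_add_cos_sq t]
  rw [this, Real.sqrt_sq hr]

theorem norm_ee' {r : ℝ} (hr : 0 ≤ r) (t : ℝ) : ‖ee' r t‖ = r := by
  rw [EuclideanSpace.norm_eq]
  have : ∑ i : Fin 2, ‖(ee' r t) i‖ ^ 2 = r ^ 2 := by
    simp only [ee', Fin.sum_univ_two, Real.norm_eq_abs, sq_abs]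
    simp only [Matrix.cons_val_zero, Matrix.cons_val_one]
    nlinarith [Real.sin_sq_add_cos_sq t]
  rw [this, Real.sqrt_sq hr]

theorem hasDerivAt_ee (r t : ℝ) : HasDerivAt (ee r) (ee' r t) t := by
  have h0 : ∀ a b : ℝ, (WithLp.toLp 2 ![a, b] : Ep) =
      a • (WithLp.toLp 2 ![1, 0] : Ep) + b • (WithLp.toLp 2 ![0, 1] : Ep) := by
    intro a b
    ext i; fin_cases i <;> simp
  have h1 : ee r = fun t => (r * Real.cos t) • (WithLp.toLp 2 ![1, 0] : Ep) +
      (r * Real.sin t) • (WithLp.toLp 2 ![0, 1] : Ep) := funext fun t => h0 _ _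
  rw [h1]
  exact ((((Real.hasDerivAt_cos t).const_mul r).smul_const (WithLp.toLp 2 ![1, 0] : Ep)).add
    (((Real.hasDerivAt_sin t).const_mul r).smul_const
      (WithLp.toLp 2 ![0, 1] : Ep))).congr_deriv (h0 _ _).symm

/-! ### the monodromy -/

variable {M : Type u} [TopologicalSpace M] [ChartedSpace E4 M] [IsManifold 𝓘(ℝ, E4) ∞ M]

theorem isOpen_PB (r : ℝ) : IsOpen (PB r) := by
  have : PB r = {z : E4 | z ≠ 0} ∩ Metric.ball 0 r := by
    ext z; simp [PB]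
  rw [this]
  exact isOpen_ne.inter Metric.isOpen_ball

/-- the velocity of a curve `Φ ∘ z`. -/
theorem hasDerivAt_dL {G : Type*} [NormedAddCommGroup G] [NormedSpace ℝ G] {Φ : G → M}
    {z : ℝ → G} {z' : G} {t : ℝ} (hΦ : ContMDiffAt 𝓘(ℝ, G) 𝓘(ℝ, E4) ∞ Φ (z t))
    (hz : HasDerivAt z z' t) :
    HasDerivAt (fun s => chartAt E4 (Φ (z t)) (Φ (z s))) (dL Φ (z t) z') t := by
  have h1 : DifferentiableAt ℝ (inC (E := E4) (Φ (z t)) Φ) (z t) :=
    (inC_contDiffAt hΦ (mem_chart_source E4 (Φ (z t)))).differentiableAt infty_ne_zero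
  have h2 : HasFDerivAt (inC (E := E4) (Φ (z t)) Φ) (dL Φ (z t)) (z t) := h1.hasFDerivAt
  exact h2.comp_hasDerivAt t hz

/-- **KTW (b): the monodromy of a parallel section** (`A` only smooth near `p`). -/
theorem sign' {m : ℕ} (K : Neck M m) (i : Fin m) (hD : IsDisc K i) {r₁ : ℝ} (hr₁ : 0 < r₁)
    (c : ℂ) (s : ℝ)
    (h : ∀ p ∈ K.C i, ∃ U ∈ 𝓝 p, ∃ (A : F1 E4 M) (u : E4 → ℂ),
      ContDiffAt ℝ ∞ (rep1 p A) (chartAt E4 p p) ∧
      ∀ z ∈ PB r₁, K.phi i z ∈ U → DifferentiableAt ℝ u z ∧ u z ≠ 0 ∧ u (-z) = c * u z ∧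
        ∀ v : E4, fderiv ℝ u z v =
          2 * Real.pi * I * ((pb1 (K.phi i) A z v + s / (4 * Real.pi) * thL z v : ℝ) : ℂ) * u z) :
    c = Complex.exp (Real.pi * I * s) := by
  obtain ⟨v, D, r₀, hv, hr0, hr01, hDs, hD0, hDφ⟩ := hD
  obtain ⟨U, hU, A, u, hA, hu⟩ := h (D 0) hD0
  have hDat : ∀ y ∈ Metric.ball (0 : Ep) r₀, ContMDiffAt 𝓘(ℝ, Ep) 𝓘(ℝ, E4) ∞ D y := fun y hy =>
    hDs.contMDiffAt (Metric.isOpen_ball.mem_nhds hy)
  have h0b : (0 : Ep) ∈ Metric.ball (0 : Ep) r₀ := Metric.mem_ball_self hr0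
  have hpb : ContinuousAt (pb1 D A) 0 :=
    (pb1_contDiffAt Metric.isOpen_ball hDs h0b (mem_chart_source E4 (D 0)) hA).continuousAt
  have h1 : ∀ᶠ y in 𝓝 (0 : Ep), ‖pb1 D A y‖ < ‖pb1 D A 0‖ + 1 :=
    hpb.norm.eventually (gt_mem_nhds (lt_add_one _))
  have h2 : ∀ᶠ y in 𝓝 (0 : Ep), D y ∈ U := (hDat 0 h0b).continuousAt.eventually hU
  obtain ⟨δ, hδ, hδs⟩ := Metric.eventually_nhds_iff_ball.1 (h1.and h2)
  refine ode_sign (C := ‖pb1 D A 0‖ + 1) (r₀ := min (min δ r₀) (min (r₁ ^ 2) 1))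
    (by positivity) (by positivity) ?_
  intro r hr hr'
  have hrδ : r < δ := lt_of_lt_of_le hr' ((min_le_left _ _).trans (min_le_left _ _))
  have hrr : r < r₀ := lt_of_lt_of_le hr' ((min_le_left _ _).trans (min_le_right _ _))
  have hr2 : r < r₁ ^ 2 := lt_of_lt_of_le hr' ((min_le_right _ _).trans (min_le_left _ _))
  have hr3 : r < 1 := lt_of_lt_of_le hr' ((min_le_right _ _).trans (min_le_right _ _))
  have hDe : ∀ t, D (ee r t) = K.phi i (zz v r t) := fun t => hDφ r t hr hrr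
  have hzn : ∀ t, ‖zz v r t‖ = √r := norm_zz hv r
  have hz0 : ∀ t, zz v r t ≠ 0 := fun t => by
    rw [← norm_pos_iff, hzn]; exact Real.sqrt_pos.2 hr
  have hz1 : ∀ t, zz v r t ∈ PB r₁ := fun t => ⟨hz0 t, by
    rw [hzn]; exact (Real.sqrt_lt' hr₁).2 hr2⟩
  have hz2 : ∀ t, zz v r t ∈ PB 1 := fun t => ⟨hz0 t, by
    rw [hzn]; exact (Real.sqrt_lt' one_pos).2 (by simpa using hr3)⟩
  have he : ∀ t, ee r t ∈ Metric.ball (0 : Ep) δ := fun t => by
    rw [mem_ball_zero_iff, norm_ee hr.le]; exact hrδ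
  have he0 : ∀ t, ee r t ∈ Metric.ball (0 : Ep) r₀ := fun t => by
    rw [mem_ball_zero_iff, norm_ee hr.le]; exact hrr
  have hU' : ∀ t, K.phi i (zz v r t) ∈ U := fun t => by
    rw [← hDe]; exact (hδs _ (he t)).2
  have hphi : ∀ t, ContMDiffAt 𝓘(ℝ, E4) 𝓘(ℝ, E4) ∞ (K.phi i) (zz v r t) := fun t =>
    (K.smooth i).contMDiffAt ((isOpen_PB 1).mem_nhds (hz2 t))
  have hαe : ∀ t, pb1 (K.phi i) A (zz v r t) ((1 / 2 : ℝ) • qi (zz v r t)) =
      pb1 D A (ee r t) (ee' r t) := by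
    intro t
    have k1 := hasDerivAt_dL (hphi t) (hasDerivAt_zz v r t)
    have k2 := hasDerivAt_dL (hDat _ (he0 t)) (hasDerivAt_ee r t)
    have k3 : (fun s => chartAt E4 (D (ee r t)) (D (ee r s))) =
        fun s => chartAt E4 (K.phi i (zz v r t)) (K.phi i (zz v r s)) := by
      funext s; rw [hDe, hDe]
    rw [k3] at k2
    have k4 := k1.unique k2
    rw [pb1_apply, pb1_apply, ← k4, hDe]
  refine ⟨fun t => u (zz v r t), fun t => pb1 (K.phi i) A (zz v r t)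
    ((1 / 2 : ℝ) • qi (zz v r t)), (hu _ (hz1 0) (hU' 0)).2.1, ?_, fun t _ => ?_, fun t _ => ?_⟩
  · show u (zz v r (2 * Real.pi)) = c * u (zz v r 0)
    rw [zz_end]
    exact (hu _ (hz1 0) (hU' 0)).2.2.1
  · obtain ⟨d1, -, -, d2⟩ := hu _ (hz1 t) (hU' t)
    have k := d1.hasFDerivAt.comp_hasDerivAt t (hasDerivAt_zz v r t)
    refine k.congr_deriv ?_
    rw [d2, thL_zz (hz0 t)]
    have hpi : (Real.pi : ℂ) ≠ 0 := by exact_mod_cast Real.pi_ne_zero
    push_cast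
    field_simp
    ring
  · simp only
    rw [hαe, ← Real.norm_eq_abs]
    refine ((pb1 D A (ee r t)).le_opNorm _).trans ?_
    rw [norm_ee' hr.le]
    exact mul_le_mul_of_nonneg_right (hδs _ (he t)).1.le hr.le

/-- **KTW (b): the monodromy of a parallel section.** -/
theorem sign {m : ℕ} (K : Neck M m) (i : Fin m) (hD : IsDisc K i) {r₁ : ℝ} (hr₁ : 0 < r₁)
    (c : ℂ) (s : ℝ)
    (h : ∀ p ∈ K.C i, ∃ U ∈ 𝓝 p, ∃ (A : F1 E4 M) (u : E4 → ℂ), Smooth1 A ∧
      ∀ z ∈ PB r₁, K.phi i z ∈ U → DifferentiableAt ℝ u z ∧ u z ≠ 0 ∧ u (-z) = c * u z ∧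
        ∀ v : E4, fderiv ℝ u z v =
          2 * Real.pi * I * ((pb1 (K.phi i) A z v + s / (4 * Real.pi) * thL z v : ℝ) : ℂ) * u z) :
    c = Complex.exp (Real.pi * I * s) := by
  refine sign' K i hD hr₁ c s fun p hp => ?_
  obtain ⟨U, hU, A, u, hA, hu⟩ := h p hp
  exact ⟨U, hU, A, u, hA.at (mem_chart_target E4 p), hu⟩

/-- the case `i ∈ I`. -/
theorem exp_one : Complex.exp (Real.pi * I * ((1 : ℝ) : ℂ)) = -1 := by
  rw [Complex.ofReal_one, mul_one]; exact Complex.exp_pi_mul_I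

/-- the case `i ∉ I`. -/
theorem exp_zero' : Complex.exp (Real.pi * I * ((0 : ℝ) : ℂ)) = 1 := by simp

end

end Crest.Agent.R235.KumTwB_303
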