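import Crest.Agent.R235.Par_387
import Crest.Agent.R235.Pull_129
import Crest.Agent.R235.Loc_524
import Crest.Agent.R235.KumTwB_303

/-!
# Row 235, KUM-KTW (a), part 3: parallel sections on the manifold and on the necks
-/

set_option autoImplicit false
set_option linter.unusedSectionVars false
set_option maxSynthPendingDepth 3

open Set Function Filter Topology Complex
open scoped ContDiff ComplexConjugate Matrix Manifold

universe u

namespace Crest.Agent.R235.KumTwM_387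

open Crest.Agent.R240 Crest.Agent.R240.Ch Crest.Agent.R235 Crest.Agent.R235.KT_604
  Crest.Agent.R235.Pull_129 Crest.Agent.R235.Lb453 Crest.Agent.R235.Par_387
  Crest.Agent.R235.Mono_387 Crest.Agent.R235.Loc_524

noncomputable section

variable {M : Type u} [TopologicalSpace M] [ChartedSpace E4 M] [IsManifold 𝓘(ℝ, E4) ∞ M]
variable {N : ℕ}

/-! ### chain rule for complex functions -/

theorem comp_symm {f : M → ℂ} {x q : M} (hx : x ∈ (chartAt E4 q).source)
    (hf : ContMDiffAt 𝓘(ℝ, E4) 𝓘(ℝ, ℂ) ∞ f x) :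
    ContDiffAt ℝ ∞ (fun y : E4 => f ((chartAt E4 q).symm y)) (chartAt E4 q x) := by
  have h1 : ContMDiffAt 𝓘(ℝ, E4) 𝓘(ℝ, E4) ∞ (chartAt E4 q).symm (chartAt E4 q x) :=
    (contMDiffOn_chart_symm (I := 𝓘(ℝ, E4)) (x := q)).contMDiffAt
      ((chartAt E4 q).open_target.mem_nhds ((chartAt E4 q).map_source hx))
  have h2 : (chartAt E4 q).symm (chartAt E4 q x) = x := (chartAt E4 q).left_inv hx
  have h3 : ContMDiffAt 𝓘(ℝ, E4) 𝓘(ℝ, ℂ) ∞ f ((chartAt E4 q).symm (chartAt E4 q x)) := by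
    rw [h2]; exact hf
  exact (h3.comp (chartAt E4 q x) h1).contDiffAt

/-- the differential of a complex function on `M`, preferred chart. -/
def dC (f : M → ℂ) (x : M) : E4 →L[ℝ] ℂ :=
  fderiv ℝ (fun y : E4 => f ((chartAt E4 x).symm y)) (chartAt E4 x x)

variable {G : Type} [NormedAddCommGroup G] [NormedSpace ℝ G]

theorem comp_smooth {Φ : G → M} {z : G} {f : M → ℂ} (hΦ : ContMDiffAt 𝓘(ℝ, G) 𝓘(ℝ, E4) ∞ Φ z)
    (hf : ContMDiffAt 𝓘(ℝ, E4) 𝓘(ℝ, ℂ) ∞ f (Φ z)) : ContDiffAt ℝ ∞ (fun y => f (Φ y)) z :=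
  (hf.comp z hΦ).contDiffAt

theorem fderiv_comp' {Φ : G → M} {z : G} {f : M → ℂ} (hΦ : ContMDiffAt 𝓘(ℝ, G) 𝓘(ℝ, E4) ∞ Φ z)
    (hf : ContMDiffAt 𝓘(ℝ, E4) 𝓘(ℝ, ℂ) ∞ f (Φ z)) (v : G) :
    fderiv ℝ (fun y => f (Φ y)) z v = dC f (Φ z) (dL Φ z v) := by
  have h1 : (fun y => f (Φ y)) =ᶠ[𝓝 z]
      fun y => (fun w : E4 => f ((chartAt E4 (Φ z)).symm w)) (chartAt E4 (Φ z) (Φ y)) := by
    filter_upwards [hΦ.continuousAt.eventually
      ((chartAt E4 (Φ z)).open_source.mem_nhds (mem_chart_source E4 (Φ z)))] with y hy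
    show f (Φ y) = f ((chartAt E4 (Φ z)).symm (chartAt E4 (Φ z) (Φ y)))
    rw [(chartAt E4 (Φ z)).left_inv hy]
  rw [h1.fderiv_eq]
  have h2 : DifferentiableAt ℝ (fun w : E4 => f ((chartAt E4 (Φ z)).symm w))
      (chartAt E4 (Φ z) (Φ z)) :=
    (comp_symm (mem_chart_source E4 (Φ z)) hf).differentiableAt (by simp)
  have h3 : DifferentiableAt ℝ (fun y => chartAt E4 (Φ z) (Φ y)) z :=
    (inC_contDiffAt hΦ (mem_chart_source E4 (Φ z))).differentiableAt (by simp)
  have h4 := fderiv_comp z (g := fun w : E4 => f ((chartAt E4 (Φ z)).symm w))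
    (f := fun y => chartAt E4 (Φ z) (Φ y)) h2 h3
  have h5 := congrArg (fun A => A v) h4
  exact h5

/-! ### the bundle -/

/-- the pull-back of a line bundle with a flat connection. -/
theorem bun_comp {p : M → Matrix (Fin N) (Fin N) ℂ} {a : Z2 M} {T : F1 E4 M} (hp : IsLine p)
    (ha : IsChern p a) {Φ : G → M} {O : Set G} (hO : IsOpen O)
    (hΦ : ContMDiffOn 𝓘(ℝ, G) 𝓘(ℝ, E4) ∞ Φ O) (hT : ∀ z ∈ O, SmAt1 T (Φ z))
    (hd : ∀ z ∈ O, at2 (dG T) (Φ z) = - val a (Φ z)) :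
    Bun (fun z => p (Φ z)) (pb1 Φ T) O where
  smP z hz i j := comp_smooth (hΦ.contMDiffAt (hO.mem_nhds hz)) ((hp.smooth i j) _)
  smT z hz := pb1_contDiffAt hO hΦ hz (mem_chart_source E4 (Φ z)) (hT z hz)
  idem z _ := hp.idem _
  herm z _ := hp.herm _
  rank z _ := hp.rank _
  curv z hz u v := by
    have h0 := hΦ.contMDiffAt (hO.mem_nhds hz)
    have hx := mem_chart_source E4 (Φ z)
    have hdP : ∀ u, dP (fun z => p (Φ z)) z u = dmat p (Φ z) (dL Φ z u) := by
      intro u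
      ext i j
      exact fderiv_comp' h0 ((hp.smooth i j) _) u
    have h1 : d1 (pb1 Φ T) z u v = pb2 Φ (dG T) z u v := by
      rw [d1_pull (inC_contDiffAt h0 hx) (SmAt1.chart (hT z hz) hx |>.differentiableAt (by simp))
        (pb1_chart_ev hO hΦ hz hx T), pb2_chart h0 hx]
      have h2 : rep (Φ z) (dG T) (inC (Φ z) Φ z) = d1 (rep1 (Φ z) T) (inC (Φ z) Φ z) :=
        rep_dG_at' hx (hT z hz)
      rw [h2]
    rw [h1, hdP, hdP, ← ha (Φ z) (dL Φ z u) (dL Φ z v), pb2_apply, hd z hz]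
    rfl

/-- `s` is a unit section of `p`, parallel for `p ∘ d - 2πi T` at `x`. -/
structure GoodM (p : M → Matrix (Fin N) (Fin N) ℂ) (T : F1 E4 M) (s : M → Fin N → ℂ)
    (x : M) : Prop where
  sm : ∀ i, ContMDiffAt 𝓘(ℝ, E4) 𝓘(ℝ, ℂ) ∞ (fun y => s y i) x
  mem : (p x).mulVec (s x) = s x
  unit : Par_387.hh (s x) (s x) = 1
  par : ∀ v : E4, (p x).mulVec (fun i => dC (fun y => s y i) x v) =
    (2 * Real.pi * I * (at1 T x v : ℝ)) • s x

variable {p : M → Matrix (Fin N) (Fin N) ℂ} {T : F1 E4 M}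

/-- (M1) pull-back of parallel sections. -/
theorem GoodM.pull {s : M → Fin N → ℂ} {Φ : G → M} {z : G}
    (hΦ : ContMDiffAt 𝓘(ℝ, G) 𝓘(ℝ, E4) ∞ Φ z) (h : GoodM p T s (Φ z)) :
    Good (fun z => p (Φ z)) (pb1 Φ T) (fun y => s (Φ y)) z := by
  refine ⟨fun i => comp_smooth hΦ (h.sm i), h.mem, h.unit, fun v => ?_⟩
  have h1 : dv (fun y => s (Φ y)) z v = fun i => dC (fun y => s y i) (Φ z) (dL Φ z v) := by
    funext i
    exact fderiv_comp' hΦ (h.sm i) v
  rw [h1]
  exact h.par (dL Φ z v)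

/-- the inverse of a chart. -/
theorem smooth_symm (q : M) : ContMDiffOn 𝓘(ℝ, E4) 𝓘(ℝ, E4) ∞ (chartAt E4 q).symm
    (chartAt E4 q).target := contMDiffOn_chart_symm (I := 𝓘(ℝ, E4)) (x := q)

theorem dL_symm_surj {q : M} {y : E4} (hy : y ∈ (chartAt E4 q).target) (v : E4) :
    ∃ u, dL (E := E4) (chartAt E4 q).symm y u = v := by
  have h0 : ContMDiffAt 𝓘(ℝ, E4) 𝓘(ℝ, E4) ∞ (chartAt E4 q).symm y :=
    (smooth_symm q).contMDiffAt ((chartAt E4 q).open_target.mem_nhds hy)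
  have hx : (chartAt E4 q).symm y ∈ (chartAt E4 q).source := (chartAt E4 q).map_target hy
  refine ⟨tcc ((chartAt E4 q).symm y) q ((chartAt E4 q).symm y) v, ?_⟩
  have h1 : ∀ u, tcc ((chartAt E4 q).symm y) q ((chartAt E4 q).symm y)
      (dL (E := E4) (chartAt E4 q).symm y u) = u := by
    intro u
    rw [← fderiv_inC h0 hx u]
    have h2 : inC (E := E4) q (chartAt E4 q).symm =ᶠ[𝓝 y] id := by
      filter_upwards [(chartAt E4 q).open_target.mem_nhds hy] with w hw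
      exact (chartAt E4 q).right_inv hw
    rw [h2.fderiv_eq, fderiv_id]
    rfl
  have h3 := h1 (tcc ((chartAt E4 q).symm y) q ((chartAt E4 q).symm y) v)
  have h4 := congrArg (fun w => tcc (E := E4) q ((chartAt E4 q).symm y) ((chartAt E4 q).symm y) w) h3
  simpa only [tcc_cancel' hx] using h4

/-- parallel sections in a chart give parallel sections on `M`. -/
theorem goodM_of_chart {l : E4 → Fin N → ℂ} {q : M} {y : E4} (hy : y ∈ (chartAt E4 q).target)
    (h : Good (fun z => p ((chartAt E4 q).symm z)) (pb1 (chartAt E4 q).symm T) l y) :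
    GoodM p T (fun x => l (chartAt E4 q x)) ((chartAt E4 q).symm y) := by
  have hx : (chartAt E4 q).symm y ∈ (chartAt E4 q).source := (chartAt E4 q).map_target hy
  have hr : chartAt E4 q ((chartAt E4 q).symm y) = y := (chartAt E4 q).right_inv hy
  have hsm : ∀ i, ContMDiffAt 𝓘(ℝ, E4) 𝓘(ℝ, ℂ) ∞ (fun x => l (chartAt E4 q x) i)
      ((chartAt E4 q).symm y) := by
    intro i
    have hc : ContMDiffAt 𝓘(ℝ, E4) 𝓘(ℝ, E4) ∞ (chartAt E4 q) ((chartAt E4 q).symm y) :=
      (contMDiffOn_chart (I := 𝓘(ℝ, E4)) (x := q)).contMDiffAt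
        ((chartAt E4 q).open_source.mem_nhds hx)
    have hl : ContMDiffAt 𝓘(ℝ, E4) 𝓘(ℝ, ℂ) ∞ (fun z => l z i)
        (chartAt E4 q ((chartAt E4 q).symm y)) := by
      rw [hr]; exact (h.sm i).contMDiffAt
    exact hl.comp ((chartAt E4 q).symm y) hc
  refine ⟨hsm, ?_, ?_, fun v => ?_⟩
  · simp only [hr]; exact h.mem
  · simp only [hr]; exact h.unit
  · obtain ⟨u, rfl⟩ := dL_symm_surj hy v
    have h0 : ContMDiffAt 𝓘(ℝ, E4) 𝓘(ℝ, E4) ∞ (chartAt E4 q).symm y :=
      (smooth_symm q).contMDiffAt ((chartAt E4 q).open_target.mem_nhds hy)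
    have h1 : (fun i => dC (fun x => l (chartAt E4 q x) i) ((chartAt E4 q).symm y)
        (dL (chartAt E4 q).symm y u)) = dv l y u := by
      funext i
      rw [← fderiv_comp' h0 (hsm i) u]
      have h2 : (fun w => l (chartAt E4 q ((chartAt E4 q).symm w)) i) =ᶠ[𝓝 y]
          fun w => l w i := by
        filter_upwards [(chartAt E4 q).open_target.mem_nhds hy] with w hw
        rw [(chartAt E4 q).right_inv hw]
      rw [h2.fderiv_eq]
      rfl
    rw [h1]
    simp only [hr]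
    exact h.par u

/-- the data near a point of `M`. -/
theorem bun_chart {a : Z2 M} (hp : IsLine p) (ha : IsChern p a) {x0 : M}
    (hT : ∀ᶠ x in 𝓝 x0, SmAt1 T x ∧ at2 (dG T) x = - val a x) :
    ∃ O : Set E4, IsOpen O ∧ chartAt E4 x0 x0 ∈ O ∧ O ⊆ (chartAt E4 x0).target ∧
      Bun (fun z => p ((chartAt E4 x0).symm z)) (pb1 (chartAt E4 x0).symm T) O := by
  obtain ⟨V, hV, hVo, hxV⟩ := eventually_nhds_iff.1 hT
  refine ⟨(chartAt E4 x0).target ∩ (chartAt E4 x0).symm ⁻¹' V,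
    (chartAt E4 x0).isOpen_inter_preimage_symm hVo, ⟨mem_chart_target E4 x0, ?_⟩,
    inter_subset_left, ?_⟩
  · show (chartAt E4 x0).symm (chartAt E4 x0 x0) ∈ V
    rw [(chartAt E4 x0).left_inv (mem_chart_source E4 x0)]; exact hxV
  · exact bun_comp hp ha ((chartAt E4 x0).isOpen_inter_preimage_symm hVo)
      ((smooth_symm x0).mono inter_subset_left) (fun z hz => (hV _ hz.2).1)
      (fun z hz => (hV _ hz.2).2)

/-- (M2) local existence. -/
theorem exists_goodM {a : Z2 M} (hp : IsLine p) (ha : IsChern p a) {x0 : M}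
    (hT : ∀ᶠ x in 𝓝 x0, SmAt1 T x ∧ at2 (dG T) x = - val a x) :
    ∃ s : M → Fin N → ℂ, ∀ᶠ x in 𝓝 x0, GoodM p T s x := by
  obtain ⟨O, hO, hx0, hOt, hB⟩ := bun_chart hp ha hT
  obtain ⟨r, hr, hrO, l, hl⟩ := exists_par hB hO hx0
  refine ⟨fun x => l (chartAt E4 x0 x), ?_⟩
  have hc : ContinuousAt (chartAt E4 x0) x0 :=
    (chartAt E4 x0).continuousAt (mem_chart_source E4 x0)
  filter_upwards [hc.eventually (Metric.ball_mem_nhds _ hr),
    (chartAt E4 x0).open_source.mem_nhds (mem_chart_source E4 x0)] with x hx hxs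
  have h1 := goodM_of_chart (hOt (hrO hx)) (hl _ hx)
  rwa [(chartAt E4 x0).left_inv hxs] at h1

/-- (M3) two parallel germs differ by a constant phase. -/
theorem goodM_cmp {a : Z2 M} (hp : IsLine p) (ha : IsChern p a) {x0 : M}
    (hT : ∀ᶠ x in 𝓝 x0, SmAt1 T x ∧ at2 (dG T) x = - val a x) {s t : M → Fin N → ℂ}
    (hs : ∀ᶠ x in 𝓝 x0, GoodM p T s x) (ht : ∀ᶠ x in 𝓝 x0, GoodM p T t x) :
    ∃ c : ℂ, conj c * c = 1 ∧ ∀ᶠ x in 𝓝 x0, s x = c • t x := by
  obtain ⟨O, hO, hx0, hOt, hB⟩ := bun_chart hp ha hT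
  have hpull : ∀ s : M → Fin N → ℂ, (∀ᶠ x in 𝓝 x0, GoodM p T s x) →
      Par (fun z => p ((chartAt E4 x0).symm z)) (pb1 (chartAt E4 x0).symm T)
        (chartAt E4 x0 x0) (fun y => s ((chartAt E4 x0).symm y)) := by
    intro s hs
    have h1 : ContinuousAt (chartAt E4 x0).symm (chartAt E4 x0 x0) :=
      (chartAt E4 x0).continuousAt_symm (mem_chart_target E4 x0)
    have h2 : ∀ᶠ y in 𝓝 (chartAt E4 x0 x0), GoodM p T s ((chartAt E4 x0).symm y) := by
      refine h1.eventually ?_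
      rw [(chartAt E4 x0).left_inv (mem_chart_source E4 x0)]; exact hs
    filter_upwards [h2, (chartAt E4 x0).open_target.mem_nhds (mem_chart_target E4 x0)]
      with y hy hyt
    exact hy.pull ((smooth_symm x0).contMDiffAt ((chartAt E4 x0).open_target.mem_nhds hyt))
  obtain ⟨c, hc, he⟩ := par_cmp hB hO hx0 (hpull s hs) (hpull t ht)
  refine ⟨c, hc, ?_⟩
  have hcc : ContinuousAt (chartAt E4 x0) x0 :=
    (chartAt E4 x0).continuousAt (mem_chart_source E4 x0)
  filter_upwards [hcc.eventually he,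
    (chartAt E4 x0).open_source.mem_nhds (mem_chart_source E4 x0)] with x hx hxs
  have h1 := hx.1
  rwa [(chartAt E4 x0).left_inv hxs] at h1

/-! ### necks -/

variable {m : ℕ}

/-- (M4a) the bundle on the neck. -/
theorem bun_neck {a : Z2 M} (hp : IsLine p) (ha : IsChern p a) (K : Neck M m) (i : Fin m)
    (hT : ∀ z ∈ PB 1, SmAt1 T (K.phi i z))
    (hd : ∀ z ∈ PB 1, at2 (dG T) (K.phi i z) = - val a (K.phi i z)) :
    Bun (fun z => p (K.phi i z)) (pb1 (K.phi i) T) (PB 1) :=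
  bun_comp hp ha (isOpen_PB 1) (K.smooth i) hT hd

/-- (M4b) the pulled back form is even. -/
theorem pb1_neck_even (K : Neck M m) (i : Fin m) (T : F1 E4 M) {z : E4} (hz : z ∈ PB 1) :
    pb1 (K.phi i) T (-z) = - pb1 (K.phi i) T z := by
  have h0 : ContMDiffAt 𝓘(ℝ, E4) 𝓘(ℝ, E4) ∞ (K.phi i) (-z) :=
    (K.smooth i).contMDiffAt ((isOpen_PB 1).mem_nhds (neg_mem_PB hz))
  have hneg : HasFDerivAt (fun y : E4 => -y) (-(ContinuousLinearMap.id ℝ E4)) z :=
    (hasFDerivAt_id z).neg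
  have h1 : pb1 (fun y => K.phi i (-y)) T z =
      (pb1 (K.phi i) T (-z)).comp (fderiv ℝ (fun y : E4 => -y) z) :=
    pb1_comp (g := fun y : E4 => -y) h0 hneg.differentiableAt T
  have h2 : (fun y => K.phi i (-y)) =ᶠ[𝓝 z] K.phi i := by
    filter_upwards [(isOpen_PB 1).mem_nhds hz] with y hy using K.even i y hy
  rw [pb1_congr h2, hneg.fderiv] at h1
  ext v
  have h3 := congrArg (fun A => A v) h1
  simp only [ContinuousLinearMap.comp_apply, neg_apply, ContinuousLinearMap.id_apply,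
    map_neg] at h3
  rw [neg_apply, h3, neg_neg]

/-- (M4c) the parallel section on the neck and its sign. -/
theorem exists_neck {a : Z2 M} (hp : IsLine p) (ha : IsChern p a) (K : Neck M m) (i : Fin m)
    (hT : ∀ z ∈ PB 1, SmAt1 T (K.phi i z))
    (hd : ∀ z ∈ PB 1, at2 (dG T) (K.phi i z) = - val a (K.phi i z)) :
    ∃ psi : E4 → Fin N → ℂ,
      (∀ z ∈ PB 1, Good (fun z => p (K.phi i z)) (pb1 (K.phi i) T) psi z) ∧
      ∃ c : ℂ, (c = 1 ∨ c = -1) ∧ ∀ z ∈ PB 1, psi (-z) = c • psi z := by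
  have hB := bun_neck hp ha K i hT hd
  obtain ⟨psi, hpsi⟩ := exists_psi one_pos hB
  exact ⟨psi, hpsi, exists_sign one_pos hB (fun z hz => by rw [K.even i z hz])
    (fun z hz => pb1_neck_even K i T hz) hpsi⟩

/-- (M4d) comparison with a parallel section of `M`. -/
theorem neck_cmp {a : Z2 M} (hp : IsLine p) (ha : IsChern p a) (K : Neck M m) (i : Fin m)
    (hT : ∀ z ∈ PB 1, SmAt1 T (K.phi i z))
    (hd : ∀ z ∈ PB 1, at2 (dG T) (K.phi i z) = - val a (K.phi i z)) {psi : E4 → Fin N → ℂ}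
    (hpsi : ∀ z ∈ PB 1, Good (fun z => p (K.phi i z)) (pb1 (K.phi i) T) psi z)
    {z : E4} (hz : z ∈ PB 1) {s : M → Fin N → ℂ} (hs : ∀ᶠ x in 𝓝 (K.phi i z), GoodM p T s x) :
    ∃ c : ℂ, conj c * c = 1 ∧ ∀ᶠ y in 𝓝 z, s (K.phi i y) = c • psi y := by
  have hB := bun_neck hp ha K i hT hd
  have hc : ContinuousAt (K.phi i) z :=
    ((K.smooth i).contMDiffAt ((isOpen_PB 1).mem_nhds hz)).continuousAt
  have h1 : Par (fun z => p (K.phi i z)) (pb1 (K.phi i) T) z (fun y => s (K.phi i y)) := by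
    filter_upwards [hc.eventually hs, (isOpen_PB 1).mem_nhds hz] with y hy hyP
    exact hy.pull ((K.smooth i).contMDiffAt ((isOpen_PB 1).mem_nhds hyP))
  have h2 : Par (fun z => p (K.phi i z)) (pb1 (K.phi i) T) z psi := by
    filter_upwards [(isOpen_PB 1).mem_nhds hz] with y hy using hpsi y hy
  obtain ⟨c, hc, he⟩ := par_cmp hB (isOpen_PB 1) hz h1 h2
  exact ⟨c, hc, he.mono fun y hy => hy.1⟩

/-- `al` is natural. -/
theorem al_comp {e : E4 → Fin N → ℂ} {g : G → E4} {z : G} (hg : DifferentiableAt ℝ g z)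
    (he : ∀ i, DifferentiableAt ℝ (fun y => e y i) (g z)) (v : G) :
    al (fun y => e (g y)) z v = al e (g z) (fderiv ℝ g z v) := by
  have hd : ∀ i, HasFDerivAt (fun y => e (g y) i)
      ((fderiv ℝ (fun y => e y i) (g z)).comp (fderiv ℝ g z)) z := fun i =>
    HasFDerivAt.comp z (g := fun y => e y i) (he i).hasFDerivAt hg.hasFDerivAt
  have h1 : dv (fun y => e (g y)) z v = dv e (g z) (fderiv ℝ g z v) := by
    funext i
    unfold dv
    rw [(hd i).fderiv]
    rfl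
  rw [al_apply (fun i => (hd i).differentiableAt), al_apply he, h1]

/-- coefficient of a parallel section in a frame. -/
theorem coeff {P : G → Matrix (Fin N) (Fin N) ℂ} {T : G → G →L[ℝ] ℝ} {psi e : G → Fin N → ℂ}
    {z : G} (hpsi : Good P T psi z) (hP : P z = pr (e z))
    (he : ∀ i, DifferentiableAt ℝ (fun y => e y i) z)
    (hu : ∀ᶠ y in 𝓝 z, Par_387.hh (e y) (e y) = 1) :
    DifferentiableAt ℝ (fun y => Par_387.hh (e y) (psi y)) z ∧
    Par_387.hh (e z) (psi z) ≠ 0 ∧ ∀ v, fderiv ℝ (fun y => Par_387.hh (e y) (psi y)) z v =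
      2 * Real.pi * I * ((T z v - al e z v : ℝ) : ℂ) * Par_387.hh (e z) (psi z) := by
  have h1 : psi z = Par_387.hh (e z) (psi z) • e z := by
    rw [← pr_mulVec, ← hP, hpsi.mem]
  have hunit := hu.self_of_nhds
  refine ⟨diff_hh he hpsi.diff, ?_, fun v => ?_⟩
  · intro h0
    rw [h0, zero_smul] at h1
    exact ne_zero_of_unit hpsi.unit h1
  · rw [fderiv_hh he hpsi.diff]
    have hherm : (P z).conjTranspose = P z := by rw [hP]; exact pr_herm _
    have hmem : (P z).mulVec (e z) = e z := by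
      rw [hP, pr_mulVec, hunit, one_smul]
    have e1 : Par_387.hh (dv e z v) (psi z) =
        - (2 * Real.pi * I * al e z v) * Par_387.hh (e z) (psi z) := by
      conv_lhs => rw [h1]
      rw [hh_smul_right, ← hh_conj (e z) (dv e z v), hh_dv he hu]
      simp only [map_mul, map_ofNat, Complex.conj_ofReal, Complex.conj_I]
      ring
    have e2 : Par_387.hh (e z) (dv psi z v) =
        (2 * Real.pi * I * T z v) * Par_387.hh (e z) (psi z) := by
      rw [← hmem, hh_mulVec hherm, hpsi.par, hh_smul_right, hmem]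
    rw [e1, e2]
    push_cast
    ring

/-- (M5) the monodromy on the neck. -/
theorem sign_psi (hp : IsLine p) (K : Neck M m) (i : Fin m)
    (hD : IsDisc K i) {r₁ : ℝ} (hr₁ : 0 < r₁) (hr₁' : r₁ ≤ 1) {s : ℝ} {A₀ : F1 E4 M}
    (hA₀ : ∀ q ∈ K.C i, SmAt1 A₀ q)
    (hTA : ∀ z ∈ PB r₁, ∀ v, pb1 (K.phi i) T z v =
      pb1 (K.phi i) A₀ z v + s / (4 * Real.pi) * thL z v)
    {psi : E4 → Fin N → ℂ}
    (hpsi : ∀ z ∈ PB 1, Good (fun z => p (K.phi i z)) (pb1 (K.phi i) T) psi z)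
    {c : ℂ} (hc : ∀ z ∈ PB 1, psi (-z) = c • psi z) : c = Complex.exp (Real.pi * I * s) := by
  refine KumTwB_303.sign' K i hD hr₁ c s fun q hq => ?_
  have hPB : ∀ z ∈ PB r₁, z ∈ PB 1 := fun z hz => ⟨hz.1, hz.2.trans_le hr₁'⟩
  -- frame in the chart at q
  obtain ⟨e, he⟩ := exists_frame' (P := fun z => p ((chartAt E4 q).symm z))
    (O := (chartAt E4 q).target)
    (fun z hz i j => by
      have h1 := comp_symm (q := q) ((chartAt E4 q).map_target hz)
        ((hp.smooth i j) ((chartAt E4 q).symm z))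
      rwa [(chartAt E4 q).right_inv hz] at h1)
    (fun z _ => hp.idem _) (fun z _ => hp.herm _) (fun z _ => hp.rank _)
    (chartAt E4 q).open_target (mem_chart_target E4 q)
  obtain ⟨W, hW, hWo, hqW⟩ := eventually_nhds_iff.1 he
  have hcq : ContinuousAt (chartAt E4 q) q :=
    (chartAt E4 q).continuousAt (mem_chart_source E4 q)
  have hUo : IsOpen ((chartAt E4 q).source ∩ chartAt E4 q ⁻¹' W) :=
    (chartAt E4 q).isOpen_inter_preimage hWo
  refine ⟨(chartAt E4 q).source ∩ chartAt E4 q ⁻¹' W,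
    hUo.mem_nhds ⟨mem_chart_source E4 q, hqW⟩, A₀ - ext1 q (al e),
    fun z => Par_387.hh (e (chartAt E4 q (K.phi i z))) (psi z), ?_, ?_⟩
  · have h1 : SmAt1 (ext1 q (al e) : F1 E4 M) q := by
      have h2 : rep1 q (ext1 q (al e) : F1 E4 M) =ᶠ[𝓝 (chartAt E4 q q)] al e := by
        filter_upwards [(chartAt E4 q).open_target.mem_nhds (mem_chart_target E4 q)] with y hy
        exact rep1_ext1_self hy _
      exact (sm_al (hW _ hqW).2.sm).congr_of_eventuallyEq h2
    exact (hA₀ q hq).sub h1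
  · intro z hz hzU
    have hz1 := hPB z hz
    have hΦ : ContMDiffAt 𝓘(ℝ, E4) 𝓘(ℝ, E4) ∞ (K.phi i) z :=
      (K.smooth i).contMDiffAt ((isOpen_PB 1).mem_nhds hz1)
    have hg : DifferentiableAt ℝ (fun y => chartAt E4 q (K.phi i y)) z :=
      (inC_contDiffAt hΦ hzU.1).differentiableAt (by simp)
    have hF := (hW _ hzU.2).2
    have hed : ∀ j, DifferentiableAt ℝ (fun y => e y j) (chartAt E4 q (K.phi i z)) := fun j =>
      (hF.sm j).differentiableAt (by simp)
    have hed' : ∀ j, DifferentiableAt ℝ (fun y => e (chartAt E4 q (K.phi i y)) j) z := fun j =>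
      DifferentiableAt.comp z (g := fun y => e y j) (hed j) hg
    have hevU : ∀ᶠ y in 𝓝 z, K.phi i y ∈ (chartAt E4 q).source ∩ chartAt E4 q ⁻¹' W :=
      hΦ.continuousAt.eventually (hUo.mem_nhds hzU)
    have hproj : p (K.phi i z) = pr (e (chartAt E4 q (K.phi i z))) := by
      have h1 := hF.eq
      rwa [(chartAt E4 q).left_inv hzU.1] at h1
    obtain ⟨h1, h2, h3⟩ := coeff (e := fun y => e (chartAt E4 q (K.phi i y)))
      (hpsi z hz1) hproj hed' (hevU.mono fun y hy => (hW _ hy.2).2.unit)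
    refine ⟨h1, h2, ?_, fun v => ?_⟩
    · show Par_387.hh (e (chartAt E4 q (K.phi i (-z)))) (psi (-z)) = _
      rw [K.even i z hz1, hc z hz1, hh_smul_right]
    · rw [h3 v]
      congr 3
      have h4 : pb1 (K.phi i) (A₀ - ext1 q (al e)) z v =
          pb1 (K.phi i) A₀ z v - pb1 (K.phi i) (ext1 q (al e)) z v := rfl
      have h5 : pb1 (K.phi i) (ext1 q (al e)) z v =
          al (fun y => e (chartAt E4 q (K.phi i y))) z v := by
        rw [pb1_chart hΦ hzU.1, ContinuousLinearMap.comp_apply,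
          al_comp (g := fun y => chartAt E4 q (K.phi i y)) hg hed]
        have h6 : rep1 q (ext1 q (al e) : F1 E4 M) (inC q (K.phi i) z) =
            al e (inC q (K.phi i) z) :=
          rep1_ext1_self ((chartAt E4 q).map_source hzU.1) _
        rw [h6]
        rfl
      rw [h4, h5, hTA z hz v]
      ring

end

end Crest.Agent.R235.KumTwM_387
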