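import Crest.Agent.R235.KumDefs_152
import Crest.Agent.R235.KumTwC_57
import Crest.Agent.R235.KumTwM_387
import Crest.Agent.R235.KumTau_800

/-!
Row 235 (S0364), package KUM, node KTW, part (d) (helper800): ASSEMBLY.

`PSec K sg` = unit local sections over `M ∖ ⋃ C` (parallel sections of a flat hermitian line
bundle inside `ℂ^N`), any two of which differ by a locally constant phase, and unit sections
`psi i` on the necks with `psi i (-z) = sg i • psi i z`.

`twist_of`: if every locally constant `U(1)` cocycle on `M` is a locally constant coboundary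
(`Coco M`), then `PSec K sg` gives a double-valued function `Twist K sg`.

`ktw : FLATK → KTW`: the parallel sections are those of `KumTwM_387` for the connection form of
`KumTau_800`, the coboundaries those of `KumTwC_57`.
-/

set_option autoImplicit false
set_option maxSynthPendingDepth 3

open Set Function Filter MeasureTheory
open scoped Manifold ContDiff Topology ComplexConjugate

universe u

namespace Crest.Agent.R235.KumTwD_800

open Crest.Agent.R240 Crest.Agent.R240.Ch Crest.Agent.R235.KT_604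

noncomputable section

/-- the parallel sections. -/
structure PSec {M : Type u} [TopologicalSpace M] [ChartedSpace E4 M] {m : ℕ} (K : Neck M m)
    (sg : Fin m → ℝ) where
  N : ℕ
  Q : Set M → (M → CN N) → Prop
  op : ∀ U s, Q U s → IsOpen U
  out : ∀ U s, Q U s → ∀ y ∈ U, ∀ i, y ∉ K.C i
  cont : ∀ U s, Q U s → ContinuousOn s U
  unit : ∀ U s, Q U s → ∀ y ∈ U, ‖s y‖ = 1
  loc : ∀ x, (∀ i, x ∉ K.C i) → ∃ U s, x ∈ U ∧ Q U s
  cmp : ∀ U s U' s', Q U s → Q U' s' → ∀ x ∈ U, x ∈ U' →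
    ∃ c : ℂ, ‖c‖ = 1 ∧ ∀ᶠ y in 𝓝 x, s y = c • s' y
  psi : Fin m → E4 → CN N
  psi_cmp : ∀ i, ∀ z ∈ PB 1, ∀ U s, Q U s → K.phi i z ∈ U →
    ∃ c : ℂ, ‖c‖ = 1 ∧ ∀ᶠ z' in 𝓝 z, psi i z' = c • s (K.phi i z')
  psi_par : ∀ i, ∀ z ∈ PB 1, psi i (-z) = sg i • psi i z

/-- every locally constant `U(1)` cocycle is a locally constant coboundary. -/
def Coco (M : Type u) [TopologicalSpace M] : Prop :=
  ∀ (ι : Type) [Finite ι] (U : ι → Set M) (g : ι → ι → M → ℂ), (∀ a, IsOpen (U a)) →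
    (∀ x, ∃ a, x ∈ U a) → (∀ a b x, x ∈ U a → x ∈ U b → ‖g a b x‖ = 1) →
    (∀ a b x, x ∈ U a → x ∈ U b → ∀ᶠ y in 𝓝 x, g a b y = g a b x) →
    (∀ a b c x, x ∈ U a → x ∈ U b → x ∈ U c → g a b x * g b c x = g a c x) →
    ∃ c : ι → M → ℂ, (∀ a x, x ∈ U a → ‖c a x‖ = 1 ∧ ∀ᶠ y in 𝓝 x, c a y = c a x) ∧
      ∀ a b x, x ∈ U a → x ∈ U b → g a b x = c a x * conj (c b x)

theorem coco (hF : FLATK.{u}) {M : Type u} [TopologicalSpace M] [T2Space M]
    [CompactSpace M] [ConnectedSpace M] [ChartedSpace E4 M] [IsManifold 𝓘(ℝ, E4) ∞ M]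
    {w : Trip M} (hw : Pos3 w) (hK : K3Type (w 0)) : Coco M :=
  fun _ _ _ _ op cov unit lc coc => KumTwC_57.ktwc_finite hF hw hK op cov unit lc coc

/-! ### elementary lemmas -/

/-- a vector is determined up to sign by its tensor square. -/
theorem sq_eq {N : ℕ} {u v : CN N} (h : ∀ j k, u j * u k = v j * v k) : u = v ∨ u = -v := by
  by_cases hv : v = 0
  · left
    ext j
    have h1 := h j j
    rw [hv] at h1 ⊢
    simpa using h1
  · obtain ⟨j, hj⟩ : ∃ j, v j ≠ 0 := by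
      by_contra hcon
      push Not at hcon
      exact hv (by ext j; simpa using hcon j)
    have h1 : (u j) ^ 2 = (v j) ^ 2 := by
      rw [sq, sq]
      exact h j j
    rcases sq_eq_sq_iff_eq_or_eq_neg.1 h1 with h2 | h2
    · left
      ext k
      have h3 := h j k
      rw [h2] at h3
      exact mul_left_cancel₀ hj h3
    · right
      ext k
      have h3 := h j k
      rw [h2] at h3
      have h4 : v j * (-(u k)) = v j * v k := by
        rw [← h3]
        ring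
      have h5 := mul_left_cancel₀ hj h4
      simp only [PiLp.neg_apply]
      rw [← h5, neg_neg]

/-- the square root of a unit complex number. -/
theorem exists_root (w : ℂ) (hw : ‖w‖ = 1) : ∃ r : ℂ, r * r = w ∧ ‖r‖ = 1 := by
  obtain ⟨r, hr⟩ := IsAlgClosed.exists_pow_nat_eq w (n := 2) (by norm_num)
  refine ⟨r, by rw [← hr, sq], ?_⟩
  have h1 : ‖r‖ ^ 2 = 1 := by rw [← norm_pow, hr, hw]
  nlinarith [norm_nonneg r]

/-- `PB 1` is preconnected. -/
theorem isPreconnected_PB : IsPreconnected (PB 1) := by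
  have h1 : PB 1 = (fun q : ℝ × E4 => q.1 • q.2) '' (Ioo (0 : ℝ) 1 ×ˢ Metric.sphere (0 : E4) 1) := by
    ext z
    constructor
    · rintro ⟨h0, h1⟩
      have hz : 0 < ‖z‖ := norm_pos_iff.2 h0
      refine ⟨(‖z‖, ‖z‖⁻¹ • z), ⟨⟨hz, h1⟩, ?_⟩, ?_⟩
      · rw [mem_sphere_zero_iff_norm, norm_smul, norm_inv, norm_norm, inv_mul_cancel₀ hz.ne']
      · show ‖z‖ • ‖z‖⁻¹ • z = z
        rw [smul_smul, mul_inv_cancel₀ hz.ne', one_smul]
    · rintro ⟨⟨t, v⟩, ⟨⟨ht0, ht1⟩, hv⟩, rfl⟩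
      have hv' : ‖v‖ = 1 := mem_sphere_zero_iff_norm.1 hv
      refine ⟨?_, ?_⟩
      · show t • v ≠ 0
        rw [smul_ne_zero_iff]
        refine ⟨ht0.ne', fun h => ?_⟩
        rw [h, norm_zero] at hv'
        exact zero_ne_one hv'
      · show ‖t • v‖ < 1
        rw [norm_smul, hv', mul_one, Real.norm_eq_abs, abs_of_pos ht0]
        exact ht1
  rw [h1]
  refine IsPreconnected.image ?_ _ (continuous_fst.smul continuous_snd).continuousOn
  refine isPreconnected_Ioo.prod ?_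
  refine isPreconnected_sphere ?_ _ _
  rw [← Module.finrank_eq_rank]
  simp [finrank_euclideanSpace]

/-- a locally constant function on a preconnected set is constant. -/
theorem const_of_lc {X Y : Type*} [TopologicalSpace X] {S : Set X} (hS : IsPreconnected S)
    {f : X → Y} (h : ∀ x ∈ S, ∀ᶠ y in 𝓝 x, f y = f x) {x y : X} (hx : x ∈ S) (hy : y ∈ S) :
    f x = f y := by
  let _ : TopologicalSpace Y := ⊥
  have _ : DiscreteTopology Y := ⟨rfl⟩
  have hc : ContinuousOn f S := by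
    intro z hz
    refine ContinuousAt.continuousWithinAt ?_
    have : Tendsto f (𝓝 z) (pure (f z)) := by
      rw [tendsto_pure]
      exact h z hz
    exact this.mono_right (pure_le_nhds _)
  exact hS.constant hc hx hy

section Open

variable {M : Type u} [TopologicalSpace M] [ChartedSpace E4 M] [IsManifold 𝓘(ℝ, E4) ∞ M]

/-- an immersive map is open at a point. -/
theorem map_nhds_at {Φ : E4 → M} {y : E4} (hs : ContMDiffAt 𝓘(ℝ, E4) 𝓘(ℝ, E4) ∞ Φ y)
    (hi : ∀ v : E4, dmap Φ y v = 0 → v = 0) : map Φ (𝓝 y) = 𝓝 (Φ y) := by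
  set F : E4 → E4 := fun z => chartAt E4 (Φ y) (Φ z) with hF
  have hsrc : ∀ᶠ z in 𝓝 y, Φ z ∈ (chartAt E4 (Φ y)).source :=
    hs.continuousAt ((chartAt E4 (Φ y)).open_source.mem_nhds (mem_chart_source E4 (Φ y)))
  have hc : ContMDiffAt 𝓘(ℝ, E4) 𝓘(ℝ, E4) ∞ F y :=
    ((contMDiffOn_chart (I := 𝓘(ℝ, E4)) (n := ∞) (x := Φ y)).contMDiffAt
      ((chartAt E4 (Φ y)).open_source.mem_nhds (mem_chart_source E4 (Φ y)))).comp y hs
  have hcd : ContDiffAt ℝ ∞ F y := hc.contDiffAt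
  have hst : HasStrictFDerivAt F (fderiv ℝ F y) y := hcd.hasStrictFDerivAt (by simp)
  have hinj : Function.Injective (fderiv ℝ F y) := by
    intro u v huv
    have h0 : fderiv ℝ F y (u - v) = 0 := by rw [map_sub, huv, sub_self]
    exact sub_eq_zero.1 (hi _ h0)
  have hsurj : (fderiv ℝ F y : E4 →L[ℝ] E4).range = ⊤ :=
    LinearMap.range_eq_top.2 (LinearMap.injective_iff_surjective.1 hinj)
  have h1 : map F (𝓝 y) = 𝓝 (F y) := hst.map_nhds_eq_of_surj hsurj
  have h2 : Φ =ᶠ[𝓝 y] fun z => (chartAt E4 (Φ y)).symm (F z) := by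
    filter_upwards [hsrc] with z hz
    exact ((chartAt E4 (Φ y)).left_inv hz).symm
  have h3 : map (chartAt E4 (Φ y)).symm (𝓝 (F y)) = 𝓝 (Φ y) := by
    have := (chartAt E4 (Φ y)).symm.map_nhds_eq (x := F y)
      ((chartAt E4 (Φ y)).map_source (mem_chart_source E4 (Φ y)))
    rw [this]
    congr 1
    exact (chartAt E4 (Φ y)).left_inv (mem_chart_source E4 (Φ y))
  calc map Φ (𝓝 y) = map (fun z => (chartAt E4 (Φ y)).symm (F z)) (𝓝 y) := map_congr h2
    _ = map (chartAt E4 (Φ y)).symm (map F (𝓝 y)) := (map_map).symm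
    _ = 𝓝 (Φ y) := by rw [h1, h3]

end Open

/-! ### the double-valued function -/

section Tw

variable {M : Type u} [TopologicalSpace M] [ChartedSpace E4 M]

theorem isOpen_PB (r : ℝ) : IsOpen (PB r) := by
  have : PB r = {z : E4 | z ≠ 0} ∩ Metric.ball 0 r := by
    ext z; simp [PB]
  rw [this]
  exact isOpen_ne.inter Metric.isOpen_ball

theorem neg_mem_PB {r : ℝ} {z : E4} (hz : z ∈ PB r) : -z ∈ PB r :=
  ⟨neg_ne_zero.2 hz.1, by rw [norm_neg]; exact hz.2⟩

variable {m : ℕ} {K : Neck M m} {sg : Fin m → ℝ} (P : PSec K sg)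

/-- the complement of the removed sets is a neighbourhood. -/
theorem out_nhds [T2Space M] (K : Neck M m) {x : M} (hx : ∀ i, x ∉ K.C i) : ∀ᶠ y in 𝓝 x, ∀ i, y ∉ K.C i := by
  rw [eventually_all]
  exact fun i => (K.cpt i).isClosed.isOpen_compl.mem_nhds (hx i)

theorem phi_cont (K : Neck M m) (i : Fin m) {z : E4} (hz : z ∈ PB 1) :
    ContinuousAt (K.phi i) z :=
  ((K.smooth i).contMDiffAt ((isOpen_PB 1).mem_nhds hz)).continuousAt

theorem phi_map [IsManifold 𝓘(ℝ, E4) ∞ M] (K : Neck M m) (i : Fin m) {z : E4} (hz : z ∈ PB 1) :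
    map (K.phi i) (𝓝 z) = 𝓝 (K.phi i z) :=
  map_nhds_at ((K.smooth i).contMDiffAt ((isOpen_PB 1).mem_nhds hz)) (K.imm i z hz)

theorem psi_unit (i : Fin m) {z : E4} (hz : z ∈ PB 1) : ‖P.psi i z‖ = 1 := by
  obtain ⟨U, s, hxU, hQ⟩ := P.loc (K.phi i z) (fun j => K.out i j z hz)
  obtain ⟨c, hc, hc'⟩ := P.psi_cmp i z hz U s hQ hxU
  rw [hc'.self_of_nhds, norm_smul, hc, P.unit U s hQ _ hxU, one_mul]

theorem psi_cont (i : Fin m) {z : E4} (hz : z ∈ PB 1) : ContinuousAt (P.psi i) z := by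
  obtain ⟨U, s, hxU, hQ⟩ := P.loc (K.phi i z) (fun j => K.out i j z hz)
  obtain ⟨c, hc, hc'⟩ := P.psi_cmp i z hz U s hQ hxU
  have h1 : ContinuousAt s (K.phi i z) :=
    (P.cont U s hQ).continuousAt ((P.op U s hQ).mem_nhds hxU)
  have h2 : ContinuousAt (fun z' => c • s (K.phi i z')) z :=
    (ContinuousAt.comp (g := s) h1 (phi_cont K i hz)).const_smul c
  exact h2.congr (EventuallyEq.symm hc')

theorem psi_eps (i : Fin m) {z z' : E4} (hz : z ∈ PB 1) (hz' : z' ∈ PB 1)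
    (h : K.phi i z = K.phi i z') : P.psi i z' = P.psi i z ∨ P.psi i z' = -P.psi i z := by
  rcases K.inj i z hz z' hz' h with h1 | h1
  · left; rw [h1]
  · have h2 := P.psi_par i z hz
    rw [← h1] at h2
    have h3 : |sg i| = 1 := by
      have := congrArg norm h2
      rwa [norm_smul, psi_unit P i hz, psi_unit P i hz', mul_one, Real.norm_eq_abs, eq_comm] at this
    rcases eq_or_eq_neg_of_abs_eq h3 with h4 | h4
    · left; rw [h2, h4, one_smul]
    · right; rw [h2, h4, neg_one_smul]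

/-- `l` is locally a parallel section up to sign. -/
def Rp (V : Set M) (l : M → CN P.N) : Prop :=
  ∀ x ∈ V, (∀ i, x ∉ K.C i) → ∀ U s, P.Q U s → x ∈ U →
    ∃ κ : ℂ, ‖κ‖ = 1 ∧ ∀ᶠ y in 𝓝 x, l y = κ • s y ∨ l y = -(κ • s y)

theorem rp_sec {U : Set M} {s : M → CN P.N} (hQ : P.Q U s) : Rp P U s := by
  intro x hx _ U' s' hQ' hx'
  obtain ⟨c, hc, hc'⟩ := P.cmp U s U' s' hQ hQ' x hx hx'
  exact ⟨c, hc, hc'.mono fun y hy => Or.inl hy⟩

open Classical in
/-- the section `psi i` on the image of the neck. -/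
def lN (i : Fin m) (y : M) : CN P.N :=
  if h : ∃ z ∈ PB 1, K.phi i z = y then P.psi i h.choose else 0

theorem lN_eq (i : Fin m) {z : E4} (hz : z ∈ PB 1) :
    lN P i (K.phi i z) = P.psi i z ∨ lN P i (K.phi i z) = -P.psi i z := by
  have h : ∃ z' ∈ PB 1, K.phi i z' = K.phi i z := ⟨z, hz, rfl⟩
  have h1 : lN P i (K.phi i z) = P.psi i h.choose := dif_pos h
  rw [h1]
  exact psi_eps P i hz h.choose_spec.1 h.choose_spec.2.symm

theorem rp_neck [IsManifold 𝓘(ℝ, E4) ∞ M] (i : Fin m) : Rp P (K.C i ∪ K.phi i '' PB 1) (lN P i) := by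
  intro x hx hxC U s hQ hxU
  obtain ⟨z, hz, rfl⟩ : x ∈ K.phi i '' PB 1 := hx.resolve_left (hxC i)
  obtain ⟨c, hc, hc'⟩ := P.psi_cmp i z hz U s hQ hxU
  refine ⟨c, hc, ?_⟩
  rw [← phi_map K i hz, eventually_map]
  filter_upwards [hc', (isOpen_PB 1).mem_nhds hz] with z' h1 h2
  rcases lN_eq P i h2 with h3 | h3
  · left; rw [h3, h1]
  · right; rw [h3, h1]

theorem two_rp {V V' : Set M} {l l' : M → CN P.N} (h : Rp P V l) (h' : Rp P V' l') {x : M}
    (hx : x ∈ V) (hx' : x ∈ V') (hxC : ∀ i, x ∉ K.C i) :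
    ∃ κ : ℂ, ‖κ‖ = 1 ∧ ∀ᶠ y in 𝓝 x, ‖l' y‖ = 1 ∧ (l y = κ • l' y ∨ l y = -(κ • l' y)) := by
  obtain ⟨U, s, hxU, hQ⟩ := P.loc x hxC
  obtain ⟨κ, hκ, h1⟩ := h x hx hxC U s hQ hxU
  obtain ⟨κ', hκ', h2⟩ := h' x hx' hxC U s hQ hxU
  have hk : κ' * conj κ' = 1 := by
    rw [Complex.mul_conj, Complex.normSq_eq_norm_sq, hκ']
    norm_num
  refine ⟨κ * conj κ', by rw [norm_mul, Complex.norm_conj, hκ, hκ', one_mul], ?_⟩
  filter_upwards [h1, h2, (P.op U s hQ).mem_nhds hxU] with y k1 k2 k3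
  have k4 : ‖l' y‖ = 1 := by
    rcases k2 with k2 | k2
    · rw [k2, norm_smul, hκ', P.unit U s hQ y k3, one_mul]
    · rw [k2, norm_neg, norm_smul, hκ', P.unit U s hQ y k3, one_mul]
  refine ⟨k4, ?_⟩
  have k5 : (κ * conj κ') • κ' • s y = κ • s y := by
    rw [smul_smul, mul_assoc, mul_comm (conj κ'), hk, mul_one]
  rcases k1 with k1 | k1 <;> rcases k2 with k2 | k2
  · left; rw [k1, k2, k5]
  · right; rw [k1, k2, smul_neg, k5, neg_neg]
  · right; rw [k1, k2, k5]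
  · left; rw [k1, k2, smul_neg, k5]

/-- the square of the transition function. -/
def tr {N : ℕ} (u v : CN N) : ℂ := (inner ℂ v u) ^ 2

theorem tr_eq {N : ℕ} {u v : CN N} {κ : ℂ} (hv : ‖v‖ = 1) (h : u = κ • v ∨ u = -(κ • v)) :
    tr u v = κ ^ 2 := by
  have h1 : inner ℂ v (κ • v) = κ := by
    rw [inner_smul_right, inner_self_eq_norm_sq_to_K, hv]
    simp
  rcases h with h | h
  · rw [tr, h, h1]
  · rw [tr, h, inner_neg_right, h1, neg_sq]

/-- a finite cover by necks and domains of parallel sections. -/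
theorem cover [CompactSpace M] : ∃ (n : ℕ) (U : Fin n → Set M) (s : Fin n → M → CN P.N),
    (∀ j, P.Q (U j) (s j)) ∧ ∀ x, (∃ i, x ∈ K.C i ∪ K.phi i '' PB 1) ∨ ∃ j, x ∈ U j := by
  classical
  have hcl : IsClosed (⋃ i, (K.C i ∪ K.phi i '' PB 1))ᶜ :=
    (isOpen_iUnion fun i => K.nbh i 1 one_pos le_rfl).isClosed_compl
  have hout : ∀ x : ↥(⋃ i, (K.C i ∪ K.phi i '' PB 1))ᶜ, ∀ i, (x : M) ∉ K.C i :=
    fun x i hi => x.2 (mem_iUnion.2 ⟨i, Or.inl hi⟩)
  choose U s hxU hQ using fun x : ↥(⋃ i, (K.C i ∪ K.phi i '' PB 1))ᶜ => P.loc x (hout x)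
  obtain ⟨t, ht⟩ := hcl.isCompact.elim_finite_subcover U (fun x => P.op _ _ (hQ x))
    (fun x hx => mem_iUnion.2 ⟨⟨x, hx⟩, hxU ⟨x, hx⟩⟩)
  refine ⟨t.card, fun j => U (t.equivFin.symm j), fun j => s (t.equivFin.symm j),
    fun j => hQ _, fun x => ?_⟩
  by_cases hx : ∃ i, x ∈ K.C i ∪ K.phi i '' PB 1
  · exact Or.inl hx
  · right
    have h1 : x ∈ (⋃ i, (K.C i ∪ K.phi i '' PB 1))ᶜ := by
      rw [mem_compl_iff, mem_iUnion]
      exact hx
    obtain ⟨y, hy, hxy⟩ := mem_iUnion₂.1 (ht h1)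
    refine ⟨t.equivFin ⟨y, hy⟩, ?_⟩
    show x ∈ U (t.equivFin.symm (t.equivFin ⟨y, hy⟩))
    rw [Equiv.symm_apply_apply]
    exact hxy

include P in
/-- if `U(1)` cocycles are coboundaries, the parallel sections give a double-valued function. -/
theorem twist_of [T2Space M] [CompactSpace M] [IsManifold 𝓘(ℝ, E4) ∞ M] (hco : Coco M) :
    Nonempty (Twist K sg) := by
  classical
  obtain ⟨n, U, s, hQ, hcov⟩ := cover P
  -- the cover and the local sections
  let V : Fin m ⊕ Fin n → Set M := Sum.elim (fun i => K.C i ∪ K.phi i '' PB 1) U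
  let l : Fin m ⊕ Fin n → M → CN P.N := Sum.elim (lN P) s
  have hV : ∀ a, IsOpen (V a) := by
    rintro (i | j)
    · exact K.nbh i 1 one_pos le_rfl
    · exact P.op _ _ (hQ j)
  have hl : ∀ a, Rp P (V a) (l a) := by
    rintro (i | j)
    · exact rp_neck P i
    · exact rp_sec P (hQ j)
  have hcv : ∀ x, ∃ a, x ∈ V a := fun x => by
    rcases hcov x with ⟨i, hi⟩ | ⟨j, hj⟩
    · exact ⟨Sum.inl i, hi⟩
    · exact ⟨Sum.inr j, hj⟩
  -- only one set meets `C i`
  have hVC : ∀ i a x, x ∈ K.C i → x ∈ V a → a = Sum.inl i := by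
    rintro i (j | j) x hx hxa
    · by_contra hne
      have hij : i ≠ j := fun h => hne (by rw [h])
      rcases hxa with h | ⟨z, hz, rfl⟩
      · exact Set.disjoint_left.1 (K.disj i j hij) hx h
      · exact K.out j i z hz hx
    · exact absurd hx (P.out _ _ (hQ j) x hxa i)
  let g : Fin m ⊕ Fin n → Fin m ⊕ Fin n → M → ℂ := fun a b y =>
    if ∃ i, y ∈ K.C i then 1 else tr (l a y) (l b y)
  have hgin : ∀ a b y, (∃ i, y ∈ K.C i) → g a b y = 1 := fun a b y h => if_pos h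
  have hgout : ∀ a b y, (∀ i, y ∉ K.C i) → g a b y = tr (l a y) (l b y) := fun a b y h =>
    if_neg (by push Not; exact h)
  have hg : ∀ a b x, x ∈ V a → x ∈ V b → (∀ i, x ∉ K.C i) → ∃ κ : ℂ, ‖κ‖ = 1 ∧
      ∀ᶠ y in 𝓝 x, (∀ i, y ∉ K.C i) ∧ g a b y = κ ^ 2 ∧
        (l a y = κ • l b y ∨ l a y = -(κ • l b y)) := by
    intro a b x hxa hxb hx
    obtain ⟨κ, hκ, h⟩ := two_rp P (hl a) (hl b) hxa hxb hx
    refine ⟨κ, hκ, ?_⟩
    filter_upwards [h, out_nhds K hx] with y h1 h2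
    exact ⟨h2, by rw [hgout a b y h2, tr_eq h1.1 h1.2], h1.2⟩
  have hg1 : ∀ a b x, x ∈ V a → x ∈ V b → ‖g a b x‖ = 1 := by
    intro a b x hxa hxb
    by_cases hx : ∃ i, x ∈ K.C i
    · rw [hgin a b x hx, norm_one]
    · push Not at hx
      obtain ⟨κ, hκ, h⟩ := hg a b x hxa hxb hx
      rw [h.self_of_nhds.2.1, norm_pow, hκ, one_pow]
  have hg2 : ∀ a b x, x ∈ V a → x ∈ V b → ∀ᶠ y in 𝓝 x, g a b y = g a b x := by
    intro a b x hxa hxb
    by_cases hx : ∃ i, x ∈ K.C i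
    · obtain ⟨i, hi⟩ := hx
      have ha := hVC i a x hi hxa
      have hb := hVC i b x hi hxb
      subst ha hb
      rw [hgin _ _ x ⟨i, hi⟩]
      filter_upwards [(hV (Sum.inl i)).mem_nhds hxa] with y hy
      by_cases hy' : ∃ i, y ∈ K.C i
      · exact hgin _ _ y hy'
      · push Not at hy'
        obtain ⟨κ, hκ, h⟩ := two_rp P (hl (Sum.inl i)) (hl (Sum.inl i)) hy hy hy'
        rw [hgout _ _ y hy', tr_eq (κ := 1) h.self_of_nhds.1 (Or.inl (one_smul _ _).symm), one_pow]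
    · push Not at hx
      obtain ⟨κ, hκ, h⟩ := hg a b x hxa hxb hx
      filter_upwards [h] with y hy
      rw [hy.2.1, h.self_of_nhds.2.1]
  have hg3 : ∀ a b e x, x ∈ V a → x ∈ V b → x ∈ V e → g a b x * g b e x = g a e x := by
    intro a b e x hxa hxb hxe
    by_cases hx : ∃ i, x ∈ K.C i
    · rw [hgin _ _ x hx, hgin _ _ x hx, hgin _ _ x hx, one_mul]
    · push Not at hx
      obtain ⟨κ, hκ, h⟩ := two_rp P (hl a) (hl b) hxa hxb hx
      obtain ⟨κ', hκ', h'⟩ := two_rp P (hl b) (hl e) hxb hxe hx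
      have h1 := h.self_of_nhds
      have h2 := h'.self_of_nhds
      rw [hgout _ _ x hx, hgout _ _ x hx, hgout _ _ x hx, tr_eq h1.1 h1.2, tr_eq h2.1 h2.2,
        tr_eq (κ := κ * κ') h2.1, mul_pow]
      rcases h1.2 with k1 | k1 <;> rcases h2.2 with k2 | k2
      · left; rw [k1, k2, smul_smul]
      · right; rw [k1, k2, smul_neg, smul_smul]
      · right; rw [k1, k2, smul_smul]
      · left; rw [k1, k2, smul_neg, neg_neg, smul_smul]
  obtain ⟨c, hc1, hc2⟩ := hco (Fin m ⊕ Fin n) V g hV hcv hg1 hg2 hg3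
  -- the double-valued function
  let idx : M → Fin m ⊕ Fin n := fun y => (hcv y).choose
  have hidx : ∀ y, y ∈ V (idx y) := fun y => (hcv y).choose_spec
  let tw : M → Set (CN P.N) := fun y =>
    {v | ∀ j k, v j * v k = conj (c (idx y) y) * (l (idx y) y j * l (idx y) y k)}
  have hcc : ∀ a x, x ∈ V a → conj (c a x) * c a x = 1 := fun a x hx => by
    rw [mul_comm, Complex.mul_conj, Complex.normSq_eq_norm_sq, (hc1 a x hx).1]
    norm_num
  have key : ∀ a y, y ∈ V a → (∀ i, y ∉ K.C i) → ∀ w : CN P.N,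
      (∀ j k, w j * w k = conj (c a y) * (l a y j * l a y k)) → tw y = {w, -w} := by
    intro a y hya hy w hw
    obtain ⟨κ, hκ, h⟩ := hg (idx y) a y (hidx y) hya hy
    obtain ⟨-, h2, h3⟩ := h.self_of_nhds
    have h4 := hc2 (idx y) a y (hidx y) hya
    have h5 : ∀ j k, conj (c (idx y) y) * (l (idx y) y j * l (idx y) y k) = w j * w k := by
      intro j k
      have h6 : l (idx y) y j * l (idx y) y k = κ ^ 2 * (l a y j * l a y k) := by
        rcases h3 with h3 | h3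
        · rw [h3]
          simp only [PiLp.smul_apply, smul_eq_mul]
          ring
        · rw [h3]
          simp only [PiLp.neg_apply, PiLp.smul_apply, smul_eq_mul]
          ring
      rw [h6, ← h2, h4, hw j k]
      calc conj (c (idx y) y) * (c (idx y) y * conj (c a y) * (l a y j * l a y k))
          = (conj (c (idx y) y) * c (idx y) y) * (conj (c a y) * (l a y j * l a y k)) := by ring
        _ = _ := by rw [hcc _ _ (hidx y), one_mul]
    ext v
    rw [mem_insert_iff, mem_singleton_iff]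
    constructor
    · intro hv
      exact sq_eq fun j k => (hv j k).trans (h5 j k)
    · rintro (rfl | rfl) j k
      · exact (h5 j k).symm
      · rw [h5]
        simp only [PiLp.neg_apply]
        ring
  have hroot : ∀ i : Fin m, ∃ ρ : ℂ, ∀ z ∈ PB 1, ρ * ρ = conj (c (Sum.inl i) (K.phi i z)) := by
    intro i
    by_cases h : ∃ z : E4, z ∈ PB 1
    · obtain ⟨z₀, hz₀⟩ := h
      obtain ⟨ρ, hρ, -⟩ := exists_root (conj (c (Sum.inl i) (K.phi i z₀))) (by
        rw [Complex.norm_conj]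
        exact (hc1 (Sum.inl i) _ (Or.inr ⟨z₀, hz₀, rfl⟩)).1)
      refine ⟨ρ, fun z hz => ?_⟩
      have h1 : ∀ z ∈ PB 1, ∀ᶠ z' in 𝓝 z, c (Sum.inl i) (K.phi i z') =
          c (Sum.inl i) (K.phi i z) := fun z hz =>
        (phi_cont K i hz).eventually (hc1 (Sum.inl i) _ (Or.inr ⟨z, hz, rfl⟩)).2
      rw [hρ, const_of_lc isPreconnected_PB h1 hz₀ hz]
    · exact ⟨0, fun z hz => absurd ⟨z, hz⟩ h⟩
  choose ρ hρ using hroot
  refine ⟨⟨P.N, tw, ?_, fun i z => ρ i • P.psi i z, ?_, ?_, ?_⟩⟩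
  · intro x hx
    obtain ⟨W, σ, hxW, hW⟩ := P.loc x hx
    obtain ⟨a, ha⟩ := hcv x
    obtain ⟨κ, hκ, h⟩ := hl a x ha hx W σ hW hxW
    obtain ⟨hcx, hcl⟩ := hc1 a x ha
    obtain ⟨ρ, hρ, hρn⟩ := exists_root (conj (c a x)) (by rw [Complex.norm_conj, hcx])
    refine ⟨{y | ((((l a y = κ • σ y ∨ l a y = -(κ • σ y)) ∧ c a y = c a x) ∧
          ∀ i, y ∉ K.C i) ∧ y ∈ V a) ∧ y ∈ W},
      (((h.and hcl).and (out_nhds K hx)).and (((hV a).mem_nhds ha))).and
      ((P.op _ _ hW).mem_nhds hxW), fun y => (ρ * κ) • σ y, ?_, ?_⟩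
    · have h0 : ContinuousOn σ {y | ((((l a y = κ • σ y ∨ l a y = -(κ • σ y)) ∧ c a y = c a x) ∧
          ∀ i, y ∉ K.C i) ∧ y ∈ V a) ∧ y ∈ W} := (P.cont _ _ hW).mono fun y hy => hy.2
      exact h0.const_smul (ρ * κ)
    · rintro y ⟨⟨⟨⟨h1, h2⟩, h3⟩, h4⟩, h5⟩
      have h6 : ‖(ρ * κ) • σ y‖ = 1 := by
        rw [norm_smul, norm_mul, hρn, hκ, P.unit _ _ hW y h5, one_mul, one_mul]
      refine ⟨fun h7 => ?_, key a y h4 h3 _ fun j k => ?_⟩
      · have h8 : (ρ * κ) • σ y = 0 := h7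
        rw [h8, norm_zero] at h6
        exact zero_ne_one h6
      · rw [h2, ← hρ]
        rcases h1 with h1 | h1
        · rw [h1]
          simp only [PiLp.smul_apply, smul_eq_mul]
          ring
        · rw [h1]
          simp only [PiLp.neg_apply, PiLp.smul_apply, smul_eq_mul]
          ring
  · intro i z hz
    have h0 : ContinuousAt (fun z => ρ i • P.psi i z) z := (psi_cont P i hz).const_smul (ρ i)
    exact h0.continuousWithinAt
  · intro i z hz
    have h0 := key (Sum.inl i) (K.phi i z) (Or.inr ⟨z, hz, rfl⟩) (fun j => K.out i j z hz)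
      (ρ i • P.psi i z) fun j k => by
        rw [← hρ i z hz]
        rcases lN_eq P i hz with h1 | h1
        · show _ = ρ i * ρ i * (lN P i (K.phi i z) j * lN P i (K.phi i z) k)
          rw [h1]
          simp only [PiLp.smul_apply, smul_eq_mul]
          ring
        · show _ = ρ i * ρ i * (lN P i (K.phi i z) j * lN P i (K.phi i z) k)
          rw [h1]
          simp only [PiLp.neg_apply, PiLp.smul_apply, smul_eq_mul]
          ring
    show ρ i • P.psi i z ∈ tw (K.phi i z)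
    rw [h0]
    exact mem_insert _ _
  · intro i z hz
    show ρ i • P.psi i (-z) = sg i • ρ i • P.psi i z
    rw [P.psi_par i z hz, smul_comm]

end Tw

/-! ### the parallel sections -/

section Par

open KumTwM_387 Loc_524

variable {M : Type u} [TopologicalSpace M] [T2Space M] [CompactSpace M] [ChartedSpace E4 M]
  [IsManifold 𝓘(ℝ, E4) ∞ M]
variable {m : ℕ} (K : Neck M m)

theorem norm_of_hh {N : ℕ} {v : CN N} (h : Par_387.hh v.ofLp v.ofLp = 1) : ‖v‖ = 1 := by
  have h1 : (‖v‖ ^ 2 : ℝ) = 1 := by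
    rw [EuclideanSpace.norm_sq_eq]
    have h2 : Par_387.hh v.ofLp v.ofLp = ((∑ i, ‖v i‖ ^ 2 : ℝ) : ℂ) := by
      unfold Par_387.hh
      push_cast
      refine Finset.sum_congr rfl fun i _ => ?_
      rw [mul_comm, Complex.mul_conj, Complex.normSq_eq_norm_sq]
      push_cast
      rfl
    rw [h2] at h
    exact_mod_cast h
  nlinarith [norm_nonneg v]

theorem norm_of_conj {c : ℂ} (h : conj c * c = 1) : ‖c‖ = 1 := by
  have h1 : ((‖c‖ ^ 2 : ℝ) : ℂ) = 1 := by
    rw [mul_comm, Complex.mul_conj, Complex.normSq_eq_norm_sq] at h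
    exact h
  have h2 : ‖c‖ ^ 2 = 1 := by exact_mod_cast h1
  nlinarith [norm_nonneg c]

/-- the parallel sections of `KumTwM_387`. -/
theorem exists_psec {d : Fin m → H2 M} (hN : NeckT K d) (I : Finset (Fin m))
    (hI : ((1 : ℝ) / 2) • ∑ i ∈ I, d i ∈ HZ M) :
    Nonempty (PSec K (fun i => if i ∈ I then -1 else 1)) := by
  classical
  obtain ⟨N, p, a, hp, ha, hcls⟩ := hI
  obtain ⟨τ, s₀, hs₀, hτ, r, hr0, hr1, hpull⟩ := KumTau_800.exists_tau K hN I hcls
  set T : F1 E4 M := (-1 : ℝ) • τ with hTdef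
  have hT : ∀ x, (∀ i, x ∉ K.C i) → SmAt1 T x ∧ at2 (dG T) x = -val a x := fun x hx => by
    obtain ⟨h1, h2⟩ := hτ x hx
    refine ⟨h1.smul _, ?_⟩
    rw [hTdef, KumTau_800.dG_smul_at _ h1, h2, neg_one_smul]
  have hTev : ∀ x, (∀ i, x ∉ K.C i) → ∀ᶠ y in 𝓝 x, SmAt1 T y ∧ at2 (dG T) y = -val a y :=
    fun x hx => (out_nhds K hx).mono fun y hy => hT y hy
  have hT1 : ∀ i, ∀ z ∈ PB 1, SmAt1 T (K.phi i z) := fun i z hz =>
    (hT _ fun j => K.out i j z hz).1
  have hT2 : ∀ i, ∀ z ∈ PB 1, at2 (dG T) (K.phi i z) = -val a (K.phi i z) := fun i z hz =>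
    (hT _ fun j => K.out i j z hz).2
  choose psi hpsi c hc1 hc2 using fun i => exists_neck hp ha K i (hT1 i) (hT2 i)
  have hsign : ∀ i, c i = if i ∈ I then -1 else 1 := by
    intro i
    have h1 := sign_psi hp K i (hN.disc i) hr0 hr1 (s := if i ∈ I then 1 else 0)
      (A₀ := (-1 : ℝ) • s₀) (T := T) (fun q _ => smAt1_of_smooth (hs₀.smul _) q) (fun z hz v => by
        have h2 := hpull i z hz
        have h3 : Pull_129.pb1 (K.phi i) T z = (-1 : ℝ) • Pull_129.pb1 (K.phi i) τ z := rfl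
        have h4 : Pull_129.pb1 (K.phi i) ((-1 : ℝ) • s₀) z =
          (-1 : ℝ) • Pull_129.pb1 (K.phi i) s₀ z := rfl
        rw [h3, h4, h2]
        by_cases hi : i ∈ I
        · simp only [if_pos hi, add_apply, smul_apply, smul_eq_mul]
          ring
        · simp only [if_neg hi, add_apply, smul_apply, smul_eq_mul]
          ring) (hpsi i) (hc2 i)
    rw [h1]
    by_cases hi : i ∈ I
    · rw [if_pos hi, if_pos hi]
      exact KumTwB_303.exp_one
    · rw [if_neg hi, if_neg hi]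
      exact KumTwB_303.exp_zero'
  refine ⟨{
    N := N
    Q := fun U s => IsOpen U ∧ (∀ y ∈ U, ∀ i, y ∉ K.C i) ∧
      ∀ y ∈ U, GoodM p T (fun y => (s y).ofLp) y
    op := fun U s h => h.1
    out := fun U s h => h.2.1
    cont := fun U s h y hy => ?_
    unit := fun U s h y hy => norm_of_hh (h.2.2 y hy).unit
    loc := fun x hx => ?_
    cmp := fun U s U' s' h h' x hx hx' => ?_
    psi := fun i z => WithLp.toLp 2 (psi i z)
    psi_cmp := fun i z hz U s h hzU => ?_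
    psi_par := fun i z hz => ?_ }⟩
  · have h1 : ContinuousAt (fun y => (s y).ofLp) y :=
      continuousAt_pi.2 fun i => ((h.2.2 y hy).sm i).continuousAt
    exact ((PiLp.continuous_toLp 2 (fun _ : Fin N => ℂ)).continuousAt.comp h1).continuousWithinAt
  · obtain ⟨s, hs⟩ := exists_goodM hp ha (hTev x hx)
    obtain ⟨U, hU, hUo, hxU⟩ := eventually_nhds_iff.1 (hs.and (out_nhds K hx))
    exact ⟨U, fun y => WithLp.toLp 2 (s y), hxU, hUo, fun y hy => (hU y hy).2,
      fun y hy => (hU y hy).1⟩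
  · have h1 : ∀ᶠ y in 𝓝 x, GoodM p T (fun y => (s y).ofLp) y := by
      filter_upwards [h.1.mem_nhds hx] with y hy using h.2.2 y hy
    have h2 : ∀ᶠ y in 𝓝 x, GoodM p T (fun y => (s' y).ofLp) y := by
      filter_upwards [h'.1.mem_nhds hx'] with y hy using h'.2.2 y hy
    obtain ⟨κ, hκ, he⟩ := goodM_cmp hp ha (hTev x (h.2.1 x hx)) h1 h2
    refine ⟨κ, norm_of_conj hκ, he.mono fun y hy => ?_⟩
    ext j
    exact congrFun hy j
  · have h1 : ∀ᶠ y in 𝓝 (K.phi i z), GoodM p T (fun y => (s y).ofLp) y := by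
      filter_upwards [h.1.mem_nhds hzU] with y hy using h.2.2 y hy
    obtain ⟨κ, hκ, he⟩ := neck_cmp hp ha K i (hT1 i) (hT2 i) (hpsi i) hz h1
    refine ⟨conj κ, by rw [Complex.norm_conj]; exact norm_of_conj hκ, he.mono fun y hy => ?_⟩
    ext j
    have h2 : (s (K.phi i y)).ofLp j = κ * psi i y j := congrFun hy j
    show psi i y j = conj κ * (s (K.phi i y)).ofLp j
    rw [h2, ← mul_assoc, hκ, one_mul]
  · ext j
    have h1 : psi i (-z) j = c i * psi i z j := congrFun (hc2 i z hz) j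
    show psi i (-z) j = ((if i ∈ I then -1 else 1 : ℝ) • (WithLp.toLp 2 (psi i z) : CN N)) j
    rw [h1, hsign i]
    by_cases hi : i ∈ I
    · simp [hi]
    · simp [hi]

/-- **KTW.** -/
theorem ktw (hF : FLATK.{u}) : KTW.{u} := by
  intro M _ _ _ _ _ _ w hw hK m K d hN I hI
  obtain ⟨P⟩ := exists_psec K hN I hI
  exact twist_of P (coco hF hw hK)

end Par

end

end Crest.Agent.R235.KumTwD_800
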