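import Crest.Agent.R235.MdlD_489

/-!
Row 235 (S0364), PACKAGE SW, MODEL output MODB (helper489), part E: `N = 1`: the section
`U (y, i) = us y` is a parallel unit section (`TD.PSec`) for `th_t` (`a₀ = 0`).
-/

set_option autoImplicit false
set_option maxSynthPendingDepth 3
set_option linter.unusedSectionVars false

open scoped ContDiff ENNReal NNReal Topology Manifold Bundle RealInnerProductSpace
open MeasureTheory Set Filter Metric Bundle Matrix

universe v

namespace Crest.Agent.R235.MdlE_489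

open Crest.Agent.R240 Crest.Agent.R240.Ch Crest.Agent.R235.SWDefs_53 Crest.Agent.R235.IndTri_451
open Crest.Agent.R249.Tv57 (Dat OpPair SmF Spec)
open Crest.Agent.R249.Vf281 (VSm mCov)
open Crest.Agent.R249.Tz805 (ToF Bun opB)
open Crest.Agent.R235.Tau483 Crest.Agent.R235.SWTn_451
open Crest.Agent.R235.MdlA_489 Crest.Agent.R235.MdlB_489 Crest.Agent.R235.MdlC_489
open Crest.Agent.R235.MdlL_453 Crest.Agent.R235.VIso_470 Crest.Agent.R235.MdlD_489

noncomputable section

variable {M : Type v} [MetricSpace M] [CompactSpace M] [ConnectedSpace M]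
  [ChartedSpace (EuclideanSpace ℝ (Fin 4)) M] [IsManifold (𝓡 4) ∞ M]
  [RiemannianBundle (fun p : M => TangentSpace (𝓡 4) p)]
  [IsContMDiffRiemannianBundle (𝓡 4) ∞ (EuclideanSpace ℝ (Fin 4))
    (fun p : M => TangentSpace (𝓡 4) p)]
  [IsRiemannianManifold (𝓡 4) M] [MeasurableSpace M] [BorelSpace M]
  [SecondCountableTopology M] [Nonempty M] [IsFiniteMeasureOnCompacts (μHE[4] : Measure M)]
  {κ1 κT : Type} [Fintype κ1] [Fintype κT]

variable {S : SWS M (Fin 4 × Fin 1) κ1 κT} {T : ToF 4 M}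
    {c : κ1 → Fin 4 × Fin 1 → (z : M) → TangentSpace (𝓡 4) z}
    {W : Fin 4 × Fin 1 → Fin 4 × Fin 1 → (z : M) → TangentSpace (𝓡 4) z}
    {sT : κT → (z : M) → TangentSpace (𝓡 4) z} {w : Trip M} {e : Fin 3 → F2 E4 M}
    {ι : ℝ} {ww : Fin 3 → Fin 3 → M → ℝ} {D : Fin 3 → ℝ} {p : M → Matrix (Fin 1) (Fin 1) ℂ}
    {τ : E3 → TD M κT} {cE : E3 → Z2 M} {C : ℝ}

/-- `(s - i J s)/√2` in terms of the isometry. -/
theorem hatf_one (hT : Tws S p) (hp : IsLine p) (u : Fin 4 → M → ℝ) (z : M) :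
    hatf S (fun y => u y.1) z = Vu Jc p u z *ᵥ fun _ => 1 := by
  funext y
  have h1 : (Vu Jc p u z *ᵥ fun _ => (1 : ℂ)) y = hc Jc (fun a => u a z) y.1 := by
    rw [Matrix.mulVec, dotProduct, Fin.sum_univ_one, mul_one]
    change hc Jc (fun a => u a z) y.1 * p z y.2 0 = _
    rw [isLine_one hp, Subsingleton.elim y.2 0, Matrix.one_apply_eq, mul_one]
  have h2 := iu_one hT hp u y z
  have h3 : (Jm S z *ᵥ sv (fun y : Fin 4 × Fin 1 => u y.1) z) y = (MdlL_453.Jc *ᵥ fun y => u y z) y.1 := h2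
  rw [h1]
  unfold hatf hat hc
  simp only [Pi.smul_apply, Pi.sub_apply, smul_eq_mul, cV]
  rw [h3, one_div]
  rfl

/-- **the parallel unit section.** -/
theorem psec_one (h : Mh S T c W sT w e ι ww D p τ cE C) {t : E3} (ht : ‖t‖ = 1)
    {s : Fin 4 → ℝ} (hs0 : VIso_470.PP rhoc (muT D t) *ᵥ s = s) (hs1 : s ⬝ᵥ s = 1) :
    (τ t).PSec S (thT τ S W sT e ww D 0 t) (1 / 2)
      (fun y z => us rhoc (muT D t) (nuT ww t) s y.1 z) := by
  have ht0 := ne_of ht
  have hsm : ∀ k, ContMDiff (𝓡 4) 𝓘(ℝ, ℝ) ∞ (nuT ww t k) := fun k => smooth_nuT h.lt h.smw ht0 k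
  have hnn : ∀ z, ∑ k, nuT ww t k z ^ 2 = 1 := fun z => nuT_sq h.lt ht0 z
  have hpos : ∀ z, 0 < 1 + ∑ k, nuT ww t k z * muT D t k := fun z =>
    nu_mu_pos h.lt h.D1 h.Dp ht0 z
  have hsmU : Crest.Agent.R249.Tv57.SmV (n := 4)
      (fun (y : Fin 4 × Fin 1) z => us rhoc (muT D t) (nuT ww t) s y.1 z) := fun y =>
    smooth_us hsm hpos s y.1
  have hsec : (τ t).SecE S (fun y z => us rhoc (muT D t) (nuT ww t) s y.1 z) := by
    refine secE_one h.tws h.line (u := us rhoc (muT D t) (nuT ww t) s) fun z => ?_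
    have e1 : (fun k => - (τ t).n k z) = fun k => nuT ww t k z := by
      funext k
      rw [h.n_eq]
      rfl
    rw [e1]
    exact us_PP q4 (muT D t) hnn s z
  obtain ⟨hV, hl⟩ := vi_t h.tws h.line h.lt h.smw h.D1 h.Dp ht0 (h.n_eq t) hs0 hs1
  refine ⟨hsmU, hsec, fun z => ?_, fun y z => ?_⟩
  · have e1 := us_unit q4 hnn hs0 hs1 (hpos z)
    rw [Fintype.sum_prod_type]
    simp only [Fin.sum_univ_one]
    have e2 : ∑ a, us rhoc (muT D t) (nuT ww t) s a z ^ 2 = 1 := by
      rw [← e1]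
      exact Finset.sum_congr rfl fun a _ => pow_two _
    rw [e2]
    norm_num
  · refine par_of h.ok h.tg h.ti (h.tau t ht).norm (ln_of h.line) hV hl hsmU hsec
      (α := fun _ _ => 1) (fun j => contMDiff_const) (fun x => ?_) (fun z => ?_)
      (fun z v => ?_) y z
    · rw [isLine_one h.line, Matrix.one_mulVec]
    · exact hatf_one h.tws h.line (us rhoc (muT D t) (nuT ww t) s) z
    · unfold nab
      have e1 : dV (fun (_ : M) (_ : Fin 1) => (1 : ℂ)) z v = 0 := by
        funext j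
        unfold dV dC
        simp
      have e2 : at1 (0 : F1 E4 M) z v = 0 := rfl
      rw [e1, e2, Matrix.mulVec_zero, Complex.ofReal_zero, mul_zero, zero_smul, add_zero]

theorem ch0_one (hp : IsLine p) : Ch0 p (0 : Z2 M) := by
  intro x u v
  have e1 : ∀ u, dmt p x u = 0 := by
    intro u
    ext i j
    have e2 : (fun y => p y i j) = fun _ => (1 : Matrix (Fin 1) (Fin 1) ℂ) i j := by
      funext y
      rw [isLine_one hp]
    unfold dmt
    rw [e2]
    unfold dC
    simp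
  rw [e1, e1, Matrix.mul_zero, sub_zero, Matrix.mul_zero, Matrix.trace_zero, mul_zero,
    Complex.zero_re]
  rfl

/-- **the flat family for `L` trivial.** -/
theorem ffam_one (h : Mh S T c W sT w e ι ww D p τ cE C) :
    FFam S ww τ C (thT τ S W sT e ww D 0) := by
  refine h.ffam smooth1_zero (ch0_one h.line) fun x => ?_
  have e1 : val (0 : Z2 M) x = 0 := rfl
  have e2 : dG (0 : F1 E4 M) = 0 := by
    have := dG_smul (0 : ℝ) (smooth1_zero : Smooth1 (0 : F1 E4 M))
    rw [zero_smul, zero_smul] at this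
    exact this
  rw [e1, smul_zero, e2]
  rfl

end

end Crest.Agent.R235.MdlE_489
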