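import Crest.Agent.R235.SWHil_53
import Crest.Agent.R235.SWTd_451

/-!
Row 235 (S0364), PACKAGE SW (captain helper53), leaf SW-J1X (helper133).

* `j1x : J1X` : the smooth complex structure `J1` of `W⁻ ⊗ L`,
  `J1 = (1/4) ∑_A c(s_A) J c(s_A)ᵀ`;
* `A_iu`, `cm_iu`, `cl_J` : `A (i u) = J1 A u`, `c(a) i (i u) = J1 c(a) i u`;
* `rq_rot`, `norm_rot` : `ρ(u)`, `|u|²` are invariant under `u ↦ (c + e i) u`;
* `A_mul`, `A_rot` : Leibniz, and the gauge transformation of `A`.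
-/

set_option autoImplicit false
set_option maxSynthPendingDepth 3
set_option linter.unusedSectionVars false

open scoped ContDiff ENNReal NNReal Topology Manifold Bundle RealInnerProductSpace
open MeasureTheory Set Filter Metric Bundle Matrix

universe v

namespace Crest.Agent.R235.SWJ1_133

open Crest.Agent.R249.Tv57 Crest.Agent.R247.Ms322 Crest.Agent.R247.Dir593
open Crest.Agent.R235.SWDefs_53 Crest.Agent.R235.SWSym_451

noncomputable section

local notation "𝔼4" => EuclideanSpace ℝ (Fin 4)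

section main

variable {M : Type v} [MetricSpace M] [CompactSpace M] [ConnectedSpace M]
  [ChartedSpace (EuclideanSpace ℝ (Fin 4)) M] [IsManifold (𝓡 4) ∞ M]
  [RiemannianBundle (fun p : M => TangentSpace (𝓡 4) p)]
  [IsContMDiffRiemannianBundle (𝓡 4) ∞ (EuclideanSpace ℝ (Fin 4))
    (fun p : M => TangentSpace (𝓡 4) p)]
  [IsRiemannianManifold (𝓡 4) M] [MeasurableSpace M] [BorelSpace M]
  [SecondCountableTopology M] [Nonempty M]
  {κ0 κ1 κT : Type} [Fintype κ0] [Fintype κ1] [Fintype κT]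

/-- Clifford multiplication by `X` at `z`. -/
def Cx (cc : κ1 → κ0 → M → 𝔼4) (z : M) (X : 𝔼4) : Matrix κ1 κ0 ℝ := fun x y => ⟪cc x y z, X⟫

/-- `p₀` -/
def p0 (S : SWS M κ0 κ1 κT) (z : M) : Matrix κ0 κ0 ℝ := fun y y' => S.D0.p y y' z

/-- `p₁` -/
def p1 (S : SWS M κ0 κ1 κT) (z : M) : Matrix κ1 κ1 ℝ := fun x x' => S.D1.p x x' z

/-- `J` -/
def Jz (S : SWS M κ0 κ1 κT) (z : M) : Matrix κ0 κ0 ℝ := fun y y' => S.J y y' z

/-- `ρ_k` -/
def Rz (S : SWS M κ0 κ1 κT) (z : M) (k : Fin 3) : Matrix κ0 κ0 ℝ := fun y y' => S.rho k y y' z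

/-- the complex structure `J1 = (1/4) ∑_A c(s_A) J c(s_A)ᵀ`. -/
def j1 (S : SWS M κ0 κ1 κT) (cc : κ1 → κ0 → M → 𝔼4) (x x' : κ1) (z : M) : ℝ :=
  (1 / 4) * ∑ A, ∑ y', (∑ y, ⟪cc x y z, S.s A z⟫ * S.J y y' z) * ⟪cc x' y' z, S.s A z⟫

/-- the matrix of `j1`. -/
def j1m (S : SWS M κ0 κ1 κT) (cc : κ1 → κ0 → M → 𝔼4) (z : M) : Matrix κ1 κ1 ℝ :=
  fun x x' => j1 S cc x x' z

section alg

variable {S : SWS M κ0 κ1 κT} {cc : κ1 → κ0 → M → 𝔼4} (h : Sym S cc) (z : M)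
include h

theorem Cx_p0 (X : 𝔼4) : Cx cc z X * p0 S z = Cx cc z X := by
  ext x y
  rw [Matrix.mul_apply]
  show ∑ y', ⟪cc x y' z, X⟫ * S.D0.p y' y z = ⟪cc x y z, X⟫
  conv_rhs => rw [← h.cc_p x y z, sum_inner]
  refine Finset.sum_congr rfl fun y' _ => ?_
  rw [real_inner_smul_left]; ring

theorem p1_Cx (X : 𝔼4) : p1 S z * Cx cc z X = Cx cc z X := by
  ext x y
  rw [Matrix.mul_apply]
  show ∑ x', S.D1.p x x' z * ⟪cc x' y z, X⟫ = ⟪cc x y z, X⟫
  conv_rhs => rw [← h.p_cc x y z, sum_inner]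
  refine Finset.sum_congr rfl fun y' _ => ?_
  rw [real_inner_smul_left]

theorem Cx_CxT (X : 𝔼4) : Cx cc z X * (Cx cc z X)ᵀ = (⟪X, X⟫ : ℝ) • p1 S z := by
  ext x x'
  rw [Matrix.mul_apply, Matrix.smul_apply]
  have h1 := h.clif1 z X X x x'
  show ∑ y, ⟪cc x y z, X⟫ * ⟪cc x' y z, X⟫ = ⟪X, X⟫ * S.D1.p x x' z
  have h2 : ∑ y, (⟪cc x y z, X⟫ * ⟪cc x' y z, X⟫ + ⟪cc x y z, X⟫ * ⟪cc x' y z, X⟫) =
      2 * ∑ y, ⟪cc x y z, X⟫ * ⟪cc x' y z, X⟫ := by
    rw [Finset.mul_sum]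
    exact Finset.sum_congr rfl fun y _ => by ring
  rw [h2] at h1
  linarith

theorem sum_s : ∑ A, (⟪S.s A z, S.s A z⟫ : ℝ) = 4 := by
  have h1 : ∀ i : Fin 4, ∑ A, (S.s A z i) * (S.s A z i) = 1 := by
    intro i
    have h2 := congrArg (fun v : 𝔼4 => v i) (h.tight z (EuclideanSpace.single i (1 : ℝ)))
    simp only [PiLp.single_apply, if_true] at h2
    rw [← h2, WithLp.ofLp_sum, Finset.sum_apply]
    refine Finset.sum_congr rfl fun A _ => ?_
    rw [PiLp.smul_apply, smul_eq_mul, EuclideanSpace.inner_single_left]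
    simp
  have h3 : ∀ A, (⟪S.s A z, S.s A z⟫ : ℝ) = ∑ i, (S.s A z i) * (S.s A z i) := fun A => by
    rw [PiLp.inner_apply]
    exact Finset.sum_congr rfl fun i _ => rfl
  simp only [h3]
  rw [Finset.sum_comm]
  simp only [h1]
  simp

theorem J_T : (Jz S z)ᵀ = - Jz S z := by
  ext y y'
  exact h.skewJ y' y z

theorem J_J : Jz S z * Jz S z = - p0 S z := by
  ext y y'
  rw [Matrix.mul_apply]
  exact h.Jsq y y' z

theorem p0_J : p0 S z * Jz S z = Jz S z := by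
  ext y y'
  rw [Matrix.mul_apply]
  exact h.pJ y y' z

omit h in
theorem j1_mat : j1m S cc z =
    (1 / 4 : ℝ) • ∑ A, Cx cc z (S.s A z) * Jz S z * (Cx cc z (S.s A z))ᵀ := by
  ext x x'
  rw [Matrix.smul_apply, Matrix.sum_apply]
  rfl

theorem exJ : ∃ K : Matrix κ1 κ1 ℝ, Kᵀ = - K ∧ ∀ X, K * Cx cc z X = Cx cc z X * Jz S z := by
  obtain ⟨K, h1, h2⟩ := h.exJ1 z
  refine ⟨Matrix.of K, by ext x x'; exact h1 x' x, fun X => ?_⟩
  ext x y
  rw [Matrix.mul_apply, Matrix.mul_apply]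
  have h3 := congrArg (fun v : 𝔼4 => (⟪v, X⟫ : ℝ)) (h2 x y)
  simp only [sum_inner, real_inner_smul_left] at h3
  refine h3.trans (Finset.sum_congr rfl fun y' _ => ?_)
  exact mul_comm _ _

theorem j1_eq : ∃ K : Matrix κ1 κ1 ℝ, (∀ X, K * Cx cc z X = Cx cc z X * Jz S z) ∧
    j1m S cc z = K * p1 S z := by
  obtain ⟨K, -, h2⟩ := exJ h z
  refine ⟨K, h2, ?_⟩
  rw [j1_mat]
  have h3 : ∀ A, Cx cc z (S.s A z) * Jz S z * (Cx cc z (S.s A z))ᵀ =
      (⟪S.s A z, S.s A z⟫ : ℝ) • (K * p1 S z) := by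
    intro A
    rw [← h2, Matrix.mul_assoc, Cx_CxT h z, Matrix.mul_smul]
  simp only [h3]
  rw [← Finset.sum_smul, sum_s h z, smul_smul]
  norm_num

/-- `J1 c(X) = c(X) J` -/
theorem j1_C (X : 𝔼4) : j1m S cc z * Cx cc z X =
    Cx cc z X * Jz S z := by
  obtain ⟨K, h1, h2⟩ := j1_eq h z
  rw [h2, Matrix.mul_assoc, p1_Cx h z, h1]

theorem p1_j1 : p1 S z * j1m S cc z =
    j1m S cc z := by
  rw [j1_mat, Matrix.mul_smul, Matrix.mul_sum]
  congr 1
  refine Finset.sum_congr rfl fun A _ => ?_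
  rw [← Matrix.mul_assoc, ← Matrix.mul_assoc, p1_Cx h z]

theorem j1_T : (j1m S cc z)ᵀ = - j1m S cc z := by
  rw [j1_mat, Matrix.transpose_smul, Matrix.transpose_sum, ← smul_neg, ← Finset.sum_neg_distrib]
  congr 1
  refine Finset.sum_congr rfl fun A _ => ?_
  rw [Matrix.transpose_mul, Matrix.transpose_mul, Matrix.transpose_transpose, J_T h z,
    Matrix.neg_mul, Matrix.mul_neg, Matrix.mul_assoc]

theorem j1_j1 : j1m S cc z *
    j1m S cc z = - p1 S z := by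
  have h1 : j1m S cc z *
      ((1 / 4 : ℝ) • ∑ A, Cx cc z (S.s A z) * Jz S z * (Cx cc z (S.s A z))ᵀ) = - p1 S z := by
    rw [Matrix.mul_smul, Matrix.mul_sum]
    have h3 : ∀ A, j1m S cc z *
        (Cx cc z (S.s A z) * Jz S z * (Cx cc z (S.s A z))ᵀ) =
        (⟪S.s A z, S.s A z⟫ : ℝ) • (- p1 S z) := by
      intro A
      rw [← Matrix.mul_assoc, ← Matrix.mul_assoc, j1_C h z, Matrix.mul_assoc (Cx cc z (S.s A z)),
        J_J h z, Matrix.mul_neg, Cx_p0 h z, Matrix.neg_mul, Cx_CxT h z, smul_neg]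
    simp only [h3]
    rw [← Finset.sum_smul, sum_s h z, smul_smul]
    norm_num
  rwa [← j1_mat] at h1

end alg

theorem sm_j1 {S : SWS M κ0 κ1 κT} {cc : κ1 → κ0 → M → 𝔼4} (h : Sym S cc) (x x' : κ1) :
    ContMDiff (𝓡 4) 𝓘(ℝ, ℝ) ∞ (j1 S cc x x') := by
  refine ContMDiff.mul contMDiff_const ?_
  refine contMDiff_finsetSum fun A _ => contMDiff_finsetSum fun y' _ => ?_
  refine ContMDiff.mul (contMDiff_finsetSum fun y _ => ?_) ((h.smcc x' y').inner (h.sms A))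
  exact ((h.smcc x y).inner (h.sms A)).mul (h.smJ y y')

/-- **the complex structure of `W⁻ ⊗ L`.** -/
theorem cj1 {S : SWS M κ0 κ1 κT} {cc : κ1 → κ0 → M → 𝔼4} (h : Sym S cc) : CJ1 S cc (j1 S cc) where
  sm := sm_j1 h
  skew := fun x x' z => congrFun (congrFun (j1_T h z) x') x
  pJ := fun x x'' z => by
    have := congrFun (congrFun (p1_j1 h z) x) x''
    rw [Matrix.mul_apply] at this
    exact this
  sq := fun x x'' z => by
    have := congrFun (congrFun (j1_j1 h z) x) x''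
    rw [Matrix.mul_apply] at this
    exact this
  cc := fun x y z => by
    refine ext_inner_right ℝ fun X => ?_
    have := congrFun (congrFun (j1_C h z X) x) y
    rw [Matrix.mul_apply, Matrix.mul_apply] at this
    rw [sum_inner, sum_inner]
    simp only [real_inner_smul_left]
    refine this.trans (Finset.sum_congr rfl fun y' _ => ?_)
    exact mul_comm _ _

/-! ### the operators -/

section op

variable {S : SWS M κ0 κ1 κT} {cc : κ1 → κ0 → M → 𝔼4} {J1 : κ1 → κ1 → M → ℝ}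

theorem smV_iu (h : Sym S cc) {u : κ0 → M → ℝ} (hu : SmV (n := 4) u) : SmV (n := 4) (S.iu u) :=
  fun y => contMDiff_finsetSum fun y' _ => (h.smJ y y').mul (hu y')

theorem sec_iu (h : Sym S cc) (u : κ0 → M → ℝ) : S.D0.Sec (S.iu u) := by
  intro y z
  show ∑ y', S.D0.p y y' z * ∑ y'', S.J y' y'' z * u y'' z = ∑ y'', S.J y y'' z * u y'' z
  simp only [Finset.mul_sum]
  rw [Finset.sum_comm]
  refine Finset.sum_congr rfl fun y'' _ => ?_
  rw [← h.pJ y y'' z, Finset.sum_mul]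
  exact Finset.sum_congr rfl fun y' _ => by ring

/-- `i (i u) = - u`, at a point. -/
theorem iu_iu (h : Sym S cc) {u : κ0 → M → ℝ} {z : M}
    (hu : ∀ y, ∑ y', S.D0.p y y' z * u y' z = u y z) (y : κ0) : S.iu (S.iu u) y z = - u y z := by
  show ∑ y', S.J y y' z * ∑ y'', S.J y' y'' z * u y'' z = - u y z
  simp only [Finset.mul_sum]
  rw [Finset.sum_comm, ← hu y, ← Finset.sum_neg_distrib]
  refine Finset.sum_congr rfl fun y'' _ => ?_
  have h1 := h.Jsq y y'' z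
  rw [← neg_mul, ← h1, Finset.sum_mul]
  exact Finset.sum_congr rfl fun y' _ => by ring

/-- `∇ (J u) = J ∇ u`. -/
theorem cv_iu (h : Sym S cc) {u : κ0 → M → ℝ} (hu : SmV (n := 4) u) (y : κ0) (z : M) :
    S.D0.cv (S.iu u) y z = ∑ y', S.J y y' z • S.D0.cv u y' z := by
  have h1 : Gr (n := 4) (S.iu u y) z =
      ∑ b, (S.J y b z • Gr (n := 4) (u b) z + u b z • Gr (n := 4) (S.J y b) z) := by
    have h2 : S.iu u y = fun x => ∑ b, S.J y b x * u b x := rfl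
    rw [h2, SWTd_451.Gr_sum' (f := fun b x => S.J y b x * u b x) Finset.univ
      (fun b _ => (h.smJ y b).mul (hu b))]
    refine Finset.sum_congr rfl fun b _ => ?_
    exact Gr_mul (SWTd_451.md (h.smJ y b) z) (SWTd_451.md (hu b) z)
  have h3 : ∀ b, Gr (n := 4) (S.J y b) z =
      - ∑ c, (S.J c b z • S.D0.X y c z - S.J y c z • S.D0.X c b z) := fun b =>
    eq_neg_of_add_eq_zero_left (h.Jpar y b z)
  unfold Dat.cv
  rw [h1]
  simp only [h3, smul_add, Finset.sum_add_distrib, Finset.smul_sum, smul_neg, smul_sub,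
    Finset.sum_sub_distrib, Finset.sum_neg_distrib, smul_smul]
  have e1 : ∑ b, ∑ c, (u b z * S.J c b z) • S.D0.X y c z = ∑ c, S.iu u c z • S.D0.X y c z := by
    rw [Finset.sum_comm]
    refine Finset.sum_congr rfl fun c _ => ?_
    rw [← Finset.sum_smul]
    congr 1
    exact Finset.sum_congr rfl fun b _ => mul_comm _ _
  have e2 : ∑ b, ∑ c, (u b z * S.J y c z) • S.D0.X c b z =
      ∑ b, ∑ c, (S.J y b z * u c z) • S.D0.X b c z := by
    rw [Finset.sum_comm]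
    refine Finset.sum_congr rfl fun c _ => Finset.sum_congr rfl fun b _ => ?_
    rw [mul_comm]
  rw [e1, e2]
  abel

/-- **`A (i u) = J1 A u`.** -/
theorem A_iu (h : Sym S cc) (hc : CJ1 S cc J1) {u : κ0 → M → ℝ} (hu : SmV (n := 4) u)
    (hs : S.D0.Sec u) (x : κ1) (z : M) :
    S.P.A (S.iu u) x z = ∑ x', J1 x x' z * S.P.A u x' z := by
  rw [h.A_eq _ (smV_iu h hu) (sec_iu h u) x z]
  simp only [h.A_eq u hu hs, cv_iu h hu]
  simp only [sum_inner, real_inner_smul_left, Finset.mul_sum]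
  rw [Finset.sum_comm]
  conv_rhs => rw [Finset.sum_comm]
  refine Finset.sum_congr rfl fun y' _ => ?_
  have h1 := congrArg (fun v : 𝔼4 => (⟪S.D0.cv u y' z, v⟫ : ℝ)) (hc.cc x y' z)
  simp only [inner_sum, real_inner_smul_right] at h1
  exact h1.symm

/-- `J1 cl = cl J`. -/
theorem cl_J (h : Sym S cc) (hc : CJ1 S cc J1) (A : κT) (x : κ1) (y : κ0) (z : M) :
    ∑ x', J1 x x' z * S.cl A x' y z = ∑ y', S.cl A x y' z * S.J y' y z := by
  have h1 : ∀ y', ∑ x', J1 x x' z * ⟪cc x' y' z, S.s A z⟫ =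
      ∑ y'', S.J y'' y' z * ⟪cc x y'' z, S.s A z⟫ := by
    intro y'
    have h2 := congrArg (fun v : 𝔼4 => (⟪v, S.s A z⟫ : ℝ)) (hc.cc x y' z)
    simp only [sum_inner, real_inner_smul_left] at h2
    exact h2
  simp only [h.cl_eq, Finset.mul_sum]
  rw [Finset.sum_comm]
  refine Finset.sum_congr rfl fun y' _ => ?_
  have h3 : ∑ x', J1 x x' z * (⟪cc x' y' z, S.s A z⟫ * S.J y' y z) =
      (∑ x', J1 x x' z * ⟪cc x' y' z, S.s A z⟫) * S.J y' y z := by
    rw [Finset.sum_mul]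
    exact Finset.sum_congr rfl fun x' _ => by ring
  rw [h3, h1]
  congr 1
  exact Finset.sum_congr rfl fun y'' _ => mul_comm _ _

/-- **`c(a) i (i u) = J1 c(a) i u`**, any functions. -/
theorem cm_iu (h : Sym S cc) (hc : CJ1 S cc J1) (a : κT → M → ℝ) (u : κ0 → M → ℝ) (x : κ1) (z : M) :
    S.cm a (S.iu u) x z = ∑ x', J1 x x' z * S.cm a u x' z := by
  have h1 : ∑ x', J1 x x' z * S.cm a u x' z =
      ∑ A, ∑ y, a A z * u y z * ∑ x', J1 x x' z * S.cl A x' y z := by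
    unfold SWS.cm
    simp only [Finset.mul_sum]
    rw [Finset.sum_comm]
    refine Finset.sum_congr rfl fun A _ => ?_
    rw [Finset.sum_comm]
    exact Finset.sum_congr rfl fun y _ => Finset.sum_congr rfl fun x' _ => by ring
  rw [h1]
  unfold SWS.cm SWS.iu
  refine Finset.sum_congr rfl fun A _ => ?_
  simp only [cl_J h hc, Finset.mul_sum, Finset.sum_mul]
  rw [Finset.sum_comm]
  exact Finset.sum_congr rfl fun y _ => Finset.sum_congr rfl fun y' _ => by ring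

/-- `c(a) i v` in terms of the symbol: `∑_y ⟨V, cc x y⟩ (i v)_y`. -/
theorem cm_cc (h : Sym S cc) (a : κT → M → ℝ) (u : κ0 → M → ℝ) (x : κ1) (z : M) :
    S.cm a u x z = ∑ y, ⟪S.vf a z, cc x y z⟫ * S.iu u y z := by
  unfold SWS.cm SWS.vf SWS.iu
  simp only [h.cl_eq, sum_inner, real_inner_smul_left, Finset.sum_mul, Finset.mul_sum]
  conv_rhs =>
    enter [2, y]
    rw [Finset.sum_comm]
  conv_rhs => rw [Finset.sum_comm]
  refine Finset.sum_congr rfl fun A _ => ?_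
  rw [Finset.sum_comm]
  refine Finset.sum_congr rfl fun y _ => Finset.sum_congr rfl fun y' _ => ?_
  rw [real_inner_comm]; ring

/-! ### rotations -/

/-- `ρ(u)` is invariant under `u ↦ c u + e i u`, `c² + e² = 1`. -/
theorem rq_rot (h : Sym S cc) (k : Fin 3) {z : M} {u w : κ0 → M → ℝ} {c e : ℝ}
    (hce : c ^ 2 + e ^ 2 = 1)
    (hw : ∀ y, w y z = c * u y z + e * S.iu u y z) : S.rq k w z = S.rq k u z := by
  have hJT := J_T h z
  have hJJ := J_J h z
  set R : Matrix κ0 κ0 ℝ := Rz S z k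
  set J : Matrix κ0 κ0 ℝ := Jz S z
  have hRT : Rᵀ = R := by ext y y'; exact h.symrho k y' y z
  have hRp : R * p0 S z = R := by
    have h1 : p0 S z * R = R := by ext y y'; rw [Matrix.mul_apply]; exact h.prho k y y' z
    have h2 : (p0 S z)ᵀ = p0 S z := by ext y y'; exact S.D0.symmp y' y z
    have h3 := congrArg Matrix.transpose h1
    rwa [Matrix.transpose_mul, hRT, h2] at h3
  have hJR : J * R = R * J := by
    ext y y'; rw [Matrix.mul_apply, Matrix.mul_apply]; exact h.Jrho k y y' z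
  have q : ∀ v : κ0 → M → ℝ, S.rq k v z = (fun y => v y z) ⬝ᵥ (R *ᵥ fun y => v y z) := by
    intro v
    unfold SWS.rq dotProduct Matrix.mulVec dotProduct
    simp only [Finset.mul_sum]
    exact Finset.sum_congr rfl fun y _ => Finset.sum_congr rfl fun y' _ => by
      show S.rho k y y' z * v y z * v y' z = v y z * (S.rho k y y' z * v y' z)
      ring
  set U : κ0 → ℝ := fun y => u y z
  have hw' : (fun y => w y z) = c • U + e • (J *ᵥ U) := by
    funext y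
    exact hw y
  have h1 : U ⬝ᵥ (R *ᵥ (J *ᵥ U)) = 0 := by
    have h2 : U ⬝ᵥ (R *ᵥ (J *ᵥ U)) = - (U ⬝ᵥ (R *ᵥ (J *ᵥ U))) := by
      have h3 : U ⬝ᵥ ((R * J) *ᵥ U) = U ⬝ᵥ ((R * J)ᵀ *ᵥ U) := by
        rw [Matrix.dotProduct_mulVec, ← Matrix.mulVec_transpose, dotProduct_comm]
      rw [Matrix.transpose_mul, hJT, hRT, Matrix.neg_mul, hJR, Matrix.neg_mulVec,
        dotProduct_neg] at h3
      rw [Matrix.mulVec_mulVec]
      exact h3
    linarith
  have h2 : (J *ᵥ U) ⬝ᵥ (R *ᵥ U) = 0 := by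
    rw [dotProduct_comm, Matrix.dotProduct_mulVec, ← Matrix.mulVec_transpose, hJT,
      Matrix.mulVec_mulVec, Matrix.neg_mul, hJR, Matrix.neg_mulVec, neg_dotProduct,
      dotProduct_comm, ← Matrix.mulVec_mulVec, h1, neg_zero]
  have h3 : (J *ᵥ U) ⬝ᵥ (R *ᵥ (J *ᵥ U)) = U ⬝ᵥ (R *ᵥ U) := by
    have h4 : (J *ᵥ U) ⬝ᵥ (R *ᵥ (J *ᵥ U)) = U ⬝ᵥ ((Jᵀ * (R * J)) *ᵥ U) := by
      rw [← Matrix.mulVec_mulVec, Matrix.dotProduct_mulVec U, ← Matrix.mulVec_transpose,
        Matrix.transpose_transpose, Matrix.mulVec_mulVec]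
    have h5 : Jᵀ * (R * J) = R := by
      rw [← Matrix.mul_assoc, hJT, Matrix.neg_mul, hJR, Matrix.neg_mul, Matrix.mul_assoc, hJJ,
        Matrix.mul_neg, neg_neg, hRp]
    rw [h4, h5]
  rw [q w, q u, hw']
  simp only [Matrix.mulVec_add, Matrix.mulVec_smul, dotProduct_add, add_dotProduct,
    smul_dotProduct, dotProduct_smul, smul_eq_mul, h1, h2, h3]
  linear_combination (U ⬝ᵥ (R *ᵥ U)) * hce

/-- `|u|²` is invariant. -/
theorem norm_rot (h : Sym S cc) {z : M} {u w : κ0 → M → ℝ} {c e : ℝ}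
    (hu : ∀ y, ∑ y', S.D0.p y y' z * u y' z = u y z) (hce : c ^ 2 + e ^ 2 = 1)
    (hw : ∀ y, w y z = c * u y z + e * S.iu u y z) : ∑ y, w y z ^ 2 = ∑ y, u y z ^ 2 := by
  have hJT := J_T h z
  have hJJ := J_J h z
  set J : Matrix κ0 κ0 ℝ := Jz S z
  have q : ∀ v : κ0 → M → ℝ, ∑ y, v y z ^ 2 = (fun y => v y z) ⬝ᵥ (fun y => v y z) := by
    intro v
    exact Finset.sum_congr rfl fun y _ => sq _
  set U : κ0 → ℝ := fun y => u y z
  have hU : p0 S z *ᵥ U = U := funext fun y => hu y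
  have hw' : (fun y => w y z) = c • U + e • (J *ᵥ U) := by
    funext y
    exact hw y
  have h1 : U ⬝ᵥ (J *ᵥ U) = 0 := by
    have h3 : U ⬝ᵥ (J *ᵥ U) = U ⬝ᵥ (Jᵀ *ᵥ U) := by
      rw [Matrix.dotProduct_mulVec, ← Matrix.mulVec_transpose, dotProduct_comm]
    rw [hJT, Matrix.neg_mulVec, dotProduct_neg] at h3
    linarith
  have h2 : (J *ᵥ U) ⬝ᵥ U = 0 := by rw [dotProduct_comm, h1]
  have h3 : (J *ᵥ U) ⬝ᵥ (J *ᵥ U) = U ⬝ᵥ U := by
    rw [dotProduct_comm, Matrix.dotProduct_mulVec, ← Matrix.mulVec_transpose, hJT,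
      Matrix.mulVec_mulVec, Matrix.neg_mul, hJJ, neg_neg, hU]
  rw [q w, q u, hw']
  simp only [dotProduct_add, add_dotProduct,
    smul_dotProduct, dotProduct_smul, smul_eq_mul, h1, h2, h3]
  linear_combination (U ⬝ᵥ U) * hce

/-! ### Leibniz -/

theorem sec_mul {f : M → ℝ} {u : κ0 → M → ℝ} (hs : S.D0.Sec u) :
    S.D0.Sec fun y z => f z * u y z := by
  intro y z
  show ∑ y', S.D0.p y y' z * (f z * u y' z) = f z * u y z
  rw [← hs y z, Finset.mul_sum]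
  exact Finset.sum_congr rfl fun y' _ => by ring

theorem cv_mul {κ : Type} [Fintype κ] (D : Dat 4 M κ) {f : M → ℝ}
    (hf : ContMDiff (𝓡 4) 𝓘(ℝ, ℝ) ∞ f)
    {u : κ → M → ℝ} (hu : SmV (n := 4) u) (y : κ) (z : M) :
    D.cv (fun y z => f z * u y z) y z = f z • D.cv u y z + u y z • Gr (n := 4) f z := by
  unfold Dat.cv
  rw [Gr_mul (SWTd_451.md hf z) (SWTd_451.md (hu y) z), smul_add, Finset.smul_sum]
  simp only [smul_smul]
  abel

/-- **Leibniz** -/
theorem A_mul (h : Sym S cc) {f : M → ℝ} (hf : ContMDiff (𝓡 4) 𝓘(ℝ, ℝ) ∞ f) {u : κ0 → M → ℝ}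
    (hu : SmV (n := 4) u) (hs : S.D0.Sec u) (x : κ1) (z : M) :
    S.P.A (fun y z => f z * u y z) x z =
      f z * S.P.A u x z + ∑ y, ⟪Gr (n := 4) f z, cc x y z⟫ * u y z := by
  refine (h.A_eq _ (fun y => hf.mul (hu y)) (sec_mul hs) x z).trans ?_
  rw [h.A_eq u hu hs x z, Finset.mul_sum, ← Finset.sum_add_distrib]
  refine Finset.sum_congr rfl fun y _ => ?_
  refine (congrArg (fun v : 𝔼4 => (⟪v, cc x y z⟫ : ℝ)) (cv_mul S.D0 hf hu y z)).trans ?_
  rw [inner_add_left, real_inner_smul_left, real_inner_smul_left]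
  ring

theorem A_add (h : Sym S cc) {u w : κ0 → M → ℝ} (hu : SmV (n := 4) u) (hs : S.D0.Sec u)
    (hw : SmV (n := 4) w) (ht : S.D0.Sec w) (x : κ1) (z : M) :
    S.P.A (fun y z => u y z + w y z) x z = S.P.A u x z + S.P.A w x z := by
  have hadd : S.D0.Sec fun y z => u y z + w y z := by
    intro y z
    show ∑ y', S.D0.p y y' z * (u y' z + w y' z) = u y z + w y z
    rw [← hs y z, ← ht y z, ← Finset.sum_add_distrib]
    exact Finset.sum_congr rfl fun y' _ => by ring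
  refine (h.A_eq _ (fun y => (hu y).add (hw y)) hadd x z).trans ?_
  rw [h.A_eq u hu hs x z, h.A_eq w hw ht x z, ← Finset.sum_add_distrib]
  refine Finset.sum_congr rfl fun y _ => ?_
  rw [← inner_add_left]
  congr 1
  have h1 : Gr (n := 4) (fun z => u y z + w y z) z = Gr (n := 4) (u y) z + Gr (n := 4) (w y) z :=
    Gr_add (SWTd_451.md (hu y) z) (SWTd_451.md (hw y) z)
  show Gr (n := 4) (fun z => u y z + w y z) z + ∑ b, (u b z + w b z) • S.D0.X y b z = _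
  unfold Dat.cv
  rw [h1]
  simp only [add_smul, Finset.sum_add_distrib]
  abel

/-- the section `(c + e i) u`. -/
def rot (S : SWS M κ0 κ1 κT) (c e : M → ℝ) (u : κ0 → M → ℝ) : κ0 → M → ℝ :=
  fun y z => c z * u y z + e z * S.iu u y z

theorem smV_rot (h : Sym S cc) {c e : M → ℝ} (hc : ContMDiff (𝓡 4) 𝓘(ℝ, ℝ) ∞ c)
    (he : ContMDiff (𝓡 4) 𝓘(ℝ, ℝ) ∞ e) {u : κ0 → M → ℝ} (hu : SmV (n := 4) u) :
    SmV (n := 4) (rot S c e u) := fun y => (hc.mul (hu y)).add (he.mul (smV_iu h hu y))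

theorem sec_rot (h : Sym S cc) (c e : M → ℝ) {u : κ0 → M → ℝ} (hs : S.D0.Sec u) :
    S.D0.Sec (rot S c e u) := by
  intro y z
  have h1 : ∑ y', S.D0.p y y' z * (c z * u y' z) = c z * u y z := sec_mul (f := c) hs y z
  have h2 : ∑ y', S.D0.p y y' z * (e z * S.iu u y' z) = e z * S.iu u y z :=
    sec_mul (f := e) (sec_iu h u) y z
  show ∑ y', S.D0.p y y' z * (c z * u y' z + e z * S.iu u y' z) = c z * u y z + e z * S.iu u y z
  rw [← h1, ← h2, ← Finset.sum_add_distrib]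
  exact Finset.sum_congr rfl fun y' _ => by ring

/-- **the gauge transformation of `A`**: with `dc = -(2π e) V`, `de = (2π c) V`, `V = ∑ al_A s_A`,
`A ((c + e i) u) = (c + e J1) A u + 2π c(al) i (c + e i) u`. -/
theorem A_rot (h : Sym S cc) (hJ : CJ1 S cc J1) {c e : M → ℝ} (hc : ContMDiff (𝓡 4) 𝓘(ℝ, ℝ) ∞ c)
    (he : ContMDiff (𝓡 4) 𝓘(ℝ, ℝ) ∞ e) {al : κT → M → ℝ}
    (dc : ∀ z, Gr (n := 4) c z = (-(2 * Real.pi * e z)) • S.vf al z)
    (de : ∀ z, Gr (n := 4) e z = (2 * Real.pi * c z) • S.vf al z)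
    {u : κ0 → M → ℝ} (hu : SmV (n := 4) u) (hs : S.D0.Sec u) (x : κ1) (z : M) :
    S.P.A (rot S c e u) x z = c z * S.P.A u x z + e z * ∑ x', J1 x x' z * S.P.A u x' z +
      2 * Real.pi * S.cm al (rot S c e u) x z := by
  have h1 : S.P.A (rot S c e u) x z = S.P.A (fun y z => c z * u y z) x z +
      S.P.A (fun y z => e z * S.iu u y z) x z :=
    A_add h (fun y => hc.mul (hu y)) (sec_mul hs) (fun y => he.mul (smV_iu h hu y))
      (sec_mul (sec_iu h u)) x z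
  rw [h1, A_mul h hc hu hs, A_mul h he (smV_iu h hu) (sec_iu h u), A_iu h hJ hu hs, dc, de,
    cm_cc h al]
  have h2 : ∀ y, S.iu (rot S c e u) y z = c z * S.iu u y z - e z * u y z := by
    intro y
    have h3 : S.iu (rot S c e u) y z = c z * S.iu u y z + e z * S.iu (S.iu u) y z := by
      show ∑ y', S.J y y' z * (c z * u y' z + e z * S.iu u y' z) =
        c z * ∑ y', S.J y y' z * u y' z + e z * ∑ y', S.J y y' z * S.iu u y' z
      rw [Finset.mul_sum, Finset.mul_sum, ← Finset.sum_add_distrib]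
      exact Finset.sum_congr rfl fun y' _ => by ring
    rw [h3, iu_iu h (fun y => hs y z)]
    ring
  simp only [h2, real_inner_smul_left]
  have h4 : 2 * Real.pi * ∑ y, ⟪S.vf al z, cc x y z⟫ * (c z * S.iu u y z - e z * u y z) =
      ∑ y, -(2 * Real.pi * e z) * ⟪S.vf al z, cc x y z⟫ * u y z +
      ∑ y, 2 * Real.pi * c z * ⟪S.vf al z, cc x y z⟫ * S.iu u y z := by
    rw [Finset.mul_sum, ← Finset.sum_add_distrib]
    exact Finset.sum_congr rfl fun y _ => by ring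
  rw [h4]
  ring

end op

end main

/-- **J1X** -/
theorem j1x : J1X.{v} := by
  intro M _ _ _ _ _ _ _ _ _ _ _ _ _ κ0 κ1 κT _ _ _ S cc h
  exact ⟨j1 S cc, cj1 h⟩

end

end Crest.Agent.R235.SWJ1_133
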