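import Crest.Agent.R235.SWJDt_930

/-!
# Row 235 (S0364), PACKAGE SW (helper930): `GrdH` for the Hodge pair `pairH`

* `grdH_pair` : `GrdH S` (constant `1`), if `S.H.A` is `opA` of `pairH q s` and `S.s = T.toF s.s`.
-/

set_option autoImplicit false
set_option maxSynthPendingDepth 3
set_option linter.unusedSectionVars false

open Set Function Filter MeasureTheory Bundle
open scoped Manifold ContDiff Topology ENNReal RealInnerProductSpace
open Crest.Agent.R202.Tens Crest.Agent.R247.Bo84 Crest.Agent.R249.Vf281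
open Crest.Agent.R249.Tz2_805 Crest.Agent.R249.Tz805 Crest.Agent.R249.Idx789

namespace Crest.Agent.R235.SWJDok_930

open Crest.Agent.R235.SWDefs_53
open Crest.Agent.R235.Ind167 (QS pairH)

noncomputable section

variable {M : Type} [MetricSpace M] [CompactSpace M] [ConnectedSpace M]
  [ChartedSpace (EuclideanSpace ℝ (Fin 4)) M] [IsManifold (𝓡 4) ∞ M]
  [RiemannianBundle (fun p : M => TangentSpace (𝓡 4) p)]
  [IsContMDiffRiemannianBundle (𝓡 4) ∞ (EuclideanSpace ℝ (Fin 4))
    (fun p : M => TangentSpace (𝓡 4) p)]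
  [IsRiemannianManifold (𝓡 4) M] [MeasurableSpace M] [BorelSpace M]
  [SecondCountableTopology M] [Nonempty M]
  {κ0 κ1 κ : Type} [Fintype κ0] [Fintype κ1] [Fintype κ]
  {S : SWS M κ0 κ1 κ} {T : ToF 4 M} {s : PF 4 M κ}

/-- the function part of the Hodge operator is the gradient. -/
theorem grdH_pair (q : QS M) (hs : ∀ A z, S.s A z = T.toF z (s.s A z))
    (hA : ∀ u : Fin 4 → M → ℝ, S.H.A u = opA (pairH q s).D0 (pairH q s).cc u) : GrdH S := by
  refine ⟨1, one_ne_zero, fun f hf A z => ?_⟩
  have h1 : ∀ b, Mdl3_399.bet q s (fun _ _ => 0) b z = 0 := by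
    intro b
    have : mgrad 4 (fun _ : M => (0 : ℝ)) z = 0 := mgrad_const _
    simp only [Mdl3_399.bet, this, zero_smul, add_zero, sub_zero]
  rw [hA, Mdl3_399.opA_cons, hs, ← T.grad f z hf, T.inner_toF, one_mul]
  simp only [h1, inner_zero_left, Finset.sum_const_zero, sub_zero]

end

end Crest.Agent.R235.SWJDok_930
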