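import Crest.Agent.R235.NumC_692
import Crest.Agent.R235.SWTop_53
import Crest.Agent.R235.SWJDg_930
import Crest.Agent.R235.SWJ1_133
import Crest.Agent.R235.DichH1_723
import Crest.Agent.R235.HDG_819
import Crest.Agent.R235.FamTop_307

/-!
Row 235 (S0364), PACKAGE SW (helper344): the ENDS `MODB` and `MODT` of the model of the trivial bundle.

* `HOPFM`   : the Hopf family of solutions of the model `SL` of the trivial line bundle (489, 766, 755);
* `core`    : everything else: `Sym`, `CJ1`, `GrdH`, Jacobian data of a given integral basis, numbers;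
* `modb_of` : `HOPFM → MODB`.
-/

set_option autoImplicit false
set_option maxSynthPendingDepth 3
set_option linter.unusedSectionVars false
set_option maxHeartbeats 1000000

open scoped ContDiff ENNReal NNReal Topology Manifold Bundle RealInnerProductSpace
open MeasureTheory Set Filter Metric Bundle Matrix

namespace Crest.Agent.R235.ModB_344

open Crest.Agent.R240 Crest.Agent.R240.Ch Crest.Agent.R235.SWDefs_53
open Crest.Agent.R235.IndTri_451 Crest.Agent.R235.SWSym_451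
open Crest.Agent.R249.Tz805 (ToF)
open Crest.Agent.R249.Tz2_805 (PF)
open Crest.Agent.R249.Tv57 (KerD)
open Crest.Agent.R235.DichProps_723
open Crest.Agent.R235.Ind167
open Crest.Agent.R235.SwsL_755 Crest.Agent.R235.TwfL_755 Crest.Agent.R235.LTw_453
open Crest.Agent.R235.LTwLd_774 (ldOf)
open Crest.Agent.R235.QSTri_451 (qs)
open Crest.Agent.R235.Hopf_143 (hopf)

noncomputable section

/-- the trivial line bundle. -/
theorem isLine1 {M : Type*} [TopologicalSpace M] [ChartedSpace E4 M] [IsManifold 𝓘(ℝ, E4) ∞ M] :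
    IsLine (fun _ : M => (1 : Matrix (Fin 1) (Fin 1) ℂ)) where
  smooth _ _ := contMDiff_const
  idem _ := Matrix.mul_one _
  herm _ := Matrix.conjTranspose_one
  rank _ := by simp

theorem isChern1 {M : Type*} [TopologicalSpace M] [ChartedSpace E4 M] [IsManifold 𝓘(ℝ, E4) ∞ M] :
    IsChern (fun _ : M => (1 : Matrix (Fin 1) (Fin 1) ℂ)) (0 : Z2 M) := by
  intro x u v
  have h0 : ∀ v, dmat (fun _ : M => (1 : Matrix (Fin 1) (Fin 1) ℂ)) x v = 0 := by
    intro v
    ext i j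
    simp [dmat]
  rw [h0, h0]
  simp
  rfl

/-- **HOPFM** : the Hopf family of the model of the trivial bundle. -/
def HOPFM : Prop :=
  ∀ (M : Type) [MetricSpace M] [CompactSpace M] [ConnectedSpace M]
    [ChartedSpace (EuclideanSpace ℝ (Fin 4)) M] [IsManifold (𝓡 4) ∞ M]
    [RiemannianBundle (fun p : M => TangentSpace (𝓡 4) p)]
    [IsContMDiffRiemannianBundle (𝓡 4) ∞ (EuclideanSpace ℝ (Fin 4))
      (fun p : M => TangentSpace (𝓡 4) p)]
    [IsRiemannianManifold (𝓡 4) M] [MeasurableSpace M] [BorelSpace M]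
    [SecondCountableTopology M] [Nonempty M] [IsFiniteMeasureOnCompacts (μHE[4] : Measure M)]
    (w : Trip M) (e : Fin 3 → F2 E4 M) (he : IsTri (und w) e)
    (hin : ∀ (x : M) (u v : TangentSpace 𝓘(ℝ, E4) x), inner ℝ u v = at2 (gg e) x u v)
    (hp : IsLine (fun _ : M => (1 : Matrix (Fin 1) (Fin 1) ℂ)))
    (κ : Type) [Fintype κ] (T : ToF 4 M) (s : PF 4 M κ),
    ∃ (ww : Fin 3 → Fin 3 → M → ℝ) (τ : E3 → TD M κ) (C : ℝ)
      (th : E3 → κ → M → ℝ) (pi : EuclideanSpace ℂ (Fin 2) → E3)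
      (U : EuclideanSpace ℂ (Fin 2) → Fin 4 × Fin 1 → M → ℝ),
      HopfD (SL T (qs he hin) s (ldOf (fun _ => 1) hp)) ww τ C th pi U ∧
      ∃ A : E3 ≃ₗᵢ[ℝ] E3, ∀ s, ‖s‖ = 1 → pi s = A (hopf s)

section core

variable {M : Type} [MetricSpace M] [CompactSpace M] [ConnectedSpace M]
    [ChartedSpace (EuclideanSpace ℝ (Fin 4)) M] [IsManifold (𝓡 4) ∞ M]
    [RiemannianBundle (fun p : M => TangentSpace (𝓡 4) p)]
    [IsContMDiffRiemannianBundle (𝓡 4) ∞ (EuclideanSpace ℝ (Fin 4))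
      (fun p : M => TangentSpace (𝓡 4) p)]
    [IsRiemannianManifold (𝓡 4) M] [MeasurableSpace M] [BorelSpace M]
    [SecondCountableTopology M] [Nonempty M]
  {w : Trip M} {e : Fin 3 → F2 E4 M} (hw : Pos3 w) (he : IsTri (und w) e)
  (hin : ∀ (x : M) (u v : TangentSpace 𝓘(ℝ, E4) x), inner ℝ u v = at2 (gg e) x u v)
  {κ : Type} [Fintype κ] (T : ToF 4 M) (s : PF 4 M κ)

theorem hasB1_of {b : ℕ} {σ : Fin b → F1 E4 M} (hσ : H1Bas σ) : HasB1 M b := by
  refine ⟨σ, hσ.closed, fun r hr => ?_, hσ.indep⟩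
  obtain ⟨x, ⟨f, hf, h⟩, -⟩ := hσ.span r hr
  exact ⟨x, f, hf, h⟩

/-- the function part of the Hodge operator of `SL` is the gradient. -/
theorem grdH_SL (q : QS M) {N : ℕ} (L : LD 4 M N) : GrdH (SL T q s L) :=
  SWJDok_930.grdH_pair (T := T) (s := s) q (fun _ _ => rfl) fun _ => rfl

/-- the Jacobian data of a given integral basis. -/
theorem exists_jd_SL {N : ℕ} (L : LD 4 M N) {b : ℕ} {σ : Fin b → F1 E4 M} (hσ : H1Bas σ) :
    ∃ j : JD M κ b, j.OK (SL T (qs he hin) s L) :=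
  SWJDok_930.exists_jd_bas (T := T) (s := s) he hin (fun _ _ _ => rfl) (fun _ _ => rfl)
    (fun _ => rfl) hσ

include hw in
/-- the numbers for a class of square zero and a given integral basis of `H¹`. -/
theorem nums_bas {N : ℕ} {p : M → Matrix (Fin N) (Fin N) ℂ} {a : Z2 M} (hp : IsLine p)
    (hc : IsChern p a) (ha : pI (w 0) a a = 0) {b : ℕ} {σ : Fin b → F1 E4 M} (hσ : H1Bas σ) :
    ∃ d0 d1 bp : ℕ, Nonempty (KerD (SL T (qs he hin) s (ldOf p hp)).D0
        (SL T (qs he hin) s (ldOf p hp)).P.A d0) ∧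
      Nonempty (KerD (SL T (qs he hin) s (ldOf p hp)).D1
        (SL T (qs he hin) s (ldOf p hp)).P.B d1) ∧
      Nonempty (KerD (SL T (qs he hin) s (ldOf p hp)).DL
        (SL T (qs he hin) s (ldOf p hp)).H.A (1 + bp)) ∧
      d0 + b = d1 + 1 + bp ∧ NumC_692.HNum w bp := by
  obtain ⟨d0, d1, b', bp, K0, K1, K2, -, hb, h, hn⟩ := NumC_692.numsL hw he hin T s hp hc ha
  obtain rfl := DichH1_723.hasB1_unique (hasB1_of hσ) hb
  exact ⟨d0, d1, bp, K0, K1, K2, h, hn⟩

theorem pI_zero_zero (F : Z2 M) : pI F (0 : Z2 M) 0 = 0 := by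
  refine HDG_819.pI_zero fun x => ?_
  have h : val (0 : Z2 M) x = 0 := rfl
  rw [h]
  simp [R240.W, R240.ent]

end core

/-- **MODB**. -/
theorem modb_of (hH : HOPFM) : SWTop_53.MODB := by
  intro M _ _ _ _ _ _ _ _ _ _ _ _ _ w e hw he hin
  obtain ⟨m, ⟨s⟩⟩ := R249.Tz2_805.exists_PF (n := 4) (M := M)
  let T : ToF 4 M := R249.Tof352.tof 4 M
  obtain ⟨b, σ, hσ⟩ := H1Fin_692.h1bas M
  obtain ⟨ww, τ, C, th, pi, U, hD, -⟩ := hH M w e he hin isLine1 _ T s
  obtain ⟨d0, d1, bp, K0, K1, K2, h, P, N, h1, h2, h3, h4, h5, h6⟩ :=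
    nums_bas hw he hin T s isLine1 isChern1 (pI_zero_zero (w 0)) hσ
  obtain ⟨j, hj⟩ := exists_jd_SL he hin T s (ldOf (fun _ => 1) isLine1) hσ
  exact ⟨_, _, _, inferInstance, inferInstance, inferInstance,
    SL T (qs he hin) s (ldOf (fun _ => 1) isLine1), _, b, j, ww, τ, C, th, pi, U, d0, d1, bp,
    sym_L T (qs he hin) s _, grdH_SL T s (qs he hin) _, hj, hD, K0, K1, K2, h,
    P, N, h1, h2, h3, h4, h5, h6⟩

end

end Crest.Agent.R235.ModB_344
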