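import Crest.Agent.R235.MdlH_453
import Crest.Agent.R235.MdlE_489
import Crest.Agent.R235.ModF_53
import Crest.Agent.R235.ModB_344
import Crest.Agent.R235.Hopf_143

/-!
Row 235 (S0364), PACKAGE SW, helper453: **HOPFM** (text of `ModB_344.HOPFM`): the Hopf family of the
model of the trivial line bundle.
-/

set_option autoImplicit false
set_option maxSynthPendingDepth 3
set_option linter.unusedSectionVars false
set_option maxHeartbeats 1000000

open scoped ContDiff ENNReal NNReal Topology Manifold Bundle RealInnerProductSpace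
open MeasureTheory Set Filter Metric Bundle Matrix

namespace Crest.Agent.R235.HopfM_453

open Crest.Agent.R240 Crest.Agent.R240.Ch Crest.Agent.R235.SWDefs_53
open Crest.Agent.R235.IndTri_451 Crest.Agent.R235.SWTn_451
open Crest.Agent.R249.Tz805 (ToF)
open Crest.Agent.R249.Tz2_805 (PF)
open Crest.Agent.R235.MdlH_453 Crest.Agent.R235.Hopf_143

noncomputable section

section iso

variable {D : Fin 3 → ℝ}

/-- the isometry `(t₀, t₁, t₂) ↦ (D₀ t₀, D₁ t₂, D₂ t₁)`. -/
def isoL (hD : ∀ k, D k ^ 2 = 1) : EuclideanSpace ℝ (Fin 3) →ₗᵢ[ℝ] EuclideanSpace ℝ (Fin 3) where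
  toFun t := WithLp.toLp 2 ![D 0 * t 0, D 1 * t 2, D 2 * t 1]
  map_add' a b := by
    ext k
    fin_cases k <;> simp <;> ring
  map_smul' c a := by
    ext k
    fin_cases k <;> simp <;> ring
  norm_map' a := by
    have h1 : ‖(WithLp.toLp 2 ![D 0 * a 0, D 1 * a 2, D 2 * a 1] : EuclideanSpace ℝ (Fin 3))‖ ^ 2 =
        ‖a‖ ^ 2 := by
      rw [EuclideanSpace.norm_sq_eq, EuclideanSpace.norm_sq_eq, Fin.sum_univ_three,
        Fin.sum_univ_three]
      simp only [Real.norm_eq_abs, sq_abs]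
      have h0 := hD 0
      have h1 := hD 1
      have h2 := hD 2
      simp
      linear_combination a 0 ^ 2 * h0 + a 2 ^ 2 * h1 + a 1 ^ 2 * h2
    exact (pow_left_inj₀ (norm_nonneg _) (norm_nonneg _) two_ne_zero).1 h1

theorem piD_hopf (hD : ∀ k, D k ^ 2 = 1) (s : EuclideanSpace ℂ (Fin 2)) :
    piD D s = isoL hD (hopf s) := by
  have e1 : ∀ z : ℂ, ‖z‖ ^ 2 = z.re ^ 2 + z.im ^ 2 := by
    intro z
    rw [Complex.sq_norm, Complex.normSq_apply]
    ring
  ext k
  rw [piD_apply]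
  fin_cases k
  · show -(D 0 * hv (MdlH_453.jj s) 0) = D 0 * hopf s 0
    rw [hv0, hopf_0, e1, e1]
    simp [MdlH_453.jj]
    ring
  · show -(D 1 * hv (MdlH_453.jj s) 1) = D 1 * hopf s 2
    rw [hv1, hopf_2]
    simp [MdlH_453.jj]
    ring
  · show -(D 2 * hv (MdlH_453.jj s) 2) = D 2 * hopf s 1
    rw [hv2, hopf_1]
    have e2 : (s 0 * star (s 1)).re = (s 0).re * (s 1).re + (s 0).im * (s 1).im := by
      simp
    rw [e2]
    show -(D 2 * (-2 * ((s 0).re * (s 1).re + (s 0).im * (s 1).im))) = _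
    ring

/-- the isometry, as an equivalence. -/
def isoE (hD : ∀ k, D k ^ 2 = 1) : EuclideanSpace ℝ (Fin 3) ≃ₗᵢ[ℝ] EuclideanSpace ℝ (Fin 3) :=
  (isoL hD).toLinearIsometryEquiv rfl

theorem piD_hopfE (hD : ∀ k, D k ^ 2 = 1) (s : EuclideanSpace ℂ (Fin 2)) :
    piD D s = isoE hD (hopf s) := piD_hopf hD s

end iso

/-- **HOPFM**. -/
theorem hopfm : ModB_344.HOPFM := by
  intro M _ _ _ _ _ _ _ _ _ _ _ _ _ w e he hin hp κ _ T s
  obtain ⟨D, C, hM⟩ := ModF_53.exists_mh T s he hin hp ModB_344.isChern1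
  have hH := hopf_of hM.tws hM.line hM.lt hM.smw hM.D1 hM.Dp (MdlE_489.ffam_one hM)
    (fun t ht v hv1 hv2 => MdlE_489.psec_one hM ht hv1 hv2)
  exact ⟨_, _, C, _, _, _, hH, isoE hM.D1, fun s _ => piD_hopfE hM.D1 s⟩

end

end Crest.Agent.R235.HopfM_453
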