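import Crest.Agent.R235.DichW_723

/-!
Row 235 (S0364), helper57: change of the closed one-forms in a quadruple product (H1 half of NUMJ):
`pI (r0 ∧ r1) (r2 ∧ r3) = det c * pI (s0 ∧ s1) (s2 ∧ s3)` for `r_i = ∑ c_ij s_j + df_i`.
-/

set_option autoImplicit false
set_option maxSynthPendingDepth 3
set_option linter.unusedSectionVars false

open Set Function Filter MeasureTheory
open scoped Manifold ContDiff Topology

universe u

namespace Crest.Agent.R235.QH1_57

open Crest.Agent.R240 Crest.Agent.R240.Ch Crest.Agent.R240.Int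
open DichProps_723 DichH1_723 DichW_723 TorMin_510

noncomputable section

/-- multiplicativity of the quadruple product. -/
theorem W_comb (c : Fin 4 → Fin 4 → ℝ) (α β : Fin 4 → (E4 →L[ℝ] ℝ))
    (h : ∀ i, β i = ∑ j, c i j • α j) :
    W (wed (β 0) (β 1)) (wed (β 2) (β 3)) =
      (Matrix.of c).det * W (wed (α 0) (α 1)) (wed (α 2) (α 3)) := by
  rw [W_wed4, W_wed4]
  refine Eq.trans (congrArg Matrix.det ?_) (Matrix.det_mul (Matrix.of c)
    (Matrix.of fun i j => (![α 0, α 1, α 2, α 3] i) (ee j)))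
  ext m n
  rw [Matrix.mul_apply]
  have h1 : ∀ t : Fin 4, (![α 0, α 1, α 2, α 3] t) = α t := by
    intro t; fin_cases t <;> rfl
  have h2 : (![β 0, β 1, β 2, β 3] m) = β m := by
    fin_cases m <;> rfl
  simp only [Matrix.of_apply, h1, h2, h m, sum_apply,
    smul_apply, smul_eq_mul]

variable {M : Type u} [TopologicalSpace M] [T2Space M] [CompactSpace M]
  [ChartedSpace E4 M] [IsManifold 𝓘(ℝ, E4) ∞ M]

/-- linear combinations of closed one-forms are closed. -/
theorem closed_comb {ι : Type*} [Fintype ι] {s : ι → F1 E4 M} (hs : ∀ i, Closed1 (s i))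
    (c : ι → ℝ) : Closed1 (∑ j, c j • s j) := by
  have h : (∑ j, c j • s j) ∈ Z1s M :=
    Submodule.sum_mem _ fun j _ => Submodule.smul_mem _ _ (hs j)
  exact h

/-- the product of an exact and a closed one-form is exact. -/
theorem ex_wed {f : M → ℝ} {t : F1 E4 M} (hf : SmoothF E4 f) (ht : Closed1 t) :
    wedG (dF f) t = dG (fmul1 f t) := by
  rw [dG_fmul1 hf ht.1]
  funext x
  have h : at2 (dG t) x = 0 := ht.2 x _ (mem_chart_target E4 x)
  show _ = wedG (dF f) t x + f x • at2 (dG t) x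
  rw [h, smul_zero, add_zero]

theorem isEx_wed {f : M → ℝ} {t : F1 E4 M} (hf : SmoothF E4 f) (ht : Closed1 t) :
    IsEx (wedG (dF f) t : F2 E4 M) := by
  rw [ex_wed hf ht]
  exact isEx_dG (Smooth1.fmul hf ht.1)

theorem wedG_anti (s t : F1 E4 M) : (wedG s t : F2 E4 M) = - wedG t s := by
  funext x
  show (at1 s x).smulRight (at1 t x) - (at1 t x).smulRight (at1 s x) =
    -((at1 t x).smulRight (at1 s x) - (at1 s x).smulRight (at1 t x))
  rw [neg_sub]

/-- changing the factors by exact forms does not change the class. -/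
theorem cls_wed {r0 r1 R0 R1 : F1 E4 M} (h0 : Closed1 R0) (h1 : Closed1 R1) {f0 f1 : M → ℝ}
    (hf0 : SmoothF E4 f0) (hf1 : SmoothF E4 f1) (e0 : r0 = R0 + dF f0) (e1 : r1 = R1 + dF f1)
    {a : Z2 M} (ha : (a.1.1 : F2 E4 M) = wedG r0 r1) : cls a = cls (wedZ h0 h1) := by
  rw [cls_eq]
  have c1 : Closed1 r1 := by rw [e1]; exact Closed1.add h1 (closed1_dF hf1)
  have e : ((a - wedZ h0 h1 : Z2 M).1.1 : F2 E4 M) =
      dG (fmul1 f0 r1 + (-1 : ℝ) • fmul1 f1 R0) := by
    have hS0 : Smooth1 (fmul1 f0 r1) := Smooth1.fmul hf0 c1.1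
    have hS1 : Smooth1 (fmul1 f1 R0) := Smooth1.fmul hf1 h0.1
    rw [dG_add hS0 (hS1.smul _), dG_smul _ hS1, ← ex_wed hf0 c1, ← ex_wed hf1 h0]
    show (a.1.1 : F2 E4 M) - wedG R0 R1 = _
    rw [ha]
    funext x
    ext u v
    have q0 : at1 r0 x = at1 R0 x + at1 (dF f0) x := by rw [e0]; rfl
    have q1 : at1 r1 x = at1 R1 x + at1 (dF f1) x := by rw [e1]; rfl
    show at1 r0 x u * at1 r1 x v - at1 r1 x u * at1 r0 x v -
      (at1 R0 x u * at1 R1 x v - at1 R1 x u * at1 R0 x v) =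
      (at1 (dF f0) x u * at1 r1 x v - at1 r1 x u * at1 (dF f0) x v) +
      (-1 : ℝ) * (at1 (dF f1) x u * at1 R0 x v - at1 R0 x u * at1 (dF f1) x v)
    rw [q0, q1]
    simp only [add_apply]
    ring
  rw [e]
  exact isEx_dG ((Smooth1.fmul hf0 c1.1).add ((Smooth1.fmul hf1 h0.1).smul _))

/-- **change of the one-forms in the quadruple product**. -/
theorem pI_wed_det {F : Z2 M} (hF : Vol (F.1.1 : F2 E4 M)) {s r : Fin 4 → F1 E4 M}
    (hs : ∀ i, Closed1 (s i)) (c : Fin 4 → Fin 4 → ℝ) (f : Fin 4 → M → ℝ)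
    (hf : ∀ i, SmoothF E4 (f i)) (hr : ∀ i, r i = (∑ j, c i j • s j) + dF (f i))
    {a b a' b' : Z2 M} (ha : (a.1.1 : F2 E4 M) = wedG (r 0) (r 1))
    (hb : (b.1.1 : F2 E4 M) = wedG (r 2) (r 3)) (ha' : (a'.1.1 : F2 E4 M) = wedG (s 0) (s 1))
    (hb' : (b'.1.1 : F2 E4 M) = wedG (s 2) (s 3)) :
    pI F a b = (Matrix.of c).det * pI F a' b' := by
  set R : Fin 4 → F1 E4 M := fun i => ∑ j, c i j • s j with hR
  have hRc : ∀ i, Closed1 (R i) := fun i => closed_comb hs (c i)
  have e1 : cls a = cls (wedZ (hRc 0) (hRc 1)) :=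
    cls_wed (hRc 0) (hRc 1) (hf 0) (hf 1) (hr 0) (hr 1) ha
  have e2 : cls b = cls (wedZ (hRc 2) (hRc 3)) :=
    cls_wed (hRc 2) (hRc 3) (hf 2) (hf 3) (hr 2) (hr 3) hb
  rw [pI_congr_left hF e1, pI_congr_right hF _ e2]
  refine pI_scale F fun x => ?_
  have v1 : val a' x = wed (at1 (s 0) x) (at1 (s 1) x) := by
    show at2 (a'.1.1 : F2 E4 M) x = _
    rw [ha']; rfl
  have v2 : val b' x = wed (at1 (s 2) x) (at1 (s 3) x) := by
    show at2 (b'.1.1 : F2 E4 M) x = _
    rw [hb']; rfl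
  rw [v1, v2]
  refine W_comb c (fun i => at1 (s i) x) (fun i => at1 (R i) x) fun i => ?_
  show (R i) x = _
  rw [hR]
  show (∑ j, c i j • s j) x = _
  rw [Finset.sum_apply]
  rfl

/-- if the quadruple product of some closed one-forms is `≠ 0`, then so is the one of every system
which spans modulo exact forms. -/
theorem pI_ne_of_span {F : Z2 M} (hF : Vol (F.1.1 : F2 E4 M)) {s r : Fin 4 → F1 E4 M}
    (hs : ∀ i, Closed1 (s i)) (hr : ∀ i, Closed1 (r i))
    (hspan : ∀ q : F1 E4 M, Closed1 q → ∃ (c : Fin 4 → ℝ) (f : M → ℝ), SmoothF E4 f ∧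
      q = (∑ i, c i • s i) + dF f)
    {a b a' b' : Z2 M} (ha : (a.1.1 : F2 E4 M) = wedG (r 0) (r 1))
    (hb : (b.1.1 : F2 E4 M) = wedG (r 2) (r 3)) (ha' : (a'.1.1 : F2 E4 M) = wedG (s 0) (s 1))
    (hb' : (b'.1.1 : F2 E4 M) = wedG (s 2) (s 3)) (hne : pI F a b ≠ 0) : pI F a' b' ≠ 0 := by
  choose c f hf hc using fun i => hspan (r i) (hr i)
  intro h0
  rw [pI_wed_det hF hs c f hf hc ha hb ha' hb', h0, mul_zero] at hne
  exact hne rfl

/-- **T4R**: the product of an integral basis (of length four) is `≠ 0`. -/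
theorem pI_ne_of_T4R {F : Z2 M} (hF : Vol (F.1.1 : F2 E4 M)) (hT : T4R F)
    {s : Fin 4 → F1 E4 M} (hs : H1Bas s) {a b : Z2 M} (ha : (a.1.1 : F2 E4 M) = wedG (s 0) (s 1))
    (hb : (b.1.1 : F2 E4 M) = wedG (s 2) (s 3)) : pI F a b ≠ 0 := by
  obtain ⟨⟨r, hr, -, A, hA, -, hne, -⟩, -⟩ := hT
  refine pI_ne_of_span hF hs.closed hr (fun q hq => ?_) (hA 0 1) (hA 2 3) ha hb hne
  obtain ⟨x, ⟨f, hf, e⟩, -⟩ := hs.span q hq
  exact ⟨x, f, hf, e⟩

/-- T4R has `b₁ = 4`: integral bases of `H¹` have length four. -/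
theorem hasB1_of_T4R {F : Z2 M} (hF : Vol (F.1.1 : F2 E4 M)) (hT : T4R F) : HasB1 M 4 := by
  obtain ⟨⟨r, hr, hsp, A, hA, -, hne, -⟩, -⟩ := hT
  refine ⟨r, hr, hsp, fun c f hf hcf => ?_⟩
  by_contra hc
  -- some combination is exact; then the quadruple product vanishes
  obtain ⟨i, hi⟩ : ∃ i, c i ≠ 0 := by
    by_contra h
    push Not at h
    exact hc (funext h)
  have hdF : SmoothF E4 (fun x => (c i)⁻¹ * f x) := SmoothF.mul (smoothF_const _) hf
  -- `r i = - ∑_{n ≠ i} (c_n / c_i) r n + d (f / c_i)`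
  have key : ∀ (P : Fin 4 → Fin 4 → ℝ), (∀ m, r m = (∑ n, P m n • r n) + dF
      (if m = i then (fun x => (c i)⁻¹ * f x) else fun _ => 0)) → (Matrix.of P).det = 1 := by
    intro P hP
    have h1 := pI_wed_det hF hr P (fun m => if m = i then (fun x => (c i)⁻¹ * f x) else fun _ => 0)
      (fun m => by
        by_cases h : m = i
        · simp only [h, if_true]; exact hdF
        · simp only [h, if_false]; exact smoothF_const 0) hP (hA 0 1) (hA 2 3) (hA 0 1) (hA 2 3)
    have h2 : (Matrix.of P).det * pI F (A 0 1) (A 2 3) = 1 * pI F (A 0 1) (A 2 3) := by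
      rw [← h1, one_mul]
    exact mul_right_cancel₀ hne h2
  have hP := key (fun m n => if m = i then (if n = i then 0 else -(c i)⁻¹ * c n) else
    if m = n then 1 else 0) (fun m => by
      by_cases h : m = i
      · subst h
        simp only [if_true]
        have e1 : dF (E := E4) (fun x => (c m)⁻¹ * f x) = (c m)⁻¹ • dF f := dF_smul _ hf
        have e2 : ∑ n, (if n = m then (0 : ℝ) else -(c m)⁻¹ * c n) • r n =
            r m + (-(c m)⁻¹) • ∑ n, c n • r n := by
          rw [Finset.smul_sum]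
          have e3 : ∀ n, (if n = m then (0 : ℝ) else -(c m)⁻¹ * c n) • r n =
              (if n = m then r m else 0) + (-(c m)⁻¹) • (c n • r n) := by
            intro n
            by_cases hn : n = m
            · subst hn
              rw [if_pos rfl, if_pos rfl, zero_smul, smul_smul, neg_mul,
                inv_mul_cancel₀ hi, neg_one_smul, add_neg_cancel]
            · rw [if_neg hn, if_neg hn, zero_add, smul_smul]
          rw [Finset.sum_congr rfl fun n _ => e3 n, Finset.sum_add_distrib,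
            Finset.sum_ite_eq' Finset.univ m, if_pos (Finset.mem_univ m)]
        rw [e1, e2, hcf, neg_smul, add_assoc, neg_add_cancel, add_zero]
      · simp only [h, if_false]
        rw [dF_zero, add_zero]
        rw [Finset.sum_eq_single m]
        · rw [if_pos rfl, one_smul]
        · intro n _ hn
          rw [if_neg (Ne.symm hn), zero_smul]
        · intro hn; exact absurd (Finset.mem_univ m) hn)
  -- but the determinant is zero: column `i` vanishes
  have h0 : (Matrix.of fun m n : Fin 4 => if m = i then (if n = i then (0 : ℝ) else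
      -(c i)⁻¹ * c n) else if m = n then 1 else 0).det = 0 := by
    refine Matrix.det_eq_zero_of_column_eq_zero i fun m => ?_
    rw [Matrix.of_apply]
    by_cases h : m = i
    · rw [if_pos h, if_pos rfl]
    · rw [if_neg h, if_neg h]
  rw [h0] at hP
  exact one_ne_zero hP.symm

end

end Crest.Agent.R235.QH1_57
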