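import Crest.Agent.R235.NumJ_723
import Crest.Agent.R235.QH1_57

/-!
Row 235 (S0364), block FAM, leaf NUMJ (helper723), final form (uses helper57's `QH1_57`, helper930's
`exists_jd_bas_al`):

* `K1 = -96 (2π)⁴ ≠ 0`;
* `numJ_sigma`    : `numJ S j = K1 * pI F a b`, `a = σ_0∧σ_1`, `b = σ_2∧σ_3`, `α_i = σ_i - df_i`;
* `exists_jd_num` : for an integral basis `σ` of `H¹` of length four there is `j : JD M κ 4` with
                    `j.OK S` and `numJ S j = K1 * pI (w 0) a b`;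
* `exists_jd_SL`  : the same for helper755's `SL T q s L`;
* `exists_jd_T4R` : over `T4R (w 0)`: `∃ j, j.OK S ∧ numJ S j ≠ 0`.
-/

set_option autoImplicit false
set_option maxSynthPendingDepth 3
set_option linter.unusedSectionVars false
set_option linter.unusedVariables false
set_option maxHeartbeats 1000000

open Set Function Filter MeasureTheory Bundle
open scoped Manifold ContDiff Topology ENNReal

namespace Crest.Agent.R235.NumJ_723

open Crest.Agent.R240 Crest.Agent.R240.Ch Crest.Agent.R240.Int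
open Crest.Agent.R249.Tv57 (Dat OpPair)
open Crest.Agent.R249.Vf281 Crest.Agent.R249.Tz2_805 Crest.Agent.R249.Tz805
open Crest.Agent.R235.DichProps_723
open Crest.Agent.R235.Ind167 Crest.Agent.R235.Mdl2_755 Crest.Agent.R235.SymQ_755
open Crest.Agent.R235.SWDefs_53 Crest.Agent.R235.SwsQ_755 Crest.Agent.R235.SwsL_755
open Crest.Agent.R235.RiemC_399 Crest.Agent.R235.RC7_723 Crest.Agent.R235.QSTri_451
open Crest.Agent.R235.TwfL_755 Crest.Agent.R235.LTw_453 Crest.Agent.R235.Mdl3_399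
open Crest.Agent.R235.IndVol_57 (Cpt)
open Crest.Agent.R235.Hodge_194 (cof shp inner_shp CFn)
open Crest.Agent.R235.FamTop_307 (bJ L4 numJ)

noncomputable section

/-- the constant. -/
def K1 : ℝ := -96 * (2 * Real.pi) ^ 4

theorem K1_ne : K1 ≠ 0 := by
  unfold K1
  have := Real.pi_pos
  positivity

variable {M : Type} [MetricSpace M] [CompactSpace M] [ConnectedSpace M]
  [ChartedSpace (EuclideanSpace ℝ (Fin 4)) M] [IsManifold (𝓡 4) ∞ M]
  [RiemannianBundle (fun p : M => TangentSpace (𝓡 4) p)]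
  [IsContMDiffRiemannianBundle (𝓡 4) ∞ (EuclideanSpace ℝ (Fin 4))
    (fun p : M => TangentSpace (𝓡 4) p)]
  [IsRiemannianManifold (𝓡 4) M] [MeasurableSpace M] [BorelSpace M]
  [SecondCountableTopology M] [Nonempty M]
  {κ κ0 κ1 : Type} [Fintype κ] [Fintype κ0] [Fintype κ1]

variable {T : ToF 4 M} {P : CPair 4 M κ κ0 κ1} {Jf : κ0 → κ0 → M → ℝ}
  {Kt : Fin 3 → κ0 → κ0 → M → ℝ}

section sigma

variable {DL : Dat 4 M (Fin 4)} {DT : Dat 4 M κ} {H : OpPair DL DT} {q : QS M}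

/-- **NUMJ for cohomologous forms** -/
theorem numJ_sigma (h : Twf q P Jf Kt) {F : Z2 M} {J' : EndF E4 M}
    (hC : Cpt (F.1.1 : F2 E4 M) J')
    (hF : ∀ (x : M) (u v : TangentSpace (𝓡 4) x), at2 (F.1.1 : F2 E4 M) x u v
      = inner ℝ (q.op 0 x u) v)
    (j : JD M κ 4) {α σ : Fin 4 → F1 E4 M} (hα : ∀ i, j.al i = cof P.s (α i))
    (hσ : ∀ i, Closed1 (σ i)) {f : Fin 4 → M → ℝ} (hf : ∀ i, SmoothF E4 (f i))
    (hασ : ∀ i, α i = σ i - dF (f i))
    {a b : Z2 M} (ha : (a.1.1 : F2 E4 M) = wedG (σ 0) (σ 1))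
    (hb : (b.1.1 : F2 E4 M) = wedG (σ 2) (σ 3)) :
    numJ (swsQ T P Jf Kt H) j = K1 * pI F a b := by
  have hf' : ∀ i, SmoothF E4 (fun x => (-1 : ℝ) * f i x) := fun i =>
    SmoothF.mul (smoothF_const (-1)) (hf i)
  have hd : ∀ i, dF (E := E4) (fun x => (-1 : ℝ) * f i x) = - dF (E := E4) (f i) := by
    intro i
    have h1 := TorMin_510.dF_smul (M := M) (-1) (hf i)
    rw [h1, neg_one_smul]
  have hα' : ∀ i, α i = σ i + dF (fun x => (-1 : ℝ) * f i x) := by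
    intro i
    rw [hασ, hd, sub_eq_add_neg]
  have hαc : ∀ i, Closed1 (α i) := by
    intro i
    rw [hα']
    exact TorMin_510.Closed1.add (hσ i) (TorMin_510.closed1_dF (hf' i))
  have h1 := numJ_eq h hC hF j hα (T := T) (H := H) (a := DichH1_723.wedZ (hαc 0) (hαc 1))
    (b := DichH1_723.wedZ (hαc 2) (hαc 3)) rfl rfl
  have h2 := QH1_57.pI_wed_det hC.vol hσ (fun i k => if i = k then (1 : ℝ) else 0)
    (fun i x => (-1 : ℝ) * f i x) hf' (r := α) (fun i => by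
      rw [hα' i]
      congr 1
      simp)
    (a := DichH1_723.wedZ (hαc 0) (hαc 1)) (b := DichH1_723.wedZ (hαc 2) (hαc 3)) rfl rfl ha hb
  have h3 : (Matrix.of fun i k : Fin 4 => if i = k then (1 : ℝ) else 0).det = 1 := by
    have : (Matrix.of fun i k : Fin 4 => if i = k then (1 : ℝ) else 0) = 1 := by
      ext i k
      rw [Matrix.of_apply, Matrix.one_apply]
    rw [this, Matrix.det_one]
  rw [h1, h2, h3, one_mul]
  rfl

end sigma

variable {w : Trip M} {e : Fin 3 → F2 E4 M} (he : IndTri_451.IsTri (IndTri_451.und w) e)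
  (hin : ∀ (x : M) (u v : TangentSpace 𝓘(ℝ, E4) x), inner ℝ u v = at2 (IndTri_451.gg e) x u v)
  (s : PF 4 M κ)

/-- the form of `w 0`. -/
theorem hq0 (x : M) (u v : TangentSpace (𝓡 4) x) :
    at2 ((w 0).1.1 : F2 E4 M) x u v = inner ℝ ((qs he hin).op 0 x u) v := by
  have h := e_eq_inner he hin 0 x u v
  rw [he.e_zero] at h
  exact h

/-- **(M9) + NUMJ** -/
theorem exists_jd_num (h : Twf (qs he hin) P Jf Kt) (hs : ∀ A z, P.s.s A z = s.s A z)
    {σ : Fin 4 → F1 E4 M} (hσ : H1Bas σ) {a b : Z2 M}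
    (ha : (a.1.1 : F2 E4 M) = wedG (σ 0) (σ 1)) (hb : (b.1.1 : F2 E4 M) = wedG (σ 2) (σ 3)) :
    ∃ j : JD M κ 4, j.OK (swsQ T P Jf Kt (Hp T (qs he hin) s)) ∧
      numJ (swsQ T P Jf Kt (Hp T (qs he hin) s)) j = K1 * pI (w 0) a b := by
  obtain ⟨j, α, f, hj, h1, -, -, h2⟩ := SWJDok_930.exists_jd_bas_al he hin
    (S := swsQ T P Jf Kt (Hp T (qs he hin) s)) (T := T) (s := s) (fun _ _ _ => rfl)
    (fun A z => by
      show T.toF z (P.s.s A z) = _
      rw [hs]) (fun _ => rfl) hσ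
  refine ⟨j, hj, numJ_sigma h (comp_w he hin).cpt (hq0 he hin) j (α := fun i => (α i).1)
    (fun i => ?_) hσ.closed (f := fun i => (f i).1) (fun i => (f i).2) h1 ha hb⟩
  rw [h2 i]
  funext A z
  show at1 (α i).1 z (s.s A z) = at1 (α i).1 z (P.s.s A z)
  rw [hs]

/-- **(M9) + NUMJ for the twist by a line bundle**. -/
theorem exists_jd_SL {N : ℕ} (L : LD 4 M N) {σ : Fin 4 → F1 E4 M} (hσ : H1Bas σ) {a b : Z2 M}
    (ha : (a.1.1 : F2 E4 M) = wedG (σ 0) (σ 1)) (hb : (b.1.1 : F2 E4 M) = wedG (σ 2) (σ 3)) :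
    ∃ j : JD M κ 4, j.OK (SL T (qs he hin) s L) ∧
      numJ (SL T (qs he hin) s L) j = K1 * pI (w 0) a b :=
  exists_jd_num he hin s (twf_L (qs he hin) s L) (fun _ _ => rfl) hσ ha hb

/-- **real torus type**: `numJ ≠ 0`. -/
theorem exists_jd_T4R (hT : T4R (w 0)) (h : Twf (qs he hin) P Jf Kt)
    (hs : ∀ A z, P.s.s A z = s.s A z) {σ : Fin 4 → F1 E4 M} (hσ : H1Bas σ) :
    ∃ j : JD M κ 4, j.OK (swsQ T P Jf Kt (Hp T (qs he hin) s)) ∧
      numJ (swsQ T P Jf Kt (Hp T (qs he hin) s)) j ≠ 0 := by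
  obtain ⟨j, hj, hn⟩ := exists_jd_num he hin s (T := T) h hs hσ
    (a := DichH1_723.wedZ (hσ.closed 0) (hσ.closed 1))
    (b := DichH1_723.wedZ (hσ.closed 2) (hσ.closed 3)) rfl rfl
  refine ⟨j, hj, ?_⟩
  rw [hn]
  exact mul_ne_zero K1_ne (QH1_57.pI_ne_of_T4R (comp_w he hin).cpt.vol hT hσ rfl rfl)

include he hin in
/-- an integral basis of `H¹` of length four over `T4R`. -/
theorem exists_bas (hT : T4R (w 0)) : ∃ σ : Fin 4 → F1 E4 M, H1Bas σ := by
  obtain ⟨b, σ, hσ⟩ := H1Fin_692.h1bas M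
  have h1 : HasB1 M b := ⟨σ, hσ.closed, fun r hr => by
    obtain ⟨x, ⟨f, hf, e⟩, -⟩ := hσ.span r hr
    exact ⟨x, f, hf, e⟩, hσ.indep⟩
  have h2 : b = 4 := DichH1_723.hasB1_unique h1
    (QH1_57.hasB1_of_T4R (comp_w he hin).cpt.vol hT)
  subst h2
  exact ⟨σ, hσ⟩

/-- **real torus type, twist by a line bundle**: `∃ j, j.OK S ∧ numJ S j ≠ 0`. -/
theorem exists_jd_SL_T4R (hT : T4R (w 0)) {N : ℕ} (L : LD 4 M N) :
    ∃ j : JD M κ 4, j.OK (SL T (qs he hin) s L) ∧ numJ (SL T (qs he hin) s L) j ≠ 0 := by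
  obtain ⟨σ, hσ⟩ := exists_bas he hin hT
  exact exists_jd_T4R he hin s hT (twf_L (qs he hin) s L) (fun _ _ => rfl) hσ

end

end Crest.Agent.R235.NumJ_723
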