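import Crest.Agent.R235.ModB_344
import Crest.Agent.R235.HopfM_453
import Crest.Agent.R235.NumJ2_723
import Crest.Agent.R235.FamModT_307

/-!
Row 235 (S0364), PACKAGES SW / FAM (helper344): **`MODT` is a theorem**: the model of the trivial bundle
over the Jacobian torus of a given integral basis of `H¹` of length four.
-/

set_option autoImplicit false
set_option maxSynthPendingDepth 3
set_option linter.unusedSectionVars false
set_option maxHeartbeats 1000000

open scoped ContDiff ENNReal NNReal Topology Manifold Bundle RealInnerProductSpace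
open MeasureTheory Set Filter Metric Bundle Matrix

namespace Crest.Agent.R235.ModB_344

open Crest.Agent.R240 Crest.Agent.R240.Ch Crest.Agent.R235.SWDefs_53
open Crest.Agent.R235.IndTri_451
open Crest.Agent.R249.Tz805 (ToF)
open Crest.Agent.R235.SwsL_755
open Crest.Agent.R235.LTwLd_774 (ldOf)
open Crest.Agent.R235.QSTri_451 (qs)

/-- **MODT** from the Hopf family of the model. -/
theorem modt_of (hH : HOPFM) : FamModT_307.MODT := by
  intro M _ _ _ _ _ _ _ _ _ _ _ _ _ w e hw he hin σ hσ a b ha hb
  obtain ⟨m, ⟨s⟩⟩ := R249.Tz2_805.exists_PF (n := 4) (M := M)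
  let T : ToF 4 M := R249.Tof352.tof 4 M
  obtain ⟨ww, τ, C, th, pi, U, hD, hA⟩ := hH M w e he hin isLine1 _ T s
  obtain ⟨d0, d1, bp, K0, K1, K2, h, hn⟩ :=
    nums_bas hw he hin T s isLine1 isChern1 (pI_zero_zero (w 0)) hσ
  obtain ⟨j, hj, hnum⟩ := NumJ_723.exists_jd_SL (T := T) he hin s (ldOf (fun _ => 1) isLine1)
    hσ ha hb
  have hsym := sym_L T (qs he hin) s (ldOf (fun _ => 1) isLine1)
  exact ⟨_, _, _, inferInstance, inferInstance, inferInstance,
    SL T (qs he hin) s (ldOf (fun _ => 1) isLine1), _, _, j, ww, τ, C, th, pi, U, d0, d1, bp,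
    hsym, SWJ1_133.cj1 hsym, grdH_SL T s (qs he hin) _, hj, hD, hA, K0, K1, K2, h, hn,
    fun h1 h2 => h1 (by rw [hnum, h2, mul_zero])⟩

/-- **MODT**. -/
theorem modt : FamModT_307.MODT := modt_of HopfM_453.hopfm

end Crest.Agent.R235.ModB_344
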