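import Crest.Agent.R235.FamModX_307
import Crest.Agent.R235.FamEndA_307
import Crest.Agent.R235.FamEndB_307
import Crest.Agent.R235.FamLin_307

/-!
Row 235 (S0364), helper399: the end `FAMXC → BPLUS → MODXG → MODX` of the package FAM.
-/

set_option autoImplicit false
set_option maxSynthPendingDepth 3
set_option linter.unusedSectionVars false

open scoped ContDiff ENNReal NNReal Topology Manifold Bundle RealInnerProductSpace
open MeasureTheory Set Filter Metric Bundle Module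

namespace Crest.Agent.R235.ModXE_399

open Crest.Agent.R240 Crest.Agent.R240.Ch Crest.Agent.R235
open Crest.Agent.R249.Tv57 (Dat OpPair SmF SmV KerD)
open Crest.Agent.R249.Tz805 (ToF)
open Crest.Agent.R235.SWDefs_53 Crest.Agent.R235.SWSym_451
open Crest.Agent.R235.IndTri_451 Crest.Agent.R235.Tau483
open Crest.Agent.R235.SwcProd_215
open Crest.Agent.R235.FamTop_307 Crest.Agent.R235.FamTop2_307 Crest.Agent.R235.FamModX_307
open Crest.Agent.R235.FamEndA_307 Crest.Agent.R235.FamEndB_307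

noncomputable section

/-- **MODX** from the family theorem, `b⁺ = 3` and the model. -/
theorem modx_of (hF : FAMXC.{0}) (hB : BPLUS.{0}) (hG : MODXG) : MODX.{0} := by
  intro M _ _ _ _ _ _ _ _ _ _ _ _ _ w e hw hT he hin c hc hcc hc0
  obtain ⟨κ0, κ1, κT, i0, i1, iT, S, T, cc, W, sT, ι, ww, τ, C, K, ccS, J1, j, d0, d1, bp, hD,
    hcf, hS, hJ, hj, k0, k1, kL, hd, ⟨P, N, hfin, hPN, hbp, hP, hN, -⟩, hn⟩ :=
    hG M w e hw hT he hin c hc hcc hc0
  have hV := hw.vol 0
  have h3 : bp = 3 := by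
    rw [← hbp]
    exact FamLin_307.bp_eq (ipB (w 0) hV) P N hPN (fun x hx hx0 => hP x hx hx0)
      (fun x hx hx0 => hN x hx hx0) (fun i => cls (w i)) (fun a ha => hw.ip_comb_pos 0 ha)
      fun c hc hc0 => hB M w hw c hc hc0
  subst h3
  obtain rfl : d0 = d1 := by omega
  have FXh : FX S ww τ C :=
    { smw := hD.smw
      harm := hD.harm
      rr := hD.rr
      nn := hD.nn
      tau := hD.tau
      cfE := hcf }
  obtain ⟨r0, hr0, hr⟩ := exists_adm FXh
  refine ⟨κ0, κ1, κT, i0, i1, iT, S, T, cc, W, sT, ι, ww, τ, C, K, hD, Hbd j, r0,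
    fun r hrr => ?_⟩
  obtain ⟨hadm, hfit⟩ := hr r hrr
  obtain ⟨t, h, a, u, ht, hh, hsol⟩ := hF M κ0 κ1 κT S ccS J1 j (mkx ww τ r) d0 hD.ok hS hJ hj hadm
    k0 k1 kL hn
  obtain ⟨s1, s2, s3, s4, s5, s6⟩ := solB_all hj hh hsol
  exact ⟨t, mkx ww τ r, a + j.fm h, u, ht, hfit t ht, rfl, fun _ _ => rfl,
    ⟨s1, s2, s3, s4, s5, s6⟩⟩

end

end Crest.Agent.R235.ModXE_399
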