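import Crest.Agent.R235.ModXG_399
import Crest.Agent.R235.FamModX_307

/-!
Row 235 (S0364), helper399: `MODXG` of `FamModX_307`.
-/

set_option autoImplicit false

namespace Crest.Agent.R235.ModXG_399

/-- **MODXG**. -/
theorem modxg : FamModX_307.MODXG := by
  intro M _ _ _ _ _ _ _ _ _ _ _ _ _ w e hw hT he hin c hc hcc _
  obtain ⟨κ0, κ1, κT, i0, i1, iT, S, T, cc, W, sT, τ, C, K, J1, j, d0, d1, bp, hD, hcf, hS, hJ, -,
    hj, hn, k0, k1, kL, hd, hN⟩ := modxg_core hw hT he hin hc hcc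
  exact ⟨κ0, κ1, κT, i0, i1, iT, S, T, cc, W, sT, -1, _, τ, C, K, _, J1, j, d0, d1, bp, hD, hcf,
    hS, hJ, hj, k0, k1, kL, hd, hN, hn⟩

end Crest.Agent.R235.ModXG_399
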