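import Crest.Agent.R235.RCInfA_843

/-!
Row 235, block FAM/RC (helper843), half INF (`ε → 0`) of the resolvent-Chern formula of helper746,
part B: resolvents and `inf : INF`.
-/

set_option autoImplicit false
set_option linter.unusedSectionVars false

open scoped InnerProductSpace Topology ContDiff
open Filter Set MeasureTheory Crest.Agent.R235.RCTr_746 Crest.Agent.R235.FamDefs_307
open Crest.Agent.R235.RCDefs_746 Crest.Agent.R235.RCInfA_843

namespace Crest.Agent.R235.RCInf_843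

noncomputable section

variable {H : Type*} [NormedAddCommGroup H] [InnerProductSpace ℂ H] [CompleteSpace H]

/-! ### resolvents -/

section res

variable {g K : H →L[ℂ] H}

lemma norm_one_le : ‖(1 : H →L[ℂ] H)‖ ≤ 1 := ContinuousLinearMap.norm_id_le

lemma star_real (c : ℝ) (T : H →L[ℂ] H) : star ((c : ℂ) • T) = (c : ℂ) • star T := by
  rw [star_smul, Complex.star_def, Complex.conj_ofReal]

lemma comm_K (hB : Base g K) : Commute K (star K) := by
  have h := hB.kk.symm.trans hB.kk'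
  exact smul_right_injective _ (two_ne_zero : (2 : ℂ) ≠ 0) h

lemma star_u : star ((2 : ℂ) • K - 1) = (2 : ℂ) • star K - 1 := by
  rw [star_sub, star_one]
  congr 1
  rw [star_smul]; simp

lemma u_unit (hB : Base g K) : star ((2 : ℂ) • K - 1) * ((2 : ℂ) • K - 1) = 1 := by
  rw [star_u]
  have h := hB.kk'
  have e : ((2 : ℂ) • star K - 1) * ((2 : ℂ) • K - 1) =
      (2 : ℂ) • ((2 : ℂ) • (star K * K)) - (2 : ℂ) • (K + star K) + 1 := by
    simp only [sub_mul, mul_sub, smul_mul_assoc, mul_smul_comm, one_mul, mul_one, smul_add]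
    module
  rw [e, ← h, sub_self, zero_add]

lemma norm_u (hB : Base g K) : ‖(2 : ℂ) • K - 1‖ ≤ 1 := by
  have h := CStarRing.norm_star_mul_self (x := (2 : ℂ) • K - 1)
  rw [u_unit hB] at h
  have h1 := norm_one_le (H := H)
  nlinarith [norm_nonneg ((2 : ℂ) • K - 1)]

lemma norm_u' (hB : Base g K) : ‖(2 : ℂ) • star K - 1‖ ≤ 1 := by
  rw [← star_u, norm_star]; exact norm_u hB

lemma K_eq : K = (1 / 2 : ℂ) • (1 + ((2 : ℂ) • K - 1)) := by
  rw [add_sub_cancel, smul_smul]; norm_num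

lemma starK_eq (hB : Base g K) : star K = ((2 : ℂ) • star K - 1) * K := by
  rw [sub_mul, smul_mul_assoc, ← hB.kk', one_mul, add_sub_cancel_left]

/-- invertibility and the norm of the inverse of `c + X`. -/
lemma unit_of {c q : ℝ} {X : H →L[ℂ] H} (hX : ‖X‖ ≤ q) (hq : q < c) :
    IsUnit ((c : ℂ) • (1 : H →L[ℂ] H) + X) := by
  have hc : 0 < c := lt_of_le_of_lt ((norm_nonneg _).trans hX) hq
  have hc' : (c : ℂ) ≠ 0 := by exact_mod_cast hc.ne'
  have e : (c : ℂ) • (1 : H →L[ℂ] H) + X = (c : ℂ) • (1 - (-(c : ℂ)⁻¹) • X) := by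
    rw [smul_sub, smul_smul, mul_neg, mul_inv_cancel₀ hc', neg_smul, one_smul, sub_neg_eq_add]
  rw [e]
  have h1 : IsUnit (1 - (-(c : ℂ)⁻¹) • X) := by
    apply isUnit_one_sub_of_norm_lt_one
    rw [norm_smul, norm_neg, norm_inv, Complex.norm_real, Real.norm_eq_abs, abs_of_pos hc,
      ← div_eq_inv_mul, div_lt_one hc]
    exact hX.trans_lt hq
  have h2 : IsUnit ((c : ℂ) • (1 : H →L[ℂ] H)) := by
    refine IsUnit.smul (Units.mk0 (c : ℂ) hc') isUnit_one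
  have h3 := h2.mul h1
  rwa [smul_mul_assoc, one_mul] at h3

lemma norm_inv_of {c q : ℝ} {X N : H →L[ℂ] H} (hX : ‖X‖ ≤ q) (hq : q < c)
    (hN : N * ((c : ℂ) • (1 : H →L[ℂ] H) + X) = 1) : ‖N‖ ≤ (c - q)⁻¹ := by
  have hc : 0 < c := lt_of_le_of_lt ((norm_nonneg _).trans hX) hq
  have h1 : (c : ℂ) • N = 1 - N * X := by
    rw [← hN]; rw [mul_add, mul_smul_comm, mul_one, add_sub_cancel_right]
  have h2 : c * ‖N‖ ≤ 1 + ‖N‖ * q := by
    calc c * ‖N‖ = ‖(c : ℂ) • N‖ := by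
          rw [norm_smul, Complex.norm_real, Real.norm_eq_abs, abs_of_pos hc]
      _ ≤ ‖(1 : H →L[ℂ] H)‖ + ‖N * X‖ := by rw [h1]; exact norm_sub_le _ _
      _ ≤ 1 + ‖N‖ * q := by
          refine add_le_add norm_one_le ((norm_mul_le _ _).trans ?_)
          exact mul_le_mul_of_nonneg_left hX (norm_nonneg _)
  rw [inv_eq_one_div, le_div_iff₀ (by linarith)]
  nlinarith

/-- the denominator of `Cf`. -/
def MM (K W : H →L[ℂ] H) (ε : ℝ) : H →L[ℂ] H :=
  (ε : ℂ) • (1 : H →L[ℂ] H) + ((1 - ε : ℝ) : ℂ) • K + (ε : ℂ) • (W * K)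

lemma Cf_eq (W : H →L[ℂ] H) (ε : ℝ) : Cf K W ε = K * Ring.inverse (MM K W ε) := rfl

lemma Cr_eq (ε : ℝ) : Cr K ε = Cf K 0 ε := by
  unfold Cr Cf
  simp

lemma MM0_eq (ε : ℝ) : MM K 0 ε =
    (((1 + ε) / 2 : ℝ) : ℂ) • (1 : H →L[ℂ] H) +
      (((1 - ε) / 2 : ℝ) : ℂ) • ((2 : ℂ) • K - 1) := by
  unfold MM
  rw [zero_mul, smul_zero, add_zero]
  push_cast
  module

lemma norm_u0 (hB : Base g K) {ε : ℝ} (h1 : ε ≤ 1) :
    ‖(((1 - ε) / 2 : ℝ) : ℂ) • ((2 : ℂ) • K - 1)‖ ≤ (1 - ε) / 2 := by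
  rw [norm_smul, Complex.norm_real, Real.norm_eq_abs, abs_of_nonneg (by linarith)]
  calc (1 - ε) / 2 * ‖(2 : ℂ) • K - 1‖ ≤ (1 - ε) / 2 * 1 :=
        mul_le_mul_of_nonneg_left (norm_u hB) (by linarith)
    _ = _ := mul_one _

lemma unit0 (hB : Base g K) {ε : ℝ} (h0 : 0 < ε) (h1 : ε ≤ 1) : IsUnit (MM K 0 ε) := by
  rw [MM0_eq]
  exact unit_of (norm_u0 hB h1) (by linarith)

lemma norm_inv0 (hB : Base g K) {ε : ℝ} (h0 : 0 < ε) (h1 : ε ≤ 1) :
    ‖Ring.inverse (MM K 0 ε)‖ ≤ ε⁻¹ := by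
  have h := Ring.inverse_mul_cancel _ (unit0 hB h0 h1)
  rw [MM0_eq] at h
  have h2 := norm_inv_of (norm_u0 hB h1) (by linarith) h
  rw [MM0_eq]
  convert h2 using 2
  ring

lemma norm_Cf0 (hB : Base g K) {ε : ℝ} (h0 : 0 < ε) (h1 : ε ≤ 1 / 2) : ‖Cf K 0 ε‖ ≤ 4 := by
  have h := Ring.mul_inverse_cancel _ (unit0 hB h0 (by linarith))
  have h2 : ((1 - ε : ℝ) : ℂ) • Cf K 0 ε = 1 - (ε : ℂ) • Ring.inverse (MM K 0 ε) := by
    rw [Cf_eq, eq_sub_iff_add_eq, ← h]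
    conv_rhs => unfold MM
    rw [zero_mul, smul_zero, add_zero, add_mul, smul_mul_assoc, smul_mul_assoc, one_mul, add_comm]
    unfold MM
    rw [zero_mul, smul_zero, add_zero]
  have h3 : (1 - ε) * ‖Cf K 0 ε‖ ≤ 2 := by
    calc (1 - ε) * ‖Cf K 0 ε‖ = ‖((1 - ε : ℝ) : ℂ) • Cf K 0 ε‖ := by
          rw [norm_smul, Complex.norm_real, Real.norm_eq_abs, abs_of_pos (by linarith)]
      _ ≤ ‖(1 : H →L[ℂ] H)‖ + ‖(ε : ℂ) • Ring.inverse (MM K 0 ε)‖ := by
          rw [h2]; exact norm_sub_le _ _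
      _ ≤ 1 + ε * ε⁻¹ := by
          refine add_le_add norm_one_le ?_
          rw [norm_smul, Complex.norm_real, Real.norm_eq_abs, abs_of_pos h0]
          exact mul_le_mul_of_nonneg_left (norm_inv0 hB h0 (by linarith)) h0.le
      _ = 2 := by rw [mul_inv_cancel₀ h0.ne']; norm_num
  nlinarith [norm_nonneg (Cf K 0 ε)]

lemma MM_eq (hB : Base g K) {ε : ℝ} (h0 : 0 < ε) (h1 : ε ≤ 1 / 2) (W : H →L[ℂ] H) :
    MM K W ε = (((1 : ℝ) : ℂ) • 1 + (ε : ℂ) • (W * Cf K 0 ε)) * MM K 0 ε := by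
  have h := Ring.inverse_mul_cancel _ (unit0 hB h0 (by linarith))
  have h2 : Cf K 0 ε * MM K 0 ε = K := by
    rw [Cf_eq, mul_assoc, h, mul_one]
  rw [Complex.ofReal_one, one_smul, add_mul, one_mul, smul_mul_assoc, mul_assoc, h2]
  unfold MM
  rw [zero_mul, smul_zero, add_zero]

lemma norm_X (hB : Base g K) {ε v : ℝ} (h0 : 0 < ε) (h1 : ε ≤ 1 / 2) (hv : 8 * ε * v ≤ 1)
    {W : H →L[ℂ] H} (hW : ‖W‖ ≤ v) : ‖(ε : ℂ) • (W * Cf K 0 ε)‖ ≤ 1 / 2 := by
  rw [norm_smul, Complex.norm_real, Real.norm_eq_abs, abs_of_pos h0]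
  have h2 : ‖W * Cf K 0 ε‖ ≤ v * 4 := (norm_mul_le _ _).trans
    (mul_le_mul hW (norm_Cf0 hB h0 h1) (norm_nonneg _) ((norm_nonneg _).trans hW))
  calc ε * ‖W * Cf K 0 ε‖ ≤ ε * (v * 4) := mul_le_mul_of_nonneg_left h2 h0.le
    _ ≤ 1 / 2 := by linarith

lemma unitW (hB : Base g K) {ε v : ℝ} (h0 : 0 < ε) (h1 : ε ≤ 1 / 2) (hv : 8 * ε * v ≤ 1)
    {W : H →L[ℂ] H} (hW : ‖W‖ ≤ v) : IsUnit (MM K W ε) := by
  rw [MM_eq hB h0 h1]
  exact (unit_of (norm_X hB h0 h1 hv hW) (by norm_num)).mul (unit0 hB h0 (by linarith))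

lemma invW (hB : Base g K) {ε v : ℝ} (h0 : 0 < ε) (h1 : ε ≤ 1 / 2) (hv : 8 * ε * v ≤ 1)
    {W : H →L[ℂ] H} (hW : ‖W‖ ≤ v) : ∃ P : H →L[ℂ] H, ‖P‖ ≤ 2 ∧
      Ring.inverse (MM K W ε) = Ring.inverse (MM K 0 ε) * P := by
  have hu := unit_of (norm_X hB h0 h1 hv hW) (by norm_num : (1 / 2 : ℝ) < 1)
  refine ⟨Ring.inverse (((1 : ℝ) : ℂ) • 1 + (ε : ℂ) • (W * Cf K 0 ε)), ?_, ?_⟩
  · have := norm_inv_of (norm_X hB h0 h1 hv hW) (by norm_num : (1 / 2 : ℝ) < 1)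
      (Ring.inverse_mul_cancel _ hu)
    norm_num at this ⊢
    exact this
  · have e1 := Ring.inverse_mul_cancel _ (unitW hB h0 h1 hv hW)
    have e2 := Ring.mul_inverse_cancel _ hu
    have e3 := Ring.mul_inverse_cancel _ (unit0 hB h0 (by linarith))
    set P := Ring.inverse (((1 : ℝ) : ℂ) • 1 + (ε : ℂ) • (W * Cf K 0 ε)) with hP
    have e4 : MM K W ε * (Ring.inverse (MM K 0 ε) * P) = 1 := by
      rw [MM_eq hB h0 h1, mul_assoc, ← mul_assoc (MM K 0 ε), e3, one_mul, e2]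
    calc Ring.inverse (MM K W ε) = Ring.inverse (MM K W ε) *
          (MM K W ε * (Ring.inverse (MM K 0 ε) * P)) := by rw [e4, mul_one]
      _ = _ := by rw [← mul_assoc, e1, one_mul]

lemma norm_invW (hB : Base g K) {ε v : ℝ} (h0 : 0 < ε) (h1 : ε ≤ 1 / 2) (hv : 8 * ε * v ≤ 1)
    {W : H →L[ℂ] H} (hW : ‖W‖ ≤ v) : ‖Ring.inverse (MM K W ε)‖ ≤ 2 * ε⁻¹ := by
  obtain ⟨P, hP, h⟩ := invW hB h0 h1 hv hW
  rw [h]
  calc ‖Ring.inverse (MM K 0 ε) * P‖ ≤ ε⁻¹ * 2 := (norm_mul_le _ _).trans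
        (mul_le_mul (norm_inv0 hB h0 (by linarith)) hP (norm_nonneg _) (by positivity))
    _ = _ := mul_comm _ _

lemma norm_Cf (hB : Base g K) {ε v : ℝ} (h0 : 0 < ε) (h1 : ε ≤ 1 / 2) (hv : 8 * ε * v ≤ 1)
    {W : H →L[ℂ] H} (hW : ‖W‖ ≤ v) : ‖Cf K W ε‖ ≤ 8 := by
  obtain ⟨P, hP, h⟩ := invW hB h0 h1 hv hW
  rw [Cf_eq, h, ← mul_assoc, ← Cf_eq]
  calc ‖Cf K 0 ε * P‖ ≤ 4 * 2 := (norm_mul_le _ _).trans
        (mul_le_mul (norm_Cf0 hB h0 h1) hP (norm_nonneg _) (by norm_num))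
    _ = 8 := by norm_num

/-- the resolvent identity. -/
lemma Cf_diff (hB : Base g K) {ε v : ℝ} (h0 : 0 < ε) (h1 : ε ≤ 1 / 2) (hv : 8 * ε * v ≤ 1)
    {W W' : H →L[ℂ] H} (hW : ‖W‖ ≤ v) (hW' : ‖W'‖ ≤ v) :
    Cf K W ε = Cf K W' ε + Cf K W' ε * ((ε : ℂ) • (W' - W)) * Cf K W ε := by
  have e1 := Ring.mul_inverse_cancel _ (unitW hB h0 h1 hv hW)
  have e2 := Ring.inverse_mul_cancel _ (unitW hB h0 h1 hv hW')
  simp only [Cf_eq]
  set N := Ring.inverse (MM K W ε) with hN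
  set N' := Ring.inverse (MM K W' ε) with hN'
  have e3 : ((ε : ℂ) • (W' - W)) * K = MM K W' ε - MM K W ε := by
    unfold MM
    rw [smul_mul_assoc, sub_mul, smul_sub]
    abel
  have e4 : K * N' * ((ε : ℂ) • (W' - W)) * (K * N) = K * N - K * N' := by
    calc K * N' * ((ε : ℂ) • (W' - W)) * (K * N) =
          K * (N' * (((ε : ℂ) • (W' - W)) * K) * N) := by simp only [mul_assoc]
      _ = K * ((N' * MM K W' ε) * N - N' * (MM K W ε * N)) := by
          rw [e3, mul_sub, sub_mul, mul_assoc N' (MM K W ε) N]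
      _ = _ := by rw [e2, e1, one_mul, mul_one, mul_sub]
  rw [e4, add_sub_cancel]

lemma Cfs_diff (hB : Base g K) {ε v : ℝ} (h0 : 0 < ε) (h1 : ε ≤ 1 / 2) (hv : 8 * ε * v ≤ 1)
    {W W' : H →L[ℂ] H} (hW : ‖W‖ ≤ v) (hW' : ‖W'‖ ≤ v) :
    star (Cf K W ε) = star (Cf K W' ε) +
      star (Cf K W ε) * ((ε : ℂ) • star (W' - W)) * star (Cf K W' ε) := by
  conv_lhs => rw [Cf_diff hB h0 h1 hv hW hW']
  rw [star_add, star_mul, star_mul, star_real, mul_assoc]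

/-! symmetries of the unperturbed resolvent -/

lemma comm_inv {M N X : H →L[ℂ] H} (h1 : M * N = 1) (h2 : N * M = 1) (h : Commute M X) :
    Commute N X := by
  have h' : M * X = X * M := h
  calc N * X = N * X * (M * N) := by rw [h1, mul_one]
    _ = N * (X * M) * N := by simp only [mul_assoc]
    _ = N * (M * X) * N := by rw [h']
    _ = (N * M) * X * N := by simp only [mul_assoc]
    _ = X * N := by rw [h2, one_mul]

lemma comm_M {X : H →L[ℂ] H} (h : Commute K X) (ε : ℝ) : Commute (MM K 0 ε) X := by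
  unfold MM
  rw [zero_mul, smul_zero, add_zero]
  exact (((Commute.one_left X).smul_left _).add_left (h.smul_left _))

lemma star_comm {X Y : H →L[ℂ] H} (h : Commute X Y) : Commute (star X) (star Y) := by
  have h' : X * Y = Y * X := h
  change star X * star Y = star Y * star X
  rw [← star_mul, ← star_mul, h']

lemma star_MM0 (ε : ℝ) : star (MM K 0 ε) = MM (star K) 0 ε := by
  unfold MM
  rw [zero_mul, zero_mul, smul_zero, add_zero, add_zero, star_add, star_real, star_real, star_one]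

lemma g_MM (hB : Base g K) (ε : ℝ) : g * MM K 0 ε * g = star (MM K 0 ε) := by
  rw [star_MM0]
  unfold MM
  rw [zero_mul, zero_mul, smul_zero, add_zero, add_zero, mul_add, add_mul, mul_smul_comm,
    smul_mul_assoc, mul_one, hB.gg, mul_smul_comm, smul_mul_assoc, hB.gk]

lemma g_Cf0 (hB : Base g K) {ε : ℝ} (h0 : 0 < ε) (h1 : ε ≤ 1) :
    g * Cf K 0 ε * g = star (Cf K 0 ε) := by
  have e1 := Ring.mul_inverse_cancel _ (unit0 hB h0 h1)
  have e2 := Ring.inverse_mul_cancel _ (unit0 hB h0 h1)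
  rw [Cf_eq]
  set M := MM K 0 ε with hM
  set N := Ring.inverse M with hN
  have hg := hB.gg
  have e3 : g * N * g = star N := by
    have e4 : g * N * g * star M = 1 := by
      rw [hM, ← g_MM hB, ← hM]
      calc g * N * g * (g * M * g) = g * N * (g * g) * M * g := by simp only [mul_assoc]
        _ = g * (N * M) * g := by rw [hg]; simp only [mul_assoc, mul_one]
        _ = 1 := by rw [e2, mul_one, hg]
    have e5 : star M * star N = 1 := by rw [← star_mul, e2, star_one]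
    calc g * N * g = g * N * g * (star M * star N) := by rw [e5, mul_one]
      _ = _ := by rw [← mul_assoc, e4, one_mul]
  have e6 : Commute (star N) (star K) := star_comm
    (comm_inv e1 e2 (comm_M (Commute.refl K) ε))
  calc g * (K * N) * g = (g * K * g) * (g * N * g) := by
        calc g * (K * N) * g = g * K * (g * g) * N * g := by
              rw [hg]; simp only [mul_assoc, one_mul]
          _ = _ := by simp only [mul_assoc]
    _ = star K * star N := by rw [hB.gk, e3]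
    _ = star N * star K := e6.eq.symm
    _ = _ := by rw [star_mul]

lemma normal0 (hB : Base g K) {ε : ℝ} (h0 : 0 < ε) (h1 : ε ≤ 1) :
    Commute (Cf K 0 ε) (star (Cf K 0 ε)) := by
  have e1 := Ring.mul_inverse_cancel _ (unit0 hB h0 h1)
  have e2 := Ring.inverse_mul_cancel _ (unit0 hB h0 h1)
  have e1' : star (MM K 0 ε) * star (Ring.inverse (MM K 0 ε)) = 1 := by
    rw [← star_mul, e2, star_one]
  have e2' : star (Ring.inverse (MM K 0 ε)) * star (MM K 0 ε) = 1 := by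
    rw [← star_mul, e1, star_one]
  rw [Cf_eq, star_mul]
  have c1 : Commute K (star K) := comm_K hB
  have c2 : Commute (Ring.inverse (MM K 0 ε)) (star K) := comm_inv e1 e2 (comm_M c1 ε)
  have c3 : Commute K (star (Ring.inverse (MM K 0 ε))) := by
    have := star_comm c2
    rw [star_star] at this
    exact this.symm
  have c4 : Commute (Ring.inverse (MM K 0 ε)) (star (Ring.inverse (MM K 0 ε))) :=
    comm_inv e1 e2 (comm_M c3 ε)
  exact (Commute.mul_left (c3.mul_right c1) (c4.mul_right c2))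

end res

/-! ### families -/

section fam

variable {g K : H →L[ℂ] H} {ι : Type*} {e δ ρ : ι → ℝ} {v : ℝ}

/-- standing assumptions on the scale. -/
structure Sc (e : ι → ℝ) (v : ℝ) : Prop where
  pos : ∀ i, 0 < e i
  half : ∀ i, e i ≤ 1 / 2
  sm : ∀ i, 8 * e i * v ≤ 1

lemma Sc.le1 (h : Sc e v) (i : ι) : e i ≤ 1 := by linarith [h.half i]

lemma oo_cf (hB : Base g K) (he : Sc e v) {W : ι → H →L[ℂ] H} (hW : ∀ i, ‖W i‖ ≤ v) :
    OO e 1 (fun i => Cf K (W i) (e i)) := by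
  obtain ⟨c, hc⟩ := hB.app
  have hc0 := hc.nonneg
  refine ⟨max 8 (2 * c), fun i => ⟨(norm_Cf hB (he.pos i) (he.half i) (he.sm i) (hW i)).trans
    (le_max_left _ _), ?_⟩⟩
  have h1 := hc.right (Ring.inverse (MM K (W i) (e i)))
  have h2 := norm_invW hB (he.pos i) (he.half i) (he.sm i) (hW i)
  have he0 := he.pos i
  rw [pow_one, Nat.cast_one]
  refine app_mono h1 ?_
  calc c * ‖Ring.inverse (MM K (W i) (e i))‖ ≤ c * (2 * (e i)⁻¹) :=
        mul_le_mul_of_nonneg_left h2 hc0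
    _ = 2 * c * (e i)⁻¹ := by ring
    _ ≤ max 8 (2 * c) * (e i)⁻¹ := mul_le_mul_of_nonneg_right (le_max_right _ _) (by positivity)

lemma oo_cfs (hB : Base g K) (he : Sc e v) {W : ι → H →L[ℂ] H} (hW : ∀ i, ‖W i‖ ≤ v) :
    OO e 1 (fun i => star (Cf K (W i) (e i))) := by
  obtain ⟨c, hc⟩ := hB.app
  have hc0 := hc.nonneg
  refine ⟨max 8 (2 * c), fun i => ⟨?_, ?_⟩⟩
  · rw [norm_star]
    exact (norm_Cf hB (he.pos i) (he.half i) (he.sm i) (hW i)).trans (le_max_left _ _)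
  · have h1 := hc.left (star (Ring.inverse (MM K (W i) (e i))) * ((2 : ℂ) • star K - 1))
    have h2 := norm_invW hB (he.pos i) (he.half i) (he.sm i) (hW i)
    have he0 := he.pos i
    have e1 : star (Cf K (W i) (e i)) =
        (star (Ring.inverse (MM K (W i) (e i))) * ((2 : ℂ) • star K - 1)) ∘L K := by
      rw [Cf_eq, star_mul, ← ContinuousLinearMap.mul_def, mul_assoc]
      conv_lhs => rw [starK_eq hB]
    beta_reduce
    rw [pow_one, Nat.cast_one, e1]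
    refine app_mono h1 ?_
    calc ‖star (Ring.inverse (MM K (W i) (e i))) * ((2 : ℂ) • star K - 1)‖ * c
        ≤ (2 * (e i)⁻¹ * 1) * c := by
          refine mul_le_mul_of_nonneg_right ((norm_mul_le _ _).trans ?_) hc0
          rw [norm_star]
          exact mul_le_mul h2 (norm_u' hB) (norm_nonneg _) (by positivity)
      _ = 2 * c * (e i)⁻¹ := by ring
      _ ≤ max 8 (2 * c) * (e i)⁻¹ :=
          mul_le_mul_of_nonneg_right (le_max_right _ _) (by positivity)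

lemma sim_cf (hB : Base g K) (he : Sc e v) {W W' D : ι → H →L[ℂ] H} (hW : ∀ i, ‖W i‖ ≤ v)
    (hW' : ∀ i, ‖W' i‖ ≤ v) (hD : OO e 0 D)
    (h : ∀ i, (e i : ℂ) • (W' i - W i) = (δ i : ℂ) • D i) :
    Sim e δ ρ 1 (fun i => Cf K (W i) (e i)) (fun i => Cf K (W' i) (e i)) := by
  refine ⟨oo_cf hB he hW, oo_cf hB he hW', _, _,
    oo_mul (oo_mul (oo_cf hB he hW') hD) (oo_cf hB he hW).zero', fr_zero, fun i => ?_⟩
  have h1 := Cf_diff hB (he.pos i) (he.half i) (he.sm i) (hW i) (hW' i)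
  beta_reduce
  refine h1.trans ?_
  rw [h i, mul_smul_comm, smul_mul_assoc, smul_zero, add_zero]

lemma sim_cfs (hB : Base g K) (he : Sc e v) {W W' D : ι → H →L[ℂ] H} (hW : ∀ i, ‖W i‖ ≤ v)
    (hW' : ∀ i, ‖W' i‖ ≤ v) (hD : OO e 0 D)
    (h : ∀ i, (e i : ℂ) • (W' i - W i) = (δ i : ℂ) • D i) :
    Sim e δ ρ 1 (fun i => star (Cf K (W i) (e i))) (fun i => star (Cf K (W' i) (e i))) := by
  have hD' : OO e 0 (fun i => star (D i)) := by
    obtain ⟨A, -, hA⟩ := hD.bd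
    exact oo_bd (A := A) fun i => by rw [norm_star]; exact hA i
  refine ⟨oo_cfs hB he hW, oo_cfs hB he hW', _, _,
    oo_mul (oo_mul (oo_cfs hB he hW) hD') (oo_cfs hB he hW').zero', fr_zero, fun i => ?_⟩
  have h1 := Cfs_diff hB (he.pos i) (he.half i) (he.sm i) (hW i) (hW' i)
  have h2 : (e i : ℂ) • star (W' i - W i) = (δ i : ℂ) • star (D i) := by
    rw [← star_real, ← star_real, h i]
  beta_reduce
  refine h1.trans ?_
  rw [h2, mul_smul_comm, smul_mul_assoc, smul_zero, add_zero]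

/-- the word. -/
def prodT (g C S : H →L[ℂ] H) (B : Fin 4 → H →L[ℂ] H) : H →L[ℂ] H :=
  g * C * B 0 * (S * C) * B 1 * (S * C) * B 2 * (S * C) * B 3 * C

lemma sim_prod {C C' S S' : ι → H →L[ℂ] H} {B B' : Fin 4 → ι → H →L[ℂ] H}
    (hC : Sim e δ ρ 1 C C') (hS : Sim e δ ρ 1 S S') (hBB : ∀ a, Sim e δ ρ 0 (B a) (B' a)) :
    Sim e δ ρ 8 (fun i => prodT g (C i) (S i) (fun a => B a i))
      (fun i => prodT g (C' i) (S' i) (fun a => B' a i)) := by
  have hg : Sim e δ ρ 0 (fun _ => g) (fun _ => g) := sim_refl (oo_bd fun _ => le_rfl)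
  exact (((((((((hg.mul hC).mul (hBB 0)).mul (hS.mul hC)).mul (hBB 1)).mul (hS.mul hC)).mul
    (hBB 2)).mul (hS.mul hC)).mul (hBB 3)).mul hC)

lemma move {X Y G : ι → H →L[ℂ] H} (hX : OO e 0 X) (hY : OO e 0 Y)
    (h1 : Sim e δ ρ 2 (fun i => X i * G i) (fun i => G i * X i))
    (h2 : Sim e δ ρ 2 (fun i => Y i * G i) (fun i => G i * Y i)) :
    Sim e δ ρ 2 (fun i => (X i * Y i) * G i) (fun i => G i * (X i * Y i)) := by
  have a1 : Sim e δ ρ 2 (fun i => X i * (Y i * G i)) (fun i => X i * (G i * Y i)) :=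
    (sim_refl hX).mul h2
  have a2 : Sim e δ ρ 2 (fun i => (X i * G i) * Y i) (fun i => (G i * X i) * Y i) :=
    h1.mul (sim_refl hY)
  simp only [mul_assoc] at a1 a2 ⊢
  exact a1.trans a2

/-- moving the four `G` to the left. -/
lemma move4 {G : ι → H →L[ℂ] H} (hG : OO e 2 G) (b : Fin 4 → H →L[ℂ] H)
    (h : ∀ a, Sim e δ ρ 2 (fun i => b a * G i) (fun i => G i * b a)) :
    Sim e δ ρ 8 (fun i => g * G i * b 0 * G i * b 1 * G i * b 2 * G i * b 3)
      (fun i => g * (G i) ^ 4 * (b 0 * b 1 * b 2 * b 3)) := by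
  have hg : Sim e δ ρ 0 (fun _ => g) (fun _ => g) := sim_refl (oo_bd fun _ => le_rfl)
  have hb : ∀ a, OO e 0 (fun _ : ι => b a) := fun a => oo_bd fun _ => le_rfl
  have m0 := h 0
  have m1 := move (hb 0) (hb 1) m0 (h 1)
  have m2 := move (oo_mul (hb 0) (hb 1)) (hb 2) m1 (h 2)
  have hGG : Sim e δ ρ 2 G G := sim_refl hG
  have s1 : Sim e δ ρ 8
      (fun i => g * G i * (b 0 * G i) * (b 1 * G i * b 2 * G i * b 3))
      (fun i => g * G i * (G i * b 0) * (b 1 * G i * b 2 * G i * b 3)) :=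
    ((hg.mul hGG).mul m0).mul (sim_refl (oo_mul (oo_mul (oo_mul (oo_mul (hb 1) hG) (hb 2)) hG)
      (hb 3)))
  have s2 : Sim e δ ρ 8
      (fun i => g * G i * G i * (b 0 * b 1 * G i) * (b 2 * G i * b 3))
      (fun i => g * G i * G i * (G i * (b 0 * b 1)) * (b 2 * G i * b 3)) :=
    (((hg.mul hGG).mul hGG).mul m1).mul (sim_refl (oo_mul (oo_mul (hb 2) hG) (hb 3)))
  have s3 : Sim e δ ρ 8
      (fun i => g * G i * G i * G i * (b 0 * b 1 * b 2 * G i) * b 3)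
      (fun i => g * G i * G i * G i * (G i * (b 0 * b 1 * b 2)) * b 3) :=
    ((((hg.mul hGG).mul hGG).mul hGG).mul m2).mul (sim_refl (hb 3))
  have hp : ∀ i, (G i) ^ 4 = G i * (G i * (G i * G i)) := fun i => by
    rw [show (4 : ℕ) = 3 + 1 from rfl, pow_succ', pow_succ', pow_two]
  simp only [hp]
  simp only [mul_assoc] at s1 s2 s3 ⊢
  exact (s1.trans s2).trans s3

end fam

/-! ### traces -/

section traces

variable {g K : H →L[ℂ] H}

lemma nuc_of {ι : Type*} {e : ι → ℝ} {k : ℕ} {T : ι → H →L[ℂ] H} (h : OO e k T) (hk : 4 < k)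
    (i : ι) : ∃ c, IsNuc (T i) c := by
  obtain ⟨A, hA⟩ := h
  have h4 : (4 : ℝ) < k := by exact_mod_cast hk
  exact ⟨_, (hA i).2.isNuc (by linarith)⟩

lemma tr_fsum {α : Type*} (s : Finset α) (T : α → H →L[ℂ] H) (h : ∀ a, ∃ c, IsNuc (T a) c) :
    RCTr_746.tr (∑ a ∈ s, T a) = ∑ a ∈ s, RCTr_746.tr (T a) ∧ ∃ c, IsNuc (∑ a ∈ s, T a) c := by
  classical
  induction s using Finset.induction_on with
  | empty => exact ⟨by simp, 0, by simpa using IsNuc.zero⟩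
  | insert a s ha ih =>
    obtain ⟨h1, c, h2⟩ := ih
    obtain ⟨d, h3⟩ := h a
    rw [Finset.sum_insert ha, Finset.sum_insert ha]
    exact ⟨by rw [tr_add h3 h2, h1], _, h3.add h2⟩

lemma tr_swap {T : H →L[ℂ] H} {c : ℝ} (hT : IsNuc T c) (A : H →L[ℂ] H) :
    RCTr_746.tr (A * T) = RCTr_746.tr (T * A) := tr_comm hT A

lemma g_star (hB : Base g K) {ε : ℝ} (h0 : 0 < ε) (h1 : ε ≤ 1) :
    g * star (Cf K 0 ε) * g = Cf K 0 ε := by
  have h := congrArg star (g_Cf0 hB h0 h1)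
  rw [star_star, star_mul, star_mul, hB.gs, ← mul_assoc] at h
  exact h

lemma g_G (hB : Base g K) {ε : ℝ} (h0 : 0 < ε) (h1 : ε ≤ 1) :
    Commute g (star (Cf K 0 ε) * Cf K 0 ε) := by
  have hg := hB.gg
  have e1 : g * (star (Cf K 0 ε) * Cf K 0 ε) * g = star (Cf K 0 ε) * Cf K 0 ε := by
    calc g * (star (Cf K 0 ε) * Cf K 0 ε) * g =
          g * star (Cf K 0 ε) * (g * g) * Cf K 0 ε * g := by
            rw [hg, mul_one]; simp only [mul_assoc]
      _ = (g * star (Cf K 0 ε) * g) * (g * Cf K 0 ε * g) := by simp only [mul_assoc]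
      _ = Cf K 0 ε * star (Cf K 0 ε) := by rw [g_star hB h0 h1, g_Cf0 hB h0 h1]
      _ = _ := normal0 hB h0 h1
  change g * (star (Cf K 0 ε) * Cf K 0 ε) = star (Cf K 0 ε) * Cf K 0 ε * g
  calc g * (star (Cf K 0 ε) * Cf K 0 ε) =
        g * (star (Cf K 0 ε) * Cf K 0 ε) * (g * g) := by rw [hg, mul_one]
    _ = (g * (star (Cf K 0 ε) * Cf K 0 ε) * g) * g := by simp only [mul_assoc]
    _ = _ := by rw [e1]

lemma tr_word (hB : Base g K) {ε : ℝ} (h0 : 0 < ε) (h1 : ε ≤ 1 / 2) (b : Fin 4 → H →L[ℂ] H) :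
    RCTr_746.tr (prodT g (Cf K 0 ε) (star (Cf K 0 ε)) b) =
      RCTr_746.tr (g * Gr K ε * b 0 * Gr K ε * b 1 * Gr K ε * b 2 * Gr K ε * b 3) := by
  have he : Sc (fun _ : Unit => ε) 0 := ⟨fun _ => h0, fun _ => h1, fun _ => by simp⟩
  have hC : OO (fun _ : Unit => ε) 1 (fun _ => Cf K 0 ε) :=
    oo_cf hB he (W := fun _ => 0) (fun _ => by simp)
  have hS : OO (fun _ : Unit => ε) 1 (fun _ => star (Cf K 0 ε)) :=
    oo_cfs hB he (W := fun _ => 0) (fun _ => by simp)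
  have hb : ∀ a, OO (fun _ : Unit => ε) 0 (fun _ => b a) := fun a => oo_bd fun _ => le_rfl
  have hg : OO (fun _ : Unit => ε) 0 (fun _ => g) := oo_bd fun _ => le_rfl
  have hSC := oo_mul hS hC
  have hT := oo_mul (oo_mul (oo_mul (oo_mul (oo_mul (oo_mul (oo_mul (oo_mul hg hC) (hb 0)) hSC)
    (hb 1)) hSC) (hb 2)) hSC) (hb 3)
  obtain ⟨c, hc⟩ := nuc_of hT (by norm_num) ()
  have hGr : Gr K ε = star (Cf K 0 ε) * Cf K 0 ε := by unfold Gr; rw [Cr_eq]
  have e1 : Cf K 0 ε * g * Cf K 0 ε = g * (star (Cf K 0 ε) * Cf K 0 ε) := by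
    rw [← g_Cf0 hB h0 (by linarith)]
    have hg := hB.gg
    calc Cf K 0 ε * g * Cf K 0 ε = (g * g) * Cf K 0 ε * g * Cf K 0 ε := by rw [hg, one_mul]
      _ = _ := by simp only [mul_assoc]
  unfold prodT
  rw [← tr_swap hc, hGr]
  congr 1
  calc Cf K 0 ε * (g * Cf K 0 ε * b 0 * (star (Cf K 0 ε) * Cf K 0 ε) * b 1 *
        (star (Cf K 0 ε) * Cf K 0 ε) * b 2 * (star (Cf K 0 ε) * Cf K 0 ε) * b 3) =
        (Cf K 0 ε * g * Cf K 0 ε) * b 0 * (star (Cf K 0 ε) * Cf K 0 ε) * b 1 *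
        (star (Cf K 0 ε) * Cf K 0 ε) * b 2 * (star (Cf K 0 ε) * Cf K 0 ε) * b 3 := by
          simp only [mul_assoc]
    _ = _ := by rw [e1]

lemma nuc_G4 (hB : Base g K) {ε : ℝ} (h0 : 0 < ε) (h1 : ε ≤ 1 / 2) :
    ∃ c, IsNuc ((Gr K ε) ^ 4) c := by
  have he : Sc (fun _ : Unit => ε) 0 := ⟨fun _ => h0, fun _ => h1, fun _ => by simp⟩
  have hC : OO (fun _ : Unit => ε) 1 (fun _ => Cf K 0 ε) :=
    oo_cf hB he (W := fun _ => 0) (fun _ => by simp)
  have hS : OO (fun _ : Unit => ε) 1 (fun _ => star (Cf K 0 ε)) :=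
    oo_cfs hB he (W := fun _ => 0) (fun _ => by simp)
  have hSC := oo_mul hS hC
  have hT := oo_mul (oo_mul (oo_mul hSC hSC) hSC) hSC
  obtain ⟨c, hc⟩ := nuc_of hT (by norm_num) ()
  refine ⟨c, ?_⟩
  have hGr : Gr K ε = star (Cf K 0 ε) * Cf K 0 ε := by unfold Gr; rw [Cr_eq]
  rw [hGr, pow_succ, pow_succ, pow_two]
  exact hc

lemma tr_end (hB : Base g K) {ε : ℝ} (h0 : 0 < ε) (h1 : ε ≤ 1 / 2) (b : Fin 4 → H →L[ℂ] H) :
    RCTr_746.tr (g * (Gr K ε) ^ 4 * (b 0 * b 1 * b 2 * b 3)) =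
      RCTr_746.tr ((g * b 0 * b 1 * b 2 * b 3) * (Gr K ε) ^ 4) := by
  obtain ⟨c, hc⟩ := nuc_G4 hB h0 h1
  have hGr : Gr K ε = star (Cf K 0 ε) * Cf K 0 ε := by unfold Gr; rw [Cr_eq]
  have h2 : Commute g (Gr K ε) := by rw [hGr]; exact g_G hB h0 (by linarith)
  have h3 : g * (Gr K ε) ^ 4 = (Gr K ε) ^ 4 * g := (h2.pow_right 4)
  rw [tr_swap hc, h3]
  simp only [mul_assoc]

end traces

/-! ### the main estimate -/

section main

variable {g K : H →L[ℂ] H} {V : (Fin 4 → ℝ) → H →L[ℂ] H} {b U : Fin 4 → H →L[ℂ] H} {L : ℂ}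

/-- the cube. -/
def Q4 : Set (Fin 4 → ℝ) := Icc 0 1

lemma isCompact_Q4 : IsCompact Q4 := isCompact_Icc

lemma cont_pd (hV : ContDiff ℝ ∞ V) (a : Fin 4) : Continuous (pdθ a V) := by
  unfold pdθ
  exact (hV.continuous_fderiv (by simp)).clm_apply continuous_const

/-- the parameter set. -/
def Par (ε0 : ℝ) : Type := {p : ℝ × (Fin 4 → ℝ) // 0 < p.1 ∧ p.1 ≤ ε0 ∧ p.2 ∈ Q4}

/-- the trace of a word. -/
def trT (g K : H →L[ℂ] H) (V : (Fin 4 → ℝ) → H →L[ℂ] H) (σ : Equiv.Perm (Fin 4)) (ε : ℝ)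
    (h : Fin 4 → ℝ) : ℂ :=
  RCTr_746.tr (prodT g (Cf K (V h) ε) (star (Cf K (V h) ε)) (fun j => pdθ (σ j) V h))

lemma dens_eq (ε : ℝ) (h : Fin 4 → ℝ) :
    dens g K V ε h = (ε : ℂ) ^ 4 * ∑ σ : Equiv.Perm (Fin 4), sg σ * trT g K V σ ε h := rfl

/-- the limiting word. -/
def trB (g K : H →L[ℂ] H) (b : Fin 4 → H →L[ℂ] H) (σ : Equiv.Perm (Fin 4)) (ε : ℝ) : ℂ :=
  RCTr_746.tr ((g * b (σ 0) * b (σ 1) * b (σ 2) * b (σ 3)) * (Gr K ε) ^ 4)

lemma weyl_eq (hB : Base g K) {ε : ℝ} (h0 : 0 < ε) (h1 : ε ≤ 1 / 2) :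
    RCTr_746.tr ((∑ σ : Equiv.Perm (Fin 4),
      sg σ • (g * b (σ 0) * b (σ 1) * b (σ 2) * b (σ 3))) * (Gr K ε) ^ 4) =
      ∑ σ : Equiv.Perm (Fin 4), sg σ * trB g K b σ ε := by
  obtain ⟨c, hc⟩ := nuc_G4 hB h0 h1
  rw [Finset.sum_mul]
  have h2 := (tr_fsum (Finset.univ : Finset (Equiv.Perm (Fin 4)))
    (fun σ => sg σ • (g * b (σ 0) * b (σ 1) * b (σ 2) * b (σ 3)) * (Gr K ε) ^ 4)
    (fun σ => ⟨_, hc.left _⟩)).1
  rw [h2]
  refine Finset.sum_congr rfl fun σ _ => ?_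
  rw [smul_mul_assoc, tr_smul]
  rfl

lemma norm_sg (σ : Equiv.Perm (Fin 4)) : ‖sg σ‖ = 1 := by
  unfold sg
  rcases Int.units_eq_one_or (Equiv.Perm.sign σ) with h | h <;> simp [h]

lemma bounds (hV : ContDiff ℝ ∞ V) : ∃ v : ℝ, 0 ≤ v ∧ (∀ h ∈ Q4, ‖V h‖ ≤ v) ∧
    ∀ a, ∀ h ∈ Q4, ‖pdθ a V h‖ ≤ v := by
  obtain ⟨v0, hv0⟩ := isCompact_Q4.exists_bound_of_continuousOn hV.continuous.continuousOn
  choose w hw using fun a => isCompact_Q4.exists_bound_of_continuousOn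
    (cont_pd hV a).continuousOn
  refine ⟨max 0 (max v0 (∑ a, |w a|)), le_max_left _ _, fun h hh => (hv0 h hh).trans
    ((le_max_left _ _).trans (le_max_right _ _)), fun a h hh => (hw a h hh).trans ?_⟩
  refine (le_abs_self _).trans ((Finset.single_le_sum (f := fun a => |w a|)
    (fun _ _ => abs_nonneg _) (Finset.mem_univ a)).trans
      ((le_max_right _ _).trans (le_max_right _ _)))

lemma smul_split {δ : ℝ} {X : H →L[ℂ] H} (hX : ‖X‖ ≤ δ) :
    X = (δ : ℂ) • ((δ : ℂ)⁻¹ • X) ∧ ‖(δ : ℂ)⁻¹ • X‖ ≤ 1 := by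
  have h0 : 0 ≤ δ := (norm_nonneg _).trans hX
  rcases h0.eq_or_lt with h | h
  · have hX0 : X = 0 := by
      rw [← norm_eq_zero]; exact le_antisymm (by rw [h]; exact hX) (norm_nonneg _)
    subst hX0
    simp
  · have h' : (δ : ℂ) ≠ 0 := by exact_mod_cast h.ne'
    refine ⟨by rw [smul_smul, mul_inv_cancel₀ h', one_smul], ?_⟩
    rw [norm_smul, norm_inv, Complex.norm_real, Real.norm_eq_abs, abs_of_pos h,
      ← div_eq_inv_mul, div_le_one h]
    exact hX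

/-- comparison with the limiting words, and continuity. -/
theorem main_est (hB : Base g K) (hF : Fam g K V b U) (hI : Inf g K b L) :
    ∃ ε0 : ℝ, 0 < ε0 ∧ ε0 ≤ 1 / 2 ∧ ∀ σ : Equiv.Perm (Fin 4),
      (∃ c : ℝ, ∀ ε, 0 < ε → ε ≤ ε0 → ∀ h ∈ Q4,
        ‖trT g K V σ ε h - trB g K b σ ε‖ ≤ c * (ε * (ε⁻¹) ^ 4 + 1)) ∧
      ∀ ε, 0 < ε → ε ≤ ε0 → ContinuousOn (trT g K V σ ε) Q4 := by
  obtain ⟨v, hv0, hv, hw⟩ := bounds hF.smooth
  obtain ⟨r, hr⟩ := hF.rk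
  set ε0 : ℝ := min (1 / 2) (1 / (8 * (v + 1))) with hε0
  have hε0p : 0 < ε0 := lt_min (by norm_num) (by positivity)
  refine ⟨ε0, hε0p, min_le_left _ _, fun σ => ?_⟩
  set ι := Par ε0 with hι
  set e : ι → ℝ := fun i => i.1.1 with he_def
  have he : Sc e v := by
    refine ⟨fun i => i.2.1, fun i => i.2.2.1.trans (min_le_left _ _), fun i => ?_⟩
    have h1 : e i ≤ 1 / (8 * (v + 1)) := i.2.2.1.trans (min_le_right _ _)
    have h2 : 0 < e i := i.2.1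
    rw [le_div_iff₀ (by positivity)] at h1
    nlinarith
  have he1 : ∀ i, e i ≤ 1 := he.le1
  have hWb : ∀ i : ι, ‖V i.1.2‖ ≤ v := fun i => hv _ i.2.2.2
  have hPb : ∀ a, OO e 0 (fun i : ι => pdθ a V i.1.2) := fun a =>
    oo_bd fun i => hw a _ i.2.2.2
  refine ⟨?_, ?_⟩
  · -- comparison
    have hD : OO e 0 (fun i : ι => (0 : H →L[ℂ] H) - V i.1.2) := by
      refine oo_bd (A := v) fun i => ?_
      rw [zero_sub, norm_neg]; exact hWb i
    have hC : Sim e e (fun _ => 1) 1 (fun i : ι => Cf K (V i.1.2) (e i))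
        (fun i => Cf K 0 (e i)) :=
      sim_cf hB he hWb (W' := fun _ => 0) (fun _ => by simpa using hv0) hD fun i => rfl
    have hS : Sim e e (fun _ => 1) 1 (fun i : ι => star (Cf K (V i.1.2) (e i)))
        (fun i => star (Cf K 0 (e i))) :=
      sim_cfs hB he hWb (W' := fun _ => 0) (fun _ => by simpa using hv0) hD fun i => rfl
    have hBB : ∀ a, Sim e e (fun _ => 1) 0 (fun i : ι => pdθ (σ a) V i.1.2)
        (fun _ => b (σ a)) := by
      intro a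
      refine ⟨hPb _, oo_bd fun _ => le_rfl, fun _ => 0,
        fun i => pdθ (σ a) V i.1.2 - b (σ a), oo_zero,
        ⟨r, v + ‖b (σ a)‖, fun i => ⟨hr _ _, (norm_sub_le _ _).trans
          (add_le_add (hw _ _ i.2.2.2) le_rfl)⟩⟩, fun i => ?_⟩
      simp
    obtain ⟨c1, hc1⟩ := (sim_prod (g := g) hC hS hBB).tr he.pos he1
    -- moving `G`
    have hG : OO e 2 (fun i : ι => Gr K (e i)) := by
      have h1 : OO e 2 (fun i : ι => star (Cf K 0 (e i)) * Cf K 0 (e i)) :=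
        oo_mul hS.2.1 hC.2.1
      have h2 : (fun i : ι => Gr K (e i)) = fun i => star (Cf K 0 (e i)) * Cf K 0 (e i) := by
        funext i; unfold Gr; rw [Cr_eq]
      rw [h2]; exact h1
    have hm : ∀ a, Sim e e (fun _ => 1) 2 (fun i : ι => b a * Gr K (e i))
        (fun i => Gr K (e i) * b a) := by
      intro a
      obtain ⟨c, hc⟩ := hI.com a
      choose Z hZ1 hZ2 using fun i : ι => hc (e i) (he.pos i) (he1 i)
      have hb : OO e 0 (fun _ : ι => b a) := oo_bd fun _ => le_rfl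
      refine ⟨oo_mul hb hG, oo_mul hG hb, fun i => Gr K (e i) * Z i, fun _ => 0,
        oo_mul hG (oo_bd hZ1), fr_zero, fun i => ?_⟩
      beta_reduce
      rw [hZ2 i]; simp
    obtain ⟨c2, hc2⟩ := (move4 (g := g) hG (fun j => b (σ j)) fun j => hm (σ j)).tr he.pos he1
    refine ⟨c1 + c2, fun ε h0 h1 h hh => ?_⟩
    set i : ι := ⟨(ε, h), h0, h1, hh⟩ with hi
    have hε2 : ε ≤ 1 / 2 := h1.trans (min_le_left _ _)
    have a1 := hc1 i
    have a2 := hc2 i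
    beta_reduce at a1 a2
    have b1 := tr_word hB h0 hε2 (fun j => b (σ j))
    have b2 := tr_end hB h0 hε2 (fun j => b (σ j))
    beta_reduce at b1 b2
    have hei : e i = ε := rfl
    rw [hei] at a1 a2
    rw [abs_of_pos h0, abs_one] at a1 a2
    change ‖trT g K V σ ε h - _‖ ≤ _ at a1
    rw [b1] at a1
    rw [b2] at a2
    change ‖_ - trB g K b σ ε‖ ≤ _ at a2
    calc ‖trT g K V σ ε h - trB g K b σ ε‖ ≤ _ := norm_sub_le_norm_sub_add_norm_sub _ _ _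
      _ ≤ c1 * (ε * (ε⁻¹) ^ 4 + 1) + c2 * (ε * (ε⁻¹) ^ 4 + 1) := add_le_add a1 a2
      _ = _ := by ring
  · -- continuity
    intro ε h0 h1 h' hh'
    set δf : (Fin 4 → ℝ) → ℝ := fun h => ‖V h - V h'‖ + ∑ a, ‖pdθ a V h - pdθ a V h'‖ with hδf
    have hδf0 : ∀ h, 0 ≤ δf h := fun h => by positivity
    have hδV : ∀ h, ‖V h' - V h‖ ≤ δf h := fun h => by
      rw [norm_sub_rev]
      exact le_add_of_nonneg_right (Finset.sum_nonneg fun _ _ => norm_nonneg _)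
    have hδp : ∀ a h, ‖pdθ a V h - pdθ a V h'‖ ≤ δf h := fun a h =>
      (Finset.single_le_sum (f := fun a => ‖pdθ a V h - pdθ a V h'‖)
        (fun _ _ => norm_nonneg _) (Finset.mem_univ a)).trans
        (le_add_of_nonneg_left (norm_nonneg _))
    set δ : ι → ℝ := fun i => δf i.1.2 with hδ
    have hW'b : ∀ _ : ι, ‖V h'‖ ≤ v := fun _ => hv _ hh'
    have hD : OO e 0 (fun i : ι => (e i : ℂ) • ((δ i : ℂ)⁻¹ • (V h' - V i.1.2))) := by
      refine oo_bd (A := 1) fun i => ?_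
      rw [norm_smul, Complex.norm_real, Real.norm_eq_abs, abs_of_pos (he.pos i)]
      calc e i * ‖(δ i : ℂ)⁻¹ • (V h' - V i.1.2)‖ ≤ 1 * 1 :=
            mul_le_mul (he1 i) (smul_split (hδV _)).2 (norm_nonneg _) zero_le_one
        _ = 1 := one_mul 1
    have hDe : ∀ i : ι, (e i : ℂ) • (V h' - V i.1.2) =
        (δ i : ℂ) • ((e i : ℂ) • ((δ i : ℂ)⁻¹ • (V h' - V i.1.2))) := fun i => by
      rw [smul_comm (δ i : ℂ) (e i : ℂ), ← (smul_split (hδV i.1.2)).1]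
    have hC : Sim e δ (fun _ => 0) 1 (fun i : ι => Cf K (V i.1.2) (e i))
        (fun i => Cf K (V h') (e i)) :=
      sim_cf hB he hWb (W' := fun _ => V h') hW'b hD hDe
    have hS : Sim e δ (fun _ => 0) 1 (fun i : ι => star (Cf K (V i.1.2) (e i)))
        (fun i => star (Cf K (V h') (e i))) :=
      sim_cfs hB he hWb (W' := fun _ => V h') hW'b hD hDe
    have hBB : ∀ a, Sim e δ (fun _ => 0) 0 (fun i : ι => pdθ (σ a) V i.1.2)
        (fun _ => pdθ (σ a) V h') := by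
      intro a
      refine ⟨hPb _, oo_bd (A := v) fun _ => hw _ _ hh',
        fun i => (δ i : ℂ)⁻¹ • (pdθ (σ a) V i.1.2 - pdθ (σ a) V h'), fun _ => 0,
        oo_bd (A := 1) fun i => (smul_split (hδp (σ a) i.1.2)).2, fr_zero, fun i => ?_⟩
      beta_reduce
      rw [← (smul_split (hδp (σ a) i.1.2)).1]
      simp
    obtain ⟨c, hc⟩ := (sim_prod (g := g) hC hS hBB).tr he.pos he1
    have hδc : Continuous δf := by
      have h2 := fun a => cont_pd hF.smooth a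
      have h3 := hF.smooth.continuous
      fun_prop
    have hδ0 : Tendsto δf (𝓝 h') (𝓝 0) := by
      have := hδc.tendsto h'
      simpa [hδf] using this
    change Tendsto (trT g K V σ ε) (𝓝[Q4] h') (𝓝 (trT g K V σ ε h'))
    rw [tendsto_iff_norm_sub_tendsto_zero]
    refine squeeze_zero' (g := fun h => c * (δf h * (ε⁻¹) ^ 4)) (Eventually.of_forall fun _ =>
      norm_nonneg _) ?_ ?_
    · filter_upwards [self_mem_nhdsWithin] with h hh
      have a1 := hc ⟨(ε, h), h0, h1, hh⟩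
      beta_reduce at a1
      rw [abs_zero, add_zero, abs_of_nonneg (hδf0 _)] at a1
      exact a1
    · have := ((hδ0.mono_left (nhdsWithin_le_nhds (s := Q4))).mul_const ((ε⁻¹) ^ 4)).const_mul c
      simpa using this

end main

/-- **INF**: `ε → 0`. -/
theorem inf : INF := by
  intro H _ _ _ g K V b U L hB hF hI
  obtain ⟨ε0, hε0, hε1, hσ⟩ := main_est hB hF hI
  choose hσ1 hσ2 using hσ
  choose c hc using hσ1
  set d0 : ℝ → ℂ := fun ε => (ε : ℂ) ^ 4 * RCTr_746.tr ((∑ σ : Equiv.Perm (Fin 4),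
    sg σ • (g * b (σ 0) * b (σ 1) * b (σ 2) * b (σ 3))) * (Gr K ε) ^ 4) with hd0
  have hcont : ∀ ε, 0 < ε → ε ≤ ε0 → ContinuousOn (dens g K V ε) Q4 := by
    intro ε h0 h1
    have : dens g K V ε = fun h => (ε : ℂ) ^ 4 *
        ∑ σ : Equiv.Perm (Fin 4), sg σ * trT g K V σ ε h := by
      funext h; exact dens_eq ε h
    rw [this]
    exact continuousOn_const.mul (continuousOn_finsetSum _ fun σ _ =>
      continuousOn_const.mul (hσ2 σ ε h0 h1))
  have hest : ∀ ε, 0 < ε → ε ≤ ε0 → ∀ h ∈ Q4,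
      ‖dens g K V ε h - d0 ε‖ ≤ (∑ σ, c σ) * (ε + ε ^ 4) := by
    intro ε h0 h1 h hh
    have e1 : dens g K V ε h - d0 ε = (ε : ℂ) ^ 4 *
        ∑ σ : Equiv.Perm (Fin 4), sg σ * (trT g K V σ ε h - trB g K b σ ε) := by
      rw [dens_eq, hd0]
      beta_reduce
      rw [weyl_eq hB h0 (h1.trans hε1), ← mul_sub, ← Finset.sum_sub_distrib]
      simp only [mul_sub]
    rw [e1, norm_mul, norm_pow, Complex.norm_real, Real.norm_eq_abs, abs_of_pos h0]
    calc ε ^ 4 * ‖∑ σ : Equiv.Perm (Fin 4), sg σ * (trT g K V σ ε h - trB g K b σ ε)‖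
        ≤ ε ^ 4 * ∑ σ : Equiv.Perm (Fin 4), c σ * (ε * (ε⁻¹) ^ 4 + 1) := by
          refine mul_le_mul_of_nonneg_left ((norm_sum_le _ _).trans
            (Finset.sum_le_sum fun σ _ => ?_)) (by positivity)
          rw [norm_mul, norm_sg, one_mul]
          exact hc σ ε h0 h1 h hh
      _ = (∑ σ, c σ) * (ε + ε ^ 4) := by
          rw [← Finset.sum_mul]
          field_simp
  have hvol : (volume : Measure (Fin 4 → ℝ)).real Q4 = 1 := by
    unfold Q4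
    rw [Measure.real, Real.volume_Icc_pi]
    simp
  have hfin : (volume : Measure (Fin 4 → ℝ)) Q4 ≠ ⊤ := isCompact_Q4.measure_lt_top.ne
  have hint : ∀ ε, 0 < ε → ε ≤ ε0 →
      ‖(∫ h in Q4, dens g K V ε h) - d0 ε‖ ≤ (∑ σ, c σ) * (ε + ε ^ 4) := by
    intro ε h0 h1
    have h2 : IntegrableOn (dens g K V ε) Q4 :=
      (hcont ε h0 h1).integrableOn_compact isCompact_Q4
    have h3 : (∫ h in Q4, dens g K V ε h) - d0 ε = ∫ h in Q4, (dens g K V ε h - d0 ε) := by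
      rw [integral_sub h2 (integrableOn_const hfin), setIntegral_const, hvol, one_smul]
    rw [h3]
    refine (norm_setIntegral_le_of_norm_le_const hfin.lt_top (hest ε h0 h1)).trans (le_of_eq ?_)
    rw [hvol, mul_one]
  have hlim : Tendsto (fun ε : ℝ => (∑ σ, c σ) * (ε + ε ^ 4)) (𝓝[>] 0) (𝓝 0) := by
    have h1 : Continuous fun ε : ℝ => (∑ σ, c σ) * (ε + ε ^ 4) := by fun_prop
    have := (h1.tendsto 0).mono_left (nhdsWithin_le_nhds (s := Ioi (0 : ℝ)))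
    simpa using this
  have h4 : Tendsto (fun ε : ℝ => (∫ h in Q4, dens g K V ε h) - d0 ε) (𝓝[>] 0) (𝓝 0) := by
    refine squeeze_zero_norm' ?_ hlim
    have h5 : ∀ᶠ ε : ℝ in 𝓝[>] 0, ε ≤ ε0 :=
      (eventually_le_nhds hε0).filter_mono nhdsWithin_le_nhds
    filter_upwards [h5, self_mem_nhdsWithin] with ε h6 h7
    exact hint ε h7 h6
  have h5 := h4.add hI.weyl
  rw [zero_add] at h5
  refine h5.congr fun ε => ?_
  change (∫ h in Q4, dens g K V ε h) - d0 ε + d0 ε = ∫ h in Q4, dens g K V ε h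
  ring

end

end Crest.Agent.R235.RCInf_843
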