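import Crest.Agent.R235.RCStk_746
import Crest.Agent.R235.RCInf_843

/-!
Row 235, block FAM/RC (helper746): **THE RESOLVENT-CHERN FORMULA** `RC : RCDefs_746.RC`
(`STK` helper746, `INF` helper843), and the passage to the trace `trB e` of `FamDefs_307`
and to real orthonormal bases.
-/

set_option autoImplicit false

open scoped InnerProductSpace Topology ContDiff
open Filter Set MeasureTheory Crest.Agent.R235.RCTr_746 Crest.Agent.R235.RCDefs_746
open Crest.Agent.R235.FamDefs_307 (pdθ sg ch4 trB)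

namespace Crest.Agent.R235.RC_746

noncomputable section

/-- **RC**. -/
theorem rc : RC := rc_of RCStk_746.stk RCInf_843.inf

variable {H : Type*} [NormedAddCommGroup H] [InnerProductSpace ℂ H] [CompleteSpace H]

local notation "⟪" x ", " y "⟫" => inner ℂ x y

/-- the trace does not depend on the Hilbert basis (nuclear operators). -/
theorem tr_eq_trB {T : H →L[ℂ] H} (hT : ∃ c, IsNuc T c) {ι : Type*} (e : HilbertBasis ι ℂ H) :
    tr T = trB e T := by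
  obtain ⟨c, κ, u, v, hs, -, hrep⟩ := hT
  rw [tr_eq hs hrep]
  symm
  -- the sum over `e`
  have hbd : ∀ (x y : H) (s : Finset ι), ∑ i ∈ s, ‖⟪x, e i⟫‖ * ‖⟪e i, y⟫‖ ≤ ‖x‖ * ‖y‖ := by
    intro x y s
    have hN : ∀ z : H, HasSum (fun i => ‖⟪e i, z⟫‖ ^ 2) (‖z‖ ^ 2) := by
      intro z
      have h := e.hasSum_inner_mul_inner z z
      have h1 : ∀ i, ⟪z, e i⟫ * ⟪e i, z⟫ = ((‖⟪e i, z⟫‖ ^ 2 : ℝ) : ℂ) := by
        intro i
        rw [← inner_conj_symm z (e i), mul_comm, Complex.mul_conj, Complex.normSq_eq_norm_sq]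
      simp only [h1] at h
      rw [inner_self_eq_norm_sq_to_K] at h
      have h2 : ((‖z‖ : ℂ) ^ 2) = ((‖z‖ ^ 2 : ℝ) : ℂ) := by push_cast; rfl
      have h3 : HasSum (fun i => ((‖⟪e i, z⟫‖ ^ 2 : ℝ) : ℂ)) ((‖z‖ ^ 2 : ℝ) : ℂ) := by
        rw [← h2]; exact h
      exact_mod_cast h3
    have h1 : ∑ i ∈ s, ‖⟪x, e i⟫‖ ^ 2 ≤ ‖x‖ ^ 2 := by
      have h := (hN x).summable.sum_le_tsum s fun i _ => by positivity
      rw [(hN x).tsum_eq] at h
      refine le_trans (le_of_eq (Finset.sum_congr rfl fun i _ => ?_)) h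
      rw [norm_inner_symm]
    have h2 : ∑ i ∈ s, ‖⟪e i, y⟫‖ ^ 2 ≤ ‖y‖ ^ 2 := by
      have h := (hN y).summable.sum_le_tsum s fun i _ => by positivity
      rwa [(hN y).tsum_eq] at h
    refine (Real.sum_mul_le_sqrt_mul_sqrt s _ _).trans ?_
    refine mul_le_mul ?_ ?_ (Real.sqrt_nonneg _) (norm_nonneg _)
    · exact Real.sqrt_le_iff.2 ⟨norm_nonneg _, h1⟩
    · exact Real.sqrt_le_iff.2 ⟨norm_nonneg _, h2⟩
  have hsm : ∀ x y : H, Summable (fun i => ‖⟪x, e i⟫‖ * ‖⟪e i, y⟫‖) := fun x y =>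
    summable_of_sum_le (fun i => by positivity) (hbd x y)
  have htl : ∀ x y : H, ∑' i, ‖⟪x, e i⟫‖ * ‖⟪e i, y⟫‖ ≤ ‖x‖ * ‖y‖ := fun x y =>
    Real.tsum_le_of_sum_le (fun i => by positivity) (hbd x y)
  have hS : Summable (fun p : κ × ι => ⟪v p.1, e p.2⟫ * ⟪e p.2, u p.1⟫) := by
    refine Summable.of_norm ?_
    rw [summable_prod_of_nonneg fun p => norm_nonneg _]
    refine ⟨fun j => ?_, ?_⟩
    · simpa only [norm_mul] using hsm (v j) (u j)
    · refine Summable.of_nonneg_of_le (fun j => tsum_nonneg fun i => norm_nonneg _) (fun j => ?_) hs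
      have := htl (v j) (u j)
      simp only [norm_mul]
      rw [mul_comm (‖u j‖)]
      exact this
  have h1 : ∀ i, HasSum (fun j => ⟪v j, e i⟫ * ⟪e i, u j⟫) ⟪e i, T (e i)⟫ := by
    intro i
    have h := (hrep (e i)).mapL (innerSL ℂ (e i))
    simpa only [innerSL_apply_apply, inner_smul_right] using h
  have h2 : ∀ j, HasSum (fun i => ⟪v j, e i⟫ * ⟪e i, u j⟫) ⟪v j, u j⟫ := fun j =>
    e.hasSum_inner_mul_inner (v j) (u j)
  have h3 := hS.hasSum
  have h4 : HasSum (fun j => ⟪v j, u j⟫)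
      (∑' p : κ × ι, ⟪v p.1, e p.2⟫ * ⟪e p.2, u p.1⟫) := h3.prod_fiberwise h2
  have h5 : HasSum (fun p : ι × κ => ⟪v p.2, e p.1⟫ * ⟪e p.1, u p.2⟫)
      (∑' p : κ × ι, ⟪v p.1, e p.2⟫ * ⟪e p.2, u p.1⟫) :=
    (Equiv.prodComm ι κ).hasSum_iff.2 h3
  have h6 := h5.prod_fiberwise h1
  unfold trB
  rw [h6.tsum_eq, h4.tsum_eq]

/-- the real part of the trace of a nuclear operator, by a REAL orthonormal basis: `φ` satisfies
Parseval's identity for the real inner product `Re ⟪·, ·⟫`. -/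
theorem re_tr_real {T : H →L[ℂ] H} (hT : ∃ c, IsNuc T c) {ι : Type*} (φ : ι → H)
    (hφ : ∀ x y : H, HasSum (fun k => (⟪x, φ k⟫).re * (⟪φ k, y⟫).re) (⟪x, y⟫).re) :
    HasSum (fun k => (⟪φ k, T (φ k)⟫).re) (2 * (tr T).re) := by
  obtain ⟨c, κ, u, v, hs, -, hrep⟩ := hT
  rw [tr_eq hs hrep]
  -- Bessel bounds
  have hN : ∀ z : H, HasSum (fun i => (⟪φ i, z⟫).re ^ 2) (‖z‖ ^ 2) := by
    intro z
    have h := hφ z z
    have h1 : ∀ i, (⟪z, φ i⟫).re * (⟪φ i, z⟫).re = (⟪φ i, z⟫).re ^ 2 := by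
      intro i
      rw [← inner_conj_symm z (φ i), Complex.conj_re, sq]
    simp only [h1] at h
    have h2 : (⟪z, z⟫).re = ‖z‖ ^ 2 := by
      rw [inner_self_eq_norm_sq_to_K]; norm_cast
    rwa [h2] at h
  have hbd : ∀ (x y : H) (s : Finset ι), ∑ i ∈ s, |(⟪x, φ i⟫).re * (⟪φ i, y⟫).re| ≤ ‖x‖ * ‖y‖ := by
    intro x y s
    have h1 : ∑ i ∈ s, |(⟪x, φ i⟫).re| ^ 2 ≤ ‖x‖ ^ 2 := by
      have h := (hN x).summable.sum_le_tsum s fun i _ => by positivity
      rw [(hN x).tsum_eq] at h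
      refine le_trans (le_of_eq (Finset.sum_congr rfl fun i _ => ?_)) h
      rw [sq_abs, ← inner_conj_symm x (φ i), Complex.conj_re]
    have h2 : ∑ i ∈ s, |(⟪φ i, y⟫).re| ^ 2 ≤ ‖y‖ ^ 2 := by
      have h := (hN y).summable.sum_le_tsum s fun i _ => by positivity
      rw [(hN y).tsum_eq] at h
      refine le_trans (le_of_eq (Finset.sum_congr rfl fun i _ => ?_)) h
      rw [sq_abs]
    simp only [abs_mul]
    refine (Real.sum_mul_le_sqrt_mul_sqrt s _ _).trans ?_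
    refine mul_le_mul ?_ ?_ (Real.sqrt_nonneg _) (norm_nonneg _)
    · exact Real.sqrt_le_iff.2 ⟨norm_nonneg _, h1⟩
    · exact Real.sqrt_le_iff.2 ⟨norm_nonneg _, h2⟩
  have hsm : ∀ x y : H, Summable (fun i => |(⟪x, φ i⟫).re * (⟪φ i, y⟫).re|) := fun x y =>
    summable_of_sum_le (fun i => by positivity) (hbd x y)
  have htl : ∀ x y : H, ∑' i, |(⟪x, φ i⟫).re * (⟪φ i, y⟫).re| ≤ ‖x‖ * ‖y‖ := fun x y =>
    Real.tsum_le_of_sum_le (fun i => by positivity) (hbd x y)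
  -- two families
  have hS : ∀ (a b : κ → H), (∀ j, ‖a j‖ = ‖v j‖) → (∀ j, ‖b j‖ = ‖u j‖) →
      Summable (fun p : κ × ι => (⟪a p.1, φ p.2⟫).re * (⟪φ p.2, b p.1⟫).re) := by
    intro a b ha hb
    refine Summable.of_norm ?_
    rw [summable_prod_of_nonneg fun p => norm_nonneg _]
    refine ⟨fun j => ?_, ?_⟩
    · simpa only [Real.norm_eq_abs] using hsm (a j) (b j)
    · refine Summable.of_nonneg_of_le (fun j => tsum_nonneg fun i => norm_nonneg _) (fun j => ?_) hs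
      have := htl (a j) (b j)
      simp only [Real.norm_eq_abs]
      rw [ha, hb, mul_comm (‖v j‖)] at this
      exact this
  have hS1 := hS v u (fun _ => rfl) (fun _ => rfl)
  have hS2 := hS (fun j => Complex.I • v j) (fun j => Complex.I • u j)
    (fun j => by rw [norm_smul]; simp) (fun j => by rw [norm_smul]; simp)
  have k1 : ∀ (p : κ × ι), (⟪v p.1, φ p.2⟫ * ⟪φ p.2, u p.1⟫).re =
      (⟪v p.1, φ p.2⟫).re * (⟪φ p.2, u p.1⟫).re +
      (⟪Complex.I • v p.1, φ p.2⟫).re * (⟪φ p.2, Complex.I • u p.1⟫).re := by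
    intro p
    rw [inner_smul_left, inner_smul_right]
    simp only [Complex.mul_re, Complex.conj_I, Complex.neg_re, Complex.I_re, Complex.neg_im,
      Complex.I_im]
    ring
  have hS3 : Summable (fun p : κ × ι => (⟪v p.1, φ p.2⟫ * ⟪φ p.2, u p.1⟫).re) := by
    simp only [k1]; exact hS1.add hS2
  have h1 : ∀ i, HasSum (fun j => (⟪v j, φ i⟫ * ⟪φ i, u j⟫).re) (⟪φ i, T (φ i)⟫).re := by
    intro i
    have h := (hrep (φ i)).mapL (innerSL ℂ (φ i))
    have h' : HasSum (fun j => ⟪v j, φ i⟫ * ⟪φ i, u j⟫) ⟪φ i, T (φ i)⟫ := by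
      simpa only [innerSL_apply_apply, inner_smul_right] using h
    exact Complex.hasSum_re h'
  have h2 : ∀ j, HasSum (fun i => (⟪v j, φ i⟫ * ⟪φ i, u j⟫).re) (2 * (⟪v j, u j⟫).re) := by
    intro j
    have a1 := hφ (v j) (u j)
    have a2 := hφ (Complex.I • v j) (Complex.I • u j)
    have a3 : (⟪Complex.I • v j, Complex.I • u j⟫).re = (⟪v j, u j⟫).re := by
      rw [inner_smul_left, inner_smul_right]
      simp
    rw [a3] at a2
    have a4 := a1.add a2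
    rw [← two_mul] at a4
    have a5 : (fun i => (⟪v j, φ i⟫).re * (⟪φ i, u j⟫).re +
        (⟪Complex.I • v j, φ i⟫).re * (⟪φ i, Complex.I • u j⟫).re) =
        fun i => (⟪v j, φ i⟫ * ⟪φ i, u j⟫).re := funext fun i => (k1 (j, i)).symm
    rwa [a5] at a4
  have h3 := hS3.hasSum
  have h4 : HasSum (fun j => 2 * (⟪v j, u j⟫).re)
      (∑' p : κ × ι, (⟪v p.1, φ p.2⟫ * ⟪φ p.2, u p.1⟫).re) := h3.prod_fiberwise h2
  have h5 : HasSum (fun p : ι × κ => (⟪v p.2, φ p.1⟫ * ⟪φ p.1, u p.2⟫).re)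
      (∑' p : κ × ι, (⟪v p.1, φ p.2⟫ * ⟪φ p.2, u p.1⟫).re) :=
    (Equiv.prodComm ι κ).hasSum_iff.2 h3
  have h6 := h5.prod_fiberwise h1
  have h7 : Summable (fun j => ⟪v j, u j⟫) :=
    Summable.of_norm (Summable.of_nonneg_of_le (fun _ => norm_nonneg _)
      (fun j => (norm_inner_le_norm _ _).trans_eq (mul_comm _ _)) hs)
  have h8 := (Complex.hasSum_re h7.hasSum).mul_left 2
  rw [h8.unique h4]
  exact h6

end

end Crest.Agent.R235.RC_746
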