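import Mathlib

/-!
# Row 235, block FAM, leaf WEYL (helper820), part 2: from the heat trace to resolvent traces.

`abel` : `m_k ≥ 0`, `|a_k| ≤ B`, `∑ e^{-t m_k} ≤ C/t²` on `(0,1]`, `t² ∑ e^{-t m_k} a_k → A` (`t → 0+`).  Then
`∑ (λ + m_k)⁻⁴ < ∞`, `λ² ∑ (λ + m_k)⁻⁴` is bounded for `λ ≥ 1` and `λ² ∑ (λ + m_k)⁻⁴ a_k → A / 6`.
-/

set_option autoImplicit false
open scoped Topology
open MeasureTheory Set Filter Real

namespace Crest.Agent.R235.Weyl_820

/-- `∫_0^∞ u³ e^{-ru} du = 6/r⁴` -/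
theorem int_gamma {r : ℝ} (hr : 0 < r) :
    ∫ u in Ioi (0:ℝ), u ^ 3 / 6 * exp (-(r * u)) = (r ^ 4)⁻¹ := by
  have h := Real.integral_rpow_mul_exp_neg_mul_Ioi (a := 4) (r := r) (by norm_num) hr
  have e1 : ∀ u : ℝ, u ^ 3 / 6 * exp (-(r * u)) = (1 / 6) * (u ^ ((4:ℝ) - 1) * exp (-(r * u))) := by
    intro u
    rw [show (4:ℝ) - 1 = (3:ℕ) by norm_num, Real.rpow_natCast]
    ring
  simp only [e1]
  rw [integral_const_mul, h]
  have e2 : Real.Gamma 4 = 6 := by
    rw [show (4:ℝ) = (3:ℕ) + 1 by norm_num, Real.Gamma_nat_eq_factorial]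
    norm_num [Nat.factorial]
  rw [e2, show (4:ℝ) = ((4:ℕ):ℝ) by norm_num, Real.rpow_natCast]
  rw [one_div_pow]
  field_simp

theorem integrable_gamma {r : ℝ} (hr : 0 < r) :
    IntegrableOn (fun u : ℝ => u ^ 3 / 6 * exp (-(r * u))) (Ioi 0) := by
  by_contra h
  have h1 := int_gamma hr
  rw [integral_undef h] at h1
  have : (0:ℝ) < (r ^ 4)⁻¹ := by positivity
  linarith

theorem integrable_dom (k : ℕ) :
    IntegrableOn (fun u : ℝ => u ^ k * exp (-u)) (Ioi 0) := by
  have h := Real.GammaIntegral_convergent (s := k + 1) (by positivity)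
  refine h.congr_fun (fun u _ => ?_) measurableSet_Ioi
  simp only [add_sub_cancel_right, Real.rpow_natCast]
  ring

section
variable {m : ℕ → ℝ} (hm : ∀ k, 0 ≤ m k) (hs : ∀ t, 0 < t → Summable fun k => exp (-(t * m k)))
  {C : ℝ} (hC : ∀ t ∈ Ioc (0:ℝ) 1, ∑' k, exp (-(t * m k)) ≤ C / t ^ 2)
include hm hs hC

/-- `u² H(u) ≤ C₂ (1 + u²)` -/
theorem trace_bd : ∃ C₂, 0 ≤ C₂ ∧ ∀ u, 0 < u → u ^ 2 * ∑' k, exp (-(u * m k)) ≤ C₂ * (1 + u ^ 2) := by
  have hnn : ∀ u, 0 ≤ ∑' k, exp (-(u * m k)) := fun u => tsum_nonneg fun k => (exp_pos _).le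
  refine ⟨|C| + ∑' k, exp (-(1 * m k)), add_nonneg (abs_nonneg _) (hnn 1), fun u hu => ?_⟩
  rcases le_total u 1 with h1 | h1
  · have h2 := hC u ⟨hu, h1⟩
    have h3 : u ^ 2 * ∑' k, exp (-(u * m k)) ≤ C := by
      calc u ^ 2 * ∑' k, exp (-(u * m k)) ≤ u ^ 2 * (C / u ^ 2) :=
            mul_le_mul_of_nonneg_left h2 (sq_nonneg u)
        _ = C := by field_simp
    have h4 := le_abs_self C
    have h5 := hnn 1
    have h6 := abs_nonneg C
    nlinarith [sq_nonneg u]
  · have h2 : ∑' k, exp (-(u * m k)) ≤ ∑' k, exp (-(1 * m k)) := by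
      refine (hs u hu).tsum_le_tsum (fun k => ?_) (hs 1 one_pos)
      refine exp_le_exp.2 (neg_le_neg ?_)
      exact mul_le_mul_of_nonneg_right h1 (hm k)
    have h4 := abs_nonneg C
    have h5 := hnn 1
    calc u ^ 2 * ∑' k, exp (-(u * m k)) ≤ u ^ 2 * ∑' k, exp (-(1 * m k)) :=
          mul_le_mul_of_nonneg_left h2 (sq_nonneg u)
      _ ≤ _ := by nlinarith [sq_nonneg u]

/-- summability of the resolvent powers -/
theorem summable_res {l : ℝ} (hl : 0 < l) : Summable fun k => ((l + m k) ^ 4)⁻¹ := by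
  obtain ⟨C₂, hC₂, hb⟩ := trace_bd hm hs hC
  have h1 : ∑' k, ENNReal.ofReal (((l + m k) ^ 4)⁻¹) ≠ ⊤ := by
    have h2 : ∀ k, ENNReal.ofReal (((l + m k) ^ 4)⁻¹) =
        ∫⁻ u in Ioi (0:ℝ), ENNReal.ofReal (u ^ 3 / 6 * exp (-((l + m k) * u))) := by
      intro k
      have hk : 0 < l + m k := by linarith [hm k]
      rw [← int_gamma hk, ofReal_integral_eq_lintegral_ofReal (integrable_gamma hk)]
      filter_upwards [ae_restrict_mem measurableSet_Ioi] with u hu
      have : (0:ℝ) < u := hu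
      positivity
    simp only [h2]
    rw [← lintegral_tsum fun k => by fun_prop]
    have h3 : ∀ u ∈ Ioi (0:ℝ), ∑' k, ENNReal.ofReal (u ^ 3 / 6 * exp (-((l + m k) * u))) ≤
        ENNReal.ofReal (C₂ * ((u + u ^ 3) * exp (-(l * u)))) := by
      intro u hu
      have hu0 : (0:ℝ) < u := hu
      have e1 : ∀ k, u ^ 3 / 6 * exp (-((l + m k) * u)) =
          u ^ 3 / 6 * exp (-(l * u)) * exp (-(u * m k)) := by
        intro k
        rw [mul_assoc, ← exp_add]
        congr 2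
        ring
      simp only [e1]
      rw [← ENNReal.ofReal_tsum_of_nonneg (fun k => by positivity) ((hs u hu0).mul_left _),
        tsum_mul_left]
      refine ENNReal.ofReal_le_ofReal ?_
      have h4 := hb u hu0
      have h5 : 0 ≤ exp (-(l * u)) := (exp_pos _).le
      calc u ^ 3 / 6 * exp (-(l * u)) * ∑' k, exp (-(u * m k))
          = (u / 6 * exp (-(l * u))) * (u ^ 2 * ∑' k, exp (-(u * m k))) := by ring
        _ ≤ (u / 6 * exp (-(l * u))) * (C₂ * (1 + u ^ 2)) :=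
            mul_le_mul_of_nonneg_left h4 (by positivity)
        _ = (1 / 6) * (C₂ * ((u + u ^ 3) * exp (-(l * u)))) := by ring
        _ ≤ 1 * (C₂ * ((u + u ^ 3) * exp (-(l * u)))) := by
            refine mul_le_mul_of_nonneg_right (by norm_num) (by positivity)
        _ = _ := one_mul _
    refine ((setLIntegral_mono' measurableSet_Ioi h3).trans_lt ?_).ne
    have h6 : IntegrableOn (fun u : ℝ => C₂ * ((u + u ^ 3) * exp (-(l * u)))) (Ioi 0) := by
      have a1 : IntegrableOn (fun u : ℝ => (l * u) ^ 1 * exp (-(l * u))) (Ioi 0) := by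
        have := (integrableOn_Ioi_comp_mul_left_iff (fun u : ℝ => u ^ 1 * exp (-u)) 0 hl).2
          (by rw [mul_zero]; exact integrable_dom 1)
        exact this
      have a3 : IntegrableOn (fun u : ℝ => (l * u) ^ 3 * exp (-(l * u))) (Ioi 0) := by
        have := (integrableOn_Ioi_comp_mul_left_iff (fun u : ℝ => u ^ 3 * exp (-u)) 0 hl).2
          (by rw [mul_zero]; exact integrable_dom 3)
        exact this
      have a4 := ((a1.const_mul l⁻¹).add (a3.const_mul (l ^ 3)⁻¹)).const_mul C₂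
      refine a4.congr (Eventually.of_forall fun u => ?_)
      simp only [Pi.add_apply]
      field_simp
    exact h6.lintegral_lt_top
  have h4 := ENNReal.summable_toReal h1
  refine h4.congr fun k => ?_
  rw [ENNReal.toReal_ofReal]
  have : 0 < l + m k := by linarith [hm k]
  positivity

/-- integral formula for the resolvent sums -/
theorem res_eq {a : ℕ → ℝ} {B : ℝ} (ha : ∀ k, |a k| ≤ B) {l : ℝ} (hl : 0 < l) :
    l ^ 2 * ∑' k, ((l + m k) ^ 4)⁻¹ * a k =
      ∫ v in Ioi (0:ℝ), v / 6 * exp (-v) * ((v / l) ^ 2 * ∑' k, exp (-(v / l * m k)) * a k) := by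
  have hsr := summable_res hm hs hC hl
  have hpos : ∀ k, 0 < l + m k := fun k => by linarith [hm k]
  have hint : ∀ k, Integrable (fun u : ℝ => u ^ 3 / 6 * exp (-((l + m k) * u)) * a k)
      (volume.restrict (Ioi 0)) := fun k => (integrable_gamma (hpos k)).mul_const _
  have h1 := hasSum_integral_of_summable_integral_norm (μ := volume.restrict (Ioi (0:ℝ)))
    (F := fun k (u : ℝ) => u ^ 3 / 6 * exp (-((l + m k) * u)) * a k) hint (by
      refine Summable.of_nonneg_of_le (fun k => integral_nonneg fun u => norm_nonneg _) (fun k => ?_)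
        (hsr.mul_right B)
      have e1 : ∫ u in Ioi (0:ℝ), ‖u ^ 3 / 6 * exp (-((l + m k) * u)) * a k‖ =
          ((l + m k) ^ 4)⁻¹ * |a k| := by
        rw [← int_gamma (hpos k), ← integral_mul_const]
        refine setIntegral_congr_fun measurableSet_Ioi fun u hu => ?_
        have : (0:ℝ) < u := hu
        rw [norm_mul, Real.norm_eq_abs, Real.norm_eq_abs, abs_of_nonneg (by positivity)]
      rw [e1]
      exact mul_le_mul_of_nonneg_left (ha k) (by have := hpos k; positivity))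
  have h2 : ∑' k, ((l + m k) ^ 4)⁻¹ * a k =
      ∫ u in Ioi (0:ℝ), ∑' k, u ^ 3 / 6 * exp (-((l + m k) * u)) * a k := by
    rw [← h1.tsum_eq]
    refine tsum_congr fun k => ?_
    rw [integral_mul_const, int_gamma (hpos k)]
  have h3 : ∀ u : ℝ, ∑' k, u ^ 3 / 6 * exp (-((l + m k) * u)) * a k =
      u ^ 3 / 6 * exp (-(l * u)) * ∑' k, exp (-(u * m k)) * a k := by
    intro u
    rw [← tsum_mul_left]
    refine tsum_congr fun k => ?_
    rw [show -((l + m k) * u) = -(l * u) + -(u * m k) by ring, exp_add]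
    ring
  simp only [h3] at h2
  rw [h2]
  have h4 := integral_comp_mul_left_Ioi
    (fun v : ℝ => v / 6 * exp (-v) * ((v / l) ^ 2 * ∑' k, exp (-(v / l * m k)) * a k)) 0 hl
  rw [mul_zero, smul_eq_mul] at h4
  have h5 : ∫ v in Ioi (0:ℝ), v / 6 * exp (-v) * ((v / l) ^ 2 * ∑' k, exp (-(v / l * m k)) * a k) =
      l * ∫ u in Ioi (0:ℝ), (l * u) / 6 * exp (-(l * u)) *
        ((l * u / l) ^ 2 * ∑' k, exp (-(l * u / l * m k)) * a k) := by
    rw [h4]; field_simp
  rw [h5, ← integral_const_mul, ← integral_const_mul]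
  refine integral_congr_ae (Eventually.of_forall fun u => ?_)
  have e1 : l * u / l = u := by field_simp
  simp only [e1]
  ring

/-- the Abelian theorem -/
theorem abel {a : ℕ → ℝ} {B : ℝ} (ha : ∀ k, |a k| ≤ B) {A : ℝ}
    (hA : Tendsto (fun t => t ^ 2 * ∑' k, exp (-(t * m k)) * a k) (𝓝[>] 0) (𝓝 A)) :
    Tendsto (fun l : ℝ => l ^ 2 * ∑' k, ((l + m k) ^ 4)⁻¹ * a k) atTop (𝓝 (A / 6)) := by
  obtain ⟨C₂, hC₂, hb⟩ := trace_bd hm hs hC
  have hB : 0 ≤ B := (abs_nonneg _).trans (ha 0)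
  have hbd : ∀ u, 0 < u → |u ^ 2 * ∑' k, exp (-(u * m k)) * a k| ≤ B * (C₂ * (1 + u ^ 2)) := by
    intro u hu
    have h1 : |∑' k, exp (-(u * m k)) * a k| ≤ (∑' k, exp (-(u * m k))) * B := by
      rw [← tsum_mul_right]
      have h2 : ∀ k, ‖exp (-(u * m k)) * a k‖ ≤ exp (-(u * m k)) * B := fun k => by
        rw [norm_mul, Real.norm_eq_abs, Real.norm_eq_abs, abs_of_pos (exp_pos _)]
        exact mul_le_mul_of_nonneg_left (ha k) (exp_pos _).le
      exact tsum_of_norm_bounded ((hs u hu).mul_right B).hasSum h2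
    rw [abs_mul, abs_of_nonneg (sq_nonneg u)]
    calc u ^ 2 * |_| ≤ u ^ 2 * ((∑' k, exp (-(u * m k))) * B) :=
          mul_le_mul_of_nonneg_left h1 (sq_nonneg u)
      _ = B * (u ^ 2 * ∑' k, exp (-(u * m k))) := by ring
      _ ≤ _ := mul_le_mul_of_nonneg_left (hb u hu) hB
  have hmeas : ∀ l : ℝ, AEStronglyMeasurable (fun v : ℝ => v / 6 * exp (-v) *
      ((v / l) ^ 2 * ∑' k, exp (-(v / l * m k)) * a k)) (volume.restrict (Ioi 0)) := by
    intro l
    have h1 : Measurable fun v : ℝ => ∑' k, exp (-(v / l * m k)) * a k := by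
      have h2 : ∀ k, Measurable fun v : ℝ => exp (-(v / l * m k)) * a k := fun k => by fun_prop
      exact Measurable.tsum h2
    have h3 : Measurable fun v : ℝ => v / 6 * exp (-v) *
      ((v / l) ^ 2 * ∑' k, exp (-(v / l * m k)) * a k) := by fun_prop
    exact h3.aestronglyMeasurable
  have hlim : Tendsto (fun l : ℝ => ∫ v in Ioi (0:ℝ), v / 6 * exp (-v) *
      ((v / l) ^ 2 * ∑' k, exp (-(v / l * m k)) * a k)) atTop
      (𝓝 (∫ v in Ioi (0:ℝ), v / 6 * exp (-v) * A)) := by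
    refine tendsto_integral_filter_of_dominated_convergence
      (fun v => B * C₂ * (v ^ 1 * exp (-v) + v ^ 3 * exp (-v)))
      (Eventually.of_forall fun l => hmeas l) ?_ ?_ ?_
    · filter_upwards [eventually_ge_atTop (1:ℝ)] with l hl
      filter_upwards [ae_restrict_mem measurableSet_Ioi] with v hv
      have hv0 : (0:ℝ) < v := hv
      have hl0 : (0:ℝ) < l := by linarith
      rw [norm_mul, Real.norm_eq_abs, Real.norm_eq_abs, abs_of_nonneg (by positivity)]
      have h1 := hbd (v / l) (by positivity)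
      have h2 : (v / l) ^ 2 ≤ v ^ 2 := by
        refine pow_le_pow_left₀ (by positivity) ?_ 2
        exact div_le_self hv0.le hl
      have h3 : B * (C₂ * (1 + (v / l) ^ 2)) ≤ B * (C₂ * (1 + v ^ 2)) := by gcongr
      calc v / 6 * exp (-v) * |_| ≤ v / 6 * exp (-v) * (B * (C₂ * (1 + v ^ 2))) :=
            mul_le_mul_of_nonneg_left (h1.trans h3) (by positivity)
        _ = (1 / 6) * (B * C₂ * (v ^ 1 * exp (-v) + v ^ 3 * exp (-v))) := by ring
        _ ≤ 1 * (B * C₂ * (v ^ 1 * exp (-v) + v ^ 3 * exp (-v))) :=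
            mul_le_mul_of_nonneg_right (by norm_num) (by positivity)
        _ = _ := one_mul _
    · exact (((integrable_dom 1).add (integrable_dom 3)).const_mul _)
    · filter_upwards [ae_restrict_mem measurableSet_Ioi] with v hv
      have hv0 : (0:ℝ) < v := hv
      refine tendsto_const_nhds.mul (hA.comp ?_)
      refine tendsto_nhdsWithin_iff.2 ⟨tendsto_const_nhds.div_atTop tendsto_id, ?_⟩
      filter_upwards [eventually_gt_atTop (0:ℝ)] with l hl
      exact div_pos hv0 hl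
  have hval : (∫ v in Ioi (0:ℝ), v / 6 * exp (-v) * A) = A / 6 := by
    have h := Real.integral_rpow_mul_exp_neg_mul_Ioi (a := 2) (r := 1) (by norm_num) one_pos
    have e1 : ∀ v : ℝ, v / 6 * exp (-v) * A = (A / 6) * (v ^ ((2:ℝ) - 1) * exp (-(1 * v))) := by
      intro v
      rw [show (2:ℝ) - 1 = 1 by norm_num, Real.rpow_one, one_mul]
      ring
    simp only [e1]
    rw [integral_const_mul, h]
    have e2 : Real.Gamma 2 = 1 := by
      rw [show (2:ℝ) = (1:ℕ) + 1 by norm_num, Real.Gamma_nat_eq_factorial]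
      norm_num
    rw [e2]; simp
  rw [hval] at hlim
  refine hlim.congr' ?_
  filter_upwards [eventually_gt_atTop (0:ℝ)] with l hl
  exact (res_eq hm hs hC ha hl).symm

/-- the uniform bound -/
theorem res_bd : ∃ C' : ℝ, ∀ l : ℝ, 1 ≤ l → l ^ 2 * ∑' k, ((l + m k) ^ 4)⁻¹ ≤ C' := by
  obtain ⟨C₂, hC₂, hb⟩ := trace_bd hm hs hC
  refine ⟨∫ v in Ioi (0:ℝ), C₂ * (v ^ 1 * exp (-v) + v ^ 3 * exp (-v)), fun l hl => ?_⟩
  have hl0 : (0:ℝ) < l := by linarith
  have h := res_eq hm hs hC (a := fun _ => 1) (B := 1) (fun k => by simp) hl0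
  simp only [mul_one] at h
  rw [h]
  have hdom : IntegrableOn (fun v : ℝ => C₂ * (v ^ 1 * exp (-v) + v ^ 3 * exp (-v))) (Ioi 0) :=
    (((integrable_dom 1).add (integrable_dom 3)).const_mul _)
  have hle : ∀ v ∈ Ioi (0:ℝ), v / 6 * exp (-v) * ((v / l) ^ 2 * ∑' k, exp (-(v / l * m k))) ≤
      C₂ * (v ^ 1 * exp (-v) + v ^ 3 * exp (-v)) := by
    intro v hv
    have hv0 : (0:ℝ) < v := hv
    have h1 := hb (v / l) (by positivity)
    have h2 : (v / l) ^ 2 ≤ v ^ 2 := by
      refine pow_le_pow_left₀ (by positivity) ?_ 2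
      exact div_le_self hv0.le hl
    have h3 : C₂ * (1 + (v / l) ^ 2) ≤ C₂ * (1 + v ^ 2) := by gcongr
    calc v / 6 * exp (-v) * ((v / l) ^ 2 * ∑' k, exp (-(v / l * m k)))
        ≤ v / 6 * exp (-v) * (C₂ * (1 + v ^ 2)) :=
          mul_le_mul_of_nonneg_left (h1.trans h3) (by positivity)
      _ = (1 / 6) * (C₂ * (v ^ 1 * exp (-v) + v ^ 3 * exp (-v))) := by ring
      _ ≤ 1 * (C₂ * (v ^ 1 * exp (-v) + v ^ 3 * exp (-v))) :=
          mul_le_mul_of_nonneg_right (by norm_num) (by positivity)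
      _ = _ := one_mul _
  refine setIntegral_mono_on ?_ hdom measurableSet_Ioi hle
  refine hdom.mono' ?_ ?_
  · have h2 : ∀ k, Measurable fun v : ℝ => exp (-(v / l * m k)) := fun k => by fun_prop
    have h1 : Measurable fun v : ℝ => ∑' k, exp (-(v / l * m k)) := Measurable.tsum h2
    have h3 : Measurable fun v : ℝ => v / 6 * exp (-v) *
      ((v / l) ^ 2 * ∑' k, exp (-(v / l * m k))) := by fun_prop
    exact h3.aestronglyMeasurable
  · filter_upwards [ae_restrict_mem measurableSet_Ioi] with v hv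
    have hv0 : (0:ℝ) < v := hv
    have hn : 0 ≤ ∑' k, exp (-(v / l * m k)) := tsum_nonneg fun k => (exp_pos _).le
    rw [Real.norm_of_nonneg (by positivity)]
    exact hle v hv

end

end Crest.Agent.R235.Weyl_820
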