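import Crest.Agent.R235.Weyl1_820
import Crest.Agent.R235.Weyl2_820

/-!
# Row 235, block FAM, leaf WEYL (helper820), part 3: leading Weyl asymptotics on a closed 4-manifold.

`D : Dat 4 M κ` (bundle, connection, potential of R249/Tv57), `S : Spec D`, `f` continuous:

* `summable_exp`, `trace_le` : `∑ e^{-tμₖ} < ∞`, `≤ C / t²` on `(0, 1]`;
* `weyl_heat` : `t² ∑ e^{-tμₖ} ∫ f |φₖ|² → (16π²)⁻¹ ∫ f tr p`;
* `weyl_res`  : `λ² ∑ (λ + μₖ)⁻⁴ ∫ f |φₖ|² → (96π²)⁻¹ ∫ f tr p`;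
* `res_le`    : `λ² ∑ (λ + μₖ)⁻⁴ ≤ C` for `λ ≥ λ₀`, and summability.
-/

set_option autoImplicit false
set_option maxSynthPendingDepth 3
set_option linter.unusedSectionVars false
open scoped ContDiff ENNReal NNReal Topology Manifold Bundle
open MeasureTheory Set Filter Metric Bundle
open Crest.GeometryTopology.CoordMetric Crest.GeometryTopology.ChartCurvature
open Crest.Agent.R202.Ell Crest.Agent.R247.Ms322 Crest.Agent.R226.ChartMet842
open Crest.Agent.R247.Dir593 Crest.Agent.R247.Frd657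
open Crest.Agent.R249.HK286 (E4 pd)
open Crest.Agent.R249.Tv57 Crest.Agent.R249.HK9_714

namespace Crest.Agent.R235.Weyl_820

noncomputable section

/-! ### abstract families -/

section abs
variable {X : Type*} [MeasurableSpace X] {μ : Measure X} {K : Type*}

theorem bnd_univ [TopologicalSpace X] [CompactSpace X] (F : Fam μ K)
    (h : ∀ x : X, ∃ U ∈ 𝓝 x, ∃ C, F.BOn U C) : ∃ C, F.BOn univ C := by
  obtain ⟨C, h1, -, -⟩ := bnd_of_local F F (fun x => by
    obtain ⟨U, hU, C, hC⟩ := h x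
    refine ⟨U, hU, max C 0, hC.mono subset_rfl (le_max_left _ _), hC.mono subset_rfl (le_max_left _ _),
      fun y _ t _ => ?_⟩
    rw [sub_self, abs_zero]
    exact le_max_right _ _)
  exact ⟨C, h1⟩

variable [Countable K] [IsFiniteMeasure μ]

/-- weighted trace formula -/
theorem tsum_wt (F : Fam μ K) {C : ℝ} (h : F.BOn univ C) {f : X → ℝ} (hf : Measurable f) {B : ℝ}
    (hB : ∀ x, |f x| ≤ B) {t : ℝ} (ht : t ∈ Ioc (0 : ℝ) 1) :
    ∑' k, Real.exp (-(2 * t * F.m k)) * ∫ x, f x * F.v k x ∂μ = ∫ x, f x * F.diag t x ∂μ := by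
  have hi : ∀ k, Integrable (fun x => f x * F.v k x) μ := fun k =>
    (F.integrable k).bdd_mul hf.aestronglyMeasurable (Eventually.of_forall fun x => by
      rw [Real.norm_eq_abs]; exact hB x)
  have h1 := hasSum_integral_of_summable_integral_norm
    (F := fun k x => Real.exp (-(2 * t * F.m k)) * (f x * F.v k x)) (μ := μ)
    (fun k => (hi k).const_mul _) (by
      refine Summable.of_nonneg_of_le (fun k => integral_nonneg fun x => norm_nonneg _) (fun k => ?_)
        ((F.summable_of_le_one h ht).mul_right B)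
      have e1 : ∀ x, ‖Real.exp (-(2 * t * F.m k)) * (f x * F.v k x)‖ ≤
          Real.exp (-(2 * t * F.m k)) * B * F.v k x := fun x => by
        rw [norm_mul, norm_mul, Real.norm_of_nonneg (F.v_nonneg k x),
          Real.norm_of_nonneg (Real.exp_pos _).le, Real.norm_eq_abs]
        calc _ ≤ Real.exp (-(2 * t * F.m k)) * (B * F.v k x) :=
              mul_le_mul_of_nonneg_left (mul_le_mul_of_nonneg_right (hB x) (F.v_nonneg k x))
                (Real.exp_pos _).le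
          _ = _ := (mul_assoc _ _ _).symm
      refine (integral_mono ((hi k).const_mul _).norm ((F.integrable k).const_mul _) e1).trans ?_
      rw [integral_const_mul, F.v_int k, mul_one])
  have e2 : ∀ x, ∑' k, Real.exp (-(2 * t * F.m k)) * (f x * F.v k x) = f x * F.diag t x := by
    intro x
    unfold Fam.diag
    rw [← tsum_mul_left]
    exact tsum_congr fun k => by ring
  simp only [e2] at h1
  rw [← h1.tsum_eq]
  exact tsum_congr fun k => (integral_const_mul _ _).symm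

/-- limit of the weighted trace -/
theorem tendsto_wt (F : Fam μ K) {C : ℝ} (h : F.BOn univ C) {f L : X → ℝ} (hf : Measurable f) {B : ℝ}
    (hB : ∀ x, |f x| ≤ B)
    (hL : ∀ x, Tendsto (fun t => t ^ 2 * F.diag t x) (𝓝[>] 0) (𝓝 (L x))) :
    Tendsto (fun t => t ^ 2 * ∑' k, Real.exp (-(2 * t * F.m k)) * ∫ x, f x * F.v k x ∂μ) (𝓝[>] 0)
      (𝓝 (∫ x, f x * L x ∂μ)) := by
  have hmem : ∀ᶠ t : ℝ in 𝓝[>] 0, t ∈ Ioc (0 : ℝ) 1 := Ioc_mem_nhdsGT one_pos
  have h1 : Tendsto (fun t => ∫ x, f x * (t ^ 2 * F.diag t x) ∂μ) (𝓝[>] 0) (𝓝 (∫ x, f x * L x ∂μ)) := by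
    refine tendsto_integral_filter_of_dominated_convergence (fun _ => B * C)
      (Eventually.of_forall fun t =>
        (hf.mul ((F.measurable_diag t).const_mul (t ^ 2))).aestronglyMeasurable) ?_ (integrable_const _)
      (Eventually.of_forall fun x => (hL x).const_mul _)
    filter_upwards [hmem] with t ht
    refine Eventually.of_forall fun x => ?_
    have h2 := (h x (mem_univ x) t ht).2
    have h3 := F.diag_nonneg t x
    have h4 : t ^ 2 * F.diag t x ≤ C := by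
      have ht0 := ht.1
      calc t ^ 2 * F.diag t x ≤ t ^ 2 * (C / t ^ 2) := mul_le_mul_of_nonneg_left h2 (sq_nonneg t)
        _ = C := by field_simp
    rw [norm_mul, Real.norm_eq_abs, Real.norm_of_nonneg (mul_nonneg (sq_nonneg t) h3)]
    exact mul_le_mul (hB x) h4 (mul_nonneg (sq_nonneg t) h3) ((abs_nonneg _).trans (hB x))
  refine h1.congr' ?_
  filter_upwards [hmem] with t ht
  rw [tsum_wt F h hf hB ht, ← integral_const_mul]
  refine integral_congr_ae (Eventually.of_forall fun x => ?_)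
  ring

end abs

/-! ### the manifold -/

variable {M : Type*} [MetricSpace M] [ChartedSpace (EuclideanSpace ℝ (Fin 4)) M]
  [IsManifold (𝓡 4) ∞ M]
  [RiemannianBundle (fun p : M => TangentSpace (𝓡 4) p)]
  [IsContMDiffRiemannianBundle (𝓡 4) ∞ (EuclideanSpace ℝ (Fin 4)) (fun p : M => TangentSpace (𝓡 4) p)]
  [IsRiemannianManifold (𝓡 4) M] [MeasurableSpace M] [BorelSpace M]
  [SecondCountableTopology M] [Nonempty M] [CompactSpace M]
variable {κ : Type} [Fintype κ]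

/-- local statement at a point `z` -/
theorem lead_local (D : Dat 4 M κ) (S : Spec D) {c : ℝ} (hc : ∀ k, 0 ≤ S.μ k + c) (x₀ : M) {z : M}
    (hz : z ∈ (chartAt E4 x₀).source) :
    (∃ U ∈ 𝓝 z, ∃ C, (fam D S hc).BOn U C) ∧
    Tendsto (fun t => t ^ 2 * (fam D S hc).diag t z) (𝓝[>] 0)
      (𝓝 ((∑ a, D.p a a z) / (64 * Real.pi ^ 2))) := by
  set y₀ : E4 := chartAt E4 x₀ z with hy₀
  have hy : y₀ ∈ (chartAt E4 x₀).target := (chartAt E4 x₀).map_source hz
  obtain ⟨V, r1, j1, hVo, hyV, hV, smj1, jj1, jp1⟩ := exists_frame D x₀ hy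
  set L1 := lfr D x₀ hV j1 smj1 jj1 jp1 with hL1
  obtain ⟨hA, hB⟩ := lead_chart hVo (cmet x₀ hV) (L1.con hVo c) (sys D x₀ hV j1 smj1 jj1 jp1 hVo S hc)
  have hv1 : ∀ z' ∈ (chartAt E4 x₀).source, chartAt E4 x₀ z' ∈ V → ∀ k,
      ∑ q, uu x₀ j1 (S.φ k) (chartAt E4 x₀ z') q ^ 2 = (fam D S hc).v k z' := fun z' hz' hx k =>
    sum_uu_sq D x₀ j1 jj1 jp1 (S.sec k) hz' hx
  have hd1 : ∀ z' ∈ (chartAt E4 x₀).source, chartAt E4 x₀ z' ∈ V → ∀ t,
      (sys D x₀ hV j1 smj1 jj1 jp1 hVo S hc).diag t (chartAt E4 x₀ z')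
        = (fam D S hc).diag t z' := fun z' hz' hx t => by
    unfold CSys.diag Fam.diag
    refine tsum_congr fun k => ?_
    rw [← hv1 z' hz' hx k]
    rfl
  constructor
  · obtain ⟨ε, hε, hεV⟩ := nhds_basis_closedBall.mem_iff.1 (hVo.mem_nhds hyV)
    obtain ⟨B, hB'⟩ := hA (closedBall y₀ ε) (isCompact_closedBall y₀ ε) hεV
    refine ⟨(chartAt E4 x₀).source ∩ (chartAt E4 x₀) ⁻¹' closedBall y₀ ε, ?_, B, ?_⟩
    · exact inter_mem ((chartAt E4 x₀).open_source.mem_nhds hz)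
        (((chartAt E4 x₀).continuousAt hz).preimage_mem_nhds (closedBall_mem_nhds _ hε))
    · rintro z' ⟨hz', hx⟩ t ht
      obtain ⟨h1, h3⟩ := hB' _ hx t ht
      rw [hd1 z' hz' (hεV hx) t] at h3
      refine ⟨h1.congr fun k => ?_, h3⟩
      rw [← hv1 z' hz' (hεV hx) k]
      rfl
  · have h1 := hB y₀ hyV
    have h2 := rank_eq D x₀ j1 jj1 jp1 hyV
    rw [hy₀, (chartAt E4 x₀).left_inv hz] at h2
    rw [h2, ← Fintype.card_fin r1]
    refine h1.congr fun t => ?_
    rw [hd1 z hz hyV t]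

variable (D : Dat 4 M κ) (S : Spec D)

/-- the shift -/
def shc (S : Spec D) : ℝ := max 0 (-S.μ 0)

theorem shc_nonneg (k : ℕ) : 0 ≤ S.μ k + shc D S := by
  have h1 := S.mono (Nat.zero_le k)
  have h2 : -S.μ 0 ≤ shc D S := le_max_right _ _
  linarith

theorem exists_B : ∃ C, (fam D S (shc_nonneg D S)).BOn univ C :=
  bnd_univ _ fun z => (lead_local D S (shc_nonneg D S) z (mem_chart_source E4 z)).1

/-- weight of the eigensection `k` -/
def wt (S : Spec D) (f : M → ℝ) (k : ℕ) : ℝ := ∫ z, f z * ∑ a, S.φ k a z ^ 2 ∂(μHE[4] : Measure M)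

theorem wt_fam (f : M → ℝ) (k : ℕ) :
    wt D S f k = ∫ z, f z * (fam D S (shc_nonneg D S)).v k z ∂(μHE[4] : Measure M) := rfl

theorem wt_one (k : ℕ) : wt D S (fun _ => 1) k = 1 := by
  unfold wt
  simp only [one_mul]
  exact (fam D S (shc_nonneg D S)).v_int k

theorem wt_le {f : M → ℝ} {B : ℝ} (hB : ∀ x, |f x| ≤ B) (k : ℕ) : |wt D S f k| ≤ B := by
  rw [wt_fam, ← Real.norm_eq_abs]
  refine (norm_integral_le_of_norm_le (((fam D S (shc_nonneg D S)).integrable k).const_mul B)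
    (Eventually.of_forall fun x => ?_)).trans ?_
  · rw [norm_mul, Real.norm_eq_abs, Real.norm_of_nonneg ((fam D S (shc_nonneg D S)).v_nonneg k x)]
    exact mul_le_mul_of_nonneg_right (hB x) ((fam D S (shc_nonneg D S)).v_nonneg k x)
  · rw [integral_const_mul, (fam D S (shc_nonneg D S)).v_int k, mul_one]

theorem fin_meas (M : Type*) [MetricSpace M] [ChartedSpace (EuclideanSpace ℝ (Fin 4)) M]
  [IsManifold (𝓡 4) ∞ M]
  [RiemannianBundle (fun p : M => TangentSpace (𝓡 4) p)]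
  [IsContMDiffRiemannianBundle (𝓡 4) ∞ (EuclideanSpace ℝ (Fin 4)) (fun p : M => TangentSpace (𝓡 4) p)]
  [IsRiemannianManifold (𝓡 4) M] [MeasurableSpace M] [BorelSpace M]
  [SecondCountableTopology M] [Nonempty M] [CompactSpace M] : IsFiniteMeasure (μHE[4] : Measure M) := by
  have : IsLocallyFiniteMeasure (μHE[4] : Measure M) := isLocallyFiniteMeasure 4 M
  exact CompactSpace.isFiniteMeasure

theorem summable_sh {t : ℝ} (ht : 0 < t) : Summable fun k => Real.exp (-(t * (S.μ k + shc D S))) := by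
  have := fin_meas M
  obtain ⟨C, hC⟩ := exists_B D S
  exact (fam D S (shc_nonneg D S)).summable hC ht

theorem summable_exp {t : ℝ} (ht : 0 < t) : Summable fun k => Real.exp (-(t * S.μ k)) := by
  have h1 := (summable_sh D S ht).mul_left (Real.exp (t * shc D S))
  refine h1.congr fun k => ?_
  rw [← Real.exp_add]; congr 1; ring

theorem half_Ioc {t : ℝ} (ht : t ∈ Ioc (0:ℝ) 1) : t / 2 ∈ Ioc (0:ℝ) 1 :=
  ⟨half_pos ht.1, by linarith [ht.1, ht.2]⟩

theorem trace_sh : ∃ C, ∀ t ∈ Ioc (0:ℝ) 1, ∑' k, Real.exp (-(t * (S.μ k + shc D S))) ≤ C / t ^ 2 := by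
  have := fin_meas M
  obtain ⟨C, hC⟩ := exists_B D S
  refine ⟨4 * C * (μHE[4] : Measure M).real univ, fun t ht => ?_⟩
  have ht2 := half_Ioc ht
  have h1 := (fam D S (shc_nonneg D S)).tsum_eq hC ht2
  have e1 : ∀ k, Real.exp (-(t * (S.μ k + shc D S))) =
      Real.exp (-(2 * (t / 2) * (fam D S (shc_nonneg D S)).m k)) := by
    intro k
    rw [show 2 * (t / 2) = t by ring]; rfl
  simp only [e1]
  rw [h1]
  refine (integral_mono_of_nonneg (Eventually.of_forall fun x => Fam.diag_nonneg _ _ _)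
    (integrable_const (C / (t / 2) ^ 2))
    (Eventually.of_forall fun x => (hC x (mem_univ x) (t / 2) ht2).2)).trans (le_of_eq ?_)
  rw [integral_const, smul_eq_mul]
  have := ht.1.ne'
  field_simp
  norm_num

/-- `∑ e^{-tμₖ} ≤ C / t²` -/
theorem trace_le : ∃ C, ∀ t ∈ Ioc (0:ℝ) 1, ∑' k, Real.exp (-(t * S.μ k)) ≤ C / t ^ 2 := by
  obtain ⟨C, hC⟩ := trace_sh D S
  refine ⟨Real.exp (shc D S) * C, fun t ht => ?_⟩
  have e1 : ∀ k, Real.exp (-(t * S.μ k)) =
      Real.exp (t * shc D S) * Real.exp (-(t * (S.μ k + shc D S))) :=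
    fun k => by rw [← Real.exp_add]; congr 1; ring
  simp only [e1, tsum_mul_left]
  have h0 : 0 ≤ shc D S := le_max_left _ _
  have h1 : Real.exp (t * shc D S) ≤ Real.exp (shc D S) := by
    refine Real.exp_le_exp.2 ?_
    calc t * shc D S ≤ 1 * shc D S := mul_le_mul_of_nonneg_right ht.2 h0
      _ = _ := one_mul _
  rw [mul_div_assoc]
  exact mul_le_mul h1 (hC t ht) (tsum_nonneg fun k => (Real.exp_pos _).le) (Real.exp_pos _).le

/-- leading term, shifted -/
theorem weyl_sh {f : M → ℝ} (hf : Continuous f) :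
    Tendsto (fun t => t ^ 2 * ∑' k, Real.exp (-(t * (S.μ k + shc D S))) * wt D S f k) (𝓝[>] 0)
      (𝓝 ((16 * Real.pi ^ 2)⁻¹ * ∫ z, f z * ∑ a, D.p a a z ∂(μHE[4] : Measure M))) := by
  have := fin_meas M
  obtain ⟨C, hC⟩ := exists_B D S
  obtain ⟨B, hB⟩ : ∃ B, ∀ x, |f x| ≤ B := by
    obtain ⟨B, hB⟩ := isCompact_univ.exists_bound_of_continuousOn hf.continuousOn
    exact ⟨B, fun x => hB x (mem_univ x)⟩
  have h1 := tendsto_wt (fam D S (shc_nonneg D S)) hC hf.measurable hB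
    (fun z => (lead_local D S (shc_nonneg D S) z (mem_chart_source E4 z)).2)
  have h2 : Tendsto (fun t : ℝ => t / 2) (𝓝[>] 0) (𝓝[>] 0) := by
    refine tendsto_nhdsWithin_iff.2 ⟨?_, ?_⟩
    · have : Tendsto (fun t : ℝ => t / 2) (𝓝 0) (𝓝 (0 / 2)) :=
        (continuous_id.div_const 2).tendsto 0
      rw [zero_div] at this
      exact this.mono_left nhdsWithin_le_nhds
    · filter_upwards [self_mem_nhdsWithin] with t ht
      exact half_pos (mem_Ioi.1 ht)
  have h3 := (h1.comp h2).const_mul 4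
  have e1 : 4 * (∫ z, f z * ((∑ a, D.p a a z) / (64 * Real.pi ^ 2)) ∂(μHE[4] : Measure M)) =
      (16 * Real.pi ^ 2)⁻¹ * ∫ z, f z * ∑ a, D.p a a z ∂(μHE[4] : Measure M) := by
    rw [← integral_const_mul, ← integral_const_mul]
    refine integral_congr_ae (Eventually.of_forall fun z => ?_)
    have := Real.pi_pos
    simp only
    field_simp
    ring
  rw [e1] at h3
  refine h3.congr fun t => ?_
  simp only [Function.comp]
  have h7 : ∀ a : ℝ, 2 * (t / 2) * a = t * a := fun a => by ring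
  simp only [h7]
  calc _ = t ^ 2 * ∑' k, Real.exp (-(t * (fam D S (shc_nonneg D S)).m k)) *
        ∫ x, f x * (fam D S (shc_nonneg D S)).v k x ∂(μHE[4] : Measure M) := by ring
    _ = _ := rfl

/-- **WEYL, heat form** -/
theorem weyl_heat {f : M → ℝ} (hf : Continuous f) :
    Tendsto (fun t => t ^ 2 * ∑' k, Real.exp (-(t * S.μ k)) *
        ∫ z, f z * ∑ a, S.φ k a z ^ 2 ∂(μHE[4] : Measure M)) (𝓝[>] 0)
      (𝓝 ((16 * Real.pi ^ 2)⁻¹ * ∫ z, f z * ∑ a, D.p a a z ∂(μHE[4] : Measure M))) := by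
  have h5 : Tendsto (fun t : ℝ => Real.exp (t * shc D S)) (𝓝[>] 0) (𝓝 1) := by
    have : Tendsto (fun t : ℝ => Real.exp (t * shc D S)) (𝓝 0) (𝓝 (Real.exp (0 * shc D S))) :=
      (Real.continuous_exp.comp (continuous_id.mul continuous_const)).tendsto 0
    rw [zero_mul, Real.exp_zero] at this
    exact this.mono_left nhdsWithin_le_nhds
  have h6 := h5.mul (weyl_sh D S hf)
  rw [one_mul] at h6
  refine h6.congr fun t => ?_
  have e1 : ∀ k, Real.exp (-(t * S.μ k)) * ∫ z, f z * ∑ a, S.φ k a z ^ 2 ∂(μHE[4] : Measure M) =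
      Real.exp (t * shc D S) * (Real.exp (-(t * (S.μ k + shc D S))) * wt D S f k) :=
    fun k => by
      rw [← mul_assoc, ← Real.exp_add]
      unfold wt
      congr 2
      ring
  simp only [e1, tsum_mul_left]
  ring

theorem tendsto_sub_shc : Tendsto (fun l : ℝ => l - shc D S) atTop atTop :=
  tendsto_atTop_add_const_right _ _ tendsto_id

theorem sh_eq (l : ℝ) (k : ℕ) : (l - shc D S) + (S.μ k + shc D S) = l + S.μ k := by ring

theorem ratio_tendsto : Tendsto (fun l : ℝ => l ^ 2 / (l - shc D S) ^ 2) atTop (𝓝 1) := by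
  have h1 : Tendsto (fun l : ℝ => shc D S / (l - shc D S)) atTop (𝓝 0) :=
    tendsto_const_nhds.div_atTop (tendsto_sub_shc D S)
  have h2 : Tendsto (fun l : ℝ => (1 + shc D S / (l - shc D S)) ^ 2) atTop (𝓝 ((1 + 0) ^ 2)) :=
    (tendsto_const_nhds.add h1).pow 2
  rw [add_zero, one_pow] at h2
  refine h2.congr' ?_
  filter_upwards [eventually_gt_atTop (shc D S)] with l hl
  have : l - shc D S ≠ 0 := by
    have : 0 < l - shc D S := sub_pos.2 hl
    exact this.ne'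
  rw [← div_pow]
  congr 1
  field_simp
  ring

/-- summability of the resolvent powers -/
theorem summable_res4 {l : ℝ} (hl : shc D S < l) : Summable fun k => ((l + S.μ k) ^ 4)⁻¹ := by
  obtain ⟨C, hC⟩ := trace_sh D S
  have := summable_res (shc_nonneg D S) (fun t ht => summable_sh D S ht) hC (sub_pos.2 hl)
  simp only [sh_eq] at this
  exact this

/-- **WEYL, uniform bound**: `λ² ∑ (λ + μₖ)⁻⁴ ≤ C` -/
theorem res_le : ∃ C' l₀ : ℝ, 0 < l₀ ∧ shc D S < l₀ ∧ ∀ l : ℝ, l₀ ≤ l → l ^ 2 * ∑' k, ((l + S.μ k) ^ 4)⁻¹ ≤ C' := by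
  obtain ⟨C, hC⟩ := trace_sh D S
  obtain ⟨C', hC'⟩ := res_bd (shc_nonneg D S) (fun t ht => summable_sh D S ht) hC
  have h0 : 0 ≤ shc D S := le_max_left _ _
  refine ⟨4 * C', 2 * (shc D S + 1), by linarith, by linarith, fun l hl => ?_⟩
  have h1 := hC' (l - shc D S) (by linarith)
  simp only [sh_eq] at h1
  have h2 : 0 ≤ ∑' k, ((l + S.μ k) ^ 4)⁻¹ := tsum_nonneg fun k => by positivity
  have h3 : l ^ 2 ≤ 4 * (l - shc D S) ^ 2 := by nlinarith
  calc l ^ 2 * ∑' k, ((l + S.μ k) ^ 4)⁻¹ ≤ 4 * (l - shc D S) ^ 2 * ∑' k, ((l + S.μ k) ^ 4)⁻¹ :=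
        mul_le_mul_of_nonneg_right h3 h2
    _ = 4 * ((l - shc D S) ^ 2 * ∑' k, ((l + S.μ k) ^ 4)⁻¹) := by ring
    _ ≤ _ := by linarith

/-- **WEYL, resolvent form** -/
theorem weyl_res {f : M → ℝ} (hf : Continuous f) :
    Tendsto (fun l : ℝ => l ^ 2 * ∑' k, ((l + S.μ k) ^ 4)⁻¹ *
        ∫ z, f z * ∑ a, S.φ k a z ^ 2 ∂(μHE[4] : Measure M)) atTop
      (𝓝 ((96 * Real.pi ^ 2)⁻¹ * ∫ z, f z * ∑ a, D.p a a z ∂(μHE[4] : Measure M))) := by
  obtain ⟨C, hC⟩ := trace_sh D S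
  obtain ⟨B, hB⟩ : ∃ B, ∀ x, |f x| ≤ B := by
    obtain ⟨B, hB⟩ := isCompact_univ.exists_bound_of_continuousOn hf.continuousOn
    exact ⟨B, fun x => hB x (mem_univ x)⟩
  have h1 := abel (shc_nonneg D S) (fun t ht => summable_sh D S ht) hC
    (a := wt D S f) (fun k => wt_le D S hB k) (weyl_sh D S hf)
  have h2 := (ratio_tendsto D S).mul (h1.comp (tendsto_sub_shc D S))
  rw [one_mul] at h2
  have e1 : ((16 * Real.pi ^ 2)⁻¹ * ∫ z, f z * ∑ a, D.p a a z ∂(μHE[4] : Measure M)) / 6 =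
      (96 * Real.pi ^ 2)⁻¹ * ∫ z, f z * ∑ a, D.p a a z ∂(μHE[4] : Measure M) := by
    have := Real.pi_pos
    field_simp
    ring
  rw [e1] at h2
  refine h2.congr' ?_
  filter_upwards [eventually_gt_atTop (shc D S)] with l hl
  have hl0 : l - shc D S ≠ 0 := (sub_pos.2 hl).ne'
  simp only [Function.comp, sh_eq]
  rw [← mul_assoc, div_mul_cancel₀ _ (pow_ne_zero 2 hl0)]
  rfl

end

end Crest.Agent.R235.Weyl_820
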