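import Crest.Agent.R235.Rn3_820
import Crest.Agent.R235.RC_746
import Crest.Agent.R235.FamTop_307
import Crest.Agent.R235.Weyl3_820

/-!
Row 235, block FAM/RC (helper820), RC-MAN part 9: **RCMAN** from the commutator bounds `P2X` and the
weights `WX`.
-/

set_option autoImplicit false
set_option linter.unusedSectionVars false
set_option maxSynthPendingDepth 3

open scoped ContDiff ENNReal NNReal Topology Manifold Bundle RealInnerProductSpace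
open MeasureTheory Set Filter Metric Bundle Module

namespace Crest.Agent.R235.Rn_820

open Crest.Agent.R249.Tv57 Crest.Agent.R247.Ms322 Crest.Agent.R247.Dir593
open Crest.Agent.R235.SWSym_451 Crest.Agent.R235.Fs4_546 Crest.Agent.R235.Fred_649
open Crest.Agent.R235.SWDefs_53 Crest.Agent.R235.SWPf_435 Crest.Agent.R235.RcX_435
open Crest.Agent.R235.FamTop_307

noncomputable section

/-- **the commutator bounds.** -/
def P2X : Prop :=
  ∀ (M : Type) [MetricSpace M] [CompactSpace M] [ConnectedSpace M]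
    [ChartedSpace (EuclideanSpace ℝ (Fin 4)) M] [IsManifold (𝓡 4) ∞ M]
    [RiemannianBundle (fun p : M => TangentSpace (𝓡 4) p)]
    [IsContMDiffRiemannianBundle (𝓡 4) ∞ (EuclideanSpace ℝ (Fin 4))
      (fun p : M => TangentSpace (𝓡 4) p)]
    [IsRiemannianManifold (𝓡 4) M] [MeasurableSpace M] [BorelSpace M]
    [SecondCountableTopology M] [Nonempty M] [IsFiniteMeasureOnCompacts (μHE[4] : Measure M)]
    (κ0 κ1 κT : Type) [Fintype κ0] [Fintype κ1] [Fintype κT]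
    (S : SWS M κ0 κ1 κT) (cc : κ1 → κ0 → M → EuclideanSpace ℝ (Fin 4)) (J1 : κ1 → κ1 → M → ℝ)
    (j : JD M κT 4) (H : Sym S cc) (C : CJ1 S cc J1) (hj : j.OK S) (a : Fin 4),
    ∃ (Bt : S.D1.toAD.HE →L[ℝ] S.D0.toAD.HE) (bu : S.D0.toAD.WE →L[ℝ] S.D1.toAD.WE)
      (bv : S.D1.toAD.WE →L[ℝ] S.D0.toAD.WE) (K : ℝ),
      RQ (rp H C hj) (rj H C hj) a Bt bu bv K ∧
      ∀ f, ∀ᵐ z ∂(μHE[4] : Measure M), ∀ y, rf (Bt f) y z = ∑ x, mth S (ei j a) x y z * rf f x z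

/-- **the weights.** -/
def WX : Prop :=
  ∀ (M : Type) [MetricSpace M] [CompactSpace M] [ConnectedSpace M]
    [ChartedSpace (EuclideanSpace ℝ (Fin 4)) M] [IsManifold (𝓡 4) ∞ M]
    [RiemannianBundle (fun p : M => TangentSpace (𝓡 4) p)]
    [IsContMDiffRiemannianBundle (𝓡 4) ∞ (EuclideanSpace ℝ (Fin 4))
      (fun p : M => TangentSpace (𝓡 4) p)]
    [IsRiemannianManifold (𝓡 4) M] [MeasurableSpace M] [BorelSpace M]
    [SecondCountableTopology M] [Nonempty M] [IsFiniteMeasureOnCompacts (μHE[4] : Measure M)]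
    (κ0 κ1 κT : Type) [Fintype κ0] [Fintype κ1] [Fintype κT]
    (S : SWS M κ0 κ1 κT) (cc : κ1 → κ0 → M → EuclideanSpace ℝ (Fin 4)) (J1 : κ1 → κ1 → M → ℝ)
    (j : JD M κT 4) (H : Sym S cc) (C : CJ1 S cc J1) (hj : j.OK S) (S0 : Spec S.D0)
    (S1 : Spec S.D1) (Bt : Fin 4 → S.D1.toAD.HE →L[ℝ] S.D0.toAD.HE),
    (∀ a f, ∀ᵐ z ∂(μHE[4] : Measure M), ∀ y,
      rf (Bt a f) y z = ∑ x, mth S (ei j a) x y z * rf f x z) →
    ∃ w0 w1 : ℕ → ℝ,
      (∀ k, (⟪cH S.D0 (ph S0 k), R0 (fun a => CH H (sm_ei hj a)) Bt (cH S.D0 (ph S0 k))⟫ : ℝ) =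
        w0 k) ∧
      (∀ k, (⟪JH (cs0 H) (cH S.D0 (ph S0 k)),
        R0 (fun a => CH H (sm_ei hj a)) Bt (cH S.D0 (ph S0 k))⟫ : ℝ) = 0) ∧
      (∀ k, (⟪cH S.D1 (ph S1 k), R1 (fun a => CH H (sm_ei hj a)) Bt (cH S.D1 (ph S1 k))⟫ : ℝ) =
        -(w1 k)) ∧
      (∀ k, (⟪JH (cs1 C) (cH S.D1 (ph S1 k)),
        R1 (fun a => CH H (sm_ei hj a)) Bt (cH S.D1 (ph S1 k))⟫ : ℝ) = 0) ∧
      Tendsto (fun l : ℝ => l ^ 2 * ∑' k, ((l + S0.μ k) ^ 4)⁻¹ * w0 k) atTop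
        (𝓝 ((96 * Real.pi ^ 2)⁻¹ * numJ S j)) ∧
      Tendsto (fun l : ℝ => l ^ 2 * ∑' k, ((l + S1.μ k) ^ 4)⁻¹ * w1 k) atTop
        (𝓝 ((96 * Real.pi ^ 2)⁻¹ * numJ S j))

set_option maxHeartbeats 2000000 in
/-- **RCMAN** from `P2X` and `WX`. -/
theorem rcman_of (hP : P2X) (hW : WX) : RCMAN.{0} := by
  refine ⟨(((192 * Real.pi ^ 2)⁻¹ : ℝ) : ℂ), ?_, ?_⟩
  · have := Real.pi_pos
    exact Complex.ofReal_ne_zero.2 (by positivity)
  intro M _ _ _ _ _ _ _ _ _ _ _ _ _ κ0 κ1 κT _ _ _ S cc J1 j _ H C hj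
  refine ⟨(RF H C hj).X, (RF H C hj).Y, inferInstance, inferInstance, inferInstance,
    inferInstance, inferInstance, inferInstance, (RF H C hj).toP, (RF H C hj).eX,
    (RF H C hj).eY, phi j, rep H C hj, ?_, ?_⟩
  · intro d0 h0 h1
    have e0 := index0 H C hj h0
    have e1 := index1 H C hj h1
    omega
  · intro E _ n fr hs
    obtain ⟨S0⟩ := spec0 H
    obtain ⟨S1⟩ := spec1 H
    choose Bt bu bv K hQ hBt using hP M κ0 κ1 κT S cc J1 j H C hj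
    obtain ⟨w0, w1, a0, a0', a1, a1', l0, l1⟩ := hW M κ0 κ1 κT S cc J1 j H C hj S0 S1 Bt hBt
    obtain ⟨Ct, hCt⟩ := Weyl_820.trace_le S.D0 S0
    have h := final RC_746.rc (re H C hj S0 S1) hQ S0.mono
      (fun t ht => Weyl_820.summable_exp S.D0 S0 ht) hCt a0 a0' a1 a1' l0 l1 E fr hs
    rw [h]
    have e1 : ((96 * Real.pi ^ 2)⁻¹ * numJ S j + (96 * Real.pi ^ 2)⁻¹ * numJ S j) / 4 =
        (192 * Real.pi ^ 2)⁻¹ * numJ S j := by
      have := Real.pi_pos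
      field_simp
      ring
    rw [e1, Complex.ofReal_mul]

end

end Crest.Agent.R235.Rn_820
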