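import Crest.Agent.R235.RcQc_215
import Crest.Agent.R235.Rn4_820

/-!
Row 235 (S0364), PACKAGE FAM, RCMAN, piece (P2), part 4 (helper215): **P2X**.
-/

set_option autoImplicit false
set_option maxSynthPendingDepth 3
set_option linter.unusedSectionVars false

open scoped ContDiff ENNReal NNReal Topology Manifold Bundle RealInnerProductSpace
open MeasureTheory Set Filter Metric Bundle

universe v

namespace Crest.Agent.R235.RcP2_215

open Crest.Agent.R249.Tv57 Crest.Agent.R247.Ms322 Crest.Agent.R247.Dir593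
open Crest.Agent.R247.Frd657 Crest.Agent.R235.Fs4_546
open Crest.Agent.R235.SWSym_451 Crest.Agent.R235.Fred_649
open Crest.Agent.R235.SWDefs_53 Crest.Agent.R235.SWPf_435 Crest.Agent.R235.RcX_435
open Crest.Agent.R235.FamTop_307 Crest.Agent.R235.RcQ_215
open Crest.Agent.R235.L4_433 Crest.Agent.R235.Cpt_755

noncomputable section

variable {M : Type v} [MetricSpace M] [CompactSpace M] [ConnectedSpace M]
  [ChartedSpace (EuclideanSpace ℝ (Fin 4)) M] [IsManifold (𝓡 4) ∞ M]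
  [RiemannianBundle (fun p : M => TangentSpace (𝓡 4) p)]
  [IsContMDiffRiemannianBundle (𝓡 4) ∞ (EuclideanSpace ℝ (Fin 4))
    (fun p : M => TangentSpace (𝓡 4) p)]
  [IsRiemannianManifold (𝓡 4) M] [MeasurableSpace M] [BorelSpace M]
  [SecondCountableTopology M] [Nonempty M] [IsFiniteMeasureOnCompacts (μHE[4] : Measure M)]

local notation "μM" => (μHE[4] : Measure M)

section gen

variable {κ κ' : Type} [Fintype κ] [Fintype κ'] {D0 : Dat 4 M κ} {D1 : Dat 4 M κ'}
  {β : κ' → κ → M → ℝ}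

theorem inner_rf (f g : D0.toAD.HE) : (⟪f, g⟫ : ℝ) = ∫ z, ∑ a, rf f a z * rf g a z ∂μM :=
  inner_HH (f : HH μM κ) (g : HH μM κ) (Eventually.of_forall fun _ _ => rfl)
    (Eventually.of_forall fun _ _ => rfl)

/-- the multiplication operator `L²(D0) → L²(D1)`. -/
def BH (h : BMap D0 D1 β) : D0.toAD.HE →L[ℝ] D1.toAD.HE :=
  ((matR fun x y => bm_smooth (h.sm x y)).comp D0.toAD.HE.subtypeL).codRestrict
    D1.toAD.HE fun f => by
      set F : HH μM κ' := matR (fun x y => bm_smooth (h.sm x y)) (f : HH μM κ) with hF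
      have h1 : ∀ᵐ z ∂μM, ∀ x, (F x : M → ℝ) z = ∑ y, β x y z * rf f y z := by
        filter_upwards [coe_matR (fun x y => bm_smooth (h.sm x y)) (f : HH μM κ)]
          with z e1 x
        rw [e1 x]
        exact Finset.sum_congr rfl fun y _ => mul_comm _ _
      show D1.toAD.P F = F
      ext x
      filter_upwards [D1.toAD.coe_P F, h1] with z e1 e2
      rw [e1 x, e2 x]
      simp only [e2, Finset.mul_sum]
      rw [Finset.sum_comm]
      refine Finset.sum_congr rfl fun y _ => ?_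
      rw [← h.p1 x y z, Finset.sum_mul]
      exact Finset.sum_congr rfl fun x' _ => by
        show D1.p x x' z * (β x' y z * rf f y z) = _
        ring

theorem coe_BH (h : BMap D0 D1 β) (f : D0.toAD.HE) :
    ∀ᵐ z ∂μM, ∀ x, rf (BH h f) x z = ∑ y, β x y z * rf f y z := by
  filter_upwards [coe_matR (fun x y => bm_smooth (h.sm x y)) (f : HH μM κ)] with z e1 x
  refine (e1 x).trans ?_
  exact Finset.sum_congr rfl fun y _ => mul_comm _ _

theorem BH_cH (h : BMap D0 D1 β) (u : SmS D0) : BH h (cH D0 u) = cH D1 (bS h u) := by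
  refine HE_ext ?_
  filter_upwards [coe_BH h (cH D0 u), rf_cH u, rf_cH (bS h u)] with z e1 e2 e3 x
  rw [e1 x, e3 x]
  simp only [e2]
  rfl

theorem BH_adj (h : BMap D0 D1 β) (f : D0.toAD.HE) (g : D1.toAD.HE) :
    (⟪BH h f, g⟫ : ℝ) = ⟪f, BH h.tr g⟫ := by
  rw [inner_rf, inner_rf]
  refine integral_congr_ae ?_
  filter_upwards [coe_BH h f, coe_BH h.tr g] with z e1 e2
  simp only [e1, e2, Finset.mul_sum, Finset.sum_mul]
  rw [Finset.sum_comm]
  refine Finset.sum_congr rfl fun y _ => Finset.sum_congr rfl fun x _ => ?_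
  show β x y z * rf f y z * rf g x z = rf f y z * (β x y z * rf g x z)
  ring

theorem jj_BW' (h : BMap D0 D1 β) (v : D0.toAD.WE) :
    D1.toAD.jj (BW h v) = BH h (D0.toAD.jj v) :=
  jj_BW (dns4 D0) h (BH_cH h) v

/-- **the commutator bound**. -/
theorem bd_W (P : OpPair D0 D1) (h : BMap D0 D1 β) : ∃ K : ℝ, 0 ≤ K ∧
    ∀ (v : D0.toAD.WE) (w : D1.toAD.WE),
      |(⟪Ah P.swap (BW h v), Ah P.swap w⟫ - ⟪Ah P v, Ah P (BW h.tr w)⟫ : ℝ)| ≤
          K * (‖v‖ * ‖D1.toAD.jj w‖) ∧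
      |(⟪Ah P.swap (BW h v), Ah P.swap w⟫ - ⟪Ah P v, Ah P (BW h.tr w)⟫ : ℝ)| ≤
          K * (‖D0.toAD.jj v‖ * ‖w‖) := by
  obtain ⟨K, hK, hb⟩ := bd_TT P h
  refine ⟨K, hK, fun v w => ?_⟩
  have hd : ∀ (u : SmS D0) (w : SmS D1),
      (⟪Ah P.swap (BW h (cW D0 u)), Ah P.swap (cW D1 w)⟫ -
        ⟪Ah P (cW D0 u), Ah P (BW h.tr (cW D1 w))⟫ : ℝ) = TT P h u w := by
    intro u w
    rw [BW_cW (dns4 D0), BW_cW (dns4 D1), Ah_cW (P := P.swap) (dns4 D1),
      Ah_cW (P := P.swap) (dns4 D1), Ah_cW (P := P) (dns4 D0), Ah_cW (P := P) (dns4 D0)]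
    rfl
  have c1 : Continuous fun v : D0.toAD.WE => Ah P.swap (BW h v) := by fun_prop
  have c2 : Continuous fun v : D0.toAD.WE => Ah P v := by fun_prop
  have c3 : Continuous fun w : D1.toAD.WE => Ah P.swap w := by fun_prop
  have c4 : Continuous fun w : D1.toAD.WE => Ah P (BW h.tr w) := by fun_prop
  constructor
  · refine (dns4 D0).induction_on (p := fun v : D0.toAD.WE =>
      |(⟪Ah P.swap (BW h v), Ah P.swap w⟫ - ⟪Ah P v, Ah P (BW h.tr w)⟫ : ℝ)| ≤
        K * (‖v‖ * ‖D1.toAD.jj w‖)) v ?_ fun u => ?_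
    · exact isClosed_le (((c1.inner continuous_const).sub (c2.inner continuous_const)).abs)
        (continuous_const.mul (continuous_norm.mul continuous_const))
    · refine (dns4 D1).induction_on (p := fun w : D1.toAD.WE =>
        |(⟪Ah P.swap (BW h (cW D0 u)), Ah P.swap w⟫ - ⟪Ah P (cW D0 u), Ah P (BW h.tr w)⟫ : ℝ)| ≤
          K * (‖cW D0 u‖ * ‖D1.toAD.jj w‖)) w ?_ fun w => ?_
      · exact isClosed_le (((continuous_const.inner c3).sub (continuous_const.inner c4)).abs)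
          (continuous_const.mul (continuous_const.mul (D1.toAD.jj.continuous.norm)))
      · rw [hd, jj_cW]
        exact (hb u w).1
  · refine (dns4 D0).induction_on (p := fun v : D0.toAD.WE =>
      |(⟪Ah P.swap (BW h v), Ah P.swap w⟫ - ⟪Ah P v, Ah P (BW h.tr w)⟫ : ℝ)| ≤
        K * (‖D0.toAD.jj v‖ * ‖w‖)) v ?_ fun u => ?_
    · exact isClosed_le (((c1.inner continuous_const).sub (c2.inner continuous_const)).abs)
        (continuous_const.mul ((D0.toAD.jj.continuous.norm).mul continuous_const))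
    · refine (dns4 D1).induction_on (p := fun w : D1.toAD.WE =>
        |(⟪Ah P.swap (BW h (cW D0 u)), Ah P.swap w⟫ - ⟪Ah P (cW D0 u), Ah P (BW h.tr w)⟫ : ℝ)| ≤
          K * (‖D0.toAD.jj (cW D0 u)‖ * ‖w‖)) w ?_ fun w => ?_
      · exact isClosed_le (((continuous_const.inner c3).sub (continuous_const.inner c4)).abs)
          (continuous_const.mul (continuous_const.mul continuous_norm))
      · rw [hd, jj_cW]
        exact (hb u w).2

end gen

variable {κ0 κ1 κT : Type} [Fintype κ0] [Fintype κ1] [Fintype κT]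
  {S : SWS M κ0 κ1 κT} {cc : κ1 → κ0 → M → EuclideanSpace ℝ (Fin 4)} {J1 : κ1 → κ1 → M → ℝ}
  {j : JD M κT 4}

theorem Jp (H : Sym S cc) (a b : κ0) (z : M) : ∑ c, S.J a c z * S.D0.p c b z = S.J a b z := by
  rw [H.skewJ a b z, ← H.pJ b a z, ← Finset.sum_neg_distrib]
  refine Finset.sum_congr rfl fun c _ => ?_
  rw [S.D0.symmp c b z, H.skewJ a c z]
  ring

theorem bmap (H : Sym S cc) {θ : κT → M → ℝ} (hθ : SmV (n := 4) θ) :
    BMap S.D0 S.D1 (mth S θ) where
  sm := sm_mth H hθ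
  p1 x y z := by
    unfold mth
    simp only [Finset.mul_sum]
    rw [Finset.sum_comm]
    refine Finset.sum_congr rfl fun A _ => ?_
    rw [← clsec H A x y z, Finset.mul_sum]
    exact Finset.sum_congr rfl fun x' _ => by ring
  p0 x y z := by
    unfold mth
    simp only [Finset.sum_mul]
    rw [Finset.sum_comm]
    refine Finset.sum_congr rfl fun A _ => ?_
    have h1 : ∑ y', S.cl A x y' z * S.D0.p y' y z = S.cl A x y z := by
      simp only [H.cl_eq, Finset.sum_mul]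
      rw [Finset.sum_comm]
      refine Finset.sum_congr rfl fun y'' _ => ?_
      rw [← Jp H y'' y z, Finset.mul_sum]
      exact Finset.sum_congr rfl fun y' _ => by ring
    rw [← h1, Finset.mul_sum]
    exact Finset.sum_congr rfl fun y' _ => by ring

theorem CH_eq (H : Sym S cc) {θ : κT → M → ℝ} (hθ : SmV (n := 4) θ) (f : S.D0.toAD.HE) :
    CH H hθ f = BH (bmap H hθ) f := by
  refine HE_ext ?_
  filter_upwards [coe_CH H hθ f, coe_BH (bmap H hθ) f] with z e1 e2 x
  rw [e1 x, e2 x, ← cm_mth]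
  exact Finset.sum_congr rfl fun y _ => mul_comm _ _

theorem BH_JH (H : Sym S cc) (C : CJ1 S cc J1) {θ : κT → M → ℝ} (hθ : SmV (n := 4) θ)
    (f : S.D0.toAD.HE) : BH (bmap H hθ) (JH (cs0 H) f) = JH (cs1 C) (BH (bmap H hθ) f) := by
  rw [← CH_eq H hθ, ← CH_eq H hθ, CH_JH H C]

theorem BHt_JH (H : Sym S cc) (C : CJ1 S cc J1) {θ : κT → M → ℝ} (hθ : SmV (n := 4) θ)
    (g : S.D1.toAD.HE) :
    BH (bmap H hθ).tr (JH (cs1 C) g) = JH (cs0 H) (BH (bmap H hθ).tr g) := by
  refine ext_inner_left ℝ fun x => ?_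
  have s1 := Cx_172.inner_J_left (JH_JH (cs1 C)) (norm_JH (cs1 C)) (BH (bmap H hθ) x) g
  have s0 := Cx_172.inner_J_left (JH_JH (cs0 H)) (norm_JH (cs0 H)) x (BH (bmap H hθ).tr g)
  rw [← BH_JH H C hθ] at s1
  have a1 := BH_adj (bmap H hθ) x (JH (cs1 C) g)
  have a2 := BH_adj (bmap H hθ) (JH (cs0 H) x) g
  linarith

set_option maxHeartbeats 1000000 in
theorem p2x : Rn_820.P2X := by
  intro M _ _ _ _ _ _ _ _ _ _ _ _ _ κ0 κ1 κT _ _ _ S cc J1 j H C hj a
  obtain ⟨K, hK, hb⟩ := bd_W S.P (bmap H (sm_ei hj a))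
  refine ⟨BH (bmap H (sm_ei hj a)).tr, BW (bmap H (sm_ei hj a)), BW (bmap H (sm_ei hj a)).tr, K,
    ?_, fun f => coe_BH (bmap H (sm_ei hj a)).tr f⟩
  exact
    { adj := fun x y => by
        show (⟪CH H (sm_ei hj a) x, y⟫ : ℝ) = _
        rw [CH_eq]
        exact BH_adj _ x y
      buJ := fun v => by
        apply S.D1.toAD.jj_injective
        show S.D1.toAD.jj (BW (bmap H (sm_ei hj a)) (JW (cs0 H) v)) =
          S.D1.toAD.jj (JW (cs1 C) (BW (bmap H (sm_ei hj a)) v))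
        rw [jj_BW', jj_JW, jj_JW, jj_BW', BH_JH H C (sm_ei hj a)]
      bvJ := fun w => by
        apply S.D0.toAD.jj_injective
        show S.D0.toAD.jj (BW (bmap H (sm_ei hj a)).tr (JW (cs1 C) w)) =
          S.D0.toAD.jj (JW (cs0 H) (BW (bmap H (sm_ei hj a)).tr w))
        rw [jj_BW', jj_JW, jj_JW, jj_BW', BHt_JH H C (sm_ei hj a)]
      jbu := fun v => by
        show S.D1.toAD.jj (BW (bmap H (sm_ei hj a)) v) = CH H (sm_ei hj a) (S.D0.toAD.jj v)
        rw [jj_BW', CH_eq]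
      jbv := fun w => jj_BW' (bmap H (sm_ei hj a)).tr w
      K0 := hK
      q0 := fun v w => by
        rw [Rn_820.D0_eq]
        exact (hb v w).1
      q1 := fun v w => by
        rw [Rn_820.D0_eq]
        exact (hb v w).2 }

end

end Crest.Agent.R235.RcP2_215
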