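import Crest.Agent.R235.SWPfA_435
import Crest.Agent.R235.Cx_172
import Crest.Agent.R235.FamR_151

/-!
Row 235 (S0364), PACKAGE SW, task 449 (helper435): a real family with complex structures gives a `PFam`.

* `RFam b V W V0` : real families `D, Th, U` commuting with complex structures `J, J'`; an injective
  compact map `jj : V → V0` (`J0`, `U0` on `V0`);
* `Φ.X, Φ.Y, Φ.H` : the complex Hilbert spaces; `Φ.toP : PFam b Φ.X Φ.Y`; `Φ.eX, Φ.eY, Φ.eH`;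
* `eX_I, eY_I, eH_I, norm_eY, norm_eH, eY_D, eY_Th, eX_U`, `incl, eH_incl, UH, eH_UH, incl_U`;
* `finrank_ker`, `finrank_coker`.
-/

set_option autoImplicit false
set_option linter.unusedSectionVars false

open scoped ContDiff InnerProductSpace
open Module

namespace Crest.Agent.R235.SWPf_435

open Crest.Agent.R235.Cx_172 Crest.Agent.R235.FamR_151

noncomputable section

/-- real families commuting with the complex structures. -/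
structure RFam (b : ℕ) (V W V0 : Type*) [NormedAddCommGroup V] [InnerProductSpace ℝ V]
    [CompleteSpace V] [NormedAddCommGroup W] [InnerProductSpace ℝ W] [CompleteSpace W]
    [NormedAddCommGroup V0] [InnerProductSpace ℝ V0] [CompleteSpace V0] where
  J : V →L[ℝ] V
  J' : W →L[ℝ] W
  J0 : V0 →L[ℝ] V0
  D : (Fin b → ℝ) → V →L[ℝ] W
  Th : (Fin b → ℝ) → W →L[ℝ] W
  U : (Fin b → ℤ) → V →L[ℝ] V
  jj : V →L[ℝ] V0
  U0 : (Fin b → ℤ) → V0 →L[ℝ] V0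
  hJ : ∀ x, J (J x) = -x
  hJ' : ∀ x, J' (J' x) = -x
  hJ0 : ∀ x, J0 (J0 x) = -x
  hI : ∀ x, ‖J' x‖ = ‖x‖
  hI0 : ∀ x, ‖J0 x‖ = ‖x‖
  D_J : ∀ h x, D h (J x) = J' (D h x)
  Th_J : ∀ h x, Th h (J' x) = J' (Th h x)
  U_J : ∀ k x, U k (J x) = J (U k x)
  jj_J : ∀ x, jj (J x) = J0 (jj x)
  U0_J : ∀ k x, U0 k (J0 x) = J0 (U0 k x)
  jj_inj : Function.Injective jj
  jj_cpt : IsCompactOperator jj
  jj_U : ∀ k x, jj (U k x) = U0 k (jj x)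
  U0_zero : ∀ x, U0 0 x = x
  U0_add : ∀ k l x, U0 (k + l) x = U0 k (U0 l x)
  U0_norm : ∀ k x, ‖U0 k x‖ = ‖x‖
  smD : ContDiff ℝ ∞ D
  smTh : ContDiff ℝ ∞ Th
  Th_zero : ∀ y, Th 0 y = y
  Th_add : ∀ h h' y, Th (h + h') y = Th h (Th h' y)
  Th_norm : ∀ h y, ‖Th h y‖ = ‖y‖
  U_zero : ∀ x, U 0 x = x
  U_add : ∀ k l x, U (k + l) x = U k (U l x)
  D_U : ∀ h k x, D (h + zv k) (U k x) = Th (zv k) (D h x)
  range_closed : ∀ h, IsClosed (Set.range (D h))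
  ker_fin : ∀ h, FiniteDimensional ℝ (LinearMap.ker (D h : V →ₗ[ℝ] W))
  coker_fin : ∀ h, FiniteDimensional ℝ ((LinearMap.range (D h : V →ₗ[ℝ] W))ᗮ : Submodule ℝ W)

namespace RFam

variable {b : ℕ} {V W V0 : Type*} [NormedAddCommGroup V] [InnerProductSpace ℝ V]
    [CompleteSpace V] [NormedAddCommGroup W] [InnerProductSpace ℝ W] [CompleteSpace W]
    [NormedAddCommGroup V0] [InnerProductSpace ℝ V0] [CompleteSpace V0] (Φ : RFam b V W V0)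

/-- the source. -/
def X : Type _ := CX V Φ.J Φ.hJ

/-- the target. -/
def Y : Type _ := CX W Φ.J' Φ.hJ'

/-- the space containing the source. -/
def H : Type _ := CX V0 Φ.J0 Φ.hJ0

instance : NormedAddCommGroup Φ.X := inferInstanceAs (NormedAddCommGroup (CX V Φ.J Φ.hJ))
instance : InnerProductSpace ℂ Φ.X := inferInstanceAs (InnerProductSpace ℂ (CX V Φ.J Φ.hJ))
instance : CompleteSpace Φ.X := inferInstanceAs (CompleteSpace (CX V Φ.J Φ.hJ))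
instance : NormedAddCommGroup Φ.Y := inferInstanceAs (NormedAddCommGroup (CX W Φ.J' Φ.hJ'))
instance : InnerProductSpace ℂ Φ.Y := inferInstanceAs (InnerProductSpace ℂ (CX W Φ.J' Φ.hJ'))
instance : CompleteSpace Φ.Y := inferInstanceAs (CompleteSpace (CX W Φ.J' Φ.hJ'))
instance : NormedAddCommGroup Φ.H := inferInstanceAs (NormedAddCommGroup (CX V0 Φ.J0 Φ.hJ0))
instance : InnerProductSpace ℂ Φ.H := inferInstanceAs (InnerProductSpace ℂ (CX V0 Φ.J0 Φ.hJ0))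
instance : CompleteSpace Φ.H := inferInstanceAs (CompleteSpace (CX V0 Φ.J0 Φ.hJ0))

/-- the real homeomorphism `X ≃ V`. -/
def eX : Φ.X ≃L[ℝ] V := e V Φ.J Φ.hJ

/-- the real homeomorphism `Y ≃ W`. -/
def eY : Φ.Y ≃L[ℝ] W := e W Φ.J' Φ.hJ'

/-- the real homeomorphism `H ≃ V0`. -/
def eH : Φ.H ≃L[ℝ] V0 := e V0 Φ.J0 Φ.hJ0

theorem eX_I (x : Φ.X) : Φ.eX (Complex.I • x) = Φ.J (Φ.eX x) := e_I_smul (hJ := Φ.hJ) x
theorem eY_I (y : Φ.Y) : Φ.eY (Complex.I • y) = Φ.J' (Φ.eY y) := e_I_smul (hJ := Φ.hJ') y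
theorem eH_I (y : Φ.H) : Φ.eH (Complex.I • y) = Φ.J0 (Φ.eH y) := e_I_smul (hJ := Φ.hJ0) y
theorem norm_eY (y : Φ.Y) : ‖Φ.eY y‖ = ‖y‖ := norm_e (hJ := Φ.hJ') Φ.hI y
theorem norm_eH (y : Φ.H) : ‖Φ.eH y‖ = ‖y‖ := norm_e (hJ := Φ.hJ0) Φ.hI0 y

/-- the operator `D h`. -/
def cD (h : Fin b → ℝ) : Φ.X →L[ℂ] Φ.Y :=
  (liftL (Φ.D h) (Φ.D_J h) : CX V Φ.J Φ.hJ →L[ℂ] CX W Φ.J' Φ.hJ')

/-- the operator `Th h`. -/
def cTh (h : Fin b → ℝ) : Φ.Y →L[ℂ] Φ.Y :=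
  (liftL (Φ.Th h) (Φ.Th_J h) : CX W Φ.J' Φ.hJ' →L[ℂ] CX W Φ.J' Φ.hJ')

/-- the operator `U k`. -/
def cU (k : Fin b → ℤ) : Φ.X →L[ℂ] Φ.X :=
  (liftL (Φ.U k) (Φ.U_J k) : CX V Φ.J Φ.hJ →L[ℂ] CX V Φ.J Φ.hJ)

/-- the operator `U0 k`. -/
def UH (k : Fin b → ℤ) : Φ.H →L[ℂ] Φ.H :=
  (liftL (Φ.U0 k) (Φ.U0_J k) : CX V0 Φ.J0 Φ.hJ0 →L[ℂ] CX V0 Φ.J0 Φ.hJ0)

/-- the inclusion. -/
def incl : Φ.X →L[ℂ] Φ.H :=
  (liftL Φ.jj Φ.jj_J : CX V Φ.J Φ.hJ →L[ℂ] CX V0 Φ.J0 Φ.hJ0)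

theorem eY_cD (h : Fin b → ℝ) (x : Φ.X) : Φ.eY (Φ.cD h x) = Φ.D h (Φ.eX x) := rfl
theorem eY_cTh (h : Fin b → ℝ) (y : Φ.Y) : Φ.eY (Φ.cTh h y) = Φ.Th h (Φ.eY y) := rfl
theorem eX_cU (k : Fin b → ℤ) (x : Φ.X) : Φ.eX (Φ.cU k x) = Φ.U k (Φ.eX x) := rfl
theorem eH_UH (k : Fin b → ℤ) (x : Φ.H) : Φ.eH (Φ.UH k x) = Φ.U0 k (Φ.eH x) := rfl
theorem eH_incl (x : Φ.X) : Φ.eH (Φ.incl x) = Φ.jj (Φ.eX x) := rfl

theorem incl_injective : Function.Injective Φ.incl := fun _ _ h =>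
  Φ.eX.injective (Φ.jj_inj (congrArg Φ.eH h))

theorem compact_incl : IsCompactOperator Φ.incl :=
  (isCompactOperator_liftL (hJ := Φ.hJ) (hJ' := Φ.hJ0) Φ.jj_J).2 Φ.jj_cpt

theorem UH_zero : Φ.UH 0 = ContinuousLinearMap.id ℂ Φ.H :=
  ContinuousLinearMap.ext fun x => Φ.eH.injective (Φ.U0_zero (Φ.eH x))

theorem UH_add (k l : Fin b → ℤ) : Φ.UH (k + l) = (Φ.UH k).comp (Φ.UH l) :=
  ContinuousLinearMap.ext fun x => Φ.eH.injective (Φ.U0_add k l (Φ.eH x))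

theorem norm_UH (k : Fin b → ℤ) (x : Φ.H) : ‖Φ.UH k x‖ = ‖x‖ := by
  rw [← Φ.norm_eH, ← Φ.norm_eH x, eH_UH]
  exact Φ.U0_norm k _

/-- **the complex family**. -/
def toP : PFam b Φ.X Φ.Y where
  D := Φ.cD
  Th := Φ.cTh
  U := Φ.cU
  smD := contDiff_liftL (hJ := Φ.hJ) (hJ' := Φ.hJ') Φ.smD Φ.D_J
  smTh := contDiff_liftL (hJ := Φ.hJ') (hJ' := Φ.hJ') Φ.smTh Φ.Th_J
  Th_zero := ContinuousLinearMap.ext fun y => Φ.eY.injective (Φ.Th_zero (Φ.eY y))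
  Th_add h h' := ContinuousLinearMap.ext fun y => Φ.eY.injective (Φ.Th_add h h' (Φ.eY y))
  Th_norm h y := by
    rw [← Φ.norm_eY, ← Φ.norm_eY y, eY_cTh]
    exact Φ.Th_norm h _
  U_zero := ContinuousLinearMap.ext fun x => Φ.eX.injective (Φ.U_zero (Φ.eX x))
  U_add k l := ContinuousLinearMap.ext fun x => Φ.eX.injective (Φ.U_add k l (Φ.eX x))
  D_U h k x := Φ.eY.injective (Φ.D_U h k (Φ.eX x))
  range_closed h :=
    (isClosed_range_liftL (hJ := Φ.hJ) (hJ' := Φ.hJ') (Φ.D_J h)).2 (Φ.range_closed h)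
  ker_fin h := by
    have h1 := ker_liftL (hJ := Φ.hJ) (hJ' := Φ.hJ') (Φ.D_J h)
    have h2 := (finiteDimensional_csub (hJ := Φ.hJ) _ (com_ker (Φ.D_J h))).2 (Φ.ker_fin h)
    rw [← h1] at h2
    exact h2
  coker_fin h := by
    have h1 := range_liftL (hJ := Φ.hJ) (hJ' := Φ.hJ') (Φ.D_J h)
    have h2 := (finiteDimensional_csub (hJ := Φ.hJ') _
      (com_orthogonal Φ.hJ' Φ.hI (com_range (Φ.D_J h)))).2 (Φ.coker_fin h)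
    rw [← orthogonal_csub Φ.hI (hK := com_range (Φ.D_J h)), ← h1] at h2
    exact h2

theorem eY_D (h : Fin b → ℝ) (x : Φ.X) : Φ.eY (Φ.toP.D h x) = Φ.D h (Φ.eX x) := rfl
theorem eY_Th (h : Fin b → ℝ) (y : Φ.Y) : Φ.eY (Φ.toP.Th h y) = Φ.Th h (Φ.eY y) := rfl
theorem eX_U (k : Fin b → ℤ) (x : Φ.X) : Φ.eX (Φ.toP.U k x) = Φ.U k (Φ.eX x) := rfl

/-- the inclusion intertwines `U`. -/
theorem incl_U (k : Fin b → ℤ) (x : Φ.X) : Φ.incl (Φ.toP.U k x) = Φ.UH k (Φ.incl x) :=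
  Φ.eH.injective (Φ.jj_U k (Φ.eX x))

theorem finrank_ker (h : Fin b → ℝ) :
    2 * finrank ℂ (LinearMap.ker (Φ.toP.D h : Φ.X →ₗ[ℂ] Φ.Y)) =
      finrank ℝ (LinearMap.ker (Φ.D h : V →ₗ[ℝ] W)) := by
  have h1 := ker_liftL (hJ := Φ.hJ) (hJ' := Φ.hJ') (Φ.D_J h)
  have h2 := finrank_csub (hJ := Φ.hJ) _ (com_ker (Φ.D_J h))
  rw [← h1] at h2
  exact h2.symm

theorem finrank_coker (h : Fin b → ℝ) :
    2 * finrank ℂ ((LinearMap.range (Φ.toP.D h : Φ.X →ₗ[ℂ] Φ.Y))ᗮ : Submodule ℂ Φ.Y) =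
      finrank ℝ ((LinearMap.range (Φ.D h : V →ₗ[ℝ] W))ᗮ : Submodule ℝ W) := by
  have h1 := range_liftL (hJ := Φ.hJ) (hJ' := Φ.hJ') (Φ.D_J h)
  have h2 := finrank_csub (hJ := Φ.hJ') _ (com_orthogonal Φ.hJ' Φ.hI (com_range (Φ.D_J h)))
  rw [← orthogonal_csub Φ.hI (hK := com_range (Φ.D_J h)), ← h1] at h2
  exact h2.symm

end RFam

end

end Crest.Agent.R235.SWPf_435
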