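import Crest.Agent.R235.SWPfD_435
import Crest.Agent.R235.SWPfG_435

/-!
Row 235 (S0364), PACKAGE SW, task 449 (helper435): **PFX**, the linear Dirac family over the Jacobian
torus as a `PFam` in complex Hilbert spaces.

* `RF H C hj : RFam b S.D0.toAD.WE S.D1.toAD.HE S.D0.toAD.HE` (real data);
  `(RF H C hj).X` = `W^{1,2}(W⁺ ⊗ L)`, `.Y` = `L²(W⁻ ⊗ L)`, `.H` = `L²(W⁺ ⊗ L)`, `.incl`, `.UH`, `.toP`;
* `rep`, `index0`, `index1`, `pfx : PFX`.
-/

set_option autoImplicit false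
set_option maxSynthPendingDepth 3
set_option linter.unusedSectionVars false

open scoped ContDiff ENNReal NNReal Topology Manifold Bundle RealInnerProductSpace
open MeasureTheory Set Filter Metric Bundle Module

universe v

namespace Crest.Agent.R235.SWPf_435

open Crest.Agent.R249.Tv57 Crest.Agent.R247.Ms322 Crest.Agent.R247.Dir593
open Crest.Agent.R247.Frd657
open Crest.Agent.R235.SWSym_451 Crest.Agent.R235.Fs4_546 Crest.Agent.R235.Fred_649
open Crest.Agent.R235.FamR_151 Crest.Agent.R235.SWDefs_53 Crest.Agent.R235.L4_433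
open Crest.Agent.R235.Cpt_755 Crest.Agent.R275 Crest.Agent.R235.SWPfA_435

noncomputable section

section fam

variable {M : Type v} [MetricSpace M] [CompactSpace M] [ConnectedSpace M]
  [ChartedSpace (EuclideanSpace ℝ (Fin 4)) M] [IsManifold (𝓡 4) ∞ M]
  [RiemannianBundle (fun p : M => TangentSpace (𝓡 4) p)]
  [IsContMDiffRiemannianBundle (𝓡 4) ∞ (EuclideanSpace ℝ (Fin 4))
    (fun p : M => TangentSpace (𝓡 4) p)]
  [IsRiemannianManifold (𝓡 4) M] [MeasurableSpace M] [BorelSpace M]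
  [SecondCountableTopology M] [Nonempty M] [IsFiniteMeasureOnCompacts (μHE[4] : Measure M)]
  {κ0 κ1 κT : Type} [Fintype κ0] [Fintype κ1] [Fintype κT]
  {S : SWS M κ0 κ1 κT} {cc : κ1 → κ0 → M → EuclideanSpace ℝ (Fin 4)} {J1 : κ1 → κ1 → M → ℝ}
  {b : ℕ} {j : JD M κT b}

/-- **the real family**. -/
def RF (H : Sym S cc) (C : CJ1 S cc J1) (hj : j.OK S) :
    RFam b S.D0.toAD.WE S.D1.toAD.HE S.D0.toAD.HE where
  J := JW (cs0 H)
  J' := JH (cs1 C)
  J0 := JH (cs0 H)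
  D := DR H hj
  Th := ThR C hj
  U := UR H hj
  jj := S.D0.toAD.jj
  U0 := UH0 H hj
  hJ := JW_JW (cs0 H)
  hJ' := JH_JH (cs1 C)
  hJ0 := JH_JH (cs0 H)
  hI := norm_JH (cs1 C)
  hI0 := norm_JH (cs0 H)
  D_J := DR_JW H C hj
  Th_J := ThR_JH C hj
  U_J := UR_JW H hj
  jj_J := jj_JW (cs0 H)
  U0_J := UH0_JH H hj
  jj_inj := S.D0.toAD.jj_injective
  jj_cpt := S.D0.toAD.compact_jj Swx_333.fried4
  jj_U := jj_UR H hj
  U0_zero := UH0_zero H hj
  U0_add := UH0_add H hj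
  U0_norm := norm_UH0 H hj
  smD := contDiff_DR H hj
  smTh := contDiff_ThR C hj
  Th_zero := ThR_zero C hj
  Th_add := ThR_add C hj
  Th_norm := norm_ThR C hj
  U_zero := UR_zero H hj
  U_add := UR_add H hj
  D_U h k x := (DR_UR H C hj h k x).trans (ThR_zv C hj k _).symm
  range_closed h := (fred_real (fred_DR H hj h)).2.1
  ker_fin h := (fred_real (fred_DR H hj h)).1
  coker_fin h := (fred_real (fred_DR H hj h)).2.2

theorem rank0 (H : Sym S cc) (hj : j.OK S) {d0 : ℕ} (h : Nonempty (KerD S.D0 S.P.A d0)) :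
    finrank ℝ (LinearMap.ker (DR H hj 0 : S.D0.toAD.WE →ₗ[ℝ] S.D1.toAD.HE)) = d0 := by
  obtain ⟨S0⟩ := spec0 H
  rw [DR_zero, finrank_ker (dns4 S.D0) S0]
  exact card_ker S.P S0 h

theorem rank1 (H : Sym S cc) (hj : j.OK S) {d1 : ℕ} (h : Nonempty (KerD S.D1 S.P.B d1)) :
    finrank ℝ ((LinearMap.range (DR H hj 0 : S.D0.toAD.WE →ₗ[ℝ] S.D1.toAD.HE))ᗮ :
      Submodule ℝ S.D1.toAD.HE) = d1 := by
  obtain ⟨S1⟩ := spec1 H
  rw [DR_zero, finrank_coker (dns4 S.D0) (dns4 S.D1) S1]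
  exact card_ker S.P.swap S1 h

theorem index0 (H : Sym S cc) (C : CJ1 S cc J1) (hj : j.OK S) {d0 : ℕ}
    (h : Nonempty (KerD S.D0 S.P.A d0)) :
    2 * finrank ℂ (LinearMap.ker ((RF H C hj).toP.D 0 : (RF H C hj).X →ₗ[ℂ] (RF H C hj).Y)) =
      d0 :=
  ((RF H C hj).finrank_ker 0).trans (rank0 H hj h)

theorem index1 (H : Sym S cc) (C : CJ1 S cc J1) (hj : j.OK S) {d1 : ℕ}
    (h : Nonempty (KerD S.D1 S.P.B d1)) :
    2 * finrank ℂ ((LinearMap.range
      ((RF H C hj).toP.D 0 : (RF H C hj).X →ₗ[ℂ] (RF H C hj).Y))ᗮ :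
      Submodule ℂ (RF H C hj).Y) = d1 :=
  ((RF H C hj).finrank_coker 0).trans (rank1 H hj h)

set_option maxHeartbeats 4000000 in
/-- **the family is represented by** `A + c(2π ∑ h_i al_i) i`. -/
theorem rep (H : Sym S cc) (C : CJ1 S cc J1) (hj : j.OK S) :
    SWDefs_53.Rep S j J1 (RF H C hj).toP (RF H C hj).eX (RF H C hj).eY (phi j) where
  iX x := by
    rw [(RF H C hj).eX_I]
    exact coe_JW (cs0 H) ((RF H C hj).eX x)
  iY f := by
    rw [(RF H C hj).eY_I]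
    exact coe_JH (cs1 C) ((RF H C hj).eY f)
  nY f := (RF H C hj).norm_eY f
  D h x := coe_DR H hj h ((RF H C hj).eX x)
  U k x := coe_UR H hj k ((RF H C hj).eX x)
  mphi i := meas_phi hj i
  bphi i z := abs_phi_le i z
  cphi i z := cos_phi hj i z
  sphi i z := sin_phi hj i z
  Th h f := by
    filter_upwards [coe_ThR C hj h ((RF H C hj).eY f)] with z e1 x
    refine (e1 x).trans ?_
    unfold cv'
    rw [neg_mul, ← sub_eq_add_neg]
    rfl

end fam

/-- **PFX**. -/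
theorem pfx : PFX.{v} := by
  intro M _ _ _ _ _ _ _ _ _ _ _ _ _ κ0 κ1 κT _ _ _ S cc J1 b j H C hj
  exact ⟨(RF H C hj).X, (RF H C hj).Y, inferInstance, inferInstance, inferInstance,
    inferInstance, inferInstance, inferInstance, (RF H C hj).toP, (RF H C hj).eX,
    (RF H C hj).eY, phi j, rep H C hj,
    fun d0 d1 h0 h1 => ⟨index0 H C hj h0, index1 H C hj h1⟩⟩

end

end Crest.Agent.R235.SWPf_435
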