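import Crest.Agent.R235.Fred_649
import Crest.Agent.R235.Weyl3_820
import Crest.Agent.R235.SWPfx_435

/-!
Row 235, block FAM/RC (helper746), for RCMAN (P4): the concrete real facts about the eigensections.

* `pars_HE`, `eig_Ah`, `mu_nonneg`, `gS`, `jj_gS`, `Ah_gS`;
* `inner_NH`, `tendsto_wt` : weights `⟪φ_k, f φ_k⟫` and their limit (`weyl_res`).
-/

set_option autoImplicit false
set_option maxSynthPendingDepth 3
set_option linter.unusedSectionVars false

open scoped ContDiff ENNReal NNReal Topology Manifold Bundle RealInnerProductSpace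
open MeasureTheory Set Filter Metric Bundle

namespace Crest.Agent.R235.RcE_746

open Crest.Agent.R249.Tv57 Crest.Agent.R247.Ms322 Crest.Agent.R247.Dir593
open Crest.Agent.R247.Frd657 Crest.Agent.R202.Sp
open Crest.Agent.R235.Fs4_546 Crest.Agent.R235.Fred_649

noncomputable section

section gen

variable {n : ℕ} {M : Type*} [MetricSpace M] [ChartedSpace (EuclideanSpace ℝ (Fin n)) M]
  [IsManifold (𝓡 n) ∞ M]
  [RiemannianBundle (fun p : M => TangentSpace (𝓡 n) p)]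
  [IsContMDiffRiemannianBundle (𝓡 n) ∞ (EuclideanSpace ℝ (Fin n)) (fun p : M => TangentSpace (𝓡 n) p)]
  [IsRiemannianManifold (𝓡 n) M] [MeasurableSpace M] [BorelSpace M]
  [SecondCountableTopology M] [Nonempty M]
  [CompactSpace M] [IsFiniteMeasureOnCompacts (μHE[n] : Measure M)]
variable {κ κ' : Type} [Fintype κ] [Fintype κ'] {D0 : Dat n M κ} {D1 : Dat n M κ'}

/-- Parseval, bilinear form. -/
theorem pars_HE {D : Dat n M κ} (S : Spec D) (x y : D.toAD.HE) :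
    HasSum (fun k => (⟪cH D (ph S k), x⟫ : ℝ) * ⟪cH D (ph S k), y⟫) ⟪x, y⟫ := by
  have h1 := hasSum_HE S (x + y)
  have h2 := hasSum_HE S (x - y)
  have h3 := (h1.sub h2).mul_left (1 / 4)
  have e1 : (1 / 4 : ℝ) * (‖x + y‖ ^ 2 - ‖x - y‖ ^ 2) = ⟪x, y⟫ := by
    have a1 := norm_add_sq_real x y
    have a2 := norm_sub_sq_real x y
    rw [a1, a2]; ring
  rw [e1] at h3
  refine (congrArg (fun f => HasSum f _) (funext fun k => ?_)).mp h3
  rw [inner_add_left, inner_sub_left, real_inner_comm x, real_inner_comm y]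
  ring

/-- the energy of an eigensection. -/
theorem eig_Ah {P : OpPair D0 D1} (hd : Dns D0) (S : Spec D0) (k : ℕ) (v : D0.toAD.WE) :
    (⟪Ah P v, Ah P (cW D0 (ph S k))⟫ : ℝ) = S.μ k * ⟪D0.toAD.jj v, cH D0 (ph S k)⟫ := by
  rw [real_inner_comm, Ah_eig S hd, jj_cW, real_inner_comm]

theorem mu_nonneg (P : OpPair D0 D1) (hd : Dns D0) (S : Spec D0) (k : ℕ) : 0 ≤ S.μ k := by
  have h := Ah_ortho (P := P) S hd k k
  rw [if_pos rfl] at h
  rw [← h]
  exact real_inner_self_nonneg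

/-- `g_k = B f_k`. -/
def gS (P : OpPair D0 D1) (S1 : Spec D1) (k : ℕ) : D0.toAD.WE := cW D0 (lA P.swap (ph S1 k))

theorem jj_gS {P : OpPair D0 D1} (hd1 : Dns D1) (S1 : Spec D1) (k : ℕ) :
    D0.toAD.jj (gS P S1 k) = Ah P.swap (cW D1 (ph S1 k)) := by
  rw [gS, jj_cW, Ah_cW hd1]

theorem Ah_gS {P : OpPair D0 D1} (hd0 : Dns D0) (hd1 : Dns D1) (S1 : Spec D1) (k : ℕ) :
    Ah P (gS P S1 k) = S1.μ k • cH D1 (ph S1 k) := by
  refine sub_eq_zero.1 (eq_zero_of_coef S1 fun l => ?_)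
  rw [inner_sub_left, real_inner_smul_left, ortho_ph]
  have h1 := adj (P := P) hd0 hd1 (gS P S1 k) (cW D1 (ph S1 l))
  rw [jj_cW] at h1
  rw [h1, jj_gS hd1, Ah_ortho S1 hd1]
  split_ifs <;> simp

end gen

section four

open Crest.Agent.R235.SWPf_435 Crest.Agent.R235.FamR_151 Crest.Agent.R235.L4_433
open Crest.Agent.R235.Cpt_755 Crest.Agent.R275 Crest.Agent.R235.SWPfA_435

variable {M : Type*} [MetricSpace M] [ConnectedSpace M] [ChartedSpace (EuclideanSpace ℝ (Fin 4)) M]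
  [IsManifold (𝓡 4) ∞ M]
  [RiemannianBundle (fun p : M => TangentSpace (𝓡 4) p)]
  [IsContMDiffRiemannianBundle (𝓡 4) ∞ (EuclideanSpace ℝ (Fin 4)) (fun p : M => TangentSpace (𝓡 4) p)]
  [IsRiemannianManifold (𝓡 4) M] [MeasurableSpace M] [BorelSpace M]
  [SecondCountableTopology M] [Nonempty M]
  [CompactSpace M] [IsFiniteMeasureOnCompacts (μHE[4] : Measure M)]
variable {κ : Type} [Fintype κ] {D : Dat 4 M κ}

/-- the weight of an eigensection. -/
theorem inner_wt (S : Spec D) (k : ℕ) {T : D.toAD.HE} {f : M → ℝ}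
    (hT : ∀ᵐ z ∂(μHE[4] : Measure M), ∀ a, rf T a z = f z * S.φ k a z) :
    (⟪cH D (ph S k), T⟫ : ℝ) = ∫ z, f z * ∑ a, S.φ k a z ^ 2 ∂(μHE[4] : Measure M) := by
  have h1 := inner_HH (clH (S.φ k) (S.smooth k)) (T : HH (μHE[4] : Measure M) κ)
    (f := S.φ k) (g := fun a z => f z * S.φ k a z) (coe_clH (S.φ k) (S.smooth k)) hT
  refine h1.trans (integral_congr_ae (Eventually.of_forall fun z => ?_))
  simp only [Finset.mul_sum]
  exact Finset.sum_congr rfl fun a _ => by ring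

theorem inner_NH (S : Spec D) (k : ℕ) {f : M → ℝ} (hf : BM (μHE[4] : Measure M) f) :
    (⟪cH D (ph S k), NH hf (cH D (ph S k))⟫ : ℝ) =
      ∫ z, f z * ∑ a, S.φ k a z ^ 2 ∂(μHE[4] : Measure M) := by
  refine inner_wt S k ?_
  filter_upwards [coe_NH hf (cH D (ph S k)), rf_cH (ph S k)] with z e1 e2 a
  rw [e1 a, e2 a]
  rfl

/-- the limit of the weights. -/
theorem tendsto_wt (S : Spec D) {f : M → ℝ} (hf : Continuous f) {T : D.toAD.HE →L[ℝ] D.toAD.HE}
    (hT : ∀ u : D.toAD.HE, ∀ᵐ z ∂(μHE[4] : Measure M), ∀ a, rf (T u) a z = f z * rf u a z) :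
    Tendsto (fun l : ℝ => l ^ 2 * ∑' k, ((l + S.μ k) ^ 4)⁻¹ *
        (⟪cH D (ph S k), T (cH D (ph S k))⟫ : ℝ)) atTop
      (𝓝 ((96 * Real.pi ^ 2)⁻¹ * ∫ z, f z * ∑ a, D.p a a z ∂(μHE[4] : Measure M))) := by
  have h1 := Weyl_820.weyl_res D S hf
  have h2 : ∀ k, (⟪cH D (ph S k), T (cH D (ph S k))⟫ : ℝ) =
      ∫ z, f z * ∑ a, S.φ k a z ^ 2 ∂(μHE[4] : Measure M) := fun k => by
    refine inner_wt S k ?_
    filter_upwards [hT (cH D (ph S k)), rf_cH (ph S k)] with z e1 e2 a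
    rw [e1 a, e2 a]
    rfl
  simp only [h2]
  exact h1

end four

end

end Crest.Agent.R235.RcE_746
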