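import Crest.Agent.R235.Rn1_820

/-!
Row 235, block FAM/RC (helper820), RC-MAN part 7: commutator data and weights from real data; the
abstract form of `RCMAN`.
-/

set_option autoImplicit false
set_option linter.unusedSectionVars false
set_option maxSynthPendingDepth 3

open scoped InnerProductSpace ContDiff Topology
open Complex Filter

namespace Crest.Agent.R235.Rn_820

open Crest.Agent.R235.Rc0_820 Crest.Agent.R235.RCTr_746 Crest.Agent.R235.Cx_172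
open Crest.Agent.R235.SWPf_435 Crest.Agent.R235.RcX_435 Crest.Agent.R235.Rm_820
open Crest.Agent.R235.FamDefs_307 (pdθ sg ch4)
open Crest.Agent.R235.RCDefs_746 (Base Fam KerF Inf Gr RC)

noncomputable section

section gen

variable {V W V0 V1 : Type*} [NormedAddCommGroup V] [InnerProductSpace ℝ V] [CompleteSpace V]
  [NormedAddCommGroup W] [InnerProductSpace ℝ W] [CompleteSpace W]
  [NormedAddCommGroup V0] [InnerProductSpace ℝ V0] [CompleteSpace V0]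
  [NormedAddCommGroup V1] [InnerProductSpace ℝ V1] [CompleteSpace V1]
  {Φ : RFam 4 V W V0}

/-- real commutator data for `B a`. -/
structure RQ (P : RP Φ V1) (R : RJ Φ) (a : Fin 4) (Bt : W →L[ℝ] V0) (bu : V →L[ℝ] V1)
    (bv : V1 →L[ℝ] V) (K : ℝ) : Prop where
  adj : ∀ x y, ⟪R.B a x, y⟫_ℝ = ⟪x, Bt y⟫_ℝ
  buJ : ∀ v, bu (Φ.J v) = P.J1 (bu v)
  bvJ : ∀ w, bv (P.J1 w) = Φ.J (bv w)
  jbu : ∀ v, P.jj1 (bu v) = R.B a (Φ.jj v)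
  jbv : ∀ w, Φ.jj (bv w) = Bt (P.jj1 w)
  K0 : 0 ≤ K
  q0 : ∀ v w, |⟪P.DB (bu v), P.DB w⟫_ℝ - ⟪Φ.D 0 v, Φ.D 0 (bv w)⟫_ℝ| ≤ K * (‖v‖ * ‖P.jj1 w‖)
  q1 : ∀ v w, |⟪P.DB (bu v), P.DB w⟫_ℝ - ⟪Φ.D 0 v, Φ.D 0 (bv w)⟫_ℝ| ≤ K * (‖Φ.jj v‖ * ‖w‖)

/-- the complex adjoint of `B a`. -/
lemma eH_adj {R : RJ Φ} {a : Fin 4} {Bt : W →L[ℝ] V0} (h : ∀ x y, ⟪R.B a x, y⟫_ℝ = ⟪x, Bt y⟫_ℝ)
    (y : Φ.Y) : Φ.eH (ContinuousLinearMap.adjoint (R.cB a) y) = Bt (Φ.eY y) := by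
  refine ext_inner_left ℝ fun v => ?_
  obtain ⟨x, rfl⟩ := Φ.eH.surjective v
  rw [← re_H, ContinuousLinearMap.adjoint_inner_right, re_Y, R.eY_cB, h]

lemma norm_le_of_re {E : Type*} [NormedAddCommGroup E] [InnerProductSpace ℂ E] {Q : E → ℂ}
    (hQ : ∀ (c : ℂ) w, Q (c • w) = c * Q w) {F : E → ℝ} (hF : ∀ (c : ℂ) w, ‖c‖ = 1 → F (c • w) = F w)
    (h : ∀ w, |(Q w).re| ≤ F w) (w : E) : ‖Q w‖ ≤ F w := by
  by_cases h0 : Q w = 0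
  · rw [h0, norm_zero]
    exact (abs_nonneg _).trans (h w)
  · set c : ℂ := (starRingEnd ℂ) (Q w) / ‖Q w‖ with hc
    have hn : (‖Q w‖ : ℂ) ≠ 0 := by exact_mod_cast (norm_pos_iff.2 h0).ne'
    have h1 : ‖c‖ = 1 := by
      rw [hc, norm_div, RCLike.norm_conj, Complex.norm_real, norm_norm,
        div_self (norm_pos_iff.2 h0).ne']
    have h2 : c * Q w = (‖Q w‖ : ℂ) := by
      rw [hc, div_mul_eq_mul_div, mul_comm, Complex.mul_conj, Complex.normSq_eq_norm_sq]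
      push_cast
      rw [pow_two, mul_div_assoc, div_self hn, mul_one]
    have h3 := h (c • w)
    rw [hQ, h2, Complex.ofReal_re, hF c w h1, abs_of_nonneg (norm_nonneg _)] at h3
    exact h3

variable {P : RP Φ V1} {R : RJ Φ} {a : Fin 4} {Bt : W →L[ℝ] V0} {bu : V →L[ℝ] V1}
  {bv : V1 →L[ℝ] V} {K : ℝ}

/-- the complex multiplication operators. -/
def RQ.cu (h : RQ P R a Bt bu bv K) : Φ.X →L[ℂ] P.X1 :=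
  (liftL bu h.buJ : CX V Φ.J Φ.hJ →L[ℂ] CX V1 P.J1 P.hJ1)

/-- the complex multiplication operators. -/
def RQ.cv (h : RQ P R a Bt bu bv K) : P.X1 →L[ℂ] Φ.X :=
  (liftL bv h.bvJ : CX V1 P.J1 P.hJ1 →L[ℂ] CX V Φ.J Φ.hJ)

lemma RQ.e1_cu (h : RQ P R a Bt bu bv K) (v : Φ.X) : P.e1 (h.cu v) = bu (Φ.eX v) := rfl
lemma RQ.eX_cv (h : RQ P R a Bt bu bv K) (w : P.X1) : Φ.eX (h.cv w) = bv (P.e1 w) := rfl

lemma norm_eX_le (x : Φ.X) : ‖Φ.eX x‖ ≤ 2 * ‖x‖ := norm_e_le (hJ := Φ.hJ) x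

lemma norm_incl (x : Φ.X) : ‖Φ.incl x‖ = ‖Φ.jj (Φ.eX x)‖ := by rw [← Φ.norm_eH, Φ.eH_incl]

/-- the commutator data. -/
theorem RQ.cm (h : RQ P R a Bt bu bv K) :
    CM Φ.incl (Φ.toP.D 0) P.j1 P.D1 (R.cB a) h.cu h.cv (2 * K) where
  C0 := by have := h.K0; positivity
  jB v := by
    refine Φ.eY.injective ?_
    rw [P.eY_j1, h.e1_cu, R.eY_cB, Φ.eH_incl, h.jbu]
  jB' w := by
    refine Φ.eH.injective ?_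
    rw [Φ.eH_incl, h.eX_cv, eH_adj h.adj, P.eY_j1, h.jbv]
  q0 v w := by
    have hK := h.K0
    refine norm_le_of_re (Q := fun w => ⟪P.D1 (h.cu v), P.D1 w⟫_ℂ -
      ⟪Φ.toP.D 0 v, Φ.toP.D 0 (h.cv w)⟫_ℂ) (F := fun w => 2 * K * (‖v‖ * ‖P.j1 w‖)) ?_ ?_ ?_ w
    · intro c w
      show ⟪P.D1 (h.cu v), P.D1 (c • w)⟫_ℂ - ⟪Φ.toP.D 0 v, Φ.toP.D 0 (h.cv (c • w))⟫_ℂ = _
      rw [map_smul, map_smul, map_smul, inner_smul_right, inner_smul_right]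
      ring
    · intro c w hc
      show 2 * K * (‖v‖ * ‖P.j1 (c • w)‖) = _
      rw [map_smul, norm_smul, hc, one_mul]
    · intro w
      show |(⟪P.D1 (h.cu v), P.D1 w⟫_ℂ - ⟪Φ.toP.D 0 v, Φ.toP.D 0 (h.cv w)⟫_ℂ).re| ≤
        2 * K * (‖v‖ * ‖P.j1 w‖)
      rw [Complex.sub_re, re_H, re_Y, P.eH_D1, P.eH_D1, Φ.eY_D, Φ.eY_D, h.e1_cu, h.eX_cv, P.norm_j1]
      refine (h.q0 (Φ.eX v) (P.e1 w)).trans ?_
      have h1 := norm_eX_le v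
      have h2 := norm_nonneg (P.jj1 (P.e1 w))
      calc K * (‖Φ.eX v‖ * ‖P.jj1 (P.e1 w)‖) ≤ K * ((2 * ‖v‖) * ‖P.jj1 (P.e1 w)‖) := by gcongr
        _ = _ := by ring
  q1 v w := by
    have hK := h.K0
    refine norm_le_of_re (Q := fun w => ⟪P.D1 (h.cu v), P.D1 w⟫_ℂ -
      ⟪Φ.toP.D 0 v, Φ.toP.D 0 (h.cv w)⟫_ℂ) (F := fun w => 2 * K * (‖Φ.incl v‖ * ‖w‖)) ?_ ?_ ?_ w
    · intro c w
      show ⟪P.D1 (h.cu v), P.D1 (c • w)⟫_ℂ - ⟪Φ.toP.D 0 v, Φ.toP.D 0 (h.cv (c • w))⟫_ℂ = _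
      rw [map_smul, map_smul, map_smul, inner_smul_right, inner_smul_right]
      ring
    · intro c w hc
      show 2 * K * (‖Φ.incl v‖ * ‖c • w‖) = _
      rw [norm_smul, hc, one_mul]
    · intro w
      show |(⟪P.D1 (h.cu v), P.D1 w⟫_ℂ - ⟪Φ.toP.D 0 v, Φ.toP.D 0 (h.cv w)⟫_ℂ).re| ≤
        2 * K * (‖Φ.incl v‖ * ‖w‖)
      rw [Complex.sub_re, re_H, re_Y, P.eH_D1, P.eH_D1, Φ.eY_D, Φ.eY_D, h.e1_cu, h.eX_cv, norm_incl]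
      refine (h.q1 (Φ.eX v) (P.e1 w)).trans ?_
      have h1 := P.norm_e1_le w
      have h2 := norm_nonneg (Φ.jj (Φ.eX v))
      calc K * (‖Φ.jj (Φ.eX v)‖ * ‖P.e1 w‖) ≤ K * (‖Φ.jj (Φ.eX v)‖ * (2 * ‖w‖)) := by gcongr
        _ = _ := by ring

/-! ### weights -/

/-- `∑ sgn Bt B Bt B` -/
def R0 (B : Fin 4 → V0 →L[ℝ] W) (Bt : Fin 4 → W →L[ℝ] V0) (x : V0) : V0 :=
  ∑ σ : Equiv.Perm (Fin 4), ((Equiv.Perm.sign σ : ℤ) : ℝ) •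
    Bt (σ 0) (B (σ 1) (Bt (σ 2) (B (σ 3) x)))

/-- `∑ sgn B Bt B Bt` -/
def R1 (B : Fin 4 → V0 →L[ℝ] W) (Bt : Fin 4 → W →L[ℝ] V0) (y : W) : W :=
  ∑ σ : Equiv.Perm (Fin 4), ((Equiv.Perm.sign σ : ℤ) : ℝ) •
    B (σ 0) (Bt (σ 1) (B (σ 2) (Bt (σ 3) y)))

lemma eH_smul (r : ℝ) (y : Φ.H) : Φ.eH ((r : ℂ) • y) = r • Φ.eH y := by
  rw [← map_smul]
  rfl

lemma sg_eq (σ : Equiv.Perm (Fin 4)) : (sg σ : ℂ) = ((((Equiv.Perm.sign σ : ℤ) : ℝ)) : ℂ) := by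
  unfold sg; push_cast; rfl

lemma eH_N0 {Bt : Fin 4 → W →L[ℝ] V0} (h : ∀ a x y, ⟪R.B a x, y⟫_ℝ = ⟪x, Bt a y⟫_ℝ) (x : Φ.H) :
    Φ.eH (N0 R.cB x) = R0 R.B Bt (Φ.eH x) := by
  unfold N0 R0
  rw [sum_apply, map_sum]
  refine Finset.sum_congr rfl fun σ _ => ?_
  rw [smul_apply, sg_eq, eH_smul]
  congr 1
  show Φ.eH (ContinuousLinearMap.adjoint (R.cB (σ 0)) (R.cB (σ 1)
    (ContinuousLinearMap.adjoint (R.cB (σ 2)) (R.cB (σ 3) x)))) = _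
  rw [eH_adj (h _), R.eY_cB, eH_adj (h _), R.eY_cB]

lemma eY_N1 {Bt : Fin 4 → W →L[ℝ] V0} (h : ∀ a x y, ⟪R.B a x, y⟫_ℝ = ⟪x, Bt a y⟫_ℝ) (y : Φ.Y) :
    Φ.eY (N1 R.cB y) = R1 R.B Bt (Φ.eY y) := by
  unfold N1 R1
  rw [sum_apply, map_sum]
  refine Finset.sum_congr rfl fun σ _ => ?_
  rw [smul_apply, sg_eq, eY_smul]
  congr 1
  show Φ.eY (R.cB (σ 0) (ContinuousLinearMap.adjoint (R.cB (σ 1)) (R.cB (σ 2)
    (ContinuousLinearMap.adjoint (R.cB (σ 3)) y)))) = _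
  rw [R.eY_cB, eH_adj (h _), R.eY_cB, eH_adj (h _)]

end gen

/-- **RCMAN, abstract form.** -/
theorem final (hRC : RC) {V W V0 V1 : Type} [NormedAddCommGroup V] [InnerProductSpace ℝ V]
    [CompleteSpace V] [NormedAddCommGroup W] [InnerProductSpace ℝ W] [CompleteSpace W]
    [NormedAddCommGroup V0] [InnerProductSpace ℝ V0] [CompleteSpace V0]
    [NormedAddCommGroup V1] [InnerProductSpace ℝ V1] [CompleteSpace V1]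
    {Φ : RFam 4 V W V0} {R : RJ Φ} {P : RP Φ V1} {μ ν : ℕ → ℝ} {e : ℕ → V} {f : ℕ → V1} {g : ℕ → V}
    (E : RE P μ ν e f g) {Bt : Fin 4 → W →L[ℝ] V0} {bu : Fin 4 → V →L[ℝ] V1}
    {bv : Fin 4 → V1 →L[ℝ] V} {K : Fin 4 → ℝ} (hQ : ∀ a, RQ P R a (Bt a) (bu a) (bv a) (K a))
    (hm : Monotone μ) {C : ℝ} (hs : ∀ t : ℝ, 0 < t → Summable fun k => Real.exp (-(t * μ k)))
    (hC : ∀ t ∈ Set.Ioc (0:ℝ) 1, ∑' k, Real.exp (-(t * μ k)) ≤ C / t ^ 2) {w0 w1 : ℕ → ℝ}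
    (h0 : ∀ k, ⟪Φ.jj (e k), R0 R.B Bt (Φ.jj (e k))⟫_ℝ = w0 k)
    (h0' : ∀ k, ⟪Φ.J0 (Φ.jj (e k)), R0 R.B Bt (Φ.jj (e k))⟫_ℝ = 0)
    (h1 : ∀ k, ⟪P.jj1 (f k), R1 R.B Bt (P.jj1 (f k))⟫_ℝ = -(w1 k))
    (h1' : ∀ k, ⟪Φ.J' (P.jj1 (f k)), R1 R.B Bt (P.jj1 (f k))⟫_ℝ = 0) {L0 L1 : ℝ}
    (hL0 : Tendsto (fun l : ℝ => l ^ 2 * ∑' k, ((l + μ k) ^ 4)⁻¹ * w0 k) atTop (𝓝 L0))
    (hL1 : Tendsto (fun l : ℝ => l ^ 2 * ∑' k, ((l + ν k) ^ 4)⁻¹ * w1 k) atTop (𝓝 L1))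
    (U : Submodule ℂ Φ.Y) [FiniteDimensional ℂ U] {n : ℕ} (fr : Φ.toP.Fr U n)
    (hsur : ∀ h, Function.Surjective (Φ.toP.A U h)) :
    ch4 FamDefs_307.tr fr.P = (((L0 + L1) / 4 : ℝ) : ℂ) := by
  have ed := E.ed
  have dp := P.dp R
  have hAJ : RCApp_746.AppJ Φ.incl := appJ ed.eo ed.ep ed.eE hm E.μ0 hs hC
  have hA : ∃ c, App (Cr Φ.incl (Φ.toP.D 0) 1) c (1 / 4) :=
    RCApp_746.app_res R.coer' hAJ (Φ.toP.range_closed 0) (Φ.toP.coker_fin 0)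
  have hBt : ∀ a x y, ⟪R.B a x, y⟫_ℝ = ⟪x, Bt a y⟫_ℝ := fun a => (hQ a).adj
  have hw0 : ∀ k, ⟪Φ.incl (Φ.eX.symm (e k)), N0 R.cB (Φ.incl (Φ.eX.symm (e k)))⟫_ℂ = w0 k := by
    intro k
    refine Complex.ext ?_ ?_
    · rw [re_H, eH_N0 hBt, Φ.eH_incl, Φ.eX.apply_symm_apply, h0, Complex.ofReal_re]
    · rw [im_H, eH_N0 hBt, Φ.eH_incl, Φ.eX.apply_symm_apply, h0', Complex.ofReal_im]
  have hw1 : ∀ k, ⟪P.j1 (P.e1.symm (f k)), N1 R.cB (P.j1 (P.e1.symm (f k)))⟫_ℂ = -(w1 k) := by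
    intro k
    refine Complex.ext ?_ ?_
    · rw [re_Y, eY_N1 hBt, P.eY_j1, P.e1.apply_symm_apply, h1, Complex.neg_re, Complex.ofReal_re]
    · rw [im_Y, eY_N1 hBt, P.eY_j1, P.e1.apply_symm_apply, h1', Complex.neg_im, Complex.ofReal_im,
        neg_zero]
  have hI := inf dp ed hA (fun a => (hQ a).cm) hw0 hw1 hL0 hL1
  obtain ⟨-, -, -, h2⟩ := R.jf.main hRC U hsur fr hA hI
  rw [h2]
  push_cast; ring

end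

end Crest.Agent.R235.Rn_820
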