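import Crest.Agent.R235.RcPt_723
import Crest.Agent.R235.RcE_746
import Crest.Agent.R235.Rn2_820
import Crest.Agent.R235.SWPfx_435

/-!
Row 235 (S0364), block FAM/RC (helper723), leaf (W) of RCMAN: the weights.  `R0` is the
multiplication by `r` and `R1` the one by `- r` (`r = RcR5_723.rr S j`); `L0`, `L1` are the limits
of the weights.
-/

set_option autoImplicit false
set_option maxSynthPendingDepth 3
set_option linter.unusedSectionVars false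

open scoped ContDiff ENNReal NNReal Topology Manifold Bundle InnerProductSpace
open MeasureTheory Set Filter Metric Bundle

universe v

namespace Crest.Agent.R235.RcW_723

open Crest.Agent.R249.Tv57 Crest.Agent.R247.Ms322 Crest.Agent.R247.Dir593
open Crest.Agent.R247.Frd657 Crest.Agent.R202.Sp
open Crest.Agent.R235.SWSym_451 Crest.Agent.R235.Fs4_546 Crest.Agent.R235.Fred_649
open Crest.Agent.R235.FamR_151 Crest.Agent.R235.SWDefs_53 Crest.Agent.R235.L4_433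
open Crest.Agent.R235.Cpt_755 Crest.Agent.R275 Crest.Agent.R235.SWPfA_435
open Crest.Agent.R235.SWPf_435 Crest.Agent.R235.FamTop_307 Crest.Agent.R235.RcR5_723
open Crest.Agent.R235.Rn_820 (R0 R1)
open Crest.Agent.R235.Weyl_820 (wt)

noncomputable section

variable {M : Type v} [MetricSpace M] [CompactSpace M] [ConnectedSpace M]
  [ChartedSpace (EuclideanSpace ℝ (Fin 4)) M] [IsManifold (𝓡 4) ∞ M]
  [RiemannianBundle (fun p : M => TangentSpace (𝓡 4) p)]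
  [IsContMDiffRiemannianBundle (𝓡 4) ∞ (EuclideanSpace ℝ (Fin 4))
    (fun p : M => TangentSpace (𝓡 4) p)]
  [IsRiemannianManifold (𝓡 4) M] [MeasurableSpace M] [BorelSpace M]
  [SecondCountableTopology M] [Nonempty M] [IsFiniteMeasureOnCompacts (μHE[4] : Measure M)]

local notation "μM" => (μHE[4] : Measure M)

theorem rf_sum {κ : Type} [Fintype κ] {D : Dat 4 M κ} {ι : Type} (s : Finset ι)
    (F : ι → D.toAD.HE) :
    ∀ᵐ z ∂μM, ∀ a, rf (∑ i ∈ s, F i) a z = ∑ i ∈ s, rf (F i) a z := by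
  classical
  induction s using Finset.induction_on with
  | empty =>
    rw [ae_all_iff]
    intro a
    simp only [Finset.sum_empty]
    exact Lp.coeFn_zero ℝ 2 μM
  | insert i s hi ih =>
    rw [Finset.sum_insert hi]
    filter_upwards [ih, rf_add (F i) (∑ i ∈ s, F i)] with z e1 e2 a
    rw [e2 a, e1 a, Finset.sum_insert hi]

theorem orth_ae {κ : Type} [Fintype κ] {D : Dat 4 M κ} {J : κ → κ → M → ℝ} (H : CS D J)
    {u T : D.toAD.HE} {r : M → ℝ} (hT : ∀ᵐ z ∂μM, ∀ a, rf T a z = r z * rf u a z) :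
    (⟪JH H u, T⟫_ℝ : ℝ) = 0 := by
  have h1 := inner_HH (JH H u : HH μM κ) (T : HH μM κ)
    (f := fun a z => jv J (fun b => rf u b z) z a) (g := fun a z => r z * rf u a z)
    (coe_JH H u) hT
  refine h1.trans ((integral_congr_ae (Eventually.of_forall fun z => ?_)).trans
    (integral_zero M ℝ))
  show ∑ a, jv J (fun b => rf u b z) z a * (r z * rf u a z) = 0
  have h2 := orth_jv H (fun b => rf u b z) z
  have h3 : ∀ a, jv J (fun b => rf u b z) z a * (r z * rf u a z) =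
      r z * (rf u a z * jv J (fun b => rf u b z) z a) := fun a => by ring
  simp only [h3, ← Finset.mul_sum]
  rw [h2, mul_zero]

variable {κ0 κ1 κT : Type} [Fintype κ0] [Fintype κ1] [Fintype κT]
  {S : SWS M κ0 κ1 κT} {cc : κ1 → κ0 → M → EuclideanSpace ℝ (Fin 4)} {J1 : κ1 → κ1 → M → ℝ}
  {j : JD M κT 4}

theorem mth_eq (a : Fin 4) (x : κ1) (y : κ0) (z : M) : mth S (ei j a) x y z = Bm S j z a x y := by
  show mth S (ei j a) x y z = bJ S j a x y z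
  unfold bJ mth ei
  rw [Finset.mul_sum]
  exact Finset.sum_congr rfl fun A _ => by ring

theorem rf_B (H : Sym S cc) (hj : j.OK S) (a : Fin 4) (f : S.D0.toAD.HE) :
    ∀ᵐ z ∂μM, (fun x => rf (CH H (sm_ei hj a) f) x z) =
      (Bm S j z a).mulVec fun y => rf f y z := by
  filter_upwards [coe_CH H (sm_ei hj a) f] with z e1
  funext x
  rw [e1 x, ← cm_mth]
  exact Finset.sum_congr rfl fun y _ => by rw [mth_eq, mul_comm]

section bt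

variable {Bt : Fin 4 → S.D1.toAD.HE →L[ℝ] S.D0.toAD.HE}
  (hBt : ∀ a f, ∀ᵐ z ∂(μHE[4] : Measure M), ∀ y,
    rf (Bt a f) y z = ∑ x, mth S (ei j a) x y z * rf f x z)
include hBt

theorem rf_Bt (a : Fin 4) (f : S.D1.toAD.HE) :
    ∀ᵐ z ∂μM, (fun y => rf (Bt a f) y z) =
      (Bm S j z a).transpose.mulVec fun x => rf f x z := by
  filter_upwards [hBt a f] with z e1
  funext y
  rw [e1 y]
  exact Finset.sum_congr rfl fun x _ => by rw [mth_eq]; rfl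

variable (H : Sym S cc) (hj : j.OK S)

theorem rf_R0 (u : S.D0.toAD.HE) :
    ∀ᵐ z ∂μM, ∀ y, rf (R0 (fun a => CH H (sm_ei hj a)) Bt u) y z = rr S j z * rf u y z := by
  set B : Fin 4 → S.D0.toAD.HE →L[ℝ] S.D1.toAD.HE := fun a => CH H (sm_ei hj a) with hB
  have h1 : ∀ σ : Equiv.Perm (Fin 4), ∀ᵐ z ∂μM,
      (fun y => rf ((((Equiv.Perm.sign σ : ℤ) : ℝ)) •
        Bt (σ 0) (B (σ 1) (Bt (σ 2) (B (σ 3) u)))) y z) =
      ((((Equiv.Perm.sign σ : ℤ) : ℝ)) • ((Bm S j z (σ 0)).transpose * Bm S j z (σ 1) *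
        (Bm S j z (σ 2)).transpose * Bm S j z (σ 3))).mulVec fun y => rf u y z := by
    intro σ
    filter_upwards [rf_smul (((Equiv.Perm.sign σ : ℤ) : ℝ))
        (Bt (σ 0) (B (σ 1) (Bt (σ 2) (B (σ 3) u)))),
      rf_Bt hBt (σ 0) (B (σ 1) (Bt (σ 2) (B (σ 3) u))),
      rf_B H hj (σ 1) (Bt (σ 2) (B (σ 3) u)), rf_Bt hBt (σ 2) (B (σ 3) u),
      rf_B H hj (σ 3) u] with z e0 e1 e2 e3 e4
    have e5 : (fun y => rf ((((Equiv.Perm.sign σ : ℤ) : ℝ)) •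
        Bt (σ 0) (B (σ 1) (Bt (σ 2) (B (σ 3) u)))) y z) =
        (((Equiv.Perm.sign σ : ℤ) : ℝ)) •
          fun y => rf (Bt (σ 0) (B (σ 1) (Bt (σ 2) (B (σ 3) u)))) y z := funext fun y => e0 y
    rw [e5, e1, e2, e3, e4, Matrix.smul_mulVec, Matrix.mulVec_mulVec, Matrix.mulVec_mulVec,
      Matrix.mulVec_mulVec, Matrix.mul_assoc, Matrix.mul_assoc]
  have h2 : ∀ᵐ z ∂μM, ∀ σ : Equiv.Perm (Fin 4),
      (fun y => rf ((((Equiv.Perm.sign σ : ℤ) : ℝ)) •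
        Bt (σ 0) (B (σ 1) (Bt (σ 2) (B (σ 3) u)))) y z) =
      ((((Equiv.Perm.sign σ : ℤ) : ℝ)) • ((Bm S j z (σ 0)).transpose * Bm S j z (σ 1) *
        (Bm S j z (σ 2)).transpose * Bm S j z (σ 3))).mulVec fun y => rf u y z :=
    ae_all_iff.2 h1
  filter_upwards [rf_sum Finset.univ fun σ : Equiv.Perm (Fin 4) =>
    (((Equiv.Perm.sign σ : ℤ) : ℝ)) • Bt (σ 0) (B (σ 1) (Bt (σ 2) (B (σ 3) u))), h2, sec_rf u]
    with z e1 e2 e3 y
  have e4 : rf (R0 B Bt u) y z = _ := e1 y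
  rw [e4]
  have e5 : (∑ σ : Equiv.Perm (Fin 4), fun y => rf ((((Equiv.Perm.sign σ : ℤ) : ℝ)) •
        Bt (σ 0) (B (σ 1) (Bt (σ 2) (B (σ 3) u)))) y z) =
      (rr S j z • p0m S z).mulVec fun y => rf u y z := by
    rw [Finset.sum_congr rfl fun σ _ => e2 σ, ← Matrix.sum_mulVec, (rr_mat H j z).1]
  have e6 := congrFun e5 y
  rw [Finset.sum_apply] at e6
  rw [e6, Matrix.smul_mulVec]
  show rr S j z * ∑ y', S.D0.p y y' z * rf u y' z = _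
  rw [e3 y]

theorem rf_R1 (w : S.D1.toAD.HE) :
    ∀ᵐ z ∂μM, ∀ x, rf (R1 (fun a => CH H (sm_ei hj a)) Bt w) x z = - rr S j z * rf w x z := by
  set B : Fin 4 → S.D0.toAD.HE →L[ℝ] S.D1.toAD.HE := fun a => CH H (sm_ei hj a) with hB
  have h1 : ∀ σ : Equiv.Perm (Fin 4), ∀ᵐ z ∂μM,
      (fun x => rf ((((Equiv.Perm.sign σ : ℤ) : ℝ)) •
        B (σ 0) (Bt (σ 1) (B (σ 2) (Bt (σ 3) w)))) x z) =
      ((((Equiv.Perm.sign σ : ℤ) : ℝ)) • (Bm S j z (σ 0) * (Bm S j z (σ 1)).transpose *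
        Bm S j z (σ 2) * (Bm S j z (σ 3)).transpose)).mulVec fun x => rf w x z := by
    intro σ
    filter_upwards [rf_smul (((Equiv.Perm.sign σ : ℤ) : ℝ))
        (B (σ 0) (Bt (σ 1) (B (σ 2) (Bt (σ 3) w)))),
      rf_B H hj (σ 0) (Bt (σ 1) (B (σ 2) (Bt (σ 3) w))),
      rf_Bt hBt (σ 1) (B (σ 2) (Bt (σ 3) w)), rf_B H hj (σ 2) (Bt (σ 3) w),
      rf_Bt hBt (σ 3) w] with z e0 e1 e2 e3 e4
    have e5 : (fun x => rf ((((Equiv.Perm.sign σ : ℤ) : ℝ)) •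
        B (σ 0) (Bt (σ 1) (B (σ 2) (Bt (σ 3) w)))) x z) =
        (((Equiv.Perm.sign σ : ℤ) : ℝ)) •
          fun x => rf (B (σ 0) (Bt (σ 1) (B (σ 2) (Bt (σ 3) w)))) x z := funext fun x => e0 x
    rw [e5, e1, e2, e3, e4, Matrix.smul_mulVec, Matrix.mulVec_mulVec, Matrix.mulVec_mulVec,
      Matrix.mulVec_mulVec, Matrix.mul_assoc, Matrix.mul_assoc]
  have h2 : ∀ᵐ z ∂μM, ∀ σ : Equiv.Perm (Fin 4),
      (fun x => rf ((((Equiv.Perm.sign σ : ℤ) : ℝ)) •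
        B (σ 0) (Bt (σ 1) (B (σ 2) (Bt (σ 3) w)))) x z) =
      ((((Equiv.Perm.sign σ : ℤ) : ℝ)) • (Bm S j z (σ 0) * (Bm S j z (σ 1)).transpose *
        Bm S j z (σ 2) * (Bm S j z (σ 3)).transpose)).mulVec fun x => rf w x z :=
    ae_all_iff.2 h1
  filter_upwards [rf_sum Finset.univ fun σ : Equiv.Perm (Fin 4) =>
    (((Equiv.Perm.sign σ : ℤ) : ℝ)) • B (σ 0) (Bt (σ 1) (B (σ 2) (Bt (σ 3) w))), h2, sec_rf w]
    with z e1 e2 e3 x
  have e4 : rf (R1 B Bt w) x z = _ := e1 x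
  rw [e4]
  have e5 : (∑ σ : Equiv.Perm (Fin 4), fun x => rf ((((Equiv.Perm.sign σ : ℤ) : ℝ)) •
        B (σ 0) (Bt (σ 1) (B (σ 2) (Bt (σ 3) w)))) x z) =
      (-rr S j z • p1m S z).mulVec fun x => rf w x z := by
    rw [Finset.sum_congr rfl fun σ _ => e2 σ, ← Matrix.sum_mulVec, (rr_mat H j z).2]
  have e6 := congrFun e5 x
  rw [Finset.sum_apply] at e6
  rw [e6, Matrix.smul_mulVec]
  show -rr S j z * ∑ x', S.D1.p x x' z * rf w x' z = _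
  rw [e3 x]

/-- **(h0)** -/
theorem h0 (S0 : Spec S.D0) (k : ℕ) :
    ⟪cH S.D0 (ph S0 k), R0 (fun a => CH H (sm_ei hj a)) Bt (cH S.D0 (ph S0 k))⟫_ℝ =
      wt S.D0 S0 (rr S j) k := by
  refine RcE_746.inner_wt S0 k ?_
  filter_upwards [rf_R0 hBt H hj (cH S.D0 (ph S0 k)), rf_cH (ph S0 k)] with z e1 e2 a
  rw [e1 a, e2 a]
  rfl

/-- **(h0')** -/
theorem h0' (S0 : Spec S.D0) (k : ℕ) :
    ⟪JH (cs0 H) (cH S.D0 (ph S0 k)),
      R0 (fun a => CH H (sm_ei hj a)) Bt (cH S.D0 (ph S0 k))⟫_ℝ = 0 :=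
  orth_ae (cs0 H) (rf_R0 hBt H hj (cH S.D0 (ph S0 k)))

/-- **(h1)** -/
theorem h1 (S1 : Spec S.D1) (k : ℕ) :
    ⟪cH S.D1 (ph S1 k), R1 (fun a => CH H (sm_ei hj a)) Bt (cH S.D1 (ph S1 k))⟫_ℝ =
      -(wt S.D1 S1 (rr S j) k) := by
  have h2 : ⟪cH S.D1 (ph S1 k), R1 (fun a => CH H (sm_ei hj a)) Bt (cH S.D1 (ph S1 k))⟫_ℝ =
      ∫ z, -rr S j z * ∑ a, S1.φ k a z ^ 2 ∂μM := by
    refine RcE_746.inner_wt S1 k (f := fun z => -rr S j z) ?_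
    filter_upwards [rf_R1 hBt H hj (cH S.D1 (ph S1 k)), rf_cH (ph S1 k)] with z e1 e2 a
    rw [e1 a, e2 a]
    rfl
  rw [h2]
  unfold wt
  rw [← integral_neg]
  exact integral_congr_ae (Eventually.of_forall fun z => neg_mul _ _)

/-- **(h1')** -/
theorem h1' (C : CJ1 S cc J1) (S1 : Spec S.D1) (k : ℕ) :
    ⟪JH (cs1 C) (cH S.D1 (ph S1 k)),
      R1 (fun a => CH H (sm_ei hj a)) Bt (cH S.D1 (ph S1 k))⟫_ℝ = 0 :=
  orth_ae (cs1 C) (r := fun z => -rr S j z) (rf_R1 hBt H hj (cH S.D1 (ph S1 k)))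

end bt

theorem L_aux {κ : Type} [Fintype κ] {D : Dat 4 M κ} (hp : ∀ z, ∑ a, D.p a a z = 4)
    (H : Sym S cc) (hj : j.OK S) (S0 : Spec D) :
    Tendsto (fun l : ℝ => l ^ 2 * ∑' k, ((l + S0.μ k) ^ 4)⁻¹ * wt D S0 (rr S j) k) atTop
      (𝓝 ((96 * Real.pi ^ 2)⁻¹ * numJ S j)) := by
  have h1 := Weyl_820.weyl_res D S0 (f := rr S j) (sm_rr H hj).continuous
  have h2 : ∫ z, rr S j z * ∑ a, D.p a a z ∂μM = numJ S j := by
    simp only [hp]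
    rw [integral_mul_const, numJ_rr, mul_comm]
  rw [h2] at h1
  exact h1

/-- **(L0)** -/
theorem L0 (H : Sym S cc) (hj : j.OK S) (S0 : Spec S.D0) :
    Tendsto (fun l : ℝ => l ^ 2 * ∑' k, ((l + S0.μ k) ^ 4)⁻¹ * wt S.D0 S0 (rr S j) k) atTop
      (𝓝 ((96 * Real.pi ^ 2)⁻¹ * numJ S j)) := L_aux H.rk0 H hj S0

/-- **(L1)** -/
theorem L1 (H : Sym S cc) (hj : j.OK S) (S1 : Spec S.D1) :
    Tendsto (fun l : ℝ => l ^ 2 * ∑' k, ((l + S1.μ k) ^ 4)⁻¹ * wt S.D1 S1 (rr S j) k) atTop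
      (𝓝 ((96 * Real.pi ^ 2)⁻¹ * numJ S j)) := L_aux H.rk1 H hj S1

/-- **(W)**, all six. -/
theorem W (H : Sym S cc) (C : CJ1 S cc J1) (hj : j.OK S) (S0 : Spec S.D0) (S1 : Spec S.D1)
    (Bt : Fin 4 → S.D1.toAD.HE →L[ℝ] S.D0.toAD.HE)
    (hBt : ∀ a f, ∀ᵐ z ∂μM, ∀ y, rf (Bt a f) y z = ∑ x, mth S (ei j a) x y z * rf f x z) :
    ∃ f0 : M → ℝ,
      (∀ k, ⟪cH S.D0 (ph S0 k), R0 (fun a => CH H (sm_ei hj a)) Bt (cH S.D0 (ph S0 k))⟫_ℝ =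
        wt S.D0 S0 f0 k) ∧
      (∀ k, ⟪JH (cs0 H) (cH S.D0 (ph S0 k)),
        R0 (fun a => CH H (sm_ei hj a)) Bt (cH S.D0 (ph S0 k))⟫_ℝ = 0) ∧
      (∀ k, ⟪cH S.D1 (ph S1 k), R1 (fun a => CH H (sm_ei hj a)) Bt (cH S.D1 (ph S1 k))⟫_ℝ =
        -(wt S.D1 S1 f0 k)) ∧
      (∀ k, ⟪JH (cs1 C) (cH S.D1 (ph S1 k)),
        R1 (fun a => CH H (sm_ei hj a)) Bt (cH S.D1 (ph S1 k))⟫_ℝ = 0) ∧
      Tendsto (fun l : ℝ => l ^ 2 * ∑' k, ((l + S0.μ k) ^ 4)⁻¹ * wt S.D0 S0 f0 k) atTop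
        (𝓝 ((96 * Real.pi ^ 2)⁻¹ * numJ S j)) ∧
      Tendsto (fun l : ℝ => l ^ 2 * ∑' k, ((l + S1.μ k) ^ 4)⁻¹ * wt S.D1 S1 f0 k) atTop
        (𝓝 ((96 * Real.pi ^ 2)⁻¹ * numJ S j)) :=
  ⟨rr S j, h0 hBt H hj S0, h0' hBt H hj S0, h1 hBt H hj S1, h1' hBt H hj C S1, L0 H hj S0,
    L1 H hj S1⟩

end

end Crest.Agent.R235.RcW_723
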