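import Crest.Agent.R235.Rn4_820
import Crest.Agent.R235.RcW_723

/-!
Row 235 (S0364), block FAM/RC: `WX` (helper723's `RcW_723.W` in the form of `Rn4_820`), and `RCMAN` from `P2X`.
-/

set_option autoImplicit false
set_option maxSynthPendingDepth 3

namespace Crest.Agent.R235.RcWX_837

theorem wx : Rn_820.WX := by
  intro M _ _ _ _ _ _ _ _ _ _ _ _ _ κ0 κ1 κT _ _ _ S cc J1 j H C hj S0 S1 Bt hBt
  obtain ⟨f0, h⟩ := RcW_723.W H C hj S0 S1 Bt hBt
  exact ⟨_, _, h⟩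

theorem rcman_of (hP : Rn_820.P2X) : FamTop_307.RCMAN.{0} := Rn_820.rcman_of hP wx

end Crest.Agent.R235.RcWX_837
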