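import Crest.Agent.R235.RegCFin_522
import Crest.Agent.R235.Chlcd_4
import Crest.Agent.R235.NWRegF_930

/-!
Row 235 (S0364), helper522: `REGC` (regularity of positive closed currents of density one),
UNCONDITIONAL.
-/

set_option autoImplicit false
set_option maxSynthPendingDepth 3

universe u

namespace Crest.Agent.R235.RegCMain_522

/-- **REGC**. -/
theorem regc : Curves_489.REGC.{u} :=
  RegCFin_522.regc_of Chlcd_4.chlcd NWRegF_930.reg_stmt

end Crest.Agent.R235.RegCMain_522
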