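import Crest.Agent.R235.RegFin_460
import Crest.Agent.R235.NWRegF_930

/-!
Row 235, PACKAGE REG, final statements without hypotheses (helper460): `END`, `BOXLF`, `REGE`,
`REGLOC`.
-/

set_option autoImplicit false

universe u

namespace Crest.Agent.R235.RegMain_460

open Crest.Agent.R235.Reg_522

theorem end_stmt : End.END := End_745.end_of_reg NWRegF_930.reg_stmt

theorem boxlf : BOXLF := RegFin_460.boxlf NWRegF_930.reg_stmt

theorem rege : REGE := RegFin_460.rege NWRegF_930.reg_stmt

/-- **REG (local part)**: a current of density one has a local form at every point. -/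
theorem regloc : REGLOC.{u} := RegFin_460.regloc NWRegF_930.reg_stmt

end Crest.Agent.R235.RegMain_460
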