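import Crest.Agent.R235.Glob8_370
import Crest.Agent.R235.AdjGen_83

/-!
Row 235 (S0364), package ADJ, node JSAME (helper796), part C: **the current of a `J`-curve is
determined by its support** (`cur_unique`).
-/

set_option autoImplicit false
set_option maxSynthPendingDepth 3
set_option linter.unusedSectionVars false

open Set Function Filter MeasureTheory Metric
open scoped Manifold ContDiff Topology

universe u

namespace Crest.Agent.R235.Same_796

open Crest.Agent.R240 Crest.Agent.R240.Ch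
open Crest.Agent.R235 Crest.Agent.R235.Glob_370

noncomputable section

variable {M : Type u} [TopologicalSpace M] [ChartedSpace E4 M] [IsManifold 𝓘(ℝ, E4) ∞ M]
variable {J : EndF E4 M} {S : Set M} {p : M}

/-- the part of the disc `j` of `L` on the disc `k` of `L'`. -/
def DD (L L' : LocForm J S p) (j : Fin L.n) (k : Fin L'.n) : Set ℂ :=
  {z | z ∈ ball (0 : ℂ) 1 ∧ z ≠ 0 ∧ L.u j z ∈ L'.u k '' ball (0 : ℂ) 1}

variable [T2Space M] [LocallyCompactSpace M]

theorem DD_ne (L : LocForm J S p) (j : Fin L.n) {z : ℂ} (hz : z ∈ ball (0 : ℂ) 1) (h0 : z ≠ 0) :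
    L.u j z ≠ p := fun h => h0 (L.at_centre j hz h)

theorem isOpen_DD (L L' : LocForm J S p) (j : Fin L.n) (k : Fin L'.n) : IsOpen (DD L L' j k) := by
  rw [isOpen_iff_mem_nhds]
  rintro z ⟨hz, h0, hk⟩
  have hzU : L.u j z ∈ L'.U := by
    obtain ⟨w, hw, h⟩ := hk
    rw [← h]; exact (L'.maps k hw).2
  obtain ⟨k', r, hr, hrO, hk'⟩ := L'.exists_fac isOpen_ball (L.disc j).hol (L.disc j).inj
    (fun w hw => (L.maps j hw).1) hz hzU
  have hkk : k' = k := by
    by_contra hne
    obtain ⟨w, hw, h⟩ := hk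
    obtain ⟨w', hw', h'⟩ := hk' z (mem_ball_self hr)
    exact DD_ne L j hz h0 (h'.symm.trans (L'.disj' hne hw' hw (h'.trans h.symm)))
  subst hkk
  filter_upwards [isOpen_ball.mem_nhds (mem_ball_self (x := z) hr), isOpen_ne.mem_nhds h0]
    with w hw hw0
  exact ⟨hrO hw, hw0, hk' w hw⟩

/-- the transition map. -/
def tt (L L' : LocForm J S p) (j : Fin L.n) (k : Fin L'.n) (z : ℂ) : ℂ := L'.fac k (L.u j) z

section tt

variable (L L' : LocForm J S p) (j : Fin L.n) (k : Fin L'.n)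

theorem tt_hol_aux : IsJHol J (L.u j) (DD L L' j k) := (L.disc j).hol.mono fun _ hz => hz.1

theorem tt_mem {z : ℂ} (hz : z ∈ DD L L' j k) : tt L L' j k z ∈ ball (0 : ℂ) 1 :=
  L'.fac_mem k (fun w (hw : w ∈ DD L L' j k) => hw.2.2) hz

theorem tt_eq {z : ℂ} (hz : z ∈ DD L L' j k) : L'.u k (tt L L' j k z) = L.u j z :=
  L'.fac_eq k (fun w (hw : w ∈ DD L L' j k) => hw.2.2) hz

theorem tt_diff : DifferentiableOn ℂ (tt L L' j k) (DD L L' j k) :=
  L'.fac_hol k (isOpen_DD L L' j k) (tt_hol_aux L L' j k)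
    ((L.disc j).inj.mono fun _ hz => hz.1) fun _ hw => hw.2.2

theorem tt_inj : InjOn (tt L L' j k) (DD L L' j k) :=
  L'.fac_inj k ((L.disc j).inj.mono fun _ hz => hz.1) fun _ hw => hw.2.2

theorem tt_mem_DD {z : ℂ} (hz : z ∈ DD L L' j k) : tt L L' j k z ∈ DD L' L k j := by
  refine ⟨tt_mem L L' j k hz, fun h0 => ?_, ?_⟩
  · have h1 := tt_eq L L' j k hz
    rw [h0, L'.centre] at h1
    exact DD_ne L j hz.1 hz.2.1 h1.symm
  · rw [tt_eq L L' j k hz]
    exact ⟨z, hz.1, rfl⟩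

theorem tt_tt {z : ℂ} (hz : z ∈ DD L L' j k) : tt L' L k j (tt L L' j k z) = z := by
  have h1 := tt_mem_DD L L' j k hz
  refine (L.disc j).inj (tt_mem L' L k j h1) hz.1 ?_
  rw [tt_eq L' L k j h1, tt_eq L L' j k hz]

theorem tt_image : tt L L' j k '' DD L L' j k = DD L' L k j := by
  ext w
  constructor
  · rintro ⟨z, hz, rfl⟩
    exact tt_mem_DD L L' j k hz
  · intro hw
    exact ⟨tt L' L k j w, tt_mem_DD L' L k j hw, tt_tt L' L k j hw⟩

theorem pb_tt {b : F2 E4 M} (hs : Smooth2 b) {z : ℂ} (hz : z ∈ DD L L' j k) :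
    pb (L.u j) b z = pb (L'.u k) b (tt L L' j k z) * ‖deriv (tt L L' j k) z‖ ^ 2 := by
  have hn := (isOpen_DD L L' j k).mem_nhds hz
  have hev : L.u j =ᶠ[𝓝 z] fun w => L'.u k (tt L L' j k w) := by
    filter_upwards [hn] with w hw using (tt_eq L L' j k hw).symm
  rw [Glob_370.pb_congr hev]
  exact Glob_370.pb_comp hs ((L'.disc k).hol.at isOpen_ball (tt_mem L L' j k hz))
    ((tt_diff L L' j k).differentiableAt hn)

/-- change of variables. -/
theorem int_tt {b : F2 E4 M} (hs : Smooth2 b) :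
    ∫ z in DD L L' j k, pb (L.u j) b z = ∫ z in DD L' L k j, pb (L'.u k) b z := by
  have hm : MeasurableSet (DD L L' j k) := (isOpen_DD L L' j k).measurableSet
  have hder : ∀ z ∈ DD L L' j k, HasFDerivWithinAt (tt L L' j k)
      (ContinuousLinearMap.mul ℝ ℂ (deriv (tt L L' j k) z)) (DD L L' j k) z := by
    intro z hz
    have h1 : HasDerivAt (tt L L' j k) (deriv (tt L L' j k) z) z :=
      ((tt_diff L L' j k).differentiableAt ((isOpen_DD L L' j k).mem_nhds hz)).hasDerivAt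
    have h2 := h1.complexToReal_fderiv.hasFDerivWithinAt (s := DD L L' j k)
    convert h2 using 1
    ext <;> simp
  rw [← tt_image L L' j k, integral_image_eq_integral_abs_det_fderiv_smul volume hm hder
    (tt_inj L L' j k)]
  refine setIntegral_congr_fun hm fun z hz => ?_
  rw [det_mulC, abs_of_nonneg (sq_nonneg _), pb_tt L L' j k hs hz, smul_eq_mul, mul_comm]

end tt

/-- the integral over a disc, split by the discs of the other local form. -/
theorem disc_split (L L' : LocForm J S p) (j : Fin L.n) {K : Set M} (hK : IsCompact K)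
    (hKU : K ⊆ L.U) (hKU' : K ⊆ L'.U) {b : F2 E4 M} (hs : Smooth2 b)
    (hb : ∀ x ∉ K, at2 b x = 0) :
    ∫ z in ball (0 : ℂ) 1, pb (L.u j) b z = ∑ k, ∫ z in DD L L' j k, pb (L.u j) b z := by
  have hint := L.int_pb j hK hKU hs hb
  have hsub : (⋃ k, DD L L' j k) ⊆ ball (0 : ℂ) 1 := iUnion_subset fun k z hz => hz.1
  have h0 : ∀ᵐ z : ℂ, z ∈ ball (0 : ℂ) 1 \ (⋃ k, DD L L' j k) → pb (L.u j) b z = 0 := by
    have h1 : ∀ᵐ z : ℂ, z ≠ 0 := by
      rw [ae_iff]
      have : {a : ℂ | ¬ a ≠ 0} = {0} := by ext a; simp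
      rw [this]; exact measure_singleton 0
    filter_upwards [h1] with z hz0 hz
    refine pb_zero_of (hb _ fun hzK => hz.2 ?_)
    have h2 : L.u j z ∈ S ∩ L'.U := ⟨(L.maps j hz.1).1, hKU' hzK⟩
    rw [L'.supp] at h2
    obtain ⟨k, hk⟩ := mem_iUnion.1 h2
    exact mem_iUnion.2 ⟨k, hz.1, hz0, hk⟩
  rw [setIntegral_eq_of_subset_of_ae_sdiff_eq_zero measurableSet_ball.nullMeasurableSet hsub h0,
    integral_iUnion_fintype]
  · exact fun k => (isOpen_DD L L' j k).measurableSet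
  · intro k k' hkk
    rw [Function.onFun, Set.disjoint_left]
    rintro z ⟨hz, hz0, w, hw, h⟩ ⟨-, -, w', hw', h'⟩
    exact DD_ne L j hz hz0 (h.symm.trans (L'.disj' hkk hw hw' (h.trans h'.symm)))
  · exact fun k => hint.mono_set fun z hz => hz.1

/-- **the local current does not depend on the local form.** -/
theorem disc_sum_eq {S' : Set M} (L : LocForm J S p) (L' : LocForm J S' p) (hSS : S = S')
    {K : Set M} (hK : IsCompact K) (hKU : K ⊆ L.U) (hKU' : K ⊆ L'.U) {b : F2 E4 M}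
    (hs : Smooth2 b) (hb : ∀ x ∉ K, at2 b x = 0) :
    ∑ j, ∫ z in ball (0 : ℂ) 1, pb (L.u j) b z = ∑ k, ∫ z in ball (0 : ℂ) 1, pb (L'.u k) b z := by
  subst hSS
  have e1 : ∑ j, ∫ z in ball (0 : ℂ) 1, pb (L.u j) b z =
      ∑ j, ∑ k, ∫ z in DD L L' j k, pb (L.u j) b z :=
    Finset.sum_congr rfl fun j _ => disc_split L L' j hK hKU hKU' hs hb
  have e2 : ∑ k, ∫ z in ball (0 : ℂ) 1, pb (L'.u k) b z =
      ∑ k, ∑ j, ∫ z in DD L' L k j, pb (L'.u k) b z :=
    Finset.sum_congr rfl fun k _ => disc_split L' L k hK hKU' hKU hs hb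
  rw [e1, e2, Finset.sum_comm]
  exact Finset.sum_congr rfl fun k _ => Finset.sum_congr rfl fun j _ => int_tt L L' j k hs

/-- **two `J`-curves with the same image have the same current.** -/
theorem cur_unique [CompactSpace M] (c c' : JCurve J) (h : range c.f = range c'.f) :
    c.T = c'.T := by
  obtain ⟨t, χ, hχs, hχ1, hχU⟩ := AdjGen_83.exists_pu (fun p => (c.L p).U ∩ (c'.L p).U)
    (fun p => (c.L p).openU.inter (c'.L p).openU) (fun p => ⟨(c.L p).mem, (c'.L p).mem⟩)
  refine LinearMap.ext fun b => ?_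
  have h1 : ∑ p ∈ t, fm (χ p) (hχs p) b = b := by
    apply Subtype.ext
    rw [AddSubmonoidClass.coe_finsetSum]
    funext x
    rw [Finset.sum_apply]
    show ∑ p ∈ t, χ p x • (b.1 : F2 E4 M) x = b.1 x
    rw [← Finset.sum_smul, hχ1, one_smul]
  rw [← h1, map_sum, map_sum]
  refine Finset.sum_congr rfl fun p _ => ?_
  have hz : ∀ x ∉ tsupport (χ p), at2 ((fm (χ p) (hχs p) b).1 : F2 E4 M) x = 0 := by
    intro x hx
    rw [at2_fm, image_eq_zero_of_notMem_tsupport hx, zero_smul]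
  have hK : IsCompact (tsupport (χ p)) := (isClosed_tsupport _).isCompact
  rw [c.cur p _ _ hK ((hχU p).trans inter_subset_left) hz,
    c'.cur p _ _ hK ((hχU p).trans inter_subset_right) hz]
  exact disc_sum_eq (c.L p) (c'.L p) h hK ((hχU p).trans inter_subset_left)
    ((hχU p).trans inter_subset_right) (fm (χ p) (hχs p) b).2 hz

end

end Crest.Agent.R235.Same_796
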