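import Crest.Agent.R235.SwcDefs_34

/-!
Row 235, SWC-AN leaf L4: the quadratic box inequality `BOX` from `PSID`, `NEARINT`, `GNS2`, `GRADF`.
-/

set_option autoImplicit false
set_option maxSynthPendingDepth 3

open Set MeasureTheory Filter Topology
open scoped ContDiff

namespace Crest.Agent.R235.SwcBox_193

open Crest.Agent.R235.SwcDefs_34

noncomputable section

/-! ### the cut-off -/

lemma hh_contDiff : ContDiff ℝ ∞ hh := by
  unfold hh
  exact (Real.smoothTransition.contDiff.comp (contDiff_const.sub contDiff_id)).mul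
    (Real.smoothTransition.contDiff.comp (contDiff_const.add contDiff_id))

lemma hh_cont : Continuous hh := hh_contDiff.continuous

lemma hh_neg (x : ℝ) : hh (-x) = hh x := by
  unfold hh
  rw [mul_comm]
  congr 2
  ring

lemma hh_nonneg (x : ℝ) : 0 ≤ hh x :=
  mul_nonneg (Real.smoothTransition.nonneg _) (Real.smoothTransition.nonneg _)

lemma hh_le_one (x : ℝ) : hh x ≤ 1 :=
  mul_le_one₀ (Real.smoothTransition.le_one _) (Real.smoothTransition.nonneg _)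
    (Real.smoothTransition.le_one _)

lemma hh_one {x : ℝ} (h1 : -1 ≤ x) (h2 : x ≤ 1) : hh x = 1 := by
  unfold hh
  rw [Real.smoothTransition.one_of_one_le (by linarith),
    Real.smoothTransition.one_of_one_le (by linarith), one_mul]

lemma hh_zero {x : ℝ} (h : 2 ≤ |x|) : hh x = 0 := by
  unfold hh
  rcases le_abs.1 h with h | h
  · rw [Real.smoothTransition.zero_of_nonpos (by linarith : 2 - x ≤ 0), zero_mul]
  · rw [Real.smoothTransition.zero_of_nonpos (by linarith : 2 + x ≤ 0), mul_zero]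

/-- the square of the cut-off at scale `s`. -/
def ww (s x : ℝ) : ℝ := hh (x / s) ^ 2

lemma ww_contDiff (s : ℝ) : ContDiff ℝ ∞ (ww s) := by
  unfold ww
  exact (hh_contDiff.comp (contDiff_id.div_const s)).pow 2

lemma ww_neg (s x : ℝ) : ww s (-x) = ww s x := by
  unfold ww
  rw [neg_div, hh_neg]

lemma ww_one {s x : ℝ} (hs : 0 < s) (h1 : -s ≤ x) (h2 : x ≤ s) : ww s x = 1 := by
  unfold ww
  rw [hh_one, one_pow]
  · rw [le_div_iff₀ hs]; linarith
  · rw [div_le_iff₀ hs]; linarith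

lemma ww_two {s : ℝ} (hs : 0 < s) : ww s (2 * s) = 0 := by
  unfold ww
  rw [hh_zero]
  · norm_num
  · rw [mul_div_assoc, div_self hs.ne', mul_one, abs_of_pos (by norm_num : (0 : ℝ) < 2)]

/-- the derivative of the squared cut-off is bounded. -/
lemma exists_ww : ∃ C : ℝ, 0 < C ∧ ∀ s : ℝ, 0 < s → ∀ x, |deriv (ww s) x| ≤ C / s := by
  have hc : Continuous (deriv (fun x => hh x ^ 2)) :=
    (hh_contDiff.pow 2).continuous_deriv (by simp)
  have hsup : HasCompactSupport (deriv (fun x => hh x ^ 2)) := by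
    apply HasCompactSupport.deriv
    apply HasCompactSupport.intro (isCompact_Icc (a := (-2 : ℝ)) (b := 2))
    intro x hx
    rw [hh_zero, zero_pow (by norm_num)]
    by_contra h
    rw [not_le, abs_lt] at h
    exact hx ⟨h.1.le, h.2.le⟩
  obtain ⟨C, hC⟩ := hsup.exists_bound_of_continuous hc
  refine ⟨max C 1, lt_max_of_lt_right one_pos, fun s hs x => ?_⟩
  have h1 : HasDerivAt (ww s) (deriv (fun x => hh x ^ 2) (x / s) * (1 / s)) x := by
    have h2 : HasDerivAt (fun x => hh x ^ 2) (deriv (fun x => hh x ^ 2) (x / s)) (x / s) :=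
      (((hh_contDiff.pow 2).differentiable (by simp)) _).hasDerivAt
    have h3 : HasDerivAt (fun x : ℝ => x / s) (1 / s) x := (hasDerivAt_id x).div_const s
    exact h2.comp x h3
  rw [h1.deriv, abs_mul, abs_of_pos (by positivity : (0 : ℝ) < 1 / s), mul_one_div]
  gcongr
  exact (hC _).trans (le_max_left _ _)

/-! ### layer cake -/

lemma cont_pm {X : Type*} [TopologicalSpace X] (g : X → ℝ → ℝ)
    (hg : Continuous (Function.uncurry g)) (a b : X → ℝ) (ha : Continuous a) (hb : Continuous b) :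
    Continuous fun x => ∫ t in (a x)..(b x), g x t := by
  have h1 : ∀ x, ∫ t in (a x)..(b x), g x t = (∫ t in (0)..(b x), g x t) -
      ∫ t in (0)..(a x), g x t := by
    intro x
    have hx : Continuous (g x) := hg.uncurry_left x
    exact (intervalIntegral.integral_interval_sub_left (hx.intervalIntegrable _ _)
      (hx.intervalIntegrable _ _)).symm
  simp_rw [h1]
  exact (intervalIntegral.continuous_parametric_intervalIntegral_of_continuous hg hb).sub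
    (intervalIntegral.continuous_parametric_intervalIntegral_of_continuous hg ha)

lemma lay {s : ℝ} (hs : 0 < s) (G : ℝ → ℝ) (hG : Continuous G) :
    ∫ x in (-(2 * s))..(2 * s), ww s x * G x =
      ∫ ρ in s..(2 * s), -(deriv (ww s) ρ) * ∫ x in (-ρ)..ρ, G x := by
  have hw : Continuous (ww s) := (ww_contDiff s).continuous
  have hw' : Continuous (deriv (ww s)) := (ww_contDiff s).continuous_deriv (by simp)
  have hi : ∀ a b : ℝ, IntervalIntegrable (fun x => ww s x * G x) volume a b :=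
    fun a b => (hw.mul hG).intervalIntegrable a b
  have e1 : ∫ x in (-(2 * s))..(2 * s), ww s x * G x =
      (∫ x in (-(2 * s))..(-s), ww s x * G x) + (∫ x in (-s)..s, ww s x * G x) +
        ∫ x in s..(2 * s), ww s x * G x := by
    rw [intervalIntegral.integral_add_adjacent_intervals (hi _ _) (hi _ _),
      intervalIntegral.integral_add_adjacent_intervals (hi _ _) (hi _ _)]
  have e2 : ∫ x in (-(2 * s))..(-s), ww s x * G x = ∫ x in s..(2 * s), ww s x * G (-x) := by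
    rw [← intervalIntegral.integral_comp_neg (fun x => ww s x * G x)]
    apply intervalIntegral.integral_congr
    intro x _
    simp only [ww_neg]
  have e3 : ∫ x in (-s)..s, ww s x * G x = ∫ x in (-s)..s, G x := by
    apply intervalIntegral.integral_congr
    intro x hx
    rw [uIcc_of_le (by linarith)] at hx
    simp only [ww_one hs hx.1 hx.2, one_mul]
  have hPhi : ∀ x, HasDerivAt (fun ρ => ∫ x in (-ρ)..ρ, G x) (G x + G (-x)) x := by
    intro x
    have h1 : ∀ ρ : ℝ, ∫ x in (-ρ)..ρ, G x = (∫ x in (0)..ρ, G x) - ∫ x in (0)..(-ρ), G x :=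
      fun ρ => (intervalIntegral.integral_interval_sub_left (hG.intervalIntegrable _ _)
        (hG.intervalIntegrable _ _)).symm
    simp_rw [h1]
    have h2 : HasDerivAt (fun ρ => ∫ x in (0)..ρ, G x) (G x) x :=
      intervalIntegral.integral_hasDerivAt_right (hG.intervalIntegrable _ _)
        (hG.stronglyMeasurableAtFilter _ _) hG.continuousAt
    have h3 : HasDerivAt (fun ρ => ∫ x in (0)..ρ, G x) (G (-x)) (-x) :=
      intervalIntegral.integral_hasDerivAt_right (hG.intervalIntegrable _ _)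
        (hG.stronglyMeasurableAtFilter _ _) hG.continuousAt
    have h4 : HasDerivAt (fun ρ => ∫ x in (0)..(-ρ), G x) (G (-x) * -1) x :=
      h3.comp x (hasDerivAt_neg x)
    have e : G x + G (-x) = G x - G (-x) * -1 := by ring
    rw [e]
    exact h2.sub h4
  have e4 : ∫ x in s..(2 * s), ww s x * (G x + G (-x)) =
      ww s (2 * s) * (∫ x in (-(2 * s))..(2 * s), G x) - ww s s * (∫ x in (-s)..s, G x) -
        ∫ x in s..(2 * s), deriv (ww s) x * ∫ y in (-x)..x, G y := by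
    have hcP : Continuous fun ρ => ∫ x in (-ρ)..ρ, G x :=
      cont_pm (fun _ t => G t) (hG.comp continuous_snd) _ _ continuous_neg continuous_id
    exact intervalIntegral.integral_mul_deriv_eq_deriv_mul_of_hasDerivAt
      hw.continuousOn hcP.continuousOn
      (fun x _ => (((ww_contDiff s).differentiable (by simp)) x).hasDerivAt)
      (fun x _ => hPhi x) (hw'.intervalIntegrable _ _)
      ((hG.add (hG.comp continuous_neg)).intervalIntegrable _ _)
  have e5 : ∫ x in s..(2 * s), ww s x * (G x + G (-x)) =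
      (∫ x in s..(2 * s), ww s x * G x) + ∫ x in s..(2 * s), ww s x * G (-x) := by
    have hi2 : IntervalIntegrable (fun x => ww s x * G (-x)) volume s (2 * s) :=
      (hw.mul (hG.comp continuous_neg)).intervalIntegrable _ _
    rw [← intervalIntegral.integral_add (hi _ _) hi2]
    apply intervalIntegral.integral_congr
    intro x _
    ring
  have e6 : ∫ ρ in s..(2 * s), -(deriv (ww s) ρ) * ∫ x in (-ρ)..ρ, G x =
      -∫ x in s..(2 * s), deriv (ww s) x * ∫ y in (-x)..x, G y := by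
    rw [← intervalIntegral.integral_neg]
    apply intervalIntegral.integral_congr
    intro x _
    simp only [neg_mul]
  rw [e6, e1, e2, e3]
  rw [ww_two hs, ww_one hs (by linarith) le_rfl, e5] at e4
  linarith

/-! ### two dimensional layer cake -/

/-- the flux of a function. -/
def fl (k : V4 → ℝ) (ρ : ℝ × ℝ) (τ : ℝ × ℝ) : ℝ :=
  ∫ x in (-ρ.1)..ρ.1, ∫ y in (-ρ.2)..ρ.2, k ((x, y), τ)

lemma fl_cont (k : V4 → ℝ) (hk : Continuous k) :
    Continuous (fun q : (ℝ × ℝ) × (ℝ × ℝ) => fl k q.1 q.2) := by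
  unfold fl
  refine cont_pm (fun (q : (ℝ × ℝ) × (ℝ × ℝ)) x => ∫ y in (-q.1.2)..q.1.2, k ((x, y), q.2)) ?_ _ _
    (by fun_prop) (by fun_prop)
  exact cont_pm (fun (z : ((ℝ × ℝ) × (ℝ × ℝ)) × ℝ) y => k ((z.2, y), z.1.2)) (by fun_prop) _ _
    (by fun_prop) (by fun_prop)

lemma iter_eq (g : ℝ × ℝ → ℝ) (hg : Continuous g) {a b c d : ℝ} (hab : a ≤ b) (hcd : c ≤ d) :
    ∫ x in a..b, ∫ y in c..d, g (x, y) = ∫ p in Icc a b ×ˢ Icc c d, g p := by
  rw [Measure.volume_eq_prod, setIntegral_prod g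
    (hg.continuousOn.integrableOn_compact (isCompact_Icc.prod isCompact_Icc))]
  rw [intervalIntegral.integral_of_le hab, integral_Icc_eq_integral_Ioc]
  apply integral_congr_ae
  refine Eventually.of_forall fun x => ?_
  simp only
  rw [intervalIntegral.integral_of_le hcd, integral_Icc_eq_integral_Ioc]

lemma lay2 {s : ℝ} (hs : 0 < s) (f : ℝ × ℝ → ℝ) (hf : Continuous f) :
    ∫ x in (-(2 * s))..(2 * s), ∫ y in (-(2 * s))..(2 * s), ww s x * ww s y * f (x, y) =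
      ∫ ρ₁ in s..(2 * s), ∫ ρ₂ in s..(2 * s), deriv (ww s) ρ₁ * deriv (ww s) ρ₂ *
        ∫ x in (-ρ₁)..ρ₁, ∫ y in (-ρ₂)..ρ₂, f (x, y) := by
  have hw : Continuous (ww s) := (ww_contDiff s).continuous
  have hw' : Continuous (deriv (ww s)) := (ww_contDiff s).continuous_deriv (by simp)
  have hK : Continuous (fun q : ℝ × ℝ => ∫ y in (-q.2)..q.2, f (q.1, y)) :=
    cont_pm (fun (q : ℝ × ℝ) y => f (q.1, y)) (by fun_prop) _ _ (by fun_prop) (by fun_prop)
  have hH : Continuous (fun x : ℝ => ∫ ρ in s..(2 * s), -(deriv (ww s) ρ) *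
      ∫ y in (-ρ)..ρ, f (x, y)) := by
    refine cont_pm (fun (x : ℝ) ρ => -(deriv (ww s) ρ) * ∫ y in (-ρ)..ρ, f (x, y)) ?_ _ _
      continuous_const continuous_const
    exact ((hw'.comp continuous_snd).neg).mul hK
  have e1 : ∫ x in (-(2 * s))..(2 * s), ∫ y in (-(2 * s))..(2 * s), ww s x * ww s y * f (x, y) =
      ∫ x in (-(2 * s))..(2 * s), ww s x * ∫ ρ in s..(2 * s), -(deriv (ww s) ρ) *
        ∫ y in (-ρ)..ρ, f (x, y) := by
    apply intervalIntegral.integral_congr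
    intro x _
    simp only
    rw [← lay hs (fun y => f (x, y)) (by fun_prop), ← intervalIntegral.integral_const_mul]
    apply intervalIntegral.integral_congr
    intro y _
    simp only [mul_assoc]
  rw [e1, lay hs _ hH]
  apply intervalIntegral.integral_congr
  intro ρ₁ _
  simp only
  rw [intervalIntegral_intervalIntegral_swap (F := fun x ρ => -(deriv (ww s) ρ) *
    ∫ y in (-ρ)..ρ, f (x, y)), ← intervalIntegral.integral_const_mul]
  · apply intervalIntegral.integral_congr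
    intro ρ₂ _
    simp only
    rw [intervalIntegral.integral_const_mul]
    ring
  · have hc : Continuous (Function.uncurry fun x ρ => -(deriv (ww s) ρ) *
        ∫ y in (-ρ)..ρ, f (x, y)) := ((hw'.comp continuous_snd).neg).mul hK
    exact (hc.continuousOn.integrableOn_compact (isCompact_uIcc.prod isCompact_uIcc)).mono_set
      (prod_mono uIoc_subset_uIcc uIoc_subset_uIcc)

/-- the square of the radii. -/
def R2 (s : ℝ) : Set (ℝ × ℝ) := Icc s (2 * s) ×ˢ Icc s (2 * s)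

/-- the square of half side `2 s`. -/
def Q2 (s : ℝ) : Set (ℝ × ℝ) := Metric.closedBall 0 (2 * s)

lemma R2_compact (s : ℝ) : IsCompact (R2 s) := isCompact_Icc.prod isCompact_Icc

lemma Q2_compact (s : ℝ) : IsCompact (Q2 s) := isCompact_closedBall _ _

lemma Q2_eq (s : ℝ) : Q2 s = Icc (-(2 * s)) (2 * s) ×ˢ Icc (-(2 * s)) (2 * s) := by
  unfold Q2
  rw [show (0 : ℝ × ℝ) = ((0 : ℝ), (0 : ℝ)) from rfl, ← closedBall_prod_same, Real.closedBall_eq_Icc]
  simp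

lemma cube_eq (s : ℝ) : Metric.closedBall (0 : V4) (2 * s) = Q2 s ×ˢ Q2 s := by
  unfold Q2
  rw [show (0 : V4) = ((0 : ℝ × ℝ), (0 : ℝ × ℝ)) from rfl, ← closedBall_prod_same]

/-- integrals over the cube. -/
lemma int_cube (f : V4 → ℝ) (hf : Continuous f) (s : ℝ) :
    ∫ p in Metric.closedBall (0 : V4) (2 * s), f p = ∫ τ in Q2 s, ∫ x in Q2 s, f (x, τ) := by
  rw [cube_eq, Measure.volume_eq_prod, setIntegral_prod f
    (hf.continuousOn.integrableOn_compact ((Q2_compact s).prod (Q2_compact s)))]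
  apply integral_integral_swap
  rw [Measure.prod_restrict, ← Measure.volume_eq_prod]
  exact hf.continuousOn.integrableOn_compact ((Q2_compact s).prod (Q2_compact s))

/-- swapping two compact parameter sets. -/
lemma swap2 {A B : Set (ℝ × ℝ)} (hA : IsCompact A) (hB : IsCompact B)
    (f : (ℝ × ℝ) → (ℝ × ℝ) → ℝ) (hf : Continuous (Function.uncurry f)) :
    ∫ x in A, ∫ y in B, f x y = ∫ y in B, ∫ x in A, f x y := by
  apply integral_integral_swap
  rw [Measure.prod_restrict, ← Measure.volume_eq_prod]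
  exact hf.continuousOn.integrableOn_compact (hA.prod hB)

lemma int_inner {A B : Set (ℝ × ℝ)} (hA : IsCompact A) (hB : IsCompact B)
    (f : (ℝ × ℝ) → (ℝ × ℝ) → ℝ) (hf : Continuous (Function.uncurry f)) :
    IntegrableOn (fun y => ∫ x in A, f x y) B := by
  have h : Integrable (Function.uncurry f) ((volume.restrict A).prod (volume.restrict B)) := by
    rw [Measure.prod_restrict, ← Measure.volume_eq_prod]
    exact hf.continuousOn.integrableOn_compact (hA.prod hB)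
  exact h.integral_prod_right

lemma int_Q2 (g : ℝ × ℝ → ℝ) (hg : Continuous g) {s : ℝ} (hs : 0 < s) :
    ∫ x in Q2 s, g x = ∫ x in (-(2 * s))..(2 * s), ∫ y in (-(2 * s))..(2 * s), g (x, y) := by
  rw [Q2_eq, iter_eq g hg (by linarith) (by linarith)]

lemma lay2_le {C : ℝ} (hC : ∀ s : ℝ, 0 < s → ∀ x, |deriv (ww s) x| ≤ C / s) {s : ℝ} (hs : 0 < s)
    (k : V4 → ℝ) (hk : Continuous k) (τ : ℝ × ℝ) :
    |∫ x in Q2 s, ww s x.1 * ww s x.2 * k (x, τ)| ≤
      (C / s) ^ 2 * ∫ ρ in R2 s, |fl k ρ τ| := by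
  have hw : Continuous (ww s) := (ww_contDiff s).continuous
  have hw' : Continuous (deriv (ww s)) := (ww_contDiff s).continuous_deriv (by simp)
  have hfl : Continuous (fun ρ => fl k ρ τ) := (fl_cont k hk).comp (by fun_prop : Continuous
    fun ρ : ℝ × ℝ => (ρ, τ))
  have hint : ∀ g : ℝ × ℝ → ℝ, Continuous g → IntegrableOn g (R2 s) :=
    fun g hg => hg.continuousOn.integrableOn_compact (R2_compact s)
  have e := iter_eq (fun ρ => deriv (ww s) ρ.1 * deriv (ww s) ρ.2 * fl k ρ τ)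
      (((hw'.comp continuous_fst).mul (hw'.comp continuous_snd)).mul hfl)
      (by linarith : s ≤ 2 * s) (by linarith : s ≤ 2 * s)
  rw [int_Q2 _ (by fun_prop) hs, lay2 hs (fun x => k (x, τ)) (by fun_prop)]
  change |∫ ρ₁ in s..(2 * s), ∫ ρ₂ in s..(2 * s), deriv (ww s) ρ₁ * deriv (ww s) ρ₂ *
    fl k (ρ₁, ρ₂) τ| ≤ _
  rw [e]
  change |∫ ρ in R2 s, deriv (ww s) ρ.1 * deriv (ww s) ρ.2 * fl k ρ τ| ≤ _
  rw [← integral_const_mul]
  refine (abs_integral_le_integral_abs).trans ?_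
  refine integral_mono
    (hint _ (((hw'.comp continuous_fst).mul (hw'.comp continuous_snd)).mul hfl).abs)
    ((hint _ hfl.abs).const_mul _) ?_
  intro ρ
  simp only [abs_mul]
  have h1 := hC s hs ρ.1
  have h2 := hC s hs ρ.2
  have h3 : |deriv (ww s) ρ.1| * |deriv (ww s) ρ.2| ≤ (C / s) ^ 2 := by
    rw [pow_two]
    exact mul_le_mul h1 h2 (abs_nonneg _) ((abs_nonneg _).trans h1)
  exact mul_le_mul_of_nonneg_right h3 (abs_nonneg _)

/-! ### the average of the boundary integrals -/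

/-- the boundary integral of `h` over the boundary of the rectangle `ρ` at `τ`. -/
def bd (h : V4 → ℝ) (ρ τ : ℝ × ℝ) : ℝ := bdF (fun x => h (x, τ)) (-ρ.1) ρ.1 (-ρ.2) ρ.2

lemma bd_cont (h : V4 → ℝ) (hh : Continuous h) :
    Continuous (fun q : (ℝ × ℝ) × (ℝ × ℝ) => bd h q.1 q.2) := by
  unfold bd bdF
  refine Continuous.add ?_ ?_
  · exact cont_pm (fun (q : (ℝ × ℝ) × (ℝ × ℝ)) x => h ((x, -q.1.2), q.2) + h ((x, q.1.2), q.2))
      (by fun_prop) _ _ (by fun_prop) (by fun_prop)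
  · exact cont_pm (fun (q : (ℝ × ℝ) × (ℝ × ℝ)) y => h ((q.1.1, y), q.2) + h ((-q.1.1, y), q.2))
      (by fun_prop) _ _ (by fun_prop) (by fun_prop)

lemma bdF_nonneg (f : ℝ × ℝ → ℝ) (h0 : ∀ x, 0 ≤ f x) {a1 b1 a2 b2 : ℝ} (h1 : a1 ≤ b1)
    (h2 : a2 ≤ b2) : 0 ≤ bdF f a1 b1 a2 b2 := by
  unfold bdF
  exact add_nonneg (intervalIntegral.integral_nonneg h1 fun _ _ => add_nonneg (h0 _) (h0 _))
    (intervalIntegral.integral_nonneg h2 fun _ _ => add_nonneg (h0 _) (h0 _))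

lemma bdF_mono (f g : ℝ × ℝ → ℝ) (hf : Continuous f) (hg : Continuous g) (h0 : ∀ x, f x ≤ g x)
    {a1 b1 a2 b2 : ℝ} (h1 : a1 ≤ b1) (h2 : a2 ≤ b2) :
    bdF f a1 b1 a2 b2 ≤ bdF g a1 b1 a2 b2 := by
  unfold bdF
  refine add_le_add (intervalIntegral.integral_mono_on h1 ?_ ?_ ?_)
    (intervalIntegral.integral_mono_on h2 ?_ ?_ ?_)
  · exact (by fun_prop : Continuous fun x => f (x, a2) + f (x, b2)).intervalIntegrable _ _
  · exact (by fun_prop : Continuous fun x => g (x, a2) + g (x, b2)).intervalIntegrable _ _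
  · exact fun x _ => add_le_add (h0 _) (h0 _)
  · exact (by fun_prop : Continuous fun y => f (b1, y) + f (a1, y)).intervalIntegrable _ _
  · exact (by fun_prop : Continuous fun y => g (b1, y) + g (a1, y)).intervalIntegrable _ _
  · exact fun x _ => add_le_add (h0 _) (h0 _)

/-- one side: `∫_{y ∈ [s,2s]} (g y + g (-y)) ≤ ∫_{[-2s,2s]} g`. -/
lemma two_sides {s : ℝ} (hs : 0 < s) (g : ℝ → ℝ) (hg : Continuous g) (h0 : ∀ x, 0 ≤ g x) :
    ∫ y in s..(2 * s), (g (-y) + g y) ≤ ∫ y in (-(2 * s))..(2 * s), g y := by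
  have hi : ∀ a b : ℝ, IntervalIntegrable g volume a b := fun a b => hg.intervalIntegrable a b
  have hi2 : IntervalIntegrable (fun y => g (-y)) volume s (2 * s) :=
    (hg.comp continuous_neg).intervalIntegrable _ _
  have e1 : ∫ x in (-(2 * s))..(2 * s), g x =
      (∫ x in (-(2 * s))..(-s), g x) + (∫ x in (-s)..s, g x) + ∫ x in s..(2 * s), g x := by
    rw [intervalIntegral.integral_add_adjacent_intervals (hi _ _) (hi _ _),
      intervalIntegral.integral_add_adjacent_intervals (hi _ _) (hi _ _)]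
  rw [intervalIntegral.integral_add hi2 (hi _ _), intervalIntegral.integral_comp_neg (fun y => g y),
    e1]
  have h1 : 0 ≤ ∫ x in (-s)..s, g x :=
    intervalIntegral.integral_nonneg (by linarith) fun x _ => h0 x
  linarith

lemma avg2 {s : ℝ} (hs : 0 < s) (f : ℝ × ℝ → ℝ) (hf : Continuous f) (h0 : ∀ x, 0 ≤ f x) :
    ∫ ρ in R2 s, bdF f (-ρ.1) ρ.1 (-ρ.2) ρ.2 ≤ 2 * s * ∫ x in Q2 s, f x := by
  have hs2 : s ≤ 2 * s := by linarith
  have hss : -(2 * s) ≤ 2 * s := by linarith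
  -- the enlarged boundary integral
  have hA : Continuous (fun ρ : ℝ × ℝ => ∫ x in (-(2 * s))..(2 * s), (f (x, -ρ.2) + f (x, ρ.2))) :=
    cont_pm (fun (ρ : ℝ × ℝ) x => f (x, -ρ.2) + f (x, ρ.2)) (by fun_prop) _ _ (by fun_prop)
      (by fun_prop)
  have hB : Continuous (fun ρ : ℝ × ℝ => ∫ y in (-(2 * s))..(2 * s), (f (ρ.1, y) + f (-ρ.1, y))) :=
    cont_pm (fun (ρ : ℝ × ℝ) y => f (ρ.1, y) + f (-ρ.1, y)) (by fun_prop) _ _ (by fun_prop)
      (by fun_prop)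
  have hint : ∀ g : ℝ × ℝ → ℝ, Continuous g → IntegrableOn g (R2 s) :=
    fun g hg => hg.continuousOn.integrableOn_compact (R2_compact s)
  have hbd : Continuous (fun ρ : ℝ × ℝ => bdF f (-ρ.1) ρ.1 (-ρ.2) ρ.2) :=
    (bd_cont (fun p => f p.1) (by fun_prop)).comp (by fun_prop :
      Continuous fun ρ : ℝ × ℝ => (ρ, ((0 : ℝ), (0 : ℝ))))
  have step1 : ∫ ρ in R2 s, bdF f (-ρ.1) ρ.1 (-ρ.2) ρ.2 ≤
      ∫ ρ in R2 s, ((∫ x in (-(2 * s))..(2 * s), (f (x, -ρ.2) + f (x, ρ.2))) +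
        ∫ y in (-(2 * s))..(2 * s), (f (ρ.1, y) + f (-ρ.1, y))) := by
    refine setIntegral_mono_on (hint _ hbd) (hint _ (hA.add hB))
      (R2_compact s).isClosed.measurableSet ?_
    rintro ρ ⟨⟨h1, h2⟩, ⟨h3, h4⟩⟩
    unfold bdF
    refine add_le_add ?_ ?_
    · refine intervalIntegral.integral_mono_interval (by linarith) (by linarith) h2
        (ae_of_all _ fun x => add_nonneg (h0 _) (h0 _)) ?_
      exact (by fun_prop : Continuous fun x => f (x, -ρ.2) + f (x, ρ.2)).intervalIntegrable _ _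
    · refine intervalIntegral.integral_mono_interval (by linarith) (by linarith) h4
        (ae_of_all _ fun x => add_nonneg (h0 _) (h0 _)) ?_
      exact (by fun_prop : Continuous fun y => f (ρ.1, y) + f (-ρ.1, y)).intervalIntegrable _ _
  refine step1.trans ?_
  rw [integral_add (hint _ hA) (hint _ hB)]
  have eA : ∫ ρ in R2 s, (∫ x in (-(2 * s))..(2 * s), (f (x, -ρ.2) + f (x, ρ.2))) ≤
      s * ∫ x in Q2 s, f x := by
    have e := iter_eq (fun ρ => ∫ x in (-(2 * s))..(2 * s), (f (x, -ρ.2) + f (x, ρ.2))) hA hs2 hs2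
    rw [show R2 s = Icc s (2 * s) ×ˢ Icc s (2 * s) from rfl, ← e]
    simp only [intervalIntegral.integral_const, smul_eq_mul]
    rw [show 2 * s - s = s by ring]
    refine mul_le_mul_of_nonneg_left ?_ hs.le
    rw [intervalIntegral_intervalIntegral_swap (F := fun ρ x => f (x, -ρ) + f (x, ρ)) (by
      have hc : Continuous (Function.uncurry fun ρ x => f (x, -ρ) + f (x, ρ)) := by fun_prop
      exact (hc.continuousOn.integrableOn_compact (isCompact_uIcc.prod isCompact_uIcc)).mono_set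
        (prod_mono uIoc_subset_uIcc uIoc_subset_uIcc)), int_Q2 f hf hs]
    refine intervalIntegral.integral_mono_on hss ?_ ?_ ?_
    · exact (cont_pm (fun x ρ => f (x, -ρ) + f (x, ρ)) (by fun_prop) _ _ continuous_const
        continuous_const).intervalIntegrable _ _
    · exact (cont_pm (fun x ρ => f (x, ρ)) (by fun_prop) _ _ continuous_const
        continuous_const).intervalIntegrable _ _
    · exact fun x _ => two_sides hs (fun y => f (x, y)) (by fun_prop) fun _ => h0 _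
  have eB : ∫ ρ in R2 s, (∫ y in (-(2 * s))..(2 * s), (f (ρ.1, y) + f (-ρ.1, y))) ≤
      s * ∫ x in Q2 s, f x := by
    have e := iter_eq (fun ρ => ∫ y in (-(2 * s))..(2 * s), (f (ρ.1, y) + f (-ρ.1, y))) hB hs2 hs2
    rw [show R2 s = Icc s (2 * s) ×ˢ Icc s (2 * s) from rfl, ← e]
    simp only [intervalIntegral.integral_const, smul_eq_mul]
    rw [intervalIntegral.integral_const_mul, show 2 * s - s = s by ring]
    refine mul_le_mul_of_nonneg_left ?_ hs.le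
    rw [intervalIntegral_intervalIntegral_swap (F := fun ρ y => f (ρ, y) + f (-ρ, y)) (by
      have hc : Continuous (Function.uncurry fun ρ y => f (ρ, y) + f (-ρ, y)) := by fun_prop
      exact (hc.continuousOn.integrableOn_compact (isCompact_uIcc.prod isCompact_uIcc)).mono_set
        (prod_mono uIoc_subset_uIcc uIoc_subset_uIcc)), int_Q2 f hf hs,
      intervalIntegral_intervalIntegral_swap (F := fun x y => f (x, y)) (by
      have hc : Continuous (Function.uncurry fun x y => f (x, y)) := by fun_prop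
      exact (hc.continuousOn.integrableOn_compact (isCompact_uIcc.prod isCompact_uIcc)).mono_set
        (prod_mono uIoc_subset_uIcc uIoc_subset_uIcc))]
    refine intervalIntegral.integral_mono_on hss ?_ ?_ ?_
    · exact (cont_pm (fun y ρ => f (ρ, y) + f (-ρ, y)) (by fun_prop) _ _ continuous_const
        continuous_const).intervalIntegrable _ _
    · exact (cont_pm (fun y ρ => f (ρ, y)) (by fun_prop) _ _ continuous_const
        continuous_const).intervalIntegrable _ _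
    · intro y _
      have h := two_sides hs (fun x => f (x, y)) (by fun_prop) fun _ => h0 _
      refine le_trans (le_of_eq ?_) h
      apply intervalIntegral.integral_congr
      intro ρ _
      simp only
      ring
  linarith

lemma avg4 {s : ℝ} (hs : 0 < s) (h : V4 → ℝ) (hc : Continuous h) (h0 : ∀ x, 0 ≤ h x) :
    ∫ ρ in R2 s, ∫ τ in Q2 s, bd h ρ τ ≤
      2 * s * ∫ p in Metric.closedBall (0 : V4) (2 * s), h p := by
  rw [swap2 (R2_compact s) (Q2_compact s) (fun ρ τ => bd h ρ τ) (bd_cont h hc), int_cube h hc,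
    ← integral_const_mul]
  have hbc := bd_cont h hc
  refine setIntegral_mono_on ?_ ?_ (Q2_compact s).isClosed.measurableSet ?_
  · exact int_inner (R2_compact s) (Q2_compact s) (fun ρ τ => bd h ρ τ) hbc
  · exact (int_inner (Q2_compact s) (Q2_compact s) (fun x τ => h (x, τ)) (by fun_prop)).const_mul _
  · exact fun τ _ => avg2 hs (fun x => h (x, τ)) (by fun_prop) fun _ => h0 _

/-! ### restriction to the slices -/

/-- the restriction of `α` to the slice at `τ`. -/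
def sα (α : V4 → ℂ) (τ x : ℝ × ℝ) : ℂ := α (x, τ)

/-- the restriction of `A` to the slice at `τ`. -/
def sA (A : V4 → V4 →L[ℝ] ℝ) (τ x : ℝ × ℝ) : ℝ × ℝ →L[ℝ] ℝ :=
  (A (x, τ)).comp (ContinuousLinearMap.inl ℝ (ℝ × ℝ) (ℝ × ℝ))

lemma sα_contDiff {α : V4 → ℂ} (hα : ContDiff ℝ ∞ α) (τ : ℝ × ℝ) : ContDiff ℝ ∞ (sα α τ) :=
  hα.comp (contDiff_id.prodMk contDiff_const)

lemma sA_contDiff {A : V4 → V4 →L[ℝ] ℝ} (hA : ContDiff ℝ ∞ A) (τ : ℝ × ℝ) :
    ContDiff ℝ ∞ (sA A τ) :=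
  (hA.comp (contDiff_id.prodMk contDiff_const)).clm_comp contDiff_const

lemma sα_fderiv {α : V4 → ℂ} (hα : ContDiff ℝ ∞ α) (τ x : ℝ × ℝ) :
    fderiv ℝ (sα α τ) x =
      (fderiv ℝ α (x, τ)).comp (ContinuousLinearMap.inl ℝ (ℝ × ℝ) (ℝ × ℝ)) :=
  (((hα.differentiable (by simp)) (x, τ)).hasFDerivAt.comp x
    (hasFDerivAt_prodMk_left x τ)).fderiv

lemma sA_fderiv {A : V4 → V4 →L[ℝ] ℝ} (hA : ContDiff ℝ ∞ A) (τ x u v : ℝ × ℝ) :
    fderiv ℝ (sA A τ) x u v = fderiv ℝ A (x, τ) (u, 0) (v, 0) := by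
  have h1 : HasFDerivAt (fun x : ℝ × ℝ => A (x, τ))
      ((fderiv ℝ A (x, τ)).comp (ContinuousLinearMap.inl ℝ (ℝ × ℝ) (ℝ × ℝ))) x :=
    ((hA.differentiable (by simp)) (x, τ)).hasFDerivAt.comp x (hasFDerivAt_prodMk_left x τ)
  have h2 := h1.clm_comp (hasFDerivAt_const (ContinuousLinearMap.inl ℝ (ℝ × ℝ) (ℝ × ℝ)) x)
  have h3 : fderiv ℝ (sA A τ) x = _ := h2.fderiv
  rw [h3]
  simp

lemma s_eta {α : V4 → ℂ} {A : V4 → V4 →L[ℝ] ℝ} (hα : ContDiff ℝ ∞ α) (τ x : ℝ × ℝ) :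
    eta (sα α τ) (sA A τ) x =
      (eta α A (x, τ)).comp (ContinuousLinearMap.inl ℝ (ℝ × ℝ) (ℝ × ℝ)) := by
  unfold eta
  rw [sα_fderiv hα]
  ext <;> simp [sα, sA]

lemma s_psi {α : V4 → ℂ} {A : V4 → V4 →L[ℝ] ℝ} (hα : ContDiff ℝ ∞ α) (hA : ContDiff ℝ ∞ A)
    (τ x u v : ℝ × ℝ) :
    psi (sα α τ) (sA A τ) x u v = psi α A (x, τ) (u, 0) (v, 0) := by
  unfold psi dd wdg
  rw [s_eta hα]
  simp [sA_fderiv hA, sα]

lemma s_en {α : V4 → ℂ} {A : V4 → V4 →L[ℝ] ℝ} (hα : ContDiff ℝ ∞ α) (r : ℝ) (τ x : ℝ × ℝ) :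
    en r (sα α τ) (sA A τ) x ≤ en r α A (x, τ) := by
  unfold en
  rw [s_eta hα]
  have h1 : ‖(eta α A (x, τ)).comp (ContinuousLinearMap.inl ℝ (ℝ × ℝ) (ℝ × ℝ))‖ ≤
      ‖eta α A (x, τ)‖ := by
    refine ((eta α A (x, τ)).opNorm_comp_le _).trans ?_
    exact mul_le_of_le_one_right (norm_nonneg _) (ContinuousLinearMap.norm_inl_le_one ℝ _ _)
  have h2 : ‖(eta α A (x, τ)).comp (ContinuousLinearMap.inl ℝ (ℝ × ℝ) (ℝ × ℝ))‖ ^ 2 ≤
      ‖eta α A (x, τ)‖ ^ 2 := pow_le_pow_left₀ (norm_nonneg _) h1 2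
  have h3 : sα α τ x = α (x, τ) := rfl
  rw [h3]
  linarith

lemma eta_cont {V : Type} [NormedAddCommGroup V] [NormedSpace ℝ V] {α : V → ℂ}
    {A : V → V →L[ℝ] ℝ} (hα : ContDiff ℝ ∞ α) (hA : ContDiff ℝ ∞ A) : Continuous (eta α A) := by
  unfold eta
  have h1 : Continuous (fderiv ℝ α) := hα.continuous_fderiv (by simp)
  have h2 : Continuous A := hA.continuous
  have h3 : Continuous α := hα.continuous
  exact h1.sub (((ContinuousLinearMap.smulRightL ℝ V ℂ).continuous.comp h2).clm_apply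
    (continuous_const.mul h3))

lemma psi_cont {V : Type} [NormedAddCommGroup V] [NormedSpace ℝ V] {α : V → ℂ}
    {A : V → V →L[ℝ] ℝ} (hα : ContDiff ℝ ∞ α) (hA : ContDiff ℝ ∞ A) : Continuous (psi α A) := by
  have h0 := eta_cont hα hA
  have h1 : Continuous (fderiv ℝ A) := hA.continuous_fderiv (by simp)
  have h3 : Continuous α := hα.continuous
  have h4 : Continuous fun p => Complex.reCLM.comp (eta α A p) := continuous_const.clm_comp h0
  have h5 : Continuous fun p => Complex.imCLM.comp (eta α A p) := continuous_const.clm_comp h0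
  have hsm : ∀ a b : V → V →L[ℝ] ℝ, Continuous a → Continuous b →
      Continuous fun p => (a p).smulRight (b p) := fun a b ha hb =>
    ((ContinuousLinearMap.smulRightL ℝ V (V →L[ℝ] ℝ)).continuous.comp ha).clm_apply hb
  have h6 : Continuous fun p => (fderiv ℝ A p).flip :=
    (ContinuousLinearMap.flipₗᵢ ℝ V V ℝ).continuous.comp h1
  unfold psi dd wdg
  exact ((continuous_const.sub (h3.norm.pow 2)).smul (h1.sub h6)).add
    (((hsm _ _ h4 h5).sub (hsm _ _ h5 h4)).const_smul (2 : ℝ))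

lemma en_cont {V : Type} [NormedAddCommGroup V] [NormedSpace ℝ V] {α : V → ℂ}
    {A : V → V →L[ℝ] ℝ} (hα : ContDiff ℝ ∞ α) (hA : ContDiff ℝ ∞ A) (r : ℝ) :
    Continuous (en r α A) := by
  have h0 := eta_cont hα hA
  have h3 : Continuous α := hα.continuous
  unfold en
  fun_prop

lemma en_nonneg {V : Type} [NormedAddCommGroup V] [NormedSpace ℝ V] {α : V → ℂ}
    {A : V → V →L[ℝ] ℝ} {r : ℝ} (hr : 0 ≤ r) (p : V) : 0 ≤ en r α A p := by
  unfold en
  positivity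

/-! ### the cut-off in `τ` -/

/-- the cut-off in `τ`. -/
def ch (s : ℝ) (τ : ℝ × ℝ) : ℝ := hh (τ.1 / s) * hh (τ.2 / s)

lemma ch_contDiff (s : ℝ) : ContDiff ℝ ∞ (ch s) := by
  unfold ch
  exact (hh_contDiff.comp (contDiff_fst.div_const s)).mul
    (hh_contDiff.comp (contDiff_snd.div_const s))

lemma ch_nonneg (s : ℝ) (τ : ℝ × ℝ) : 0 ≤ ch s τ := mul_nonneg (hh_nonneg _) (hh_nonneg _)

lemma ch_le_one (s : ℝ) (τ : ℝ × ℝ) : ch s τ ≤ 1 :=
  mul_le_one₀ (hh_le_one _) (hh_nonneg _) (hh_le_one _)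

lemma ch_sq_le (s : ℝ) (τ : ℝ × ℝ) : ch s τ ^ 2 ≤ 1 := pow_le_one₀ (ch_nonneg _ _) (ch_le_one _ _)

lemma ch_zero {s : ℝ} (hs : 0 < s) {τ : ℝ × ℝ} (h : τ ∉ Q2 s) : ch s τ = 0 := by
  unfold Q2 at h
  rw [mem_closedBall_zero_iff, Prod.norm_def, max_le_iff, not_and_or, not_le, not_le,
    Real.norm_eq_abs, Real.norm_eq_abs] at h
  unfold ch
  rcases h with h | h
  · rw [hh_zero, zero_mul]
    rw [abs_div, abs_of_pos hs, le_div_iff₀ hs]
    exact h.le
  · rw [hh_zero (x := τ.2 / s), mul_zero]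
    rw [abs_div, abs_of_pos hs, le_div_iff₀ hs]
    exact h.le

lemma ch_compact {s : ℝ} (hs : 0 < s) : HasCompactSupport (ch s) :=
  HasCompactSupport.intro (Q2_compact s) fun _ h => ch_zero hs h

lemma exists_ch : ∃ C : ℝ, 0 < C ∧ ∀ s : ℝ, 0 < s → ∀ τ, ‖fderiv ℝ (ch s) τ‖ ≤ C / s := by
  have hc : Continuous (fderiv ℝ (ch 1)) := (ch_contDiff 1).continuous_fderiv (by simp)
  obtain ⟨C, hC⟩ := ((ch_compact one_pos).fderiv (𝕜 := ℝ)).exists_bound_of_continuous hc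
  refine ⟨max C 1, lt_max_of_lt_right one_pos, fun s hs τ => ?_⟩
  have h1 : ch s = fun τ => ch 1 (s⁻¹ • τ) := by
    ext τ
    simp only [ch, Prod.smul_fst, Prod.smul_snd, smul_eq_mul, div_one]
    rw [div_eq_inv_mul, div_eq_inv_mul]
  have h2 : HasFDerivAt (fun τ : ℝ × ℝ => s⁻¹ • τ) (s⁻¹ • ContinuousLinearMap.id ℝ (ℝ × ℝ)) τ :=
    (hasFDerivAt_id τ).const_smul s⁻¹
  have h3 : HasFDerivAt (ch s) ((fderiv ℝ (ch 1) (s⁻¹ • τ)).comp
      (s⁻¹ • ContinuousLinearMap.id ℝ (ℝ × ℝ))) τ := by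
    rw [h1]
    exact (((ch_contDiff 1).differentiable (by simp)) (s⁻¹ • τ)).hasFDerivAt.comp τ h2
  rw [h3.fderiv, ContinuousLinearMap.comp_smul, ContinuousLinearMap.comp_id, norm_smul,
    Real.norm_eq_abs, abs_of_pos (inv_pos.2 hs), div_eq_inv_mul]
  exact mul_le_mul_of_nonneg_left ((hC _).trans (le_max_left _ _)) (inv_pos.2 hs).le

lemma tf_eq (s : ℝ) (x τ : ℝ × ℝ) : tf s (x, τ) = ch s τ ^ 2 * (ww s x.1 * ww s x.2) := by
  unfold tf ch ww
  ring

/-! ### the left hand side -/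

lemma lhs_le {C : ℝ} (hC : ∀ s : ℝ, 0 < s → ∀ x, |deriv (ww s) x| ≤ C / s) {s : ℝ} (hs : 0 < s)
    (k : V4 → ℝ) (hk : Continuous k) :
    |∫ p, tf s p * k p| ≤ (C / s) ^ 2 * ∫ ρ in R2 s, ∫ τ in Q2 s, ch s τ ^ 2 * |fl k ρ τ| := by
  have hch : Continuous (ch s) := (ch_contDiff s).continuous
  have hw : Continuous (ww s) := (ww_contDiff s).continuous
  have htf : Continuous (tf s) := by
    have : tf s = fun p : V4 => ch s p.2 ^ 2 * (ww s p.1.1 * ww s p.1.2) := by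
      ext p
      exact tf_eq s p.1 p.2
    rw [this]
    fun_prop
  have h0 : ∀ p : V4, p ∉ Metric.closedBall (0 : V4) (2 * s) → tf s p * k p = 0 := by
    intro p hp
    have : tf s p = 0 := by
      rw [cube_eq, mem_prod, not_and_or] at hp
      have h1 : tf s p = ch s p.2 ^ 2 * ch s p.1 ^ 2 := by
        unfold tf ch
        ring
      rw [h1]
      rcases hp with hp | hp
      · rw [ch_zero hs hp]; ring
      · rw [ch_zero hs hp]; ring
    rw [this, zero_mul]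
  rw [← setIntegral_eq_integral_of_forall_compl_eq_zero h0,
    int_cube (fun p => tf s p * k p) (htf.mul hk)]
  have hflc := fl_cont k hk
  have e1 : ∀ τ, ∫ x in Q2 s, tf s (x, τ) * k (x, τ) =
      ch s τ ^ 2 * ∫ x in Q2 s, ww s x.1 * ww s x.2 * k (x, τ) := by
    intro τ
    rw [← integral_const_mul]
    apply integral_congr_ae
    refine Eventually.of_forall fun x => ?_
    simp only [tf_eq]
    ring
  simp_rw [e1]
  rw [swap2 (R2_compact s) (Q2_compact s) (fun ρ τ => ch s τ ^ 2 * |fl k ρ τ|) (by fun_prop),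
    ← integral_const_mul]
  refine (abs_integral_le_integral_abs).trans ?_
  have hin : IntegrableOn (fun τ => ∫ x in Q2 s, ww s x.1 * ww s x.2 * k (x, τ)) (Q2 s) :=
    int_inner (Q2_compact s) (Q2_compact s) (fun x τ => ww s x.1 * ww s x.2 * k (x, τ))
      (by fun_prop)
  refine setIntegral_mono_on ?_ ?_ (Q2_compact s).isClosed.measurableSet ?_
  · refine Integrable.abs ?_
    exact hin.bdd_mul (c := 1) (hch.pow 2).aestronglyMeasurable (ae_of_all _ fun τ => by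
      rw [Real.norm_eq_abs, abs_of_nonneg (sq_nonneg _)]
      exact ch_sq_le s τ)
  · exact (int_inner (R2_compact s) (Q2_compact s) (fun ρ τ => ch s τ ^ 2 * |fl k ρ τ|)
      (by fun_prop)).const_mul _
  · intro τ _
    rw [abs_mul, abs_of_nonneg (sq_nonneg _), integral_const_mul, mul_left_comm]
    exact mul_le_mul_of_nonneg_left (lay2_le hC hs k hk τ) (sq_nonneg _)

/-! ### the estimates for one rectangle -/

lemma fl_le {k κ : V4 → ℝ} (hk : Continuous k) (hκ : Continuous κ) (h : ∀ p, |k p| ≤ κ p) {s : ℝ}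
    {ρ : ℝ × ℝ} (hs : 0 < s) (hρ : ρ ∈ R2 s) (τ : ℝ × ℝ) :
    |fl k ρ τ| ≤ ∫ x in Q2 s, κ (x, τ) := by
  obtain ⟨⟨h1, h2⟩, ⟨h3, h4⟩⟩ := hρ
  unfold fl
  rw [iter_eq (fun x => k (x, τ)) (by fun_prop) (by linarith : -ρ.1 ≤ ρ.1)
    (by linarith : -ρ.2 ≤ ρ.2)]
  refine (abs_integral_le_integral_abs).trans ?_
  have hsub : Icc (-ρ.1) ρ.1 ×ˢ Icc (-ρ.2) ρ.2 ⊆ Q2 s := by
    rw [Q2_eq]
    exact prod_mono (Icc_subset_Icc (by linarith) h2) (Icc_subset_Icc (by linarith) h4)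
  have hκi : IntegrableOn (fun x => κ (x, τ)) (Q2 s) :=
    (by fun_prop : Continuous fun x => κ (x, τ)).continuousOn.integrableOn_compact (Q2_compact s)
  have hki : IntegrableOn (fun x => |k (x, τ)|) (Icc (-ρ.1) ρ.1 ×ˢ Icc (-ρ.2) ρ.2) :=
    (by fun_prop : Continuous fun x => |k (x, τ)|).continuousOn.integrableOn_compact
      (isCompact_Icc.prod isCompact_Icc)
  refine (integral_mono hki (hκi.mono_set hsub) fun x => h _).trans ?_
  refine setIntegral_mono_set hκi (ae_of_all _ fun x => ?_) hsub.eventuallyLE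
  exact (abs_nonneg _).trans (h _)

lemma int_fl_le {k κ : V4 → ℝ} (hk : Continuous k) (hκ : Continuous κ) (h : ∀ p, |k p| ≤ κ p)
    {s : ℝ} {ρ : ℝ × ℝ} (hs : 0 < s) (hρ : ρ ∈ R2 s) :
    ∫ τ in Q2 s, |fl k ρ τ| ≤ ∫ p in Metric.closedBall (0 : V4) (2 * s), κ p := by
  rw [int_cube κ hκ]
  have hfl : Continuous (fun τ => fl k ρ τ) := (fl_cont k hk).comp (by fun_prop : Continuous
    fun τ : ℝ × ℝ => (ρ, τ))
  refine setIntegral_mono_on ?_ ?_ (Q2_compact s).isClosed.measurableSet ?_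
  · exact hfl.abs.continuousOn.integrableOn_compact (Q2_compact s)
  · exact int_inner (Q2_compact s) (Q2_compact s) (fun x τ => κ (x, τ)) (by fun_prop)
  · exact fun τ _ => fl_le hk hκ h hs hρ τ

lemma J_le {k κ : V4 → ℝ} (hk : Continuous k) (hκ : Continuous κ) (h : ∀ p, |k p| ≤ κ p)
    {s : ℝ} {ρ : ℝ × ℝ} (hs : 0 < s) (hρ : ρ ∈ R2 s) :
    ∫ τ in Q2 s, ch s τ ^ 2 * |fl k ρ τ| ≤ ∫ p in Metric.closedBall (0 : V4) (2 * s), κ p := by
  refine le_trans ?_ (int_fl_le hk hκ h hs hρ)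
  have hch : Continuous (ch s) := (ch_contDiff s).continuous
  have hfl : Continuous (fun τ => fl k ρ τ) := (fl_cont k hk).comp (by fun_prop : Continuous
    fun τ : ℝ × ℝ => (ρ, τ))
  refine integral_mono ?_ ?_ fun τ => ?_
  · exact (by fun_prop : Continuous fun τ => ch s τ ^ 2 * |fl k ρ τ|).continuousOn.integrableOn_compact
      (Q2_compact s)
  · exact hfl.abs.continuousOn.integrableOn_compact (Q2_compact s)
  · exact mul_le_of_le_one_left (abs_nonneg _) (ch_sq_le s τ)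

lemma norm_b0 : ‖b0‖ = 1 := by
  simp [b0, Prod.norm_def]

lemma norm_b1 : ‖b1‖ = 1 := by
  simp [b1, Prod.norm_def]

lemma abs_b_le (T : V4 →L[ℝ] V4 →L[ℝ] ℝ) : |T b0 b1| ≤ ‖T‖ := by
  have h := T.le_opNorm₂ b0 b1
  rwa [norm_b0, norm_b1, mul_one, mul_one] at h

lemma gns_part {CG Cx : ℝ} (hCG : 0 < CG)
    (hG : ∀ g : ℝ × ℝ → ℝ, ContDiff ℝ 1 g → HasCompactSupport g →
      ∫ p, g p ^ 2 ≤ CG * (∫ p, ‖fderiv ℝ g p‖) ^ 2)
    (hx : ∀ s : ℝ, 0 < s → ∀ τ, ‖fderiv ℝ (ch s) τ‖ ≤ Cx / s)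
    {k κ : V4 → ℝ} (hk : Continuous k) (hκ : Continuous κ) (hle : ∀ p, |k p| ≤ κ p) {s : ℝ}
    {ρ : ℝ × ℝ} (hs : 0 < s) (hρ : ρ ∈ R2 s) (hF1 : ContDiff ℝ 1 (fl k ρ))
    (hF2 : ∀ τ, ‖fderiv ℝ (fl k ρ) τ‖ ≤ 2 * bd κ ρ τ) :
    ∫ τ in Q2 s, ch s τ ^ 2 * |fl k ρ τ| ^ 2 ≤
      CG * (2 * (∫ τ in Q2 s, bd κ ρ τ) +
        Cx / s * ∫ p in Metric.closedBall (0 : V4) (2 * s), κ p) ^ 2 := by
  have hCx : 0 ≤ Cx / s := (norm_nonneg _).trans (hx s hs 0)
  have hchs : ContDiff ℝ 1 (ch s) := (ch_contDiff s).of_le (by simp)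
  have hg1 : ContDiff ℝ 1 (fun τ => ch s τ * fl k ρ τ) := hchs.mul hF1
  have hg2 : HasCompactSupport (fun τ => ch s τ * fl k ρ τ) := (ch_compact hs).mul_right
  have hg3 := hG _ hg1 hg2
  have e1 : ∫ p, (ch s p * fl k ρ p) ^ 2 = ∫ τ in Q2 s, ch s τ ^ 2 * |fl k ρ τ| ^ 2 := by
    rw [← setIntegral_eq_integral_of_forall_compl_eq_zero (s := Q2 s)]
    · apply integral_congr_ae
      refine Eventually.of_forall fun τ => ?_
      simp only [sq_abs, mul_pow]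
    · intro τ hτ
      rw [ch_zero hs hτ, zero_mul]
      norm_num
  have hz : ∀ τ, τ ∉ Q2 s → ‖fderiv ℝ (fun τ => ch s τ * fl k ρ τ) τ‖ = 0 := by
    intro τ hτ
    have h5 : τ ∉ tsupport (fun τ => ch s τ * fl k ρ τ) := by
      intro h6
      apply hτ
      refine (closure_minimal ?_ (Q2_compact s).isClosed) h6
      intro τ' hτ'
      by_contra h7
      exact hτ' (by simp only [ch_zero hs h7, zero_mul])
    have h6 : fderiv ℝ (fun τ => ch s τ * fl k ρ τ) τ = 0 := by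
      by_contra h7
      exact h5 (support_fderiv_subset ℝ h7)
    rw [h6, norm_zero]
  have e2 : ∫ p, ‖fderiv ℝ (fun τ => ch s τ * fl k ρ τ) p‖ =
      ∫ τ in Q2 s, ‖fderiv ℝ (fun τ => ch s τ * fl k ρ τ) τ‖ :=
    (setIntegral_eq_integral_of_forall_compl_eq_zero hz).symm
  have hbd : Continuous fun τ => bd κ ρ τ :=
    (bd_cont _ hκ).comp (by fun_prop : Continuous fun τ : ℝ × ℝ => (ρ, τ))
  have hflc : Continuous (fun τ => fl k ρ τ) := (fl_cont k hk).comp (by fun_prop : Continuous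
    fun τ : ℝ × ℝ => (ρ, τ))
  have hint : ∀ f : ℝ × ℝ → ℝ, Continuous f → IntegrableOn f (Q2 s) :=
    fun f hf => hf.continuousOn.integrableOn_compact (Q2_compact s)
  have e3 : ∫ τ in Q2 s, ‖fderiv ℝ (fun τ => ch s τ * fl k ρ τ) τ‖ ≤
      ∫ τ in Q2 s, (2 * bd κ ρ τ + Cx / s * |fl k ρ τ|) := by
    refine integral_mono (hint _ (hg1.continuous_fderiv (by norm_num)).norm)
      (hint _ ((continuous_const.mul hbd).add (continuous_const.mul hflc.abs))) ?_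
    intro τ
    have h5 : fderiv ℝ (fun τ => ch s τ * fl k ρ τ) τ =
        ch s τ • fderiv ℝ (fl k ρ) τ + fl k ρ τ • fderiv ℝ (ch s) τ :=
      fderiv_fun_mul ((hchs.differentiable (by norm_num)) τ) ((hF1.differentiable (by norm_num)) τ)
    show ‖fderiv ℝ (fun τ => ch s τ * fl k ρ τ) τ‖ ≤ _
    rw [h5]
    refine (norm_add_le _ _).trans (add_le_add ?_ ?_)
    · rw [norm_smul, Real.norm_eq_abs, abs_of_nonneg (ch_nonneg _ _)]
      exact (mul_le_of_le_one_left (norm_nonneg _) (ch_le_one _ _)).trans (hF2 τ)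
    · rw [norm_smul, Real.norm_eq_abs, mul_comm]
      exact mul_le_mul_of_nonneg_right (hx s hs τ) (abs_nonneg _)
  have e4 : ∫ τ in Q2 s, (2 * bd κ ρ τ + Cx / s * |fl k ρ τ|) ≤
      2 * (∫ τ in Q2 s, bd κ ρ τ) +
        Cx / s * ∫ p in Metric.closedBall (0 : V4) (2 * s), κ p := by
    have hi1 : IntegrableOn (fun τ => 2 * bd κ ρ τ) (Q2 s) := hint _ (continuous_const.mul hbd)
    have hi2 : IntegrableOn (fun τ => Cx / s * |fl k ρ τ|) (Q2 s) :=
      hint _ (continuous_const.mul hflc.abs)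
    rw [integral_add hi1 hi2, integral_const_mul, integral_const_mul]
    have h5 := mul_le_mul_of_nonneg_left (int_fl_le hk hκ hle hs hρ) hCx
    linarith
  rw [← e1]
  refine hg3.trans ?_
  rw [e2]
  have h6 : 0 ≤ ∫ τ in Q2 s, ‖fderiv ℝ (fun τ => ch s τ * fl k ρ τ) τ‖ :=
    integral_nonneg fun _ => norm_nonneg _
  exact mul_le_mul_of_nonneg_left (pow_le_pow_left₀ h6 (e3.trans e4) 2) hCG.le

lemma near_part {CN : ℝ} (hCN : 0 < CN)
    (hN : ∀ (α : ℝ × ℝ → ℂ) (A : ℝ × ℝ → ℝ × ℝ →L[ℝ] ℝ) (r : ℝ),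
      ContDiff ℝ ∞ α → ContDiff ℝ ∞ A → 0 < r → ∀ a1 b1 a2 b2 : ℝ, a1 < b1 → a2 < b2 →
      1 ≤ r * (b1 - a1) ^ 2 → 1 ≤ r * (b2 - a2) ^ 2 →
      |∫ x in a1..b1, ∫ y in a2..b2, psi α A (x, y) (1, 0) (0, 1)| ≤
        CN * ((∫ x in a1..b1, ∫ y in a2..b2, psi α A (x, y) (1, 0) (0, 1)) ^ 2 +
          bdF (en r α A) a1 b1 a2 b2 / √r))
    {α : V4 → ℂ} {A : V4 → V4 →L[ℝ] ℝ} (hα : ContDiff ℝ ∞ α) (hA : ContDiff ℝ ∞ A) {r s : ℝ}
    (hr : 0 < r) (hs : 0 < s) (hrs : 1 ≤ r * s ^ 2) {ρ : ℝ × ℝ} (hρ : ρ ∈ R2 s) (τ : ℝ × ℝ) :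
    |fl (fun p => psi α A p b0 b1) ρ τ| ≤
      CN * (|fl (fun p => psi α A p b0 b1) ρ τ| ^ 2 + bd (en r α A) ρ τ / √r) := by
  obtain ⟨⟨h1, h2⟩, ⟨h3, h4⟩⟩ := id hρ
  have key : ∀ a b : ℝ, s ≤ a → b = 2 * a → 1 ≤ r * b ^ 2 := by
    intro a b ha hb
    rw [hb]
    have : s ^ 2 ≤ (2 * a) ^ 2 := pow_le_pow_left₀ hs.le (by linarith) 2
    nlinarith
  have h5 := hN (sα α τ) (sA A τ) r (sα_contDiff hα τ) (sA_contDiff hA τ) hr (-ρ.1) ρ.1 (-ρ.2) ρ.2
    (by linarith) (by linarith) (key ρ.1 _ h1 (by ring)) (key ρ.2 _ h3 (by ring))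
  have e1 : ∫ x in (-ρ.1)..ρ.1, ∫ y in (-ρ.2)..ρ.2, psi (sα α τ) (sA A τ) (x, y) (1, 0) (0, 1) =
      fl (fun p => psi α A p b0 b1) ρ τ := by
    unfold fl
    simp_rw [s_psi hα hA]
    rfl
  rw [e1] at h5
  rw [sq_abs]
  refine h5.trans (mul_le_mul_of_nonneg_left ?_ hCN.le)
  refine add_le_add le_rfl (div_le_div_of_nonneg_right ?_ (Real.sqrt_nonneg _))
  unfold bd
  refine bdF_mono _ _ (en_cont (sα_contDiff hα τ) (sA_contDiff hA τ) r) ?_
    (fun x => s_en hα r τ x) (by linarith) (by linarith)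
  have := en_cont hα hA r
  fun_prop

/-! ### the box inequality -/

/-- the pure inequality for one rectangle. -/
lemma one_rect {J S g m e K s r CG CN Cx : ℝ} (hs : 0 < s) (hK : 1 ≤ K) (hCG : 0 < CG)
    (hCN : 0 < CN) (hCx : 0 < Cx) (hm : 0 ≤ m) (hg : 0 ≤ g) (he : 0 ≤ e / √r)
    (h1 : J ≤ m) (h2 : S ≤ CG * (2 * g + Cx / s * m) ^ 2) (h3 : J ≤ CN * (S + e / √r)) :
    J ≤ CN * (CG * ((2 + Cx) * K * m / s) ^ 2) + s * g / K + CN * (e / √r) := by
  have hK0 : 0 < K := by linarith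
  rcases le_or_gt g (K * m / s) with h | h
  · have h4 : 2 * g + Cx / s * m ≤ (2 + Cx) * K * m / s := by
      have h5 : Cx / s * m ≤ Cx * K * m / s := by
        rw [div_mul_eq_mul_div, div_le_div_iff_of_pos_right hs]
        have : Cx * m ≤ Cx * m * K := le_mul_of_one_le_right (by positivity) hK
        nlinarith
      have h6 : (2 + Cx) * K * m / s = 2 * (K * m / s) + Cx * K * m / s := by ring
      rw [h6]
      linarith
    have h7 : (2 * g + Cx / s * m) ^ 2 ≤ ((2 + Cx) * K * m / s) ^ 2 :=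
      pow_le_pow_left₀ (by positivity) h4 2
    have h8 : CN * S ≤ CN * (CG * ((2 + Cx) * K * m / s) ^ 2) :=
      mul_le_mul_of_nonneg_left (h2.trans (mul_le_mul_of_nonneg_left h7 hCG.le)) hCN.le
    have h9 : 0 ≤ s * g / K := by positivity
    have h10 : CN * (S + e / √r) = CN * S + CN * (e / √r) := by ring
    linarith
  · have h4 : m ≤ s * g / K := by
      rw [le_div_iff₀ hK0]
      rw [div_lt_iff₀ hs] at h
      linarith
    have h5 : 0 ≤ CN * (CG * ((2 + Cx) * K * m / s) ^ 2) := by positivity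
    have h6 : 0 ≤ CN * (e / √r) := by positivity
    linarith

lemma rect {CG CN Cx : ℝ} (hCG : 0 < CG) (hCN : 0 < CN) (hCx : 0 < Cx)
    (hG : ∀ g : ℝ × ℝ → ℝ, ContDiff ℝ 1 g → HasCompactSupport g →
      ∫ p, g p ^ 2 ≤ CG * (∫ p, ‖fderiv ℝ g p‖) ^ 2)
    (hx : ∀ s : ℝ, 0 < s → ∀ τ, ‖fderiv ℝ (ch s) τ‖ ≤ Cx / s)
    {k κ ε : V4 → ℝ} (hk : Continuous k) (hκ : Continuous κ) (hε : Continuous ε)
    (hle : ∀ p, |k p| ≤ κ p) (hε0 : ∀ p, 0 ≤ ε p) {r s K : ℝ} (hr : 0 < r)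
    (hs : 0 < s) (hK : 1 ≤ K) {ρ : ℝ × ℝ} (hρ : ρ ∈ R2 s) (hF1 : ContDiff ℝ 1 (fl k ρ))
    (hF2 : ∀ τ, ‖fderiv ℝ (fl k ρ) τ‖ ≤ 2 * bd κ ρ τ)
    (hN : ∀ τ, |fl k ρ τ| ≤ CN * (|fl k ρ τ| ^ 2 + bd ε ρ τ / √r)) :
    ∫ τ in Q2 s, ch s τ ^ 2 * |fl k ρ τ| ≤
      CN * (CG * ((2 + Cx) * K * (∫ p in Metric.closedBall (0 : V4) (2 * s), κ p) / s) ^ 2) +
        s * (∫ τ in Q2 s, bd κ ρ τ) / K + CN * ((∫ τ in Q2 s, bd ε ρ τ) / √r) := by
  obtain ⟨⟨h1, h2⟩, ⟨h3, h4⟩⟩ := id hρ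
  have hρ1 : -ρ.1 ≤ ρ.1 := by linarith
  have hρ2 : -ρ.2 ≤ ρ.2 := by linarith
  have hκ0 : ∀ p, 0 ≤ κ p := fun p => (abs_nonneg _).trans (hle p)
  have hsr : 0 < √r := Real.sqrt_pos.2 hr
  have hch : Continuous (ch s) := (ch_contDiff s).continuous
  have hbκ0 : ∀ τ, 0 ≤ bd κ ρ τ := fun τ => bdF_nonneg _ (fun x => hκ0 _) hρ1 hρ2
  have hbe0 : ∀ τ, 0 ≤ bd ε ρ τ := fun τ => bdF_nonneg _ (fun x => hε0 _) hρ1 hρ2
  have hint : ∀ f : ℝ × ℝ → ℝ, Continuous f → IntegrableOn f (Q2 s) :=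
    fun f hf => hf.continuousOn.integrableOn_compact (Q2_compact s)
  have hflρ : Continuous (fun τ => fl k ρ τ) := (fl_cont k hk).comp (by fun_prop : Continuous
    fun τ : ℝ × ℝ => (ρ, τ))
  have hbeρ : Continuous (fun τ => bd ε ρ τ) := (bd_cont ε hε).comp (by fun_prop : Continuous
    fun τ : ℝ × ℝ => (ρ, τ))
  have hm : 0 ≤ ∫ p in Metric.closedBall (0 : V4) (2 * s), κ p := integral_nonneg fun p => hκ0 p
  refine one_rect (S := ∫ τ in Q2 s, ch s τ ^ 2 * |fl k ρ τ| ^ 2) hs hK hCG hCN hCx hm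
    (integral_nonneg fun τ => hbκ0 τ) (div_nonneg (integral_nonneg fun τ => hbe0 τ) hsr.le)
    (J_le hk hκ hle hs hρ) (gns_part hCG hG hx hk hκ hle hs hρ hF1 hF2) ?_
  have hi1 : IntegrableOn (fun τ => ch s τ ^ 2 * |fl k ρ τ|) (Q2 s) :=
    hint _ ((hch.pow 2).mul hflρ.abs)
  have hi2 : IntegrableOn (fun τ => ch s τ ^ 2 * |fl k ρ τ| ^ 2) (Q2 s) :=
    hint _ ((hch.pow 2).mul (hflρ.abs.pow 2))
  have hi3 : IntegrableOn (fun τ => bd ε ρ τ / √r) (Q2 s) :=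
    hint _ (hbeρ.div_const _)
  have hi4 : IntegrableOn (fun τ => ch s τ ^ 2 * |fl k ρ τ| ^ 2 + bd ε ρ τ / √r)
    (Q2 s) := hi2.add hi3
  have e1 : CN * ((∫ τ in Q2 s, ch s τ ^ 2 * |fl k ρ τ| ^ 2) +
      (∫ τ in Q2 s, bd ε ρ τ) / √r) =
      ∫ τ in Q2 s, CN * (ch s τ ^ 2 * |fl k ρ τ| ^ 2 + bd ε ρ τ / √r) := by
    rw [integral_const_mul, integral_add hi2 hi3, integral_div]
  rw [e1]
  refine integral_mono hi1 (hi4.const_mul CN) ?_
  intro τ
  have h5 := hN τ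
  have h6 : 0 ≤ bd ε ρ τ / √r := div_nonneg (hbe0 τ) hsr.le
  have h7 : ch s τ ^ 2 ≤ 1 := ch_sq_le s τ
  have h8 : 0 ≤ ch s τ ^ 2 := sq_nonneg _
  calc ch s τ ^ 2 * |fl k ρ τ| ≤ ch s τ ^ 2 * (CN * (|fl k ρ τ| ^ 2 + bd ε ρ τ / √r)) :=
        mul_le_mul_of_nonneg_left h5 h8
    _ = CN * (ch s τ ^ 2 * |fl k ρ τ| ^ 2 + ch s τ ^ 2 * (bd ε ρ τ / √r)) := by ring
    _ ≤ CN * (ch s τ ^ 2 * |fl k ρ τ| ^ 2 + bd ε ρ τ / √r) := by
        refine mul_le_mul_of_nonneg_left ?_ hCN.le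
        have h9 := mul_le_mul_of_nonneg_right h7 h6
        rw [one_mul] at h9
        linarith

lemma R2_integral_const {s : ℝ} (hs : 0 < s) (c : ℝ) : ∫ _ρ in R2 s, c = s ^ 2 * c := by
  have e := iter_eq (fun _ => c) continuous_const (by linarith : s ≤ 2 * s)
    (by linarith : s ≤ 2 * s)
  rw [show R2 s = Icc s (2 * s) ×ˢ Icc s (2 * s) from rfl, ← e]
  simp only [intervalIntegral.integral_const, smul_eq_mul]
  ring

lemma total {Cw CG CN Cx : ℝ} (hCG : 0 < CG) (hCN : 0 < CN) (hCx : 0 < Cx)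
    (hw : ∀ s : ℝ, 0 < s → ∀ x, |deriv (ww s) x| ≤ Cw / s)
    (hG : ∀ g : ℝ × ℝ → ℝ, ContDiff ℝ 1 g → HasCompactSupport g →
      ∫ p, g p ^ 2 ≤ CG * (∫ p, ‖fderiv ℝ g p‖) ^ 2)
    (hx : ∀ s : ℝ, 0 < s → ∀ τ, ‖fderiv ℝ (ch s) τ‖ ≤ Cx / s)
    {k κ ε : V4 → ℝ} (hk : Continuous k) (hκ : Continuous κ) (hε : Continuous ε)
    (hle : ∀ p, |k p| ≤ κ p) (hε0 : ∀ p, 0 ≤ ε p) {r s K : ℝ} (hr : 0 < r)
    (hs : 0 < s) (hK : 1 ≤ K) (hF1 : ∀ ρ ∈ R2 s, ContDiff ℝ 1 (fl k ρ))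
    (hF2 : ∀ ρ ∈ R2 s, ∀ τ, ‖fderiv ℝ (fl k ρ) τ‖ ≤ 2 * bd κ ρ τ)
    (hN : ∀ ρ ∈ R2 s, ∀ τ, |fl k ρ τ| ≤ CN * (|fl k ρ τ| ^ 2 + bd ε ρ τ / √r)) :
    |∫ p, tf s p * k p| ≤ (Cw / s) ^ 2 *
      (s ^ 2 * (CN * (CG * ((2 + Cx) * K *
          (∫ p in Metric.closedBall (0 : V4) (2 * s), κ p) / s) ^ 2)) +
        s * (2 * s * ∫ p in Metric.closedBall (0 : V4) (2 * s), κ p) / K +
        CN * ((2 * s * ∫ p in Metric.closedBall (0 : V4) (2 * s), ε p) / √r)) := by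
  have hκ0 : ∀ p, 0 ≤ κ p := fun p => (abs_nonneg _).trans (hle p)
  have hsr : 0 < √r := Real.sqrt_pos.2 hr
  have hK0 : 0 < K := by linarith
  have hch : Continuous (ch s) := (ch_contDiff s).continuous
  have hflc := fl_cont k hk
  have hbκ := bd_cont κ hκ
  have hbε := bd_cont ε hε
  refine (lhs_le hw hs k hk).trans (mul_le_mul_of_nonneg_left ?_ (sq_nonneg _))
  -- integrability in `ρ`
  have hiρ : ∀ f : (ℝ × ℝ) → (ℝ × ℝ) → ℝ, Continuous (Function.uncurry f) →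
      IntegrableOn (fun ρ => ∫ τ in Q2 s, f ρ τ) (R2 s) := fun f hf =>
    int_inner (Q2_compact s) (R2_compact s) (fun τ ρ => f ρ τ) (hf.comp continuous_swap)
  set M : ℝ := CN * (CG * ((2 + Cx) * K *
    (∫ p in Metric.closedBall (0 : V4) (2 * s), κ p) / s) ^ 2) with hM
  have hj1 : IntegrableOn (fun ρ => ∫ τ in Q2 s, ch s τ ^ 2 * |fl k ρ τ|) (R2 s) :=
    hiρ (fun ρ τ => ch s τ ^ 2 * |fl k ρ τ|) (by fun_prop)
  have hj2 : IntegrableOn (fun ρ => s * (∫ τ in Q2 s, bd κ ρ τ) / K) (R2 s) :=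
    ((hiρ (fun ρ τ => bd κ ρ τ) hbκ).const_mul s).div_const K
  have hj3 : IntegrableOn (fun ρ => CN * ((∫ τ in Q2 s, bd ε ρ τ) / √r)) (R2 s) :=
    ((hiρ (fun ρ τ => bd ε ρ τ) hbε).div_const (√r)).const_mul CN
  have hj4 : IntegrableOn (fun _ : ℝ × ℝ => M) (R2 s) :=
    continuous_const.continuousOn.integrableOn_compact (R2_compact s)
  have h1 : ∫ ρ in R2 s, ∫ τ in Q2 s, ch s τ ^ 2 * |fl k ρ τ| ≤
      ∫ ρ in R2 s, (M + s * (∫ τ in Q2 s, bd κ ρ τ) / K +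
        CN * ((∫ τ in Q2 s, bd ε ρ τ) / √r)) := by
    refine setIntegral_mono_on hj1 ((hj4.add hj2).add hj3)
      (R2_compact s).isClosed.measurableSet ?_
    intro ρ hρ
    exact rect hCG hCN hCx hG hx hk hκ hε hle hε0 hr hs hK hρ (hF1 ρ hρ) (hF2 ρ hρ) (hN ρ hρ)
  refine h1.trans ?_
  have hj5 : IntegrableOn (fun ρ => M + s * (∫ τ in Q2 s, bd κ ρ τ) / K) (R2 s) := hj4.add hj2
  rw [integral_add hj5 hj3, integral_add hj4 hj2, R2_integral_const hs, integral_div,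
    integral_const_mul, integral_const_mul, integral_div]
  have h2 := avg4 hs κ hκ hκ0
  have h3 := avg4 hs ε hε hε0
  refine add_le_add (add_le_add le_rfl ?_) ?_
  · exact div_le_div_of_nonneg_right (mul_le_mul_of_nonneg_left h2 hs.le) hK0.le
  · exact mul_le_mul_of_nonneg_left (div_le_div_of_nonneg_right h3 hsr.le) hCN.le

/-- the final bookkeeping of constants. -/
lemma final_alg {Cw CG CN Cx m e q s K : ℝ} (hCG : 0 < CG) (hCN : 0 < CN) (hCx : 0 < Cx)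
    (hm : 0 ≤ m) (he : 0 ≤ e) (hq : 0 < q) (hs : 0 < s) (hK : 1 ≤ K) :
    (Cw / s) ^ 2 * (s ^ 2 * (CN * (CG * ((2 + Cx) * K * m / s) ^ 2)) + s * (2 * s * m) / K +
        CN * ((2 * s * e) / q)) ≤
      Cw ^ 2 * (CN * CG * (2 + Cx) ^ 2 + 2 + 2 * CN) * (K ^ 2 / s ^ 2 * m ^ 2 + m / K) +
        Cw ^ 2 * (CN * CG * (2 + Cx) ^ 2 + 2 + 2 * CN) / (s * q) * e := by
  have hK0 : 0 < K := by linarith
  have e1 : (Cw / s) ^ 2 * (s ^ 2 * (CN * (CG * ((2 + Cx) * K * m / s) ^ 2)) +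
      s * (2 * s * m) / K + CN * ((2 * s * e) / q)) =
      Cw ^ 2 * (CN * CG * (2 + Cx) ^ 2) * (K ^ 2 / s ^ 2 * m ^ 2) + Cw ^ 2 * 2 * (m / K) +
        Cw ^ 2 * (2 * CN) / (s * q) * e := by
    field_simp
  rw [e1]
  have h1 : 0 ≤ K ^ 2 / s ^ 2 * m ^ 2 := by positivity
  have h2 : 0 ≤ m / K := by positivity
  have h3 : 0 ≤ e / (s * q) := by positivity
  have h4 : 0 ≤ Cw ^ 2 := sq_nonneg _
  have h5 : 0 ≤ CN * CG * (2 + Cx) ^ 2 := by positivity
  have e2 : Cw ^ 2 * (CN * CG * (2 + Cx) ^ 2 + 2 + 2 * CN) * (K ^ 2 / s ^ 2 * m ^ 2 + m / K) +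
        Cw ^ 2 * (CN * CG * (2 + Cx) ^ 2 + 2 + 2 * CN) / (s * q) * e -
      (Cw ^ 2 * (CN * CG * (2 + Cx) ^ 2) * (K ^ 2 / s ^ 2 * m ^ 2) + Cw ^ 2 * 2 * (m / K) +
        Cw ^ 2 * (2 * CN) / (s * q) * e) =
      Cw ^ 2 * (2 + 2 * CN) * (K ^ 2 / s ^ 2 * m ^ 2) +
        Cw ^ 2 * (CN * CG * (2 + Cx) ^ 2 + 2 * CN) * (m / K) +
        Cw ^ 2 * (CN * CG * (2 + Cx) ^ 2 + 2) * (e / (s * q)) := by ring
  have h6 : 0 ≤ Cw ^ 2 * (2 + 2 * CN) * (K ^ 2 / s ^ 2 * m ^ 2) +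
        Cw ^ 2 * (CN * CG * (2 + Cx) ^ 2 + 2 * CN) * (m / K) +
        Cw ^ 2 * (CN * CG * (2 + Cx) ^ 2 + 2) * (e / (s * q)) := by positivity
  linarith

theorem box (hP : PSID) (hN : NEARINT) (hG : GNS2) (hF : GRADF) : BOX := by
  obtain ⟨CN, hCN, hN⟩ := hN
  obtain ⟨CG, hCG, hG⟩ := hG
  obtain ⟨Cw, hCw, hw⟩ := exists_ww
  obtain ⟨Cx, hCx, hx⟩ := exists_ch
  refine ⟨Cw ^ 2 * (CN * CG * (2 + Cx) ^ 2 + 2 + 2 * CN), by positivity, ?_⟩
  intro α A r s K hα hA hr hs hK hrs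
  obtain ⟨hB, hPB⟩ := hP V4 α A hα hA
  have hdd : psi α A = dd fun p => A p + jf α A p := funext hPB
  have hψ : Continuous (psi α A) := psi_cont hα hA
  have hk : Continuous fun p => psi α A p b0 b1 :=
    (hψ.clm_apply continuous_const).clm_apply continuous_const
  have hκ : Continuous fun p => ‖psi α A p‖ := hψ.norm
  have hen : Continuous (en r α A) := en_cont hα hA r
  have hle : ∀ p, |psi α A p b0 b1| ≤ ‖psi α A p‖ := fun p => abs_b_le _
  have hFF : ∀ ρ ∈ R2 s, ContDiff ℝ 1 (fl (fun p => psi α A p b0 b1) ρ) ∧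
      ∀ τ, ‖fderiv ℝ (fl (fun p => psi α A p b0 b1) ρ) τ‖ ≤
        2 * bd (fun p => ‖psi α A p‖) ρ τ := by
    rintro ρ ⟨⟨h1, h2⟩, ⟨h3, h4⟩⟩
    rw [hdd]
    exact hF (fun p => A p + jf α A p) hB ρ.1 ρ.2 (by linarith) (by linarith)
  refine (total hCG hCN hCx hw hG hx hk hκ hen hle (fun p => en_nonneg hr.le p) hr hs hK
    (fun ρ hρ => (hFF ρ hρ).1) (fun ρ hρ => (hFF ρ hρ).2)
    (fun ρ hρ τ => near_part hCN hN hα hA hr hs hrs hρ τ)).trans ?_
  exact final_alg hCG hCN hCx (integral_nonneg fun _ => norm_nonneg _)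
    (integral_nonneg fun p => en_nonneg hr.le p) (Real.sqrt_pos.2 hr) hs hK

end

end Crest.Agent.R235.SwcBox_193
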