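import Crest.Agent.R235.SwcGlob_34

/-!
Row 235, package SWC-AN, task 429 (helper312): `BOXE` from `BOX` by pull-back along affine maps.
-/

set_option autoImplicit false
set_option maxSynthPendingDepth 3

open Set Function Filter MeasureTheory Metric
open scoped ContDiff Topology

namespace Crest.Agent.R235.SwcBoxe_312

open Crest.Agent.R240 Crest.Agent.R235.SwcDefs_34 Crest.Agent.R235.SwcGlob_34

noncomputable section

section pull

variable {V W : Type} [NormedAddCommGroup V] [NormedSpace ℝ V] [NormedAddCommGroup W]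
  [NormedSpace ℝ W]

theorem hasFDerivAt_aff (L : V →L[ℝ] W) (z : W) (p : V) :
    HasFDerivAt (fun p : V => z + L p) L p := L.hasFDerivAt.const_add z

/-- the pull-back of a connection form by an affine map. -/
def pA (A : W → W →L[ℝ] ℝ) (L : V →L[ℝ] W) (z : W) (p : V) : V →L[ℝ] ℝ := (A (z + L p)).comp L

theorem contDiff_aff (L : V →L[ℝ] W) (z : W) : ContDiff ℝ ∞ (fun p : V => z + L p) :=
  contDiff_const.add L.contDiff

theorem contDiff_pA {A : W → W →L[ℝ] ℝ} (hA : ContDiff ℝ ∞ A) (L : V →L[ℝ] W) (z : W) :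
    ContDiff ℝ ∞ (pA A L z) :=
  (hA.comp (contDiff_aff L z)).clm_comp contDiff_const

theorem eta_pull {α : W → ℂ} (A : W → W →L[ℝ] ℝ) (hα : ContDiff ℝ ∞ α) (L : V →L[ℝ] W) (z : W)
    (p : V) : eta (fun p => α (z + L p)) (pA A L z) p = (eta α A (z + L p)).comp L := by
  have h1 : HasFDerivAt (fun p : V => α (z + L p)) ((fderiv ℝ α (z + L p)).comp L) p :=
    ((hα.differentiable (by simp)) (z + L p)).hasFDerivAt.comp p (hasFDerivAt_aff L z p)
  ext v
  simp only [eta, h1.fderiv, pA]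
  simp

theorem dd_pull {A : W → W →L[ℝ] ℝ} (hA : ContDiff ℝ ∞ A) (L : V →L[ℝ] W) (z : W) (p u v : V) :
    dd (pA A L z) p u v = dd A (z + L p) (L u) (L v) := by
  have h1 : HasFDerivAt (fun p : V => A (z + L p)) ((fderiv ℝ A (z + L p)).comp L) p :=
    ((hA.differentiable (by simp)) (z + L p)).hasFDerivAt.comp p (hasFDerivAt_aff L z p)
  have h2 := h1.clm_comp (hasFDerivAt_const L p)
  have h3 : fderiv ℝ (pA A L z) p = _ := h2.fderiv
  unfold dd
  rw [h3]
  simp

theorem psi_pull {α : W → ℂ} {A : W → W →L[ℝ] ℝ} (hα : ContDiff ℝ ∞ α) (hA : ContDiff ℝ ∞ A)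
    (L : V →L[ℝ] W) (z : W) (p u v : V) :
    psi (fun p => α (z + L p)) (pA A L z) p u v = psi α A (z + L p) (L u) (L v) := by
  have h := dd_pull hA L z p u v
  simp only [psi, eta_pull A hα L z p, wdg, add_apply, smul_apply, h]
  simp

theorem norm_psi_pull {α : W → ℂ} {A : W → W →L[ℝ] ℝ} (hα : ContDiff ℝ ∞ α)
    (hA : ContDiff ℝ ∞ A) (L : V →L[ℝ] W) (z : W) (p : V) :
    ‖psi (fun p => α (z + L p)) (pA A L z) p‖ ≤ ‖L‖ ^ 2 * ‖psi α A (z + L p)‖ := by
  refine ContinuousLinearMap.opNorm_le_bound₂ _ (by positivity) fun u v => ?_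
  rw [psi_pull hα hA]
  calc ‖psi α A (z + L p) (L u) (L v)‖ ≤ ‖psi α A (z + L p)‖ * ‖L u‖ * ‖L v‖ :=
        ContinuousLinearMap.le_opNorm₂ _ _ _
    _ ≤ ‖psi α A (z + L p)‖ * (‖L‖ * ‖u‖) * (‖L‖ * ‖v‖) := by
        gcongr
        · exact L.le_opNorm u
        · exact L.le_opNorm v
    _ = _ := by ring

theorem en_pull {α : W → ℂ} {A : W → W →L[ℝ] ℝ} (hα : ContDiff ℝ ∞ α) {r : ℝ} (hr : 0 ≤ r)
    (L : V →L[ℝ] W) (z : W) (p : V) :
    en r (fun p => α (z + L p)) (pA A L z) p ≤ (1 + ‖L‖ ^ 2) * en r α A (z + L p) := by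
  have h1 : ‖(eta α A (z + L p)).comp L‖ ^ 2 ≤ ‖L‖ ^ 2 * ‖eta α A (z + L p)‖ ^ 2 := by
    have := ContinuousLinearMap.opNorm_comp_le (eta α A (z + L p)) L
    calc _ ≤ (‖eta α A (z + L p)‖ * ‖L‖) ^ 2 := by gcongr
      _ = _ := by ring
  have h2 : 0 ≤ r * (1 - ‖α (z + L p)‖ ^ 2) ^ 2 := by positivity
  simp only [en, eta_pull A hα L z p]
  nlinarith [sq_nonneg ‖eta α A (z + L p)‖, sq_nonneg ‖L‖, mul_nonneg (sq_nonneg ‖L‖) h2]

theorem cont_eta {α : W → ℂ} {A : W → W →L[ℝ] ℝ} (hα : ContDiff ℝ ∞ α) (hA : ContDiff ℝ ∞ A) :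
    Continuous (eta α A) := by
  have h1 : Continuous (fderiv ℝ α) := hα.continuous_fderiv (by simp)
  have h2 : Continuous fun p : W => (A p).smulRight (Complex.I * α p) := by
    have := (ContinuousLinearMap.smulRightL ℝ W ℂ).continuous₂.comp
      (hA.continuous.prodMk (continuous_const.mul hα.continuous : Continuous fun p : W =>
        Complex.I * α p))
    exact this
  exact h1.sub h2

theorem cont_dd {A : W → W →L[ℝ] ℝ} (hA : ContDiff ℝ ∞ A) : Continuous (dd A) := by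
  have h1 : Continuous (fderiv ℝ A) := hA.continuous_fderiv (by simp)
  exact h1.sub ((ContinuousLinearMap.flipₗᵢ ℝ W W ℝ).continuous.comp h1)

theorem cont_psi {α : W → ℂ} {A : W → W →L[ℝ] ℝ} (hα : ContDiff ℝ ∞ α) (hA : ContDiff ℝ ∞ A) :
    Continuous (psi α A) := by
  have he := cont_eta hα hA
  have h1 : Continuous fun p => Complex.reCLM.comp (eta α A p) :=
    (ContinuousLinearMap.compL ℝ W ℂ ℝ Complex.reCLM).continuous.comp he
  have h2 : Continuous fun p => Complex.imCLM.comp (eta α A p) :=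
    (ContinuousLinearMap.compL ℝ W ℂ ℝ Complex.imCLM).continuous.comp he
  have h3 : Continuous fun p => wdg (Complex.reCLM.comp (eta α A p))
      (Complex.imCLM.comp (eta α A p)) := by
    unfold wdg
    exact ((ContinuousLinearMap.smulRightL ℝ W (W →L[ℝ] ℝ)).continuous₂.comp
      (h1.prodMk h2)).sub
      ((ContinuousLinearMap.smulRightL ℝ W (W →L[ℝ] ℝ)).continuous₂.comp (h2.prodMk h1))
  have h4 : Continuous fun p => (2 : ℝ) • wdg (Complex.reCLM.comp (eta α A p))
      (Complex.imCLM.comp (eta α A p)) := h3.const_smul (2 : ℝ)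
  exact ((continuous_const.sub ((hα.continuous.norm).pow 2)).smul (cont_dd hA)).add h4

theorem cont_en {α : W → ℂ} {A : W → W →L[ℝ] ℝ} (hα : ContDiff ℝ ∞ α) (hA : ContDiff ℝ ∞ A)
    (r : ℝ) : Continuous (en r α A) :=
  ((cont_eta hα hA).norm.pow 2).add
    (continuous_const.mul ((continuous_const.sub (hα.continuous.norm.pow 2)).pow 2))

end pull

/-- the box inequality for the pair `(L b0, L b1)`. -/
theorem box_aff {C : ℝ} (hC : 0 < C)
    (hB : ∀ (α : V4 → ℂ) (A : V4 → V4 →L[ℝ] ℝ) (r s K : ℝ),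
      ContDiff ℝ ∞ α → ContDiff ℝ ∞ A → 0 < r → 0 < s → 1 ≤ K → 1 ≤ r * s ^ 2 →
      |∫ p, tf s p * psi α A p b0 b1| ≤
        C * (K ^ 2 / s ^ 2 * (∫ p in Metric.closedBall (0 : V4) (2 * s), ‖psi α A p‖) ^ 2 +
          (∫ p in Metric.closedBall (0 : V4) (2 * s), ‖psi α A p‖) / K) +
        C / (s * √r) * ∫ p in Metric.closedBall (0 : V4) (2 * s), en r α A p)
    (L : V4 →L[ℝ] E4) (α : E4 → ℂ) (A : E4 → E4 →L[ℝ] ℝ) (z : E4) (r t K : ℝ)
    (hα : ContDiff ℝ ∞ α) (hA : ContDiff ℝ ∞ A) (hr : 0 < r) (ht : 0 < t) (hK : 1 ≤ K)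
    (hrt : 1 ≤ r * t ^ 2) :
    |∫ p : V4, tf t p * psi α A (z + L p) (L b0) (L b1)| ≤
      C * (1 + ‖L‖ ^ 2) ^ 2 * (K ^ 2 / t ^ 2 *
        (∫ p in closedBall (0 : V4) (2 * t), ‖psi α A (z + L p)‖) ^ 2 +
      (∫ p in closedBall (0 : V4) (2 * t), ‖psi α A (z + L p)‖) / K) +
      C * (1 + ‖L‖ ^ 2) ^ 2 / (t * √r) *
        ∫ p in closedBall (0 : V4) (2 * t), en r α A (z + L p) := by
  have h := hB (fun p => α (z + L p)) (pA A L z) r t K (hα.comp (contDiff_aff L z))
    (contDiff_pA hA L z) hr ht hK hrt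
  simp only [psi_pull hα hA] at h
  have hK0 : 0 < K := by linarith
  have hsr : 0 < √r := Real.sqrt_pos.2 hr
  have hcomp : IsCompact (closedBall (0 : V4) (2 * t)) := isCompact_closedBall _ _
  have hca : Continuous fun p : V4 => z + L p := (contDiff_aff L z).continuous
  have i1 : IntegrableOn (fun p : V4 => ‖psi α A (z + L p)‖) (closedBall (0 : V4) (2 * t)) :=
    (((cont_psi hα hA).comp hca).norm.continuousOn).integrableOn_compact hcomp
  have i1' : IntegrableOn (fun p : V4 => ‖psi (fun p => α (z + L p)) (pA A L z) p‖)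
      (closedBall (0 : V4) (2 * t)) :=
    ((cont_psi (hα.comp (contDiff_aff L z)) (contDiff_pA hA L z)).norm.continuousOn
      ).integrableOn_compact hcomp
  have i2 : IntegrableOn (fun p : V4 => en r α A (z + L p)) (closedBall (0 : V4) (2 * t)) :=
    (((cont_en hα hA r).comp hca).continuousOn).integrableOn_compact hcomp
  have i2' : IntegrableOn (fun p : V4 => en r (fun p => α (z + L p)) (pA A L z) p)
      (closedBall (0 : V4) (2 * t)) :=
    ((cont_en (hα.comp (contDiff_aff L z)) (contDiff_pA hA L z) r).continuousOn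
      ).integrableOn_compact hcomp
  set P := ∫ p in closedBall (0 : V4) (2 * t), ‖psi α A (z + L p)‖ with hP
  set E := ∫ p in closedBall (0 : V4) (2 * t), en r α A (z + L p) with hE
  set k := 1 + ‖L‖ ^ 2 with hk
  have hk1 : 1 ≤ k := by have := sq_nonneg ‖L‖; linarith
  have hP0 : 0 ≤ P := setIntegral_nonneg measurableSet_closedBall fun p _ => norm_nonneg _
  have hE0 : 0 ≤ E := setIntegral_nonneg measurableSet_closedBall fun p _ => by
    unfold en; positivity
  have hP' : ∫ p in closedBall (0 : V4) (2 * t), ‖psi (fun p => α (z + L p)) (pA A L z) p‖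
      ≤ k * P := by
    rw [hP, ← integral_const_mul]
    refine setIntegral_mono i1' (i1.const_mul k) fun p => ?_
    refine (norm_psi_pull hα hA L z p).trans ?_
    gcongr
    simp [hk]
  have hP'0 : 0 ≤ ∫ p in closedBall (0 : V4) (2 * t),
      ‖psi (fun p => α (z + L p)) (pA A L z) p‖ :=
    setIntegral_nonneg measurableSet_closedBall fun p _ => norm_nonneg _
  have hE' : ∫ p in closedBall (0 : V4) (2 * t), en r (fun p => α (z + L p)) (pA A L z) p
      ≤ k * E := by
    rw [hE, ← integral_const_mul]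
    exact setIntegral_mono i2' (i2.const_mul k) fun p => en_pull hα hr.le L z p
  have hkk : k ≤ k ^ 2 := by nlinarith
  calc _ ≤ _ := h
    _ ≤ C * (K ^ 2 / t ^ 2 * (k * P) ^ 2 + k * P / K) + C / (t * √r) * (k * E) := by
        gcongr
    _ ≤ _ := by
        have a1 : C * (K ^ 2 / t ^ 2 * (k * P) ^ 2 + k * P / K) ≤
            C * k ^ 2 * (K ^ 2 / t ^ 2 * P ^ 2 + P / K) := by
          have : k * P / K ≤ k ^ 2 * (P / K) := by
            rw [mul_div_assoc]
            gcongr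
          calc C * (K ^ 2 / t ^ 2 * (k * P) ^ 2 + k * P / K) ≤
              C * (K ^ 2 / t ^ 2 * (k * P) ^ 2 + k ^ 2 * (P / K)) := by gcongr
            _ = _ := by ring
        have a2 : C / (t * √r) * (k * E) ≤ C * k ^ 2 / (t * √r) * E := by
          calc C / (t * √r) * (k * E) ≤ C / (t * √r) * (k ^ 2 * E) := by gcongr
            _ = _ := by ring
        linarith

/-- exchanging the two factors of `V4`. -/
def sw : V4 ≃L[ℝ] V4 := ContinuousLinearEquiv.prodComm ℝ (ℝ × ℝ) (ℝ × ℝ)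

theorem sw_apply (p : V4) : sw p = p.swap := rfl

theorem mp_sw : MeasurePreserving (fun p : V4 => sw p) volume volume :=
  Measure.measurePreserving_swap

theorem emb_sw : MeasurableEmbedding (fun p : V4 => sw p) :=
  sw.toHomeomorph.measurableEmbedding

theorem integral_sw (f : V4 → ℝ) : ∫ p : V4, f (sw p) = ∫ p : V4, f p :=
  mp_sw.integral_comp emb_sw f

theorem setIntegral_sw (f : V4 → ℝ) (t : ℝ) :
    ∫ p in closedBall (0 : V4) t, f (sw p) = ∫ p in closedBall (0 : V4) t, f p := by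
  have h := mp_sw.setIntegral_preimage_emb emb_sw f (closedBall (0 : V4) t)
  rw [← h]
  congr 2
  ext p
  simp only [mem_closedBall_zero_iff, mem_preimage, sw_apply]
  rw [Prod.norm_def (x := p), Prod.norm_def (x := p.swap), Prod.fst_swap, Prod.snd_swap, max_comm]

theorem tf_sw (t : ℝ) (p : V4) : tf t (sw p) = tf t p := by
  simp only [tf, sw_apply, Prod.fst_swap, Prod.snd_swap]
  ring

theorem sw_b0 : sw b0 = b2 := rfl
theorem sw_b1 : sw b1 = b3 := rfl

/-- **BOXE** from **BOX**. -/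
theorem boxe (h : BOX) : BOXE := by
  obtain ⟨C, hC, hB⟩ := h
  intro L
  set L1 : V4 →L[ℝ] E4 := (L : V4 →L[ℝ] E4) with hL1
  set L2 : V4 →L[ℝ] E4 := (L : V4 →L[ℝ] E4).comp (sw : V4 →L[ℝ] V4) with hL2
  refine ⟨C * (1 + ‖L1‖ ^ 2) ^ 2 + C * (1 + ‖L2‖ ^ 2) ^ 2, by positivity, ?_⟩
  intro α A z r t K hα hA hr ht hK hrt
  have h1 := box_aff hC hB L1 α A z r t K hα hA hr ht hK hrt
  have h2 := box_aff hC hB L2 α A z r t K hα hA hr ht hK hrt
  have e0 : ∀ p, L2 p = L (sw p) := fun p => rfl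
  have e1 : ∀ p, L1 p = L p := fun p => rfl
  simp only [e0, sw_b0, sw_b1] at h2
  simp only [e1] at h1
  have e2 : ∫ p : V4, tf t p * psi α A (z + L (sw p)) (L b2) (L b3) =
      ∫ p : V4, tf t p * psi α A (z + L p) (L b2) (L b3) := by
    rw [← integral_sw (fun p : V4 => tf t p * psi α A (z + L p) (L b2) (L b3))]
    simp only [tf_sw]
  have e3 := setIntegral_sw (fun p : V4 => ‖psi α A (z + L p)‖) (2 * t)
  have e4 := setIntegral_sw (fun p : V4 => en r α A (z + L p)) (2 * t)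
  rw [e2, e3, e4] at h2
  refine (add_le_add h1 h2).trans (le_of_eq ?_)
  ring

end

end Crest.Agent.R235.SwcBoxe_312
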