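import Crest.Agent.R235.SwcDefs_34

/-!
Row 235, SWC-AN leaf L3a (helper734): the plane Gagliardo-Nirenberg-Sobolev inequality `GNS2`.
-/

set_option autoImplicit false

open MeasureTheory Set Filter
open scoped ContDiff ENNReal

namespace Crest.Agent.R235.SwcGns_734

theorem gns2 : SwcDefs_34.GNS2 := by
  have hp : Real.HolderConjugate (Module.finrank ℝ (ℝ × ℝ) : ℝ) 2 := by
    have : Module.finrank ℝ (ℝ × ℝ) = 2 := by simp
    rw [this]
    norm_num
    exact Real.HolderConjugate.two_two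
  set K : NNReal := lintegralPowLePowLIntegralFDerivConst (volume : Measure (ℝ × ℝ)) 2 with hK
  refine ⟨K + 1, by positivity, ?_⟩
  intro g hg hc
  have h := lintegral_pow_le_pow_lintegral_fderiv (volume : Measure (ℝ × ℝ)) hg hc hp
  rw [← hK] at h
  have hcont : Continuous fun p => ‖fderiv ℝ g p‖ := (hg.continuous_fderiv one_ne_zero).norm
  have hint : Integrable fun p => ‖fderiv ℝ g p‖ := by
    refine hcont.integrable_of_hasCompactSupport ?_
    exact (hc.fderiv (𝕜 := ℝ)).norm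
  have e1 : ∫ p, ‖fderiv ℝ g p‖ = (∫⁻ p, ‖fderiv ℝ g p‖ₑ).toReal := by
    rw [integral_eq_lintegral_of_nonneg_ae (ae_of_all _ fun p => norm_nonneg _)
      hcont.aestronglyMeasurable]
    congr 1
    refine lintegral_congr fun p => ?_
    rw [ofReal_norm_eq_enorm]
  have e2 : ∫ p, g p ^ 2 = (∫⁻ p, ‖g p‖ₑ ^ (2 : ℝ)).toReal := by
    rw [integral_eq_lintegral_of_nonneg_ae (ae_of_all _ fun p => sq_nonneg _)
      (hg.continuous.pow 2).aestronglyMeasurable]
    congr 1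
    refine lintegral_congr fun p => ?_
    rw [← Real.enorm_eq_ofReal (sq_nonneg _), enorm_pow]
    norm_cast
  have hfin : (∫⁻ p, ‖fderiv ℝ g p‖ₑ) ≠ ⊤ := by
    have := hint.2
    unfold HasFiniteIntegral at this
    simp only [enorm_norm] at this
    exact this.ne
  rw [e1, e2]
  have h2 : (∫⁻ p, ‖g p‖ₑ ^ (2 : ℝ)).toReal ≤
      ((K : ℝ≥0∞) * (∫⁻ p, ‖fderiv ℝ g p‖ₑ) ^ (2 : ℝ)).toReal :=
    ENNReal.toReal_mono (ENNReal.mul_ne_top ENNReal.coe_ne_top
      (ENNReal.rpow_ne_top_of_nonneg (by norm_num) hfin)) h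
  rw [ENNReal.toReal_mul, ENNReal.coe_toReal] at h2
  have e3 : ((∫⁻ p, ‖fderiv ℝ g p‖ₑ) ^ (2 : ℝ)).toReal = (∫⁻ p, ‖fderiv ℝ g p‖ₑ).toReal ^ 2 := by
    rw [← ENNReal.toReal_rpow]
    norm_cast
  rw [e3] at h2
  have h3 : 0 ≤ (∫⁻ p, ‖fderiv ℝ g p‖ₑ).toReal ^ 2 := sq_nonneg _
  nlinarith

end Crest.Agent.R235.SwcGns_734
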