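import Crest.Agent.R235.SwcDefs_34

/-!
Row 235 (S0364), package SWC-AN (leader helper34), leaf GRADF (helper168): the gradient of the flux is
controlled by the boundary mass.
-/

set_option autoImplicit false
set_option maxSynthPendingDepth 3

open Set MeasureTheory Filter Topology Function
open scoped ContDiff

namespace Crest.Agent.R235.SwcGradF_168

open Crest.Agent.R235.SwcDefs_34

noncomputable section

/-! ### general lemmas -/

/-- differentiation under the integral sign. -/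
lemma par {H : Type*} [NormedAddCommGroup H] [NormedSpace ℝ H] [ProperSpace H]
    {f : H → ℝ → ℝ} {f' : H → ℝ → H →L[ℝ] ℝ} (hf : Continuous (uncurry f))
    (hf' : Continuous (uncurry f')) (hd : ∀ x t, HasFDerivAt (fun x => f x t) (f' x t) x)
    (a b : ℝ) (x₀ : H) :
    HasFDerivAt (fun x => ∫ t in a..b, f x t) (∫ t in a..b, f' x₀ t) x₀ := by
  obtain ⟨C, hC⟩ := ((isCompact_closedBall x₀ 1).prod (isCompact_uIcc (a := a) (b := b))).exists_bound_of_continuousOn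
    hf'.continuousOn
  have hft : ∀ x, Continuous (f x) := fun x => hf.comp (Continuous.prodMk continuous_const continuous_id)
  have hft' : ∀ x, Continuous (f' x) := fun x =>
    hf'.comp (Continuous.prodMk continuous_const continuous_id)
  refine intervalIntegral.hasFDerivAt_integral_of_dominated_of_fderiv_le
    (F := f) (F' := f') (bound := fun _ => C) (Metric.closedBall_mem_nhds x₀ one_pos) ?_ ?_ ?_ ?_ ?_ ?_
  · exact Eventually.of_forall fun x => (hft x).aestronglyMeasurable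
  · exact (hft x₀).intervalIntegrable _ _
  · exact (hft' x₀).aestronglyMeasurable
  · refine Eventually.of_forall fun t ht x hx => ?_
    exact hC (x, t) ⟨hx, uIoc_subset_uIcc ht⟩
  · exact intervalIntegrable_const
  · exact Eventually.of_forall fun t _ x _ => hd x t

/-- Fubini for continuous functions. -/
lemma swap {f : ℝ × ℝ → ℝ} (hf : Continuous f) {a b c d : ℝ} (h : a ≤ b) (h' : c ≤ d) :
    ∫ x in a..b, ∫ y in c..d, f (x, y) = ∫ y in c..d, ∫ x in a..b, f (x, y) := by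
  simp_rw [intervalIntegral.integral_of_le h, intervalIntegral.integral_of_le h']
  refine integral_integral_swap (f := fun x y => f (x, y)) ?_
  rw [Measure.prod_restrict]
  exact (hf.continuousOn.integrableOn_compact (isCompact_Icc.prod isCompact_Icc)).mono_set
    (prod_mono Ioc_subset_Icc_self Ioc_subset_Icc_self)

/-! ### the sides -/

lemma dd_apply {V : Type} [NormedAddCommGroup V] [NormedSpace ℝ V] (B : V → V →L[ℝ] ℝ) (p u v : V) :
    dd B p u v = fderiv ℝ B p u v - fderiv ℝ B p v u := by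
  simp [dd]

section Sides

variable {B : V4 → V4 →L[ℝ] ℝ} (hB : ContDiff ℝ ∞ B)

include hB

lemma cont_fderiv : Continuous (fderiv ℝ B) :=
  hB.continuous_fderiv (by simp)

lemma diffB : Differentiable ℝ B := hB.differentiable (by simp)

lemma cont_dd : Continuous (dd B) := by
  have h := cont_fderiv hB
  unfold dd
  have h2 : Continuous fun p => (fderiv ℝ B p).flip :=
    (ContinuousLinearMap.flipₗᵢ ℝ V4 V4 ℝ).continuous.comp h
  exact h.sub h2

/-- the derivative of a side. -/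
lemma side_hasFDerivAt (c : ℝ → ℝ × ℝ) (hc : Continuous c) (T : V4) (a b : ℝ) (τ : ℝ × ℝ) :
    HasFDerivAt (fun τ : ℝ × ℝ => ∫ t in a..b, B (c t, τ) T)
      (∫ t in a..b, ((fderiv ℝ B (c t, τ)).flip T).comp (ContinuousLinearMap.inr ℝ (ℝ × ℝ) (ℝ × ℝ)))
      τ := by
  have hp : Continuous fun q : (ℝ × ℝ) × ℝ => ((c q.2, q.1) : V4) :=
    (hc.comp continuous_snd).prodMk continuous_fst
  refine par (f := fun τ t => B (c t, τ) T)
    (f' := fun τ t => ((fderiv ℝ B (c t, τ)).flip T).comp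
      (ContinuousLinearMap.inr ℝ (ℝ × ℝ) (ℝ × ℝ))) ?_ ?_ ?_ a b τ
  · exact (hB.continuous.comp hp).clm_apply continuous_const
  · have h1 : Continuous fun q : (ℝ × ℝ) × ℝ => (fderiv ℝ B (c q.2, q.1)).flip :=
      (ContinuousLinearMap.flipₗᵢ ℝ V4 V4 ℝ).continuous.comp ((cont_fderiv hB).comp hp)
    exact (h1.clm_apply continuous_const).clm_comp continuous_const
  · intro τ t
    have h1 : HasFDerivAt (fun τ : ℝ × ℝ => ((c t, τ) : V4))
        (ContinuousLinearMap.inr ℝ (ℝ × ℝ) (ℝ × ℝ)) τ := hasFDerivAt_prodMk_right _ _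
    have h2 := (diffB hB (c t, τ)).hasFDerivAt.comp τ h1
    have h3 : HasFDerivAt (fun τ : ℝ × ℝ => B (c t, τ) T) _ τ :=
      h2.clm_apply (hasFDerivAt_const T τ)
    refine h3.congr_fderiv ?_
    refine ContinuousLinearMap.ext fun v => ?_
    simp

lemma side_cont (c : ℝ → ℝ × ℝ) (hc : Continuous c) (T : V4) (a b : ℝ) :
    Continuous fun τ : ℝ × ℝ => (∫ t in a..b, ((fderiv ℝ B (c t, τ)).flip T).comp
      (ContinuousLinearMap.inr ℝ (ℝ × ℝ) (ℝ × ℝ)) : ℝ × ℝ →L[ℝ] ℝ) := by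
  have hp : Continuous fun q : (ℝ × ℝ) × ℝ => ((c q.2, q.1) : V4) :=
    (hc.comp continuous_snd).prodMk continuous_fst
  refine intervalIntegral.continuous_parametric_intervalIntegral_of_continuous'
    (f := fun τ t => ((fderiv ℝ B (c t, τ)).flip T).comp
      (ContinuousLinearMap.inr ℝ (ℝ × ℝ) (ℝ × ℝ))) ?_ a b
  have h1 : Continuous fun q : (ℝ × ℝ) × ℝ => (fderiv ℝ B (c q.2, q.1)).flip :=
    (ContinuousLinearMap.flipₗᵢ ℝ V4 V4 ℝ).continuous.comp ((cont_fderiv hB).comp hp)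
  exact (h1.clm_apply continuous_const).clm_comp continuous_const

/-- the value of the derivative of a side: the `dd`-part and the boundary terms. -/
lemma side_apply (c : ℝ → ℝ × ℝ) (hc : Continuous c) (T : ℝ × ℝ)
    (hcd : ∀ t, HasDerivAt c T t) (a b : ℝ) (τ v : ℝ × ℝ) :
    (∫ t in a..b, ((fderiv ℝ B (c t, τ)).flip (T, 0)).comp
      (ContinuousLinearMap.inr ℝ (ℝ × ℝ) (ℝ × ℝ)) : ℝ × ℝ →L[ℝ] ℝ) v =
      (∫ t in a..b, dd B (c t, τ) ((0 : ℝ × ℝ), v) (T, (0 : ℝ × ℝ))) +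
        (B (c b, τ) ((0 : ℝ × ℝ), v) - B (c a, τ) ((0 : ℝ × ℝ), v)) := by
  have hp : Continuous fun t : ℝ => ((c t, τ) : V4) := hc.prodMk continuous_const
  have hF : Continuous fun t : ℝ => fderiv ℝ B (c t, τ) := (cont_fderiv hB).comp hp
  have hint : IntervalIntegrable (fun t => (((fderiv ℝ B (c t, τ)).flip (T, 0)).comp
      (ContinuousLinearMap.inr ℝ (ℝ × ℝ) (ℝ × ℝ)) : ℝ × ℝ →L[ℝ] ℝ)) volume a b := by
    refine Continuous.intervalIntegrable ?_ _ _
    have h1 : Continuous fun t : ℝ => (fderiv ℝ B (c t, τ)).flip :=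
      (ContinuousLinearMap.flipₗᵢ ℝ V4 V4 ℝ).continuous.comp hF
    exact (h1.clm_apply continuous_const).clm_comp continuous_const
  rw [ContinuousLinearMap.intervalIntegral_apply hint v]
  have hder : ∀ t, HasDerivAt (fun t => B (c t, τ) ((0 : ℝ × ℝ), v))
      (fderiv ℝ B (c t, τ) (T, (0 : ℝ × ℝ)) ((0 : ℝ × ℝ), v)) t := by
    intro t
    have h1 : HasDerivAt (fun t : ℝ => ((c t, τ) : V4)) (T, (0 : ℝ × ℝ)) t :=
      (hcd t).prodMk (hasDerivAt_const t τ)
    have h2 := (diffB hB (c t, τ)).hasFDerivAt.comp_hasDerivAt t h1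
    have h3 := h2.clm_apply (hasDerivAt_const t (((0 : ℝ × ℝ), v) : V4))
    simpa using h3
  have hc1 : Continuous fun t : ℝ => fderiv ℝ B (c t, τ) (T, (0 : ℝ × ℝ)) ((0 : ℝ × ℝ), v) :=
    (hF.clm_apply continuous_const).clm_apply continuous_const
  have hc2 : Continuous fun t : ℝ => dd B (c t, τ) ((0 : ℝ × ℝ), v) (T, (0 : ℝ × ℝ)) :=
    (((cont_dd hB).comp hp).clm_apply continuous_const).clm_apply continuous_const
  have hftc := intervalIntegral.integral_eq_sub_of_hasDerivAt (a := a) (b := b)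
    (fun t _ => hder t) (hc1.intervalIntegrable _ _)
  rw [← hftc, ← intervalIntegral.integral_add (hc2.intervalIntegrable _ _)
    (hc1.intervalIntegrable _ _)]
  refine intervalIntegral.integral_congr fun t _ => ?_
  simp only [dd_apply, ContinuousLinearMap.comp_apply, ContinuousLinearMap.flip_apply,
    ContinuousLinearMap.inr_apply]
  ring

lemma norm_side_le (c : ℝ → ℝ × ℝ) (hc : Continuous c) (T : ℝ × ℝ) (hT : ‖T‖ ≤ 1) {a b : ℝ}
    (hab : a ≤ b) (τ v : ℝ × ℝ) :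
    |∫ t in a..b, dd B (c t, τ) ((0 : ℝ × ℝ), v) (T, (0 : ℝ × ℝ))| ≤
      (∫ t in a..b, ‖dd B (c t, τ)‖) * ‖v‖ := by
  have hp : Continuous fun t : ℝ => ((c t, τ) : V4) := hc.prodMk continuous_const
  have hD : Continuous fun t : ℝ => ‖dd B (c t, τ)‖ := ((cont_dd hB).comp hp).norm
  rw [← Real.norm_eq_abs, ← intervalIntegral.integral_mul_const]
  refine intervalIntegral.norm_integral_le_of_norm_le hab ?_
    ((hD.mul continuous_const).intervalIntegrable _ _)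
  refine Eventually.of_forall fun t _ => ?_
  have h1 := (dd B (c t, τ)).le_opNorm₂ ((0 : ℝ × ℝ), v) (T, (0 : ℝ × ℝ))
  have h2 : ‖(((0 : ℝ × ℝ), v) : V4)‖ = ‖v‖ := by simp [Prod.norm_def]
  have h3 : ‖((T, (0 : ℝ × ℝ)) : V4)‖ = ‖T‖ := by simp [Prod.norm_def]
  rw [h2, h3] at h1
  refine h1.trans ?_
  have h4 : 0 ≤ ‖dd B (c t, τ)‖ * ‖v‖ := by positivity
  calc ‖dd B (c t, τ)‖ * ‖v‖ * ‖T‖ ≤ ‖dd B (c t, τ)‖ * ‖v‖ * 1 := by gcongr
    _ = _ := mul_one _

/-- Green's formula for the flux. -/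
lemma flux_eq {ρ1 ρ2 : ℝ} (h1 : 0 < ρ1) (h2 : 0 < ρ2) (τ : ℝ × ℝ) :
    flux (dd B) ρ1 ρ2 τ =
      (∫ t in (-ρ1)..ρ1, B ((t, -ρ2), τ) ((1, 0), 0)) - (∫ t in (-ρ1)..ρ1, B ((t, ρ2), τ) ((1, 0), 0)) +
      ((∫ t in (-ρ2)..ρ2, B ((ρ1, t), τ) ((0, 1), 0)) -
        ∫ t in (-ρ2)..ρ2, B ((-ρ1, t), τ) ((0, 1), 0)) := by
  have hp : Continuous fun q : ℝ × ℝ => ((q, τ) : V4) := continuous_id.prodMk continuous_const
  have hF : Continuous fun q : ℝ × ℝ => fderiv ℝ B (q, τ) := (cont_fderiv hB).comp hp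
  have hc1 : Continuous fun q : ℝ × ℝ => fderiv ℝ B (q, τ) b0 b1 :=
    (hF.clm_apply continuous_const).clm_apply continuous_const
  have hc2 : Continuous fun q : ℝ × ℝ => fderiv ℝ B (q, τ) b1 b0 :=
    (hF.clm_apply continuous_const).clm_apply continuous_const
  have hin : ∀ (f : ℝ × ℝ → ℝ), Continuous f → ∀ x, Continuous fun y => f (x, y) :=
    fun f hf x => hf.comp (continuous_const.prodMk continuous_id)
  have hin' : ∀ (f : ℝ × ℝ → ℝ), Continuous f → ∀ y, Continuous fun x => f (x, y) :=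
    fun f hf x => hf.comp (continuous_id.prodMk continuous_const)
  have hout : ∀ (f : ℝ × ℝ → ℝ), Continuous f → Continuous fun x => ∫ y in (-ρ2)..ρ2, f (x, y) :=
    fun f hf => intervalIntegral.continuous_parametric_intervalIntegral_of_continuous'
      (f := fun x y => f (x, y)) hf _ _
  have e1 : flux (dd B) ρ1 ρ2 τ =
      (∫ x in (-ρ1)..ρ1, ∫ y in (-ρ2)..ρ2, fderiv ℝ B ((x, y), τ) b0 b1) -
      ∫ x in (-ρ1)..ρ1, ∫ y in (-ρ2)..ρ2, fderiv ℝ B ((x, y), τ) b1 b0 := by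
    unfold flux
    rw [← intervalIntegral.integral_sub ((hout _ hc1).intervalIntegrable _ _)
      ((hout _ hc2).intervalIntegrable _ _)]
    refine intervalIntegral.integral_congr fun x _ => ?_
    rw [← intervalIntegral.integral_sub ((hin _ hc1 x).intervalIntegrable _ _)
      ((hin _ hc2 x).intervalIntegrable _ _)]
    refine intervalIntegral.integral_congr fun y _ => ?_
    exact dd_apply _ _ _ _
  have e2 : (∫ x in (-ρ1)..ρ1, ∫ y in (-ρ2)..ρ2, fderiv ℝ B ((x, y), τ) b0 b1) =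
      ∫ y in (-ρ2)..ρ2, (B ((ρ1, y), τ) b1 - B ((-ρ1, y), τ) b1) := by
    rw [swap hc1 (by linarith) (by linarith)]
    refine intervalIntegral.integral_congr fun y _ => ?_
    refine intervalIntegral.integral_eq_sub_of_hasDerivAt (f := fun x => B ((x, y), τ) b1)
      (fun x _ => ?_) ((hin' _ hc1 y).intervalIntegrable _ _)
    have h1 : HasDerivAt (fun x : ℝ => (((x, y), τ) : V4)) b0 x :=
      ((hasDerivAt_id x).prodMk (hasDerivAt_const x y)).prodMk (hasDerivAt_const x τ)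
    have h2 := (diffB hB ((x, y), τ)).hasFDerivAt.comp_hasDerivAt x h1
    have h3 := h2.clm_apply (hasDerivAt_const x b1)
    simpa using h3
  have e3 : (∫ x in (-ρ1)..ρ1, ∫ y in (-ρ2)..ρ2, fderiv ℝ B ((x, y), τ) b1 b0) =
      ∫ x in (-ρ1)..ρ1, (B ((x, ρ2), τ) b0 - B ((x, -ρ2), τ) b0) := by
    refine intervalIntegral.integral_congr fun x _ => ?_
    refine intervalIntegral.integral_eq_sub_of_hasDerivAt (f := fun y => B ((x, y), τ) b0)
      (fun y _ => ?_) ((hin _ hc2 x).intervalIntegrable _ _)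
    have h1 : HasDerivAt (fun y : ℝ => (((x, y), τ) : V4)) b1 y :=
      ((hasDerivAt_const y x).prodMk (hasDerivAt_id y)).prodMk (hasDerivAt_const y τ)
    have h2 := (diffB hB ((x, y), τ)).hasFDerivAt.comp_hasDerivAt y h1
    have h3 := h2.clm_apply (hasDerivAt_const y b0)
    simpa using h3
  have hcB : ∀ (T : V4), Continuous fun q : ℝ × ℝ => B (q, τ) T := fun T =>
    (hB.continuous.comp hp).clm_apply continuous_const
  rw [e1, e2, e3, intervalIntegral.integral_sub ((hin _ (hcB b1) _).intervalIntegrable _ _)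
    ((hin _ (hcB b1) _).intervalIntegrable _ _),
    intervalIntegral.integral_sub ((hin' _ (hcB b0) _).intervalIntegrable _ _)
    ((hin' _ (hcB b0) _).intervalIntegrable _ _)]
  simp only [b0, b1, Prod.mk_zero_zero]
  ring

end Sides

/-- LEAF GRADF. -/
theorem gradf : GRADF := by
  intro B hB ρ1 ρ2 h1 h2
  have hfx : flux (dd B) ρ1 ρ2 = fun τ =>
      (∫ t in (-ρ1)..ρ1, B ((t, -ρ2), τ) ((1, 0), 0)) - (∫ t in (-ρ1)..ρ1, B ((t, ρ2), τ) ((1, 0), 0)) +
      ((∫ t in (-ρ2)..ρ2, B ((ρ1, t), τ) ((0, 1), 0)) -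
        ∫ t in (-ρ2)..ρ2, B ((-ρ1, t), τ) ((0, 1), 0)) := funext fun τ => flux_eq hB h1 h2 τ
  have cH : ∀ y : ℝ, Continuous fun t : ℝ => ((t, y) : ℝ × ℝ) := fun y =>
    continuous_id.prodMk continuous_const
  have cV : ∀ x : ℝ, Continuous fun t : ℝ => ((x, t) : ℝ × ℝ) := fun x =>
    continuous_const.prodMk continuous_id
  have dH : ∀ y t : ℝ, HasDerivAt (fun t : ℝ => ((t, y) : ℝ × ℝ)) (1, 0) t := fun y t =>
    (hasDerivAt_id t).prodMk (hasDerivAt_const t y)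
  have dV : ∀ x t : ℝ, HasDerivAt (fun t : ℝ => ((x, t) : ℝ × ℝ)) (0, 1) t := fun x t =>
    (hasDerivAt_const t x).prodMk (hasDerivAt_id t)
  set S : (ℝ → ℝ × ℝ) → (ℝ × ℝ) → ℝ → ℝ × ℝ → ℝ × ℝ →L[ℝ] ℝ := fun c T ρ τ =>
    ∫ t in (-ρ)..ρ, ((fderiv ℝ B (c t, τ)).flip (T, 0)).comp
      (ContinuousLinearMap.inr ℝ (ℝ × ℝ) (ℝ × ℝ)) with hS
  have hder : ∀ τ, HasFDerivAt (flux (dd B) ρ1 ρ2)
      (S (fun t => (t, -ρ2)) (1, 0) ρ1 τ - S (fun t => (t, ρ2)) (1, 0) ρ1 τ +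
        (S (fun t => (ρ1, t)) (0, 1) ρ2 τ - S (fun t => (-ρ1, t)) (0, 1) ρ2 τ)) τ := by
    intro τ
    rw [hfx]
    exact ((side_hasFDerivAt hB _ (cH _) _ _ _ τ).sub (side_hasFDerivAt hB _ (cH _) _ _ _ τ)).add
      ((side_hasFDerivAt hB _ (cV _) _ _ _ τ).sub (side_hasFDerivAt hB _ (cV _) _ _ _ τ))
  have hcS : ∀ (c : ℝ → ℝ × ℝ) (T : ℝ × ℝ) (ρ : ℝ), Continuous c → Continuous (S c T ρ) :=
    fun c T ρ hc => side_cont hB c hc (T, 0) (-ρ) ρ
  refine ⟨contDiff_one_iff_hasFDerivAt.2 ⟨_, ?_, hder⟩, fun τ => ?_⟩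
  · exact ((hcS _ _ _ (cH _)).sub (hcS _ _ _ (cH _))).add
      ((hcS _ _ _ (cV _)).sub (hcS _ _ _ (cV _)))
  · rw [(hder τ).fderiv]
    have hI : ∀ (c : ℝ → ℝ × ℝ), Continuous c → ∀ a b : ℝ,
        IntervalIntegrable (fun t => ‖dd B (c t, τ)‖) volume a b := fun c hc a b =>
      (((cont_dd hB).comp (hc.prodMk continuous_const)).norm).intervalIntegrable _ _
    have hbd : bdF (fun p => ‖dd B (p, τ)‖) (-ρ1) ρ1 (-ρ2) ρ2 =
        (∫ t in (-ρ1)..ρ1, ‖dd B ((t, -ρ2), τ)‖) + (∫ t in (-ρ1)..ρ1, ‖dd B ((t, ρ2), τ)‖) +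
        ((∫ t in (-ρ2)..ρ2, ‖dd B ((ρ1, t), τ)‖) + ∫ t in (-ρ2)..ρ2, ‖dd B ((-ρ1, t), τ)‖) := by
      unfold bdF
      rw [intervalIntegral.integral_add (hI _ (cH _) _ _) (hI _ (cH _) _ _),
        intervalIntegral.integral_add (hI _ (cV _) _ _) (hI _ (cV _) _ _)]
    have hnn : ∀ (c : ℝ → ℝ × ℝ) (ρ : ℝ), 0 < ρ → 0 ≤ ∫ t in (-ρ)..ρ, ‖dd B (c t, τ)‖ :=
      fun c ρ hρ => intervalIntegral.integral_nonneg (by linarith) fun t _ => norm_nonneg _
    have n1 := hnn (fun t => (t, -ρ2)) ρ1 h1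
    have n2 := hnn (fun t => (t, ρ2)) ρ1 h1
    have n3 := hnn (fun t => (ρ1, t)) ρ2 h2
    have n4 := hnn (fun t => (-ρ1, t)) ρ2 h2
    refine ContinuousLinearMap.opNorm_le_bound _ ?_ fun v => ?_
    · rw [hbd]; linarith
    · have hT1 : ‖((1, 0) : ℝ × ℝ)‖ ≤ 1 := by simp [Prod.norm_def]
      have hT2 : ‖((0, 1) : ℝ × ℝ)‖ ≤ 1 := by simp [Prod.norm_def]
      have hr1 : -ρ1 ≤ ρ1 := by linarith
      have hr2 : -ρ2 ≤ ρ2 := by linarith
      have a1 := abs_le.1 (norm_side_le hB (fun t => (t, -ρ2)) (cH _) (1, 0) hT1 hr1 τ v)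
      have a2 := abs_le.1 (norm_side_le hB (fun t => (t, ρ2)) (cH _) (1, 0) hT1 hr1 τ v)
      have a3 := abs_le.1 (norm_side_le hB (fun t => (ρ1, t)) (cV _) (0, 1) hT2 hr2 τ v)
      have a4 := abs_le.1 (norm_side_le hB (fun t => (-ρ1, t)) (cV _) (0, 1) hT2 hr2 τ v)
      have b1 := side_apply hB (fun t => (t, -ρ2)) (cH _) (1, 0) (dH _) (-ρ1) ρ1 τ v
      have b2 := side_apply hB (fun t => (t, ρ2)) (cH _) (1, 0) (dH _) (-ρ1) ρ1 τ v
      have b3 := side_apply hB (fun t => (ρ1, t)) (cV _) (0, 1) (dV _) (-ρ2) ρ2 τ v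
      have b4 := side_apply hB (fun t => (-ρ1, t)) (cV _) (0, 1) (dV _) (-ρ2) ρ2 τ v
      have hv := norm_nonneg v
      simp only [add_apply, sub_apply, hS]
      rw [b1, b2, b3, b4, hbd, Real.norm_eq_abs, abs_le]
      constructor <;> nlinarith [mul_nonneg n1 hv, mul_nonneg n2 hv, mul_nonneg n3 hv,
        mul_nonneg n4 hv]

end

end Crest.Agent.R235.SwcGradF_168
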