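import Crest.Agent.R235.SwcGlob_34
import Crest.Agent.R240.EllM2

/-!
Row 235 (S0364), PACKAGE SWC-AN, helper659: the PAIRING FORMULA (part (i) of QCH).

`tst x L z f i j` = the two-form `f (L⁻¹ (y - z)) (L⁻¹)^* (dx_i ∧ dx_j)` in the chart at `x`.
`pairing`: `D.I T (tst 2 3) = ± ∫ f(p) T_{z + L p} (L b0, L b1) dp` and the same for `(0,1)`.
-/

set_option autoImplicit false
set_option maxSynthPendingDepth 3

open Set Function Filter MeasureTheory Metric
open scoped Manifold ContDiff Topology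

universe u

namespace Crest.Agent.R235.SwcPair_659

open Crest.Agent.R240 Crest.Agent.R240.Ch Crest.Agent.R240.Int Crest.Agent.R235
open Crest.Agent.R235.SwcDefs_34 Crest.Agent.R235.SwcGlob_34

noncomputable section

/-! ### coordinates -/

/-- `V4 → E4`. -/
def κ : V4 ≃L[ℝ] E4 := LinearEquiv.toContinuousLinearEquiv
  { toFun := fun p => WithLp.toLp 2 ![p.1.1, p.1.2, p.2.1, p.2.2]
    invFun := fun y => ((y 0, y 1), (y 2, y 3))
    map_add' := by
      intro p q
      ext i
      fin_cases i <;> simp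
    map_smul' := by
      intro r p
      ext i
      fin_cases i <;> simp
    left_inv := by
      intro p
      simp
    right_inv := by
      intro y
      ext i
      fin_cases i <;> simp }

theorem κ_apply (p : V4) : κ p = WithLp.toLp 2 ![p.1.1, p.1.2, p.2.1, p.2.2] := rfl

theorem κ_symm_apply (y : E4) : κ.symm y = ((y 0, y 1), (y 2, y 3)) := rfl

theorem κ_b0 : κ b0 = ee 0 := by
  ext i
  rw [κ_apply]
  fin_cases i <;> simp [b0]

theorem κ_b1 : κ b1 = ee 1 := by
  ext i
  rw [κ_apply]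
  fin_cases i <;> simp [b1]

theorem κ_b2 : κ b2 = ee 2 := by
  ext i
  rw [κ_apply]
  fin_cases i <;> simp [b2]

theorem κ_b3 : κ b3 = ee 3 := by
  ext i
  rw [κ_apply]
  fin_cases i <;> simp [b3]

theorem mp_κ : MeasurePreserving κ (volume : Measure V4) (volume : Measure E4) := by
  have h1 : MeasurePreserving (fun p : V4 => (![p.1.1, p.1.2, p.2.1, p.2.2] : Fin 4 → ℝ))
      volume volume := by
    have hm : Measurable (fun p : V4 => (![p.1.1, p.1.2, p.2.1, p.2.2] : Fin 4 → ℝ)) := by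
      refine measurable_pi_lambda _ fun i => ?_
      fin_cases i
      · exact measurable_fst.fst
      · exact measurable_fst.snd
      · exact measurable_snd.fst
      · exact measurable_snd.snd
    refine ⟨hm, ?_⟩
    symm
    refine Measure.pi_eq fun s hs => ?_
    rw [Measure.map_apply hm (MeasurableSet.univ_pi hs)]
    have e : (fun p : V4 => (![p.1.1, p.1.2, p.2.1, p.2.2] : Fin 4 → ℝ)) ⁻¹' (univ.pi s) =
        (s 0 ×ˢ s 1) ×ˢ (s 2 ×ˢ s 3) := by
      ext p
      simp only [mem_preimage, mem_univ_pi, Fin.forall_fin_succ, mem_prod]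
      simp [and_assoc]
    rw [e]
    show (Measure.prod (Measure.prod volume volume) (Measure.prod volume volume))
      ((s 0 ×ˢ s 1) ×ˢ (s 2 ×ˢ s 3)) = _
    rw [Measure.prod_prod, Measure.prod_prod, Measure.prod_prod, Fin.prod_univ_four]
    ring
  exact (PiLp.volume_preserving_toLp (Fin 4)).comp h1

/-- the linear part in `E4`. -/
def Am (L : V4 ≃L[ℝ] E4) : E4 ≃L[ℝ] E4 := κ.symm.trans L

theorem Am_κ (L : V4 ≃L[ℝ] E4) (p : V4) : Am L (κ p) = L p := by
  show L (κ.symm (κ p)) = L p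
  rw [κ.symm_apply_apply]

theorem Am_symm (L : V4 ≃L[ℝ] E4) (y : E4) : (Am L).symm y = κ (L.symm y) := rfl

/-- the determinant. -/
def dt (L : V4 ≃L[ℝ] E4) : ℝ := LinearMap.det ((Am L : E4 →L[ℝ] E4) : E4 →ₗ[ℝ] E4)

theorem dt_ne (L : V4 ≃L[ℝ] E4) : dt L ≠ 0 := by
  have h : IsUnit (LinearMap.det (((Am L).toLinearEquiv : E4 ≃ₗ[ℝ] E4) : E4 →ₗ[ℝ] E4)) :=
    (Am L).toLinearEquiv.isUnit_det'
  exact h.ne_zero

/-- change of variables. -/
theorem cov_L (L : V4 ≃L[ℝ] E4) (z : E4) (g : E4 → ℝ) :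
    ∫ y, g y = |dt L| * ∫ p : V4, g (z + L p) := by
  have h1 : ∫ p : V4, g (z + L p) = ∫ w : E4, g (z + Am L w) := by
    have := mp_κ.integral_comp κ.toHomeomorph.measurableEmbedding (fun w => g (z + Am L w))
    rw [← this]
    simp only [Am_κ]
  have h2 : ∫ w : E4, g (z + Am L w) = |(dt L)⁻¹| * ∫ y : E4, g (z + y) := by
    have h3 : Measure.map (Am L) (volume : Measure E4) =
        ENNReal.ofReal |(dt L)⁻¹| • (volume : Measure E4) :=
      Measure.map_linearMap_addHaar_eq_smul_addHaar (μ := (volume : Measure E4))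
        (f := ((Am L : E4 →L[ℝ] E4) : E4 →ₗ[ℝ] E4)) (dt_ne L)
    have h4 := (Am L).toHomeomorph.measurableEmbedding.integral_map (μ := (volume : Measure E4))
      (fun y => g (z + y))
    have h5 : Measure.map (Am L).toHomeomorph (volume : Measure E4) =
      ENNReal.ofReal |(dt L)⁻¹| • (volume : Measure E4) := h3
    rw [h5, integral_smul_measure, ENNReal.toReal_ofReal (abs_nonneg _)] at h4
    rw [← smul_eq_mul, h4]
    rfl
  have h3 : ∫ y : E4, g (z + y) = ∫ y, g y := integral_add_left_eq_self g z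
  rw [h1, h2, h3, ← mul_assoc, ← abs_mul, mul_inv_cancel₀ (dt_ne L), abs_one, one_mul]

/-! ### the test forms -/

/-- the form `(L⁻¹)^* (dx_i ∧ dx_j)`. -/
def bas (L : V4 ≃L[ℝ] E4) (i j : Fin 4) : Bil := pull ((Am L).symm : E4 →L[ℝ] E4) (wed (pr i) (pr j))

theorem bas_apply (L : V4 ≃L[ℝ] E4) (i j : Fin 4) (u v : E4) :
    bas L i j u v = κ (L.symm u) i * κ (L.symm v) j - κ (L.symm v) i * κ (L.symm u) j := by
  unfold bas
  rw [pull_apply, wed_apply]
  show (Am L).symm u i * (Am L).symm v j - _ = _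
  rw [Am_symm, Am_symm]
  show _ - (κ (L.symm u)) j * (κ (L.symm v)) i = _
  ring

theorem bas_alt (L : V4 ≃L[ℝ] E4) (i j : Fin 4) : Alt (bas L i j) := fun v => by
  rw [bas_apply]; ring

/-- the form in the chart. -/
def tb (L : V4 ≃L[ℝ] E4) (z : E4) (f : V4 → ℝ) (i j : Fin 4) (y : E4) : Bil :=
  f (L.symm (y - z)) • bas L i j

theorem tb_alt (L : V4 ≃L[ℝ] E4) (z : E4) (f : V4 → ℝ) (i j : Fin 4) (y : E4) :
    Alt (tb L z f i j y) := fun v => by
  unfold tb
  rw [smul_apply, smul_apply, bas_alt L i j v, smul_zero]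

theorem tb_smooth (L : V4 ≃L[ℝ] E4) (z : E4) {f : V4 → ℝ} (hf : ContDiff ℝ ∞ f) (i j : Fin 4) :
    ContDiff ℝ ∞ (tb L z f i j) := by
  have h1 : ContDiff ℝ ∞ fun y : E4 => f (L.symm (y - z)) :=
    hf.comp (L.symm.contDiff.comp (contDiff_id.sub contDiff_const))
  exact h1.smul contDiff_const

/-- `W` against a basic form. -/
theorem W_bas {b : Bil} (hb : Alt b) (L : V4 ≃L[ℝ] E4) :
    W b (bas L 2 3) = (dt L)⁻¹ * b (L b0) (L b1) ∧
      W b (bas L 0 1) = (dt L)⁻¹ * b (L b2) (L b3) := by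
  have key : ∀ i j : Fin 4, W b (bas L i j) =
      (dt L)⁻¹ * W (pull (Am L : E4 →L[ℝ] E4) b) (wed (pr i) (pr j)) := by
    intro i j
    have h1 := W_pull hb (bas_alt L i j) (Am L : E4 →L[ℝ] E4)
    have h2 : pull (Am L : E4 →L[ℝ] E4) (bas L i j) = wed (pr i) (pr j) := by
      ext u v
      unfold bas
      rw [pull_apply, pull_apply]
      show wed (pr i) (pr j) ((Am L).symm (Am L u)) ((Am L).symm (Am L v)) = _
      rw [(Am L).symm_apply_apply, (Am L).symm_apply_apply]
    rw [h2] at h1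
    have h3 : LinearMap.det ((Am L : E4 →L[ℝ] E4) : E4 →ₗ[ℝ] E4) = dt L := rfl
    rw [h1, h3, ← mul_assoc, inv_mul_cancel₀ (dt_ne L), one_mul]
  have hent : ∀ i j k l : Fin 4, ent (wed (pr i) (pr j)) k l =
      (ee k) i * (ee l) j - (ee l) i * (ee k) j := by
    intro i j k l
    unfold ent
    rw [wed_apply]
    show (ee k) i * (ee l) j - (ee k) j * (ee l) i = _
    ring
  have hL : ∀ p, (Am L : E4 →L[ℝ] E4) (κ p) = L p := fun p => Am_κ L p
  constructor
  · rw [key 2 3]
    congr 1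
    have : W (pull (Am L : E4 →L[ℝ] E4) b) (wed (pr 2) (pr 3)) =
        ent (pull (Am L : E4 →L[ℝ] E4) b) 0 1 := by
      unfold W
      simp [hent]
    rw [this]
    unfold ent
    rw [pull_apply, ← κ_b0, ← κ_b1, hL, hL]
  · rw [key 0 1]
    congr 1
    have : W (pull (Am L : E4 →L[ℝ] E4) b) (wed (pr 0) (pr 1)) =
        ent (pull (Am L : E4 →L[ℝ] E4) b) 2 3 := by
      unfold W
      simp [hent]
    rw [this]
    unfold ent
    rw [pull_apply, ← κ_b2, ← κ_b3, hL, hL]

/-! ### on the manifold -/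

section Man

variable {M : Type u} [MetricSpace M] [CompactSpace M] [ChartedSpace E4 M]
  [IsManifold 𝓘(ℝ, E4) ∞ M] [MeasurableSpace M] [BorelSpace M]

/-- the test form. -/
def tst (x : M) (L : V4 ≃L[ℝ] E4) (z : E4) (f : V4 → ℝ) (i j : Fin 4) : F2 E4 M :=
  ext2 x (tb L z f i j)

omit [CompactSpace M] [MeasurableSpace M] [BorelSpace M] [IsManifold 𝓘(ℝ, E4) ∞ M] in
theorem tb_off (L : V4 ≃L[ℝ] E4) {z : E4} {f : V4 → ℝ} (i j : Fin 4) {y : E4}
    (hy : y ∉ (fun p => z + L p) '' tsupport f) : tb L z f i j y = 0 := by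
  have h : f (L.symm (y - z)) = 0 := by
    by_contra h0
    refine hy ⟨L.symm (y - z), subset_tsupport _ h0, ?_⟩
    show z + L (L.symm (y - z)) = y
    rw [L.apply_symm_apply]
    abel
  unfold tb
  rw [h, zero_smul]

theorem cpt_im (L : V4 ≃L[ℝ] E4) (z : E4) {f : V4 → ℝ} (hc : HasCompactSupport f) :
    IsCompact ((fun p => z + L p) '' tsupport f) :=
  hc.image (continuous_const.add L.continuous)

omit [CompactSpace M] [MeasurableSpace M] [BorelSpace M] in
theorem tst_smooth (x : M) (L : V4 ≃L[ℝ] E4) {z : E4} {f : V4 → ℝ} (hf : ContDiff ℝ ∞ f)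
    (hc : HasCompactSupport f) (hs : ∀ p ∈ tsupport f, z + L p ∈ (chartAt E4 x).target)
    (i j : Fin 4) : Smooth2 (tst x L z f i j) :=
  Ell.smooth2_ext2 (tb_smooth L z hf i j) (cpt_im L z hc)
    (by rintro _ ⟨p, hp, rfl⟩; exact hs p hp) (fun _ hy => tb_off L i j hy) (tb_alt L z f i j)

omit [CompactSpace M] [MeasurableSpace M] [BorelSpace M] in
theorem rep_tst (x : M) (L : V4 ≃L[ℝ] E4) (z : E4) (f : V4 → ℝ) (i j : Fin 4) {y : E4}
    (hy : y ∈ (chartAt E4 x).target) : rep x (tst x L z f i j) y = tb L z f i j y :=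
  Ell.rep_ext2 hy _

omit [CompactSpace M] [MeasurableSpace M] [BorelSpace M] in
theorem q_rep {F b c : F2 E4 M} (hF : ∀ x, Alt (at2 F x)) (hb : ∀ x, Alt (at2 b x))
    (hc : ∀ x, Alt (at2 c x)) {x : M} {y : E4} (hy : y ∈ (chartAt E4 x).target) :
    qG F b c ((chartAt E4 x).symm y) = q (rep x F y) (rep x b y) (rep x c y) := by
  unfold qG q
  rw [W_rep hb hc, W_rep hF hF]
  have h := det_tcc_ne ((chartAt E4 x).map_target hy)
  rw [mul_div_mul_left _ _ h]

/-- the pairing with a form supported in a chart. -/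
theorem I_chart (D : Dat M) (T b : X2 M) {x : M}
    (hb : ∀ y ∉ (chartAt E4 x).source, at2 (b : F2 E4 M) y = 0) :
    D.I (T : F2 E4 M) (b : F2 E4 M) = ∫ y in (chartAt E4 x).target,
      sg D.F x y * W (rep x (T : F2 E4 M) y) (rep x (b : F2 E4 M) y) := by
  have hF := dat_volF D
  have hcont : Continuous (qG D.F (T : F2 E4 M) (b : F2 E4 M)) :=
    En4.sF_continuous (En4.sF_qG D T.2 b.2)
  have h1 : D.I (T : F2 E4 M) (b : F2 E4 M) =
      ∫ y in (chartAt E4 x).source, qG D.F (T : F2 E4 M) (b : F2 E4 M) y ∂D.μ := by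
    unfold Dat.I IG
    rw [setIntegral_eq_integral_of_forall_compl_eq_zero fun y hy => ?_]
    unfold qG
    rw [hb y hy, En4.q_zero_right]
  rw [h1, isVol_setIntegral hF (dat_isVol D) x hcont.aestronglyMeasurable]
  refine setIntegral_congr_fun (chartAt E4 x).open_target.measurableSet fun y hy => ?_
  show dens D.F x y • qG D.F (T : F2 E4 M) (b : F2 E4 M) ((chartAt E4 x).symm y) = _
  rw [q_rep hF.alt T.2.1 b.2.1 hy, smul_eq_mul, dens_mul_q hF hy]

/-- the sign is constant on balls in the chart. -/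
theorem sg_const (D : Dat M) (x : M) {R : ℝ} (hR : 0 < R)
    (hsub : closedBall (chartAt E4 x x) R ⊆ (chartAt E4 x).target) {y : E4}
    (hy : y ∈ ball (chartAt E4 x x) R) : sg D.F x y = sg D.F x (chartAt E4 x x) := by
  have hF := dat_volF D
  have hsub' : ball (chartAt E4 x x) R ⊆ (chartAt E4 x).target :=
    ball_subset_closedBall.trans hsub
  have hpre : IsPreconnected (ball (chartAt E4 x x) R) := (convex_ball _ _).isPreconnected
  have hdisc : ({-1, 0, 1} : Set ℝ).Finite := by simp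
  refine hpre.constant_of_mapsTo hdisc.isDiscrete ?_ ?_ hy (mem_ball_self hR)
  · intro z hz
    have h1 : sg D.F x =ᶠ[𝓝 z] fun _ => sg D.F x z := sg_locally_const hF (hsub' hz)
    exact (continuousAt_const.congr h1.symm).continuousWithinAt
  · intro z hz
    unfold sg
    rcases h : SignType.sign (W (rep x D.F z) (rep x D.F z)) <;> simp

theorem abs_sg (D : Dat M) {x : M} {y : E4} (hy : y ∈ (chartAt E4 x).target) :
    |sg D.F x y| = 1 := by
  have h := (dat_volF D).rep_ne hy
  unfold sg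
  rcases lt_or_gt_of_ne h with h1 | h1
  · rw [sign_neg h1]; simp
  · rw [sign_pos h1]; simp

/-- **PAIRING FORMULA**. -/
theorem pairing (D : Dat M) (x : M) {R : ℝ} (hR : 0 < R)
    (hsub : closedBall (chartAt E4 x x) R ⊆ (chartAt E4 x).target) (L : V4 ≃L[ℝ] E4) :
    ∃ σ : ℝ, |σ| = 1 ∧ ∀ (z : E4) (f : V4 → ℝ), ContDiff ℝ ∞ f → HasCompactSupport f →
      (∀ p ∈ tsupport f, z + L p ∈ ball (chartAt E4 x x) R) → ∀ T : X2 M,
      D.I (T : F2 E4 M) (tst x L z f 2 3) =
        σ * ∫ p : V4, f p * rep x (T : F2 E4 M) (z + L p) (L b0) (L b1) ∧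
      D.I (T : F2 E4 M) (tst x L z f 0 1) =
        σ * ∫ p : V4, f p * rep x (T : F2 E4 M) (z + L p) (L b2) (L b3) := by
  have hsub' : ball (chartAt E4 x x) R ⊆ (chartAt E4 x).target :=
    ball_subset_closedBall.trans hsub
  set s0 := sg D.F x (chartAt E4 x x) with hs0
  have hs01 : |s0| = 1 := abs_sg D (hsub' (mem_ball_self hR))
  refine ⟨s0 * ((dt L)⁻¹ * |dt L|), ?_, ?_⟩
  · rw [abs_mul, abs_mul, abs_abs, abs_inv, inv_mul_cancel₀ (abs_ne_zero.2 (dt_ne L)), mul_one,
      hs01]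
  intro z f hf hc hs T
  have hst : ∀ p ∈ tsupport f, z + L p ∈ (chartAt E4 x).target := fun p hp => hsub' (hs p hp)
  -- common computation
  have key : ∀ (i j : Fin 4) (u v : E4),
      (∀ b : Bil, Alt b → W b (bas L i j) = (dt L)⁻¹ * b u v) →
      D.I (T : F2 E4 M) (tst x L z f i j) =
        s0 * ((dt L)⁻¹ * |dt L|) * ∫ p : V4, f p * rep x (T : F2 E4 M) (z + L p) u v := by
    intro i j u v hW
    have hb : Smooth2 (tst x L z f i j) := tst_smooth x L hf hc hst i j
    have h1 := I_chart D T ⟨tst x L z f i j, hb⟩ (x := x) (fun y hy => by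
      show at2 (ext2 x (tb L z f i j)) y = 0
      exact Ell.at2_ext2_off hy _)
    have h2 : ∀ y ∈ (chartAt E4 x).target,
        sg D.F x y * W (rep x (T : F2 E4 M) y) (rep x (tst x L z f i j) y) =
          s0 * (dt L)⁻¹ * (f (L.symm (y - z)) * rep x (T : F2 E4 M) y u v) := by
      intro y hy
      rw [rep_tst x L z f i j hy]
      unfold tb
      rw [W_smul_right, hW _ (rep_alt T.2.1 x y)]
      by_cases h0 : f (L.symm (y - z)) = 0
      · rw [h0]; ring
      · have h3 : y ∈ ball (chartAt E4 x x) R := by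
          have h4 := hs _ (subset_tsupport _ h0)
          rw [L.apply_symm_apply] at h4
          have h5 : z + (y - z) = y := by abel
          rwa [h5] at h4
        rw [sg_const D x hR hsub h3]
        ring
    have h3 : D.I (T : F2 E4 M) (tst x L z f i j) = ∫ y in (chartAt E4 x).target,
        s0 * (dt L)⁻¹ * (f (L.symm (y - z)) * rep x (T : F2 E4 M) y u v) := by
      refine h1.trans ?_
      exact setIntegral_congr_fun (chartAt E4 x).open_target.measurableSet h2
    have h4 : ∫ y in (chartAt E4 x).target,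
        s0 * (dt L)⁻¹ * (f (L.symm (y - z)) * rep x (T : F2 E4 M) y u v) =
        ∫ y, s0 * (dt L)⁻¹ * (f (L.symm (y - z)) * rep x (T : F2 E4 M) y u v) := by
      refine setIntegral_eq_integral_of_forall_compl_eq_zero fun y hy => ?_
      have h5 : f (L.symm (y - z)) = 0 := by
        by_contra h0
        have h6 := hst _ (subset_tsupport _ h0)
        rw [L.apply_symm_apply] at h6
        have h7 : z + (y - z) = y := by abel
        rw [h7] at h6
        exact hy h6
      rw [h5]; ring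
    rw [h3, h4, integral_const_mul, cov_L L z]
    have h5 : ∀ p : V4, f (L.symm (z + L p - z)) = f p := by
      intro p
      have : z + L p - z = L p := by abel
      rw [this, L.symm_apply_apply]
    simp only [h5]
    ring
  exact ⟨key 2 3 _ _ fun b hb => (W_bas hb L).1, key 0 1 _ _ fun b hb => (W_bas hb L).2⟩

end Man

end

end Crest.Agent.R235.SwcPair_659
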