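import Crest.Agent.R235.SwcDefs_34

/-!
Row 235 (S0364), PACKAGE SWC-AN, leaf PSID (helper370): `psi = d (A + jf)`.
-/

set_option autoImplicit false

open Set MeasureTheory Filter Topology
open scoped ContDiff

namespace Crest.Agent.R235.SwcPsid_370

open SwcDefs_34

noncomputable section

variable {V : Type} [NormedAddCommGroup V] [NormedSpace ℝ V] {α : V → ℂ} {A : V → V →L[ℝ] ℝ}

theorem re_eta (p v : V) : (eta α A p v).re = (fderiv ℝ α p v).re + (α p).im * A p v := by
  simp [eta]
  ring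

theorem im_eta (p v : V) : (eta α A p v).im = (fderiv ℝ α p v).im - (α p).re * A p v := by
  simp [eta]
  ring

theorem jf_apply (p v : V) : jf α A p v = (α p).re * (fderiv ℝ α p v).im -
    (α p).im * (fderiv ℝ α p v).re - ‖α p‖ ^ 2 * A p v := by
  have h : jf α A p v = (α p).re * (eta α A p v).im - (α p).im * (eta α A p v).re := by
    simp [jf]
  rw [h, re_eta, im_eta, ← Complex.normSq_eq_norm_sq, Complex.normSq_apply]
  ring

/-- `A + jf` in components. -/
theorem B_eq : (fun p => A p + jf α A p) = fun p =>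
    A p + ((α p).re • (Complex.imCLM.comp (fderiv ℝ α p)) -
      (α p).im • (Complex.reCLM.comp (fderiv ℝ α p)) -
        ((α p).re * (α p).re + (α p).im * (α p).im) • A p) := by
  funext p
  ext v
  rw [add_apply, jf_apply, ← Complex.normSq_eq_norm_sq, Complex.normSq_apply]
  simp

theorem smooth_B (hα : ContDiff ℝ ∞ α) (hA : ContDiff ℝ ∞ A) :
    ContDiff ℝ ∞ (fun p => A p + jf α A p) := by
  rw [B_eq]
  have hD : ContDiff ℝ ∞ (fderiv ℝ α) := hα.fderiv_right (by simp)
  have ha : ContDiff ℝ ∞ fun p => (α p).re := Complex.reCLM.contDiff.comp hα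
  have hb : ContDiff ℝ ∞ fun p => (α p).im := Complex.imCLM.contDiff.comp hα
  have h1 : ContDiff ℝ ∞ fun p => Complex.imCLM.comp (fderiv ℝ α p) :=
    contDiff_const.clm_comp hD
  have h2 : ContDiff ℝ ∞ fun p => Complex.reCLM.comp (fderiv ℝ α p) :=
    contDiff_const.clm_comp hD
  exact hA.add (((ha.smul h1).sub (hb.smul h2)).sub (((ha.mul ha).add (hb.mul hb)).smul hA))

/-- the derivative of `q ↦ B q v`. -/
theorem fderiv_B (hα : ContDiff ℝ ∞ α) (hA : ContDiff ℝ ∞ A) (p u v : V) :
    fderiv ℝ (fun p => A p + jf α A p) p u v =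
      fderiv ℝ A p u v +
        ((fderiv ℝ α p u).re * (fderiv ℝ α p v).im +
          (α p).re * (fderiv ℝ (fderiv ℝ α) p u v).im -
          ((fderiv ℝ α p u).im * (fderiv ℝ α p v).re +
            (α p).im * (fderiv ℝ (fderiv ℝ α) p u v).re) -
          (2 * ((α p).re * (fderiv ℝ α p u).re + (α p).im * (fderiv ℝ α p u).im) * A p v +
            ((α p).re * (α p).re + (α p).im * (α p).im) * fderiv ℝ A p u v)) := by
  have hD : ContDiff ℝ ∞ (fderiv ℝ α) := hα.fderiv_right (by simp)
  have h0 : HasFDerivAt (fun p => A p + jf α A p) (fderiv ℝ (fun p => A p + jf α A p) p) p :=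
    ((smooth_B hα hA).differentiable (by simp) p).hasFDerivAt
  have h1 : HasFDerivAt (fun q => (A q + jf α A q) v)
      ((ContinuousLinearMap.apply ℝ ℝ v).comp (fderiv ℝ (fun p => A p + jf α A p) p)) p :=
    (ContinuousLinearMap.apply ℝ ℝ v).hasFDerivAt.comp p h0
  have hα1 : HasFDerivAt α (fderiv ℝ α p) p := (hα.differentiable (by simp) p).hasFDerivAt
  have ha : HasFDerivAt (fun q => (α q).re) (Complex.reCLM.comp (fderiv ℝ α p)) p :=
    Complex.reCLM.hasFDerivAt.comp p hα1
  have hb : HasFDerivAt (fun q => (α q).im) (Complex.imCLM.comp (fderiv ℝ α p)) p :=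
    Complex.imCLM.hasFDerivAt.comp p hα1
  have hD1 : HasFDerivAt (fderiv ℝ α) (fderiv ℝ (fderiv ℝ α) p) p :=
    (hD.differentiable (by simp) p).hasFDerivAt
  have hDv : HasFDerivAt (fun q => fderiv ℝ α q v)
      ((ContinuousLinearMap.apply ℝ ℂ v).comp (fderiv ℝ (fderiv ℝ α) p)) p :=
    (ContinuousLinearMap.apply ℝ ℂ v).hasFDerivAt.comp p hD1
  have hDr : HasFDerivAt (fun q => (fderiv ℝ α q v).re) (Complex.reCLM.comp
      ((ContinuousLinearMap.apply ℝ ℂ v).comp (fderiv ℝ (fderiv ℝ α) p))) p :=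
    Complex.reCLM.hasFDerivAt.comp p hDv
  have hDi : HasFDerivAt (fun q => (fderiv ℝ α q v).im) (Complex.imCLM.comp
      ((ContinuousLinearMap.apply ℝ ℂ v).comp (fderiv ℝ (fderiv ℝ α) p))) p :=
    Complex.imCLM.hasFDerivAt.comp p hDv
  have hA1 : HasFDerivAt A (fderiv ℝ A p) p := (hA.differentiable (by simp) p).hasFDerivAt
  have hAv : HasFDerivAt (fun q => A q v)
      ((ContinuousLinearMap.apply ℝ ℝ v).comp (fderiv ℝ A p)) p :=
    (ContinuousLinearMap.apply ℝ ℝ v).hasFDerivAt.comp p hA1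
  have h2 := hAv.add (((ha.mul hDi).sub (hb.mul hDr)).sub
    (((ha.mul ha).add (hb.mul hb)).mul hAv))
  have h3 : (fun q => (A q + jf α A q) v) = fun q =>
      A q v + ((α q).re * (fderiv ℝ α q v).im - (α q).im * (fderiv ℝ α q v).re -
        ((α q).re * (α q).re + (α q).im * (α q).im) * A q v) := by
    funext q
    rw [add_apply, jf_apply, ← Complex.normSq_eq_norm_sq,
      Complex.normSq_apply]
  rw [h3] at h1
  have h4 := congrArg (fun L : V →L[ℝ] ℝ => L u) (h1.unique h2)
  simp only [ContinuousLinearMap.comp_apply, ContinuousLinearMap.apply_apply,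
    add_apply, sub_apply, smul_apply, Pi.add_apply, Pi.mul_apply,
    smul_eq_mul, Complex.reCLM_apply, Complex.imCLM_apply] at h4
  rw [h4]
  ring

/-- **PSID**: `psi = d (A + jf)`. -/
theorem psid : PSID := by
  intro V _ _ α A hα hA
  refine ⟨smooth_B hα hA, fun p => ?_⟩
  ext u v
  have hsym : fderiv ℝ (fderiv ℝ α) p u v = fderiv ℝ (fderiv ℝ α) p v u := by
    have h : IsSymmSndFDerivAt ℝ α p := (hα.contDiffAt).isSymmSndFDerivAt
      (by
        rw [minSmoothness_of_isRCLikeNormedField]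
        exact WithTop.coe_le_coe.2 (le_top : (2 : ℕ∞) ≤ ⊤))
    exact h.eq u v
  have h1 : dd (fun p => A p + jf α A p) p u v =
      fderiv ℝ (fun p => A p + jf α A p) p u v - fderiv ℝ (fun p => A p + jf α A p) p v u := by
    simp [dd]
  have h2 : psi α A p u v = (1 - ‖α p‖ ^ 2) * (fderiv ℝ A p u v - fderiv ℝ A p v u) +
      2 * ((eta α A p u).re * (eta α A p v).im - (eta α A p u).im * (eta α A p v).re) := by
    simp [psi, dd, wdg]
  rw [h1, h2, fderiv_B hα hA, fderiv_B hα hA, hsym, re_eta, re_eta, im_eta, im_eta,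
    ← Complex.normSq_eq_norm_sq, Complex.normSq_apply]
  ring

end

end Crest.Agent.R235.SwcPsid_370
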