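import Crest.Agent.R235.SwcVs_34
import Crest.Agent.R235.LbG_453
import Crest.Agent.R235.SwcPsid_370
import Crest.Agent.R235.SwcPair_659

/-!
Row 235 (S0364), PACKAGE SWC-AN (helper34), task 428: **LOCREP** (helper924).

Unit sections of the line bundles on small balls: `s = col (p z) m`, `f = ⟨s, α⟩`,
`A = θ + 2π conn s` (`dG (conn s) = a0`); then `eta = s ⊗ (df - i A f)`, `|f| = |α|` and
`psi f A = rep Psi`.
-/

set_option autoImplicit false
set_option maxSynthPendingDepth 3
set_option linter.unusedSectionVars false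

open Set Function Filter MeasureTheory Metric
open scoped Manifold ContDiff Topology ComplexConjugate Matrix

universe u

namespace Crest.Agent.R235.SwcLoc_924

open Crest.Agent.R240 Crest.Agent.R240.Ch Crest.Agent.R240.Int Crest.Agent.R235
open Crest.Agent.R235.SwcDefs_34 Crest.Agent.R235.SwcGlob_34 Crest.Agent.R235.Loc_524
open Crest.Agent.R235.Lb453

noncomputable section

/-! ### identities on the manifold -/

section man

variable {M : Type u} [MetricSpace M] [CompactSpace M] [ChartedSpace E4 M]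
  [IsManifold 𝓘(ℝ, E4) ∞ M] {N : ℕ}

variable (p : M → Matrix (Fin N) (Fin N) ℂ) (m : Fin N) (α : M → Fin N → ℂ) (θ : F1 E4 M)

/-- the coefficient of `α` -/
def ff (z : M) : ℂ := ∑ l, conj (col (p z) m l) * α z l

/-- the connection form -/
def AA : F1 E4 M := θ + (2 * Real.pi) • conn fun z => col (p z) m

/-- the covariant derivative of the coefficient -/
def em (z : M) : E4 →L[ℝ] ℂ :=
  fderiv ℝ (rc z (ff p m α)) (chartAt E4 z z) - (at1 (AA p m θ) z).smulRight (Complex.I * ff p m α z)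

variable {p} {α} {θ}
variable (hp : IsLine p) (hα : ∀ i, ContMDiff 𝓘(ℝ, E4) 𝓘(ℝ, ℂ) ∞ (fun x => α x i))
  (hs : ∀ x, (p x).mulVec (α x) = α x) (hθ : Smooth1 θ) {m} {z : M} (hz : z ∈ Om p m)

include hp hz

theorem sc_s (l : Fin N) : SC (fun z => col (p z) m l) z := sc_col hp.smooth hz l

theorem sc_ff (hα : ∀ i, ContMDiff 𝓘(ℝ, E4) 𝓘(ℝ, ℂ) ∞ (fun x => α x i)) : SC (ff p m α) z :=
  SC.sum fun l _ => (SC.conj (sc_s hp hz l)).mul (sc_of_contMDiff (hα l) z)

theorem p_ij (i j : Fin N) : p z i j = col (p z) m i * conj (col (p z) m j) := by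
  conv_lhs => rw [p_eq hp hz]
  rfl

theorem al_eq (hs : ∀ x, (p x).mulVec (α x) = α x) (l : Fin N) :
    α z l = ff p m α z * col (p z) m l := by
  have h1 := congrFun (hs z) l
  rw [← h1]
  unfold ff
  simp only [Matrix.mulVec, dotProduct]
  rw [Finset.sum_mul]
  refine Finset.sum_congr rfl fun j _ => ?_
  rw [p_ij hp hz l j]
  ring

theorem nal_eq (hs : ∀ x, (p x).mulVec (α x) = α x) : ∑ i, ‖α z i‖ ^ 2 = ‖ff p m α z‖ ^ 2 := by
  have h1 := congrArg Complex.re (unit_col hp hz)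
  have h2 : ∑ l, ‖col (p z) m l‖ ^ 2 = 1 := by
    rw [Complex.re_sum, Complex.one_re] at h1
    rw [← h1]
    refine Finset.sum_congr rfl fun l _ => ?_
    rw [← Complex.normSq_eq_conj_mul_self, Complex.ofReal_re, Complex.normSq_eq_norm_sq]
  have h3 : ∀ i, ‖α z i‖ ^ 2 = ‖ff p m α z‖ ^ 2 * ‖col (p z) m i‖ ^ 2 := by
    intro i
    conv_lhs => rw [al_eq hp hz hs i]
    rw [norm_mul, mul_pow]
  simp only [h3, ← Finset.mul_sum, h2, mul_one]

/-- the connection form -/
theorem conn_eq (u : E4) : ∑ l, conj (col (p z) m l) * dC (fun w => col (p w) m l) z u =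
    -(Complex.I * ((2 * Real.pi * at1 (conn fun z => col (p z) m) z u : ℝ) : ℂ)) := by
  set K := ∑ l, conj (col (p z) m l) * dC (fun w => col (p w) m l) z u with hK
  have h1 : at1 (conn fun z => col (p z) m) z u = ((Complex.I / (2 * Real.pi)) * K).re :=
    conn_apply (s := fun z => col (p z) m) (sc_s hp hz) u
  have hunit : ∀ᶠ y in 𝓝 (chartAt E4 z z),
      ∑ i, conj (col (p ((chartAt E4 z).symm y)) m i) * col (p ((chartAt E4 z).symm y)) m i = 1 := by
    filter_upwards [ev_chart ((isOpen_Om hp.smooth m).mem_nhds hz)] with y hy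
    exact unit_col hp hy
  have h2 := deriv_unit (v := fun y => col (p ((chartAt E4 z).symm y)) m)
    (fun i => (sc_s hp hz i).diff) hunit u
  have h3 : conj K = -K := by
    rw [hK, map_sum]
    simp only [map_mul, Complex.conj_conj]
    refine Eq.trans ?_ (h2.trans ?_)
    · refine Finset.sum_congr rfl fun l _ => ?_
      rw [mul_comm]
      simp only [(chartAt E4 z).left_inv (mem_chart_source E4 z)]
      rfl
    · simp only [(chartAt E4 z).left_inv (mem_chart_source E4 z)]
      rfl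
  have h4 : K.re = 0 := by
    have := congrArg Complex.re h3
    simp at this
    linarith
  have h5 : (Complex.I / (2 * Real.pi)) * K = ((-(2 * Real.pi)⁻¹ * K.im : ℝ) : ℂ) := by
    have h6 : K = (K.im : ℂ) * Complex.I := by
      apply Complex.ext
      · simp [h4]
      · simp
    rw [h6]
    simp only [Complex.mul_im, Complex.ofReal_re, Complex.I_im, mul_one, Complex.ofReal_im,
      Complex.I_re, mul_zero, add_zero]
    push_cast
    linear_combination ((2 * (Real.pi : ℂ))⁻¹ * (K.im : ℂ)) * Complex.I_sq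
  rw [h5, Complex.ofReal_re] at h1
  rw [h1]
  have hpi : (2 * Real.pi) ≠ 0 := by positivity
  have h7 : 2 * Real.pi * (-(2 * Real.pi)⁻¹ * K.im) = -K.im := by field_simp
  rw [h7]
  apply Complex.ext
  · simp [h4]
  · simp

/-- **`eta = s ⊗ (df - i A f)`** -/
theorem cov_eq (hα : ∀ i, ContMDiff 𝓘(ℝ, E4) 𝓘(ℝ, ℂ) ∞ (fun x => α x i))
    (hs : ∀ x, (p x).mulVec (α x) = α x) (i : Fin N) (u : E4) :
    cov p θ α z i u = col (p z) m i * em p m α θ z u := by
  have h1 : ∀ j, dal α z j u = ff p m α z * dC (fun w => col (p w) m j) z u +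
      col (p z) m j * dC (ff p m α) z u := by
    intro j
    have e : ∀ᶠ w in 𝓝 z, α w j = ff p m α w * col (p w) m j := by
      filter_upwards [(isOpen_Om hp.smooth m).mem_nhds hz] with w hw
      exact al_eq hp hw hs j
    have h2 : dal α z j u = dC (fun w => α w j) z u := rfl
    rw [h2, dC_congr e, dC_mul (sc_ff hp hz hα) (sc_s hp hz j)]
  have h2 : cov p θ α z i u = ∑ j, p z i j * dal α z j u -
      (at1 θ z u : ℂ) * (Complex.I * α z i) := by
    unfold cov
    rw [sub_apply, sum_apply, ContinuousLinearMap.smulRight_apply]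
    simp only [smul_apply, smul_eq_mul, Complex.real_smul]
  have h3 : ∑ j, p z i j * dal α z j u = col (p z) m i *
      (ff p m α z * (∑ j, conj (col (p z) m j) * dC (fun w => col (p w) m j) z u) +
        (∑ j, conj (col (p z) m j) * col (p z) m j) * dC (ff p m α) z u) := by
    rw [Finset.mul_sum, Finset.sum_mul, ← Finset.sum_add_distrib, Finset.mul_sum]
    refine Finset.sum_congr rfl fun j _ => ?_
    rw [h1 j]
    rw [p_ij hp hz i j]
    ring
  rw [h2, h3, conn_eq hp hz, unit_col hp hz, al_eq hp hz hs i]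
  unfold em
  have h5 : at1 (AA p m θ) z u = at1 θ z u + 2 * Real.pi * at1 (conn fun z => col (p z) m) z u := rfl
  rw [sub_apply, ContinuousLinearMap.smulRight_apply, h5, Complex.real_smul]
  have h6 : fderiv ℝ (rc z (ff p m α)) (chartAt E4 z z) u = dC (ff p m α) z u := rfl
  rw [h6]
  push_cast
  ring

theorem smAt_AA (hθ : Smooth1 θ) : SmAt1 (AA p m θ) z :=
  (smAt1_of_smooth hθ z).add
    ((smAt1_conn (s := fun z => col (p z) m) (isOpen_Om hp.smooth m) (fun _ hw => sc_s hp hw) hz).smul _)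

omit hp hz

/-! ### complex functions in another chart -/

theorem rc_split (x : M) (g : M → ℂ) : rc x g = fun y => ((repF (E := E4) x (fun z => (g z).re) y : ℝ) : ℂ) +
    ((repF (E := E4) x (fun z => (g z).im) y : ℝ) : ℂ) * Complex.I := by
  funext y
  exact (Complex.re_add_im _).symm

theorem sc_chart {g : M → ℂ} {x q : M} (h : SC g x) (hq : x ∈ (chartAt E4 q).source) :
    ContDiffAt ℝ ∞ (rc q g) (chartAt E4 q x) := by
  rw [rc_split]
  exact (Complex.ofRealCLM.contDiff.contDiffAt.comp _ (SmAtF.chart h.re hq)).add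
    ((Complex.ofRealCLM.contDiff.contDiffAt.comp _ (SmAtF.chart h.im hq)).mul contDiffAt_const)

theorem sc_chart' {g : M → ℂ} {q : M} {y : E4} (hy : y ∈ (chartAt E4 q).target)
    (h : SC g ((chartAt E4 q).symm y)) : ContDiffAt ℝ ∞ (rc q g) y := by
  have := sc_chart h ((chartAt E4 q).map_target hy)
  rwa [(chartAt E4 q).right_inv hy] at this

theorem fderiv_rc {g : M → ℂ} {q : M} {y : E4} (hy : y ∈ (chartAt E4 q).target)
    (h : SC g ((chartAt E4 q).symm y)) (u : E4) : fderiv ℝ (rc q g) y u =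
      dC g ((chartAt E4 q).symm y)
        (tcc q ((chartAt E4 q).symm y) ((chartAt E4 q).symm y) u) := by
  have hd : DifferentiableAt ℝ (rc q g) y := (sc_chart' hy h).differentiableAt infty_ne_zero
  have h1 : HasFDerivAt (fun y => (rc q g y).re) (Complex.reCLM.comp (fderiv ℝ (rc q g) y)) y :=
    Complex.reCLM.hasFDerivAt.comp _ hd.hasFDerivAt
  have h2 : HasFDerivAt (fun y => (rc q g y).im) (Complex.imCLM.comp (fderiv ℝ (rc q g) y)) y :=
    Complex.imCLM.hasFDerivAt.comp _ hd.hasFDerivAt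
  have h3 := rep1_dF_at hy h.re
  have h4 := rep1_dF_at hy h.im
  have e1 : (fderiv ℝ (rc q g) y u).re = rep1 q (dF fun z => (g z).re) y u := by
    rw [h3]
    have : fderiv ℝ (repF (E := E4) q fun z => (g z).re) y =
      Complex.reCLM.comp (fderiv ℝ (rc q g) y) := h1.fderiv
    rw [this]; rfl
  have e2 : (fderiv ℝ (rc q g) y u).im = rep1 q (dF fun z => (g z).im) y u := by
    rw [h4]
    have : fderiv ℝ (repF (E := E4) q fun z => (g z).im) y =
      Complex.imCLM.comp (fderiv ℝ (rc q g) y) := h2.fderiv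
    rw [this]; rfl
  apply Complex.ext
  · rw [e1, rep1_apply, dC_re h]
  · rw [e2, rep1_apply, dC_im h]

section chart

variable (q : M) {y : E4} (hy : y ∈ (chartAt E4 q).target)
  (hO : (chartAt E4 q).symm y ∈ Om p m)

include hy hO hp

/-- `eta` in the chart -/
theorem eta_chart (hα : ∀ i, ContMDiff 𝓘(ℝ, E4) 𝓘(ℝ, ℂ) ∞ (fun x => α x i)) (u : E4) :
    eta (rc q (ff p m α)) (rep1 q (AA p m θ)) y u = em p m α θ ((chartAt E4 q).symm y)
      (tcc q ((chartAt E4 q).symm y) ((chartAt E4 q).symm y) u) := by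
  unfold eta em
  rw [sub_apply, sub_apply, fderiv_rc hy (sc_ff hp hO hα), ContinuousLinearMap.smulRight_apply,
    ContinuousLinearMap.smulRight_apply]
  rfl

theorem jf_chart (hα : ∀ i, ContMDiff 𝓘(ℝ, E4) 𝓘(ℝ, ℂ) ∞ (fun x => α x i))
    (hs : ∀ x, (p x).mulVec (α x) = α x) (u : E4) :
    jf (rc q (ff p m α)) (rep1 q (AA p m θ)) y u =
      ∑ i, ((α ((chartAt E4 q).symm y) i).re * (cov p θ α ((chartAt E4 q).symm y) i
        (tcc q ((chartAt E4 q).symm y) ((chartAt E4 q).symm y) u)).im -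
        (α ((chartAt E4 q).symm y) i).im * (cov p θ α ((chartAt E4 q).symm y) i
        (tcc q ((chartAt E4 q).symm y) ((chartAt E4 q).symm y) u)).re) := by
  set z := (chartAt E4 q).symm y with hz
  have h1 : jf (rc q (ff p m α)) (rep1 q (AA p m θ)) y u =
      (ff p m α z).re * (eta (rc q (ff p m α)) (rep1 q (AA p m θ)) y u).im -
      (ff p m α z).im * (eta (rc q (ff p m α)) (rep1 q (AA p m θ)) y u).re := rfl
  rw [h1, eta_chart hp q hy hO hα]
  set e := em p m α θ ((chartAt E4 q).symm y)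
      (tcc q ((chartAt E4 q).symm y) ((chartAt E4 q).symm y) u) with he
  have h2 : ∀ i, (α z i).re * (cov p θ α z i (tcc q z z u)).im -
      (α z i).im * (cov p θ α z i (tcc q z z u)).re =
      ((ff p m α z).re * e.im - (ff p m α z).im * e.re) *
        (conj (col (p z) m i) * col (p z) m i).re := by
    intro i
    rw [cov_eq hp hO hα hs i, al_eq hp hO hs i]
    simp only [Complex.mul_re, Complex.mul_im, Complex.conj_re, Complex.conj_im]
    ring
  simp only [h2, ← Finset.mul_sum]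
  rw [← Complex.re_sum, unit_col hp hO, Complex.one_re, mul_one]

end chart

theorem dG_add_at {s t : F1 E4 M} {x : M} (hs : SmAt1 s x) (ht : SmAt1 t x) :
    at2 (dG (s + t)) x = at2 (dG s) x + at2 (dG t) x := by
  have hd := ContDiffAt.differentiableAt hs infty_ne_zero
  have hd' := ContDiffAt.differentiableAt ht infty_ne_zero
  show d1 (fun y => rep1 x s y + rep1 x t y) (chartAt E4 x x) =
    d1 (rep1 x s) (chartAt E4 x x) + d1 (rep1 x t) (chartAt E4 x x)
  ext u v
  simp only [d1_apply, add_apply]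
  rw [fderiv_fun_add hd hd']
  simp only [add_apply]
  ring

theorem dG_smul_at {s : F1 E4 M} {x : M} (c : ℝ) (hs : SmAt1 s x) :
    at2 (dG (c • s)) x = c • at2 (dG s) x := by
  have hd := ContDiffAt.differentiableAt hs infty_ne_zero
  show d1 (fun y => c • rep1 x s y) (chartAt E4 x x) = c • d1 (rep1 x s) (chartAt E4 x x)
  ext u v
  simp only [d1_apply, smul_apply]
  rw [fderiv_fun_const_smul hd]
  simp only [smul_apply, smul_eq_mul]
  ring

end man

/-! ### the sequence -/

section seq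

variable {M : Type u} [MetricSpace M] [CompactSpace M] [ChartedSpace E4 M]
  [IsManifold 𝓘(ℝ, E4) ∞ M] [MeasurableSpace M] [BorelSpace M] {N : ℕ}
variable {D : Dat M} {Q : TSeq M N} {U : Filter ℕ} {lam C : ℝ} (h : Q.OK D U lam C) (n : ℕ)

open Crest.Agent.R235.SwcVs_34 Crest.Agent.R235.SwcAlg_34

include h

theorem smooth_jj : Smooth1 (Q.jj n) := by
  have e : Q.jj n = ∑ i, (fmul1 (fun x => (Q.α n x i).re) (imF Q n i) +
      fmul1 (fun x => -(Q.α n x i).im) (reF Q n i)) := by
    funext x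
    have h1 : Q.jj n x = (∑ i, ((Q.α n x i).re • (Complex.imCLM.comp (Q.eta n x i)) -
      (Q.α n x i).im • (Complex.reCLM.comp (Q.eta n x i))) : E4 →L[ℝ] ℝ) := rfl
    rw [h1, Finset.sum_apply]
    refine Finset.sum_congr rfl fun i _ => ?_
    rw [im_eta h, re_eta h, sub_eq_add_neg, ← neg_smul]
    rfl
  rw [e]
  refine Tau_692.smooth1_sum _ fun i _ => ?_
  exact (Smooth1.fmul (Tau483.SmC.re (h.smα n i)) (smooth_imF h n i)).add
    (Smooth1.fmul (Tau483.SmC.im (h.smα n i)).neg (smooth_reF h n i))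

theorem psi_chart {m : Fin N} {q : M} {y : E4} (hy : y ∈ (chartAt E4 q).target)
    (hO : (chartAt E4 q).symm y ∈ Om (Q.p n) m) {F' : E4 → ℂ} {B' : E4 → E4 →L[ℝ] ℝ}
    (hF : ContDiff ℝ ∞ F') (hB : ContDiff ℝ ∞ B')
    (eF : F' =ᶠ[𝓝 y] rc q (ff (Q.p n) m (Q.α n)))
    (eB : B' =ᶠ[𝓝 y] rep1 q (AA (Q.p n) m (Q.θ n))) : psi F' B' y = rep q (Q.Psi n) y := by
  have hp := h.line n
  have hjs := smooth_jj h n
  set t : F1 E4 M := AA (Q.p n) m (Q.θ n) + Q.jj n with ht
  have hcat : SmAt1 (conn fun z => col (Q.p n z) m) ((chartAt E4 q).symm y) :=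
    smAt1_conn (s := fun z => col (Q.p n z) m) (isOpen_Om hp.smooth m)
      (fun _ hw => sc_s hp hw) hO
  have hA : SmAt1 (AA (Q.p n) m (Q.θ n)) ((chartAt E4 q).symm y) := smAt_AA hp hO (h.smθ n)
  have htat : SmAt1 t ((chartAt E4 q).symm y) := hA.add (smAt1_of_smooth hjs _)
  rw [((SwcPsid_370.psid E4 F' B' hF hB).2 y)]
  have e1 : (fun p => B' p + jf F' B' p) =ᶠ[𝓝 y] rep1 q t := by
    have hOe : ∀ᶠ y' in 𝓝 y, (chartAt E4 q).symm y' ∈ Om (Q.p n) m :=
      (tendsto_symm hy).eventually ((isOpen_Om hp.smooth m).mem_nhds hO)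
    filter_upwards [eF.eventuallyEq_nhds, eB.eventuallyEq_nhds, hOe,
      (chartAt E4 q).open_target.mem_nhds hy] with y' h1 h2 h3 h4
    have e2 : jf F' B' y' = jf (rc q (ff (Q.p n) m (Q.α n))) (rep1 q (AA (Q.p n) m (Q.θ n))) y' := by
      unfold jf eta
      rw [h1.fderiv_eq, h1.self_of_nhds, h2.self_of_nhds]
    rw [e2, h2.self_of_nhds]
    ext u
    rw [add_apply, jf_chart hp q h4 h3 (h.smα n) (h.secα n)]
    have e3 : rep1 q t y' u = rep1 q (AA (Q.p n) m (Q.θ n)) y' u + rep1 q (Q.jj n) y' u := rfl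
    rw [e3, rep1_apply q (Q.jj n)]
    congr 1
    have e4 : ∀ (z : M) (w : E4), at1 (Q.jj n) z w = ∑ i, ((Q.α n z i).re * (Q.eta n z i w).im -
      (Q.α n z i).im * (Q.eta n z i w).re) := by
      intro z w
      have e5 : at1 (Q.jj n) z = (∑ i, ((Q.α n z i).re • (Complex.imCLM.comp (Q.eta n z i)) -
        (Q.α n z i).im • (Complex.reCLM.comp (Q.eta n z i))) : E4 →L[ℝ] ℝ) := rfl
      rw [e5, sum_apply]
      rfl
    rw [e4]
    rfl
  have e6 : SwcDefs_34.dd (fun p => B' p + jf F' B' p) y = d1 (rep1 q t) y := by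
    have : SwcDefs_34.dd (fun p => B' p + jf F' B' p) y = d1 (fun p => B' p + jf F' B' p) y := rfl
    rw [this, d1_congr e1]
  rw [e6, ← rep_dG_at hy htat]
  have e7 : at2 (dG t) ((chartAt E4 q).symm y) = at2 (Q.Psi n) ((chartAt E4 q).symm y) := by
    have a1 : at2 (dG t) ((chartAt E4 q).symm y) = at2 (dG (AA (Q.p n) m (Q.θ n)))
        ((chartAt E4 q).symm y) + at2 (dG (Q.jj n)) ((chartAt E4 q).symm y) :=
      dG_add_at hA (smAt1_of_smooth hjs _)
    have a2 : at2 (dG (AA (Q.p n) m (Q.θ n))) ((chartAt E4 q).symm y) =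
        at2 (dG (Q.θ n)) ((chartAt E4 q).symm y) +
          at2 (dG ((2 * Real.pi) • conn fun z => col (Q.p n z) m)) ((chartAt E4 q).symm y) :=
      dG_add_at (smAt1_of_smooth (h.smθ n) _) (hcat.smul _)
    have a3 := dG_smul_at (2 * Real.pi) hcat
    have a4 := dG_conn_eq hp (h.chern n) hO
    rw [a1, a2, a3, a4]
    have a5 : at2 (Q.Psi n) ((chartAt E4 q).symm y) =
      ((2 * Real.pi) • at2 ((Q.a0 n).1.1 : F2 E4 M) ((chartAt E4 q).symm y) +
        at2 (dG (Q.θ n)) ((chartAt E4 q).symm y)) + at2 (dG (Q.jj n)) ((chartAt E4 q).symm y) := rfl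
    rw [a5]
    abel
  ext u v
  rw [rep_apply, rep_apply, e7]

theorem neta_chart {m : Fin N} {z : M} (hO : z ∈ Om (Q.p n) m) :
    Q.neta D n z = mC (atJ D.J z) (at2 D.F z) (em (Q.p n) m (Q.α n) (Q.θ n) z) := by
  have hp := h.line n
  have h1 : ∀ i, nC D z (Q.eta n z i) = ‖col (Q.p n z) m i‖ ^ 2 *
      mC (atJ D.J z) (at2 D.F z) (em (Q.p n) m (Q.α n) (Q.θ n) z) := by
    intro i
    rw [nC_mC]
    obtain ⟨A, hA⟩ := exists_frame (D.sq z) (En4.spos D z)
    have h2 : ∀ η : E4 →L[ℝ] ℂ, mC (atJ D.J z) (at2 D.F z) η = ‖η (A (ee 0))‖ ^ 2 +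
        ‖η (A (ee 1))‖ ^ 2 + ‖η (A (ee 2))‖ ^ 2 + ‖η (A (ee 3))‖ ^ 2 := by
      intro η
      unfold mC
      rw [m1_frame (En4.spos D z) hA, m1_frame (En4.spos D z) hA]
      unfold S4
      simp only [ContinuousLinearMap.comp_apply, Complex.reCLM_apply, Complex.imCLM_apply,
        ContinuousLinearEquiv.coe_coe, ← Complex.normSq_eq_norm_sq, Complex.normSq_apply]
      ring
    have h3 : ∀ u, ‖Q.eta n z i u‖ ^ 2 = ‖col (Q.p n z) m i‖ ^ 2 *
        ‖em (Q.p n) m (Q.α n) (Q.θ n) z u‖ ^ 2 := by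
      intro u
      have : Q.eta n z i u = col (Q.p n z) m i * em (Q.p n) m (Q.α n) (Q.θ n) z u :=
        cov_eq hp hO (h.smα n) (h.secα n) i u
      rw [this, norm_mul, mul_pow]
    rw [h2, h2, h3, h3, h3, h3]
    ring
  have h4 := congrArg Complex.re (unit_col hp hO)
  have h5 : ∑ l, ‖col (Q.p n z) m l‖ ^ 2 = 1 := by
    rw [Complex.re_sum, Complex.one_re] at h4
    rw [← h4]
    refine Finset.sum_congr rfl fun l _ => ?_
    rw [← Complex.normSq_eq_conj_mul_self, Complex.ofReal_re, Complex.normSq_eq_norm_sq]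
  unfold TSeq.neta
  simp only [h1, ← Finset.sum_mul, h5, one_mul]

omit h

/-- norm comparison in a chart -/
theorem exists_C1 (D : Dat M) (q : M) {K : Set E4} (hK : IsCompact K)
    (hKt : K ⊆ (chartAt E4 q).target) :
    ∃ C1 : ℝ, 0 ≤ C1 ∧ ∀ y ∈ K, ∀ u : E4, rep q D.F y u (repJ q D.J y u) ≤ C1 * ‖u‖ ^ 2 := by
  have c1 : ContinuousOn (rep q D.F) K := ((dat_volF D).cont q).mono hKt
  have c2 : ContinuousOn (repJ q D.J) K := (D.smJ q).continuousOn.mono hKt
  obtain ⟨a, ha⟩ := hK.exists_bound_of_continuousOn c1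
  obtain ⟨b, hb⟩ := hK.exists_bound_of_continuousOn c2
  refine ⟨max a 0 * max b 0, by positivity, fun y hy u => ?_⟩
  calc rep q D.F y u (repJ q D.J y u) ≤ ‖rep q D.F y u (repJ q D.J y u)‖ := Real.le_norm_self _
    _ ≤ ‖rep q D.F y‖ * ‖u‖ * ‖repJ q D.J y u‖ := (rep q D.F y).le_opNorm₂ _ _
    _ ≤ max a 0 * ‖u‖ * (max b 0 * ‖u‖) := by
        have h1 : ‖rep q D.F y‖ ≤ max a 0 := (ha y hy).trans (le_max_left _ _)
        have h2 : ‖repJ q D.J y u‖ ≤ max b 0 * ‖u‖ :=
          ((repJ q D.J y).le_opNorm u).trans (by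
            have := (hb y hy).trans (le_max_left b 0)
            gcongr)
        gcongr
    _ = _ := by ring

theorem eta_bd {m : Fin N} (h : Q.OK D U lam C) {q : M} {y : E4}
    (hy : y ∈ (chartAt E4 q).target) (hO : (chartAt E4 q).symm y ∈ Om (Q.p n) m) {C1 : ℝ}
    (hC1 : 0 ≤ C1) (hC : ∀ u : E4, rep q D.F y u (repJ q D.J y u) ≤ C1 * ‖u‖ ^ 2) :
    ‖eta (rc q (ff (Q.p n) m (Q.α n))) (rep1 q (AA (Q.p n) m (Q.θ n))) y‖ ^ 2 ≤
      C1 * Q.neta D n ((chartAt E4 q).symm y) := by
  set z := (chartAt E4 q).symm y with hz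
  have h0 : 0 ≤ Q.neta D n z := neta_nonneg h n z
  have h1 : ‖eta (rc q (ff (Q.p n) m (Q.α n))) (rep1 q (AA (Q.p n) m (Q.θ n))) y‖ ≤
      √(C1 * Q.neta D n z) := by
    refine ContinuousLinearMap.opNorm_le_bound _ (Real.sqrt_nonneg _) fun u => ?_
    rw [eta_chart (h.line n) q hy hO (h.smα n)]
    have h2 := mC_cs (D.sq z) (En4.spos D z) (em (Q.p n) m (Q.α n) (Q.θ n) z) (tcc q z z u)
    rw [← neta_chart h n hO] at h2
    have h3 : at2 D.F z (tcc q z z u) (atJ D.J z (tcc q z z u)) =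
        rep q D.F y u (repJ q D.J y u) := by
      rw [rep_apply, repJ_apply, tcc_cancel' (symm_mem hy)]
    rw [h3] at h2
    have h4 : ‖em (Q.p n) m (Q.α n) (Q.θ n) z (tcc q z z u)‖ ^ 2 ≤
        (√(C1 * Q.neta D n z) * ‖u‖) ^ 2 := by
      rw [mul_pow, Real.sq_sqrt (mul_nonneg hC1 h0)]
      refine h2.trans ?_
      nlinarith [mul_le_mul_of_nonneg_left (hC u) h0]
    exact (sq_le_sq₀ (norm_nonneg _) (by positivity)).1 h4
  calc _ ≤ √(C1 * Q.neta D n z) ^ 2 := pow_le_pow_left₀ (norm_nonneg _) h1 2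
    _ = _ := Real.sq_sqrt (mul_nonneg hC1 h0)

/-- integrals over chart balls -/
theorem exists_C2 (D : Dat M) (q : M) {y0 : E4} {R : ℝ}
    (hKt : closedBall y0 R ⊆ (chartAt E4 q).target) :
    ∃ C2 : ℝ, 0 ≤ C2 ∧ ∀ g : M → ℝ, Continuous g → (∀ x, 0 ≤ g x) →
      ∫ y in ball y0 R, g ((chartAt E4 q).symm y) ≤ C2 * ∫ x, g x ∂D.μ := by
  have hV := dat_volF D
  have c1 : ContinuousOn (dens D.F q) (closedBall y0 R) := by
    have c2 : ContinuousOn (rep q D.F) (closedBall y0 R) := (hV.cont q).mono hKt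
    have c3 : Continuous fun b : Bil => |W b b| := by
      unfold W ent
      fun_prop
    exact c3.comp_continuousOn c2
  have hpos : ∀ y ∈ closedBall y0 R, 0 < dens D.F q y := fun y hy =>
    abs_pos.2 (hV.rep_ne (hKt hy))
  obtain ⟨c, hc, hcb⟩ : ∃ c : ℝ, 0 < c ∧ ∀ y ∈ closedBall y0 R, c ≤ dens D.F q y := by
    by_cases hne : (closedBall y0 R).Nonempty
    · obtain ⟨y1, hy1, hy2⟩ := (isCompact_closedBall y0 R).exists_isMinOn hne c1
      exact ⟨_, hpos y1 hy1, fun y hy => hy2 hy⟩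
    · exact ⟨1, one_pos, fun y hy => absurd ⟨y, hy⟩ hne⟩
  refine ⟨c⁻¹, by positivity, fun g hg hg0 => ?_⟩
  have hfin := D.fin
  have hgi : Integrable g D.μ := En4.integrable_s hfin hg
  set φ := chartAt E4 q with hφ
  set O : Set M := φ.source ∩ φ ⁻¹' ball y0 R with hOd
  have hO : IsOpen O := φ.isOpen_inter_preimage isOpen_ball
  have hsub : ball y0 R ⊆ φ.target := ball_subset_closedBall.trans hKt
  have h1 := D.vol q (O.indicator fun x => ENNReal.ofReal (g x))
    ((ENNReal.measurable_ofReal.comp hg.measurable).indicator hO.measurableSet)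
    (fun x hx => indicator_of_notMem (fun hx' => hx hx'.1) _)
  have h2 : ∫⁻ x, O.indicator (fun x => ENNReal.ofReal (g x)) x ∂D.μ ≤
      ENNReal.ofReal (∫ x, g x ∂D.μ) := by
    rw [ofReal_integral_eq_lintegral_ofReal hgi (Eventually.of_forall hg0)]
    exact lintegral_mono fun x => indicator_le_self _ _ x
  have h3 : ENNReal.ofReal c * ∫⁻ y in ball y0 R, ENNReal.ofReal (g (φ.symm y)) ≤
      ∫⁻ y in φ.target, O.indicator (fun x => ENNReal.ofReal (g x)) (φ.symm y) *
        ENNReal.ofReal |W (rep q (bp D.J D.al) y) (rep q (bp D.J D.al) y)| := by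
    refine le_trans ?_ (lintegral_mono_set hsub)
    rw [← lintegral_const_mul' _ _ ENNReal.ofReal_ne_top]
    refine setLIntegral_mono' measurableSet_ball fun y hy => ?_
    have hyO : φ.symm y ∈ O := ⟨φ.map_target (hsub hy), by
      rw [mem_preimage, φ.right_inv (hsub hy)]; exact hy⟩
    rw [indicator_of_mem hyO, mul_comm]
    gcongr
    exact hcb y (ball_subset_closedBall hy)
  rw [← h1] at h3
  have h4 : ∫ y in ball y0 R, g (φ.symm y) =
      (∫⁻ y in ball y0 R, ENNReal.ofReal (g (φ.symm y))).toReal := by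
    refine integral_eq_lintegral_of_nonneg_ae (Eventually.of_forall fun y => hg0 _) ?_
    have : ContinuousOn (fun y => g (φ.symm y)) (ball y0 R) :=
      hg.comp_continuousOn (φ.continuousOn_symm.mono hsub)
    exact this.aestronglyMeasurable measurableSet_ball
  rw [h4]
  have h5 : ENNReal.ofReal c * ∫⁻ y in ball y0 R, ENNReal.ofReal (g (φ.symm y)) ≤
      ENNReal.ofReal (∫ x, g x ∂D.μ) := h3.trans h2
  have h6 := ENNReal.toReal_mono ENNReal.ofReal_ne_top h5
  rw [ENNReal.toReal_mul, ENNReal.toReal_ofReal hc.le,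
    ENNReal.toReal_ofReal (integral_nonneg hg0)] at h6
  rw [inv_mul_eq_div, le_div_iff₀ hc]
  linarith

theorem glob {G : Type} [NormedAddCommGroup G] [NormedSpace ℝ G] {y0 : E4} (χ : ContDiffBump y0)
    {F : E4 → G} (hF : ∀ y ∈ closedBall y0 χ.rOut, ContDiffAt ℝ ∞ F y) :
    ContDiff ℝ ∞ (fun y => χ y • F y) := by
  rw [contDiff_iff_contDiffAt]
  intro y
  by_cases hy : y ∈ closedBall y0 χ.rOut
  · exact χ.contDiff.contDiffAt.smul (hF y hy)
  · have h1 : y ∉ tsupport χ := by rwa [χ.tsupport_eq]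
    have h2 : (fun y => χ y • F y) =ᶠ[𝓝 y] fun _ => 0 := by
      filter_upwards [(isClosed_tsupport χ).isOpen_compl.mem_nhds h1] with z hz
      rw [image_eq_zero_of_notMem_tsupport hz, zero_smul]
    exact contDiffAt_const.congr_of_eventuallyEq h2

theorem exists_m [NeBot U] (h : Q.OK D U lam C) (x : M) {p' : M → Matrix (Fin N) (Fin N) ℂ}
    (hp' : ∀ ε : ℝ, 0 < ε → ∀ᶠ n in U, ∀ x i j, ‖Q.p n x i j - p' x i j‖ < ε) :
    ∃ m, 0 < (p' x m m).re := by
  by_contra hcon
  push Not at hcon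
  have h1 : ∀ i j, Tendsto (fun n => Q.p n x i j) U (𝓝 (p' x i j)) := by
    intro i j
    rw [Metric.tendsto_nhds]
    intro ε hε
    filter_upwards [hp' ε hε] with n hn
    rw [dist_eq_norm]
    exact hn x i j
  have h2 : Tendsto (fun n => (Q.p n x).trace) U (𝓝 (∑ m, p' x m m)) :=
    tendsto_finsetSum _ fun m _ => h1 m m
  have h3 : (fun n => (Q.p n x).trace) = fun _ => (1 : ℂ) := funext fun n => (h.line n).rank x
  rw [h3] at h2
  have h4 := tendsto_nhds_unique h2 tendsto_const_nhds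
  have h5 := congrArg Complex.re h4
  rw [Complex.re_sum, Complex.one_re] at h5
  have h6 := Finset.sum_nonpos fun m (_ : m ∈ Finset.univ) => hcon m
  linarith

end seq

/-- **LOCREP** -/
theorem locrep : LOCREP.{u} := by
  intro M _ _ _ _ _ _ D N Q U lam C h T hT
  refine ⟨h.rinf, fun x => ?_⟩
  set φ := chartAt E4 x with hφ
  set y0 := φ x with hy0
  have hy0t : y0 ∈ φ.target := mem_chart_target E4 x
  rcases U.eq_or_neBot with hU | hU
  · obtain ⟨R, hR, hRt⟩ := Metric.nhds_basis_closedBall.mem_iff.1 (φ.open_target.mem_nhds hy0t)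
    exact ⟨R, 0, hR, hRt, by rw [hU]; exact eventually_bot⟩
  obtain ⟨p', hpc, hp'⟩ := h.plim
  obtain ⟨m, hm⟩ := exists_m h x hp'
  have hcont : ContinuousAt (fun y => (p' (φ.symm y) m m).re) y0 :=
    (Complex.continuous_re.comp (hpc m m)).continuousAt.comp (φ.continuousAt_symm hy0t)
  have hval : (p' (φ.symm y0) m m).re = (p' x m m).re := by
    rw [hy0, φ.left_inv (mem_chart_source E4 x)]
  have hev : ∀ᶠ y in 𝓝 y0, (p' x m m).re / 2 < (p' (φ.symm y) m m).re ∧ y ∈ φ.target := by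
    refine Filter.Eventually.and ?_ (φ.open_target.mem_nhds hy0t)
    refine hcont.eventually (lt_mem_nhds ?_)
    show (p' x m m).re / 2 < (p' (φ.symm y0) m m).re
    rw [hval]; linarith
  obtain ⟨R0, hR0, hR0t⟩ := Metric.nhds_basis_closedBall.mem_iff.1 hev
  have hR : 0 < R0 / 2 := by positivity
  have hsub : closedBall y0 (R0 / 2) ⊆ closedBall y0 R0 := closedBall_subset_closedBall (by linarith)
  have hKt : closedBall y0 (R0 / 2) ⊆ φ.target := fun y hy => (hR0t (hsub hy)).2
  obtain ⟨C1, hC1, hC1b⟩ := exists_C1 D x (isCompact_closedBall y0 (R0 / 2)) hKt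
  obtain ⟨C2, hC2, hC2b⟩ := exists_C2 D x hKt
  refine ⟨R0 / 2, C2 * (C1 * C + C), hR, hKt, ?_⟩
  filter_upwards [hp' ((p' x m m).re / 2) (by positivity), h.e1, h.e2,
    h.rinf.eventually (eventually_gt_atTop 0)] with n hn he1 he2 hr
  have hOm : ∀ y ∈ closedBall y0 R0, φ.symm y ∈ Om (Q.p n) m := by
    intro y hy
    have h1 := (hR0t hy).1
    have h2 := hn (φ.symm y) m m
    have h3 := Complex.abs_re_le_norm (Q.p n (φ.symm y) m m - p' (φ.symm y) m m)
    rw [Complex.sub_re] at h3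
    have h4 := (abs_le.1 (h3.trans h2.le)).1
    show 0 < (Q.p n (φ.symm y) m m).re
    linarith
  have hline := h.line n
  set F : E4 → ℂ := rc x (ff (Q.p n) m (Q.α n)) with hF
  set B : E4 → E4 →L[ℝ] ℝ := rep1 x (AA (Q.p n) m (Q.θ n)) with hB
  let χ : ContDiffBump y0 := ⟨R0 / 2, R0, hR, by linarith⟩
  have sF : ContDiff ℝ ∞ (fun y => χ y • F y) := glob χ fun y hy =>
    sc_chart' (hR0t hy).2 (sc_ff hline (hOm y hy) (h.smα n))
  have sB : ContDiff ℝ ∞ (fun y => χ y • B y) := glob χ fun y hy => by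
    have h1 := (smAt_AA hline (hOm y hy) (h.smθ n)).chart (φ.map_target (hR0t hy).2)
    rwa [φ.right_inv (hR0t hy).2] at h1
  have gF : ∀ y ∈ ball y0 (R0 / 2), (fun y => χ y • F y) =ᶠ[𝓝 y] F := by
    intro y hy
    filter_upwards [χ.eventuallyEq_one_of_mem_ball hy] with z hz
    rw [hz, Pi.one_apply, one_smul]
  have gB : ∀ y ∈ ball y0 (R0 / 2), (fun y => χ y • B y) =ᶠ[𝓝 y] B := by
    intro y hy
    filter_upwards [χ.eventuallyEq_one_of_mem_ball hy] with z hz
    rw [hz, Pi.one_apply, one_smul]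
  refine ⟨fun y => χ y • F y, fun y => χ y • B y, sF, sB, fun y hy => ?_, ?_⟩
  · have hyc : y ∈ closedBall y0 R0 := hsub (ball_subset_closedBall hy)
    rw [hT n]
    exact psi_chart h n (hR0t hyc).2 (hOm y hyc) sF sB (gF y hy) (gB y hy)
  · set g : M → ℝ := fun z => C1 * Q.neta D n z + Q.r n * (1 - Q.nal n z) ^ 2 with hg
    have cneta : Continuous fun z => Q.neta D n z := SwcVs_34.cont_neta h n
    have cnal : Continuous fun z => Q.nal n z := En4.sF_continuous (SwcVs_34.smooth_nal h n)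
    have cg : Continuous g := by
      rw [hg]
      exact (continuous_const.mul cneta).add
        (continuous_const.mul ((continuous_const.sub cnal).pow 2))
    have g0 : ∀ z, 0 ≤ g z := fun z =>
      add_nonneg (mul_nonneg hC1 (SwcVs_34.neta_nonneg h n z)) (mul_nonneg hr.le (sq_nonneg _))
    have key : ∀ y ∈ ball y0 (R0 / 2),
        en (Q.r n) (fun y => χ y • F y) (fun y => χ y • B y) y ≤ g (φ.symm y) := by
      intro y hy
      have hyc : y ∈ closedBall y0 R0 := hsub (ball_subset_closedBall hy)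
      have e1 : eta (fun y => χ y • F y) (fun y => χ y • B y) y = eta F B y := by
        unfold eta
        rw [(gF y hy).fderiv_eq, (gF y hy).self_of_nhds, (gB y hy).self_of_nhds]
      have e2 : (fun y => χ y • F y) y = F y := (gF y hy).self_of_nhds
      have e3 := eta_bd n h (hR0t hyc).2 (hOm y hyc) hC1 (hC1b y (ball_subset_closedBall hy))
      have e4 : ‖F y‖ ^ 2 = Q.nal n (φ.symm y) := (nal_eq hline (hOm y hyc) (h.secα n)).symm
      unfold en
      rw [e1]
      have e5 : ‖(fun y => χ y • F y) y‖ ^ 2 = Q.nal n (φ.symm y) := by rw [e2, e4]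
      simp only at e5
      rw [e5]
      exact add_le_add e3 le_rfl
    have hgi : IntegrableOn (fun y => g (φ.symm y)) (ball y0 (R0 / 2)) := by
      have c1 : ContinuousOn (fun y => g (φ.symm y)) (closedBall y0 (R0 / 2)) :=
        cg.comp_continuousOn (φ.continuousOn_symm.mono hKt)
      exact (c1.integrableOn_compact (isCompact_closedBall _ _)).mono_set ball_subset_closedBall
    have hen0 : ∀ y, 0 ≤ en (Q.r n) (fun y => χ y • F y) (fun y => χ y • B y) y := by
      intro y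
      unfold en
      positivity
    calc ∫ y in ball y0 (R0 / 2), en (Q.r n) (fun y => χ y • F y) (fun y => χ y • B y) y
        ≤ ∫ y in ball y0 (R0 / 2), g (φ.symm y) := by
          refine integral_mono_of_nonneg (Eventually.of_forall hen0) hgi ?_
          filter_upwards [ae_restrict_mem measurableSet_ball] with y hy
          exact key y hy
      _ ≤ C2 * ∫ z, g z ∂D.μ := hC2b g cg g0
      _ ≤ C2 * (C1 * C + C) := by
          refine mul_le_mul_of_nonneg_left ?_ hC2
          have i1 := En4.integrable_s D.fin cneta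
          have i2 : Integrable (fun z => (1 - Q.nal n z) ^ 2) D.μ :=
            En4.integrable_s D.fin ((continuous_const.sub cnal).pow 2)
          rw [hg, integral_add (i1.const_mul _) (i2.const_mul _), integral_const_mul,
            integral_const_mul]
          exact add_le_add (mul_le_mul_of_nonneg_left he1 hC1) he2

end

end Crest.Agent.R235.SwcLoc_924
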