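import Crest.Agent.R235.SwcDefs_34

/-!
Row 235 (S0364), package SWC-AN, leaf NEARINT: fluxes are near integers, in quadratic form.
-/

set_option autoImplicit false

open Set MeasureTheory Filter Topology
open scoped ContDiff

namespace Crest.Agent.R235.SwcNear_915

open Crest.Agent.R235.SwcDefs_34

noncomputable section

variable {α : ℝ × ℝ → ℂ} {A : ℝ × ℝ → ℝ × ℝ →L[ℝ] ℝ}

theorem cont_eta (hα : ContDiff ℝ ∞ α) (hA : ContDiff ℝ ∞ A) : Continuous (eta α A) := by
  unfold eta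
  have h1 : Continuous (fderiv ℝ α) := hα.continuous_fderiv (by simp)
  have h2 : Continuous A := hA.continuous
  have h3 : Continuous α := hα.continuous
  refine h1.sub ?_
  have h4 : Continuous fun p => (Complex.I * α p) := continuous_const.mul h3
  exact (ContinuousLinearMap.smulRightL ℝ (ℝ × ℝ) ℂ).continuous₂.comp (h2.prodMk h4)

theorem cont_en (hα : ContDiff ℝ ∞ α) (hA : ContDiff ℝ ∞ A) (r : ℝ) :
    Continuous (en r α A) := by
  unfold en
  have h1 := cont_eta hα hA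
  have h3 : Continuous α := hα.continuous
  fun_prop

theorem en_nonneg {r : ℝ} (hr : 0 < r) (p : ℝ × ℝ) : 0 ≤ en r α A p := by
  unfold en; positivity

/-- `2 |a| ‖eta‖ ≤ en / √r`. -/
theorem young {r : ℝ} (hr : 0 < r) (p : ℝ × ℝ) :
    2 * (|1 - ‖α p‖ ^ 2| * ‖eta α A p‖) ≤ en r α A p / √r := by
  have hs : 0 < √r := Real.sqrt_pos.2 hr
  have hss : √r * √r = r := Real.mul_self_sqrt hr.le
  rw [le_div_iff₀ hs]
  unfold en
  have h : 0 ≤ (‖eta α A p‖ - √r * |1 - ‖α p‖ ^ 2|) ^ 2 := sq_nonneg _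
  have h2 : (√r * |1 - ‖α p‖ ^ 2|) ^ 2 = r * (1 - ‖α p‖ ^ 2) ^ 2 := by
    rw [mul_pow, sq_abs, sq √r, hss]
  nlinarith [h, h2]

theorem bilin (z w : ℂ) : |z.re * w.re + z.im * w.im| ≤ ‖z‖ * ‖w‖ := by
  have h : z.re * w.re + z.im * w.im = (starRingEnd ℂ z * w).re := by
    simp [Complex.mul_re]
  rw [h]
  refine (Complex.abs_re_le_norm _).trans ?_
  rw [norm_mul, Complex.norm_conj]

theorem bilin2 (z w : ℂ) : |z.re * w.im - z.im * w.re| ≤ ‖z‖ * ‖w‖ := by
  have h : z.re * w.im - z.im * w.re = (starRingEnd ℂ z * w).im := by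
    simp [Complex.mul_im]; ring
  rw [h]
  refine (Complex.abs_im_le_norm _).trans ?_
  rw [norm_mul, Complex.norm_conj]

theorem eta_le (p v : ℝ × ℝ) (hv : ‖v‖ ≤ 1) : ‖eta α A p v‖ ≤ ‖eta α A p‖ := by
  have h := (eta α A p).le_opNorm v
  have h2 : ‖eta α A p‖ * ‖v‖ ≤ ‖eta α A p‖ * 1 := by gcongr
  linarith

/-- the bounded deviation -/
def ff (z : ℂ) : ℝ := ((1 - ‖z‖ ^ 2) / (1 + ‖z‖ ^ 2)) ^ 2

theorem ff_nonneg (z : ℂ) : 0 ≤ ff z := sq_nonneg _

theorem ff_le (z : ℂ) : ff z ≤ (1 - ‖z‖ ^ 2) ^ 2 := by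
  unfold ff
  rw [div_pow]
  apply div_le_self (sq_nonneg _)
  have : 0 ≤ ‖z‖ ^ 2 := sq_nonneg _
  nlinarith

/-- derivative of `u = ‖α‖²` along a line. -/
theorem hasDeriv_u (hα : ContDiff ℝ ∞ α) (A : ℝ × ℝ → ℝ × ℝ →L[ℝ] ℝ) (p v : ℝ × ℝ) (t : ℝ) :
    HasDerivAt (fun t : ℝ => ‖α (p + t • v)‖ ^ 2)
      (2 * ((α (p + t • v)).re * (eta α A (p + t • v) v).re +
        (α (p + t • v)).im * (eta α A (p + t • v) v).im)) t := by
  have h1 : HasDerivAt (fun t : ℝ => p + t • v) v t := by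
    have := ((hasDerivAt_id t).smul_const v).const_add p
    simpa using this
  have hd : Differentiable ℝ α := hα.differentiable (by simp)
  have h2 : HasDerivAt (fun t : ℝ => α (p + t • v)) (fderiv ℝ α (p + t • v) v) t :=
    (hd (p + t • v)).hasFDerivAt.comp_hasDerivAt t h1
  have h3 : HasDerivAt (fun t : ℝ => (α (p + t • v)).re) (fderiv ℝ α (p + t • v) v).re t :=
    Complex.reCLM.hasFDerivAt.comp_hasDerivAt t h2
  have h4 : HasDerivAt (fun t : ℝ => (α (p + t • v)).im) (fderiv ℝ α (p + t • v) v).im t :=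
    Complex.imCLM.hasFDerivAt.comp_hasDerivAt t h2
  have h5 := (h3.mul h3).add (h4.mul h4)
  have e : (fun t : ℝ => ‖α (p + t • v)‖ ^ 2) =
      fun t : ℝ => (α (p + t • v)).re * (α (p + t • v)).re +
        (α (p + t • v)).im * (α (p + t • v)).im := by
    funext s
    rw [Complex.sq_norm, Complex.normSq_apply]
  rw [e]
  refine h5.congr_deriv ?_
  simp only [eta, sub_apply, ContinuousLinearMap.smulRight_apply,
    Complex.sub_re, Complex.sub_im, Complex.real_smul, Complex.mul_re, Complex.mul_im,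
    Complex.I_re, Complex.I_im, Complex.ofReal_re, Complex.ofReal_im]
  ring

theorem hasDeriv_ff (hα : ContDiff ℝ ∞ α) (A : ℝ × ℝ → ℝ × ℝ →L[ℝ] ℝ) {r : ℝ} (hr : 0 < r)
    (p v : ℝ × ℝ) (hv : ‖v‖ ≤ 1) (t : ℝ) :
    ∃ d : ℝ, HasDerivAt (fun t : ℝ => ff (α (p + t • v))) d t ∧
      |d| ≤ 2 / √r * en r α A (p + t • v) := by
  have hu := hasDeriv_u hα A p v t
  set q := p + t • v with hq
  set u' := 2 * ((α q).re * (eta α A q v).re + (α q).im * (eta α A q v).im) with hu'
  set m := ‖α q‖ with hm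
  have hm0 : 0 ≤ m := norm_nonneg _
  have hpos : (0 : ℝ) < 1 + m ^ 2 := by positivity
  have h1 : HasDerivAt (fun t : ℝ => (1 - ‖α (p + t • v)‖ ^ 2)) (-u') t := by
    simpa using hu.const_sub 1
  have h2 : HasDerivAt (fun t : ℝ => (1 + ‖α (p + t • v)‖ ^ 2)) u' t := by
    simpa using hu.const_add 1
  have h3 := (h1.div h2 (by rw [← hq, ← hm]; exact hpos.ne')).pow 2
  refine ⟨_, h3, ?_⟩
  simp only [← hq, ← hm]
  have hub : |u'| ≤ 2 * (m * ‖eta α A q‖) := by
    rw [hu', abs_mul, abs_two]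
    have hb := bilin (α q) (eta α A q v)
    have he := eta_le (α := α) (A := A) q v hv
    have : ‖α q‖ * ‖eta α A q v‖ ≤ m * ‖eta α A q‖ := by rw [hm]; gcongr
    linarith
  have hy := young (α := α) (A := A) hr q
  rw [← hm] at hy
  have hs : 0 < √r := Real.sqrt_pos.2 hr
  have key : |(2 : ℕ) * ((1 - m ^ 2) / (1 + m ^ 2)) ^ (2 - 1) *
      ((-u' * (1 + m ^ 2) - (1 - m ^ 2) * u') / (1 + m ^ 2) ^ 2)| ≤
      4 * (|1 - m ^ 2| * ‖eta α A q‖) := by
    have e1 : (2 : ℕ) * ((1 - m ^ 2) / (1 + m ^ 2)) ^ (2 - 1) *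
      ((-u' * (1 + m ^ 2) - (1 - m ^ 2) * u') / (1 + m ^ 2) ^ 2) =
        -(4 * ((1 - m ^ 2) * u') / (1 + m ^ 2) ^ 3) := by
      rw [show -u' * (1 + m ^ 2) - (1 - m ^ 2) * u' = -(2 * u') by ring]
      have hw : (1 + m ^ 2) ≠ 0 := hpos.ne'
      generalize 1 + m ^ 2 = w at hw
      generalize 1 - m ^ 2 = c
      push_cast
      rw [pow_one]
      field_simp
      ring
    rw [e1, abs_neg, abs_div, abs_mul, abs_mul, abs_of_pos (by positivity : (0:ℝ) < (1 + m ^ 2) ^ 3),
      div_le_iff₀ (by positivity)]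
    have h4 : |(4 : ℝ)| = 4 := by norm_num
    rw [h4]
    have h5 : 2 * m ≤ (1 + m ^ 2) ^ 3 := by
      have h6 : 2 * m ≤ 1 + m ^ 2 := by nlinarith [sq_nonneg (m - 1)]
      have h7 : 1 + m ^ 2 ≤ (1 + m ^ 2) ^ 3 := by
        apply le_self_pow₀ (by nlinarith [sq_nonneg m]) (by norm_num)
      linarith
    have h8 : |1 - m ^ 2| * |u'| ≤ |1 - m ^ 2| * (2 * (m * ‖eta α A q‖)) := by gcongr
    have h9 : (2 * m) * (|1 - m ^ 2| * ‖eta α A q‖) ≤
        (1 + m ^ 2) ^ 3 * (|1 - m ^ 2| * ‖eta α A q‖) := by gcongr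
    nlinarith [h8, h9]
  refine key.trans ?_
  have : 2 / √r * en r α A q = 2 * (en r α A q / √r) := by ring
  rw [this]
  linarith

/-- the sup bound of the deviation on a side. -/
theorem side (hα : ContDiff ℝ ∞ α) (hA : ContDiff ℝ ∞ A) {r : ℝ} (hr : 0 < r)
    (p v : ℝ × ℝ) (hv : ‖v‖ ≤ 1) {a b : ℝ} (hab : a < b) (hL : 1 ≤ r * (b - a) ^ 2) :
    ∀ t ∈ Icc a b, ff (α (p + t • v)) ≤
      3 * ((∫ s in a..b, en r α A (p + s • v)) / √r) := by
  have hs : 0 < √r := Real.sqrt_pos.2 hr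
  have hss : √r * √r = r := Real.mul_self_sqrt hr.le
  have hcont : Continuous fun s : ℝ => en r α A (p + s • v) :=
    (cont_en hα hA r).comp (by fun_prop)
  have hint : ∀ x y : ℝ, IntervalIntegrable (fun s : ℝ => en r α A (p + s • v)) volume x y :=
    fun x y => hcont.intervalIntegrable x y
  set G : ℝ → ℝ := fun t => ∫ s in a..t, en r α A (p + s • v) with hG
  have hGd : ∀ t, HasDerivAt G (en r α A (p + t • v)) t := fun t =>
    intervalIntegral.integral_hasDerivAt_right (hint a t)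
      hcont.stronglyMeasurable.stronglyMeasurableAtFilter hcont.continuousAt
  have hGm : Monotone G := monotone_of_hasDerivAt_nonneg hGd fun t => en_nonneg hr _
  have hGa : G a = 0 := by simp [hG]
  have hff := fun t => hasDeriv_ff hα A hr p v hv t
  choose d hd hdb using hff
  have hup : Monotone fun t => ff (α (p + t • v)) + 2 / √r * G t := by
    refine monotone_of_hasDerivAt_nonneg (fun t => (hd t).add ((hGd t).const_mul (2 / √r))) ?_
    intro t
    have := (abs_le.1 (hdb t)).1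
    simp only [Pi.zero_apply]
    linarith
  have hdn : Antitone fun t => ff (α (p + t • v)) - 2 / √r * G t := by
    refine antitone_of_hasDerivAt_nonpos (fun t => (hd t).sub ((hGd t).const_mul (2 / √r))) ?_
    intro t
    have := (abs_le.1 (hdb t)).2
    simp only [Pi.zero_apply]
    linarith
  have hc : 0 < 2 / √r := by positivity
  intro t ht
  have hG1 : ∀ s ∈ Icc a b, 0 ≤ G s ∧ G s ≤ G b := fun s hs' =>
    ⟨hGa ▸ hGm hs'.1, hGm hs'.2⟩
  have hstep : ∀ s ∈ Icc a b, ff (α (p + t • v)) - 2 / √r * G b ≤ en r α A (p + s • v) / r := by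
    intro s hs'
    have h1 : ff (α (p + s • v)) ≤ en r α A (p + s • v) / r := by
      rw [le_div_iff₀ hr]
      have := ff_le (α (p + s • v))
      unfold en
      nlinarith [sq_nonneg ‖eta α A (p + s • v)‖]
    have h2 : ff (α (p + t • v)) - 2 / √r * G b ≤ ff (α (p + s • v)) := by
      have gs := hG1 s hs'
      have gt := hG1 t ht
      rcases le_total s t with hst | hst
      · have h := hdn hst
        simp only at h
        nlinarith [mul_le_mul_of_nonneg_left gt.2 hc.le, mul_nonneg hc.le gs.1]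
      · have h := hup hst
        simp only at h
        nlinarith [mul_le_mul_of_nonneg_left gs.2 hc.le, mul_nonneg hc.le gt.1]
    linarith
  have hint2 : (∫ s in a..b, (ff (α (p + t • v)) - 2 / √r * G b)) ≤
      ∫ s in a..b, en r α A (p + s • v) / r :=
    intervalIntegral.integral_mono_on hab.le (by simp) ((hint a b).div_const r) hstep
  rw [intervalIntegral.integral_const, intervalIntegral.integral_div, smul_eq_mul] at hint2
  have hGb : (∫ s in a..b, en r α A (p + s • v)) = G b := rfl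
  rw [hGb] at hint2 ⊢
  have hGb0 : 0 ≤ G b := (hG1 b ⟨hab.le, le_rfl⟩).1
  have hLpos : 0 < b - a := by linarith
  have hLs : 1 ≤ √r * (b - a) := by
    have h1 : (1 : ℝ) ≤ (√r * (b - a)) ^ 2 := by
      rw [mul_pow, sq √r, hss]; exact hL
    by_contra hcon
    push Not at hcon
    have h0 : 0 ≤ √r * (b - a) := by positivity
    nlinarith
  have h3 : G b / r ≤ (b - a) * (G b / √r) := by
    rw [div_le_iff₀ hr]
    have : (b - a) * (G b / √r) * r = (√r * (b - a)) * G b := by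
      field_simp
      rw [Real.sq_sqrt hr.le]
    rw [this]
    nlinarith
  have h4 : (b - a) * (ff (α (p + t • v)) - 2 / √r * G b) ≤ (b - a) * (G b / √r) :=
    hint2.trans h3
  have h5 := le_of_mul_le_mul_left h4 hLpos
  have h6 : 2 / √r * G b = 2 * (G b / √r) := by ring
  rw [h6] at h5
  linarith

/-- small deviation gives two sided bounds. -/
theorem bounds {z : ℂ} (h : ff z ≤ 1 / 25) : 2 / 3 ≤ ‖z‖ ^ 2 ∧ ‖z‖ ^ 2 ≤ 3 / 2 := by
  unfold ff at h
  have hp : 0 < 1 + ‖z‖ ^ 2 := by positivity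
  have h1 : |(1 - ‖z‖ ^ 2) / (1 + ‖z‖ ^ 2)| ≤ 1 / 5 := by
    apply abs_le_of_sq_le_sq _ (by norm_num)
    norm_num
    linarith
  rw [abs_le] at h1
  rw [le_div_iff₀ hp, div_le_iff₀ hp] at h1
  constructor <;> linarith [h1.1, h1.2]

theorem jf_bound {r : ℝ} (hr : 0 < r) (p v : ℝ × ℝ) (hv : ‖v‖ ≤ 1) (h : 2 / 3 ≤ ‖α p‖ ^ 2) :
    |(((1 - ‖α p‖ ^ 2) / ‖α p‖ ^ 2) • jf α A p) v| ≤ en r α A p / √r := by
  have hm0 : 0 ≤ ‖α p‖ := norm_nonneg _
  have hm1 : 1 / 2 ≤ ‖α p‖ := by
    by_contra hc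
    push Not at hc
    nlinarith
  have hmp : 0 < ‖α p‖ := by linarith
  have hj : |jf α A p v| ≤ ‖α p‖ * ‖eta α A p‖ := by
    have h1 : jf α A p v = (α p).re * (eta α A p v).im - (α p).im * (eta α A p v).re := by
      simp [jf]
    rw [h1]
    refine (bilin2 _ _).trans ?_
    have := eta_le (α := α) (A := A) p v hv
    gcongr
  rw [smul_apply, smul_eq_mul, abs_mul, abs_div,
    abs_of_pos (by positivity : (0:ℝ) < ‖α p‖ ^ 2)]
  refine le_trans ?_ (young (α := α) (A := A) hr p)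
  have h2 : |1 - ‖α p‖ ^ 2| / ‖α p‖ ^ 2 * |jf α A p v| ≤
      |1 - ‖α p‖ ^ 2| / ‖α p‖ ^ 2 * (‖α p‖ * ‖eta α A p‖) := by gcongr
  refine h2.trans ?_
  have h3 : |1 - ‖α p‖ ^ 2| / ‖α p‖ ^ 2 * (‖α p‖ * ‖eta α A p‖) =
      (|1 - ‖α p‖ ^ 2| * ‖eta α A p‖) / ‖α p‖ := by
    field_simp
  rw [h3, div_le_iff₀ hmp]
  have h4 : 0 ≤ |1 - ‖α p‖ ^ 2| * ‖eta α A p‖ := by positivity
  nlinarith

theorem nearint (h : SLICE) : NEARINT := by
  refine ⟨75, by norm_num, ?_⟩
  intro α A r hα hA hr a1 b1 a2 b2 h1 h2 hr1 hr2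
  have hs : 0 < √r := Real.sqrt_pos.2 hr
  have hc := cont_en (α := α) (A := A) hα hA r
  have hn10 : ‖((1 : ℝ), (0 : ℝ))‖ ≤ 1 := by simp [Prod.norm_def]
  have hn01 : ‖((0 : ℝ), (1 : ℝ))‖ ≤ 1 := by simp [Prod.norm_def]
  set F := ∫ x in a1..b1, ∫ y in a2..b2, psi α A (x, y) (1, 0) (0, 1) with hF
  set E := bdF (en r α A) a1 b1 a2 b2 with hE
  -- the four sides
  have c1 : ∀ c : ℝ, Continuous fun x : ℝ => en r α A (x, c) := fun c => hc.comp (by fun_prop)
  have c2 : ∀ c : ℝ, Continuous fun y : ℝ => en r α A (c, y) := fun c => hc.comp (by fun_prop)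
  have n1 : ∀ c : ℝ, 0 ≤ ∫ x in a1..b1, en r α A (x, c) := fun c =>
    intervalIntegral.integral_nonneg h1.le fun x _ => en_nonneg hr _
  have n2 : ∀ c : ℝ, 0 ≤ ∫ y in a2..b2, en r α A (c, y) := fun c =>
    intervalIntegral.integral_nonneg h2.le fun x _ => en_nonneg hr _
  have hEs : E = (∫ x in a1..b1, en r α A (x, a2)) + (∫ x in a1..b1, en r α A (x, b2)) +
      ((∫ y in a2..b2, en r α A (b1, y)) + ∫ y in a2..b2, en r α A (a1, y)) := by
    rw [hE, bdF, intervalIntegral.integral_add ((c1 a2).intervalIntegrable _ _)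
      ((c1 b2).intervalIntegrable _ _), intervalIntegral.integral_add
      ((c2 b1).intervalIntegrable _ _) ((c2 a1).intervalIntegrable _ _)]
  have hE0 : 0 ≤ E := by
    rw [hEs]; have := n1 a2; have := n1 b2; have := n2 b1; have := n2 a1; linarith
  rcases lt_or_ge (√r / 75) E with hbig | hsmall
  · -- large boundary energy
    have h3 : 1 ≤ 75 * (E / √r) := by
      rw [← mul_div_assoc, le_div_iff₀ hs]
      linarith
    have h4 : |F| ≤ F ^ 2 + 1 := by
      rw [abs_le]; constructor <;> nlinarith [sq_nonneg (F + 1), sq_nonneg (F - 1), sq_nonneg F]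
    nlinarith [sq_nonneg F]
  · have hEr : E / √r ≤ 1 / 75 := by
      rw [div_le_iff₀ hs]; linarith
    -- deviations on the sides
    have s1 : ∀ c : ℝ, (∫ x in a1..b1, en r α A (x, c)) ≤ E → ∀ x ∈ Icc a1 b1,
        ff (α (x, c)) ≤ 1 / 25 := by
      intro c hcE x hx
      have := side hα hA hr (0, c) (1, 0) hn10 h1 hr1 x hx
      have e : ∀ s : ℝ, ((0 : ℝ), c) + s • ((1 : ℝ), (0 : ℝ)) = (s, c) := by
        intro s; simp
      simp only [e] at this
      have h5 : (∫ x in a1..b1, en r α A (x, c)) / √r ≤ E / √r := by gcongr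
      linarith
    have s2 : ∀ c : ℝ, (∫ y in a2..b2, en r α A (c, y)) ≤ E → ∀ y ∈ Icc a2 b2,
        ff (α (c, y)) ≤ 1 / 25 := by
      intro c hcE x hx
      have := side hα hA hr (c, 0) (0, 1) hn01 h2 hr2 x hx
      have e : ∀ s : ℝ, (c, (0 : ℝ)) + s • ((0 : ℝ), (1 : ℝ)) = (c, s) := by
        intro s; simp
      simp only [e] at this
      have h5 : (∫ y in a2..b2, en r α A (c, y)) / √r ≤ E / √r := by gcongr
      linarith
    have q1 := s1 a2 (by rw [hEs]; have := n1 b2; have := n2 b1; have := n2 a1; linarith)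
    have q2 := s1 b2 (by rw [hEs]; have := n1 a2; have := n2 b1; have := n2 a1; linarith)
    have q3 := s2 a1 (by rw [hEs]; have := n1 a2; have := n1 b2; have := n2 b1; linarith)
    have q4 := s2 b1 (by rw [hEs]; have := n1 a2; have := n1 b2; have := n2 a1; linarith)
    have nz : ∀ z : ℂ, ff z ≤ 1 / 25 → z ≠ 0 := by
      intro z hz h0
      have := (bounds hz).1
      rw [h0] at this
      norm_num at this
    obtain ⟨N, hN⟩ := h α A hα hA a1 b1 a2 b2 h1.le h2.le
      (fun x hx => ⟨nz _ (q1 x hx), nz _ (q2 x hx)⟩)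
      (fun y hy => ⟨nz _ (q3 y hy), nz _ (q4 y hy)⟩)
    rw [← hF] at hN
    set B : ℝ × ℝ → ℝ × ℝ →L[ℝ] ℝ :=
      fun p => ((1 - ‖α p‖ ^ 2) / ‖α p‖ ^ 2) • jf α A p with hB
    have hb : |bdI B a1 b1 a2 b2| ≤ E / √r := by
      have i1 : ‖∫ x in a1..b1, (B (x, a2) (1, 0) - B (x, b2) (1, 0))‖ ≤
          ∫ x in a1..b1, (en r α A (x, a2) + en r α A (x, b2)) / √r := by
        refine intervalIntegral.norm_integral_le_of_norm_le h1.le ?_ ?_
        · refine Eventually.of_forall fun x hx => ?_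
          have hx' : x ∈ Icc a1 b1 := Ioc_subset_Icc_self hx
          have j1 := jf_bound (α := α) (A := A) hr (x, a2) (1, 0) hn10 (bounds (q1 x hx')).1
          have j2 := jf_bound (α := α) (A := A) hr (x, b2) (1, 0) hn10 (bounds (q2 x hx')).1
          rw [add_div]
          exact (norm_sub_le _ _).trans (add_le_add j1 j2)
        · exact (((c1 a2).add (c1 b2)).div_const _).intervalIntegrable _ _
      have i2 : ‖∫ y in a2..b2, (B (b1, y) (0, 1) - B (a1, y) (0, 1))‖ ≤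
          ∫ y in a2..b2, (en r α A (b1, y) + en r α A (a1, y)) / √r := by
        refine intervalIntegral.norm_integral_le_of_norm_le h2.le ?_ ?_
        · refine Eventually.of_forall fun x hx => ?_
          have hx' : x ∈ Icc a2 b2 := Ioc_subset_Icc_self hx
          have j1 := jf_bound (α := α) (A := A) hr (b1, x) (0, 1) hn01 (bounds (q4 x hx')).1
          have j2 := jf_bound (α := α) (A := A) hr (a1, x) (0, 1) hn01 (bounds (q3 x hx')).1
          rw [add_div]
          exact (norm_sub_le _ _).trans (add_le_add j1 j2)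
        · exact (((c2 b1).add (c2 a1)).div_const _).intervalIntegrable _ _
      rw [intervalIntegral.integral_div] at i1 i2
      rw [hE, bdF, bdI, add_div]
      exact (abs_add_le _ _).trans (add_le_add i1 i2)
    have hbd : |bdI B a1 b1 a2 b2| ≤ 1 / 75 := hb.trans hEr
    rcases eq_or_ne N 0 with h0 | h0
    · have : |F| ≤ E / √r := by
        rw [hN, h0]
        simp only [Int.cast_zero, mul_zero, zero_sub, abs_neg]
        exact hb
      have h9 : 0 ≤ E / √r := by positivity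
      nlinarith [sq_nonneg F]
    · have hN1 : (1 : ℝ) ≤ |(N : ℝ)| := by
        have := Int.one_le_abs h0
        exact_mod_cast this
      have hpi := Real.pi_gt_three
      have h10 : 6 ≤ |2 * Real.pi * N| := by
        rw [abs_mul, abs_of_pos (by positivity)]
        nlinarith
      have h11 : |2 * Real.pi * N| - |bdI B a1 b1 a2 b2| ≤ |F| := by
        rw [hN]; exact abs_sub_abs_le_abs_sub _ _
      have h12 : 1 ≤ |F| := by linarith
      have h13 : |F| ≤ F ^ 2 := by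
        rw [← sq_abs]; nlinarith
      have h9 : 0 ≤ E / √r := by positivity
      nlinarith [sq_nonneg F]

end

end Crest.Agent.R235.SwcNear_915
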