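import Crest.Agent.R235.SwcGlob_34
import Crest.Agent.R235.LbG_453

/-!
Row 235 (S0364), PACKAGE SWC-AN (leader helper34), node G1 = PTW (helper766): smoothness,
closedness and the pointwise formula of `Psi`.

Local calculus: with a local unit section `s` of the line bundle, `α = f s`, `f = ⟨s, α⟩`,
`η_i = s_i h`, `h = df - i f A`, `A = θ + 2π conn s`, `dA = Phi`,
`jj = Re f d Im f - Im f d Re f - |f|² A`.
-/

set_option autoImplicit false
set_option maxSynthPendingDepth 3
set_option linter.unusedSectionVars false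

open Set Function Filter Topology Complex
open scoped ContDiff ComplexConjugate Matrix Manifold

universe u

namespace Crest.Agent.R235.SwcPtw_766

open Crest.Agent.R240 Crest.Agent.R240.Ch Crest.Agent.R235 Crest.Agent.R235.Lb453
open Crest.Agent.R235.Loc_524 Crest.Agent.R235.SwcGlob_34

noncomputable section

section loc

variable {M : Type u} [TopologicalSpace M] [ChartedSpace E4 M] [IsManifold 𝓘(ℝ, E4) ∞ M]
variable {N : ℕ}

/-- the coordinate of `α` in the frame `s`. -/
def co (s α : M → Fin N → ℂ) (z : M) : ℂ := ∑ l, conj (s z l) * α z l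

/-- the local connection form `θ + 2π conn s`. -/
def AA (s : M → Fin N → ℂ) (θ : F1 E4 M) (z : M) (u : E4) : ℝ :=
  at1 θ z u + 2 * Real.pi * at1 (conn s) z u

/-- `h = df - i f A`. -/
def hh (s α : M → Fin N → ℂ) (θ : F1 E4 M) (z : M) (u : E4) : ℂ :=
  dC (co s α) z u - I * co s α z * AA s θ z u

theorem sc_co {s α : M → Fin N → ℂ} {z : M} (hs : ∀ l, SC (fun w => s w l) z)
    (hα : ∀ l, SC (fun w => α w l) z) : SC (co s α) z :=
  SC.sum fun l _ => (hs l).conj.mul (hα l)

/-- `⟨s, ds⟩ = - 2π i conn s`. -/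
theorem unit_conn {s : M → Fin N → ℂ} {x : M} (hs : ∀ l, SC (fun z => s z l) x)
    (h1 : ∀ᶠ z in 𝓝 x, ∑ l, conj (s z l) * s z l = 1) (u : E4) :
    ∑ l, conj (s x l) * dC (fun z => s z l) x u = -(I * ((2 * Real.pi * at1 (conn s) x u : ℝ) : ℂ)) := by
  have h2 := deriv_unit (v := fun y l => s ((chartAt E4 x).symm y) l) (y := chartAt E4 x x)
    (fun l => (hs l).diff) (ev_chart h1) u
  have h3 : ∑ l, conj (dC (fun z => s z l) x u) * s x l =
      - ∑ l, conj (s x l) * dC (fun z => s z l) x u := by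
    have := h2
    simp only [(chartAt E4 x).left_inv (mem_chart_source E4 x)] at this
    exact this
  set S := ∑ l, conj (s x l) * dC (fun z => s z l) x u with hS
  have h4 : conj S = - S := by
    rw [← h3, hS, map_sum]
    refine Finset.sum_congr rfl fun l _ => ?_
    rw [map_mul, Complex.conj_conj, mul_comm]
  have h5 : S.re = 0 := by
    have := congrArg Complex.re h4
    rw [Complex.conj_re, Complex.neg_re] at this
    linarith
  rw [conn_apply hs, ← hS]
  have hpi : (Real.pi : ℂ) ≠ 0 := by exact_mod_cast Real.pi_ne_zero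
  have h6 : S = I * ((S.im : ℝ) : ℂ) := by
    apply Complex.ext <;> simp [h5]
  have h7 : (I / (2 * (Real.pi : ℂ)) * S).re = -(S.im / (2 * Real.pi)) := by
    have : I / (2 * (Real.pi : ℂ)) * S = ((-(S.im / (2 * Real.pi)) : ℝ) : ℂ) := by
      conv_lhs => rw [h6]
      push_cast
      field_simp
      rw [Complex.I_sq]
      ring
    rw [this, Complex.ofReal_re]
  rw [h7]
  have h8 : (2 * Real.pi * -(S.im / (2 * Real.pi))) = -S.im := by
    field_simp
  rw [h8]
  conv_lhs => rw [h6]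
  push_cast
  ring

/-- in a local unit frame the covariant derivative is `s_i h`. -/
theorem cov_loc {p : M → Matrix (Fin N) (Fin N) ℂ} {s α : M → Fin N → ℂ} {θ : F1 E4 M} {U : Set M}
    (hU : IsOpen U) (hs : ∀ x ∈ U, ∀ l, SC (fun z => s z l) x)
    (hs1 : ∀ x ∈ U, ∑ l, conj (s x l) * s x l = 1) (hpr : ∀ x ∈ U, p x = pr (s x))
    (hα : ∀ x ∈ U, ∀ l, SC (fun z => α z l) x) (hp : ∀ x ∈ U, (p x).mulVec (α x) = α x) {x : M}
    (hx : x ∈ U) :
    (∀ i, α x i = co s α x * s x i) ∧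
    ∀ (i : Fin N) (u : E4), (∑ j, p x i j * dC (fun z => α z j) x u) - I * α x i * at1 θ x u =
      s x i * hh s α θ x u := by
  have hc : ∀ z ∈ U, ∀ i, α z i = co s α z * s z i := by
    intro z hz i
    have h1 := congrFun (hp z hz) i
    rw [hpr z hz] at h1
    rw [← h1]
    show ∑ j, s z i * conj (s z j) * α z j = _
    unfold co
    rw [Finset.sum_mul]
    exact Finset.sum_congr rfl fun j _ => by ring
  refine ⟨hc x hx, fun i u => ?_⟩
  have hsco : SC (co s α) x := sc_co (hs x hx) (hα x hx)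
  have hd : ∀ j, dC (fun z => α z j) x u =
      co s α x * dC (fun z => s z j) x u + s x j * dC (co s α) x u := by
    intro j
    have : ∀ᶠ z in 𝓝 x, α z j = co s α z * s z j := by
      filter_upwards [hU.mem_nhds hx] with z hz
      exact hc z hz j
    rw [dC_congr this, dC_mul hsco (hs x hx j)]
  have hconn := unit_conn (hs x hx) (by
    filter_upwards [hU.mem_nhds hx] with z hz using hs1 z hz) u
  have e1 : ∀ j, p x i j * dC (fun z => α z j) x u =
      s x i * co s α x * (conj (s x j) * dC (fun z => s z j) x u) +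
        s x i * dC (co s α) x u * (conj (s x j) * s x j) := by
    intro j
    rw [hpr x hx, hd j]
    show s x i * conj (s x j) * _ = _
    ring
  rw [Finset.sum_congr rfl fun j _ => e1 j, Finset.sum_add_distrib, ← Finset.mul_sum,
    ← Finset.mul_sum, hconn, hs1 x hx, hc x hx i]
  unfold hh AA
  push_cast
  ring

/-- `Im (conj α_i η_i)` summed, in the frame. -/
theorem im_loc {s a : Fin N → ℂ} {e : Fin N → ℂ} {f h : ℂ} (hs : ∑ l, conj (s l) * s l = 1)
    (ha : ∀ i, a i = f * s i) (he : ∀ i, e i = s i * h) :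
    ∑ i, ((a i).re * (e i).im - (a i).im * (e i).re) = f.re * h.im - f.im * h.re := by
  have h1 : ∀ i, (a i).re * (e i).im - (a i).im * (e i).re =
      (conj f * h * (conj (s i) * s i)).im := by
    intro i
    have : conj f * h * (conj (s i) * s i) = conj (a i) * e i := by
      rw [ha i, he i, map_mul]; ring
    rw [this]
    simp only [Complex.mul_im, Complex.conj_re, Complex.conj_im]
    ring
  rw [Finset.sum_congr rfl fun i _ => h1 i, ← Complex.im_sum, ← Finset.mul_sum, hs, mul_one]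
  simp only [Complex.mul_im, Complex.conj_re, Complex.conj_im]
  ring

theorem wed_loc {s : Fin N → ℂ} {e d : Fin N → ℂ} {h k : ℂ} (hs : ∑ l, conj (s l) * s l = 1)
    (he : ∀ i, e i = s i * h) (hd : ∀ i, d i = s i * k) :
    ∑ i, ((e i).re * (d i).im - (e i).im * (d i).re) = h.re * k.im - h.im * k.re :=
  im_loc hs (fun i => by rw [he i, mul_comm]) hd

theorem nal_loc {s a : Fin N → ℂ} {f : ℂ} (hs : ∑ l, conj (s l) * s l = 1)
    (ha : ∀ i, a i = f * s i) : ∑ i, ‖a i‖ ^ 2 = f.re * f.re + f.im * f.im := by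
  have h1 : ((∑ i, ‖a i‖ ^ 2 : ℝ) : ℂ) = ((f.re * f.re + f.im * f.im : ℝ) : ℂ) := by
    have h2 : ∀ i, ((‖a i‖ ^ 2 : ℝ) : ℂ) = (conj f * f) * (conj (s i) * s i) := by
      intro i
      rw [← Complex.normSq_eq_norm_sq, Complex.normSq_eq_conj_mul_self, ha i, map_mul]
      ring
    rw [Complex.ofReal_sum, Finset.sum_congr rfl fun i _ => h2 i, ← Finset.mul_sum, hs, mul_one,
      ← Complex.normSq_eq_conj_mul_self, Complex.normSq_apply]
  exact_mod_cast h1

/-- the coefficients of `jj` in the frame. -/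
def gg (f : M → ℂ) : Fin 4 → M → ℝ :=
  ![fun z => (f z).re, fun z => -(f z).im, fun z => -((f z).re * (f z).re + (f z).im * (f z).im),
    fun z => -(2 * Real.pi * ((f z).re * (f z).re + (f z).im * (f z).im))]

/-- the forms of `jj` in the frame. -/
def tt (f : M → ℂ) (s : M → Fin N → ℂ) (θ : F1 E4 M) : Fin 4 → F1 E4 M :=
  ![dF (E := E4) (fun z => (f z).im), dF (E := E4) (fun z => (f z).re), θ, conn s]

/-- `jj` in the frame. -/
def jl (f : M → ℂ) (s : M → Fin N → ℂ) (θ : F1 E4 M) : F1 E4 M :=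
  fun z => ∑ q, gg f q z • tt f s θ q z

theorem at1_jl (f : M → ℂ) (s : M → Fin N → ℂ) (θ : F1 E4 M) {z : M} (hf : SC f z) (u : E4) :
    at1 (jl f s θ) z u = (f z).re * (dC f z u).im - (f z).im * (dC f z u).re -
      ((f z).re * (f z).re + (f z).im * (f z).im) * AA s θ z u := by
  have h : at1 (jl f s θ) z u = ∑ q, gg f q z * at1 (tt f s θ q) z u := by
    unfold jl at1
    rw [sum_apply]
    rfl
  rw [h, Fin.sum_univ_four]
  show (f z).re * at1 (dF (E := E4) (fun z => (f z).im)) z u +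
    -(f z).im * at1 (dF (E := E4) (fun z => (f z).re)) z u +
    -((f z).re * (f z).re + (f z).im * (f z).im) * at1 θ z u +
    -(2 * Real.pi * ((f z).re * (f z).re + (f z).im * (f z).im)) * at1 (conn s) z u = _
  rw [dC_im hf, dC_re hf]
  unfold AA
  ring

/-- the differential of `|f|²`. -/
theorem dF_nsq {f : M → ℂ} {x : M} (hf : SC f x) (c : ℝ) (u : E4) :
    at1 (dF (E := E4) (fun z => -(c * ((f z).re * (f z).re + (f z).im * (f z).im)))) x u =
      -(c * (2 * (f x).re * (dC f x u).re + 2 * (f x).im * (dC f x u).im)) := by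
  have h1 : DifferentiableAt ℝ (repF (E := E4) x (fun z => (f z).re)) (chartAt E4 x x) :=
    hf.re.differentiableAt infty_ne_zero
  have h2 : DifferentiableAt ℝ (repF (E := E4) x (fun z => (f z).im)) (chartAt E4 x x) :=
    hf.im.differentiableAt infty_ne_zero
  have e : repF (E := E4) x (fun z => -(c * ((f z).re * (f z).re + (f z).im * (f z).im))) =
      fun y => -(c * (repF (E := E4) x (fun z => (f z).re) y * repF (E := E4) x (fun z => (f z).re) y +
        repF (E := E4) x (fun z => (f z).im) y * repF (E := E4) x (fun z => (f z).im) y)) := rfl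
  rw [at1_dF, e]
  have h3 := ((h1.hasFDerivAt.mul h1.hasFDerivAt).add (h2.hasFDerivAt.mul h2.hasFDerivAt)).const_mul c
  have h4 := h3.neg.fderiv
  simp only [Pi.neg_def, Pi.add_def, Pi.mul_def] at h4
  rw [h4]
  simp only [neg_apply, smul_apply, add_apply, smul_eq_mul]
  rw [← dC_re hf, ← dC_im hf, at1_dF, at1_dF, repF_chart (mem_chart_source E4 x),
    repF_chart (mem_chart_source E4 x)]
  ring

theorem dG_jl {f : M → ℂ} {s : M → Fin N → ℂ} {θ : F1 E4 M} {U : Set M} (hU : IsOpen U)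
    (hf : ∀ x ∈ U, SC f x) (hs : ∀ x ∈ U, ∀ l, SC (fun z => s z l) x)
    (hθ : ∀ x ∈ U, SmAt1 θ x) {x : M} (hx : x ∈ U) (u v : E4) :
    at2 (dG (jl f s θ)) x u v =
      2 * ((dC f x u).re * (dC f x v).im - (dC f x u).im * (dC f x v).re) -
        2 * ((f x).re * (dC f x u).re + (f x).im * (dC f x u).im) * AA s θ x v +
        2 * ((f x).re * (dC f x v).re + (f x).im * (dC f x v).im) * AA s θ x u -
        ((f x).re * (f x).re + (f x).im * (f x).im) *
          (2 * Real.pi * at2 (dG (conn s)) x u v + at2 (dG θ) x u v) := by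
  have hfx := hf x hx
  have hre := hfx.re
  have him := hfx.im
  have h0 : ∀ q, S0 (gg f q) x ∧ S1 (tt f s θ q) x := by
    intro q
    fin_cases q
    · exact ⟨hre, smAt1_dF hU (fun z hz => (hf z hz).im) hx⟩
    · exact ⟨ContDiffAt.neg him, smAt1_dF hU (fun z hz => (hf z hz).re) hx⟩
    · exact ⟨ContDiffAt.neg ((ContDiffAt.mul hre hre).add (ContDiffAt.mul him him)), hθ x hx⟩
    · exact ⟨ContDiffAt.neg (ContDiffAt.mul contDiffAt_const
        ((ContDiffAt.mul hre hre).add (ContDiffAt.mul him him))), smAt1_conn hU hs hx⟩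
  have h1 : at2 (dG (jl f s θ)) x u v = ∑ q, (at1 (dF (E := E4) (gg f q)) x u * at1 (tt f s θ q) x v -
        at1 (dF (E := E4) (gg f q)) x v * at1 (tt f s θ q) x u +
        gg f q x * at2 (dG (tt f s θ q)) x u v) :=
    dG_sum_fmul1 (fun q => Or.inl (h0 q)) u v
  have g0 : ∀ w, at1 (dF (E := E4) (gg f 0)) x w = (dC f x w).re := fun w => dC_re hfx w
  have g1 : ∀ w, at1 (dF (E := E4) (gg f 1)) x w = -(dC f x w).im := by
    intro w
    rw [← dC_im hfx]
    show fderiv ℝ (fun y => -(repF (E := E4) x (fun z => (f z).im) y)) _ w = _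
    rw [fderiv_fun_neg]
    rfl
  have g2 : ∀ w, at1 (dF (E := E4) (gg f 2)) x w =
      -(2 * (f x).re * (dC f x w).re + 2 * (f x).im * (dC f x w).im) := by
    intro w
    have h := dF_nsq hfx 1 w
    simp only [one_mul] at h
    exact h
  have g3 : ∀ w, at1 (dF (E := E4) (gg f 3)) x w =
      -(2 * Real.pi * (2 * (f x).re * (dC f x w).re + 2 * (f x).im * (dC f x w).im)) :=
    fun w => dF_nsq hfx (2 * Real.pi) w
  have t0 : ∀ w, at1 (tt f s θ 0) x w = (dC f x w).im := fun w => dC_im hfx w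
  have t1 : ∀ w, at1 (tt f s θ 1) x w = (dC f x w).re := fun w => dC_re hfx w
  have t2 : ∀ w, at1 (tt f s θ 2) x w = at1 θ x w := fun w => rfl
  have t3 : ∀ w, at1 (tt f s θ 3) x w = at1 (conn s) x w := fun w => rfl
  have z0 : at2 (dG (tt f s θ 0)) x = 0 := dG_dF_loc hU (fun z hz => (hf z hz).im) hx
  have z1 : at2 (dG (tt f s θ 1)) x = 0 := dG_dF_loc hU (fun z hz => (hf z hz).re) hx
  have z2 : at2 (dG (tt f s θ 2)) x = at2 (dG θ) x := rfl
  have z3 : at2 (dG (tt f s θ 3)) x = at2 (dG (conn s)) x := rfl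
  have c2 : gg f 2 x = -((f x).re * (f x).re + (f x).im * (f x).im) := rfl
  have c3 : gg f 3 x = -(2 * Real.pi * ((f x).re * (f x).re + (f x).im * (f x).im)) := rfl
  rw [h1, Fin.sum_univ_four]
  simp only [g0, g1, g2, g3, t0, t1, t2, t3, z0, z1, z2, z3, c2, c3, zero_apply, mul_zero, add_zero]
  unfold AA
  ring

/-- the pointwise identity, in terms of `f`, `df`, `A`, `φ = dA`. -/
theorem psi_alg (f F G : ℂ) (Au Av φ : ℝ) (h k : ℂ) (hh : h = F - I * f * Au)
    (hk : k = G - I * f * Av) :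
    φ + (2 * (F.re * G.im - F.im * G.re) - 2 * (f.re * F.re + f.im * F.im) * Av +
      2 * (f.re * G.re + f.im * G.im) * Au - (f.re * f.re + f.im * f.im) * φ) =
      (1 - (f.re * f.re + f.im * f.im)) * φ + 2 * (h.re * k.im - h.im * k.re) := by
  subst hh hk
  simp only [Complex.sub_re, Complex.sub_im, Complex.mul_re, Complex.mul_im, Complex.I_re,
    Complex.I_im, Complex.ofReal_re, Complex.ofReal_im]
  ring

end loc

section glob

variable {M : Type u} [MetricSpace M] [CompactSpace M] [ChartedSpace E4 M]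
  [IsManifold 𝓘(ℝ, E4) ∞ M] {N : ℕ}

theorem cov_apply (p : M → Matrix (Fin N) (Fin N) ℂ) (θ : F1 E4 M) (α : M → Fin N → ℂ) (x : M)
    (i : Fin N) (u : E4) :
    cov p θ α x i u = (∑ j, p x i j * dC (fun z => α z j) x u) - I * α x i * at1 θ x u := by
  unfold cov
  rw [sub_apply, sum_apply]
  have h1 : (ContinuousLinearMap.smulRight (at1 θ x) (I * α x i)) u = I * α x i * at1 θ x u := by
    rw [ContinuousLinearMap.smulRight_apply, Complex.real_smul, mul_comm]
  rw [h1]
  rfl

/-- `jj` for one step. -/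
def jj1 (p : M → Matrix (Fin N) (Fin N) ℂ) (θ : F1 E4 M) (α : M → Fin N → ℂ) : F1 E4 M := fun x =>
  (∑ i, ((α x i).re • (Complex.imCLM.comp (cov p θ α x i)) -
    (α x i).im • (Complex.reCLM.comp (cov p θ α x i))) : E4 →L[ℝ] ℝ)

theorem jj1_apply (p : M → Matrix (Fin N) (Fin N) ℂ) (θ : F1 E4 M) (α : M → Fin N → ℂ) (x : M)
    (u : E4) : at1 (jj1 p θ α) x u = ∑ i, ((α x i).re * (cov p θ α x i u).im -
      (α x i).im * (cov p θ α x i u).re) := by
  unfold jj1 at1
  rw [sum_apply]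
  rfl

variable {p : M → Matrix (Fin N) (Fin N) ℂ} {a : Z2 M} {α : M → Fin N → ℂ} {θ : F1 E4 M}

/-- everything near a point. -/
theorem near (hp : IsLine p) (hα : ∀ i, ContMDiff 𝓘(ℝ, E4) 𝓘(ℝ, ℂ) ∞ (fun x => α x i))
    (hs : ∀ x, (p x).mulVec (α x) = α x) {m : Fin N} {x : M} (hx : x ∈ Om p m) :
    (∀ i, α x i = co (fun z => col (p z) m) α x * col (p x) m i) ∧
    (∀ i u, cov p θ α x i u = col (p x) m i * hh (fun z => col (p z) m) α θ x u) ∧
    at1 (jj1 p θ α) x = at1 (jl (co (fun z => col (p z) m) α) (fun z => col (p z) m) θ) x := by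
  have h := cov_loc (p := p) (s := fun z => col (p z) m) (α := α) (θ := θ)
    (isOpen_Om hp.smooth m) (fun z hz l => sc_col hp.smooth hz l) (fun z hz => unit_col hp hz)
    (fun z hz => p_eq hp hz) (fun z _ l => sc_of_contMDiff (hα l) z) (fun z _ => hs z) hx
  have h2 : ∀ i u, cov p θ α x i u = col (p x) m i * hh (fun z => col (p z) m) α θ x u := by
    intro i u
    rw [cov_apply]
    exact h.2 i u
  refine ⟨h.1, h2, ?_⟩
  ext u
  have hsc : SC (co (fun z => col (p z) m) α) x :=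
    sc_co (fun l => sc_col hp.smooth hx l) (fun l => sc_of_contMDiff (hα l) x)
  rw [jj1_apply, at1_jl _ _ _ hsc, im_loc (unit_col hp hx) h.1 (fun i => h2 i u)]
  unfold hh
  simp only [Complex.sub_re, Complex.sub_im, Complex.mul_re, Complex.mul_im, Complex.I_re,
    Complex.I_im, Complex.ofReal_re, Complex.ofReal_im]
  ring

theorem smooth_jj1 (hp : IsLine p) (hα : ∀ i, ContMDiff 𝓘(ℝ, E4) 𝓘(ℝ, ℂ) ∞ (fun x => α x i))
    (hs : ∀ x, (p x).mulVec (α x) = α x) (hθ : Smooth1 θ) : Smooth1 (jj1 p θ α) := by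
  refine smooth1_of_S1 fun x => ?_
  obtain ⟨m, hm⟩ := Om_cover hp x
  have hU := isOpen_Om hp.smooth m
  refine S1.congr (s := jl (co (fun z => col (p z) m) α) (fun z => col (p z) m) θ) ?_ (by
    filter_upwards [hU.mem_nhds hm] with z hz
    exact (near hp hα hs hz).2.2)
  have hsc : ∀ z ∈ Om p m, SC (co (fun z => col (p z) m) α) z := fun z hz =>
    sc_co (fun l => sc_col hp.smooth hz l) (fun l => sc_of_contMDiff (hα l) z)
  have hre := (hsc x hm).re
  have him := (hsc x hm).im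
  have e : rep1 x (jl (co (fun z => col (p z) m) α) (fun z => col (p z) m) θ) = fun y =>
      ∑ q, repF x (gg (co (fun z => col (p z) m) α) q) y •
        rep1 x (tt (co (fun z => col (p z) m) α) (fun z => col (p z) m) θ q) y := by
    funext y
    ext w
    simp only [rep1_apply, at1, sum_apply, smul_apply, repF, jl]
  unfold S1
  rw [e]
  refine ContDiffAt.sum fun q _ => ?_
  fin_cases q
  · exact ContDiffAt.smul hre (smAt1_dF hU (fun z hz => (hsc z hz).im) hm)
  · exact ContDiffAt.smul (ContDiffAt.neg him) (smAt1_dF hU (fun z hz => (hsc z hz).re) hm)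
  · exact ContDiffAt.smul (ContDiffAt.neg ((ContDiffAt.mul hre hre).add (ContDiffAt.mul him him)))
      (hθ.S1 x)
  · exact ContDiffAt.smul (ContDiffAt.neg (ContDiffAt.mul contDiffAt_const
      ((ContDiffAt.mul hre hre).add (ContDiffAt.mul him him))))
      (smAt1_conn hU (fun z hz l => sc_col hp.smooth hz l) hm)

/-- the pointwise formula. -/
theorem psi_eq (hp : IsLine p) (ha : IsChern p a)
    (hα : ∀ i, ContMDiff 𝓘(ℝ, E4) 𝓘(ℝ, ℂ) ∞ (fun x => α x i))
    (hs : ∀ x, (p x).mulVec (α x) = α x) (hθ : Smooth1 θ) (x : M) (u v : E4) :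
    (2 * Real.pi * at2 (a.1.1 : F2 E4 M) x u v + at2 (dG θ) x u v) +
      at2 (dG (jj1 p θ α)) x u v =
    (1 - ∑ i, ‖α x i‖ ^ 2) * (2 * Real.pi * at2 (a.1.1 : F2 E4 M) x u v + at2 (dG θ) x u v) +
      2 * ∑ i, ((cov p θ α x i u).re * (cov p θ α x i v).im -
        (cov p θ α x i u).im * (cov p θ α x i v).re) := by
  obtain ⟨m, hm⟩ := Om_cover hp x
  have hU := isOpen_Om hp.smooth m
  have hsc : ∀ z ∈ Om p m, SC (co (fun z => col (p z) m) α) z := fun z hz =>
    sc_co (fun l => sc_col hp.smooth hz l) (fun l => sc_of_contMDiff (hα l) z)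
  obtain ⟨h1, h2, -⟩ := near (θ := θ) hp hα hs hm
  have e1 : at2 (dG (jj1 p θ α)) x =
      at2 (dG (jl (co (fun z => col (p z) m) α) (fun z => col (p z) m) θ)) x := by
    refine dG_congr ?_
    filter_upwards [hU.mem_nhds hm] with z hz
    exact (near hp hα hs hz).2.2
  rw [e1, dG_jl hU hsc (fun z hz l => sc_col hp.smooth hz l)
    (fun z _ => smAt1_of_smooth hθ z) hm, dG_conn_eq hp ha hm, nal_loc (unit_col hp hm) h1,
    wed_loc (unit_col hp hm) (fun i => h2 i u) (fun i => h2 i v)]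
  exact psi_alg _ _ _ _ _ _ _ _ rfl rfl

end glob

/-- the conclusion of PTW from the weak hypotheses (one step of a sequence). -/
theorem ptw_weak {M : Type u} [MetricSpace M] [CompactSpace M] [ChartedSpace E4 M]
    [IsManifold 𝓘(ℝ, E4) ∞ M] {N : ℕ} (Q : TSeq M N) (n : ℕ) (line : IsLine (Q.p n))
    (chern : IsChern (Q.p n) (Q.a0 n))
    (smα : ∀ i, ContMDiff 𝓘(ℝ, E4) 𝓘(ℝ, ℂ) ∞ (fun x => Q.α n x i))
    (secα : ∀ x, (Q.p n x).mulVec (Q.α n x) = Q.α n x) (smθ : Smooth1 (Q.θ n)) :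
    Smooth1 (Q.jj n) ∧ Smooth2 (Q.Phi n) ∧ Closed2 (Q.Phi n) ∧ Smooth2 (Q.Psi n) ∧
      Closed2 (Q.Psi n) ∧ ∀ x : M, at2 (Q.Psi n) x =
        (1 - Q.nal n x) • at2 (Q.Phi n) x + (2 : ℝ) • ∑ i,
          wed (Complex.reCLM.comp (Q.eta n x i)) (Complex.imCLM.comp (Q.eta n x i)) := by
  have hsm : Smooth1 (Q.jj n) := smooth_jj1 line smα secα smθ
  set zP : Z2 M := (2 * Real.pi) • Q.a0 n + exZ (Q.θ n) smθ with hzP
  have eP : Q.Phi n = (zP.1.1 : F2 E4 M) := rfl
  set zS : Z2 M := zP + exZ (Q.jj n) hsm with hzS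
  have eS : Q.Psi n = (zS.1.1 : F2 E4 M) := rfl
  refine ⟨hsm, ?_, ?_, ?_, ?_, fun x => ?_⟩
  · rw [eP]; exact zP.1.2
  · rw [eP]; exact zP.2
  · rw [eS]; exact zS.1.2
  · rw [eS]; exact zS.2
  · ext u v
    have h := psi_eq line chern smα secα smθ x u v
    have e3 : at2 (Q.Psi n) x u v = (2 * Real.pi * at2 ((Q.a0 n).1.1 : F2 E4 M) x u v +
        at2 (dG (Q.θ n)) x u v) + at2 (dG (Q.jj n)) x u v := rfl
    have e4 : at2 (Q.Phi n) x u v = 2 * Real.pi * at2 ((Q.a0 n).1.1 : F2 E4 M) x u v +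
        at2 (dG (Q.θ n)) x u v := rfl
    rw [e3]
    refine Eq.trans h ?_
    rw [add_apply, add_apply, smul_apply, smul_apply, smul_apply, smul_apply, sum_apply, sum_apply,
      e4]
    rfl

/-- **PTW**. -/
theorem ptw : SwcGlob_34.PTW.{u} := by
  intro M _ _ _ _ _ _ D N Q U lam C hQ n
  exact ptw_weak Q n (hQ.line n) (hQ.chern n) (hQ.smα n) (hQ.secα n) (hQ.smθ n)

end

end Crest.Agent.R235.SwcPtw_766
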