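import Crest.Agent.R235.SwcPair_659
import Crest.Agent.R240.Ch7

/-!
Row 235 (S0364), PACKAGE SWC-AN, helper659: POSITIVITY (part (ii) of QCH).

`pos`: for a closed positive current `S` with trace measure `s`, in suitable linear coordinates
`L` near `x`, `s {y | L⁻¹ (y - z) ∈ [-t,t]^4} ≤ 2 S (tst (2,3) + tst (0,1))`.
-/

set_option autoImplicit false
set_option maxSynthPendingDepth 3

open Set Function Filter MeasureTheory Metric
open scoped Manifold ContDiff Topology

universe u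

namespace Crest.Agent.R235.SwcPos_659

open Crest.Agent.R240 Crest.Agent.R240.Ch Crest.Agent.R240.Int Crest.Agent.R235
open Crest.Agent.R235.SwcDefs_34 Crest.Agent.R235.SwcGlob_34 Crest.Agent.R235.SwcPair_659

noncomputable section

/-! ### the cut-off `tf` -/

theorem hh_smooth : ContDiff ℝ ∞ hh :=
  (Real.smoothTransition.contDiff.comp (contDiff_const.sub contDiff_id)).mul
    (Real.smoothTransition.contDiff.comp (contDiff_const.add contDiff_id))

theorem hh_nonneg (x : ℝ) : 0 ≤ hh x :=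
  mul_nonneg (Real.smoothTransition.nonneg _) (Real.smoothTransition.nonneg _)

theorem hh_le_one (x : ℝ) : hh x ≤ 1 :=
  mul_le_one₀ (Real.smoothTransition.le_one _) (Real.smoothTransition.nonneg _)
    (Real.smoothTransition.le_one _)

theorem hh_one {x : ℝ} (hx : |x| ≤ 1) : hh x = 1 := by
  rw [abs_le] at hx
  unfold hh
  rw [Real.smoothTransition.one_of_one_le (by linarith),
    Real.smoothTransition.one_of_one_le (by linarith), one_mul]

theorem hh_zero {x : ℝ} (hx : 2 ≤ |x|) : hh x = 0 := by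
  unfold hh
  rcases le_abs.1 hx with h | h
  · rw [Real.smoothTransition.zero_of_nonpos (by linarith : 2 - x ≤ 0), zero_mul]
  · rw [Real.smoothTransition.zero_of_nonpos (by linarith : 2 + x ≤ 0), mul_zero]

theorem tf_smooth (t : ℝ) : ContDiff ℝ ∞ (tf t) := by
  have h0 : ContDiff ℝ ∞ fun p : V4 => hh (p.1.1 / t) :=
    hh_smooth.comp (contDiff_fst.fst.div_const t)
  have h1 : ContDiff ℝ ∞ fun p : V4 => hh (p.1.2 / t) :=
    hh_smooth.comp (contDiff_fst.snd.div_const t)
  have h2 : ContDiff ℝ ∞ fun p : V4 => hh (p.2.1 / t) :=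
    hh_smooth.comp (contDiff_snd.fst.div_const t)
  have h3 : ContDiff ℝ ∞ fun p : V4 => hh (p.2.2 / t) :=
    hh_smooth.comp (contDiff_snd.snd.div_const t)
  exact (((h0.mul h1).mul h2).mul h3).pow 2

theorem tf_nonneg (t : ℝ) (p : V4) : 0 ≤ tf t p := sq_nonneg _

theorem norm_V4 (p : V4) : ‖p‖ = max (max |p.1.1| |p.1.2|) (max |p.2.1| |p.2.2|) := rfl

theorem tf_one {t : ℝ} (ht : 0 < t) {p : V4} (hp : ‖p‖ ≤ t) : tf t p = 1 := by
  rw [norm_V4, max_le_iff, max_le_iff, max_le_iff] at hp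
  obtain ⟨⟨h0, h1⟩, h2, h3⟩ := hp
  have key : ∀ a : ℝ, |a| ≤ t → hh (a / t) = 1 := fun a ha => by
    refine hh_one ?_
    rw [abs_div, abs_of_pos ht, div_le_one ht]
    exact ha
  unfold tf
  rw [key _ h0, key _ h1, key _ h2, key _ h3]
  norm_num

theorem tf_zero {t : ℝ} (ht : 0 < t) {p : V4} (hp : 2 * t ≤ ‖p‖) : tf t p = 0 := by
  rw [norm_V4, le_max_iff, le_max_iff, le_max_iff] at hp
  have key : ∀ a : ℝ, 2 * t ≤ |a| → hh (a / t) = 0 := fun a ha => by
    refine hh_zero ?_
    rw [abs_div, abs_of_pos ht, le_div_iff₀ ht]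
    exact ha
  unfold tf
  rcases hp with (h | h) | (h | h) <;> rw [key _ h] <;> ring

theorem tf_supp {t : ℝ} (ht : 0 < t) : tsupport (tf t) ⊆ closedBall (0 : V4) (2 * t) := by
  refine closure_minimal (fun p hp => ?_) isClosed_closedBall
  rw [mem_closedBall_zero_iff]
  by_contra h
  exact hp (tf_zero ht (not_le.1 h).le)

theorem tf_cpt {t : ℝ} (ht : 0 < t) : HasCompactSupport (tf t) :=
  (isCompact_closedBall (0 : V4) (2 * t)).of_isClosed_subset (isClosed_tsupport _) (tf_supp ht)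

section Man

variable {M : Type u} [MetricSpace M] [CompactSpace M] [ChartedSpace E4 M]
  [IsManifold 𝓘(ℝ, E4) ∞ M] [MeasurableSpace M] [BorelSpace M]

/-- the comparison form `F_{y₀}(v, J_y w) - ½ F_y (v, J_y w)`. -/
def GG (D : Dat M) (x : M) (y : E4) : Bil :=
  ((at2 D.F x - (1 / 2 : ℝ) • rep x D.F y).flip.comp (repJ x D.J y)).flip

theorem GG_apply (D : Dat M) (x : M) (y v w : E4) : GG D x y v w =
    at2 D.F x v (repJ x D.J y w) - 1 / 2 * rep x D.F y v (repJ x D.J y w) := rfl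

theorem GG_cont (D : Dat M) (x : M) : ContinuousOn (GG D x) (chartAt E4 x).target := by
  have h1 : ContinuousOn (rep x D.F) (chartAt E4 x).target := (dat_volF D).cont x
  have h2 : ContinuousOn (repJ x D.J) (chartAt E4 x).target := (D.smJ x).continuousOn
  have h3 : ContinuousOn (fun y => at2 D.F x - (1 / 2 : ℝ) • rep x D.F y) (chartAt E4 x).target :=
    continuousOn_const.sub (h1.const_smul (1 / 2 : ℝ))
  have h4 : ContinuousOn (fun y => (at2 D.F x - (1 / 2 : ℝ) • rep x D.F y).flip)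
      (chartAt E4 x).target :=
    (ContinuousLinearMap.flipₗᵢ ℝ E4 E4 ℝ).continuous.comp_continuousOn h3
  exact (ContinuousLinearMap.flipₗᵢ ℝ E4 E4 ℝ).continuous.comp_continuousOn (h4.clm_comp h2)

/-- frame at `x` and comparison near `x`. -/
theorem exists_cmp (D : Dat M) (x : M) (R1 : ℝ) (hR1 : 0 < R1) :
    ∃ (L : V4 ≃L[ℝ] E4) (R : ℝ), 0 < R ∧ R ≤ R1 ∧
      closedBall (chartAt E4 x x) R ⊆ (chartAt E4 x).target ∧
      ∀ y ∈ ball (chartAt E4 x x) R, ∀ v : E4,
        1 / 2 * rep x D.F y v (repJ x D.J y v) ≤ (bas L 2 3 + bas L 0 1) v (repJ x D.J y v) := by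
  obtain ⟨A, hA⟩ := exists_frame (D.sq x) (En4.spos D x)
  set L : V4 ≃L[ℝ] E4 := κ.trans A with hL
  have hbas : ∀ u v, (bas L 2 3 + bas L 0 1) u v = at2 D.F x u v := by
    intro u v
    have h1 : ∀ w, κ (L.symm w) = A.symm w := by
      intro w
      show κ (κ.symm (A.symm w)) = A.symm w
      rw [κ.apply_symm_apply]
    have h2 := hA.form (A.symm u) (A.symm v)
    rw [A.apply_symm_apply, A.apply_symm_apply] at h2
    rw [h2, add_apply, add_apply, bas_apply, bas_apply, om0_apply, h1, h1]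
    ring
  set y0 := chartAt E4 x x with hy0
  have hy0t : y0 ∈ (chartAt E4 x).target := mem_chart_target E4 x
  have hF0 : ∀ u v, rep x D.F y0 u v = at2 D.F x u v := fun u v => rep_self x D.F u v
  have hJ0 : ∀ v, repJ x D.J y0 v = atJ D.J x v := by
    intro v
    have h := apply_eq_repJ (mem_chart_source E4 x) D.J v
    rw [tcc_self (mem_chart_source E4 x), tcc_self (mem_chart_source E4 x)] at h
    exact h.symm
  -- lower bound at the centre
  have hAn : 0 < ‖(A : E4 →L[ℝ] E4)‖ := by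
    rw [norm_pos_iff]
    intro h
    have h1 : A (ee 0) = 0 := by
      have := DFunLike.congr_fun h (ee 0)
      simpa using this
    have h2 : ee 0 = 0 := by
      have := A.injective (h1.trans (map_zero A).symm)
      exact this
    have := congrArg (fun v : E4 => v 0) h2
    simp at this
  set c : ℝ := (‖(A : E4 →L[ℝ] E4)‖ ^ 2)⁻¹ with hc
  have hc0 : 0 < c := by positivity
  have hlow : ∀ v, c * ‖v‖ ^ 2 ≤ at2 D.F x v (atJ D.J x v) := by
    intro v
    have h1 : at2 D.F x v (atJ D.J x v) = ‖A.symm v‖ ^ 2 := by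
      have h2 := hA.cplx (A.symm v)
      rw [A.apply_symm_apply] at h2
      have h3 := hA.form (A.symm v) (J0 (A.symm v))
      rw [A.apply_symm_apply, ← h2, om0_J0] at h3
      exact h3
    rw [h1]
    have h2 : ‖v‖ ≤ ‖(A : E4 →L[ℝ] E4)‖ * ‖A.symm v‖ := by
      have := (A : E4 →L[ℝ] E4).le_opNorm (A.symm v)
      have e : (A : E4 →L[ℝ] E4) (A.symm v) = v := A.apply_symm_apply v
      rwa [e] at this
    rw [hc, inv_mul_le_iff₀ (by positivity), ← mul_pow]
    exact pow_le_pow_left₀ (norm_nonneg _) h2 2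
  -- continuity
  have hcont : ContinuousAt (GG D x) y0 :=
    (GG_cont D x).continuousAt ((chartAt E4 x).open_target.mem_nhds hy0t)
  obtain ⟨R2, hR2, h2⟩ := Metric.continuousAt_iff.1 hcont (c / 2) (by positivity)
  obtain ⟨R3, hR3, h3⟩ := Metric.nhds_basis_closedBall.mem_iff.1
    ((chartAt E4 x).open_target.mem_nhds hy0t)
  refine ⟨L, min R1 (min R2 R3), lt_min hR1 (lt_min hR2 hR3), min_le_left _ _,
    (closedBall_subset_closedBall ((min_le_right _ _).trans (min_le_right _ _))).trans h3, ?_⟩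
  intro y hy v
  have hy2 : dist y y0 < R2 :=
    (mem_ball.1 hy).trans_le ((min_le_right _ _).trans (min_le_left _ _))
  have h4 := h2 hy2
  rw [dist_eq_norm] at h4
  rw [hbas]
  have h5 : |(GG D x y - GG D x y0) v v| ≤ c / 2 * ‖v‖ ^ 2 := by
    rw [← Real.norm_eq_abs]
    calc ‖(GG D x y - GG D x y0) v v‖ ≤ ‖GG D x y - GG D x y0‖ * ‖v‖ * ‖v‖ :=
          (GG D x y - GG D x y0).le_opNorm₂ v v
      _ ≤ c / 2 * ‖v‖ * ‖v‖ := by gcongr
      _ = _ := by ring
  have h6 : GG D x y v v = (GG D x y - GG D x y0) v v + GG D x y0 v v := by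
    rw [sub_apply, sub_apply]; ring
  have h7 : GG D x y0 v v = 1 / 2 * at2 D.F x v (atJ D.J x v) := by
    rw [GG_apply, hF0, hJ0]; ring
  have h8 := hlow v
  have h9 := (abs_le.1 h5).1
  have h10 : 0 ≤ GG D x y v v := by
    rw [h6, h7]
    nlinarith
  rw [GG_apply] at h10
  linarith

/-- **POSITIVITY** (uniform version). -/
theorem pos' (D : Dat M) (x : M) (R1 : ℝ) (hR1 : 0 < R1) :
    ∃ (L : V4 ≃L[ℝ] E4) (R : ℝ), 0 < R ∧ R ≤ R1 ∧
      closedBall (chartAt E4 x x) R ⊆ (chartAt E4 x).target ∧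
      ∀ (S : X2 M →ₗ[ℝ] ℝ) (s : Measure M), T1_195.Cur D S s →
      ∀ (z : E4) (t : ℝ), 0 < t →
      (∀ p ∈ closedBall (0 : V4) (2 * t), z + L p ∈ ball (chartAt E4 x x) R) →
      ∀ B1 B2 : X2 M, (B1 : F2 E4 M) = tst x L z (tf t) 2 3 →
        (B2 : F2 E4 M) = tst x L z (tf t) 0 1 → bxm s x L z t ≤ 2 * S (B1 + B2) := by
  obtain ⟨L, R, hR, hRR, hsub, hcmp⟩ := exists_cmp D x R1 hR1
  refine ⟨L, R, hR, hRR, hsub, fun S s hS z t ht hz B1 B2 hB1 hB2 => ?_⟩
  have hfin := hS.fin
  have hsub' : ball (chartAt E4 x x) R ⊆ (chartAt E4 x).target :=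
    ball_subset_closedBall.trans hsub
  -- the density
  set g : E4 → ℝ := fun y => tf t (L.symm (y - z)) with hg
  have hgs : ContDiff ℝ ∞ g :=
    (tf_smooth t).comp (L.symm.contDiff.comp (contDiff_id.sub contDiff_const))
  set K : Set E4 := (fun p => z + L p) '' closedBall (0 : V4) (2 * t) with hK
  have hKc : IsCompact K := (isCompact_closedBall _ _).image (continuous_const.add L.continuous)
  have hKt : K ⊆ (chartAt E4 x).target := by
    rintro _ ⟨p, hp, rfl⟩
    exact hsub' (hz p hp)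
  have hg0 : ∀ y, y ∉ K → g y = 0 := by
    intro y hy
    by_contra h
    refine hy ⟨L.symm (y - z), tf_supp ht (subset_tsupport _ h), ?_⟩
    show z + L (L.symm (y - z)) = y
    rw [L.apply_symm_apply]
    abel
  have hksm : SmoothF E4 (extF (E := E4) x g) := smoothF_extF hKc hKt hgs hg0
  have hkc : Continuous (extF (E := E4) x g) := En4.sF_continuous hksm
  -- lower bound
  have hge : GeF D.J D.F ((B1 + B2 : X2 M) : F2 E4 M) (fun q => 1 / 2 * extF (E := E4) x g q) := by
    intro q v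
    show 1 / 2 * extF (E := E4) x g q * at2 D.F q v (atJ D.J q v) ≤
      at2 ((B1 + B2 : X2 M) : F2 E4 M) q v (atJ D.J q v)
    by_cases hq : q ∈ (chartAt E4 x).source
    · have hy := (chartAt E4 x).map_source hq
      set y := chartAt E4 x q with hydef
      rw [extF_of_mem hq, apply_J_eq_rep hq D.F D.J v, apply_J_eq_rep hq _ D.J v]
      set v' := tcc q x q v with hv'
      have h1 : rep x ((B1 + B2 : X2 M) : F2 E4 M) y = g y • (bas L 2 3 + bas L 0 1) := by
        have e1 : rep x (B1 : F2 E4 M) y = g y • bas L 2 3 := by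
          rw [hB1, rep_tst x L z (tf t) 2 3 hy]; rfl
        have e2 : rep x (B2 : F2 E4 M) y = g y • bas L 0 1 := by
          rw [hB2, rep_tst x L z (tf t) 0 1 hy]; rfl
        rw [smul_add, ← e1, ← e2]
        rfl
      rw [h1, smul_apply, smul_apply, smul_eq_mul]
      by_cases h0 : g y = 0
      · rw [h0]; simp
      · have hyb : y ∈ ball (chartAt E4 x x) R := by
          by_contra hyn
          refine h0 (hg0 y fun ⟨p, hp, hpy⟩ => hyn ?_)
          rw [← hpy]
          exact hz p hp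
        have h2 := hcmp y hyb v'
        have h3 : 0 ≤ g y := tf_nonneg t _
        have h4 := mul_le_mul_of_nonneg_left h2 h3
        calc 1 / 2 * g y * rep x D.F y v' (repJ x D.J y v') =
              g y * (1 / 2 * rep x D.F y v' (repJ x D.J y v')) := by ring
          _ ≤ _ := h4
    · rw [extF_of_notMem hq]
      have h1 : at2 ((B1 + B2 : X2 M) : F2 E4 M) q = 0 := by
        have e1 : at2 (B1 : F2 E4 M) q = 0 := by
          rw [hB1]; exact Ell.at2_ext2_off hq _
        have e2 : at2 (B2 : F2 E4 M) q = 0 := by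
          rw [hB2]; exact Ell.at2_ext2_off hq _
        show at2 (B1 : F2 E4 M) q + at2 (B2 : F2 E4 M) q = 0
        rw [e1, e2, add_zero]
      rw [h1]
      simp
  have h1 : ∫ q, 1 / 2 * extF (E := E4) x g q ∂s ≤ S (B1 + B2) :=
    hS.lower (B1 + B2) _ (continuous_const.mul hkc) hge
  rw [integral_const_mul] at h1
  -- the measure of the box
  have hnn : ∀ q, 0 ≤ extF (E := E4) x g q := by
    intro q
    by_cases hq : q ∈ (chartAt E4 x).source
    · rw [extF_of_mem hq]; exact tf_nonneg t _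
    · rw [extF_of_notMem hq]
  have hint : Integrable (extF (E := E4) x g) s := En4.integrable_s hfin hkc
  have h2 := mul_meas_ge_le_integral_of_nonneg (Eventually.of_forall hnn) hint 1
  have h3 : bxm s x L z t ≤ s.real {q | 1 ≤ extF (E := E4) x g q} := by
    refine measureReal_mono ?_ (measure_ne_top s _)
    rintro q ⟨hq, hq'⟩
    show 1 ≤ extF (E := E4) x g q
    rw [extF_of_mem hq]
    exact (tf_one ht (mem_closedBall_zero_iff.1 hq')).ge
  linarith

/-- **POSITIVITY**. -/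
theorem pos (D : Dat M) {S : X2 M →ₗ[ℝ] ℝ} {s : Measure M} (hS : T1_195.Cur D S s) (x : M)
    (R1 : ℝ) (hR1 : 0 < R1) (_ : closedBall (chartAt E4 x x) R1 ⊆ (chartAt E4 x).target) :
    ∃ (L : V4 ≃L[ℝ] E4) (R : ℝ), 0 < R ∧ R ≤ R1 ∧ ∀ (z : E4) (t : ℝ), 0 < t →
      (fun p => z + L p) '' closedBall (0 : V4) (3 * t) ⊆ ball (chartAt E4 x x) R →
      ∀ B1 B2 : X2 M, (B1 : F2 E4 M) = tst x L z (tf t) 2 3 →
        (B2 : F2 E4 M) = tst x L z (tf t) 0 1 → bxm s x L z t ≤ 2 * S (B1 + B2) := by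
  obtain ⟨L, R, hR, hRR, -, h⟩ := pos' D x R1 hR1
  refine ⟨L, R, hR, hRR, fun z t ht hz B1 B2 hB1 hB2 => h S s hS z t ht (fun p hp => ?_) B1 B2 hB1
    hB2⟩
  exact hz ⟨p, closedBall_subset_closedBall (by linarith) hp, rfl⟩

end Man

end

end Crest.Agent.R235.SwcPos_659
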