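import Crest.Agent.R235.SwcMass_125
import Crest.Agent.R235.SwcPos_659

/-!
Row 235 (S0364), PACKAGE SWC-AN, task 430 (helper125): `BOXE → QCH`.
Pairing formula and positivity: helper659 (`SwcPair_659`, `SwcPos_659`).
-/

set_option autoImplicit false
set_option maxSynthPendingDepth 3

open Set Function Filter MeasureTheory Metric
open scoped Manifold ContDiff Topology ENNReal

universe u

namespace Crest.Agent.R235.SwcQch_125

open Crest.Agent.R240 Crest.Agent.R240.Ch Crest.Agent.R240.Int Crest.Agent.R235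
open Crest.Agent.R235.SwcDefs_34 Crest.Agent.R235.SwcGlob_34 Crest.Agent.R235.SwcPair_659

noncomputable section

/-- change of variables in a box. -/
theorem int_box (L : V4 ≃L[ℝ] E4) (z : E4) (r : ℝ) (g : E4 → ℝ) :
    ∫ y in (fun p => z + L p) '' closedBall (0 : V4) r, g y =
      |dt L| * ∫ p in closedBall (0 : V4) r, g (z + L p) := by
  rw [← integral_indicator (SwcMass_125.im_cpt L z r).measurableSet, cov_L L z,
    ← integral_indicator measurableSet_closedBall]
  congr 2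
  funext p
  by_cases hp : p ∈ closedBall (0 : V4) r
  · rw [indicator_of_mem hp, indicator_of_mem
      (show z + L p ∈ (fun p => z + L p) '' closedBall (0 : V4) r from ⟨p, hp, rfl⟩)]
  · have hp' : z + L p ∉ (fun p => z + L p) '' closedBall (0 : V4) r := by
      intro h
      have h4 := (SwcMass_125.im_eq L z _).1 h
      have h5 : z + L p - z = L p := by abel
      rw [h5, L.symm_apply_apply] at h4
      exact hp (mem_closedBall_zero_iff.2 h4)
    rw [indicator_of_notMem hp, indicator_of_notMem hp']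

theorem en_cont (r : ℝ) {α : E4 → ℂ} {A : E4 → E4 →L[ℝ] ℝ} (hα : ContDiff ℝ ∞ α)
    (hA : ContDiff ℝ ∞ A) : Continuous (en r α A) := by
  have h1 : Continuous (fderiv ℝ α) := hα.continuous_fderiv (by simp)
  have h2 : Continuous (fun p : E4 => (A p).smulRight (Complex.I * α p)) := by
    have h3 : Continuous fun p : E4 => Complex.I * α p := continuous_const.mul hα.continuous
    exact ((ContinuousLinearMap.smulRightL ℝ E4 ℂ).continuous₂.comp₂ hA.continuous h3)
  have h3 : Continuous (eta α A) := h1.sub h2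
  unfold en
  exact (h3.norm.pow 2).add (continuous_const.mul
    ((continuous_const.sub (hα.continuous.norm.pow 2)).pow 2))

theorem en_nonneg {r : ℝ} (hr : 0 < r) (α : E4 → ℂ) (A : E4 → E4 →L[ℝ] ℝ) (y : E4) :
    0 ≤ en r α A y := by
  unfold en
  positivity

/-- the energy in a box. -/
theorem en_box (L : V4 ≃L[ℝ] E4) {z c : E4} {s R r C : ℝ} (hr : 0 < r) {α : E4 → ℂ}
    {A : E4 → E4 →L[ℝ] ℝ} (hα : ContDiff ℝ ∞ α) (hA : ContDiff ℝ ∞ A)
    (hz : (fun p => z + L p) '' closedBall (0 : V4) s ⊆ ball c R)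
    (hC : ∫ y in ball c R, en r α A y ≤ C) :
    ∫ p in closedBall (0 : V4) s, en r α A (z + L p) ≤ |dt L|⁻¹ * C := by
  have hdt : 0 < |dt L| := abs_pos.2 (dt_ne L)
  have h1 := int_box L z s (en r α A)
  have h2 : IntegrableOn (en r α A) (ball c R) :=
    ((en_cont r hα hA).continuousOn.integrableOn_compact (isCompact_closedBall c R)).mono_set
      ball_subset_closedBall
  have h3 : ∫ y in (fun p => z + L p) '' closedBall (0 : V4) s, en r α A y ≤
      ∫ y in ball c R, en r α A y :=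
    setIntegral_mono_set h2 (Eventually.of_forall fun y => en_nonneg hr α A y) hz.eventuallyLE
  rw [h1] at h3
  rw [← div_eq_inv_mul, le_div_iff₀ hdt, mul_comm]
  exact h3.trans hC

set_option maxHeartbeats 1600000 in
theorem qch (hbox : BOXE) : QCH.{u} := by
  intro M _ _ _ _ _ _ D U _ r T S s hr hS
  have := hS.cur.fin
  intro x
  obtain ⟨R1, C1, hR1, hsub1, hloc⟩ := hr.loc x
  obtain ⟨L, R, hR, hRR1, hpos⟩ := SwcPos_659.pos D hS.cur x R1 hR1 hsub1
  have hsub : closedBall (chartAt E4 x x) R ⊆ (chartAt E4 x).target :=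
    (closedBall_subset_closedBall hRR1).trans hsub1
  obtain ⟨C2, hC2, hbx⟩ := hbox L
  obtain ⟨C3, hC3, hmass⟩ := SwcMass_125.mass_le D x hsub L
  obtain ⟨C4, hdom⟩ := hS.dom
  obtain ⟨σ, hσ, hpair⟩ := pairing D x hR hsub L
  set A : ℝ := C3 * |C4| with hA
  have hA0 : 0 ≤ A := by positivity
  refine ⟨L, R, C2 * (A ^ 2 + A + 1), hR, by positivity, hsub, fun K hK =>
    ⟨1, one_pos, fun z _ t ht _ hzt => ?_⟩⟩
  have hK0 : 0 < K := by linarith
  have h2t : (fun p => z + L p) '' closedBall (0 : V4) (2 * t) ⊆ ball (chartAt E4 x x) R :=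
    (image_mono (closedBall_subset_closedBall (by linarith))).trans hzt
  have hzt' : (fun p => z + L p) '' closedBall (0 : V4) (3 * t) ⊆ (chartAt E4 x).target :=
    (hzt.trans ball_subset_closedBall).trans hsub
  have hts : ∀ p ∈ tsupport (tf t), z + L p ∈ ball (chartAt E4 x x) R := fun p hp =>
    h2t ⟨p, SwcMass_125.tf_tsupport ht hp, rfl⟩
  have hts' : ∀ p ∈ tsupport (tf t), z + L p ∈ (chartAt E4 x).target := fun p hp =>
    (ball_subset_closedBall.trans hsub) (hts p hp)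
  have hb1 : Smooth2 (tst x L z (tf t) 2 3) :=
    tst_smooth x L (SwcMass_125.tf_smooth t) (SwcMass_125.tf_compact ht) hts' 2 3
  have hb2 : Smooth2 (tst x L z (tf t) 0 1) :=
    tst_smooth x L (SwcMass_125.tf_smooth t) (SwcMass_125.tf_compact ht) hts' 0 1
  set B1 : X2 M := ⟨tst x L z (tf t) 2 3, hb1⟩ with hB1
  set B2 : X2 M := ⟨tst x L z (tf t) 0 1, hb2⟩ with hB2
  have hP := hpos z t ht hzt B1 B2 rfl rfl
  set b : ℝ := bxm s x L z (3 * t) with hb
  have hb0 : 0 ≤ b := measureReal_nonneg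
  set v : M → ℝ := SwcMass_125.vv x L z t with hv
  have hvc : Continuous v := SwcMass_125.vv_cont L ht hzt'
  have hv0 : ∀ y, 0 ≤ v y := SwcMass_125.vv_nonneg x L z t
  have hvb : ∫ y, v y ∂s ≤ b := SwcMass_125.int_vv_le L ht hzt'
  have hvb0 : 0 ≤ ∫ y, v y ∂s := integral_nonneg hv0
  -- the bound for one `n`
  have key : ∀ ε : ℝ, 0 < ε → ∀ᶠ n in U,
      |D.I (T n : F2 E4 M) (B1 : F2 E4 M)| + |D.I (T n : F2 E4 M) (B2 : F2 E4 M)| ≤
        C2 * (K ^ 2 / t ^ 2 * (A * b + C3 * ε) ^ 2 + (A * b + C3 * ε) / K) +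
          C2 / (t * √(r n)) * (|dt L|⁻¹ * |C1|) := by
    intro ε hε
    have e1 : ∀ᶠ n in U, 1 / t ^ 2 + 1 ≤ r n := hr.rinf.eventually_ge_atTop _
    filter_upwards [hloc, hdom v hvc hv0 ε hε, e1] with n hn hd hrn
    obtain ⟨α, Ac, hα, hAc, hpsi, hen⟩ := hn
    have hrn1 : 1 / t ^ 2 ≤ r n := by linarith
    have hrn0 : 0 < r n := lt_of_lt_of_le (by positivity) hrn
    have hrt : 1 ≤ r n * t ^ 2 := by
      rw [div_le_iff₀ (by positivity)] at hrn1
      exact hrn1
    have hψ : ∀ p ∈ closedBall (0 : V4) (2 * t),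
        psi α Ac (z + L p) = rep x (T n : F2 E4 M) (z + L p) := fun p hp =>
      hpsi _ (ball_subset_ball hRR1 (h2t ⟨p, hp, rfl⟩))
    obtain ⟨hI1, hI2⟩ := hpair z (tf t) (SwcMass_125.tf_smooth t) (SwcMass_125.tf_compact ht) hts
      (T n)
    have hbound := hbx α Ac z (r n) t K hα hAc hrn0 ht hK hrt
    have hcongr : ∀ u w : E4, ∫ p : V4, tf t p * rep x (T n : F2 E4 M) (z + L p) u w =
        ∫ p : V4, tf t p * psi α Ac (z + L p) u w := by
      intro u w
      congr 1
      funext p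
      by_cases hp : p ∈ closedBall (0 : V4) (2 * t)
      · rw [hψ p hp]
      · rw [mem_closedBall_zero_iff, not_le] at hp
        rw [SwcMass_125.tf_zero ht hp.le, zero_mul, zero_mul]
    have hm1 : ∫ p in closedBall (0 : V4) (2 * t), ‖psi α Ac (z + L p)‖ =
        ∫ p in closedBall (0 : V4) (2 * t), ‖rep x (T n : F2 E4 M) (z + L p)‖ :=
      setIntegral_congr_fun measurableSet_closedBall fun p hp => by
        show ‖psi α Ac (z + L p)‖ = ‖rep x (T n : F2 E4 M) (z + L p)‖
        rw [hψ p hp]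
    have hm2 : ∫ p in closedBall (0 : V4) (2 * t), ‖rep x (T n : F2 E4 M) (z + L p)‖ ≤
        A * b + C3 * ε := by
      refine (hmass z t ht hzt (T n)).trans ?_
      have h1 : ∫ y, v y * D.nr (T n : F2 E4 M) y ∂D.μ ≤ |C4| * b + ε := by
        refine hd.trans ?_
        have h2 : C4 * ∫ y, v y ∂s ≤ |C4| * b := by
          calc C4 * ∫ y, v y ∂s ≤ |C4| * ∫ y, v y ∂s := by gcongr; exact le_abs_self _
            _ ≤ |C4| * b := by gcongr
        linarith
      calc C3 * ∫ y, v y * D.nr (T n : F2 E4 M) y ∂D.μ ≤ C3 * (|C4| * b + ε) := by gcongr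
        _ = A * b + C3 * ε := by rw [hA]; ring
    have hm0 : 0 ≤ ∫ p in closedBall (0 : V4) (2 * t), ‖rep x (T n : F2 E4 M) (z + L p)‖ :=
      integral_nonneg fun _ => norm_nonneg _
    have hE : ∫ p in closedBall (0 : V4) (2 * t), en (r n) α Ac (z + L p) ≤ |dt L|⁻¹ * |C1| := by
      refine (en_box L hrn0 hα hAc (h2t.trans (ball_subset_ball hRR1)) hen).trans ?_
      gcongr
      exact le_abs_self _
    have hE0 : 0 ≤ ∫ p in closedBall (0 : V4) (2 * t), en (r n) α Ac (z + L p) :=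
      integral_nonneg fun _ => en_nonneg hrn0 _ _ _
    have hi1 : |D.I (T n : F2 E4 M) (B1 : F2 E4 M)| =
        |∫ p : V4, tf t p * psi α Ac (z + L p) (L b0) (L b1)| := by
      rw [← hcongr]
      show |D.I (T n : F2 E4 M) (tst x L z (tf t) 2 3)| = _
      rw [hI1, abs_mul, hσ, one_mul]
    have hi2 : |D.I (T n : F2 E4 M) (B2 : F2 E4 M)| =
        |∫ p : V4, tf t p * psi α Ac (z + L p) (L b2) (L b3)| := by
      rw [← hcongr]
      show |D.I (T n : F2 E4 M) (tst x L z (tf t) 0 1)| = _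
      rw [hI2, abs_mul, hσ, one_mul]
    rw [hi1, hi2]
    refine hbound.trans ?_
    rw [hm1]
    gcongr
  -- the limit in `n`
  have hlim : Tendsto (fun n => |D.I (T n : F2 E4 M) (B1 : F2 E4 M)| +
      |D.I (T n : F2 E4 M) (B2 : F2 E4 M)|) U
      (𝓝 (|2 * Real.pi * S B1| + |2 * Real.pi * S B2|)) := (hS.lim B1).abs.add (hS.lim B2).abs
  have hr0 : Tendsto (fun n => C2 / (t * √(r n)) * (|dt L|⁻¹ * |C1|)) U (𝓝 0) := by
    have h1 : Tendsto (fun n => t * √(r n)) U atTop :=
      (Real.tendsto_sqrt_atTop.comp hr.rinf).const_mul_atTop ht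
    have h2 : Tendsto (fun n => C2 / (t * √(r n))) U (𝓝 0) := h1.const_div_atTop C2
    simpa using h2.mul_const (|dt L|⁻¹ * |C1|)
  have hle : ∀ ε : ℝ, 0 < ε → |2 * Real.pi * S B1| + |2 * Real.pi * S B2| ≤
      C2 * (K ^ 2 / t ^ 2 * (A * b + C3 * ε) ^ 2 + (A * b + C3 * ε) / K) := by
    intro ε hε
    have h1 := le_of_tendsto_of_tendsto hlim
      ((tendsto_const_nhds (x := C2 * (K ^ 2 / t ^ 2 * (A * b + C3 * ε) ^ 2 +
        (A * b + C3 * ε) / K))).add hr0) (key ε hε)
    simpa using h1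
  -- `ε → 0`
  have hle0 : |2 * Real.pi * S B1| + |2 * Real.pi * S B2| ≤
      C2 * (K ^ 2 / t ^ 2 * (A * b) ^ 2 + (A * b) / K) := by
    have hc : Continuous fun ε : ℝ =>
        C2 * (K ^ 2 / t ^ 2 * (A * b + C3 * ε) ^ 2 + (A * b + C3 * ε) / K) := by fun_prop
    have h1 := (hc.tendsto 0).mono_left (nhdsWithin_le_nhds (s := Ioi (0 : ℝ)))
    simp only [mul_zero, add_zero] at h1
    refine ge_of_tendsto h1 ?_
    filter_upwards [self_mem_nhdsWithin] with ε hε
    exact hle ε hε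
  have h1 : |2 * Real.pi * S B1| = 2 * Real.pi * |S B1| := by
    rw [abs_mul, abs_of_pos (by positivity)]
  have h2 : |2 * Real.pi * S B2| = 2 * Real.pi * |S B2| := by
    rw [abs_mul, abs_of_pos (by positivity)]
  have hpi := Real.pi_gt_three
  have h3 : bxm s x L z t ≤ |2 * Real.pi * S B1| + |2 * Real.pi * S B2| := by
    rw [h1, h2]
    refine hP.trans ?_
    rw [map_add]
    have a1 := le_abs_self (S B1)
    have a2 := le_abs_self (S B2)
    have a3 := abs_nonneg (S B1)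
    have a4 := abs_nonneg (S B2)
    nlinarith
  refine (h3.trans hle0).trans ?_
  have h4 : 0 ≤ K ^ 2 / t ^ 2 * b ^ 2 := by positivity
  have h5 : 0 ≤ b / K := by positivity
  calc C2 * (K ^ 2 / t ^ 2 * (A * b) ^ 2 + A * b / K)
      = C2 * (A ^ 2 * (K ^ 2 / t ^ 2 * b ^ 2) + A * (b / K)) := by ring
    _ ≤ C2 * ((A ^ 2 + A + 1) * (K ^ 2 / t ^ 2 * b ^ 2) + (A ^ 2 + A + 1) * (b / K)) := by
        gcongr <;> nlinarith [sq_nonneg A]
    _ = _ := by ring

end

end Crest.Agent.R235.SwcQch_125
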