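import Crest.Agent.R235.SwcGlob_34

/-!
Row 235 (S0364), SWC-AN G3c (helper82): `theorem qlow : DENS → QLOW`, the quadratic inequality in
charts gives the lower density bound on the support.
-/

set_option autoImplicit false
set_option maxSynthPendingDepth 3

open Set Function Filter MeasureTheory Metric
open scoped Manifold ContDiff Topology

universe u

namespace Crest.Agent.R235.SwcQlow_82

open Crest.Agent.R240 Crest.Agent.R240.Ch Crest.Agent.R235 Crest.Agent.R235.SwcDefs_34
open Crest.Agent.R235.Swc Crest.Agent.R235.SwcGlob_34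

noncomputable section

section pushforward

variable {M : Type u} [MetricSpace M] [ChartedSpace E4 M] [MeasurableSpace M] [BorelSpace M]

/-- the push-forward of `s` to `V4` by the chart at `x` and `L⁻¹`. -/
def pm (s : Measure M) (x : M) (L : V4 ≃L[ℝ] E4) : Measure V4 :=
  Measure.map (fun y => L.symm (chartAt E4 x y)) (s.restrict (chartAt E4 x).source)

theorem aem (s : Measure M) (x : M) (L : V4 ≃L[ℝ] E4) :
    AEMeasurable (fun y => L.symm (chartAt E4 x y)) (s.restrict (chartAt E4 x).source) :=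
  ContinuousOn.aemeasurable (L.symm.continuous.comp_continuousOn (chartAt E4 x).continuousOn)
    (chartAt E4 x).open_source.measurableSet

theorem pm_apply (s : Measure M) (x : M) (L : V4 ≃L[ℝ] E4) {A : Set V4} (hA : MeasurableSet A) :
    pm s x L A = s ({y | L.symm (chartAt E4 x y) ∈ A} ∩ (chartAt E4 x).source) := by
  rw [pm, Measure.map_apply_of_aemeasurable (aem s x L) hA,
    Measure.restrict_apply' (chartAt E4 x).open_source.measurableSet]
  rfl

theorem pm_ball (s : Measure M) (x : M) (L : V4 ≃L[ℝ] E4) (v : V4) (t : ℝ) :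
    (pm s x L).real (closedBall v t) = bxm s x L (L v) t := by
  unfold bxm Measure.real
  rw [pm_apply s x L isClosed_closedBall.measurableSet]
  congr 2
  ext y
  simp only [mem_inter_iff, mem_ofPred_eq, map_sub, ContinuousLinearEquiv.symm_apply_apply,
    mem_closedBall, dist_eq_norm, sub_zero]
  tauto

theorem mem_support (s : Measure M) [IsFiniteMeasure s] (x : M) (L : V4 ≃L[ℝ] E4) {y : M}
    (hy : y ∈ (chartAt E4 x).source) (hs : Sup s y) :
    L.symm (chartAt E4 x y) ∈ (pm s x L).support := by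
  rw [Measure.mem_support_iff_forall]
  intro U hU
  obtain ⟨V, hVU, hV, hyV⟩ := _root_.mem_nhds_iff.1 hU
  refine lt_of_lt_of_le ?_ (measure_mono hVU)
  rw [pm_apply s x L hV.measurableSet]
  have hc : ContinuousAt (fun y => L.symm (chartAt E4 x y)) y :=
    L.symm.continuous.continuousAt.comp ((chartAt E4 x).continuousAt hy)
  have h1 : {y | L.symm (chartAt E4 x y) ∈ V} ∩ (chartAt E4 x).source ∈ 𝓝 y :=
    inter_mem (hc (hV.mem_nhds hyV)) ((chartAt E4 x).open_source.mem_nhds hy)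
  obtain ⟨r, hr, hr2⟩ := Metric.mem_nhds_iff.1 h1
  refine lt_of_lt_of_le ?_ (measure_mono hr2)
  have h2 := hs r hr
  rw [Measure.real, ENNReal.toReal_pos_iff] at h2
  exact h2.1

end pushforward

/-- the local statement. -/
def Loc {M : Type u} [MetricSpace M] [MeasurableSpace M] (s : Measure M) (A : Set M) : Prop :=
  ∃ κ r0 : ℝ, 0 < κ ∧ 0 < r0 ∧ ∀ x ∈ A, Sup s x →
    ∀ r : ℝ, 0 < r → r ≤ r0 → κ * r ^ 2 ≤ s.real (ball x r)

theorem Loc.union {M : Type u} [MetricSpace M] [MeasurableSpace M] {s : Measure M} {A B : Set M}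
    (hA : Loc s A) (hB : Loc s B) : Loc s (A ∪ B) := by
  obtain ⟨κ, r0, hκ, hr0, h⟩ := hA
  obtain ⟨κ', r0', hκ', hr0', h'⟩ := hB
  refine ⟨min κ κ', min r0 r0', lt_min hκ hκ', lt_min hr0 hr0', ?_⟩
  rintro x (hx | hx) hs r hr hrr
  · refine le_trans ?_ (h x hx hs r hr (hrr.trans (min_le_left _ _)))
    gcongr
    exact min_le_left _ _
  · refine le_trans ?_ (h' x hx hs r hr (hrr.trans (min_le_right _ _)))
    gcongr
    exact min_le_right _ _

theorem loc_point (h : DENS) {M : Type u} [MetricSpace M] [CompactSpace M] [ChartedSpace E4 M]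
    [IsManifold 𝓘(ℝ, E4) ∞ M] [MeasurableSpace M] [BorelSpace M] (D : Dat M) (s : Measure M)
    [IsFiniteMeasure s] (hs : ChQ s) (x : M) : ∃ t ∈ 𝓝 x, Loc s t := by
  obtain ⟨L, R, C, hR, hC, htar, hK⟩ := hs x
  set φ := chartAt E4 x with hφ
  set p0 := φ x with hp0
  set N : ℝ := ‖(L : V4 →L[ℝ] E4)‖ + 1 with hN
  have hN0 : 0 < N := by positivity
  have hLN : ∀ v : V4, ‖L v‖ ≤ N * ‖v‖ := by
    intro v
    calc ‖L v‖ ≤ ‖(L : V4 →L[ℝ] E4)‖ * ‖v‖ := (L : V4 →L[ℝ] E4).le_opNorm v
      _ ≤ N * ‖v‖ := by gcongr; linarith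
  have hfin : IsFiniteMeasure (pm s x L) := by unfold pm; infer_instance
  set v0 := L.symm p0 with hv0
  have hLv0 : L v0 = p0 := by rw [hv0]; exact L.apply_symm_apply _
  set R' : ℝ := R / N with hR'
  have hR'0 : 0 < R' := div_pos hR hN0
  have hball : ∀ v ∈ ball v0 R', L v ∈ ball p0 R := by
    intro v hv
    rw [mem_ball, dist_eq_norm] at hv ⊢
    rw [← hLv0, ← map_sub]
    calc ‖L (v - v0)‖ ≤ N * ‖v - v0‖ := hLN _
      _ < N * R' := by gcongr
      _ = R := by rw [hR']; field_simp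
  obtain ⟨ε, s1, hε, hs1, hd⟩ := h V4 (pm s x L) 3 C v0 R' (by norm_num) hC hR'0 (by
    intro K hK1
    obtain ⟨t0, ht0, ht⟩ := hK K hK1
    refine ⟨t0, ht0, fun v hv t ht1 ht2 hsub => ?_⟩
    have h1 := ht (L v) (hball v hv) t ht1 ht2 (by
      rintro _ ⟨p, hp, rfl⟩
      show L v + L p ∈ _
      rw [← map_add]
      apply hball
      apply hsub
      rw [mem_closedBall, dist_eq_norm] at *
      simpa using hp)
    rw [pm_ball, pm_ball]
    exact h1)
  obtain ⟨c1, C1, hc1, hC1, hbl⟩ := D.bl x (closedBall p0 R) (isCompact_closedBall _ _) htar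
  -- the neighbourhood
  have hcont : ContinuousAt (fun y => L.symm (φ y)) x :=
    L.symm.continuous.continuousAt.comp (φ.continuousAt (mem_chart_source E4 x))
  have hU : {y | L.symm (φ y) ∈ ball v0 (R' / 2)} ∩ φ.source ∈ 𝓝 x :=
    inter_mem (hcont (ball_mem_nhds _ (half_pos hR'0)))
      (φ.open_source.mem_nhds (mem_chart_source E4 x))
  refine ⟨_, hU, ?_⟩
  set B : ℝ := 2 * C1 * N with hB
  have hB0 : 0 < B := by positivity
  refine ⟨ε / B ^ 2, B * min s1 (R' / 2), by positivity, by positivity, ?_⟩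
  rintro y ⟨hy1, hy2⟩ hsy r hr hr0
  set t : ℝ := r / B with ht
  have ht0 : 0 < t := div_pos hr hB0
  have htm : t ≤ min s1 (R' / 2) := by
    rw [ht, div_le_iff₀ hB0]
    linarith
  have hrt : r = B * t := by rw [ht]; field_simp
  have hy1' : L.symm (φ y) ∈ ball v0 (R' / 2) := hy1
  have h1 := hd _ hy1' (mem_support s x L hy2 hsy) t ht0 (htm.trans (min_le_left _ _))
  rw [pm_ball] at h1
  have h2 : ε / B ^ 2 * r ^ 2 = ε * t ^ 2 := by
    rw [hrt]; field_simp
  rw [h2]
  refine h1.trans ?_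
  unfold bxm
  refine measureReal_mono ?_
  rintro y' ⟨hy'1, hy'2⟩
  rw [ContinuousLinearEquiv.apply_symm_apply, mem_closedBall, dist_zero_right] at hy'2
  have e1 : ‖φ y' - φ y‖ ≤ N * t := by
    have h3 := hLN (L.symm (φ y' - φ y))
    rw [ContinuousLinearEquiv.apply_symm_apply] at h3
    exact h3.trans (by gcongr)
  have e2 : ‖φ y - p0‖ < R / 2 := by
    have h3 := hLN (L.symm (φ y) - v0)
    rw [map_sub, ContinuousLinearEquiv.apply_symm_apply, hLv0] at h3
    rw [mem_ball, dist_eq_norm] at hy1'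
    calc ‖φ y - p0‖ ≤ N * ‖L.symm (φ y) - v0‖ := h3
      _ < N * (R' / 2) := by gcongr
      _ = R / 2 := by rw [hR']; field_simp
  have e3 : N * t ≤ R / 2 := by
    calc N * t ≤ N * (R' / 2) := by gcongr; exact htm.trans (min_le_right _ _)
      _ = R / 2 := by rw [hR']; field_simp
  have m1 : φ y ∈ closedBall p0 R := by
    rw [mem_closedBall, dist_eq_norm]; linarith
  have m2 : φ y' ∈ closedBall p0 R := by
    rw [mem_closedBall, dist_eq_norm]
    have : φ y' - p0 = (φ y' - φ y) + (φ y - p0) := by abel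
    rw [this]
    refine (norm_add_le _ _).trans ?_
    linarith
  have h4 := (hbl _ m2 _ m1).2
  rw [φ.left_inv hy'1, φ.left_inv hy2] at h4
  rw [mem_ball]
  have h5 : 0 < C1 * N * t := by positivity
  calc dist y' y ≤ C1 * ‖φ y' - φ y‖ := h4
    _ ≤ C1 * (N * t) := by gcongr
    _ < B * t := by rw [hB]; linarith
    _ = r := hrt.symm

/-- **QLOW**. -/
theorem qlow (h : DENS) : QLOW.{u} := by
  intro M _ _ _ _ _ _ D s _ hs
  have h1 : Loc s (univ : Set M) := by
    refine isCompact_univ.induction_on ⟨1, 1, one_pos, one_pos, by simp⟩ ?_ ?_ ?_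
    · rintro A B hAB ⟨κ, r0, hκ, hr0, hh⟩
      exact ⟨κ, r0, hκ, hr0, fun x hx => hh x (hAB hx)⟩
    · intro A B hA hB
      exact hA.union hB
    · intro x _
      obtain ⟨t, ht, hl⟩ := loc_point h D s hs x
      exact ⟨t, by rwa [nhdsWithin_univ], hl⟩
  obtain ⟨κ, r0, hκ, hr0, hh⟩ := h1
  exact ⟨κ, r0, hκ, hr0, fun x => hh x (mem_univ x)⟩

end

end Crest.Agent.R235.SwcQlow_82
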