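import Crest.Agent.R235.SwcDefs_34

/-!
Row 235, package SWC-AN, task 391 (helper751): GREEN, WIND, SLICE of `SwcDefs_34`.
-/

set_option autoImplicit false

open Set MeasureTheory Filter Topology
open scoped ContDiff ComplexConjugate

namespace Crest.Agent.R235.SwcSlice_751

open Crest.Agent.R235.SwcDefs_34

noncomputable section

theorem dd_apply {V : Type} [NormedAddCommGroup V] [NormedSpace ℝ V] (B : V → V →L[ℝ] ℝ)
    (p u v : V) : dd B p u v = fderiv ℝ B p u v - fderiv ℝ B p v u := by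
  simp [dd, ContinuousLinearMap.flip_apply]

/-- evaluation of a 1-form along a continuous map is continuous -/
theorem cont_ev {X V : Type} [TopologicalSpace X] [NormedAddCommGroup V] [NormedSpace ℝ V]
    {B : V → V →L[ℝ] ℝ} (hB : Continuous B) {c : X → V} (hc : Continuous c) (v : V) :
    Continuous fun x => B (c x) v :=
  (ContinuousLinearMap.apply ℝ ℝ v).continuous.comp (hB.comp hc)

theorem green : GREEN := by
  intro B hB a1 b1 a2 b2 h1 h2
  have hd : Differentiable ℝ B := hB.differentiable (by simp)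
  have hc : Continuous (fderiv ℝ B) := hB.continuous_fderiv (by simp)
  have hB0 : Continuous B := hB.continuous
  have hev : ∀ v : ℝ × ℝ, ∀ p, HasFDerivAt (fun p => B p v)
      ((ContinuousLinearMap.apply ℝ ℝ v).comp (fderiv ℝ B p)) p := fun v p =>
    (ContinuousLinearMap.apply ℝ ℝ v).hasFDerivAt.comp p (hd p).hasFDerivAt
  have key := integral2_divergence_prod_of_hasFDerivAt_off_countable
    (fun p => B p (0, 1)) (fun p => - B p (1, 0))
    (fun p => (ContinuousLinearMap.apply ℝ ℝ ((0, 1) : ℝ × ℝ)).comp (fderiv ℝ B p))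
    (fun p => - (ContinuousLinearMap.apply ℝ ℝ ((1, 0) : ℝ × ℝ)).comp (fderiv ℝ B p))
    a1 a2 b1 b2 ∅ countable_empty
    (cont_ev hB0 continuous_id _).continuousOn
    (cont_ev hB0 continuous_id _).neg.continuousOn
    (fun p _ => hev _ p) (fun p _ => (hev _ p).neg)
    (by
      refine ContinuousOn.integrableOn_compact (isCompact_uIcc.prod isCompact_uIcc)
        (Continuous.continuousOn ?_)
      refine Continuous.add ?_ ?_
      · exact (ContinuousLinearMap.apply ℝ ℝ ((0, 1) : ℝ × ℝ)).continuous.comp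
          ((ContinuousLinearMap.apply ℝ (ℝ × ℝ →L[ℝ] ℝ) ((1, 0) : ℝ × ℝ)).continuous.comp hc)
      · exact ((ContinuousLinearMap.apply ℝ ℝ ((1, 0) : ℝ × ℝ)).continuous.comp
          ((ContinuousLinearMap.apply ℝ (ℝ × ℝ →L[ℝ] ℝ) ((0, 1) : ℝ × ℝ)).continuous.comp hc)).neg)
  have e1 : ∀ x y : ℝ, dd B (x, y) (1, 0) (0, 1) =
      ((ContinuousLinearMap.apply ℝ ℝ ((0, 1) : ℝ × ℝ)).comp (fderiv ℝ B (x, y))) (1, 0) +
        (- (ContinuousLinearMap.apply ℝ ℝ ((1, 0) : ℝ × ℝ)).comp (fderiv ℝ B (x, y))) (0, 1) := by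
    intro x y
    simp [dd_apply, sub_eq_add_neg]
  simp only [e1]
  rw [key]
  unfold bdI
  have ci : ∀ (v : ℝ × ℝ) (c : ℝ → ℝ × ℝ), Continuous c → ∀ a b : ℝ,
      IntervalIntegrable (fun x => B (c x) v) volume a b := fun v c hc a b =>
    (cont_ev hB0 hc v).intervalIntegrable a b
  rw [intervalIntegral.integral_sub (ci _ _ (by fun_prop) _ _) (ci _ _ (by fun_prop) _ _),
    intervalIntegral.integral_sub (ci _ _ (by fun_prop) _ _) (ci _ _ (by fun_prop) _ _),
    intervalIntegral.integral_neg, intervalIntegral.integral_neg]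
  ring

/-- along a curve without zeros the logarithmic derivative integrates to a logarithm -/
theorem exp_int {g g' : ℝ → ℂ} {a b : ℝ} (hab : a ≤ b) (hg : ∀ t, HasDerivAt g (g' t) t)
    (hg' : Continuous g') (h0 : ∀ t ∈ Icc a b, g t ≠ 0) :
    IntervalIntegrable (fun t => g' t / g t) volume a b ∧
      g b = g a * Complex.exp (∫ t in a..b, g' t / g t) := by
  have hgc : Continuous g := continuous_iff_continuousAt.2 fun t => (hg t).continuousAt
  have hq : ContinuousOn (fun t => g' t / g t) (Icc a b) :=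
    hg'.continuousOn.div hgc.continuousOn h0
  have hqi : IntervalIntegrable (fun t => g' t / g t) volume a b :=
    ContinuousOn.intervalIntegrable (by rwa [uIcc_of_le hab])
  refine ⟨hqi, ?_⟩
  -- `F t = g t * exp (-∫_a^t)` is constant
  set P : ℝ → ℂ := fun t => ∫ u in a..t, g' u / g u with hP
  have hmeas : Measurable fun t => g' t / g t := hg'.measurable.div hgc.measurable
  have hPd : ∀ t ∈ Icc a b, HasDerivAt P (g' t / g t) t := by
    intro t ht
    have hti : IntervalIntegrable (fun t => g' t / g t) volume a t :=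
      hqi.mono_set (by
        rw [uIcc_of_le hab, uIcc_of_le ht.1]
        exact Icc_subset_Icc_right ht.2)
    have hcat : ContinuousAt (fun t => g' t / g t) t :=
      hg'.continuousAt.div hgc.continuousAt (h0 t ht)
    exact intervalIntegral.integral_hasDerivAt_right hti
      hmeas.stronglyMeasurable.stronglyMeasurableAtFilter hcat
  have hF : ∀ t ∈ Icc a b, HasDerivAt (fun t => g t * Complex.exp (-P t)) 0 t := by
    intro t ht
    have h1 := (hg t).mul ((hPd t ht).neg.cexp)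
    have hz : g t ≠ 0 := h0 t ht
    have h2 : g' t * Complex.exp (-P t) + g t * (Complex.exp (-P t) * -(g' t / g t)) = 0 := by
      field_simp
      ring
    rw [← h2]
    exact h1
  have hcst := constant_of_has_deriv_right_zero (f := fun t => g t * Complex.exp (-P t))
    (fun t ht => (hF t ht).continuousAt.continuousWithinAt)
    (fun t ht => (hF t (Ico_subset_Icc_self ht)).hasDerivWithinAt) b (right_mem_Icc.2 hab)
  have hPa : P a = 0 := by simp [hP]
  simp only [hPa, neg_zero, Complex.exp_zero, mul_one] at hcst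
  rw [← hcst, mul_assoc, ← Complex.exp_add]
  simp [hP]

/-- the logarithmic derivative 1-form -/
def lf (α : ℝ × ℝ → ℂ) (p : ℝ × ℝ) : ℝ × ℝ →L[ℝ] ℝ :=
  (‖α p‖ ^ 2)⁻¹ • ((α p).re • (Complex.imCLM.comp (fderiv ℝ α p)) -
    (α p).im • (Complex.reCLM.comp (fderiv ℝ α p)))

theorem lf_apply (α : ℝ × ℝ → ℂ) (p v : ℝ × ℝ) (h0 : α p ≠ 0) :
    lf α p v = (fderiv ℝ α p v / α p).im := by
  have h : (‖α p‖ ^ 2) = Complex.normSq (α p) := by rw [Complex.normSq_eq_norm_sq]
  have h1 : Complex.normSq (α p) ≠ 0 := by rwa [Ne, Complex.normSq_eq_zero]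
  simp only [lf, smul_apply, sub_apply,
    ContinuousLinearMap.comp_apply, Complex.imCLM_apply, Complex.reCLM_apply, smul_eq_mul, h,
    Complex.div_im]
  field_simp

/-- a side of the rectangle -/
theorem side {α : ℝ × ℝ → ℂ} (hα : ContDiff ℝ ∞ α) {a b : ℝ} (hab : a ≤ b) (c : ℝ → ℝ × ℝ)
    (v : ℝ × ℝ) (hc : ∀ t, HasDerivAt c v t) (h0 : ∀ t ∈ Icc a b, α (c t) ≠ 0) :
    ∃ L : ℂ, α (c b) = α (c a) * Complex.exp L ∧
      IntervalIntegrable (fun t => lf α (c t) v) volume a b ∧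
      ∫ t in a..b, lf α (c t) v = L.im := by
  have hd : Differentiable ℝ α := hα.differentiable (by simp)
  have hcf : Continuous (fderiv ℝ α) := hα.continuous_fderiv (by simp)
  have hcc : Continuous c := continuous_iff_continuousAt.2 fun t => (hc t).continuousAt
  have hg : ∀ t, HasDerivAt (fun t => α (c t)) (fderiv ℝ α (c t) v) t := fun t =>
    (hd (c t)).hasFDerivAt.comp_hasDerivAt t (hc t)
  have hg' : Continuous fun t => fderiv ℝ α (c t) v :=
    (ContinuousLinearMap.apply ℝ ℂ v).continuous.comp (hcf.comp hcc)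
  obtain ⟨hi, he⟩ := exp_int hab hg hg' h0
  have e1 : EqOn (fun t => (fderiv ℝ α (c t) v / α (c t)).im) (fun t => lf α (c t) v)
      (uIcc a b) := by
    intro t ht
    rw [uIcc_of_le hab] at ht
    exact (lf_apply α (c t) v (h0 t ht)).symm
  have hi2 : IntervalIntegrable (fun t => (fderiv ℝ α (c t) v / α (c t)).im) volume a b := by
    rw [intervalIntegrable_iff] at hi ⊢
    exact hi.im
  refine ⟨_, he, hi2.congr (fun t ht => e1 (uIoc_subset_uIcc ht)), ?_⟩
  rw [← intervalIntegral.integral_congr e1]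
  exact Complex.imCLM.intervalIntegral_comp_comm hi

theorem wind : WIND := by
  intro α hα a1 b1 a2 b2 h1 h2 hx hy
  have hd1 : ∀ (z : ℝ) (t : ℝ), HasDerivAt (fun x : ℝ => (x, z)) ((1, 0) : ℝ × ℝ) t := fun z t =>
    (hasDerivAt_id t).prodMk (hasDerivAt_const t z)
  have hd2 : ∀ (z : ℝ) (t : ℝ), HasDerivAt (fun y : ℝ => (z, y)) ((0, 1) : ℝ × ℝ) t := fun z t =>
    (hasDerivAt_const t z).prodMk (hasDerivAt_id t)
  obtain ⟨L1, e1, i1, j1⟩ := side hα h1 (fun x => (x, a2)) (1, 0) (hd1 a2) (fun t ht => (hx t ht).1)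
  obtain ⟨L2, e2, i2, j2⟩ := side hα h1 (fun x => (x, b2)) (1, 0) (hd1 b2) (fun t ht => (hx t ht).2)
  obtain ⟨L3, e3, i3, j3⟩ := side hα h2 (fun y => (a1, y)) (0, 1) (hd2 a1) (fun t ht => (hy t ht).1)
  obtain ⟨L4, e4, i4, j4⟩ := side hα h2 (fun y => (b1, y)) (0, 1) (hd2 b1) (fun t ht => (hy t ht).2)
  have hne : α (a1, a2) ≠ 0 := (hx a1 (left_mem_Icc.2 h1)).1
  have hexp : Complex.exp (L1 + L4 - L2 - L3) = 1 := by
    have h5 : α (b1, b2) = α (a1, a2) * Complex.exp (L1 + L4) := by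
      rw [Complex.exp_add, ← mul_assoc, ← e1]; exact e4
    have h6 : α (b1, b2) = α (a1, a2) * Complex.exp (L3 + L2) := by
      rw [Complex.exp_add, ← mul_assoc, ← e3]; exact e2
    have h7 : Complex.exp (L1 + L4) = Complex.exp (L3 + L2) :=
      mul_left_cancel₀ hne (h5.symm.trans h6)
    have h8 : L1 + L4 - L2 - L3 = (L1 + L4) - (L3 + L2) := by ring
    rw [h8, Complex.exp_sub, h7, div_self (Complex.exp_ne_zero _)]
  obtain ⟨N, hN⟩ := Complex.exp_eq_one_iff.1 hexp
  refine ⟨N, ?_⟩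
  have h9 : (L1 + L4 - L2 - L3).im = 2 * Real.pi * N := by
    rw [hN]; simp; ring
  simp only [Complex.sub_im, Complex.add_im] at h9
  change bdI (lf α) a1 b1 a2 b2 = _
  unfold bdI
  rw [intervalIntegral.integral_sub i1 i2, intervalIntegral.integral_sub i4 i3, j1, j2, j3, j4,
    ← h9]
  ring

theorem jf_apply {V : Type} [NormedAddCommGroup V] [NormedSpace ℝ V] (α : V → ℂ)
    (A : V → V →L[ℝ] ℝ) (p v : V) : jf α A p v =
      ((α p).re * (fderiv ℝ α p v).im - (α p).im * (fderiv ℝ α p v).re) -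
        A p v * ‖α p‖ ^ 2 := by
  have h : (‖α p‖ ^ 2) = (α p).re * (α p).re + (α p).im * (α p).im := by
    rw [← Complex.normSq_apply, Complex.normSq_eq_norm_sq]
  rw [h]
  simp only [jf, eta]
  simp
  ring

/-- `A + jf` on the set where `α ≠ 0` -/
theorem jf_eq (α : ℝ × ℝ → ℂ) (A : ℝ × ℝ → ℝ × ℝ →L[ℝ] ℝ) (p v : ℝ × ℝ) (h0 : α p ≠ 0) :
    (A p + jf α A p) v =
      lf α p v - (((1 - ‖α p‖ ^ 2) / ‖α p‖ ^ 2) • jf α A p) v := by
  have h1 : ‖α p‖ ^ 2 ≠ 0 := pow_ne_zero _ (norm_ne_zero_iff.2 h0)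
  have h2 : lf α p v = (‖α p‖ ^ 2)⁻¹ *
      ((α p).re * (fderiv ℝ α p v).im - (α p).im * (fderiv ℝ α p v).re) := by
    simp [lf]
  rw [add_apply, smul_apply, jf_apply, h2, smul_eq_mul]
  field_simp
  ring

theorem slice (hP : PSID) : SLICE := by
  intro α A hα hA a1 b1 a2 b2 h1 h2 hx hy
  obtain ⟨hs, hpsi⟩ := hP (ℝ × ℝ) α A hα hA
  obtain ⟨N, hN⟩ := wind α hα a1 b1 a2 b2 h1 h2 hx hy
  refine ⟨N, ?_⟩
  simp only [hpsi]
  rw [green _ hs a1 b1 a2 b2 h1 h2, ← hN]
  change bdI (fun p => A p + jf α A p) a1 b1 a2 b2 = bdI (lf α) a1 b1 a2 b2 - _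
  have hAc : Continuous A := hA.continuous
  have hsc : Continuous fun p => A p + jf α A p := hs.continuous
  have hac : Continuous α := hα.continuous
  have hjc : Continuous fun p => jf α A p := by
    have : (fun p => jf α A p) = fun p => (A p + jf α A p) - A p := by
      funext p; simp
    rw [this]; exact hsc.sub hAc
  -- the error term along a side
  have key : ∀ (a b : ℝ), a ≤ b → ∀ (c : ℝ → ℝ × ℝ) (v : ℝ × ℝ), Continuous c →
      (∀ t ∈ Icc a b, α (c t) ≠ 0) →
      ContinuousOn (fun t => (((1 - ‖α (c t)‖ ^ 2) / ‖α (c t)‖ ^ 2) • jf α A (c t)) v) (Icc a b) ∧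
      ContinuousOn (fun t => lf α (c t) v) (Icc a b) := by
    intro a b hab c v hc h0
    have hk : ContinuousOn (fun t => (((1 - ‖α (c t)‖ ^ 2) / ‖α (c t)‖ ^ 2) • jf α A (c t)) v)
        (Icc a b) := by
      simp only [smul_apply, smul_eq_mul]
      refine ContinuousOn.mul (ContinuousOn.div ?_ ?_ ?_) ?_
      · exact (continuous_const.sub (((hac.comp hc).norm).pow 2)).continuousOn
      · exact (((hac.comp hc).norm).pow 2).continuousOn
      · intro t ht
        exact pow_ne_zero _ (norm_ne_zero_iff.2 (h0 t ht))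
      · exact (cont_ev hjc hc v).continuousOn
    refine ⟨hk, ?_⟩
    have e : EqOn (fun t => lf α (c t) v) (fun t => (A (c t) + jf α A (c t)) v +
        (((1 - ‖α (c t)‖ ^ 2) / ‖α (c t)‖ ^ 2) • jf α A (c t)) v) (Icc a b) := by
      intro t ht
      simp only
      rw [jf_eq α A (c t) v (h0 t ht)]
      ring
    exact ((cont_ev hsc hc v).continuousOn.add hk).congr e
  have hint : ∀ (a b : ℝ), a ≤ b → ∀ (f : ℝ → ℝ), ContinuousOn f (Icc a b) →
      IntervalIntegrable f volume a b := fun a b hab f hf =>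
    ContinuousOn.intervalIntegrable (by rwa [uIcc_of_le hab])
  have c1 : ∀ z : ℝ, Continuous fun x : ℝ => ((x, z) : ℝ × ℝ) := fun z => by fun_prop
  have c2 : ∀ z : ℝ, Continuous fun y : ℝ => ((z, y) : ℝ × ℝ) := fun z => by fun_prop
  have k1 := key a1 b1 h1 (fun x => (x, a2)) (1, 0) (c1 a2) (fun t ht => (hx t ht).1)
  have k2 := key a1 b1 h1 (fun x => (x, b2)) (1, 0) (c1 b2) (fun t ht => (hx t ht).2)
  have k3 := key a2 b2 h2 (fun y => (a1, y)) (0, 1) (c2 a1) (fun t ht => (hy t ht).1)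
  have k4 := key a2 b2 h2 (fun y => (b1, y)) (0, 1) (c2 b1) (fun t ht => (hy t ht).2)
  unfold bdI
  have e1 : ∫ x in a1..b1, ((A (x, a2) + jf α A (x, a2)) (1, 0) -
      (A (x, b2) + jf α A (x, b2)) (1, 0)) =
      (∫ x in a1..b1, (lf α (x, a2) (1, 0) - lf α (x, b2) (1, 0))) -
      ∫ x in a1..b1, ((((1 - ‖α (x, a2)‖ ^ 2) / ‖α (x, a2)‖ ^ 2) • jf α A (x, a2)) (1, 0) -
        (((1 - ‖α (x, b2)‖ ^ 2) / ‖α (x, b2)‖ ^ 2) • jf α A (x, b2)) (1, 0)) := by
    refine Eq.trans (intervalIntegral.integral_congr ?_)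
      (intervalIntegral.integral_sub (hint a1 b1 h1 _ (k1.2.sub k2.2))
      (hint a1 b1 h1 _ (k1.1.sub k2.1)))
    intro x hx'
    rw [uIcc_of_le h1] at hx'
    simp only
    rw [jf_eq α A (x, a2) _ (hx x hx').1, jf_eq α A (x, b2) _ (hx x hx').2]
    ring
  have e2 : ∫ y in a2..b2, ((A (b1, y) + jf α A (b1, y)) (0, 1) -
      (A (a1, y) + jf α A (a1, y)) (0, 1)) =
      (∫ y in a2..b2, (lf α (b1, y) (0, 1) - lf α (a1, y) (0, 1))) -
      ∫ y in a2..b2, ((((1 - ‖α (b1, y)‖ ^ 2) / ‖α (b1, y)‖ ^ 2) • jf α A (b1, y)) (0, 1) -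
        (((1 - ‖α (a1, y)‖ ^ 2) / ‖α (a1, y)‖ ^ 2) • jf α A (a1, y)) (0, 1)) := by
    refine Eq.trans (intervalIntegral.integral_congr ?_)
      (intervalIntegral.integral_sub (hint a2 b2 h2 _ (k4.2.sub k3.2))
      (hint a2 b2 h2 _ (k4.1.sub k3.1)))
    intro y hy'
    rw [uIcc_of_le h2] at hy'
    simp only
    rw [jf_eq α A (b1, y) _ (hy y hy').2, jf_eq α A (a1, y) _ (hy y hy').1]
    ring
  rw [e1, e2]
  ring

end

end Crest.Agent.R235.SwcSlice_751
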