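import Crest.Agent.R235.SwcPosD_34
import Crest.Agent.R235.SwcPtw_766
import Crest.Agent.R235.SwcLoc_924
import Crest.Agent.R235.SwcQch_125
import Crest.Agent.R235.SwcQlow_82
import Crest.Agent.R235.SwcBoxe_312
import Crest.Agent.R235.SwcBox_193
import Crest.Agent.R235.SwcGns_734
import Crest.Agent.R235.SwcGradF_168
import Crest.Agent.R235.SwcNear_915
import Crest.Agent.R235.SwcSlice_751
import Crest.Agent.R235.SwcPsid_370
import Crest.Agent.R235.Dens_253

/-!
Row 235 (S0364), PACKAGE SWC-AN (leader helper34), FINAL ASSEMBLY: `AN` is a theorem.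
-/

set_option autoImplicit false

universe u

namespace Crest.Agent.R235.SwcANF_34

open Crest.Agent.R235.SwcDefs_34 Crest.Agent.R235.SwcGlob_34

/-- the box inequality. -/
theorem box : BOX :=
  SwcBox_193.box SwcPsid_370.psid (SwcNear_915.nearint (SwcSlice_751.slice SwcPsid_370.psid))
    SwcGns_734.gns2 SwcGradF_168.gradf

/-- quadratic inequality and lower density bound of the limits. -/
theorem qim : QIM.{u} :=
  qim_of (SwcQch_125.qch (SwcBoxe_312.boxe box)) (SwcQlow_82.qlow Dens_253.dens)

/-- **AN** (output of SWC-AN): the limit of a Taubes sequence is a closed positive current in the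
class of `a0`, with a lower density bound. -/
theorem an : AN.{u} :=
  SwcAn_34.an_of2 SwcPtw_766.ptw (SwcPos_34.posdom2 SwcPtw_766.ptw) SwcLoc_924.locrep qim

end Crest.Agent.R235.SwcANF_34
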