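import Crest.Agent.R235.TauF_483
import Crest.Agent.R235.QSTri_451

/-!
Row 235 (S0364), SW-TAU (helper755 for helper483), leaf STAR: `2 q(w_0; da, Φ) = ∑_A ⟨(∇a)_A, g_A⟩`
with smooth fields `g_A = T Y_A`, `⟨Y_A, v⟩ = (⋆Φ)(v, s_A)`, `⋆Φ = 2 ∑_k q(w_0; e_k, Φ) e_k - Φ`.
-/

set_option autoImplicit false
set_option maxSynthPendingDepth 3
set_option linter.unusedSectionVars false

open scoped ContDiff ENNReal NNReal Topology Manifold Bundle RealInnerProductSpace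
open MeasureTheory Set Filter Metric Bundle Matrix

universe v

namespace Crest.Agent.R235.TauStar_755

open Crest.Agent.R240 Crest.Agent.R240.Ch Crest.Agent.R235.SWDefs_53 Crest.Agent.R235.IndTri_451
open Crest.Agent.R249.Tv57 (Dat OpPair SmF Spec)
open Crest.Agent.R247.Ms322 (Gr)
open Crest.Agent.R249.Vf281 (VSm mCov)
open Crest.Agent.R249.Tz805 (ToF)
open Crest.Agent.R235.Tau483

noncomputable section

/-! ### linear algebra -/

/-- `⋆Φ` -/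
def star (e : Fin 3 → Bil) (Φ : Bil) : Bil :=
  (2 : ℝ) • (q (e 0) (e 0) Φ • e 0 + q (e 0) (e 1) Φ • e 1 + q (e 0) (e 2) Φ • e 2) - Φ

theorem W_frame {g : Bil} {e : Fin 3 → Bil} {I : Fin 3 → E4 →L[ℝ] E4} {T : E4 →L[ℝ] E4}
    (H : Fr g e I T) {ψ β : Bil} (hψ : Alt ψ) (hβ : Alt β) :
    W (pull T ψ) (pull T β) = 2 * q (e 0) ψ β := by
  rw [W_pull hψ hβ]
  unfold q
  have h2 := H.det
  have h3 : W (e 0) (e 0) ≠ 0 := by
    intro h0
    rw [h0, zero_mul] at h2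
    exact two_ne_zero h2.symm
  field_simp
  linear_combination (W ψ β) * h2

theorem star_apply {g : Bil} {e : Fin 3 → Bil} {I : Fin 3 → E4 →L[ℝ] E4} {T : E4 →L[ℝ] E4}
    (H : Fr g e I T) (he : ∀ k, Alt (e k)) {Φ : Bil} (hΦ : Alt Φ) (r s : E4) :
    star e Φ (T r) (T s) =
      W (pull T (e 0)) (pull T Φ) * (e 0 (T r) (T s)) + W (pull T (e 1)) (pull T Φ) * (e 1 (T r) (T s))
        + W (pull T (e 2)) (pull T Φ) * (e 2 (T r) (T s)) - Φ (T r) (T s) := by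
  rw [W_frame H (he 0) hΦ, W_frame H (he 1) hΦ, W_frame H (he 2) hΦ]
  simp only [star, _root_.sub_apply, _root_.smul_apply, _root_.add_apply, smul_eq_mul]
  ring

theorem star_frame {g : Bil} {e : Fin 3 → Bil} {I : Fin 3 → E4 →L[ℝ] E4} {T : E4 →L[ℝ] E4}
    (H : Fr g e I T) (he : ∀ k, Alt (e k)) {ψ Φ : Bil} (hψ : Alt ψ) (hΦ : Alt Φ) :
    ∑ i, ∑ j, ψ (T (ee i)) (T (ee j)) * star e Φ (T (ee i)) (T (ee j)) = 4 * q (e 0) ψ Φ := by
  have h2 : 4 * q (e 0) ψ Φ = 2 * W (pull T ψ) (pull T Φ) := by rw [W_frame H hψ hΦ]; ring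
  rw [h2]
  simp only [star_apply H he hΦ]
  have b0 : ∀ i j, Φ (T (ee i)) (T (ee j)) = ent (pull T Φ) i j := fun i j => (pull_apply _ _ _ _).symm
  have c0 : ∀ i j, ψ (T (ee i)) (T (ee j)) = ent (pull T ψ) i j := fun i j => (pull_apply _ _ _ _).symm
  have e0 : ∀ k i j, ent (pull T (e k)) i j = e k (T (ee i)) (T (ee j)) :=
    fun k i j => pull_apply _ _ _ _
  have hΦ' : Alt (pull T Φ) := hΦ.pull T
  have hψ' : Alt (pull T ψ) := hψ.pull T
  simp only [b0, c0]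
  unfold W
  simp only [e0, H.e0, H.e1, H.e2, ee_apply, Fin.sum_univ_four]
  simp only [hΦ'.ent_self, hψ'.ent_self, hΦ'.ent_swap 1 0, hΦ'.ent_swap 2 0, hΦ'.ent_swap 3 0,
    hΦ'.ent_swap 2 1, hΦ'.ent_swap 3 1, hΦ'.ent_swap 3 2, hψ'.ent_swap 1 0, hψ'.ent_swap 2 0,
    hψ'.ent_swap 3 0, hψ'.ent_swap 2 1, hψ'.ent_swap 3 1, hψ'.ent_swap 3 2]
  simp
  ring

/-! ### on the manifold -/

variable {M : Type v} [MetricSpace M] [CompactSpace M] [ConnectedSpace M]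
  [ChartedSpace (EuclideanSpace ℝ (Fin 4)) M] [IsManifold (𝓡 4) ∞ M]
  [RiemannianBundle (fun p : M => TangentSpace (𝓡 4) p)]
  [IsContMDiffRiemannianBundle (𝓡 4) ∞ (EuclideanSpace ℝ (Fin 4))
    (fun p : M => TangentSpace (𝓡 4) p)]
  [IsRiemannianManifold (𝓡 4) M] [MeasurableSpace M] [BorelSpace M]
  [SecondCountableTopology M] [Nonempty M]
  {κ0 κ1 κT : Type} [Fintype κ0] [Fintype κ1] [Fintype κT]

/-- `⋆Φ` -/
def starF (w0 : F2 E4 M) (e : Fin 3 → F2 E4 M) (Φ : F2 E4 M) : F2 E4 M :=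
  (2 : ℝ) • (fmul (qG w0 (e 0) Φ) (e 0) + fmul (qG w0 (e 1) Φ) (e 1) + fmul (qG w0 (e 2) Φ) (e 2)) - Φ

lemma at2_starF {w e : Fin 3 → F2 E4 M} (h : IsTri w e) (Φ : F2 E4 M) (z : M) :
    at2 (starF (w 0) e Φ) z = star (fun k => at2 (e k) z) (at2 Φ z) := by
  rw [← h.e_zero]
  rfl

lemma smooth_starF {w e : Fin 3 → F2 E4 M} (h : IsTri w e) {Φ : F2 E4 M} (hΦ : Smooth2 Φ) :
    Smooth2 (starF (w 0) e Φ) := by
  have h0 : Smooth2 (w 0) := by rw [← h.e_zero]; exact h.smooth 0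
  have h1 : ∀ k, Smooth2 (fmul (qG (w 0) (e k) Φ) (e k)) := fun k =>
    Smooth2.fmul (En4.smoothF_qG h0 h.W_ne (h.smooth k) hΦ) (h.smooth k)
  have h2 : Smooth2 ((2 : ℝ) • (fmul (qG (w 0) (e 0) Φ) (e 0) + fmul (qG (w 0) (e 1) Φ) (e 1)
      + fmul (qG (w 0) (e 2) Φ) (e 2))) := Smooth2.smul 2 (((h1 0).add (h1 1)).add (h1 2))
  have h3 : starF (w 0) e Φ = (2 : ℝ) • (fmul (qG (w 0) (e 0) Φ) (e 0)
      + fmul (qG (w 0) (e 1) Φ) (e 1) + fmul (qG (w 0) (e 2) Φ) (e 2)) + (-1 : ℝ) • Φ := by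
    rw [starF, neg_one_smul, sub_eq_add_neg]
  rw [h3]
  exact h2.add (Smooth2.smul (-1) hΦ)

/-- contraction of a smooth two-form with a smooth field -/
lemma smooth1_con {Φ : F2 E4 M} (hΦ : Smooth2 Φ) {X : (x : M) → TangentSpace 𝓘(ℝ, E4) x}
    (hX : ∀ z, VSm 4 ∞ X z) : Smooth1 (RiemB_399.flG Φ X) := by
  intro p
  have h1 : ContDiffOn ℝ ∞ (fun y => rep p Φ y (repV p (X : VF E4 M) y)) (chartAt E4 p).target :=
    (hΦ.2 p).clm_apply ((RiemB_399.smoothV_iff X).2 hX p)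
  exact h1.congr fun y hy => RiemB_399.rep1_flG Φ X p hy

section main

variable {S : SWS M κ0 κ1 κT} {T : ToF 4 M}
    {cc : κ1 → κ0 → (z : M) → TangentSpace (𝓡 4) z}
    {W : κ0 → κ0 → (z : M) → TangentSpace (𝓡 4) z}
    {sT : κT → (z : M) → TangentSpace (𝓡 4) z} {w : Trip M} {e : Fin 3 → F2 E4 M}
    {σ ι : ℝ}

/-- **STAR** -/
theorem star_g (h : TG S T cc W sT w e σ ι) {Φ : F2 E4 M} (hΦ : Smooth2 Φ) :
    ∃ g : κT → M → EuclideanSpace ℝ (Fin 4), (∀ A, SmF (g A)) ∧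
      ∀ a : κT → M → ℝ, Crest.Agent.R249.Tv57.SmV (n := 4) a → S.DT.Sec a → ∀ z,
        ∑ A, ⟪S.DT.cv a A z, g A z⟫
          = 2 * q (at2 ((w 0).1.1 : F2 E4 M) z)
              (at2 (dG (RiemB_399.flG (gg e) (fld sT a))) z) (at2 Φ z) := by
  set Ψ : F2 E4 M := starF ((w 0).1.1 : F2 E4 M) e Φ with hΨ
  have smΨ : Smooth2 Ψ := smooth_starF h.tri hΦ
  -- the fields `Y_A = - shp (Ψ(s_A, ·))`
  let Y : κT → (z : M) → TangentSpace (𝓡 4) z := fun A z => - RiemB_399.shp (RiemB_399.flG Ψ (sT A)) z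
  have smY : ∀ A z, VSm 4 ∞ (Y A) z := fun A z =>
    (RiemB_399.VSm_shp (smooth1_con smΨ (h.smsT A)) z).neg
  have inY : ∀ A z (v : TangentSpace (𝓡 4) z), (inner ℝ (Y A z) v : ℝ) = at2 Ψ z v (sT A z) := by
    intro A z v
    rw [inner_neg_left, RiemB_399.inner_shp]
    exact (smΨ.antisymm z v (sT A z)).symm
  refine ⟨fun A z => T.toF z (Y A z), fun A => T.smooth _ (smY A), fun a ha hsa z => ?_⟩
  -- the two-form `d a^♭` in the frame
  set ψ : Bil := at2 (dG (RiemB_399.flG (gg e) (fld sT a))) z with hψ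
  have hfr := fr_of h.tri z
  have he : ∀ k, Alt (at2 (e k) z) := fun k => (h.tri.smooth k).1 z
  have smX : ∀ z, VSm 4 ∞ (fld sT a) z := fun z => RiemB_399.VSm_sum fun A =>
    VSm.smul le_rfl (ha A z) (h.smsT A z)
  have hψa : Alt ψ := fun v => (Smooth2.dG (RiemB_399.smooth1_flG (QSTri_451.met_gg h.tri) smX)).1 z v
  have hst := star_frame hfr he hψa (hΦ.1 z)
  have hΨz : at2 Ψ z = star (fun k => at2 (e k) z) (at2 Φ z) := at2_starF h.tri Φ z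
  have hqe : q (at2 ((w 0).1.1 : F2 E4 M) z) ψ (at2 Φ z) = q (at2 (e 0) z) ψ (at2 Φ z) := by
    rw [h.tri.e_zero]
  -- the frame
  set v : Fin 4 → TangentSpace (𝓡 4) z := vf e z with hv
  have hψij : ∀ i j, ψ (frT e z (ee i)) (frT e z (ee j))
      = (inner ℝ (mCov 4 (fld sT a) z (v i)) (v j) : ℝ) - inner ℝ (mCov 4 (fld sT a) z (v j)) (v i) :=
    fun i j => RiemB_399.dG_mCov h.met (QSTri_451.met_gg h.tri) (smX z) (v i) (v j)
  have hΨij : ∀ i j, star (fun k => at2 (e k) z) (at2 Φ z) (frT e z (ee i)) (frT e z (ee j))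
      = at2 Ψ z (v i) (v j) := fun i j => by rw [hΨz]; rfl
  have e1 : ∑ i, ∑ j, at2 Ψ z (v i) (v j) * (inner ℝ (mCov 4 (fld sT a) z (v i)) (v j) : ℝ)
      = 2 * q (at2 (e 0) z) ψ (at2 Φ z) := by
    rw [Tau483.antisym (fun i j => smΨ.antisymm z (v i) (v j))]
    have h5 : ∑ i, ∑ j, at2 Ψ z (v i) (v j) * ((inner ℝ (mCov 4 (fld sT a) z (v i)) (v j) : ℝ)
        - inner ℝ (mCov 4 (fld sT a) z (v j)) (v i)) = 4 * q (at2 (e 0) z) ψ (at2 Φ z) := by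
      rw [← hst]
      refine Finset.sum_congr rfl fun i _ => Finset.sum_congr rfl fun j _ => ?_
      rw [hΨij, hψij, mul_comm]
    rw [h5]; ring
  rw [hqe, ← e1]
  -- left side
  have e2 : ∀ A, ⟪S.DT.cv a A z, T.toF z (Y A z)⟫
      = ∑ i, ∑ j, at2 Ψ z (v i) (v j) *
        ((inner ℝ (S.DT.cv a A z) (T.toF z (v i)) : ℝ) * (inner ℝ (sT A z) (v j) : ℝ)) := by
    intro A
    rw [inner_toF_sum h.tri h.met T z]
    refine Finset.sum_congr rfl fun i _ => ?_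
    have h6 : (inner ℝ (Y A z) (v i) : ℝ) = ∑ j, (inner ℝ (v j) (sT A z) : ℝ) * at2 Ψ z (v i) (v j) := by
      rw [inY]
      have h7 := congrArg (fun x : E4 => at2 Ψ z (v i) x) (sum_vf h.tri h.met z (sT A z))
      refine h7.symm.trans ?_
      refine (map_sum (at2 Ψ z (v i)) _ _).trans (Finset.sum_congr rfl fun j _ => ?_)
      exact map_smul (at2 Ψ z (v i)) _ _
    rw [h6, Finset.mul_sum]
    refine Finset.sum_congr rfl fun j _ => ?_
    rw [real_inner_comm (sT A z) (v j)]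
    ring
  rw [Finset.sum_congr rfl fun A _ => e2 A, Finset.sum_comm]
  refine Finset.sum_congr rfl fun i _ => ?_
  rw [Finset.sum_comm]
  refine Finset.sum_congr rfl fun j _ => ?_
  rw [← h.cvT a ha hsa z (v i) (v j), Finset.mul_sum]

end main

end

end Crest.Agent.R235.TauStar_755
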