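import Crest.Agent.R235.SwcProd3_215
import Crest.Agent.R235.TauStar_755
import Crest.Agent.R240.NrmM

/-!
Row 235 (S0364), PACKAGE SWC, assembly of PROD (helper215), leaf PRE (helper129): the soft fields of
`TSeq.OK` (closedness of the form, uniform convergence of the projections, `L²` bound of the Chern
forms, smoothness, sections).
-/

set_option autoImplicit false
set_option maxSynthPendingDepth 3
set_option linter.unusedSectionVars false

open scoped ContDiff ENNReal NNReal Topology Manifold Bundle RealInnerProductSpace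
open MeasureTheory Set Filter Metric Bundle

universe v

namespace Crest.Agent.R235.SwcPRE_129

open Crest.Agent.R240 Crest.Agent.R240.Ch Crest.Agent.R235 Crest.Agent.R235.SWDefs_53
open Crest.Agent.R235.IndTri_451 Crest.Agent.R235.SwcGlob_34
open Crest.Agent.R235.SwcProd_215
open Crest.Agent.R249.Tv57 (OpPair SmF SmV KerD)
open Crest.Agent.R249.Tz805 (ToF)

noncomputable section

variable {M : Type v} [MetricSpace M] [CompactSpace M] [ConnectedSpace M]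
  [ChartedSpace (EuclideanSpace ℝ (Fin 4)) M] [IsManifold (𝓡 4) ∞ M]
  [RiemannianBundle (fun p : M => TangentSpace (𝓡 4) p)]
  [IsContMDiffRiemannianBundle (𝓡 4) ∞ (EuclideanSpace ℝ (Fin 4))
    (fun p : M => TangentSpace (𝓡 4) p)]
  [IsRiemannianManifold (𝓡 4) M] [MeasurableSpace M] [BorelSpace M]
  [SecondCountableTopology M] [Nonempty M]
  {κ0 κ1 κT : Type} [Fintype κ0] [Fintype κ1] [Fintype κT]

/-! ### dictionary with 483's matrices -/

theorem PE_eq (τ : TD M κT) (S : SWS M κ0 κ1 κT) (x : M) :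
    SwcProd_215.PE τ S x = Tau483.PEf τ S x := by
  ext y y'
  have h1 : Tau483.PEf τ S x y y' = (1 / 2 : ℂ) * ((Tau483.P0f τ S x y y' : ℂ) -
      Complex.I * (((Tau483.Jm S x * Tau483.P0f τ S x) y y' : ℝ) : ℂ)) := rfl
  have h2 : ∀ y y', pi0 τ S y y' x = Tau483.P0f τ S x y y' := fun y y' =>
    (Tau483.P0f_apply τ S x y y').symm
  have h3 : (Tau483.Jm S x * Tau483.P0f τ S x) y y' = ∑ c, S.J y c x * pi0 τ S c y' x := by
    rw [Matrix.mul_apply]
    exact Finset.sum_congr rfl fun c _ => by rw [h2]; rfl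
  rw [h1, h3, ← h2]
  unfold SwcProd_215.PE
  ring

theorem zet_eq (S : SWS M κ0 κ1 κT) (s : κ0 → M → ℝ) (x : M) :
    zet S s x = Tau483.hatf S s x := by
  funext y
  have h1 : Tau483.hatf S s x y = ((1 / √2 : ℝ) : ℂ) * ((s y x : ℂ) -
      Complex.I * (((Tau483.Jm S x).mulVec (Tau483.sv s x) y : ℝ) : ℂ)) := rfl
  have h2 : (Tau483.Jm S x).mulVec (Tau483.sv s x) y = ∑ y', S.J y y' x * s y' x := rfl
  rw [h1, h2]
  unfold zet zv
  push_cast
  ring

/-! ### the section `cE` -/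

section sec

variable [IsFiniteMeasureOnCompacts (μHE[4] : Measure M)]
  {S : SWS M κ0 κ1 κT} {T : ToF 4 M} {cc : κ1 → κ0 → (z : M) → TangentSpace (𝓡 4) z}
  {W : κ0 → κ0 → (z : M) → TangentSpace (𝓡 4) z}
  {sT : κT → (z : M) → TangentSpace (𝓡 4) z} {w : Trip M} {e : Fin 3 → F2 E4 M} {σ ι : ℝ}
  {τ : TD M κT} {C : ℝ}

open Matrix in
theorem secE_cE (hS : S.OK) (h : Tau483.TG S T cc W sT w e σ ι) (hτ : τ.OK S C)
    {u : κ0 → M → ℝ} (hu : S.D0.Sec u) : τ.SecE S (cE τ S u) := by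
  refine Tau483.secE_of fun z => ?_
  have hal : Tau483.Al (Tau483.Pm S z) (Tau483.Jm S z) (Tau483.Rm S z) (Tau483.nv τ z) ι :=
    Tau483.al_of hS h z (hτ.norm z)
  have hv : Tau483.Pm S z *ᵥ Tau483.sv u z = Tau483.sv u z := funext fun y => hu y z
  have hc : Tau483.sv (cE τ S u) z = (τ.rr z ^ (-(3 / 4) : ℝ) * (1 / 2)) •
      (Tau483.sv u z - Tau483.RR (Tau483.Rm S z) (Tau483.nv τ z) *ᵥ Tau483.sv u z) := by
    funext y
    have e1 := Tau483.RR_mulVec τ S u z y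
    show τ.rr z ^ (-(3 / 4) : ℝ) * ((1 / 2) * (u y z - τ.R S u y z)) =
      (τ.rr z ^ (-(3 / 4) : ℝ) * (1 / 2)) * (u y z -
        (Tau483.RR (Tau483.Rm S z) (Tau483.nv τ z) *ᵥ Tau483.sv u z) y)
    rw [e1]; ring
  refine ⟨?_, ?_⟩
  · rw [hc, mulVec_smul, mulVec_sub, mulVec_mulVec, hal.PR, hv]
  · rw [hc, mulVec_smul, mulVec_sub, mulVec_mulVec, hal.R_sq, hv, ← smul_neg, neg_sub]

theorem sm_rpow {f : M → ℝ} (hf : ContMDiff (𝓡 4) 𝓘(ℝ, ℝ) ∞ f) (hpos : ∀ z, 0 < f z) (r : ℝ) :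
    ContMDiff (𝓡 4) 𝓘(ℝ, ℝ) ∞ fun z => f z ^ r := fun z =>
  (Real.contDiffAt_rpow_const_of_ne (hpos z).ne').contMDiffAt.comp z (hf z)

theorem sm_cE (hS : S.OK) (hτ : τ.OK S C) {u : κ0 → M → ℝ} (hu : SmV (n := 4) u) :
    SmV (n := 4) (cE τ S u) := by
  intro y
  refine Tau483.sm_mul (sm_rpow hτ.smrr hτ.pos _) (Tau483.sm_mul (Tau483.sm_const _)
    (Tau483.sm_sub (hu y) ?_))
  exact Tau483.sm_sum fun k => Tau483.sm_sum fun y' =>
    Tau483.sm_mul (Tau483.sm_mul (hτ.smn k) (hS.smrho k y y')) (hu y')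

/-- `P_E ζ(s) = ζ(s)`. -/
theorem PE_zet (hS : S.OK) (h : Tau483.TG S T cc W sT w e σ ι) (hτ : τ.OK S C)
    {s : κ0 → M → ℝ} (hs : τ.SecE S s) (x : M) :
    (SwcProd_215.PE τ S x).mulVec (zet S s x) = zet S s x := by
  have hal : Tau483.Al (Tau483.Pm S x) (Tau483.Jm S x) (Tau483.Rm S x) (Tau483.nv τ x) ι :=
    Tau483.al_of hS h x (hτ.norm x)
  rw [PE_eq, zet_eq]
  exact hal.PE_hat (Tau483.inE_of hs x)

theorem smooth_zet (hS : S.OK) {s : κ0 → M → ℝ} (hs : SmV (n := 4) s) (y : κ0) :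
    ContMDiff 𝓘(ℝ, E4) 𝓘(ℝ, ℂ) ∞ fun x => zet S s x y := by
  have h1 : (fun x => zet S s x y) = fun x => Tau483.hatf S s x y := by
    funext x
    rw [zet_eq]
  rw [h1]
  exact Tau483.smV_hatf hS hs y

/-- smoothness of `θ`. -/
theorem smooth_thE (h : Tau483.TG S T cc W sT w e σ ι) {β : F1 E4 M} (hβ : Smooth1 β)
    {a : κT → M → ℝ} (ha : SmV (n := 4) a) : Smooth1 (thE sT e β a) := by
  have smX : ∀ z, Crest.Agent.R249.Vf281.VSm 4 ∞ (Tau483.fld sT a) z := fun z =>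
    RiemB_399.VSm_sum fun A => Crest.Agent.R249.Vf281.VSm.smul le_rfl (ha A z) (h.smsT A z)
  have h1 := RiemB_399.smooth1_flG (QSTri_451.met_gg h.tri) smX
  exact fun p => (h1 p).neg.sub (hβ p)

end sec

/-! ### bounds of forms -/

theorem abs_W_le {b c : Bil} {A B : ℝ} (hA : 0 ≤ A) (hb : ∀ i j, |ent b i j| ≤ A)
    (hc : ∀ i j, |ent c i j| ≤ B) : |W b c| ≤ 6 * (A * B) := by
  have key : ∀ i j k l, |ent b i j * ent c k l| ≤ A * B := by
    intro i j k l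
    rw [abs_mul]
    exact mul_le_mul (hb i j) (hc k l) (abs_nonneg _) hA
  unfold W
  have e1 := abs_le.1 (key 0 1 2 3)
  have e2 := abs_le.1 (key 0 2 1 3)
  have e3 := abs_le.1 (key 0 3 1 2)
  have e4 := abs_le.1 (key 1 2 0 3)
  have e5 := abs_le.1 (key 1 3 0 2)
  have e6 := abs_le.1 (key 2 3 0 1)
  rw [abs_le]
  constructor <;> linarith [e1.1, e1.2, e2.1, e2.2, e3.1, e3.2, e4.1, e4.2, e5.1, e5.2, e6.1, e6.2]

section tri

variable {w e : Fin 3 → F2 E4 M}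

/-- the pairing of two forms bounded with respect to the metric. -/
theorem abs_q_le (h : IsTri w e) (x : M) {b c : Bil} (hb : Alt b) (hc : Alt c) {A B : ℝ}
    (hA : 0 ≤ A) (hB : 0 ≤ B)
    (h1 : ∀ u v, b u v ^ 2 ≤ A ^ 2 * (at2 (gg e) x u u * at2 (gg e) x v v))
    (h2 : ∀ u v, c u v ^ 2 ≤ B ^ 2 * (at2 (gg e) x u u * at2 (gg e) x v v)) :
    |q (at2 (w 0) x) b c| ≤ 3 * (A * B) := by
  have hfr := Tau483.fr_of h x
  have hW := TauStar_755.W_frame hfr hb hc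
  have hself : ∀ i : Fin 4, at2 (gg e) x (Tau483.frT e x (ee i)) (Tau483.frT e x (ee i)) = 1 :=
    fun i => (Tau483.g_vf h x i i).trans (if_pos rfl)
  have k1 : ∀ i j, |ent (pull (Tau483.frT e x) b) i j| ≤ A := by
    intro i j
    have e1 := h1 (Tau483.frT e x (ee i)) (Tau483.frT e x (ee j))
    rw [hself, hself, mul_one, mul_one] at e1
    have e2 : ent (pull (Tau483.frT e x) b) i j =
      b (Tau483.frT e x (ee i)) (Tau483.frT e x (ee j)) := pull_apply _ _ _ _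
    rw [e2]
    exact abs_le_of_sq_le_sq e1 hA
  have k2 : ∀ i j, |ent (pull (Tau483.frT e x) c) i j| ≤ B := by
    intro i j
    have e1 := h2 (Tau483.frT e x (ee i)) (Tau483.frT e x (ee j))
    rw [hself, hself, mul_one, mul_one] at e1
    have e2 : ent (pull (Tau483.frT e x) c) i j =
      c (Tau483.frT e x (ee i)) (Tau483.frT e x (ee j)) := pull_apply _ _ _ _
    rw [e2]
    exact abs_le_of_sq_le_sq e1 hB
  have k3 := abs_W_le hA k1 k2
  rw [hW] at k3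
  have k4 : q ((fun i => at2 (e i) x) 0) b c = q (at2 (w 0) x) b c := by
    rw [← h.e_zero]
  rw [k4, abs_mul, abs_two] at k3
  linarith

/-- the forms of the triple have norm one. -/
theorem sq_ek_le (h : IsTri w e) (x : M) (k : Fin 3) (u v : E4) :
    at2 (e k) x u v ^ 2 ≤ (1 : ℝ) ^ 2 * (at2 (gg e) x u u * at2 (gg e) x v v) := by
  have hfr := Tau483.fr_of h x
  have hinj := hfr.inj
  obtain ⟨r, rfl⟩ : ∃ r, Tau483.frT e x r = u :=
    (LinearMap.injective_iff_surjective (f := (Tau483.frT e x : E4 →ₗ[ℝ] E4))).1 hinj u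
  obtain ⟨s, rfl⟩ : ∃ r, Tau483.frT e x r = v :=
    (LinearMap.injective_iff_surjective (f := (Tau483.frT e x : E4 →ₗ[ℝ] E4))).1 hinj v
  rw [hfr.g, hfr.g]
  fin_cases k
  · have h1 : at2 (e 0) x (Tau483.frT e x r) (Tau483.frT e x s) = _ := hfr.e0 r s
    simp only [Fin.zero_eta]
    rw [h1]
    nlinarith [sq_nonneg (r 0 * s 0 + r 1 * s 1 + r 2 * s 2 + r 3 * s 3),
      sq_nonneg (r 0 * s 2 - r 2 * s 0 - (r 1 * s 3 - r 3 * s 1)),
      sq_nonneg (r 0 * s 3 - r 3 * s 0 + (r 1 * s 2 - r 2 * s 1))]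
  · have h1 : at2 (e 1) x (Tau483.frT e x r) (Tau483.frT e x s) = _ := hfr.e1 r s
    simp only [Fin.mk_one]
    rw [h1]
    nlinarith [sq_nonneg (r 0 * s 0 + r 1 * s 1 + r 2 * s 2 + r 3 * s 3),
      sq_nonneg (r 0 * s 1 - r 1 * s 0 + (r 2 * s 3 - r 3 * s 2)),
      sq_nonneg (r 0 * s 3 - r 3 * s 0 + (r 1 * s 2 - r 2 * s 1))]
  · have h1 : at2 (e 2) x (Tau483.frT e x r) (Tau483.frT e x s) = _ := hfr.e2 r s
    simp only [Fin.reduceFinMk]
    rw [h1]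
    nlinarith [sq_nonneg (r 0 * s 0 + r 1 * s 1 + r 2 * s 2 + r 3 * s 3),
      sq_nonneg (r 0 * s 1 - r 1 * s 0 + (r 2 * s 3 - r 3 * s 2)),
      sq_nonneg (r 0 * s 2 - r 2 * s 0 - (r 1 * s 3 - r 3 * s 1))]

end tri

/-! ### the projections -/

section ctx

variable [IsFiniteMeasureOnCompacts (μHE[4] : Measure M)]
  {V : Vars M κ0 κ1 κT} {U : Filter ℕ}

/-- `n_k` is continuous on `{‖t‖ = 1} × M`. -/
theorem cont_n {S : SWS M κ0 κ1 κT} {T : ToF 4 M} {cc : κ1 → κ0 → (z : M) → TangentSpace (𝓡 4) z}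
    {W : κ0 → κ0 → (z : M) → TangentSpace (𝓡 4) z}
    {sT : κT → (z : M) → TangentSpace (𝓡 4) z} {w : Trip M} {e : Fin 3 → F2 E4 M} {ι : ℝ}
    {ww : Fin 3 → Fin 3 → M → ℝ} {τ : E3 → TD M κT} {C K : ℝ} {c : H2 M}
    (hd : SwcData S T cc W sT w e ι ww τ C K c) (k : Fin 3) :
    ContinuousOn (fun q : E3 × M => (τ q.1).n k q.2) (SM M) := by
  have h1 : ContinuousOn (fun q : E3 × M => Xw ww q.1 k q.2 / Nw ww q.1 q.2) (SM M) := by
    refine (continuous_Xw hd.smw k).continuousOn.div (continuous_Nw hd.smw).continuousOn ?_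
    intro q hq
    rw [← hd.rr_eq hq]
    exact ((hd.tau q.1 hq).pos q.2).ne'
  exact h1.congr fun q hq => hd.n_eq hq k q.2

theorem cont_PE {S : SWS M κ0 κ1 κT} {T : ToF 4 M} {cc : κ1 → κ0 → (z : M) → TangentSpace (𝓡 4) z}
    {W : κ0 → κ0 → (z : M) → TangentSpace (𝓡 4) z}
    {sT : κT → (z : M) → TangentSpace (𝓡 4) z} {w : Trip M} {e : Fin 3 → F2 E4 M} {ι : ℝ}
    {ww : Fin 3 → Fin 3 → M → ℝ} {τ : E3 → TD M κT} {C K : ℝ} {c : H2 M}
    (hd : SwcData S T cc W sT w e ι ww τ C K c) (y y' : κ0) :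
    ContinuousOn (fun q : E3 × M => SwcProd_215.PE (τ q.1) S q.2 y y') (SM M) := by
  have h1 : ∀ y y', ContinuousOn (fun q : E3 × M => pi0 (τ q.1) S y y' q.2) (SM M) := by
    intro y y'
    unfold pi0
    refine continuousOn_const.mul (ContinuousOn.sub
      ((S.D0.smp y y').continuous.comp continuous_snd).continuousOn ?_)
    refine continuousOn_finsetSum _ fun k _ => (cont_n hd k).mul ?_
    exact ((hd.ok.smrho k y y').continuous.comp continuous_snd).continuousOn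
  unfold SwcProd_215.PE
  refine ContinuousOn.div_const (ContinuousOn.sub
    (Complex.continuous_ofReal.comp_continuousOn (h1 y y')) (continuousOn_const.mul
    (Complex.continuous_ofReal.comp_continuousOn ?_))) _
  refine continuousOn_finsetSum _ fun c _ => ContinuousOn.mul ?_ (h1 c y')
  exact ((hd.ok.smJ y c).continuous.comp continuous_snd).continuousOn

/-- **plim**. -/
theorem plim (h : Ctx V U) : ∃ p' : M → Matrix (Fin V.N) (Fin V.N) ℂ,
    (∀ i j, Continuous fun x => p' x i j) ∧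
      ∀ ε : ℝ, 0 < ε → ∀ᶠ n in U, ∀ x i j, ‖V.Q.p n x i j - p' x i j‖ < ε := by
  refine ⟨fun x => (SwcProd_215.PE (V.τ V.t0) V.S x).submatrix V.ν V.ν, fun i j => ?_,
    fun ε hε => ?_⟩
  · have h1 := cont_PE h.data (V.ν i) (V.ν j)
    have h2 : Continuous fun x : M => ((V.t0, x) : E3 × M) := continuous_const.prodMk continuous_id
    exact h1.comp_continuous h2 fun x => h.nt0
  · have h1 : ∀ i j, ∀ᶠ n in U, ∀ x, ‖V.Q.p n x i j -
        (SwcProd_215.PE (V.τ V.t0) V.S x).submatrix V.ν V.ν i j‖ < ε := by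
      intro i j
      have h2 := unif_lim (cont_PE h.data (V.ν i) (V.ν j)) h.seq.nt h.nt0 h.lim ε hε
      filter_upwards [h2] with n hn x
      have h3 := hn x
      rw [dist_eq_norm] at h3
      exact h3
    have h4 : ∀ᶠ n in U, ∀ i j, ∀ x, ‖V.Q.p n x i j -
        (SwcProd_215.PE (V.τ V.t0) V.S x).submatrix V.ν V.ν i j‖ < ε := by
      rw [eventually_all]
      intro i
      rw [eventually_all]
      exact fun j => h1 i j
    filter_upwards [h4] with n hn x i j using hn i j x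

/-- **a0bd**. -/
theorem a0bd (hP : PWD.{v}) (h : Ctx V U) :
    ∃ C' : ℝ, ∀ n, ∫ x, nsqG V.D.J V.D.F ((V.Q.a0 n).1.1 : F2 E4 M) x ∂V.D.μ ≤ C' := by
  obtain ⟨m0, m1, hm0, hb⟩ := h.data.bounds
  have hfin : IsFiniteMeasure V.D.μ := V.D.fin
  have hKnn : ∀ _ : ℕ, 0 ≤ V.K := by
    intro n
    obtain ⟨x⟩ : Nonempty M := inferInstance
    have h1 := (h.lnk n).bda x (Tau483.frT V.e x (ee 0)) (Tau483.frT V.e x (ee 0))
    have h2 : at2 (gg V.e) x (Tau483.frT V.e x (ee 0)) (Tau483.frT V.e x (ee 0)) = 1 :=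
      (Tau483.g_vf h.limD.tri x 0 0).trans (if_pos rfl)
    rw [h2, mul_one, mul_one] at h1
    exact (sq_nonneg _).trans h1
  have key : ∀ n x, nsqG V.D.J V.D.F ((V.a0 n).1.1 : F2 E4 M) x ≤ 57 * V.K / m0 ^ 2 := by
    intro n x
    have hK := hKnn n
    have hsq : √V.K ^ 2 = V.K := Real.sq_sqrt hK
    obtain ⟨hX, hPW, -, -⟩ := hP M V.w V.e (fun i => V.t0 i) (Xw V.ww V.t0) V.D h.limD x
    have halt : Alt (at2 ((V.a0 n).1.1 : F2 E4 M) x) := (V.a0 n).1.2.1 x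
    obtain ⟨-, h2, -, h4⟩ := hPW _ halt
    have h5 := h4 _ halt
    have hbd : ∀ u v, at2 ((V.a0 n).1.1 : F2 E4 M) x u v ^ 2 ≤
        √V.K ^ 2 * (at2 (gg V.e) x u u * at2 (gg V.e) x v v) := by
      intro u v
      rw [hsq]
      exact (h.lnk n).bda x u v
    have hphi : ∀ k, qG (V.w 0).1.1 (V.e k) ((V.a0 n).1.1 : F2 E4 M) x ^ 2 ≤ 9 * V.K := by
      intro k
      have h6 := abs_q_le h.limD.tri x ((h.limD.tri.smooth k).1 x) halt zero_le_one
        (Real.sqrt_nonneg V.K) (sq_ek_le h.limD.tri x k) hbd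
      have h7 : |qG (V.w 0).1.1 (V.e k) ((V.a0 n).1.1 : F2 E4 M) x| ≤ 3 * √V.K := by
        rw [one_mul] at h6
        exact h6
      have h8 := pow_le_pow_left₀ (abs_nonneg _) h7 2
      rw [sq_abs, mul_pow, hsq] at h8
      linarith
    have hq : |qG (V.w 0).1.1 ((V.a0 n).1.1 : F2 E4 M) ((V.a0 n).1.1 : F2 E4 M) x| ≤ 3 * V.K := by
      have h6 := abs_q_le h.limD.tri x halt halt (Real.sqrt_nonneg V.K)
        (Real.sqrt_nonneg V.K) hbd hbd
      rw [← sq, hsq] at h6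
      exact h6
    set R := ∑ k, Xw V.ww V.t0 k x ^ 2 with hR
    have hRm : m0 ^ 2 ≤ R := by
      have h9 := (hb V.t0 x h.nt0).1
      rw [h.data.rr_eq h.nt0] at h9
      have h10 := pow_le_pow_left₀ hm0.le h9 2
      unfold Nw at h10
      rwa [Real.sq_sqrt (Finset.sum_nonneg fun k _ => sq_nonneg _)] at h10
    have hsum : ∑ k, qG (V.w 0).1.1 (V.e k) ((V.a0 n).1.1 : F2 E4 M) x ^ 2 ≤ 27 * V.K := by
      rw [Fin.sum_univ_three]
      linarith [hphi 0, hphi 1, hphi 2]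
    have h11 : nsqG V.D.J V.D.F ((V.a0 n).1.1 : F2 E4 M) x =
        (2 * (∑ k, qG (V.w 0).1.1 (V.e k) ((V.a0 n).1.1 : F2 E4 M) x ^ 2) -
          qG (V.w 0).1.1 ((V.a0 n).1.1 : F2 E4 M) ((V.a0 n).1.1 : F2 E4 M) x) / R := by
      rw [← h5, sub_div, mul_div_cancel_left₀ _ hX.ne', ← h2]
      ring
    rw [h11]
    have h12 : 0 < m0 ^ 2 := by positivity
    calc (2 * (∑ k, qG (V.w 0).1.1 (V.e k) ((V.a0 n).1.1 : F2 E4 M) x ^ 2) -
          qG (V.w 0).1.1 ((V.a0 n).1.1 : F2 E4 M) ((V.a0 n).1.1 : F2 E4 M) x) / R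
        ≤ 57 * V.K / R := by
          refine div_le_div_of_nonneg_right ?_ hX.le
          linarith [(abs_le.1 hq).1]
      _ ≤ 57 * V.K / m0 ^ 2 := div_le_div_of_nonneg_left (by positivity) h12 hRm
  refine ⟨57 * V.K / m0 ^ 2 * V.D.μ.real univ, fun n => ?_⟩
  have h1 : ∫ x, nsqG V.D.J V.D.F ((V.a0 n).1.1 : F2 E4 M) x ∂V.D.μ ≤
      ∫ _, 57 * V.K / m0 ^ 2 ∂V.D.μ :=
    integral_mono_of_nonneg (Eventually.of_forall fun x => Crest.Agent.R240.NM.nsq_nonneg V.D (V.a0 n).1.2 x)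
      (integrable_const _) (Eventually.of_forall fun x => key n x)
  rw [integral_const, smul_eq_mul, mul_comm] at h1
  exact h1

end ctx

/-- **PRE**. -/
theorem pre (hP : PWD.{v}) : PRE.{v} := by
  intro M _ _ _ _ _ _ _ _ _ _ _ _ _ κ0 κ1 κT _ _ _ V U h
  have hok : ∀ n, (V.τ (V.t n)).OK V.S V.C := fun n => h.data.tau _ (h.seq.nt n)
  refine ⟨?_, plim h, a0bd hP h, fun n i => ?_, fun n x => ?_, fun n => ?_⟩
  · rw [h.limD.F]
    exact (Uu_291.wt V.w _).2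
  · have h1 : ContMDiff 𝓘(ℝ, E4) 𝓘(ℝ, ℂ) ∞
        fun x => zet V.S (cE (V.τ (V.t n)) V.S (V.u n)) x (V.ν i) :=
      smooth_zet h.data.ok (sm_cE h.data.ok (hok n) (h.seq.smu n)) _
    have h2 : (fun x => V.Q.α n x i) = fun x =>
        (((√(2 * V.r n) : ℝ) : ℂ)⁻¹) • zet V.S (cE (V.τ (V.t n)) V.S (V.u n)) x (V.ν i) := by
      funext x
      show zet V.S (cE (V.τ (V.t n)) V.S (V.u n)) x (V.ν i) / ((√(2 * V.r n) : ℝ) : ℂ) = _
      rw [smul_eq_mul, div_eq_mul_inv, mul_comm]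
    rw [h2]
    have h3 : ContDiff ℝ ∞ fun z : ℂ => (((√(2 * V.r n) : ℝ) : ℂ)⁻¹) • z := contDiff_const_smul _
    exact h3.contMDiff.comp h1
  · have h1 := PE_zet h.data.ok h.data.tg (hok n)
      (secE_cE h.data.ok h.data.tg (hok n) (h.seq.secu n)) x
    funext i
    have h2 := congrFun h1 (V.ν i)
    show ∑ j, SwcProd_215.PE (V.τ (V.t n)) V.S x (V.ν i) (V.ν j) *
      (zet V.S (cE (V.τ (V.t n)) V.S (V.u n)) x (V.ν j) / ((√(2 * V.r n) : ℝ) : ℂ)) =
      zet V.S (cE (V.τ (V.t n)) V.S (V.u n)) x (V.ν i) / ((√(2 * V.r n) : ℝ) : ℂ)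
    rw [← h2]
    have h3 : (SwcProd_215.PE (V.τ (V.t n)) V.S x).mulVec
        (zet V.S (cE (V.τ (V.t n)) V.S (V.u n)) x) (V.ν i) =
        ∑ j, SwcProd_215.PE (V.τ (V.t n)) V.S x (V.ν i) (V.ν j) *
          zet V.S (cE (V.τ (V.t n)) V.S (V.u n)) x (V.ν j) :=
      (Equiv.sum_comp V.ν fun y => SwcProd_215.PE (V.τ (V.t n)) V.S x (V.ν i) y *
        zet V.S (cE (V.τ (V.t n)) V.S (V.u n)) x y).symm
    rw [h3, Finset.sum_div]
    exact Finset.sum_congr rfl fun j _ => (mul_div_assoc _ _ _).symm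
  · exact smooth_thE h.data.tg (h.lnk n).smβ (h.seq.sma n)

end

end Crest.Agent.R235.SwcPRE_129
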