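import Crest.Agent.R235.SwcPRBd_766
import Crest.Agent.R235.SwcPRE_129

/-!
Row 235 (S0364), PACKAGE SWC, NODE PROD (leader helper215), leaf PRB (helper766): `e1`, `e2`, `o3`.

`prb : PWD → VOLD → PRB`.
-/

set_option autoImplicit false
set_option maxSynthPendingDepth 3
set_option linter.unusedSectionVars false

open scoped ContDiff ENNReal NNReal Topology Manifold Bundle RealInnerProductSpace Matrix
open MeasureTheory Set Filter Metric Bundle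

universe v

namespace Crest.Agent.R235.SwcPRB_766

open Crest.Agent.R240 Crest.Agent.R240.Ch Crest.Agent.R235 Crest.Agent.R235.SWDefs_53
open Crest.Agent.R235.IndTri_451 Crest.Agent.R235.Tau483 Crest.Agent.R235.SwcGlob_34
open Crest.Agent.R235.SwcProd_215
open Crest.Agent.R249.Tv57 (OpPair SmF SmV KerD)
open Crest.Agent.R249.Tz805 (ToF)
open Crest.Agent.R247.Ms322 (Gr)

noncomputable section

variable {M : Type v} [MetricSpace M] [CompactSpace M] [ConnectedSpace M]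
  [ChartedSpace (EuclideanSpace ℝ (Fin 4)) M] [IsManifold (𝓡 4) ∞ M]
  [RiemannianBundle (fun p : M => TangentSpace (𝓡 4) p)]
  [IsContMDiffRiemannianBundle (𝓡 4) ∞ (EuclideanSpace ℝ (Fin 4))
    (fun p : M => TangentSpace (𝓡 4) p)]
  [IsRiemannianManifold (𝓡 4) M] [MeasurableSpace M] [BorelSpace M]
  [SecondCountableTopology M] [Nonempty M] [IsFiniteMeasureOnCompacts (μHE[4] : Measure M)]

/-! ### integrals against `D.μ` -/

theorem intg {f : M → ℝ} (hf : Continuous f) : Integrable f (μHE[4] : Measure M) :=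
  hf.integrable_of_hasCompactSupport (HasCompactSupport.of_compactSpace _)

theorem intD (D : Crest.Agent.R240.Dat M) {f : M → ℝ} (hf : Continuous f) :
    Integrable f D.μ := by
  have := D.fin
  exact hf.integrable_of_hasCompactSupport (HasCompactSupport.of_compactSpace _)

theorem int_le (hV : VOLD.{v}) {w : Trip M} {e : Fin 3 → F2 E4 M} {t : Fin 3 → ℝ}
    {X : Fin 3 → M → ℝ} {D : Crest.Agent.R240.Dat M} (hD : LimD w e t X D)
    (met : ∀ (x : M) (u v : TangentSpace (𝓡 4) x), inner ℝ u v = at2 (gg e) x u v)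
    {f g : M → ℝ} (hf : ∀ x, 0 ≤ f x) (hfg : ∀ x, f x ≤ g x) (hg : Continuous g) {m1 : ℝ}
    (hm1 : ∀ x, √(∑ k, X k x ^ 2) ≤ m1) :
    ∫ x, f x ∂D.μ ≤ 2 * m1 ^ 2 * ∫ x, g x ∂(μHE[4] : Measure M) := by
  have h1 : ∫ x, f x ∂D.μ ≤ ∫ x, g x ∂D.μ :=
    integral_mono_of_nonneg (Eventually.of_forall hf) (intD D hg) (Eventually.of_forall hfg)
  rw [hV M w e t X D hD met g hg] at h1
  refine h1.trans ?_
  rw [← integral_const_mul]
  have hg0 : ∀ x, 0 ≤ g x := fun x => (hf x).trans (hfg x)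
  have hX : ∀ x, 0 ≤ ∑ k, X k x ^ 2 := fun x => Finset.sum_nonneg fun _ _ => sq_nonneg _
  refine integral_mono_of_nonneg (Eventually.of_forall fun x => ?_)
    ((intg hg).const_mul (2 * m1 ^ 2)) (Eventually.of_forall fun x => ?_)
  · exact mul_nonneg (mul_nonneg zero_le_two (hX x)) (hg0 x)
  · refine mul_le_mul_of_nonneg_right ?_ (hg0 x)
    have h2 : ∑ k, X k x ^ 2 ≤ m1 ^ 2 := by
      have h3 := Real.sq_sqrt (hX x)
      have h4 := hm1 x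
      have h5 := Real.sqrt_nonneg (∑ k, X k x ^ 2)
      rw [← h3]
      exact pow_le_pow_left₀ h5 h4 2
    linarith

variable {κ0 κ1 κT : Type} [Fintype κ0] [Fintype κ1] [Fintype κT]

/-- the Dirac density. -/
def Fd (τ : TD M κT) (S : SWS M κ0 κ1 κT) (a : κT → M → ℝ) (s : κ0 → M → ℝ) (z : M) : ℝ :=
  ∑ x, (S.P.A (τ.sc (3 / 4) s) x z + S.cm a (τ.sc (3 / 4) s) x z) ^ 2

/-- the energy density. -/
def Gd (τ : TD M κT) (S : SWS M κ0 κ1 κT) (a : κT → M → ℝ) (s : κ0 → M → ℝ) (z : M) : ℝ :=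
  ∑ y, ‖τ.nE S a s y z‖ ^ 2

theorem cont_Gd {τ : TD M κT} {S : SWS M κ0 κ1 κT} {C : ℝ} (hS : S.OK) (hτ : τ.OK S C)
    {a : κT → M → ℝ} (ha : SmV (n := 4) a) {s : κ0 → M → ℝ} (hs : SmV (n := 4) s) :
    Continuous (Gd τ S a s) := by
  unfold Gd
  refine continuous_finsetSum _ fun y _ => ?_
  have h1 := Crest.Agent.R249.Tv57.SmF.inner (SWUni_312.smF_nE hS hτ ha hs y)
    (SWUni_312.smF_nE hS hτ ha hs y)
  simp only [real_inner_self_eq_norm_sq] at h1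
  exact h1.continuous

theorem sm_sc {τ : TD M κT} {S : SWS M κ0 κ1 κT} {C : ℝ} (hτ : τ.OK S C)
    {s : κ0 → M → ℝ} (hs : SmV (n := 4) s) : SmV (n := 4) (τ.sc (3 / 4) s) := fun y =>
  Tau483.sm_mul (SwcPRE_129.sm_rpow hτ.smrr hτ.pos _) (hs y)

theorem sec_sc {τ : TD M κT} {S : SWS M κ0 κ1 κT} {s : κ0 → M → ℝ} (hs : S.D0.Sec s) :
    S.D0.Sec (τ.sc (3 / 4) s) := by
  intro y z
  have h := hs y z
  show ∑ y', S.D0.p y y' z * (τ.rr z ^ (3 / 4 : ℝ) * s y' z) = τ.rr z ^ (3 / 4 : ℝ) * s y z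
  rw [← h, Finset.mul_sum]
  exact Finset.sum_congr rfl fun y' _ => by ring

theorem cont_Fd {τ : TD M κT} {S : SWS M κ0 κ1 κT} {C : ℝ} (hS : S.OK) (hτ : τ.OK S C)
    {a : κT → M → ℝ} (ha : SmV (n := 4) a) {s : κ0 → M → ℝ} (hs : SmV (n := 4) s)
    (hE : S.D0.Sec s) : Continuous (Fd τ S a s) := by
  unfold Fd
  refine continuous_finsetSum _ fun x _ => Continuous.pow (Continuous.add ?_ ?_) 2
  · exact (S.P.smA _ (sm_sc hτ hs) (sec_sc hE) x).continuous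
  · unfold SWS.cm
    refine continuous_finsetSum _ fun A _ => continuous_finsetSum _ fun y _ => ?_
    exact (((ha A).continuous).mul ((sm_sc hτ hs) y).continuous).mul (hS.smcl A x y).continuous

theorem cl_le {τ : TD M κT} {S : SWS M κ0 κ1 κT} {C : ℝ} (hτ : τ.OK S C) {T : ToF 4 M}
    {cc : κ1 → κ0 → (z : M) → TangentSpace (𝓡 4) z} {Z : κ1 → κ0 → M → ℝ}
    (te : TE τ S T cc Z) {a : κT → M → ℝ} (ha : SmV (n := 4) a) (hsa : S.DT.Sec a)
    {s : κ0 → M → ℝ} (hs : SmV (n := 4) s) (hE : τ.SecE S s) {m0 : ℝ} (hm0 : 0 < m0)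
    (hm : ∀ z, m0 ≤ τ.rr z) (z : M) :
    ∑ x', clG T cc z (fun y => τ.nE S a s y z) x' ^ 2 ≤
      ((m0 ^ (3 / 4 : ℝ)) ^ 2)⁻¹ * Fd τ S a s z := by
  have hc : 0 < m0 ^ (3 / 4 : ℝ) := Real.rpow_pos_of_pos hm0 _
  rw [inv_mul_eq_div, le_div_iff₀ (by positivity)]
  unfold Fd
  rw [Finset.sum_mul]
  refine Finset.sum_le_sum fun x' _ => ?_
  have h1 := te.dir a s ha hsa hs hE x' z
  have h2 : S.P.A (τ.sc (3 / 4) s) x' z + S.cm a (τ.sc (3 / 4) s) x' z =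
      τ.rr z ^ (3 / 4 : ℝ) * clG T cc z (fun y => τ.nE S a s y z) x' := h1
  rw [h2, mul_pow, mul_comm]
  refine mul_le_mul_of_nonneg_right ?_ (sq_nonneg _)
  exact pow_le_pow_left₀ hc.le (Real.rpow_le_rpow hm0.le (hm z) (by norm_num)) 2

section ctx

variable {V : Vars M κ0 κ1 κT} {U : Filter ℕ}

/-- the section `ρ^{-3/4} Π₀ u_n`. -/
def sn (V : Vars M κ0 κ1 κT) (n : ℕ) : κ0 → M → ℝ := cE (V.τ (V.t n)) V.S (V.u n)

theorem sm_sn (h : Ctx V U) (n : ℕ) : SmV (n := 4) (sn V n) :=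
  SwcPRE_129.sm_cE h.data.ok (h.data.tau _ (h.seq.nt n)) (h.seq.smu n)

theorem sec_sn (h : Ctx V U) (n : ℕ) : (V.τ (V.t n)).SecE V.S (sn V n) :=
  SwcPRE_129.secE_cE h.data.ok h.data.tg (h.data.tau _ (h.seq.nt n)) (h.seq.secu n)

theorem eta_ev (n : ℕ) (x : M) (i : Fin V.N) : V.Q.eta n x i =
    ev (V.τ (V.t n)) V.S V.sT V.e (V.β n) (V.a n) (sn V n) V.ν (√(2 * V.r n)) x i := rfl

theorem r_pos (h : Ctx V U) (n : ℕ) : 0 < V.r n := by
  have h1 := h.seq.rge n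
  have h2 : (0 : ℝ) < (n : ℝ) + 1 := by positivity
  exact h2.trans_le h1

theorem R_sq (h : Ctx V U) (n : ℕ) : (√(2 * V.r n)) ^ 2 = 2 * V.r n :=
  Real.sq_sqrt (by have := r_pos h n; positivity)

theorem nal_eq (h : Ctx V U) (n : ℕ) (x : M) :
    V.Q.nal n x = (∑ y, sn V n y x ^ 2) / (2 * V.r n) := by
  have h1 : V.Q.nal n x = ∑ i, ‖zet V.S (sn V n) x (V.ν i) / ((√(2 * V.r n) : ℝ) : ℂ)‖ ^ 2 := rfl
  have h2 : ∀ i, ‖zet V.S (sn V n) x (V.ν i) / ((√(2 * V.r n) : ℝ) : ℂ)‖ ^ 2 =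
      ‖zv V.S x (fun y => sn V n y x) (V.ν i)‖ ^ 2 / (2 * V.r n) := by
    intro i
    rw [norm_div, div_pow, Complex.norm_real, Real.norm_eq_abs, sq_abs, R_sq h n]
    rfl
  rw [h1, Finset.sum_congr rfl fun i _ => h2 i, ← Finset.sum_div,
    Equiv.sum_comp V.ν (fun y => ‖zv V.S x (fun y => sn V n y x) y‖ ^ 2)]
  congr 1
  exact zv_norm (Jnorm_of h.data.ok h.data.tg (h.data.tau _ (h.seq.nt n)).norm x
    (inE_of (sec_sn h n) x).1)

theorem e1_le (hP : PWD.{v}) (hV : VOLD.{v}) (h : Ctx V U) {m0 m1 : ℝ} (hm0 : 0 < m0)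
    (hb : ∀ (t : E3) (z : M), ‖t‖ = 1 → m0 ≤ (V.τ t).rr z ∧ (V.τ t).rr z ≤ m1) (n : ℕ) :
    ∫ x, V.Q.neta V.D n x ∂V.D.μ ≤ m1 ^ 2 * V.N * V.K' / m0 := by
  have hr := r_pos h n
  have hX : ∀ x, √(∑ k, Xw V.ww V.t0 k x ^ 2) = (V.τ V.t0).rr x := fun x =>
    (h.data.rr_eq h.nt0 x).symm
  have h1 : ∀ x, V.Q.neta V.D n x ≤ (V.N / (2 * V.r n * m0)) *
      Gd (V.τ (V.t n)) V.S (V.a n) (sn V n) x := by
    intro x
    have h2 := neta_pt hP h.limD h.data.ok h.data.tg (h.data.tau _ (h.seq.nt n)).norm (h.lnk n)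
      (h.seq.sma n) (h.seq.seca n) (sm_sn h n) (sec_sn h n) V.ν (√(2 * V.r n)) x hm0
      (by rw [hX]; exact (hb _ x h.nt0).1)
    refine h2.trans (le_of_eq ?_)
    rw [R_sq h n]
    unfold Gd
    field_simp
  have h2 := int_le hV h.limD h.data.tg.met
    (fun x => Finset.sum_nonneg fun i _ => nC_nonneg x _) h1
    (continuous_const.mul (cont_Gd h.data.ok (h.data.tau _ (h.seq.nt n)) (h.seq.sma n) (sm_sn h n)))
    (fun x => by rw [hX]; exact (hb _ x h.nt0).2)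
  refine h2.trans ?_
  rw [integral_const_mul]
  have h3 : ∫ x, Gd (V.τ (V.t n)) V.S (V.a n) (sn V n) x ∂(μHE[4] : Measure M) ≤
      V.K' * V.r n := (h.seq.ene n).e1
  have h4 : 0 ≤ 2 * m1 ^ 2 * (V.N / (2 * V.r n * m0)) := by positivity
  calc _ = 2 * m1 ^ 2 * (V.N / (2 * V.r n * m0)) *
        ∫ x, Gd (V.τ (V.t n)) V.S (V.a n) (sn V n) x ∂(μHE[4] : Measure M) := by ring
    _ ≤ 2 * m1 ^ 2 * (V.N / (2 * V.r n * m0)) * (V.K' * V.r n) :=
        mul_le_mul_of_nonneg_left h3 h4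
    _ = _ := by field_simp

theorem e2_le (hV : VOLD.{v}) (h : Ctx V U) {m0 m1 : ℝ}
    (hb : ∀ (t : E3) (z : M), ‖t‖ = 1 → m0 ≤ (V.τ t).rr z ∧ (V.τ t).rr z ≤ m1) (n : ℕ) :
    V.Q.r n * ∫ x, (1 - V.Q.nal n x) ^ 2 ∂V.D.μ ≤ m1 ^ 2 * V.K' / 2 := by
  have hr := r_pos h n
  have hX : ∀ x, √(∑ k, Xw V.ww V.t0 k x ^ 2) = (V.τ V.t0).rr x := fun x =>
    (h.data.rr_eq h.nt0 x).symm
  have h1 : ∀ x, (1 - V.Q.nal n x) ^ 2 ≤ (1 / (4 * V.r n ^ 2)) *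
      (2 * V.r n - ∑ y, sn V n y x ^ 2) ^ 2 := by
    intro x
    rw [nal_eq h n x]
    apply le_of_eq
    field_simp
    ring
  have hc : Continuous fun x => (1 / (4 * V.r n ^ 2)) * (2 * V.r n - ∑ y, sn V n y x ^ 2) ^ 2 :=
    continuous_const.mul ((continuous_const.sub
      (continuous_finsetSum _ fun y _ => ((sm_sn h n y).continuous).pow 2)).pow 2)
  have h2 := int_le hV h.limD h.data.tg.met (fun x => sq_nonneg _) h1 hc
    (fun x => by rw [hX]; exact (hb _ x h.nt0).2)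
  rw [integral_const_mul] at h2
  have h3 : ∫ x, (2 * V.r n - ∑ y, sn V n y x ^ 2) ^ 2 ∂(μHE[4] : Measure M) ≤
      V.K' * V.r n := (h.seq.ene n).e2
  have h4 : 0 ≤ V.r n * (2 * m1 ^ 2 * (1 / (4 * V.r n ^ 2))) := by positivity
  calc V.Q.r n * ∫ x, (1 - V.Q.nal n x) ^ 2 ∂V.D.μ ≤ V.r n * (2 * m1 ^ 2 * ((1 / (4 * V.r n ^ 2)) *
        ∫ x, (2 * V.r n - ∑ y, sn V n y x ^ 2) ^ 2 ∂(μHE[4] : Measure M))) :=
        mul_le_mul_of_nonneg_left h2 hr.le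
    _ = V.r n * (2 * m1 ^ 2 * (1 / (4 * V.r n ^ 2))) *
        ∫ x, (2 * V.r n - ∑ y, sn V n y x ^ 2) ^ 2 ∂(μHE[4] : Measure M) := by ring
    _ ≤ V.r n * (2 * m1 ^ 2 * (1 / (4 * V.r n ^ 2))) * (V.K' * V.r n) :=
        mul_le_mul_of_nonneg_left h3 h4
    _ = _ := by field_simp; ring

theorem o3_le (hP : PWD.{v}) (hV : VOLD.{v}) (h : Ctx V U) {m0 m1 δ : ℝ} (hm0 : 0 < m0)
    (hb : ∀ (t : E3) (z : M), ‖t‖ = 1 → m0 ≤ (V.τ t).rr z ∧ (V.τ t).rr z ≤ m1) (n : ℕ)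
    (hδ0 : 0 ≤ δ) (hδ : ∀ x, ∑ k, ((V.τ V.t0).n k x - (V.τ (V.t n)).n k x) ^ 2 ≤ δ) :
    ∫ x, V.Q.ndb V.D n x ∂V.D.μ ≤ 2 * m1 ^ 2 *
      ((V.N * |V.K| * ((m0 ^ (3 / 4 : ℝ)) ^ 2)⁻¹ * V.K' / m0) / V.r n + (V.N * V.K' / m0) * δ) := by
  have hr := r_pos h n
  set c0 : ℝ := ((m0 ^ (3 / 4 : ℝ)) ^ 2)⁻¹ with hc0
  have hc : 0 ≤ c0 := by
    have : 0 < m0 ^ (3 / 4 : ℝ) := Real.rpow_pos_of_pos hm0 _
    positivity
  have hX : ∀ x, √(∑ k, Xw V.ww V.t0 k x ^ 2) = (V.τ V.t0).rr x := fun x =>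
    (h.data.rr_eq h.nt0 x).symm
  have hτ := h.data.tau _ (h.seq.nt n)
  obtain ⟨Z, te⟩ := h.data.te _ (h.seq.nt n)
  have h1 : ∀ x, V.Q.ndb V.D n x ≤
      (V.N * |V.K| * c0 / (m0 * V.r n)) * Fd (V.τ (V.t n)) V.S (V.a n) (sn V n) x +
      (V.N * δ / (m0 * V.r n)) * Gd (V.τ (V.t n)) V.S (V.a n) (sn V n) x := by
    intro x
    have h2 := ndb_pt (δ := δ) hP h.limD h.data.ok h.data.tg hτ.norm (h.lnk n)
      (h.seq.sma n) (h.seq.seca n) (sm_sn h n) (sec_sn h n) V.ν (√(2 * V.r n)) x hm0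
      (by rw [hX]; exact (hb _ x h.nt0).1) (by
        refine le_trans (le_of_eq ?_) (hδ x)
        refine Finset.sum_congr rfl fun k _ => ?_
        rw [h.data.n_eq h.nt0 k x]
        rfl)
    refine h2.trans ?_
    have h3 := cl_le hτ te (h.seq.sma n) (h.seq.seca n) (sm_sn h n) (sec_sn h n) hm0
      (fun z => (hb _ z (h.seq.nt n)).1) x
    rw [R_sq h n]
    have h5 : 0 ≤ V.N * |V.K| / (m0 * V.r n) := by positivity
    have h6 := mul_le_mul_of_nonneg_left h3 h5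
    have e1 : (V.N : ℝ) * (2 * ((2 * |V.K| * (∑ x', clG V.T V.cc x (fun y =>
        (V.τ (V.t n)).nE V.S (V.a n) (sn V n) y x) x' ^ 2) +
        2 * δ * ∑ y, ‖(V.τ (V.t n)).nE V.S (V.a n) (sn V n) y x‖ ^ 2) /
        (2 * (2 * V.r n))) / m0) = V.N * |V.K| / (m0 * V.r n) * (∑ x', clG V.T V.cc x (fun y =>
        (V.τ (V.t n)).nE V.S (V.a n) (sn V n) y x) x' ^ 2) +
        (V.N * δ / (m0 * V.r n)) * ∑ y, ‖(V.τ (V.t n)).nE V.S (V.a n) (sn V n) y x‖ ^ 2 := by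
      field_simp
    rw [e1]
    have e2 : V.N * |V.K| / (m0 * V.r n) * (c0 * Fd (V.τ (V.t n)) V.S (V.a n) (sn V n) x) =
        (V.N * |V.K| * c0 / (m0 * V.r n)) * Fd (V.τ (V.t n)) V.S (V.a n) (sn V n) x := by ring
    rw [e2] at h6
    exact add_le_add h6 le_rfl
  have hcF := cont_Fd h.data.ok hτ (h.seq.sma n) (sm_sn h n) (sec_sn h n).1
  have hcG := cont_Gd h.data.ok hτ (h.seq.sma n) (sm_sn h n)
  have h2 := int_le hV h.limD h.data.tg.met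
    (fun x => Finset.sum_nonneg fun i _ => nC_nonneg x _) h1
    ((continuous_const.mul hcF).add (continuous_const.mul hcG))
    (fun x => by rw [hX]; exact (hb _ x h.nt0).2)
  refine h2.trans (mul_le_mul_of_nonneg_left ?_ (by positivity))
  have e3 := integral_add ((intg hcF).const_mul (V.N * |V.K| * c0 / (m0 * V.r n)))
    ((intg hcG).const_mul (V.N * δ / (m0 * V.r n)))
  rw [e3, integral_const_mul, integral_const_mul]
  have h3 : ∫ x, Gd (V.τ (V.t n)) V.S (V.a n) (sn V n) x ∂(μHE[4] : Measure M) ≤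
      V.K' * V.r n := (h.seq.ene n).e1
  have h4 : ∫ x, Fd (V.τ (V.t n)) V.S (V.a n) (sn V n) x ∂(μHE[4] : Measure M) ≤
      V.K' := (h.seq.ene n).e5
  have h5 := mul_le_mul_of_nonneg_left h3 (show 0 ≤ V.N * δ / (m0 * V.r n) by positivity)
  have h6 := mul_le_mul_of_nonneg_left h4 (show 0 ≤ V.N * |V.K| * c0 / (m0 * V.r n) by positivity)
  refine (add_le_add h6 h5).trans (le_of_eq ?_)
  field_simp

end ctx

/-- **PRB**. -/
theorem prb (hP : PWD.{v}) (hV : VOLD.{v}) : PRB.{v} := by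
  intro M _ _ _ _ _ _ _ _ _ _ _ _ _ κ0 κ1 κT _ _ _ V U h
  obtain ⟨m0, m1, hm0, hb⟩ := h.data.bounds
  have hK' := h.Kpos
  have hA : 0 ≤ m1 ^ 2 * V.N * V.K' / m0 := by positivity
  have hB : 0 ≤ m1 ^ 2 * V.K' / 2 := by positivity
  refine ⟨m1 ^ 2 * V.N * V.K' / m0 + m1 ^ 2 * V.K' / 2 + 1, by linarith, fun n => ?_, fun n => ?_,
    ?_⟩
  · exact (e1_le hP hV h hm0 hb n).trans (by linarith)
  · exact (e2_le hV h hb n).trans (by linarith)
  -- `o3`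
  have hr : Tendsto V.r U atTop := by
    have h1 : Tendsto (fun n : ℕ => (n : ℝ) + 1) U atTop :=
      (tendsto_atTop_add_const_right _ 1 tendsto_natCast_atTop_atTop).mono_left h.le
    exact tendsto_atTop_mono h.seq.rge h1
  set B1 : ℝ := V.N * |V.K| * ((m0 ^ (3 / 4 : ℝ)) ^ 2)⁻¹ * V.K' / m0 with hB1
  set B2 : ℝ := V.N * V.K' / m0 with hB2
  have hB2' : 0 ≤ B2 := by positivity
  have hm1' : 0 ≤ 2 * m1 ^ 2 := by positivity
  have hkey : ∀ ε : ℝ, 0 < ε → ∀ᶠ n in U, ∫ x, V.Q.ndb V.D n x ∂V.D.μ < ε := by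
    intro ε hε
    -- the first term
    have h1 : Tendsto (fun n => 2 * m1 ^ 2 * (B1 / V.r n)) U (𝓝 (2 * m1 ^ 2 * 0)) :=
      (tendsto_const_nhds.div_atTop hr).const_mul _
    rw [mul_zero] at h1
    have h2 : ∀ᶠ n in U, 2 * m1 ^ 2 * (B1 / V.r n) < ε / 2 :=
      h1.eventually (gt_mem_nhds (half_pos hε))
    -- the second term
    set δ : ℝ := ε / (2 * (2 * m1 ^ 2 * B2 + 1)) with hδ
    have hD : 0 < 2 * m1 ^ 2 * B2 + 1 := by positivity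
    have hδ0 : 0 < δ := by positivity
    have hδ1 : 2 * m1 ^ 2 * (B2 * δ) < ε / 2 := by
      have : 2 * m1 ^ 2 * (B2 * δ) = (ε / 2) * ((2 * m1 ^ 2 * B2) / (2 * m1 ^ 2 * B2 + 1)) := by
        rw [hδ]; field_simp
      rw [this]
      have h3 : (2 * m1 ^ 2 * B2) / (2 * m1 ^ 2 * B2 + 1) < 1 := by
        rw [div_lt_one hD]; linarith
      calc _ < (ε / 2) * 1 := mul_lt_mul_of_pos_left h3 (half_pos hε)
        _ = _ := mul_one _
    have hs : 0 < √(δ / 3) := Real.sqrt_pos.2 (by positivity)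
    have h4 : ∀ᶠ n in U, ∀ k : Fin 3, ∀ z,
        dist ((V.τ (V.t n)).n k z) ((V.τ V.t0).n k z) < √(δ / 3) := by
      rw [eventually_all]
      intro k
      exact unif_lim (SwcPRE_129.cont_n h.data k) h.seq.nt h.nt0 h.lim _ hs
    filter_upwards [h2, h4] with n hn2 hn4
    have h5 : ∀ x, ∑ k, ((V.τ V.t0).n k x - (V.τ (V.t n)).n k x) ^ 2 ≤ δ := by
      intro x
      have h6 : ∀ k ∈ (Finset.univ : Finset (Fin 3)),
          ((V.τ V.t0).n k x - (V.τ (V.t n)).n k x) ^ 2 ≤ δ / 3 := by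
        intro k _
        have h7 := hn4 k x
        rw [dist_comm, Real.dist_eq] at h7
        have h8 := pow_le_pow_left₀ (abs_nonneg _) h7.le 2
        rw [sq_abs, Real.sq_sqrt (by positivity)] at h8
        exact h8
      refine (Finset.sum_le_sum h6).trans ?_
      rw [Finset.sum_const, Finset.card_univ, Fintype.card_fin, nsmul_eq_mul]
      push_cast
      linarith
    have h9 := o3_le hP hV h hm0 hb n hδ0.le h5
    calc _ ≤ _ := h9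
      _ = 2 * m1 ^ 2 * (B1 / V.r n) + 2 * m1 ^ 2 * (B2 * δ) := by rw [hB1, hB2]; ring
      _ < ε := by linarith
  refine tendsto_order.2 ⟨fun a ha => Eventually.of_forall fun n => ?_, hkey⟩
  exact ha.trans_le (integral_nonneg fun x => Finset.sum_nonneg fun i _ => nC_nonneg x _)

end

end Crest.Agent.R235.SwcPRB_766
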