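import Crest.Agent.R235.SwcPWJ_215
import Crest.Agent.R240.Nsq

/-!
Row 235 (S0364), PACKAGE SWC, NODE PROD, PWD (helper215): the clause about two-forms, and `pwd`.
-/

set_option autoImplicit false
set_option maxSynthPendingDepth 3
set_option linter.unusedSectionVars false

open scoped ContDiff ENNReal NNReal Topology Manifold Bundle RealInnerProductSpace
open MeasureTheory Set Filter Metric Bundle

universe v

namespace Crest.Agent.R235.SwcPWN_215

open Crest.Agent.R240 Crest.Agent.R240.Ch Crest.Agent.R235 Crest.Agent.R235.SWDefs_53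
open Crest.Agent.R235.IndTri_451 Crest.Agent.R235.Tau483 Crest.Agent.R235.SwcGlob_34
open Crest.Agent.R235.SwcProd_215 Crest.Agent.R235.SwcPWJ_215

noncomputable section

/-! ### the frame -/

theorem gram3 (p q X : Fin 3 → ℝ) {R s : ℝ} (hR : R * s = 1) (hX : ∑ k, X k ^ 2 = R)
    (h : ∀ k l, p k * p l + q k * q l = (if k = l then s else 0) - X k * X l * s ^ 2) :
    ∑ k, p k ^ 2 = s ∧ ∑ k, q k ^ 2 = s ∧ ∑ k, p k * q k = 0 ∧ ∑ k, p k * X k = 0 ∧
      ∑ k, q k * X k = 0 := by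
  have h00 := h 0 0
  have h01 := h 0 1
  have h02 := h 0 2
  have h11 := h 1 1
  have h12 := h 1 2
  have h22 := h 2 2
  simp only [if_true, Fin.isValue, zero_ne_one, if_false, show (0 : Fin 3) ≠ 2 by decide,
    show (1 : Fin 3) ≠ 2 by decide] at h00 h01 h02 h11 h12 h22
  simp only [Fin.sum_univ_three] at hX ⊢
  generalize X 0 = x at *
  generalize X 1 = y at *
  generalize X 2 = z at *
  generalize p 0 = a at *
  generalize p 1 = b at *
  generalize p 2 = c at *
  generalize q 0 = d at *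
  generalize q 1 = e at *
  generalize q 2 = f at *
  have e1 : (a * x + b * y + c * z) ^ 2 + (d * x + e * y + f * z) ^ 2 = 0 := by
    have : (a * x + b * y + c * z) ^ 2 + (d * x + e * y + f * z) ^ 2 =
        s * (x ^ 2 + y ^ 2 + z ^ 2) - s ^ 2 * (x ^ 2 + y ^ 2 + z ^ 2) ^ 2 := by
      linear_combination x ^ 2 * h00 + y ^ 2 * h11 + z ^ 2 * h22 + 2 * x * y * h01 +
        2 * x * z * h02 + 2 * y * z * h12
    rw [this, hX]
    linear_combination (-(R * s)) * hR
  have e2 : a * x + b * y + c * z = 0 := by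
    have h1 : (a * x + b * y + c * z) ^ 2 = 0 :=
      le_antisymm (by linarith [sq_nonneg (d * x + e * y + f * z)]) (sq_nonneg _)
    exact pow_eq_zero_iff two_ne_zero |>.1 h1
  have e3 : d * x + e * y + f * z = 0 := by
    have h1 : (d * x + e * y + f * z) ^ 2 = 0 :=
      le_antisymm (by linarith [sq_nonneg (a * x + b * y + c * z)]) (sq_nonneg _)
    exact pow_eq_zero_iff two_ne_zero |>.1 h1
  set α := a ^ 2 + b ^ 2 + c ^ 2 with hα
  set β := a * d + b * e + c * f with hβ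
  set γ := d ^ 2 + e ^ 2 + f ^ 2 with hγ
  have t1 : α + γ = 2 * s := by
    have : α + γ = 3 * s - s ^ 2 * (x ^ 2 + y ^ 2 + z ^ 2) := by
      rw [hα, hγ]
      linear_combination h00 + h11 + h22
    rw [this, hX]
    linear_combination (-s) * hR
  have t2 : α ^ 2 + 2 * β ^ 2 + γ ^ 2 = 2 * s ^ 2 := by
    have g00 : (a * a + d * d) ^ 2 = (s - x * x * s ^ 2) ^ 2 := by rw [h00]
    have g11 : (b * b + e * e) ^ 2 = (s - y * y * s ^ 2) ^ 2 := by rw [h11]
    have g22 : (c * c + f * f) ^ 2 = (s - z * z * s ^ 2) ^ 2 := by rw [h22]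
    have g01 : (a * b + d * e) ^ 2 = (0 - x * y * s ^ 2) ^ 2 := by rw [h01]
    have g02 : (a * c + d * f) ^ 2 = (0 - x * z * s ^ 2) ^ 2 := by rw [h02]
    have g12 : (b * c + e * f) ^ 2 = (0 - y * z * s ^ 2) ^ 2 := by rw [h12]
    have : α ^ 2 + 2 * β ^ 2 + γ ^ 2 = 3 * s ^ 2 - 2 * s ^ 3 * (x ^ 2 + y ^ 2 + z ^ 2) +
        s ^ 4 * (x ^ 2 + y ^ 2 + z ^ 2) ^ 2 := by
      rw [hα, hβ, hγ]
      linear_combination g00 + g11 + g22 + 2 * g01 + 2 * g02 + 2 * g12
    rw [this, hX]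
    linear_combination (-2 * s ^ 2 + s ^ 2 * (R * s + 1)) * hR
  have t3 : (α - γ) ^ 2 + 4 * β ^ 2 = 0 := by
    linear_combination 2 * t2 - (α + γ + 2 * s) * t1
  clear_value α β γ
  have t4 : α - γ = 0 := by
    have h1 : (α - γ) ^ 2 = 0 := le_antisymm (by linarith [sq_nonneg β]) (sq_nonneg _)
    exact pow_eq_zero_iff two_ne_zero |>.1 h1
  have t5 : β = 0 := by
    have h1 : β ^ 2 = 0 := le_antisymm (by linarith [sq_nonneg (α - γ)]) (sq_nonneg _)
    exact pow_eq_zero_iff two_ne_zero |>.1 h1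
  exact ⟨by linarith, by linarith, t5, e2, e3⟩

variable {M : Type v} [MetricSpace M] [CompactSpace M] [ChartedSpace E4 M]
  [IsManifold 𝓘(ℝ, E4) ∞ M] [MeasurableSpace M] [BorelSpace M] {w : Trip M}
  {e : Fin 3 → F2 E4 M} {t : Fin 3 → ℝ} {X : Fin 3 → M → ℝ} {D : Crest.Agent.R240.Dat M}

/-- entries of `e_k` in a frame of `D`. -/
theorem entries (h : LimD w e t X D) (x : M) {A : E4 ≃L[ℝ] E4}
    (hA : IsFrame (atJ D.J x) (at2 D.F x) A) {s : ℝ} (hs : (∑ k, X k x ^ 2) * s = 1) (k : Fin 3) :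
    ent (pull (A : E4 →L[ℝ] E4) (at2 (e k) x)) 0 1 = X k x * s ∧
    ent (pull (A : E4 →L[ℝ] E4) (at2 (e k) x)) 2 3 = X k x * s ∧
    ent (pull (A : E4 →L[ℝ] E4) (at2 (e k) x)) 1 3 =
      - ent (pull (A : E4 →L[ℝ] E4) (at2 (e k) x)) 0 2 ∧
    ent (pull (A : E4 →L[ℝ] E4) (at2 (e k) x)) 1 2 =
      ent (pull (A : E4 →L[ℝ] E4) (at2 (e k) x)) 0 3 := by
  -- `β = e_k - X_k s F`
  set b : Fin 3 → ℝ := fun l => (if l = k then 1 else 0) - X k x * s * X l x with hb
  have hb0 : ∑ l, b l * X l x = 0 := by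
    have e1 : ∑ l, b l * X l x = X k x - X k x * s * ∑ l, X l x ^ 2 := by
      rw [hb]
      simp only [sub_mul, ite_mul, one_mul, zero_mul]
      rw [Finset.sum_sub_distrib, Finset.mul_sum]
      simp only [Finset.sum_ite_eq', Finset.mem_univ, if_true]
      congr 1
      exact Finset.sum_congr rfl fun l _ => by ring
    rw [e1]
    linear_combination (-X k x) * hs
  have hek : ∀ u v, at2 (e k) x u v = eb e x b u v + X k x * s * at2 D.F x u v := by
    intro u v
    rw [F_eq h]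
    unfold eb
    rw [Finset.mul_sum, ← Finset.sum_add_distrib]
    have : ∀ l, b l * at2 (e l) x u v + X k x * s * (X l x * at2 (e l) x u v) =
        if l = k then at2 (e k) x u v else 0 := by
      intro l
      rw [hb]
      by_cases hl : l = k
      · subst hl
        simp only [if_true]
        ring
      · simp only [if_neg hl]
        ring
    simp only [this, Finset.sum_ite_eq', Finset.mem_univ, if_true]
  have hanti : ∀ u v, eb e x b (atJ D.J x u) (atJ D.J x v) = - eb e x b u v := by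
    intro u v
    rw [eb_J h x hb0, h.jt.sq]
    unfold eb
    simp only [map_neg, mul_neg, Finset.sum_neg_distrib]
  have hent : ∀ i j, ent (pull (A : E4 →L[ℝ] E4) (at2 (e k) x)) i j =
      eb e x b (A (ee i)) (A (ee j)) + X k x * s * om0 (ee i) (ee j) := by
    intro i j
    show at2 (e k) x (A (ee i)) (A (ee j)) = _
    rw [hek, hA.form]
  have hJ0 : ∀ u v, eb e x b (A (J0 u)) (A (J0 v)) = - eb e x b (A u) (A v) := by
    intro u v
    rw [← hA.cplx, ← hA.cplx]
    exact hanti _ _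
  have r01 := hJ0 (ee 0) (ee 1)
  have r23 := hJ0 (ee 2) (ee 3)
  have r02 := hJ0 (ee 0) (ee 2)
  have r03 := hJ0 (ee 0) (ee 3)
  have n1' : ∀ u v, eb e x b (A (-u)) (A v) = - eb e x b (A u) (A v) := by
    intro u v
    unfold eb
    simp only [map_neg, ContinuousLinearMap.neg_apply, mul_neg, Finset.sum_neg_distrib]
  have n2' : ∀ u v, eb e x b (A u) (A (-v)) = - eb e x b (A u) (A v) := by
    intro u v
    unfold eb
    simp only [map_neg, mul_neg, Finset.sum_neg_distrib]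
  simp only [J0_ee0, J0_ee1, J0_ee2, J0_ee3, n1', n2'] at r01 r23 r02 r03
  have sw := eb_swap h.tri x b
  rw [sw (A (ee 1)) (A (ee 0))] at r01
  rw [sw (A (ee 3)) (A (ee 2))] at r23
  refine ⟨?_, ?_, ?_, ?_⟩
  · rw [hent, om0_apply]
    simp only [ee_apply]
    simp
    linarith
  · rw [hent, om0_apply]
    simp only [ee_apply]
    simp
    linarith
  · rw [hent, hent, om0_apply, om0_apply]
    simp only [ee_apply]
    simp
    linarith
  · rw [hent, hent, om0_apply, om0_apply]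
    simp only [ee_apply]
    simp
    linarith

/-- `W (F, F) = (∑ X²) W (w_0, w_0)`. -/
theorem W_FF (h : LimD w e t X D) (x : M) : W (at2 D.F x) (at2 D.F x) =
    (∑ k, X k x ^ 2) * W (at2 ((w 0).1.1 : F2 E4 M) x) (at2 ((w 0).1.1 : F2 E4 M) x) := by
  have hWe := h.tri.W_e
  have e1 : at2 D.F x = ∑ k, X k x • at2 (e k) x := by
    rw [h.F]
    exact h.X x
  rw [e1]
  simp only [Fin.sum_univ_three, W_add_left, W_add_right, W_smul_left, W_smul_right]
  rw [hWe 0 0, hWe 0 1, hWe 0 2, hWe 1 0, hWe 1 1, hWe 1 2, hWe 2 0, hWe 2 1, hWe 2 2]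
  simp only [if_true, Fin.isValue, zero_ne_one, one_ne_zero, if_false, mul_zero, add_zero,
    zero_add, show (0 : Fin 3) ≠ 2 by decide, show (2 : Fin 3) ≠ 0 by decide,
    show (1 : Fin 3) ≠ 2 by decide, show (2 : Fin 3) ≠ 1 by decide]
  ring

set_option maxHeartbeats 1000000 in
/-- the two-form clause. -/
theorem cl_b (h : LimD w e t X D) (x : M) (b : F2 E4 M) (hb : Alt (at2 b x)) :
      qG D.F b D.F x = (∑ k, qG (w 0).1.1 (e k) b x * X k x) / ∑ k, X k x ^ 2 ∧
      nsqG D.J D.F b x + qG D.F b b x =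
        2 * (∑ k, qG (w 0).1.1 (e k) b x ^ 2) / ∑ k, X k x ^ 2 ∧
      nsqG D.J D.F (bpp D.J b) x = (∑ k, qG (w 0).1.1 (e k) b x ^ 2 -
        (∑ k, qG (w 0).1.1 (e k) b x * X k x) ^ 2 / ∑ k, X k x ^ 2) / ∑ k, X k x ^ 2 ∧
      ∀ c : F2 E4 M, Alt (at2 c x) → (∑ k, X k x ^ 2) * qG D.F b c x = qG (w 0).1.1 b c x := by
  have hp := pos h x
  set R := ∑ k, X k x ^ 2 with hR
  set s := R⁻¹ with hs
  have hRs : R * s = 1 := mul_inv_cancel₀ hp.ne'
  have hWF := W_FF h x
  rw [← hR] at hWF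
  have hW0 := h.tri.W_ne x
  have hWe := h.tri.W_e
  have c4 : ∀ b c : F2 E4 M, R * qG D.F b c x = qG (w 0).1.1 b c x := by
    intro b c
    show R * (W (at2 b x) (at2 c x) / W (at2 D.F x) (at2 D.F x)) =
      W (at2 b x) (at2 c x) / W (at2 ((w 0).1.1 : F2 E4 M) x) (at2 ((w 0).1.1 : F2 E4 M) x)
    rw [hWF]
    field_simp
  obtain ⟨A, hA⟩ := exists_frame (D.sq x) (En4.spos D x)
  have hsp := En4.spos D x
  set B := pull (A : E4 →L[ℝ] E4) (at2 b x) with hB
  set E : Fin 3 → Bil := fun k => pull (A : E4 →L[ℝ] E4) (at2 (e k) x) with hE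
  have hBa : Alt B := hb.pull _
  have he : ∀ k, Alt (at2 (e k) x) := fun k => (h.tri.smooth k).1 x
  have hent := entries h x hA hRs
  set p : Fin 3 → ℝ := fun k => ent (E k) 0 2 with hpd
  set q' : Fin 3 → ℝ := fun k => ent (E k) 0 3 with hqd
  have E01 : ∀ k, ent (E k) 0 1 = X k x * s := fun k => (hent k).1
  have E23 : ∀ k, ent (E k) 2 3 = X k x * s := fun k => (hent k).2.1
  have E13 : ∀ k, ent (E k) 1 3 = - p k := fun k => (hent k).2.2.1
  have E12 : ∀ k, ent (E k) 1 2 = q' k := fun k => (hent k).2.2.2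
  have E02 : ∀ k, ent (E k) 0 2 = p k := fun k => rfl
  have E03 : ∀ k, ent (E k) 0 3 = q' k := fun k => rfl
  -- Gram
  have hg : ∀ k l, p k * p l + q' k * q' l = (if k = l then s else 0) - X k x * X l x * s ^ 2 := by
    intro k l
    have h1 : q (at2 D.F x) (at2 (e k) x) (at2 (e l) x) = W (E k) (E l) / 2 :=
      hA.q_eq hsp.alt (he k) (he l)
    have h2 : q (at2 D.F x) (at2 (e k) x) (at2 (e l) x) = if k = l then s else 0 := by
      unfold q
      rw [hWe, hWF]
      by_cases hkl : k = l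
      · rw [if_pos hkl, if_pos hkl]
        field_simp
        linarith
      · rw [if_neg hkl, if_neg hkl, zero_div]
    rw [h2] at h1
    unfold W at h1
    rw [E01, E23, E13, E12, E02, E03, E01, E23, E13, E12, E02, E03] at h1
    linarith
  obtain ⟨g1, g2, g3, g4, g5⟩ := gram3 p q' (fun k => X k x) hRs hR.symm hg
  -- coefficients
  set a := ent B 0 1 + ent B 2 3 with ha
  set m := ent B 0 2 - ent B 1 3 with hm
  set n := ent B 0 3 + ent B 1 2 with hn
  have hq : ∀ k, qG (w 0).1.1 (e k) b x = R / 2 * (X k x * s * a + p k * m + q' k * n) := by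
    intro k
    rw [← c4]
    have h1 : qG D.F (e k) b x = W (E k) B / 2 := hA.q_eq hsp.alt (he k) hb
    rw [h1]
    unfold W
    rw [E01, E23, E13, E12, E02, E03, ha, hm, hn]
    ring
  have hsum : ∑ k, qG (w 0).1.1 (e k) b x ^ 2 = R / 4 * (a ^ 2 + m ^ 2 + n ^ 2) := by
    simp only [hq, Fin.sum_univ_three]
    simp only [Fin.sum_univ_three] at g1 g2 g3 g4 g5 hR
    have h0 : X 0 x ^ 2 + X 1 x ^ 2 + X 2 x ^ 2 = R := hR.symm
    linear_combination (R ^ 2 / 4 * s ^ 2 * a ^ 2) * h0 + (R ^ 2 / 4 * m ^ 2) * g1 +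
      (R ^ 2 / 4 * n ^ 2) * g2 + (R ^ 2 / 2 * m * n) * g3 + (R ^ 2 / 2 * s * a * m) * g4 +
      (R ^ 2 / 2 * s * a * n) * g5 +
      (R / 4 * (R * s + 1) * a ^ 2 + R / 4 * m ^ 2 + R / 4 * n ^ 2) * hRs
  have hsumX : ∑ k, qG (w 0).1.1 (e k) b x * X k x = R / 2 * a := by
    simp only [hq, Fin.sum_univ_three]
    simp only [Fin.sum_univ_three] at g4 g5 hR
    have h0 : X 0 x ^ 2 + X 1 x ^ 2 + X 2 x ^ 2 = R := hR.symm
    linear_combination (R / 2 * s * a) * h0 + (R / 2 * m) * g4 + (R / 2 * n) * g5 +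
      (R / 2 * a) * hRs
  refine ⟨?_, ?_, ?_, fun c _ => c4 b c⟩
  · have h1 : qG D.F b D.F x = W B (pull (A : E4 →L[ℝ] E4) (at2 D.F x)) / 2 :=
      hA.q_eq hsp.alt hb hsp.alt
    rw [h1, hA.pull_form, Ns.W_om0_right, hsumX, ← ha]
    field_simp
  · have h1 : nsqG D.J D.F b x = N0 B / 2 := Ns.frame_nsq hsp hA hb
    have h2 : qG D.F b b x = W B B / 2 := hA.q_eq hsp.alt hb hb
    rw [h1, h2, hsum]
    unfold N0 W
    rw [ha, hm, hn]
    field_simp
    ring
  · have h1 : nsqG D.J D.F (bpp D.J b) x =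
        N0 (pull (A : E4 →L[ℝ] E4) (antip (atJ D.J x) (at2 b x))) / 2 :=
      Ns.frame_nsq hsp hA (hb.antip _)
    rw [h1, Ns.frame_pull_antip hA, hsum, hsumX]
    obtain ⟨a1, a2, a3, a4, a5, a6⟩ := Ns.anti0_entries hBa
    unfold N0
    rw [a1, a2, a3, a4, a5, a6, ha, hm, hn]
    field_simp
    ring

/-- **PWD.** -/
theorem pwd : PWD.{v} := by
  intro M _ _ _ _ _ _ w e t X D h x
  exact ⟨pos h x, fun b hb => cl_b h x b hb, fun c m hc => n1_le h x c m hc, fun v => J_eq h x v⟩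

end

end Crest.Agent.R235.SwcPWN_215
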