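import Crest.Agent.R235.Defs_837

/-!
Row 235, package IND, node IND-2 (RIEM), part 1 (helper399): the Riemannian instances of R249 on the given
manifold `M` from a smooth metric `g` (a field of bilinear forms in the format of R240).

* `Met g`          : `g` is smooth (charts), symmetric, positive;
* `metF hF hJ`     : `Met (gF F J)`, `gF F J x u v = F(u, J v)` for a smooth two-form `F` and a smooth tame
                     compatible `J`;
* `cmm hg`         : the `ContMDiffRiemannianMetric`; `rbOf`, `crbOf` the two bundle classes;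
* `exists_metric`  : a `MetricSpace M` with the GIVEN topology (an equation, to be used with `rfl`) and
                     `edist = riemannianEDist`;
* `exists_riem`    : everything at once:
  `obtain ⟨rb, crb, mM, rfl, hd, hin⟩ := exists_riem hg; haveI : IsRiemannianManifold (𝓡 4) M := ⟨hd⟩`;
* `secondCountable`.
-/

set_option autoImplicit false
set_option maxSynthPendingDepth 3
set_option linter.unusedSectionVars false
set_option linter.unusedVariables false
set_option linter.style.haveILetI false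

open Set Function Filter Bundle
open scoped Manifold ContDiff Topology ENNReal
open Crest.Agent.R240 Crest.Agent.R240.Ch

universe u

namespace Crest.Agent.R235.Riem_399

noncomputable section

variable {M : Type u} [tM : TopologicalSpace M] [ChartedSpace E4 M] [IsManifold 𝓘(ℝ, E4) ∞ M]

/-- a smooth Riemannian metric, in the format of R240. -/
structure Met (g : F2 E4 M) : Prop where
  smooth : ∀ p : M, ContDiffOn ℝ ∞ (rep p g) (chartAt E4 p).target
  symm : ∀ x u v, at2 g x u v = at2 g x v u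
  pos : ∀ x v, v ≠ 0 → 0 < at2 g x v v

/-- the metric of `(F, J)`: `g(u,v) = F(u, J v)`. -/
def gF (F : F2 E4 M) (J : EndF E4 M) : F2 E4 M :=
  fun x => ((ContinuousLinearMap.compL ℝ E4 E4 ℝ).flip (atJ J x)).comp (at2 F x)

@[simp] theorem gF_apply (F : F2 E4 M) (J : EndF E4 M) (x : M) (u v : E4) :
    at2 (gF F J) x u v = at2 F x u (atJ J x v) := rfl

theorem rep_gF (F : F2 E4 M) (J : EndF E4 M) (p : M) {y : E4} (hy : y ∈ (chartAt E4 p).target) :
    rep p (gF F J) y =
      ((ContinuousLinearMap.compL ℝ E4 E4 ℝ).flip (repJ p J y)).comp (rep p F y) := by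
  have hx := symm_mem hy
  ext u v
  rw [rep_apply, gF_apply]
  show _ = rep p F y u (repJ p J y v)
  rw [rep_apply, repJ_apply, tcc_cancel' hx]

/-- **the metric of a tame compatible pair is smooth.** -/
theorem metF {F : F2 E4 M} {J : EndF E4 M} (hF : Smooth2 F) (hJ : SmoothJ J)
    (hsym : ∀ x u v, at2 F x u (atJ J x v) = at2 F x v (atJ J x u))
    (hpos : ∀ x v, v ≠ 0 → 0 < at2 F x v (atJ J x v)) : Met (gF F J) where
  smooth p := by
    have h1 : ContDiffOn ℝ ∞ (fun y => ((ContinuousLinearMap.compL ℝ E4 E4 ℝ).flip (repJ p J y)).comp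
        (rep p F y)) (chartAt E4 p).target := by
      refine ContDiffOn.clm_comp ?_ (hF.2 p)
      exact ((ContinuousLinearMap.compL ℝ E4 E4 ℝ).flip).contDiff.comp_contDiffOn (hJ p)
    exact h1.congr fun y hy => rep_gF F J p hy
  symm x u v := hsym x u v
  pos x v hv := hpos x v hv

/-- `F(u, J v)` is symmetric if `F` is alternating and `J`-invariant, `J² = -1`. -/
theorem symm_of_inv {F : F2 E4 M} {J : EndF E4 M} (hF : Smooth2 F)
    (hsq : ∀ x v, atJ J x (atJ J x v) = -v)
    (hinv : ∀ x u v, at2 F x (atJ J x u) (atJ J x v) = at2 F x u v) (x : M) (u v : E4) :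
    at2 F x u (atJ J x v) = at2 F x v (atJ J x u) := by
  have h1 := hinv x u (atJ J x v)
  rw [hsq] at h1
  rw [map_neg] at h1
  have h2 := hF.antisymm x v (atJ J x u)
  rw [← h1, h2]

/-! ### the bundle metric -/

theorem exists_lower (b : E4 →L[ℝ] E4 →L[ℝ] ℝ) (hpos : ∀ v, v ≠ 0 → 0 < b v v) :
    ∃ c : ℝ, 0 < c ∧ ∀ v, c * ‖v‖ ^ 2 ≤ b v v := by
  have hcont : Continuous fun v : E4 => b v v := by fun_prop
  obtain ⟨v0, hv0, hmin⟩ := (isCompact_sphere (0 : E4) 1).exists_isMinOn
    (NormedSpace.sphere_nonempty.2 zero_le_one) hcont.continuousOn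
  have hv0' : ‖v0‖ = 1 := by simpa using hv0
  have hv00 : v0 ≠ 0 := by
    intro h; rw [h, norm_zero] at hv0'; exact zero_ne_one hv0'
  refine ⟨b v0 v0, hpos v0 hv00, fun v => ?_⟩
  by_cases hv : v = 0
  · rw [hv]; simp
  have hn : 0 < ‖v‖ := norm_pos_iff.2 hv
  have h1 : ‖‖v‖⁻¹ • v‖ = 1 := by
    rw [norm_smul, norm_inv, norm_norm, inv_mul_cancel₀ hn.ne']
  have h2 := hmin (show ‖v‖⁻¹ • v ∈ Metric.sphere (0 : E4) 1 by simpa using h1)
  have h3 : b v0 v0 ≤ b (‖v‖⁻¹ • v) (‖v‖⁻¹ • v) := h2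
  have h4 : b (‖v‖⁻¹ • v) (‖v‖⁻¹ • v) = ‖v‖⁻¹ ^ 2 * b v v := by
    simp only [map_smul, smul_apply, smul_eq_mul]; ring
  rw [h4] at h3
  calc b v0 v0 * ‖v‖ ^ 2 ≤ (‖v‖⁻¹ ^ 2 * b v v) * ‖v‖ ^ 2 := by gcongr
    _ = b v v := by field_simp

/-- the smooth Riemannian metric of Mathlib. -/
def cmm {g : F2 E4 M} (hg : Met g) :
    ContMDiffRiemannianMetric 𝓘(ℝ, E4) ∞ E4 (fun x : M => TangentSpace 𝓘(ℝ, E4) x) where
  inner x := (at2 g x : E4 →L[ℝ] E4 →L[ℝ] ℝ)
  symm x v w := hg.symm x v w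
  pos x v hv := hg.pos x v hv
  isVonNBounded x := by
    change Bornology.IsVonNBounded ℝ {v : E4 | at2 g x v v < 1}
    obtain ⟨c, hc, h⟩ := exists_lower (at2 g x) fun v hv => hg.pos x v hv
    refine (NormedSpace.isVonNBounded_ball ℝ E4 (Real.sqrt (1 / c) + 1)).subset ?_
    intro v hv
    have h1 : c * ‖v‖ ^ 2 < 1 := lt_of_le_of_lt (h v) hv
    have h2 : ‖v‖ ^ 2 < 1 / c := by
      rw [lt_div_iff₀ hc]; linarith [mul_comm c (‖v‖ ^ 2)]
    have h3 : ‖v‖ < Real.sqrt (1 / c) := Real.lt_sqrt_of_sq_lt h2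
    rw [mem_ball_zero_iff]
    linarith
  contMDiff := by
    intro x
    have hx : x ∈ (chartAt E4 x).source := mem_chart_source E4 x
    exact (contMDiffAt_2 hx (g : TF2 E4 M)).2
      ((hg.smooth x).contDiffAt ((chartAt E4 x).open_target.mem_nhds (mem_chart_target E4 x)))

/-- the bundle metric. -/
@[reducible] def rbOf {g : F2 E4 M} (hg : Met g) :
    RiemannianBundle (fun x : M => TangentSpace 𝓘(ℝ, E4) x) :=
  ⟨(cmm hg).toRiemannianMetric⟩

theorem crbOf {g : F2 E4 M} (hg : Met g) :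
    letI := rbOf hg
    IsContMDiffRiemannianBundle 𝓘(ℝ, E4) ∞ E4 (fun x : M => TangentSpace 𝓘(ℝ, E4) x) :=
  letI := rbOf hg
  ⟨(cmm hg).inner, (cmm hg).contMDiff, fun _ _ _ => rfl⟩

theorem inner_rbOf {g : F2 E4 M} (hg : Met g) :
    letI := rbOf hg
    ∀ (x : M) (u v : TangentSpace 𝓘(ℝ, E4) x), inner ℝ u v = at2 g x u v := by
  intro x u v
  rfl

/-! ### the distance -/

section dist

variable [RiemannianBundle (fun x : M => TangentSpace 𝓘(ℝ, E4) x)]
  [IsContMDiffRiemannianBundle 𝓘(ℝ, E4) ∞ E4 (fun x : M => TangentSpace 𝓘(ℝ, E4) x)]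

theorem t3 [T2Space M] : T3Space M := by
  haveI : LocallyCompactSpace M := ChartedSpace.locallyCompactSpace E4 M
  infer_instance

/-- **the Riemannian distance**, with the given topology. -/
theorem exists_metric [T2Space M] [ConnectedSpace M] :
    ∃ mM : MetricSpace M, mM.toPseudoMetricSpace.toUniformSpace.toTopologicalSpace = tM ∧
      ∀ x y : M, mM.edist x y = Manifold.riemannianEDist 𝓘(ℝ, E4) x y := by
  haveI : T3Space M := t3
  haveI : IsContinuousRiemannianBundle E4 (fun x : M => TangentSpace 𝓘(ℝ, E4) x) := by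
    obtain ⟨g, h1, h2⟩ := IsContMDiffRiemannianBundle.exists_contMDiff (IB := 𝓘(ℝ, E4)) (n := ∞)
      (F := E4) (E := fun x : M => TangentSpace 𝓘(ℝ, E4) x)
    exact ⟨g, h1.continuous, h2⟩
  letI eM : EMetricSpace M := EMetricSpace.ofRiemannianMetric 𝓘(ℝ, E4) M
  have hne : ∀ x y : M, eM.edist x y ≠ ⊤ := by
    intro x y
    have h1 : IsClopen (Metric.eball x (⊤ : ENNReal)) :=
      ⟨Metric.isClosed_eball_top, Metric.isOpen_eball⟩
    have h2 : Metric.eball x (⊤ : ENNReal) = univ :=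
      h1.eq_univ ⟨x, Metric.mem_eball_self (by simp)⟩
    have h3 : y ∈ Metric.eball x (⊤ : ENNReal) := by rw [h2]; trivial
    rw [Metric.mem_eball'] at h3
    exact h3.ne
  exact ⟨EMetricSpace.toMetricSpace hne, rfl, fun _ _ => rfl⟩

end dist

/-- **everything at once.** -/
theorem exists_riem [T2Space M] [ConnectedSpace M] {g : F2 E4 M} (hg : Met g) :
    ∃ (rb : RiemannianBundle (fun x : M => TangentSpace 𝓘(ℝ, E4) x))
      (_ : IsContMDiffRiemannianBundle 𝓘(ℝ, E4) ∞ E4 (fun x : M => TangentSpace 𝓘(ℝ, E4) x))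
      (mM : MetricSpace M), mM.toPseudoMetricSpace.toUniformSpace.toTopologicalSpace = tM ∧
      (∀ x y : M, mM.edist x y = Manifold.riemannianEDist 𝓘(ℝ, E4) x y) ∧
      ∀ (x : M) (u v : TangentSpace 𝓘(ℝ, E4) x), inner ℝ u v = at2 g x u v := by
  letI := rbOf hg
  haveI := crbOf hg
  obtain ⟨mM, h1, h2⟩ := exists_metric (M := M)
  exact ⟨rbOf hg, crbOf hg, mM, h1, h2, inner_rbOf hg⟩

theorem secondCountable [CompactSpace M] : SecondCountableTopology M :=
  ChartedSpace.secondCountable_of_sigmaCompact E4 M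

/-! ### test of the intended use -/

section test

variable {N : Type u} [tN : TopologicalSpace N] [T2Space N] [CompactSpace N] [ConnectedSpace N]
  [ChartedSpace E4 N] [IsManifold 𝓘(ℝ, E4) ∞ N]

example (P : F2 E4 N → Prop) (g : F2 E4 N) (hg : Met g)
    (H : ∀ (N : Type u) [MetricSpace N] [CompactSpace N] [ConnectedSpace N]
      [ChartedSpace (EuclideanSpace ℝ (Fin 4)) N] [IsManifold (𝓡 4) ∞ N]
      [RiemannianBundle (fun p : N => TangentSpace (𝓡 4) p)]
      [IsContMDiffRiemannianBundle (𝓡 4) ∞ (EuclideanSpace ℝ (Fin 4))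
        (fun p : N => TangentSpace (𝓡 4) p)]
      [IsRiemannianManifold (𝓡 4) N] [MeasurableSpace N] [BorelSpace N]
      [SecondCountableTopology N] [Nonempty N] (g : F2 E4 N),
      (∀ (x : N) (u v : TangentSpace (𝓡 4) x), inner ℝ u v = at2 g x u v) → 
      ∀ P : F2 E4 N → Prop, P g) : P g := by
  obtain ⟨rb, crb, mM, rfl, hd, hin⟩ := exists_riem hg
  haveI : IsRiemannianManifold (𝓡 4) N := ⟨hd⟩
  letI : MeasurableSpace N := borel N
  haveI : BorelSpace N := ⟨rfl⟩
  haveI := secondCountable (M := N)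
  exact H N g hin P

end test

end

end Crest.Agent.R235.Riem_399
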