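import Crest.Agent.R235.SwcDefs2_215

/-!
Row 235 (S0364), PACKAGE SWC (helper291): `SWLIM, BPLUS ⇒ SWCUR`.
-/

set_option autoImplicit false
set_option maxSynthPendingDepth 3

open Set Function Filter MeasureTheory Metric
open scoped Manifold ContDiff Topology

universe u

namespace Crest.Agent.R235.SwcLim_291

open Crest.Agent.R240 Crest.Agent.R240.Ch Crest.Agent.R235 Crest.Agent.R235.Uu_291
  Crest.Agent.R235.Swc

noncomputable section

/-- `T4R` depends only on the orientation. -/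
theorem t4r_congr {M : Type u} [TopologicalSpace M] [T2Space M] [CompactSpace M]
    [ChartedSpace E4 M] [IsManifold 𝓘(ℝ, E4) ∞ M] {F G : Z2 M} (hF : Int.Vol (F.1.1 : F2 E4 M))
    (hG : Int.Vol (G.1.1 : F2 E4 M)) (h : ∀ x, 0 < W (val F x) (val F x) * W (val G x) (val G x))
    (hT : T4R F) : T4R G := by
  have e1 : ∀ a b, pI F a b = pI G a b := fun a b => (pI_congr_orient hF hG h a b).symm
  have e2 : ∀ a b, ip F a b = ip G a b := fun a b => (ip_congr_orient hF hG h a b).symm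
  unfold T4R at hT ⊢
  simp only [e1, e2] at hT
  exact hT

/-- **SWLIM, BPLUS ⇒ SWCUR**. -/
theorem swcur_of (hS : SWLIM.{u}) (bplus : BPLUS.{u}) : SWCUR.{u} := by
  intro M _ _ _ _ _ _ _ D w hw hJ hD hT e he h0 h1 h2 hp
  obtain ⟨b, hb⟩ := exists_compat hJ
  have hV := hw.vol 0
  have hw' := hb.pos3 hw hJ
  have hJ' := hb.isJ hJ
  have ho' := hb.orth hJ
  have hip : ∀ c d, ip (update w 0 b 0) c d = ip (w 0) c d := hb.ip_eq hw hJ
  have hT' : T4R (update w 0 b 0) := t4r_congr hV (hw'.vol 0) (hb.seg hw hJ).so hT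
  have hpb : 0 < ip (w 0) e (cls b) := sgn_of_tame bplus hw hJ hb.tame h0.ge h1 h2 hp
  have hne : e ≠ 0 := by
    rintro rfl
    rw [ip_zero_left hV] at hp
    exact lt_irrefl _ hp
  obtain ⟨t, J', S, hJT, hPC, hcl, hpos, hlow⟩ := hS M D.bl (update w 0 b) hw' hT' e he
    (by rw [hip]; exact h0) hne
  have e1 : S (update w 0 b 1).1 = 0 := by
    rw [hcl, hip, update_of_ne (by decide)]; exact h1
  have e2 : S (update w 0 b 2).1 = 0 := by
    rw [hcl, hip, update_of_ne (by decide)]; exact h2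
  have e0 : 0 < S (update w 0 b 0).1 := by
    rw [hcl, hip, update_self]; exact hpb
  obtain ⟨-, -, -, rfl⟩ := uu hw' ho' hJ' hJT hPC hpos e0 e1 e2
  have hB : T1A_195.Bridge w D.J D := ⟨rfl, hD⟩
  obtain ⟨s, hs⟩ := hB.exists_cur hPC
  exact ⟨S, s, hs, fun c => by rw [hcl, hip], hlow D s rfl hs.rm⟩

end

end Crest.Agent.R235.SwcLim_291
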