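import Crest.Agent.R235.Uu_291
import Crest.Agent.R240.En4F

/-!
Row 235 (S0364), package SWC (helper291): existence of the structure `J_t`: for `Pos3 w`, `t ≠ 0`
there is `J'` with `JT w t J'`, and data `D : Dat M` with `D.J = J'`, `D.al = D.F = w_t`.
-/

set_option autoImplicit false
set_option maxSynthPendingDepth 3

open Set Function Filter MeasureTheory
open scoped Manifold ContDiff Topology

universe u

namespace Crest.Agent.R235.JT_291

open Crest.Agent.R240 Crest.Agent.R240.Ch Crest.Agent.R235 Crest.Agent.R235.Exj_900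
  Crest.Agent.R235.Uu_291

noncomputable section

/-- `f(Lu,v) + f(u,Lv) = 2 (W(f,b) a - W(f,a) b)(u,v)`. -/
theorem Lop_skew {f a b : Bil} (hf : Alt f) (ha : Alt a) (hb : Alt b) (u v : E4) :
    f (Lop a b u) v + f u (Lop a b v) = 2 * (W f a * b u v - W f b * a u v) := by
  have h0 : ∀ u, Lop a b u 0 = 2 * Kop a (b u) 0 - W a b * u 0 := by simp [Lop_apply]
  have h1 : ∀ u, Lop a b u 1 = 2 * Kop a (b u) 1 - W a b * u 1 := by simp [Lop_apply]
  have h2 : ∀ u, Lop a b u 2 = 2 * Kop a (b u) 2 - W a b * u 2 := by simp [Lop_apply]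
  have h3 : ∀ u, Lop a b u 3 = 2 * Kop a (b u) 3 - W a b * u 3 := by simp [Lop_apply]
  simp only [Kop_0, alt_ee1 hb, alt_ee2 hb, alt_ee3 hb] at h0
  simp only [Kop_1, alt_ee0 hb, alt_ee2 hb, alt_ee3 hb] at h1
  simp only [Kop_2, alt_ee0 hb, alt_ee1 hb, alt_ee3 hb] at h2
  simp only [Kop_3, alt_ee0 hb, alt_ee1 hb, alt_ee2 hb] at h3
  rw [alt_expand hf (Lop a b u) v, alt_expand hf u (Lop a b v), alt_expand hb u v,
    alt_expand ha u v]
  simp only [h0, h1, h2, h3, W]
  ring

/-- a form orthogonal to `a` and `b` is invariant under the structure of the pair. -/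
theorem inv_of_orth {f a b : Bil} (hf : Alt f) (ha : Alt a) (hb : Alt b) (h1 : W f a = 0)
    (h2 : W f b = 0) {ε : ℝ} (hJ : Jp f a b (ε • J0op a b)) (u v : E4) :
    f ((ε • J0op a b) u) ((ε • J0op a b) v) = f u v := by
  have h3 : ∀ u v, f (Lop a b u) v = - f u (Lop a b v) := by
    intro u v
    have := Lop_skew hf ha hb u v
    rw [h1, h2] at this
    linarith
  have h4 : ∀ u v, f ((ε • J0op a b) u) v = - f u ((ε • J0op a b) v) := by
    intro u v
    simp only [J0op, smul_apply, map_smul, smul_eq_mul, h3]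
    ring
  rw [h4, hJ.sq, map_neg, neg_neg]

/-- extension to a basis of `ℝ³`. -/
theorem exists_basis3 {t : Fin 3 → ℝ} (ht : t ≠ 0) :
    ∃ g1 g2 : Fin 3 → ℝ, LinearIndependent ℝ ![t, g1, g2] := by
  have hf : Module.finrank ℝ (Fin 3 → ℝ) = 3 := by simp
  have h1 : LinearIndependent ℝ ![t] := by
    refine LinearIndependent.of_subsingleton 0 ?_
    simpa using ht
  obtain ⟨x, hx⟩ := exists_linearIndependent_snoc_of_lt_finrank h1 (by rw [hf]; norm_num)
  obtain ⟨y, hy⟩ := exists_linearIndependent_snoc_of_lt_finrank hx (by rw [hf]; norm_num)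
  refine ⟨x, y, ?_⟩
  have e : (![t, x, y] : Fin 3 → (Fin 3 → ℝ)) =
      Fin.snoc (α := fun _ => Fin 3 → ℝ) (Fin.snoc (α := fun _ => Fin 3 → ℝ) ![t] x) y := by
    funext i
    fin_cases i <;> rfl
  rw [e]
  exact hy

section Mfd

variable {M : Type u} [TopologicalSpace M] [ChartedSpace E4 M] [IsManifold 𝓘(ℝ, E4) ∞ M]

theorem W_wt_ne {w : Trip M} (hw : Pos3 w) {t : Fin 3 → ℝ} (ht : t ≠ 0) (x : M) :
    W (val (wt w t) x) (val (wt w t) x) ≠ 0 := by
  rw [val_wt]
  exact hw x t ht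

/-- the form `w_c - fac w_t`. -/
def pf (w : Trip M) (t c : Fin 3 → ℝ) : F2 E4 M := fun x =>
  (val (wt w c) x - fac w t c x • val (wt w t) x : Bil)

theorem at2_pf (w : Trip M) (t c : Fin 3 → ℝ) (x : M) :
    at2 (pf w t c) x = ∑ i, (c i - fac w t c x * t i) • val (w i) x := by
  show val (wt w c) x - fac w t c x • val (wt w t) x = _
  rw [val_wt, val_wt, Finset.smul_sum, ← Finset.sum_sub_distrib]
  refine Finset.sum_congr rfl fun i _ => ?_
  rw [sub_smul, smul_smul]

theorem smooth_pf {w : Trip M} (hw : Pos3 w) {t : Fin 3 → ℝ} (ht : t ≠ 0) (c : Fin 3 → ℝ) :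
    Smooth2 (pf w t c) := by
  have h1 : fac w t c = qG ((wt w t).1.1 : F2 E4 M) ((wt w c).1.1 : F2 E4 M)
      ((wt w t).1.1 : F2 E4 M) := by
    funext x
    unfold fac
    rw [← val_wt]
    rfl
  have h2 : SmoothF E4 (fac w t c) := by
    rw [h1]
    exact En4.smoothF_qG (wt w t).1.2 (W_wt_ne hw ht) (wt w c).1.2 (wt w t).1.2
  have h3 : Smooth2 (fmul (fac w t c) ((wt w t).1.1 : F2 E4 M)) := En4.smooth2_fmul h2 (wt w t).1.2
  have h4 := ((wt w c).1 - ⟨_, h3⟩ : X2 M).2
  exact h4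

theorem W_pf {w : Trip M} (hw : Pos3 w) {t : Fin 3 → ℝ} (ht : t ≠ 0) (c : Fin 3 → ℝ) (x : M) :
    W (val (wt w t) x) (at2 (pf w t c) x) = 0 := by
  show W (val (wt w t) x) (val (wt w c) x - fac w t c x • val (wt w t) x) = 0
  rw [W_comm, W_sub_left, W_smul_left, fac, ← val_wt, div_mul_cancel₀ _ (W_wt_ne hw ht x),
    sub_self]

/-- **existence of `J_t`**. -/
theorem exists_jt {w : Trip M} (hw : Pos3 w) {t : Fin 3 → ℝ} (ht : t ≠ 0) :
    ∃ J' : EndF E4 M, JT w t J' := by
  obtain ⟨g1, g2, hg⟩ := exists_basis3 ht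
  have hf : ∀ x, Alt (val (wt w t) x) := fun x => val_alt _ x
  have ha := smooth_pf hw ht g1
  have hb := smooth_pf hw ht g2
  have hlin : ∀ c : Fin 3 → ℝ, c 0 • t + c 1 • g1 + c 2 • g2 = 0 → c = 0 := by
    intro c hc
    have h := (Fintype.linearIndependent_iff.1 hg) c (by
      rw [Fin.sum_univ_three]
      simpa using hc)
    funext i
    exact h i
  have hP : ∀ x, P3 (val (wt w t) x) (at2 (pf w t g1) x) (at2 (pf w t g2) x) := by
    intro x c hc
    have e : c 0 • val (wt w t) x + c 1 • at2 (pf w t g1) x + c 2 • at2 (pf w t g2) x =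
        ∑ i, ((c 0 - c 1 * fac w t g1 x - c 2 * fac w t g2 x) • t + c 1 • g1 + c 2 • g2) i •
          val (w i) x := by
      rw [val_wt, at2_pf, at2_pf, Finset.smul_sum, Finset.smul_sum, Finset.smul_sum,
        ← Finset.sum_add_distrib, ← Finset.sum_add_distrib]
      refine Finset.sum_congr rfl fun i _ => ?_
      simp only [Pi.add_apply, Pi.smul_apply, smul_eq_mul]
      module
    rw [e]
    refine hw x _ fun h0 => hc ?_
    have h1 := hlin ![c 0 - c 1 * fac w t g1 x - c 2 * fac w t g2 x, c 1, c 2] (by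
      simpa using h0)
    have k1 : c 1 = 0 := by simpa using congrFun h1 1
    have k2 : c 2 = 0 := by simpa using congrFun h1 2
    have k0 : c 0 = 0 := by
      have := congrFun h1 0
      simp [k1, k2] at this
      exact this
    funext i
    fin_cases i
    · exact k0
    · exact k1
    · exact k2
  have hJ : ∀ x, ∃ J : E4 →L[ℝ] E4,
      Jp (val (wt w t) x) (at2 (pf w t g1) x) (at2 (pf w t g2) x) J ∧
      ∀ u v, val (wt w t) x (J u) (J v) = val (wt w t) x u v := by
    intro x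
    obtain ⟨ε, _, hK⟩ := exists_Jp (hf x) (ha.1 x) (hb.1 x) (hP x)
    exact ⟨_, hK, inv_of_orth (hf x) (ha.1 x) (hb.1 x) (W_pf hw ht g1 x) (W_pf hw ht g2 x) hK⟩
  choose J hJ1 hJ2 using hJ
  refine ⟨J, smoothJ_of (wt w t).1.2 ha hb hP hJ1, fun x => (hJ1 x).sq, hJ2,
    fun x => (hJ1 x).tame, ?_⟩
  intro x c hc
  -- coordinates in the basis
  have hspan : ∃ d : Fin 3 → ℝ, c = d 0 • t + d 1 • g1 + d 2 • g2 := by
    let B := basisOfLinearIndependentOfCardEqFinrank hg (by simp)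
    refine ⟨fun i => B.repr c i, ?_⟩
    have h1 := B.sum_repr c
    rw [Fin.sum_univ_three] at h1
    simp only [B, coe_basisOfLinearIndependentOfCardEqFinrank, Matrix.cons_val_zero,
      Matrix.cons_val_one, Matrix.cons_val] at h1
    exact h1.symm
  obtain ⟨d, hd⟩ := hspan
  set k : ℝ := d 0 + d 1 * fac w t g1 x + d 2 * fac w t g2 x with hk
  have e : ∑ i, c i • val (w i) x =
      k • val (wt w t) x + d 1 • at2 (pf w t g1) x + d 2 • at2 (pf w t g2) x := by
    rw [val_wt, at2_pf, at2_pf, Finset.smul_sum, Finset.smul_sum, Finset.smul_sum,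
        ← Finset.sum_add_distrib, ← Finset.sum_add_distrib]
    refine Finset.sum_congr rfl fun i _ => ?_
    rw [hd, hk]
    simp only [Pi.add_apply, Pi.smul_apply, smul_eq_mul]
    module
  have hk0 : k = 0 := by
    rw [e, W_add_left, W_add_left, W_smul_left, W_smul_left, W_smul_left,
      W_comm (at2 (pf w t g1) x), W_comm (at2 (pf w t g2) x), W_pf hw ht, W_pf hw ht] at hc
    have := W_wt_ne hw ht x
    simpa [this] using hc
  intro u v
  rw [e, hk0]
  simp only [add_apply, smul_apply, smul_eq_mul, zero_smul, zero_add]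
  have q1 := (hJ1 x).anti1 u v
  have q2 := (hJ1 x).anti2 u v
  show d 1 * (at2 (pf w t g1) x (J x u) (J x v)) + d 2 * (at2 (pf w t g2) x (J x u) (J x v)) = _
  rw [q1, q2]
  ring

end Mfd

section Met

variable {M : Type u} [MetricSpace M] [CompactSpace M] [ChartedSpace E4 M]
  [IsManifold 𝓘(ℝ, E4) ∞ M] [MeasurableSpace M] [BorelSpace M]

/-- data of R240 with `D.J = J_t`, `D.al = D.F = w_t`. -/
theorem exists_dat (hb : Met.BiLip E4 M) {w : Trip M} {t : Fin 3 → ℝ} {J' : EndF E4 M}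
    (h : JT w t J') : ∃ D : Dat M, D.J = J' ∧ D.al = ((wt w t).1.1 : F2 E4 M) ∧
      D.F = ((wt w t).1.1 : F2 E4 M) := by
  obtain ⟨D, h1, h2⟩ := Int.exists_dat hb h.smooth h.sq (wt w t).1.2 (wt w t).2 h.tame
  refine ⟨D, h1, h2, ?_⟩
  funext x
  show invp (atJ D.J x) (at2 D.al x) = _
  rw [h1, h2]
  exact invp_of_inv (h.inv x)

end Met

end

end Crest.Agent.R235.JT_291
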