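import Crest.Agent.R235.SwcDefs2_215
import Crest.Agent.R235.JT_291

/-!
Row 235 (S0364), package SWC (helper291): transfer of the lower density bound.

* `TRM F S s`  : `s` is the trace measure of `S` with respect to `F` (no metric);
* `comp_meas`  : two trace measures of the same positive current are comparable;
* `metric_equiv` : two metrics inducing the topology, bi-Lipschitz to the charts, are equivalent;
* `lowd`       : `LowDens` for `(m2, F, s)` ⇒ `LowDens` for `(m1, F', s')`;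
* `TOPLIM`, `swlim_of : TOPLIM → SWLIM`.
-/

set_option autoImplicit false
set_option maxSynthPendingDepth 3
set_option linter.unusedSectionVars false

open Set Function Filter MeasureTheory Metric
open scoped Manifold ContDiff Topology NNReal

universe u

namespace Crest.Agent.R235.SwcLowD_291

open Crest.Agent.R240 Crest.Agent.R240.Ch Crest.Agent.R235 Crest.Agent.R235.Uu_291
  Crest.Agent.R235.Swc

noncomputable section

section Top

variable {M : Type u} [TopologicalSpace M] [T2Space M] [CompactSpace M] [ChartedSpace E4 M]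
  [IsManifold 𝓘(ℝ, E4) ∞ M] [MeasurableSpace M] [BorelSpace M]

omit [MeasurableSpace M] [BorelSpace M] in
/-- smooth cut-offs. -/
theorem exists_cut {K U : Set M} (hK : IsClosed K) (hU : IsOpen U) (h : K ⊆ U) :
    ∃ χ : M → ℝ, SmoothF E4 χ ∧ (∀ y, 0 ≤ χ y) ∧ (∀ y, χ y ≤ 1) ∧
      (∀ y ∈ K, χ y = 1) ∧ ∀ y ∉ U, χ y = 0 := by
  obtain ⟨f, hf0, hf1, hf⟩ := exists_contMDiffMap_zero_one_of_isClosed 𝓘(ℝ, E4) (n := (⊤ : ℕ∞))
    (M := M) (s := Uᶜ) (t := K) hU.isClosed_compl hK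
    (by rw [Set.disjoint_compl_left_iff_subset]; exact h)
  exact ⟨fun x => f x, (smoothF_iff _).1 f.contMDiff, fun x => (hf x).1, fun x => (hf x).2,
    fun y hy => hf1 hy, fun y hy => hf0 hy⟩

/-- `s` is the trace measure of `S` with respect to `F`. -/
structure TRM (F : F2 E4 M) (S : X2 M →ₗ[ℝ] ℝ) (s : Measure M) : Prop where
  fin : IsFiniteMeasure s
  trace : ∀ f : M → ℝ, SmoothF E4 f → ∀ b : X2 M, (b : F2 E4 M) = fmul f F → S b = ∫ x, f x ∂s

omit [MeasurableSpace M] [BorelSpace M] in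
/-- positive forms are comparable. -/
theorem comp_forms [Nonempty M] {J : EndF E4 M} (hJ2 : ∀ x v, atJ J x (atJ J x v) = -v)
    {F F' : F2 E4 M} (hF : Smooth2 F) (hF' : Smooth2 F') (hp : SPosG J F) (hp' : SPosG J F') :
    ∃ C : ℝ, 0 < C ∧ ∀ x, Pos (atJ J x) (C • at2 F' x - at2 F x) := by
  have hV : Int.Vol F' := Int.vol_of_SPosG hJ2 hF' hp'
  have hc : Continuous (qG F' F F') :=
    Int.continuous_qG hV (Int.Smooth2.cont2 hF) (Int.Smooth2.cont2 hF')
  obtain ⟨C, hC⟩ := isCompact_univ.exists_bound_of_continuousOn hc.continuousOn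
  have hC0 : 0 ≤ C := (norm_nonneg _).trans (hC (Classical.arbitrary M) (mem_univ _))
  refine ⟨2 * C + 1, by positivity, fun x => ?_⟩
  have hP : Pos (atJ J x) (at2 F x) := ⟨(hp x).alt, (hp x).inv, fun v => by
    rcases eq_or_ne v 0 with rfl | hv
    · simp
    · exact ((hp x).pos v hv).le⟩
  have h1 := Ns.nsq_pos_le (hJ2 x) (hp' x) hP
  have h2 : Real.sqrt 2 * nr (atJ J x) (at2 F' x) (at2 F x) ≤ 2 * C + 1 := by
    have h3 : nr (atJ J x) (at2 F' x) (at2 F x) ≤ √2 * |q (at2 F' x) (at2 F x) (at2 F' x)| := by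
      have h4 : √2 * |q (at2 F' x) (at2 F x) (at2 F' x)| =
          √(2 * q (at2 F' x) (at2 F x) (at2 F' x) ^ 2) := by
        rw [Real.sqrt_mul (by norm_num), Real.sqrt_sq_eq_abs]
      rw [h4]
      exact Real.sqrt_le_sqrt h1
    have h5 : |q (at2 F' x) (at2 F x) (at2 F' x)| ≤ C := hC x (mem_univ _)
    have h6 : √2 * √2 = 2 := Real.mul_self_sqrt (by norm_num)
    calc √2 * nr (atJ J x) (at2 F' x) (at2 F x)
        ≤ √2 * (√2 * |q (at2 F' x) (at2 F x) (at2 F' x)|) := by gcongr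
      _ = 2 * |q (at2 F' x) (at2 F x) (at2 F' x)| := by rw [← mul_assoc, h6]
      _ ≤ 2 * C := by gcongr
      _ ≤ 2 * C + 1 := by linarith
  have h3 := Ns.pos_sub_pn (hJ2 x) (hp' x) (hp x).alt h2
  rwa [invp_of_inv (hp x).inv] at h3

/-- comparison of the trace measures. -/
theorem comp_meas [Nonempty M] {J : EndF E4 M} (hJ2 : ∀ x v, atJ J x (atJ J x v) = -v)
    {F F' : F2 E4 M} (hF : Smooth2 F) (hF' : Smooth2 F') (hp : SPosG J F) (hp' : SPosG J F')
    {S : X2 M →ₗ[ℝ] ℝ} (hS : ∀ b : X2 M, PosG J (b : F2 E4 M) → 0 ≤ S b) {s s' : Measure M}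
    (hs : TRM F S s) (hs' : TRM F' S s') :
    ∃ C : ℝ, 0 < C ∧ ∀ K U : Set M, IsClosed K → IsOpen U → K ⊆ U → s.real K ≤ C * s'.real U := by
  obtain ⟨C, hC, hpos⟩ := comp_forms hJ2 hF hF' hp hp'
  refine ⟨C, hC, fun K U hK hU hKU => ?_⟩
  have := hs.fin
  have := hs'.fin
  obtain ⟨χ, hχ, h0, h1, hK1, hU0⟩ := exists_cut hK hU hKU
  have hcont : Continuous χ := ((smoothF_iff _).2 hχ).continuous
  have hint : ∀ (ν : Measure M) [IsFiniteMeasure ν], Integrable χ ν := fun ν _ =>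
    hcont.integrable_of_hasCompactSupport (HasCompactSupport.of_compactSpace χ)
  have e1 : s.real K ≤ ∫ x, χ x ∂s := by
    rw [← integral_indicator_one hK.measurableSet]
    refine integral_mono ((integrable_const (1 : ℝ)).indicator hK.measurableSet) (hint s)
      fun x => ?_
    by_cases hx : x ∈ K
    · rw [indicator_of_mem hx, hK1 x hx]; rfl
    · rw [indicator_of_notMem hx]; exact h0 x
  have e2 : ∫ x, χ x ∂s' ≤ s'.real U := by
    rw [← integral_indicator_one hU.measurableSet]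
    refine integral_mono (hint s') ((integrable_const (1 : ℝ)).indicator hU.measurableSet)
      fun x => ?_
    by_cases hx : x ∈ U
    · rw [indicator_of_mem hx]; exact h1 x
    · rw [indicator_of_notMem hx, hU0 x hx]
  let b1 : X2 M := ⟨fmul χ F, En4.smooth2_fmul hχ hF⟩
  let b2 : X2 M := ⟨fmul χ F', En4.smooth2_fmul hχ hF'⟩
  have e3 : S b1 = ∫ x, χ x ∂s := hs.trace χ hχ b1 rfl
  have e4 : S b2 = ∫ x, χ x ∂s' := hs'.trace χ hχ b2 rfl
  have e5 : 0 ≤ S (C • b2 - b1) := by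
    refine hS _ fun x => ?_
    have e6 : at2 ((C • b2 - b1 : X2 M) : F2 E4 M) x = χ x • (C • at2 F' x - at2 F x) := by
      show C • (χ x • at2 F' x) - χ x • at2 F x = _
      rw [smul_sub, smul_comm]
    rw [e6]
    exact ⟨(hpos x).alt.smul _, fun u v => by
      rw [smul_apply, smul_apply, smul_apply, smul_apply, (hpos x).inv], fun v => by
      rw [smul_apply, smul_apply]
      exact mul_nonneg (h0 x) ((hpos x).nonneg v)⟩
  rw [map_sub, map_smul, smul_eq_mul, e3, e4] at e5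
  calc s.real K ≤ ∫ x, χ x ∂s := e1
    _ ≤ C * ∫ x, χ x ∂s' := by linarith
    _ ≤ C * s'.real U := by gcongr

end Top

section Glob

/-- locally Lipschitz on a compact space ⇒ Lipschitz. -/
theorem glob {X Y : Type*} [MetricSpace X] [CompactSpace X] [MetricSpace Y] {f : X → Y}
    (h : ∀ x, ∃ C : ℝ, 0 < C ∧ ∃ U ∈ 𝓝 x, ∀ y ∈ U, ∀ z ∈ U, dist (f y) (f z) ≤ C * dist y z) :
    ∃ C : ℝ, 0 < C ∧ ∀ y z, dist (f y) (f z) ≤ C * dist y z := by
  have h1 : ∃ C : ℝ≥0, LipschitzOnWith C f univ := by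
    apply LocallyLipschitzOn.exists_lipschitzOnWith_of_compact isCompact_univ
    intro x _
    obtain ⟨C, hC, U, hU, h⟩ := h x
    exact ⟨⟨C, hC.le⟩, U, mem_nhdsWithin_of_mem_nhds hU,
      LipschitzOnWith.of_dist_le_mul fun y hy z hz => h y hy z hz⟩
  obtain ⟨C, hC⟩ := h1
  refine ⟨C + 1, by positivity, fun y z => ?_⟩
  have h2 := hC.dist_le_mul y (mem_univ _) z (mem_univ _)
  refine h2.trans ?_
  have : 0 ≤ dist y z := dist_nonneg
  nlinarith

end Glob

section TwoMet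

variable {M : Type u} [tM : TopologicalSpace M] [T2Space M] [CompactSpace M] [ChartedSpace E4 M]
  [IsManifold 𝓘(ℝ, E4) ∞ M]

/-- `m` is bi-Lipschitz to the charts. -/
def BL (m : MetricSpace M) : Prop :=
  ∀ p : M, ∀ K : Set E4, IsCompact K → K ⊆ (chartAt E4 p).target →
    ∃ c C : ℝ, 0 < c ∧ 0 < C ∧ ∀ y ∈ K, ∀ z ∈ K,
      c * ‖y - z‖ ≤ m.dist ((chartAt E4 p).symm y) ((chartAt E4 p).symm z) ∧
      m.dist ((chartAt E4 p).symm y) ((chartAt E4 p).symm z) ≤ C * ‖y - z‖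

theorem metric_equiv (m1 m2 : MetricSpace M)
    (h2 : m2.toPseudoMetricSpace.toUniformSpace.toTopologicalSpace = tM) (b1 : BL m1)
    (b2 : BL m2) : ∃ C : ℝ, 0 < C ∧ ∀ x y : M, m1.dist x y ≤ C * m2.dist x y := by
  have hc : @CompactSpace M m2.toPseudoMetricSpace.toUniformSpace.toTopologicalSpace := by
    rw [h2]; infer_instance
  refine @glob M M m2 hc m1 id fun x => ?_
  set φ := chartAt E4 x with hφ
  obtain ⟨R, hR, hsub⟩ := Metric.nhds_basis_closedBall.mem_iff.1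
    (φ.open_target.mem_nhds (mem_chart_target E4 x))
  obtain ⟨c1, C1, hc1, hC1, e1⟩ := b1 x _ (isCompact_closedBall (φ x) R) hsub
  obtain ⟨c2, C2, hc2, hC2, e2⟩ := b2 x _ (isCompact_closedBall (φ x) R) hsub
  have hU : φ.source ∩ φ ⁻¹' closedBall (φ x) R ∈ @nhds M tM x := by
    refine inter_mem (φ.open_source.mem_nhds (mem_chart_source E4 x)) ?_
    exact (φ.continuousAt (mem_chart_source E4 x)).preimage_mem_nhds
      (closedBall_mem_nhds _ hR)
  refine ⟨C1 / c2, by positivity, φ.source ∩ φ ⁻¹' closedBall (φ x) R, ?_, ?_⟩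
  · rw [h2]; exact hU
  · rintro y ⟨hy1, hy2⟩ z ⟨hz1, hz2⟩
    have k1 := (e1 _ hy2 _ hz2).2
    have k2 := (e2 _ hy2 _ hz2).1
    rw [φ.left_inv hy1, φ.left_inv hz1] at k1 k2
    show m1.dist y z ≤ C1 / c2 * m2.dist y z
    have k3 : ‖φ y - φ z‖ ≤ m2.dist y z / c2 := by
      rw [le_div_iff₀ hc2]
      linarith
    calc m1.dist y z ≤ C1 * ‖φ y - φ z‖ := k1
      _ ≤ C1 * (m2.dist y z / c2) := by gcongr
      _ = C1 / c2 * m2.dist y z := by ring

end TwoMet

section Low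

/-- transfer of the lower density bound, abstract form. -/
theorem lowDens_of {M : Type u} [MeasurableSpace M] (m1 m2 : MetricSpace M) {s s' : Measure M}
    [IsFiniteMeasure s] [IsFiniteMeasure s'] {A B C C' : ℝ} (hA : 0 < A) (hB : 0 < B) (hC : 0 < C)
    (hC' : 0 < C')
    (c1 : ∀ (x : M) (r : ℝ), 0 < r → s.real {y | m2.dist y x < r} ≤
      C * s'.real {y | m1.dist y x < B * r})
    (c2 : ∀ (x : M) (r : ℝ), 0 < r → s'.real {y | m1.dist y x < r} ≤
      C' * s.real {y | m2.dist y x < A * r})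
    (hl : @LowDens M m2 _ s) : @LowDens M m1 _ s' := by
  obtain ⟨κ, r0, hκ, hr0, h⟩ := hl
  refine ⟨κ / (C * B ^ 2), B * r0, by positivity, by positivity, fun x hx r hr hr' => ?_⟩
  have hsup : @Sup M m2 _ s x := by
    intro ρ hρ
    have h1 := hx (ρ / A) (by positivity)
    have h2 := c2 x (ρ / A) (by positivity)
    have h3 : A * (ρ / A) = ρ := by field_simp
    rw [h3] at h2
    have h4 : 0 < C' * s.real {y | m2.dist y x < ρ} := lt_of_lt_of_le h1 h2
    exact (pos_iff_pos_of_mul_pos h4).1 hC'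
  have h1 := h x hsup (r / B) (by positivity) (by
    rw [div_le_iff₀ hB]; linarith)
  have h2 := c1 x (r / B) (by positivity)
  have h3 : B * (r / B) = r := by field_simp
  rw [h3] at h2
  have h4 : κ * (r / B) ^ 2 ≤ C * s'.real {y | m1.dist y x < r} := h1.trans h2
  show κ / (C * B ^ 2) * r ^ 2 ≤ s'.real {y | m1.dist y x < r}
  have h5 : κ / (C * B ^ 2) * r ^ 2 = (κ * (r / B) ^ 2) / C := by field_simp
  rw [h5, div_le_iff₀ hC]
  linarith

variable {M : Type u} [tM : TopologicalSpace M] [T2Space M] [CompactSpace M] [ChartedSpace E4 M]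
  [IsManifold 𝓘(ℝ, E4) ∞ M] [MeasurableSpace M] [BorelSpace M]

theorem isClosed_le_dist (m : MetricSpace M)
    (h : m.toPseudoMetricSpace.toUniformSpace.toTopologicalSpace = tM) (x : M) (r : ℝ) :
    IsClosed {y | m.dist y x ≤ r} := by
  subst h
  exact isClosed_closedBall (x := x) (ε := r)

theorem isOpen_lt_dist (m : MetricSpace M)
    (h : m.toPseudoMetricSpace.toUniformSpace.toTopologicalSpace = tM) (x : M) (r : ℝ) :
    IsOpen {y | m.dist y x < r} := by
  subst h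
  exact isOpen_ball (x := x) (ε := r)

theorem comp_ball (m1 m2 : MetricSpace M)
    (h1 : m1.toPseudoMetricSpace.toUniformSpace.toTopologicalSpace = tM)
    (h2 : m2.toPseudoMetricSpace.toUniformSpace.toTopologicalSpace = tM) (b1 : BL m1)
    (b2 : BL m2) {s s' : Measure M} [IsFiniteMeasure s] {C : ℝ}
    (hC : ∀ K U : Set M, IsClosed K → IsOpen U → K ⊆ U → s.real K ≤ C * s'.real U) :
    ∃ B : ℝ, 0 < B ∧ ∀ (x : M) (r : ℝ), 0 < r → s.real {y | m2.dist y x < r} ≤
      C * s'.real {y | m1.dist y x < B * r} := by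
  obtain ⟨B, hB, hBd⟩ := metric_equiv m1 m2 h2 b1 b2
  refine ⟨2 * B, by positivity, fun x r hr => ?_⟩
  have e1 : s.real {y | m2.dist y x < r} ≤ s.real {y | m2.dist y x ≤ r} :=
    measureReal_mono fun y hy => (show m2.dist y x < r from hy).le
  refine e1.trans (hC _ _ (isClosed_le_dist m2 h2 x r) (isOpen_lt_dist m1 h1 x _) ?_)
  intro y hy
  have h3 : m2.dist y x ≤ r := hy
  have h4 := hBd y x
  show m1.dist y x < 2 * B * r
  have h5 : B * m2.dist y x ≤ B * r := by gcongr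
  have h6 : 0 < B * r := by positivity
  linarith

/-- **LOWD**. -/
theorem lowd [Nonempty M] (m1 m2 : MetricSpace M)
    (h1 : m1.toPseudoMetricSpace.toUniformSpace.toTopologicalSpace = tM)
    (h2 : m2.toPseudoMetricSpace.toUniformSpace.toTopologicalSpace = tM) (b1 : BL m1)
    (b2 : BL m2) {J : EndF E4 M} (hJ2 : ∀ x v, atJ J x (atJ J x v) = -v)
    {F F' : F2 E4 M} (hF : Smooth2 F) (hF' : Smooth2 F') (hp : SPosG J F) (hp' : SPosG J F')
    {S : X2 M →ₗ[ℝ] ℝ} (hS : ∀ b : X2 M, PosG J (b : F2 E4 M) → 0 ≤ S b) {s s' : Measure M}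
    (hs : TRM F S s) (hs' : TRM F' S s') (hl : @LowDens M m2 _ s) : @LowDens M m1 _ s' := by
  have := hs.fin
  have := hs'.fin
  obtain ⟨C, hC, hC1⟩ := comp_meas hJ2 hF hF' hp hp' hS hs hs'
  obtain ⟨C', hC', hC2⟩ := comp_meas hJ2 hF' hF hp' hp hS hs' hs
  obtain ⟨B, hB, c1⟩ := comp_ball m1 m2 h1 h2 b1 b2 hC1
  obtain ⟨A, hA, c2⟩ := comp_ball m2 m1 h2 h1 b2 b1 hC2
  exact lowDens_of m1 m2 hA hB hC hC' c1 c2 hl

/-- for some metric (inducing the topology, bi-Lipschitz to the charts) and some positive form, the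
trace measure of `S` has the lower density bound. -/
def HasLow (J : EndF E4 M) (S : X2 M →ₗ[ℝ] ℝ) : Prop :=
  ∃ (m : MetricSpace M) (F : F2 E4 M) (s : Measure M),
    m.toPseudoMetricSpace.toUniformSpace.toTopologicalSpace = tM ∧ BL m ∧ Smooth2 F ∧
    SPosG J F ∧ TRM F S s ∧ @LowDens M m _ s

end Low

section Fin

variable {M : Type u} [MetricSpace M] [CompactSpace M] [ChartedSpace E4 M]
  [IsManifold 𝓘(ℝ, E4) ∞ M] [MeasurableSpace M] [BorelSpace M]

theorem trm_of_rm {D : Dat M} {S : X2 M →ₗ[ℝ] ℝ} {s : Measure M} (h : D.IsRM S s) :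
    TRM D.F S s := ⟨h.fin, h.trace⟩

/-- the producer: in the world of any metric. -/
theorem hasLow_of {D : Dat M} {S : X2 M →ₗ[ℝ] ℝ} {s : Measure M} (h : D.IsRM S s)
    (hl : LowDens s) : HasLow D.J S :=
  ⟨inferInstance, D.F, s, rfl, D.bl, Int.dat_smF D, Int.dat_sposF D, trm_of_rm h, hl⟩

end Fin

/-- the output of SW + FAM + SWC-AN in terms of the topology of `M` only. -/
def TOPLIM : Prop :=
  ∀ (M : Type u) [TopologicalSpace M] [T2Space M] [CompactSpace M] [ConnectedSpace M]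
    [ChartedSpace E4 M] [IsManifold 𝓘(ℝ, E4) ∞ M] [MeasurableSpace M] [BorelSpace M]
    (w : Trip M), Pos3 w → T4R (w 0) → ∀ e ∈ HZ M, ip (w 0) e e = 0 → e ≠ 0 →
    ∃ (t : Fin 3 → ℝ) (J' : EndF E4 M) (S : X2 M →ₗ[ℝ] ℝ), JT w t J' ∧ PCur J' S ∧
      (∀ b : Z2 M, S b.1 = ip (w 0) e (cls b)) ∧ 0 < S (wt w t).1 ∧ HasLow J' S

section Fin2

variable {M : Type u} [m1 : MetricSpace M] [CompactSpace M] [ChartedSpace E4 M]
  [IsManifold 𝓘(ℝ, E4) ∞ M] [MeasurableSpace M] [BorelSpace M]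

theorem lowd_rm [Nonempty M] (D : Dat M) {S : X2 M →ₗ[ℝ] ℝ} (hS : PCur D.J S) {s' : Measure M}
    (hs' : D.IsRM S s')
    (h : HasLow D.J S) : LowDens s' := by
  have k1 := D.sq
  have k2 := Int.dat_smF D
  have k3 : SPosG D.J D.F := Int.dat_sposF D
  have k4 := trm_of_rm hs'
  have k5 : BL m1 := D.bl
  have k6 := hS.nonneg
  have L := @lowd M m1.toPseudoMetricSpace.toUniformSpace.toTopologicalSpace inferInstance
    inferInstance _ _ _ _ _ m1
  obtain ⟨m2, F, s, h2, b2, hF, hp, hs, hl⟩ := h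
  exact L m2 rfl h2 k5 b2 k1 hF k2 hp k3 k6 hs k4 hl

end Fin2

/-- **TOPLIM ⇒ SWLIM**. -/
theorem swlim_of (h : TOPLIM.{u}) : SWLIM.{u} := by
  intro M m1 _ _ _ _ _ _ b1 w hw hT e he h0 hne
  obtain ⟨t, J', S, hJT, hPC, hcl, hpos, hex⟩ := h M w hw hT e he h0 hne
  refine ⟨t, J', S, hJT, hPC, hcl, hpos, ?_⟩
  rintro D s' rfl hs'
  exact lowd_rm D hPC hs' hex

end

end Crest.Agent.R235.SwcLowD_291
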