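import Crest.Agent.R226.ChartMet_842
import Crest.Agent.R226.DistLoc_549
import Crest.Agent.R240.Met

/-!
Row 235 (S0364), package SWC (helper291): the Riemannian distance of a smooth Riemannian metric is
bi-Lipschitz to the charts on compact sets (`Met.BiLip`).
-/

set_option autoImplicit false
set_option maxSynthPendingDepth 3
set_option linter.unusedSectionVars false

open Bundle Set Filter Topology Metric
open scoped ContDiff Manifold NNReal
open Crest.Agent.R226 Crest.Agent.R244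

noncomputable section

namespace Crest.Agent.R235.SwcRBil_291

/-! ### from local to compact -/

/-- local anti-Lipschitz + injective ⇒ anti-Lipschitz on compact sets (values in a compact metric
space). -/
theorem antilip_compact' {E X : Type*} [NormedAddCommGroup E] [MetricSpace X] [CompactSpace X]
    {f : E → X} {K : Set E} (hK : IsCompact K) (hf : ContinuousOn f K) (hinj : InjOn f K)
    (hloc : ∀ y0 ∈ K, ∃ c : ℝ, 0 < c ∧ ∃ U ∈ 𝓝 y0, ∀ y ∈ U, ∀ z ∈ U,
      c * ‖y - z‖ ≤ dist (f y) (f z)) :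
    ∃ c : ℝ, 0 < c ∧ ∀ y ∈ K, ∀ z ∈ K, c * ‖y - z‖ ≤ dist (f y) (f z) := by
  have hiso := kuratowskiEmbedding.isometry X
  have hd : ∀ a b : X, ‖kuratowskiEmbedding X a - kuratowskiEmbedding X b‖ = dist a b := by
    intro a b
    rw [← dist_eq_norm, hiso.dist_eq]
  obtain ⟨c, hc, h⟩ := Crest.Agent.R240.Met.antilip_compact
    (f := fun y => kuratowskiEmbedding X (f y)) hK (hiso.continuous.comp_continuousOn hf)
    (fun y hy z hz hyz => hinj hy hz (hiso.injective hyz)) (by
      intro y0 hy0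
      obtain ⟨c, hc, U, hU, h⟩ := hloc y0 hy0
      refine ⟨c, hc, U, hU, fun y hy z hz => ?_⟩
      rw [hd]
      exact h y hy z hz)
  refine ⟨c, hc, fun y hy z hz => ?_⟩
  rw [← hd]
  exact h y hy z hz

variable {n : ℕ} {M : Type*} [MetricSpace M] [ChartedSpace (EuclideanSpace ℝ (Fin n)) M]
  [IsManifold (𝓡 n) ∞ M]
  [RiemannianBundle (fun p : M => TangentSpace (𝓡 n) p)]
  [IsContMDiffRiemannianBundle (𝓡 n) ∞ (EuclideanSpace ℝ (Fin n)) (fun p : M => TangentSpace (𝓡 n) p)]
  [IsRiemannianManifold (𝓡 n) M]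

local notation "𝔼" => EuclideanSpace ℝ (Fin n)

theorem isContinuousRiemannianBundle :
    IsContinuousRiemannianBundle (EuclideanSpace ℝ (Fin n)) (fun p : M => TangentSpace (𝓡 n) p) := by
  obtain ⟨g, hg, hg'⟩ := (inferInstance : IsContMDiffRiemannianBundle (𝓡 n) ∞
    (EuclideanSpace ℝ (Fin n)) (fun p : M => TangentSpace (𝓡 n) p)).exists_contMDiff
  exact ⟨g, hg.continuous, hg'⟩

attribute [local instance] isContinuousRiemannianBundle

open ChartMet842

theorem isChartMetric_gm (x₀ : M) : CNInt.IsChartMetric x₀ (gm (n := n) x₀) := by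
  intro y _ u
  exact (norm_sq_dS x₀ y u).symm

/-- local ellipticity. -/
theorem ell (x₀ : M) {a0 : 𝔼} (ha : a0 ∈ (chartAt 𝔼 x₀).target) :
    ∃ R lo up : ℝ, 0 < R ∧ 0 < lo ∧ 0 < up ∧ ball a0 R ⊆ (chartAt 𝔼 x₀).target ∧
      ∀ y ∈ ball a0 R, ∀ v : 𝔼, lo ^ 2 * ‖v‖ ^ 2 ≤ gm x₀ y v v ∧ gm x₀ y v v ≤ up ^ 2 * ‖v‖ ^ 2 := by
  have hLC := isLC_gm (n := n) x₀
  obtain ⟨R, hR, hsub⟩ := Metric.nhds_basis_closedBall.mem_iff.1 (hLC.isOpen.mem_nhds ha)
  have hcont : ContinuousOn (fun q : 𝔼 × 𝔼 => gm x₀ q.1 q.2 q.2)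
      (closedBall a0 R ×ˢ sphere (0 : 𝔼) 1) := by
    have h1 : ContinuousOn (fun q : 𝔼 × 𝔼 => gm x₀ q.1) (closedBall a0 R ×ˢ sphere (0 : 𝔼) 1) :=
      hLC.g_smooth.continuousOn.comp continuous_fst.continuousOn fun q hq => hsub hq.1
    exact (h1.clm_apply continuous_snd.continuousOn).clm_apply continuous_snd.continuousOn
  have hK : IsCompact (closedBall a0 R ×ˢ sphere (0 : 𝔼) 1) :=
    (isCompact_closedBall _ _).prod (isCompact_sphere _ _)
  obtain ⟨C, hC⟩ := hK.exists_bound_of_continuousOn hcont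
  have hlow : ∃ c : ℝ, 0 < c ∧ ∀ q ∈ closedBall a0 R ×ˢ sphere (0 : 𝔼) 1,
      c ≤ gm x₀ q.1 q.2 q.2 := by
    rcases (closedBall a0 R ×ˢ sphere (0 : 𝔼) 1).eq_empty_or_nonempty with h0 | h0
    · exact ⟨1, one_pos, fun q hq => by rw [h0] at hq; exact absurd hq (notMem_empty _)⟩
    · obtain ⟨q0, hq0, hmin⟩ := hK.exists_isMinOn h0 hcont
      refine ⟨gm x₀ q0.1 q0.2 q0.2, hLC.g_pos _ (hsub hq0.1) _ ?_, fun q hq => hmin hq⟩
      intro h1
      have := hq0.2
      rw [h1] at this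
      simp at this
  obtain ⟨c, hc, hlow⟩ := hlow
  have hscale : ∀ (y v : 𝔼), v ≠ 0 → gm x₀ y v v =
      ‖v‖ ^ 2 * gm x₀ y (‖v‖⁻¹ • v) (‖v‖⁻¹ • v) := by
    intro y v hv
    have h1 : ‖v‖ ≠ 0 := norm_ne_zero_iff.2 hv
    simp only [map_smul, _root_.smul_apply, smul_eq_mul]
    field_simp
  refine ⟨R, √c, √(|C| + 1), hR, Real.sqrt_pos.2 hc, Real.sqrt_pos.2 (by positivity),
    ball_subset_closedBall.trans hsub, ?_⟩
  intro y hy v
  rw [Real.sq_sqrt hc.le, Real.sq_sqrt (by positivity)]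
  by_cases hv : v = 0
  · subst hv
    simp
  · have h1 : ‖v‖ ≠ 0 := norm_ne_zero_iff.2 hv
    have hmem : ((y, ‖v‖⁻¹ • v) : 𝔼 × 𝔼) ∈ closedBall a0 R ×ˢ sphere (0 : 𝔼) 1 := by
      refine ⟨ball_subset_closedBall hy, ?_⟩
      rw [mem_sphere_zero_iff_norm, norm_smul, norm_inv, norm_norm, inv_mul_cancel₀ h1]
    have h2 := hlow _ hmem
    have h3 := (le_abs_self _).trans (hC _ hmem)
    have h4 : 0 ≤ ‖v‖ ^ 2 := sq_nonneg _
    rw [hscale y v hv]
    constructor
    · nlinarith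
    · have h5 : gm x₀ y (‖v‖⁻¹ • v) (‖v‖⁻¹ • v) ≤ |C| + 1 := by
        have := le_abs_self C
        exact h3.trans (by linarith)
      nlinarith

/-- the local two-sided estimate. -/
theorem loc (x₀ : M) {a0 : 𝔼} (ha : a0 ∈ (chartAt 𝔼 x₀).target) :
    ∃ lo up : ℝ, 0 < lo ∧ 0 < up ∧ ∃ U ∈ 𝓝 a0, ∀ y ∈ U, ∀ z ∈ U,
      lo * ‖y - z‖ ≤ dist ((chartAt 𝔼 x₀).symm y) ((chartAt 𝔼 x₀).symm z) ∧
      dist ((chartAt 𝔼 x₀).symm y) ((chartAt 𝔼 x₀).symm z) ≤ up * ‖y - z‖ := by
  obtain ⟨R, lo, up, hR, hlo, hup, hsub, hell⟩ := ell (n := n) x₀ ha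
  refine ⟨lo, up, hlo, hup, ball a0 (R / 4), ball_mem_nhds _ (by positivity), ?_⟩
  intro y hy z hz
  have hyR : y ∈ ball a0 R := ball_subset_ball (by linarith) hy
  have hzR : z ∈ ball a0 R := ball_subset_ball (by linarith) hz
  constructor
  · -- lower bound
    have hsub' : ball y (R / 2) ⊆ ball a0 R := by
      intro b hb
      rw [mem_ball] at hb hy ⊢
      have := dist_triangle b y a0
      linarith
    by_cases hd : dist ((chartAt 𝔼 x₀).symm y) ((chartAt 𝔼 x₀).symm z) < lo * (R / 2)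
    · have h := DistLoc549.lower_dist (isChartMetric_gm x₀) (O := ball y (R / 2)) (a := y)
        (h := fun b => lo ^ 2 * ‖b - y‖ ^ 2 / 2) isOpen_ball (hsub'.trans hsub)
        (mem_ball_self (by positivity)) (by simp) (fun b _ => by positivity) (by
          intro b hb
          have hf : HasFDerivAt (fun b : 𝔼 => lo ^ 2 * ‖b - y‖ ^ 2 / 2)
              ((lo ^ 2) • innerSL ℝ (b - y)) b := by
            have h1 := ((hasFDerivAt_id b).sub_const y).norm_sq
            have h2 := h1.const_mul (lo ^ 2 / 2)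
            refine (h2.congr_fderiv ?_).congr_of_eventuallyEq (Eventually.of_forall fun z => ?_)
            · ext w
              simp only [_root_.smul_apply, smul_eq_mul, ContinuousLinearMap.comp_id, id, nsmul_eq_mul]
              push_cast
              ring
            · simp only [id]
              ring
          refine ⟨hf.differentiableAt, fun w => ?_⟩
          rw [hf.fderiv]
          have e1 : ((lo ^ 2) • innerSL ℝ (b - y)) w = lo ^ 2 * inner ℝ (b - y) w := rfl
          rw [e1]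
          have h3 := (hell b (hsub' hb) w).1
          have h4 := real_inner_le_norm (b - y) w
          have h5 := abs_real_inner_le_norm (b - y) w
          have h6 : inner ℝ (b - y) w ^ 2 ≤ (‖b - y‖ * ‖w‖) ^ 2 := by
            rw [← sq_abs]
            exact pow_le_pow_left₀ (abs_nonneg _) h5 2
          calc (lo ^ 2 * inner ℝ (b - y) w) ^ 2 = (lo ^ 2) ^ 2 * inner ℝ (b - y) w ^ 2 := by ring
            _ ≤ (lo ^ 2) ^ 2 * (‖b - y‖ * ‖w‖) ^ 2 := by gcongr
            _ = (lo ^ 2 * ‖b - y‖ ^ 2) * (lo ^ 2 * ‖w‖ ^ 2) := by ring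
            _ ≤ (lo ^ 2 * ‖b - y‖ ^ 2) * gm x₀ b w w := by gcongr
            _ = 2 * (lo ^ 2 * ‖b - y‖ ^ 2 / 2) * gm x₀ b w w := by ring)
        (ρ := lo * (R / 2)) (by
          intro r hr hrρ
          have e : {b ∈ ball y (R / 2) | 2 * (lo ^ 2 * ‖b - y‖ ^ 2 / 2) ≤ r ^ 2} =
              closedBall y (r / lo) := by
            ext b
            simp only [mem_ball, mem_ofPred_eq, mem_closedBall, dist_eq_norm]
            have h1 : 2 * (lo ^ 2 * ‖b - y‖ ^ 2 / 2) ≤ r ^ 2 ↔ ‖b - y‖ ≤ r / lo := by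
              rw [le_div_iff₀ hlo]
              have e2 : 2 * (lo ^ 2 * ‖b - y‖ ^ 2 / 2) = (‖b - y‖ * lo) ^ 2 := by ring
              rw [e2]
              exact pow_le_pow_iff_left₀ (by positivity) hr.le (by norm_num)
            rw [h1]
            constructor
            · exact fun h => h.2
            · intro h
              refine ⟨h.trans_lt ?_, h⟩
              rw [div_lt_iff₀ hlo]
              linarith
          rw [e]
          exact isCompact_closedBall _ _) hd
      have h7 := h.2.2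
      rw [(chartAt 𝔼 x₀).right_inv (hsub hzR)] at h7
      have e3 : √(2 * (lo ^ 2 * ‖z - y‖ ^ 2 / 2)) = lo * ‖y - z‖ := by
        have : 2 * (lo ^ 2 * ‖z - y‖ ^ 2 / 2) = (lo * ‖y - z‖) ^ 2 := by
          rw [norm_sub_rev]; ring
        rw [this, Real.sqrt_sq (by positivity)]
      rw [e3] at h7
      exact h7
    · rw [not_lt] at hd
      refine le_trans ?_ hd
      have h8 : ‖y - z‖ ≤ R / 2 := by
        rw [← dist_eq_norm]
        rw [mem_ball] at hy hz
        have := dist_triangle_right y z a0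
        linarith
      gcongr
  · -- upper bound
    have hseg : ∀ u ∈ Icc (0 : ℝ) 1, y + u • (z - y) ∈ ball a0 R := by
      intro u hu
      exact (convex_ball a0 R).add_smul_sub_mem hyR hzR hu
    have h := DistLoc549.dist_le_of_speed (isChartMetric_gm (n := n) x₀)
      (c := fun t : ℝ => y + t • (z - y)) (s := 0) (t := 1) (σ := up * ‖y - z‖) zero_le_one
      (by positivity) (by fun_prop) (fun u hu => hsub (hseg u hu)) (by
        intro u hu
        have hder : deriv (fun t : ℝ => y + t • (z - y)) u = z - y := by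
          have : HasDerivAt (fun t : ℝ => y + t • (z - y)) (z - y) u := by
            simpa using ((hasDerivAt_id u).smul_const (z - y)).const_add y
          exact this.deriv
        rw [hder]
        have h9 := (hell _ (hseg u (Ioo_subset_Icc_self hu)) (z - y)).2
        rw [norm_sub_rev] at h9
        calc _ ≤ up ^ 2 * ‖y - z‖ ^ 2 := h9
          _ = (up * ‖y - z‖) ^ 2 := by ring)
    simpa using h

/-- **RBILIP**. -/
theorem bilip [CompactSpace M] : Crest.Agent.R240.Met.BiLip 𝔼 M := by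
  intro p K hK hKt
  have hcont : ContinuousOn (chartAt 𝔼 p).symm K := (chartAt 𝔼 p).continuousOn_symm.mono hKt
  have hlow : ∃ c : ℝ, 0 < c ∧ ∀ y ∈ K, ∀ z ∈ K, c * ‖y - z‖ ≤
      dist ((chartAt 𝔼 p).symm y) ((chartAt 𝔼 p).symm z) := by
    refine antilip_compact' hK hcont ((chartAt 𝔼 p).symm.injOn.mono hKt) fun y0 hy0 => ?_
    obtain ⟨lo, up, hlo, -, U, hU, h⟩ := loc (n := n) p (hKt hy0)
    exact ⟨lo, hlo, U, hU, fun y hy z hz => (h y hy z hz).1⟩
  have hup : ∃ C : ℝ≥0, LipschitzOnWith C (chartAt 𝔼 p).symm K := by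
    apply LocallyLipschitzOn.exists_lipschitzOnWith_of_compact hK
    intro y0 hy0
    obtain ⟨lo, up, -, hup, U, hU, h⟩ := loc (n := n) p (hKt hy0)
    refine ⟨⟨up, hup.le⟩, U, mem_nhdsWithin_of_mem_nhds hU, ?_⟩
    refine LipschitzOnWith.of_dist_le_mul fun y hy z hz => ?_
    rw [dist_eq_norm y z]
    exact (h y hy z hz).2
  obtain ⟨c, hc, hlow⟩ := hlow
  obtain ⟨C, hC⟩ := hup
  refine ⟨c, C + 1, hc, by positivity, fun y hy z hz => ⟨hlow y hy z hz, ?_⟩⟩
  have h1 := hC.dist_le_mul y hy z hz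
  rw [dist_eq_norm y z] at h1
  refine h1.trans ?_
  have := norm_nonneg (y - z)
  nlinarith

end Crest.Agent.R235.SwcRBil_291
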