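import Crest.Agent.R235.SwcProd_215
import Crest.Agent.R235.SwcLowD_291
import Crest.Agent.R235.SwcRBil_291
import Crest.Agent.R235.SwcLim_291
import Crest.Agent.R235.Riem_399
import Crest.Agent.R235.QSTri_451

/-!
Row 235 (S0364), PACKAGE SWC, node PROD (helper291): `AN, PROD, MODX ⇒ TOPLIM ⇒ SWLIM ⇒ SWCUR`.
-/

set_option autoImplicit false
set_option maxSynthPendingDepth 3
set_option linter.unusedSectionVars false
set_option linter.style.haveILetI false

open scoped ContDiff ENNReal NNReal Topology Manifold Bundle RealInnerProductSpace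
open MeasureTheory Set Filter Metric Bundle

universe u

namespace Crest.Agent.R235.SwcTop_291

open Crest.Agent.R240 Crest.Agent.R240.Ch Crest.Agent.R235 Crest.Agent.R235.Uu_291
open Crest.Agent.R235.Swc Crest.Agent.R235.SwcLowD_291 Crest.Agent.R235.SwcProd_215
open Crest.Agent.R235.SwcGlob_34 Crest.Agent.R235.IndTri_451

noncomputable section

section

variable {M : Type u} [TopologicalSpace M] [T2Space M] [CompactSpace M] [ChartedSpace E4 M]
  [IsManifold 𝓘(ℝ, E4) ∞ M]

/-- nondegeneracy of the intersection form on the integral classes, from the torus type. -/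
theorem nondeg_of_t4r {F : Z2 M} (hV : Int.Vol (F.1.1 : F2 E4 M)) (hT : T4R F) {c : H2 M}
    (hc : c ∈ HZ M) (h : ∀ d : H2 M, ip F c d = 0) : c = 0 := by
  obtain ⟨-, f, g, hff, hgg, hfg, hZ⟩ := hT
  rw [hZ] at hc
  obtain ⟨m, n, rfl⟩ := hc
  have hgf : ∀ i j, ip F (g i) (f j) = if i = j then 1 else 0 := by
    intro i j
    rw [ip_comm, hfg]
    simp only [eq_comm]
  have e1 : ∀ j, ip F (∑ i, (m i : ℝ) • f i + ∑ i, (n i : ℝ) • g i) (g j) = m j := by
    intro j
    rw [ip_add_left hV, ip_sum_left hV, ip_sum_left hV]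
    simp only [ip_smul_left hV, hfg, hgg, mul_zero, Finset.sum_const_zero, add_zero, mul_ite,
      mul_one, Finset.sum_ite_eq', Finset.mem_univ, if_true]
  have e2 : ∀ j, ip F (∑ i, (m i : ℝ) • f i + ∑ i, (n i : ℝ) • g i) (f j) = n j := by
    intro j
    rw [ip_add_left hV, ip_sum_left hV, ip_sum_left hV]
    simp only [ip_smul_left hV, hff, hgf, mul_zero, Finset.sum_const_zero, zero_add, mul_ite,
      mul_one, Finset.sum_ite_eq', Finset.mem_univ, if_true]
  have e3 : ∀ j, (m j : ℝ) = 0 := fun j => by rw [← e1 j]; exact h _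
  have e4 : ∀ j, (n j : ℝ) = 0 := fun j => by rw [← e2 j]; exact h _
  simp only [e3, e4, zero_smul, Finset.sum_const_zero, add_zero]

end

section

variable {M : Type u} [MetricSpace M] [CompactSpace M] [ChartedSpace E4 M]
  [IsManifold 𝓘(ℝ, E4) ∞ M] [MeasurableSpace M] [BorelSpace M]

/-- a current with zero mass vanishes. -/
theorem cur_zero {D : Dat M} {S : X2 M →ₗ[ℝ] ℝ} {s : Measure M} (h : T1_195.Cur D S s)
    (h0 : S D.FX = 0) : S = 0 := by
  have hfin := h.fin
  have h1 : S D.FX = ∫ _, (1 : ℝ) ∂s := h.rm.trace (fun _ => 1) (smoothF_const (E := E4) (M := M) 1)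
    D.FX (by
      funext x
      show D.F x = (1 : ℝ) • D.F x
      rw [one_smul])
  rw [h0] at h1
  simp only [integral_const, smul_eq_mul, mul_one] at h1
  have h2 : s = 0 := by
    rw [← Measure.measure_univ_eq_zero]
    have := h1.symm
    rwa [Measure.real, ENNReal.toReal_eq_zero_iff, or_iff_left (measure_ne_top s univ)] at this
  ext b
  have h3 := h.rm.bound b
  rw [h2] at h3
  simp only [integral_zero_measure, mul_zero, abs_nonpos_iff] at h3
  rw [h.inv b, h3]
  rfl

end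

/-- **AN, PROD, MODX ⇒ TOPLIM**. -/
theorem toplim_of (hA : AN.{u}) (hP : PROD.{u}) (hM : MODX.{u}) : TOPLIM.{u} := by
  intro M tM _ _ _ _ _ _ _ w hw hT c hc h0 hne
  obtain ⟨e, he⟩ := exists_tri hw
  obtain ⟨rb, crb, mM, rfl, hd, hin⟩ := Riem_399.exists_riem (QSTri_451.met_gg he)
  haveI : IsRiemannianManifold (𝓡 4) M := ⟨hd⟩
  haveI := Riem_399.secondCountable (M := M)
  haveI : Nonempty M := inferInstance
  haveI : IsFiniteMeasureOnCompacts (μHE[4] : Measure M) := by
    have : IsLocallyFiniteMeasure (μHE[4] : Measure M) :=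
      Crest.Agent.R247.Ms322.isLocallyFiniteMeasure 4 M
    infer_instance
  obtain ⟨κ0, κ1, κT, i0, i1, iT, S, T, cc, W, sT, ι, ww, τ, C, K, hdata, hsols⟩ :=
    hM M w e hw hT he hin c hc h0 hne
  obtain ⟨t, D, N, Q, U, lam, C', ht, hJT, hal, hF, hU, hQ, hcls⟩ :=
    hP M κ0 κ1 κT S T cc W sT w e ι ww τ C K c hw hdata hsols
  obtain ⟨Sc, s, hcur, hclS, hlow⟩ := hA M D N Q U lam C' hQ
  have hV := hw.vol 0
  have ht0 : (fun i => t i : Fin 3 → ℝ) ≠ 0 := by
    intro h1
    have h2 : t = 0 := by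
      ext i
      exact congrFun h1 i
    rw [h2, norm_zero] at ht
    exact zero_ne_one ht
  -- the bridge for `w_t`
  have hB : T1A_195.Bridge (fun _ => wt w fun i => t i) D.J D := ⟨rfl, hal⟩
  have hPC : PCur D.J Sc := hB.pcur hcur
  have hcl : ∀ b : Z2 M, Sc b.1 = ip (w 0) c (cls b) := by
    intro b
    rw [hclS, ← hB.ip_eq (Q.a0 0) b, hcls]
    exact hw.ip_comb 0 ht0 c (cls b)
  refine ⟨fun i => t i, D.J, Sc, hJT, hPC, hcl, ?_, hasLow_of hcur.rm hlow⟩
  have e1 : (D.FX : X2 M) = (wt w fun i => t i).1 := by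
    apply Subtype.ext
    exact hF
  have e2 : 0 ≤ Sc (wt w fun i => t i).1 := by
    rw [← e1]
    exact hcur.nonneg _ fun x => ⟨(Int.dat_sposF D x).alt, (Int.dat_sposF D x).inv, fun v => by
      rcases eq_or_ne v 0 with rfl | hv
      · simp
      · exact ((Int.dat_sposF D x).pos v hv).le⟩
  refine lt_of_le_of_ne e2 fun h1 => hne ?_
  rw [← e1] at h1
  have h2 := cur_zero hcur h1.symm
  refine nondeg_of_t4r hV hT hc fun d => ?_
  obtain ⟨b, rfl⟩ : ∃ b : Z2 M, cls b = d := (B2 M).mkQ_surjective d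
  rw [← hcl b, h2]
  rfl

/-- **AN, PROD, MODX, BPLUS ⇒ SWCUR**. -/
theorem swcur_of (hA : AN.{u}) (hP : PROD.{u}) (hM : MODX.{u}) (bplus : BPLUS.{u}) :
    SWCUR.{u} :=
  SwcLim_291.swcur_of (swlim_of (toplim_of hA hP hM)) bplus

end

end Crest.Agent.R235.SwcTop_291
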