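import Mathlib
import Crest.Agent.R235.AdjGen_83
import Crest.Agent.R240.IntTop
import Crest.Agent.R240.NrmM

/-!
Row 235 (S0364), helper225: the current of a `J`-curve is positive on the taming form.
-/

set_option autoImplicit false
set_option maxSynthPendingDepth 3

open Set Function Filter MeasureTheory Metric
open scoped Manifold ContDiff Topology

universe u

namespace Crest.Agent.R235.JPos_225

open Crest.Agent.R240 Crest.Agent.R240.Ch Crest.Agent.R235.Glob_370

noncomputable section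

variable {M : Type u} [TopologicalSpace M] [T2Space M] [CompactSpace M] [ChartedSpace E4 M]
  [IsManifold 𝓘(ℝ, E4) ∞ M]

/-- a smooth cut-off. -/
theorem exists_bump (p : M) (U : Set M) (hU : IsOpen U) (hp : p ∈ U) :
    ∃ χ : M → ℝ, SmoothF E4 χ ∧ (∀ x, 0 ≤ χ x) ∧ (∀ x, χ x ≤ 1) ∧ χ p = 1 ∧ tsupport χ ⊆ U := by
  obtain ⟨V, hV, hVo, hVU⟩ : ∃ V : Set M, IsOpen V ∧ p ∈ V ∧ closure V ⊆ U := by
    obtain ⟨K, hK, hKc, hKU⟩ := exists_mem_nhds_isClosed_subset (hU.mem_nhds hp)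
    exact ⟨interior K, isOpen_interior, mem_interior_iff_mem_nhds.2 hK,
      (closure_minimal interior_subset hKc).trans hKU⟩
  obtain ⟨f, hf0, hf1, hf⟩ := exists_contMDiffMap_zero_one_of_isClosed 𝓘(ℝ, E4) (n := (⊤ : ℕ∞))
    (M := M) (s := Vᶜ) (t := {p}) hV.isClosed_compl isClosed_singleton
    (by rw [Set.disjoint_singleton_right]; exact fun h => h hVo)
  refine ⟨fun x => f x, (smoothF_iff _).1 f.contMDiff, fun x => (hf x).1, fun x => (hf x).2,
    hf1 rfl, ?_⟩
  refine subset_trans (closure_mono fun x hx => ?_) hVU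
  by_contra h
  exact hx (hf0 h)

theorem T_pos {w : Trip M} {J : EndF E4 M} (hJ : IsJ w J) (c : JCurve J) :
    0 < c.T (w 0).1 := by
  set F : X2 M := ⟨bp J (w 0).1.1, Smooth2.bp hJ.smooth (w 0).1.2⟩ with hFdef
  have hF : SPosG J (F : F2 E4 M) := Int.sposG_bp hJ.sq (w 0).1.2.1 hJ.tame
  have h0 : c.T (w 0).1 = c.T F := c.pcur.inv _ _ fun x => rfl
  obtain ⟨x0⟩ : Nonempty c.N := inferInstance
  set p := c.f x0 with hp
  set L := c.L p with hL
  obtain ⟨χ, hχs, hχ0, hχ1, hχp, hχU⟩ := exists_bump p L.U L.openU L.mem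
  set b : X2 M := ⟨fmul χ F.1, Smooth2.fmul hχs F.2⟩ with hb
  have hj : ∃ j : Fin L.n, True := by
    have h1 : p ∈ range c.f ∩ L.U := ⟨⟨x0, rfl⟩, L.mem⟩
    rw [L.supp] at h1
    obtain ⟨j, -⟩ := mem_iUnion.1 h1
    exact ⟨j, trivial⟩
  obtain ⟨j0, -⟩ := hj
  have hK : IsCompact (tsupport χ) := (isClosed_tsupport χ).isCompact
  have hbK : ∀ x ∉ tsupport χ, at2 (b.1 : F2 E4 M) x = 0 := by
    intro x hx
    show χ x • at2 (F.1 : F2 E4 M) x = 0
    rw [image_eq_zero_of_notMem_tsupport hx, zero_smul]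
  have hT := c.cur p b (tsupport χ) hK hχU hbK
  have hpb : ∀ (j : Fin L.n) (z : ℂ), pb (L.u j) (b.1 : F2 E4 M) z =
      χ (L.u j z) * pb (L.u j) (F.1 : F2 E4 M) z := fun j z => rfl
  have hD : ∀ (j : Fin L.n), ∀ z ∈ ball (0 : ℂ) 1, dmap (L.u j) z Complex.I =
      atJ J (L.u j z) (dmap (L.u j) z 1) := by
    intro j z hz
    have := (L.disc j).hol.jhol z hz 1
    rwa [mul_one] at this
  have hnn : ∀ (j : Fin L.n), ∀ z ∈ ball (0 : ℂ) 1, 0 ≤ pb (L.u j) (b.1 : F2 E4 M) z := by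
    intro j z hz
    rw [hpb]
    refine mul_nonneg (hχ0 _) ?_
    show 0 ≤ at2 (F.1 : F2 E4 M) (L.u j z) (dmap (L.u j) z 1) (dmap (L.u j) z Complex.I)
    rw [hD j z hz]
    by_cases hv : dmap (L.u j) z 1 = 0
    · rw [hv]; simp
    · exact ((hF (L.u j z)).pos _ hv).le
  have hTb : 0 < c.T b := by
    rw [hT]
    refine Finset.sum_pos' (fun j _ => setIntegral_nonneg measurableSet_ball (hnn j))
      ⟨j0, Finset.mem_univ _, ?_⟩
    have hint := AdjGen_83.integrableOn_disc c p j0 b.2 hK hχU hbK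
    rw [setIntegral_pos_iff_support_of_nonneg_ae
      ((ae_restrict_iff' measurableSet_ball).2 (Eventually.of_forall (hnn j0))) hint]
    -- near the centre
    have hc : ContinuousAt (fun z => χ (L.u j0 z)) 0 := by
      have h1 : ContinuousAt (L.u j0) 0 :=
        ((L.disc j0).hol.smooth.continuousOn).continuousAt (isOpen_ball.mem_nhds (mem_ball_self one_pos))
      exact ((smoothF_iff _).2 hχs).continuous.continuousAt.comp h1
    have h2 : ∀ᶠ z in 𝓝 (0 : ℂ), 0 < χ (L.u j0 z) := by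
      refine hc.eventually (lt_mem_nhds ?_)
      show 0 < χ (L.u j0 0)
      rw [L.centre, hχp]
      exact one_pos
    obtain ⟨r, hr, hr2⟩ := Metric.eventually_nhds_iff_ball.1 h2
    have hsub : ball (0 : ℂ) (min r 1) \ {0} ⊆
        (support (pb (L.u j0) (b.1 : F2 E4 M))) ∩ ball (0 : ℂ) 1 := by
      rintro z ⟨hz, hz0⟩
      have hz1 : z ∈ ball (0 : ℂ) 1 := ball_subset_ball (min_le_right _ _) hz
      have hzr : z ∈ ball (0 : ℂ) r := ball_subset_ball (min_le_left _ _) hz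
      refine ⟨?_, hz1⟩
      rw [mem_support, hpb]
      refine mul_ne_zero (hr2 z hzr).ne' ?_
      have hv : dmap (L.u j0) z 1 ≠ 0 := fun h =>
        one_ne_zero ((L.disc j0).imm z hz1 hz0 1 h)
      show at2 (F.1 : F2 E4 M) (L.u j0 z) (dmap (L.u j0) z 1) (dmap (L.u j0) z Complex.I) ≠ 0
      rw [hD j0 z hz1]
      exact ((hF (L.u j0 z)).pos _ hv).ne'
    refine lt_of_lt_of_le ?_ (measure_mono hsub)
    refine (isOpen_ball.sdiff isClosed_singleton).measure_pos volume ?_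
    have hρ : 0 < min r 1 := lt_min hr one_pos
    refine ⟨((min r 1 / 2 : ℝ) : ℂ), ?_, ?_⟩
    · rw [mem_ball_zero_iff, Complex.norm_real, Real.norm_eq_abs, abs_of_pos (half_pos hρ)]
      exact half_lt_self hρ
    · intro h
      have h3 : ((min r 1 / 2 : ℝ) : ℂ) = 0 := h
      have h4 : (min r 1 / 2 : ℝ) = 0 := by exact_mod_cast h3
      linarith
  have hχs' : SmoothF E4 (fun x => 1 - χ x) := by
    refine (smoothF_iff _).1 ?_
    exact contMDiff_const.sub ((smoothF_iff _).2 hχs)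
  set b' : X2 M := ⟨fmul (fun x => 1 - χ x) F.1, Smooth2.fmul hχs' F.2⟩ with hb'
  have hT' : 0 ≤ c.T b' := by
    refine c.pcur.nonneg _ ?_
    have hFP : PosG J (F.1 : F2 E4 M) := fun x => ⟨(hF x).alt, (hF x).inv, fun v => by
      by_cases hv : v = 0
      · rw [hv]; simp
      · exact ((hF x).pos v hv).le⟩
    exact NM.posG_fmul hFP fun x => by linarith [hχ1 x]
  have hsum : F = b + b' := by
    apply Subtype.ext
    funext x
    show (F.1 : F2 E4 M) x = χ x • (F.1 : F2 E4 M) x + (1 - χ x) • (F.1 : F2 E4 M) x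
    rw [← add_smul]
    simp
  rw [h0, hsum, map_add]
  linarith

end

end Crest.Agent.R235.JPos_225
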