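import Crest.Agent.R235.TorLTa_348

/-!
Row 235 (S0364), PACKAGE TOR, leaf TOR-LT (helper348): `LOCFOL ⇒ LOCTUBE`.
The ball chart `Ψ` is rescaled to a total chart `Φ y = Ψ ((y 2, y 3), β (y 0, y 1))`,
`β : ℝ² ≃ ball 0 r`; all slices are `J`-tori in the class of `σ`.
-/

set_option autoImplicit false
set_option maxSynthPendingDepth 3

open Set Function Filter MeasureTheory
open scoped Manifold ContDiff Topology

universe u

namespace Crest.Agent.R235.TorLT_348

open Crest.Agent.R235 Crest.Agent.R240 Crest.Agent.R240.Ch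
open Crest.Agent.R235.TorLF_348 Crest.Agent.R235.TorLTa_348

noncomputable section

/-- the base coordinates. -/
def bL : E4 →L[ℝ] Ep :=
  LinearMap.toContinuousLinearMap
    { toFun := fun y => WithLp.toLp 2 ![y 0, y 1]
      map_add' := fun u v => by
        ext i
        fin_cases i <;> simp
      map_smul' := fun c v => by
        ext i
        fin_cases i <;> simp }

/-- the leaf coordinates. -/
def fL : E4 →L[ℝ] Ep :=
  LinearMap.toContinuousLinearMap
    { toFun := fun y => WithLp.toLp 2 ![y 2, y 3]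
      map_add' := fun u v => by
        ext i
        fin_cases i <;> simp
      map_smul' := fun c v => by
        ext i
        fin_cases i <;> simp }

theorem bL_lv (s t : ℝ) : bL (lv s t) = 0 := by
  ext i
  fin_cases i <;> simp [bL, lv]

theorem fL_lv (v : Ep) : fL (lv (v 0) (v 1)) = v := by
  ext i
  fin_cases i <;> simp [fL, lv]

theorem fL_lv' (m n : ℤ) : fL (lv m n) = iv ![m, n] := by
  ext i
  fin_cases i <;> simp [fL, lv, iv]

theorem eq_of_bL_fL {y z : E4} (h1 : bL y = bL z) (h2 : fL y = fL z) : y = z := by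
  have a0 := congrArg (fun v : Ep => v 0) h1
  have a1 := congrArg (fun v : Ep => v 1) h1
  have a2 := congrArg (fun v : Ep => v 0) h2
  have a3 := congrArg (fun v : Ep => v 1) h2
  simp [bL, fL] at a0 a1 a2 a3
  ext i
  fin_cases i <;> assumption

/-- the rescaling. -/
def rs (r : ℝ) (y : E4) : Ep × Ep := (fL y, OpenPartialHomeomorph.univBall (0 : Ep) r (bL y))

theorem rs_contDiff (r : ℝ) : ContDiff ℝ ∞ (rs r) :=
  fL.contDiff.prodMk ((OpenPartialHomeomorph.contDiff_univBall).comp bL.contDiff)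

variable {r : ℝ}

theorem univBall_mem (hr : 0 < r) (c : Ep) :
    OpenPartialHomeomorph.univBall (0 : Ep) r c ∈ Metric.ball (0 : Ep) r := by
  have h := (OpenPartialHomeomorph.univBall (0 : Ep) r).map_source
    (x := c) (by rw [OpenPartialHomeomorph.univBall_source]; exact mem_univ _)
  rwa [OpenPartialHomeomorph.univBall_target _ hr] at h

theorem univBall_inj {c c' : Ep} (h : OpenPartialHomeomorph.univBall (0 : Ep) r c =
    OpenPartialHomeomorph.univBall (0 : Ep) r c') : c = c' := by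
  refine (OpenPartialHomeomorph.univBall (0 : Ep) r).injOn ?_ ?_ h
  all_goals
    rw [OpenPartialHomeomorph.univBall_source]
    exact mem_univ _

theorem fderiv_univBall_inj (hr : 0 < r) (c : Ep) {v : Ep}
    (h : fderiv ℝ (OpenPartialHomeomorph.univBall (0 : Ep) r) c v = 0) : v = 0 := by
  have h1 : DifferentiableAt ℝ (OpenPartialHomeomorph.univBall (0 : Ep) r) c :=
    (OpenPartialHomeomorph.contDiff_univBall (n := 1)).differentiable (by simp) c
  have h2 : DifferentiableAt ℝ (OpenPartialHomeomorph.univBall (0 : Ep) r).symm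
      (OpenPartialHomeomorph.univBall (0 : Ep) r c) :=
    ((OpenPartialHomeomorph.contDiffOn_univBall_symm (n := 1)).contDiffAt
      (Metric.isOpen_ball.mem_nhds (univBall_mem hr c))).differentiableAt (by simp)
  have h3 := fderiv_comp c h2 h1
  have h4 : (OpenPartialHomeomorph.univBall (0 : Ep) r).symm ∘
      (OpenPartialHomeomorph.univBall (0 : Ep) r) = id := by
    funext x
    exact (OpenPartialHomeomorph.univBall (0 : Ep) r).left_inv
      (by rw [OpenPartialHomeomorph.univBall_source]; exact mem_univ _)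
  rw [h4, fderiv_id] at h3
  have h5 := congrArg (fun L : Ep →L[ℝ] Ep => L v) h3
  simp only [ContinuousLinearMap.comp_apply, h, map_zero] at h5
  exact h5

/-- the derivative of the rescaling. -/
theorem fderiv_rs (y v : E4) : fderiv ℝ (rs r) y v =
    (fL v, fderiv ℝ (OpenPartialHomeomorph.univBall (0 : Ep) r) (bL y) (bL v)) := by
  have h1 : DifferentiableAt ℝ (OpenPartialHomeomorph.univBall (0 : Ep) r) (bL y) :=
    (OpenPartialHomeomorph.contDiff_univBall (n := 1)).differentiable (by simp) _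
  have h2 := h1.hasFDerivAt.comp y bL.hasFDerivAt
  have h3 := (fL.hasFDerivAt (x := y)).prodMk h2
  have h4 : fderiv ℝ (rs r) y = _ := h3.fderiv
  rw [h4]
  rfl

section Main

variable {M : Type u} [TopologicalSpace M] [T2Space M] [CompactSpace M]
  [ChartedSpace E4 M] [IsManifold 𝓘(ℝ, E4) ∞ M]
variable {w : Trip M} {f : H2 M} {σ : Ep → M} {Ψ : Ep × Ep → M}

/-- the total chart. -/
def tot (r : ℝ) (Ψ : Ep × Ep → M) (y : E4) : M := Ψ (rs r y)

theorem tube (h : LFol w σ r Ψ) (hσ : JTor w σ f) :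
    Tube w f (tot r Ψ) ∧ ∀ q : Ep, tot r Ψ (lv (q 0) (q 1)) = σ q := by
  have hr := h.rpos
  have hmem : ∀ y, rs r y ∈ (univ : Set Ep) ×ˢ Metric.ball (0 : Ep) r := fun y =>
    ⟨mem_univ _, univBall_mem hr _⟩
  have hopen : IsOpen ((univ : Set Ep) ×ˢ Metric.ball (0 : Ep) r) :=
    isOpen_univ.prod Metric.isOpen_ball
  have hΨ : ∀ y, ContMDiffAt 𝓘(ℝ, Ep × Ep) 𝓘(ℝ, E4) ∞ Ψ (rs r y) := fun y =>
    h.smooth.contMDiffAt (hopen.mem_nhds (hmem y))
  have hsm : ContMDiff 𝓘(ℝ, E4) 𝓘(ℝ, E4) ∞ (tot r Ψ) := fun y =>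
    (hΨ y).comp y (rs_contDiff r).contMDiff.contMDiffAt
  have hper : ∀ (y : E4) (m n : ℤ), tot r Ψ (y + lv m n) = tot r Ψ y := by
    intro y m n
    have h1 : rs r (y + lv m n) = (fL y + iv ![m, n],
        OpenPartialHomeomorph.univBall (0 : Ep) r (bL y)) := by
      rw [rs, map_add, map_add, bL_lv, add_zero, fL_lv']
    rw [tot, h1, h.per _ _ _ (univBall_mem hr _)]
    rfl
  have hd : ∀ y v : E4, dmap (tot r Ψ) y v = dmap Ψ (rs r y) (fderiv ℝ (rs r) y v) :=
    fun y v => dmap_comp (hΨ y) ((rs_contDiff r).differentiable (by simp) y) v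
  have himm : ∀ y v : E4, dmap (tot r Ψ) y v = 0 → v = 0 := by
    intro y v hv
    rw [hd] at hv
    have h1 := h.imm _ _ _ (univBall_mem hr (bL y)) hv
    rw [fderiv_rs] at h1
    have h2 := congrArg Prod.fst h1
    have h3 := congrArg Prod.snd h1
    have h4 := fderiv_univBall_inj hr _ h3
    exact eq_of_bL_fL (by rw [h4, map_zero]) (h2.trans (map_zero fL).symm)
  have hinj : ∀ y z : E4, tot r Ψ y = tot r Ψ z → ∃ m n : ℤ, z = y + lv m n := by
    intro y z hyz
    obtain ⟨h1, n, h2⟩ := h.inj _ _ _ _ (univBall_mem hr (bL y)) (univBall_mem hr (bL z)) hyz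
    refine ⟨n 0, n 1, eq_of_bL_fL ?_ ?_⟩
    · rw [map_add, bL_lv, add_zero]
      exact (univBall_inj h1).symm
    · rw [map_add, h2, fL_lv']
      congr 2
      ext i
      fin_cases i <;> rfl
  have hzero : ∀ q : Ep, tot r Ψ (lv (q 0) (q 1)) = σ q := by
    intro q
    rw [tot, rs, bL_lv, OpenPartialHomeomorph.univBall_apply_zero, fL_lv]
    exact h.zero q
  have hds : ∀ (y : E4) (q v : Ep), dmap (slice (tot r Ψ) y) q v =
      dmap Ψ (rs r (y + lv (q 0) (q 1))) (v, 0) := by
    intro y q v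
    rw [dmap_slice hsm, hd, fderiv_rs, bL_lv, fL_lv, map_zero]
  have hs0 : slice (tot r Ψ) 0 = σ := by
    funext q
    rw [slice, zero_add]
    exact hzero q
  refine ⟨⟨hsm, hper, hinj, himm, fun y => ?_⟩, hzero⟩
  refine ⟨⟨?_, ?_, ?_, ?_⟩, ?_, ?_, ?_, hσ.pos⟩
  · have h1 : ContMDiff 𝓘(ℝ, Ep) 𝓘(ℝ, E4) ∞ (fun q : Ep => y + lvL q) :=
      (contDiff_const.add lvL.contDiff).contMDiff
    exact hsm.comp h1
  · intro q n
    have h1 := hper (y + lv (q 0) (q 1)) (n 0) (n 1)
    rw [add_assoc, ← lv_add] at h1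
    simpa [slice] using h1
  · intro q q' hq
    obtain ⟨m, n, h1⟩ := hinj _ _ hq
    refine ⟨![m, n], ?_⟩
    have h2 := congrArg fL h1
    rw [map_add, map_add, map_add, fL_lv, fL_lv, fL_lv', add_assoc] at h2
    exact add_left_cancel h2
  · intro q v hv
    rw [hds] at hv
    have h1 := h.imm _ _ _ (univBall_mem hr _) hv
    exact congrArg Prod.fst h1
  · intro q u v
    rw [hds, hds]
    exact h.lag1 _ _ _ _ (univBall_mem hr _)
  · intro q u v
    rw [hds, hds]
    exact h.lag2 _ _ _ _ (univBall_mem hr _)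
  · intro b
    rw [torI_slice hsm hper b.1.2 b.2, hs0]
    exact hσ.rep b

end Main

/-- LEAF TOR-LT. -/
theorem loctube_of (h : LOCFOL.{u}) : LOCTUBE.{u} := by
  intro M _ _ _ _ _ _ w hw f σ hσ
  obtain ⟨r, Ψ, h1⟩ := h M w hw σ hσ.emb hσ.lag1 hσ.lag2
  exact ⟨tot r Ψ, tube h1 hσ⟩

end

end Crest.Agent.R235.TorLT_348
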