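import Crest.Agent.R235.LocFol_153
import Crest.Agent.R235.TorLT_348

/-!
# Row 235, TOR / FIB-B1 (helper153): `FAM ⇒ LOCTUBE`
-/

set_option autoImplicit false

universe u

namespace Crest.Agent.R235.LocTube_153

/-- `FAM ⇒ LOCTUBE` -/
theorem loctube_of (h : TorFam_384.FAM) : LOCTUBE.{u} :=
  TorLT_348.loctube_of (LocFol_153.locfol_of h)

/-- the mean version of `FAM` implies `LOCTUBE` -/
theorem loctube_of_mean (h : Fam_153.FAM) : LOCTUBE.{u} :=
  loctube_of (LocFolA_153.fam_of h)

end Crest.Agent.R235.LocTube_153
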