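import Crest.Agent.R235.SwcDefs_215
import Crest.Agent.R235.AdjET2_61
import Crest.Agent.R235.Sph0_464

/-!
Row 235 (S0364), PACKAGE SWC (helper215): `RSEC, ADJ ⇒ JTOR`; `SWCUR, T2S, JINT, JTOR, CLS, EXJ ⇒
TORUSR`; `LIMT, T2S, JINT, JTOR, CPOS, CLS, EXJ ⇒ TORLIM`.
-/

set_option autoImplicit false
set_option maxSynthPendingDepth 3
set_option linter.unusedSectionVars false
set_option linter.style.haveILetI false

open Set Function Filter MeasureTheory Metric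
open scoped Manifold ContDiff Topology

universe u

namespace Crest.Agent.R235.Swc

open Crest.Agent.R240 Crest.Agent.R240.Ch Crest.Agent.R235 Crest.Agent.R235.Glob_370

noncomputable section

section Basic

variable {M : Type u} [TopologicalSpace M] [T2Space M] [CompactSpace M]
  [ChartedSpace E4 M] [IsManifold 𝓘(ℝ, E4) ∞ M]

/-- currents of type (1,1) kill the pair. -/
theorem pcur_pair1 {w : Trip M} {J : EndF E4 M} (hJ : IsJ w J) {S : X2 M →ₗ[ℝ] ℝ}
    (hS : PCur J S) : S (w 1).1 = 0 := by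
  rw [hS.inv (w 1).1 0 ?_, map_zero]
  intro x
  ext u v
  have h := hJ.anti1 x u v
  simp only [invp_apply]
  show (val (w 1) x u v + val (w 1) x (atJ J x u) (atJ J x v)) / 2 = (0 : ℝ)
  rw [h]; ring

theorem pcur_pair2 {w : Trip M} {J : EndF E4 M} (hJ : IsJ w J) {S : X2 M →ₗ[ℝ] ℝ}
    (hS : PCur J S) : S (w 2).1 = 0 := by
  rw [hS.inv (w 2).1 0 ?_, map_zero]
  intro x
  ext u v
  have h := hJ.anti2 x u v
  simp only [invp_apply]
  show (val (w 2) x u v + val (w 2) x (atJ J x u) (atJ J x v)) / 2 = (0 : ℝ)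
  rw [h]; ring

end Basic

/-- **JTOR** from the section theorem and adjunction. -/
theorem jtor_of (hR : Adj.RSEC.{u}) (hA : Adj.ADJ.{u}) : JTOR.{u} := by
  intro M _ _ _ _ _ _ w J hw hJ hT c s hs h0 hpos
  have hV : Int.Vol ((w 0).1.1 : F2 E4 M) := hw.vol 0
  obtain ⟨k, hk⟩ := hR c.N c.A
  obtain ⟨hle, hemb⟩ := hA M w J hw hJ c s hs k
  rcases hk with ⟨hsph, -⟩ | ⟨htor, hZ⟩ | h1
  · exfalso
    obtain ⟨⟨t, ht, -, a, ha, -, -, hspan⟩, -⟩ := hT
    have hz : ∀ i j, ip (w 0) s (cls (a i j)) = 0 := fun i j => by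
      rw [← hs]
      exact Sph0_464.sph0 c hsph (ht i) (ht j) _ (ha i j)
    have hall : ∀ d : H2 M, ip (w 0) s d = 0 := by
      intro d
      obtain ⟨n, rfl⟩ := hspan d
      rw [ip_sum_right hV]
      refine Finset.sum_eq_zero fun i _ => ?_
      rw [ip_sum_right hV]
      refine Finset.sum_eq_zero fun j _ => ?_
      rw [ip_smul_right hV, hz, mul_zero]
    rw [hall] at hpos
    exact lt_irrefl _ hpos
  · have hd : k.deg = 0 := by
      unfold Adj.KSec.deg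
      rw [hZ, Finset.sum_empty]
    exact AdjET_61.tor_jTor hJ c (hemb (by rw [h0, hd, Int.cast_zero])) htor s hs
  · rw [h0] at hle
    have : (1 : ℝ) ≤ (k.deg : ℝ) := by exact_mod_cast h1
    linarith

section Main

variable {M : Type u} [TopologicalSpace M] [T2Space M] [CompactSpace M] [ConnectedSpace M]
  [ChartedSpace E4 M] [IsManifold 𝓘(ℝ, E4) ∞ M]

/-- a `J`-curve of positive area, in elliptic position, is a torus of class `k e`. -/
theorem tor_of_curve (hI : JINT.{u}) (hTr : JTOR.{u}) (hC : CLS.{u}) {w : Trip M} {J : EndF E4 M}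
    {e : H2 M} (hw : Pos3 w) (hJ : IsJ w J) (hT : T4R (w 0)) (he : TorPos (w 0) e (clw w))
    (c : JCurve J) (hc : 0 < c.T (w 0).1) :
    ∃ k : ℕ, 0 < k ∧ range c.f ⊆ TorPts w ((k : ℝ) • e) ∧ (range c.f).Nonempty := by
  have hV : Int.Vol ((w 0).1.1 : F2 E4 M) := hw.vol 0
  obtain ⟨s, hs⟩ := hC M w J hw hJ c.T c.pcur
  have hsZ := hI M w J hw hJ c s hs
  have h1 : ip (w 0) s (cls (w 1)) = 0 := by rw [← hs]; exact pcur_pair1 hJ c.pcur
  have h2 : ip (w 0) s (cls (w 2)) = 0 := by rw [← hs]; exact pcur_pair2 hJ c.pcur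
  have h0 : 0 < ip (w 0) s (cls (w 0)) := by rw [← hs]; exact hc
  obtain ⟨n, hn⟩ := he.only s hsZ h1 h2
  have hpos : 0 < ip (w 0) e (cls (w 0)) := he.pos
  have hn0 : 0 < n := by
    rw [hn, ip_smul_left hV] at h0
    have : (0 : ℝ) < n := by
      by_contra hcon
      exact absurd h0 (not_lt.2 (mul_nonpos_of_nonpos_of_nonneg (not_lt.1 hcon) hpos.le))
    exact_mod_cast this
  have hss : ip (w 0) s s = 0 := by
    rw [hn, ip_smul_left hV, ip_smul_right hV, he.iso]; ring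
  obtain ⟨σ, hσ, hr⟩ := hTr M w J hw hJ hT c s hs hss h0
  have hk : ((n.toNat : ℕ) : ℝ) = (n : ℝ) := by
    have : ((n.toNat : ℤ) : ℝ) = (n : ℝ) := by rw [Int.toNat_of_nonneg hn0.le]
    exact_mod_cast this
  refine ⟨n.toNat, by omega, ?_, ?_⟩
  · rintro x hx
    refine ⟨σ, ?_, by rw [hr]; exact hx⟩
    rw [hk, ← hn]
    exact hσ
  · rw [← hr]
    exact range_nonempty σ

end Main

/-- **TORUSR**. -/
theorem torusr_of (hS : SWCUR.{u}) (h2 : T2S.{u}) (hI : JINT.{u}) (hTr : JTOR.{u}) (hC : CLS.{u})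
    (hE : EXJ.{u}) : TORUSR.{u} := by
  intro M tM _ _ _ _ _ w e hw hT he
  obtain ⟨m, hm, hb⟩ := Met.exists_metric (E := E4) (M := M)
  subst hm
  letI : MeasurableSpace M := borel M
  haveI : BorelSpace M := ⟨rfl⟩
  obtain ⟨J, hJ⟩ := hE M w hw
  obtain ⟨D, hD1, hD2⟩ := T1A_195.exists_bridge hb hJ
  subst hD1
  obtain ⟨S, s, hcur, hcl, hlow⟩ := hS M D w hw hJ hD2 hT e he.int he.iso he.perp1 he.perp2 he.pos
  obtain ⟨k, c, a, ha, hSum, -⟩ := h2 M D w hw hJ hD2 S s hcur hlow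
  have hpos : 0 < S (w 0).1 := by rw [hcl]; exact he.pos
  obtain ⟨i, hi⟩ : ∃ i, 0 < (c i).T (w 0).1 := by
    by_contra hcon
    push Not at hcon
    have : S (w 0).1 ≤ 0 := by
      rw [hSum, LinearMap.sum_apply]
      refine Finset.sum_nonpos fun i _ => ?_
      rw [LinearMap.smul_apply, smul_eq_mul]
      exact mul_nonpos_of_nonneg_of_nonpos (ha i).le (hcon i)
    linarith
  obtain ⟨k, hk, hsub, hne⟩ := tor_of_curve hI hTr hC hw hJ hT he (c i) hi
  exact ⟨k, hk, hne.mono hsub⟩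

/-- **TORLIM**. -/
theorem torlim_of (hL : LIMT.{u}) (h2 : T2S.{u}) (hI : JINT.{u}) (hTr : JTOR.{u}) (hP : CPOS.{u})
    (hC : CLS.{u}) (hE : EXJ.{u}) : TORLIM.{u} := by
  intro M tM _ _ _ _ _ w e hw hT he f x hx
  obtain ⟨m, hm, hb⟩ := Met.exists_metric (E := E4) (M := M)
  subst hm
  letI : MeasurableSpace M := borel M
  haveI : BorelSpace M := ⟨rfl⟩
  obtain ⟨J, hJ⟩ := hE M w hw
  obtain ⟨D, hD1, hD2⟩ := T1A_195.exists_bridge hb hJ
  subst hD1
  obtain ⟨S, s, hcur, -, hlow, hsup⟩ := hL M D w hw hJ hD2 f x hx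
  obtain ⟨k, c, a, ha, -, hcov⟩ := h2 M D w hw hJ hD2 S s hcur hlow
  obtain ⟨i, hi⟩ := hcov x hsup
  obtain ⟨k, hk, hsub, -⟩ := tor_of_curve hI hTr hC hw hJ hT he (c i) (hP M w D.J hw hJ (c i))
  exact ⟨k, hk, hsub hi⟩

end

end Crest.Agent.R235.Swc

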