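import Crest.Agent.R235.Tor2_225
import Crest.Agent.R235.Swc1_215
import Crest.Agent.R235.LocTube_153
import Crest.Agent.R235.FibTop_129
import Crest.Agent.R235.TorFlat_68
import Crest.Agent.R235.JPos_225

/-!
Row 235 (S0364), PACKAGE TOR (leader helper225): assembly of `TORR` and of the foliation `ATLAS`
(the latter is also consumed by KUM) from the open nodes.
-/

set_option autoImplicit false
set_option maxSynthPendingDepth 3

universe u

namespace Crest.Agent.R235.Tor3_225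

open Crest.Agent.R235 Crest.Agent.R235.Swc

/-- `CPOS` is a theorem. -/
theorem cpos : CPOS.{u} := fun _ _ _ _ _ _ _ _ _ _ hJ c => JPos_225.T_pos hJ c

theorem torlim (hL : LIMT.{u}) (h2 : T2S.{u}) (hJ : JINT.{u}) (hR : Adj.RSEC.{u})
    (hA : Adj.ADJ.{u}) (hC : CLS.{u}) (hE : EXJ.{u}) : TORLIM.{u} :=
  torlim_of hL h2 hJ (jtor_of hR hA) cpos hC hE

theorem atlas (hF : TorFam_384.FAM) (hI : INTT.{u}) (hL : LIMT.{u}) (h2 : T2S.{u})
    (hJ : JINT.{u}) (hR : Adj.RSEC.{u}) (hA : Adj.ADJ.{u}) (hC : CLS.{u}) (hE : EXJ.{u}) :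
    ATLAS.{u} :=
  Tor2_225.atlas_of (LocTube_153.loctube_of hF) hI (torlim hL h2 hJ hR hA hC hE)

/-- **TORR from the open nodes.** -/
theorem torr (hF : TorFam_384.FAM) (hI : INTT.{u}) (hS : SWCUR.{u}) (hL : LIMT.{u}) (h2 : T2S.{u})
    (hJ : JINT.{u}) (hR : Adj.RSEC.{u}) (hA : Adj.ADJ.{u}) (hC : CLS.{u}) (hE : EXJ.{u}) :
    TORR.{u} :=
  Tor2_225.torr_of (torusr_of hS h2 hJ (jtor_of hR hA) hC hE)
    (atlas hF hI hL h2 hJ hR hA hC hE) FibTop_129.coframe TorFlat_68.flatc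

end Crest.Agent.R235.Tor3_225
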