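import Crest.Agent.R235.TorFamE_384

/-!
# Row 235 (S0364), TOR / FIB-B1b (helper384): **FAM**, without ellipticity hypothesis
-/

set_option autoImplicit false
set_option maxSynthPendingDepth 3

open MeasureTheory Set Metric Filter Topology
open scoped ContDiff

namespace Crest.Agent.R235.TorFam_384

open Crest.Agent.R238.Sch (ee D2 LB norm_ee)
open Crest.Agent.R281.Mc673
open Crest.Agent.R235.TorSch_384
open Crest.Agent.R235.TorNM_384 Crest.Agent.R235.TorIft_384 Crest.Agent.R235.TorFa_384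

noncomputable section

section neg

variable {r δ : ℝ} {x y : Fo 2}

theorem clF_neg {N : ℕ} {w : Fo N} (hw : ClF r w) : ClF r (fun p => - w p) where
  sm := hw.sm.neg
  alt p hp u v := by
    show - w p u v = - - w p v u
    rw [hw.alt p hp u v]
  cl p hp u v z := by
    have e : fderiv ℝ (fun p => - w p) p = - fderiv ℝ w p := fderiv_fun_neg
    rw [e]
    have := hw.cl p hp u v z
    show - fderiv ℝ w p u v z + - fderiv ℝ w p v z u + - fderiv ℝ w p z u v = 0
    linarith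
  per k p hp := by rw [hw.per k p hp]

theorem famH_neg (H : FamH r x y) : FamH r x (fun p => - y p) where
  pos := H.pos
  clx := H.clx
  cly := clF_neg H.cly
  horx := H.horx
  hory θ u v := by
    show - y (θ, 0) (u, 0) (v, 0) = 0
    rw [H.hory, neg_zero]
  norm := H.norm
  nondeg p hp c d hcd u hu := by
    refine H.nondeg p hp c (-d) ?_ u fun v => ?_
    · rcases hcd with h | h
      · exact Or.inl h
      · exact Or.inr (neg_ne_zero.2 h)
    · have h1 : c * x p u v + d * (- y p u v) = 0 := hu v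
      linarith

theorem famT_neg {A : W 2 → V 2} (H : FamT r x (fun p => - y p) δ A) : FamT r x y δ A where
  pos := H.pos
  smooth := H.smooth
  per := H.per
  zero := H.zero
  small := H.small
  lagx := H.lagx
  lagy p hp u v := by
    have h1 : - y (p.1, A p) (u, fderiv ℝ A p (u, 0)) (v, fderiv ℝ A p (v, 0)) = 0 :=
      H.lagy p hp u v
    linarith
  inj := H.inj

end neg

/-- the quadratic form `det (z, B z)` -/
def gd (y : Fo 2) (p : V 2 × V 2) : ℝ :=
  p.2 0 * (Bm y 0 1 0 p.1 * p.2 0 + Bm y 0 1 1 p.1 * p.2 1) -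
    p.2 1 * (Bm y 0 0 0 p.1 * p.2 0 + Bm y 0 0 1 p.1 * p.2 1)

section gd

variable {r : ℝ} {x y : Fo 2}

theorem gd_neg (y : Fo 2) (p : V 2 × V 2) : gd (fun p => - y p) p = - gd y p := by
  have e : ∀ k l θ, Bm (fun p => - y p) 0 k l θ = - Bm y 0 k l θ := fun k l θ => rfl
  unfold gd
  rw [e, e, e, e]
  ring

theorem gd_smul (y : Fo 2) (θ z : V 2) (t : ℝ) : gd y (θ, t • z) = t ^ 2 * gd y (θ, z) := by
  unfold gd
  simp only [PiLp.smul_apply, smul_eq_mul]
  ring

theorem gd_per (H : FamH r x y) (k : Fin 2 → ℤ) (θ z : V 2) : gd y (θ + kv k, z) = gd y (θ, z) := by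
  have e : ∀ i l, Bm y 0 i l (θ + kv k) = Bm y 0 i l θ := fun i l =>
    (sp_Bm H.pos H.cly 0 i l).per k θ
  unfold gd
  simp only
  rw [e, e, e, e]

theorem gd_cont (H : FamH r x y) : Continuous (gd y) := by
  have hB : ∀ i l, Continuous fun p : V 2 × V 2 => Bm y 0 i l p.1 := fun i l =>
    (sp_Bm H.pos H.cly 0 i l).cont.comp continuous_fst
  have hz : ∀ i, Continuous fun p : V 2 × V 2 => p.2 i := fun i =>
    (EuclideanSpace.proj i : V 2 →L[ℝ] ℝ).continuous.comp continuous_snd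
  unfold gd
  exact ((hz 0).mul (((hB 1 0).mul (hz 0)).add ((hB 1 1).mul (hz 1)))).sub
    ((hz 1).mul (((hB 0 0).mul (hz 0)).add ((hB 0 1).mul (hz 1))))

theorem gd_ne (H : FamH r x y) (θ : V 2) {z : V 2} (hz : z ≠ 0) : gd y (θ, z) ≠ 0 := by
  intro h0
  obtain ⟨B, hB⟩ : ∃ B : Matrix (Fin 2) (Fin 2) ℝ, B = fun k l => Bm y 0 k l θ := ⟨_, rfl⟩
  have hB' : ∀ k l, Bm y 0 k l θ = B k l := fun k l => by rw [hB]
  unfold gd at h0
  simp only [hB'] at h0
  -- the real eigenvalue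
  obtain ⟨μ, h1, h2⟩ : ∃ μ : ℝ, B 0 0 * z 0 + B 0 1 * z 1 = μ * z 0 ∧
      B 1 0 * z 0 + B 1 1 * z 1 = μ * z 1 := by
    by_cases hz0 : z 0 = 0
    · have hz1 : z 1 ≠ 0 := by
        intro h
        exact hz (by ext i; fin_cases i <;> simp [hz0, h])
      refine ⟨(B 1 0 * z 0 + B 1 1 * z 1) / z 1, ?_, by field_simp⟩
      rw [hz0] at h0 ⊢
      have : z 1 * (B 0 0 * 0 + B 0 1 * z 1) = 0 := by linarith
      rcases mul_eq_zero.1 this with h | h
      · exact absurd h hz1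
      · rw [h]; ring
    · refine ⟨(B 0 0 * z 0 + B 0 1 * z 1) / z 0, by field_simp, ?_⟩
      field_simp
      linarith
  have hdet : (B - μ • (1 : Matrix (Fin 2) (Fin 2) ℝ)).det = 0 := by
    refine Matrix.exists_mulVec_eq_zero_iff.1 ⟨fun i => z i, ?_, ?_⟩
    · intro h
      exact hz (by ext i; exact congrFun h i)
    · ext i
      fin_cases i
      · simp [Matrix.mulVec, dotProduct, Fin.sum_univ_two, Matrix.sub_apply, Matrix.one_apply]
        linarith
      · simp [Matrix.mulVec, dotProduct, Fin.sum_univ_two, Matrix.sub_apply, Matrix.one_apply]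
        linarith
  obtain ⟨u, hu0, hu⟩ := Matrix.exists_vecMul_eq_zero_iff.2 hdet
  have hu1 : u 0 * (B 0 0 - μ) + u 1 * B 1 0 = 0 := by
    have := congrFun hu 0
    simpa [Matrix.vecMul, dotProduct, Fin.sum_univ_two, Matrix.sub_apply, Matrix.one_apply] using this
  have hu2 : u 0 * B 0 1 + u 1 * (B 1 1 - μ) = 0 := by
    have := congrFun hu 1
    simpa [Matrix.vecMul, dotProduct, Fin.sum_univ_two, Matrix.sub_apply, Matrix.one_apply] using this
  obtain ⟨U, hU⟩ : ∃ U : V 2, U = WithLp.toLp 2 u := ⟨_, rfl⟩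
  have hU' : ∀ i, U i = u i := fun i => by rw [hU]
  have m0 : ((θ + 0, 0) : W 2) ∈ tube 2 r := by
    show ‖(0 : V 2)‖ < r
    rw [norm_zero]; exact H.pos
  have key := H.nondeg (θ + 0, 0) m0 (-μ) 1 (Or.inr one_ne_zero) (U, 0) (fun v => ?_)
  · have h3 : U = 0 := congrArg Prod.fst key
    exact hu0 (by ext i; rw [← hU' i, h3]; rfl)
  · have ex : ∀ v2 : V 2, x (θ + 0, 0) (U, 0) (0, v2) = - inner ℝ v2 U := fun v2 => by
      rw [H.clx.alt _ m0, H.norm]
    have ey : ∀ v2 : V 2, y (θ + 0, 0) (U, 0) (0, v2) =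
        - (v2 0 * (u 0 * B 0 0 + u 1 * B 1 0) + v2 1 * (u 0 * B 0 1 + u 1 * B 1 1)) := by
      intro v2
      rw [H.cly.alt _ m0]
      have e1 : ((0, v2) : W 2) = v2 0 • ((0, ee 0) : W 2) + v2 1 • ((0, ee 1) : W 2) := by
        ext1
        · simp
        · simpa using vec_eq v2
      have e2 : ((U, 0) : W 2) = u 0 • ((ee 0, 0) : W 2) + u 1 • ((ee 1, 0) : W 2) := by
        ext1
        · have := vec_eq U
          rw [hU' 0, hU' 1] at this
          simpa using this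
        · simp
      have hb : ∀ k l, y (θ + 0, 0) (0, ee l) (ee k, 0) = B k l := fun k l => hB' k l
      rw [e1, e2]
      simp only [map_add, map_smul, add_apply, smul_apply, smul_eq_mul, hb]
      ring
    have e3 : v = ((v.1, 0) : W 2) + (0, v.2) := by
      ext1 <;> simp
    rw [e3, map_add, map_add, H.horx, H.hory, ex, ey]
    have e4 : inner ℝ v.2 U = v.2 0 * u 0 + v.2 1 * u 1 := by
      rw [EuclideanSpace.inner_eq_star_dotProduct]
      simp [dotProduct, Fin.sum_univ_two, hU']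
      ring
    rw [e4]
    linear_combination (-(v.2 0)) * hu1 - v.2 1 * hu2

theorem gd_sign (H : FamH r x y) : (∀ θ z : V 2, z ≠ 0 → 0 < gd y (θ, z)) ∨
    (∀ θ z : V 2, z ≠ 0 → gd y (θ, z) < 0) := by
  by_contra hc
  push Not at hc
  obtain ⟨⟨θ1, z1, hz1, h1⟩, θ2, z2, hz2, h2⟩ := hc
  have hpre : IsPreconnected ((univ : Set (V 2)) ×ˢ ({0}ᶜ : Set (V 2))) := by
    refine isPreconnected_univ.prod (isConnected_compl_singleton_of_one_lt_rank ?_ 0).isPreconnected
    rw [← Module.finrank_eq_rank, finrank_euclideanSpace_fin]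
    norm_num
  have h3 := hpre.intermediate_value (a := (θ1, z1)) (b := (θ2, z2)) ⟨mem_univ _, hz1⟩
    ⟨mem_univ _, hz2⟩ (gd_cont H).continuousOn
  obtain ⟨⟨θ, z⟩, ⟨-, hz⟩, h4⟩ := h3 ⟨h1, h2⟩
  exact gd_ne H θ hz h4

theorem ell_of_pos (H : FamH r x y) (hp : ∀ θ z : V 2, z ≠ 0 → 0 < gd y (θ, z)) :
    ∃ lm : ℝ, 0 < lm ∧ El lm (S1 y 0) := by
  obtain ⟨⟨θ0, z0⟩, ⟨-, hz0⟩, hmin⟩ := ((isCompact_cube (N := 2)).prod
    (isCompact_sphere (0 : V 2) 1)).exists_isMinOn
    (cube_nonempty.prod ⟨ee 0, by simp [norm_ee]⟩) (gd_cont H).continuousOn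
  have hz0' : z0 ≠ 0 := by
    rintro rfl
    simp at hz0
  refine ⟨gd y (θ0, z0), hp θ0 z0 hz0', fun θ v => ?_⟩
  obtain ⟨z, hz⟩ : ∃ z : V 2, z = WithLp.toLp 2 v := ⟨_, rfl⟩
  have hzv : ∀ i, z i = v i := fun i => by rw [hz]
  have e1 : ∑ i, ∑ j, S1 y 0 θ i j * v i * v j = gd y (θ, z) := by
    simp only [Fin.sum_univ_two]
    show Bm y 0 1 0 θ * v 0 * v 0 + Bm y 0 1 1 θ * v 0 * v 1 +
        (-Bm y 0 0 0 θ * v 1 * v 0 + -Bm y 0 0 1 θ * v 1 * v 1) =
        z 0 * (Bm y 0 1 0 θ * z 0 + Bm y 0 1 1 θ * z 1) -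
          z 1 * (Bm y 0 0 0 θ * z 0 + Bm y 0 0 1 θ * z 1)
    rw [hzv, hzv]
    ring
  have e2 : ∑ i, v i ^ 2 = ‖z‖ ^ 2 := by
    rw [EuclideanSpace.norm_eq, Real.sq_sqrt (Finset.sum_nonneg fun _ _ => sq_nonneg _)]
    refine Finset.sum_congr rfl fun i _ => ?_
    rw [hzv, Real.norm_eq_abs, sq_abs]
  rw [e1, e2]
  by_cases h0 : z = 0
  · rw [h0]
    have : gd y (θ, 0) = 0 := by
      have := gd_smul y θ 0 0
      simpa using this
    rw [this]; simp
  · have hn : 0 < ‖z‖ := norm_pos_iff.2 h0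
    obtain ⟨k, θ', hθ', hk⟩ := exists_cube θ
    have e3 : gd y (θ, z) = ‖z‖ ^ 2 * gd y (θ', ‖z‖⁻¹ • z) := by
      rw [← gd_smul, smul_smul, mul_inv_cancel₀ hn.ne', one_smul, hk, gd_per H]
    have h1 : gd y (θ0, z0) ≤ gd y (θ', ‖z‖⁻¹ • z) := by
      refine hmin ⟨hθ', ?_⟩
      simp [norm_smul, hn.ne']
    rw [e3, mul_comm]
    exact mul_le_mul_of_nonneg_left h1 (sq_nonneg _)

end gd

/-- **FAM** -/
theorem fam : FAM := by
  intro r x y H
  rcases gd_sign H with h | h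
  · obtain ⟨lm, hlm, hE⟩ := ell_of_pos H h
    exact fam_of_ell H hlm hE
  · have H' := famH_neg H
    obtain ⟨lm, hlm, hE⟩ := ell_of_pos H' fun θ z hz => by
      rw [gd_neg]
      have := h θ z hz
      linarith
    obtain ⟨δ, A, hA⟩ := fam_of_ell H' hlm hE
    exact ⟨δ, A, famT_neg hA⟩

end

end Crest.Agent.R235.TorFam_384
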