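import Mathlib
import Crest.Agent.R235.EmbLoc_61
import Crest.Agent.R235.Lag_61
import Crest.Agent.R235.AdjE_83

/-!
Row 235 (S0364), package ADJ, leaf X1 (helper61), part 5: an embedded `J`-sphere (`JSph`) has a
local form with its current at every point.
-/

set_option autoImplicit false
set_option maxSynthPendingDepth 3
set_option linter.unusedSectionVars false

open Set Function Filter MeasureTheory Metric
open scoped Manifold ContDiff Topology

universe u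

namespace Crest.Agent.R235.SphPatch_61

open Crest.Agent.R240 Crest.Agent.R240.Ch Crest.Agent.R235.Glob_370 Crest.Agent.R235.Dm_61
open Crest.Agent.R235.AdjET_61 Crest.Agent.R235.NWDefs_334 Crest.Agent.R235.NWIface_334
open Crest.Agent.R235.EmbLoc_61
open Crest.Agent.R235.AdjE_83 (zE zE_one zE_smul hasFDerivAt_zE contDiffAt_zE alt_cross kappa inner_E3)
open Crest.Agent.R235.Stereo_83 (zN stereo norm_sq_E3)

noncomputable section

/-! ### immersed Lagrangian planes -/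

section Plane

variable {M : Type u} [TopologicalSpace M] [ChartedSpace E4 M] [IsManifold 𝓘(ℝ, E4) ∞ M]

/-- an immersed plane on which `w 1` and `w 2` vanish. -/
structure LPl (w : Trip M) (s : ℂ → M) : Prop where
  sm : ∀ z, ContMDiffAt 𝓘(ℝ, ℂ) 𝓘(ℝ, E4) ∞ s z
  im : ∀ z v, dmap s z v = 0 → v = 0
  l1 : ∀ z, val (w 1) (s z) (dmap s z 1) (dmap s z Complex.I) = 0
  l2 : ∀ z, val (w 2) (s z) (dmap s z 1) (dmap s z Complex.I) = 0

variable {w : Trip M} {J : EndF E4 M} {s : ℂ → M}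

/-- the frame `X, Y = α X + β J X`. -/
theorem LPl.frame (h : LPl w s) (hw : Pos3 w) (hJ : IsJ w J) (z : ℂ) :
    ∃ α β : ℝ, β ≠ 0 ∧ dmap s z Complex.I =
      α • dmap s z 1 + β • atJ J (s z) (dmap s z 1) := by
  have hX : dmap s z 1 ≠ 0 := fun h0 => one_ne_zero (h.im z 1 h0)
  obtain ⟨α, β, hab⟩ := Lag_61.lag_trip hw hJ (s z) hX (h.l1 z) (h.l2 z)
  refine ⟨α, β, ?_, hab⟩
  intro hβ
  rw [hβ, zero_smul, add_zero] at hab
  have h3 : dmap s z (Complex.I - (α : ℂ)) = 0 := by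
    have e1 : Complex.I - (α : ℂ) = Complex.I + (-α) • (1 : ℂ) := by
      rw [Complex.real_smul]; push_cast; ring
    rw [e1, dmap_add, dmap_smul, hab, neg_smul, add_neg_cancel]
  have h4 := h.im _ _ h3
  have := congrArg Complex.im h4
  simp at this

theorem LPl.jinv (h : LPl w s) (hw : Pos3 w) (hJ : IsJ w J) (z v : ℂ) :
    ∃ v', dmap s z v' = atJ J (s z) (dmap s z v) := by
  obtain ⟨α, β, hβ, hab⟩ := h.frame hw hJ z
  set X := dmap s z 1 with hX
  have hJX : atJ J (s z) X = dmap s z ((β⁻¹ : ℝ) • (Complex.I + (-α) • (1 : ℂ))) := by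
    rw [dmap_smul, dmap_add, dmap_smul, hab, ← hX]
    have : α • X + β • atJ J (s z) X + -α • X = β • atJ J (s z) X := by module
    rw [this, smul_smul, inv_mul_cancel₀ hβ, one_smul]
  have hJY : atJ J (s z) (dmap s z Complex.I) =
      dmap s z (α • ((β⁻¹ : ℝ) • (Complex.I + (-α) • (1 : ℂ))) + (-β) • (1 : ℂ)) := by
    rw [hab, map_add, map_smul, map_smul, hJ.sq, dmap_add, dmap_smul s z α, ← hJX,
      dmap_smul s z (-β), ← hX]
    module
  refine ⟨v.re • ((β⁻¹ : ℝ) • (Complex.I + (-α) • (1 : ℂ))) +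
    v.im • (α • ((β⁻¹ : ℝ) • (Complex.I + (-α) • (1 : ℂ))) + (-β) • (1 : ℂ)), ?_⟩
  rw [dmap_add, dmap_smul, dmap_smul _ _ v.im, ← hJX, ← hJY, ← map_smul, ← map_smul, ← map_add,
    hX, ← dmap_smul, ← dmap_smul, ← dmap_add]
  congr 2
  apply Complex.ext <;> simp

theorem LPl.cont (h : LPl w s) {b : F2 E4 M} (hb : Smooth2 b) : Continuous (pb s b) := by
  rw [← continuousOn_univ]
  exact (contDiffOn_pb isOpen_univ (fun z _ => (h.sm z).contMDiffWithinAt) hb).continuousOn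

/-- the density of the taming form never vanishes. -/
theorem LPl.ne (h : LPl w s) (hw : Pos3 w) (hJ : IsJ w J) (z : ℂ) :
    pb s ((w 0).1.1 : F2 E4 M) z ≠ 0 := by
  obtain ⟨α, β, hβ, hab⟩ := h.frame hw hJ z
  have hX : dmap s z 1 ≠ 0 := fun h0 => one_ne_zero (h.im z 1 h0)
  have ht := hJ.tame (s z) _ hX
  have : pb s ((w 0).1.1 : F2 E4 M) z =
      β * val (w 0) (s z) (dmap s z 1) (atJ J (s z) (dmap s z 1)) := by
    unfold pb
    rw [hab, map_add, map_smul, map_smul]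
    have h0 : at2 ((w 0).1.1 : F2 E4 M) (s z) (dmap s z 1) (dmap s z 1) = 0 :=
      (w 0).1.2.1 _ _
    rw [h0, smul_zero, zero_add]
    rfl
  rw [this]
  exact mul_ne_zero hβ ht.ne'

/-- orientation. -/
theorem LPl.pos (h : LPl w s) (hw : Pos3 w) (hJ : IsJ w J) (D : Set ℂ)
    (hp : 0 < ∫ z in D, pb s ((w 0).1.1 : F2 E4 M) z) (z : ℂ) :
    0 < pb s ((w 0).1.1 : F2 E4 M) z := by
  have hc := h.cont (w 0).1.2
  by_contra hneg
  have hneg' : pb s ((w 0).1.1 : F2 E4 M) z < 0 := lt_of_le_of_ne (not_lt.1 hneg) (h.ne hw hJ z)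
  have hall : ∀ z', pb s ((w 0).1.1 : F2 E4 M) z' < 0 := by
    intro z'
    by_contra h1
    have h2 : 0 ≤ pb s ((w 0).1.1 : F2 E4 M) z' := not_lt.1 h1
    have hmem : (0 : ℝ) ∈ Set.range (pb s ((w 0).1.1 : F2 E4 M)) := by
      have := isPreconnected_univ.intermediate_value (mem_univ z) (mem_univ z') hc.continuousOn
      have h3 := this ⟨hneg'.le, h2⟩
      rwa [image_univ] at h3
    obtain ⟨z'', hz''⟩ := hmem
    exact h.ne hw hJ z'' hz''
  have hle : ∫ z in D, pb s ((w 0).1.1 : F2 E4 M) z ≤ 0 :=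
    integral_nonpos fun z => (hall z).le
  exact absurd hp (not_lt.2 hle)

end Plane

/-! ### the inverse stereographic maps -/

/-- the (unnormalised) inverse stereographic map. -/
def Pe (ε : ℝ) (z : ℂ) : E3 := !₂[2 * z.re, ε * (2 * z.im), ε * (1 - (z.re ^ 2 + z.im ^ 2))]

theorem Pe_0 (ε : ℝ) (z : ℂ) : Pe ε z 0 = 2 * z.re := rfl
theorem Pe_1 (ε : ℝ) (z : ℂ) : Pe ε z 1 = ε * (2 * z.im) := rfl
theorem Pe_2 (ε : ℝ) (z : ℂ) : Pe ε z 2 = ε * (1 - (z.re ^ 2 + z.im ^ 2)) := rfl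

theorem norm_Pe {ε : ℝ} (hε : ε ^ 2 = 1) (z : ℂ) : ‖Pe ε z‖ = 1 + (z.re ^ 2 + z.im ^ 2) := by
  have h1 : ‖Pe ε z‖ ^ 2 = (1 + (z.re ^ 2 + z.im ^ 2)) ^ 2 := by
    rw [norm_sq_E3, Pe_0, Pe_1, Pe_2]
    linear_combination (4 * z.im ^ 2 + (1 - (z.re ^ 2 + z.im ^ 2)) ^ 2) * hε
  exact (pow_left_inj₀ (norm_nonneg _) (by positivity) two_ne_zero).1 h1

theorem Pe_ne {ε : ℝ} (hε : ε ^ 2 = 1) (z : ℂ) : Pe ε z ≠ 0 := by
  rw [← norm_pos_iff, norm_Pe hε]; positivity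

theorem Pe_den {ε : ℝ} (hε : ε ^ 2 = 1) (z : ℂ) : ‖Pe ε z‖ + ε * Pe ε z 2 = 2 := by
  rw [norm_Pe hε, Pe_2]; linear_combination (1 - (z.re ^ 2 + z.im ^ 2)) * hε

theorem zE_Pe {ε : ℝ} (hε : ε ^ 2 = 1) (z : ℂ) : zE ε (Pe ε z) = z := by
  unfold zE
  rw [Pe_den hε, Pe_0, Pe_1]
  apply Complex.ext
  · show 2 * z.re / 2 = z.re; ring
  · show ε * (ε * (2 * z.im)) / 2 = z.im
    linear_combination z.im * hε

theorem Pe_zE {ε : ℝ} (hε : ε ^ 2 = 1) {y : E3} (hs : 0 < ‖y‖ + ε * y 2) :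
    Pe ε (zE ε y) = (2 / (‖y‖ + ε * y 2)) • y := by
  have hn := norm_sq_E3 y
  set s := ‖y‖ + ε * y 2 with hsd
  have h0 : (zE ε y).re = y 0 / s := rfl
  have h1 : (zE ε y).im = ε * y 1 / s := rfl
  ext i
  fin_cases i
  · show 2 * (zE ε y).re = 2 / s * y 0
    rw [h0]; ring
  · show ε * (2 * (zE ε y).im) = 2 / s * y 1
    rw [h1]; field_simp; linear_combination (y 1) * hε
  · show ε * (1 - ((zE ε y).re ^ 2 + (zE ε y).im ^ 2)) = 2 / s * y 2
    rw [h0, h1]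
    have h3 : ‖y‖ = s - ε * y 2 := by rw [hsd]; ring
    rw [h3] at hn
    field_simp
    linear_combination ε * hn + (2 * s * y 2 - ε * y 1 ^ 2 - ε * y 2 ^ 2) * hε

theorem Pe_smooth (ε : ℝ) : ContDiff ℝ ∞ (Pe ε) := by
  rw [contDiff_euclidean]
  intro i
  have hre : ContDiff ℝ ∞ (fun z : ℂ => z.re) := Complex.reCLM.contDiff
  have him : ContDiff ℝ ∞ (fun z : ℂ => z.im) := Complex.imCLM.contDiff
  fin_cases i
  · exact contDiff_const.mul hre
  · exact contDiff_const.mul (contDiff_const.mul him)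
  · exact contDiff_const.mul (contDiff_const.sub ((hre.pow 2).add (him.pow 2)))

/-! ### the sphere in the two charts -/

section Sph

variable {M : Type u} [TopologicalSpace M] [ChartedSpace E4 M] [IsManifold 𝓘(ℝ, E4) ∞ M]
variable {σ : E3 → M}

/-- the sphere in a stereographic chart. -/
def ss (σ : E3 → M) (ε : ℝ) (z : ℂ) : M := σ (Pe ε z)

theorem σ_at (h : EmbS σ) {y : E3} (hy : y ≠ 0) : ContMDiffAt 𝓘(ℝ, E3) 𝓘(ℝ, E4) ∞ σ y :=
  h.smooth.contMDiffAt (isOpen_compl_singleton.mem_nhds hy)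

theorem ss_smooth (h : EmbS σ) {ε : ℝ} (hε : ε ^ 2 = 1) (z : ℂ) :
    ContMDiffAt 𝓘(ℝ, ℂ) 𝓘(ℝ, E4) ∞ (ss σ ε) z :=
  ContMDiffAt.comp (g := σ) (f := Pe ε) z (σ_at h (Pe_ne hε z)) (Pe_smooth ε).contDiffAt.contMDiffAt

theorem ss_zE (h : EmbS σ) {ε : ℝ} (hε : ε ^ 2 = 1) {y : E3} (hs : 0 < ‖y‖ + ε * y 2) :
    ss σ ε (zE ε y) = σ y := by
  unfold ss
  have hy : y ≠ 0 := by
    rintro rfl
    simp at hs
  rw [Pe_zE hε hs, h.hom _ _ (by positivity) hy]

/-- the injectivity of the sphere on directions. -/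
theorem dir_inj (h : EmbS σ) {y y' : E3} (hy : y ≠ 0) (hy' : y' ≠ 0) (e : σ y = σ y') :
    ‖y'‖ • y = ‖y‖ • y' := by
  have n1 : 0 < ‖y‖ := norm_pos_iff.2 hy
  have n2 : 0 < ‖y'‖ := norm_pos_iff.2 hy'
  have h1 : σ (‖y‖⁻¹ • y) = σ (‖y'‖⁻¹ • y') := by
    rw [h.hom _ _ (inv_pos.2 n1) hy, h.hom _ _ (inv_pos.2 n2) hy', e]
  have h2 := h.inj _ _ (by rw [norm_smul, norm_inv, norm_norm, inv_mul_cancel₀ n1.ne'])
    (by rw [norm_smul, norm_inv, norm_norm, inv_mul_cancel₀ n2.ne']) h1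
  have h3 := congrArg (fun v : E3 => (‖y‖ * ‖y'‖) • v) h2
  simp only [smul_smul] at h3
  have e1 : ‖y‖ * ‖y'‖ * ‖y‖⁻¹ = ‖y'‖ := by field_simp
  have e2 : ‖y‖ * ‖y'‖ * ‖y'‖⁻¹ = ‖y‖ := by field_simp
  rwa [e1, e2] at h3

theorem ss_inj (h : EmbS σ) {ε : ℝ} (hε : ε ^ 2 = 1) : Injective (ss σ ε) := by
  intro z z' hzz
  have h1 := dir_inj h (Pe_ne hε z) (Pe_ne hε z') hzz
  have n1 : 0 < ‖Pe ε z‖ := norm_pos_iff.2 (Pe_ne hε z)
  have n2 : 0 < ‖Pe ε z'‖ := norm_pos_iff.2 (Pe_ne hε z')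
  have h2 := congrArg (zE ε) h1
  rwa [zE_smul ε n2, zE_smul ε n1, zE_Pe hε, zE_Pe hε] at h2

/-- the differential at a vector of any length. -/
theorem dmap_hom (h : EmbS σ) {y : E3} (hy : y ≠ 0) {t : ℝ} (ht : 0 < t) (v : E3) :
    dmap σ (t • y) (t • v) = dmap σ y v := by
  have hty : t • y ≠ 0 := smul_ne_zero ht.ne' hy
  have hd : HasFDerivAt (fun x : E3 => t • x) (t • ContinuousLinearMap.id ℝ E3) y :=
    (hasFDerivAt_id y).const_smul t
  have h1 := dmap_comp' (σ := σ) (τ := fun x : E3 => t • x) (σ_at h hty) hd v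
  have hev : (fun x : E3 => σ (t • x)) =ᶠ[𝓝 y] σ := by
    filter_upwards [isOpen_compl_singleton.mem_nhds hy] with x hx
    exact h.hom t x ht hx
  rw [dmap_congr hev] at h1
  rw [h1]
  rfl

/-- the derivative of the inverse stereographic map. -/
theorem fderiv_Pe (ε : ℝ) (z v : ℂ) : fderiv ℝ (Pe ε) z v =
    !₂[2 * v.re, ε * (2 * v.im), - ε * (2 * (z.re * v.re + z.im * v.im))] := by
  have hre : HasFDerivAt (fun z : ℂ => z.re) Complex.reCLM z := Complex.reCLM.hasFDerivAt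
  have him : HasFDerivAt (fun z : ℂ => z.im) Complex.imCLM z := Complex.imCLM.hasFDerivAt
  have hd : DifferentiableAt ℝ (Pe ε) z := ((Pe_smooth ε).contDiffAt (x := z)).differentiableAt
    (by simp)
  have key : ∀ i, (fderiv ℝ (Pe ε) z v) i = fderiv ℝ (fun z => Pe ε z i) z v := by
    intro i
    have h1 : HasFDerivAt (fun z => Pe ε z i)
        ((EuclideanSpace.proj i : E3 →L[ℝ] ℝ).comp (fderiv ℝ (Pe ε) z)) z :=
      (EuclideanSpace.proj i : E3 →L[ℝ] ℝ).hasFDerivAt.comp z hd.hasFDerivAt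
    rw [h1.fderiv]
    rfl
  ext i
  rw [key]
  fin_cases i
  · have h1 : HasFDerivAt (fun z => Pe ε z 0) _ z := hre.const_mul 2
    show fderiv ℝ (fun z => Pe ε z 0) z v = 2 * v.re
    rw [h1.fderiv]
    simp
  · have h1 : HasFDerivAt (fun z => Pe ε z 1) _ z := (him.const_mul 2).const_mul ε
    show fderiv ℝ (fun z => Pe ε z 1) z v = ε * (2 * v.im)
    rw [h1.fderiv]
    simp
  · have h1 : HasFDerivAt (fun z => Pe ε z 2) _ z :=
      (((hre.pow 2).add (him.pow 2)).const_sub 1).const_mul ε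
    show fderiv ℝ (fun z => Pe ε z 2) z v = - ε * (2 * (z.re * v.re + z.im * v.im))
    rw [h1.fderiv]
    simp
    ring

theorem dmap_ss (h : EmbS σ) {ε : ℝ} (hε : ε ^ 2 = 1) (z v : ℂ) :
    dmap (ss σ ε) z v = dmap σ (Pe ε z) (fderiv ℝ (Pe ε) z v) :=
  dmap_comp' (σ := σ) (τ := Pe ε) (σ_at h (Pe_ne hε z))
    (((Pe_smooth ε).contDiffAt (x := z)).differentiableAt (by simp)).hasFDerivAt v

/-- reduction to the unit sphere. -/
theorem dmap_ss' (h : EmbS σ) {ε : ℝ} (hε : ε ^ 2 = 1) (z v : ℂ) :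
    dmap (ss σ ε) z v = dmap σ (‖Pe ε z‖⁻¹ • Pe ε z) (‖Pe ε z‖⁻¹ • fderiv ℝ (Pe ε) z v) := by
  rw [dmap_ss h hε, dmap_hom h (Pe_ne hε z) (inv_pos.2 (norm_pos_iff.2 (Pe_ne hε z)))]

theorem unit_Pe {ε : ℝ} (hε : ε ^ 2 = 1) (z : ℂ) : ‖‖Pe ε z‖⁻¹ • Pe ε z‖ = 1 := by
  rw [norm_smul, norm_inv, norm_norm, inv_mul_cancel₀ (norm_ne_zero_iff.2 (Pe_ne hε z))]

theorem ss_unit (h : EmbS σ) {ε : ℝ} (hε : ε ^ 2 = 1) (z : ℂ) :
    ss σ ε z = σ (‖Pe ε z‖⁻¹ • Pe ε z) :=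
  (h.hom _ _ (inv_pos.2 (norm_pos_iff.2 (Pe_ne hε z))) (Pe_ne hε z)).symm

theorem imm_ss (h : EmbS σ) {ε : ℝ} (hε : ε ^ 2 = 1) (z v : ℂ) (hv : dmap (ss σ ε) z v = 0) :
    v = 0 := by
  rw [dmap_ss' h hε] at hv
  obtain ⟨t, ht⟩ := h.imm _ _ (unit_Pe hε z) hv
  have n1 : ‖Pe ε z‖ ≠ 0 := norm_ne_zero_iff.2 (Pe_ne hε z)
  have h1 : fderiv ℝ (Pe ε) z v = t • Pe ε z := by
    have h2 := congrArg (fun x : E3 => ‖Pe ε z‖ • x) ht
    simp only [smul_smul] at h2
    rw [mul_inv_cancel₀ n1, one_smul] at h2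
    rw [h2]
    congr 1
    field_simp
  rw [fderiv_Pe] at h1
  have e0 := congrFun (congrArg WithLp.ofLp h1) 0
  have e1 := congrFun (congrArg WithLp.ofLp h1) 1
  have e2 := congrFun (congrArg WithLp.ofLp h1) 2
  have f0 : 2 * v.re = t * (2 * z.re) := e0
  have f1 : ε * (2 * v.im) = t * (ε * (2 * z.im)) := e1
  have f2 : - ε * (2 * (z.re * v.re + z.im * v.im)) =
    t * (ε * (1 - (z.re ^ 2 + z.im ^ 2))) := e2
  have g0 : v.re = t * z.re := by linarith
  have g1 : v.im = t * z.im := by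
    have : ε * (v.im - t * z.im) = 0 := by linarith
    have hε0 : ε ≠ 0 := by rintro rfl; norm_num at hε
    have := (mul_eq_zero.1 this).resolve_left hε0
    linarith
  have g2 : t * (1 + (z.re ^ 2 + z.im ^ 2)) = 0 := by
    rw [g0, g1] at f2
    linear_combination (-ε) * f2 + (-t * (1 + (z.re ^ 2 + z.im ^ 2))) * hε
  have ht0 : t = 0 := (mul_eq_zero.1 g2).resolve_right (by positivity)
  rw [ht0] at g0 g1
  apply Complex.ext
  · rw [g0]; simp
  · rw [g1]; simp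

/-- the sphere integral in the first chart. -/
theorem sphI_one (h : EmbS σ) {b : F2 E4 M} (hb : ∀ x v, at2 b x v v = 0) :
    sphI σ b = ∫ z, pb (ss σ 1) b z := by
  unfold sphI
  refine stereo (fun y : E3 => y 2 * at2 b (σ y) (dmap σ y (EuclideanSpace.single 0 1))
        (dmap σ y (EuclideanSpace.single 1 1)) +
      y 0 * at2 b (σ y) (dmap σ y (EuclideanSpace.single 1 1))
        (dmap σ y (EuclideanSpace.single 2 1)) +
      y 1 * at2 b (σ y) (dmap σ y (EuclideanSpace.single 2 1))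
        (dmap σ y (EuclideanSpace.single 0 1))) (pb (ss σ 1) b) ?_
  intro y hy hs
  have h11 : (1 : ℝ) ^ 2 = 1 := by norm_num
  have hs1 : 0 < ‖y‖ + 1 * y 2 := by rw [hy, one_mul]; exact hs
  have hs' : 1 + 1 * y 2 ≠ 0 := by rw [one_mul]; exact hs.ne'
  obtain ⟨L, hL, hLv⟩ := hasFDerivAt_zE 1 hy hs'
  have hc2 : Continuous fun x : E3 => x 2 := (EuclideanSpace.proj 2 : E3 →L[ℝ] ℝ).continuous
  have ho : IsOpen {x : E3 | 0 < ‖x‖ + 1 * x 2} :=
    isOpen_lt continuous_const (continuous_norm.add (continuous_const.mul hc2))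
  have hev : σ =ᶠ[𝓝 y] fun x => ss σ 1 (zE 1 x) := by
    filter_upwards [ho.mem_nhds hs1] with x hx using (ss_zE h h11 hx).symm
  have hd : ∀ v, dmap σ y v = dmap (ss σ 1) (zE 1 y) (L v) := fun v => by
    rw [dmap_congr hev, dmap_comp' (σ := ss σ 1) (τ := zE 1) (ss_smooth h h11 _) hL]
  have hcr := alt_cross (hb (ss σ 1 (zE 1 y))) (dmap (ss σ 1) (zE 1 y)) (dmap_add _ _)
    (dmap_smul _ _)
  have hpb : at2 b (ss σ 1 (zE 1 y)) (dmap (ss σ 1) (zE 1 y) 1)
      (dmap (ss σ 1) (zE 1 y) Complex.I) = pb (ss σ 1) b (zE 1 y) := rfl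
  have hk := kappa hy hs.ne' (Z := fun k => L (EuclideanSpace.single k 1)) (fun k => by
    have hin : inner ℝ y (EuclideanSpace.single k 1 : E3) = y k := by
      rw [EuclideanSpace.inner_single_right]; simp
    simp only [hLv, hin, one_mul])
  simp only [hd, hev.eq_of_nhds]
  rw [hcr (L (EuclideanSpace.single 0 1)) (L (EuclideanSpace.single 1 1)),
    hcr (L (EuclideanSpace.single 1 1)) (L (EuclideanSpace.single 2 1)),
    hcr (L (EuclideanSpace.single 2 1)) (L (EuclideanSpace.single 0 1)), hpb, ← zE_one]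
  simp only at hk
  rw [div_eq_mul_one_div, ← hk]
  ring

/-- the transition of the two charts. -/
theorem ss_inv (h : EmbS σ) {z : ℂ} (hz : z ≠ 0) : ss σ (-1) z = ss σ 1 z⁻¹ := by
  unfold ss
  have hn : 0 < Complex.normSq z := Complex.normSq_pos.2 hz
  have e1 : Pe (-1) z = Complex.normSq z • Pe 1 z⁻¹ := by
    ext i
    fin_cases i
    · show 2 * z.re = Complex.normSq z * (2 * (z⁻¹).re)
      rw [Complex.inv_re]; field_simp
    · show -1 * (2 * z.im) = Complex.normSq z * (1 * (2 * (z⁻¹).im))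
      rw [Complex.inv_im]; field_simp
    · show -1 * (1 - (z.re ^ 2 + z.im ^ 2)) =
        Complex.normSq z * (1 * (1 - ((z⁻¹).re ^ 2 + (z⁻¹).im ^ 2)))
      rw [Complex.inv_re, Complex.inv_im]
      have h2 : z.re ^ 2 + z.im ^ 2 = Complex.normSq z := by
        rw [Complex.normSq_apply]; ring
      field_simp
      rw [h2]
      ring
  rw [e1, h.hom _ _ hn (Pe_ne (by norm_num) _)]

/-- the sphere integral in both charts. -/
theorem sphI_eps (h : EmbS σ) {ε : ℝ} (hε : ε = 1 ∨ ε = -1) {b : F2 E4 M} (hb : Smooth2 b) :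
    sphI σ b = ∫ z, pb (ss σ ε) b z := by
  rcases hε with rfl | rfl
  · exact sphI_one h hb.1
  · rw [sphI_one h hb.1]
    have h0 : ({0}ᶜ : Set ℂ) =ᵐ[volume] (univ : Set ℂ) := by
      rw [ae_eq_univ, compl_compl]
      exact measure_singleton 0
    rw [← setIntegral_univ, ← setIntegral_univ (f := fun z => pb (ss σ (-1)) b z),
      ← setIntegral_congr_set h0, ← setIntegral_congr_set h0]
    have hd : ∀ z ∈ ({0}ᶜ : Set ℂ), HasDerivAt (fun z : ℂ => z⁻¹) (-(z ^ 2)⁻¹) z := fun z hz =>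
      hasDerivAt_inv hz
    have himg : (fun z : ℂ => z⁻¹) '' ({0}ᶜ : Set ℂ) = {0}ᶜ := by
      ext z
      constructor
      · rintro ⟨w, hw, rfl⟩
        exact inv_ne_zero hw
      · intro hz
        exact ⟨z⁻¹, inv_ne_zero hz, inv_inv z⟩
    have h1 := integral_image_eq_integral_abs_det_fderiv_smul volume
      (measurableSet_singleton (0 : ℂ)).compl
      (fun z hz => (hasFDerivAt_lam (hd z hz)).hasFDerivWithinAt) (inv_injective.injOn)
      (fun z => pb (ss σ 1) b z)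
    rw [himg] at h1
    rw [h1]
    refine setIntegral_congr_fun (measurableSet_singleton (0 : ℂ)).compl fun z hz => ?_
    have hz' : z ≠ 0 := hz
    have hev : ss σ (-1) =ᶠ[𝓝 z] fun z => ss σ 1 z⁻¹ := by
      filter_upwards [isOpen_compl_singleton.mem_nhds hz'] with y hy using ss_inv h hy
    have h2 : pb (ss σ (-1)) b z = pb (fun z => ss σ 1 z⁻¹) b z := by
      unfold pb
      rw [dmap_congr hev, dmap_congr hev, hev.eq_of_nhds]
    have h3 := pb_comp (σ := ss σ 1) (τ := fun z : ℂ => z⁻¹) (ss_smooth h (by norm_num) _)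
      (hd z hz) hb
    show _ = pb (ss σ (-1)) b z
    rw [h2, h3]
    show |(lam _ _).det| • pb (ss σ 1) b z⁻¹ = _
    rw [det_mul, abs_of_nonneg (by positivity), smul_eq_mul]

end Sph

section Closed

variable {M : Type u} [TopologicalSpace M] [T2Space M] [CompactSpace M]
  [ChartedSpace E4 M] [IsManifold 𝓘(ℝ, E4) ∞ M]

variable {σ : E3 → M} {w : Trip M} {J : EndF E4 M} {e : H2 M}

/-- the charts are immersed Lagrangian planes. -/
theorem lpl (h : JSph w σ e) {ε : ℝ} (hε : ε ^ 2 = 1) : LPl w (ss σ ε) where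
  sm := ss_smooth h.emb hε
  im := imm_ss h.emb hε
  l1 := by
    intro z
    rw [dmap_ss' h.emb hε, dmap_ss' h.emb hε, ss_unit h.emb hε]
    exact h.lag1 _ _ _ (unit_Pe hε z)
  l2 := by
    intro z
    rw [dmap_ss' h.emb hε, dmap_ss' h.emb hε, ss_unit h.emb hε]
    exact h.lag2 _ _ _ (unit_Pe hε z)

theorem pos_ss (hw : Pos3 w) (hJ : IsJ w J) (h : JSph w σ e) {ε : ℝ} (hε : ε = 1 ∨ ε = -1)
    (z : ℂ) : 0 < pb (ss σ ε) ((w 0).1.1 : F2 E4 M) z := by
  have hε2 : ε ^ 2 = 1 := by rcases hε with rfl | rfl <;> norm_num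
  refine (lpl h hε2).pos hw hJ univ ?_ z
  rw [setIntegral_univ, ← sphI_eps h.emb hε (w 0).1.2, h.rep]
  exact h.pos

/-- integrability of the density. -/
theorem integrable_ss (h : EmbS σ) {b : F2 E4 M} (hb : Smooth2 b) :
    Integrable (pb (ss σ 1) b) := by
  -- both charts together cover the sphere by compact discs
  have hε1 : (1 : ℝ) ^ 2 = 1 := by norm_num
  have hεm : (-1 : ℝ) ^ 2 = 1 := by norm_num
  have hc : ∀ ε : ℝ, ε ^ 2 = 1 → Continuous (pb (ss σ ε) b) := by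
    intro ε hε
    rw [← continuousOn_univ]
    exact (contDiffOn_pb isOpen_univ (fun z _ => (ss_smooth h hε z).contMDiffWithinAt)
      hb).continuousOn
  have h1 : IntegrableOn (pb (ss σ 1) b) (closedBall 0 1) :=
    (hc 1 hε1).continuousOn.integrableOn_compact (isCompact_closedBall 0 1)
  have h2 : IntegrableOn (pb (ss σ 1) b) {z | 1 ≤ ‖z‖} := by
    have hd : ∀ z ∈ (closedBall (0 : ℂ) 1 \ {0} : Set ℂ),
        HasDerivAt (fun z : ℂ => z⁻¹) (-(z ^ 2)⁻¹) z := fun z hz => hasDerivAt_inv hz.2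
    have himg : (fun z : ℂ => z⁻¹) '' (closedBall (0 : ℂ) 1 \ {0}) = {z | 1 ≤ ‖z‖} := by
      ext z
      constructor
      · rintro ⟨w, ⟨hw, hw0⟩, rfl⟩
        show 1 ≤ ‖w⁻¹‖
        rw [norm_inv]
        exact (one_le_inv₀ (norm_pos_iff.2 hw0)).2 (mem_closedBall_zero_iff.1 hw)
      · intro hz
        have hz1 : 1 ≤ ‖z‖ := hz
        have hz0 : z ≠ 0 := norm_pos_iff.1 (lt_of_lt_of_le one_pos hz1)
        refine ⟨z⁻¹, ⟨?_, inv_ne_zero hz0⟩, inv_inv z⟩
        rw [mem_closedBall_zero_iff, norm_inv]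
        exact inv_le_one_of_one_le₀ hz1
    have hms : MeasurableSet (closedBall (0 : ℂ) 1 \ {0}) :=
      measurableSet_closedBall.diff (measurableSet_singleton 0)
    rw [← himg, integrableOn_image_iff_integrableOn_abs_det_fderiv_smul volume hms
      (fun z hz => (hasFDerivAt_lam (hd z hz)).hasFDerivWithinAt) (inv_injective.injOn)]
    have h3 : IntegrableOn (pb (ss σ (-1)) b) (closedBall 0 1 \ {0}) :=
      ((hc (-1) hεm).continuousOn.integrableOn_compact (isCompact_closedBall 0 1)).mono_set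
        sdiff_subset
    refine h3.congr_fun (fun z hz => ?_) hms
    have hz' : z ≠ 0 := hz.2
    have hev : ss σ (-1) =ᶠ[𝓝 z] fun z => ss σ 1 z⁻¹ := by
      filter_upwards [isOpen_compl_singleton.mem_nhds hz'] with y hy using ss_inv h hy
    have h4 : pb (ss σ (-1)) b z = pb (fun z => ss σ 1 z⁻¹) b z := by
      unfold pb
      rw [dmap_congr hev, dmap_congr hev, hev.eq_of_nhds]
    have h5 := pb_comp (σ := ss σ 1) (τ := fun z : ℂ => z⁻¹) (ss_smooth h (by norm_num) _)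
      (hd z hz) hb
    rw [h4, h5]
    show _ = |(lam _ _).det| • pb (ss σ 1) b z⁻¹
    rw [det_mul, abs_of_nonneg (by positivity), smul_eq_mul]
  have h3 : (univ : Set ℂ) = closedBall 0 1 ∪ {z | 1 ≤ ‖z‖} := by
    ext z
    simp only [mem_univ, mem_union, mem_closedBall_zero_iff, true_iff]
    exact le_total _ _
  rw [← integrableOn_univ, h3]
  exact h1.union h2

/-- the current of the sphere. -/
def sphL (σ : E3 → M) (h : EmbS σ) : X2 M →ₗ[ℝ] ℝ where
  toFun b := sphI σ (b.1 : F2 E4 M)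
  map_add' b c := by
    rw [sphI_one h (b + c).2.1, sphI_one h b.2.1, sphI_one h c.2.1,
      ← integral_add (integrable_ss h b.2) (integrable_ss h c.2)]
    rfl
  map_smul' r b := by
    rw [sphI_one h (r • b).2.1, sphI_one h b.2.1, RingHom.id_apply, smul_eq_mul,
      ← integral_const_mul]
    rfl

theorem cont_sphere (h : EmbS σ) : ContinuousOn σ (sphere (0 : E3) 1) := fun y hy =>
  (σ_at h (by rintro rfl; simp at hy)).continuousAt.continuousWithinAt

theorem isClosed_sph (h : EmbS σ) : IsClosed (σ '' sphere (0 : E3) 1) :=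
  ((isCompact_sphere (0 : E3) 1).image_of_continuousOn (cont_sphere h)).isClosed

theorem op_ss (h : EmbS σ) {ε : ℝ} (hε : ε ^ 2 = 1) {O : Set ℂ} (hO : IsOpen O) :
    ∃ U, IsOpen U ∧ σ '' sphere (0 : E3) 1 ∩ U = ss σ ε '' O := by
  have hc2 : Continuous fun x : E3 => x 2 := (EuclideanSpace.proj 2 : E3 →L[ℝ] ℝ).continuous
  have ho : IsOpen {x : E3 | 0 < ‖x‖ + ε * x 2} :=
    isOpen_lt continuous_const (continuous_norm.add (continuous_const.mul hc2))
  have hcont : ContinuousOn (zE ε) {x : E3 | 0 < ‖x‖ + ε * x 2} := by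
    intro y hy
    have hy0 : y ≠ 0 := by
      rintro rfl
      simp at hy
    exact (contDiffAt_zE ε hy0 hy).continuousAt.continuousWithinAt
  set T : Set E3 := {x : E3 | 0 < ‖x‖ + ε * x 2} ∩ zE ε ⁻¹' O with hT
  have hTo : IsOpen T := hcont.isOpen_inter_preimage ho hO
  have hcl : IsClosed (σ '' (sphere (0 : E3) 1 ∩ Tᶜ)) :=
    (((isCompact_sphere (0 : E3) 1).inter_right hTo.isClosed_compl).image_of_continuousOn
      ((cont_sphere h).mono inter_subset_left)).isClosed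
  refine ⟨(σ '' (sphere (0 : E3) 1 ∩ Tᶜ))ᶜ, hcl.isOpen_compl, ?_⟩
  ext x
  constructor
  · rintro ⟨⟨y, hy, rfl⟩, hx2⟩
    have hyT : y ∈ T := by
      by_contra hyT
      exact hx2 ⟨y, ⟨hy, hyT⟩, rfl⟩
    exact ⟨zE ε y, hyT.2, ss_zE h hε hyT.1⟩
  · rintro ⟨z, hz, rfl⟩
    have hu : ‖Pe ε z‖⁻¹ • Pe ε z ∈ sphere (0 : E3) 1 := by
      rw [mem_sphere_zero_iff_norm]; exact unit_Pe hε z
    refine ⟨⟨_, hu, (ss_unit h hε z).symm⟩, ?_⟩
    rintro ⟨y, ⟨hy, hyT⟩, hyz⟩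
    apply hyT
    have hy1 : ‖y‖ = 1 := mem_sphere_zero_iff_norm.1 hy
    have h1 : y = ‖Pe ε z‖⁻¹ • Pe ε z := by
      refine h.inj _ _ hy1 (unit_Pe hε z) ?_
      rw [hyz, ss_unit h hε z]
    have n1 : 0 < ‖Pe ε z‖ := norm_pos_iff.2 (Pe_ne hε z)
    constructor
    · show 0 < ‖y‖ + ε * y 2
      have e2 : y 2 = ‖Pe ε z‖⁻¹ * Pe ε z 2 := by rw [h1]; rfl
      have e3 : ‖y‖ = ‖Pe ε z‖⁻¹ * ‖Pe ε z‖ := by rw [hy1, inv_mul_cancel₀ n1.ne']
      rw [e2, e3]
      have e4 : ‖Pe ε z‖⁻¹ * ‖Pe ε z‖ + ε * (‖Pe ε z‖⁻¹ * Pe ε z 2) =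
          ‖Pe ε z‖⁻¹ * (‖Pe ε z‖ + ε * Pe ε z 2) := by ring
      rw [e4, Pe_den hε]
      positivity
    · show zE ε y ∈ O
      rw [h1, zE_smul ε (inv_pos.2 n1), zE_Pe hε]
      exact hz

/-- **the patch of an embedded `J`-sphere.** -/
def patch (hw : Pos3 w) (hJ : IsJ w J) (h : JSph w σ e) {ε : ℝ} (hε : ε = 1 ∨ ε = -1) (z0 : ℂ) :
    Patch J ((w 0).1.1 : F2 E4 M) (σ '' sphere (0 : E3) 1) (sphL σ h.emb) (ss σ ε z0) :=
  have hε2 : ε ^ 2 = 1 := by rcases hε with rfl | rfl <;> norm_num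
  { s := ss σ ε
    D := univ
    openD := isOpen_univ
    z0 := z0
    mem := mem_univ _
    val := rfl
    smooth := fun z _ => (ss_smooth h.emb hε2 z).contMDiffWithinAt
    inj := (ss_inj h.emb hε2).injOn
    imm := fun z _ v hv => imm_ss h.emb hε2 z v hv
    jinv := fun z _ v => (lpl h hε2).jinv hw hJ z v
    op := fun _ _ hO => op_ss h.emb hε2 hO
    pos := fun z _ => pos_ss hw hJ h hε z
    cur := fun b => by
      rw [setIntegral_univ]
      exact sphI_eps h.emb hε b.2 }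

/-- **local forms of an embedded `J`-sphere.** -/
theorem loc_sph (hB : BelStmt) (hR : RegStmt) (hw : Pos3 w) (hJ : IsJ w J) (h : JSph w σ e)
    (p : M) : ∃ L : LocForm J (σ '' sphere (0 : E3) 1) p, L.Cur (sphL σ h.emb) := by
  by_cases hp : p ∈ σ '' sphere (0 : E3) 1
  · obtain ⟨y, hy, rfl⟩ := hp
    have hy1 : ‖y‖ = 1 := mem_sphere_zero_iff_norm.1 hy
    have hy2 : 0 < ‖y‖ + 1 * y 2 ∨ 0 < ‖y‖ + (-1) * y 2 := by
      rcases le_or_gt 0 (y 2) with h0 | h0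
      · left; rw [hy1]; linarith
      · right; rw [hy1]; linarith
    rcases hy2 with h0 | h0
    · rw [← ss_zE h.emb (by norm_num) h0]
      exact loc_form hB hR hJ.smooth hJ.sq (w 0).1.2 (fun x v hv => hJ.tame x v hv)
        (patch hw hJ h (Or.inl rfl) _)
    · rw [← ss_zE h.emb (by norm_num) h0]
      exact loc_form hB hR hJ.smooth hJ.sq (w 0).1.2 (fun x v hv => hJ.tame x v hv)
        (patch hw hJ h (Or.inr rfl) _)
  · let L : LocForm J (σ '' sphere (0 : E3) 1) p :=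
      { U := (σ '' sphere (0 : E3) 1)ᶜ
        openU := (isClosed_sph h.emb).isOpen_compl
        mem := hp
        n := 0
        u := fun _ _ => p
        disc := fun j => j.elim0
        centre := fun j => j.elim0
        disj := fun j => j.elim0
        supp := by simp
        proper := fun j => j.elim0 }
    refine ⟨L, ?_⟩
    intro b K hK hKU hb
    show sphI σ (b.1 : F2 E4 M) = ∑ j : Fin 0, _
    rw [Finset.univ_eq_empty, Finset.sum_empty, sphI_one h.emb b.2.1]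
    refine integral_eq_zero_of_ae (Filter.Eventually.of_forall fun z => ?_)
    have h2 : ss σ 1 z ∉ K := fun hz => hKU hz
      ⟨_, mem_sphere_zero_iff_norm.2 (unit_Pe (by norm_num) z), (ss_unit h.emb (by norm_num) z).symm⟩
    show pb (ss σ 1) (b.1 : F2 E4 M) z = 0
    unfold pb
    rw [hb _ h2]
    rfl

end Closed

end

end Crest.Agent.R235.SphPatch_61
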