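import Mathlib
import Crest.Agent.R235.TorPatch_61
import Crest.Agent.R235.SphPatch_61
import Crest.Agent.R235.Glob8_370
import Crest.Agent.R235.CurTopProps_844
import Crest.Agent.R235.TorDefs_225
import Crest.Agent.R235.Top_837
import Crest.Agent.R235.Exj_900
import Crest.Agent.R235.Ip_288

/-!
Row 235 (S0364), package ADJ, leaf X1 (helper61): `INTT` and `DISJ` from the adjunction package.

* `irr`: a plane curve lying in a finite union of closed infinite sets with finite pairwise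
  intersections, covering it up to finitely many points, forces the union to have one member;
* `curve_tor`, `curve_sph`: an embedded `J`-torus (`J`-sphere) is the current of a `JCurve`;
* `intt_of`, `disj_of`.
-/

set_option autoImplicit false
set_option maxSynthPendingDepth 3
set_option linter.unusedSectionVars false

open Set Function Filter MeasureTheory Metric
open scoped Manifold ContDiff Topology

universe u

namespace Crest.Agent.R235.X1_61

open Crest.Agent.R240 Crest.Agent.R240.Ch Crest.Agent.R235.Glob_370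
open Crest.Agent.R235.AdjET_61 Crest.Agent.R235.NWDefs_334 Crest.Agent.R235.NWIface_334
open Crest.Agent.R235.TorPatch_61 Crest.Agent.R235.SphPatch_61

noncomputable section

/-! ### irreducibility -/

/-- a plane curve in a finite union of closed sets with finite pairwise intersections lies in one
of them, up to a countable set. -/
theorem irr {X : Type*} [TopologicalSpace X] [T1Space X] {s : ℂ → X} (hs : Continuous s)
    (hc : ∀ x, (s ⁻¹' {x}).Countable) {S : Set X} (h1 : range s ⊆ S) (h2 : (S \ range s).Finite)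
    {m : ℕ} (R : Fin m → Set X) (hR : S = ⋃ i, R i) (hcl : ∀ i, IsClosed (R i))
    (hinf : ∀ i, (R i).Infinite) (hd : ∀ i j, i ≠ j → (R i ∩ R j).Finite) :
    ∃ i0 : Fin m, ∀ j, j = i0 := by
  set G : Set X := ⋃ i, ⋃ j, ⋃ _ : i ≠ j, R i ∩ R j with hG
  have hGf : G.Finite := finite_iUnion fun i => finite_iUnion fun j => finite_iUnion fun hij =>
    hd i j hij
  have hBc : (s ⁻¹' G).Countable := by
    have : s ⁻¹' G = ⋃ x ∈ G, s ⁻¹' {x} := by
      ext z
      simp
    rw [this]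
    exact hGf.countable.biUnion fun x _ => hc x
  have hrk : 1 < Module.rank ℝ ℂ := by
    rw [Complex.rank_real_complex]
    exact_mod_cast one_lt_two
  have hU : IsPathConnected (s ⁻¹' G)ᶜ := hBc.isPathConnected_compl_of_one_lt_rank hrk
  obtain ⟨z0, hz0⟩ := hU.nonempty
  have hz1 : s z0 ∈ ⋃ i, R i := hR ▸ h1 ⟨z0, rfl⟩
  obtain ⟨i0, hi0⟩ := mem_iUnion.1 hz1
  refine ⟨i0, fun j => ?_⟩
  by_contra hj
  -- `R j` is finite
  refine hinf j ((h2.union hGf).subset ?_)
  intro x hx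
  by_cases hxs : x ∈ range s
  · right
    obtain ⟨z, rfl⟩ := hxs
    by_contra hzG
    -- the two closed sets
    set A : Set ℂ := s ⁻¹' R i0
    set B : Set ℂ := s ⁻¹' ⋃ k : {k : Fin m // k ≠ i0}, R k
    have hAc : IsClosed A := (hcl i0).preimage hs
    have hBc' : IsClosed B := (isClosed_iUnion_of_finite fun k => hcl _).preimage hs
    have hcov : (s ⁻¹' G)ᶜ ⊆ A ∪ B := by
      intro w _
      have hw : s w ∈ ⋃ i, R i := hR ▸ h1 ⟨w, rfl⟩
      obtain ⟨k, hk⟩ := mem_iUnion.1 hw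
      by_cases hki : k = i0
      · left; subst hki; exact hk
      · right; exact mem_iUnion.2 ⟨⟨k, hki⟩, hk⟩
    have hpc := isPreconnected_closed_iff.1 hU.isConnected.isPreconnected A B hAc hBc' hcov
      ⟨z0, hz0, hi0⟩ ⟨z, hzG, mem_iUnion.2 ⟨⟨j, hj⟩, hx⟩⟩
    obtain ⟨w, hw, hwA, hwB⟩ := hpc
    obtain ⟨⟨k, hk⟩, hwk⟩ := mem_iUnion.1 hwB
    exact hw (mem_iUnion.2 ⟨i0, mem_iUnion.2 ⟨k, mem_iUnion.2 ⟨fun h => hk h.symm, hwA, hwk⟩⟩⟩)
  · left
    exact ⟨hR ▸ mem_iUnion.2 ⟨j, hx⟩, hxs⟩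

section Closed

variable {M : Type u} [TopologicalSpace M] [T2Space M] [CompactSpace M]
  [ChartedSpace E4 M] [IsManifold 𝓘(ℝ, E4) ∞ M]

variable {w : Trip M} {J : EndF E4 M} {e : H2 M}

theorem infinite_N (c : JCurve J) : Infinite c.N := by
  obtain ⟨x⟩ : Nonempty c.N := inferInstance
  obtain ⟨i, hi⟩ := c.A.cover x
  have hne : (c.A.c i).target.Nonempty := ⟨_, (c.A.c i).map_source hi⟩
  have hinf : (c.A.c i).target.Infinite := by
    obtain ⟨z, hz⟩ := hne
    exact infinite_of_mem_nhds z ((c.A.c i).open_target.mem_nhds hz)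
  have h2 : ((c.A.c i).symm '' (c.A.c i).target).Infinite := hinf.image (c.A.c i).symm.injOn
  exact h2.mono (subset_univ _) |>.to_subtype |> fun h => by
    exact (Equiv.Set.univ c.N).infinite_iff.1 h

theorem infinite_range (c : JCurve J) : (range c.f).Infinite := by
  obtain ⟨F, hF, hinj, -⟩ := c.fin
  have := infinite_N c
  have h1 : (Fᶜ : Set c.N).Infinite := hF.infinite_compl
  have h2 : (c.f '' Fᶜ).Infinite := by
    refine h1.image ?_
    intro x hx y _ hxy
    exact hinj x y hx hxy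
  exact h2.mono (image_subset_range _ _)

/-- `GLOB` with one component. -/
theorem curve_of [ConnectedSpace M] (hJ : IsJ w J) {s : ℂ → M} (hs : Continuous s)
    (hc : ∀ x, (s ⁻¹' {x}).Countable) {S : Set M} (h1 : range s ⊆ S) (h2 : (S \ range s).Finite)
    {C : X2 M →ₗ[ℝ] ℝ} (hloc : ∀ p : M, ∃ L : LocForm J S p, L.Cur C) :
    ∃ c : JCurve J, C = c.T ∧ S = range c.f := by
  obtain ⟨m, c, hC, hS, hd⟩ := glob M J hJ.smooth hJ.sq S C hloc
  obtain ⟨i0, hi0⟩ := irr hs hc h1 h2 (fun i => range (c i).f) hS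
    (fun i => (isCompact_range (c i).cont).isClosed) (fun i => infinite_range (c i)) hd
  refine ⟨c i0, ?_, ?_⟩
  · rw [hC, Finset.sum_eq_single i0 (fun b _ hb => absurd (hi0 b) hb)
      (fun h => absurd (Finset.mem_univ _) h)]
  · rw [hS]
    ext x
    constructor
    · intro hx
      obtain ⟨i, hi⟩ := mem_iUnion.1 hx
      rw [hi0 i] at hi
      exact hi
    · exact fun hx => mem_iUnion.2 ⟨i0, hx⟩

/-- **an embedded `J`-torus is a `JCurve`.** -/
theorem curve_tor [ConnectedSpace M] (hB : BelStmt) (hR : RegStmt) (hw : Pos3 w) (hJ : IsJ w J) {σ : Ep → M}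
    (h : JTor w σ e) : ∃ c : JCurve J, torL σ h.emb = c.T ∧ range σ = range c.f := by
  have hs : Continuous (ts σ) :=
    continuous_iff_continuousAt.2 fun z => (ts_smooth h.emb z).continuousAt
  refine curve_of hJ hs ?_ (range_ts σ).subset ?_ (loc_tor hB hR hw hJ h)
  · intro x
    by_cases hx : ∃ z, ts σ z = x
    · obtain ⟨z, rfl⟩ := hx
      have : ts σ ⁻¹' {ts σ z} ⊆ range fun mn : ℤ × ℤ => z + mn.1 + mn.2 * Complex.I := by
        intro w hw
        obtain ⟨m, n, hmn⟩ := ts_inj h.emb (show ts σ z = ts σ w from (mem_singleton_iff.1 hw).symm)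
        exact ⟨(m, n), hmn.symm⟩
      exact (countable_range _).mono this
    · have : ts σ ⁻¹' {x} = ∅ := by
        ext z
        simp only [mem_preimage, mem_singleton_iff, mem_empty_iff_false, iff_false]
        exact fun hz => hx ⟨z, hz⟩
      rw [this]
      exact countable_empty
  · rw [range_ts, Set.sdiff_self]
    exact finite_empty

/-- **an embedded `J`-sphere is a `JCurve`.** -/
theorem curve_sph [ConnectedSpace M] (hB : BelStmt) (hR : RegStmt) (hw : Pos3 w) (hJ : IsJ w J) {σ : E3 → M}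
    (h : JSph w σ e) :
    ∃ c : JCurve J, sphL σ h.emb = c.T ∧ σ '' sphere (0 : E3) 1 = range c.f := by
  have hε : (1 : ℝ) ^ 2 = 1 := by norm_num
  have hs : Continuous (ss σ 1) :=
    continuous_iff_continuousAt.2 fun z => (ss_smooth h.emb hε z).continuousAt
  refine curve_of hJ hs ?_ ?_ ?_ (loc_sph hB hR hw hJ h)
  · intro x
    exact (subsingleton_singleton.preimage (ss_inj h.emb hε)).countable
  · rintro _ ⟨z, rfl⟩
    exact ⟨_, mem_sphere_zero_iff_norm.2 (unit_Pe hε z), (ss_unit h.emb hε z).symm⟩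
  · refine (finite_singleton (σ (EuclideanSpace.single 2 (-1)))).subset ?_
    rintro _ ⟨⟨y, hy, rfl⟩, hn⟩
    have hy1 : ‖y‖ = 1 := mem_sphere_zero_iff_norm.1 hy
    have h0 : ¬ 0 < ‖y‖ + 1 * y 2 := fun h0 => hn ⟨_, ss_zE h.emb hε h0⟩
    have h3 : y 0 ^ 2 + y 1 ^ 2 + y 2 ^ 2 = 1 := by
      have := EuclideanSpace.norm_sq_eq y
      rw [hy1, Fin.sum_univ_three] at this
      simpa [Real.norm_eq_abs, sq_abs] using this.symm
    have h4 : y 2 ≤ -1 := by
      rw [hy1] at h0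
      linarith [not_lt.1 h0]
    have h5 : y 2 = -1 := by nlinarith [sq_nonneg (y 0), sq_nonneg (y 1)]
    have h6 : y 0 ^ 2 + y 1 ^ 2 = 0 := by rw [h5] at h3; linarith
    have h7 : y 0 = 0 := by nlinarith [sq_nonneg (y 0), sq_nonneg (y 1)]
    have h8 : y 1 = 0 := by nlinarith [sq_nonneg (y 0), sq_nonneg (y 1)]
    rw [mem_singleton_iff]
    congr 1
    ext i
    fin_cases i <;> simp [h5, h7, h8]

/-! ### nondegeneracy -/

/-- the intersection form is nondegenerate if Poincaré duality holds. -/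
theorem ip_ext [ConnectedSpace M] (hP : STF_861.PD.{u}) (hw : Pos3 w) {f g : H2 M}
    (h : ∀ b : Z2 M, ip (w 0) f (cls b) = ip (w 0) g (cls b)) : f = g := by
  by_contra hne
  have hne' : f - g ≠ 0 := sub_ne_zero.2 hne
  obtain ⟨l, hl⟩ : ∃ l : H2 M →ₗ[ℝ] ℝ, l (f - g) ≠ 0 := by
    by_contra hcon
    push Not at hcon
    exact hne' ((Module.forall_dual_apply_eq_zero_iff ℝ _).1 hcon)
  -- extend to all forms
  obtain ⟨L, hL⟩ := (l ∘ₗ (B2 M).mkQ).exists_extend
  have hL' : ∀ a : Z2 M, L a.1 = l (cls a) := fun a => congrArg (fun T => T a) hL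
  have hkill : ∀ b : X2 M, IsEx (b.1 : F2 E4 M) → L b = 0 := by
    intro b hb
    have hbc : b ∈ Z2 M := mem_Z2.2 (Ch.IsEx.closed2 hb)
    have h3 : cls ⟨b, hbc⟩ = 0 := (Submodule.Quotient.mk_eq_zero _).2 hb
    rw [show L b = l (cls ⟨b, hbc⟩) from hL' ⟨b, hbc⟩, h3, map_zero]
  obtain ⟨s, hs⟩ := hP M w hw L hkill
  have hvol := hw.vol 0
  obtain ⟨a, ha⟩ := cls_surj (f - g)
  have h1 : l (cls a) = pI (w 0) s a := by
    rw [← hs a, hL']
  rw [ha] at h1
  apply hl
  rw [h1, ← ip_cls hvol, ha, ip_comm, ip_sub_left hvol, h s, sub_self]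

end Closed

/-- **X1, first half.** -/
theorem intt_of (hB : BelStmt) (hR : RegStmt) (hI : Adj.ISEC.{u}) (hS : JSAME.{u}) (hP : STF_861.PD.{u}) :
    INTT.{u} := by
  intro M _ _ _ _ _ _ w hw f g σ τ hσ hτ hfg hne
  obtain ⟨J, hJ⟩ := Exj_900.exj M w hw
  obtain ⟨c, hc, hcr⟩ := curve_tor hB hR hw hJ hσ
  obtain ⟨c', hc', hcr'⟩ := curve_tor hB hR hw hJ hτ
  have hs : ∀ b : Z2 M, c.T b.1 = ip (w 0) f (cls b) := fun b => by rw [← hc]; exact hσ.rep b
  have hs' : ∀ b : Z2 M, c'.T b.1 = ip (w 0) g (cls b) := fun b => by rw [← hc']; exact hτ.rep b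
  rcases hS M w J hw hJ c c' with hfin | ⟨hr, hT⟩
  · exfalso
    obtain ⟨h1, h2⟩ := hI M w J hw hJ c c' f g hs hs' hfin
    have h3 := h2 (le_antisymm hfg h1)
    rw [hcr, hcr'] at hne
    exact (Set.not_disjoint_iff_nonempty_inter.2 hne) h3
  · refine ⟨by rw [hcr, hcr', hr], ip_ext hP hw fun b => ?_⟩
    rw [← hs b, ← hs' b, hT]

/-- **X1, second half.** -/
theorem disj_of (hB : BelStmt) (hR : RegStmt) (hI : Adj.ISEC.{u}) (hS : JSAME.{u}) (hP : STF_861.PD.{u}) :
    DISJ.{u} := by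
  intro M _ _ _ _ _ _ w hw σ τ d e hσ hτ hde
  obtain ⟨J, hJ⟩ := Exj_900.exj M w hw
  obtain ⟨c, hc, hcr⟩ := curve_sph hB hR hw hJ hσ
  obtain ⟨c', hc', hcr'⟩ := curve_sph hB hR hw hJ hτ
  have hs : ∀ b : Z2 M, c.T b.1 = ip (w 0) d (cls b) := fun b => by rw [← hc]; exact hσ.rep b
  have hs' : ∀ b : Z2 M, c'.T b.1 = ip (w 0) e (cls b) := fun b => by rw [← hc']; exact hτ.rep b
  rcases hS M w J hw hJ c c' with hfin | ⟨hr, hT⟩
  · obtain ⟨h1, h2⟩ := hI M w J hw hJ c c' d e hs hs' hfin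
    refine ⟨h1, fun h0 y z hy hz hyz => ?_⟩
    have h3 := h2 h0
    rw [← hcr, ← hcr'] at h3
    have hn : ∀ (ρ : E3 → M), EmbS ρ → ∀ y : E3, y ≠ 0 → ρ y ∈ ρ '' sphere (0 : E3) 1 := by
      intro ρ hρ y hy
      refine ⟨‖y‖⁻¹ • y, mem_sphere_zero_iff_norm.2 (by
        rw [norm_smul, norm_inv, norm_norm, inv_mul_cancel₀ (norm_ne_zero_iff.2 hy)]), ?_⟩
      exact hρ.hom _ _ (inv_pos.2 (norm_pos_iff.2 hy)) hy
    exact Set.disjoint_left.1 h3 (hn σ hσ.emb y hy) (hyz ▸ hn τ hτ.emb z hz)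
  · exact absurd (ip_ext hP hw fun b => by rw [← hs b, ← hs' b, hT]) hde

end

end Crest.Agent.R235.X1_61
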