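import Crest.Agent.R235.Y2_819
import Crest.Agent.R235.Exj_900
import Crest.Agent.R235.KumDefs_152

/-!
# R235, package KUM, node YAUK (helper819): Yau's theorem for a holomorphic symplectic pair
-/

set_option autoImplicit false
set_option maxSynthPendingDepth 3

open Function
open scoped Manifold ContDiff

namespace Crest.Agent.R235.Yauk_819

open Crest.Agent.R240 Crest.Agent.R240.Ch Crest.Agent.R235

theorem yauk : YAUK.{0} := by
  intro M _ _ _ _ _ _ w hw h
  obtain ⟨a, -, hs, hk⟩ := Y2_819.y2 Exj_900.exj hw (fun x => (h x).1) (fun x => (h x).2.1)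
    (fun x => (h x).2.2.1) (fun x => (h x).2.2.2)
  exact ⟨update w 0 a, hs, hk⟩

end Crest.Agent.R235.Yauk_819
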