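import Crest.Agent.R235.FinalR_844
import Crest.Agent.R235.Yauk_819
import Crest.Agent.R235.Tor3_225
import Crest.Agent.R235.TorFamT_384
import Crest.Agent.R235.ChLCU_225
import Crest.Agent.R235.RegMain_460
import Crest.Agent.R235.RegCMain_522
import Crest.Agent.R235.Cur3_4
import Crest.Agent.R235.CurSiul_531
import Crest.Agent.R235.CurLin2_679
import Crest.Agent.R235.CurLin3_400
import Crest.Agent.R235.CurClo_505
import Crest.Agent.R235.CurGra_109
import Crest.Agent.R235.CurGeo2_133
import Crest.Agent.R235.CurGri_538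
import Crest.Agent.R235.CurDel_538
import Crest.Agent.R235.CurLim_510
import Crest.Agent.R235.Brint_464
import Crest.Agent.R235.KumEvt_152
import Crest.Agent.R235.Curves_489
import Crest.Agent.R235.Glob8_370
import Crest.Agent.R235.KumTop_152
import Crest.Agent.R235.KumMinus_918
import Crest.Agent.R235.KumK4T_305
import Crest.Agent.R235.KumTwD_800
import Crest.Agent.R235.KumCode_766
import Crest.Agent.R235.KumThom_785
import Crest.Agent.R235.KumDisc_601
import Crest.Agent.R235.K12S2_423
import Crest.Agent.R235.K12Radf_843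
import Crest.Agent.R235.K12Phi_291
import Crest.Agent.R235.K12Rprim_82
import Crest.Agent.R235.KUp_604
import Crest.Agent.R235.KDown_604
import Crest.Agent.R235.KT_172
import Crest.Agent.R235.X1_61
import Crest.Agent.R235.NWBel_601
import Crest.Agent.R235.NWFin_334
import Crest.Agent.R235.Same_796
import Crest.Agent.R235.AdjMain_43
import Crest.Agent.R235.AdjIsec_43
import Crest.Agent.R235.AdjPush_470
import Crest.Agent.R235.AdjCut_470
import Crest.Agent.R235.BoxF_266
import Crest.Agent.R235.WkK_250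
import Crest.Agent.R235.Degs_370
import Crest.Agent.R235.Bch_370
import Crest.Agent.R235.IntW_659
import Crest.Agent.R235.Cord_659
import Crest.Agent.R235.IndSig3_723
import Crest.Agent.R235.SwcTop_291
import Crest.Agent.R235.K12Top_417
import Crest.Agent.R235.HodgeEnd_194
import Crest.Agent.R235.IndTW_692
import Crest.Agent.R235.SWFin_53
import Crest.Agent.R235.SWNd_918
import Crest.Agent.R235.SwcANF_34
import Crest.Agent.R235.SwcPWN_215
import Crest.Agent.R235.SwcPRB_766
import Crest.Agent.R235.SwcPrG_215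
import Crest.Agent.R235.FdsFin_778
import Crest.Agent.R235.FamEndT_307
import Crest.Agent.R235.ModT_344
import Crest.Agent.R235.ModXE_399
import Crest.Agent.R235.ModXH_399
import Crest.Agent.R235.FvX_844
import Crest.Agent.R235.FvZ_143
import Crest.Agent.R235.RcWX_837
import Crest.Agent.R235.RcP2_215
import Crest.Agent.R235.Glue_856

/-!
Row 235 (S0364), helper837 (captain): the assembly of `MAIN`: all the nodes are theorems.
-/

set_option autoImplicit false

universe u

namespace Crest.Agent.R235.Final_837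

open Crest.Agent.R235 Crest.Agent.R240

theorem rcman : FamTop_307.RCMAN.{0} := RcWX_837.rcman_of RcP2_215.p2x

theorem bplus : BPLUS.{0} := SWFin_53.bplus

theorem fam4 : DichProps_723.FAM4W.{0} :=
  FamEndT_307.fam4w_of (FamTop_307.famhx_of rcman FvZ_143.fwxh0 FdsFin_778.finh4) bplus ModB_344.modt

theorem modx : SwcProd_215.MODX.{0} :=
  ModXE_399.modx_of (FamTop2_307.famxc_of rcman FvX_844.fwx0c FdsFin_778.fin4) bplus ModXG_399.modxg

theorem prod : SwcProd_215.PROD.{u} :=
  SwcProd_215.prod2 SwcPWN_215.pwd (SwcPRB_766.prb SwcPWN_215.pwd SwcVOLD_57.vold)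

theorem sig235 : DichProps_723.SIG235.{0} := IndSig2_723.sig235_of_HODGE Hodge_194.hodge

open CurDefs_132 in
theorem siul : SIUL :=
  have h2 : LIN2 := CurLin2_679.lin2
  have h3 : LIN3 := CurLin3_400.lin3 h2
  have hm : MON := RegFin_460.mon
  have h4 : LIN4 := CurLin4_253.LIN4_proof
  have h1 : LIN1' := CurLin1_785.lin1'
  have g1 : GEO1 := CurGeo1_679.geo1
  CurSiul_531.siul (CurLim_510.lim hm)
    (CurClo_505.clo (CurGra_109.gra h1 h3 h4 g1 CurGeo2_133.geo2)
      (CurGri_538.gri (CurDel_538.del hm h1 h4 g1) h1 h4 g1) hm h4 g1) g1 h4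

theorem cur3 : Curves_489.CUR3.{u} := Cur3_4.cur3_of siul

theorem jdec : JDEC.{u} := Curves_489.jdec cur3 RegCMain_522.regc Glob_370.glob

theorem t2s : Swc.T2S.{u} := Curves_489.t2s cur3 RegCMain_522.regc Glob_370.glob

theorem adj : Adj.ADJ.{u} :=
  AdjMain_43.adj (BoxL2_266.boxp_of_fol NWFin_334.fol_stmt Wk_250.weakp) AdjPush_470.push
    Field_910.field IntW_659.intw Cord_659.cord AdjCut_470.cutf Brint_464.brint Degs_370.degs
    Bch_370.bch

theorem isec : Adj.ISEC.{u} :=
  AdjIsec_43.isec (BoxL2_266.boxp_of_fol NWFin_334.fol_stmt Wk_250.weakp) IntW_659.intw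
    Cord_659.cord AdjCut_470.cutf Brint_464.brint

/-- THE MAP, level 3. -/
theorem main : MAIN.{u} := by
  have hB : BPLUS.{0} := bplus
  have hRoot : ROOT.{0} := SWFin_53.root
  have hFl : FLATK.{0} := SWFin_53.flatk
  have hEv : DichProps_723.EVEN235.{0} := IndEven_692.even235
  have hD : DICHR.{0} := dichr_open sig235 hEv hB fam4
  have hPD : STF_861.PD.{0} := PD_819.pd_of_dichr hD
  have hCLS : CLS.{0} := cls_of_dichr hD
  have hJDEC : JDEC.{0} := jdec
  have hT2S : Swc.T2S.{0} := t2s
  have hADJ : Adj.ADJ.{0} := adj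
  have hISEC : Adj.ISEC.{0} := isec
  have hJI : JINT.{0} := CurTop_844.jint integ
  have hJS : JSAME.{0} := Same_796.jsame NWFin_334.fol_stmt
  have hSPH : SPH.{0} := sph_open hD hRoot hJDEC hADJ hISEC hJS
  have hDISJ : DISJ.{0} := X1_61.disj_of NWBel_601.bel NWRegF_930.reg_stmt hISEC hJS hPD
  have hINTT : INTT.{0} := X1_61.intt_of NWBel_601.bel NWRegF_930.reg_stmt hISEC hJS hPD
  have hNT : NECKTH.{0} := KumDisc_601.neckth_of
    fun M _ _ _ _ _ _ w hw hK m σ d hσ hd K hC hT i =>
      KumThom_785.thom K12Phi_291.phi K12Radf_843.radf K12S2_423.s2prim K12Rprim_82.rprim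
        hw hK (hσ i) (hd i) K i (hC i) (hT i)
  have hTR : TORUSR.{0} := Swc.torusr_of (SwcTop_291.swcur_of SwcANF_34.an prod modx hB) hT2S hJI
    (Swc.jtor_of RS.CAtl.rsec hADJ) hCLS Exj_900.exj
  have hAt : ATLAS.{0} := Tor3_225.atlas TorFam_384.fam hINTT Limt.limt hT2S hJI RS.CAtl.rsec
    hADJ hCLS Exj_900.exj
  have hEVT : EVT.{0} := KumEvt_152.evt_of' Exj_900.exj (cone_open hD hJDEC hADJ) lattr hTR hAt
    hINTT
  have hK12 : K12T.{0} := K12_417.k12t
  have hK : KUM.{0} := KumTop_152.kum_of hSPH hDISJ hK12 hNT (KumTwD_800.ktw hFl)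
    (fun M _ _ _ _ _ _ w d hw hK hP => KumCode_766.exists_eight (hw.vol 0) hK hP)
    KTA_172.kt (KumK4T_305.k4t hD hFl) KumMinus_918.minusx hEVT KUp_604.kup_stmt KDown_604.kdown_stmt
    Yauk_819.yauk
  have hTORR : TORR.{0} := Tor2_225.torr_of hTR hAt FibTop_129.coframe TorFlat_68.flatc
  exact finalR_of sig235 hEv hB fam4 hRoot hJDEC hADJ hK hTORR

end Crest.Agent.R235.Final_837
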