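import Crest.Agent.R235.Top_844
import Crest.Agent.R235.Cone_288
import Crest.Agent.R235.Exj_900
import Crest.Agent.R235.Hbn_195
import Crest.Agent.R235.LatK_766
import Crest.Agent.R235.LatT_723
import Crest.Agent.R235.Univ_417
import Crest.Agent.R235.Glue_856

/-!
Row 235 (S0364), helper844: FINAL MAP.  `MAIN` from the nodes which are still open.
-/

set_option autoImplicit false

universe u

namespace Crest.Agent.R235

/-- the open nodes: `DICH, ROOT, CLS, NEGN, HKCONE, KUM, TOR` (universe `0`). -/
theorem final_of (hD : DICH.{0}) (hR : ROOT.{0}) (hC : CLS.{0}) (hN : NEGN.{0})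
    (hH : HKCONE.{0}) (hK : KUM.{0}) (hT : TOR.{0}) : MAIN.{u} :=
  Univ_417.main_univ (main_of_props hD Exj_900.exj hR
    (Cone_288.cone_of Hbn_195.hbn Exj_900.exj hC hN (bplus_of_dich hD)) hH
    LatK_766.latk hK latt hT)

end Crest.Agent.R235
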