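import Crest.Agent.R235.FlatDef_607

/-!
Row 235 (S0364), PACKAGE REG, block FLATW, leaf 11 (task 389, helper347): assembly.
-/

set_option autoImplicit false
set_option maxSynthPendingDepth 3

open Set Function Filter MeasureTheory Metric Complex
open scoped ContDiff ENNReal Manifold Topology

namespace Crest.Agent.R235.FlatAsm_347

open Crest.Agent.R240 Crest.Agent.R240.En Crest.Agent.R240.Pot
open Crest.Agent.R235.CurDefs_132 Crest.Agent.R235.Flat

noncomputable section

theorem flatw (h1 : LEBP) (h2 : DEFZ) (h3 : KERN) (h4 : LINK) (h8 : FLP) (h9 : SELX) :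
    FLATW := by
  intro D hD
  obtain ⟨X, hXm, hX1, hXk⟩ := h9 D
  refine ⟨X, hXm, hX1, ?_⟩
  filter_upwards [h1 D, hD] with x hx hden hxb
  have hxb3 : x ∈ ball D.x0 (3 * D.R) := ball_subset_ball (by linarith [D.R_pos]) hxb
  have hdef := h2 D x hxb3 hx
  have hK := hXk x (h3 D x hdef (hden hxb))
  exact ⟨(h4 (D.J x) (D.F x) D.m D.M (D.bd x) (D.φ x) (D.pos x) (D.nrm x) (X x) hK).1,
    h8 D x hxb hx hdef (hden hxb) (X x) hK⟩

end

end Crest.Agent.R235.FlatAsm_347
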