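import Crest.Agent.R235.FlatDef_607

/-!
Row 235 (S0364), PACKAGE REG, leaf FLAT-2 (task 380, helper463): the frozen deficit tends to zero.
-/

set_option autoImplicit false
set_option maxSynthPendingDepth 3

open Set Function Filter MeasureTheory Metric
open scoped ContDiff ENNReal Manifold Topology

namespace Crest.Agent.R235.FlatDefz_463

open Crest.Agent.R240 Crest.Agent.R240.En Crest.Agent.R240.Pot
open Crest.Agent.R235.CurDefs_132 Crest.Agent.R235.Flat

noncomputable section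

/-! ### pointwise algebra -/

theorem ker_zero {J : E4 →L[ℝ] E4} {F : Bil} {m M : ℝ} (h : Bd J F m M) {v : E4}
    (hv : F v (J v) = 0) : v = 0 := by
  have h1 := h.lo v
  rw [hv] at h1
  have h2 : ‖v‖ ^ 2 ≤ 0 := by
    by_contra hc
    have := mul_pos h.m_pos (not_le.1 hc)
    linarith
  have h3 : ‖v‖ = 0 := by
    have := sq_nonneg ‖v‖
    exact pow_eq_zero_iff (two_ne_zero) |>.1 (le_antisymm h2 this)
  exact norm_eq_zero.1 h3

/-- comparison of the deficit of a covector with the frozen value. -/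
theorem alg (h1 : LIN1) {J : E4 →L[ℝ] E4} {F : Bil} {m M : ℝ} (h : Bd J F m M) {φ : Bil}
    (hφ : Pos J φ) (hn : q F φ F = 1) (α : Cov) (z : E4) (β : Cov)
    (hβ : ∀ u, β u = 2 * F z (J u)) :
    φ z (J z) ≤ defi J F φ α + defi J F φ (β - α) := by
  obtain ⟨Z, hZ, hZ2, -⟩ := h1 J F m M h φ hφ hn α
  obtain ⟨Z', hZ', hZ2', -⟩ := h1 J F m M h φ hφ hn (β - α)
  have hs : (2 : ℝ) • z = Z + Z' := by
    have h0 : ((2 : ℝ) • z - (Z + Z')) = 0 := by
      apply ker_zero h
      rw [map_sub, map_smul, map_add, sub_apply, add_apply,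
        smul_apply, hZ, hZ', sub_apply, hβ, smul_eq_mul]
      ring
    exact sub_eq_zero.1 h0
  have h2 : φ ((2 : ℝ) • z) (J ((2 : ℝ) • z)) = 4 * φ z (J z) := by
    rw [map_smul, map_smul, map_smul, smul_apply, smul_eq_mul, smul_eq_mul]
    ring
  have h3 := hφ.nonneg (Z - Z')
  rw [hs] at h2
  simp only [map_add, map_sub, add_apply, sub_apply]
    at h2 h3
  rw [hZ2, hZ2']
  linarith

theorem defi_nonneg (h1 : LIN1) {J : E4 →L[ℝ] E4} {F : Bil} {m M : ℝ} (h : Bd J F m M) {φ : Bil}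
    (hφ : Pos J φ) (hn : q F φ F = 1) (α : Cov) : 0 ≤ defi J F φ α := by
  obtain ⟨Z, hZ, hZ2, -⟩ := h1 J F m M h φ hφ hn α
  rw [hZ2]
  have := hφ.nonneg Z
  linarith

/-! ### the differential of `rho2` -/

section
variable (D : LC)

theorem lipF (x y : E4) : ‖D.F x - D.F y‖ ≤ D.L * ‖y - x‖ := by
  have h := convex_univ.norm_image_sub_le_of_norm_fderiv_le (f := D.F) (C := D.L) (x := y) (y := x)
    (fun z _ => (D.smF.differentiable (by simp)).differentiableAt)
    (fun z _ => D.bF1 z) (mem_univ _) (mem_univ _)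
  rwa [norm_sub_rev x y] at h

theorem lipJ (x y : E4) : ‖D.J x - D.J y‖ ≤ D.L * ‖y - x‖ := by
  have h := convex_univ.norm_image_sub_le_of_norm_fderiv_le (f := D.J) (C := D.L) (x := y) (y := x)
    (fun z _ => (D.smJ.differentiable (by simp)).differentiableAt)
    (fun z _ => D.bJ1 z) (mem_univ _) (mem_univ _)
  rwa [norm_sub_rev x y] at h

/-- the differential of `rho2` in the second variable. -/
theorem dy_apply (x y u : E4) : D.dy x y u =
    D.F x (y - x) (D.J x u) + D.F y (y - x) (D.J y u) +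
      (fderiv ℝ D.F y u (y - x) (D.J y (y - x)) + D.F y (y - x) (fderiv ℝ D.J y u (y - x))) / 2 := by
  have hz : HasFDerivAt (fun y' : E4 => y' - x) (ContinuousLinearMap.id ℝ E4) y :=
    (hasFDerivAt_id y).sub_const x
  have hF : HasFDerivAt D.F (fderiv ℝ D.F y) y :=
    (D.smF.differentiable (by simp)).differentiableAt.hasFDerivAt
  have hJ : HasFDerivAt D.J (fderiv ℝ D.J y) y :=
    (D.smJ.differentiable (by simp)).differentiableAt.hasFDerivAt
  have e1 := (hF.clm_apply hz).clm_apply (hJ.clm_apply hz)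
  have hFx : HasFDerivAt (fun y' : E4 => D.F x (y' - x))
      ((D.F x).comp (ContinuousLinearMap.id ℝ E4)) y := (D.F x).hasFDerivAt.comp y hz
  have hJx : HasFDerivAt (fun y' : E4 => D.J x (y' - x))
      ((D.J x).comp (ContinuousLinearMap.id ℝ E4)) y := (D.J x).hasFDerivAt.comp y hz
  have e2 := hFx.clm_apply hJx
  have e0 := (e2.add e1).mul_const (2⁻¹ : ℝ)
  have e3 := e0.congr_of_eventuallyEq (f₁ := fun y' : E4 => D.rho2 x y')
    (Eventually.of_forall fun y' => by
      simp [LC.rho2, LC.G, gm_apply, div_eq_mul_inv])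
  have hsx : D.F x u (D.J x (y - x)) = D.F x (y - x) (D.J x u) := by
    have := gm_symm (D.bd x).sq (D.bd x).spos u (y - x)
    simpa using this
  have hsy : D.F y u (D.J y (y - x)) = D.F y (y - x) (D.J y u) := by
    have := gm_symm (D.bd y).sq (D.bd y).spos u (y - x)
    simpa using this
  rw [LC.dy, e3.fderiv]
  simp
  simp at hsx hsy
  linarith

theorem L_nonneg : 0 ≤ D.L := zero_le_one.trans D.L_ge

theorem dy_close (x y : E4) :
    ‖(2 : ℝ) • (D.F y (y - x)).comp (D.J y) - D.dy x y‖ ≤ 3 * D.L ^ 2 * ‖y - x‖ ^ 2 := by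
  have hL := L_nonneg D
  refine ContinuousLinearMap.opNorm_le_bound _ (by positivity) fun u => ?_
  set z := y - x with hz
  have e : ((2 : ℝ) • (D.F y z).comp (D.J y) - D.dy x y) u =
      (D.F y - D.F x) z (D.J y u) + D.F x z ((D.J y - D.J x) u) -
        (fderiv ℝ D.F y u z (D.J y z) + D.F y z (fderiv ℝ D.J y u z)) / 2 := by
    rw [sub_apply, dy_apply]
    simp only [smul_apply, sub_apply, ContinuousLinearMap.comp_apply, smul_eq_mul, map_sub, ← hz]
    ring
  rw [e]
  have nF : ‖D.F y - D.F x‖ ≤ D.L * ‖z‖ := by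
    rw [norm_sub_rev]; exact lipF D x y
  have nJ : ‖D.J y - D.J x‖ ≤ D.L * ‖z‖ := by
    rw [norm_sub_rev]; exact lipJ D x y
  have nu := norm_nonneg u
  have nz := norm_nonneg z
  have b1 : ‖(D.F y - D.F x) z (D.J y u)‖ ≤ D.L * ‖z‖ * ‖z‖ * (D.L * ‖u‖) := by
    refine (((D.F y - D.F x) z).le_opNorm _).trans ?_
    refine mul_le_mul (((D.F y - D.F x).le_opNorm _).trans
      (mul_le_mul_of_nonneg_right nF nz)) (((D.J y).le_opNorm _).trans
      (mul_le_mul_of_nonneg_right (D.bJ y) nu)) (norm_nonneg _) (by positivity)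
  have b2 : ‖D.F x z ((D.J y - D.J x) u)‖ ≤ D.L * ‖z‖ * (D.L * ‖z‖ * ‖u‖) := by
    refine ((D.F x z).le_opNorm _).trans ?_
    refine mul_le_mul (((D.F x).le_opNorm _).trans
      (mul_le_mul_of_nonneg_right (D.bF x) nz)) (((D.J y - D.J x).le_opNorm _).trans
      (mul_le_mul_of_nonneg_right nJ nu)) (norm_nonneg _) (by positivity)
  have b3 : ‖fderiv ℝ D.F y u z (D.J y z)‖ ≤ D.L * ‖u‖ * ‖z‖ * (D.L * ‖z‖) := by
    refine ((fderiv ℝ D.F y u z).le_opNorm _).trans ?_
    refine mul_le_mul (((fderiv ℝ D.F y u).le_opNorm _).trans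
      (mul_le_mul_of_nonneg_right (((fderiv ℝ D.F y).le_opNorm _).trans
        (mul_le_mul_of_nonneg_right (D.bF1 y) nu)) nz)) (((D.J y).le_opNorm _).trans
      (mul_le_mul_of_nonneg_right (D.bJ y) nz)) (norm_nonneg _) (by positivity)
  have b4 : ‖D.F y z (fderiv ℝ D.J y u z)‖ ≤ D.L * ‖z‖ * (D.L * ‖u‖ * ‖z‖) := by
    refine ((D.F y z).le_opNorm _).trans ?_
    refine mul_le_mul (((D.F y).le_opNorm _).trans
      (mul_le_mul_of_nonneg_right (D.bF y) nz)) (((fderiv ℝ D.J y u).le_opNorm _).trans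
      (mul_le_mul_of_nonneg_right (((fderiv ℝ D.J y).le_opNorm _).trans
        (mul_le_mul_of_nonneg_right (D.bJ1 y) nu)) nz)) (norm_nonneg _) (by positivity)
  rw [Real.norm_eq_abs] at b1 b2 b3 b4 ⊢
  have c1 := abs_le.1 b1
  have c2 := abs_le.1 b2
  have c3 := abs_le.1 b3
  have c4 := abs_le.1 b4
  rw [abs_le]
  constructor <;> nlinarith

/-- the pointwise inequality. -/
theorem ptwise (h1 : LIN1) (h4 : LIN4) : ∃ C : ℝ, 0 ≤ C ∧ ∀ x y : E4, ‖y - x‖ ≤ 1 →
    D.φ x (y - x) (D.J x (y - x)) ≤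
      D.De x y + (C * ‖y - x‖ ^ 3 + D.L * ‖y - x‖ ^ 2 * ‖D.φ y - D.φ x‖) := by
  obtain ⟨C, hC, hC4⟩ := h4 D.m D.M D.L
  have hL := L_nonneg D
  refine ⟨9 * C * D.L ^ 4 + C * D.L, by positivity, fun x y hz1 => ?_⟩
  obtain ⟨n1, -, -, n4, -⟩ := hC4 (D.J y) (D.F y) (D.bd y) (D.bJ y) (D.φ y) (D.pos y) (D.nrm y)
  set z := y - x with hz
  have nz := norm_nonneg z
  have a1 := alg h1 (D.bd y) (D.pos y) (D.nrm y) (D.dy x y) z
    ((2 : ℝ) • (D.F y z).comp (D.J y)) (fun u => by
      simp only [smul_apply, ContinuousLinearMap.comp_apply, smul_eq_mul])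
  have a2 : defi (D.J y) (D.F y) (D.φ y) ((2 : ℝ) • (D.F y z).comp (D.J y) - D.dy x y) ≤
      9 * C * D.L ^ 4 * ‖z‖ ^ 3 := by
    refine (n4 _).trans ?_
    have h := dy_close D x y
    rw [← hz] at h
    have h2 : ‖(2 : ℝ) • (D.F y z).comp (D.J y) - D.dy x y‖ ^ 2 ≤
        (3 * D.L ^ 2 * ‖z‖ ^ 2) ^ 2 := by
      gcongr
    have h3 : ‖z‖ ^ 4 ≤ ‖z‖ ^ 3 := pow_le_pow_of_le_one nz hz1 (by norm_num)
    calc C * ‖(2 : ℝ) • (D.F y z).comp (D.J y) - D.dy x y‖ ^ 2
        ≤ C * (3 * D.L ^ 2 * ‖z‖ ^ 2) ^ 2 := mul_le_mul_of_nonneg_left h2 hC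
      _ = 9 * C * D.L ^ 4 * ‖z‖ ^ 4 := by ring
      _ ≤ 9 * C * D.L ^ 4 * ‖z‖ ^ 3 := mul_le_mul_of_nonneg_left h3 (by positivity)
  have a3 : D.φ x z (D.J x z) = D.φ y z (D.J y z) + (D.φ x - D.φ y) z (D.J x z) +
      D.φ y z ((D.J x - D.J y) z) := by
    simp only [sub_apply, map_sub]
    ring
  have a4 : ‖(D.φ x - D.φ y) z (D.J x z)‖ ≤ ‖D.φ y - D.φ x‖ * ‖z‖ * (D.L * ‖z‖) := by
    rw [norm_sub_rev (D.φ y)]
    refine (((D.φ x - D.φ y) z).le_opNorm _).trans ?_
    exact mul_le_mul ((D.φ x - D.φ y).le_opNorm _) (((D.J x).le_opNorm _).trans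
      (mul_le_mul_of_nonneg_right (D.bJ x) nz)) (norm_nonneg _) (by positivity)
  have a5 : ‖D.φ y z ((D.J x - D.J y) z)‖ ≤ C * ‖z‖ * (D.L * ‖z‖ * ‖z‖) := by
    refine ((D.φ y z).le_opNorm _).trans ?_
    exact mul_le_mul (((D.φ y).le_opNorm _).trans (mul_le_mul_of_nonneg_right n1 nz))
      (((D.J x - D.J y).le_opNorm _).trans (mul_le_mul_of_nonneg_right (lipJ D x y) nz))
      (norm_nonneg _) (by positivity)
  rw [Real.norm_eq_abs] at a4 a5
  have c4 := (abs_le.1 a4).2
  have c5 := (abs_le.1 a5).2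
  have e6 : D.De x y = defi (D.J y) (D.F y) (D.φ y) (D.dy x y) := rfl
  rw [a3, e6]
  nlinarith

end

/-! ### integration -/

theorem defz (h1 : LIN1) (h4 : LIN4) (hM : MON) : DEFZ := by
  intro D x hx hLeb
  obtain ⟨C, hC, hpt⟩ := ptwise D h1 h4
  have hL := L_nonneg D
  have := D.fin
  obtain ⟨K, hK⟩ : ∃ K, Cut 1 K := by
    refine ⟨fun t => Real.smoothTransition (2 - t), ?_, ?_, ?_, ?_⟩
    · exact Real.smoothTransition.contDiff.comp (contDiff_const.sub contDiff_id)
    · intro a b hab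
      exact Real.smoothTransition.monotone (by linarith)
    · intro t ht
      exact Real.smoothTransition.one_of_one_le (by linarith)
    · intro t ht
      exact Real.smoothTransition.zero_of_nonpos (by linarith)
  obtain ⟨C1, r1, hC1, hr1, -, -, hint⟩ := hM D 1 K one_pos le_rfl hK
  have hint := hint x hx
  set h : E4 → ℝ≥0∞ := fun y => ENNReal.ofReal (D.De x y / ‖y - x‖ ^ 4) with hh
  have hfin : ∫⁻ y, h y ∂(D.s.restrict (ball x r1)) ≠ ⊤ := ne_top_of_le_ne_top ENNReal.ofReal_ne_top hint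
  -- growth of closed balls
  have hgr : ∀ r, 0 < r → D.s.real (closedBall x r) ≤ 4 * D.C * r ^ 2 := by
    intro r hr
    have h2 : closedBall x r ⊆ ball x (2 * r) := closedBall_subset_ball (by linarith)
    refine (measureReal_mono h2).trans ((D.gr x (2 * r) (by linarith)).trans_eq ?_)
    ring
  have hs0 : Tendsto (fun r : ℝ => D.s (closedBall x r)) (𝓝[>] 0) (𝓝 0) := by
    have h2 : Tendsto (fun r : ℝ => ENNReal.ofReal (4 * D.C * r ^ 2)) (𝓝[>] 0) (𝓝 0) := by
      have h3 : Tendsto (fun r : ℝ => 4 * D.C * r ^ 2) (𝓝[>] 0) (𝓝 0) := by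
        have : Tendsto (fun r : ℝ => 4 * D.C * r ^ 2) (𝓝 0) (𝓝 (4 * D.C * 0 ^ 2)) :=
          (continuous_const.mul (continuous_id.pow 2)).tendsto 0
        rw [zero_pow two_ne_zero, mul_zero] at this
        exact this.mono_left nhdsWithin_le_nhds
      have := ENNReal.tendsto_ofReal h3
      rwa [ENNReal.ofReal_zero] at this
    refine tendsto_of_tendsto_of_tendsto_of_le_of_le' tendsto_const_nhds h2
      (Eventually.of_forall fun _ => zero_le) ?_
    filter_upwards [self_mem_nhdsWithin] with r hr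
    rw [← ENNReal.ofReal_toReal (measure_ne_top D.s (closedBall x r))]
    exact ENNReal.ofReal_le_ofReal (hgr r hr)
  -- the first term
  have hT : Tendsto (fun r : ℝ => (∫⁻ y in closedBall x r, h y ∂D.s).toReal) (𝓝[>] 0) (𝓝 0) := by
    have h2 : Tendsto (fun r : ℝ => ∫⁻ y in closedBall x r, h y ∂(D.s.restrict (ball x r1)))
        (𝓝[>] 0) (𝓝 0) := by
      refine tendsto_setLIntegral_zero hfin ?_
      refine tendsto_of_tendsto_of_tendsto_of_le_of_le tendsto_const_nhds hs0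
        (fun _ => zero_le) fun r => ?_
      exact Measure.restrict_apply_le _ _
    have h3 := (ENNReal.tendsto_toReal (ENNReal.zero_ne_top)).comp h2
    rw [ENNReal.toReal_zero] at h3
    refine h3.congr' ?_
    filter_upwards [Ioo_mem_nhdsGT hr1] with r hr
    simp only [Function.comp_apply]
    rw [Measure.restrict_restrict_of_subset (closedBall_subset_ball hr.2)]
  -- the main inequality
  have hφm : Measurable fun y => ‖D.φ y - D.φ x‖ := (D.meas.sub_const _).norm
  obtain ⟨C4, hC4, hb4⟩ := h4 D.m D.M D.L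
  have hφb : ∀ y, ‖D.φ y‖ ≤ C4 := fun y =>
    (hb4 (D.J y) (D.F y) (D.bd y) (D.bJ y) (D.φ y) (D.pos y) (D.nrm y)).1
  have hφi : ∀ r, IntegrableOn (fun y => ‖D.φ y - D.φ x‖) (closedBall x r) D.s := by
    intro r
    refine Measure.integrableOn_of_bounded (M := 2 * C4) (measure_ne_top _ _)
      hφm.aestronglyMeasurable (Eventually.of_forall fun y => ?_)
    rw [norm_norm]
    refine (norm_sub_le _ _).trans ?_
    have := hφb x
    have := hφb y
    linarith
  have hmain : ∀ r, 0 < r → r < r1 → r ≤ 1 →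
      (r ^ 4)⁻¹ * ∫ y in closedBall x r, D.φ x (y - x) (D.J x (y - x)) ∂D.s ≤
        (∫⁻ y in closedBall x r, h y ∂D.s).toReal + (4 * C * D.C * r +
          D.L * ((r ^ 2)⁻¹ * ∫ y in closedBall x r, ‖D.φ y - D.φ x‖ ∂D.s)) := by
    intro r hr hr1' hr2
    have hr4 : 0 < r ^ 4 := by positivity
    have hTfin : ∫⁻ y in closedBall x r, h y ∂D.s ≠ ⊤ :=
      ne_top_of_le_ne_top hfin (lintegral_mono' (Measure.restrict_mono
        (closedBall_subset_ball hr1') le_rfl) le_rfl)
    have hc : Continuous fun y => D.φ x (y - x) (D.J x (y - x)) := by fun_prop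
    have hi0 : IntegrableOn (fun y => D.φ x (y - x) (D.J x (y - x))) (closedBall x r) D.s :=
      hc.continuousOn.integrableOn_compact (isCompact_closedBall x r)
    set G : E4 → ℝ := fun y => C * r ^ 3 + D.L * r ^ 2 * ‖D.φ y - D.φ x‖ with hG
    have hGi : IntegrableOn G (closedBall x r) D.s :=
      (integrableOn_const (measure_ne_top _ _)).add ((hφi r).const_mul _)
    have hG0 : ∀ y, 0 ≤ G y := fun y => by rw [hG]; positivity
    have hle : ∫⁻ y in closedBall x r, ENNReal.ofReal (D.φ x (y - x) (D.J x (y - x))) ∂D.s ≤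
        ∫⁻ y in closedBall x r, (ENNReal.ofReal (r ^ 4) * h y + ENNReal.ofReal (G y)) ∂D.s := by
      refine setLIntegral_mono' measurableSet_closedBall fun y hy => ?_
      rw [mem_closedBall, dist_eq_norm] at hy
      have nz := norm_nonneg (y - x)
      have hd0 : 0 ≤ D.De x y := defi_nonneg h1 (D.bd y) (D.pos y) (D.nrm y) _
      rw [hh]
      simp only
      rw [← ENNReal.ofReal_mul hr4.le, ← ENNReal.ofReal_add (by positivity) (hG0 y)]
      refine ENNReal.ofReal_le_ofReal ?_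
      by_cases h0 : ‖y - x‖ = 0
      · have h00 : y - x = 0 := norm_eq_zero.1 h0
        rw [h00]
        simp only [map_zero, norm_zero]
        have := hG0 y
        simpa using this
      · have hpos : 0 < ‖y - x‖ := lt_of_le_of_ne nz (Ne.symm h0)
        have hp := hpt x y (hy.trans hr2)
        have e1 : D.De x y ≤ r ^ 4 * (D.De x y / ‖y - x‖ ^ 4) := by
          rw [mul_div_assoc', le_div_iff₀ (by positivity)]
          rw [mul_comm (r ^ 4)]
          exact mul_le_mul_of_nonneg_left (pow_le_pow_left₀ nz hy 4) hd0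
        have e2 : C * ‖y - x‖ ^ 3 ≤ C * r ^ 3 :=
          mul_le_mul_of_nonneg_left (pow_le_pow_left₀ nz hy 3) hC
        have e3 : D.L * ‖y - x‖ ^ 2 * ‖D.φ y - D.φ x‖ ≤ D.L * r ^ 2 * ‖D.φ y - D.φ x‖ :=
          mul_le_mul_of_nonneg_right (mul_le_mul_of_nonneg_left (pow_le_pow_left₀ nz hy 2) hL)
            (norm_nonneg _)
        rw [hG]
        simp only
        linarith
    rw [lintegral_add_right', lintegral_const_mul' _ _ ENNReal.ofReal_ne_top,
      ← ofReal_integral_eq_lintegral_ofReal hi0, ← ofReal_integral_eq_lintegral_ofReal hGi] at hle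
    rotate_left
    · exact Eventually.of_forall hG0
    · exact Eventually.of_forall fun y => (D.pos x).nonneg _
    · exact hGi.aestronglyMeasurable.aemeasurable.ennreal_ofReal
    have hGv : ∫ y in closedBall x r, G y ∂D.s = C * r ^ 3 * D.s.real (closedBall x r) +
        D.L * r ^ 2 * ∫ y in closedBall x r, ‖D.φ y - D.φ x‖ ∂D.s := by
      have i1 : Integrable (fun _ : E4 => C * r ^ 3) (D.s.restrict (closedBall x r)) :=
        integrable_const _
      have i2 : Integrable (fun y : E4 => D.L * r ^ 2 * ‖D.φ y - D.φ x‖)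
        (D.s.restrict (closedBall x r)) := (hφi r).const_mul _
      rw [hG, integral_add i1 i2, setIntegral_const, integral_const_mul, smul_eq_mul]
      ring
    have hGn : 0 ≤ ∫ y in closedBall x r, G y ∂D.s := integral_nonneg hG0
    rw [← ENNReal.ofReal_toReal hTfin, ← ENNReal.ofReal_mul hr4.le,
      ← ENNReal.ofReal_add (by positivity) hGn,
      ENNReal.ofReal_le_ofReal_iff (by positivity)] at hle
    rw [hGv] at hle
    have hsr := hgr r hr
    have e5 : C * r ^ 3 * D.s.real (closedBall x r) ≤ C * r ^ 3 * (4 * D.C * r ^ 2) :=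
      mul_le_mul_of_nonneg_left hsr (by positivity)
    rw [inv_mul_le_iff₀ hr4]
    refine hle.trans ?_
    have e6 : r ^ 4 * (D.L * ((r ^ 2)⁻¹ * ∫ y in closedBall x r, ‖D.φ y - D.φ x‖ ∂D.s)) =
        D.L * r ^ 2 * ∫ y in closedBall x r, ‖D.φ y - D.φ x‖ ∂D.s := by
      field_simp
    rw [mul_add, mul_add, e6]
    nlinarith
  -- conclusion
  have hlim : Tendsto (fun r : ℝ => (∫⁻ y in closedBall x r, h y ∂D.s).toReal + (4 * C * D.C * r +
      D.L * ((r ^ 2)⁻¹ * ∫ y in closedBall x r, ‖D.φ y - D.φ x‖ ∂D.s))) (𝓝[>] 0) (𝓝 0) := by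
    have h3 : Tendsto (fun r : ℝ => 4 * C * D.C * r) (𝓝[>] 0) (𝓝 0) := by
      have : Tendsto (fun r : ℝ => 4 * C * D.C * r) (𝓝 0) (𝓝 (4 * C * D.C * 0)) :=
        (continuous_const.mul continuous_id).tendsto 0
      rw [mul_zero] at this
      exact this.mono_left nhdsWithin_le_nhds
    have := hT.add (h3.add (hLeb.const_mul D.L))
    simpa using this
  refine tendsto_of_tendsto_of_tendsto_of_le_of_le' tendsto_const_nhds hlim ?_ ?_
  · filter_upwards [self_mem_nhdsWithin] with r hr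
    have hr' : 0 < r := hr
    refine mul_nonneg (by positivity) (integral_nonneg fun y => (D.pos x).nonneg _)
  · filter_upwards [Ioo_mem_nhdsGT hr1, Ioo_mem_nhdsGT one_pos] with r hr hr'
    exact hmain r hr.1 hr.2 hr'.2.le

end

end Crest.Agent.R235.FlatDefz_463
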