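import Crest.Agent.R235.FlatDef_607

/-!
Row 235, helper453: task 381, FLAT-3 `KERN`: `φ_x` is simple at a point of density one.
-/

set_option autoImplicit false
set_option maxSynthPendingDepth 3

open Set Function Filter MeasureTheory Metric Complex
open scoped ContDiff ENNReal Manifold Topology

namespace Crest.Agent.R235.FlatKern_453

open Crest.Agent.R240 Crest.Agent.R240.En Crest.Agent.R240.Pot
open Crest.Agent.R235.CurDefs_132 Crest.Agent.R235.Flat

/-- a quadratic form which is positive on the unit sphere is bounded below. -/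
theorem lower (ψ : E4 → ℝ) (hc : Continuous ψ) (hh : ∀ (t : ℝ) z, ψ (t • z) = t ^ 2 * ψ z)
    (hp : ∀ z, ‖z‖ = 1 → 0 < ψ z) : ∃ c : ℝ, 0 < c ∧ ∀ z, c * ‖z‖ ^ 2 ≤ ψ z := by
  obtain ⟨z0, hz0, hmin⟩ := (isCompact_sphere (0 : E4) 1).exists_isMinOn
    (NormedSpace.sphere_nonempty.2 zero_le_one) hc.continuousOn
  have hz1 : ‖z0‖ = 1 := by simpa using hz0
  refine ⟨ψ z0, hp z0 hz1, fun z => ?_⟩
  by_cases hz : z = 0
  · subst hz
    have := hh 0 0
    simp at this
    simp [this]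
  · have hn : 0 < ‖z‖ := norm_pos_iff.2 hz
    have h1 : ‖(‖z‖⁻¹ • z)‖ = 1 := by
      rw [norm_smul, norm_inv, norm_norm, inv_mul_cancel₀ hn.ne']
    have h2 : ψ z0 ≤ ψ (‖z‖⁻¹ • z) := hmin (by simpa using h1)
    rw [hh] at h2
    have h3 : ψ z0 * ‖z‖ ^ 2 ≤ (‖z‖⁻¹ ^ 2 * ψ z) * ‖z‖ ^ 2 :=
      mul_le_mul_of_nonneg_right h2 (by positivity)
    refine h3.trans (le_of_eq ?_)
    field_simp

theorem kern : KERN := by
  intro D x hdef hden
  by_contra hno
  push Not at hno
  have := D.fin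
  have hpos : ∀ z, ‖z‖ = 1 → 0 < D.φ x z (D.J x z) := by
    intro z hz
    rcases ((D.pos x).nonneg z).lt_or_eq with h | h
    · exact h
    · exact absurd ⟨hz, h.symm⟩ (hno z)
  have hcψ : Continuous (fun z : E4 => D.φ x z (D.J x z)) := by fun_prop
  obtain ⟨c, hc0, hc⟩ := lower (fun z => D.φ x z (D.J x z)) hcψ
    (fun t z => by simp only [map_smul, smul_apply, smul_eq_mul]; ring) hpos
  have hm := (D.bd x).m_pos
  have hlo : ∀ z, D.m * ‖z‖ ^ 2 ≤ D.G x z z := (D.bd x).lo
  have hhi : ∀ z, D.G x z z ≤ D.M * ‖z‖ ^ 2 := (D.bd x).hi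
  have hM : 0 < D.M := lt_of_lt_of_le hm (D.bd x).m_le_M
  set a : ℝ := √D.m with ha
  have ha0 : 0 < a := Real.sqrt_pos.2 hm
  have ha2 : a ^ 2 = D.m := Real.sq_sqrt hm.le
  set E : ℝ → Set E4 := fun r => {y | D.G x (y - x) (y - x) < r ^ 2} with hE
  have hcG : Continuous (fun y : E4 => D.G x (y - x) (y - x)) := by fun_prop
  have hEo : ∀ r, MeasurableSet (E r) := fun r =>
    (isOpen_lt hcG continuous_const).measurableSet
  have T : ∀ b : ℝ, 0 < b → Tendsto (fun r : ℝ => D.s.real (E (b * r)) / (Real.pi * (b * r) ^ 2))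
      (𝓝[>] 0) (𝓝 1) := by
    intro b hb
    have h1 : Tendsto (fun r : ℝ => b * r) (𝓝[>] 0) (𝓝[>] 0) := by
      refine tendsto_nhdsWithin_iff.2 ⟨?_, ?_⟩
      · have : Tendsto (fun r : ℝ => b * r) (𝓝 0) (𝓝 (b * 0)) := tendsto_id.const_mul b
        rw [mul_zero] at this
        exact this.mono_left nhdsWithin_le_nhds
      · filter_upwards [self_mem_nhdsWithin] with r hr
        exact mul_pos hb hr
    exact hden.comp h1
  have T1 := T a ha0
  have T2 := T (a / 2) (by positivity)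
  have T3 : Tendsto (fun r : ℝ => c * (D.m / (4 * D.M)) *
      (Real.pi * a ^ 2 * (D.s.real (E (a * r)) / (Real.pi * (a * r) ^ 2)) -
        Real.pi * (a / 2) ^ 2 * (D.s.real (E (a / 2 * r)) / (Real.pi * (a / 2 * r) ^ 2))))
      (𝓝[>] 0) (𝓝 (c * (D.m / (4 * D.M)) * (Real.pi * a ^ 2 * 1 - Real.pi * (a / 2) ^ 2 * 1))) :=
    ((T1.const_mul _).sub (T2.const_mul _)).const_mul _
  have hle : ∀ᶠ r : ℝ in 𝓝[>] 0, c * (D.m / (4 * D.M)) *
      (Real.pi * a ^ 2 * (D.s.real (E (a * r)) / (Real.pi * (a * r) ^ 2)) -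
        Real.pi * (a / 2) ^ 2 * (D.s.real (E (a / 2 * r)) / (Real.pi * (a / 2 * r) ^ 2))) ≤
      (r ^ 4)⁻¹ * ∫ y in closedBall x r, D.φ x (y - x) (D.J x (y - x)) ∂D.s := by
    filter_upwards [self_mem_nhdsWithin] with r hr
    have hr0 : (0 : ℝ) < r := hr
    have hsub : E (a / 2 * r) ⊆ E (a * r) := by
      intro y hy
      have hy' : D.G x (y - x) (y - x) < (a / 2 * r) ^ 2 := hy
      refine lt_of_lt_of_le hy' ?_
      have : a / 2 * r ≤ a * r := by nlinarith
      exact pow_le_pow_left₀ (by positivity) this 2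
    have hS : MeasurableSet (E (a * r) \ E (a / 2 * r)) := (hEo _).diff (hEo _)
    have hSb : E (a * r) \ E (a / 2 * r) ⊆ closedBall x r := by
      intro y hy
      have h1 : D.G x (y - x) (y - x) < (a * r) ^ 2 := hy.1
      rw [mul_pow, ha2] at h1
      have h2 := hlo (y - x)
      rw [mem_closedBall, dist_eq_norm]
      have h3 : ‖y - x‖ ^ 2 < r ^ 2 := by
        by_contra hcon
        push Not at hcon
        nlinarith
      exact (lt_of_pow_lt_pow_left₀ 2 hr0.le h3).le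
    have hint : IntegrableOn (fun y => D.φ x (y - x) (D.J x (y - x))) (closedBall x r) D.s :=
      (hcψ.comp (continuous_id.sub continuous_const)).continuousOn.integrableOn_compact
        (isCompact_closedBall x r)
    have h4 : ∀ y ∈ E (a * r) \ E (a / 2 * r), c * (D.m / (4 * D.M)) * r ^ 2 ≤
        D.φ x (y - x) (D.J x (y - x)) := by
      intro y hy
      have h1 : ¬ D.G x (y - x) (y - x) < (a / 2 * r) ^ 2 := hy.2
      push Not at h1
      have h2 := hhi (y - x)
      have h3 := hc (y - x)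
      have h5 : D.m / (4 * D.M) * r ^ 2 ≤ ‖y - x‖ ^ 2 := by
        have h6 : (a / 2 * r) ^ 2 = D.m * r ^ 2 / 4 := by
          rw [mul_pow, div_pow, ha2]; ring
        rw [h6] at h1
        rw [div_mul_eq_mul_div, div_le_iff₀ (by positivity)]
        linarith
      refine le_trans ?_ h3
      rw [mul_assoc]
      exact mul_le_mul_of_nonneg_left h5 hc0.le
    have h7 : c * (D.m / (4 * D.M)) * r ^ 2 * D.s.real (E (a * r) \ E (a / 2 * r)) ≤
        ∫ y in E (a * r) \ E (a / 2 * r), D.φ x (y - x) (D.J x (y - x)) ∂D.s :=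
      setIntegral_ge_of_const_le_real hS (measure_ne_top _ _) h4 (hint.mono_set hSb)
    have h8 : ∫ y in E (a * r) \ E (a / 2 * r), D.φ x (y - x) (D.J x (y - x)) ∂D.s ≤
        ∫ y in closedBall x r, D.φ x (y - x) (D.J x (y - x)) ∂D.s :=
      setIntegral_mono_set hint (Eventually.of_forall fun y => (D.pos x).nonneg _)
        (LE.le.eventuallyLE hSb)
    rw [measureReal_sdiff hsub (hEo _)] at h7
    have h9 := h7.trans h8
    rw [inv_mul_eq_div, le_div_iff₀ (by positivity)]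
    refine le_trans (le_of_eq ?_) h9
    field_simp
  have hfin := le_of_tendsto_of_tendsto T3 hdef hle
  have : 0 < c * (D.m / (4 * D.M)) * (Real.pi * a ^ 2 * 1 - Real.pi * (a / 2) ^ 2 * 1) := by
    have h1 : Real.pi * a ^ 2 * 1 - Real.pi * (a / 2) ^ 2 * 1 = Real.pi * a ^ 2 * (3 / 4) := by ring
    rw [h1]
    positivity
  linarith

end Crest.Agent.R235.FlatKern_453
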