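import Crest.Agent.R235.FlatDef_607

/-!
Row 235 (S0364), block FLATW, leaf FLAT-1 LEBP (helper504): Lebesgue points of `φ` with the
two-dimensional normalisation.
-/

set_option autoImplicit false
set_option maxSynthPendingDepth 3

open Set Function Filter MeasureTheory Metric
open scoped ContDiff ENNReal Manifold Topology

namespace Crest.Agent.R235.FlatLeb_504

open Crest.Agent.R240 Crest.Agent.R240.En Crest.Agent.R240.Pot
open Crest.Agent.R235.CurDefs_132 Crest.Agent.R235.Flat

/-- `φ` is bounded. -/
theorem norm_phi_le (D : LC) (y : E4) : ‖D.φ y‖ ≤ 2 * D.M := by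
  have h := (D.bd y).norm_le_q (D.pos y)
  rwa [D.nrm y, mul_one] at h

theorem integrable_phi (D : LC) : Integrable D.φ D.s := by
  have := D.fin
  exact Integrable.of_bound D.meas.aestronglyMeasurable (2 * D.M)
    (Eventually.of_forall (norm_phi_le D))

theorem locInt (D : LC) : LocallyIntegrable D.φ D.s := by
  exact (integrable_phi D).locallyIntegrable

/-- growth of closed balls. -/
theorem mass (D : LC) (x : E4) {r : ℝ} (hr : 0 < r) :
    (r ^ 2)⁻¹ * D.s.real (closedBall x r) ≤ 4 * D.C := by
  have := D.fin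
  have h1 : D.s.real (closedBall x r) ≤ D.s.real (ball x (2 * r)) :=
    measureReal_mono (closedBall_subset_ball (by linarith)) (measure_ne_top _ _)
  have h2 := D.gr x (2 * r) (by linarith)
  have h3 : 0 < r ^ 2 := by positivity
  rw [inv_mul_le_iff₀ h3]
  nlinarith

/-- FLAT-1. -/
theorem lebp : LEBP := by
  intro D
  have := D.fin
  filter_upwards [(Besicovitch.vitaliFamily D.s).ae_tendsto_average_norm_sub (locInt D)] with x hx
  have h1 : Tendsto (fun r => ⨍ y in closedBall x r, ‖D.φ y - D.φ x‖ ∂D.s) (𝓝[>] 0) (𝓝 0) :=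
    hx.comp (Besicovitch.tendsto_filterAt D.s x)
  have h2 : Tendsto (fun r => 4 * D.C * ⨍ y in closedBall x r, ‖D.φ y - D.φ x‖ ∂D.s) (𝓝[>] 0)
      (𝓝 0) := by
    have := h1.const_mul (4 * D.C)
    rwa [mul_zero] at this
  refine squeeze_zero' ?_ ?_ h2
  · filter_upwards [self_mem_nhdsWithin] with r hr
    exact mul_nonneg (by positivity) (integral_nonneg fun _ => norm_nonneg _)
  · filter_upwards [self_mem_nhdsWithin] with r hr
    have h3 := measure_smul_setAverage (μ := D.s) (fun y => ‖D.φ y - D.φ x‖)
      (measure_ne_top D.s (closedBall x r))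
    rw [← h3, smul_eq_mul, ← mul_assoc]
    refine mul_le_mul_of_nonneg_right (mass D x hr) ?_
    rw [setAverage_eq]
    exact mul_nonneg (by positivity) (integral_nonneg fun _ => norm_nonneg _)

end Crest.Agent.R235.FlatLeb_504
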