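import Crest.Agent.R235.FlatDef_607

/-!
# R235, REG-FLAT 4: `Flat.LINK`

Linear algebra of a simple positive form: if `φ X (J X) = 0` and `q F φ F = 1` then
`q F φ b = b X (J X) / F X (J X)`, and `φ` is (twice) the area of the orthogonal complement of
the complex line spanned by `X`.
-/

set_option autoImplicit false
set_option maxSynthPendingDepth 3

open Set Function Filter MeasureTheory Metric Complex
open scoped ContDiff ENNReal Manifold Topology

namespace Crest.Agent.R235.FlatLink_181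

open Crest.Agent.R240 Crest.Agent.R240.En Crest.Agent.R240.Pot
open Crest.Agent.R235.CurDefs_132 Crest.Agent.R235.Flat

noncomputable section

theorem W_om0_right (b : Bil) : W b om0 = ent b 0 1 + ent b 2 3 := by
  have h3 : ∀ i j, ent om0 i j = om0 (ee i) (ee j) := fun i j => rfl
  unfold W
  simp only [h3, om0_apply, ee_apply]
  simp

/-- entries of a simple form in a unitary frame -/
theorem ents {P : Bil} (hP : Pos J0 P) (hW : W P om0 = 2) {x : E4} (hk : P x (J0 x) = 0) :
    ‖x‖ ^ 2 * ent P 0 1 = 2 * (x 2 ^ 2 + x 3 ^ 2) ∧ ‖x‖ ^ 2 * ent P 2 3 = 2 * (x 0 ^ 2 + x 1 ^ 2) ∧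
    ‖x‖ ^ 2 * ent P 0 2 = 2 * (x 0 * x 3 - x 1 * x 2) ∧
    ‖x‖ ^ 2 * ent P 0 3 = - 2 * (x 0 * x 2 + x 1 * x 3) ∧
    ent P 1 3 = ent P 0 2 ∧ ent P 1 2 = - ent P 0 3 := by
  obtain ⟨h13, h12⟩ := inv0_ent hP.inv
  have hz : ∀ u, P x u = 0 := by
    intro u
    have := hP.cs J0_J0 x u
    rw [hk, zero_mul] at this
    exact pow_eq_zero_iff (two_ne_zero) |>.1 (le_antisymm this (sq_nonneg _))
  rw [W_om0_right] at hW
  have e0 := hz (ee 0)
  have e1 := hz (ee 1)
  have e2 := hz (ee 2)
  have e3 := hz (ee 3)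
  rw [alt_expand hP.alt, h13, h12] at e0 e1 e2 e3
  simp at e0 e1 e2 e3
  rw [norm_sq_E4]
  generalize ent P 0 1 = a at *
  generalize ent P 2 3 = c at *
  generalize ent P 0 2 = f at *
  generalize ent P 0 3 = g at *
  generalize x 0 = x0 at *
  generalize x 1 = x1 at *
  generalize x 2 = x2 at *
  generalize x 3 = x3 at *
  have hc : c = 2 - a := by linarith
  subst hc
  refine ⟨?_, ?_, ?_, ?_, h13, h12⟩
  · linear_combination x0 * e1 - x1 * e0 - x2 * e3 + x3 * e2
  · linear_combination -x0 * e1 + x1 * e0 + x2 * e3 - x3 * e2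
  · linear_combination x0 * e2 + x1 * e3 - x3 * e1 - x2 * e0
  · linear_combination x0 * e3 - x1 * e2 + x2 * e1 - x3 * e0

/-- the pairing with a simple form, in a unitary frame -/
theorem W_simple {P : Bil} (hP : Pos J0 P) (hW : W P om0 = 2) {x : E4} (hk : P x (J0 x) = 0)
    {b : Bil} (hb : Alt b) : ‖x‖ ^ 2 * W P b = 2 * b x (J0 x) := by
  obtain ⟨h1, h2, h3, h4, h5, h6⟩ := ents hP hW hk
  unfold W
  rw [alt_expand hb, h5, h6]
  simp only [J0_0, J0_1, J0_2, J0_3]
  linear_combination (ent b 2 3) * h1 + (ent b 0 1) * h2 - (ent b 1 3 + ent b 0 2) * h3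
    + (ent b 1 2 - ent b 0 3) * h4

/-- the diagonal of a simple form, in a unitary frame -/
theorem diag_simple {P : Bil} (hP : Pos J0 P) (hW : W P om0 = 2) {x : E4} (hk : P x (J0 x) = 0)
    (v : E4) : ‖x‖ ^ 2 * P v (J0 v) = 2 * (‖x‖ ^ 2 * ‖v‖ ^ 2 - om0 v (J0 x) ^ 2 - om0 v x ^ 2) := by
  obtain ⟨h1, h2, h3, h4, h5, h6⟩ := ents hP hW hk
  rw [alt_expand hP.alt, h5, h6, om0_apply, om0_apply, norm_sq_E4 v]
  rw [norm_sq_E4] at *
  simp only [J0_0, J0_1, J0_2, J0_3]
  linear_combination (v 0 ^ 2 + v 1 ^ 2) * h1 + (v 2 ^ 2 + v 3 ^ 2) * h2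
    + 2 * (- v 0 * v 3 + v 1 * v 2) * h3 + 2 * (v 0 * v 2 + v 1 * v 3) * h4

/-- `q F φ b` for a simple `φ`. -/
theorem q_simple {J : E4 →L[ℝ] E4} {F : Bil} {m M : ℝ} (h : Bd J F m M) {φ : Bil} (hφ : Pos J φ)
    (hn : q F φ F = 1) {X : E4} (hX : IsKer J φ X) {b : Bil} (hb : Alt b) :
    q F φ b = b X (J X) / F X (J X) := by
  obtain ⟨A, hA, -, -⟩ := h.frame
  set x : E4 := A.symm X with hx
  have hAx : A x = X := A.apply_symm_apply X
  have hX0 : X ≠ 0 := by
    intro h0
    have := hX.one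
    rw [h0, norm_zero] at this
    exact zero_ne_one this
  have hx0 : x ≠ 0 := by
    intro h0
    apply hX0
    rw [← hAx, h0, map_zero]
  have hP : Pos J0 (pull (A : E4 →L[ℝ] E4) φ) :=
    { alt := hφ.alt.pull _
      inv := hA.pull_inv hφ.inv
      nonneg := fun v => by
        rw [pull_apply]
        simp only [ContinuousLinearEquiv.coe_coe]
        rw [← hA.cplx]
        exact hφ.nonneg _ }
  have hW : W (pull (A : E4 →L[ℝ] E4) φ) om0 = 2 := by
    have := hA.q_eq h.spos.alt hφ.alt h.spos.alt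
    rw [hA.pull_form, hn] at this
    linarith
  have hk : pull (A : E4 →L[ℝ] E4) φ x (J0 x) = 0 := by
    rw [pull_apply]
    simp only [ContinuousLinearEquiv.coe_coe]
    rw [← hA.cplx, hAx]
    exact hX.ker
  have key := W_simple hP hW hk (hb.pull (A : E4 →L[ℝ] E4))
  have e1 : pull (A : E4 →L[ℝ] E4) b x (J0 x) = b X (J X) := by
    rw [pull_apply]
    simp only [ContinuousLinearEquiv.coe_coe]
    rw [← hA.cplx, hAx]
  have e2 : F X (J X) = ‖x‖ ^ 2 := by
    rw [← hAx, hA.normsq]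
  rw [hA.q_eq h.spos.alt hφ.alt hb, e2]
  rw [e1] at key
  have hx2 : ‖x‖ ^ 2 ≠ 0 := by positivity
  rw [eq_div_iff hx2]
  linarith

/-- diagonal of a simple `φ`. -/
theorem diag {J : E4 →L[ℝ] E4} {F : Bil} {m M : ℝ} (h : Bd J F m M) {φ : Bil} (hφ : Pos J φ)
    (hn : q F φ F = 1) {X : E4} (hX : IsKer J φ X) (z : E4) :
    F X (J X) * φ z (J z) = 2 * (F X (J X) * F z (J z) - F z (J X) ^ 2 - F z X ^ 2) := by
  obtain ⟨A, hA, -, -⟩ := h.frame
  set x : E4 := A.symm X with hx
  have hAx : A x = X := A.apply_symm_apply X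
  set v : E4 := A.symm z with hv
  have hAv : A v = z := A.apply_symm_apply z
  have hP : Pos J0 (pull (A : E4 →L[ℝ] E4) φ) :=
    { alt := hφ.alt.pull _
      inv := hA.pull_inv hφ.inv
      nonneg := fun v => by
        rw [pull_apply]
        simp only [ContinuousLinearEquiv.coe_coe]
        rw [← hA.cplx]
        exact hφ.nonneg _ }
  have hW : W (pull (A : E4 →L[ℝ] E4) φ) om0 = 2 := by
    have := hA.q_eq h.spos.alt hφ.alt h.spos.alt
    rw [hA.pull_form, hn] at this
    linarith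
  have hk : pull (A : E4 →L[ℝ] E4) φ x (J0 x) = 0 := by
    rw [pull_apply]
    simp only [ContinuousLinearEquiv.coe_coe]
    rw [← hA.cplx, hAx]
    exact hX.ker
  have key := diag_simple hP hW hk v
  have e2 : F X (J X) = ‖x‖ ^ 2 := by rw [← hAx, hA.normsq]
  have e3 : F z (J z) = ‖v‖ ^ 2 := by rw [← hAv, hA.normsq]
  have e4 : F z (J X) = om0 v (J0 x) := by rw [← hAv, ← hAx, hA.cplx, hA.form]
  have e5 : F z X = om0 v x := by rw [← hAv, ← hAx, hA.form]
  have e6 : pull (A : E4 →L[ℝ] E4) φ v (J0 v) = φ z (J z) := by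
    rw [pull_apply]
    simp only [ContinuousLinearEquiv.coe_coe]
    rw [← hA.cplx, hAv]
  rw [e2, e3, e4, e5, ← e6]
  exact key

/-- the complex coordinate along `X` -/
def cp (J : E4 →L[ℝ] E4) (F : Bil) (X : E4) : E4 →L[ℝ] ℂ :=
  (Complex.equivRealProdCLM.symm : (ℝ × ℝ) →L[ℝ] ℂ).comp
    (((F X (J X))⁻¹ • ((F X).comp J)).prod ((F X (J X))⁻¹ • (F X)))

theorem cp_re (J : E4 →L[ℝ] E4) (F : Bil) (X z : E4) :
    (cp J F X z).re = F X (J z) / F X (J X) := by
  rw [div_eq_inv_mul]
  rfl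

theorem cp_im (J : E4 →L[ℝ] E4) (F : Bil) (X z : E4) :
    (cp J F X z).im = F X z / F X (J X) := by
  rw [div_eq_inv_mul]
  rfl

theorem link : LINK := by
  intro J F m M h φ hφ hn X hX
  have hX0 : X ≠ 0 := by
    intro h0
    have := hX.one
    rw [h0, norm_zero] at this
    exact zero_ne_one this
  have hg : 0 < F X (J X) := h.spos.pos X hX0
  have hm := h.m_pos
  have alt := h.spos.alt
  have hFXX : F X X = 0 := alt X
  have hJX : F (J X) X = - F X (J X) := alt.swap _ _
  have hz : ∀ u, φ X u = 0 := by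
    intro u
    have := hφ.cs h.sq X u
    rw [hX.ker, zero_mul] at this
    exact pow_eq_zero_iff (two_ne_zero) |>.1 (le_antisymm this (sq_nonneg _))
  have hzJ : ∀ u, φ (J X) u = 0 := by
    intro u
    have h1 := hφ.inv X (-(J u))
    rw [map_neg, h.sq, neg_neg, hz] at h1
    exact h1
  have hz' : ∀ u, φ u X = 0 := fun u => by rw [hφ.alt.swap, hz, neg_zero]
  have hzJ' : ∀ u, φ u (J X) = 0 := fun u => by rw [hφ.alt.swap, hzJ, neg_zero]
  refine ⟨fun b hb => q_simple h hφ hn hX hb, cp J F X, 1 / (2 * m), by positivity, ?_, ?_, ?_⟩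
  · intro ζ
    apply Complex.ext
    · rw [cp_re, pt, map_add, map_smul, map_smul, h.sq, map_add, map_smul, map_smul, map_neg, hFXX]
      simp only [smul_eq_mul]
      field_simp
      ring
    · rw [cp_im, pt, map_add, map_smul, map_smul, hFXX]
      simp only [smul_eq_mul]
      field_simp
      ring
  · intro z
    set n := z - pt J X (cp J F X z) with hnn
    have hp : F X (J z) = (cp J F X z).re * F X (J X) := by
      rw [cp_re]
      field_simp
    have hr : F X z = (cp J F X z).im * F X (J X) := by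
      rw [cp_im]
      field_simp
    have h1 : F n X = 0 := by
      rw [hnn, pt]
      simp only [map_sub, map_add, map_smul, sub_apply, add_apply, smul_apply, smul_eq_mul]
      rw [hFXX, hJX, alt.swap z X, hr]
      ring
    have h2 : F n (J X) = 0 := by
      rw [hnn, pt]
      simp only [map_sub, map_add, map_smul, sub_apply, add_apply, smul_apply, smul_eq_mul]
      rw [SPos.symm h.sq alt h.spos.inv z X, h.spos.inv X X, hFXX, hp]
      ring
    have h3 : φ n (J n) = φ z (J z) := by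
      rw [hnn, pt]
      simp only [map_sub, map_add, map_smul, sub_apply, add_apply, smul_apply, smul_eq_mul, h.sq,
        map_neg, hz, hzJ, hz', hzJ']
      ring
    have h4 := diag h hφ hn hX n
    rw [h1, h2, h3] at h4
    have h5 : φ z (J z) = 2 * F n (J n) := by
      have h6 : F X (J X) * φ z (J z) = F X (J X) * (2 * F n (J n)) := by rw [h4]; ring
      exact mul_left_cancel₀ hg.ne' h6
    have h7 := h.lo n
    rw [h5]
    calc ‖n‖ ^ 2 = 1 / (2 * m) * (2 * (m * ‖n‖ ^ 2)) := by field_simp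
      _ ≤ 1 / (2 * m) * (2 * F n (J n)) := by gcongr
  · intro z
    set n := z - pt J X (cp J F X z) with hnn
    have hp : F X (J z) = (cp J F X z).re * F X (J X) := by
      rw [cp_re]
      field_simp
    have hr : F X z = (cp J F X z).im * F X (J X) := by
      rw [cp_im]
      field_simp
    have e : ‖cp J F X z‖ ^ 2 = (cp J F X z).re ^ 2 + (cp J F X z).im ^ 2 := by
      rw [← Complex.normSq_eq_norm_sq, Complex.normSq_apply]
      ring
    rw [e, hnn, pt]
    simp only [map_sub, map_add, map_smul, sub_apply, add_apply, smul_apply, smul_eq_mul, h.sq,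
      map_neg]
    rw [hFXX, hJX, SPos.symm h.sq alt h.spos.inv z X, alt.swap z X, h.spos.inv X z,
      h.spos.inv X X, hFXX, hp, hr]
    ring

end

end Crest.Agent.R235.FlatLink_181
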