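import Crest.Agent.R235.FlatDef_607

/-!
Row 235, package REG, block FLATW (helper607), leaf 7 PLANE (helper291): asymptotically translation
invariant planar measures with the right values on radial functions converge to `a • volume`.
-/

set_option autoImplicit false
set_option maxSynthPendingDepth 3

open Set Function Filter MeasureTheory Metric Complex
open scoped ContDiff ENNReal Topology

namespace Crest.Agent.R235.FlatPlane_291

noncomputable section

/-- radial integrals in the plane. -/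
theorem radial (Ψ : ℝ → ℝ) : ∫ ζ : ℂ, Ψ (‖ζ‖ ^ 2) = Real.pi * ∫ u in Ioi (0 : ℝ), Ψ u := by
  have h1 := integral_fun_norm_addHaar (volume : Measure ℂ) (fun y => Ψ (y ^ 2))
  have h2 := integral_comp_rpow_Ioi_of_pos (g := Ψ) (p := 2) (by norm_num)
  have h3 : (volume : Measure ℂ).real (ball 0 1) = Real.pi := by
    rw [Measure.real, Complex.volume_ball]
    simp
  rw [h1, h3, Complex.finrank_real_complex, ← h2]
  have h4 : ∫ x in Ioi (0 : ℝ), (2 * x ^ ((2 : ℝ) - 1)) • Ψ (x ^ (2 : ℝ)) =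
      2 * ∫ y in Ioi (0 : ℝ), y ^ (2 - 1) • Ψ (y ^ 2) := by
    rw [← integral_const_mul]
    refine setIntegral_congr_fun measurableSet_Ioi fun x _ => ?_
    have e1 : x ^ ((2 : ℝ) - 1) = x := by
      rw [show (2 : ℝ) - 1 = 1 by norm_num, Real.rpow_one]
    have e2 : x ^ (2 : ℝ) = x ^ 2 := by
      rw [← Real.rpow_natCast]; norm_num
    simp only [e1, e2, smul_eq_mul]
    norm_num
    ring
  rw [h4]
  simp only [smul_eq_mul, nsmul_eq_mul]
  push_cast
  ring

/-- hypotheses for finite measures. -/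
structure H (ν : ℝ → Measure ℂ) (ρ C a : ℝ) : Prop where
  pos : 0 < ρ
  C0 : 0 ≤ C
  fin : ∀ r, IsFiniteMeasure (ν r)
  mass : ∀ r, (ν r).real univ ≤ C
  tr : ∀ h : ℂ → ℝ, ContDiff ℝ ∞ h → HasCompactSupport h → tsupport h ⊆ ball 0 ρ → ∀ e : ℂ,
    Tendsto (fun r => ∫ ζ, fderiv ℝ h ζ e ∂(ν r)) (𝓝[>] 0) (𝓝 0)
  rad : ∀ Ψ : ℝ → ℝ, ContDiff ℝ ∞ Ψ → HasCompactSupport Ψ → (∀ u, ρ ^ 2 / 4 ≤ u → Ψ u = 0) →
    Tendsto (fun r => ∫ ζ, Ψ (‖ζ‖ ^ 2) ∂(ν r)) (𝓝[>] 0)
      (𝓝 (a * (Real.pi * ∫ u in Ioi (0 : ℝ), Ψ u)))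

theorem tsupport_trans {ψ : ℂ → ℝ} {δ : ℝ} (h : tsupport ψ ⊆ closedBall 0 δ) (c : ℂ) :
    tsupport (fun ζ => ψ (ζ - c)) ⊆ closedBall c δ := by
  refine closure_minimal (fun ζ hζ => ?_) isClosed_closedBall
  have h1 : ζ - c ∈ tsupport ψ := subset_tsupport ψ hζ
  have h2 := h h1
  rw [mem_closedBall, dist_zero_right] at h2
  rwa [mem_closedBall, dist_eq_norm]

theorem fd_trans {ψ : ℂ → ℝ} (hψ : ContDiff ℝ ∞ ψ) (c ζ e : ℂ) :
    fderiv ℝ (fun z => ψ (z - c)) ζ e = fderiv ℝ ψ (ζ - c) e := by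
  have h1 : HasFDerivAt (fun z => ψ (z - c)) (fderiv ℝ ψ (ζ - c)) ζ := by
    have h2 := ((hψ.differentiable (by simp)) (ζ - c)).hasFDerivAt
    have h3 : HasFDerivAt (fun z : ℂ => z - c) (ContinuousLinearMap.id ℝ ℂ) ζ :=
      (hasFDerivAt_id ζ).sub_const c
    exact h2.comp ζ h3
  rw [h1.fderiv]

/-- asymptotic translation invariance. -/
theorem trans {ν : ℝ → Measure ℂ} {ρ C a : ℝ} (h : H ν ρ C a) {ψ : ℂ → ℝ} {δ : ℝ}
    (hψ : ContDiff ℝ ∞ ψ) (hc : HasCompactSupport ψ) (hs : tsupport ψ ⊆ closedBall 0 δ)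
    (hδ : δ < ρ / 2) {w : ℂ} (hw : ‖w‖ ≤ ρ / 2) :
    Tendsto (fun r => ∫ ζ, ψ (ζ - w) ∂(ν r) - ∫ ζ, ψ ζ ∂(ν r)) (𝓝[>] 0) (𝓝 0) := by
  have hfin := h.fin
  have hcd : Continuous (fderiv ℝ ψ) := hψ.continuous_fderiv (by simp)
  obtain ⟨K, hK⟩ := hc.fderiv (𝕜 := ℝ) |>.exists_bound_of_continuous hcd
  have hψc := hψ.continuous
  obtain ⟨K0, hK0⟩ := hc.exists_bound_of_continuous hψc
  have hint0 : ∀ (r : ℝ) (c : ℂ), Integrable (fun ζ => ψ (ζ - c)) (ν r) := fun r c =>
    Integrable.of_bound (hψc.comp (continuous_id.sub continuous_const)).aestronglyMeasurable K0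
      (ae_of_all _ fun ζ => hK0 _)
  have hbd : ∀ (t : ℝ) (ζ : ℂ), ‖fderiv ℝ ψ (ζ - t • w) (-w)‖ ≤ K * ‖w‖ := by
    intro t ζ
    calc ‖fderiv ℝ ψ (ζ - t • w) (-w)‖ ≤ ‖fderiv ℝ ψ (ζ - t • w)‖ * ‖-w‖ :=
          ContinuousLinearMap.le_opNorm _ _
      _ ≤ K * ‖w‖ := by
          rw [norm_neg]
          exact mul_le_mul_of_nonneg_right (hK _) (norm_nonneg _)
  have hcont : Continuous (fun p : ℝ × ℂ => fderiv ℝ ψ (p.2 - p.1 • w) (-w)) :=
    (hcd.comp (by fun_prop)).clm_apply continuous_const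
  have hprod : ∀ r, Integrable (uncurry fun (t : ℝ) (ζ : ℂ) => fderiv ℝ ψ (ζ - t • w) (-w))
      ((volume.restrict (uIoc (0 : ℝ) 1)).prod (ν r)) := by
    intro r
    have : IsFiniteMeasure (volume.restrict (uIoc (0 : ℝ) 1)) := by
      rw [uIoc_of_le zero_le_one]; infer_instance
    exact Integrable.of_bound hcont.aestronglyMeasurable (K * ‖w‖)
      (ae_of_all _ fun p => hbd p.1 p.2)
  have key : ∀ r, ∫ ζ, ψ (ζ - w) ∂(ν r) - ∫ ζ, ψ ζ ∂(ν r) =
      ∫ t in (0 : ℝ)..1, ∫ ζ, fderiv ℝ ψ (ζ - t • w) (-w) ∂(ν r) := by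
    intro r
    rw [intervalIntegral_integral_swap (hprod r)]
    have e1 : ∀ ζ : ℂ, (∫ t in (0 : ℝ)..1, fderiv ℝ ψ (ζ - t • w) (-w)) = ψ (ζ - w) - ψ ζ := by
      intro ζ
      have h1 : ∀ t ∈ uIcc (0 : ℝ) 1, HasDerivAt (fun t : ℝ => ψ (ζ - t • w))
          (fderiv ℝ ψ (ζ - t • w) (-w)) t := by
        intro t _
        have h2 : HasDerivAt (fun t : ℝ => ζ - t • w) (-w) t := by
          simpa using ((hasDerivAt_id t).smul_const w).const_sub ζ
        exact ((hψ.differentiable (by simp)) (ζ - t • w)).hasFDerivAt.comp_hasDerivAt t h2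
      rw [intervalIntegral.integral_eq_sub_of_hasDerivAt h1
        ((hcont.comp (by fun_prop : Continuous fun t : ℝ => (t, ζ))).intervalIntegrable _ _)]
      simp
    simp only [e1]
    rw [integral_sub (hint0 r w) (by simpa using hint0 r 0)]
  simp only [key]
  have main : Tendsto (fun r => ∫ t in (0 : ℝ)..1, ∫ ζ, fderiv ℝ ψ (ζ - t • w) (-w) ∂(ν r))
      (𝓝[>] 0) (𝓝 (∫ _ in (0 : ℝ)..1, (0 : ℝ))) := ?_
  · simpa using main
  refine intervalIntegral.tendsto_integral_filter_of_dominated_convergence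
    (fun _ => K * ‖w‖ * C) ?_ ?_ intervalIntegrable_const ?_
  · exact Eventually.of_forall fun r => (hprod r).integral_prod_left.aestronglyMeasurable
  · refine Eventually.of_forall fun r => ae_of_all _ fun t _ => ?_
    have hK0' : 0 ≤ K * ‖w‖ := (norm_nonneg _).trans (hbd 0 0)
    calc ‖∫ ζ, fderiv ℝ ψ (ζ - t • w) (-w) ∂(ν r)‖ ≤ K * ‖w‖ * (ν r).real univ :=
          norm_integral_le_of_norm_le_const (ae_of_all _ fun ζ => hbd t ζ)
      _ ≤ K * ‖w‖ * C := mul_le_mul_of_nonneg_left (h.mass r) hK0'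
  · refine ae_of_all _ fun t ht => ?_
    rw [uIoc_of_le zero_le_one] at ht
    have h1 : Tendsto (fun r => ∫ ζ, fderiv ℝ (fun ζ => ψ (ζ - t • w)) ζ (-w) ∂(ν r)) (𝓝[>] 0)
        (𝓝 0) := h.tr (fun ζ => ψ (ζ - t • w)) (hψ.comp (contDiff_id.sub contDiff_const)) (by
        refine HasCompactSupport.of_support_subset_isCompact (isCompact_closedBall (t • w) δ) ?_
        exact (subset_tsupport _).trans (tsupport_trans hs _))
      ((tsupport_trans hs _).trans fun ζ hζ => by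
        rw [mem_closedBall, dist_eq_norm] at hζ
        rw [mem_ball, dist_zero_right]
        have h2 : ‖t • w‖ ≤ ρ / 2 := by
          rw [norm_smul, Real.norm_eq_abs, abs_of_pos ht.1]
          calc t * ‖w‖ ≤ 1 * ‖w‖ := mul_le_mul_of_nonneg_right ht.2 (norm_nonneg _)
            _ ≤ ρ / 2 := by rw [one_mul]; exact hw
        calc ‖ζ‖ = ‖(ζ - t • w) + t • w‖ := by rw [sub_add_cancel]
          _ ≤ ‖ζ - t • w‖ + ‖t • w‖ := norm_add_le _ _
          _ < ρ := by linarith) (-w)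
    refine h1.congr fun r => ?_
    exact integral_congr_ae (ae_of_all _ fun ζ => fd_trans hψ _ _ _)

/-- the conclusion for finite measures. -/
theorem core {ν : ℝ → Measure ℂ} {ρ C a : ℝ} (H0 : H ν ρ C a) {h : ℂ → ℝ} (hh : Continuous h)
    (hs : tsupport h ⊆ ball 0 (ρ / 2)) :
    Tendsto (fun r => ∫ ζ, h ζ ∂(ν r)) (𝓝[>] 0) (𝓝 (a * ∫ ζ, h ζ)) := by
  have hfin := H0.fin
  have hρ := H0.pos
  have hhc : HasCompactSupport h :=
    HasCompactSupport.of_support_subset_isCompact (isCompact_closedBall 0 (ρ / 2))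
      ((subset_tsupport h).trans (hs.trans ball_subset_closedBall))
  obtain ⟨Kh, hKh⟩ := hhc.exists_bound_of_continuous hh
  have hhi : Integrable h (volume : Measure ℂ) := hh.integrable_of_hasCompactSupport hhc
  have hhν : ∀ r, Integrable h (ν r) := fun r =>
    Integrable.of_bound hh.aestronglyMeasurable Kh (ae_of_all _ hKh)
  have huc : UniformContinuous h := hhc.uniformContinuous_of_continuous hh
  rw [Metric.tendsto_nhds]
  intro ε' hε'
  set ε : ℝ := ε' / (2 * (C + 1)) with hε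
  have hC := H0.C0
  have hε0 : 0 < ε := by positivity
  obtain ⟨δ₀, hδ₀, huc'⟩ := Metric.uniformContinuous_iff.1 huc ε hε0
  set δ : ℝ := min δ₀ (ρ / 4) / 2 with hδ
  have hδ0 : 0 < δ := by positivity
  have hδ1 : δ < δ₀ := by
    have := min_le_left δ₀ (ρ / 4)
    have h2 : 0 < min δ₀ (ρ / 4) := by positivity
    linarith
  have hδ2 : δ < ρ / 2 := by
    have := min_le_right δ₀ (ρ / 4)
    linarith
  -- the bump
  let f : ContDiffBump (0 : ℝ) := ⟨δ ^ 2 / 2, δ ^ 2, by positivity, by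
    have : 0 < δ ^ 2 := by positivity
    linarith⟩
  have hf0 : ∀ u, δ ^ 2 ≤ u → f u = 0 := fun u hu => f.zero_of_le_dist (by
    rw [dist_zero_right, Real.norm_eq_abs]
    exact hu.trans (le_abs_self u))
  set ψ : ℂ → ℝ := fun ζ => f (‖ζ‖ ^ 2) with hψdef
  have hψ : ContDiff ℝ ∞ ψ := f.contDiff.comp (contDiff_norm_sq ℝ)
  have hψ0 : ∀ ζ, 0 ≤ ψ ζ := fun ζ => f.nonneg
  have hψz : ∀ ζ, δ ≤ ‖ζ‖ → ψ ζ = 0 := fun ζ hζ => hf0 _ (by gcongr)
  have hψs : tsupport ψ ⊆ closedBall 0 δ := by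
    refine closure_minimal (fun ζ hζ => ?_) isClosed_closedBall
    rw [mem_closedBall, dist_zero_right]
    by_contra h1
    exact hζ (hψz ζ (not_le.1 h1).le)
  have hψc : HasCompactSupport ψ :=
    HasCompactSupport.of_support_subset_isCompact (isCompact_closedBall 0 δ)
      ((subset_tsupport ψ).trans hψs)
  have hψcont := hψ.continuous
  obtain ⟨K, hK⟩ := hψc.exists_bound_of_continuous hψcont
  have hψi : Integrable ψ (volume : Measure ℂ) := hψcont.integrable_of_hasCompactSupport hψc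
  set c : ℝ := ∫ ζ, ψ ζ with hc
  have hcpos : 0 < c := by
    refine hψcont.integral_pos_of_hasCompactSupport_nonneg_nonzero hψc hψ0 (x := 0) ?_
    show f (‖(0 : ℂ)‖ ^ 2) ≠ 0
    rw [norm_zero, zero_pow two_ne_zero]
    have : f 0 = 1 := f.one_of_mem_closedBall (mem_closedBall_self f.rIn_pos.le)
    rw [this]; exact one_ne_zero
  -- `I_r(w) → a c`
  have hI0 : Tendsto (fun r => ∫ ζ, ψ ζ ∂(ν r)) (𝓝[>] 0) (𝓝 (a * c)) := by
    have h1 := H0.rad f f.contDiff f.hasCompactSupport (fun u hu => hf0 u (by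
      have : δ ^ 2 ≤ (ρ / 2) ^ 2 := by gcongr
      linarith [this, show (ρ / 2) ^ 2 = ρ ^ 2 / 4 by ring]))
    rw [← radial] at h1
    exact h1
  have hIw : ∀ w : ℂ, ‖w‖ ≤ ρ / 2 →
      Tendsto (fun r => ∫ ζ, ψ (ζ - w) ∂(ν r)) (𝓝[>] 0) (𝓝 (a * c)) := by
    intro w hw
    have h1 := (trans H0 hψ hψc hψs hδ2 hw).add hI0
    simpa using h1
  -- the convolution
  have hprod : ∀ r, Integrable (uncurry fun (ζ w : ℂ) => h w * ψ (ζ - w))
      ((ν r).prod (volume : Measure ℂ)) := by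
    intro r
    have h1 : Integrable (fun z : ℂ × ℂ => K * ‖h z.2‖) ((ν r).prod (volume : Measure ℂ)) :=
      (integrable_const K).mul_prod hhi.norm
    refine h1.mono' (Continuous.aestronglyMeasurable ?_) (ae_of_all _ fun z => ?_)
    · exact (hh.comp continuous_snd).mul (hψcont.comp (continuous_fst.sub continuous_snd))
    · show ‖h z.2 * ψ (z.1 - z.2)‖ ≤ K * ‖h z.2‖
      rw [norm_mul, mul_comm]
      exact mul_le_mul_of_nonneg_right (hK _) (norm_nonneg _)
  set cv : ℂ → ℝ := fun ζ => ∫ w, h w * ψ (ζ - w) with hcv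
  have hcvi : ∀ r, Integrable cv (ν r) := fun r => (hprod r).integral_prod_left
  have hA : Tendsto (fun r => ∫ ζ, cv ζ ∂(ν r)) (𝓝[>] 0) (𝓝 (∫ w, h w * (a * c))) := by
    have e1 : ∀ r, ∫ ζ, cv ζ ∂(ν r) = ∫ w, h w * ∫ ζ, ψ (ζ - w) ∂(ν r) := by
      intro r
      rw [hcv, integral_integral_swap (hprod r)]
      simp only [integral_const_mul]
    simp only [e1]
    refine tendsto_integral_filter_of_dominated_convergence (fun w => ‖h w‖ * (K * C)) ?_ ?_
      (hhi.norm.mul_const _) ?_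
    · refine Eventually.of_forall fun r => ?_
      have h1 := (hprod r).integral_prod_right.aestronglyMeasurable
      simp only [uncurry_apply_pair, integral_const_mul] at h1
      exact h1
    · refine Eventually.of_forall fun r => ae_of_all _ fun w => ?_
      rw [norm_mul]
      refine mul_le_mul_of_nonneg_left ?_ (norm_nonneg _)
      have hK0 : 0 ≤ K := (norm_nonneg _).trans (hK 0)
      calc ‖∫ ζ, ψ (ζ - w) ∂(ν r)‖ ≤ K * (ν r).real univ :=
            norm_integral_le_of_norm_le_const (ae_of_all _ fun ζ => hK _)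
        _ ≤ K * C := mul_le_mul_of_nonneg_left (H0.mass r) hK0
    · refine ae_of_all _ fun w => ?_
      by_cases hw : ‖w‖ ≤ ρ / 2
      · exact (hIw w hw).const_mul _
      · have : h w = 0 := by
          by_contra h1
          have := hs (subset_tsupport h h1)
          rw [mem_ball, dist_zero_right] at this
          exact hw this.le
        simp [this]
  -- uniform approximation
  have hint2 : ∀ ζ : ℂ, ∫ w, ψ (ζ - w) = c := fun ζ => integral_sub_left_eq_self ψ volume ζ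
  have hψi2 : ∀ ζ : ℂ, Integrable (fun w => ψ (ζ - w)) (volume : Measure ℂ) := fun ζ =>
    hψi.comp_sub_left ζ
  have hB : ∀ ζ : ℂ, |c * h ζ - cv ζ| ≤ ε * c := by
    intro ζ
    have hi1 : Integrable (fun w => h ζ * ψ (ζ - w)) (volume : Measure ℂ) := (hψi2 ζ).const_mul _
    have hi2 : Integrable (fun w => h w * ψ (ζ - w)) (volume : Measure ℂ) :=
      (hh.mul (hψcont.comp (continuous_const.sub continuous_id))).integrable_of_hasCompactSupport
        hhc.mul_right
    have e1 : c * h ζ - cv ζ = ∫ w, (h ζ * ψ (ζ - w) - h w * ψ (ζ - w)) := by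
      rw [integral_sub hi1 hi2, integral_const_mul, hint2, mul_comm]
    rw [e1]
    calc |∫ w, (h ζ * ψ (ζ - w) - h w * ψ (ζ - w))|
        ≤ ∫ w, ε * ψ (ζ - w) := by
          rw [← Real.norm_eq_abs]
          refine norm_integral_le_of_norm_le ((hψi2 ζ).const_mul _) (ae_of_all _ fun w => ?_)
          rw [← sub_mul, norm_mul, Real.norm_of_nonneg (hψ0 _)]
          by_cases hw : δ ≤ ‖ζ - w‖
          · rw [hψz _ hw, mul_zero, mul_zero]
          · refine mul_le_mul_of_nonneg_right ?_ (hψ0 _)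
            have h1 : dist ζ w < δ₀ := by
              rw [dist_eq_norm]
              exact (not_le.1 hw).trans hδ1
            exact (huc' h1).le
      _ = ε * c := by rw [integral_const_mul, hint2]
  have hA' : ∀ᶠ r in 𝓝[>] (0 : ℝ), dist (∫ ζ, cv ζ ∂(ν r)) (∫ w, h w * (a * c)) < c * (ε' / 2) :=
    Metric.tendsto_nhds.1 hA _ (by positivity)
  filter_upwards [hA'] with r hr
  rw [Real.dist_eq] at hr ⊢
  rw [integral_mul_const] at hr
  have h1 : |c * ∫ ζ, h ζ ∂(ν r) - ∫ ζ, cv ζ ∂(ν r)| ≤ ε * c * C := by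
    rw [← integral_const_mul, ← integral_sub ((hhν r).const_mul c) (hcvi r), ← Real.norm_eq_abs]
    calc ‖∫ ζ, (c * h ζ - cv ζ) ∂(ν r)‖ ≤ ε * c * (ν r).real univ :=
          norm_integral_le_of_norm_le_const (ae_of_all _ fun ζ => hB ζ)
      _ ≤ ε * c * C := mul_le_mul_of_nonneg_left (H0.mass r) (by positivity)
  have h2 : c * |∫ ζ, h ζ ∂(ν r) - a * ∫ ζ, h ζ| < c * ε' := by
    rw [← abs_of_pos hcpos, ← abs_mul, abs_of_pos hcpos]
    have e1 : c * (∫ ζ, h ζ ∂(ν r) - a * ∫ ζ, h ζ) =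
        (c * ∫ ζ, h ζ ∂(ν r) - ∫ ζ, cv ζ ∂(ν r)) +
          (∫ ζ, cv ζ ∂(ν r) - (∫ ζ, h ζ) * (a * c)) := by ring
    rw [e1]
    have h3 : ε * c * C < c * (ε' / 2) := by
      have h4 : ε * C < ε' / 2 := by
        have h5 : ε * (C + 1) = ε' / 2 := by
          rw [hε]; field_simp
        nlinarith
      nlinarith
    calc |_ + _| ≤ _ := abs_add_le _ _
      _ < c * ε' := by linarith
  exact lt_of_mul_lt_mul_left h2 hcpos.le

/-- **leaf PLANE**. -/
theorem plane : Flat.PLANE := by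
  intro μ ρ C a hρ hC htr hrad h hh hs
  classical
  let ν : ℝ → Measure ℂ := fun r => if μ r (closedBall 0 ρ) ≤ ENNReal.ofReal C then
    (μ r).restrict (closedBall 0 ρ) else 0
  have hν : ∀ f : ℂ → ℝ, (∀ ζ, ζ ∉ closedBall (0 : ℂ) ρ → f ζ = 0) →
      (fun r => ∫ ζ, f ζ ∂(μ r)) =ᶠ[𝓝[>] 0] fun r => ∫ ζ, f ζ ∂(ν r) := by
    intro f hf
    filter_upwards [hC] with r hr
    show _ = ∫ ζ, f ζ ∂(if μ r (closedBall 0 ρ) ≤ ENNReal.ofReal C then
      (μ r).restrict (closedBall 0 ρ) else 0)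
    rw [if_pos hr]
    exact (setIntegral_eq_integral_of_forall_compl_eq_zero hf).symm
  have H0 : H ν ρ (max C 0) a :=
    { pos := hρ
      C0 := le_max_right _ _
      fin := fun r => by
        show IsFiniteMeasure (if μ r (closedBall 0 ρ) ≤ ENNReal.ofReal C then
          (μ r).restrict (closedBall 0 ρ) else 0)
        split_ifs with h1
        · exact ⟨by
            rw [Measure.restrict_apply_univ]
            exact h1.trans_lt ENNReal.ofReal_lt_top⟩
        · infer_instance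
      mass := fun r => by
        show (if μ r (closedBall 0 ρ) ≤ ENNReal.ofReal C then
          (μ r).restrict (closedBall 0 ρ) else 0 : Measure ℂ).real univ ≤ _
        split_ifs with h1
        · rw [Measure.real, Measure.restrict_apply_univ]
          calc (μ r (closedBall 0 ρ)).toReal ≤ (ENNReal.ofReal C).toReal :=
                ENNReal.toReal_mono ENNReal.ofReal_ne_top h1
            _ = max C 0 := ENNReal.toReal_ofReal'
        · simp
      tr := fun g hg hgc hgs e => by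
        refine (htr g hg hgc hgs e).congr' (hν _ fun ζ hζ => ?_)
        have h1 : ζ ∉ tsupport g := fun h2 => hζ (ball_subset_closedBall (hgs h2))
        have h3 : g =ᶠ[𝓝 ζ] 0 := notMem_tsupport_iff_eventuallyEq.1 h1
        rw [h3.fderiv_eq]
        simp
      rad := fun Ψ h1 h2 h3 => by
        refine (hrad Ψ h1 h2 h3).congr' (hν _ fun ζ hζ => h3 _ ?_)
        rw [mem_closedBall, dist_zero_right, not_le] at hζ
        have : ρ ^ 2 ≤ ‖ζ‖ ^ 2 := by gcongr
        nlinarith [sq_nonneg ρ] }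
  refine (core H0 hh hs).congr' (hν h fun ζ hζ => ?_).symm
  by_contra h1
  apply hζ
  have h2 := hs (subset_tsupport h h1)
  rw [mem_ball, dist_zero_right] at h2
  rw [mem_closedBall, dist_zero_right]
  linarith

end

end Crest.Agent.R235.FlatPlane_291
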