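import Crest.Agent.R235.FlatTrans_82

/-!
Row 235 (S0364), block FLATW, FLAT-8 (helper856): the limit of the blow-ups at one point.
-/

set_option autoImplicit false
set_option maxSynthPendingDepth 3

open Set Function Filter MeasureTheory Metric Complex
open scoped ContDiff ENNReal Manifold Topology

namespace Crest.Agent.R235.FlatPt_856

open Crest.Agent.R240 Crest.Agent.R240.En Crest.Agent.R240.Pot
open Crest.Agent.R235.CurDefs_132 Crest.Agent.R235.Flat
open Crest.Agent.R235.FlatTrans_82 (q_diff norm_phi)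

noncomputable section

/-- the blow up measure at `x`, scale `r`. -/
def lam (D : LC) (x : E4) (r : ℝ) : Measure E4 :=
  ENNReal.ofReal ((r ^ 2)⁻¹) • (D.s.map (fun y => r⁻¹ • (y - x)))

section lam

variable (D : LC) (x : E4)

theorem lam_fin (r : ℝ) : IsFiniteMeasure (lam D x r) := by
  have := D.fin
  unfold lam
  exact Measure.smul_finite _ ENNReal.ofReal_ne_top

theorem lam_integral (r : ℝ) {f : E4 → ℝ} (hf : Measurable f) :
    ∫ z, f z ∂(lam D x r) = (r ^ 2)⁻¹ * ∫ y, f (r⁻¹ • (y - x)) ∂D.s := by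
  unfold lam
  have hT : Measurable (fun y : E4 => r⁻¹ • (y - x)) := by fun_prop
  rw [integral_smul_measure, ENNReal.toReal_ofReal (by positivity),
    integral_map hT.aemeasurable hf.aestronglyMeasurable, smul_eq_mul]

theorem mem_iff {r : ℝ} (hr : 0 < r) (A : ℝ) (y : E4) :
    r⁻¹ • (y - x) ∈ closedBall (0 : E4) A ↔ y ∈ closedBall x (A * r) := by
  rw [mem_closedBall_zero_iff, norm_smul, norm_inv, Real.norm_of_nonneg hr.le,
    inv_mul_le_iff₀ hr, mem_closedBall, dist_eq_norm, mul_comm]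

theorem lam_set {r : ℝ} (hr : 0 < r) (A : ℝ) {f : E4 → ℝ} (hf : Measurable f) :
    ∫ z in closedBall (0 : E4) A, f z ∂(lam D x r) =
      (r ^ 2)⁻¹ * ∫ y in closedBall x (A * r), f (r⁻¹ • (y - x)) ∂D.s := by
  rw [← integral_indicator measurableSet_closedBall,
    lam_integral D x r (hf.indicator measurableSet_closedBall),
    ← integral_indicator measurableSet_closedBall]
  congr 1
  refine integral_congr_ae (ae_of_all _ fun y => ?_)
  by_cases h : y ∈ closedBall x (A * r)
  · simp only [indicator]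
    rw [if_pos h, if_pos ((mem_iff x hr A y).2 h)]
  · simp only [indicator]
    rw [if_neg h, if_neg (fun h' => h ((mem_iff x hr A y).1 h'))]

theorem lam_real {r A : ℝ} (hr : 0 < r) (hA : 0 < A) :
    (lam D x r).real (closedBall (0 : E4) A) ≤ 4 * D.C * A ^ 2 := by
  have := D.fin
  have := lam_fin D x r
  have h := lam_set D x hr A (f := fun _ => (1 : ℝ)) measurable_const
  rw [setIntegral_const, setIntegral_const, smul_eq_mul, smul_eq_mul, mul_one, mul_one] at h
  rw [h]
  have h6 : D.s.real (closedBall x (A * r)) ≤ D.C * (2 * (A * r)) ^ 2 := by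
    have hAr : 0 < A * r := mul_pos hA hr
    exact le_trans (measureReal_mono (closedBall_subset_ball (by linarith)))
      (D.gr x _ (by positivity))
  calc (r ^ 2)⁻¹ * D.s.real (closedBall x (A * r)) ≤ (r ^ 2)⁻¹ * (D.C * (2 * (A * r)) ^ 2) := by
        gcongr
    _ = 4 * D.C * A ^ 2 := by field_simp; ring

theorem tendsto_mul_pos {A : ℝ} (hA : 0 < A) : Tendsto (fun r : ℝ => A * r) (𝓝[>] 0) (𝓝[>] 0) := by
  refine tendsto_nhdsWithin_iff.2 ⟨?_, ?_⟩
  · have : Tendsto (fun r : ℝ => A * r) (𝓝 0) (𝓝 (A * 0)) :=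
      (continuous_const.mul continuous_id).tendsto 0
    rw [mul_zero] at this
    exact this.mono_left nhdsWithin_le_nhds
  · filter_upwards [self_mem_nhdsWithin] with r hr
    exact mul_pos hA hr

/-- the normal part tends to zero in `L²`. -/
theorem norm_tendsto (hDef : DefPt D x) (N : E4 →L[ℝ] E4) {C A : ℝ} (hA : 0 < A)
    (hN : ∀ z, ‖N z‖ ^ 2 ≤ C * D.φ x z (D.J x z)) :
    Tendsto (fun r => ∫ z in closedBall (0 : E4) A, ‖N z‖ ^ 2 ∂(lam D x r)) (𝓝[>] 0) (𝓝 0) := by
  have := D.fin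
  have h1 := (hDef.comp (tendsto_mul_pos hA)).const_mul (C * A ^ 4)
  rw [mul_zero] at h1
  refine squeeze_zero' (Eventually.of_forall fun r => ?_) ?_ h1
  · exact integral_nonneg fun z => by positivity
  filter_upwards [self_mem_nhdsWithin] with r hr
  have hr' : (0 : ℝ) < r := hr
  rw [lam_set D x hr' A (by fun_prop : Measurable fun z : E4 => ‖N z‖ ^ 2)]
  have e1 : ∀ y, ‖N (r⁻¹ • (y - x))‖ ^ 2 = (r ^ 2)⁻¹ * ‖N (y - x)‖ ^ 2 := fun y => by
    rw [map_smul, norm_smul, mul_pow, norm_inv, Real.norm_of_nonneg hr'.le, inv_pow]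
  simp only [e1]
  rw [integral_const_mul]
  have c1 : Continuous fun y : E4 => ‖N (y - x)‖ ^ 2 := by fun_prop
  have c2 : Continuous fun y : E4 => C * D.φ x (y - x) (D.J x (y - x)) := by fun_prop
  have h2 : ∫ y in closedBall x (A * r), ‖N (y - x)‖ ^ 2 ∂D.s ≤
      ∫ y in closedBall x (A * r), C * D.φ x (y - x) (D.J x (y - x)) ∂D.s :=
    setIntegral_mono_on (c1.continuousOn.integrableOn_compact (isCompact_closedBall _ _))
      (c2.continuousOn.integrableOn_compact (isCompact_closedBall _ _)) measurableSet_closedBall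
      fun y _ => hN (y - x)
  rw [integral_const_mul] at h2
  simp only [Function.comp]
  calc (r ^ 2)⁻¹ * ((r ^ 2)⁻¹ * ∫ y in closedBall x (A * r), ‖N (y - x)‖ ^ 2 ∂D.s) ≤
      (r ^ 2)⁻¹ * ((r ^ 2)⁻¹ * (C * ∫ y in closedBall x (A * r),
        D.φ x (y - x) (D.J x (y - x)) ∂D.s)) := by gcongr
    _ = _ := by
      field_simp

theorem err (N : E4 →L[ℝ] E4) {A : ℝ} (hA : 0 < A)
    (hN : Tendsto (fun r => ∫ z in closedBall (0 : E4) A, ‖N z‖ ^ 2 ∂(lam D x r)) (𝓝[>] 0) (𝓝 0))
    (e : E4 → ℝ) (he : ∀ ε > 0, ∃ K : ℝ, ∀ z ∈ closedBall (0 : E4) A, |e z| ≤ ε + K * ‖N z‖ ^ 2) :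
    Tendsto (fun r => ∫ z in closedBall (0 : E4) A, e z ∂(lam D x r)) (𝓝[>] 0) (𝓝 0) := by
  rw [Metric.tendsto_nhds]
  intro ε hε
  have hC := D.C_nn
  set G : ℝ := 4 * D.C * A ^ 2 + 1 with hG
  have hG0 : 0 < G := by positivity
  obtain ⟨K, hK⟩ := he (ε / (2 * G)) (by positivity)
  have h1 : Tendsto (fun r => K * ∫ z in closedBall (0 : E4) A, ‖N z‖ ^ 2 ∂(lam D x r))
      (𝓝[>] 0) (𝓝 0) := by simpa using hN.const_mul K
  filter_upwards [h1.eventually (gt_mem_nhds (half_pos hε)), self_mem_nhdsWithin] with r hr hr0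
  have hr0' : 0 < r := hr0
  have := lam_fin D x r
  rw [dist_zero_right]
  have hi : IntegrableOn (fun z => ‖N z‖ ^ 2) (closedBall (0 : E4) A) (lam D x r) :=
    (by fun_prop : Continuous fun z : E4 => ‖N z‖ ^ 2).continuousOn.integrableOn_compact
      (isCompact_closedBall _ _)
  have h3 : ‖∫ z in closedBall (0 : E4) A, e z ∂(lam D x r)‖ ≤
      ∫ z in closedBall (0 : E4) A, (ε / (2 * G) + K * ‖N z‖ ^ 2) ∂(lam D x r) := by
    refine norm_integral_le_of_norm_le ((integrable_const _).add (hi.const_mul K)) ?_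
    exact (ae_restrict_iff' measurableSet_closedBall).2 (ae_of_all _ fun z hz => hK z hz)
  have h4 : ∫ z in closedBall (0 : E4) A, (ε / (2 * G) + K * ‖N z‖ ^ 2) ∂(lam D x r) =
      ε / (2 * G) * (lam D x r).real (closedBall (0 : E4) A) +
        K * ∫ z in closedBall (0 : E4) A, ‖N z‖ ^ 2 ∂(lam D x r) := by
    rw [integral_add (integrable_const _) (hi.const_mul K), setIntegral_const, integral_const_mul,
      smul_eq_mul, mul_comm]
  have h5 := lam_real D x hr0' hA
  have h6 : ε / (2 * G) * (lam D x r).real (closedBall (0 : E4) A) ≤ ε / 2 := by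
    calc ε / (2 * G) * (lam D x r).real (closedBall (0 : E4) A) ≤ ε / (2 * G) * G := by
          gcongr; linarith
      _ = ε / 2 := by field_simp
  linarith

end lam

/-! ### pure lemmas -/

theorem two (P : E4 →L[ℝ] ℂ) (Q : ℂ →L[ℝ] E4) (hPQ : ∀ ζ, P (Q ζ) = ζ) {A ρ : ℝ} (hA0 : 0 < A)
    (hA2 : 1 + ‖Q‖ * ρ ≤ A / 2) (u : ℂ → ℝ) (hu : ContDiff ℝ ∞ u)
    (hus : tsupport u ⊆ ball 0 ρ) (e : ℂ) :
    ∃ (v : E4 → ℝ) (K : ℝ), ContDiff ℝ ∞ v ∧ HasCompactSupport v ∧ 0 ≤ K ∧
      (∀ z, z ∉ closedBall (0 : E4) A → fderiv ℝ v z = 0) ∧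
      ∀ z ∈ closedBall (0 : E4) A,
        |fderiv ℝ u (P z) e - fderiv ℝ v z (Q e)| ≤ K * ‖z - Q (P z)‖ ^ 2 := by
  let κ : ContDiffBump (0 : E4) := ⟨A / 2, A, by positivity, by linarith⟩
  have hκ : ContDiff ℝ ∞ κ := κ.contDiff
  set v : E4 → ℝ := fun z => u (P z) * κ z with hv
  have huP : ContDiff ℝ ∞ fun z => u (P z) := hu.comp P.contDiff
  have hvs : ContDiff ℝ ∞ v := huP.mul hκ
  have hvt : tsupport v ⊆ closedBall (0 : E4) A := by
    refine (tsupport_mul_subset_right (f := fun z => u (P z)) (g := κ)).trans ?_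
    rw [κ.tsupport_eq]
  have hvc : HasCompactSupport v :=
    HasCompactSupport.of_support_subset_isCompact (isCompact_closedBall (0 : E4) A)
      ((subset_tsupport _).trans hvt)
  have hd : ∀ z, fderiv ℝ v z (Q e) = fderiv ℝ u (P z) e * κ z + u (P z) * fderiv ℝ κ z (Q e) := by
    intro z
    have h1 : HasFDerivAt (fun z => u (P z)) ((fderiv ℝ u (P z)).comp P) z :=
      ((hu.differentiable (by simp)) _).hasFDerivAt.comp z P.hasFDerivAt
    have h2 : HasFDerivAt κ (fderiv ℝ κ z) z := ((hκ.differentiable (by simp)) z).hasFDerivAt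
    have h3 := h1.mul h2
    have h4 : fderiv ℝ v z = _ := h3.fderiv
    rw [h4]
    simp only [_root_.add_apply, _root_.smul_apply, ContinuousLinearMap.comp_apply, hPQ,
      smul_eq_mul]
    ring
  have hc1 : Continuous fun z => fderiv ℝ u (P z) e - fderiv ℝ v z (Q e) := by
    have k1 : Continuous fun z => fderiv ℝ u (P z) e :=
      ((hu.continuous_fderiv (by simp)).comp P.continuous).clm_apply continuous_const
    have k2 : Continuous fun z => fderiv ℝ v z (Q e) :=
      (hvs.continuous_fderiv (by simp)).clm_apply continuous_const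
    exact k1.sub k2
  obtain ⟨K, hK⟩ := (isCompact_closedBall (0 : E4) A).exists_bound_of_continuousOn hc1.continuousOn
  have hK0 : 0 ≤ K := (norm_nonneg _).trans (hK 0 (mem_closedBall_self hA0.le))
  refine ⟨v, K, hvs, hvc, hK0, fun z hz => ?_, fun z hz => ?_⟩
  · exact (HasFDerivAt.of_notMem_tsupport ℝ fun h => hz (hvt h)).fderiv
  · by_cases h1 : P z ∈ tsupport u
    · by_cases h2 : ‖z‖ < A / 2
      · have h3 : κ z = 1 := κ.one_of_mem_closedBall (by
          rw [mem_closedBall_zero_iff]; exact h2.le)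
        have h4 : fderiv ℝ κ z = 0 := by
          have h5 : (κ : E4 → ℝ) =ᶠ[𝓝 z] fun _ => (1 : ℝ) := by
            have h6 : ball (0 : E4) (A / 2) ∈ 𝓝 z := isOpen_ball.mem_nhds (by
              rw [mem_ball_zero_iff]; exact h2)
            filter_upwards [h6] with y hy
            exact κ.one_of_mem_closedBall (ball_subset_closedBall hy)
          rw [h5.fderiv_eq]
          simp
        rw [hd, h3, h4]
        simp only [_root_.zero_apply, mul_zero, add_zero, mul_one, sub_self, abs_zero]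
        positivity
      · have h3 : ‖P z‖ < ρ := by simpa using hus h1
        have h4 : ‖Q (P z)‖ ≤ ‖Q‖ * ρ := (Q.le_opNorm _).trans (by gcongr)
        have h5 : ‖z‖ ≤ ‖z - Q (P z)‖ + ‖Q (P z)‖ := by
          calc ‖z‖ = ‖(z - Q (P z)) + Q (P z)‖ := by rw [sub_add_cancel]
            _ ≤ _ := norm_add_le _ _
        have h6 : 1 ≤ ‖z - Q (P z)‖ := by
          push Not at h2
          linarith
        have h7 : 1 ≤ ‖z - Q (P z)‖ ^ 2 := by nlinarith
        have h8 := hK z hz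
        rw [Real.norm_eq_abs] at h8
        nlinarith
    · have h2 : fderiv ℝ u (P z) = 0 := (HasFDerivAt.of_notMem_tsupport ℝ h1).fderiv
      have h3 : u (P z) = 0 := by
        by_contra hne
        exact h1 (subset_tsupport _ hne)
      rw [hd, h2, h3]
      simp only [_root_.zero_apply, zero_mul, add_zero, sub_self, abs_zero]
      positivity

theorem unif {f : E4 → ℝ} (hf : Continuous f) (hfc : HasCompactSupport f) (ε : ℝ) (hε : 0 < ε) :
    ∃ K : ℝ, ∀ y z : E4, |f z - f y| ≤ ε + K * ‖z - y‖ ^ 2 := by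
  have hu : UniformContinuous f := hf.uniformContinuous_of_tendsto_cocompact hfc.is_zero_at_infty
  obtain ⟨δ, hδ, h⟩ := Metric.uniformContinuous_iff.1 hu ε hε
  obtain ⟨B, hB⟩ := hf.bounded_above_of_compact_support hfc
  have hB0 : 0 ≤ B := (norm_nonneg _).trans (hB 0)
  refine ⟨2 * B / δ ^ 2, fun y z => ?_⟩
  by_cases h1 : dist z y < δ
  · have h2 := h h1
    rw [Real.dist_eq] at h2
    have : 0 ≤ 2 * B / δ ^ 2 * ‖z - y‖ ^ 2 := by positivity
    linarith
  · push Not at h1
    rw [dist_eq_norm] at h1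
    have h2 : |f z - f y| ≤ 2 * B := by
      have h3 := hB z
      have h4 := hB y
      rw [Real.norm_eq_abs] at h3 h4
      exact (abs_sub _ _).trans (by linarith)
    have h3 : 2 * B ≤ 2 * B / δ ^ 2 * ‖z - y‖ ^ 2 := by
      rw [div_mul_eq_mul_div, le_div_iff₀ (by positivity)]
      gcongr
    linarith


theorem flp (hL : LINK) (hT : TRANS) (hR : RADI) (hP : PLANE) : FLP := by
  intro D x hx hLeb hDef hDen X hX g hg hgc hga
  have := D.fin
  obtain ⟨h1, P, C, hC, hPp, hPn, hPF⟩ := hL (D.J x) (D.F x) D.m D.M (D.bd x) (D.φ x) (D.pos x)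
    (D.nrm x) X hX
  have hm := (D.bd x).m_pos
  have hM := (D.bd x).M_pos
  have hCD := D.C_nn
  set a : ℝ := D.F x X (D.J x X) with ha
  have ha0 : 0 < a := by
    have := (D.bd x).lo X
    rw [hX.one] at this
    linarith
  -- the linear maps
  set Q : ℂ →L[ℝ] E4 := Complex.reCLM.smulRight X + Complex.imCLM.smulRight (D.J x X) with hQd
  have hQ : ∀ ζ, Q ζ = pt (D.J x) X ζ := fun ζ => by simp [hQd, pt]
  set N : E4 →L[ℝ] E4 := ContinuousLinearMap.id ℝ E4 - Q.comp P with hNd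
  have hN : ∀ z, N z = z - pt (D.J x) X (P z) := fun z => by simp [hNd, hQ]
  have hN2 : ∀ z, ‖N z‖ ^ 2 ≤ C * D.φ x z (D.J x z) := fun z => by rw [hN]; exact hPn z
  have hPQ : ∀ ζ, P (Q ζ) = ζ := fun ζ => by rw [hQ]; exact hPp ζ
  -- the functions
  set f : E4 → ℝ := fun z => g z X (D.J x X) / a with hf
  have hfc : Continuous f := by
    have : Continuous fun z => g z X (D.J x X) := (hg.clm_apply continuous_const).clm_apply
      continuous_const
    exact this.div_const _
  have hqf : ∀ z, q (D.F x) (D.φ x) (g z) = f z := fun z => h1 (g z) (hga z)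
  set h : ℂ → ℝ := fun ζ => f (Q ζ) with hh
  have hhc : Continuous h := hfc.comp Q.continuous
  obtain ⟨A₀, hA₀, hsg⟩ : ∃ A₀ : ℝ, 0 < A₀ ∧ tsupport g ⊆ closedBall 0 A₀ := by
    obtain ⟨A, hA⟩ := (hgc.isCompact.isBounded).subset_closedBall (0 : E4)
    exact ⟨max A 1, by positivity, hA.trans (closedBall_subset_closedBall (le_max_left _ _))⟩
  have hg0 : ∀ z, z ∉ closedBall (0 : E4) A₀ → g z = 0 := fun z hz => by
    by_contra hne
    exact hz (hsg (subset_tsupport _ hne))
  have hf0 : ∀ z, z ∉ closedBall (0 : E4) A₀ → f z = 0 := fun z hz => by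
    simp [hf, hg0 z hz]
  set ρ : ℝ := 2 * (‖P‖ * A₀ + 1) with hρ
  have hρ0 : 0 < ρ := by positivity
  have hhs : tsupport h ⊆ ball 0 (ρ / 2) := by
    have h2 : tsupport h ⊆ closedBall 0 (‖P‖ * A₀) := by
      refine closure_minimal ?_ isClosed_closedBall
      intro ζ hζ
      by_contra hne
      refine hζ (hf0 _ fun h3 => hne ?_)
      rw [mem_closedBall_zero_iff] at h3 ⊢
      calc ‖ζ‖ = ‖P (Q ζ)‖ := by rw [hPQ]
        _ ≤ ‖P‖ * ‖Q ζ‖ := P.le_opNorm _
        _ ≤ ‖P‖ * A₀ := by gcongr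
    refine h2.trans (closedBall_subset_ball ?_)
    rw [hρ]; linarith
  set A : ℝ := A₀ + 2 * (1 + ‖Q‖ * ρ) + (a / D.m + 1) * ρ with hA
  have hA0 : 0 < A := by positivity
  have hA1 : A₀ ≤ A := by
    have h2 : 0 ≤ 2 * (1 + ‖Q‖ * ρ) := by positivity
    have h3 : 0 ≤ (a / D.m + 1) * ρ := by positivity
    rw [hA]; linarith
  have hA2 : 1 + ‖Q‖ * ρ ≤ A / 2 := by
    have h3 : 0 ≤ (a / D.m + 1) * ρ := by positivity
    rw [hA]; linarith
  have hA3 : a * ρ ^ 2 / 4 ≤ D.m * A ^ 2 := by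
    have h2 : (a / D.m + 1) * ρ ≤ A := by
      have h2 : 0 ≤ 2 * (1 + ‖Q‖ * ρ) := by positivity
      rw [hA]; linarith
    have h3 : ((a / D.m + 1) * ρ) ^ 2 ≤ A ^ 2 := by gcongr
    have h4 : a / D.m ≤ (a / D.m + 1) ^ 2 := by
      have : 0 < a / D.m := by positivity
      nlinarith
    have h5 : a / D.m * ρ ^ 2 ≤ A ^ 2 := by
      refine le_trans ?_ h3
      have e9 : ((a / D.m + 1) * ρ) ^ 2 = (a / D.m + 1) ^ 2 * ρ ^ 2 := by ring
      rw [e9]
      exact mul_le_mul_of_nonneg_right h4 (sq_nonneg ρ)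
    have h6 : a * ρ ^ 2 = D.m * (a / D.m * ρ ^ 2) := by field_simp
    have h7 : D.m * (a / D.m * ρ ^ 2) ≤ D.m * A ^ 2 := by gcongr
    have h8 : 0 ≤ a * ρ ^ 2 := by positivity
    linarith
  have hNt := norm_tendsto D x hDef N hA0 hN2
  have hlf : ∀ r, IsFiniteMeasure (lam D x r) := lam_fin D x
  -- integrals of continuous functions over the ball
  have hci : ∀ r (u : E4 → ℝ), Continuous u → IntegrableOn u (closedBall (0 : E4) A) (lam D x r) :=
    fun r u hu => by
      have := hlf r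
      exact hu.continuousOn.integrableOn_compact (isCompact_closedBall _ _)
  -- the planar measures
  set μ : ℝ → Measure ℂ := fun r => ((lam D x r).restrict (closedBall 0 A)).map P with hμ
  have hμi : ∀ r (u : ℂ → ℝ), Continuous u →
      ∫ ζ, u ζ ∂(μ r) = ∫ z in closedBall (0 : E4) A, u (P z) ∂(lam D x r) := fun r u hu => by
    rw [hμ]
    exact integral_map P.continuous.measurable.aemeasurable hu.aestronglyMeasurable
  have hlim : Tendsto (fun r => ∫ ζ, h ζ ∂(μ r)) (𝓝[>] 0) (𝓝 (a * ∫ ζ, h ζ)) := by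
    refine hP μ ρ (4 * D.C * A ^ 2) a hρ0 ?_ ?_ ?_ h hhc hhs
    · filter_upwards [self_mem_nhdsWithin] with r hr
      have hr' : (0 : ℝ) < r := hr
      have := hlf r
      have h2 : μ r (closedBall 0 ρ) ≤ lam D x r (closedBall 0 A) := by
        rw [hμ]
        refine (measure_mono (subset_univ _)).trans ?_
        rw [Measure.map_apply P.continuous.measurable MeasurableSet.univ, preimage_univ,
          Measure.restrict_apply_univ]
      refine h2.trans ?_
      rw [← ofReal_measureReal]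
      exact ENNReal.ofReal_le_ofReal (lam_real D x hr' hA0)
    · intro u hu huc hus e
      obtain ⟨v, K, hv, hvc, hK, hv0, hvK⟩ := two P Q hPQ hA0 hA2 u hu hus e
      have k1 := hT D x hx hLeb X hX v hv hvc e
      have k2 : Tendsto (fun r => ∫ z in closedBall (0 : E4) A,
          (fderiv ℝ u (P z) e - fderiv ℝ v z (Q e)) ∂(lam D x r)) (𝓝[>] 0) (𝓝 0) := by
        refine err D x N hA0 hNt _ fun ε hε => ⟨K, fun z hz => ?_⟩
        have k3 := hvK z hz
        rw [hN, ← hQ]
        linarith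
      have c1 : Continuous fun ζ => fderiv ℝ u ζ e :=
        (hu.continuous_fderiv (by simp)).clm_apply continuous_const
      have c2 : Continuous fun z => fderiv ℝ v z (Q e) :=
        (hv.continuous_fderiv (by simp)).clm_apply continuous_const
      have k4 := k2.add k1
      rw [add_zero] at k4
      refine k4.congr fun r => ?_
      rw [hμi r _ c1]
      have k5 : IntegrableOn (fun z => fderiv ℝ u (P z) e) (closedBall (0 : E4) A) (lam D x r) :=
        hci r _ (c1.comp P.continuous)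
      have k6 := hci r _ c2
      have k7 : (r ^ 2)⁻¹ * ∫ y, fderiv ℝ v (r⁻¹ • (y - x)) (pt (D.J x) X e) ∂D.s =
          ∫ z in closedBall (0 : E4) A, fderiv ℝ v z (Q e) ∂(lam D x r) := by
        rw [setIntegral_eq_integral_of_forall_compl_eq_zero
          (fun z hz => by rw [hv0 z hz]; rfl), lam_integral D x r c2.measurable, hQ]
      rw [k7, integral_sub k5 k6, sub_add_cancel]
    · intro Ψ hΨ hΨc hΨ0
      have hΨ1 : ContDiff ℝ 1 (fun u : ℝ => Ψ (a⁻¹ * u)) :=
        (hΨ.of_le (by simp)).comp (contDiff_const.mul contDiff_id)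
      have hΨ2 : HasCompactSupport (fun u : ℝ => Ψ (a⁻¹ * u)) :=
        hΨc.comp_homeomorph (Homeomorph.mulLeft₀ a⁻¹ (inv_ne_zero ha0.ne'))
      have k1 := hR D x hDen _ hΨ1 hΨ2
      rw [integral_comp_mul_left_Ioi Ψ 0 (inv_pos.2 ha0), mul_zero, inv_inv, smul_eq_mul] at k1
      have k1' : Real.pi * (a * ∫ u in Ioi (0 : ℝ), Ψ u) =
          a * (Real.pi * ∫ u in Ioi (0 : ℝ), Ψ u) := by ring
      rw [k1'] at k1
      set w : E4 → ℝ := fun z => Ψ (a⁻¹ * D.F x z (D.J x z)) with hw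
      have hwc : Continuous w := by
        have : Continuous fun z : E4 => a⁻¹ * D.F x z (D.J x z) := by fun_prop
        exact hΨ.continuous.comp this
      have hpc : Continuous fun ζ : ℂ => Ψ (‖ζ‖ ^ 2) := hΨ.continuous.comp (by fun_prop)
      have hw0 : ∀ z, z ∉ closedBall (0 : E4) A → w z = 0 := by
        intro z hz
        rw [mem_closedBall_zero_iff, not_le] at hz
        refine hΨ0 _ ?_
        have k3 := (D.bd x).lo z
        have k4 : D.m * A ^ 2 ≤ D.m * ‖z‖ ^ 2 := by gcongr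
        have k5 : a * ρ ^ 2 / 4 ≤ D.F x z (D.J x z) := hA3.trans (k4.trans k3)
        calc ρ ^ 2 / 4 = a⁻¹ * (a * ρ ^ 2 / 4) := by field_simp
          _ ≤ a⁻¹ * D.F x z (D.J x z) := by gcongr
      obtain ⟨K, hK⟩ := hΨ.lipschitzWith_of_hasCompactSupport hΨc (by simp)
      have k2 : Tendsto (fun r => ∫ z in closedBall (0 : E4) A,
          (Ψ (‖P z‖ ^ 2) - w z) ∂(lam D x r)) (𝓝[>] 0) (𝓝 0) := by
        refine err D x N hA0 hNt _ fun ε hε => ⟨K * (D.M / a), fun z hz => ?_⟩
        have k3 := hK.dist_le_mul (‖P z‖ ^ 2) (a⁻¹ * D.F x z (D.J x z))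
        rw [Real.dist_eq, Real.dist_eq] at k3
        have k4 : ‖P z‖ ^ 2 - a⁻¹ * D.F x z (D.J x z) = - (a⁻¹ * D.F x (N z) (D.J x (N z))) := by
          rw [hPF z, ← hN]
          field_simp
          ring
        have k5 := (D.bd x).hi (N z)
        have k6 : 0 ≤ D.F x (N z) (D.J x (N z)) := by
          have := (D.bd x).lo (N z)
          exact le_trans (mul_nonneg hm.le (sq_nonneg _)) this
        have k8 : 0 ≤ a⁻¹ * D.F x (N z) (D.J x (N z)) := mul_nonneg (inv_nonneg.2 ha0.le) k6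
        rw [k4, abs_neg, abs_of_nonneg k8] at k3
        have k7 : (K : ℝ) * (a⁻¹ * D.F x (N z) (D.J x (N z))) ≤ K * (D.M / a) * ‖N z‖ ^ 2 := by
          calc (K : ℝ) * (a⁻¹ * D.F x (N z) (D.J x (N z))) ≤ K * (a⁻¹ * (D.M * ‖N z‖ ^ 2)) := by
                gcongr
            _ = _ := by ring
        have k9 : |Ψ (‖P z‖ ^ 2) - w z| ≤ (K : ℝ) * (a⁻¹ * D.F x (N z) (D.J x (N z))) := k3
        linarith
      have k4 := k2.add k1
      rw [zero_add] at k4
      refine k4.congr fun r => ?_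
      rw [hμi r _ hpc]
      have k5 : IntegrableOn (fun z => Ψ (‖P z‖ ^ 2)) (closedBall (0 : E4) A) (lam D x r) :=
        hci r _ (hpc.comp P.continuous)
      have k6 := hci r _ hwc
      have k7 : (r ^ 2)⁻¹ * ∫ y, Ψ (a⁻¹ * ((r ^ 2)⁻¹ * D.G x (y - x) (y - x))) ∂D.s =
          ∫ z in closedBall (0 : E4) A, w z ∂(lam D x r) := by
        rw [setIntegral_eq_integral_of_forall_compl_eq_zero (fun z hz => hw0 z hz),
          lam_integral D x r hwc.measurable]
        congr 1
        refine integral_congr_ae (ae_of_all _ fun y => ?_)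
        simp only [hw, LC.G, gm_apply, map_smul, _root_.smul_apply, smul_eq_mul]
        congr 2
        rw [← inv_pow]
        ring
      rw [k7, integral_sub k5 k6, sub_add_cancel]
  -- comparison of f and h
  have h4b : Tendsto (fun r => ∫ z in closedBall (0 : E4) A, (f z - h (P z)) ∂(lam D x r))
      (𝓝[>] 0) (𝓝 0) := by
    refine err D x N hA0 hNt _ fun ε hε => ?_
    have hfs : HasCompactSupport f := HasCompactSupport.of_support_subset_isCompact
      (isCompact_closedBall (0 : E4) A₀) fun z hz => by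
        by_contra hne
        exact hz (hf0 z hne)
    obtain ⟨K, hK⟩ := unif hfc hfs ε hε
    refine ⟨K, fun z _ => ?_⟩
    have k1 := hK (Q (P z)) z
    rw [hN, ← hQ]
    exact k1
  have h4b' : Tendsto (fun r => (r ^ 2)⁻¹ * ∫ y, f (r⁻¹ • (y - x)) ∂D.s) (𝓝[>] 0)
      (𝓝 (a * ∫ ζ, h ζ)) := by
    have h2 := h4b.add hlim
    rw [zero_add] at h2
    refine h2.congr fun r => ?_
    have k1 := hci r f hfc
    have k2 : IntegrableOn (fun z => h (P z)) (closedBall (0 : E4) A) (lam D x r) :=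
      hci r _ (hhc.comp P.continuous)
    rw [hμi r h hhc, integral_sub k1 k2, sub_add_cancel]
    rw [← lam_integral D x r hfc.measurable]
    refine setIntegral_eq_integral_of_forall_compl_eq_zero fun z hz => hf0 z fun h3 => hz ?_
    exact closedBall_subset_closedBall hA1 h3
  -- the frozen form
  obtain ⟨Kq, hKq0, hKq⟩ := q_diff D
  obtain ⟨B, hB0, hB⟩ : ∃ B : ℝ, 0 ≤ B ∧ ∀ z, ‖g z‖ ≤ B := by
    obtain ⟨B, hB⟩ := hg.bounded_above_of_compact_support hgc
    exact ⟨B, (norm_nonneg _).trans (hB 0), hB⟩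
  have hgr : ∀ r : ℝ, Measurable fun y : E4 => g (r⁻¹ • (y - x)) := fun r =>
    (hg.comp (by fun_prop)).measurable
  have hmq : ∀ r : ℝ, Measurable fun y => q (D.F y) (D.φ y) (g (r⁻¹ • (y - x))) := by
    intro r
    unfold q
    exact (Loc5.measurable_W D.meas (hgr r)).div
      (Loc5.measurable_W D.smF.continuous.measurable D.smF.continuous.measurable)
  have hqb : ∀ (r : ℝ) y z, ‖q (D.F z) (D.φ z) (g (r⁻¹ • (y - x)))‖ ≤
      3 / D.m ^ 2 * (2 * D.M * B) := by
    intro r y z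
    rw [Real.norm_eq_abs]
    refine ((D.bd z).abs_q_le (D.pos z).alt (hga _)).trans ?_
    have h2 := norm_phi D z
    have h3 := hB (r⁻¹ • (y - x))
    gcongr
  have hi1 : ∀ r : ℝ, Integrable (fun y => q (D.F y) (D.φ y) (g (r⁻¹ • (y - x)))) D.s := fun r =>
    Integrable.of_bound (hmq r).aestronglyMeasurable _ (ae_of_all _ fun y => hqb r y y)
  have hi2 : ∀ r : ℝ, Integrable (fun y => f (r⁻¹ • (y - x))) D.s := fun r =>
    Integrable.of_bound ((hfc.comp (by fun_prop)).measurable).aestronglyMeasurable _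
      (ae_of_all _ fun y => by rw [← hqf]; exact hqb r y x)
  have hiφ : Integrable (fun y => ‖D.φ y - D.φ x‖) D.s := by
    refine Integrable.of_bound (D.meas.sub_const _).norm.aestronglyMeasurable
      (2 * D.M + 2 * D.M) (ae_of_all _ fun y => ?_)
    rw [norm_norm]
    exact (norm_sub_le _ _).trans (add_le_add (norm_phi D y) (norm_phi D x))
  have h4a : Tendsto (fun r : ℝ => (r ^ 2)⁻¹ * ∫ y, (q (D.F y) (D.φ y) (g (r⁻¹ • (y - x))) -
      f (r⁻¹ • (y - x))) ∂D.s) (𝓝[>] 0) (𝓝 0) := by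
    have hE0 : 0 ≤ Kq * B := by positivity
    have hL1 := (hLeb.comp (tendsto_mul_pos hA₀)).const_mul (Kq * B * A₀ ^ 2)
    have hL2 : Tendsto (fun r : ℝ => Kq * B * A₀ * (D.C * (2 * A₀) ^ 2) * r) (𝓝[>] 0) (𝓝 0) := by
      have : Tendsto (fun r : ℝ => Kq * B * A₀ * (D.C * (2 * A₀) ^ 2) * r) (𝓝 0)
          (𝓝 (Kq * B * A₀ * (D.C * (2 * A₀) ^ 2) * 0)) :=
        (continuous_const.mul continuous_id).tendsto 0
      rw [mul_zero] at this
      exact this.mono_left nhdsWithin_le_nhds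
    have hL3 := hL1.add hL2
    rw [mul_zero, add_zero] at hL3
    refine squeeze_zero_norm' ?_ hL3
    filter_upwards [self_mem_nhdsWithin] with r hr
    have hr' : (0 : ℝ) < r := hr
    rw [norm_mul, Real.norm_of_nonneg (by positivity : (0 : ℝ) ≤ (r ^ 2)⁻¹)]
    have h3 : ∫ y, (q (D.F y) (D.φ y) (g (r⁻¹ • (y - x))) - f (r⁻¹ • (y - x))) ∂D.s =
        ∫ y in closedBall x (A₀ * r),
          (q (D.F y) (D.φ y) (g (r⁻¹ • (y - x))) - f (r⁻¹ • (y - x))) ∂D.s := by
      symm
      apply setIntegral_eq_integral_of_forall_compl_eq_zero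
      intro y hy
      have h4 : r⁻¹ • (y - x) ∉ closedBall (0 : E4) A₀ := fun h5 => hy ((mem_iff x hr' A₀ y).1 h5)
      rw [hg0 _ h4, hf0 _ h4]
      simp [q, W, ent_zero]
    have h4 : ∀ y ∈ closedBall x (A₀ * r),
        ‖q (D.F y) (D.φ y) (g (r⁻¹ • (y - x))) - f (r⁻¹ • (y - x))‖ ≤
          Kq * B * ‖D.φ y - D.φ x‖ + Kq * B * (A₀ * r) := by
      intro y hy
      rw [Real.norm_eq_abs, ← hqf]
      refine (hKq x y _).trans ?_
      have h5 := hB (r⁻¹ • (y - x))
      have h6 : ‖y - x‖ ≤ A₀ * r := by rwa [mem_closedBall, dist_eq_norm] at hy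
      calc Kq * ‖g (r⁻¹ • (y - x))‖ * (‖D.φ y - D.φ x‖ + ‖y - x‖) ≤
          Kq * B * (‖D.φ y - D.φ x‖ + A₀ * r) := by gcongr
        _ = _ := by ring
    have h5 : ‖∫ y in closedBall x (A₀ * r),
          (q (D.F y) (D.φ y) (g (r⁻¹ • (y - x))) - f (r⁻¹ • (y - x))) ∂D.s‖ ≤
        ∫ y in closedBall x (A₀ * r), (Kq * B * ‖D.φ y - D.φ x‖ + Kq * B * (A₀ * r)) ∂D.s := by
      refine norm_integral_le_of_norm_le
        (((hiφ.const_mul (Kq * B)).add (integrable_const _)).integrableOn) ?_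
      exact (ae_restrict_iff' measurableSet_closedBall).2 (ae_of_all _ h4)
    rw [integral_add (hiφ.const_mul (Kq * B)).integrableOn (integrable_const _),
      integral_const_mul, setIntegral_const, smul_eq_mul] at h5
    have h6 : D.s.real (closedBall x (A₀ * r)) ≤ D.C * (2 * (A₀ * r)) ^ 2 := by
      have hAr : 0 < A₀ * r := mul_pos hA₀ hr'
      exact le_trans (measureReal_mono (closedBall_subset_ball (by linarith)))
        (D.gr x _ (by positivity))
    have h7 : D.s.real (closedBall x (A₀ * r)) * (Kq * B * (A₀ * r)) ≤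
        D.C * (2 * (A₀ * r)) ^ 2 * (Kq * B * (A₀ * r)) := by gcongr
    rw [h3]
    calc (r ^ 2)⁻¹ * ‖∫ y in closedBall x (A₀ * r),
          (q (D.F y) (D.φ y) (g (r⁻¹ • (y - x))) - f (r⁻¹ • (y - x))) ∂D.s‖ ≤
        (r ^ 2)⁻¹ * (Kq * B * (∫ y in closedBall x (A₀ * r), ‖D.φ y - D.φ x‖ ∂D.s) +
          D.C * (2 * (A₀ * r)) ^ 2 * (Kq * B * (A₀ * r))) := by
          refine mul_le_mul_of_nonneg_left ?_ (by positivity)
          linarith
      _ = _ := by
          simp only [Function.comp]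
          field_simp
  have h5 := h4a.add h4b'
  rw [zero_add] at h5
  have h6 : a * ∫ ζ, h ζ = ∫ ζ : ℂ, g (pt (D.J x) X ζ) X (D.J x X) := by
    rw [← integral_const_mul]
    refine integral_congr_ae (ae_of_all _ fun ζ => ?_)
    simp only [hh, hf, hQ]
    field_simp
  rw [h6] at h5
  refine h5.congr fun r => ?_
  rw [integral_sub (hi1 r) (hi2 r)]
  ring

end

end Crest.Agent.R235.FlatPt_856
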