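import Crest.Agent.R235.FlatDef_607

/-!
Row 235, PACKAGE REG, block FLATW, leaf FLAT-6 RADI (helper125): radial functions at a point of
density one (layer cake + dominated convergence).
-/

set_option autoImplicit false
set_option maxSynthPendingDepth 3

open Set Function Filter MeasureTheory Metric Complex
open scoped ContDiff ENNReal Manifold Topology

namespace Crest.Agent.R235.FlatRadi_125

open Crest.Agent.R240 Crest.Agent.R240.En Crest.Agent.R240.Pot
open Crest.Agent.R235.CurDefs_132 Crest.Agent.R235.Flat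

/-- layer cake for a compactly supported `C¹` profile. -/
lemma layer {Ψ : ℝ → ℝ} (hΨ : ContDiff ℝ 1 Ψ) (hc : HasCompactSupport Ψ) {a : ℝ} (ha : 0 ≤ a) :
    Ψ a = - ∫ t in Ioi (0 : ℝ), (Ioi a).indicator (deriv Ψ) t := by
  have hd : Continuous (deriv Ψ) := hΨ.continuous_deriv le_rfl
  have hdc : HasCompactSupport (deriv Ψ) := hc.deriv
  have hi : Integrable (deriv Ψ) := hd.integrable_of_hasCompactSupport hdc
  have hlim : Tendsto Ψ atTop (𝓝 0) := by
    have h := hc.isCompact.isBounded
    obtain ⟨B, hB⟩ := h.subset_closedBall 0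
    refine tendsto_const_nhds.congr' ?_
    filter_upwards [eventually_gt_atTop B] with t ht
    by_contra hne
    have h1 : t ∈ closedBall (0 : ℝ) B := hB (subset_tsupport _ (Ne.symm hne))
    rw [mem_closedBall_zero_iff, Real.norm_eq_abs] at h1
    exact absurd (le_abs_self t) (by linarith)
  have h1 : ∫ t in Ioi a, deriv Ψ t = 0 - Ψ a :=
    integral_Ioi_of_hasDerivAt_of_tendsto hΨ.continuous.continuousWithinAt
      (fun t _ => (hΨ.differentiable one_ne_zero).differentiableAt.hasDerivAt) hi.integrableOn hlim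
  rw [setIntegral_indicator measurableSet_Ioi, Ioi_inter_Ioi, sup_eq_right.2 ha, h1]
  ring

lemma parts {Ψ : ℝ → ℝ} (hΨ : ContDiff ℝ 1 Ψ) (hc : HasCompactSupport Ψ) :
    ∫ t in Ioi (0 : ℝ), deriv Ψ t * t = - ∫ t in Ioi (0 : ℝ), Ψ t := by
  have hd : Continuous (deriv Ψ) := hΨ.continuous_deriv le_rfl
  have hdc : HasCompactSupport (deriv Ψ) := hc.deriv
  have hi : Integrable (fun t => deriv Ψ t * t) :=
    (hd.mul continuous_id).integrable_of_hasCompactSupport hdc.mul_right
  have hi2 : Integrable Ψ := hΨ.continuous.integrable_of_hasCompactSupport hc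
  have hlim : Tendsto (fun t => Ψ t * t) atTop (𝓝 0) := by
    have h := hc.isCompact.isBounded
    obtain ⟨B, hB⟩ := h.subset_closedBall 0
    refine tendsto_const_nhds.congr' ?_
    filter_upwards [eventually_gt_atTop B] with t ht
    have : Ψ t = 0 := by
      by_contra hne
      have h1 : t ∈ closedBall (0 : ℝ) B := hB (subset_tsupport _ hne)
      rw [mem_closedBall_zero_iff, Real.norm_eq_abs] at h1
      exact absurd (le_abs_self t) (by linarith)
    rw [this, zero_mul]
  have hder : ∀ t : ℝ, HasDerivAt (fun t => Ψ t * t) (deriv Ψ t * t + Ψ t) t := by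
    intro t
    have h1 := ((hΨ.differentiable one_ne_zero).differentiableAt (x := t)).hasDerivAt.mul
      (hasDerivAt_id t)
    have e : deriv Ψ t * id t + Ψ t * 1 = deriv Ψ t * t + Ψ t := by simp
    rw [e] at h1
    exact h1
  have h1 : ∫ t in Ioi (0 : ℝ), (deriv Ψ t * t + Ψ t) = 0 - Ψ 0 * 0 :=
    integral_Ioi_of_hasDerivAt_of_tendsto (f := fun t => Ψ t * t)
      (hΨ.continuous.mul continuous_id).continuousWithinAt
      (fun t _ => hder t) (hi.add hi2).integrableOn hlim
  rw [integral_add hi.integrableOn hi2.integrableOn] at h1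
  linarith

theorem radi : RADI := by
  intro D x hx Ψ hΨ hΨc
  have hfin : IsFiniteMeasure D.s := D.fin
  set ρ : E4 → ℝ := fun y => D.G x (y - x) (y - x) with hρ
  have hρ0 : ∀ y, 0 ≤ ρ y := fun y => gm_nonneg (D.bd x).spos _
  have hρm : ∀ y, D.m * ‖y - x‖ ^ 2 ≤ ρ y := fun y => (D.bd x).lo _
  have hρc : Continuous ρ := by
    have h1 : Continuous fun y : E4 => y - x := continuous_id.sub continuous_const
    exact ((D.G x).continuous.comp h1).clm_apply h1
  have hm := (D.bd x).m_pos
  have hd : Continuous (deriv Ψ) := hΨ.continuous_deriv le_rfl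
  have hdc : HasCompactSupport (deriv Ψ) := hΨc.deriv
  have hi : Integrable (deriv Ψ) := hd.integrable_of_hasCompactSupport hdc
  -- Fubini
  have key : ∀ r : ℝ, 0 < r → (r ^ 2)⁻¹ * ∫ y, Ψ ((r ^ 2)⁻¹ * ρ y) ∂D.s =
      - ∫ t in Ioi (0 : ℝ), deriv Ψ t * ((r ^ 2)⁻¹ * D.s.real {y | ρ y < t * r ^ 2}) := by
    intro r hr
    have hr2 : 0 < r ^ 2 := by positivity
    have e1 : ∫ y, Ψ ((r ^ 2)⁻¹ * ρ y) ∂D.s =
        ∫ y, (- ∫ t in Ioi (0 : ℝ), (Ioi ((r ^ 2)⁻¹ * ρ y)).indicator (deriv Ψ) t) ∂D.s := by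
      refine integral_congr_ae (Eventually.of_forall fun y => ?_)
      exact layer hΨ hΨc (mul_nonneg (inv_nonneg.2 hr2.le) (hρ0 y))
    rw [e1, integral_neg]
    have hms : MeasurableSet {p : E4 × ℝ | (r ^ 2)⁻¹ * ρ p.1 < p.2} :=
      measurableSet_lt ((hρc.comp continuous_fst).const_smul ((r ^ 2)⁻¹)).measurable
        measurable_snd
    have hint : Integrable (uncurry fun (y : E4) (t : ℝ) =>
        (Ioi ((r ^ 2)⁻¹ * ρ y)).indicator (deriv Ψ) t)
        (D.s.prod (volume.restrict (Ioi 0))) := by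
      have h1 : Integrable (fun p : E4 × ℝ => deriv Ψ p.2) (D.s.prod (volume.restrict (Ioi 0))) :=
        (hi.integrableOn (s := Ioi 0)).comp_snd D.s
      have h2 := h1.indicator hms
      refine h2.congr (Eventually.of_forall fun p => ?_)
      simp only [uncurry, indicator, mem_setOf_eq, mem_Ioi]
    rw [integral_integral_swap hint, mul_neg, ← integral_const_mul]
    congr 1
    refine integral_congr_ae (Eventually.of_forall fun t => ?_)
    have e2 : ∀ y, (Ioi ((r ^ 2)⁻¹ * ρ y)).indicator (deriv Ψ) t =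
        {y | ρ y < t * r ^ 2}.indicator (fun _ => deriv Ψ t) y := by
      intro y
      have : ((r ^ 2)⁻¹ * ρ y < t) ↔ (ρ y < t * r ^ 2) := by
        rw [inv_mul_lt_iff₀ hr2, mul_comm]
      simp only [indicator, mem_setOf_eq, mem_Ioi, this]
    simp only [e2]
    rw [integral_indicator (measurableSet_lt hρc.measurable measurable_const), setIntegral_const,
      smul_eq_mul]
    ring
  have hgr : ∀ r : ℝ, 0 < r → ∀ t : ℝ, 0 < t →
      (r ^ 2)⁻¹ * D.s.real {y | ρ y < t * r ^ 2} ≤ D.C / D.m * t := by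
    intro r hr t ht
    have hr2 : 0 < r ^ 2 := by positivity
    have h1 : {y | ρ y < t * r ^ 2} ⊆ ball x (Real.sqrt (t / D.m) * r) := by
      intro y hy
      rw [mem_ball, dist_eq_norm]
      have h2 : D.m * ‖y - x‖ ^ 2 < t * r ^ 2 := (hρm y).trans_lt hy
      have h3 : ‖y - x‖ ^ 2 < (Real.sqrt (t / D.m) * r) ^ 2 := by
        rw [mul_pow, Real.sq_sqrt (by positivity), div_mul_eq_mul_div, lt_div_iff₀ hm]
        linarith
      exact lt_of_pow_lt_pow_left₀ 2 (by positivity) h3
    have h4 : D.s.real {y | ρ y < t * r ^ 2} ≤ D.C * (Real.sqrt (t / D.m) * r) ^ 2 :=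
      (measureReal_mono h1 (measure_ne_top _ _)).trans (D.gr x _ (by positivity))
    rw [mul_pow, Real.sq_sqrt (by positivity)] at h4
    rw [inv_mul_le_iff₀ hr2]
    refine h4.trans (le_of_eq ?_)
    field_simp
  have hlim : ∀ t : ℝ, 0 < t → Tendsto (fun r : ℝ =>
      (r ^ 2)⁻¹ * D.s.real {y | ρ y < t * r ^ 2}) (𝓝[>] 0) (𝓝 (Real.pi * t)) := by
    intro t ht
    have hst : 0 < Real.sqrt t := Real.sqrt_pos.2 ht
    have h1 : Tendsto (fun r : ℝ => Real.sqrt t * r) (𝓝[>] 0) (𝓝[>] 0) := by
      refine tendsto_nhdsWithin_iff.2 ⟨?_, ?_⟩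
      · have : Tendsto (fun r : ℝ => Real.sqrt t * r) (𝓝 0) (𝓝 (Real.sqrt t * 0)) :=
          tendsto_const_nhds.mul tendsto_id
        rw [mul_zero] at this
        exact this.mono_left nhdsWithin_le_nhds
      · filter_upwards [self_mem_nhdsWithin] with r hr
        exact mul_pos hst hr
    have h2 := (hx.comp h1).mul_const (Real.pi * t)
    rw [one_mul] at h2
    refine h2.congr' ?_
    filter_upwards [self_mem_nhdsWithin] with r hr
    have hr' : (0 : ℝ) < r := hr
    simp only [Function.comp]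
    have e : (Real.sqrt t * r) ^ 2 = t * r ^ 2 := by
      rw [mul_pow, Real.sq_sqrt ht.le]
    rw [e]
    show D.s.real {y | ρ y < t * r ^ 2} / (Real.pi * (t * r ^ 2)) * (Real.pi * t) =
      (r ^ 2)⁻¹ * D.s.real {y | ρ y < t * r ^ 2}
    field_simp
  -- dominated convergence
  have hconv : Tendsto (fun r : ℝ => ∫ t in Ioi (0 : ℝ),
      deriv Ψ t * ((r ^ 2)⁻¹ * D.s.real {y | ρ y < t * r ^ 2})) (𝓝[>] 0)
      (𝓝 (∫ t in Ioi (0 : ℝ), deriv Ψ t * (Real.pi * t))) := by
    refine tendsto_integral_filter_of_dominated_convergence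
      (fun t => |deriv Ψ t| * (D.C / D.m * |t|)) ?_ ?_ ?_ ?_
    · filter_upwards [self_mem_nhdsWithin] with r hr
      refine AEStronglyMeasurable.mul hd.aestronglyMeasurable ?_
      refine AEStronglyMeasurable.const_mul ?_ _
      have hmono : Monotone fun t : ℝ => D.s.real {y | ρ y < t * r ^ 2} := by
        intro t t' h
        refine measureReal_mono ?_ (measure_ne_top _ _)
        intro y hy
        exact lt_of_lt_of_le hy (mul_le_mul_of_nonneg_right h (sq_nonneg r))
      exact hmono.measurable.aestronglyMeasurable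
    · filter_upwards [self_mem_nhdsWithin] with r hr
      filter_upwards [ae_restrict_mem measurableSet_Ioi] with t ht
      rw [norm_mul, Real.norm_eq_abs, Real.norm_eq_abs]
      gcongr
      rw [abs_of_nonneg (mul_nonneg (inv_nonneg.2 (sq_nonneg r)) measureReal_nonneg),
        abs_of_pos ht]
      exact hgr r hr t ht
    · refine Integrable.integrableOn ?_
      refine (hd.abs.mul (continuous_const.mul continuous_abs)).integrable_of_hasCompactSupport ?_
      exact (hdc.comp_left (g := fun z : ℝ => |z|) abs_zero).mul_right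
    · filter_upwards [ae_restrict_mem measurableSet_Ioi] with t ht
      exact (hlim t ht).const_mul _
  have hfinal : Real.pi * ∫ u in Ioi (0 : ℝ), Ψ u =
      - ∫ t in Ioi (0 : ℝ), deriv Ψ t * (Real.pi * t) := by
    have e : ∀ t, deriv Ψ t * (Real.pi * t) = Real.pi * (deriv Ψ t * t) := fun t => by ring
    simp only [e]
    rw [integral_const_mul, parts hΨ hΨc]
    ring
  rw [hfinal]
  refine (hconv.neg).congr' ?_
  filter_upwards [self_mem_nhdsWithin] with r hr
  exact (key r hr).symm

end Crest.Agent.R235.FlatRadi_125
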