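import Crest.Agent.R235.CylDef2_522
import Crest.Agent.R240.Lin5

/-!
Row 235 (S0364), PACKAGE REG, A1.0a (task 397, helper347): degenerate positive `(1,1)`-forms.
-/

set_option autoImplicit false
set_option maxSynthPendingDepth 3

open MeasureTheory Metric Set Filter

namespace Crest.Agent.R235.RegFWALG_347

open Crest.Agent.R240
open Crest.Agent.R235.Reg_522

noncomputable section

/-- a unitary frame whose first vector is a given vector of length one. -/
theorem exists_frame_at {J : E4 →L[ℝ] E4} (hJ : ∀ v, J (J v) = -v) {F : Bil} (hF : SPos J F)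
    {a : E4} (ha : F a (J a) = 1) :
    ∃ A : E4 ≃L[ℝ] E4, IsFrame J F A ∧ ∀ v, A v = v 0 • a + v 1 • J a + v 2 • A (ee 2) +
      v 3 • J (A (ee 2)) := by
  obtain ⟨c, hc, hc1, hc2⟩ : ∃ c : E4, F c (J c) = 1 ∧ F a (J c) = 0 ∧ F a c = 0 := by
    let L : E4 →ₗ[ℝ] (Fin 2 → ℝ) := LinearMap.pi ![((F a).comp J).toLinearMap, (F a).toLinearMap]
    have hk : LinearMap.ker L ≠ ⊥ := by
      apply LinearMap.ker_ne_bot_of_finrank_lt
      simp
    obtain ⟨c, hc, hc0⟩ := Submodule.exists_mem_ne_zero_of_ne_bot hk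
    have h1 : F a (J c) = 0 := by
      have := congrFun (LinearMap.mem_ker.1 hc) 0
      simpa [L] using this
    have h2 : F a c = 0 := by
      have := congrFun (LinearMap.mem_ker.1 hc) 1
      simpa [L] using this
    have hp := hF.pos _ hc0
    refine ⟨(Real.sqrt (F c (J c)))⁻¹ • c, ?_, ?_, ?_⟩
    · rw [map_smul, map_smul, map_smul, smul_apply, smul_eq_mul, smul_eq_mul, ← mul_assoc,
        ← mul_inv, Real.mul_self_sqrt hp.le]
      exact inv_mul_cancel₀ hp.ne'
    · rw [map_smul, map_smul, h1, smul_zero]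
    · rw [map_smul, h2, smul_zero]
  have hJac : F (J a) (J c) = 0 := by rw [hF.inv, hc2]
  have hJa_c : F (J a) c = 0 := by
    have := hF.inv (J a) c
    rw [hJ] at this
    rw [← this, map_neg, neg_apply, hc1, neg_zero]
  have hca : F c a = 0 := by rw [hF.alt.swap, hc2, neg_zero]
  have hJca : F (J c) a = 0 := by rw [hF.alt.swap, hc1, neg_zero]
  have hJcJa : F (J c) (J a) = 0 := by rw [hF.alt.swap, hJac, neg_zero]
  have hcJa : F c (J a) = 0 := by rw [hF.alt.swap, hJa_c, neg_zero]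
  have hJaa : F (J a) a = -1 := by rw [hF.alt.swap, ha]
  have hJcc : F (J c) c = -1 := by rw [hF.alt.swap, hc]
  let A0 : E4 →ₗ[ℝ] E4 :=
    { toFun := fun v => v 0 • a + v 1 • J a + v 2 • c + v 3 • J c
      map_add' := by
        intro u v
        simp only [PiLp.add_apply, add_smul]
        abel
      map_smul' := by
        intro r v
        simp only [PiLp.smul_apply, smul_eq_mul, mul_smul, smul_add, RingHom.id_apply] }
  have hA0 : ∀ v, A0 v = v 0 • a + v 1 • J a + v 2 • c + v 3 • J c := fun v => rfl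
  have hform : ∀ u v, F (A0 u) (A0 v) = om0 u v := by
    intro u v
    rw [hA0, hA0, om0_apply]
    simp only [map_add, map_smul, add_apply, smul_apply, smul_eq_mul, ha, hc, hc1, hc2, hJac,
      hJa_c, hca, hJca, hJcJa, hcJa, hJaa, hJcc, hF.alt a, hF.alt c, hF.alt (J a), hF.alt (J c)]
    ring
  have hcplx : ∀ v, J (A0 v) = A0 (J0 v) := by
    intro v
    rw [hA0, hA0]
    simp only [map_add, map_smul, hJ, J0_0, J0_1, J0_2, J0_3, smul_neg, neg_smul]
    abel
  have hinj : Function.Injective A0 := by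
    rw [← LinearMap.ker_eq_bot, LinearMap.ker_eq_bot']
    intro v hv
    have h1 : om0 v (J0 v) = 0 := by
      rw [← hform, hv, map_zero, zero_apply]
    rw [om0_J0] at h1
    have : ‖v‖ = 0 := by
      rcases pow_eq_zero_iff (n := 2) (by norm_num) |>.1 h1 with h
      exact h
    exact norm_eq_zero.1 this
  refine ⟨(LinearEquiv.ofInjectiveEndo A0 hinj).toContinuousLinearEquiv, ⟨?_, ?_⟩, ?_⟩
  · intro u v; exact hform u v
  · intro v; exact hcplx v
  · intro v
    have h2 : (LinearEquiv.ofInjectiveEndo A0 hinj).toContinuousLinearEquiv (ee 2) = c := by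
      change A0 (ee 2) = c
      rw [hA0]
      simp
    rw [h2]
    exact hA0 v

/-- the values of a degenerate normalised positive form. -/
theorem degenerate {J : E4 →L[ℝ] E4} {F : Bil} {m M : ℝ} (h : Bd J F m M) {φ : Bil}
    (hφ : Pos J φ) (hn : q F φ F = 1) {a : E4} (ha : F a (J a) = 1) (h0 : φ a (J a) = 0) :
    (∀ b : Bil, Alt b → q F φ b = b a (J a)) ∧
      ∀ v, φ v (J v) = 0 ↔ ∃ s t : ℝ, v = s • a + t • J a := by
  obtain ⟨A, hA, hAv⟩ := exists_frame_at h.sq h.spos ha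
  have hAlt := h.spos.alt
  -- the form vanishes on `a` and `J a`
  have ka : ∀ u, φ a u = 0 := by
    intro u
    have h1 := hφ.cs h.sq a u
    rw [h0, zero_mul] at h1
    nlinarith [sq_nonneg (φ a u)]
  have kJa : ∀ u, φ (J a) u = 0 := by
    intro u
    have h1 := hφ.inv (J a) u
    rw [h.sq a, map_neg, neg_apply, ka, neg_zero] at h1
    exact h1.symm
  have e0 : A (ee 0) = a := by
    rw [hAv]
    simp
  have e1 : A (ee 1) = J a := by
    rw [hAv]
    simp
  have hp : ∀ (b : Bil) (i j : Fin 4), ent (pull (A : E4 →L[ℝ] E4) b) i j =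
      b (A (ee i)) (A (ee j)) := by
    intro b i j
    unfold ent
    rw [pull_apply]
    rfl
  have hW : ∀ b : Bil, W (pull (A : E4 →L[ℝ] E4) φ) (pull (A : E4 →L[ℝ] E4) b) =
      ent (pull (A : E4 →L[ℝ] E4) φ) 2 3 * b a (J a) := by
    intro b
    unfold W
    rw [hp φ 0 1, hp φ 0 2, hp φ 0 3, hp φ 1 2, hp φ 1 3, hp b 0 1, e0, e1, ka, ka, ka, kJa, kJa]
    ring
  have h23 : ent (pull (A : E4 →L[ℝ] E4) φ) 2 3 = 2 := by
    have h1 := hA.q_eq hAlt hφ.alt hAlt
    rw [hn, hW, ha] at h1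
    linarith
  refine ⟨fun b hb => ?_, fun v => ⟨fun hv => ?_, ?_⟩⟩
  · rw [hA.q_eq hAlt hφ.alt hb, hW, h23]
    ring
  · set y := A.symm v with hy
    have hvy : v = A y := by rw [hy]; simp
    have hJc : A (ee 3) = J (A (ee 2)) := by
      rw [hAv (ee 3)]
      simp
    have h1 : φ v (J v) = 2 * (y 2 ^ 2 + y 3 ^ 2) := by
      have h2 : φ (A (ee 2)) (J (A (ee 2))) = 2 := by
        rw [← h23, hp, hJc]
      have h3 : φ v (J v) = pull (A : E4 →L[ℝ] E4) φ y (J0 y) := by
        rw [pull_apply]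
        change φ v (J v) = φ (A y) (A (J0 y))
        rw [← hA.cplx, ← hvy]
      rw [h3, alt_expand (hφ.alt.pull _), h23, hp, hp, hp, hp, hp, e0, e1, ka, ka, ka, kJa, kJa]
      simp
      ring
    rw [hv] at h1
    have h2 : y 2 = 0 := by nlinarith [sq_nonneg (y 2), sq_nonneg (y 3)]
    have h3 : y 3 = 0 := by nlinarith [sq_nonneg (y 2), sq_nonneg (y 3)]
    refine ⟨y 0, y 1, ?_⟩
    rw [hvy, hAv y, h2, h3]
    simp
  · rintro ⟨s, t, rfl⟩
    have h1 : φ (s • a + t • J a) = 0 := by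
      ext u
      rw [map_add, map_smul, map_smul, add_apply, smul_apply, smul_apply, ka, kJa]
      simp
    rw [h1, zero_apply]

theorem fwalg : FWALG := by
  intro J F m M h φ hφ hn ⟨v, hv0, hv⟩
  have hFv : 0 < F v (J v) := h.spos.pos v hv0
  have hnv : 0 < ‖v‖ := norm_pos_iff.mpr hv0
  have sq2 : ∀ (b : Bil) (c : ℝ) (w : E4), b (c • w) (J (c • w)) = c ^ 2 * b w (J w) := by
    intro b c w
    rw [map_smul, map_smul, map_smul, smul_apply, smul_eq_mul, smul_eq_mul]
    ring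
  set c : ℝ := (Real.sqrt (F v (J v)))⁻¹ with hc
  have hsq : 0 < Real.sqrt (F v (J v)) := Real.sqrt_pos.mpr hFv
  have hc0 : 0 < c := inv_pos.mpr hsq
  have hc2 : c ^ 2 * F v (J v) = 1 := by
    rw [hc, inv_pow, Real.sq_sqrt hFv.le]
    exact inv_mul_cancel₀ hFv.ne'
  have ha : F (c • v) (J (c • v)) = 1 := by rw [sq2, hc2]
  have h0 : φ (c • v) (J (c • v)) = 0 := by rw [sq2, hv, mul_zero]
  obtain ⟨hb, hk⟩ := degenerate h hφ hn ha h0
  refine ⟨‖v‖⁻¹ • v, ?_, ?_, fun b hbalt => ?_, fun w => ?_⟩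
  · rw [norm_smul, norm_inv, norm_norm]
    exact inv_mul_cancel₀ hnv.ne'
  · rw [sq2]
    positivity
  · rw [hb b hbalt, sq2, sq2, sq2]
    have : c ^ 2 * b v (J v) * ((‖v‖⁻¹) ^ 2 * F v (J v)) =
        (‖v‖⁻¹) ^ 2 * b v (J v) * (c ^ 2 * F v (J v)) := by ring
    rw [this, hc2, mul_one]
  · rw [hk w]
    constructor
    · rintro ⟨s, t, rfl⟩
      refine ⟨s * c * ‖v‖, t * c * ‖v‖, ?_⟩
      rw [map_smul, map_smul, smul_smul, smul_smul, smul_smul, smul_smul,
        mul_assoc (s * c), mul_inv_cancel₀ hnv.ne', mul_one, mul_assoc (t * c),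
        mul_inv_cancel₀ hnv.ne', mul_one]
    · rintro ⟨s, t, rfl⟩
      refine ⟨s * ‖v‖⁻¹ * c⁻¹, t * ‖v‖⁻¹ * c⁻¹, ?_⟩
      rw [map_smul, map_smul, smul_smul, smul_smul, smul_smul, smul_smul,
        mul_assoc (s * ‖v‖⁻¹), inv_mul_cancel₀ hc0.ne', mul_one, mul_assoc (t * ‖v‖⁻¹),
        inv_mul_cancel₀ hc0.ne', mul_one]

end

end Crest.Agent.R235.RegFWALG_347
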