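import Crest.Agent.R235.CylDef2_522
import Crest.Agent.R235.CurMon_956
import Crest.Agent.R235.CurGeo1_679

/-!
Row 235, PACKAGE REG, (A1.0e) FWLOW (helper356): lower mass bound at the points of the support of a
closed positive current of density one.
-/

set_option autoImplicit false
set_option maxSynthPendingDepth 3

open MeasureTheory Metric Set Filter
open scoped ContDiff Topology Manifold

namespace Crest.Agent.R235.Reg_FWLOW_356

open Crest.Agent.R240 Crest.Agent.R240.En Crest.Agent.R240.Pot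
open Crest.Agent.R235.CurDefs_132 Crest.Agent.R235.CurMon_956 Crest.Agent.R235.Reg_522

noncomputable section

theorem exists_cut : ∃ K : ℝ → ℝ, Cut 1 K := by
  refine ⟨fun t => Real.smoothTransition (2 - t), ?_, ?_, ?_, ?_⟩
  · exact Real.smoothTransition.contDiff.comp (contDiff_const.sub contDiff_id)
  · intro s t hst
    exact Real.smoothTransition.monotone (by linarith)
  · intro t ht
    exact Real.smoothTransition.one_of_one_le (by linarith)
  · intro t ht
    exact Real.smoothTransition.zero_of_nonpos (by linarith)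

/-- the mollified ratio dominates the mass of a small ball -/
theorem nuR_lo (D : LC) {K : ℝ → ℝ} (hK : Cut 1 K) (x : E4) {r : ℝ} (hr : 0 < r) {A : Set E4}
    (hA : ∀ y ∈ A, D.rho2 x y ≤ r ^ 2) : (r ^ 2)⁻¹ * D.s.real A ≤ D.nuR K r x := by
  have := D.fin
  have hG := CurGeo1_679.geo1
  have hcont : Continuous fun y => K (D.rho2 x y / r ^ 2) :=
    hK.smooth.continuous.comp ((sm_rho D hG x).continuous.div_const _)
  have hint : Integrable (fun y => K (D.rho2 x y / r ^ 2)) D.s := by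
    refine Integrable.of_bound hcont.aestronglyMeasurable 1 (Eventually.of_forall fun y => ?_)
    rw [Real.norm_of_nonneg (cut_nonneg hK _)]
    exact cut_le_one hK _
  refine mul_le_mul_of_nonneg_left ?_ (by positivity)
  have h1 : D.s.real A ≤ D.s.real {y | D.rho2 x y ≤ r ^ 2} :=
    measureReal_mono (fun y hy => hA y hy)
  refine h1.trans ?_
  have hm : MeasurableSet {y | D.rho2 x y ≤ r ^ 2} :=
    measurableSet_le (sm_rho D hG x).continuous.measurable measurable_const
  have h2 : ∫ y, ({y | D.rho2 x y ≤ r ^ 2}).indicator (fun _ => (1 : ℝ)) y ∂D.s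
      ≤ ∫ y, K (D.rho2 x y / r ^ 2) ∂D.s := by
    refine integral_mono ((integrable_const (1 : ℝ)).indicator hm) hint fun y => ?_
    by_cases hy : y ∈ {y | D.rho2 x y ≤ r ^ 2}
    · rw [indicator_of_mem hy]
      have : D.rho2 x y / r ^ 2 ≤ 1 := by
        rw [div_le_one (by positivity)]; exact hy
      rw [hK.one _ this]
    · rw [indicator_of_notMem hy]; exact cut_nonneg hK _
  rwa [integral_indicator hm, integral_const, smul_eq_mul, mul_one,
    measureReal_restrict_apply_univ] at h2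

/-- the mollified ratio is dominated by the mass of a ball -/
theorem nuR_hi (D : LC) {K : ℝ → ℝ} (hK : Cut 1 K) (x : E4) {r : ℝ} (hr : 0 < r) :
    D.nuR K r x ≤ (r ^ 2)⁻¹ * D.s.real (ball x (ra D * r)) := by
  have := D.fin
  have hG := CurGeo1_679.geo1
  refine mul_le_mul_of_nonneg_left ?_ (by positivity)
  have h2 : ∫ y, K (D.rho2 x y / r ^ 2) ∂D.s ≤
      ∫ y, (ball x (ra D * r)).indicator (fun _ => (1:ℝ)) y ∂D.s := by
    refine integral_mono_of_nonneg (Eventually.of_forall fun y => cut_nonneg hK _)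
      ((integrable_const (1:ℝ)).indicator measurableSet_ball) (Eventually.of_forall fun y => ?_)
    simp only
    by_cases hy : y ∈ ball x (ra D * r)
    · rw [indicator_of_mem hy]
      exact cut_le_one hK _
    · rw [indicator_of_notMem hy, hK.zero _ ?_]
      rw [mem_ball, dist_eq_norm, not_lt] at hy
      have h3 : 2 * r ^ 2 ≤ D.rho2 x y := by
        by_contra hc
        exact absurd (lt_of_rho2 D hG hr (not_le.1 hc)) (not_lt.2 hy)
      rw [le_div_iff₀ (by positivity)]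
      nlinarith [sq_nonneg r]
  rwa [integral_indicator measurableSet_ball, integral_const, smul_eq_mul, mul_one,
    measureReal_restrict_apply_univ] at h2

/-- at a point of density one, `nuR ≥ (π/2)(m/M)` for small radii -/
theorem nuR_den (D : LC) {K : ℝ → ℝ} (hK : Cut 1 K) (x : E4) (hx : IsDenE (D.G x) D.s x 1) :
    ∀ᶠ r in 𝓝[>] (0 : ℝ), Real.pi / 2 * (D.m / D.M) ≤ D.nuR K r x := by
  have hG := CurGeo1_679.geo1
  have hm := m_pos D
  have hM := M_pos D
  have hmM : 0 < D.m / D.M := div_pos hm hM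
  have h1 : ∀ᶠ ρ in 𝓝[>] (0 : ℝ), (1 : ℝ) / 2 <
      D.s.real {y | D.G x (y - x) (y - x) < ρ ^ 2} / (Real.pi * ρ ^ 2) :=
    hx.eventually (lt_mem_nhds (by norm_num))
  have hs : Tendsto (fun r : ℝ => √(D.m / D.M) * r) (𝓝[>] 0) (𝓝[>] 0) := by
    refine tendsto_nhdsWithin_iff.2 ⟨?_, ?_⟩
    · have : Tendsto (fun r : ℝ => √(D.m / D.M) * r) (𝓝 0) (𝓝 (√(D.m / D.M) * 0)) :=
        tendsto_id.const_mul _
      rw [mul_zero] at this
      exact this.mono_left nhdsWithin_le_nhds
    · filter_upwards [self_mem_nhdsWithin] with r hr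
      exact mul_pos (Real.sqrt_pos.2 hmM) hr
  filter_upwards [hs.eventually h1, self_mem_nhdsWithin] with r hr hr0
  have hr0' : 0 < r := hr0
  have hsq : (√(D.m / D.M) * r) ^ 2 = (D.m / D.M) * r ^ 2 := by
    rw [mul_pow, Real.sq_sqrt hmM.le]
  rw [hsq] at hr
  have hpos : 0 < Real.pi * (D.m / D.M * r ^ 2) :=
    mul_pos Real.pi_pos (mul_pos hmM (by positivity))
  rw [lt_div_iff₀ hpos] at hr
  refine le_trans ?_ (nuR_lo D hK x hr0' (A := {y | D.G x (y - x) (y - x) < D.m / D.M * r ^ 2}) ?_)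
  · rw [inv_mul_eq_div, le_div_iff₀ (by positivity)]
    nlinarith
  · intro y hy
    have hy' : D.G x (y - x) (y - x) < D.m / D.M * r ^ 2 := hy
    have h2 : D.m * ‖y - x‖ ^ 2 ≤ D.G x (y - x) (y - x) := (D.bd x).lo (y - x)
    have h3 := ((hG D).2.1 x y).2
    have h4 : D.m * ‖y - x‖ ^ 2 < D.m / D.M * r ^ 2 := lt_of_le_of_lt h2 hy'
    have h5 : D.M * ‖y - x‖ ^ 2 < r ^ 2 := by
      have e : D.m / D.M * r ^ 2 = D.m * (r ^ 2 / D.M) := by ring
      rw [e] at h4
      have h6 := lt_of_mul_lt_mul_left h4 hm.le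
      rw [lt_div_iff₀ hM] at h6
      linarith
    linarith

theorem fwlow : FWLOW := by
  intro hMON D hden
  have := D.fin
  have hG := CurGeo1_679.geo1
  have hm := m_pos D
  have hM := M_pos D
  obtain ⟨K, hK⟩ := exists_cut
  obtain ⟨C, r1, hC, hr1, hmono, -, -⟩ := hMON D 1 K one_pos le_rfl hK
  set c1 : ℝ := Real.pi / 2 * (D.m / D.M) with hc1
  have hc1p : 0 < c1 := mul_pos (by positivity) (div_pos hm hM)
  have hra := ra_pos D
  -- radius for nuR
  set r2 : ℝ := min r1 (c1 / (2 * C + 1)) with hr2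
  have hr2p : 0 < r2 := lt_min hr1 (div_pos hc1p (by linarith))
  have hCr : C * r2 ≤ c1 / 2 := by
    have h1 : r2 ≤ c1 / (2 * C + 1) := min_le_right _ _
    have h2 : C * r2 ≤ C * (c1 / (2 * C + 1)) := mul_le_mul_of_nonneg_left h1 hC
    refine h2.trans ?_
    rw [mul_div_assoc', div_le_div_iff₀ (by linarith) two_pos]
    nlinarith
  -- good points
  have hgood : ∀ x ∈ ball D.x0 (3 * D.R), IsDenE (D.G x) D.s x 1 → ∀ r, 0 < r → r ≤ r2 →
      c1 / 2 ≤ D.nuR K r x := by
    intro x hx hd r hr hrr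
    obtain ⟨r', h1, h2, h3⟩ : ∃ r', 0 < r' ∧ r' < r ∧ c1 ≤ D.nuR K r' x := by
      have h4 : ∀ᶠ r' in 𝓝[>] (0 : ℝ), r' ∈ Ioo 0 r := Ioo_mem_nhdsGT hr
      obtain ⟨r', h5, h6⟩ := (h4.and (nuR_den D hK x hd)).exists
      exact ⟨r', h5.1, h5.2, h6⟩
    have h4 := hmono x hx r' r h1 h2 (hrr.trans (min_le_left _ _))
    have h5 : C * r ≤ C * r2 := mul_le_mul_of_nonneg_left hrr hC
    linarith
  have hgood2 : ∀ x ∈ ball D.x0 (3 * D.R), IsDenE (D.G x) D.s x 1 → ∀ r, 0 < r →
      r ≤ ra D * r2 → c1 / 2 / ra D ^ 2 * r ^ 2 ≤ D.s.real (ball x r) := by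
    intro x hx hd r hr hrr
    have h1 : 0 < r / ra D := div_pos hr hra
    have h2 : r / ra D ≤ r2 := by rw [div_le_iff₀ hra]; linarith
    have h3 := hgood x hx hd _ h1 h2
    have h4 := nuR_hi D hK x h1
    have e : ra D * (r / ra D) = r := by field_simp
    rw [e] at h4
    have h5 : c1 / 2 ≤ ((r / ra D) ^ 2)⁻¹ * D.s.real (ball x r) := h3.trans h4
    rw [inv_mul_eq_div, le_div_iff₀ (by positivity)] at h5
    calc c1 / 2 / ra D ^ 2 * r ^ 2 = c1 / 2 * (r / ra D) ^ 2 := by rw [div_pow]; ring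
      _ ≤ _ := h5
  refine ⟨c1 / 2 / ra D ^ 2 / 4, by positivity, ra D * r2, by positivity, ?_⟩
  intro x hx hsupp r hr hrr
  -- a good point near x
  obtain ⟨ε, hε, hεb⟩ : ∃ ε > 0, ball x ε ⊆ ball D.x0 (3 * D.R) :=
    Metric.isOpen_iff.1 isOpen_ball x hx
  have hε2 : 0 < min ε (r / 2) := lt_min hε (half_pos hr)
  have hpos := hsupp _ hε2
  obtain ⟨x', hx'1, hx'2⟩ : ∃ x' ∈ ball x (min ε (r / 2)),
      (x' ∈ ball D.x0 (3 * D.R) → IsDenE (D.G x') D.s x' 1) := by
    by_contra hcon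
    push Not at hcon
    have h1 : ball x (min ε (r / 2)) ⊆
        {x' | ¬ (x' ∈ ball D.x0 (3 * D.R) → IsDenE (D.G x') D.s x' 1)} := by
      intro y hy
      obtain ⟨h2, h3⟩ := hcon y hy
      exact fun h4 => h3 (h4 h2)
    have h2 := measure_mono (μ := D.s) h1
    have h3 : D.s {x' | ¬ (x' ∈ ball D.x0 (3 * D.R) → IsDenE (D.G x') D.s x' 1)} = 0 := hden
    rw [h3] at h2
    exact absurd hpos (not_lt.2 h2)
  have hx'b : x' ∈ ball D.x0 (3 * D.R) :=
    hεb (ball_subset_ball (min_le_left _ _) hx'1)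
  have h1 := hgood2 x' hx'b (hx'2 hx'b) (r / 2) (half_pos hr) (by linarith)
  have h2 : ball x' (r / 2) ⊆ ball x r := by
    refine ball_subset_ball' ?_
    have h3 : dist x' x < r / 2 := lt_of_lt_of_le hx'1 (min_le_right _ _)
    linarith
  have h3 : D.s.real (ball x' (r / 2)) ≤ D.s.real (ball x r) := measureReal_mono h2
  calc c1 / 2 / ra D ^ 2 / 4 * r ^ 2 = c1 / 2 / ra D ^ 2 * (r / 2) ^ 2 := by ring
    _ ≤ _ := h1.trans h3

end

end Crest.Agent.R235.Reg_FWLOW_356
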