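import Crest.Agent.R235.Reg_FLATW_843
import Crest.Agent.R235.FlatDef_607
import Crest.Agent.R235.CurLin4_253
import Crest.Agent.R235.CurLin1_785
import Crest.Agent.R235.FlatLink_181
import Crest.Agent.R235.FlatLeb_504
import Crest.Agent.R235.FlatDefz_463
import Crest.Agent.R235.FlatKern_453
import Crest.Agent.R235.FlatPt_856
import Crest.Agent.R235.FlatRadi_125
import Crest.Agent.R235.FlatPlane_291
import Crest.Agent.R235.Reg_FWALG_347
import Crest.Agent.R235.Reg_FWLOW_356

/-!
Row 235, PACKAGE REG: the bridge from the block FLATW of helper607 (`FlatDef_607`) to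
`Reg_522.FLATW` (helper522), with the lemmas of helper843.
-/

set_option autoImplicit false
set_option maxSynthPendingDepth 3

open MeasureTheory Metric Set Filter
open scoped ContDiff Topology Manifold ENNReal NNReal

namespace Crest.Agent.R235.FlatBr_607

open Crest.Agent.R240 Crest.Agent.R235.CurDefs_132 Crest.Agent.R235.Reg_522
open Crest.Agent.R235.Reg_FLATW_843

noncomputable section

variable (D : LC) {p : E4}

/-- flatness at a good point, from `Flat.FLP`. -/
lemma flatE' (hL : Flat.FLP) (hd : ∀ᵐ x ∂D.s, x ∈ Reg_FLATW_843.B2 D → Deg (D.J x) (D.F x) (D.φ x) (XX D x))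
    (hp : p ∈ Reg_FLATW_843.B2 D) (hl : Flat.LebPt D p) (hdf : Flat.DefPt D p) (hden : Flat.Den1 D p)
    (hdeg : Deg (D.J p) (D.F p) (D.φ p) (XX D p)) :
    FlatE (mm D) (XX D) (fun q => D.J q (XX D q)) p := by
  intro g hg hgc ha
  have h1 := hL D p hp hl hdf hden (XX D p) ⟨norm_XX D p, hdeg.zero⟩ g hg hgc (fun z => ha z)
  obtain ⟨K0, hK0⟩ := hgc.isCompact.isBounded.subset_ball (0 : E4)
  have hK : ∀ z, max K0 1 ≤ ‖z‖ → g z = 0 := by
    intro z hz
    by_contra hne
    have h3 := hK0 (subset_tsupport g hne)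
    rw [mem_ball_zero_iff] at h3
    linarith [le_max_left K0 1]
  have hK1 : (0 : ℝ) < max K0 1 := lt_of_lt_of_le one_pos (le_max_right _ _)
  refine h1.congr' ?_
  obtain ⟨δ, hδ, hsub⟩ := exists_ball_sub D hp
  have h4 : ∀ᶠ r : ℝ in 𝓝[>] 0, r < δ / max K0 1 :=
    (eventually_lt_nhds (div_pos hδ hK1)).filter_mono nhdsWithin_le_nhds
  filter_upwards [h4, self_mem_nhdsWithin] with r hr hr0
  have hr0' : 0 < r := hr0
  congr 1
  symm
  refine integral_mm' D hd (β := fun y => g (r⁻¹ • (y - p))) (fun y => ha _) fun y hy => ?_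
  apply hK
  have h5 : δ ≤ dist y p := by
    by_contra h6
    exact hy (hsub (mem_ball.2 (not_le.1 h6)))
  rw [dist_eq_norm] at h5
  rw [norm_smul, norm_inv, Real.norm_eq_abs, abs_of_pos hr0', ← div_eq_inv_mul,
    le_div_iff₀ hr0']
  rw [lt_div_iff₀ hK1] at hr
  linarith

/-- **(A1.0)** density one ⟹ flat current. -/
theorem flatw (h1 : Flat.LEBP) (h2 : Flat.DEFZ) (h3 : Flat.KERN) (h8 : Flat.FLP) (hAlg : FWALG)
    (hLow : FWLOW) : FLATW := by
  intro hMon D hden
  have hR := D.R_pos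
  have h23 : Reg_FLATW_843.B2 D ⊆ ball D.x0 (3 * D.R) := ball_subset_ball (by linarith)
  have hall : ∀ᵐ x ∂D.s, x ∈ Reg_FLATW_843.B2 D → Flat.LebPt D x ∧ Flat.DefPt D x ∧ Flat.Den1 D x ∧
      Deg (D.J x) (D.F x) (D.φ x) (XX D x) := by
    filter_upwards [h1 D, hden] with x hx hdx hxB
    have a1 := h2 D x (h23 hxB) hx
    have a2 := hdx (h23 hxB)
    obtain ⟨Z, hZ⟩ := h3 D x a1 a2
    refine ⟨hx, a1, a2, deg_XX D hAlg ⟨Z, ?_, hZ.ker⟩⟩
    rintro rfl
    have := hZ.one
    rw [norm_zero] at this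
    exact zero_ne_one this
  have hd : ∀ᵐ x ∂D.s, x ∈ Reg_FLATW_843.B2 D → Deg (D.J x) (D.F x) (D.φ x) (XX D x) := by
    filter_upwards [hall] with x hx hxB
    exact (hx hxB).2.2.2
  refine ⟨mm D, XX D, 4 * D.C / D.m, ?_, ?_, ?_⟩
  · exact
      { openU := isOpen_ball
        smJ := D.smJ.contDiffOn
        sqJ := fun x _ => (D.bd x).sq
        fin := fin_mm D
        mX := meas_XX D
        nX := norm_XX D
        supp := ae_mem D
        closed := closed_mm D hd
        up := up_mm D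
        low := low_mm D (hLow hMon D hden)
        flat := by
          refine ae_mm D ?_
          filter_upwards [hall] with x hx hxB
          exact flatE' D h8 hd hxB (hx hxB).1 (hx hxB).2.1 (hx hxB).2.2.1 (hx hxB).2.2.2 }
  · intro x hx
    exact ⟨suppE_of_mm D, suppE_mm D hx⟩
  · intro b _ hb hQ
    obtain ⟨Q, hQs, -, hQ0⟩ := hQ
    symm
    exact integral_mm' D hd hb fun x hx => hQ0 x fun h => hx (hQs h)

theorem lin1 : LIN1 := CurLin1_785.lin1
theorem lin4 : LIN4 := CurLin4_253.LIN4_proof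
theorem link : Flat.LINK := FlatLink_181.link
theorem flp : Flat.FLP :=
  FlatPt_856.flp link (FlatTrans_82.trans link lin4) FlatRadi_125.radi FlatPlane_291.plane

/-- **(A1.0)**, unconditional (`FLATW` has `MON` as hypothesis). -/
theorem flatw_final : FLATW := fun hM =>
  flatw FlatLeb_504.lebp (FlatDefz_463.defz lin1 lin4 hM) FlatKern_453.kern flp
    Crest.Agent.R235.RegFWALG_347.fwalg Reg_FWLOW_356.fwlow hM

end

end Crest.Agent.R235.FlatBr_607
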