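import Crest.Agent.R235.FlatDef_607

/-!
Row 235, PACKAGE REG, block FLATW, leaf FLAT-9 (helper842): measurable choice of the plane.
-/

set_option autoImplicit false
set_option maxSynthPendingDepth 3

open Set Function Filter MeasureTheory Metric Complex
open scoped ContDiff ENNReal Manifold Topology

namespace Crest.Agent.R235.FlatSel_842

open Crest.Agent.R240 Crest.Agent.R240.En Crest.Agent.R240.Pot
open Crest.Agent.R235.CurDefs_132 Crest.Agent.R235.Flat

noncomputable section

/-- the unit vector of the first non-zero vector of a list. -/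
def nz : List E4 → E4
  | [] => ee 0
  | v :: l => open Classical in if v = 0 then nz l else ‖v‖⁻¹ • v

theorem norm_nz (l : List E4) : ‖nz l‖ = 1 := by
  induction l with
  | nil => simp [nz, ee]
  | cons v l ih =>
    simp only [nz]
    split_ifs with h
    · exact ih
    · rw [norm_smul, norm_inv, norm_norm, inv_mul_cancel₀ (norm_ne_zero_iff.2 h)]

theorem nz_mem {p : E4 → Prop} (hp : ∀ (r : ℝ) v, p v → p (r • v)) (l : List E4)
    (hl : ∀ v ∈ l, p v) (hne : ∃ v ∈ l, v ≠ 0) : p (nz l) := by
  induction l with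
  | nil => simp at hne
  | cons v l ih =>
    simp only [nz]
    split_ifs with h
    · refine ih (fun w hw => hl w (List.mem_cons_of_mem _ hw)) ?_
      obtain ⟨w, hw, hw0⟩ := hne
      rcases List.mem_cons.1 hw with rfl | hw
      · exact absurd h hw0
      · exact ⟨w, hw, hw0⟩
    · exact hp _ _ (hl v List.mem_cons_self)

theorem measurable_nz4 {v0 v1 v2 v3 : E4 → E4} (h0 : Measurable v0) (h1 : Measurable v1)
    (h2 : Measurable v2) (h3 : Measurable v3) :
    Measurable (fun x => nz [v0 x, v1 x, v2 x, v3 x]) := by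
  simp only [nz]
  refine Measurable.ite (h0 (measurableSet_singleton 0)) ?_ (h0.norm.inv.smul h0)
  refine Measurable.ite (h1 (measurableSet_singleton 0)) ?_ (h1.norm.inv.smul h1)
  refine Measurable.ite (h2 (measurableSet_singleton 0)) ?_ (h2.norm.inv.smul h2)
  exact Measurable.ite (h3 (measurableSet_singleton 0)) measurable_const (h3.norm.inv.smul h3)

theorem measurable_ent {φ : E4 → Bil} (h : Measurable φ) (i j : Fin 4) :
    Measurable (fun x => ent (φ x) i j) := by
  have hc : Continuous (fun b : Bil => b (ee i) (ee j)) := by fun_prop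
  exact hc.measurable.comp h

theorem measurable_wv (D : LC) (θ : Cov) : Measurable (fun x => wv (D.F x) (D.φ x) θ) := by
  have hF : Measurable D.F := D.smF.continuous.measurable
  have hφ := D.meas
  unfold wv
  refine Finset.measurable_sum _ fun i _ => ?_
  refine Measurable.smul_const ?_ _
  unfold q
  refine Measurable.div ?_ ?_
  · unfold W
    have := fun i j => measurable_ent hφ i j
    fun_prop
  · unfold W
    have := fun i j => measurable_ent hF i j
    fun_prop

/-- the vectors `v_j`. -/
theorem wv_ker (hL : LINK) (D : LC) (x : E4) {Z : E4} (hZ : IsKer (D.J x) (D.φ x) Z) (j : Fin 4) :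
    wv (D.F x) (D.φ x) (pr j) = (D.F x Z (D.J x Z))⁻¹ • ((D.J x Z) j • Z - Z j • D.J x Z) := by
  have h1 := (hL (D.J x) (D.F x) D.m D.M (D.bd x) (D.φ x) (D.pos x) (D.nrm x) Z hZ).1
  unfold wv
  ext k
  simp only [h1 _ (wed_alt _ _), wed_apply, pr_apply]
  fin_cases k <;> simp [Fin.sum_univ_four] <;> ring

theorem ker_span {D : LC} {x Z : E4} (hZ : IsKer (D.J x) (D.φ x) Z) (a b : ℝ) :
    D.φ x (a • Z + b • D.J x Z) (D.J x (a • Z + b • D.J x Z)) = 0 := by
  have h1 := hZ.ker
  have hs := (D.bd x).sq
  have hp := D.pos x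
  have h2 : D.φ x (D.J x Z) Z = 0 := by rw [hp.alt.swap, h1, neg_zero]
  simp only [map_add, map_smul, add_apply, smul_apply, hs, map_neg, smul_eq_mul, h1, h2,
    hp.alt Z, hp.alt (D.J x Z)]
  ring

theorem selx0 (hL : LINK) : SELX := by
  intro D
  refine ⟨fun x => nz [wv (D.F x) (D.φ x) (pr 0), wv (D.F x) (D.φ x) (pr 1),
    wv (D.F x) (D.φ x) (pr 2), wv (D.F x) (D.φ x) (pr 3)],
    measurable_nz4 (measurable_wv D _) (measurable_wv D _) (measurable_wv D _) (measurable_wv D _),
    fun x => norm_nz _, fun x ⟨Z, hZ⟩ => ⟨norm_nz _, ?_⟩⟩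
  have hw := wv_ker hL D x hZ
  have hc : 0 < D.F x Z (D.J x Z) := (D.bd x).spos.pos Z (by
    intro h; have := hZ.one; rw [h, norm_zero] at this; norm_num at this)
  -- the property: multiples of combinations of `Z`, `J Z`
  have key := nz_mem (p := fun v => ∃ a b : ℝ, v = a • Z + b • D.J x Z)
    (fun r v ⟨a, b, hv⟩ => ⟨r * a, r * b, by rw [hv, smul_add, smul_smul, smul_smul]⟩)
    [wv (D.F x) (D.φ x) (pr 0), wv (D.F x) (D.φ x) (pr 1),
    wv (D.F x) (D.φ x) (pr 2), wv (D.F x) (D.φ x) (pr 3)] (by
      have : ∀ j, ∃ a b : ℝ, wv (D.F x) (D.φ x) (pr j) = a • Z + b • D.J x Z := fun j =>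
        ⟨(D.F x Z (D.J x Z))⁻¹ * (D.J x Z) j, - ((D.F x Z (D.J x Z))⁻¹ * Z j), by
          rw [hw j, smul_sub, smul_smul, smul_smul, neg_smul, sub_eq_add_neg]⟩
      intro v hv
      simp only [List.mem_cons, List.not_mem_nil, or_false] at hv
      rcases hv with rfl | rfl | rfl | rfl
      · exact this 0
      · exact this 1
      · exact this 2
      · exact this 3) (by
      by_contra hcon
      push Not at hcon
      have h0 : ∀ j : Fin 4, wv (D.F x) (D.φ x) (pr j) = 0 := by
        intro j
        fin_cases j <;> exact hcon _ (by simp)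
      have h1 : ∀ j : Fin 4, (D.J x Z) j • Z = Z j • D.J x Z := by
        intro j
        have := h0 j
        rw [hw j, smul_eq_zero] at this
        rcases this with h | h
        · exact absurd h (inv_ne_zero hc.ne')
        · exact sub_eq_zero.1 h
      obtain ⟨j, hj⟩ : ∃ j, Z j ≠ 0 := by
        by_contra h; push Not at h
        have : Z = 0 := by ext j; simpa using h j
        have h' := hZ.one
        rw [this, norm_zero] at h'; norm_num at h'
      have h2 : D.J x Z = ((D.J x Z) j / Z j) • Z := by
        rw [div_eq_inv_mul, ← smul_smul, h1 j, smul_smul, inv_mul_cancel₀ hj, one_smul]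
      set t := (D.J x Z) j / Z j with ht
      have h3 : D.J x (D.J x Z) = (t * t) • Z := by
        rw [h2, map_smul, h2, smul_smul]
      rw [(D.bd x).sq] at h3
      have h4 := congrArg (fun v : E4 => v j) h3
      simp only [PiLp.neg_apply, PiLp.smul_apply, smul_eq_mul] at h4
      have h5 : (t * t + 1) * Z j = 0 := by linarith
      rcases mul_eq_zero.1 h5 with h | h
      · nlinarith [mul_self_nonneg t]
      · exact hj h)
  obtain ⟨a, b, hab⟩ := key
  show D.φ x (nz _) (D.J x (nz _)) = 0
  rw [hab]
  exact ker_span hZ a b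

theorem selx (hL : LINK) (_ : LIN4) : SELX := selx0 hL

end

end Crest.Agent.R235.FlatSel_842
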