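import Crest.Agent.R235.FlatDef_607
import Crest.Agent.R240.Loc5A
import Crest.Agent.R240.Lin5

/-!
Row 235 (S0364), block FLATW, FLAT-5 (helper82): at a Lebesgue point the derivatives along the
kernel of `φ_x` tend to zero.
-/

set_option autoImplicit false
set_option maxSynthPendingDepth 3

open Set Function Filter MeasureTheory Metric Complex
open scoped ContDiff ENNReal Manifold Topology

namespace Crest.Agent.R235.FlatTrans_82

open Crest.Agent.R240 Crest.Agent.R240.En Crest.Agent.R240.Pot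
open Crest.Agent.R235.CurDefs_132 Crest.Agent.R235.Flat

noncomputable section

theorem norm_phi (D : LC) (y : E4) : ‖D.φ y‖ ≤ 2 * D.M := by
  have h := (D.bd y).norm_le_q (D.pos y)
  rw [D.nrm y, mul_one] at h
  exact h

theorem norm_pr (i : Fin 4) : ‖pr i‖ ≤ 1 :=
  ContinuousLinearMap.opNorm_le_bound _ zero_le_one fun v => by
    rw [pr_apply, one_mul]; exact PiLp.norm_apply_le v i

theorem norm_wed_pr (i j : Fin 4) : ‖wed (pr i) (pr j)‖ ≤ 2 := by
  refine (norm_wed_le _ _).trans ?_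
  have h1 := norm_pr i
  have h2 := norm_pr j
  calc 2 * ‖pr i‖ * ‖pr j‖ ≤ 2 * 1 * 1 := by gcongr
    _ = 2 := by norm_num

/-- lower bound of `|W F F|`. -/
theorem W_inv_le {J : E4 →L[ℝ] E4} {F : Bil} {m M : ℝ} (h : Bd J F m M) :
    |(W F F)⁻¹| ≤ 12 / m ^ 2 := by
  have h1 := h.abs_q_le (wed_alt (pr 0) (pr 1)) (wed_alt (pr 2) (pr 3))
  have e : q F (wed (pr 0) (pr 1)) (wed (pr 2) (pr 3)) = (W F F)⁻¹ := by
    have : W (wed (pr 0) (pr 1)) (wed (pr 2) (pr 3)) = 1 := by
      unfold W ent; simp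
    unfold q
    rw [this, one_div]
  rw [e] at h1
  have h2 := norm_wed_pr 0 1
  have h3 := norm_wed_pr 2 3
  have hm := h.m_pos
  calc |(W F F)⁻¹| ≤ 3 / m ^ 2 * (‖wed (pr 0) (pr 1)‖ * ‖wed (pr 2) (pr 3)‖) := h1
    _ ≤ 3 / m ^ 2 * (2 * 2) := by gcongr
    _ = 12 / m ^ 2 := by ring

theorem F_lip (D : LC) (x y : E4) : ‖D.F y - D.F x‖ ≤ D.L * ‖y - x‖ :=
  Convex.norm_image_sub_le_of_norm_fderiv_le (s := univ)
    (fun z _ => (D.smF.differentiable (by simp)).differentiableAt) (fun z _ => D.bF1 z)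
    convex_univ (mem_univ _) (mem_univ _)

theorem q_diff (D : LC) : ∃ C : ℝ, 0 ≤ C ∧ ∀ (x y : E4) (b : Bil),
    |q (D.F y) (D.φ y) b - q (D.F x) (D.φ x) b| ≤ C * ‖b‖ * (‖D.φ y - D.φ x‖ + ‖y - x‖) := by
  have hm := (D.bd 0).m_pos
  have hM := (D.bd 0).M_pos
  have hL : 0 ≤ D.L := by have := D.L_ge; linarith
  set K : ℝ := 12 / D.m ^ 2 with hK
  have hK0 : 0 ≤ K := by positivity
  refine ⟨6 * K + 144 * D.M * K ^ 2 * D.L ^ 2, by positivity, fun x y b => ?_⟩
  have ha := W_inv_le (D.bd y)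
  have ha' := W_inv_le (D.bd x)
  have hy := (D.bd y).W_ne
  have hx := (D.bd x).W_ne
  have e1 : (W (D.F y) (D.F y))⁻¹ - (W (D.F x) (D.F x))⁻¹ =
      (W (D.F y) (D.F y))⁻¹ * (W (D.F x) (D.F x))⁻¹ *
        (W (D.F x - D.F y) (D.F x) + W (D.F y) (D.F x - D.F y)) := by
    rw [W_sub_left, W_sub_right, W_comm (D.F y) (D.F x)]
    field_simp
    ring
  have e2 : q (D.F y) (D.φ y) b - q (D.F x) (D.φ x) b =
      W (D.φ y - D.φ x) b * (W (D.F y) (D.F y))⁻¹ +
        W (D.φ x) b * ((W (D.F y) (D.F y))⁻¹ - (W (D.F x) (D.F x))⁻¹) := by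
    unfold q
    rw [W_sub_left]
    ring
  have h1 := Loc5.abs_W_le (D.φ y - D.φ x) b
  have h2 := Loc5.abs_W_le (D.φ x) b
  have h3 := Loc5.abs_W_le (D.F x - D.F y) (D.F x)
  have h4 := Loc5.abs_W_le (D.F y) (D.F x - D.F y)
  have h5 := F_lip D y x
  rw [norm_sub_rev x y] at h5
  have h6 := D.bF x
  have h7 := D.bF y
  have h8 := norm_phi D x
  have e3 : |W (D.F x - D.F y) (D.F x) + W (D.F y) (D.F x - D.F y)| ≤
      12 * D.L ^ 2 * ‖y - x‖ := by
    refine (abs_add_le _ _).trans ?_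
    have k1 : 6 * (‖D.F x - D.F y‖ * ‖D.F x‖) ≤ 6 * ((D.L * ‖y - x‖) * D.L) := by gcongr
    have k2 : 6 * (‖D.F y‖ * ‖D.F x - D.F y‖) ≤ 6 * (D.L * (D.L * ‖y - x‖)) := by gcongr
    nlinarith
  have e4 : |(W (D.F y) (D.F y))⁻¹ - (W (D.F x) (D.F x))⁻¹| ≤ K * K * (12 * D.L ^ 2 * ‖y - x‖) := by
    rw [e1, abs_mul, abs_mul]
    gcongr
  rw [e2]
  refine (abs_add_le _ _).trans ?_
  rw [abs_mul, abs_mul]
  have k1 : |W (D.φ y - D.φ x) b| * |(W (D.F y) (D.F y))⁻¹| ≤
      (6 * (‖D.φ y - D.φ x‖ * ‖b‖)) * K := by gcongr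
  have k2 : |W (D.φ x) b| * |(W (D.F y) (D.F y))⁻¹ - (W (D.F x) (D.F x))⁻¹| ≤
      (6 * (2 * D.M * ‖b‖)) * (K * K * (12 * D.L ^ 2 * ‖y - x‖)) := by
    refine mul_le_mul (h2.trans ?_) e4 (abs_nonneg _) (by positivity)
    gcongr
  have n1 : 0 ≤ K * ‖b‖ * ‖y - x‖ := by positivity
  have n2 : 0 ≤ D.M * K ^ 2 * D.L ^ 2 * ‖b‖ * ‖D.φ y - D.φ x‖ := by positivity
  nlinarith

/-! ### the test form -/

theorem d1_scaled {f : E4 → ℝ} (hf : ContDiff ℝ ∞ f) (α : Cov) (x : E4) (r : ℝ) (y : E4) :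
    d1 (fun y => f (r⁻¹ • (y - x)) • α) y = r⁻¹ • wed (fderiv ℝ f (r⁻¹ • (y - x))) α := by
  have hg : HasFDerivAt (fun y : E4 => r⁻¹ • (y - x)) (r⁻¹ • ContinuousLinearMap.id ℝ E4) y :=
    ((hasFDerivAt_id y).sub_const x).const_smul r⁻¹
  have hf' : HasFDerivAt f (fderiv ℝ f (r⁻¹ • (y - x))) (r⁻¹ • (y - x)) :=
    ((hf.differentiable (by simp)) _).hasFDerivAt
  have hS := (hf'.comp y hg).smul_const α
  have e : fderiv ℝ (fun y => f (r⁻¹ • (y - x)) • α) y = _ := hS.fderiv
  ext u v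
  rw [d1_apply, e]
  simp only [ContinuousLinearMap.smulRight_apply, ContinuousLinearMap.comp_apply,
    _root_.smul_apply, ContinuousLinearMap.id_apply, map_smul, smul_eq_mul, wed_apply]
  ring

theorem trans (hL : LINK) (_h4 : LIN4) : TRANS := by
  intro D x hx hLeb X hX f hf hc ζ
  have := D.fin
  obtain ⟨h1, P, -, -, hP, -, -⟩ := hL (D.J x) (D.F x) D.m D.M (D.bd x) (D.φ x) (D.pos x)
    (D.nrm x) X hX
  -- the covector
  set α : Cov := ζ.re • (Complex.imCLM.comp P) - ζ.im • (Complex.reCLM.comp P) with hα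
  have hPX : P X = 1 := by
    have := hP 1
    simpa [pt] using this
  have hPJ : P (D.J x X) = Complex.I := by
    have := hP Complex.I
    simpa [pt] using this
  have hαX : α X = - ζ.im := by simp [hα, hPX]
  have hαJ : α (D.J x X) = ζ.re := by simp [hα, hPJ]
  have hFpos : 0 < D.F x X (D.J x X) := by
    have := (D.bd x).lo X
    rw [hX.one] at this
    have hm := (D.bd x).m_pos
    linarith
  have key : ∀ ξ : Cov, ξ (pt (D.J x) X ζ) = D.F x X (D.J x X) * q (D.F x) (D.φ x) (wed ξ α) := by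
    intro ξ
    rw [h1 _ (wed_alt ξ α), wed_apply, hαX, hαJ, mul_div_cancel₀ _ hFpos.ne']
    simp only [pt, map_add, map_smul, smul_eq_mul]
    ring
  -- support and bound
  obtain ⟨A, hA, hsupp⟩ : ∃ A : ℝ, 0 < A ∧ tsupport f ⊆ closedBall 0 A := by
    obtain ⟨A, hA⟩ := (hc.isCompact.isBounded).subset_closedBall (0 : E4)
    exact ⟨max A 1, by positivity, hA.trans (closedBall_subset_closedBall (le_max_left _ _))⟩
  have hf1 : Continuous (fderiv ℝ f) := hf.continuous_fderiv (by simp)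
  obtain ⟨B, hB0, hB⟩ : ∃ B : ℝ, 0 ≤ B ∧ ∀ z, ‖fderiv ℝ f z‖ ≤ B := by
    obtain ⟨B, hB⟩ := hf1.bounded_above_of_compact_support (hc.fderiv (𝕜 := ℝ))
    exact ⟨B, (norm_nonneg _).trans (hB 0), hB⟩
  obtain ⟨C, hC0, hC⟩ := q_diff D
  set b : ℝ → E4 → Bil := fun r y => wed (fderiv ℝ f (r⁻¹ • (y - x))) α with hb
  have hb_le : ∀ r y, ‖b r y‖ ≤ 2 * B * ‖α‖ := by
    intro r y
    refine (norm_wed_le _ _).trans ?_
    have := hB (r⁻¹ • (y - x))
    gcongr
  have hb_zero : ∀ r, 0 < r → ∀ y, y ∉ closedBall x (A * r) → b r y = 0 := by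
    intro r hr y hy
    have h0 : fderiv ℝ f (r⁻¹ • (y - x)) = 0 := by
      by_contra hne
      have h2 : r⁻¹ • (y - x) ∈ tsupport f := by
        have h3 : r⁻¹ • (y - x) ∈ tsupport (fderiv ℝ f) := subset_tsupport _ hne
        exact tsupport_fderiv_subset ℝ h3
      have h4 := hsupp h2
      rw [mem_closedBall_zero_iff, norm_smul, norm_inv, Real.norm_of_nonneg hr.le,
        inv_mul_le_iff₀ hr] at h4
      exact hy (by rw [mem_closedBall, dist_eq_norm]; linarith)
    simp only [hb, h0]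
    ext u v
    simp
  have hwcont : ∀ r, Continuous (b r) := by
    intro r
    have h2 : Continuous fun y : E4 => fderiv ℝ f (r⁻¹ • (y - x)) :=
      hf1.comp (by fun_prop)
    simp only [hb]
    unfold wed
    exact ((ContinuousLinearMap.smulRightL ℝ E4 Cov).continuous₂.comp
      (h2.prodMk continuous_const)).sub
        ((ContinuousLinearMap.smulRightL ℝ E4 Cov).continuous₂.comp (continuous_const.prodMk h2))
  have hmq : ∀ r, Measurable fun y => q (D.F y) (D.φ y) (b r y) := by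
    intro r
    unfold q
    exact (Loc5.measurable_W D.meas (hwcont r).measurable).div
      (Loc5.measurable_W D.smF.continuous.measurable D.smF.continuous.measurable)
  have hmq' : ∀ r, Measurable fun y => q (D.F x) (D.φ x) (b r y) := by
    intro r
    unfold q
    exact (Loc5.measurable_W measurable_const (hwcont r).measurable).div_const _
  have hm := (D.bd 0).m_pos
  have hM := (D.bd 0).M_pos
  have hqb : ∀ r y z, ‖q (D.F z) (D.φ z) (b r y)‖ ≤ 3 / D.m ^ 2 * (2 * D.M * (2 * B * ‖α‖)) := by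
    intro r y z
    rw [Real.norm_eq_abs]
    refine ((D.bd z).abs_q_le (D.pos z).alt (wed_alt _ _)).trans ?_
    have h2 := norm_phi D z
    have h3 := hb_le r y
    gcongr
  have hi1 : ∀ r, Integrable (fun y => q (D.F y) (D.φ y) (b r y)) D.s := fun r =>
    Integrable.of_bound (hmq r).aestronglyMeasurable _ (ae_of_all _ fun y => hqb r y y)
  have hi2 : ∀ r, Integrable (fun y => q (D.F x) (D.φ x) (b r y)) D.s := fun r =>
    Integrable.of_bound (hmq' r).aestronglyMeasurable _ (ae_of_all _ fun y => hqb r y x)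
  have hiφ : Integrable (fun y => ‖D.φ y - D.φ x‖) D.s := by
    refine Integrable.of_bound (D.meas.sub_const _).norm.aestronglyMeasurable
      (2 * D.M + 2 * D.M) (ae_of_all _ fun y => ?_)
    rw [norm_norm]
    exact (norm_sub_le _ _).trans (add_le_add (norm_phi D y) (norm_phi D x))
  -- closedness
  have hx4 : dist x D.x0 < 2 * D.R := hx
  have hRpos := D.R_pos
  have hzero : ∀ r, 0 < r → A * r < 2 * D.R → ∫ y, q (D.F y) (D.φ y) (b r y) ∂D.s = 0 := by
    intro r hr hrA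
    have hsub : tsupport (fun y => f (r⁻¹ • (y - x)) • α) ⊆ closedBall x (A * r) := by
      refine closure_minimal ?_ isClosed_closedBall
      intro y hy
      have h2 : f (r⁻¹ • (y - x)) ≠ 0 := by
        intro h0
        exact hy (by simp [h0])
      have h4 := hsupp (subset_tsupport _ h2)
      rw [mem_closedBall_zero_iff, norm_smul, norm_inv, Real.norm_of_nonneg hr.le,
        inv_mul_le_iff₀ hr] at h4
      rw [mem_closedBall, dist_eq_norm]; linarith
    have hS : ContDiff ℝ ∞ (fun y : E4 => f (r⁻¹ • (y - x)) • α) := by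
      have hg : ContDiff ℝ ∞ (fun y : E4 => r⁻¹ • (y - x)) := by fun_prop
      have hfg : ContDiff ℝ ∞ (fun y : E4 => f (r⁻¹ • (y - x))) := hf.comp hg
      exact hfg.smul contDiff_const
    have h2 := D.closed _ hS
      (HasCompactSupport.of_support_subset_isCompact (isCompact_closedBall x (A * r))
        ((subset_tsupport _).trans hsub))
      (hsub.trans fun y hy => by
        rw [mem_closedBall] at hy
        rw [mem_ball]
        have := dist_triangle y x D.x0
        linarith)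
    have h3 : (fun y => q (D.F y) (D.φ y) (d1 (fun y => f (r⁻¹ • (y - x)) • α) y)) =
        fun y => r⁻¹ * q (D.F y) (D.φ y) (b r y) := by
      funext y
      rw [d1_scaled hf, q_smul_right]
    rw [h3, integral_const_mul] at h2
    exact (mul_eq_zero.1 h2).resolve_left (inv_ne_zero hr.ne')
  -- the estimate
  set E : ℝ := C * (2 * B * ‖α‖) with hE
  have hE0 : 0 ≤ E := by positivity
  have hest : ∀ r, 0 < r → A * r < 2 * D.R → |∫ y, q (D.F x) (D.φ x) (b r y) ∂D.s| ≤
      E * (∫ y in closedBall x (A * r), ‖D.φ y - D.φ x‖ ∂D.s) +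
        E * (A * r) * (D.C * (2 * (A * r)) ^ 2) := by
    intro r hr hrA
    have hAr : 0 < A * r := mul_pos hA hr
    have h2 : ∫ y, q (D.F x) (D.φ x) (b r y) ∂D.s =
        ∫ y, (q (D.F x) (D.φ x) (b r y) - q (D.F y) (D.φ y) (b r y)) ∂D.s := by
      rw [integral_sub (hi2 r) (hi1 r), hzero r hr hrA, sub_zero]
    have h3 : ∫ y, (q (D.F x) (D.φ x) (b r y) - q (D.F y) (D.φ y) (b r y)) ∂D.s =
        ∫ y in closedBall x (A * r),
          (q (D.F x) (D.φ x) (b r y) - q (D.F y) (D.φ y) (b r y)) ∂D.s := by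
      symm
      apply setIntegral_eq_integral_of_forall_compl_eq_zero
      intro y hy
      rw [hb_zero r hr y hy]
      simp [q, W, ent_zero]
    rw [h2, h3, ← Real.norm_eq_abs]
    refine (norm_integral_le_integral_norm _).trans ?_
    have h4 : ∀ y ∈ closedBall x (A * r),
        ‖q (D.F x) (D.φ x) (b r y) - q (D.F y) (D.φ y) (b r y)‖ ≤
          E * ‖D.φ y - D.φ x‖ + E * (A * r) := by
      intro y hy
      rw [Real.norm_eq_abs, abs_sub_comm]
      refine (hC x y (b r y)).trans ?_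
      have h5 := hb_le r y
      have h6 : ‖y - x‖ ≤ A * r := by rwa [mem_closedBall, dist_eq_norm] at hy
      calc C * ‖b r y‖ * (‖D.φ y - D.φ x‖ + ‖y - x‖) ≤
          C * (2 * B * ‖α‖) * (‖D.φ y - D.φ x‖ + A * r) := by gcongr
        _ = _ := by rw [← hE]; ring
    have h5 : ∫ y in closedBall x (A * r),
        ‖q (D.F x) (D.φ x) (b r y) - q (D.F y) (D.φ y) (b r y)‖ ∂D.s ≤
        ∫ y in closedBall x (A * r), (E * ‖D.φ y - D.φ x‖ + E * (A * r)) ∂D.s := by
      refine setIntegral_mono_on ((hi2 r).sub (hi1 r)).norm.integrableOn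
        (((hiφ.const_mul E).add (integrable_const _)).integrableOn) measurableSet_closedBall h4
    refine h5.trans ?_
    rw [integral_add (hiφ.const_mul E).integrableOn (integrable_const _), integral_const_mul,
      setIntegral_const, smul_eq_mul]
    have h6 : D.s.real (closedBall x (A * r)) ≤ D.C * (2 * (A * r)) ^ 2 := by
      refine le_trans (measureReal_mono (closedBall_subset_ball (by linarith))) (D.gr x _ ?_)
      positivity
    have h7 : 0 ≤ E * (A * r) := by positivity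
    nlinarith
  -- the limit
  have hlim : Tendsto (fun r : ℝ => (r ^ 2)⁻¹ * ∫ y, q (D.F x) (D.φ x) (b r y) ∂D.s)
      (𝓝[>] 0) (𝓝 0) := by
    have hAr : Tendsto (fun r : ℝ => A * r) (𝓝[>] 0) (𝓝[>] 0) := by
      refine tendsto_nhdsWithin_iff.2 ⟨?_, ?_⟩
      · have : Tendsto (fun r : ℝ => A * r) (𝓝 0) (𝓝 (A * 0)) :=
          (continuous_const.mul continuous_id).tendsto 0
        rw [mul_zero] at this
        exact this.mono_left nhdsWithin_le_nhds
      · filter_upwards [self_mem_nhdsWithin] with r hr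
        exact mul_pos hA hr
    have hL1 := (hLeb.comp hAr).const_mul (E * A ^ 2)
    have hL2 : Tendsto (fun r : ℝ => E * A * (D.C * (2 * A) ^ 2) * r) (𝓝[>] 0) (𝓝 0) := by
      have : Tendsto (fun r : ℝ => E * A * (D.C * (2 * A) ^ 2) * r) (𝓝 0)
          (𝓝 (E * A * (D.C * (2 * A) ^ 2) * 0)) := (continuous_const.mul continuous_id).tendsto 0
      rw [mul_zero] at this
      exact this.mono_left nhdsWithin_le_nhds
    have hL3 := hL1.add hL2
    rw [mul_zero, add_zero] at hL3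
    refine squeeze_zero_norm' ?_ hL3
    have hsmall : ∀ᶠ r : ℝ in 𝓝[>] 0, A * r < 2 * D.R := by
      have : Tendsto (fun r : ℝ => A * r) (𝓝[>] 0) (𝓝 0) := hAr.mono_right nhdsWithin_le_nhds
      exact this.eventually (gt_mem_nhds (by positivity))
    filter_upwards [self_mem_nhdsWithin, hsmall] with r hr hrA
    have hr' : (0 : ℝ) < r := hr
    rw [norm_mul, Real.norm_of_nonneg (by positivity : (0 : ℝ) ≤ (r ^ 2)⁻¹), Real.norm_eq_abs]
    have h2 := hest r hr' hrA
    calc (r ^ 2)⁻¹ * |∫ y, q (D.F x) (D.φ x) (b r y) ∂D.s| ≤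
        (r ^ 2)⁻¹ * (E * (∫ y in closedBall x (A * r), ‖D.φ y - D.φ x‖ ∂D.s) +
        E * (A * r) * (D.C * (2 * (A * r)) ^ 2)) := by gcongr
      _ = _ := by
        simp only [comp_apply]
        field_simp
  have hfin := hlim.const_mul (D.F x X (D.J x X))
  rw [mul_zero] at hfin
  refine hfin.congr fun r => ?_
  have h2 : (fun y => fderiv ℝ f (r⁻¹ • (y - x)) (pt (D.J x) X ζ)) =
      fun y => D.F x X (D.J x X) * q (D.F x) (D.φ x) (b r y) := by
    funext y
    exact key _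
  rw [h2, integral_const_mul]
  ring

end

end Crest.Agent.R235.FlatTrans_82
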