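import Crest.Agent.R235.SWJ1_133
import Crest.Agent.R235.SwxT_333

/-!
Row 235 (S0364), PACKAGE SW / SWJA (owner helper365), leaf (a) (helper133): gauge covariance of the
nonlinear part of the truncated Seiberg-Witten map.

* `Fq_rot` : `Fq d R t p' = Fq d R t p` if `p' = (c + e i) p` a.e., `c² + e² = 1`;
* `KKt_rot`, `PL_KKt_rot` : `KKt t p' = (c + e J1) KKt t p`;
* `unit_gau`, `Fq_gau`, `PL_KKt_gau` : the same for `p' = g^k p` (`JD.gau`).
-/

set_option autoImplicit false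
set_option maxSynthPendingDepth 3
set_option linter.unusedSectionVars false

open scoped ContDiff ENNReal NNReal Topology Manifold Bundle RealInnerProductSpace
open MeasureTheory Set Filter Metric Bundle

universe v

namespace Crest.Agent.R235.SWJu_133

open Crest.Agent.R249.Tv57 Crest.Agent.R247.Ms322 Crest.Agent.R247.Dir593
open Crest.Agent.R235.SWDefs_53 Crest.Agent.R235.SWSym_451 Crest.Agent.R235.SWJ1_133
open Crest.Agent.R235.Swx_333 Crest.Agent.R235.CptB_755 Crest.Agent.R235.Fred_649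

noncomputable section

local notation "𝔼4" => EuclideanSpace ℝ (Fin 4)

section main

variable {M : Type v} [MetricSpace M] [CompactSpace M] [ConnectedSpace M]
  [ChartedSpace (EuclideanSpace ℝ (Fin 4)) M] [IsManifold (𝓡 4) ∞ M]
  [RiemannianBundle (fun p : M => TangentSpace (𝓡 4) p)]
  [IsContMDiffRiemannianBundle (𝓡 4) ∞ (EuclideanSpace ℝ (Fin 4))
    (fun p : M => TangentSpace (𝓡 4) p)]
  [IsRiemannianManifold (𝓡 4) M] [MeasurableSpace M] [BorelSpace M]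
  [SecondCountableTopology M] [Nonempty M] [IsFiniteMeasureOnCompacts (μHE[4] : Measure M)]
  {κ0 κ1 κT : Type} [Fintype κ0] [Fintype κ1] [Fintype κT]
  {S : SWS M κ0 κ1 κT} {cc : κ1 → κ0 → M → 𝔼4} {J1 : κ1 → κ1 → M → ℝ} {d : SWD M κT}

/-- the truncation commutes with rotations. -/
theorem trc_rot (h : Sym S cc) (R : ℝ) {z : M} {u w : κ0 → M → ℝ} {c e : ℝ}
    (hu : ∀ y, ∑ y', S.D0.p y y' z * u y' z = u y z) (hce : c ^ 2 + e ^ 2 = 1)
    (hw : ∀ y, w y z = c * u y z + e * S.iu u y z) (y : κ0) :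
    trc R w y z = c * trc R u y z + e * S.iu (trc R u) y z := by
  have h1 := norm_rot h hu hce hw
  have h2 : S.iu (trc R u) y z = min 1 (R / √(∑ y', u y' z ^ 2)) * S.iu u y z := by
    unfold SWS.iu trc
    rw [Finset.mul_sum]
    exact Finset.sum_congr rfl fun y' _ => by ring
  rw [h2]
  unfold trc
  rw [h1, hw y]
  ring

theorem sec_trc (R : ℝ) {z : M} {u : κ0 → M → ℝ}
    (hu : ∀ y, ∑ y', S.D0.p y y' z * u y' z = u y z) (y : κ0) :
    ∑ y', S.D0.p y y' z * trc R u y' z = trc R u y z := by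
  unfold trc
  conv_rhs => rw [← hu y, Finset.mul_sum]
  exact Finset.sum_congr rfl fun y' _ => by ring

/-- the right hand side of the curvature equation is gauge invariant. -/
theorem rhs_rot (h : Sym S cc) (d : SWD M κT) (R : ℝ) (t : E3) {z : M} {u w : κ0 → M → ℝ} {c e : ℝ}
    (hu : ∀ y, ∑ y', S.D0.p y y' z * u y' z = u y z) (hce : c ^ 2 + e ^ 2 = 1)
    (hw : ∀ y, w y z = c * u y z + e * S.iu u y z) (l : Fin 4) :
    rhs S d t (trc R w) l z = rhs S d t (trc R u) l z := by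
  refine Fin.cases rfl (fun k => ?_) l
  show d.mu t z * ((1 / 2) * S.rq k (trc R w) z) + d.r * d.wt t k z + d.et t k z =
    d.mu t z * ((1 / 2) * S.rq k (trc R u) z) + d.r * d.wt t k z + d.et t k z
  rw [rq_rot h k hce (trc_rot h R hu hce hw)]

/-- **gauge invariance of the curvature term.** -/
theorem Fq_rot (hS : S.OK) (hd : d.Adm S) (h : Sym S cc) {R : ℝ} (hR : 0 < R) {t : E3}
    (ht : ‖t‖ ≤ 1) {p p' : S.D0.toAD.WE} {c e : M → ℝ} (hce : ∀ z, c z ^ 2 + e z ^ 2 = 1)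
    (hp : ∀ᵐ z ∂(μHE[4] : Measure M), ∀ y, rp p' y z = c z * rp p y z + e z * S.iu (rp p) y z) :
    Fq d R t p' = Fq d R t p := by
  ext l
  filter_upwards [coe_Fq hS hd hR (show t ∈ BB from ht) p, coe_Fq hS hd hR (show t ∈ BB from ht) p',
    hp, sec_rp p] with z e1 e2 e3 e4
  rw [e1 l, e2 l]
  exact rhs_rot h d R t e4 (hce z) e3 l

/-- `cm` is linear in the spinor, at a point. -/
theorem cm_lin (a : κT → M → ℝ) {u v w : κ0 → M → ℝ} {z : M} {c e : ℝ}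
    (hw : ∀ y, w y z = c * u y z + e * v y z) (x : κ1) :
    S.cm a w x z = c * S.cm a u x z + e * S.cm a v x z := by
  unfold SWS.cm
  simp only [hw, Finset.mul_sum]
  rw [← Finset.sum_add_distrib]
  refine Finset.sum_congr rfl fun A _ => ?_
  rw [← Finset.sum_add_distrib]
  exact Finset.sum_congr rfl fun y _ => by ring

/-- **gauge covariance of the compact part.** -/
theorem KKt_rot (hS : S.OK) (hd : d.Adm S) (h : Sym S cc) (hJ : CJ1 S cc J1) (s0 : Spec S.DL)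
    {R : ℝ} (hR : 0 < R) {t : E3} (ht : ‖t‖ ≤ 1) {p p' : S.D0.toAD.WE} {c e : M → ℝ}
    (hce : ∀ z, c z ^ 2 + e z ^ 2 = 1)
    (hp : ∀ᵐ z ∂(μHE[4] : Measure M), ∀ y, rp p' y z = c z * rp p y z + e z * S.iu (rp p) y z) :
    ∀ᵐ z ∂(μHE[4] : Measure M), ∀ x, (KKt hS hd s0 R t p' x : M → ℝ) z =
      c z * (KKt hS hd s0 R t p x : M → ℝ) z +
        e z * ∑ x', J1 x x' z * (KKt hS hd s0 R t p x' : M → ℝ) z := by
  have h4 := Crest.Agent.R235.Sob4_984.emb4_Dat S.D0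
  have hT4 := Crest.Agent.R235.Sob4_984.emb4_Dat S.DT
  filter_upwards [coe_KKt hS hd s0 h4 hT4 R t p, coe_KKt hS hd s0 h4 hT4 R t p', hp] with z e1 e2 e3 x
  rw [e2 x, Fq_rot hS hd h hR ht hce hp, cm_lin _ e3 x, cm_iu h hJ, e1 x]
  congr 2
  exact Finset.sum_congr rfl fun x' _ => by rw [e1 x']

/-- the same after the projection: `V` is any element with the right coordinates. -/
theorem PL_KKt_rot (hS : S.OK) (hd : d.Adm S) (h : Sym S cc) (hJ : CJ1 S cc J1) (s0 : Spec S.DL)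
    {R : ℝ} (hR : 0 < R) {t : E3} (ht : ‖t‖ ≤ 1) {p p' : S.D0.toAD.WE} {c e : M → ℝ}
    (hce : ∀ z, c z ^ 2 + e z ^ 2 = 1)
    (hp : ∀ᵐ z ∂(μHE[4] : Measure M), ∀ y, rp p' y z = c z * rp p y z + e z * S.iu (rp p) y z)
    {f : S.D1.toAD.HE} (hf : ∀ᵐ z ∂(μHE[4] : Measure M), ∀ x,
      ((f : HH (μHE[4] : Measure M) κ1) x : M → ℝ) z =
        c z * (((Swx_333.PL S.D1 (KKt hS hd s0 R t p) : S.D1.toAD.HE) :
          HH (μHE[4] : Measure M) κ1) x : M → ℝ) z +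
        e z * ∑ x', J1 x x' z * (((Swx_333.PL S.D1 (KKt hS hd s0 R t p) : S.D1.toAD.HE) :
          HH (μHE[4] : Measure M) κ1) x' : M → ℝ) z) :
    Swx_333.PL S.D1 (KKt hS hd s0 R t p') = f := by
  have h4 := Crest.Agent.R235.Sob4_984.emb4_Dat S.D0
  have hT4 := Crest.Agent.R235.Sob4_984.emb4_Dat S.DT
  have h1 : ∀ q : S.D0.toAD.WE, ((Swx_333.PL S.D1 (KKt hS hd s0 R t q) : S.D1.toAD.HE) :
      HH (μHE[4] : Measure M) κ1) = KKt hS hd s0 R t q := fun q => by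
    rw [coe_PL, P_KKt hS hd s0 h4 hT4]
  refine Subtype.ext ?_
  rw [h1 p']
  simp only [h1 p] at hf
  ext x
  filter_upwards [hf, KKt_rot hS hd h hJ s0 hR ht hce hp] with z e1 e2
  rw [e1 x, e2 x]

/-! ### the lattice of gauge transformations -/

/-- the coefficients of `g^k`. -/
def gre {b : ℕ} (j : JD M κT b) (k : Fin b → ℤ) (z : M) : ℝ :=
  (∏ i, ((j.gc i z : ℂ) + (j.gs i z : ℂ) * Complex.I) ^ k i).re

/-- the coefficients of `g^k`. -/
def gim {b : ℕ} (j : JD M κT b) (k : Fin b → ℤ) (z : M) : ℝ :=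
  (∏ i, ((j.gc i z : ℂ) + (j.gs i z : ℂ) * Complex.I) ^ k i).im

theorem gau_eq {b : ℕ} (j : JD M κT b) (k : Fin b → ℤ) (u : κ0 → M → ℝ) (y : κ0) (z : M) :
    j.gau S k u y z = gre j k z * u y z + gim j k z * S.iu u y z := rfl

theorem unit_gau {b : ℕ} {j : JD M κT b} (hj : ∀ i z, j.gc i z ^ 2 + j.gs i z ^ 2 = 1)
    (k : Fin b → ℤ) (z : M) : gre j k z ^ 2 + gim j k z ^ 2 = 1 := by
  have h1 : ∀ i, ‖((j.gc i z : ℂ) + (j.gs i z : ℂ) * Complex.I)‖ = 1 := by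
    intro i
    rw [Complex.norm_add_mul_I, hj, Real.sqrt_one]
  have h2 : ‖∏ i, ((j.gc i z : ℂ) + (j.gs i z : ℂ) * Complex.I) ^ k i‖ = 1 := by
    rw [norm_prod]
    refine Finset.prod_eq_one fun i _ => ?_
    rw [norm_zpow, h1, one_zpow]
  have h3 := Complex.sq_norm (∏ i, ((j.gc i z : ℂ) + (j.gs i z : ℂ) * Complex.I) ^ k i)
  rw [h2, Complex.normSq_apply] at h3
  unfold gre gim
  linarith

/-- **`latA`** -/
theorem Fq_gau {b : ℕ} {j : JD M κT b} (hj : ∀ i z, j.gc i z ^ 2 + j.gs i z ^ 2 = 1)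
    (hS : S.OK) (hd : d.Adm S) (h : Sym S cc) {R : ℝ} (hR : 0 < R) {t : E3} (ht : ‖t‖ ≤ 1)
    (k : Fin b → ℤ) {p p' : S.D0.toAD.WE}
    (hp : ∀ᵐ z ∂(μHE[4] : Measure M), ∀ y, rp p' y z = j.gau S k (rp p) y z) :
    Fq d R t p' = Fq d R t p :=
  Fq_rot hS hd h hR ht (unit_gau hj k) (by filter_upwards [hp] with z e y; rw [e y]; rfl)

/-- **`latP`** -/
theorem PL_KKt_gau {b : ℕ} {j : JD M κT b} (hj : ∀ i z, j.gc i z ^ 2 + j.gs i z ^ 2 = 1)
    (hS : S.OK) (hd : d.Adm S) (h : Sym S cc) (hJ : CJ1 S cc J1) (s0 : Spec S.DL)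
    {R : ℝ} (hR : 0 < R) {t : E3} (ht : ‖t‖ ≤ 1) (k : Fin b → ℤ) {p p' : S.D0.toAD.WE}
    (hp : ∀ᵐ z ∂(μHE[4] : Measure M), ∀ y, rp p' y z = j.gau S k (rp p) y z)
    {f : S.D1.toAD.HE} (hf : ∀ᵐ z ∂(μHE[4] : Measure M), ∀ x,
      ((f : HH (μHE[4] : Measure M) κ1) x : M → ℝ) z =
        gre j k z * (((Swx_333.PL S.D1 (KKt hS hd s0 R t p) : S.D1.toAD.HE) :
          HH (μHE[4] : Measure M) κ1) x : M → ℝ) z +
        gim j k z * ∑ x', J1 x x' z * (((Swx_333.PL S.D1 (KKt hS hd s0 R t p) : S.D1.toAD.HE) :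
          HH (μHE[4] : Measure M) κ1) x' : M → ℝ) z) :
    Swx_333.PL S.D1 (KKt hS hd s0 R t p') = f :=
  PL_KKt_rot hS hd h hJ s0 hR ht (unit_gau hj k)
    (by filter_upwards [hp] with z e y; rw [e y]; rfl) hf

end main

end

end Crest.Agent.R235.SWJu_133
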