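import Crest.Agent.R235.SWFreC_952

/-!
Row 235 (S0364), PACKAGE SW, leaf SW-FRE (helper952), part D: the fields `dA`, `dP`, `ker` of
`JData` (`SwjDef_844`) at a flat Taubes solution, and `solA`.

* `rq_secE`, `rhs_zero` : the curvature term of a flat Taubes solution vanishes;
* `fq_taubes` : `Fq d R t (cW u) = 0`, `u = ρ^{3/4} s`;
* `perp_ker` : from the `bp` pairings to the orthogonality to `ker H.A`;
* `psec_smul`, `fit_of`, `flat_of` : from `HopfD`, `FFit`;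
* `jd_dA`, `jd_dP`, `jd_ker`, `jd_solA`.
-/

set_option autoImplicit false
set_option maxSynthPendingDepth 3
set_option linter.unusedSectionVars false

open scoped ContDiff ENNReal NNReal Topology Manifold Bundle RealInnerProductSpace
open MeasureTheory Set Filter Metric Bundle

universe v

noncomputable section

namespace Crest.Agent.R235.SWFre_952

open Crest.Agent.R249.Tv57 Crest.Agent.R247.Ms322 Crest.Agent.R247.Dir593
open Crest.Agent.R235.SWDefs_53 Crest.Agent.R235.CptB_755 Crest.Agent.R235.Fs4_546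
open Crest.Agent.R235.CptC_755 Crest.Agent.R235.Cpt_755 Crest.Agent.R235.Fred_649
open Crest.Agent.R235.Swx_333 Crest.Agent.R235.L4_433 Crest.Agent.R235.SWSym_451

local notation "ipp" => Crest.Agent.R249.Tv57.ip 4

section main

variable {M : Type v} [MetricSpace M] [CompactSpace M] [ConnectedSpace M]
  [ChartedSpace (EuclideanSpace ℝ (Fin 4)) M] [IsManifold (𝓡 4) ∞ M]
  [RiemannianBundle (fun p : M => TangentSpace (𝓡 4) p)]
  [IsContMDiffRiemannianBundle (𝓡 4) ∞ (EuclideanSpace ℝ (Fin 4))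
    (fun p : M => TangentSpace (𝓡 4) p)]
  [IsRiemannianManifold (𝓡 4) M] [MeasurableSpace M] [BorelSpace M]
  [SecondCountableTopology M] [Nonempty M] [IsFiniteMeasureOnCompacts (μHE[4] : Measure M)]
  {κ0 κ1 κT : Type} [Fintype κ0] [Fintype κ1] [Fintype κT]

/-! ### the curvature term of a flat Taubes solution -/

theorem rq_secE {S : SWS M κ0 κ1 κT} (hS : S.OK) {τ : TD M κT} {C : ℝ} (hτ : τ.OK S C)
    {s : κ0 → M → ℝ} (hs : τ.SecE S s) (k : Fin 3) (z : M) :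
    S.rq k s z = - τ.n k z * ∑ y, s y z ^ 2 := by
  obtain ⟨N, hN⟩ : ∃ N : ℝ, N = ∑ y, s y z ^ 2 := ⟨_, rfl⟩
  rw [← hN]
  have h1 : ∑ k, τ.n k z * S.rq k s z = - N := by
    have h2 : ∑ y, s y z * τ.R S s y z = - N := by
      rw [hN, ← Finset.sum_neg_distrib]
      exact Finset.sum_congr rfl fun y _ => by rw [hs.2 y z]; ring
    rw [← h2]
    unfold TD.R SWS.rq
    simp only [Finset.mul_sum]
    rw [Finset.sum_comm]
    refine Finset.sum_congr rfl fun y _ => Finset.sum_congr rfl fun k _ =>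
      Finset.sum_congr rfl fun y' _ => by ring
  have h2 : ∑ k, S.rq k s z ^ 2 = N ^ 2 := by
    rw [hN]
    exact hS.fierz z (fun y => s y z) (fun y => hs.1 y z)
  have h3 := hτ.norm z
  have h4 : ∑ k, (S.rq k s z + τ.n k z * N) ^ 2 = 0 := by
    have e : ∑ k, (S.rq k s z + τ.n k z * N) ^ 2 =
        ∑ k, S.rq k s z ^ 2 + 2 * N * (∑ k, τ.n k z * S.rq k s z) +
          N ^ 2 * ∑ k, τ.n k z ^ 2 := by
      rw [Finset.mul_sum, Finset.mul_sum, ← Finset.sum_add_distrib, ← Finset.sum_add_distrib]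
      exact Finset.sum_congr rfl fun k _ => by ring
    rw [e, h1, h2, h3]
    ring
  have h5 := (Finset.sum_eq_zero_iff_of_nonneg fun k _ =>
    sq_nonneg (S.rq k s z + τ.n k z * N)).1 h4 k (Finset.mem_univ k)
  have h6 : S.rq k s z + τ.n k z * N = 0 := pow_eq_zero_iff two_ne_zero |>.1 h5
  linarith

theorem rq_sc (S : SWS M κ0 κ1 κT) (τ : TD M κT) (p : ℝ) (s : κ0 → M → ℝ) (k : Fin 3) (z : M) :
    S.rq k (τ.sc p s) z = τ.rr z ^ p * τ.rr z ^ p * S.rq k s z := by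
  unfold SWS.rq TD.sc
  simp only [Finset.mul_sum]
  exact Finset.sum_congr rfl fun y _ => Finset.sum_congr rfl fun y' _ => by ring

/-- **the right hand side of the curvature equation vanishes**. -/
theorem rhs_zero {S : SWS M κ0 κ1 κT} (hS : S.OK) {d : SWD M κT} {τ : TD M κT} {C : ℝ} {t : E3}
    {s : κ0 → M → ℝ} (hτ : τ.OK S C) (hfit : τ.Fit S d t) (hflat : τ.Flat S (d.th t))
    (hps : τ.PSec S (d.th t) d.r s) (l : Fin 4) (z : M) : rhs S d t (τ.sc (3 / 4) s) l z = 0 := by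
  refine Fin.cases ?_ (fun k => ?_) l
  · rfl
  · show d.mu t z * ((1 / 2) * S.rq k (τ.sc (3 / 4) s) z) + d.r * d.wt t k z + d.et t k z = 0
    rw [rq_sc, rq_secE hS hτ hps.sec, hps.nrm z, hfit.mu z, hfit.wt k z, hfit.et k z, hflat k z]
    have hp := hτ.pos z
    have e : τ.rr z ^ (-(1 / 2) : ℝ) * (τ.rr z ^ (3 / 4 : ℝ) * τ.rr z ^ (3 / 4 : ℝ)) = τ.rr z := by
      rw [← Real.rpow_add hp, ← Real.rpow_add hp]
      norm_num
    calc τ.rr z ^ (-(1 / 2) : ℝ) * (1 / 2 * (τ.rr z ^ (3 / 4 : ℝ) * τ.rr z ^ (3 / 4 : ℝ) *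
          (-τ.n k z * (2 * d.r)))) + d.r * (τ.rr z * τ.n k z) + -0 =
        -(τ.rr z ^ (-(1 / 2) : ℝ) * (τ.rr z ^ (3 / 4 : ℝ) * τ.rr z ^ (3 / 4 : ℝ))) *
          (d.r * τ.n k z) + d.r * (τ.rr z * τ.n k z) := by ring
      _ = 0 := by rw [e]; ring

/-- **the curvature term vanishes at a flat Taubes solution**. -/
theorem fq_taubes {S : SWS M κ0 κ1 κT} (hS : S.OK) {d : SWD M κT} (hd : d.Adm S) {τ : TD M κT}
    {C : ℝ} {t : E3} (ht : t ∈ BB) {s : κ0 → M → ℝ} (hτ : τ.OK S C) (hfit : τ.Fit S d t)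
    (hflat : τ.Flat S (d.th t)) (hps : τ.PSec S (d.th t) d.r s) {R : ℝ} (hR : 0 < R)
    (u : SmS S.D0) (hu : u.1 = τ.sc (3 / 4) s) (huR : ∀ z, ∑ y, u.1 y z ^ 2 ≤ R ^ 2) :
    Fq d R t (cW S.D0 u) = 0 := by
  ext l
  have h0 : ((0 : HH (μHE[4] : Measure M) (Fin 4)) l : Lp ℝ 2 (μHE[4] : Measure M)) = 0 := rfl
  rw [h0]
  filter_upwards [coe_Fq hS hd hR ht (cW S.D0 u), rp_cW (D := S.D0) u,
    Lp.coeFn_zero ℝ 2 (μHE[4] : Measure M)] with z e1 e2 e3
  rw [e1 l, e3]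
  have e5 : ∀ y, trc R (rp (cW S.D0 u)) y z = u.1 y z := by
    intro y
    have h1 : trc R (rp (cW S.D0 u)) y z = tv R (fun y => rp (cW S.D0 u) y z) y := rfl
    have h2 : (fun y => rp (cW S.D0 u) y z) = fun y => u.1 y z := funext e2
    rw [h1, h2]
    exact congrFun (tv_eq hR (fun y => u.1 y z) (huR z)) y
  have h3 := rhs_zero hS hτ hfit hflat hps l z
  rw [← hu] at h3
  refine Eq.trans ?_ h3
  refine Fin.cases ?_ (fun k => ?_) l
  · rfl
  · show d.mu t z * ((1 / 2) * S.rq k (trc R (rp (cW S.D0 u))) z) + d.r * d.wt t k z +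
        d.et t k z =
      d.mu t z * ((1 / 2) * S.rq k u.1 z) + d.r * d.wt t k z + d.et t k z
    have h4 : S.rq k (trc R (rp (cW S.D0 u))) z = S.rq k u.1 z := by
      unfold SWS.rq
      simp only [e5]
    rw [h4]

/-! ### the harmonic part -/

/-- **orthogonality to the kernel of `H.A` from `bp` pairings**. -/
theorem perp_ker {S : SWS M κ0 κ1 κT} (s0 : Spec S.DL) {bp : ℕ} (φ : Fin bp → Fin 4 → M → ℝ)
    (hφ : ∀ i, SmV (n := 4) (φ i))
    (hspan : ∀ w : Fin 4 → M → ℝ, SmV (n := 4) w → (∀ x z, S.H.A w x z = 0) →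
      ∃ (c0 : ℝ) (c : Fin bp → ℝ), ∀ l z, w l z = c0 * cst M l z + ∑ i, c i * φ i l z)
    (f : HH (μHE[4] : Measure M) (Fin 4)) (hf0 : ∀ᵐ z ∂(μHE[4] : Measure M), (f 0 : M → ℝ) z = 0)
    (hf : ∀ i, (⟪f, clH (φ i) (hφ i)⟫ : ℝ) = 0) :
    ∀ l ∈ s0.ker, (⟪f, ((cH S.DL (ph s0 l) : S.DL.toAD.HE) :
      HH (μHE[4] : Measure M) (Fin 4))⟫ : ℝ) = 0 := by
  intro l hl
  obtain ⟨c0, c, hc⟩ := hspan (ph s0 l).1 (ph s0 l).2.1 (fun x z => by
    have h6 := congrArg (fun v : SmS S.DT => v.1 x z) (lA_ker S.H s0 (s0.mem_ker.1 hl))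
    exact h6)
  have h1 : (⟪f, clH (cst M) sm_cst⟫ : ℝ) = 0 := by
    rw [inner_HH f (clH (cst M) sm_cst) (Eventually.of_forall fun _ _ => rfl)
      (coe_clH (cst M) sm_cst)]
    rw [← integral_zero M ℝ (μ := (μHE[4] : Measure M))]
    refine integral_congr_ae ?_
    filter_upwards [hf0] with z hz
    simp only [Fin.sum_univ_succ (n := 3)]
    have r1 : ∀ k : Fin 3, (cst M) k.succ z = 0 := fun k => rfl
    simp only [hz, r1, zero_mul, mul_zero, Finset.sum_const_zero, add_zero]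
  have h2 : ((cH S.DL (ph s0 l) : S.DL.toAD.HE) : HH (μHE[4] : Measure M) (Fin 4)) =
      c0 • clH (cst M) sm_cst + ∑ i, c i • clH (φ i) (hφ i) := by
    ext a
    have e0 : (c0 • clH (cst M) sm_cst + ∑ i, c i • clH (φ i) (hφ i) :
        HH (μHE[4] : Measure M) (Fin 4)) a =
        c0 • (clH (cst M) sm_cst a) + ∑ i, c i • (clH (φ i) (hφ i) a) := by
      show (c0 • clH (cst M) sm_cst) a + (∑ i, c i • clH (φ i) (hφ i)) a = _
      rw [WithLp.ofLp_sum, Finset.sum_apply]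
      rfl
    rw [e0]
    have e1 : ∀ᵐ z ∂(μHE[4] : Measure M), ∀ i,
        ((c i • (clH (φ i) (hφ i) a) : Lp ℝ 2 (μHE[4] : Measure M)) : M → ℝ) z =
          c i * φ i a z := by
      rw [ae_all_iff]
      intro i
      filter_upwards [Lp.coeFn_smul (c i) (clH (φ i) (hφ i) a), coe_clH (φ i) (hφ i)]
        with z f1 f2
      rw [f1, Pi.smul_apply, smul_eq_mul, f2 a]
    filter_upwards [coe_clH (ph s0 l).1 (ph s0 l).2.1, e1,
      Lp.coeFn_add (c0 • (clH (cst M) sm_cst a)) (∑ i, c i • (clH (φ i) (hφ i) a)),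
      Lp.coeFn_smul c0 (clH (cst M) sm_cst a), coe_clH (cst M) sm_cst,
      Lp.coeFn_fun_finsetSum Finset.univ (fun i => c i • (clH (φ i) (hφ i) a))]
      with z f1 f2 f3 f4 f5 f6
    have g1 : (((cH S.DL (ph s0 l) : S.DL.toAD.HE) : HH (μHE[4] : Measure M) (Fin 4)) a :
        M → ℝ) z = (ph s0 l).1 a z := f1 a
    rw [g1, f3, Pi.add_apply, f4, Pi.smul_apply, smul_eq_mul, f5 a, f6, hc a z]
    simp only [f2]
  rw [h2, inner_add_right, inner_sum, real_inner_smul_right, h1, mul_zero, zero_add]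
  exact Finset.sum_eq_zero fun i _ => by rw [real_inner_smul_right, hf i, mul_zero]

/-! ### from `HopfD`, `FFit` -/

theorem secE_smul {S : SWS M κ0 κ1 κT} {τ : TD M κT} {s : κ0 → M → ℝ} (hs : τ.SecE S s) (c : ℝ) :
    τ.SecE S (fun y z => c * s y z) := by
  refine ⟨fun y z => ?_, fun y z => ?_⟩
  · have h := hs.1 y z
    show ∑ b, S.D0.p y b z * (c * s b z) = c * s y z
    rw [← h, Finset.mul_sum]
    exact Finset.sum_congr rfl fun y' _ => by ring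
  · have h := hs.2 y z
    unfold TD.R at h ⊢
    have e : ∑ k, ∑ y', τ.n k z * S.rho k y y' z * (c * s y' z) =
        c * ∑ k, ∑ y', τ.n k z * S.rho k y y' z * s y' z := by
      simp only [Finset.mul_sum]
      exact Finset.sum_congr rfl fun k _ => Finset.sum_congr rfl fun y' _ => by ring
    rw [e, h]
    ring

theorem cv_smul {κ : Type} [Fintype κ] (D : Dat 4 M κ) {u : κ → M → ℝ} (hu : SmV (n := 4) u)
    (c : ℝ) (y : κ) (z : M) : D.cv (fun y z => c * u y z) y z = c • D.cv u y z := by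
  unfold Dat.cv
  have h1 : Gr (n := 4) (fun z => c * u y z) z = c • Gr (n := 4) (u y) z :=
    Gr_const_mul c ((hu y z).mdifferentiableAt (by simp))
  rw [h1, smul_add, Finset.smul_sum]
  congr 1
  exact Finset.sum_congr rfl fun b _ => by rw [mul_smul]

theorem nE_smul {S : SWS M κ0 κ1 κT} {τ : TD M κT} (a : κT → M → ℝ) {s : κ0 → M → ℝ}
    (hs : SmV (n := 4) s) (c : ℝ) (y : κ0) (z : M) :
    τ.nE S a (fun y z => c * s y z) y z = c • τ.nE S a s y z := by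
  unfold TD.nE TD.prE SWS.nab
  have h1 : ∀ y', S.D0.cv (fun y z => c * s y z) y' z = c • S.D0.cv s y' z :=
    fun y' => cv_smul S.D0 hs c y' z
  have h2 : ∀ y', ∑ x, S.J y' x z * (c * s x z) = c * ∑ x, S.J y' x z * s x z := by
    intro y'
    rw [Finset.mul_sum]
    exact Finset.sum_congr rfl fun x _ => by ring
  simp only [h1, h2]
  rw [smul_add, mul_smul c (∑ x, S.J y x z * s x z)]
  congr 1
  rw [Finset.smul_sum]
  refine Finset.sum_congr rfl fun y' _ => ?_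
  rw [mul_smul c (∑ x, S.J y' x z * s x z), ← smul_add, smul_comm]

/-- a section of length one gives a section of length `√(2r)`. -/
theorem psec_smul {S : SWS M κ0 κ1 κT} {τ : TD M κT} {th : κT → M → ℝ} {s : κ0 → M → ℝ} {r : ℝ}
    (hr : 0 ≤ r) (h : τ.PSec S th (1 / 2) s) : τ.PSec S th r (fun y z => √(2 * r) * s y z) where
  sm := fun y => contMDiff_const.mul (h.sm y)
  sec := secE_smul h.sec _
  nrm := fun z => by
    have h1 := h.nrm z
    simp only [mul_pow]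
    rw [← Finset.mul_sum, h1, Real.sq_sqrt (by positivity)]
    ring
  par := fun y z => by rw [nE_smul _ h.sm, h.par y z, smul_zero]

theorem fit_of {S : SWS M κ0 κ1 κT} {ww : Fin 3 → Fin 3 → M → ℝ} {τ : E3 → TD M κT} {C : ℝ}
    {th : E3 → κT → M → ℝ} (hF : FFam S ww τ C th) {d : SWD M κT} (hd : d.FFit S ww τ C th)
    {t : E3} (ht : ‖t‖ = 1) : (τ t).Fit S d t where
  mu := hd.mu t ht
  wt := fun k z => by
    rw [hF.nn t k z ht]
    unfold SWD.wt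
    rw [hd.ww]
  et := fun k z => by
    rw [hd.et t ht k z, hd.th t ht, hF.flat t ht k z, neg_zero]
  smth := by rw [hd.th t ht]; exact hF.smth t ht
  secth := by rw [hd.th t ht]; exact hF.secth t ht

theorem flat_of {S : SWS M κ0 κ1 κT} {ww : Fin 3 → Fin 3 → M → ℝ} {τ : E3 → TD M κT} {C : ℝ}
    {th : E3 → κT → M → ℝ} (hF : FFam S ww τ C th) {d : SWD M κT} (hd : d.FFit S ww τ C th)
    {t : E3} (ht : ‖t‖ = 1) : (τ t).Flat S (d.th t) := by
  rw [hd.th t ht]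
  exact hF.flat t ht

/-- the parallel section of length `√(2r)` over `pi s`. -/
theorem psec_of {S : SWS M κ0 κ1 κT} {ww : Fin 3 → Fin 3 → M → ℝ} {τ : E3 → TD M κT} {C : ℝ}
    {th : E3 → κT → M → ℝ} {pi : EuclideanSpace ℂ (Fin 2) → E3}
    {U : EuclideanSpace ℂ (Fin 2) → κ0 → M → ℝ} (hH : HopfD S ww τ C th pi U) {d : SWD M κT}
    (hd : d.FFit S ww τ C th) {s : EuclideanSpace ℂ (Fin 2)} (hs : ‖s‖ = 1) :
    (τ (pi s)).PSec S (d.th (pi s)) d.r (fun y z => √(2 * d.r) * U s y z) := by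
  rw [hd.th (pi s) (hH.npi s hs)]
  exact psec_smul hd.rpos.le (hH.psec s hs)

/-! ### the fields of `JData` -/

/-- **`JData.dA`** -/
theorem jd_dA {S : SWS M κ0 κ1 κT} {d : SWD M κT} (hS : S.OK) (hd : d.Adm S)
    (h4 : Emb4 S.D0.toAD.i1) {R R0 : ℝ} (hR0 : 0 ≤ R0) (hR : R0 < R) {t : E3} (ht : t ∈ BB)
    (u : SmS S.D0) (hu : ∀ z, ∑ y, u.1 y z ^ 2 ≤ R0 ^ 2) {Y : Type*} [NormedAddCommGroup Y]
    [NormedSpace ℝ Y] (har : HH (μHE[4] : Measure M) (Fin 4) →L[ℝ] Y) :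
    HasFDerivAt (fun x => har (Fq d R t x)) (har.comp (dFq hS hd ht u)) (cW S.D0 u) :=
  har.hasFDerivAt.comp _ (hasFDerivAt_Fq hS hd h4 hR0 hR ht u hu)

/-- **`JData.ker`** at a flat Taubes solution. `har` : the `bp` pairings with harmonic sections
which together with `(1, 0)` span `ker H.A`. -/
theorem jd_ker (hND : ND.{v}) {S : SWS M κ0 κ1 κT}
    {ec : κ1 → κ0 → M → EuclideanSpace ℝ (Fin 4)} {ww : Fin 3 → Fin 3 → M → ℝ}
    {τ : E3 → TD M κT} {C : ℝ} {th : E3 → κT → M → ℝ} {pi : EuclideanSpace ℂ (Fin 2) → E3}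
    {U : EuclideanSpace ℂ (Fin 2) → κ0 → M → ℝ} (hH : HopfD S ww τ C th pi U) {d : SWD M κT}
    (hF : d.FFit S ww τ C th) (hS : S.OK) (hd : d.Adm S) (hsym : Sym S ec) (hg : GrdH S)
    {s : EuclideanSpace ℂ (Fin 2)} (hs : ‖s‖ = 1) (ht : pi s ∈ BB)
    (s0 : Spec S.DL) (sT : Spec S.DT) (h4 : Emb4 S.D0.toAD.i1) (hT4 : Emb4 S.DT.toAD.i1)
    {R : ℝ} (hR : 0 < R) (u : SmS S.D0)
    (hu : u.1 = (τ (pi s)).sc (3 / 4) (fun y z => √(2 * d.r) * U s y z))
    (huR : ∀ z, ∑ y, u.1 y z ^ 2 ≤ R ^ 2)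
    {b : ℕ} {j : JD M κT b} (hj : j.OK S)
    (Mi : Fin b → S.D0.toAD.WE →L[ℝ] S.D1.toAD.HE)
    (hM : ∀ i x, ∀ᵐ z ∂(μHE[4] : Measure M), ∀ l,
      (((Mi i x : S.D1.toAD.HE) : HH (μHE[4] : Measure M) κ1) l : M → ℝ) z =
        S.cm (fun A z => 2 * Real.pi * j.al i A z) (rp x) l z)
    (I : S.D0.toAD.WE →L[ℝ] S.D0.toAD.WE)
    (hI : ∀ x, ∀ᵐ z ∂(μHE[4] : Measure M), ∀ y, rp (I x) y z = S.iu (rp x) y z)
    {bp : ℕ} (φ : Fin bp → Fin 4 → M → ℝ) (hφ : ∀ i, SmV (n := 4) (φ i))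
    (hspan : ∀ w : Fin 4 → M → ℝ, SmV (n := 4) w → (∀ x z, S.H.A w x z = 0) →
      ∃ (c0 : ℝ) (c : Fin bp → ℝ), ∀ l z, w l z = c0 * cst M l z + ∑ i, c i * φ i l z)
    (h : Fin b → ℝ) (v : S.D0.toAD.WE)
    (h1 : ∀ i, (⟪dFq hS hd ht u v, clH (φ i) (hφ i)⟫ : ℝ) = 0)
    (h2 : Ah S.P v + ∑ i, h i • Mi i (cW S.D0 u) + dKK hS hd s0 h4 hT4 R ht u v = 0) :
    h = 0 ∧ ∃ c : ℝ, v = c • I (cW S.D0 u) := by
  have ht1 : ‖pi s‖ = 1 := hH.npi s hs
  have hfit := fit_of hH.fam hF ht1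
  have hflat := flat_of hH.fam hF ht1
  have hps := psec_of hH hF hs
  have hz := fq_taubes hS hd ht (hH.fam.tau _ ht1) hfit hflat hps hR u hu huR
  refine ker_jd hND hS hsym hg (hH.fam.tau _ ht1) hfit hF.rpos (hF.rbig _ ht1) hflat hps hd ht
    s0 sT h4 hT4 R u hu (by rw [hz, map_zero]) hj Mi hM I hI h v ?_ h2
  refine perp_ker s0 φ hφ hspan _ ?_ h1
  filter_upwards [coe_dFq hS hd ht u v] with z e
  exact e 0

/-- **`JData.solA`** -/
theorem jd_solA {S : SWS M κ0 κ1 κT} {ww : Fin 3 → Fin 3 → M → ℝ}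
    {τ : E3 → TD M κT} {C : ℝ} {th : E3 → κT → M → ℝ} {pi : EuclideanSpace ℂ (Fin 2) → E3}
    {U : EuclideanSpace ℂ (Fin 2) → κ0 → M → ℝ} (hH : HopfD S ww τ C th pi U) {d : SWD M κT}
    (hF : d.FFit S ww τ C th) (hS : S.OK) (hd : d.Adm S)
    {s : EuclideanSpace ℂ (Fin 2)} (hs : ‖s‖ = 1) (ht : pi s ∈ BB) {R : ℝ} (hR : 0 < R)
    (u : SmS S.D0) (hu : u.1 = (τ (pi s)).sc (3 / 4) (fun y z => √(2 * d.r) * U s y z))
    (huR : ∀ z, ∑ y, u.1 y z ^ 2 ≤ R ^ 2) : Fq d R (pi s) (cW S.D0 u) = 0 :=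
  fq_taubes hS hd ht (hH.fam.tau _ (hH.npi s hs)) (fit_of hH.fam hF (hH.npi s hs))
    (flat_of hH.fam hF (hH.npi s hs)) (psec_of hH hF hs) hR u hu huR

end main

end Crest.Agent.R235.SWFre_952

end
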