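import Crest.Agent.R235.SWJq_365
import Crest.Agent.R235.SWFreD_952

/-!
Row 235 (S0364), node SWJA (owner helper365): `solA`, `solP`, `uniq` of `JData` from `ZER`.
-/

set_option autoImplicit false
set_option maxSynthPendingDepth 3
set_option linter.unusedSectionVars false

open scoped ContDiff ENNReal NNReal Topology Manifold Bundle RealInnerProductSpace
open MeasureTheory Set Filter Metric Bundle

universe v

noncomputable section

namespace Crest.Agent.R235.SWJz_365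

open Crest.Agent.R249.Tv57 Crest.Agent.R247.Ms322 Crest.Agent.R247.Dir593
open Crest.Agent.R235.SWDefs_53 Crest.Agent.R235.CptB_755 Crest.Agent.R235.Fs4_546
open Crest.Agent.R235.CptC_755 Crest.Agent.R235.Cpt_755 Crest.Agent.R235.Fred_649
open Crest.Agent.R235.Swx_333 Crest.Agent.R235.SWSym_451 Crest.Agent.R235.SWJc_365
open Crest.Agent.R235.SwjAbs_844 Crest.Agent.R235.SWJq_365

local notation "ipp" => Crest.Agent.R249.Tv57.ip 4

section main

variable {M : Type v} [MetricSpace M] [CompactSpace M] [ConnectedSpace M]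
  [ChartedSpace (EuclideanSpace ℝ (Fin 4)) M] [IsManifold (𝓡 4) ∞ M]
  [RiemannianBundle (fun p : M => TangentSpace (𝓡 4) p)]
  [IsContMDiffRiemannianBundle (𝓡 4) ∞ (EuclideanSpace ℝ (Fin 4))
    (fun p : M => TangentSpace (𝓡 4) p)]
  [IsRiemannianManifold (𝓡 4) M] [MeasurableSpace M] [BorelSpace M]
  [SecondCountableTopology M] [Nonempty M] [IsFiniteMeasureOnCompacts (μHE[4] : Measure M)]
  {κ0 κ1 κT : Type} [Fintype κ0] [Fintype κ1] [Fintype κT] {b bp : ℕ}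

variable {S : SWS M κ0 κ1 κT} {cc : κ1 → κ0 → M → EuclideanSpace ℝ (Fin 4)}
  {ww : Fin 3 → Fin 3 → M → ℝ} {τ : E3 → TD M κT} {C : ℝ}
  {th : E3 → κT → M → ℝ} {pi : C2 → E3} {U : C2 → κ0 → M → ℝ} {j : JD M κT b} {d : SWD M κT}

theorem us_sc (r : ℝ) (s : C2) :
    us τ pi U r s = (τ (pi s)).sc (3 / 4) (fun y z => √(2 * r) * U s y z) := by
  funext y z
  unfold us TD.sc
  ring

theorem he_ext {κ : Type} [Fintype κ] {D : Dat 4 M κ} {f g : D.toAD.HE}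
    (h : ∀ᵐ z ∂(μHE[4] : Measure M), ∀ y, ((f : HH (μHE[4] : Measure M) κ) y : M → ℝ) z =
      ((g : HH (μHE[4] : Measure M) κ) y : M → ℝ) z) : f = g := by
  refine Subtype.ext ?_
  ext y
  filter_upwards [h] with z hz
  exact hz y

/-- the solution over `s` is a solution for `h = 0`. -/
theorem sol_us (hZ : ZER.{v}) (hc : Sym S cc) (hj : j.OK S) (hH : HopfD S ww τ C th pi U)
    (hF : d.FFit S ww τ C th) {s : C2} (hs : ‖s‖ = 1) :
    Sol S (d.tw j 0) (pi s) 0 (us τ pi U d.r s) := by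
  refine (hZ M κ0 κ1 κT S cc b j d ww τ C th pi U hc hj hH hF (pi s) 0 0 (us τ pi U d.r s)
    (hH.npi s hs)).2 ⟨Eventually.of_forall fun _ _ => rfl, 0, s, hs, rfl, fun i => by simp, ?_⟩
  refine Eventually.of_forall fun z y => ?_
  rw [gau_neg_zero]
  rfl

/-- the curvature term vanishes. -/
theorem fq_us (hS : S.OK) (hd : d.Adm S) (hH : HopfD S ww τ C th pi U)
    (hF : d.FFit S ww τ C th) {R : ℝ} (hR : 0 < R) {s : C2} (hs : ‖s‖ = 1)
    (huR : ∀ z, ∑ y, us τ pi U d.r s y z ^ 2 ≤ R ^ 2) : Fq d R (pi s) (QQ hH d.r s) = 0 := by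
  rw [QQ_eq hH d.r hs]
  exact Crest.Agent.R235.SWFre_952.jd_solA hH hF hS hd hs (hH.npi s hs).le hR _ (us_sc _ _) huR

theorem rp_zero {κ : Type} [Fintype κ] {D : Dat 4 M κ} :
    ∀ᵐ z ∂(μHE[4] : Measure M), ∀ y, rp (0 : D.toAD.WE) y z = 0 := by
  rw [ae_all_iff]
  intro y
  have : D.toAD.i1 0 = 0 := map_zero _
  unfold rp
  rw [this]
  exact Lp.coeFn_zero ℝ 2 (μHE[4] : Measure M)

/-- **solP**. -/
theorem solP (hZ : ZER.{v}) (hc : Sym S cc) (hj : j.OK S) (hS : S.OK) (hd : d.Adm S)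
    (hH : HopfD S ww τ C th pi U) (hF : d.FFit S ww τ C th) (s0 : Spec S.DL)
    (h4 : Emb4 S.D0.toAD.i1) (hT4 : Emb4 S.DT.toAD.i1) {R : ℝ} (hR : 0 < R) {s : C2}
    (hs : ‖s‖ = 1) (huR : ∀ z, ∑ y, us τ pi U d.r s y z ^ 2 ≤ R ^ 2) :
    Ah S.P (QQ hH d.r s) + KP hS hd s0 R (pi s) (QQ hH d.r s) = 0 := by
  have hz := fq_us hS hd hH hF hR hs huR
  have h1 := (sol_us hZ hc hj hH hF hs).dir
  have hrp : ∀ a, rp (QQ hH d.r s) a =ᵐ[(μHE[4] : Measure M)] us τ pi U d.r s a := by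
    intro a
    filter_upwards [rp_QQ hH d.r hs] with z e
    exact e a
  have h2 := (wkA_iff (P := S.P) (u := us τ pi U d.r s) (U := QQ hH d.r s) hrp).1 h1
  have h3 : Ah S.P (QQ hH d.r s) = - KP hS hd s0 R (pi s) (QQ hH d.r s) := by
    refine Subtype.ext ?_
    have e0 : ((- KP hS hd s0 R (pi s) (QQ hH d.r s) : S.D1.toAD.HE) :
        HH (μHE[4] : Measure M) κ1) = - S.D1.toAD.P (KKt hS hd s0 R (pi s) (QQ hH d.r s)) := rfl
    rw [e0, P_KKt hS hd s0 h4 hT4]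
    ext x
    have e1 : ((- KKt hS hd s0 R (pi s) (QQ hH d.r s) : HH (μHE[4] : Measure M) κ1) x :
      Lp ℝ 2 (μHE[4] : Measure M)) = - (KKt hS hd s0 R (pi s) (QQ hH d.r s) x) := rfl
    rw [e1]
    have hg : GG1 S s0 (Fq d R (pi s) (QQ hH d.r s)) = 0 := by rw [hz, map_zero]
    filter_upwards [h2 x, Lp.coeFn_neg (KKt hS hd s0 R (pi s) (QQ hH d.r s) x),
      coe_KKt hS hd s0 h4 hT4 R (pi s) (QQ hH d.r s), rp_QQ hH d.r hs,
      rp_zero (D := S.DT)] with z f1 f2 f3 f4 f5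
    rw [f1, f2, Pi.neg_apply, f3 x, hg]
    unfold SWS.cm
    congr 1
    refine Finset.sum_congr rfl fun A _ => Finset.sum_congr rfl fun y _ => ?_
    rw [f4 y]
    congr 2
    show (0 : κT → M → ℝ) A z + (d.th (pi s) A z + j.fm 0 A z) =
      rp (0 : S.DT.toAD.WE) A z + d.th (pi s) A z
    rw [f5 A, fm_eq]
    simp
  rw [h3, neg_add_cancel]

/-- **uniq**. -/
theorem uniq (hZ : ZER.{v}) (hc : Sym S cc) (hj : j.OK S) (hS : S.OK) (hd : d.Adm S)
    (hH : HopfD S ww τ C th pi U) (hF : d.FFit S ww τ C th) (s0 : Spec S.DL)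
    (H : HarB hS bp) {R C0 : ℝ} (hR : 0 < R) (hC : C0 < R ^ 2)
    (hzero : ∀ (t : E3) (h : Fin b → ℝ) (x : S.D0.toAD.WE), ‖t‖ ≤ 1 → KA H d R t x = 0 →
      Ah S.P x + ∑ i, h i • LI hS hj i x + KP hS hd s0 R t x = 0 →
      TSol S (d.tw j h) R t (rp (GG1 S s0 (Fq d R t x))) (rp x))
    (hsup : ∀ (h : Fin b → ℝ) (t : E3) (a : κT → M → ℝ) (u : κ0 → M → ℝ), ‖t‖ ≤ 1 →
      TSol S (d.tw j h) R t a u → ∀ᵐ z ∂(μHE[4] : Measure M), ∑ y, u y z ^ 2 ≤ C0)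
    (UU : (Fin b → ℤ) → S.D0.toAD.WE ≃L[ℝ] S.D0.toAD.WE)
    (hUU : ∀ m x, ∀ᵐ z ∂(μHE[4] : Measure M), ∀ y,
      rp (UU m x) y z = j.gau S (fun i => - m i) (rp x) y z)
    (t : E3) (h : Fin b → ℝ) (x : S.D0.toAD.WE) (ht : ‖t‖ = 1) (h1 : KA H d R t x = 0)
    (h2 : Ah S.P x + ∑ i, h i • LI hS hj i x + KP hS hd s0 R t x = 0) :
    ∃ (k : Fin b → ℤ) (s : C2), ‖s‖ = 1 ∧ pi s = t ∧ (∀ i, h i = k i) ∧
      x = UU k (QQ hH d.r s) := by
  have hT := hzero t h x ht.le h1 h2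
  have hb := hsup h t _ _ ht.le hT
  have hSol := sol_of_tsol hR hC hT hb
  obtain ⟨-, k, s, hs, hpi, hk, hu⟩ := (hZ M κ0 κ1 κT S cc b j d ww τ C th pi U hc hj hH hF t h
    _ _ ht).1 hSol
  refine ⟨k, s, hs, hpi, hk, we_ext ?_⟩
  filter_upwards [hu, hUU k (QQ hH d.r s), rp_QQ hH d.r hs] with z e1 e2 e3 y
  rw [e1 y, e2 y, gau_congr e3 y, gau_us, hpi]

/-- the spanning property of `HarB`, in the form of `jd_ker`. -/
theorem span_of {hS : S.OK} (H : HarB hS bp) (w : Fin 4 → M → ℝ) (hw : SmV (n := 4) w)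
    (hk : ∀ x z, S.H.A w x z = 0) :
    ∃ (c0 : ℝ) (c : Fin bp → ℝ), ∀ l z, w l z = c0 * cst M l z + ∑ i, c i * H.ph i l z := by
  obtain ⟨c, f, h⟩ := H.span ⟨⟨w, hw, sec_full hS w⟩, (mem_KrS S _).2 hk⟩
  refine ⟨c, f, fun l z => ?_⟩
  have h1 := congrArg (fun v : KrS S => (v.1.1 : Fin 4 → M → ℝ) l z) h
  have h2 : ((c • cs hS + ∑ i, f i • H.Φ i : KrS S) : SmS S.DL).1 l z =
      c * cst M l z + ∑ i, f i * H.ph i l z := by
    simp only [Submodule.coe_add, Submodule.coe_sum, Submodule.coe_smul, Pi.add_apply,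
      Finset.sum_apply, Pi.smul_apply, smul_eq_mul]
    rfl
  rw [← h2]
  exact h1

/-- `|us|² = 2 r ρ^{3/2}`. -/
theorem us_sq (hH : HopfD S ww τ C th pi U) {r : ℝ} (hr : 0 < r) {s : C2} (hs : ‖s‖ = 1) (z : M) :
    ∑ y, us τ pi U r s y z ^ 2 = 2 * r * ((τ (pi s)).rr z ^ (3 / 4 : ℝ)) ^ 2 := by
  have h1 := (hH.psec s hs).nrm z
  have h2 : ∑ y, us τ pi U r s y z ^ 2 =
      √(2 * r) ^ 2 * ((τ (pi s)).rr z ^ (3 / 4 : ℝ)) ^ 2 * ∑ y, U s y z ^ 2 := by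
    rw [Finset.mul_sum]
    exact Finset.sum_congr rfl fun y _ => by unfold us; ring
  rw [h2, h1, Real.sq_sqrt (by linarith)]
  ring

/-- **a bound for all the solutions over the unit sphere**. -/
theorem us_bdd (hH : HopfD S ww τ C th pi U) {r : ℝ} (hr : 0 < r) : ∃ B : ℝ, 0 ≤ B ∧
    ∀ s : C2, ‖s‖ = 1 → ∀ z, ∑ y, us τ pi U r s y z ^ 2 ≤ B := by
  let f : E3 × M → ℝ := fun q => √(∑ k, (∑ i, q.1 i * ww i k q.2) ^ 2) ^ (3 / 4 : ℝ)
  have hf : Continuous f := by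
    have h0 : Continuous fun q : E3 × M => √(∑ k, (∑ i, q.1 i * ww i k q.2) ^ 2) := by
      refine Real.continuous_sqrt.comp ?_
      refine continuous_finsetSum _ fun k _ => Continuous.pow ?_ 2
      refine continuous_finsetSum _ fun i _ => ?_
      have h1 : Continuous fun q : E3 × M => q.1 i :=
        (EuclideanSpace.proj i).continuous.comp continuous_fst
      exact h1.mul ((hH.fam.smw i k).continuous.comp continuous_snd)
    exact h0.rpow_const fun q => Or.inr (by norm_num)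
  obtain ⟨D, hD⟩ := ((isCompact_sphere (0 : E3) 1).prod (isCompact_univ (X := M))).exists_bound_of_continuousOn
    hf.continuousOn
  refine ⟨2 * r * D ^ 2, by positivity, fun s hs z => ?_⟩
  rw [us_sq hH hr hs]
  have ht := hH.npi s hs
  have h1 := hD (pi s, z) ⟨by simpa using ht, mem_univ _⟩
  have h2 : f (pi s, z) = (τ (pi s)).rr z ^ (3 / 4 : ℝ) := by
    show √(∑ k, (∑ i, (pi s) i * ww i k z) ^ 2) ^ (3 / 4 : ℝ) = _
    rw [hH.fam.rr (pi s) z ht]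
  rw [h2, Real.norm_eq_abs] at h1
  refine mul_le_mul_of_nonneg_left ?_ (by linarith)
  rw [← sq_abs]
  exact pow_le_pow_left₀ (abs_nonneg _) h1 2

end main

end Crest.Agent.R235.SWJz_365

end
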