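import Crest.Agent.R235.FamTop2_307
import Crest.Agent.R235.FamU_151
import Crest.Agent.R235.SWJz_333
import Crest.Agent.R235.SWJn_900
import Crest.Agent.R235.SWJu_133
import Crest.Agent.R235.SWJz_365
import Crest.Agent.R235.SWJ1_133

/-!
Row 235 (S0364), PACKAGE FAM (helper844): translation of the Seiberg-Witten system over the Jacobian
torus through `Rep`: the abstract data `SWd` of `FamT_151`.
-/

set_option autoImplicit false
set_option maxSynthPendingDepth 3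
set_option linter.unusedSectionVars false

open scoped ContDiff ENNReal NNReal Topology Manifold Bundle RealInnerProductSpace
open MeasureTheory Set Filter Metric Bundle Module

universe v

namespace Crest.Agent.R235.FvA_844

open Crest.Agent.R249.Tv57 Crest.Agent.R247.Ms322 Crest.Agent.R247.Dir593
open Crest.Agent.R235.SWDefs_53 Crest.Agent.R235.CptB_755 Crest.Agent.R235.Fs4_546
open Crest.Agent.R235.CptC_755 Crest.Agent.R235.Cpt_755 Crest.Agent.R235.Fred_649
open Crest.Agent.R235.Swx_333 Crest.Agent.R235.SWSym_451 Crest.Agent.R235.SWJc_365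
open Crest.Agent.R235.FamR_151 Crest.Agent.R235.SWJn_333 Crest.Agent.R235.SWJu_133

noncomputable section

local notation "ipp" => Crest.Agent.R249.Tv57.ip 4

section main

variable {M : Type v} [MetricSpace M] [CompactSpace M] [ConnectedSpace M]
  [ChartedSpace (EuclideanSpace ℝ (Fin 4)) M] [IsManifold (𝓡 4) ∞ M]
  [RiemannianBundle (fun p : M => TangentSpace (𝓡 4) p)]
  [IsContMDiffRiemannianBundle (𝓡 4) ∞ (EuclideanSpace ℝ (Fin 4))
    (fun p : M => TangentSpace (𝓡 4) p)]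
  [IsRiemannianManifold (𝓡 4) M] [MeasurableSpace M] [BorelSpace M]
  [SecondCountableTopology M] [Nonempty M] [IsFiniteMeasureOnCompacts (μHE[4] : Measure M)]
  {κ0 κ1 κT : Type} [Fintype κ0] [Fintype κ1] [Fintype κT] {b bp : ℕ}
  {S : SWS M κ0 κ1 κT} {cc : κ1 → κ0 → M → EuclideanSpace ℝ (Fin 4)} {J1 : κ1 → κ1 → M → ℝ}
  {j : JD M κT b} {d : SWD M κT}
  {X Y : Type v} [NormedAddCommGroup X] [InnerProductSpace ℂ X] [CompleteSpace X]
  [NormedAddCommGroup Y] [InnerProductSpace ℂ Y] [CompleteSpace Y]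
  {Φ : PFam b X Y} {eX : X ≃L[ℝ] S.D0.toAD.WE} {eY : Y ≃L[ℝ] S.D1.toAD.HE} {φ : Fin b → M → ℝ}

/-! ### linear algebra of the identifications -/

/-- `z x = (re z) x + (im z) (i x)`. -/
theorem smul_split {E : Type*} [NormedAddCommGroup E] [InnerProductSpace ℂ E] (z : ℂ) (x : E) :
    z • x = z.re • x + z.im • (Complex.I • x) := by
  conv_lhs => rw [← Complex.re_add_im z]
  rw [add_smul, mul_smul]
  rfl

theorem coe_add_smul {κ : Type} [Fintype κ] {D : Dat 4 M κ} (a c : ℝ) (f g : D.toAD.HE) :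
    ∀ᵐ z ∂(μHE[4] : Measure M), ∀ y,
      (((a • f + c • g : D.toAD.HE) : HH (μHE[4] : Measure M) κ) y : M → ℝ) z =
        a * ((f : HH (μHE[4] : Measure M) κ) y : M → ℝ) z +
        c * ((g : HH (μHE[4] : Measure M) κ) y : M → ℝ) z := by
  rw [ae_all_iff]
  intro y
  have e : (((a • f + c • g : D.toAD.HE) : HH (μHE[4] : Measure M) κ) y :
      Lp ℝ 2 (μHE[4] : Measure M)) = a • ((f : HH (μHE[4] : Measure M) κ) y) +
      c • ((g : HH (μHE[4] : Measure M) κ) y) := rfl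
  rw [e]
  filter_upwards [Lp.coeFn_add (a • ((f : HH (μHE[4] : Measure M) κ) y))
    (c • ((g : HH (μHE[4] : Measure M) κ) y)),
    Lp.coeFn_smul a ((f : HH (μHE[4] : Measure M) κ) y),
    Lp.coeFn_smul c ((g : HH (μHE[4] : Measure M) κ) y)] with z e1 e2 e3
  rw [e1, Pi.add_apply, e2, e3]
  rfl

theorem rp_add_smul {κ : Type} [Fintype κ] {D : Dat 4 M κ} (a c : ℝ) (f g : D.toAD.WE) :
    ∀ᵐ z ∂(μHE[4] : Measure M), ∀ y,
      rp (a • f + c • g) y z = a * rp f y z + c * rp g y z := by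
  rw [ae_all_iff]
  intro y
  have e : (D.toAD.i1 (a • f + c • g) y : Lp ℝ 2 (μHE[4] : Measure M)) =
      a • (D.toAD.i1 f y) + c • (D.toAD.i1 g y) := by
    rw [map_add, map_smul, map_smul]
    rfl
  unfold rp
  rw [e]
  filter_upwards [Lp.coeFn_add (a • (D.toAD.i1 f y)) (c • (D.toAD.i1 g y)),
    Lp.coeFn_smul a (D.toAD.i1 f y), Lp.coeFn_smul c (D.toAD.i1 g y)] with z e1 e2 e3
  rw [e1, Pi.add_apply, e2, e3]
  rfl

/-- the complex scalars in `X`. -/
theorem rp_smul (h : Rep S j J1 Φ eX eY φ) (c : ℂ) (x : X) :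
    ∀ᵐ z ∂(μHE[4] : Measure M), ∀ y,
      rp (eX (c • x)) y z = c.re * rp (eX x) y z + c.im * S.iu (rp (eX x)) y z := by
  have e : eX (c • x) = c.re • eX x + c.im • eX (Complex.I • x) := by
    rw [smul_split, map_add, map_smul, map_smul]
  rw [e]
  filter_upwards [rp_add_smul (D := S.D0) c.re c.im (eX x) (eX (Complex.I • x)), h.iX x]
    with z e1 e2 y
  rw [e1 y, e2 y]

/-- the complex scalars in `Y`. -/
theorem coe_smulY (h : Rep S j J1 Φ eX eY φ) (c : ℂ) (f : Y) :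
    ∀ᵐ z ∂(μHE[4] : Measure M), ∀ x,
      (((eY (c • f) : S.D1.toAD.HE) : HH (μHE[4] : Measure M) κ1) x : M → ℝ) z =
        c.re * (((eY f : S.D1.toAD.HE) : HH (μHE[4] : Measure M) κ1) x : M → ℝ) z +
        c.im * ∑ x', J1 x x' z *
          (((eY f : S.D1.toAD.HE) : HH (μHE[4] : Measure M) κ1) x' : M → ℝ) z := by
  have e : eY (c • f) = c.re • eY f + c.im • eY (Complex.I • f) := by
    rw [smul_split, map_add, map_smul, map_smul]
  rw [e]
  filter_upwards [coe_add_smul (D := S.D1) c.re c.im (eY f) (eY (Complex.I • f)), h.iY f]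
    with z e1 e2 y
  rw [e1 y, e2 y]

/-- the family in the real Hilbert spaces. -/
theorem eY_D (h : Rep S j J1 Φ eX eY φ) (hS : S.OK) (hj : j.OK S) (k : Fin b → ℝ) (x : X) :
    eY (Φ.D k x) = Ah S.P (eX x) + ∑ i, k i • LI hS hj i (eX x) := by
  refine SWJz_365.he_ext ?_
  have e1 := coe_add_smul (D := S.D1) 1 1 (Ah S.P (eX x)) (∑ i, k i • LI hS hj i (eX x))
  simp only [one_smul, one_mul] at e1
  filter_upwards [h.D k x, coe_sumLI hS hj k (eX x), e1] with z f1 f2 f3 y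
  rw [f1 y, f3 y, f2 y]

/-! ### the lattice -/

/-- `g_i = exp (2π i φ_i)`. -/
theorem gj_eq (h : Rep S j J1 Φ eX eY φ) (i : Fin b) (z : M) :
    ((j.gc i z : ℂ) + (j.gs i z : ℂ) * Complex.I) =
      Complex.exp (((2 * Real.pi * φ i z : ℝ) : ℂ) * Complex.I) := by
  rw [h.cphi, h.sphi, Complex.exp_mul_I, Complex.ofReal_cos, Complex.ofReal_sin]

theorem prod_eq (h : Rep S j J1 Φ eX eY φ) (k : Fin b → ℤ) (z : M) :
    (∏ i, ((j.gc i z : ℂ) + (j.gs i z : ℂ) * Complex.I) ^ k i) =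
      Complex.exp (((2 * Real.pi * ∑ i, (k i : ℝ) * φ i z : ℝ) : ℂ) * Complex.I) := by
  simp only [gj_eq h, ← Complex.exp_int_mul]
  rw [← Complex.exp_sum]
  congr 1
  rw [Finset.mul_sum, Complex.ofReal_sum, Finset.sum_mul]
  refine Finset.sum_congr rfl fun i _ => ?_
  push_cast
  ring

theorem gre_eq (h : Rep S j J1 Φ eX eY φ) (k : Fin b → ℤ) (z : M) :
    gre j k z = Real.cos (2 * Real.pi * ∑ i, (k i : ℝ) * φ i z) := by
  unfold gre
  rw [prod_eq h, Complex.exp_ofReal_mul_I_re]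

theorem gim_eq (h : Rep S j J1 Φ eX eY φ) (k : Fin b → ℤ) (z : M) :
    gim j k z = Real.sin (2 * Real.pi * ∑ i, (k i : ℝ) * φ i z) := by
  unfold gim
  rw [prod_eq h, Complex.exp_ofReal_mul_I_im]

/-- `Th` at lattice points. -/
theorem coe_Th (h : Rep S j J1 Φ eX eY φ) (k : Fin b → ℤ) (f : Y) :
    ∀ᵐ z ∂(μHE[4] : Measure M), ∀ x,
      (((eY (Φ.Th (zv k) f) : S.D1.toAD.HE) : HH (μHE[4] : Measure M) κ1) x : M → ℝ) z =
        gre j (fun i => - k i) z *
          (((eY f : S.D1.toAD.HE) : HH (μHE[4] : Measure M) κ1) x : M → ℝ) z +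
        gim j (fun i => - k i) z * ∑ x', J1 x x' z *
          (((eY f : S.D1.toAD.HE) : HH (μHE[4] : Measure M) κ1) x' : M → ℝ) z := by
  filter_upwards [h.Th (zv k) f] with z e1 x
  rw [e1 x, gre_eq h, gim_eq h]
  have e2 : (2 * Real.pi * ∑ i, (((- k i : ℤ)) : ℝ) * φ i z) =
      -(2 * Real.pi * ∑ i, zv k i * φ i z) := by
    rw [← mul_neg, ← Finset.sum_neg_distrib]
    congr 1
    refine Finset.sum_congr rfl fun i _ => ?_
    show ((- k i : ℤ) : ℝ) * φ i z = -((k i : ℝ) * φ i z)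
    push_cast
    ring
  rw [e2, Real.cos_neg, Real.sin_neg]
  ring

/-! ### the nonlinear maps -/

/-- nonlinear part of the Dirac equation. -/
def Kx (eX : X ≃L[ℝ] S.D0.toAD.WE) (eY : Y ≃L[ℝ] S.D1.toAD.HE) (hS : S.OK) (hd : d.Adm S)
    (s0 : Spec S.DL) (R : ℝ) (t : E3) (x : X) : Y := eY.symm (KP hS hd s0 R t (eX x))

/-- harmonic part of the curvature equation. -/
def Ex (eX : X ≃L[ℝ] S.D0.toAD.WE) {hS : S.OK} (H : HarB hS bp) (d : SWD M κT) (R : ℝ) (t : E3)
    (x : X) : EuclideanSpace ℝ (Fin bp) := KA H d R t (eX x)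

theorem eY_Kx (hS : S.OK) (hd : d.Adm S) (s0 : Spec S.DL) (R : ℝ) (t : E3) (x : X) :
    eY (Kx eX eY hS hd s0 R t x) = KP hS hd s0 R t (eX x) := eY.apply_symm_apply _

/-- the Dirac equation. -/
theorem dirac_iff (h : Rep S j J1 Φ eX eY φ) (hS : S.OK) (hj : j.OK S) (hd : d.Adm S)
    (s0 : Spec S.DL) (R : ℝ) (t : E3) (k : Fin b → ℝ) (x : X) :
    Φ.D k x + Kx eX eY hS hd s0 R t x = 0 ↔
      Ah S.P (eX x) + ∑ i, k i • LI hS hj i (eX x) + KP hS hd s0 R t (eX x) = 0 := by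
  rw [← eY_D h hS hj, ← eY_Kx (eX := eX) (eY := eY) hS hd s0 R t x, ← map_add]
  exact (map_eq_zero_iff eY eY.injective).symm

end main

end

end Crest.Agent.R235.FvA_844
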