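import Crest.Agent.R235.FvA_844

/-!
Row 235 (S0364), PACKAGE FAM (helper844): `SWd` of `FamT_151` for the Seiberg-Witten system over the
Jacobian torus (`Kc`, `Ec` are `Kx`, `Ex`, extended by zero outside the closed unit ball).
-/

set_option autoImplicit false
set_option maxSynthPendingDepth 3
set_option linter.unusedSectionVars false

open scoped ContDiff ENNReal NNReal Topology Manifold Bundle RealInnerProductSpace
open MeasureTheory Set Filter Metric Bundle Module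

universe v

namespace Crest.Agent.R235.FvA_844

open Crest.Agent.R249.Tv57 Crest.Agent.R247.Ms322 Crest.Agent.R247.Dir593
open Crest.Agent.R235.SWDefs_53 Crest.Agent.R235.CptB_755 Crest.Agent.R235.Fs4_546
open Crest.Agent.R235.CptC_755 Crest.Agent.R235.Cpt_755 Crest.Agent.R235.Fred_649
open Crest.Agent.R235.Swx_333 Crest.Agent.R235.SWSym_451 Crest.Agent.R235.SWJc_365
open Crest.Agent.R235.FamR_151 Crest.Agent.R235.SWJn_333 Crest.Agent.R235.SWJu_133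

noncomputable section

local notation "ipp" => Crest.Agent.R249.Tv57.ip 4

section main

variable {M : Type v} [MetricSpace M] [CompactSpace M] [ConnectedSpace M]
  [ChartedSpace (EuclideanSpace ℝ (Fin 4)) M] [IsManifold (𝓡 4) ∞ M]
  [RiemannianBundle (fun p : M => TangentSpace (𝓡 4) p)]
  [IsContMDiffRiemannianBundle (𝓡 4) ∞ (EuclideanSpace ℝ (Fin 4))
    (fun p : M => TangentSpace (𝓡 4) p)]
  [IsRiemannianManifold (𝓡 4) M] [MeasurableSpace M] [BorelSpace M]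
  [SecondCountableTopology M] [Nonempty M] [IsFiniteMeasureOnCompacts (μHE[4] : Measure M)]
  {κ0 κ1 κT : Type} [Fintype κ0] [Fintype κ1] [Fintype κT] {b bp : ℕ}
  {S : SWS M κ0 κ1 κT} {cc : κ1 → κ0 → M → EuclideanSpace ℝ (Fin 4)} {J1 : κ1 → κ1 → M → ℝ}
  {j : JD M κT b} {d : SWD M κT}
  {X Y : Type v} [NormedAddCommGroup X] [InnerProductSpace ℂ X] [CompleteSpace X]
  [NormedAddCommGroup Y] [InnerProductSpace ℂ Y] [CompleteSpace Y]
  {Φ : PFam b X Y} {eX : X ≃L[ℝ] S.D0.toAD.WE} {eY : Y ≃L[ℝ] S.D1.toAD.HE} {φ : Fin b → M → ℝ}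

/-- `Kx`, extended by zero. -/
def Kc (eX : X ≃L[ℝ] S.D0.toAD.WE) (eY : Y ≃L[ℝ] S.D1.toAD.HE) (hS : S.OK) (hd : d.Adm S)
    (s0 : Spec S.DL) (R : ℝ) (t : E3) (x : X) : Y :=
  open scoped Classical in if ‖t‖ ≤ 1 then Kx eX eY hS hd s0 R t x else 0

/-- `Ex`, extended by zero. -/
def Ec (eX : X ≃L[ℝ] S.D0.toAD.WE) {hS : S.OK} (H : HarB hS bp) (d : SWD M κT) (R : ℝ) (t : E3)
    (x : X) : EuclideanSpace ℝ (Fin bp) :=
  open scoped Classical in if ‖t‖ ≤ 1 then Ex eX H d R t x else 0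

theorem Kc_of {hS : S.OK} {hd : d.Adm S} {s0 : Spec S.DL} {R : ℝ} {t : E3} (ht : ‖t‖ ≤ 1) (x : X) :
    Kc eX eY hS hd s0 R t x = Kx eX eY hS hd s0 R t x := if_pos ht

theorem Ec_of {hS : S.OK} {H : HarB hS bp} {R : ℝ} {t : E3} (ht : ‖t‖ ≤ 1) (x : X) :
    Ec eX H d R t x = Ex eX H d R t x := if_pos ht

/-- constant gauge transformations, Dirac part. -/
theorem Kx_smul (h : Rep S j J1 Φ eX eY φ) (hS : S.OK) (hc : Sym S cc) (hJ : CJ1 S cc J1)
    (hd : d.Adm S) (s0 : Spec S.DL) {R : ℝ} (hR : 0 < R) {t : E3} (ht : ‖t‖ ≤ 1) {c : ℂ}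
    (hn : ‖c‖ = 1) (x : X) :
    Kx eX eY hS hd s0 R t (c • x) = c • Kx eX eY hS hd s0 R t x := by
  have hce : ∀ _ : M, c.re ^ 2 + c.im ^ 2 = 1 := fun _ => by
    have h3 := Complex.sq_norm c
    rw [hn, Complex.normSq_apply] at h3
    linarith
  apply eY.injective
  rw [eY_Kx]
  refine PL_KKt_rot hS hd hc hJ s0 hR ht (c := fun _ => c.re) (e := fun _ => c.im) hce
    (rp_smul h c x) ?_
  filter_upwards [coe_smulY h c (Kx eX eY hS hd s0 R t x)] with z e1 l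
  rw [e1 l, eY_Kx]
  rfl

/-- constant gauge transformations, curvature part. -/
theorem Ex_smul (h : Rep S j J1 Φ eX eY φ) {hS : S.OK} (hc : Sym S cc)
    (hd : d.Adm S) (H : HarB hS bp) {R : ℝ} (hR : 0 < R) {t : E3} (ht : ‖t‖ ≤ 1) {c : ℂ}
    (hn : ‖c‖ = 1) (x : X) :
    Ex eX H d R t (c • x) = Ex eX H d R t x := by
  have hce : ∀ _ : M, c.re ^ 2 + c.im ^ 2 = 1 := fun _ => by
    have h3 := Complex.sq_norm c
    rw [hn, Complex.normSq_apply] at h3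
    linarith
  unfold Ex KA
  rw [Fq_rot hS hd hc hR ht (c := fun _ => c.re) (e := fun _ => c.im) hce (rp_smul h c x)]

/-- lattice gauge transformations, Dirac part. -/
theorem Kx_U (h : Rep S j J1 Φ eX eY φ) (hS : S.OK) (hc : Sym S cc) (hJ : CJ1 S cc J1)
    (hj : j.OK S) (hd : d.Adm S) (s0 : Spec S.DL) {R : ℝ} (hR : 0 < R) {t : E3} (ht : ‖t‖ ≤ 1)
    (k : Fin b → ℤ) (x : X) :
    Kx eX eY hS hd s0 R t (Φ.U k x) = Φ.Th (zv k) (Kx eX eY hS hd s0 R t x) := by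
  apply eY.injective
  rw [eY_Kx]
  refine PL_KKt_gau hj.unit hS hd hc hJ s0 hR ht (fun i => - k i) (h.U k x) ?_
  filter_upwards [coe_Th h k (Kx eX eY hS hd s0 R t x)] with z e1 l
  rw [e1 l, eY_Kx]
  rfl

/-- lattice gauge transformations, curvature part. -/
theorem Ex_U (h : Rep S j J1 Φ eX eY φ) {hS : S.OK} (hc : Sym S cc)
    (hj : j.OK S) (hd : d.Adm S) (H : HarB hS bp) {R : ℝ} (hR : 0 < R) {t : E3} (ht : ‖t‖ ≤ 1)
    (k : Fin b → ℤ) (x : X) :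
    Ex eX H d R t (Φ.U k x) = Ex eX H d R t x := by
  unfold Ex KA
  rw [Fq_gau hj.unit hS hd hc hR ht (fun i => - k i) (h.U k x)]

/-- **the abstract data.** -/
theorem swd (h : Rep S j J1 Φ eX eY φ) (hS : S.OK) (hc : Sym S cc) (hJ : CJ1 S cc J1)
    (hj : j.OK S) (hd : d.Adm S) (s0 : Spec S.DL) (H : HarB hS bp) {R C0 : ℝ} (hR : 0 < R)
    (hsup : ∀ (h : Fin b → ℝ) (t : E3) (a : κT → M → ℝ) (u : κ0 → M → ℝ), ‖t‖ ≤ 1 →
      TSol S (d.tw j h) R t a u → ∀ᵐ z ∂(μHE[4] : Measure M), ∑ y, u y z ^ 2 ≤ C0) :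
    SWd Φ (Kc eX eY hS hd s0 R) (Ec eX H d R) where
  K_cont := by
    have h1 : ContinuousOn (fun q : E3 × X => Kx eX eY hS hd s0 R q.1 q.2) {q | ‖q.1‖ ≤ 1} := by
      have h2 : ContinuousOn (fun q : E3 × X => KP hS hd s0 R q.1 (eX q.2)) {q | ‖q.1‖ ≤ 1} :=
        (cKP hS hd s0 hR).comp (f := fun q : E3 × X => (q.1, eX q.2))
          (continuous_fst.prodMk (eX.continuous.comp continuous_snd)).continuousOn (fun q hq => hq)
      exact eY.symm.continuous.comp_continuousOn h2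
    exact h1.congr fun q hq => Kc_of hq _
  K_cpt ρ := by
    obtain ⟨C, hC, h1⟩ := cptP hS hd s0 hR (‖(eX : X →L[ℝ] S.D0.toAD.WE)‖ * ρ)
    refine ⟨eY.symm '' C, hC.image eY.symm.continuous, fun t x ht hx => ?_⟩
    rw [Kc_of ht]
    refine ⟨_, h1 t (eX x) ht ?_, rfl⟩
    exact ((eX : X →L[ℝ] S.D0.toAD.WE).le_opNorm x).trans
      (mul_le_mul_of_nonneg_left hx (norm_nonneg _))
  K_eq t x z hz := by
    by_cases ht : ‖t‖ ≤ 1
    · rw [Kc_of ht, Kc_of ht, Kx_smul h hS hc hJ hd s0 hR ht hz]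
    · unfold Kc
      rw [if_neg ht, if_neg ht, smul_zero]
  K_U t k x := by
    by_cases ht : ‖t‖ ≤ 1
    · rw [Kc_of ht, Kc_of ht, Kx_U h hS hc hJ hj hd s0 hR ht]
    · unfold Kc
      rw [if_neg ht, if_neg ht, map_zero]
  Ec_cont := by
    have h1 : ContinuousOn (fun q : E3 × X => Ex eX H d R q.1 q.2) {q | ‖q.1‖ ≤ 1} :=
      (cKA hd H hR).comp (f := fun q : E3 × X => (q.1, eX q.2))
        (continuous_fst.prodMk (eX.continuous.comp continuous_snd)).continuousOn (fun q hq => hq)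
    exact h1.congr fun q hq => Ec_of hq _
  Ec_eq t x z hz := by
    by_cases ht : ‖t‖ ≤ 1
    · rw [Ec_of ht, Ec_of ht, Ex_smul h hc hd H hR ht hz]
    · unfold Ec
      rw [if_neg ht, if_neg ht]
  Ec_U t k x := by
    by_cases ht : ‖t‖ ≤ 1
    · rw [Ec_of ht, Ec_of ht, Ex_U h hc hj hd H hR ht]
    · unfold Ec
      rw [if_neg ht, if_neg ht]
  bdd := by
    obtain ⟨ρ, hρ0, hρ⟩ := SWJn_900.bddJ hS hj hd s0 H (e4 _) (e4 _) hR hsup
      fun h t x ht h1 h2 => (zero_iff hS hj hd s0 H hR h ht x).1 ⟨h1, h2⟩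
    refine ⟨‖(eX.symm : S.D0.toAD.WE →L[ℝ] X)‖ * ρ, fun t k x ht hk h1 h2 => ?_⟩
    rw [Ec_of ht] at h1
    rw [Kc_of ht] at h2
    have h3 := hρ t k (eX x) ht (fun i => ⟨hk.1 i, hk.2 i⟩) h1
      ((dirac_iff h hS hj hd s0 R t k x).1 h2)
    have h4 : x = eX.symm (eX x) := (eX.symm_apply_apply x).symm
    conv_lhs => rw [h4]
    exact ((eX.symm : S.D0.toAD.WE →L[ℝ] X).le_opNorm (eX x)).trans
      (mul_le_mul_of_nonneg_left h3 (norm_nonneg _))

/-- a zero over the closed ball is a bounded solution of the twisted system. -/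
theorem sol_of_zero (h : Rep S j J1 Φ eX eY φ) (hS : S.OK) (hj : j.OK S) (hd : d.Adm S)
    (s0 : Spec S.DL) (H : HarB hS bp) {R C0 : ℝ} (hR : 0 < R) (hC : C0 < R ^ 2)
    (hsup : ∀ (h : Fin b → ℝ) (t : E3) (a : κT → M → ℝ) (u : κ0 → M → ℝ), ‖t‖ ≤ 1 →
      TSol S (d.tw j h) R t a u → ∀ᵐ z ∂(μHE[4] : Measure M), ∑ y, u y z ^ 2 ≤ C0)
    {t : E3} (ht : ‖t‖ ≤ 1) {k : Fin b → ℝ} {x : X} (h1 : Ec eX H d R t x = 0)
    (h2 : Φ.D k x + Kc eX eY hS hd s0 R t x = 0) :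
    Sol S (d.tw j k) t (rp (GG1 S s0 (Fq d R t (eX x)))) (rp (eX x)) := by
  rw [Ec_of ht] at h1
  rw [Kc_of ht] at h2
  have hT := (zero_iff hS hj hd s0 H hR k ht (eX x)).1
    ⟨h1, (dirac_iff h hS hj hd s0 R t k x).1 h2⟩
  exact sol_of_tsol hR hC hT (hsup k t _ _ ht hT)

end main

end

end Crest.Agent.R235.FvA_844
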