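import Crest.Agent.R235.FDHILB_365
import Crest.Agent.R235.Defs_837

/-!
Row 235 (S0364), helper844: the abstract real data of the Seiberg-Witten family over the closed ball
and over the Jacobian torus (`JData`), from which `SWJA` follows (`SwjAbs_844`: `JData → False`, by
helper365's `FDHILB`).

The dependence on `t` is only CONTINUOUS; the differentiability is needed only in the spinor, at the
fixed parameter `pi e`, `e = (1, 0)`.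
-/

set_option autoImplicit false

open Set Function Topology

namespace Crest.Agent.R235.SwjAbs_844

open Crest.Agent.R235

/-- `ℂ²` -/
abbrev C2 : Type := EuclideanSpace ℂ (Fin 2)

/-- the point `(1, 0)` of `ℂ²`. -/
noncomputable def e0 : C2 := EuclideanSpace.single 0 1

/-- **the abstract data**.  `P` = the spinors, `Y` = the target of the Dirac operator.  The equations
are `KA t x = 0` (harmonic part of the curvature equation) and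
`L x + ∑ hᵢ Mᵢ x + KP t x = 0` (Dirac equation), `‖t‖ ≤ 1`, `h ∈ ℝᵇ`. -/
structure JData (b bp : ℕ) (P Y : Type) [NormedAddCommGroup P] [NormedSpace ℝ P]
    [CompleteSpace P] [NormedAddCommGroup Y] [InnerProductSpace ℝ Y] [CompleteSpace Y] where
  L : P →L[ℝ] Y
  M : Fin b → P →L[ℝ] Y
  KA : E3 → P → EuclideanSpace ℝ (Fin bp)
  KP : E3 → P → Y
  /-- the complex structure of the spinors -/
  I : P →L[ℝ] P
  /-- the (real) `L²` product -/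
  B : P →L[ℝ] P →L[ℝ] ℝ
  /-- gauge transformations of `H¹(M; ℤ)` -/
  U : (Fin b → ℤ) → P ≃L[ℝ] P
  V : (Fin b → ℤ) → Y ≃L[ℝ] Y
  /-- the Hopf map and the solutions over the unit sphere -/
  pi : C2 → E3
  Q : C2 → P
  /-- derivatives at `Q e0` -/
  KA' : P →L[ℝ] EuclideanSpace ℝ (Fin bp)
  KP' : P →L[ℝ] Y
  fred : FDADef_365.Fred L
  index : FDADef_365.ind L + b = 1 + bp
  cptM : ∀ i, IsCompactOperator (M i)
  cKA : ContinuousOn (fun q : E3 × P => KA q.1 q.2) {q | ‖q.1‖ ≤ 1}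
  cKP : ContinuousOn (fun q : E3 × P => KP q.1 q.2) {q | ‖q.1‖ ≤ 1}
  cptA : ∀ R : ℝ, ∃ C, IsCompact C ∧ ∀ t x, ‖t‖ ≤ 1 → ‖x‖ ≤ R → KA t x ∈ C
  cptP : ∀ R : ℝ, ∃ C, IsCompact C ∧ ∀ t x, ‖t‖ ≤ 1 → ‖x‖ ≤ R → KP t x ∈ C
  evenA : ∀ t x, ‖t‖ ≤ 1 → KA t (-x) = KA t x
  oddP : ∀ t x, ‖t‖ ≤ 1 → KP t (-x) = - KP t x
  U_add : ∀ m n x, U (m + n) x = U m (U n x)
  V_add : ∀ m n y, V (m + n) y = V m (V n y)
  latA : ∀ m t x, ‖t‖ ≤ 1 → KA t (U m x) = KA t x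
  latP : ∀ m t x, ‖t‖ ≤ 1 → KP t (U m x) = V m (KP t x)
  latM : ∀ m i x, M i (U m x) = V m (M i x)
  latL : ∀ m x, L (U m x) + ∑ i, (m i : ℝ) • M i (U m x) = V m (L x)
  I_I : ∀ x, I (I x) = -x
  B_symm : ∀ x y, B x y = B y x
  B_I : ∀ x y, B (I x) (I y) = B x y
  /-- a priori bound over the cell -/
  bdd : ∃ R : ℝ, ∀ (t : E3) (h : Fin b → ℝ) (x : P), ‖t‖ ≤ 1 → (∀ i, h i ∈ Icc (0 : ℝ) 1) →
    KA t x = 0 → L x + ∑ i, h i • M i x + KP t x = 0 → ‖x‖ ≤ R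
  /-- no reducible solution -/
  irred : ∀ t, ‖t‖ ≤ 1 → KA t 0 ≠ 0
  cpi : Continuous pi
  npi : ∀ s, ‖s‖ = 1 → ‖pi s‖ = 1
  fpi : ∀ s s', ‖s‖ = 1 → ‖s'‖ = 1 → (pi s = pi s' ↔ ∃ z : ℂ, ‖z‖ = 1 ∧ s' = z • s)
  cQ : ContinuousOn Q {s | ‖s‖ = 1}
  eqQ : ∀ s (z : ℂ), ‖s‖ = 1 → ‖z‖ = 1 → Q (z • s) = z.re • Q s + z.im • I (Q s)
  posQ : ∀ s, ‖s‖ = 1 → 0 < B (Q s) (Q s)
  solA : KA (pi e0) (Q e0) = 0
  solP : L (Q e0) + KP (pi e0) (Q e0) = 0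
  /-- the solutions over the unit sphere -/
  uniq : ∀ (t : E3) (h : Fin b → ℝ) (x : P), ‖t‖ = 1 → KA t x = 0 →
    L x + ∑ i, h i • M i x + KP t x = 0 →
    ∃ (k : Fin b → ℤ) (s : C2), ‖s‖ = 1 ∧ pi s = t ∧ (∀ i, h i = k i) ∧ x = U k (Q s)
  dA : HasFDerivAt (KA (pi e0)) KA' (Q e0)
  dP : HasFDerivAt (KP (pi e0)) KP' (Q e0)
  /-- nondegeneracy at the fixed parameter `pi e0` -/
  ker : ∀ (κ : Fin b → ℝ) (v : P), KA' v = 0 → L v + ∑ i, κ i • M i (Q e0) + KP' v = 0 →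
    κ = 0 ∧ ∃ c : ℝ, v = c • I (Q e0)

end Crest.Agent.R235.SwjAbs_844
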