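import Crest.Agent.R235.SWPfD_435
import Crest.Agent.R235.SWJc_365
import Crest.Agent.R235.SWJu_133

/-!
Row 235 (S0364), node SWJA (owner helper365), leaf (a) (helper435): the gauge transformations
`U m = g^{-m}` on `W^{1,2}(D0)`, `V m = g^{-m}` on `L²(D1)`, the complex structure `I`, and the
covariance of the linear and nonlinear parts (the fields `U, V, I, U_add, V_add, I_I, latL, latM, latA,
latP` of `JData`).
-/

set_option autoImplicit false
set_option maxSynthPendingDepth 3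
set_option linter.unusedSectionVars false

open scoped ContDiff ENNReal NNReal Topology Manifold Bundle RealInnerProductSpace
open MeasureTheory Set Filter Metric Bundle

universe v

noncomputable section

namespace Crest.Agent.R235.SWJu_435

open Crest.Agent.R249.Tv57 Crest.Agent.R247.Ms322 Crest.Agent.R247.Dir593
open Crest.Agent.R235.SWDefs_53 Crest.Agent.R235.CptB_755 Crest.Agent.R235.Fs4_546
open Crest.Agent.R235.CptC_755 Crest.Agent.R235.Cpt_755 Crest.Agent.R235.Fred_649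
open Crest.Agent.R235.Swx_333 Crest.Agent.R235.SWSym_451 Crest.Agent.R235.SWPf_435
open Crest.Agent.R235.FamR_151

section main

variable {M : Type v} [MetricSpace M] [CompactSpace M] [ConnectedSpace M]
  [ChartedSpace (EuclideanSpace ℝ (Fin 4)) M] [IsManifold (𝓡 4) ∞ M]
  [RiemannianBundle (fun p : M => TangentSpace (𝓡 4) p)]
  [IsContMDiffRiemannianBundle (𝓡 4) ∞ (EuclideanSpace ℝ (Fin 4))
    (fun p : M => TangentSpace (𝓡 4) p)]
  [IsRiemannianManifold (𝓡 4) M] [MeasurableSpace M] [BorelSpace M]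
  [SecondCountableTopology M] [Nonempty M] [IsFiniteMeasureOnCompacts (μHE[4] : Measure M)]
  {κ0 κ1 κT : Type} [Fintype κ0] [Fintype κ1] [Fintype κT]
  {S : SWS M κ0 κ1 κT} {cc : κ1 → κ0 → M → EuclideanSpace ℝ (Fin 4)} {J1 : κ1 → κ1 → M → ℝ}
  {b bp : ℕ} {j : JD M κT b}

local notation "μM" => (μHE[4] : Measure M)

/-- multiplication by `g^{-m}` on `W^{1,2}(D0)`. -/
def UU (H : Sym S cc) (hj : j.OK S) (m : Fin b → ℤ) : S.D0.toAD.WE ≃L[ℝ] S.D0.toAD.WE :=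
  ContinuousLinearEquiv.equivOfInverse (UR H hj m) (UR H hj (-m))
    (fun x => by rw [← UR_add, neg_add_cancel, UR_zero])
    (fun x => by rw [← UR_add, add_neg_cancel, UR_zero])

/-- multiplication by `g^{-m}` on `L²(D1)`. -/
def VV (C : CJ1 S cc J1) (hj : j.OK S) (m : Fin b → ℤ) : S.D1.toAD.HE ≃L[ℝ] S.D1.toAD.HE :=
  ContinuousLinearEquiv.equivOfInverse (VH C hj m) (VH C hj (-m))
    (fun x => by rw [← VH_add, neg_add_cancel, VH_zero])
    (fun x => by rw [← VH_add, add_neg_cancel, VH_zero])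

/-- the complex structure of `W^{1,2}(D0)`. -/
def II (H : Sym S cc) : S.D0.toAD.WE →L[ℝ] S.D0.toAD.WE := JW (cs0 H)

theorem UU_apply (H : Sym S cc) (hj : j.OK S) (m : Fin b → ℤ) (x : S.D0.toAD.WE) :
    UU H hj m x = UR H hj m x := rfl

theorem VV_apply (C : CJ1 S cc J1) (hj : j.OK S) (m : Fin b → ℤ) (y : S.D1.toAD.HE) :
    VV C hj m y = VH C hj m y := rfl

theorem coe_UU (H : Sym S cc) (hj : j.OK S) (m : Fin b → ℤ) (x : S.D0.toAD.WE) :
    ∀ᵐ z ∂μM, ∀ y, rp (UU H hj m x) y z = j.gau S (fun i => - m i) (rp x) y z :=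
  coe_UR H hj m x

theorem coe_VV (C : CJ1 S cc J1) (hj : j.OK S) (m : Fin b → ℤ) (f : S.D1.toAD.HE) :
    ∀ᵐ z ∂μM, ∀ x, (((VV C hj m f : S.D1.toAD.HE) : HH μM κ1) x : M → ℝ) z =
      SWJu_133.gre j (fun i => - m i) z * ((f : HH μM κ1) x : M → ℝ) z +
        SWJu_133.gim j (fun i => - m i) z *
          ∑ x', J1 x x' z * ((f : HH μM κ1) x' : M → ℝ) z := by
  filter_upwards [coe_MH (cs1 C) (Swx_333.bm_smooth (cp_gk hj (-m)).smr)
    (Swx_333.bm_smooth (cp_gk hj (-m)).smi) f] with z e1 x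
  exact e1 x

theorem coe_II (H : Sym S cc) (x : S.D0.toAD.WE) :
    ∀ᵐ z ∂μM, ∀ y, rp (II H x) y z = S.iu (rp x) y z := coe_JW (cs0 H) x

theorem II_II (H : Sym S cc) (x : S.D0.toAD.WE) : II H (II H x) = -x := JW_JW (cs0 H) x

theorem UU_add (H : Sym S cc) (hj : j.OK S) (m n : Fin b → ℤ) (x : S.D0.toAD.WE) :
    UU H hj (m + n) x = UU H hj m (UU H hj n x) := UR_add H hj m n x

theorem VV_add (C : CJ1 S cc J1) (hj : j.OK S) (m n : Fin b → ℤ) (y : S.D1.toAD.HE) :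
    VV C hj (m + n) y = VV C hj m (VV C hj n y) := VH_add C hj m n y

theorem UU_zero (H : Sym S cc) (hj : j.OK S) (x : S.D0.toAD.WE) : UU H hj 0 x = x :=
  UR_zero H hj x

theorem VV_zero (C : CJ1 S cc J1) (hj : j.OK S) (y : S.D1.toAD.HE) : VV C hj 0 y = y :=
  VH_zero C hj y

theorem norm_VV (C : CJ1 S cc J1) (hj : j.OK S) (m : Fin b → ℤ) (y : S.D1.toAD.HE) :
    ‖VV C hj m y‖ = ‖y‖ := norm_VH C hj m y

/-- `LI` of `SWJc_365` is `CW`. -/
theorem LI_eq (hS : S.OK) (H : Sym S cc) (hj : j.OK S) (i : Fin b) (x : S.D0.toAD.WE) :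
    SWJc_365.LI hS hj i x = CW H (SWPf_435.sm_ei hj i) x := by
  refine HE_ext ?_
  filter_upwards [SWJc_365.coe_LI hS hj i x, coe_CW H (SWPf_435.sm_ei hj i) x] with z e1 e2 y
  rw [e2 y]
  exact e1 y

theorem DR_LI (hS : S.OK) (H : Sym S cc) (hj : j.OK S) (h : Fin b → ℝ) (x : S.D0.toAD.WE) :
    DR H hj h x = Ah S.P x + ∑ i, h i • SWJc_365.LI hS hj i x := by
  rw [DR_apply]
  simp only [LI_eq hS H hj]

/-- **latM** -/
theorem latM (hS : S.OK) (H : Sym S cc) (C : CJ1 S cc J1) (hj : j.OK S) (m : Fin b → ℤ)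
    (i : Fin b) (x : S.D0.toAD.WE) :
    SWJc_365.LI hS hj i (UU H hj m x) = VV C hj m (SWJc_365.LI hS hj i x) := by
  rw [LI_eq hS H, LI_eq hS H]
  exact CW_MW H C (SWPf_435.sm_ei hj i) (cp_gk hj (-m)).smr (cp_gk hj (-m)).smi x

/-- **latL** -/
theorem latL (hS : S.OK) (H : Sym S cc) (C : CJ1 S cc J1) (hj : j.OK S) (m : Fin b → ℤ)
    (x : S.D0.toAD.WE) :
    Ah S.P (UU H hj m x) + ∑ i, (m i : ℝ) • SWJc_365.LI hS hj i (UU H hj m x) =
      VV C hj m (Ah S.P x) := by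
  have h1 := DR_UR H C hj 0 m x
  rw [zero_add, DR_zero, DR_LI hS H hj] at h1
  exact h1

/-- the derivative version: all twists. -/
theorem latD (hS : S.OK) (H : Sym S cc) (C : CJ1 S cc J1) (hj : j.OK S) (h : Fin b → ℝ)
    (m : Fin b → ℤ) (x : S.D0.toAD.WE) :
    Ah S.P (UU H hj m x) + ∑ i, (h i + m i) • SWJc_365.LI hS hj i (UU H hj m x) =
      VV C hj m (Ah S.P x + ∑ i, h i • SWJc_365.LI hS hj i x) := by
  have h1 := DR_UR H C hj h m x
  rw [DR_LI hS H hj, DR_LI hS H hj] at h1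
  exact h1

/-- **latA** -/
theorem latA (hS : S.OK) {d : SWD M κT} (hd : d.Adm S) (H : Sym S cc) (hj : j.OK S) {R : ℝ}
    (hR : 0 < R) {t : E3} (ht : ‖t‖ ≤ 1) (m : Fin b → ℤ) (x : S.D0.toAD.WE) :
    Fq d R t (UU H hj m x) = Fq d R t x :=
  SWJu_133.Fq_gau hj.unit hS hd H hR ht (fun i => - m i) (coe_UU H hj m x)

theorem latKA (hS : S.OK) (HB : SWJc_365.HarB hS bp) {d : SWD M κT} (hd : d.Adm S)
    (H : Sym S cc) (hj : j.OK S) {R : ℝ} (hR : 0 < R) {t : E3} (ht : ‖t‖ ≤ 1) (m : Fin b → ℤ)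
    (x : S.D0.toAD.WE) : SWJc_365.KA HB d R t (UU H hj m x) = SWJc_365.KA HB d R t x := by
  unfold SWJc_365.KA
  rw [latA hS hd H hj hR ht]

/-- **latP** -/
theorem latP (hS : S.OK) {d : SWD M κT} (hd : d.Adm S) (s0 : Spec S.DL) (H : Sym S cc)
    (C : CJ1 S cc J1) (hj : j.OK S) {R : ℝ} (hR : 0 < R) {t : E3} (ht : ‖t‖ ≤ 1)
    (m : Fin b → ℤ) (x : S.D0.toAD.WE) :
    SWJc_365.KP hS hd s0 R t (UU H hj m x) = VV C hj m (SWJc_365.KP hS hd s0 R t x) :=
  SWJu_133.PL_KKt_gau hj.unit hS hd H C s0 hR ht (fun i => - m i) (coe_UU H hj m x)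
    (coe_VV C hj m _)

end main

end Crest.Agent.R235.SWJu_435

end
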