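import Crest.Agent.R235.FvX_844
import Crest.Agent.R235.SWJu_435
import Crest.Agent.R235.SWJqq_649
import Crest.Agent.R235.Hopf_143

/-!
Row 235 (S0364), block FAM (helper143), for `FWXH`: the Hopf family of solutions in the complex Hilbert
spaces.

* `eX_I`, `eX_smul`, `eX_U`: translation through `Rep`;
* `Psi` : `Ψ s = eX.symm (QQ s)`; `cPsi`, `eqPsi`, `nePsi`, `zz` : the fields of `HopfP` (`FamT_151`);
* `hopfP` : `HopfP`, from `z0` and `der` (952).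
-/

set_option autoImplicit false
set_option maxSynthPendingDepth 3
set_option linter.unusedSectionVars false

open scoped ContDiff ENNReal NNReal Topology Manifold Bundle RealInnerProductSpace
open MeasureTheory Set Filter Metric Bundle Module

universe v

noncomputable section

namespace Crest.Agent.R235.FvY_143

open Crest.Agent.R249.Tv57 Crest.Agent.R247.Ms322 Crest.Agent.R247.Dir593
open Crest.Agent.R235.SWDefs_53 Crest.Agent.R235.CptB_755 Crest.Agent.R235.Fs4_546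
open Crest.Agent.R235.CptC_755 Crest.Agent.R235.Cpt_755 Crest.Agent.R235.Fred_649
open Crest.Agent.R235.Swx_333 Crest.Agent.R235.SWSym_451 Crest.Agent.R235.SWJc_365
open Crest.Agent.R235.SWJq_365 Crest.Agent.R235.SWJz_365 Crest.Agent.R235.FvA_844
open Crest.Agent.R235.FamR_151 (PFam zv HopfP)
open Crest.Agent.R235.Hopf_143 (hopf)

abbrev C2 := EuclideanSpace ℂ (Fin 2)

section main

variable {M : Type v} [MetricSpace M] [CompactSpace M] [ConnectedSpace M]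
  [ChartedSpace (EuclideanSpace ℝ (Fin 4)) M] [IsManifold (𝓡 4) ∞ M]
  [RiemannianBundle (fun p : M => TangentSpace (𝓡 4) p)]
  [IsContMDiffRiemannianBundle (𝓡 4) ∞ (EuclideanSpace ℝ (Fin 4))
    (fun p : M => TangentSpace (𝓡 4) p)]
  [IsRiemannianManifold (𝓡 4) M] [MeasurableSpace M] [BorelSpace M]
  [SecondCountableTopology M] [Nonempty M] [IsFiniteMeasureOnCompacts (μHE[4] : Measure M)]
  {κ0 κ1 κT : Type} [Fintype κ0] [Fintype κ1] [Fintype κT] {b bp : ℕ}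

variable {S : SWS M κ0 κ1 κT} {cc : κ1 → κ0 → M → EuclideanSpace ℝ (Fin 4)}
  {J1 : κ1 → κ1 → M → ℝ} {j : JD M κT b} {d : SWD M κT}
  {ww : Fin 3 → Fin 3 → M → ℝ} {τ : E3 → TD M κT} {C : ℝ} {th : E3 → κT → M → ℝ}
  {pi : C2 → E3} {U : C2 → κ0 → M → ℝ}
  {X Y : Type v} [NormedAddCommGroup X] [InnerProductSpace ℂ X] [CompleteSpace X]
  [NormedAddCommGroup Y] [InnerProductSpace ℂ Y] [CompleteSpace Y]
  {Φ : PFam b X Y} {eX : X ≃L[ℝ] S.D0.toAD.WE} {eY : Y ≃L[ℝ] S.D1.toAD.HE}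
  {φ : Fin b → M → ℝ}

/-! ### translation -/

theorem eX_I (hrep : Rep S j J1 Φ eX eY φ) (hc : Sym S cc) (x : X) :
    eX (Complex.I • x) = SWJu_435.II hc (eX x) := by
  refine we_ext ?_
  filter_upwards [hrep.iX x, SWJu_435.coe_II hc (eX x)] with z e1 e2 y
  rw [e1 y, e2 y]

theorem eX_smul (hrep : Rep S j J1 Φ eX eY φ) (hc : Sym S cc) (z : ℂ) (x : X) :
    eX (z • x) = z.re • eX x + z.im • SWJu_435.II hc (eX x) := by
  rw [smul_split z x, map_add, map_smul, map_smul, eX_I hrep hc]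

theorem eX_U (hrep : Rep S j J1 Φ eX eY φ) (hc : Sym S cc) (hj : j.OK S) (k : Fin b → ℤ) (x : X) :
    eX (Φ.U k x) = SWJu_435.UU hc hj k (eX x) := by
  refine we_ext ?_
  filter_upwards [hrep.U k x, SWJu_435.coe_UU hc hj k (eX x)] with z e1 e2 y
  rw [e1 y, e2 y]

/-! ### the family of solutions -/

/-- `Ψ s`. -/
def Psi (eX : X ≃L[ℝ] S.D0.toAD.WE) (hH : HopfD S ww τ C th pi U) (r : ℝ) (s : C2) : X :=
  eX.symm (QQ hH r s)

theorem eX_Psi (hH : HopfD S ww τ C th pi U) (r : ℝ) (s : C2) :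
    eX (Psi eX hH r s) = QQ hH r s := eX.apply_symm_apply _

theorem sphere_eq : Metric.sphere (0 : C2) 1 = {s | ‖s‖ = 1} := by
  ext s
  simp

theorem cPsi (hH : HopfD S ww τ C th pi U) (r : ℝ) :
    ContinuousOn (Psi eX hH r) (Metric.sphere 0 1) := by
  rw [sphere_eq]
  exact eX.symm.continuous.comp_continuousOn (SWJq_649.cQQ hH r)

theorem eqPsi (hrep : Rep S j J1 Φ eX eY φ) (hc : Sym S cc) (hH : HopfD S ww τ C th pi U) (r : ℝ)
    (z : ℂ) (hz : ‖z‖ = 1) (s : C2) (hs : ‖s‖ = 1) :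
    Psi eX hH r (z • s) = z • Psi eX hH r s := by
  apply eX.injective
  rw [eX_Psi, eX_smul hrep hc, eX_Psi]
  exact eqQ hH r (SWJu_435.coe_II hc) s z hs hz

theorem nePsi (hH : HopfD S ww τ C th pi U) {r : ℝ} (hr : 0 < r) (s : C2) (hs : ‖s‖ = 1) :
    Psi eX hH r s ≠ 0 := by
  intro h
  have h1 : QQ hH r s = 0 := by
    rw [← eX_Psi (eX := eX) hH r s, h, map_zero]
  have h2 := posQ hH hr hs
  rw [h1, Bl_apply] at h2
  have h3 : S.D0.toAD.jj (0 : S.D0.toAD.WE) = 0 := map_zero _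
  rw [h3, inner_zero_left] at h2
  exact lt_irrefl _ h2

/-- **the zeros over the unit sphere**. -/
theorem zz (hrep : Rep S j J1 Φ eX eY φ) (hZ : ZER.{v}) (hc : Sym S cc) (hj : j.OK S)
    (hS : S.OK) (hd : d.Adm S) (hH : HopfD S ww τ C th pi U) (hF : d.FFit S ww τ C th)
    (s0 : Spec S.DL) (H : HarB hS bp) {R C0 : ℝ} (hR : 0 < R) (hC : C0 < R ^ 2)
    (hsup : ∀ (h : Fin b → ℝ) (t : E3) (a : κT → M → ℝ) (u : κ0 → M → ℝ), ‖t‖ ≤ 1 →
      TSol S (d.tw j h) R t a u → ∀ᵐ z ∂(μHE[4] : Measure M), ∑ y, u y z ^ 2 ≤ C0)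
    (t : E3) (h : Fin b → ℝ) (x : X) (ht : ‖t‖ = 1) (h1 : Ex eX H d R t x = 0)
    (h2 : Φ.D h x + Kx eX eY hS hd s0 R t x = 0) :
    ∃ s : C2, ‖s‖ = 1 ∧ pi s = t ∧ ∃ k : Fin b → ℤ, h = zv k ∧ x = Φ.U k (Psi eX hH d.r s) := by
  rw [dirac_iff hrep hS hj] at h2
  obtain ⟨k, s, hs, hpi, hk, hx⟩ := uniq hZ hc hj hS hd hH hF s0 H hR hC
    (fun t h x ht h1 h2 => (SWJn_333.zero_iff hS hj hd s0 H hR h ht x).1 ⟨h1, h2⟩) hsup
    (SWJu_435.UU hc hj) (SWJu_435.coe_UU hc hj) t h (eX x) ht h1 h2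
  refine ⟨s, hs, hpi, k, funext hk, ?_⟩
  apply eX.injective
  rw [eX_U hrep hc hj, eX_Psi]
  exact hx

/-- **`HopfP`**, from `z0` and `der` (952). -/
theorem hopfP (hrep : Rep S j J1 Φ eX eY φ) (hZ : ZER.{v}) (hc : Sym S cc) (hj : j.OK S)
    (hS : S.OK) (hd : d.Adm S) (hH : HopfD S ww τ C th pi U) (hF : d.FFit S ww τ C th)
    (s0 : Spec S.DL) (H : HarB hS bp) {R C0 : ℝ} (hR : 0 < R) (hC : C0 < R ^ 2)
    (hsup : ∀ (h : Fin b → ℝ) (t : E3) (a : κT → M → ℝ) (u : κ0 → M → ℝ), ‖t‖ ≤ 1 →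
      TSol S (d.tw j h) R t a u → ∀ᵐ z ∂(μHE[4] : Measure M), ∑ y, u y z ^ 2 ≤ C0)
    (A : E3 ≃ₗᵢ[ℝ] E3) (hA : ∀ s, ‖s‖ = 1 → pi s = A (hopf s))
    (hz0 : Ex eX H d R (pi Hopf_143.s0) (Psi eX hH d.r Hopf_143.s0) = 0 ∧
      Φ.D 0 (Psi eX hH d.r Hopf_143.s0) +
        Kx eX eY hS hd s0 R (pi Hopf_143.s0) (Psi eX hH d.r Hopf_143.s0) = 0)
    (hder : ∃ L : ((Fin b → ℝ) × X) →L[ℝ] EuclideanSpace ℝ (Fin bp) × Y,
      HasFDerivAt (fun w : (Fin b → ℝ) × X =>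
        (Ex eX H d R (pi Hopf_143.s0) w.2,
          Φ.D w.1 w.2 + Kx eX eY hS hd s0 R (pi Hopf_143.s0) w.2)) L
        ((0 : Fin b → ℝ), Psi eX hH d.r Hopf_143.s0) ∧
      (∀ w, L w = 0 → ∃ a : ℝ, w = (0, ((a : ℂ) * Complex.I) • Psi eX hH d.r Hopf_143.s0)) ∧
      ∀ z, ∃ w, L w = z) :
    HopfP Φ (Kc eX eY hS hd s0 R) (Ec eX H d R) (fun s => A (hopf s)) (Psi eX hH d.r) := by
  have hn : ‖Hopf_143.s0‖ = 1 := Hopf_143.norm_s0
  have e0 : A (hopf Hopf_143.s0) = pi Hopf_143.s0 := (hA _ hn).symm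
  have hp0 : ‖pi Hopf_143.s0‖ ≤ 1 := (hH.npi _ hn).le
  have eK : ∀ x, Kc eX eY hS hd s0 R (A (hopf Hopf_143.s0)) x =
      Kx eX eY hS hd s0 R (pi Hopf_143.s0) x := fun x => by rw [e0, Kc_of hp0]
  have eE : ∀ x, Ec eX H d R (A (hopf Hopf_143.s0)) x =
      Ex eX H d R (pi Hopf_143.s0) x := fun x => by rw [e0, Ec_of hp0]
  exact {
    cpi := (A.continuous.comp Hopf_143.continuous_hopf).continuousOn
    npi := fun s hs => by
      show ‖A (hopf s)‖ = 1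
      rw [← hA s hs]
      exact hH.npi s hs
    piz := fun z hz s hs => by
      have h1 : ‖z • s‖ = 1 := by rw [norm_smul, hz, hs, mul_one]
      show A (hopf (z • s)) = A (hopf s)
      rw [← hA s hs, ← hA _ h1]
      exact ((hH.fpi s (z • s) hs h1).2 ⟨z, hz, rfl⟩).symm
    fib := fun s s' hs hs' h => by
      refine (hH.fpi s s' hs hs').1 ?_
      rw [hA s hs, hA s' hs']
      exact h
    cΨ := cPsi hH d.r
    eqΨ := fun z hz s hs => eqPsi hrep hc hH d.r z hz s hs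
    neΨ := fun s hs => nePsi hH hF.rpos s hs
    z0 := by
      refine ⟨(eE _).trans hz0.1, ?_⟩
      show Φ.D 0 _ + Kc eX eY hS hd s0 R (A (hopf Hopf_143.s0)) _ = 0
      rw [eK]
      exact hz0.2
    zz := fun t h x ht h1 h2 => by
      rw [Ec_of ht.le] at h1
      rw [Kc_of ht.le] at h2
      obtain ⟨s, hs, hpi, hk⟩ := zz hrep hZ hc hj hS hd hH hF s0 H hR hC hsup t h x ht h1 h2
      refine ⟨s, hs, ?_, hk⟩
      show A (hopf s) = t
      rw [← hA s hs]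
      exact hpi
    der := by
      show ∃ L : ((Fin b → ℝ) × X) →L[ℝ] EuclideanSpace ℝ (Fin bp) × Y,
        HasFDerivAt (fun w : (Fin b → ℝ) × X =>
          (Ec eX H d R (A (hopf Hopf_143.s0)) w.2,
            Φ.D w.1 w.2 + Kc eX eY hS hd s0 R (A (hopf Hopf_143.s0)) w.2)) L _ ∧ _
      simp only [eK, eE]
      exact hder }

end main

end Crest.Agent.R235.FvY_143

end
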