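import Mathlib
import Crest.Agent.R235.GalA_755
import Crest.Agent.R235.FdB_356

/-!
Row 235 (S0364), helper755. Task GAL: the Galerkin step of the finite dimensional reduction.
`no_map` : there is no `Z/2`-equivariant compact perturbation of a Fredholm map of positive index
(on the odd part) over a ball, with a bounded zero set, without zeros over the boundary sphere,
whose fixed part is homotopic (straight line) to a linear isomorphism.
-/

set_option autoImplicit false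

open Set Filter Topology Module

namespace Crest.Agent.R235.Gal_755

open Crest.Agent.R235.GalA_755

section dims

variable {Xp Yp : Type*} [NormedAddCommGroup Xp] [InnerProductSpace ℝ Xp]
  [NormedAddCommGroup Yp] [InnerProductSpace ℝ Yp]

/-- the restriction of `L` to the preimage of `W`. -/
def resW (L : Xp →L[ℝ] Yp) (W : Submodule ℝ Yp) :
    (W.comap (L : Xp →ₗ[ℝ] Yp)) →ₗ[ℝ] W :=
  (L : Xp →ₗ[ℝ] Yp).restrict (p := W.comap (L : Xp →ₗ[ℝ] Yp)) (q := W) (fun _ hx => hx)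

theorem resW_apply (L : Xp →L[ℝ] Yp) (W : Submodule ℝ Yp)
    (x : W.comap (L : Xp →ₗ[ℝ] Yp)) : ((resW L W x : W) : Yp) = L (x : Xp) := rfl

/-- the kernel of the restriction is the kernel. -/
def kerEquiv (L : Xp →L[ℝ] Yp) (W : Submodule ℝ Yp) :
    LinearMap.ker (resW L W) ≃ₗ[ℝ] LinearMap.ker (L : Xp →ₗ[ℝ] Yp) where
  toFun x := ⟨((x : W.comap (L : Xp →ₗ[ℝ] Yp)) : Xp), by
    have hx : resW L W x.1 = 0 := x.2
    have h1 : ((resW L W x.1 : W) : Yp) = 0 := by rw [hx]; rfl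
    exact h1⟩
  map_add' x y := rfl
  map_smul' c x := rfl
  invFun y := ⟨⟨(y : Xp), by
    have hy : L (y : Xp) = 0 := y.2
    show L (y : Xp) ∈ W
    rw [hy]; exact W.zero_mem⟩, by
    have hy : L (y : Xp) = 0 := y.2
    exact Subtype.ext hy⟩
  left_inv x := rfl
  right_inv y := rfl

/-- finite dimensionality of the preimage of a finite dimensional space. -/
theorem finDim_comap (L : Xp →L[ℝ] Yp)
    (hk : FiniteDimensional ℝ (LinearMap.ker (L : Xp →ₗ[ℝ] Yp)))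
    (W : Submodule ℝ Yp) (hW : FiniteDimensional ℝ W) :
    FiniteDimensional ℝ (W.comap (L : Xp →ₗ[ℝ] Yp)) := by
  have hker : FiniteDimensional ℝ (LinearMap.ker (resW L W)) :=
    LinearEquiv.finiteDimensional (kerEquiv L W).symm
  have hq : FiniteDimensional ℝ
      ((W.comap (L : Xp →ₗ[ℝ] Yp)) ⧸ LinearMap.ker (resW L W)) :=
    LinearEquiv.finiteDimensional (resW L W).quotKerEquivRange.symm
  exact Module.Finite.of_submodule_quotient (LinearMap.ker (resW L W))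

/-- the dimension count. -/
theorem dim_lt [CompleteSpace Yp] (L : Xp →L[ℝ] Yp)
    (hk : FiniteDimensional ℝ (LinearMap.ker (L : Xp →ₗ[ℝ] Yp)))
    (hr : IsClosed (Set.range L))
    (hind : finrank ℝ ((LinearMap.range (L : Xp →ₗ[ℝ] Yp))ᗮ : Submodule ℝ Yp) <
      finrank ℝ (LinearMap.ker (L : Xp →ₗ[ℝ] Yp)))
    (W : Submodule ℝ Yp) (hW : FiniteDimensional ℝ W)
    (hWr : (LinearMap.range (L : Xp →ₗ[ℝ] Yp))ᗮ ≤ W) :
    finrank ℝ W < finrank ℝ (W.comap (L : Xp →ₗ[ℝ] Yp)) := by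
  have hcf := finDim_comap L hk W hW
  have h1 := (resW L W).finrank_range_add_finrank_ker
  have h2 : finrank ℝ (LinearMap.ker (resW L W)) =
      finrank ℝ (LinearMap.ker (L : Xp →ₗ[ℝ] Yp)) := (kerEquiv L W).finrank_eq
  have hclosed : IsClosed ((LinearMap.range (L : Xp →ₗ[ℝ] Yp) : Submodule ℝ Yp) : Set Yp) := by
    have : ((LinearMap.range (L : Xp →ₗ[ℝ] Yp) : Submodule ℝ Yp) : Set Yp) = Set.range L := by
      ext y; simp
    rw [this]; exact hr
  have hperp : ((LinearMap.range (L : Xp →ₗ[ℝ] Yp))ᗮ)ᗮ = LinearMap.range (L : Xp →ₗ[ℝ] Yp) := by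
    rw [Submodule.orthogonal_orthogonal_eq_closure]
    exact hclosed.submodule_topologicalClosure_eq
  have h3 := Submodule.finrank_add_inf_finrank_orthogonal hWr
  rw [hperp] at h3
  have h4 : finrank ℝ (LinearMap.range (resW L W)) =
      finrank ℝ (LinearMap.range (L : Xp →ₗ[ℝ] Yp) ⊓ W : Submodule ℝ Yp) := by
    have hmap : (LinearMap.range (resW L W)).map W.subtype =
        LinearMap.range (L : Xp →ₗ[ℝ] Yp) ⊓ W := by
      ext y
      constructor
      · rintro ⟨w, ⟨x, rfl⟩, rfl⟩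
        exact ⟨⟨(x : Xp), rfl⟩, (resW L W x).2⟩
      · rintro ⟨⟨x, rfl⟩, hxW⟩
        exact ⟨⟨L x, hxW⟩, ⟨⟨x, hxW⟩, rfl⟩, rfl⟩
    rw [← hmap]
    exact (LinearEquiv.finrank_eq (Submodule.equivMapOfInjective W.subtype
      (Submodule.injective_subtype W) _))
  omega

end dims

section main

variable {T Xa Xp Ya Yp : Type*}
  [NormedAddCommGroup T] [NormedSpace ℝ T] [FiniteDimensional ℝ T]
  [NormedAddCommGroup Xa] [InnerProductSpace ℝ Xa] [CompleteSpace Xa]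
  [NormedAddCommGroup Xp] [InnerProductSpace ℝ Xp] [CompleteSpace Xp]
  [NormedAddCommGroup Ya] [InnerProductSpace ℝ Ya] [CompleteSpace Ya]
  [NormedAddCommGroup Yp] [InnerProductSpace ℝ Yp] [CompleteSpace Yp]

/-- radial profile. -/
noncomputable def rho (R : ℝ) (x : ℝ) : ℝ := R * (max 0 (2 * x - 1) / max x (1 / 2))

/-- homotopy parameter. -/
noncomputable def sig (x : ℝ) : ℝ := max 0 (1 - 2 * x)

theorem cont_rho (R : ℝ) : Continuous (rho R) := by
  unfold rho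
  refine continuous_const.mul (Continuous.div ?_ ?_ ?_)
  · exact continuous_const.max (by fun_prop)
  · exact continuous_id.max continuous_const
  · intro x
    have : (1 / 2 : ℝ) ≤ max x (1 / 2) := le_max_right _ _
    linarith

theorem cont_sig : Continuous sig := by
  unfold sig
  exact continuous_const.max (by fun_prop)

theorem rho_low {R x : ℝ} (hx : x ≤ 1 / 2) : rho R x = 0 := by
  unfold rho
  rw [max_eq_left (by linarith), zero_div, mul_zero]

theorem rho_high {R x : ℝ} (hx : 1 / 2 ≤ x) : rho R x * x = R * (2 * x - 1) := by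
  unfold rho
  rw [max_eq_right (by linarith), max_eq_left hx]
  have : x ≠ 0 := by linarith
  field_simp

theorem rho_nonneg {R x : ℝ} (hR : 0 ≤ R) : 0 ≤ rho R x := by
  unfold rho
  have : (1 / 2 : ℝ) ≤ max x (1 / 2) := le_max_right _ _
  refine mul_nonneg hR (div_nonneg (le_max_left _ _) (by linarith))

theorem norm_rho_smul_le {E : Type*} [NormedAddCommGroup E] [NormedSpace ℝ E] {R : ℝ}
    (hR : 0 ≤ R) {p : E} (hp : ‖p‖ ≤ 1) : ‖rho R ‖p‖ • p‖ ≤ R := by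
  rw [norm_smul, Real.norm_eq_abs, abs_of_nonneg (rho_nonneg hR)]
  rcases le_total ‖p‖ (1 / 2) with h | h
  · rw [rho_low h, zero_mul]; exact hR
  · rw [rho_high h]; nlinarith

theorem norm_rho_smul_eq {E : Type*} [NormedAddCommGroup E] [NormedSpace ℝ E] {R : ℝ}
    (hR : 0 ≤ R) {p : E} (hp : ‖p‖ = 1) : ‖rho R ‖p‖ • p‖ = R := by
  rw [norm_smul, Real.norm_eq_abs, abs_of_nonneg (rho_nonneg hR), rho_high (by rw [hp]; norm_num),
    hp]
  ring

theorem sig_low {x : ℝ} (hx : x ≤ 1 / 2) : sig x = 1 - 2 * x := by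
  unfold sig; rw [max_eq_right (by linarith)]

theorem sig_high {x : ℝ} (hx : 1 / 2 ≤ x) : sig x = 0 := by
  unfold sig; rw [max_eq_left (by linarith)]

/-- **GALERKIN STEP** (node SWB of row 235). -/
theorem no_map (La : Xa →L[ℝ] Ya) (A : T →L[ℝ] Ya) (Lp : Xp →L[ℝ] Yp)
    (hA : Function.Bijective fun q : T × Xa => La q.2 + A q.1)
    (hk : FiniteDimensional ℝ (LinearMap.ker (Lp : Xp →ₗ[ℝ] Yp)))
    (hr : IsClosed (Set.range Lp))
    (hcok : FiniteDimensional ℝ ((LinearMap.range (Lp : Xp →ₗ[ℝ] Yp))ᗮ : Submodule ℝ Yp))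
    (hind : finrank ℝ ((LinearMap.range (Lp : Xp →ₗ[ℝ] Yp))ᗮ : Submodule ℝ Yp) <
      finrank ℝ (LinearMap.ker (Lp : Xp →ₗ[ℝ] Yp)))
    (Ka : T → Xa → Xp → Ya) (Kp : T → Xa → Xp → Yp)
    (hKa : ContinuousOn (fun q : T × (Xa × Xp) => Ka q.1 q.2.1 q.2.2) {q | ‖q.1‖ ≤ 1})
    (hKp : ContinuousOn (fun q : T × (Xa × Xp) => Kp q.1 q.2.1 q.2.2) {q | ‖q.1‖ ≤ 1})
    (hCa : ∀ R : ℝ, ∃ C : Set Ya, IsCompact C ∧
      ∀ t a p, ‖t‖ ≤ 1 → ‖a‖ ≤ R → ‖p‖ ≤ R → Ka t a p ∈ C)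
    (hCp : ∀ R : ℝ, ∃ C : Set Yp, IsCompact C ∧
      ∀ t a p, ‖t‖ ≤ 1 → ‖a‖ ≤ R → ‖p‖ ≤ R → Kp t a p ∈ C)
    (heven : ∀ t a p, ‖t‖ ≤ 1 → Ka t a (-p) = Ka t a p)
    (hodd : ∀ t a p, ‖t‖ ≤ 1 → Kp t a (-p) = -Kp t a p)
    (R : ℝ)
    (hzero : ∀ t a p, ‖t‖ ≤ 1 → La a + Ka t a p = 0 → Lp p + Kp t a p = 0 →
      ‖t‖ < 1 ∧ ‖a‖ < R ∧ ‖p‖ < R)
    (hred : ∀ s : ℝ, 0 ≤ s → s ≤ 1 → ∀ t a, ‖t‖ ≤ 1 →
      La a + ((1 - s) • Ka t a 0 + s • A t) = 0 → ‖t‖ < 1 ∧ ‖a‖ < R) :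
    False := by
  classical
  -- enlarge the radius
  obtain ⟨R1, hR1, hRR⟩ : ∃ R1 : ℝ, 1 ≤ R1 ∧ R ≤ R1 := ⟨max R 1, le_max_right _ _, le_max_left _ _⟩
  have hR0 : (0 : ℝ) < R1 := by linarith
  obtain ⟨Ca, hCac, hCa'⟩ := hCa R1
  obtain ⟨Cp, hCpc, hCp'⟩ := hCp R1
  have hpbA : PB (fun x => La x) := pb_of_bij La A hA
  have hpbP : PB (fun x => Lp x) := pb_of_fredholm Lp hk hr
  have hT : IsCompact (Metric.closedBall (0 : T) 1) := isCompact_closedBall _ _
  -- first lower bound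
  let B1 : Set (T × (Xa × Xp)) := {q | ‖q.1‖ ≤ 1 ∧ ‖q.2.1‖ ≤ R1 ∧ ‖q.2.2‖ ≤ R1 ∧
    (‖q.1‖ = 1 ∨ ‖q.2.1‖ = R1 ∨ ‖q.2.2‖ = R1)}
  have hB1 : IsClosed B1 := by
    have h1 : Continuous fun q : T × (Xa × Xp) => ‖q.1‖ := by fun_prop
    have h2 : Continuous fun q : T × (Xa × Xp) => ‖q.2.1‖ := by fun_prop
    have h3 : Continuous fun q : T × (Xa × Xp) => ‖q.2.2‖ := by fun_prop
    refine (isClosed_le h1 continuous_const).inter ((isClosed_le h2 continuous_const).inter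
      ((isClosed_le h3 continuous_const).inter ((isClosed_eq h1 continuous_const).union
        ((isClosed_eq h2 continuous_const).union (isClosed_eq h3 continuous_const)))))
  obtain ⟨e1, he1, hlow1⟩ := lower_bound (Q := T) (fun x : Xa × Xp => (La x.1, Lp x.2))
    (pb_prod hpbA hpbP) (by fun_prop) hT B1 hB1 R1
    (fun q hq => ⟨by simpa using hq.1, by
      rw [Prod.norm_def]; exact max_le hq.2.1 hq.2.2.1⟩)
    (fun q => (Ka q.1 q.2.1 q.2.2, Kp q.1 q.2.1 q.2.2))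
    ((hKa.mono fun q hq => hq.1).prodMk (hKp.mono fun q hq => hq.1))
    (hCac.prod hCpc)
    (fun q hq => ⟨hCa' _ _ _ hq.1 hq.2.1 hq.2.2.1, hCp' _ _ _ hq.1 hq.2.1 hq.2.2.1⟩)
    (by
      intro q hq h0
      have h1 : La q.2.1 + Ka q.1 q.2.1 q.2.2 = 0 := congrArg Prod.fst h0
      have h2 : Lp q.2.2 + Kp q.1 q.2.1 q.2.2 = 0 := congrArg Prod.snd h0
      obtain ⟨z1, z2, z3⟩ := hzero _ _ _ hq.1 h1 h2
      rcases hq.2.2.2 with h | h | h
      · exact absurd h (ne_of_lt z1)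
      · exact absurd h (ne_of_lt (lt_of_lt_of_le z2 hRR))
      · exact absurd h (ne_of_lt (lt_of_lt_of_le z3 hRR)))
  -- second lower bound
  let B2 : Set ((T × ℝ) × Xa) := {q | ‖q.1.1‖ ≤ 1 ∧ (0 ≤ q.1.2 ∧ q.1.2 ≤ 1) ∧ ‖q.2‖ ≤ R1 ∧
    (‖q.1.1‖ = 1 ∨ ‖q.2‖ = R1)}
  have hB2 : IsClosed B2 := by
    have h1 : Continuous fun q : (T × ℝ) × Xa => ‖q.1.1‖ := by fun_prop
    have h2 : Continuous fun q : (T × ℝ) × Xa => q.1.2 := by fun_prop
    have h3 : Continuous fun q : (T × ℝ) × Xa => ‖q.2‖ := by fun_prop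
    refine (isClosed_le h1 continuous_const).inter (((isClosed_le continuous_const h2).inter
      (isClosed_le h2 continuous_const)).inter ((isClosed_le h3 continuous_const).inter
        ((isClosed_eq h1 continuous_const).union (isClosed_eq h3 continuous_const))))
  let C2 : Set Ya := (fun z : (ℝ × Ya) × T => (1 - z.1.1) • z.1.2 + z.1.1 • A z.2) ''
    ((Icc (0 : ℝ) 1 ×ˢ Ca) ×ˢ Metric.closedBall (0 : T) 1)
  have hC2 : IsCompact C2 := by
    refine ((isCompact_Icc.prod hCac).prod hT).image ?_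
    fun_prop
  have hKa0 : ContinuousOn (fun q : (T × ℝ) × Xa => Ka q.1.1 q.2 0) B2 := by
    have hc : Continuous fun q : (T × ℝ) × Xa => ((q.1.1, (q.2, (0 : Xp))) : T × (Xa × Xp)) := by
      fun_prop
    exact hKa.comp hc.continuousOn (fun q hq => hq.1)
  obtain ⟨e2, he2, hlow2⟩ := lower_bound (Q := T × ℝ) (fun x : Xa => La x)
    hpbA La.continuous (hT.prod (isCompact_Icc (a := (0 : ℝ)) (b := 1))) B2 hB2 R1
    (fun q hq => ⟨⟨by simpa using hq.1, hq.2.1⟩, hq.2.2.1⟩)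
    (fun q => (1 - q.1.2) • Ka q.1.1 q.2 0 + q.1.2 • A q.1.1)
    (by
      refine ContinuousOn.add (ContinuousOn.smul (by fun_prop) hKa0) (by fun_prop))
    hC2
    (fun q hq => ⟨((q.1.2, Ka q.1.1 q.2 0), q.1.1),
      ⟨⟨hq.2.1, hCa' _ _ _ hq.1 hq.2.2.1 (by rw [norm_zero]; exact hR0.le)⟩,
        by simpa using hq.1⟩, rfl⟩)
    (by
      intro q hq h0
      obtain ⟨z1, z2⟩ := hred q.1.2 hq.2.1.1 hq.2.1.2 q.1.1 q.2 hq.1 h0
      rcases hq.2.2.2 with h | h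
      · exact absurd h (ne_of_lt z1)
      · exact absurd h (ne_of_lt (lt_of_lt_of_le z2 hRR)))
  -- finite dimensional subspaces
  obtain ⟨Wa, hWa0, hWaf, hWa⟩ := exists_approx hCac (LinearMap.range (A : T →ₗ[ℝ] Ya))
    (lt_min he1 he2)
  obtain ⟨Wp, hWp0, hWpf, hWp⟩ := exists_approx hCpc
    ((LinearMap.range (Lp : Xp →ₗ[ℝ] Yp))ᗮ : Submodule ℝ Yp) (lt_min he1 he2)
  have hkA : FiniteDimensional ℝ (LinearMap.ker (La : Xa →ₗ[ℝ] Ya)) := by
    have hinj : LinearMap.ker (La : Xa →ₗ[ℝ] Ya) = ⊥ := by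
      rw [LinearMap.ker_eq_bot]
      intro x y hxy
      have h1 : (fun q : T × Xa => La q.2 + A q.1) (0, x) =
          (fun q : T × Xa => La q.2 + A q.1) (0, y) := by
        simp only [map_zero, add_zero]; exact hxy
      have h2 := hA.1 h1
      exact congrArg Prod.snd h2
    rw [hinj]; infer_instance
  have hVa : FiniteDimensional ℝ (Wa.comap (La : Xa →ₗ[ℝ] Ya)) := finDim_comap La hkA Wa hWaf
  have hVp : FiniteDimensional ℝ (Wp.comap (Lp : Xp →ₗ[ℝ] Yp)) := finDim_comap Lp hk Wp hWpf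
  have hdim := dim_lt Lp hk hr hind Wp hWpf hWp0
  -- the surjection `T × Va → Wa`
  have hLaW : ∀ a : Wa.comap (La : Xa →ₗ[ℝ] Ya), La (R1 • (a : Xa)) ∈ Wa := by
    intro a
    rw [map_smul]
    exact Wa.smul_mem _ a.2
  have hAW : ∀ t : T, A t ∈ Wa := fun t => hWa0 ⟨t, rfl⟩
  let g : (T × (Wa.comap (La : Xa →ₗ[ℝ] Ya))) →ₗ[ℝ] Wa :=
    { toFun := fun q => ⟨La (R1 • (q.2 : Xa)) + A q.1, Wa.add_mem (hLaW q.2) (hAW q.1)⟩
      map_add' := by
        intro q q'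
        apply Subtype.ext
        simp only [Prod.fst_add, Prod.snd_add, Submodule.coe_add, smul_add, map_add]
        abel
      map_smul' := by
        intro c q
        apply Subtype.ext
        simp only [Prod.smul_fst, Prod.smul_snd, Submodule.coe_smul, map_smul, RingHom.id_apply,
          smul_add, smul_comm R1 c] }
  have hg : Function.Surjective g := by
    intro w
    obtain ⟨⟨t, a⟩, hta⟩ := hA.2 (w : Ya)
    simp only at hta
    have haW : La a ∈ Wa := by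
      have : La a = (w : Ya) - A t := by rw [← hta]; abel
      rw [this]
      exact Wa.sub_mem w.2 (hAW t)
    refine ⟨(t, R1⁻¹ • ⟨a, haW⟩), ?_⟩
    apply Subtype.ext
    show La (R1 • (R1⁻¹ • a)) + A t = (w : Ya)
    rw [smul_smul, mul_inv_cancel₀ hR0.ne', one_smul, hta]
  have hX : finrank ℝ Wa ≤ finrank ℝ (T × (Wa.comap (La : Xa →ₗ[ℝ] Ya))) :=
    LinearMap.finrank_le_finrank_of_surjective (f := g) hg
  -- the finite dimensional maps
  let P : T × (Wa.comap (La : Xa →ₗ[ℝ] Ya)) → (Wp.comap (Lp : Xp →ₗ[ℝ] Yp)) → Wa := fun x y =>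
    Wa.orthogonalProjectionOnto (La (R1 • (x.2 : Xa)) +
      ((1 - sig ‖y‖) • Ka x.1 (R1 • (x.2 : Xa)) (rho R1 ‖y‖ • (y : Xp)) + sig ‖y‖ • A x.1))
  let Q : T × (Wa.comap (La : Xa →ₗ[ℝ] Ya)) → (Wp.comap (Lp : Xp →ₗ[ℝ] Yp)) → Wp := fun x y =>
    Wp.orthogonalProjectionOnto (Lp (rho R1 ‖y‖ • (y : Xp)) +
      Kp x.1 (R1 • (x.2 : Xa)) (rho R1 ‖y‖ • (y : Xp)))
  have hsph : ∀ q : (T × (Wa.comap (La : Xa →ₗ[ℝ] Ya))) × (Wp.comap (Lp : Xp →ₗ[ℝ] Yp)),
      ‖q‖ = 1 → ‖q.1.1‖ ≤ 1 ∧ ‖q.1.2‖ ≤ 1 ∧ ‖q.2‖ ≤ 1 := by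
    intro q hq
    have h1 := norm_fst_le q
    have h2 := norm_snd_le q
    have h3 := norm_fst_le q.1
    have h4 := norm_snd_le q.1
    rw [hq] at h1 h2
    exact ⟨h3.trans h1, h4.trans h1, h2⟩
  have hinn : Continuous fun q : (T × (Wa.comap (La : Xa →ₗ[ℝ] Ya))) ×
      (Wp.comap (Lp : Xp →ₗ[ℝ] Yp)) =>
      ((q.1.1, (R1 • (q.1.2 : Xa), rho R1 ‖q.2‖ • (q.2 : Xp))) : T × (Xa × Xp)) := by
    have := cont_rho R1
    fun_prop
  have hinS : MapsTo (fun q : (T × (Wa.comap (La : Xa →ₗ[ℝ] Ya))) ×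
      (Wp.comap (Lp : Xp →ₗ[ℝ] Yp)) =>
      ((q.1.1, (R1 • (q.1.2 : Xa), rho R1 ‖q.2‖ • (q.2 : Xp))) : T × (Xa × Xp)))
      (Metric.sphere 0 1) {q | ‖q.1‖ ≤ 1} := by
    intro q hq
    exact (hsph q (by simpa using hq)).1
  have hPc : ContinuousOn (fun q : (T × (Wa.comap (La : Xa →ₗ[ℝ] Ya))) ×
      (Wp.comap (Lp : Xp →ₗ[ℝ] Yp)) => P q.1 q.2) (Metric.sphere 0 1) := by
    have hk1 := hKa.comp hinn.continuousOn hinS
    have hs := cont_sig
    refine (Wa.orthogonalProjectionOnto).continuous.comp_continuousOn ?_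
    refine ContinuousOn.add (by fun_prop) (ContinuousOn.add (ContinuousOn.smul ?_ hk1) ?_)
    · exact (by fun_prop : Continuous fun q : (T × (Wa.comap (La : Xa →ₗ[ℝ] Ya))) ×
        (Wp.comap (Lp : Xp →ₗ[ℝ] Yp)) => 1 - sig ‖q.2‖).continuousOn
    · exact (by fun_prop : Continuous fun q : (T × (Wa.comap (La : Xa →ₗ[ℝ] Ya))) ×
        (Wp.comap (Lp : Xp →ₗ[ℝ] Yp)) => sig ‖q.2‖ • A q.1.1).continuousOn
  have hQc : ContinuousOn (fun q : (T × (Wa.comap (La : Xa →ₗ[ℝ] Ya))) ×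
      (Wp.comap (Lp : Xp →ₗ[ℝ] Yp)) => Q q.1 q.2) (Metric.sphere 0 1) := by
    have hk1 := hKp.comp hinn.continuousOn hinS
    have hs := cont_rho R1
    refine (Wp.orthogonalProjectionOnto).continuous.comp_continuousOn ?_
    refine ContinuousOn.add ?_ hk1
    exact (by fun_prop : Continuous fun q : (T × (Wa.comap (La : Xa →ₗ[ℝ] Ya))) ×
        (Wp.comap (Lp : Xp →ₗ[ℝ] Yp)) => Lp (rho R1 ‖q.2‖ • (q.2 : Xp))).continuousOn
  obtain ⟨x, y, hxy, hP0, hQ0⟩ := FdB_356.fd_odd (X := T × (Wa.comap (La : Xa →ₗ[ℝ] Ya)))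
    (X' := Wa) (Y := Wp.comap (Lp : Xp →ₗ[ℝ] Yp)) (B := Wp) hdim hX one_pos P Q hPc hQc
    (by
      intro x y hxy
      obtain ⟨h1, -, -⟩ := hsph (x, y) hxy
      show Wa.orthogonalProjectionOnto _ = Wa.orthogonalProjectionOnto _
      simp only [norm_neg, Submodule.coe_neg, smul_neg]
      rw [heven _ _ _ h1])
    (by
      intro x y hxy
      obtain ⟨h1, -, -⟩ := hsph (x, y) hxy
      show Wp.orthogonalProjectionOnto _ = -Wp.orthogonalProjectionOnto _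
      simp only [norm_neg, Submodule.coe_neg, smul_neg]
      rw [hodd _ _ _ h1, ← map_neg]
      congr 1
      rw [map_neg]
      abel)
    (by
      intro x hx
      show Wa.orthogonalProjectionOnto _ = -Wa.orthogonalProjectionOnto _
      rw [← map_neg]
      congr 1
      have hs0 : sig ‖(0 : Wp.comap (Lp : Xp →ₗ[ℝ] Yp))‖ = 1 := by
        rw [norm_zero, sig_low (by norm_num)]; norm_num
      rw [hs0]
      simp only [sub_self, zero_smul, zero_add, one_smul, Prod.fst_neg, Prod.snd_neg,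
        Submodule.coe_neg, smul_neg, map_neg]
      abel)
  -- conclusion
  obtain ⟨hx1, hx2, hy1⟩ := hsph (x, y) hxy
  simp only at hx1 hx2 hy1
  set a : Xa := R1 • (x.2 : Xa) with ha
  set p : Xp := rho R1 ‖y‖ • (y : Xp) with hp
  have hna : ‖a‖ ≤ R1 := by
    rw [ha, norm_smul, Real.norm_eq_abs, abs_of_pos hR0]
    have : ‖(x.2 : Xa)‖ ≤ 1 := hx2
    nlinarith
  have hnp : ‖p‖ ≤ R1 := norm_rho_smul_le hR0.le (p := (y : Xp)) hy1
  have hKaC := hCa' x.1 a p hx1 hna hnp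
  have hKpC := hCp' x.1 a p hx1 hna hnp
  have hLaa : Wa.starProjection (La a) = La a := Submodule.starProjection_eq_self_iff.2 (hLaW x.2)
  have hAt : Wa.starProjection (A x.1) = A x.1 := Submodule.starProjection_eq_self_iff.2 (hAW x.1)
  have hLpp : Wp.starProjection (Lp p) = Lp p := by
    refine Submodule.starProjection_eq_self_iff.2 ?_
    rw [hp, map_smul]
    exact Wp.smul_mem _ y.2
  have hsig0 : 0 ≤ sig ‖y‖ := le_max_left _ _
  have hsig1 : sig ‖y‖ ≤ 1 := by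
    unfold sig
    refine max_le zero_le_one ?_
    have := norm_nonneg y
    linarith
  have hP1 : Wa.starProjection (La a + ((1 - sig ‖y‖) • Ka x.1 a p + sig ‖y‖ • A x.1)) = 0 := by
    have : ((Wa.orthogonalProjectionOnto
        (La a + ((1 - sig ‖y‖) • Ka x.1 a p + sig ‖y‖ • A x.1)) : Wa) : Ya) = 0 := by
      have h := hP0
      show ((P x y : Wa) : Ya) = 0
      rw [h]; rfl
    exact this
  have hQ1 : Wp.starProjection (Lp p + Kp x.1 a p) = 0 := by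
    have : ((Wp.orthogonalProjectionOnto (Lp p + Kp x.1 a p) : Wp) : Yp) = 0 := by
      have h := hQ0
      show ((Q x y : Wp) : Yp) = 0
      rw [h]; rfl
    exact this
  have hpn : ‖y‖ = 1 → ‖p‖ = R1 := fun h => norm_rho_smul_eq hR0.le (p := (y : Xp)) h
  clear_value a p
  have hva : ‖La a + ((1 - sig ‖y‖) • Ka x.1 a p + sig ‖y‖ • A x.1)‖ < min e1 e2 := by
    have heq : La a + ((1 - sig ‖y‖) • Ka x.1 a p + sig ‖y‖ • A x.1) =
        (1 - sig ‖y‖) • (Ka x.1 a p - Wa.starProjection (Ka x.1 a p)) := by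
      have h := hP1
      rw [map_add, map_add, map_smul, map_smul, hLaa, hAt] at h
      rw [smul_sub]
      have h' : La a + sig ‖y‖ • A x.1 = -((1 - sig ‖y‖) • Wa.starProjection (Ka x.1 a p)) := by
        rw [eq_neg_iff_add_eq_zero, ← h]; abel
      calc La a + ((1 - sig ‖y‖) • Ka x.1 a p + sig ‖y‖ • A x.1)
          = (1 - sig ‖y‖) • Ka x.1 a p + (La a + sig ‖y‖ • A x.1) := by abel
        _ = _ := by rw [h']; abel
    rw [heq, norm_smul, Real.norm_eq_abs, abs_of_nonneg (by linarith)]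
    have h1 := hWa _ hKaC
    have h2 : 0 ≤ ‖Ka x.1 a p - Wa.starProjection (Ka x.1 a p)‖ := norm_nonneg _
    nlinarith
  have hvp : ‖Lp p + Kp x.1 a p‖ < min e1 e2 := by
    have heq : Lp p + Kp x.1 a p = Kp x.1 a p - Wp.starProjection (Kp x.1 a p) := by
      have h := hQ1
      rw [map_add, hLpp] at h
      have h' : Lp p = -(Wp.starProjection (Kp x.1 a p)) := eq_neg_of_add_eq_zero_left h
      rw [h']; abel
    rw [heq]
    exact hWp _ hKpC
  have hbd : ‖x.1‖ = 1 ∨ ‖x.2‖ = 1 ∨ ‖y‖ = 1 := by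
    have h := hxy
    rw [Prod.norm_def, Prod.norm_def] at h
    simp only at h
    rcases max_choice (max ‖x.1‖ ‖x.2‖) ‖y‖ with h1 | h1
    · rw [h1] at h
      rcases max_choice ‖x.1‖ ‖x.2‖ with h2 | h2
      · rw [h2] at h; exact Or.inl h
      · rw [h2] at h; exact Or.inr (Or.inl h)
    · rw [h1] at h; exact Or.inr (Or.inr h)
  have ha1 : ‖x.2‖ = 1 → ‖a‖ = R1 := by
    intro h
    rw [ha, norm_smul, Real.norm_eq_abs, abs_of_pos hR0]
    have : ‖(x.2 : Xa)‖ = 1 := h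
    rw [this, mul_one]
  rcases le_total (1 / 2) ‖y‖ with hy | hy
  · -- outer region
    have hs0 : sig ‖y‖ = 0 := sig_high hy
    rw [hs0] at hva
    simp only [sub_zero, one_smul, zero_smul, add_zero] at hva
    have hmem : ((x.1, (a, p)) : T × (Xa × Xp)) ∈ B1 := by
      refine ⟨hx1, hna, hnp, ?_⟩
      rcases hbd with h | h | h
      · exact Or.inl h
      · exact Or.inr (Or.inl (ha1 h))
      · exact Or.inr (Or.inr (hpn h))
    have hl := hlow1 _ hmem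
    have hn : ‖((La a, Lp p) : Ya × Yp) + (Ka x.1 a p, Kp x.1 a p)‖ < e1 := by
      rw [Prod.mk_add_mk, Prod.norm_def]
      exact max_lt (hva.trans_le (min_le_left _ _)) (hvp.trans_le (min_le_left _ _))
    exact absurd hl (not_le.2 hn)
  · -- inner region
    have hp0 : p = 0 := by rw [hp, rho_low hy, zero_smul]
    rw [hp0] at hva
    have hmem : (((x.1, sig ‖y‖), a) : (T × ℝ) × Xa) ∈ B2 := by
      refine ⟨hx1, ⟨hsig0, hsig1⟩, hna, ?_⟩
      rcases hbd with h | h | h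
      · exact Or.inl h
      · exact Or.inr (ha1 h)
      · exfalso; linarith
    have hl := hlow2 _ hmem
    exact absurd hl (not_le.2 (hva.trans_le (min_le_right _ _)))

end main

end Crest.Agent.R235.Gal_755
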