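import Mathlib

/-!
Row 235 (S0364), REG-GLOB (helper370), part 1: the space of germs of branches.

`u i : ball 0 1 → M` continuous injective maps into a Hausdorff space.  A branch is the filter
`map (u i) (𝓝 z)` on `M`.  `Br u` is the space of branches, with the coinduced topology.
-/

set_option autoImplicit false
set_option linter.unusedSectionVars false

open Set Function Filter Metric Topology

universe u v

namespace Crest.Agent.R235.Glob_370

noncomputable section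

variable {M : Type u} [TopologicalSpace M] [T2Space M]

/-- comparison of germs. -/
lemma germ_le {f g : ℂ → M} {z w : ℂ} {W K : Set ℂ} (hf : ContinuousAt f z)
    (hg : ContinuousOn g (ball 0 1)) (hgi : InjOn g (ball 0 1)) (hK : IsCompact K)
    (hK1 : K ⊆ ball 0 1) (hWK : W ⊆ K) (hev : ∀ᶠ z' in 𝓝 z, f z' ∈ g '' W)
    (hw : w ∈ ball (0 : ℂ) 1) (h : f z = g w) : map f (𝓝 z) ≤ map g (𝓝 w) := by
  intro O hO
  rw [mem_map] at hO ⊢
  obtain ⟨O', hO'O, hO'o, hwO'⟩ := _root_.mem_nhds_iff.1 hO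
  have hK' : IsCompact (K \ O') := hK.diff hO'o
  have hcl : IsClosed (g '' (K \ O')) :=
    (hK'.image_of_continuousOn (hg.mono (diff_subset.trans hK1))).isClosed
  have hn : f z ∉ g '' (K \ O') := by
    rintro ⟨k, ⟨hk, hkO⟩, hk2⟩
    have : k = w := hgi (hK1 hk) hw (hk2.trans h)
    exact hkO (this ▸ hwO')
  have h2 : ∀ᶠ z' in 𝓝 z, f z' ∉ g '' (K \ O') :=
    hf.eventually (hcl.isOpen_compl.mem_nhds hn)
  filter_upwards [hev, h2] with z' h3 h4
  obtain ⟨x, hx, hxz⟩ := h3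
  have hxO : x ∈ O' := by
    by_contra hc
    exact h4 ⟨x, ⟨hWK hx, hc⟩, hxz⟩
  have : g x ∈ O := hO'O hxO
  rw [mem_preimage, ← hxz]
  exact this

/-- the limit point of a germ is determined. -/
lemma germ_pt {f g : ℂ → M} {z w : ℂ} (hf : ContinuousAt f z) (hg : ContinuousAt g w)
    (h : map f (𝓝 z) = map g (𝓝 w)) : f z = g w := by
  have h1 : Tendsto f (𝓝 z) (𝓝 (f z)) := hf
  have h2 : map g (𝓝 w) ≤ 𝓝 (g w) := hg
  have h3 : map g (𝓝 w) ≤ 𝓝 (f z) := h ▸ h1
  exact tendsto_nhds_unique (f := id) (l := map g (𝓝 w)) h3 h2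

/-- equal germs stay equal nearby. -/
lemma germ_open {f g : ℂ → M} {z w : ℂ} (hf : ContinuousOn f (ball 0 1))
    (hfi : InjOn f (ball 0 1)) (hg : ContinuousOn g (ball 0 1)) (hgi : InjOn g (ball 0 1))
    (hz : z ∈ ball (0 : ℂ) 1) (hw : w ∈ ball (0 : ℂ) 1) (h : map f (𝓝 z) = map g (𝓝 w))
    {V : Set ℂ} (hV : V ∈ 𝓝 z) :
    ∀ᶠ w' in 𝓝 w, ∃ z' ∈ V, z' ∈ ball (0 : ℂ) 1 ∧ map f (𝓝 z') = map g (𝓝 w') := by
  have hbz : ball (0 : ℂ) 1 ∈ 𝓝 z := isOpen_ball.mem_nhds hz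
  have hbw : ball (0 : ℂ) 1 ∈ 𝓝 w := isOpen_ball.mem_nhds hw
  obtain ⟨Ka, hKa, hKab, hKac⟩ := local_compact_nhds (inter_mem hbz hV)
  obtain ⟨Kb, hKb, hKbb, hKbc⟩ := local_compact_nhds hbw
  have hKa1 : Ka ⊆ ball 0 1 := hKab.trans inter_subset_left
  have hA : ∀ᶠ w' in 𝓝 w, g w' ∈ f '' (interior Ka) := by
    have : f '' (interior Ka) ∈ map f (𝓝 z) := image_mem_map (interior_mem_nhds.2 hKa)
    rw [h] at this
    exact this
  have hB : ∀ᶠ z' in 𝓝 z, f z' ∈ g '' (interior Kb) := by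
    have : g '' (interior Kb) ∈ map g (𝓝 w) := image_mem_map (interior_mem_nhds.2 hKb)
    rw [← h] at this
    exact this
  have hC : ∀ᶠ w' in 𝓝 w, g w' ∈ f '' ({z' | ∀ᶠ z'' in 𝓝 z', f z'' ∈ g '' (interior Kb)} ∩
      interior Ka) := by
    have h1 : {z' | ∀ᶠ z'' in 𝓝 z', f z'' ∈ g '' (interior Kb)} ∩ interior Ka ∈ 𝓝 z :=
      inter_mem hB.eventually_nhds (interior_mem_nhds.2 hKa)
    have : f '' ({z' | ∀ᶠ z'' in 𝓝 z', f z'' ∈ g '' (interior Kb)} ∩ interior Ka) ∈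
      map f (𝓝 z) := image_mem_map h1
    rw [h] at this
    exact this
  filter_upwards [hA.eventually_nhds, hC, interior_mem_nhds.2 hKb] with w' hA' hC' hKw
  obtain ⟨z', ⟨hz1, hz2⟩, hz3⟩ := hC'
  have hz'b : z' ∈ ball (0 : ℂ) 1 := hKa1 (interior_subset hz2)
  have hw'b : w' ∈ ball (0 : ℂ) 1 := hKbb (interior_subset hKw)
  refine ⟨z', (hKab (interior_subset hz2)).2, hz'b, le_antisymm ?_ ?_⟩
  · exact germ_le (hf.continuousAt (isOpen_ball.mem_nhds hz'b)) hg hgi hKbc hKbb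
      interior_subset hz1 hw'b hz3
  · exact germ_le (hg.continuousAt (isOpen_ball.mem_nhds hw'b)) hf hfi hKac hKa1
      interior_subset hA' hz'b hz3.symm

/-! ### the space -/

variable {ι : Type v}

/-- the set of branches. -/
def Br (u : ι → ℂ → M) : Type u :=
  {F : Filter M // ∃ i, ∃ z ∈ ball (0 : ℂ) 1, F = map (u i) (𝓝 z)}

/-- the parametrisations. -/
def phi (u : ι → ℂ → M) (i : ι) (z : ball (0 : ℂ) 1) : Br u :=
  ⟨map (u i) (𝓝 (z : ℂ)), i, z, z.2, rfl⟩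

instance (u : ι → ℂ → M) : TopologicalSpace (Br u) :=
  TopologicalSpace.coinduced (fun p : (_i : ι) × ball (0 : ℂ) 1 => phi u p.1 p.2) inferInstance

lemma isOpen_br {u : ι → ℂ → M} {O : Set (Br u)} : IsOpen O ↔ ∀ i, IsOpen (phi u i ⁻¹' O) := by
  rw [isOpen_coinduced, isOpen_sigma_iff]
  rfl

lemma continuous_phi (u : ι → ℂ → M) (i : ι) : Continuous (phi u i) := by
  rw [continuous_def]
  intro O hO
  exact isOpen_br.1 hO i

lemma continuous_br {u : ι → ℂ → M} {Y : Type*} [TopologicalSpace Y] {f : Br u → Y} :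
    Continuous f ↔ ∀ i, Continuous (f ∘ phi u i) := by
  constructor
  · intro h i
    exact h.comp (continuous_phi u i)
  · intro h
    rw [continuous_def]
    intro O hO
    rw [isOpen_br]
    intro i
    exact (h i).isOpen_preimage O hO

lemma exists_phi {u : ι → ℂ → M} (x : Br u) : ∃ i, ∃ z, phi u i z = x := by
  obtain ⟨F, i, z, hz, h⟩ := x
  exact ⟨i, ⟨z, hz⟩, Subtype.ext h.symm⟩

/-- the family of maps is admissible. -/
structure Adm (u : ι → ℂ → M) : Prop where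
  cont : ∀ i, ContinuousOn (u i) (ball 0 1)
  inj : ∀ i, InjOn (u i) (ball 0 1)

namespace Adm

variable {u : ι → ℂ → M} (h : Adm u)

include h

lemma contAt (i : ι) (z : ball (0 : ℂ) 1) : ContinuousAt (u i) z :=
  (h.cont i).continuousAt (isOpen_ball.mem_nhds z.2)

lemma pteq {i j : ι} {z w : ball (0 : ℂ) 1} (hzw : phi u i z = phi u j w) : u i z = u j w :=
  germ_pt (h.contAt i z) (h.contAt j w) (congrArg Subtype.val hzw)

lemma phi_inj (i : ι) : Injective (phi u i) := by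
  intro z w hzw
  exact Subtype.ext (h.inj i z.2 w.2 (h.pteq hzw))

lemma phi_open (i : ι) : IsOpenMap (phi u i) := by
  intro V hV
  rw [isOpen_br]
  intro j
  rw [isOpen_iff_mem_nhds]
  rintro w ⟨z, hz, hzw⟩
  obtain ⟨V', hV', hVV⟩ := isOpen_induced_iff.1 hV
  have hzV : (z : ℂ) ∈ V' := by
    have : z ∈ Subtype.val ⁻¹' V' := hVV ▸ hz
    exact this
  have h1 := germ_open (h.cont i) (h.inj i) (h.cont j) (h.inj j) z.2 w.2
    (congrArg Subtype.val hzw) (hV'.mem_nhds hzV)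
  have h2 : ∀ᶠ w' : ball (0 : ℂ) 1 in 𝓝 w, ∃ z' ∈ V', z' ∈ ball (0 : ℂ) 1 ∧
      map (u i) (𝓝 z') = map (u j) (𝓝 (w' : ℂ)) :=
    continuous_subtype_val.continuousAt.eventually h1
  filter_upwards [h2] with w' ⟨z', hz1, hz2, hz3⟩
  refine ⟨⟨z', hz2⟩, ?_, Subtype.ext hz3⟩
  rw [← hVV]
  exact hz1

lemma openEmb (i : ι) : IsOpenEmbedding (phi u i) :=
  IsOpenEmbedding.of_continuous_injective_isOpenMap (continuous_phi u i) (h.phi_inj i)
    (h.phi_open i)

end Adm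

open Classical in
/-- the point of a branch. -/
def pt (u : ι → ℂ → M) (x : Br u) : M := u x.2.choose x.2.choose_spec.choose

lemma Adm.pt_phi {u : ι → ℂ → M} (h : Adm u) (i : ι) (z : ball (0 : ℂ) 1) :
    pt u (phi u i z) = u i z := by
  have h1 := (phi u i z).2.choose_spec.choose_spec
  have h2 := germ_pt (h.contAt i z) (h.contAt _ ⟨_, h1.1⟩) h1.2
  exact h2.symm

lemma Adm.continuous_pt {u : ι → ℂ → M} (h : Adm u) : Continuous (pt u) := by
  rw [continuous_br]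
  intro i
  have : pt u ∘ phi u i = fun z : ball (0 : ℂ) 1 => u i z := funext fun z => h.pt_phi i z
  rw [this]
  exact (h.cont i).comp_continuous continuous_subtype_val fun z => z.2

end

end Crest.Agent.R235.Glob_370
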