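import Crest.Agent.R235.Glob3_370

/-!
Row 235 (S0364), REG-GLOB (helper370), part 4: the Riemann surface of all branches.
-/

set_option autoImplicit false
set_option maxSynthPendingDepth 3
set_option linter.unusedSectionVars false

open Set Function Filter MeasureTheory Metric
open scoped Manifold ContDiff Topology

universe u

namespace Crest.Agent.R235.Glob_370

open Crest.Agent.R240 Crest.Agent.R240.Ch

noncomputable section

instance nonempty_disc : Nonempty (ball (0 : ℂ) 1) := ⟨⟨0, mem_ball_self one_pos⟩⟩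

/-- the inclusion of the disc. -/
def inc : OpenPartialHomeomorph (ball (0 : ℂ) 1) ℂ :=
  (isOpen_ball (x := (0 : ℂ)) (ε := 1)).isOpenEmbedding_subtypeVal.toOpenPartialHomeomorph _

lemma inc_apply (z : ball (0 : ℂ) 1) : inc z = z := rfl

lemma inc_source : inc.source = univ := rfl

lemma inc_target : inc.target = ball (0 : ℂ) 1 := by
  rw [inc, Topology.IsOpenEmbedding.toOpenPartialHomeomorph_target]
  exact Subtype.range_coe

lemma inc_symm {z : ℂ} (hz : z ∈ ball (0 : ℂ) 1) : inc.symm z = ⟨z, hz⟩ := by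
  have h : inc.symm (inc ⟨z, hz⟩) = ⟨z, hz⟩ := inc.left_inv (mem_univ _)
  exact h

variable {M : Type u} [TopologicalSpace M] [ChartedSpace E4 M] [IsManifold 𝓘(ℝ, E4) ∞ M]
variable [T2Space M] [CompactSpace M]
variable {J : EndF E4 M} {S : Set M} (L : ∀ p, LocForm J S p)

/-- the index set of all branches. -/
abbrev Ix : Type u := (p : M) × Fin (L p).n

/-- the parametrisations of the branches. -/
def uu (a : Ix L) : ℂ → M := (L a.1).u a.2

lemma adm : Adm (uu L) where
  cont a := (L a.1).cont a.2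
  inj a := ((L a.1).disc a.2).inj

/-- the surface. -/
abbrev NN : Type u := Br (uu L)

/-- the map to `M`. -/
abbrev ff : NN L → M := pt (uu L)

lemma ff_phi (a : Ix L) (z : ball (0 : ℂ) 1) : ff L (phi (uu L) a z) = uu L a z :=
  (adm L).pt_phi a z

lemma ff_cont : Continuous (ff L) := (adm L).continuous_pt

/-- two branches at `p` are different. -/
lemma phi_ne {p : M} {i j : Fin (L p).n} {z w : ball (0 : ℂ) 1}
    (h : phi (uu L) ⟨p, i⟩ z = phi (uu L) ⟨p, j⟩ w) : i = j := by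
  by_contra hij
  have h1 : map ((L p).u i) (𝓝 (z : ℂ)) = map ((L p).u j) (𝓝 (w : ℂ)) := congrArg Subtype.val h
  have h2 : (L p).u j '' ball (0 : ℂ) 1 ∈ map ((L p).u i) (𝓝 (z : ℂ)) := by
    rw [h1]
    exact image_mem_map (isOpen_ball.mem_nhds w.2)
  have h3 : ∀ᶠ z' in 𝓝 (z : ℂ), z' = 0 := by
    filter_upwards [h2, isOpen_ball.mem_nhds z.2] with z' hz1 hz2
    obtain ⟨w', hw', hw2⟩ := hz1
    exact (L p).disj i j hij z' hz2 w' hw' hw2.symm
  obtain ⟨r, hr, hb⟩ := Metric.eventually_nhds_iff_ball.1 h3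
  have h4 := hb z (mem_ball_self hr)
  have h5 := hb (z + (r / 2 : ℝ)) (by
    rw [mem_ball, dist_eq_norm, add_sub_cancel_left, Complex.norm_real,
      Real.norm_of_nonneg (by linarith)]
    linarith)
  rw [h4, zero_add, Complex.ofReal_eq_zero] at h5
  linarith

lemma phi_eq {p : M} {i j : Fin (L p).n} {z w : ball (0 : ℂ) 1}
    (h : phi (uu L) ⟨p, i⟩ z = phi (uu L) ⟨p, j⟩ w) : i = j ∧ z = w := by
  obtain rfl := phi_ne L h
  exact ⟨rfl, (adm L).phi_inj _ h⟩

lemma uu_mem (a : Ix L) {z : ℂ} (hz : z ∈ ball (0 : ℂ) 1) : uu L a z ∈ S :=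
  ((L a.1).maps a.2 hz).1

/-- local form of transition: near a point over `U_p` the branch is a branch at `p`. -/
theorem trans_exists (a : Ix L) (z : ball (0 : ℂ) 1) {p : M} (hp : uu L a z ∈ (L p).U) :
    ∃ (j : Fin (L p).n) (r : ℝ) (h : ℂ → ℂ), 0 < r ∧ ball (z : ℂ) r ⊆ ball 0 1 ∧
      DifferentiableOn ℂ h (ball (z : ℂ) r) ∧ (∀ w ∈ ball (z : ℂ) r, deriv h w ≠ 0) ∧
      ∀ (w : ℂ) (_ : w ∈ ball (z : ℂ) r) (h1 : w ∈ ball (0 : ℂ) 1),
        ∃ h2 : h w ∈ ball (0 : ℂ) 1, phi (uu L) a ⟨w, h1⟩ = phi (uu L) ⟨p, j⟩ ⟨h w, h2⟩ := by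
  obtain ⟨j, r, hr, hrO, hj⟩ := (L p).exists_fac isOpen_ball ((L a.1).disc a.2).hol
    ((L a.1).disc a.2).inj (fun w hw => uu_mem L a hw) z.2 hp
  have hH := ((L a.1).disc a.2).hol.mono hrO
  have hI := ((L a.1).disc a.2).inj.mono hrO
  refine ⟨j, r, (L p).fac j (uu L a), hr, hrO, (L p).fac_hol j isOpen_ball hH hI hj,
    fun w hw => (L p).fac_deriv j isOpen_ball hH hI hj hw, fun w hw h1 => ?_⟩
  exact ⟨(L p).fac_mem j hj hw, Subtype.ext ((L p).fac_germ j isOpen_ball hH hI hj hw)⟩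

lemma exists_phi_of_mem {p : M} (x : NN L) (hx : ff L x ∈ (L p).U) :
    ∃ j z, phi (uu L) ⟨p, j⟩ z = x := by
  obtain ⟨a, z, rfl⟩ := exists_phi x
  rw [ff_phi] at hx
  obtain ⟨j, r, h, hr, hrO, -, -, hh⟩ := trans_exists L a z hx
  obtain ⟨h2, h3⟩ := hh z (mem_ball_self hr) z.2
  exact ⟨j, ⟨h z, h2⟩, h3.symm⟩

/-! ### Hausdorff, compact, locally connected -/

lemma centre_of_ff {p : M} (x : NN L) (hx : ff L x = p) :
    ∃ j, phi (uu L) ⟨p, j⟩ ⟨0, mem_ball_self one_pos⟩ = x := by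
  obtain ⟨j, z, rfl⟩ := exists_phi_of_mem (p := p) L x (by rw [hx]; exact (L p).mem)
  rw [ff_phi] at hx
  have h0 := (L p).at_centre j z.2 hx
  exact ⟨j, by congr 1; exact Subtype.ext h0.symm⟩

instance t2_NN : T2Space (NN L) := by
  refine ⟨fun x y hxy => ?_⟩
  by_cases h : ff L x = ff L y
  · obtain ⟨i, hi⟩ := centre_of_ff L x rfl
    obtain ⟨j, hj⟩ := centre_of_ff L y h.symm
    have hij : i ≠ j := by
      rintro rfl
      exact hxy (hi.symm.trans hj)
    refine ⟨range (phi (uu L) ⟨ff L x, i⟩), range (phi (uu L) ⟨ff L x, j⟩),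
      ((adm L).openEmb _).isOpen_range, ((adm L).openEmb _).isOpen_range, ⟨_, hi⟩, ⟨_, hj⟩, ?_⟩
    rw [Set.disjoint_left]
    rintro _ ⟨z, rfl⟩ ⟨w, hw⟩
    exact hij (phi_ne L hw.symm)
  · exact separated_by_continuous (ff_cont L) h

lemma compact_NN : CompactSpace (NN L) := by
  have hK : ∀ p : M, ∃ K ∈ 𝓝 p, IsCompact (ff L ⁻¹' K) := by
    intro p
    obtain ⟨K, hK, hKU, hKc⟩ := local_compact_nhds ((L p).openU.mem_nhds (L p).mem)
    refine ⟨K, hK, ?_⟩
    choose r hr hr2 using fun j => (L p).proper j K hKc hKU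
    have h1 : ff L ⁻¹' K ⊆ ⋃ j, phi (uu L) ⟨p, j⟩ '' {z | ‖(z : ℂ)‖ ≤ r j} := by
      intro x hx
      obtain ⟨j, z, rfl⟩ := exists_phi_of_mem (p := p) L x (hKU hx)
      rw [mem_preimage, ff_phi] at hx
      exact mem_iUnion.2 ⟨j, z, hr2 j z z.2 hx, rfl⟩
    refine IsCompact.of_isClosed_subset (isCompact_iUnion fun j => ?_)
      (hKc.isClosed.preimage (ff_cont L)) h1
    refine IsCompact.image ?_ (continuous_phi _ _)
    rw [Subtype.isCompact_iff]
    have h2 : Subtype.val '' {z : ball (0 : ℂ) 1 | ‖(z : ℂ)‖ ≤ r j} = closedBall (0 : ℂ) (r j) := by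
      ext w
      constructor
      · rintro ⟨z, hz, rfl⟩
        rw [mem_closedBall_zero_iff]; exact hz
      · intro hw
        refine ⟨⟨w, closedBall_subset_ball (hr j) hw⟩, ?_, rfl⟩
        rw [mem_closedBall_zero_iff] at hw
        exact hw
    rw [h2]
    exact isCompact_closedBall _ _
  choose K hK hKc using hK
  obtain ⟨t, ht⟩ := CompactSpace.elim_nhds_subcover K hK
  constructor
  have h1 : (univ : Set (NN L)) = ⋃ p ∈ t, ff L ⁻¹' (K p) := by
    ext x
    simp only [mem_univ, true_iff, mem_iUnion]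
    have : ff L x ∈ ⋃ p ∈ t, K p := ht.symm ▸ mem_univ _
    simpa using this
  rw [h1]
  exact t.isCompact_biUnion fun p _ => hKc p

/-- the chart of a branch. -/
def chart (a : Ix L) : OpenPartialHomeomorph (NN L) ℂ :=
  (((adm L).openEmb a).toOpenPartialHomeomorph _).symm.trans inc

lemma chart_source (a : Ix L) : (chart L a).source = range (phi (uu L) a) := by
  rw [chart, OpenPartialHomeomorph.trans_source, inc_source]
  simp

lemma chart_target (a : Ix L) : (chart L a).target = ball 0 1 := by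
  rw [chart, OpenPartialHomeomorph.trans_target, inc_target]
  simp

lemma chart_phi (a : Ix L) (z : ball (0 : ℂ) 1) : chart L a (phi (uu L) a z) = z := by
  have h : ((((adm L).openEmb a).toOpenPartialHomeomorph _).symm) (phi (uu L) a z) = z :=
    ((adm L).openEmb a).toOpenPartialHomeomorph_left_inv
  show inc ((((adm L).openEmb a).toOpenPartialHomeomorph _).symm (phi (uu L) a z)) = z
  rw [h]
  rfl

lemma chart_symm (a : Ix L) {z : ℂ} (hz : z ∈ ball (0 : ℂ) 1) :
    (chart L a).symm z = phi (uu L) a ⟨z, hz⟩ := by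
  show phi (uu L) a (inc.symm z) = _
  rw [inc_symm hz]

/-- the transition functions. -/
lemma chart_trans (a b : Ix L) {z : ℂ} (hz : z ∈ ball (0 : ℂ) 1)
    (hb : phi (uu L) a ⟨z, hz⟩ ∈ range (phi (uu L) b)) :
    DifferentiableAt ℂ (fun z => chart L b ((chart L a).symm z)) z ∧
      deriv (fun z => chart L b ((chart L a).symm z)) z ≠ 0 := by
  obtain ⟨w, hw⟩ := hb
  have hU : uu L a z ∈ (L b.1).U := by
    have h1 : uu L a z = uu L b w := by
      rw [← ff_phi L b w, hw, ff_phi]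
    rw [h1]
    exact ((L b.1).maps b.2 w.2).2
  obtain ⟨j, r, h, hr, hrO, hd, hd0, hh⟩ := trans_exists L a ⟨z, hz⟩ hU
  obtain ⟨h2, h3⟩ := hh z (mem_ball_self hr) hz
  have hj : j = b.2 := by
    have h4 : phi (uu L) ⟨b.1, j⟩ ⟨h z, h2⟩ = phi (uu L) ⟨b.1, b.2⟩ w := h3.symm.trans hw.symm
    exact phi_ne L h4
  have hev : (fun z => chart L b ((chart L a).symm z)) =ᶠ[𝓝 z] h := by
    filter_upwards [isOpen_ball.mem_nhds (mem_ball_self (x := z) hr)] with z' hz'
    obtain ⟨h5, h6⟩ := hh z' hz' (hrO hz')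
    rw [chart_symm L a (hrO hz'), h6]
    subst hj
    exact chart_phi L b ⟨h z', h5⟩
  have hdz := hd.differentiableAt (isOpen_ball.mem_nhds (mem_ball_self (x := z) hr))
  refine ⟨hdz.congr_of_eventuallyEq hev, ?_⟩
  rw [hev.deriv_eq]
  exact hd0 z (mem_ball_self hr)

/-- the holomorphic atlas. -/
def atl : RS.CAtl.{u, u} (NN L) where
  ι := Ix L
  c := chart L
  cover x := by
    obtain ⟨a, z, rfl⟩ := exists_phi x
    exact ⟨a, by rw [chart_source]; exact ⟨z, rfl⟩⟩
  hol a b := by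
    rintro z ⟨hz, hz2⟩
    rw [chart_target] at hz
    rw [chart_symm L a hz, chart_source] at hz2
    exact (chart_trans L a b hz hz2).1.differentiableWithinAt

lemma locConn_NN : LocallyConnectedSpace (NN L) := by
  have h1 : ChartedSpace ℂ (NN L) :=
    { atlas := range (chart L)
      chartAt := fun x => chart L (exists_phi x).choose
      mem_chart_source := fun x => by
        rw [chart_source]
        exact (exists_phi x).choose_spec
      chart_mem_atlas := fun x => mem_range_self _ }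
  exact ChartedSpace.locallyConnectedSpace ℂ (NN L)

end

end Crest.Agent.R235.Glob_370
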