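import Crest.Agent.R235.Glob2_370
import Crest.Agent.R235.PB_604

/-!
Row 235 (S0364), REG-GLOB (helper370), part 5: pull back of one- and two-forms by maps `ℂ → M`,
Stokes on the disc.
-/

set_option autoImplicit false
set_option maxSynthPendingDepth 3
set_option linter.unusedSectionVars false

open Set Function Filter MeasureTheory Metric
open scoped Manifold ContDiff Topology

universe u

namespace Crest.Agent.R235.Glob_370

open Crest.Agent.R240 Crest.Agent.R240.Ch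

noncomputable section

variable {M : Type u} [TopologicalSpace M] [ChartedSpace E4 M] [IsManifold 𝓘(ℝ, E4) ∞ M]

/-- the differential in the preferred chart, as a continuous linear map. -/
def dm (u : ℂ → M) (z : ℂ) : ℂ →L[ℝ] E4 :=
  fderiv ℝ (fun z' : ℂ => chartAt E4 (u z) (u z')) z

lemma dm_apply (u : ℂ → M) (z v : ℂ) : dm u z v = dmap u z v := rfl

/-- pull back of a one-form. -/
def p1 (u : ℂ → M) (s : F1 E4 M) (z : ℂ) : ℂ →L[ℝ] ℝ := (at1 s (u z)).comp (dm u z)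

lemma p1_apply (u : ℂ → M) (s : F1 E4 M) (z v : ℂ) : p1 u s z v = at1 s (u z) (dmap u z v) := rfl

variable {u : ℂ → M} {O : Set ℂ}

lemma ev_smooth (hO : IsOpen O) (hu : ContMDiffOn 𝓘(ℝ, ℂ) 𝓘(ℝ, E4) ∞ u O) {z : ℂ} (hz : z ∈ O)
    {p : M} (hp : u z ∈ (chartAt E4 p).source) :
    ∀ᶠ z' in 𝓝 z, u z' ∈ (chartAt E4 p).source ∧ ContMDiffAt 𝓘(ℝ, ℂ) 𝓘(ℝ, E4) ∞ u z' := by
  have h1 : ContMDiffAt 𝓘(ℝ, ℂ) 𝓘(ℝ, E4) ∞ u z := hu.contMDiffAt (hO.mem_nhds hz)
  filter_upwards [h1.continuousAt.eventually ((chartAt E4 p).open_source.mem_nhds hp),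
    hO.mem_nhds hz] with z' h2 h3
  exact ⟨h2, hu.contMDiffAt (hO.mem_nhds h3)⟩

lemma tcc_left {p x : M} (hx : x ∈ (chartAt E4 p).source) (v : E4) :
    tcc p x x (tcc x p x v) = v := by
  rw [tcc_comp (mem_chart_source E4 x) hx (mem_chart_source E4 x), tcc_self (mem_chart_source E4 x)]

lemma p1_chart {z : ℂ} {p : M} (hp : u z ∈ (chartAt E4 p).source)
    (hu : ContMDiffAt 𝓘(ℝ, ℂ) 𝓘(ℝ, E4) ∞ u z) (s : F1 E4 M) :
    p1 u s z = (rep1 p s (chartAt E4 p (u z))).comp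
      (fderiv ℝ (fun z' => chartAt E4 p (u z')) z) := by
  refine ContinuousLinearMap.ext fun v => ?_
  rw [p1_apply, ContinuousLinearMap.comp_apply, ← tcc_dmap hp hu, rep1_apply,
    (chartAt E4 p).left_inv hp, tcc_left hp]

lemma pb_chart {z : ℂ} {p : M} (hp : u z ∈ (chartAt E4 p).source)
    (hu : ContMDiffAt 𝓘(ℝ, ℂ) 𝓘(ℝ, E4) ∞ u z) (b : F2 E4 M) :
    pb u b z = rep p b (chartAt E4 p (u z))
      (fderiv ℝ (fun z' => chartAt E4 p (u z')) z 1)
      (fderiv ℝ (fun z' => chartAt E4 p (u z')) z Complex.I) := by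
  rw [← tcc_dmap hp hu, ← tcc_dmap hp hu, rep_apply, (chartAt E4 p).left_inv hp, tcc_left hp,
    tcc_left hp]
  rfl

theorem p1_smooth (hO : IsOpen O) (hu : ContMDiffOn 𝓘(ℝ, ℂ) 𝓘(ℝ, E4) ∞ u O) {s : F1 E4 M}
    (hs : Smooth1 s) {z : ℂ} (hz : z ∈ O) : ContDiffAt ℝ ∞ (p1 u s) z := by
  have hp := mem_chart_source E4 (u z)
  have h1 : ContMDiffAt 𝓘(ℝ, ℂ) 𝓘(ℝ, E4) ∞ u z := hu.contMDiffAt (hO.mem_nhds hz)
  have hU := cd_chart' hp h1
  have h2 : p1 u s =ᶠ[𝓝 z] fun z' => (rep1 (u z) s (chartAt E4 (u z) (u z'))).comp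
      (fderiv ℝ (fun z' => chartAt E4 (u z) (u z')) z') := by
    filter_upwards [ev_smooth hO hu hz hp] with z' hz'
    exact p1_chart hz'.1 hz'.2 s
  refine ContDiffAt.congr_of_eventuallyEq ?_ h2
  have h3 : ContDiffAt ℝ ∞ (fun z' => rep1 (u z) s (chartAt E4 (u z) (u z'))) z :=
    ContDiffAt.comp (g := rep1 (u z) s) z (hs.at ((chartAt E4 (u z)).map_source hp)) hU
  exact h3.clm_comp (hU.fderiv_right (m := ∞) (by simp))

theorem pb_smooth (hO : IsOpen O) (hu : ContMDiffOn 𝓘(ℝ, ℂ) 𝓘(ℝ, E4) ∞ u O) {b : F2 E4 M}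
    (hb : Smooth2 b) {z : ℂ} (hz : z ∈ O) : ContDiffAt ℝ ∞ (pb u b) z := by
  have hp := mem_chart_source E4 (u z)
  have h1 : ContMDiffAt 𝓘(ℝ, ℂ) 𝓘(ℝ, E4) ∞ u z := hu.contMDiffAt (hO.mem_nhds hz)
  have hU := cd_chart' hp h1
  have h2 : pb u b =ᶠ[𝓝 z] fun z' => rep (u z) b (chartAt E4 (u z) (u z'))
      (fderiv ℝ (fun z' => chartAt E4 (u z) (u z')) z' 1)
      (fderiv ℝ (fun z' => chartAt E4 (u z) (u z')) z' Complex.I) := by
    filter_upwards [ev_smooth hO hu hz hp] with z' hz'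
    exact pb_chart hz'.1 hz'.2 b
  refine ContDiffAt.congr_of_eventuallyEq ?_ h2
  have h3 : ContDiffAt ℝ ∞ (fun z' => rep (u z) b (chartAt E4 (u z) (u z'))) z :=
    ContDiffAt.comp (g := rep (u z) b) z (hb.at ((chartAt E4 (u z)).map_source hp)) hU
  have h4 := hU.fderiv_right (m := ∞) (by simp)
  exact (h3.clm_apply (h4.clm_apply contDiffAt_const)).clm_apply (h4.clm_apply contDiffAt_const)

/-- pull back commutes with `d`. -/
theorem pb_dG (hO : IsOpen O) (hu : ContMDiffOn 𝓘(ℝ, ℂ) 𝓘(ℝ, E4) ∞ u O) {s : F1 E4 M}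
    (hs : Smooth1 s) {z : ℂ} (hz : z ∈ O) :
    pb u (dG s) z = d1 (p1 u s) z 1 Complex.I := by
  have hp := mem_chart_source E4 (u z)
  have ht := (chartAt E4 (u z)).map_source hp
  have h1 : ContMDiffAt 𝓘(ℝ, ℂ) 𝓘(ℝ, E4) ∞ u z := hu.contMDiffAt (hO.mem_nhds hz)
  have hU := cd_chart' hp h1
  rw [pb_chart hp h1, rep_dG hs ht]
  refine (PB_604.d1_pullback' hU ((hs.at ht).differentiableAt (by simp)) ?_ 1 Complex.I).symm
  filter_upwards [ev_smooth hO hu hz hp] with z' hz'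
  exact p1_chart hz'.1 hz'.2 s

/-- `∫ ∂_v f = 0`. -/
lemma integral_fderiv_zero {f : ℂ → ℝ} (hf : ContDiff ℝ 1 f) (hc : HasCompactSupport f) (v : ℂ) :
    ∫ z, fderiv ℝ f z v = 0 := by
  have h1 : Continuous fun z => fderiv ℝ f z v :=
    (hf.continuous_fderiv (by simp)).clm_apply continuous_const
  have h2 : HasCompactSupport fun z => fderiv ℝ f z v := hc.fderiv_apply (𝕜 := ℝ) v
  have h := integral_mul_fderiv_eq_neg_fderiv_mul_of_integrable (μ := (volume : Measure ℂ))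
    (f := fun _ : ℂ => (1 : ℝ)) (g := f) (v := v) (by simp) (by
      simpa using h1.integrable_of_hasCompactSupport h2) (by
      simpa using hf.continuous.integrable_of_hasCompactSupport hc)
      (fun x _ => by fun_prop) (fun x _ => hf.differentiable (by simp) x)
  simpa using h

/-- Stokes on the disc. -/
theorem stokes_disc (hu : ContMDiffOn 𝓘(ℝ, ℂ) 𝓘(ℝ, E4) ∞ u (ball 0 1)) {s : F1 E4 M}
    (hs : Smooth1 s) {r : ℝ} (hr : r < 1)
    (h0 : ∀ z ∈ ball (0 : ℂ) 1, r < ‖z‖ → at1 s (u z) = 0) :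
    ∫ z in ball (0 : ℂ) 1, pb u (dG s) z = 0 := by
  classical
  set t : ℂ → ℂ →L[ℝ] ℝ := fun z => if z ∈ ball (0 : ℂ) 1 then p1 u s z else 0 with ht
  have ht0 : ∀ z, r < ‖z‖ → t z = 0 := by
    intro z hz
    by_cases h : z ∈ ball (0 : ℂ) 1
    · have : t z = p1 u s z := if_pos h
      rw [this]
      ext v <;> rw [p1_apply, h0 z h hz] <;> rfl
    · exact if_neg h
  have htev : ∀ z ∈ ball (0 : ℂ) 1, t =ᶠ[𝓝 z] p1 u s := by
    intro z hz
    filter_upwards [isOpen_ball.mem_nhds hz] with w hw using if_pos hw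
  have hts : ContDiff ℝ ∞ t := by
    rw [contDiff_iff_contDiffAt]
    intro z
    by_cases h : z ∈ ball (0 : ℂ) 1
    · exact (p1_smooth isOpen_ball hu hs h).congr_of_eventuallyEq (htev z h)
    · have hz : r < ‖z‖ := by
        rw [mem_ball_zero_iff, not_lt] at h
        linarith
      refine (contDiffAt_const (c := (0 : ℂ →L[ℝ] ℝ))).congr_of_eventuallyEq ?_
      filter_upwards [(isOpen_lt continuous_const continuous_norm).mem_nhds hz] with w hw
      exact ht0 w hw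
  have htc : HasCompactSupport t := by
    refine HasCompactSupport.intro (isCompact_closedBall (0 : ℂ) r) ?_
    intro z hz
    rw [mem_closedBall_zero_iff, not_le] at hz
    exact ht0 z hz
  have hd : ∀ v : ℂ, ContDiff ℝ 1 (fun z => t z v) := fun v =>
    (hts.clm_apply contDiff_const).of_le (by simp)
  have hdc : ∀ v : ℂ, HasCompactSupport (fun z => t z v) := fun v =>
    htc.comp_left (g := fun L : ℂ →L[ℝ] ℝ => L v) (by simp)
  have hfd : ∀ z v w : ℂ, fderiv ℝ t z v w = fderiv ℝ (fun z => t z w) z v := by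
    intro z v w
    have h1 := ((hts.differentiable (by simp) z).hasFDerivAt.clm_apply
      (hasFDerivAt_const w z)).fderiv
    rw [h1]
    simp
  have h1 : ∫ z in ball (0 : ℂ) 1, pb u (dG s) z =
      ∫ z in ball (0 : ℂ) 1, (fderiv ℝ (fun z => t z Complex.I) z 1 -
        fderiv ℝ (fun z => t z 1) z Complex.I) := by
    refine setIntegral_congr_fun measurableSet_ball fun z hz => ?_
    rw [pb_dG isOpen_ball hu hs hz, ← d1_congr (htev z hz), ← hfd, ← hfd]
    rfl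
  rw [h1]
  have h2 : ∫ z in ball (0 : ℂ) 1, (fderiv ℝ (fun z => t z Complex.I) z 1 -
        fderiv ℝ (fun z => t z 1) z Complex.I) =
      ∫ z, (fderiv ℝ (fun z => t z Complex.I) z 1 - fderiv ℝ (fun z => t z 1) z Complex.I) := by
    refine setIntegral_eq_integral_of_forall_compl_eq_zero fun z hz => ?_
    have hz : r < ‖z‖ := by
      rw [mem_ball_zero_iff, not_lt] at hz
      linarith
    have hev : ∀ v : ℂ, (fun z => t z v) =ᶠ[𝓝 z] fun _ => 0 := by
      intro v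
      filter_upwards [(isOpen_lt continuous_const continuous_norm).mem_nhds hz] with w hw
      rw [ht0 w hw]; rfl
    rw [(hev Complex.I).fderiv_eq, (hev 1).fderiv_eq]
    simp
  rw [h2]
  have hint : ∀ v w : ℂ, Integrable (fun z => fderiv ℝ (fun z => t z v) z w) := by
    intro v w
    refine Continuous.integrable_of_hasCompactSupport ?_ ((hdc v).fderiv_apply (𝕜 := ℝ) w)
    exact ((hd v).continuous_fderiv (by simp)).clm_apply continuous_const
  rw [integral_sub (hint _ _) (hint _ _), integral_fderiv_zero (hd _) (hdc _),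
    integral_fderiv_zero (hd _) (hdc _), sub_zero]

end

end Crest.Agent.R235.Glob_370
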