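import Crest.Agent.R235.RSBas_538

/-!
Row 235 (S0364), REG-GLOB (helper370), part 6: densities on a Riemann surface and change of charts
(all universes).

* `Dens A`      : densities `h i` with `h i = (h j ∘ tr i j) |tr'|²`
* `integral_tr` : `∫` over a chart overlap does not depend on the chart
* `two_cover`   : the sum of the integrals over a disjoint family of charts covering the support
  does not depend on the family
-/

set_option autoImplicit false
set_option linter.unusedSectionVars false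

open Set Filter Topology Function MeasureTheory

universe u v

namespace Crest.Agent.R235.Glob_370

open RS

noncomputable section

theorem det_mulC (a : ℂ) :
    ((ContinuousLinearMap.mul ℝ ℂ a : ℂ →L[ℝ] ℂ)).det = ‖a‖ ^ 2 := by
  rw [← Complex.normSq_eq_norm_sq, ← Algebra.norm_complex_apply, Algebra.norm_apply]
  rfl

variable {N : Type u} [TopologicalSpace N] (A : CAtl.{u, v} N)

theorem tr_inj (i j : A.ι) : InjOn (A.tr i j) (A.dom i j) := by
  intro y hy z hz hyz
  have h1 : (A.c i).symm y = (A.c i).symm z := by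
    rw [← A.symm_tr hy, ← A.symm_tr hz, hyz]
  exact (A.c i).symm.injOn hy.1 hz.1 h1

theorem tr_image (i j : A.ι) : A.tr i j '' A.dom i j = A.dom j i := by
  ext w
  constructor
  · rintro ⟨z, hz, rfl⟩
    exact A.tr_mem hz
  · intro hw
    refine ⟨A.tr j i w, A.tr_mem hw, ?_⟩
    rw [A.tr_tr hw, A.tr_self hw.1]

/-- change of charts on a subset. -/
theorem integral_tr_on (i j : A.ι) {s : Set ℂ} (hs : MeasurableSet s) (hsd : s ⊆ A.dom i j)
    {g g' : ℂ → ℝ}
    (h : ∀ z ∈ s, g z = g' (A.tr i j z) * ‖deriv (A.tr i j) z‖ ^ 2) :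
    ∫ z in s, g z = ∫ z in A.tr i j '' s, g' z := by
  have hder : ∀ z ∈ s, HasFDerivWithinAt (A.tr i j)
      (ContinuousLinearMap.mul ℝ ℂ (deriv (A.tr i j) z)) s z := by
    intro z hz
    have h1 : HasDerivAt (A.tr i j) (deriv (A.tr i j) z) z := (A.tr_diffAt (hsd hz)).hasDerivAt
    have h2 := h1.complexToReal_fderiv.hasFDerivWithinAt (s := s)
    convert h2 using 1
    ext <;> simp
  rw [integral_image_eq_integral_abs_det_fderiv_smul volume hs hder
    ((tr_inj A i j).mono hsd)]
  refine setIntegral_congr_fun hs fun z hz => ?_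
  rw [det_mulC, abs_of_nonneg (sq_nonneg _), h z hz, smul_eq_mul, mul_comm]

theorem integral_tr (i j : A.ι) {g g' : ℂ → ℝ}
    (h : ∀ z ∈ A.dom i j, g z = g' (A.tr i j z) * ‖deriv (A.tr i j) z‖ ^ 2) :
    ∫ z in A.dom i j, g z = ∫ z in A.dom j i, g' z := by
  rw [integral_tr_on A i j (A.isOpen_dom i j).measurableSet subset_rfl h, tr_image]

/-- the sum over the charts of a disjoint family does not depend on the family. -/
theorem two_cover {m n : Type} [Fintype m] [Fintype n] (a : m → A.ι) (b : n → A.ι)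
    (ha : ∀ k l, k ≠ l → Disjoint (A.c (a k)).source (A.c (a l)).source)
    (hb : ∀ k l, k ≠ l → Disjoint (A.c (b k)).source (A.c (b l)).source)
    (F : Set N) (g : m → ℂ → ℝ) (g' : n → ℂ → ℝ)
    (hg : ∀ k, ∀ z ∈ (A.c (a k)).target, (A.c (a k)).symm z ∉ F → g k z = 0)
    (hg' : ∀ k, ∀ z ∈ (A.c (b k)).target, (A.c (b k)).symm z ∉ F → g' k z = 0)
    (hFa : ∀ x ∈ F, ∃ k, x ∈ (A.c (a k)).source) (hFb : ∀ x ∈ F, ∃ k, x ∈ (A.c (b k)).source)
    (hgi : ∀ k, IntegrableOn (g k) (A.c (a k)).target)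
    (hgi' : ∀ k, IntegrableOn (g' k) (A.c (b k)).target)
    (h : ∀ k l, ∀ z ∈ A.dom (a k) (b l),
      g k z = g' l (A.tr (a k) (b l) z) * ‖deriv (A.tr (a k) (b l)) z‖ ^ 2) :
    ∑ k, ∫ z in (A.c (a k)).target, g k z = ∑ l, ∫ z in (A.c (b l)).target, g' l z := by
  have key : ∀ {m n : Type} [Fintype m] [Fintype n] (a : m → A.ι) (b : n → A.ι)
      (_ : ∀ k l, k ≠ l → Disjoint (A.c (b k)).source (A.c (b l)).source) (g : m → ℂ → ℝ)
      (_ : ∀ k, ∀ z ∈ (A.c (a k)).target, (A.c (a k)).symm z ∉ F → g k z = 0)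
      (_ : ∀ x ∈ F, ∃ k, x ∈ (A.c (b k)).source)
      (_ : ∀ k, IntegrableOn (g k) (A.c (a k)).target) (k : m),
      ∫ z in (A.c (a k)).target, g k z = ∑ l, ∫ z in A.dom (a k) (b l), g k z := by
    intro m n _ _ a b hb g hg hFb hgi k
    have hsub : (⋃ l, A.dom (a k) (b l)) ⊆ (A.c (a k)).target :=
      iUnion_subset fun l z hz => hz.1
    rw [setIntegral_eq_of_subset_of_forall_sdiff_eq_zero (A.c (a k)).open_target.measurableSet hsub,
      integral_iUnion_fintype]
    · exact fun l => (A.isOpen_dom _ _).measurableSet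
    · intro l l' hll'
      rw [Function.onFun, Set.disjoint_left]
      intro z hz hz'
      exact Set.disjoint_left.1 (hb l l' hll') hz.2 hz'.2
    · exact fun l => (hgi k).mono_set fun z hz => hz.1
    · rintro z ⟨hz, hzn⟩
      refine hg k z hz fun hF => hzn ?_
      obtain ⟨l, hl⟩ := hFb _ hF
      exact mem_iUnion.2 ⟨l, hz, hl⟩
  have e1 : ∑ k, ∫ z in (A.c (a k)).target, g k z = ∑ k, ∑ l, ∫ z in A.dom (a k) (b l), g k z :=
    Finset.sum_congr rfl fun k _ => key a b hb g hg hFb hgi k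
  have e2 : ∑ l, ∫ z in (A.c (b l)).target, g' l z =
      ∑ l, ∑ k, ∫ z in A.dom (b l) (a k), g' l z :=
    Finset.sum_congr rfl fun l _ => key b a ha g' hg' hFa hgi' l
  rw [e1, e2, Finset.sum_comm]
  exact Finset.sum_congr rfl fun l _ => Finset.sum_congr rfl fun k _ =>
    integral_tr A _ _ (h k l)

end

end Crest.Agent.R235.Glob_370
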