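import Crest.Agent.R235.Glob4_370
import Crest.Agent.R235.Glob5_370
import Crest.Agent.R235.Glob6_370

/-!
Row 235 (S0364), REG-GLOB (helper370), part 7: the current of a clopen part of the surface.
-/

set_option autoImplicit false
set_option maxSynthPendingDepth 3
set_option linter.unusedSectionVars false

open Set Function Filter MeasureTheory Metric
open scoped Manifold ContDiff Topology

universe u

namespace Crest.Agent.R235.Glob_370

open Crest.Agent.R240 Crest.Agent.R240.Ch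

noncomputable section

/-! ### integrability -/

lemma integrableOn_van {g : ℂ → ℝ} {r : ℝ} (hr : r < 1) (hg : ContinuousOn g (ball 0 1))
    (h0 : ∀ z ∈ ball (0 : ℂ) 1, r < ‖z‖ → g z = 0) : IntegrableOn g (ball (0 : ℂ) 1) := by
  have h1 : IntegrableOn g (closedBall (0 : ℂ) r) :=
    (hg.mono (closedBall_subset_ball hr)).integrableOn_compact (isCompact_closedBall _ _)
  refine h1.of_forall_sdiff_eq_zero measurableSet_ball fun z hz => h0 z hz.1 ?_
  have := hz.2
  rwa [mem_closedBall_zero_iff, not_le] at this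

variable {M : Type u} [TopologicalSpace M] [ChartedSpace E4 M] [IsManifold 𝓘(ℝ, E4) ∞ M]

lemma pb_congr {u v : ℂ → M} {z : ℂ} (h : u =ᶠ[𝓝 z] v) (b : F2 E4 M) : pb u b z = pb v b z := by
  unfold pb
  rw [dmap_congr h, h.eq_of_nhds]

lemma pb_zero_of {u : ℂ → M} {z : ℂ} {b : F2 E4 M} (h : at2 b (u z) = 0) : pb u b z = 0 := by
  unfold pb
  rw [h]; rfl

lemma pb_add (u : ℂ → M) (z : ℂ) (b c : F2 E4 M) : pb u (b + c) z = pb u b z + pb u c z := rfl

lemma pb_smul (u : ℂ → M) (z : ℂ) (r : ℝ) (b : F2 E4 M) : pb u (r • b) z = r * pb u b z := rfl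

lemma pb_fmul (u : ℂ → M) (z : ℂ) (f : M → ℝ) (b : F2 E4 M) :
    pb u (fmul f b) z = f (u z) * pb u b z := rfl

/-- `f b` as an element of `X2`. -/
def fm (f : M → ℝ) (hf : SmoothF E4 f) (b : X2 M) : X2 M := ⟨fmul f b.1, b.2.fmul hf⟩

lemma fm_coe (f : M → ℝ) (hf : SmoothF E4 f) (b : X2 M) : (fm f hf b).1 = fmul f b.1 := rfl

lemma at2_fm (f : M → ℝ) (hf : SmoothF E4 f) (b : X2 M) (x : M) :
    at2 (fm f hf b).1 x = f x • at2 b.1 x := rfl

variable {J : EndF E4 M} {S : Set M}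

lemma LocForm.van {p : M} (L : LocForm J S p) (j : Fin L.n) {K : Set M} (hK : IsCompact K)
    (hKU : K ⊆ L.U) {b : F2 E4 M} (hb : ∀ x ∉ K, at2 b x = 0) :
    ∃ r < (1 : ℝ), ∀ z ∈ ball (0 : ℂ) 1, r < ‖z‖ → pb (L.u j) b z = 0 := by
  obtain ⟨r, hr, h⟩ := L.proper j K hK hKU
  refine ⟨r, hr, fun z hz hrz => pb_zero_of (hb _ fun hzK => ?_)⟩
  exact absurd (h z hz hzK) (not_le.2 hrz)

lemma LocForm.int_pb {p : M} (L : LocForm J S p) (j : Fin L.n) {K : Set M} (hK : IsCompact K)
    (hKU : K ⊆ L.U) {b : F2 E4 M} (hs : Smooth2 b) (hb : ∀ x ∉ K, at2 b x = 0) :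
    IntegrableOn (pb (L.u j) b) (ball (0 : ℂ) 1) := by
  obtain ⟨r, hr, h⟩ := L.van j hK hKU hb
  refine integrableOn_van hr (fun z hz => ?_) h
  exact (pb_smooth isOpen_ball (L.disc j).hol.smooth hs hz).continuousAt.continuousWithinAt

/-! ### partition of unity -/

variable [T2Space M] [CompactSpace M] (L : ∀ p, LocForm J S p)

/-- a finite partition of unity subordinate to the `U p`. -/
structure PU where
  /-- number of functions -/
  n : ℕ
  /-- the centres -/
  p : Fin n → M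
  /-- the functions -/
  χ : Fin n → M → ℝ
  smooth : ∀ i, SmoothF E4 (χ i)
  nonneg : ∀ i x, 0 ≤ χ i x
  supp : ∀ i, tsupport (χ i) ⊆ (L (p i)).U
  sum : ∀ x, ∑ i, χ i x = 1

theorem exists_PU : Nonempty (PU L) := by
  obtain ⟨t, ht⟩ := CompactSpace.elim_nhds_subcover (fun p => (L p).U)
    (fun p => (L p).openU.mem_nhds (L p).mem)
  obtain ⟨f, hf⟩ := SmoothPartitionOfUnity.exists_isSubordinate 𝓘(ℝ, E4) (s := (univ : Set M))
    isClosed_univ (fun p : t => (L p).U) (fun p => (L p).openU) (by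
      intro x _
      have hx : x ∈ ⋃ p ∈ t, (L p).U := ht.symm ▸ mem_univ x
      obtain ⟨p, hp, hxp⟩ := mem_iUnion₂.1 hx
      exact mem_iUnion.2 ⟨⟨p, hp⟩, hxp⟩)
  refine ⟨⟨t.card, fun i => (t.equivFin.symm i : t), fun i => f (t.equivFin.symm i), fun i => ?_,
    fun i x => f.nonneg _ x, fun i => hf _, fun x => ?_⟩⟩
  · exact (smoothF_iff _).1 (f _).contMDiff
  · rw [t.equivFin.symm.sum_comp (fun i => f i x)]
    have h1 := f.sum_eq_one (mem_univ x)
    rwa [finsum_eq_sum_of_fintype] at h1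

variable {L}

lemma PU.compact (P : PU L) (i : Fin P.n) : IsCompact (tsupport (P.χ i)) :=
  (isClosed_tsupport _).isCompact

lemma PU.zero (P : PU L) (i : Fin P.n) {x : M} (hx : x ∉ tsupport (P.χ i)) : P.χ i x = 0 :=
  image_eq_zero_of_notMem_tsupport hx

lemma PU.fm_zero (P : PU L) (i : Fin P.n) (b : X2 M) :
    ∀ x ∉ tsupport (P.χ i), at2 (fm (P.χ i) (P.smooth i) b).1 x = 0 := by
  intro x hx
  rw [at2_fm, P.zero i hx, zero_smul]

lemma PU.sum_fm (P : PU L) (b : X2 M) : ∑ i, fm (P.χ i) (P.smooth i) b = b := by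
  apply Subtype.ext
  rw [AddSubmonoidClass.coe_finsetSum]
  funext x
  rw [Finset.sum_apply]
  have h : ∀ i, (fm (P.χ i) (P.smooth i) b).1 x = P.χ i x • b.1 x := fun i => rfl
  simp only [h]
  rw [← Finset.sum_smul, P.sum, one_smul]

/-! ### branches of a clopen part -/

variable (L)

/-- the branches at `p` inside `K`. -/
def Bk (K : Set (NN L)) (p : M) : Type := {j : Fin (L p).n // range (phi (uu L) ⟨p, j⟩) ⊆ K}

instance (K : Set (NN L)) (p : M) : Fintype (Bk L K p) := by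
  classical
  unfold Bk
  infer_instance

variable {L}

lemma range_sub {K : Set (NN L)} (hK : IsClopen K) (a : Ix L) {x : NN L}
    (hx : x ∈ range (phi (uu L) a)) (hxK : x ∈ K) : range (phi (uu L) a) ⊆ K := by
  have h1 : IsPreconnected (range (phi (uu L) a)) := by
    have : PreconnectedSpace (ball (0 : ℂ) 1) :=
      Subtype.preconnectedSpace (convex_ball (0 : ℂ) 1).isPreconnected
    exact isPreconnected_range (continuous_phi _ _)
  exact h1.subset_isClopen hK ⟨x, hx, hxK⟩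

/-- the value of the current of `K` at a form supported in `U p`. -/
def loc (K : Set (NN L)) (p : M) (b : F2 E4 M) : ℝ :=
  ∑ j : Bk L K p, ∫ z in ball (0 : ℂ) 1, pb ((L p).u j.1) b z

/-- independence of the local form. -/
theorem loc_indep {K : Set (NN L)} (hK : IsClopen K) {p q : M} {K1 : Set M} (h1 : IsCompact K1)
    (hp : K1 ⊆ (L p).U) (hq : K1 ⊆ (L q).U) {b : F2 E4 M} (hs : Smooth2 b)
    (hb : ∀ x ∉ K1, at2 b x = 0) : loc K p b = loc K q b := by
  have hz : ∀ (r : M) (k : Bk L K r), ∀ z ∈ ((atl L).c (⟨r, k.1⟩ : Ix L)).target,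
      ((atl L).c (⟨r, k.1⟩ : Ix L)).symm z ∉ ff L ⁻¹' K1 ∩ K → pb ((L r).u k.1) b z = 0 := by
    intro r k z hz hF
    have hz' : z ∈ ball (0 : ℂ) 1 := by
      have h2 := chart_target L (⟨r, k.1⟩ : Ix L)
      exact h2 ▸ hz
    have h3 : (chart L (⟨r, k.1⟩ : Ix L)).symm z ∉ ff L ⁻¹' K1 ∩ K := hF
    rw [chart_symm L _ hz'] at h3
    refine pb_zero_of (hb _ fun h4 => h3 ⟨?_, k.2 ⟨_, rfl⟩⟩)
    rw [mem_preimage, ff_phi]
    exact h4
  have hF : ∀ r, K1 ⊆ (L r).U → ∀ x ∈ ff L ⁻¹' K1 ∩ K,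
      ∃ k : Bk L K r, x ∈ ((atl L).c (⟨r, k.1⟩ : Ix L)).source := by
    rintro r hr x ⟨hx, hxK⟩
    obtain ⟨j, z, hz⟩ := exists_phi_of_mem (p := r) L x (hr hx)
    have h2 : x ∈ range (phi (uu L) ⟨r, j⟩) := ⟨z, hz⟩
    refine ⟨⟨j, range_sub hK _ h2 hxK⟩, ?_⟩
    show x ∈ (chart L (⟨r, j⟩ : Ix L)).source
    rw [chart_source]
    exact h2
  have hd : ∀ r, ∀ k l : Bk L K r, k ≠ l →
      Disjoint ((atl L).c (⟨r, k.1⟩ : Ix L)).source ((atl L).c (⟨r, l.1⟩ : Ix L)).source := by
    intro r k l hkl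
    show Disjoint (chart L (⟨r, k.1⟩ : Ix L)).source (chart L (⟨r, l.1⟩ : Ix L)).source
    rw [chart_source, chart_source, Set.disjoint_left]
    rintro _ ⟨z, rfl⟩ ⟨w, hw⟩
    exact hkl (Subtype.ext (phi_ne L hw.symm))
  have htar : ∀ a : Ix L, ((atl L).c a).target = ball 0 1 := fun a => chart_target L a
  have hint : ∀ r, K1 ⊆ (L r).U → ∀ k : Bk L K r,
      IntegrableOn (pb ((L r).u k.1) b) ((atl L).c (⟨r, k.1⟩ : Ix L)).target := by
    intro r hr k
    rw [htar]
    exact (L r).int_pb k.1 h1 hr hs hb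
  have main := two_cover (atl L) (m := Bk L K p) (n := Bk L K q)
    (fun k => (⟨p, k.1⟩ : Ix L)) (fun k => (⟨q, k.1⟩ : Ix L)) (hd p) (hd q) (ff L ⁻¹' K1 ∩ K)
    (fun k => pb ((L p).u k.1) b) (fun k => pb ((L q).u k.1) b) (hz p) (hz q) (hF p hp) (hF q hq)
    (hint p hp) (hint q hq) ?_
  · simp only [htar] at main
    exact main
  · intro k l z hz
    have hz0 := hz
    obtain ⟨hz1, hz2⟩ := hz
    rw [htar] at hz1
    set h : ℂ → ℂ := (atl L).tr (⟨p, k.1⟩ : Ix L) (⟨q, l.1⟩ : Ix L) with hh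
    have hev : (L p).u k.1 =ᶠ[𝓝 z] fun w => (L q).u l.1 (h w) := by
      filter_upwards [((atl L).isOpen_dom _ _).mem_nhds hz0] with w hw
      have hw1 : w ∈ ball (0 : ℂ) 1 := by
        have := hw.1
        rwa [htar] at this
      have hmem := (atl L).tr_mem hw
      have hw2 : h w ∈ ball (0 : ℂ) 1 := by
        have := hmem.1
        rwa [htar] at this
      have h3 := (atl L).symm_tr hw
      have h4 : (chart L (⟨q, l.1⟩ : Ix L)).symm (h w) = (chart L (⟨p, k.1⟩ : Ix L)).symm w := h3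
      rw [chart_symm L _ hw2, chart_symm L _ hw1] at h4
      have h5 := congrArg (ff L) h4
      rw [ff_phi, ff_phi] at h5
      exact h5.symm
    rw [pb_congr hev]
    have hmem := ((atl L).tr_mem hz0).1
    rw [htar] at hmem
    exact pb_comp hs ((L q).disc l.1 |>.hol.at isOpen_ball hmem) ((atl L).tr_diffAt hz0)

/-- the current of `K`. -/
def TK (P : PU L) (K : Set (NN L)) : X2 M →ₗ[ℝ] ℝ where
  toFun b := ∑ i, loc K (P.p i) (fmul (P.χ i) b.1)
  map_add' b c := by
    rw [← Finset.sum_add_distrib]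
    refine Finset.sum_congr rfl fun i _ => ?_
    unfold loc
    rw [← Finset.sum_add_distrib]
    refine Finset.sum_congr rfl fun j _ => ?_
    rw [← integral_add]
    · refine setIntegral_congr_fun measurableSet_ball fun z _ => ?_
      show P.χ i _ * pb _ (b.1 + c.1) z = P.χ i _ * pb _ b.1 z + P.χ i _ * pb _ c.1 z
      rw [pb_add, mul_add]
    · exact (L (P.p i)).int_pb j.1 (P.compact i) (P.supp i) (fm _ (P.smooth i) b).2
        (P.fm_zero i b)
    · exact (L (P.p i)).int_pb j.1 (P.compact i) (P.supp i) (fm _ (P.smooth i) c).2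
        (P.fm_zero i c)
  map_smul' r b := by
    rw [RingHom.id_apply, smul_eq_mul, Finset.mul_sum]
    refine Finset.sum_congr rfl fun i _ => ?_
    unfold loc
    rw [Finset.mul_sum]
    refine Finset.sum_congr rfl fun j _ => ?_
    rw [← integral_const_mul]
    refine setIntegral_congr_fun measurableSet_ball fun z _ => ?_
    show P.χ i _ * pb _ (r • b.1) z = r * (P.χ i _ * pb _ b.1 z)
    rw [pb_smul]
    ring

lemma TK_apply (P : PU L) (K : Set (NN L)) (b : X2 M) :
    TK P K b = ∑ i, loc K (P.p i) (fmul (P.χ i) b.1) := rfl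

/-- **the local formula**. -/
theorem TK_loc (P : PU L) {K : Set (NN L)} (hK : IsClopen K) {p : M} {K1 : Set M}
    (h1 : IsCompact K1) (hp : K1 ⊆ (L p).U) (b : X2 M)
    (hb : ∀ x ∉ K1, at2 (b.1 : F2 E4 M) x = 0) : TK P K b = loc K p b.1 := by
  rw [TK_apply]
  have h2 : ∀ i, loc K (P.p i) (fmul (P.χ i) b.1) = loc K p (fmul (P.χ i) b.1) := by
    intro i
    refine loc_indep hK ((P.compact i).inter h1) (inter_subset_left.trans (P.supp i))
      (inter_subset_right.trans hp) (fm _ (P.smooth i) b).2 ?_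
    intro x hx
    by_cases hx1 : x ∈ tsupport (P.χ i)
    · have : x ∉ K1 := fun h => hx ⟨hx1, h⟩
      show at2 (fm (P.χ i) (P.smooth i) b).1 x = 0
      rw [at2_fm, hb x this, smul_zero]
    · exact P.fm_zero i b x hx1
  rw [Finset.sum_congr rfl fun i _ => h2 i]
  unfold loc
  rw [Finset.sum_comm]
  refine Finset.sum_congr rfl fun j _ => ?_
  rw [← integral_finsetSum]
  · refine setIntegral_congr_fun measurableSet_ball fun z _ => ?_
    simp only [pb_fmul]
    rw [← Finset.sum_mul, P.sum, one_mul]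
  · intro i _
    refine (L p).int_pb j.1 h1 hp (fm _ (P.smooth i) b).2 ?_
    intro x hx
    show at2 (fm (P.χ i) (P.smooth i) b).1 x = 0
    rw [at2_fm, hb x hx, smul_zero]

/-- `T_K` kills the exact forms. -/
theorem TK_closed (P : PU L) {K : Set (NN L)} (hK : IsClopen K) (b : X2 M)
    (hb : IsEx (b.1 : F2 E4 M)) : TK P K b = 0 := by
  obtain ⟨s, hs, hsb⟩ := isEx_iff.1 hb
  have hsi : ∀ i, Smooth1 (fmul1 (P.χ i) s) := fun i => hs.fmul (P.smooth i)
  set β : Fin P.n → X2 M := fun i => ⟨dG (fmul1 (P.χ i) s), Smooth2.dG (hsi i)⟩ with hβ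
  have hsum : b = ∑ i, β i := by
    apply Subtype.ext
    rw [AddSubmonoidClass.coe_finsetSum]
    have h1 : ∑ i, fmul1 (P.χ i) s = s := by
      funext x
      rw [Finset.sum_apply]
      have h : ∀ i, fmul1 (P.χ i) s x = P.χ i x • s x := fun i => rfl
      simp only [h]
      rw [← Finset.sum_smul, P.sum, one_smul]
    have h2 : ∀ t : Finset (Fin P.n), Smooth1 (∑ i ∈ t, fmul1 (P.χ i) s) ∧
        dG (∑ i ∈ t, fmul1 (P.χ i) s) = ∑ i ∈ t, dG (fmul1 (P.χ i) s) := by
      classical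
      intro t
      induction t using Finset.induction_on with
      | empty =>
        refine ⟨by simpa using smooth1_zero, ?_⟩
        have h := dG_smul (0 : ℝ) (smooth1_zero (E := E4) (M := M))
        simpa using h
      | insert a t ha ih =>
        rw [Finset.sum_insert ha, Finset.sum_insert ha, ← ih.2]
        exact ⟨(hsi a).add ih.1, dG_add (hsi a) ih.1⟩
    have h3 := (h2 Finset.univ).2
    rw [h1] at h3
    rw [hsb]
    exact h3
  rw [hsum, map_sum]
  refine Finset.sum_eq_zero fun i _ => ?_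
  have hz : ∀ x ∉ tsupport (P.χ i), at2 (β i).1 x = 0 := by
    intro x hx
    show d1 (rep1 x (fmul1 (P.χ i) s)) (chartAt E4 x x) = 0
    refine d1_zero_of_ev ?_
    have hxs := mem_chart_source E4 x
    have h1 : ∀ᶠ y in 𝓝 (chartAt E4 x x), (chartAt E4 x).symm y ∈ (tsupport (P.χ i))ᶜ := by
      have hc := (chartAt E4 x).continuousAt_symm ((chartAt E4 x).map_source hxs)
      refine hc.eventually ((isClosed_tsupport _).isOpen_compl.mem_nhds ?_)
      rw [(chartAt E4 x).left_inv hxs]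
      exact hx
    filter_upwards [h1] with y hy
    rw [rep1_fmul1, repF, P.zero i hy, zero_smul]
  rw [TK_loc P hK (P.compact i) (P.supp i) (β i) hz]
  unfold loc
  refine Finset.sum_eq_zero fun j _ => ?_
  obtain ⟨r, hr, h⟩ := (L (P.p i)).proper j.1 _ (P.compact i) (P.supp i)
  refine stokes_disc ((L (P.p i)).disc j.1).hol.smooth (hsi i) hr fun z hz hrz => ?_
  have hn : (L (P.p i)).u j.1 z ∉ tsupport (P.χ i) := fun hzK =>
    absurd (h z hz hzK) (not_le.2 hrz)
  show P.χ i _ • at1 s _ = 0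
  rw [P.zero i hn, zero_smul]

end

end Crest.Agent.R235.Glob_370
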