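import Crest.Agent.R235.SWDefs_53

/-!
Row 235 (S0364), PACKAGE SW, E2 (helper649): the Green operator of an elliptic pair
`P : OpPair D0 D1` (format `Tv57`).

* `SS D`           : smooth sections, a submodule of `κ → M → ℝ`;
* `hl : SS D → HH`, `wl : SS D → W^{1,2}` : linear maps to the Hilbert spaces;
* `OpPair.al`      : `A` as a linear map `SS D0 → SS D1` (linearity follows from adjointness);
* `exists_series`  : abstract summation lemma;
* `exists_grn`     : the Green operator `f ↦ ∑_{μ_k ≠ 0} μ_k⁻¹ ⟨f, φ_k⟩ A φ_k`, bounded into `W^{1,2}(D1)`.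
-/

set_option autoImplicit false
set_option maxSynthPendingDepth 3
set_option linter.unusedSectionVars false

open scoped ContDiff ENNReal NNReal Topology Manifold Bundle RealInnerProductSpace
open MeasureTheory Set Filter Metric Bundle

namespace Crest.Agent.R235.Green_649

open Crest.Agent.R249.Tv57 Crest.Agent.R247.Ms322 Crest.Agent.R247.Dir593

noncomputable section

/-! ### abstract summation -/

section abs

variable {H W : Type*} [NormedAddCommGroup H] [InnerProductSpace ℝ H] [NormedAddCommGroup W]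
  [NormedSpace ℝ W] [CompleteSpace W]

/-- **abstract summation lemma.** -/
theorem exists_series {b : ℕ → H} (hb : ∀ (f : H) (s : Finset ℕ), ∑ k ∈ s, ⟪f, b k⟫ ^ 2 ≤ ‖f‖ ^ 2)
    {e : ℕ → W} {C : ℝ} (hC0 : 0 ≤ C)
    (hC : ∀ (s : Finset ℕ) (c : ℕ → ℝ), ‖∑ k ∈ s, c k • e k‖ ^ 2 ≤ C ^ 2 * ∑ k ∈ s, c k ^ 2) :
    ∃ G : H →L[ℝ] W, (∀ f, HasSum (fun k => ⟪f, b k⟫ • e k) (G f)) ∧ ∀ f, ‖G f‖ ≤ C * ‖f‖ := by
  have hsq : ∀ f : H, Summable fun k => ⟪f, b k⟫ ^ 2 := fun f =>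
    summable_of_sum_le (fun k => sq_nonneg _) (hb f)
  have hsum : ∀ f : H, Summable fun k => ⟪f, b k⟫ • e k := by
    intro f
    rw [summable_iff_vanishing_norm]
    intro ε hε
    obtain ⟨s, hs⟩ := (summable_iff_vanishing_norm.1 (hsq f)) ((ε / (C + 1)) ^ 2) (by positivity)
    refine ⟨s, fun t ht => ?_⟩
    have h1 := hs t ht
    rw [Real.norm_of_nonneg (Finset.sum_nonneg fun k _ => sq_nonneg _)] at h1
    have h2 := hC t (fun k => ⟪f, b k⟫)
    have h3 : ‖∑ k ∈ t, ⟪f, b k⟫ • e k‖ ^ 2 < ε ^ 2 := by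
      refine lt_of_le_of_lt h2 ?_
      have h4 : C ^ 2 * ∑ k ∈ t, ⟪f, b k⟫ ^ 2 ≤ C ^ 2 * (ε / (C + 1)) ^ 2 :=
        mul_le_mul_of_nonneg_left h1.le (sq_nonneg _)
      refine lt_of_le_of_lt h4 ?_
      have h5 : C ^ 2 * (ε / (C + 1)) ^ 2 = (C / (C + 1)) ^ 2 * ε ^ 2 := by
        field_simp
      rw [h5]
      have h6 : (C / (C + 1)) ^ 2 < 1 := by
        have : C / (C + 1) < 1 := (div_lt_one (by linarith)).2 (by linarith)
        have h7 : 0 ≤ C / (C + 1) := by positivity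
        nlinarith
      have h8 : 0 < ε ^ 2 := by positivity
      nlinarith
    exact lt_of_pow_lt_pow_left₀ 2 hε.le h3
  have hG : ∀ f : H, HasSum (fun k => ⟪f, b k⟫ • e k) (∑' k, ⟪f, b k⟫ • e k) := fun f =>
    (hsum f).hasSum
  have hbd : ∀ f : H, ‖∑' k, ⟪f, b k⟫ • e k‖ ≤ C * ‖f‖ := by
    intro f
    have h1 : Tendsto (fun s : Finset ℕ => ‖∑ k ∈ s, ⟪f, b k⟫ • e k‖) atTop
        (𝓝 ‖∑' k, ⟪f, b k⟫ • e k‖) := (hG f).norm
    refine le_of_tendsto' h1 fun s => ?_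
    have h2 := (hC s (fun k => ⟪f, b k⟫)).trans
      (mul_le_mul_of_nonneg_left (hb f s) (sq_nonneg C))
    rw [← mul_pow] at h2
    exact (pow_le_pow_iff_left₀ (norm_nonneg _) (by positivity) two_ne_zero).1 h2
  let L : H →ₗ[ℝ] W :=
    { toFun := fun f => ∑' k, ⟪f, b k⟫ • e k
      map_add' := fun f g => by
        have h1 := (hG f).add (hG g)
        have h2 : (fun k => ⟪f, b k⟫ • e k + ⟪g, b k⟫ • e k) = fun k => ⟪f + g, b k⟫ • e k := by
          funext k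
          rw [inner_add_left, add_smul]
        rw [h2] at h1
        exact (hG (f + g)).unique h1
      map_smul' := fun c f => by
        have h1 := (hG f).const_smul c
        have h2 : (fun k => c • ⟪f, b k⟫ • e k) = fun k => ⟪c • f, b k⟫ • e k := by
          funext k
          rw [real_inner_smul_left, mul_smul]
        rw [h2] at h1
        exact (hG (c • f)).unique h1 }
  exact ⟨L.mkContinuous C hbd, hG, hbd⟩

end abs

/-! ### smooth sections in the Hilbert spaces -/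

variable {n : ℕ} {M : Type*} [MetricSpace M] [ChartedSpace (EuclideanSpace ℝ (Fin n)) M]
  [IsManifold (𝓡 n) ∞ M]
  [RiemannianBundle (fun p : M => TangentSpace (𝓡 n) p)]
  [IsContMDiffRiemannianBundle (𝓡 n) ∞ (EuclideanSpace ℝ (Fin n)) (fun p : M => TangentSpace (𝓡 n) p)]
  [IsRiemannianManifold (𝓡 n) M] [MeasurableSpace M] [BorelSpace M]
  [SecondCountableTopology M] [Nonempty M]
  [CompactSpace M] [IsFiniteMeasureOnCompacts (μHE[n] : Measure M)]
variable {κ κ' : Type} [Fintype κ] [Fintype κ'] {D0 : Dat n M κ} {D1 : Dat n M κ'}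

/-- the smooth sections of `D`. -/
def SS (D : Dat n M κ) : Submodule ℝ (κ → M → ℝ) where
  carrier := {u | SmV (n := n) u ∧ D.Sec u}
  zero_mem' := ⟨fun a => contMDiff_const, fun a z => by simp⟩
  add_mem' := fun {u v} hu hv => ⟨fun a => (hu.1 a).add (hv.1 a), fun a z => by
    simp only [Pi.add_apply, mul_add, Finset.sum_add_distrib, hu.2 a z, hv.2 a z]⟩
  smul_mem' := fun c u hu => ⟨fun a => contMDiff_const.mul (hu.1 a), fun a z => by
    have h1 := hu.2 a z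
    simp only [Pi.smul_apply, smul_eq_mul]
    rw [← h1, Finset.mul_sum]
    exact Finset.sum_congr rfl fun b _ => by ring⟩

theorem ssm {D : Dat n M κ} (u : SS D) : SmV (n := n) (u : κ → M → ℝ) := u.2.1
theorem sse {D : Dat n M κ} (u : SS D) : D.Sec (u : κ → M → ℝ) := u.2.2

theorem ext_ss {D : Dat n M κ} {u v : SS D} (h : (u : κ → M → ℝ) = v) : u = v := Subtype.ext h

/-- a smooth function as an element of `L²`. -/
def tl {f : M → ℝ} (hf : ContMDiff (𝓡 n) 𝓘(ℝ, ℝ) ∞ f) : Lp ℝ 2 (μHE[n] : Measure M) :=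
  GradS.tL (isT_smooth hf)

theorem coe_tl {f : M → ℝ} (hf : ContMDiff (𝓡 n) 𝓘(ℝ, ℝ) ∞ f) :
    (tl hf : Lp ℝ 2 (μHE[n] : Measure M)) =ᵐ[(μHE[n] : Measure M)] f :=
  GradS.coe_tL _

/-- a smooth section as an element of `L²`. -/
def hl (D : Dat n M κ) : SS D →ₗ[ℝ] HH (μHE[n] : Measure M) κ where
  toFun := fun u => WithLp.toLp 2 fun a => tl (ssm u a)
  map_add' := fun u v => by
    ext a
    filter_upwards [coe_tl (ssm (u + v) a), coe_tl (ssm u a), coe_tl (ssm v a),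
      Lp.coeFn_add (tl (ssm u a) : Lp ℝ 2 (μHE[n] : Measure M)) (tl (ssm v a))] with x e1 e2 e3 e4
    have : ((WithLp.toLp 2 fun a => tl (ssm u a) : HH (μHE[n] : Measure M) κ) +
        (WithLp.toLp 2 fun a => tl (ssm v a) : HH (μHE[n] : Measure M) κ)) a
          = tl (ssm u a) + tl (ssm v a) := rfl
    rw [this, e4, Pi.add_apply, e2, e3]
    exact e1
  map_smul' := fun c u => by
    ext a
    filter_upwards [coe_tl (ssm (c • u) a), coe_tl (ssm u a),
      Lp.coeFn_smul c (tl (ssm u a) : Lp ℝ 2 (μHE[n] : Measure M))] with x e1 e2 e3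
    have : ((RingHom.id ℝ) c • (WithLp.toLp 2 fun a => tl (ssm u a) :
        HH (μHE[n] : Measure M) κ)) a = c • tl (ssm u a) := rfl
    rw [this, e3, Pi.smul_apply, e2]
    exact e1

theorem coe_hl {D : Dat n M κ} (u : SS D) :
    ∀ᵐ x ∂(μHE[n] : Measure M), ∀ a, (hl D u a : M → ℝ) x = (u : κ → M → ℝ) a x := by
  rw [ae_all_iff]
  intro a
  exact coe_tl (ssm u a)

theorem hl_V {D : Dat n M κ} (u : SS D) (a : κ) : hl D u a ∈ (gradS n M).V :=
  (gradS n M).tL_mem (isT_smooth (ssm u a))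

theorem hl_P {D : Dat n M κ} (u : SS D) : D.toAD.P (hl D u) = hl D u := by
  ext a
  filter_upwards [D.toAD.coe_P (hl D u), coe_hl u] with x e1 e2
  rw [e1 a, e2 a, ← sse u a x]
  exact Finset.sum_congr rfl fun b _ => by rw [e2 b]; rfl

theorem inner_hl {D D' : Dat n M κ} (u : SS D) (v : SS D') :
    ⟪hl D u, hl D' v⟫ = Crest.Agent.R249.Tv57.ip n (u : κ → M → ℝ) (v : κ → M → ℝ) :=
  inner_HH _ _ (coe_hl u) (coe_hl v)

/-- a smooth section as an element of `W^{1,2}`. -/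
def wl (D : Dat n M κ) : SS D →ₗ[ℝ] D.toAD.WE where
  toFun := fun u => D.toAD.mkW (hl D u) (hl_V u) (hl_P u)
  map_add' := fun u v => by
    apply D.toAD.jj_injective
    apply Subtype.ext
    have h1 : ((D.toAD.jj (D.toAD.mkW (hl D u) (hl_V u) (hl_P u) +
        D.toAD.mkW (hl D v) (hl_V v) (hl_P v)) : D.toAD.HE) : HH (μHE[n] : Measure M) κ)
          = hl D u + hl D v := rfl
    rw [h1, ← map_add]
    rfl
  map_smul' := fun c u => by
    apply D.toAD.jj_injective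
    apply Subtype.ext
    have h1 : ((D.toAD.jj ((RingHom.id ℝ) c • D.toAD.mkW (hl D u) (hl_V u) (hl_P u)) :
        D.toAD.HE) : HH (μHE[n] : Measure M) κ) = c • hl D u := rfl
    rw [h1, ← map_smul]
    rfl

@[simp] theorem i1_wl {D : Dat n M κ} (u : SS D) : D.toAD.i1 (wl D u) = hl D u := rfl

set_option synthInstance.maxHeartbeats 200000 in
instance instT2WE (D : Dat n M κ) : T2Space D.toAD.WE := inferInstance

theorem i1_injective (D : Dat n M κ) : Function.Injective D.toAD.i1 := fun _ _ h =>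
  D.toAD.jj_injective (Subtype.ext h)

/-- the energy of smooth sections. -/
theorem form_wl {D : Dat n M κ} (u v : SS D) :
    ⟪D.toAD.c1 (wl D u), D.toAD.c1 (wl D v)⟫ + ⟪D.toAD.qL (hl D u), hl D v⟫
      = ∫ z, D.ed (u : κ → M → ℝ) (v : κ → M → ℝ) z ∂(μHE[n] : Measure M) := by
  have h0 := D.toAD.form_eq (wl D u) (wl D v)
  rw [i1_wl, i1_wl] at h0
  rw [h0]
  have hD : ∀ w : SS D, ∀ᵐ x ∂(μHE[n] : Measure M), ∀ a,
      ((gradS n M).D (hl D w a) : M → EuclideanSpace ℝ (Fin n)) x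
        = Gr (n := n) ((w : κ → M → ℝ) a) x := by
    intro w
    rw [ae_all_iff]
    intro a
    exact (gradS n M).D_tL (isT_smooth (ssm w a))
  refine integral_congr_ae ?_
  filter_upwards [coe_hl u, coe_hl v, hD u, hD v] with x e1 e2 e3 e4
  rw [AD.en, Dat.ed]
  congr 1
  · refine Finset.sum_congr rfl fun a _ => ?_
    have c1 : D.cv (u : κ → M → ℝ) a x = D.toAD.cvf (hl D u) a x := by
      rw [Dat.cv, AD.cvf, e3 a]
      congr 1
      exact Finset.sum_congr rfl fun b _ => by rw [e1 b]; rfl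
    have c2 : D.cv (v : κ → M → ℝ) a x = D.toAD.cvf (hl D v) a x := by
      rw [Dat.cv, AD.cvf, e4 a]
      congr 1
      exact Finset.sum_congr rfl fun b _ => by rw [e2 b]; rfl
    rw [c1, c2]
  · refine Finset.sum_congr rfl fun a _ => Finset.sum_congr rfl fun b _ => ?_
    rw [e1 b, e2 a]
    rfl

/-- **Garding** for smooth sections. -/
theorem exists_garding (D : Dat n M κ) : ∃ C : ℝ, 0 ≤ C ∧ ∀ u : SS D,
    ‖wl D u‖ ^ 2 ≤ 2 * ∫ z, D.ed (u : κ → M → ℝ) (u : κ → M → ℝ) z ∂(μHE[n] : Measure M)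
      + C * ‖hl D u‖ ^ 2 := by
  refine ⟨1 + 2 * ‖D.toAD.qL‖ + 2 * ‖matF D.toAD.hw‖ ^ 2, by positivity, fun u => ?_⟩
  have h1 := D.toAD.norm_WE_le (wl D u)
  have h2 := form_wl u u
  rw [real_inner_self_eq_norm_sq] at h2
  rw [i1_wl] at h1
  have h3 : |⟪D.toAD.qL (hl D u), hl D u⟫| ≤ ‖D.toAD.qL‖ * ‖hl D u‖ ^ 2 := by
    refine (abs_real_inner_le_norm _ _).trans ?_
    rw [sq, ← mul_assoc]
    gcongr
    exact ContinuousLinearMap.le_opNorm _ _
  have h4 := (abs_le.1 h3).1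
  nlinarith

/-- a smooth section orthogonal to itself vanishes. -/
theorem ss_zero {D : Dat n M κ} {u : SS D}
    (h : Crest.Agent.R249.Tv57.ip n (u : κ → M → ℝ) (u : κ → M → ℝ) = 0) : u = 0 :=
  ext_ss (funext fun a => funext fun z => eq_zero_of_ip (ssm u) h a z)

theorem ss_zero' {D : Dat n M κ} {u : SS D} (h : ⟪hl D u, hl D u⟫ = (0 : ℝ)) : u = 0 :=
  ss_zero (by rw [← inner_hl]; exact h)

/-- the eigensections. -/
def ef {D : Dat n M κ} (S : Spec D) (k : ℕ) : SS D := ⟨S.φ k, S.smV k, S.sec k⟩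

theorem inner_ef {D : Dat n M κ} (S : Spec D) (k l : ℕ) :
    ⟪hl D (ef S k), hl D (ef S l)⟫ = (if k = l then 1 else 0 : ℝ) := by
  rw [inner_hl]
  exact S.ortho k l

theorem orthonormal_ef {D : Dat n M κ} (S : Spec D) : Orthonormal ℝ fun k => hl D (ef S k) := by
  rw [orthonormal_iff_ite]
  exact inner_ef S

/-- Bessel. -/
theorem bessel {D : Dat n M κ} (S : Spec D) (f : HH (μHE[n] : Measure M) κ) (s : Finset ℕ) :
    ∑ k ∈ s, ⟪f, hl D (ef S k)⟫ ^ 2 ≤ ‖f‖ ^ 2 := by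
  have h := (orthonormal_ef S).sum_inner_products_le f (s := s)
  refine le_trans (le_of_eq ?_) h
  refine Finset.sum_congr rfl fun k _ => ?_
  rw [Real.norm_eq_abs, sq_abs, real_inner_comm]

/-- Parseval. -/
theorem parseval {D : Dat n M κ} (S : Spec D) {f : HH (μHE[n] : Measure M) κ}
    (hf : D.toAD.P f = f) : HasSum (fun k => ⟪f, hl D (ef S k)⟫ ^ 2) (‖f‖ ^ 2) := by
  have h0 := D.toAD.coe_P f
  rw [hf] at h0
  have h1 := S.pars (fun a => (f a : M → ℝ)) (fun a => Lp.memLp _) (by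
    filter_upwards [h0] with z e1 a
    exact (e1 a).symm)
  have hfe : ∀ᵐ x ∂(μHE[n] : Measure M), ∀ a, (f a : M → ℝ) x = (f a : M → ℝ) x :=
    Eventually.of_forall fun _ _ => rfl
  have e1 : ∫ z, ∑ a, (f a : M → ℝ) z ^ 2 ∂(μHE[n] : Measure M) = ‖f‖ ^ 2 := by
    rw [← real_inner_self_eq_norm_sq, inner_HH f f hfe hfe]
    refine integral_congr_ae (Eventually.of_forall fun x => ?_)
    exact Finset.sum_congr rfl fun a _ => by ring
  have e2 : ∀ k, ∫ z, ∑ a, (f a : M → ℝ) z * S.φ k a z ∂(μHE[n] : Measure M)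
      = ⟪f, hl D (ef S k)⟫ := fun k => (inner_HH f _ hfe (coe_hl (ef S k))).symm
  rw [e1] at h1
  simp only [e2] at h1
  exact h1

/-- polarised Parseval. -/
theorem parseval2 {D : Dat n M κ} (S : Spec D) {f g : HH (μHE[n] : Measure M) κ}
    (hf : D.toAD.P f = f) (hg : D.toAD.P g = g) :
    HasSum (fun k => ⟪f, hl D (ef S k)⟫ * ⟪g, hl D (ef S k)⟫) ⟪f, g⟫ := by
  have h1 := parseval S (f := f + g) (by rw [map_add, hf, hg])
  have h2 := parseval S (f := f - g) (by rw [map_sub, hf, hg])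
  have h3 := (h1.sub h2).mul_left (1 / 4)
  have e1 : 1 / 4 * (‖f + g‖ ^ 2 - ‖f - g‖ ^ 2) = ⟪f, g⟫ := by
    rw [← real_inner_self_eq_norm_sq, ← real_inner_self_eq_norm_sq]
    simp only [inner_add_left, inner_add_right, inner_sub_left, inner_sub_right]
    rw [real_inner_comm f g]
    ring
  rw [e1] at h3
  refine h3.congr_fun ?_ |> fun h => h
  intro k
  simp only [inner_add_left, inner_sub_left]
  ring

/-- the same, `f` arbitrary. -/
theorem parseval3 {D : Dat n M κ} (S : Spec D) (f : HH (μHE[n] : Measure M) κ)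
    {g : HH (μHE[n] : Measure M) κ} (hg : D.toAD.P g = g) :
    HasSum (fun k => ⟪f, hl D (ef S k)⟫ * ⟪g, hl D (ef S k)⟫) ⟪f, g⟫ := by
  have h1 := parseval2 S (D.toAD.P_P f) hg
  have e1 : ⟪D.toAD.P f, g⟫ = ⟪f, g⟫ := by rw [D.toAD.inner_P, hg]
  have e2 : ∀ k, ⟪D.toAD.P f, hl D (ef S k)⟫ = ⟪f, hl D (ef S k)⟫ := fun k => by
    rw [D.toAD.inner_P, hl_P]
  rw [e1] at h1
  simp only [e2] at h1
  exact h1

/-- an element of `L²(E)` orthogonal to all eigensections vanishes. -/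
theorem eq_zero_of {D : Dat n M κ} (S : Spec D) {f : HH (μHE[n] : Measure M) κ}
    (hf : D.toAD.P f = f) (h : ∀ k, ⟪f, hl D (ef S k)⟫ = (0 : ℝ)) : f = 0 := by
  have h1 := parseval S hf
  simp only [h] at h1
  have h2 : ‖f‖ ^ 2 = 0 := by
    have := h1.tsum_eq
    simpa using this.symm
  exact norm_eq_zero.1 (pow_eq_zero_iff two_ne_zero |>.1 h2)

/-! ### `A` as a linear map -/

/-- `A` on smooth sections. -/
def al0 (P : OpPair D0 D1) (u : SS D0) : SS D1 := ⟨P.A u, P.smA _ (ssm u) (sse u),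
  P.secA _ (ssm u) (sse u)⟩

theorem adj0 (P : OpPair D0 D1) (u : SS D0) (w : SS D1) :
    ⟪hl D1 (al0 P u), hl D1 w⟫ = ⟪hl D0 u, hl D0 (al0 P.swap w)⟫ := by
  rw [inner_hl, inner_hl]
  exact P.adj _ _ (ssm u) (sse u) (ssm w) (sse w)

theorem ext_inner {D : Dat n M κ} {u v : SS D} (h : ∀ w : SS D, ⟪hl D u, hl D w⟫ = ⟪hl D v, hl D w⟫) :
    u = v := by
  have h1 : u - v = 0 := by
    apply ss_zero'
    have h2 := h (u - v)
    have h3 : hl D (u - v) = hl D u - hl D v := map_sub _ _ _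
    conv_lhs => rw [h3]
    rw [inner_sub_left, ← h3, h2, sub_self]
  exact sub_eq_zero.1 h1

/-- **`A` as a linear map.** -/
def al (P : OpPair D0 D1) : SS D0 →ₗ[ℝ] SS D1 where
  toFun := al0 P
  map_add' := fun u v => by
    apply ext_inner
    intro w
    rw [adj0, map_add, inner_add_left, map_add, inner_add_left, adj0, adj0]
  map_smul' := fun c u => by
    apply ext_inner
    intro w
    rw [adj0, map_smul, real_inner_smul_left, map_smul, real_inner_smul_left, adj0]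
    rfl

theorem coe_al (P : OpPair D0 D1) (u : SS D0) : (al P u : κ' → M → ℝ) = P.A u := rfl

/-- adjointness. -/
theorem adj (P : OpPair D0 D1) (u : SS D0) (w : SS D1) :
    ⟪hl D1 (al P u), hl D1 w⟫ = ⟪hl D0 u, hl D0 (al P.swap w)⟫ := adj0 P u w

/-- the energy identity. -/
theorem energy (P : OpPair D0 D1) (u v : SS D0) :
    ∫ z, D0.ed (u : κ → M → ℝ) (v : κ → M → ℝ) z ∂(μHE[n] : Measure M)
      = ⟪hl D1 (al P u), hl D1 (al P v)⟫ := by
  rw [inner_hl]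
  exact P.enA _ _ (ssm u) (sse u) (ssm v) (sse v)

/-- `⟨A φ_k, A v⟩ = μ_k ⟨φ_k, v⟩`. -/
theorem inner_al (P : OpPair D0 D1) (S0 : Spec D0) (k : ℕ) (v : SS D0) :
    ⟪hl D1 (al P (ef S0 k)), hl D1 (al P v)⟫ = S0.μ k * ⟪hl D0 (ef S0 k), hl D0 v⟫ := by
  rw [← energy, inner_hl]
  exact S0.eig k _ (ssm v)

/-- `B A φ_k = μ_k φ_k`. -/
theorem al_al (P : OpPair D0 D1) (S0 : Spec D0) (k : ℕ) :
    al P.swap (al P (ef S0 k)) = S0.μ k • ef S0 k := by
  apply ext_inner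
  intro w
  have h1 := adj P w (al P (ef S0 k))
  rw [real_inner_comm, ← h1, real_inner_comm, inner_al, map_smul, real_inner_smul_left]

theorem al_ker (P : OpPair D0 D1) (S0 : Spec D0) {k : ℕ} (hk : S0.μ k = 0) :
    al P (ef S0 k) = 0 := by
  apply ss_zero'
  rw [inner_al, hk, zero_mul]

/-- the positive eigenvalues are bounded below. -/
theorem exists_gap (P : OpPair D0 D1) (S0 : Spec D0) :
    ∃ m : ℝ, 0 < m ∧ ∀ k, S0.μ k ≠ 0 → m ≤ S0.μ k := by
  classical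
  obtain ⟨N, hN⟩ := eventually_atTop.1 (S0.lim.eventually_ge_atTop 1)
  have h0 := P.mu_nonneg S0
  set s := (Finset.range N).filter fun k => S0.μ k ≠ 0 with hs
  by_cases hne : s.Nonempty
  · obtain ⟨k0, hk0, hmin⟩ := s.exists_min_image S0.μ hne
    have hk0' := (Finset.mem_filter.1 hk0).2
    have hpos : 0 < S0.μ k0 := lt_of_le_of_ne (h0 k0) (Ne.symm hk0')
    refine ⟨min 1 (S0.μ k0), lt_min one_pos hpos, fun k hk => ?_⟩
    by_cases hkN : k < N
    · exact (min_le_right _ _).trans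
        (hmin k (Finset.mem_filter.2 ⟨Finset.mem_range.2 hkN, hk⟩))
    · exact (min_le_left _ _).trans (hN k (not_lt.1 hkN))
  · refine ⟨1, one_pos, fun k hk => ?_⟩
    by_cases hkN : k < N
    · exact absurd ⟨k, Finset.mem_filter.2 ⟨Finset.mem_range.2 hkN, hk⟩⟩ hne
    · exact hN k (not_lt.1 hkN)

/-! ### the Green operator -/

/-- finite combinations of eigensections. -/
theorem norm_comb {D : Dat n M κ} (S : Spec D) (s : Finset ℕ) (b : ℕ → ℝ) :
    ‖hl D (∑ k ∈ s, b k • ef S k)‖ ^ 2 = ∑ k ∈ s, b k ^ 2 := by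
  have h1 : hl D (∑ k ∈ s, b k • ef S k) = ∑ k ∈ s, b k • hl D (ef S k) := by
    rw [map_sum]
    exact Finset.sum_congr rfl fun k _ => map_smul _ _ _
  rw [h1, ← real_inner_self_eq_norm_sq, (orthonormal_ef S).inner_sum]
  refine Finset.sum_congr rfl fun k _ => ?_
  simp only [conj_trivial]
  ring

/-- the directions of the Green operator. -/
def gdir (P : OpPair D0 D1) (S0 : Spec D0) (k : ℕ) : D1.toAD.WE :=
  if S0.μ k = 0 then 0 else (S0.μ k)⁻¹ • wl D1 (al P (ef S0 k))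

theorem gdir_bound (P : OpPair D0 D1) (S0 : Spec D0) : ∃ C : ℝ, 0 ≤ C ∧
    ∀ (s : Finset ℕ) (c : ℕ → ℝ), ‖∑ k ∈ s, c k • gdir P S0 k‖ ^ 2 ≤ C ^ 2 * ∑ k ∈ s, c k ^ 2 := by
  obtain ⟨K, hK0, hK⟩ := exists_garding D1
  obtain ⟨m, hm0, hm⟩ := exists_gap P S0
  have hmu := P.mu_nonneg S0
  refine ⟨√(2 + K * m⁻¹), Real.sqrt_nonneg _, fun s c => ?_⟩
  rw [Real.sq_sqrt (by positivity)]
  set a : ℕ → ℝ := fun k => if S0.μ k = 0 then 0 else c k * (S0.μ k)⁻¹ with ha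
  set v : SS D0 := ∑ k ∈ s, a k • ef S0 k with hv
  have h1 : ∑ k ∈ s, c k • gdir P S0 k = wl D1 (al P v) := by
    rw [hv, map_sum, map_sum]
    refine Finset.sum_congr rfl fun k _ => ?_
    rw [map_smul, map_smul, gdir, ha]
    simp only
    split_ifs with h
    · rw [smul_zero, zero_smul]
    · rw [smul_smul]
  have h2 : al P.swap (al P v) = ∑ k ∈ s, (a k * S0.μ k) • ef S0 k := by
    rw [hv, map_sum, map_sum]
    refine Finset.sum_congr rfl fun k _ => ?_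
    rw [map_smul, map_smul, al_al, smul_smul]
  have h3 : ‖hl D0 (al P.swap (al P v))‖ ^ 2 ≤ ∑ k ∈ s, c k ^ 2 := by
    rw [h2, norm_comb]
    refine Finset.sum_le_sum fun k _ => ?_
    simp only [ha]
    split_ifs with h
    · rw [h]
      simpa using sq_nonneg (c k)
    · rw [mul_assoc, inv_mul_cancel₀ h, mul_one]
  have h4 : ‖hl D1 (al P v)‖ ^ 2 ≤ m⁻¹ * ∑ k ∈ s, c k ^ 2 := by
    have e1 : ‖hl D1 (al P v)‖ ^ 2 = ∑ k ∈ s, a k ^ 2 * S0.μ k := by
      rw [← real_inner_self_eq_norm_sq, adj, h2, ← real_inner_comm]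
      have e2 : hl D0 (∑ k ∈ s, (a k * S0.μ k) • ef S0 k)
          = ∑ k ∈ s, (a k * S0.μ k) • hl D0 (ef S0 k) := by
        rw [map_sum]
        exact Finset.sum_congr rfl fun k _ => map_smul _ _ _
      have e3 : hl D0 v = ∑ k ∈ s, a k • hl D0 (ef S0 k) := by
        rw [hv, map_sum]
        exact Finset.sum_congr rfl fun k _ => map_smul _ _ _
      rw [e2, e3, (orthonormal_ef S0).inner_sum]
      refine Finset.sum_congr rfl fun k _ => ?_
      simp only [conj_trivial]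
      ring
    rw [e1, Finset.mul_sum]
    refine Finset.sum_le_sum fun k _ => ?_
    simp only [ha]
    split_ifs with h
    · rw [h]
      simp only [ne_eq, OfNat.ofNat_ne_zero, not_false_eq_true, zero_pow, zero_mul]
      positivity
    · have h5 : (c k * (S0.μ k)⁻¹) ^ 2 * S0.μ k = (S0.μ k)⁻¹ * c k ^ 2 := by
        field_simp
      rw [h5]
      have h6 : (S0.μ k)⁻¹ ≤ m⁻¹ := inv_anti₀ hm0 (hm k h)
      exact mul_le_mul_of_nonneg_right h6 (sq_nonneg _)
  rw [h1]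
  have h7 := hK (al P v)
  have h8 := energy P.swap (al P v) (al P v)
  rw [real_inner_self_eq_norm_sq] at h8
  have h9 : ∫ z, D1.ed ((al P v : SS D1) : κ' → M → ℝ) ((al P v : SS D1) : κ' → M → ℝ) z
      ∂(μHE[n] : Measure M) = ‖hl D0 (al P.swap (al P v))‖ ^ 2 := h8
  rw [h9] at h7
  have h10 : K * ‖hl D1 (al P v)‖ ^ 2 ≤ K * (m⁻¹ * ∑ k ∈ s, c k ^ 2) :=
    mul_le_mul_of_nonneg_left h4 hK0
  linarith

/-- **the Green operator** `G = A (B A)⁻¹` of the pair, from `L²` to `W^{1,2}(D1)`. -/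
theorem exists_grn (P : OpPair D0 D1) (S0 : Spec D0) :
    ∃ G : HH (μHE[n] : Measure M) κ →L[ℝ] D1.toAD.WE,
      ∀ f, HasSum (fun k => ⟪f, hl D0 (ef S0 k)⟫ • gdir P S0 k) (G f) := by
  obtain ⟨C, hC0, hC⟩ := gdir_bound P S0
  obtain ⟨G, hG, -⟩ := exists_series (b := fun k => hl D0 (ef S0 k)) (bessel S0) hC0 hC
  exact ⟨G, hG⟩

/-- the Green operator. -/
def grn (P : OpPair D0 D1) (S0 : Spec D0) : HH (μHE[n] : Measure M) κ →L[ℝ] D1.toAD.WE :=
  Classical.choose (exists_grn P S0)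

theorem hasSum_grn (P : OpPair D0 D1) (S0 : Spec D0) (f : HH (μHE[n] : Measure M) κ) :
    HasSum (fun k => ⟪f, hl D0 (ef S0 k)⟫ • gdir P S0 k) (grn P S0 f) :=
  Classical.choose_spec (exists_grn P S0) f

/-- the projection onto the kernel. -/
def pik (S0 : Spec D0) (f : HH (μHE[n] : Measure M) κ) : HH (μHE[n] : Measure M) κ :=
  ∑ k ∈ S0.ker, ⟪f, hl D0 (ef S0 k)⟫ • hl D0 (ef S0 k)

/-- continuous functionals of `grn f`. -/
theorem hasSum_inner (P : OpPair D0 D1) (S0 : Spec D0) (f : HH (μHE[n] : Measure M) κ)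
    (g : HH (μHE[n] : Measure M) κ') :
    HasSum (fun k => ⟪f, hl D0 (ef S0 k)⟫ * ⟪D1.toAD.i1 (gdir P S0 k), g⟫)
      ⟪D1.toAD.i1 (grn P S0 f), g⟫ := by
  have h1 := (hasSum_grn P S0 f).mapL ((innerSL ℝ g).comp D1.toAD.i1)
  have e1 : ∀ w : D1.toAD.WE, ((innerSL ℝ g).comp D1.toAD.i1) w = ⟪D1.toAD.i1 w, g⟫ := by
    intro w
    simp only [ContinuousLinearMap.comp_apply, innerSL_apply_apply]
    exact real_inner_comm _ _
  simp only [e1, map_smul] at h1
  refine h1.congr_fun ?_ |> fun h => h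
  intro k
  rw [real_inner_smul_left]

theorem inner_gdir (P : OpPair D0 D1) (S0 : Spec D0) (k : ℕ) (w : SS D0) :
    ⟪D1.toAD.i1 (gdir P S0 k), hl D1 (al P w)⟫
      = if S0.μ k = 0 then 0 else ⟪hl D0 (ef S0 k), hl D0 w⟫ := by
  unfold gdir
  split_ifs with h
  · rw [map_zero, inner_zero_left]
  · rw [map_smul, i1_wl, real_inner_smul_left, inner_al, ← mul_assoc, inv_mul_cancel₀ h, one_mul]

theorem inner_pik (S0 : Spec D0) (f g : HH (μHE[n] : Measure M) κ) :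
    ⟪pik S0 f, g⟫ = ∑ k ∈ S0.ker, ⟪f, hl D0 (ef S0 k)⟫ * ⟪g, hl D0 (ef S0 k)⟫ := by
  unfold pik
  rw [sum_inner]
  refine Finset.sum_congr rfl fun k _ => ?_
  rw [real_inner_smul_left, real_inner_comm g]

/-- **weakly `B (G f) = f - Π f`**. -/
theorem grn_weak (P : OpPair D0 D1) (S0 : Spec D0) (f : HH (μHE[n] : Measure M) κ) (w : SS D0) :
    ⟪D1.toAD.i1 (grn P S0 f), hl D1 (al P w)⟫ = ⟪f - pik S0 f, hl D0 w⟫ := by
  classical
  have h1 := hasSum_inner P S0 f (hl D1 (al P w))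
  have h2 := parseval3 S0 f (hl_P w)
  have h3 : HasSum (fun k => if k ∈ S0.ker then
      ⟪f, hl D0 (ef S0 k)⟫ * ⟪hl D0 w, hl D0 (ef S0 k)⟫ else 0)
      (∑ k ∈ S0.ker, ⟪f, hl D0 (ef S0 k)⟫ * ⟪hl D0 w, hl D0 (ef S0 k)⟫) := by
    have h4 : HasSum (fun k => if k ∈ S0.ker then
        ⟪f, hl D0 (ef S0 k)⟫ * ⟪hl D0 w, hl D0 (ef S0 k)⟫ else 0)
        (∑ k ∈ S0.ker, (if k ∈ S0.ker then
        ⟪f, hl D0 (ef S0 k)⟫ * ⟪hl D0 w, hl D0 (ef S0 k)⟫ else 0)) :=
      hasSum_sum_of_ne_finset_zero fun k hk => if_neg hk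
    have h5 : ∑ k ∈ S0.ker, (if k ∈ S0.ker then
        ⟪f, hl D0 (ef S0 k)⟫ * ⟪hl D0 w, hl D0 (ef S0 k)⟫ else 0)
          = ∑ k ∈ S0.ker, ⟪f, hl D0 (ef S0 k)⟫ * ⟪hl D0 w, hl D0 (ef S0 k)⟫ :=
      Finset.sum_congr rfl fun k hk => if_pos hk
    rwa [h5] at h4
  have h6 := h2.sub h3
  rw [← inner_pik, ← inner_sub_left] at h6
  refine h1.unique ?_
  refine h6.congr_fun ?_ |> fun h => h
  intro k
  rw [inner_gdir]
  by_cases hk : S0.μ k = 0
  · rw [if_pos hk, if_pos (S0.mem_ker.2 hk), mul_zero, sub_self]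
  · rw [if_neg hk, if_neg (fun h => hk (S0.mem_ker.1 h)), sub_zero,
      real_inner_comm (hl D0 w)]

/-- **`G f` is orthogonal to the kernel of `B`**. -/
theorem grn_orth (P : OpPair D0 D1) (S0 : Spec D0) (f : HH (μHE[n] : Measure M) κ) {w : SS D1}
    (hw : al P.swap w = 0) : ⟪D1.toAD.i1 (grn P S0 f), hl D1 w⟫ = (0 : ℝ) := by
  have h1 := hasSum_inner P S0 f (hl D1 w)
  have h2 : ∀ k, ⟪D1.toAD.i1 (gdir P S0 k), hl D1 w⟫ = (0 : ℝ) := by
    intro k
    unfold gdir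
    split_ifs with h
    · rw [map_zero, inner_zero_left]
    · rw [map_smul, i1_wl, real_inner_smul_left, adj, hw, map_zero, inner_zero_right, mul_zero]
  simp only [h2, mul_zero] at h1
  exact h1.unique hasSum_zero

/-- `G f` for `f ∈ ker` (or `f ⊥ L²(E)`). -/
theorem grn_zero (P : OpPair D0 D1) (S0 : Spec D0) {f : HH (μHE[n] : Measure M) κ}
    (hf : ∀ k, S0.μ k ≠ 0 → ⟪f, hl D0 (ef S0 k)⟫ = (0 : ℝ)) : grn P S0 f = 0 := by
  have h1 := hasSum_grn P S0 f
  have h2 : ∀ k, ⟪f, hl D0 (ef S0 k)⟫ • gdir P S0 k = 0 := by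
    intro k
    by_cases hk : S0.μ k = 0
    · rw [gdir, if_pos hk, smul_zero]
    · rw [hf k hk, zero_smul]
  simp only [h2] at h1
  exact h1.unique hasSum_zero

/-- `G (B A u) = A u`: on smooth sections. -/
theorem grn_smooth (P : OpPair D0 D1) (S0 : Spec D0) (k : ℕ) :
    grn P S0 (hl D0 (ef S0 k)) = gdir P S0 k := by
  have h1 := hasSum_grn P S0 (hl D0 (ef S0 k))
  refine h1.unique ?_
  have h2 := hasSum_single (f := fun l => ⟪hl D0 (ef S0 k), hl D0 (ef S0 l)⟫ • gdir P S0 l) k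
    (fun l hl' => by rw [inner_ef, if_neg (Ne.symm hl'), zero_smul])
  rwa [inner_ef, if_pos rfl, one_smul] at h2

/-- **uniqueness**: `a ∈ L²(D1)` with weakly `B a = 0` and orthogonal to `ker B` vanishes. -/
theorem uniq (P : OpPair D0 D1) (S1 : Spec D1) {a : HH (μHE[n] : Measure M) κ'}
    (ha : D1.toAD.P a = a) (h1 : ∀ w : SS D0, ⟪a, hl D1 (al P w)⟫ = (0 : ℝ))
    (h2 : ∀ w : SS D1, al P.swap w = 0 → ⟪a, hl D1 w⟫ = (0 : ℝ)) : a = 0 := by
  refine eq_zero_of S1 ha fun l => ?_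
  by_cases hl' : S1.μ l = 0
  · exact h2 _ (al_ker P.swap S1 hl')
  · have h3 : ef S1 l = (S1.μ l)⁻¹ • al P (al P.swap (ef S1 l)) := by
      have h4 : al P (al P.swap (ef S1 l)) = S1.μ l • ef S1 l := al_al P.swap S1 l
      rw [h4, smul_smul, inv_mul_cancel₀ hl', one_smul]
    rw [h3, map_smul, real_inner_smul_right, h1, mul_zero]

end

end Crest.Agent.R235.Green_649
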