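import Crest.Agent.R235.SwcProd_215
import Crest.Agent.R235.IndVol_57

/-!
Row 235 (S0364), PACKAGE SWC, NODE PROD (leader helper215), part 2: exact leaves of the assembly of
`PROD` (limit structure `D` with `D.F = w_t = ∑ X_k e_k`, metric `g = gg e`, `ρ² = ∑ X_k²`,
`φ_k = q(w_0; e_k, b)`).
-/

set_option autoImplicit false
set_option maxSynthPendingDepth 3
set_option linter.unusedSectionVars false

open scoped ContDiff ENNReal NNReal Topology Manifold Bundle RealInnerProductSpace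
open MeasureTheory Set Filter Metric Bundle

universe v

namespace Crest.Agent.R235.SwcProd_215

open Crest.Agent.R240 Crest.Agent.R240.Ch Crest.Agent.R235 Crest.Agent.R235.SWDefs_53
open Crest.Agent.R235.IndTri_451 Crest.Agent.R235.Tau483 Crest.Agent.R235.SwcGlob_34
open Crest.Agent.R249.Tv57 (OpPair SmF SmV KerD)
open Crest.Agent.R249.Tz805 (ToF)

noncomputable section

/-- the relation between the limit structure `D` and the triple: `D.F = w_t`. -/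
structure LimD {M : Type v} [MetricSpace M] [CompactSpace M] [ChartedSpace E4 M]
    [IsManifold 𝓘(ℝ, E4) ∞ M] [MeasurableSpace M] [BorelSpace M] (w : Trip M)
    (e : Fin 3 → F2 E4 M) (t : Fin 3 → ℝ) (X : Fin 3 → M → ℝ)
    (D : Crest.Agent.R240.Dat M) : Prop where
  tri : IsTri (fun i => (w i).1.1) e
  jt : Uu_291.JT w t D.J
  al : D.al = ((Uu_291.wt w t).1.1 : F2 E4 M)
  F : D.F = ((Uu_291.wt w t).1.1 : F2 E4 M)
  X : ∀ x, val (Uu_291.wt w t) x = ∑ k, X k x • at2 (e k) x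

/-- **PWD**: pointwise dictionary between `(D.J, D.F)` and the frame `e`. -/
def PWD : Prop :=
  ∀ (M : Type v) [MetricSpace M] [CompactSpace M] [ChartedSpace E4 M]
    [IsManifold 𝓘(ℝ, E4) ∞ M] [MeasurableSpace M] [BorelSpace M] (w : Trip M)
    (e : Fin 3 → F2 E4 M) (t : Fin 3 → ℝ) (X : Fin 3 → M → ℝ) (D : Crest.Agent.R240.Dat M),
    LimD w e t X D → ∀ x : M, 0 < ∑ k, X k x ^ 2 ∧
    (∀ b : F2 E4 M, Alt (at2 b x) →
      qG D.F b D.F x = (∑ k, qG (w 0).1.1 (e k) b x * X k x) / ∑ k, X k x ^ 2 ∧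
      nsqG D.J D.F b x + qG D.F b b x =
        2 * (∑ k, qG (w 0).1.1 (e k) b x ^ 2) / ∑ k, X k x ^ 2 ∧
      nsqG D.J D.F (bpp D.J b) x = (∑ k, qG (w 0).1.1 (e k) b x ^ 2 -
        (∑ k, qG (w 0).1.1 (e k) b x * X k x) ^ 2 / ∑ k, X k x ^ 2) / ∑ k, X k x ^ 2 ∧
      ∀ c : F2 E4 M, Alt (at2 c x) → (∑ k, X k x ^ 2) * qG D.F b c x = qG (w 0).1.1 b c x) ∧
    (∀ (c : E4 →L[ℝ] ℝ) (m : ℝ), (∀ v, c v ^ 2 ≤ m * at2 (gg e) x v v) →
      n1 D x c * √(∑ k, X k x ^ 2) ≤ m) ∧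
    (∀ v : E4, √(∑ k, X k x ^ 2) • atJ D.J x v = ∑ k, X k x • atJ (II e k) x v)

/-- **VOLD**: the volume measure of `D` and `μHE[4]`. -/
def VOLD : Prop :=
  ∀ (M : Type v) [MetricSpace M] [CompactSpace M] [ConnectedSpace M]
    [ChartedSpace (EuclideanSpace ℝ (Fin 4)) M] [IsManifold (𝓡 4) ∞ M]
    [RiemannianBundle (fun p : M => TangentSpace (𝓡 4) p)]
    [IsContMDiffRiemannianBundle (𝓡 4) ∞ (EuclideanSpace ℝ (Fin 4))
      (fun p : M => TangentSpace (𝓡 4) p)]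
    [IsRiemannianManifold (𝓡 4) M] [MeasurableSpace M] [BorelSpace M]
    [SecondCountableTopology M] [Nonempty M] [IsFiniteMeasureOnCompacts (μHE[4] : Measure M)]
    (w : Trip M) (e : Fin 3 → F2 E4 M) (t : Fin 3 → ℝ) (X : Fin 3 → M → ℝ)
    (D : Crest.Agent.R240.Dat M), LimD w e t X D →
    (∀ (x : M) (u v : TangentSpace (𝓡 4) x), inner ℝ u v = at2 (gg e) x u v) →
    ∀ f : M → ℝ, Continuous f →
    ∫ x, f x ∂D.μ = ∫ x, 2 * (∑ k, X k x ^ 2) * f x ∂(μHE[4] : Measure M)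

/-- **KATO4**: Kato's inequality and the Sobolev embedding `W^{1,2} ⊂ L⁴`, with a constant
independent of the connection form `b`. -/
def KATO4 : Prop :=
  ∀ (M : Type v) [MetricSpace M] [CompactSpace M] [ConnectedSpace M]
    [ChartedSpace (EuclideanSpace ℝ (Fin 4)) M] [IsManifold (𝓡 4) ∞ M]
    [RiemannianBundle (fun p : M => TangentSpace (𝓡 4) p)]
    [IsContMDiffRiemannianBundle (𝓡 4) ∞ (EuclideanSpace ℝ (Fin 4))
      (fun p : M => TangentSpace (𝓡 4) p)]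
    [IsRiemannianManifold (𝓡 4) M] [MeasurableSpace M] [BorelSpace M]
    [SecondCountableTopology M] [Nonempty M] [IsFiniteMeasureOnCompacts (μHE[4] : Measure M)]
    (κ0 κ1 κT : Type) [Fintype κ0] [Fintype κ1] [Fintype κT] (S : SWS M κ0 κ1 κT), S.OK →
    ∃ C : ℝ, 0 < C ∧ ∀ (b : κT → M → ℝ) (v : κ0 → M → ℝ), SmV (n := 4) b → S.DT.Sec b →
      SmV (n := 4) v → S.D0.Sec v →
      ∫ z, (∑ y, v y z ^ 2) ^ 2 ∂(μHE[4] : Measure M) ≤
        C * ((∫ z, ∑ y, ‖S.nab b v y z‖ ^ 2 ∂(μHE[4] : Measure M)) +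
          ∫ z, ∑ y, v y z ^ 2 ∂(μHE[4] : Measure M)) ^ 2

/-- **STB**: `|∫ q(ds, b)| ≤ C ∫ |s|`. -/
def STB : Prop :=
  ∀ (M : Type v) [MetricSpace M] [CompactSpace M] [ChartedSpace E4 M]
    [IsManifold 𝓘(ℝ, E4) ∞ M] [MeasurableSpace M] [BorelSpace M]
    (D : Crest.Agent.R240.Dat M) (b : F2 E4 M), Smooth2 b →
    ∃ C : ℝ, 0 < C ∧ ∀ s : F1 E4 M, Smooth1 s →
      |D.I (dG s) b| ≤ C * ∫ x, √(n1 D x (at1 s x)) ∂D.μ

/-- **GZ** (649): `a_n/√r_n → 0` in `L²`. -/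
def GZ : Prop :=
  ∀ (M : Type v) [MetricSpace M] [CompactSpace M] [ConnectedSpace M]
    [ChartedSpace (EuclideanSpace ℝ (Fin 4)) M] [IsManifold (𝓡 4) ∞ M]
    [RiemannianBundle (fun p : M => TangentSpace (𝓡 4) p)]
    [IsContMDiffRiemannianBundle (𝓡 4) ∞ (EuclideanSpace ℝ (Fin 4))
      (fun p : M => TangentSpace (𝓡 4) p)]
    [IsRiemannianManifold (𝓡 4) M] [MeasurableSpace M] [BorelSpace M]
    [SecondCountableTopology M] [Nonempty M] [IsFiniteMeasureOnCompacts (μHE[4] : Measure M)]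
    (κ0 κ1 κT : Type) [Fintype κ0] [Fintype κ1] [Fintype κT] (S : SWS M κ0 κ1 κT)
    (U : Filter ℕ) (r : ℕ → ℝ) (a : ℕ → κT → M → ℝ) (Hb K : ℝ), Tendsto r U atTop →
    (∀ n, SmV (n := 4) (a n)) → (∀ n, S.DT.Sec (a n)) →
    (∀ n, ∀ w : κT → M → ℝ, SmV (n := 4) w → S.DT.Sec w → (∀ k z, S.H.B w k z = 0) →
      |Crest.Agent.R249.Tv57.ip 4 (a n) w| ≤ Hb * √(Crest.Agent.R249.Tv57.ip 4 w w)) →
    (∀ᶠ n in U, ∫ z, ∑ k, S.H.B (a n) k z ^ 2 ∂(μHE[4] : Measure M) ≤ K * r n) →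
    (∀ w : Fin 4 → M → ℝ, SmV (n := 4) w →
      Tendsto (fun n => (√(r n))⁻¹ * Crest.Agent.R249.Tv57.ip 4 (S.H.B (a n)) w) U (𝓝 0)) →
    Tendsto (fun n => (r n)⁻¹ * ∫ z, ∑ A, a n A z ^ 2 ∂(μHE[4] : Measure M)) U (𝓝 0)

end

end Crest.Agent.R235.SwcProd_215
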