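import Crest.Agent.R235.SwcD_649
import Crest.Agent.R235.SwcProd2_215
import Crest.Agent.R235.Swx4_333

/-!
Row 235 (S0364), SWC, PROD leaf GZ (helper649): `gz : SwcProd_215.GZ`.
-/

set_option autoImplicit false
set_option maxSynthPendingDepth 3
set_option linter.unusedSectionVars false

open scoped ContDiff ENNReal NNReal Topology Manifold Bundle RealInnerProductSpace
open MeasureTheory Set Filter Metric Bundle

universe v

namespace Crest.Agent.R235.Gz_649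

open Crest.Agent.R249.Tv57 Crest.Agent.R247.Ms322 Crest.Agent.R247.Dir593
open Crest.Agent.R247.Frd657 Crest.Agent.R202.Sp
open Crest.Agent.R235.Fs4_546 Crest.Agent.R235.Fred_649 Crest.Agent.R235.SwcD_649
open Crest.Agent.R235.SWDefs_53

noncomputable section

variable {M : Type v} [MetricSpace M] [CompactSpace M] [ConnectedSpace M]
  [ChartedSpace (EuclideanSpace ℝ (Fin 4)) M] [IsManifold (𝓡 4) ∞ M]
  [RiemannianBundle (fun p : M => TangentSpace (𝓡 4) p)]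
  [IsContMDiffRiemannianBundle (𝓡 4) ∞ (EuclideanSpace ℝ (Fin 4))
    (fun p : M => TangentSpace (𝓡 4) p)]
  [IsRiemannianManifold (𝓡 4) M] [MeasurableSpace M] [BorelSpace M]
  [SecondCountableTopology M] [Nonempty M] [IsFiniteMeasureOnCompacts (μHE[4] : Measure M)]
  {κ κ' : Type} [Fintype κ] [Fintype κ'] {D0 : Dat 4 M κ} {D1 : Dat 4 M κ'}

/-- **the general statement**: smooth sections whose kernel part is `o(√r)`. -/
theorem gz_gen {P : OpPair D0 D1} (S0 : Spec D0) {U : Filter ℕ} {r : ℕ → ℝ}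
    {a : ℕ → SmS D0} {Hb K : ℝ} (hr : Tendsto r U atTop)
    (hk : ∀ n, ∀ k ∈ S0.ker, |(⟪cH D0 (a n), cH D0 (ph S0 k)⟫ : ℝ)| ≤ Hb)
    (hb : ∀ᶠ n in U, ‖cH D1 (lA P (a n))‖ ^ 2 ≤ K * r n)
    (hw : ∀ w : SmS D1, Tendsto (fun n => (√(r n))⁻¹ * (⟪cH D1 (lA P (a n)), cH D1 w⟫ : ℝ)) U
      (𝓝 0)) :
    Tendsto (fun n => (r n)⁻¹ * ‖cH D0 (a n)‖ ^ 2) U (𝓝 0) := by
  classical
  have hd0 := dns4 D0
  have hpos : ∀ᶠ n in U, 0 < r n := hr.eventually_gt_atTop 0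
  have hinv : Tendsto (fun n => (r n)⁻¹) U (𝓝 0) := tendsto_inv_atTop_zero.comp hr
  -- the coefficients
  have hc : ∀ k, Tendsto (fun n => (r n)⁻¹ * (⟪cH D0 (a n), cH D0 (ph S0 k)⟫ : ℝ) ^ 2) U
      (𝓝 0) := by
    intro k
    by_cases hk0 : S0.μ k = 0
    · have h1 : Tendsto (fun n => (r n)⁻¹ * Hb ^ 2) U (𝓝 0) := by
        simpa using hinv.mul_const (Hb ^ 2)
      refine squeeze_zero' ?_ ?_ h1
      · filter_upwards [hpos] with n hn
        have := inv_nonneg.2 hn.le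
        positivity
      · filter_upwards [hpos] with n hn
        have h2 := hk n k (S0.mem_ker.2 hk0)
        have h3 := sq_le_sq' (by linarith [neg_abs_le (⟪cH D0 (a n), cH D0 (ph S0 k)⟫ : ℝ)])
          ((le_abs_self _).trans h2)
        exact mul_le_mul_of_nonneg_left h3 (inv_nonneg.2 hn.le)
    · have h3 := ((hw (lA P (ph S0 k))).const_mul (S0.μ k)⁻¹).pow 2
      have h4 : Tendsto (fun n => ((S0.μ k)⁻¹ * ((√(r n))⁻¹ *
          (⟪cH D1 (lA P (a n)), cH D1 (lA P (ph S0 k))⟫ : ℝ))) ^ 2) U (𝓝 0) := by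
        simpa using h3
      refine h4.congr' ?_
      filter_upwards [hpos] with n hn
      have h2 := Ah_eig (P := P) S0 hd0 k (cW D0 (a n))
      rw [Ah_cW hd0, Ah_cW hd0, jj_cW, jj_cW] at h2
      rw [real_inner_comm (cH D1 (lA P (ph S0 k))), h2, real_inner_comm (cH D0 (a n))]
      have h5 : (√(r n)) ^ 2 = r n := Real.sq_sqrt hn.le
      have h6 : ((S0.μ k)⁻¹ * ((√(r n))⁻¹ * (S0.μ k * ⟪cH D0 (a n), cH D0 (ph S0 k)⟫))) =
          (√(r n))⁻¹ * ⟪cH D0 (a n), cH D0 (ph S0 k)⟫ := by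
        field_simp
      rw [h6, mul_pow, inv_pow, h5]
  rw [Metric.tendsto_nhds]
  intro ε hε
  obtain ⟨N, hN⟩ := eventually_atTop.1 (S0.lim.eventually_ge_atTop (2 * (|K| + 1) / ε))
  have hΛ : 0 < 2 * (|K| + 1) / ε := by positivity
  have h1 : Tendsto (fun n => ∑ k ∈ Finset.range N,
      (r n)⁻¹ * (⟪cH D0 (a n), cH D0 (ph S0 k)⟫ : ℝ) ^ 2) U (𝓝 0) := by
    have := tendsto_finsetSum (Finset.range N) fun k _ => hc k
    simpa using this
  filter_upwards [h1.eventually_lt_const (half_pos hε), hpos, hb] with n e1 e2 e3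
  have h0 : 0 ≤ (r n)⁻¹ * ‖cH D0 (a n)‖ ^ 2 := by
    have := inv_nonneg.2 e2.le
    positivity
  rw [Real.dist_eq, sub_zero, abs_of_nonneg h0]
  have h3 := tail (P := P) hd0 S0 hΛ hN (cW D0 (a n))
  rw [jj_cW, Ah_cW hd0] at h3
  have h4 := mul_le_mul_of_nonneg_left h3 (inv_nonneg.2 e2.le)
  rw [mul_add, Finset.mul_sum] at h4
  have h5 : (r n)⁻¹ * ((2 * (|K| + 1) / ε)⁻¹ * ‖cH D1 (lA P (a n))‖ ^ 2) ≤ ε / 2 := by
    have h6 : (r n)⁻¹ * ((2 * (|K| + 1) / ε)⁻¹ * ‖cH D1 (lA P (a n))‖ ^ 2) ≤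
        (r n)⁻¹ * ((2 * (|K| + 1) / ε)⁻¹ * (K * r n)) :=
      mul_le_mul_of_nonneg_left (mul_le_mul_of_nonneg_left e3 (inv_nonneg.2 hΛ.le))
        (inv_nonneg.2 e2.le)
    refine h6.trans ?_
    have h7 : (r n)⁻¹ * ((2 * (|K| + 1) / ε)⁻¹ * (K * r n)) = K * (ε / (2 * (|K| + 1))) := by
      rw [inv_div]
      field_simp
    rw [h7]
    have h8 : K ≤ |K| + 1 := (le_abs_self K).trans (by linarith)
    have h9 : 0 ≤ ε / (2 * (|K| + 1)) := by positivity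
    refine (mul_le_mul_of_nonneg_right h8 h9).trans (le_of_eq ?_)
    field_simp
  linarith

/-- **GZ** -/
theorem gz : SwcProd_215.GZ.{v} := by
  intro M _ _ _ _ _ _ _ _ _ _ _ _ _ κ0 κ1 κT _ _ _ S U r a Hb K hr hsm hsec hhar hbd hw
  by_cases hp : ∃ b z, S.DT.p b b z ≠ 0
  swap
  · push Not at hp
    have h0 : ∀ n A z, a n A z = 0 := fun n A z =>
      congrFun (congrFun (Swx_333.sec_zero S.DT hp (hsec n)) A) z
    simp only [h0, ne_eq, OfNat.ofNat_ne_zero, not_false_eq_true, zero_pow, Finset.sum_const_zero,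
      integral_zero, mul_zero]
    exact tendsto_const_nhds
  obtain ⟨S1⟩ := Swx_333.spec4 S.DT hp
  set a' : ℕ → SmS S.DT := fun n => ⟨a n, hsm n, hsec n⟩ with ha'
  have hn : ∀ n, ∫ z, ∑ A, a n A z ^ 2 ∂(μHE[4] : Measure M) = ‖cH S.DT (a' n)‖ ^ 2 := fun n =>
    norm_rep (coe_clH (a' n).1 (a' n).2.1)
  have hB : ∀ n, ∫ z, ∑ k, S.H.B (a n) k z ^ 2 ∂(μHE[4] : Measure M) =
      ‖cH S.DL (lA S.H.swap (a' n))‖ ^ 2 := fun n =>
    norm_rep (coe_clH (lA S.H.swap (a' n)).1 (lA S.H.swap (a' n)).2.1)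
  simp only [hn]
  refine gz_gen (P := S.H.swap) S1 (Hb := Hb) (K := K) hr ?_ ?_ ?_
  · intro n k hk
    have h1 := hhar n (ph S1 k).1 (ph S1 k).2.1 (ph S1 k).2.2 (fun b z => by
      have h2 := congrArg (fun v : SmS S.DL => v.1 b z) (lA_ker S.H.swap S1 (S1.mem_ker.1 hk))
      exact h2)
    rw [inner_cH]
    refine h1.trans (le_of_eq ?_)
    rw [← inner_cH, ortho_ph, if_pos rfl, Real.sqrt_one, mul_one]
  · filter_upwards [hbd] with n h
    rw [← hB]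
    exact h
  · intro w
    refine (hw w.1 w.2.1).congr fun n => ?_
    rw [inner_cH]
    rfl

end

end Crest.Agent.R235.Gz_649
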