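import Crest.Agent.R235.Br281c_819
import Crest.Agent.R281.Hdg5_850
import Crest.Agent.R281.Al4_830
import Crest.Agent.R273.HolF_578

/-!
# R235, package STF, leaf HDG, part 1 (helper819): Hodge decomposition in real charts, dimension 4

* `uniq2` : on a compact connected complex surface every holomorphic 2-form is a multiple of `σ`
* `hdgF`  : `D : HD J om s1 s2` ==> `x = p s1 + q s2 + y + exact`, `y` of type (1,1) for `J`
-/

set_option autoImplicit false
set_option maxSynthPendingDepth 3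
set_option linter.unusedSectionVars false

open Set Filter Topology Complex
open scoped Manifold ContDiff Matrix ComplexConjugate

namespace Crest.Agent.R235.HDGa_819

open Crest.Agent.R240 Crest.Agent.R275.Geo Crest.Agent.R275.Core144 Crest.Agent.R275.GC293
open Crest.Agent.R273 Crest.Agent.R273.Defs_333 Crest.Agent.R273.Kah_333
open Crest.Agent.R281.Defs_273 (H2 HSymp)
open Crest.Agent.R281.HkR_835 hiding pb pb_apply
open Crest.Agent.R281.HkR_835.Cmp
open Crest.Agent.R281.Ti_846 hiding pb pb_apply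
open Crest.Agent.R281.NefO_476 Crest.Agent.R281.Nef_252
open Crest.Agent.R281.Al_830
open Crest.Agent.R281.Cdr_234 (exS)
open Crest.Agent.R281.Dif_268 (Eqv)
open Crest.Agent.R235.Br281c_819

noncomputable section

section Alg

/-- alternating two-by-two matrices -/
theorem alt2 {m : Matrix (Fin 2) (Fin 2) ℂ} (h : mᵀ = -m) :
    m 0 0 = 0 ∧ m 1 1 = 0 ∧ m 1 0 = - m 0 1 := by
  have h0 := congrFun (congrFun h 0) 0
  have h1 := congrFun (congrFun h 1) 1
  have h2 := congrFun (congrFun h 0) 1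
  simp only [Matrix.transpose_apply, Matrix.neg_apply] at h0 h1 h2
  refine ⟨?_, ?_, h2⟩
  · have : (2 : ℂ) * m 0 0 = 0 := by linear_combination h0
    simpa using this
  · have : (2 : ℂ) * m 1 1 = 0 := by linear_combination h1
    simpa using this

theorem alt2_det {m : Matrix (Fin 2) (Fin 2) ℂ} (h : mᵀ = -m) : m.det = m 0 1 ^ 2 := by
  obtain ⟨h0, h1, h2⟩ := alt2 h
  rw [Matrix.det_fin_two, h0, h1, h2]
  ring

theorem alt2_tr {m : Matrix (Fin 2) (Fin 2) ℂ} (h : mᵀ = -m) (J : Matrix (Fin 2) (Fin 2) ℂ) :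
    (Jᵀ * m * J) 0 1 = J.det * m 0 1 := by
  obtain ⟨h0, h1, h2⟩ := alt2 h
  rw [Matrix.det_fin_two]
  simp only [Matrix.mul_apply, Fin.sum_univ_two, Matrix.transpose_apply, h0, h1, h2]
  ring

theorem alt2_eq {m m' : Matrix (Fin 2) (Fin 2) ℂ} (h : mᵀ = -m) (h' : m'ᵀ = -m') {c : ℂ}
    (e : m 0 1 = c * m' 0 1) : m = c • m' := by
  obtain ⟨h0, h1, h2⟩ := alt2 h
  obtain ⟨k0, k1, k2⟩ := alt2 h'
  ext i j
  rw [Matrix.smul_apply, smul_eq_mul]
  fin_cases i <;> fin_cases j
  · show m 0 0 = c * m' 0 0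
    rw [h0, k0, mul_zero]
  · exact e
  · show m 1 0 = c * m' 1 0
    rw [h2, k2, e]; ring
  · show m 1 1 = c * m' 1 1
    rw [h1, k1, mul_zero]

end Alg

/-- on a compact connected complex surface, every holomorphic 2-form is a multiple of `σ` -/
theorem uniq2 {X : Type} [TopologicalSpace X] [CompactSpace X] [ConnectedSpace X] {A : Atl 2 X}
    (σ : HSymp A) : σ.Uniq := by
  classical
  intro τ
  let ch : X → A.ι := fun x => (A.cover x).choose
  have hch : ∀ x, x ∈ (A.e (ch x)).source := fun x => (A.cover x).choose_spec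
  have h0 : ∀ i, ∀ x ∈ (A.e i).source, σ.s i x 0 1 ≠ 0 := by
    intro i x hx h
    have := σ.nd i x hx
    rw [alt2_det (σ.alt i x hx), h] at this
    simp at this
  let t : A.ι → X → ℂ := fun i x => τ.s i x 0 1 * (σ.s i x 0 1)⁻¹
  have htr : ∀ i j, ∀ x, x ∈ (A.e i).source → x ∈ (A.e j).source → t i x = t j x := by
    intro i j x hi hj
    have e1 := congrFun (congrFun (τ.tr i j x ⟨hi, hj⟩) 0) 1
    have e2 := congrFun (congrFun (σ.tr i j x ⟨hi, hj⟩) 0) 1
    rw [alt2_tr (τ.alt j x hj)] at e1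
    rw [alt2_tr (σ.alt j x hj)] at e2
    have hd : (Jm A i j x).det ≠ 0 := by
      intro h
      rw [h, zero_mul] at e2
      exact h0 i x hi e2
    show τ.s i x 0 1 * (σ.s i x 0 1)⁻¹ = τ.s j x 0 1 * (σ.s j x 0 1)⁻¹
    rw [e1, e2, mul_inv]
    field_simp
  let f : X → ℂ := fun x => t (ch x) x
  have hft : ∀ i, ∀ x ∈ (A.e i).source, f x = t i x := fun i x hx => htr _ _ x (hch x) hx
  have hf : ∀ i, HolAt A i univ f := by
    intro i
    refine HolAt.congr (f := t i) ?_ fun x hx _ => (hft i x hx).symm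
    exact (τ.hol i 0 1).mul ((σ.hol i 0 1).inv fun x hx _ => h0 i x hx)
  obtain ⟨x0⟩ := (inferInstance : Nonempty X)
  refine ⟨f x0, fun i x hx => ?_⟩
  refine alt2_eq (τ.alt i x hx) (σ.alt i x hx) ?_
  have e : f x = f x0 := Crest.Agent.R273.HolF_578.hol_const hf x x0
  rw [← e, hft i x hx]
  show τ.s i x 0 1 = τ.s i x 0 1 * (σ.s i x 0 1)⁻¹ * σ.s i x 0 1
  rw [mul_assoc, inv_mul_cancel₀ (h0 i x hx), mul_one]

variable {X : Type} [TopologicalSpace X] {C : RCh E4 X}

/-- **Hodge decomposition** of a closed form in real charts -/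
theorem hdgF [T2Space X] [CompactSpace X] [ConnectedSpace X] {J : AJ C} {om s1 s2 : F2 C}
    (D : HD J om s1 s2) (x : F2 C) :
    ∃ (p q : ℝ) (y : F2 C), T11 J y ∧ Ex (x - (p • s1 + q • s2 + y)) := by
  obtain ⟨A, hfin, hgood, ⟨PA⟩, h, hI⟩ := exists_atlas (d := 2) finrank_E4 D.cx
  set K : Kah A := D.K hI h with hK
  set S : HSymp A := D.S hI h with hS
  have hu : S.Uniq := uniq2 S
  obtain ⟨p, q, y, hy, e, he, hx⟩ := Crest.Agent.R281.Hdg_850.h1 PA K (D.S_cl hI h) hu (h.F x)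
  refine ⟨p, q, h.symm.F y, ?_, ?_⟩
  · intro i z hz a b
    obtain ⟨j, hj⟩ := exists_mov (C' := C) (ofAtl A) (j := i) hz
    rw [h.symm.F_w y hj, h.symm.F_w y hj, hI.back h hj, hI.back h hj]
    exact hy _ _ (mt_mem hj).1 _ _
  · have h1 : Ex (h.symm.F e) := Crest.Agent.R281.HkR_835.ex_F h.symm he
    refine Eqv.ex (w := h.symm.F e) ?_ h1
    intro i z hz a b
    obtain ⟨j, hj⟩ := exists_mov (C' := C) (ofAtl A) (j := i) hz
    have hzt := (mt_mem hj).1
    set z' := mt (ofAtl A) C j i z with hz'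
    set Dm := fderiv ℝ (mt (ofAtl A) C j i) z with hDm
    have e0 : (h.F x).w j z' (Dm a) (Dm b) = p * (h.F s1).w j z' (Dm a) (Dm b) +
        q * (h.F s2).w j z' (Dm a) (Dm b) + y.w j z' (Dm a) (Dm b) + e.w j z' (Dm a) (Dm b) := by
      rw [← D.S_re hI h hzt, ← D.S_im hI h hzt]
      have := congrArg (fun w : F2 (ofAtl A) => w.w j z' (Dm a) (Dm b)) hx
      exact this
    have g1 : ∀ w : F2 C, (h.F w).w j z' (Dm a) (Dm b) = w.w i z a b := by
      intro w
      have := Crest.Agent.R281.HkR_835.F_F h w i z hz a b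
      rw [← this, h.symm.F_w _ hj]
    rw [g1, g1, g1] at e0
    have g2 : ∀ w : F2 (ofAtl A), (h.symm.F w).w i z a b = w.w j z' (Dm a) (Dm b) := fun w =>
      h.symm.F_w w hj a b
    show (h.symm.F e).w i z a b = x.w i z a b - (p * s1.w i z a b + q * s2.w i z a b +
      (h.symm.F y).w i z a b)
    rw [g2, g2, e0]
    ring

theorem ex_comb {x s1 s2 y y' : F2 C} {p q : ℝ} (e : Eqv y' y)
    (h : Ex (x - (p • s1 + q • s2 + y))) : Ex (x - (p • s1 + q • s2 + y')) := by
  refine Eqv.ex ?_ h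
  intro i z hz u v
  have h1 := e i z hz u v
  show x.w i z u v - (p * s1.w i z u v + q * s2.w i z u v + y.w i z u v) =
    x.w i z u v - (p * s1.w i z u v + q * s2.w i z u v + y'.w i z u v)
  rw [h1]

end

end Crest.Agent.R235.HDGa_819
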