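import Mathlib

/-!
Row 235 (S0364), package IND, leaf IND-7 HODGE (helper194), part 0: abstract linear algebra.

`HSys` : functions `CF`, one-forms `X1`, two-forms `X2` with the scalar products `J`, `G`, the
intersection form `I`, the operators `D = d`, `δ`, `d` and the splitting `X2 = X ⊕ X'`.
`HPr` : a pair of adjoint operators `A : S0 → S1`, `B : S1 → S0`, `S0 ≃ CF × X`, `S1 ≃ X1`,
`⟨u, B w⟩ = - J f (δ α) + c I η (d α)`.

* `HPr.kerA`, `HPr.finrank_kerA` : `ker A = {D f = 0} × (Z ∩ X)`;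
* `HPr.kerB` : `ker B = {δ α = 0, d α = 0}`;
* `HPr.solve` : solvability of `(d α)⁺ = φ`;
* `HSys.finrank_H1` : `Z1 / B1` from Poisson;
* `HSys.quot` : `Z / B = P ⊕ N`.
-/

set_option autoImplicit false

open Module

namespace Crest.Agent.R235.HodgeAbs_194

/-- orthogonal projection onto a finite dimensional subspace where the form is definite. -/
theorem exists_proj {X2 : Type*} [AddCommGroup X2] [Module ℝ X2] (I : X2 →ₗ[ℝ] X2 →ₗ[ℝ] ℝ)
    (H : Submodule ℝ X2) [FiniteDimensional ℝ H]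
    (hpos : ∀ h ∈ H, I h h = 0 → h = 0) (p : X2) : ∃ h ∈ H, ∀ k ∈ H, I (p - h) k = 0 := by
  let T : H →ₗ[ℝ] Module.Dual ℝ H := (LinearMap.lcomp ℝ ℝ H.subtype).comp (I.comp H.subtype)
  have hT : ∀ h k : H, T h k = I h k := fun h k => rfl
  have hinj : Function.Injective T := by
    rw [injective_iff_map_eq_zero]
    intro h hh
    have h1 : T h h = 0 := by rw [hh]; rfl
    rw [hT] at h1
    exact Subtype.ext (hpos h.1 h.2 h1)
  have hsurj : Function.Surjective T := by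
    have := LinearMap.injective_iff_surjective_of_finrank_eq_finrank
      (f := T) (Subspace.dual_finrank_eq (K := ℝ) (V := H)).symm
    exact this.1 hinj
  obtain ⟨h, hh⟩ := hsurj ((LinearMap.lcomp ℝ ℝ H.subtype) (I p))
  refine ⟨h.1, h.2, fun k hk => ?_⟩
  have h1 : T h ⟨k, hk⟩ = I p k := by rw [hh]; rfl
  rw [hT] at h1
  rw [map_sub, LinearMap.sub_apply]
  have h2 : I (h : X2) k = I p k := h1
  linarith

/-- functions, one-forms and two-forms. -/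
structure HSys (CF X1 X2 : Type*) [AddCommGroup CF] [Module ℝ CF] [AddCommGroup X1] [Module ℝ X1]
    [AddCommGroup X2] [Module ℝ X2] where
  J : CF →ₗ[ℝ] CF →ₗ[ℝ] ℝ
  G : X1 →ₗ[ℝ] X1 →ₗ[ℝ] ℝ
  I : X2 →ₗ[ℝ] X2 →ₗ[ℝ] ℝ
  D : CF →ₗ[ℝ] X1
  δ : X1 →ₗ[ℝ] CF
  d : X1 →ₗ[ℝ] X2
  Jdef : ∀ f, J f f = 0 → f = 0
  Gdef : ∀ α, G α α = 0 → α = 0
  symm : ∀ a b, I a b = I b a
  adj : ∀ f α, J f (δ α) = - G (D f) α
  dD : ∀ f, d (D f) = 0
  stokes : ∀ α β, I (d α) (d β) = 0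

/-- the complementary subspaces. -/
structure Spl {X2 : Type*} [AddCommGroup X2] [Module ℝ X2] (I : X2 →ₗ[ℝ] X2 →ₗ[ℝ] ℝ)
    (X X' : Submodule ℝ X2) : Prop where
  split : ∀ a, ∃ p ∈ X, ∃ m ∈ X', a = p + m
  orth : ∀ p ∈ X, ∀ m ∈ X', I p m = 0
  def1 : ∀ p ∈ X, I p p = 0 → p = 0
  def2 : ∀ m ∈ X', I m m = 0 → m = 0

section Basic

variable {CF X1 X2 : Type*} [AddCommGroup CF] [Module ℝ CF] [AddCommGroup X1] [Module ℝ X1]
    [AddCommGroup X2] [Module ℝ X2] (H : HSys CF X1 X2)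

theorem Spl.swap {I : X2 →ₗ[ℝ] X2 →ₗ[ℝ] ℝ} (hs : ∀ a b, I a b = I b a) {X X' : Submodule ℝ X2}
    (S : Spl I X X') : Spl I X' X where
  split a := by
    obtain ⟨p, hp, m, hm, e⟩ := S.split a
    exact ⟨m, hm, p, hp, by rw [e, add_comm]⟩
  orth p hp m hm := by rw [hs]; exact S.orth m hm p hp
  def1 := S.def2
  def2 := S.def1

/-- a form orthogonal to `X` is in `X'`. -/
theorem Spl.mem {I : X2 →ₗ[ℝ] X2 →ₗ[ℝ] ℝ} {X X' : Submodule ℝ X2} (S : Spl I X X') {a : X2}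
    (ha : ∀ p ∈ X, I p a = 0) : a ∈ X' := by
  obtain ⟨p, hp, m, hm, e⟩ := S.split a
  have h1 := ha p hp
  rw [e, map_add, S.orth p hp m hm, add_zero] at h1
  have h2 := S.def1 p hp h1
  rw [e, h2, zero_add]
  exact hm

namespace HSys

/-- the closed forms = the forms orthogonal to the exact ones. -/
def Z : Submodule ℝ X2 where
  carrier := {a | ∀ α, H.I a (H.d α) = 0}
  zero_mem' := by intro α; simp
  add_mem' := by
    intro a b ha hb α
    rw [map_add, LinearMap.add_apply, ha α, hb α, add_zero]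
  smul_mem' := by
    intro c a ha α
    rw [map_smul, LinearMap.smul_apply, ha α, smul_zero]

theorem mem_Z {a : X2} : a ∈ H.Z ↔ ∀ α, H.I a (H.d α) = 0 := Iff.rfl

theorem d_mem_Z (α : X1) : H.d α ∈ H.Z := fun β => H.stokes α β

/-- the harmonic one-forms. -/
def Harm : Submodule ℝ X1 := LinearMap.ker H.δ ⊓ LinearMap.ker H.d

variable {H}

/-- closed one-forms modulo exact ones. -/
theorem finrank_H1 (poisson : ∀ α, ∃ f, H.δ (H.D f) = H.δ α) {B1 : Submodule ℝ (LinearMap.ker H.d)}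
    (hB : ∀ α, α ∈ B1 ↔ ∃ f, (α : X1) = H.D f) :
    finrank ℝ (LinearMap.ker H.d ⧸ B1) = finrank ℝ H.Harm := by
  let T : H.Harm →ₗ[ℝ] (LinearMap.ker H.d ⧸ B1) :=
    B1.mkQ.comp (Submodule.inclusion (inf_le_right : H.Harm ≤ LinearMap.ker H.d))
  have hinj : Function.Injective T := by
    rw [injective_iff_map_eq_zero]
    intro α hα
    have h1 : Submodule.inclusion (inf_le_right : H.Harm ≤ LinearMap.ker H.d) α ∈ B1 := by
      have h2 : B1.mkQ (Submodule.inclusion (inf_le_right : H.Harm ≤ LinearMap.ker H.d) α) = 0 := hα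
      rwa [Submodule.mkQ_apply, Submodule.Quotient.mk_eq_zero] at h2
    obtain ⟨f, hf⟩ := (hB _).1 h1
    have hf' : (α : X1) = H.D f := hf
    have h3 : H.δ (α : X1) = 0 := α.2.1
    have h4 := H.adj f (α : X1)
    rw [h3, map_zero, ← hf'] at h4
    exact Subtype.ext (H.Gdef _ (neg_eq_zero.1 h4.symm))
  have hsurj : Function.Surjective T := by
    intro c
    obtain ⟨α, rfl⟩ := B1.mkQ_surjective c
    obtain ⟨f, hf⟩ := poisson (α : X1)
    refine ⟨⟨(α : X1) - H.D f, ?_, ?_⟩, ?_⟩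
    · show H.δ _ = 0
      rw [map_sub, hf, sub_self]
    · show H.d _ = 0
      rw [map_sub, H.dD, sub_zero]
      exact α.2
    · show B1.mkQ _ = B1.mkQ α
      rw [← sub_eq_zero, ← map_sub, Submodule.mkQ_apply, Submodule.Quotient.mk_eq_zero, hB]
      refine ⟨-f, ?_⟩
      show (α : X1) - H.D f - α = H.D (-f)
      rw [map_neg]; abel
  exact (LinearEquiv.ofBijective T ⟨hinj, hsurj⟩).finrank_eq.symm

/-- **`Z / B = P ⊕ N`**. -/
theorem quot {Xp Xm Z : Submodule ℝ X2} (hZ : ∀ a, a ∈ Z ↔ a ∈ H.Z) {B : Submodule ℝ Z}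
    (hB : ∀ z : Z, z ∈ B ↔ ∃ α, (z : X2) = H.d α) (S : Spl H.I Xp Xm)
    [FiniteDimensional ℝ (H.Z ⊓ Xp : Submodule ℝ X2)]
    (solve : ∀ φ ∈ Xp, (∀ h ∈ H.Z ⊓ Xp, H.I φ h = 0) → ∃ α, ∃ m ∈ Xm, H.d α = φ + m) :
    ∃ P N : Submodule ℝ (Z ⧸ B), IsCompl P N ∧
      Nonempty ((H.Z ⊓ Xp : Submodule ℝ X2) ≃ₗ[ℝ] P) ∧
      Nonempty ((H.Z ⊓ Xm : Submodule ℝ X2) ≃ₗ[ℝ] N) ∧
      (∀ c ∈ P, ∃ z : Z, (z : X2) ∈ Xp ∧ B.mkQ z = c) ∧
      (∀ c ∈ N, ∃ z : Z, (z : X2) ∈ Xm ∧ B.mkQ z = c) := by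
  have hZe : Z = H.Z := by ext a; exact hZ a
  subst hZe
  have key : ∀ hp ∈ H.Z ⊓ Xp, ∀ hm ∈ H.Z ⊓ Xm, ∀ α, hp + hm = H.d α → hp = 0 ∧ hm = 0 := by
    intro hp h1 hm h2 α h
    have e1 : H.I hp hp = 0 := by
      have := h1.1 α
      rw [← h, map_add, S.orth hp h1.2 hm h2.2, add_zero] at this
      exact this
    have e2 : H.I hm hm = 0 := by
      have := h2.1 α
      rw [← h, map_add, H.symm hm hp, S.orth hp h1.2 hm h2.2, zero_add] at this
      exact this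
    exact ⟨S.def1 hp h1.2 e1, S.def2 hm h2.2 e2⟩
  let jp : (H.Z ⊓ Xp : Submodule ℝ X2) →ₗ[ℝ] (H.Z ⧸ B) :=
    B.mkQ.comp (Submodule.inclusion (inf_le_left : H.Z ⊓ Xp ≤ H.Z))
  let jm : (H.Z ⊓ Xm : Submodule ℝ X2) →ₗ[ℝ] (H.Z ⧸ B) :=
    B.mkQ.comp (Submodule.inclusion (inf_le_left : H.Z ⊓ Xm ≤ H.Z))
  have hjp : Function.Injective jp := by
    rw [injective_iff_map_eq_zero]
    intro a ha
    have h2 : B.mkQ (Submodule.inclusion (inf_le_left : H.Z ⊓ Xp ≤ H.Z) a) = 0 := ha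
    rw [Submodule.mkQ_apply, Submodule.Quotient.mk_eq_zero, hB] at h2
    obtain ⟨α, hα⟩ := h2
    exact Subtype.ext (key a.1 a.2 0 (Submodule.zero_mem _) α (by rw [add_zero]; exact hα)).1
  have hjm : Function.Injective jm := by
    rw [injective_iff_map_eq_zero]
    intro a ha
    have h2 : B.mkQ (Submodule.inclusion (inf_le_left : H.Z ⊓ Xm ≤ H.Z) a) = 0 := ha
    rw [Submodule.mkQ_apply, Submodule.Quotient.mk_eq_zero, hB] at h2
    obtain ⟨α, hα⟩ := h2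
    exact Subtype.ext (key 0 (Submodule.zero_mem _) a.1 a.2 α (by rw [zero_add]; exact hα)).2
  refine ⟨LinearMap.range jp, LinearMap.range jm, ⟨?_, ?_⟩,
    ⟨LinearEquiv.ofInjective jp hjp⟩, ⟨LinearEquiv.ofInjective jm hjm⟩, ?_, ?_⟩
  · rw [Submodule.disjoint_def]
    rintro c ⟨a, rfl⟩ ⟨b, hb⟩
    have h2 : B.mkQ (Submodule.inclusion (inf_le_left : H.Z ⊓ Xp ≤ H.Z) a -
        Submodule.inclusion (inf_le_left : H.Z ⊓ Xm ≤ H.Z) b) = 0 := by
      rw [map_sub, sub_eq_zero]; exact hb.symm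
    rw [Submodule.mkQ_apply, Submodule.Quotient.mk_eq_zero, hB] at h2
    obtain ⟨α, hα⟩ := h2
    have h3 := key a.1 a.2 (-b.1) (Submodule.neg_mem _ b.2) α (by
      rw [← sub_eq_add_neg]; exact hα)
    have h4 : a = 0 := Subtype.ext h3.1
    rw [h4, map_zero]
  · rw [codisjoint_iff, eq_top_iff]
    rintro c -
    obtain ⟨z, rfl⟩ := B.mkQ_surjective c
    obtain ⟨p, hp, m, hm, hzpm⟩ := S.split (z : X2)
    obtain ⟨h, hh, hk⟩ := exists_proj H.I (H.Z ⊓ Xp) (fun h hh h0 => S.def1 h hh.2 h0) p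
    obtain ⟨α, m', hm', hα⟩ := solve (p - h) (Xp.sub_mem hp hh.2) (fun k hk' => hk k hk')
    have e : (z : X2) - h - H.d α = m - m' := by
      rw [hα, hzpm]; abel
    have hm1 : (z : X2) - h - H.d α ∈ H.Z ⊓ Xm := by
      refine ⟨H.Z.sub_mem (H.Z.sub_mem z.2 hh.1) (H.d_mem_Z α), ?_⟩
      rw [e]; exact Xm.sub_mem hm hm'
    rw [Submodule.mem_sup]
    refine ⟨jp ⟨h, hh⟩, ⟨_, rfl⟩, jm ⟨_, hm1⟩, ⟨_, rfl⟩, ?_⟩
    show B.mkQ _ + B.mkQ _ = B.mkQ z
    rw [← map_add, ← sub_eq_zero, ← map_sub, Submodule.mkQ_apply,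
      Submodule.Quotient.mk_eq_zero, hB]
    refine ⟨-α, ?_⟩
    show h + ((z : X2) - h - H.d α) - z = H.d (-α)
    rw [map_neg]; abel
  · rintro c ⟨a, rfl⟩
    exact ⟨_, a.2.2, rfl⟩
  · rintro c ⟨a, rfl⟩
    exact ⟨_, a.2.2, rfl⟩

end HSys

/-- a pair of adjoint operators `S0 ≃ CF × X`, `S1 ≃ X1`. -/
structure HPr (H : HSys CF X1 X2) (X : Submodule ℝ X2) (S0 S1 : Type*) [AddCommGroup S0]
    [Module ℝ S0] [AddCommGroup S1] [Module ℝ S1] where
  A : S0 →ₗ[ℝ] S1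
  B : S1 →ₗ[ℝ] S0
  i0 : S0 → S0 → ℝ
  i1 : S1 → S1 → ℝ
  i0def : ∀ u, i0 u u = 0 → u = 0
  i1def : ∀ w, i1 w w = 0 → w = 0
  adj : ∀ u w, i1 (A u) w = i0 u (B w)
  Φ : S0 ≃ₗ[ℝ] CF × X
  Ψ : S1 ≃ₗ[ℝ] X1
  c : ℝ
  c0 : c ≠ 0
  c' : ℝ
  c'0 : c' ≠ 0
  form : ∀ u w, i0 u (B w) = - H.J (Φ u).1 (H.δ (Ψ w)) + c * H.I (Φ u).2 (H.d (Ψ w))
  form0 : ∀ u v, i0 u v = H.J (Φ u).1 (Φ v).1 + c' * H.I (Φ u).2 (Φ v).2

namespace HPr

variable {H} {X X' : Submodule ℝ X2} {S0 S1 : Type*} [AddCommGroup S0]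
    [Module ℝ S0] [AddCommGroup S1] [Module ℝ S1] (P : HPr H X S0 S1)

/-- the kernel of `A`. -/
theorem kerA (u : S0) : P.A u = 0 ↔ H.D (P.Φ u).1 = 0 ∧ ((P.Φ u).2 : X2) ∈ H.Z := by
  have h0 : P.A u = 0 ↔ ∀ α, - H.J (P.Φ u).1 (H.δ α) + P.c * H.I (P.Φ u).2 (H.d α) = 0 := by
    constructor
    · intro hA α
      obtain ⟨w, rfl⟩ := P.Ψ.surjective α
      rw [← P.form, ← P.adj, hA]
      have h1 := P.adj 0 w
      rw [map_zero] at h1
      rw [h1, P.form]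
      simp
    · intro h
      refine P.i1def _ ?_
      rw [P.adj, P.form]
      exact h _
  rw [h0]
  constructor
  · intro h
    have h1 := h (H.D (P.Φ u).1)
    rw [H.dD, map_zero, mul_zero, add_zero, H.adj, neg_neg] at h1
    have h2 := H.Gdef _ h1
    refine ⟨h2, fun α => ?_⟩
    have h3 := h α
    rw [H.adj, h2, map_zero, LinearMap.zero_apply, neg_zero, neg_zero, zero_add] at h3
    exact (mul_eq_zero.1 h3).resolve_left P.c0
  · rintro ⟨h1, h2⟩ α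
    rw [H.adj, h1, map_zero, LinearMap.zero_apply, neg_zero, neg_zero, zero_add, h2 α, mul_zero]

/-- the kernel of `B`. -/
theorem kerB (S : Spl H.I X X') (w : S1) : P.B w = 0 ↔ P.Ψ w ∈ H.Harm := by
  have h0 : P.B w = 0 ↔ ∀ f : CF, ∀ η : X,
      - H.J f (H.δ (P.Ψ w)) + P.c * H.I (η : X2) (H.d (P.Ψ w)) = 0 := by
    constructor
    · intro hB f η
      have h1 := P.form (P.Φ.symm (f, η)) w
      rw [LinearEquiv.apply_symm_apply, hB] at h1
      rw [← h1, P.form0, map_zero]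
      simp
    · intro h
      refine P.i0def _ ?_
      rw [P.form]
      exact h _ _
  rw [h0]
  constructor
  · intro h
    have h1 := h (H.δ (P.Ψ w)) 0
    simp only [ZeroMemClass.coe_zero, map_zero, LinearMap.zero_apply, mul_zero, add_zero,
      neg_eq_zero] at h1
    have h2 : ∀ p ∈ X, H.I p (H.d (P.Ψ w)) = 0 := by
      intro p hp
      have h3 := h 0 ⟨p, hp⟩
      simp only [map_zero, LinearMap.zero_apply, neg_zero, zero_add] at h3
      exact (mul_eq_zero.1 h3).resolve_left P.c0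
    exact ⟨H.Jdef _ h1, S.def2 _ (S.mem h2) (H.stokes _ _)⟩
  · rintro ⟨h1, h2⟩ f η
    have h1' : H.δ (P.Ψ w) = 0 := h1
    have h2' : H.d (P.Ψ w) = 0 := h2
    rw [h1', h2']
    simp

/-- `ker A ≃ {D f = 0} × (Z ∩ X)`. -/
theorem finrank_kerA [FiniteDimensional ℝ (LinearMap.ker P.A)] :
    finrank ℝ (LinearMap.ker P.A) = finrank ℝ (LinearMap.ker H.D) +
      finrank ℝ (H.Z ⊓ X : Submodule ℝ X2) ∧ FiniteDimensional ℝ (H.Z ⊓ X : Submodule ℝ X2) := by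
  let T : LinearMap.ker P.A →ₗ[ℝ] LinearMap.ker H.D × (H.Z ⊓ X : Submodule ℝ X2) :=
    { toFun := fun u => (⟨(P.Φ u).1, ((P.kerA u).1 u.2).1⟩,
        ⟨(P.Φ u).2, ((P.kerA u).1 u.2).2, (P.Φ u).2.2⟩)
      map_add' := fun u v => by
        ext <;> simp
      map_smul' := fun r u => by
        ext <;> simp }
  have hT : Function.Bijective T := by
    constructor
    · intro u v h
      have h1 : (P.Φ u).1 = (P.Φ v).1 := congrArg (fun z => ((z.1 : LinearMap.ker H.D) : CF)) h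
      have h2 : ((P.Φ u).2 : X2) = (P.Φ v).2 :=
        congrArg (fun z => ((z.2 : (H.Z ⊓ X : Submodule ℝ X2)) : X2)) h
      exact Subtype.ext (P.Φ.injective (Prod.ext h1 (Subtype.ext h2)))
    · rintro ⟨f, η⟩
      refine ⟨⟨P.Φ.symm (f, ⟨η, η.2.2⟩), ?_⟩, ?_⟩
      · rw [LinearMap.mem_ker, P.kerA, LinearEquiv.apply_symm_apply]
        exact ⟨f.2, η.2.1⟩
      · apply Prod.ext
        · apply Subtype.ext
          show (P.Φ (P.Φ.symm _)).1 = _
          rw [LinearEquiv.apply_symm_apply]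
        · apply Subtype.ext
          show ((P.Φ (P.Φ.symm _)).2 : X2) = _
          rw [LinearEquiv.apply_symm_apply]
  let T' := LinearEquiv.ofBijective T hT
  have hf : FiniteDimensional ℝ (LinearMap.ker H.D × (H.Z ⊓ X : Submodule ℝ X2)) :=
    T'.finiteDimensional
  have hf1 : FiniteDimensional ℝ (LinearMap.ker H.D) :=
    Module.Finite.of_surjective (LinearMap.fst ℝ (LinearMap.ker H.D) (H.Z ⊓ X : Submodule ℝ X2))
      LinearMap.fst_surjective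
  have hf2 : FiniteDimensional ℝ (H.Z ⊓ X : Submodule ℝ X2) :=
    Module.Finite.of_surjective (LinearMap.snd ℝ (LinearMap.ker H.D) (H.Z ⊓ X : Submodule ℝ X2))
      LinearMap.snd_surjective
  exact ⟨by rw [T'.finrank_eq, Module.finrank_prod], hf2⟩

theorem finrank_kerB (S : Spl H.I X X') :
    finrank ℝ (LinearMap.ker P.B) = finrank ℝ H.Harm := by
  have h : LinearMap.ker P.B = H.Harm.comap (P.Ψ : S1 →ₗ[ℝ] X1) := by
    ext w
    rw [LinearMap.mem_ker, P.kerB S]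
    rfl
  rw [h]
  exact (P.Ψ.ofSubmodule' H.Harm).finrank_eq

/-- solvability of `(d α)⁺ = φ`. -/
theorem solve (S : Spl H.I X X')
    (hs : ∀ u : S0, (∀ k, P.A k = 0 → P.i0 u k = 0) → ∃ w, P.B w = u) (φ : X2) (hφ : φ ∈ X)
    (h : ∀ k ∈ H.Z ⊓ X, H.I φ k = 0) : ∃ α, ∃ m ∈ X', H.d α = φ + m := by
  obtain ⟨w, hw⟩ := hs (P.Φ.symm (0, ⟨φ, hφ⟩)) (by
    intro k hk
    rw [P.form0, LinearEquiv.apply_symm_apply]
    have h1 := (P.kerA k).1 hk
    have h2 := h (P.Φ k).2 ⟨h1.2, (P.Φ k).2.2⟩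
    show H.J 0 _ + P.c' * H.I φ _ = 0
    rw [h2, map_zero, LinearMap.zero_apply, mul_zero, add_zero])
  have key : ∀ p ∈ X, P.c * H.I p (H.d (P.Ψ w)) = P.c' * H.I p φ := by
    intro p hp
    have h1 := P.form (P.Φ.symm (0, ⟨p, hp⟩)) w
    rw [hw, P.form0] at h1
    simp only [LinearEquiv.apply_symm_apply, map_zero, LinearMap.zero_apply, neg_zero,
      zero_add] at h1
    exact h1.symm
  have hc' := P.c'0
  have hm : H.d ((P.c / P.c') • P.Ψ w) - φ ∈ X' := by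
    refine S.mem fun p hp => ?_
    have h1 := key p hp
    rw [map_smul, map_sub, map_smul, smul_eq_mul]
    field_simp
    linarith
  exact ⟨_, _, hm, by abel⟩

end HPr

end Basic

end Crest.Agent.R235.HodgeAbs_194
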