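import Crest.Agent.R235.HodgeDic_194
import Crest.Agent.R235.IndVol_57

/-!
Row 235 (S0364), package IND, leaf IND-7 HODGE (helper194), part 6: pointwise algebra.

`AdF e z E` : `E` is an orthonormal frame at `z` in which `e 0, e 1, e 2` are the standard self-dual
forms.  `s` a Parseval frame.

* `tr2`       : `∑ β(s_A,s_B) γ(s_A,s_B) = ∑ β(E_a,E_b) γ(E_a,E_b)`;
* `qG_E`      : `2 q(a,b) = (a ∧ b)(E)`;
* `sum_asd`   : `∑ β(s_A,s_B) γ(s_A,s_B) = - 4 q(β,γ)`, `β` anti-self-dual;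
* `sum_sd`    : `∑ e_i(s_A,s_B) γ(s_A,s_B) = 4 q(e_i,γ)`;
* `vol_asd`, `vol_sd` : `∑ vol(u,v,s_C,s_D) β(s_C,s_D) = ∓ 2 β(u,v)`.
-/

set_option autoImplicit false
set_option maxSynthPendingDepth 3
set_option linter.unusedSectionVars false

open Set Function Filter MeasureTheory Bundle
open scoped Manifold ContDiff Topology ENNReal
open Crest.GeometryTopology.CoordMetric Crest.GeometryTopology.ChartCurvature
  Crest.GeometryTopology.PointedLimit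
open Crest.Agent.R202.Tens Crest.Agent.R247.Bo84 Crest.Agent.R249.Vf281
open Crest.Agent.R249.Tz2_805 Crest.Agent.R249.Tz805 Crest.Agent.R249.Idx789

namespace Crest.Agent.R235.Hodge_194

open Crest.Agent.R240 Crest.Agent.R240.Ch Crest.Agent.R240.Int
open Crest.Agent.R235.IndVol_57 (WF WF_vol)

noncomputable section

/-! ### matrices -/

/-- the standard self-dual forms -/
def sdm : Fin 3 → Fin 4 → Fin 4 → ℝ :=
  ![![![0,1,0,0], ![-1,0,0,0], ![0,0,0,1], ![0,0,-1,0]],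
    ![![0,0,1,0], ![0,0,0,-1], ![-1,0,0,0], ![0,1,0,0]],
    ![![0,0,0,1], ![0,0,1,0], ![0,-1,0,0], ![-1,0,0,0]]]

/-- the wedge product -/
def wf (b c : Fin 4 → Fin 4 → ℝ) : ℝ :=
  b 0 1 * c 2 3 - b 0 2 * c 1 3 + b 0 3 * c 1 2 + b 1 2 * c 0 3 - b 1 3 * c 0 2 + b 2 3 * c 0 1

/-- alternating matrices -/
def AltM (b : Fin 4 → Fin 4 → ℝ) : Prop := ∀ i j, b i j = - b j i

theorem AltM.diag {b : Fin 4 → Fin 4 → ℝ} (h : AltM b) (i : Fin 4) : b i i = 0 := by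
  have := h i i; linarith

theorem wf_sdm (b : Fin 4 → Fin 4 → ℝ) : wf b (sdm 0) = b 0 1 + b 2 3 ∧
    wf b (sdm 1) = b 0 2 - b 1 3 ∧ wf b (sdm 2) = b 0 3 + b 1 2 := by
  refine ⟨?_, ?_, ?_⟩ <;> simp [wf, sdm]

theorem pair_asd {b c : Fin 4 → Fin 4 → ℝ} (hb : AltM b) (hc : AltM c)
    (h : ∀ i, wf b (sdm i) = 0) : ∑ i, ∑ j, b i j * c i j = - 2 * wf b c := by
  obtain ⟨h0, h1, h2⟩ := wf_sdm b
  rw [h 0] at h0
  rw [h 1] at h1
  rw [h 2] at h2
  have e1 : b 2 3 = - b 0 1 := by linarith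
  have e2 : b 1 3 = b 0 2 := by linarith
  have e3 : b 1 2 = - b 0 3 := by linarith
  simp only [Fin.sum_univ_four, wf]
  rw [hb 1 0, hb 2 0, hb 2 1, hb 3 0, hb 3 1, hb 3 2, hc 1 0, hc 2 0, hc 2 1, hc 3 0, hc 3 1,
    hc 3 2, hb.diag 0, hb.diag 1, hb.diag 2, hb.diag 3, e1, e2, e3]
  ring

theorem pair_sd {c : Fin 4 → Fin 4 → ℝ} (hc : AltM c) (i : Fin 3) :
    ∑ a, ∑ b, sdm i a b * c a b = 2 * wf (sdm i) c := by
  simp only [Fin.sum_univ_four, wf]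
  rw [hc 1 0, hc 2 0, hc 2 1, hc 3 0, hc 3 1, hc 3 2, hc.diag 0, hc.diag 1, hc.diag 2, hc.diag 3]
  fin_cases i <;> simp [sdm] <;> ring

/-- `F(u, v)` -/
def Fu (u v : Fin 4 → ℝ) : ℝ := u 0 * v 1 - u 1 * v 0 + (u 2 * v 3 - u 3 * v 2)

/-- `F(u, E_c)` -/
def Fe (u : Fin 4 → ℝ) : Fin 4 → ℝ := ![- u 1, u 0, - u 3, u 2]

theorem V_asd {b : Fin 4 → Fin 4 → ℝ} (hb : AltM b) (h : ∀ i, wf b (sdm i) = 0)
    (u v : Fin 4 → ℝ) :
    ∑ c, ∑ d, (Fu u v * sdm 0 c d - Fe u c * Fe v d + Fe v c * Fe u d) * b c d =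
      - 2 * ∑ c, ∑ d, u c * v d * b c d := by
  obtain ⟨h0, h1, h2⟩ := wf_sdm b
  rw [h 0] at h0
  rw [h 1] at h1
  rw [h 2] at h2
  have e1 : b 2 3 = - b 0 1 := by linarith
  have e2 : b 1 3 = b 0 2 := by linarith
  have e3 : b 1 2 = - b 0 3 := by linarith
  simp only [Fin.sum_univ_four, Fu, Fe, sdm]
  rw [hb 1 0, hb 2 0, hb 2 1, hb 3 0, hb 3 1, hb 3 2, hb.diag 0, hb.diag 1, hb.diag 2, hb.diag 3,
    e1, e2, e3]
  simp
  ring

theorem V_sd (i : Fin 3) (u v : Fin 4 → ℝ) :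
    ∑ c, ∑ d, (Fu u v * sdm 0 c d - Fe u c * Fe v d + Fe v c * Fe u d) * sdm i c d =
      2 * ∑ c, ∑ d, u c * v d * sdm i c d := by
  simp only [Fin.sum_univ_four, Fu, Fe]
  fin_cases i <;> simp [sdm] <;> ring

theorem sdm_alt (i : Fin 3) : AltM (sdm i) := by
  intro a b
  fin_cases i <;> fin_cases a <;> fin_cases b <;> simp [sdm]

theorem Fu_eq (u v : Fin 4 → ℝ) : Fu u v = ∑ a, ∑ b, u a * v b * sdm 0 a b := by
  simp only [Fin.sum_univ_four, Fu]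
  simp [sdm]
  ring

theorem Fe_eq (u : Fin 4 → ℝ) (c : Fin 4) : Fe u c = ∑ a, u a * sdm 0 a c := by
  simp only [Fin.sum_univ_four, Fe]
  fin_cases c <;> simp [sdm]

/-! ### a point of the manifold -/

section pt

variable {M : Type} [TopologicalSpace M] [ChartedSpace (EuclideanSpace ℝ (Fin 4)) M]
  [IsManifold 𝓘(ℝ, EuclideanSpace ℝ (Fin 4)) ∞ M]
  [RiemannianBundle (fun x : M => TangentSpace 𝓘(ℝ, EuclideanSpace ℝ (Fin 4)) x)]
  [IsContMDiffRiemannianBundle 𝓘(ℝ, EuclideanSpace ℝ (Fin 4)) ∞ (EuclideanSpace ℝ (Fin 4))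
      (fun x : M => TangentSpace 𝓘(ℝ, EuclideanSpace ℝ (Fin 4)) x)]

local notation "𝔼" => EuclideanSpace ℝ (Fin 4)
local notation "𝓘E" => 𝓘(ℝ, EuclideanSpace ℝ (Fin 4))

/-- adapted frame -/
structure AdF (e : Fin 3 → F2 E4 M) (z : M)
    (E : Fin 4 → TangentSpace 𝓘(ℝ, EuclideanSpace ℝ (Fin 4)) z) : Prop where
  orth : ∀ a b, inner ℝ (E a) (E b) = if a = b then (1:ℝ) else 0
  e : ∀ i a b, at2 (e i) z (E a) (E b) = sdm i a b

variable {e : Fin 3 → F2 E4 M} {z : M} {E : Fin 4 → TangentSpace 𝓘E z} (h : AdF e z E)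

/-- components in the frame -/
def co (E : Fin 4 → TangentSpace 𝓘E z) (u : TangentSpace 𝓘E z) (a : Fin 4) : ℝ := inner ℝ u (E a)

/-- the matrix of a form -/
def mt (E : Fin 4 → TangentSpace 𝓘E z) (β : Bil) (a b : Fin 4) : ℝ := β (E a) (E b)

theorem mt_alt {β : Bil} (hβ : Alt β) (E : Fin 4 → TangentSpace 𝓘E z) : AltM (mt E β) :=
  fun a b => Alt.swap hβ (E a) (E b)

include h

theorem exp1 (φ : E4 →L[ℝ] ℝ) (x : TangentSpace 𝓘E z) : φ x = ∑ a, co E x a * φ (E a) := by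
  have h1 := congrArg (fun y : TangentSpace 𝓘E z => φ y) (mgrad_frame h.orth x)
  refine h1.trans ?_
  have h2 := map_sum φ (fun a => ((inner ℝ x (E a) : ℝ) • E a : E4)) Finset.univ
  refine h2.trans (Finset.sum_congr rfl fun a _ => ?_)
  exact map_smul φ (inner ℝ x (E a) : ℝ) (E a : E4)

theorem exp2 (β : Bil) (x y : TangentSpace 𝓘E z) :
    β x y = ∑ a, ∑ b, co E x a * co E y b * mt E β a b := by
  rw [exp1 h (β x) y, Finset.sum_comm]
  refine Finset.sum_congr rfl fun b _ => ?_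
  have h1 := exp1 h (β.flip (E b)) x
  have h2 : β x (E b) = ∑ a, co E x a * β (E a) (E b) := h1
  rw [h2, Finset.mul_sum]
  exact Finset.sum_congr rfl fun a _ => by unfold mt; ring

variable {κ : Type} [Fintype κ] (s : PF 4 M κ)

theorem tr1 (φ ψ : E4 →L[ℝ] ℝ) :
    ∑ A, φ (s.s A z) * ψ (s.s A z) = ∑ a, φ (E a) * ψ (E a) := by
  have h1 : ∀ A, φ (s.s A z) * ψ (s.s A z) =
      ∑ a, ∑ b, (co E (s.s A z) a * co E (s.s A z) b) * (φ (E a) * ψ (E b)) := by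
    intro A
    rw [exp1 h φ, exp1 h ψ, Finset.sum_mul_sum]
    exact Finset.sum_congr rfl fun a _ => Finset.sum_congr rfl fun b _ => by ring
  simp only [h1]
  rw [Finset.sum_comm]
  refine Finset.sum_congr rfl fun a _ => ?_
  rw [Finset.sum_comm]
  have h2 : ∀ b, ∑ A, (co E (s.s A z) a * co E (s.s A z) b) * (φ (E a) * ψ (E b)) =
      if a = b then φ (E a) * ψ (E b) else 0 := by
    intro b
    rw [← Finset.sum_mul]
    have h3 := pars_inner s z (E a) (E b)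
    rw [h.orth] at h3
    have h4 : ∑ A, co E (s.s A z) a * co E (s.s A z) b = if a = b then 1 else 0 := h3
    rw [h4]
    split_ifs <;> simp
  simp only [h2, Finset.sum_ite_eq, Finset.mem_univ, if_true]

theorem tr2 (β γ : Bil) : ∑ A, ∑ B, β (s.s A z) (s.s B z) * γ (s.s A z) (s.s B z) =
    ∑ a, ∑ b, mt E β a b * mt E γ a b := by
  have h1 : ∀ A, ∑ B, β (s.s A z) (s.s B z) * γ (s.s A z) (s.s B z) =
      ∑ b, β (s.s A z) (E b) * γ (s.s A z) (E b) := fun A => tr1 h s (β (s.s A z)) (γ (s.s A z))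
  simp only [h1]
  rw [Finset.sum_comm]
  have h2 : ∀ b, ∑ A, β (s.s A z) (E b) * γ (s.s A z) (E b) =
      ∑ a, mt E β a b * mt E γ a b := fun b => tr1 h s (β.flip (E b)) (γ.flip (E b))
  simp only [h2]
  rw [Finset.sum_comm]

theorem WF_E (β γ : Bil) : WF β γ E = wf (mt E β) (mt E γ) := rfl

theorem mt_e (i : Fin 3) : mt E (at2 (e i) z) = sdm i := by
  funext a b
  exact h.e i a b

/-- `2 q(a,b) = (a ∧ b)(E)` -/
theorem qG_E (he : ∀ i, Alt (at2 (e i) z)) (h0 : W (at2 (e 0) z) (at2 (e 0) z) ≠ 0)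
    {β γ : Bil} (hβ : Alt β) (hγ : Alt γ) :
    wf (mt E β) (mt E γ) = 2 * q (at2 (e 0) z) β γ := by
  have h1 := WF_vol (he 0) hβ hγ h0 E
  have h2 := WF_vol (he 0) (he 0) (he 0) h0 E
  rw [WF_E h] at h1 h2
  rw [h1, WF_E h, mt_e h]
  have h3 : wf (sdm 0) (sdm 0) = 2 := by
    rw [(wf_sdm _).1]; simp [sdm]; norm_num
  rw [h3]
  ring

variable (he : ∀ i, Alt (at2 (e i) z)) (h0 : W (at2 (e 0) z) (at2 (e 0) z) ≠ 0)
include he h0

theorem wf_of_q {β : Bil} (hβ : Alt β) (hq : ∀ i, q (at2 (e 0) z) β (at2 (e i) z) = 0) (i : Fin 3) :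
    wf (mt E β) (sdm i) = 0 := by
  rw [← mt_e h i, qG_E h he h0 hβ (he i), hq i, mul_zero]

theorem sum_asd {β γ : Bil} (hβ : Alt β) (hγ : Alt γ)
    (hq : ∀ i, q (at2 (e 0) z) β (at2 (e i) z) = 0) :
    ∑ A, ∑ B, β (s.s A z) (s.s B z) * γ (s.s A z) (s.s B z) = - 4 * q (at2 (e 0) z) β γ := by
  rw [tr2 h s, pair_asd (mt_alt hβ E) (mt_alt hγ E) (wf_of_q h he h0 hβ hq), qG_E h he h0 hβ hγ]
  ring

theorem sum_sd {γ : Bil} (hγ : Alt γ) (i : Fin 3) :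
    ∑ A, ∑ B, at2 (e i) z (s.s A z) (s.s B z) * γ (s.s A z) (s.s B z) =
      4 * q (at2 (e 0) z) (at2 (e i) z) γ := by
  rw [tr2 h s, mt_e h, pair_sd (mt_alt hγ E), ← mt_e h i, qG_E h he h0 (he i) hγ]
  ring

end pt

section vol

variable {M : Type} [TopologicalSpace M] [ChartedSpace (EuclideanSpace ℝ (Fin 4)) M]
  [IsManifold 𝓘(ℝ, EuclideanSpace ℝ (Fin 4)) ∞ M]
  [RiemannianBundle (fun x : M => TangentSpace 𝓘(ℝ, EuclideanSpace ℝ (Fin 4)) x)]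
  [IsContMDiffRiemannianBundle 𝓘(ℝ, EuclideanSpace ℝ (Fin 4)) ∞ (EuclideanSpace ℝ (Fin 4))
      (fun x : M => TangentSpace 𝓘(ℝ, EuclideanSpace ℝ (Fin 4)) x)]

local notation "𝔼" => EuclideanSpace ℝ (Fin 4)
local notation "𝓘E" => 𝓘(ℝ, EuclideanSpace ℝ (Fin 4))

/-- the volume form with two arguments fixed -/
def volB (F : Bil) (u v : E4) : Bil :=
  (F u v) • F - (F u).smulRight (F v) + (F v).smulRight (F u)

theorem volB_apply (F : Bil) (u v x y : E4) :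
    volB F u v x y = F u v * F x y - F u x * F v y + F v x * F u y := rfl

theorem WF_volB {F : Bil} (v : Fin 4 → E4) : WF F F v / 2 = volB F (v 0) (v 1) (v 2) (v 3) := by
  rw [volB_apply]; unfold WF; ring

theorem volB_comm {F : Bil} (hF : Alt F) (u v x y : E4) : volB F u v x y = volB F x y u v := by
  rw [volB_apply, volB_apply, Alt.swap hF x u, Alt.swap hF y v, Alt.swap hF y u, Alt.swap hF x v]
  ring

variable {e : Fin 3 → F2 E4 M} {z : M} {E : Fin 4 → TangentSpace 𝓘E z} (h : AdF e z E)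
include h

theorem F_co (u : TangentSpace 𝓘E z) (c : Fin 4) :
    at2 (e 0) z u (E c) = Fe (co E u) c := by
  rw [Fe_eq]
  have h1 := exp1 h ((at2 (e 0) z).flip (E c)) u
  refine h1.trans (Finset.sum_congr rfl fun a _ => ?_)
  show co E u a * at2 (e 0) z (E a) (E c) = _
  rw [h.e]

theorem F_uv (u v : TangentSpace 𝓘E z) : at2 (e 0) z u v = Fu (co E u) (co E v) := by
  rw [Fu_eq, exp2 h (at2 (e 0) z) u v]
  exact Finset.sum_congr rfl fun a _ => Finset.sum_congr rfl fun b _ => by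
    rw [show mt E (at2 (e 0) z) a b = sdm 0 a b from h.e 0 a b]

variable {κ : Type} [Fintype κ] (s : PF 4 M κ)

theorem sum_volB (β : Bil) (u v : TangentSpace 𝓘E z) :
    ∑ C, ∑ D, volB (at2 (e 0) z) u v (s.s C z) (s.s D z) * β (s.s C z) (s.s D z) =
      ∑ c, ∑ d, (Fu (co E u) (co E v) * sdm 0 c d - Fe (co E u) c * Fe (co E v) d +
        Fe (co E v) c * Fe (co E u) d) * mt E β c d := by
  rw [tr2 h s]
  refine Finset.sum_congr rfl fun c _ => Finset.sum_congr rfl fun d _ => ?_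
  congr 1
  have h1 := F_uv h u v
  have h2 := F_co h u c
  have h3 := F_co h v d
  have h4 := F_co h v c
  have h5 := F_co h u d
  have h6 := h.e 0 c d
  rw [← h1, ← h2, ← h3, ← h4, ← h5, ← h6]
  rfl

variable (he : ∀ i, Alt (at2 (e i) z)) (h0 : W (at2 (e 0) z) (at2 (e 0) z) ≠ 0)
include he h0

theorem vol_asd {β : Bil} (hβ : Alt β)
    (hq : ∀ i, q (at2 (e 0) z) β (at2 (e i) z) = 0) (u v : TangentSpace 𝓘E z) :
    ∑ C, ∑ D, volB (at2 (e 0) z) u v (s.s C z) (s.s D z) * β (s.s C z) (s.s D z) =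
      - 2 * β u v := by
  rw [sum_volB h s, V_asd (mt_alt hβ E) (wf_of_q h he h0 hβ hq), exp2 h β]

theorem vol_sd (i : Fin 3) (u v : TangentSpace 𝓘E z) :
    ∑ C, ∑ D, volB (at2 (e 0) z) u v (s.s C z) (s.s D z) * at2 (e i) z (s.s C z) (s.s D z) =
      2 * at2 (e i) z u v := by
  rw [sum_volB h s, mt_e h, V_sd, exp2 h (at2 (e i) z), mt_e h]

end vol

end

end Crest.Agent.R235.Hodge_194
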