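import Crest.Agent.R235.HodgeSys_194
import Crest.Agent.R249.Idx6_789
import Crest.Agent.R249.Idx7_789
import Crest.Agent.R249.Grn6_324
import Crest.Agent.R249.DicB_129

/-!
Row 235 (S0364), package IND, leaf IND-7 HODGE (helper194), part 3: vector fields of R249 and
one-forms of R240.

* `flat X`          : `at1 (flat X) z v = ⟨X z, v⟩`; `smooth1_flat`;
* `rep1_flat`       : its representation in charts;
* `at2_dG_flat`     : `d(flat X)(u,v) = ⟨∇_u X, v⟩ - ⟨∇_v X, u⟩`;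
* `dF_eq_flat`      : `df = flat (grad f)`;
* `smooth_at1`      : `z ↦ s(X z)` is smooth;
* `shp s α`         : `∑_A α(s_A) s_A`; `flat_shp`.
-/

set_option autoImplicit false
set_option maxSynthPendingDepth 3
set_option linter.unusedSectionVars false

open Set Function Filter MeasureTheory Bundle
open scoped Manifold ContDiff Topology ENNReal
open Crest.GeometryTopology.CoordMetric Crest.GeometryTopology.ChartCurvature
  Crest.GeometryTopology.PointedLimit
open Crest.Agent.R202.Tens Crest.Agent.R247.Bo84 Crest.Agent.R249.Vf281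
open Crest.Agent.R249.Tz2_805 Crest.Agent.R249.Tz805 Crest.Agent.R249.Idx789

namespace Crest.Agent.R235.Hodge_194

open Crest.Agent.R240 Crest.Agent.R240.Ch Crest.Agent.R240.Int

noncomputable section

section Dic

variable {M : Type} [TopologicalSpace M] [ChartedSpace (EuclideanSpace ℝ (Fin 4)) M]
  [IsManifold 𝓘(ℝ, EuclideanSpace ℝ (Fin 4)) ∞ M]
  [RiemannianBundle (fun x : M => TangentSpace 𝓘(ℝ, EuclideanSpace ℝ (Fin 4)) x)]
  [IsContMDiffRiemannianBundle 𝓘(ℝ, EuclideanSpace ℝ (Fin 4)) ∞ (EuclideanSpace ℝ (Fin 4))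
      (fun x : M => TangentSpace 𝓘(ℝ, EuclideanSpace ℝ (Fin 4)) x)]

local notation "𝔼" => EuclideanSpace ℝ (Fin 4)
local notation "𝓘E" => 𝓘(ℝ, EuclideanSpace ℝ (Fin 4))

omit [RiemannianBundle (fun x : M => TangentSpace 𝓘(ℝ, EuclideanSpace ℝ (Fin 4)) x)]
  [IsContMDiffRiemannianBundle 𝓘(ℝ, EuclideanSpace ℝ (Fin 4)) ∞ (EuclideanSpace ℝ (Fin 4))
      (fun x : M => TangentSpace 𝓘(ℝ, EuclideanSpace ℝ (Fin 4)) x)] in
theorem dCh_tcc (p : M) {x : M} (hx : x ∈ (chartAt 𝔼 p).source) (v : 𝔼) :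
    dCh p x v = tcc x p x v := by
  unfold dCh
  exact congrArg (fun L : 𝔼 →L[ℝ] 𝔼 => L v) (mfderiv_chart (E := E4) hx)

omit [RiemannianBundle (fun x : M => TangentSpace 𝓘(ℝ, EuclideanSpace ℝ (Fin 4)) x)]
  [IsContMDiffRiemannianBundle 𝓘(ℝ, EuclideanSpace ℝ (Fin 4)) ∞ (EuclideanSpace ℝ (Fin 4))
      (fun x : M => TangentSpace 𝓘(ℝ, EuclideanSpace ℝ (Fin 4)) x)] in
theorem dSy_tcc (p : M) {y : 𝔼} (hy : y ∈ (chartAt 𝔼 p).target) (u : 𝔼) :
    dSy p y u = tcc p ((chartAt 𝔼 p).symm y) ((chartAt 𝔼 p).symm y) u := by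
  have hx := symm_mem (E := E4) hy
  apply tcc_inj (E := E4) hx
  rw [tcc_cancel hx, ← dCh_tcc p hx]
  exact dCh_dSy p hy u

/-- the one-form of a vector at a point. -/
def flatL (z : M) (x : TangentSpace 𝓘(ℝ, EuclideanSpace ℝ (Fin 4)) z) : E4 →L[ℝ] ℝ :=
  LinearMap.toContinuousLinearMap
    { toFun := fun v : E4 => (@inner ℝ (TangentSpace 𝓘E z) _ x v : ℝ)
      map_add' := fun u v =>
        @inner_add_right ℝ (TangentSpace 𝓘E z) _ _ _ x (u : TangentSpace 𝓘E z) (v : TangentSpace 𝓘E z)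
      map_smul' := fun r v =>
        @real_inner_smul_right (TangentSpace 𝓘E z) _ _ x (v : TangentSpace 𝓘E z) r }

theorem flatL_apply (z : M) (x : TangentSpace 𝓘E z) (v : TangentSpace 𝓘E z) :
    flatL z x v = (inner ℝ x v : ℝ) := rfl

/-- the one-form of a field. -/
def flat (X : (p : M) → TangentSpace 𝓘(ℝ, EuclideanSpace ℝ (Fin 4)) p) : F1 E4 M :=
  fun z => flatL z (X z)

theorem at1_flat (X : (p : M) → TangentSpace 𝓘E p) (z : M) (v : TangentSpace 𝓘E z) :
    at1 (flat X) z v = (inner ℝ (X z) v : ℝ) := rfl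

theorem rep1_flat (X : (p : M) → TangentSpace 𝓘E p) (p : M) {y : 𝔼}
    (hy : y ∈ (chartAt 𝔼 p).target) : rep1 p (flat X) y = omf p X y := by
  ext u
  rw [rep1_apply, omf, bil_chartMetric, dSy_vCh hy, dSy_tcc p hy u]
  rfl

theorem smooth1_flat {X : (p : M) → TangentSpace 𝓘E p} (hX : ∀ z, VSm 4 ∞ X z) :
    Smooth1 (flat X) := fun p =>
  (contDiffOn_omf p hX).congr fun _ hy => rep1_flat X p hy

theorem dSy_self (z : M) (u : 𝔼) : dSy z (chartCentre 4 M z) u = u := by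
  have h := dSy_tcc z (centre_mem (n := 4) z) u
  rw [h]
  have h2 : (chartAt 𝔼 z).symm (chartCentre 4 M z) = z :=
    (chartAt 𝔼 z).left_inv (mem_chart_source 𝔼 z)
  rw [h2]
  exact tcc_self (mem_chart_source 𝔼 z) u

/-- **`d (flat X)`**. -/
theorem at2_dG_flat' {X : (p : M) → TangentSpace 𝓘E p} (hX : ∀ z, VSm 4 ∞ X z) (z : M)
    (u v : 𝔼) : at2 (dG (flat X)) z u v =
      (@inner ℝ (TangentSpace 𝓘E z) _ (mCov 4 X z u) v : ℝ) -
        (@inner ℝ (TangentSpace 𝓘E z) _ (mCov 4 X z v) u : ℝ) := by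
  have hb := centre_mem (n := 4) z
  have h0 : (chartAt 𝔼 z).symm (chartCentre 4 M z) = z :=
    (chartAt 𝔼 z).left_inv (mem_chart_source 𝔼 z)
  have hg := isRiemannianOn_chartMetric (n := 4) z
  have hX1 : VSm 4 1 X ((chartAt 𝔼 z).symm (chartCentre 4 M z)) := (hX _).of_le (by simp)
  have hev : rep1 z (flat X) =ᶠ[𝓝 (chartCentre 4 M z)] omf z X := by
    filter_upwards [(chartAt 𝔼 z).open_target.mem_nhds hb] with y hy using rep1_flat X z hy
  have key : ∀ u v : 𝔼, bil (chartMetric 4 M z (chartCentre 4 M z))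
      (cov (chartMetric 4 M z) (vCh 4 z X) (chartCentre 4 M z) u) v =
      (@inner ℝ (TangentSpace 𝓘E z) _ (mCov 4 X z u) v : ℝ) := by
    intro u v
    rw [bil_chartMetric, ← mCov_chart hb hX1, dSy_self, dSy_self]
    have : ∀ (z' : M) (h : z' = z), (@inner ℝ (TangentSpace 𝓘E z') _ (mCov 4 X z' u) v : ℝ) =
        (@inner ℝ (TangentSpace 𝓘E z) _ (mCov 4 X z u) v : ℝ) := by
      rintro z' rfl; rfl
    exact this _ h0
  have e1 : at2 (dG (flat X)) z u v = d1 (rep1 z (flat X)) (chartCentre 4 M z) u v := rfl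
  rw [e1, d1_congr hev, d1_apply, fderiv_omf z hX hb, fderiv_omf z hX hb, Gam_symm hg hb v u,
    key, key]
  ring

theorem at2_dG_flat {X : (p : M) → TangentSpace 𝓘E p} (hX : ∀ z, VSm 4 ∞ X z) (z : M)
    (u v : TangentSpace 𝓘E z) : at2 (dG (flat X)) z u v =
      (inner ℝ (mCov 4 X z u) v : ℝ) - inner ℝ (mCov 4 X z v) u :=
  at2_dG_flat' hX z u v

/-- **`df = flat (grad f)`**. -/
theorem dF_eq_flat (f : M → ℝ) : dF (E := E4) f = flat (mgrad 4 f) := by
  funext z
  apply ContinuousLinearMap.ext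
  intro v
  show fderiv ℝ (repF z f) (chartAt E4 z z) v =
    (@inner ℝ (TangentSpace 𝓘E z) _ (mgrad 4 f z) v : ℝ)
  have h1 : dCh z z v = v := by
    rw [dCh_tcc z (mem_chart_source 𝔼 z)]
    exact tcc_self (mem_chart_source 𝔼 z) v
  refine Eq.trans ?_ (inner_mgrad (n := 4) f z v).symm
  refine Eq.trans ?_ (mfderiv_centre (n := 4) f z v).symm
  rw [h1]
  rfl

theorem smoothF_iff' (f : M → ℝ) : SmoothF E4 f ↔ ContMDiff 𝓘E 𝓘(ℝ, ℝ) ∞ f :=
  (smoothF_iff (E := E4) f).symm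

/-- the value of a smooth one-form on a smooth field is smooth. -/
theorem smooth_at1 {s : F1 E4 M} (hs : Smooth1 s) {X : (p : M) → TangentSpace 𝓘E p}
    (hX : ∀ z, VSm 4 ∞ X z) : SmoothF E4 (fun z => at1 s z (X z)) := by
  intro p
  have h1 : ContDiffOn ℝ ∞ (fun y => rep1 p s y (vCh 4 p X y)) (chartAt E4 p).target := by
    refine (hs p).clm_apply fun y hy => ?_
    exact (VSm.chart (n := 4) le_rfl hy (hX _)).contDiffWithinAt
  refine h1.congr fun y hy => ?_
  show at1 s ((chartAt E4 p).symm y) (X ((chartAt E4 p).symm y)) = _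
  rw [rep1_apply, ← dSy_tcc p hy, dSy_vCh hy]

variable {κ : Type} [Fintype κ] (s : PF 4 M κ)

/-- the coefficients of a one-form in a Parseval frame. -/
def cof (α : F1 E4 M) (A : κ) (z : M) : ℝ := at1 α z (s.s A z)

/-- the field of a one-form. -/
def shp (α : F1 E4 M) : (p : M) → TangentSpace 𝓘(ℝ, EuclideanSpace ℝ (Fin 4)) p :=
  fieldOf s (cof s α)

theorem inner_shp (α : F1 E4 M) (z : M) (v : TangentSpace 𝓘E z) :
    (inner ℝ (shp s α z) v : ℝ) = at1 α z v := by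
  have h1 : at1 α z v = ∑ A, (inner ℝ (s.s A z) v : ℝ) * at1 α z (s.s A z) := by
    conv_lhs => rw [← s.pars z v]
    have h2 := map_sum (at1 α z) (fun A => ((inner ℝ (s.s A z) v : ℝ) • s.s A z : E4)) Finset.univ
    refine h2.trans (Finset.sum_congr rfl fun A _ => ?_)
    exact map_smul (at1 α z) (inner ℝ (s.s A z) v : ℝ) (s.s A z : E4)
  rw [h1, shp, fieldOf, sum_inner]
  exact Finset.sum_congr rfl fun A _ => by rw [real_inner_smul_left, mul_comm]; rfl

theorem flat_shp (α : F1 E4 M) : flat (shp s α) = α := by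
  funext z
  apply ContinuousLinearMap.ext
  intro v
  exact inner_shp s α z v

theorem shp_flat (X : (p : M) → TangentSpace 𝓘E p) : shp s (flat X) = X := by
  funext z
  refine ext_inner_right ℝ fun v => ?_
  rw [inner_shp]
  rfl

theorem smU_cof {α : F1 E4 M} (hα : Smooth1 α) : SmU (n := 4) (cof s α) := fun A =>
  (smoothF_iff' _).1 (smooth_at1 hα (s.sm A))

theorem vsm_shp {α : F1 E4 M} (hα : Smooth1 α) (z : M) : VSm 4 ∞ (shp s α) z :=
  VSm_fieldOf s (smU_cof s hα) z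

theorem sec_cof (α : F1 E4 M) (A : κ) (z : M) : ∑ B, tanP s A B z * cof s α B z = cof s α A z := by
  have h := inner_shp s α z (s.s A z)
  rw [shp, fieldOf, sum_inner] at h
  rw [← show at1 α z (s.s A z) = cof s α A z from rfl, ← h]
  refine Finset.sum_congr rfl fun B _ => ?_
  rw [real_inner_smul_left, mul_comm, tanP, real_inner_comm]

theorem cof_flat {w : κ → M → ℝ} (hs : ∀ a z, ∑ b, tanP s a b z * w b z = w a z) :
    cof s (flat (fieldOf s w)) = w := by
  funext A z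
  show (inner ℝ (fieldOf s w z) (s.s A z) : ℝ) = w A z
  rw [real_inner_comm, inner_fieldOf s hs]

/-- `⟨X, Y⟩ = ∑ α(s_A) β(s_A)`. -/
theorem sum_cof (α β : F1 E4 M) (z : M) :
    ∑ A, cof s α A z * cof s β A z = (inner ℝ (shp s α z) (shp s β z) : ℝ) := by
  rw [← pars_inner s z]
  exact Finset.sum_congr rfl fun A _ => by
    rw [real_inner_comm (shp s α z), inner_shp, real_inner_comm (shp s β z), inner_shp]; rfl

end Dic

end

end Crest.Agent.R235.Hodge_194
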