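import Crest.Agent.R235.Ip_288
import Crest.Agent.R235.HodgeAbs_194
import Crest.Agent.R240.Fund
import Crest.Agent.R240.En4F

/-!
Row 235 (S0364), package IND, leaf IND-7 HODGE (helper194), part 1: two-forms.

* `neg_of_perp` : `W(F,F) W(m,m) < 0` for `m ≠ 0` orthogonal to an orthonormal positive triple;
* `fund_vol`    : a smooth form orthogonal to the exact ones is closed (any nondegenerate `F`).
-/

set_option autoImplicit false
set_option maxSynthPendingDepth 3

open Set Function Filter MeasureTheory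
open scoped Manifold ContDiff Topology ENNReal

universe u

namespace Crest.Agent.R235.Hodge_194

open Crest.Agent.R240 Crest.Agent.R240.Ch Crest.Agent.R240.Int

noncomputable section

/-! ### pointwise algebra -/

section Pt

/-- the self-dual part of the standard metric -/
def pl (b : Bil) : Fin 3 → ℝ :=
  ![ent b 0 1 + ent b 2 3, ent b 0 2 - ent b 1 3, ent b 0 3 + ent b 1 2]

/-- the anti-self-dual part -/
def mi (b : Bil) : Fin 3 → ℝ :=
  ![ent b 0 1 - ent b 2 3, ent b 0 2 + ent b 1 3, ent b 0 3 - ent b 1 2]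

theorem W_pm (b : Bil) : 2 * W b b = ∑ i, pl b i ^ 2 - ∑ i, mi b i ^ 2 := by
  simp only [pl, mi, Fin.sum_univ_three, W, Matrix.cons_val_zero, Matrix.cons_val_one,
    Matrix.cons_val]
  ring

theorem eq_zero_of_pm {b : Bil} (hb : Alt b) (h1 : ∀ i, pl b i = 0) (h2 : ∀ i, mi b i = 0) :
    b = 0 := by
  have a0 := h1 0; have a1 := h1 1; have a2 := h1 2
  have b0 := h2 0; have b1 := h2 1; have b2 := h2 2
  simp only [pl, mi, Matrix.cons_val_zero, Matrix.cons_val_one,
    Matrix.cons_val] at a0 a1 a2 b0 b1 b2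
  apply alt_ext hb (fun v => rfl) <;> rw [ent_zero] <;> linarith

theorem alt_comb {n : ℕ} {e : Fin n → Bil} (he : ∀ i, Alt (e i)) (c : Fin n → ℝ) :
    Alt (∑ i, c i • e i) := by
  intro v
  rw [sum_apply, sum_apply]
  refine Finset.sum_eq_zero fun i _ => ?_
  rw [smul_apply, smul_apply, he i v, smul_zero]

theorem W_sum_left {n : ℕ} (e : Fin n → Bil) (c : Fin n → ℝ) (b : Bil) :
    W (∑ i, c i • e i) b = ∑ i, c i * W (e i) b := by
  induction n with
  | zero => simp [W, ent_zero]
  | succ n ih =>
    rw [Fin.sum_univ_succ, Fin.sum_univ_succ, W_add_left, W_smul_left, ih]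

theorem W_sum_right {n : ℕ} (e : Fin n → Bil) (c : Fin n → ℝ) (b : Bil) :
    W b (∑ i, c i • e i) = ∑ i, c i * W b (e i) := by
  rw [W_comm, W_sum_left]
  exact Finset.sum_congr rfl fun i _ => by rw [W_comm]

/-- a nonzero combination of four forms with vanishing self-dual (anti-self-dual) part -/
theorem exists_comb (T : Bil → Fin 3 → ℝ) (hT : ∀ b c i, T (b + c) i = T b i + T c i)
    (hT' : ∀ (r : ℝ) b i, T (r • b) i = r * T b i) (v : Fin 4 → Bil) :
    ∃ c : Fin 4 → ℝ, c ≠ 0 ∧ ∀ i, T (∑ k, c k • v k) i = 0 := by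
  let L : (Fin 4 → ℝ) →ₗ[ℝ] (Fin 3 → ℝ) :=
    { toFun := fun c i => T (∑ k, c k • v k) i
      map_add' := fun c d => by
        funext i
        have h1 : ∑ k, (c + d) k • v k = ∑ k, c k • v k + ∑ k, d k • v k := by
          rw [← Finset.sum_add_distrib]
          exact Finset.sum_congr rfl fun k _ => by rw [Pi.add_apply, add_smul]
        show T (∑ k, (c + d) k • v k) i = T (∑ k, c k • v k) i + T (∑ k, d k • v k) i
        rw [h1, hT]
      map_smul' := fun r c => by
        funext i
        have h1 : ∑ k, (r • c) k • v k = r • ∑ k, c k • v k := by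
          rw [Finset.smul_sum]
          exact Finset.sum_congr rfl fun k _ => by rw [Pi.smul_apply, smul_eq_mul, mul_smul]
        show T (∑ k, (r • c) k • v k) i = r * T (∑ k, c k • v k) i
        rw [h1, hT'] }
  have h : LinearMap.ker L ≠ ⊥ := LinearMap.ker_ne_bot_of_finrank_lt (by simp)
  obtain ⟨c, hc, h0⟩ := Submodule.exists_mem_ne_zero_of_ne_bot h
  exact ⟨c, h0, fun i => congrFun hc i⟩

/-- **the orthogonal complement of a positive three-space is negative**. -/
theorem neg_of_perp {F : Bil} (hF0 : W F F ≠ 0) {e : Fin 3 → Bil} (he : ∀ i, Alt (e i))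
    (hW : ∀ i j, W (e i) (e j) = if i = j then W F F else 0) {m : Bil} (hm : Alt m)
    (hp : ∀ i, W m (e i) = 0) (hm0 : m ≠ 0) : W F F * W m m < 0 := by
  by_contra hcon
  push Not at hcon
  set v : Fin 4 → Bil := ![e 0, e 1, e 2, m] with hv
  -- the square of a combination
  have hsq : ∀ c : Fin 4 → ℝ, W (∑ k, c k • v k) (∑ k, c k • v k) =
      (c 0 ^ 2 + c 1 ^ 2 + c 2 ^ 2) * W F F + c 3 ^ 2 * W m m := by
    intro c
    have hp' : ∀ i, W (e i) m = 0 := fun i => by rw [W_comm]; exact hp i
    have g : ∀ i j : Fin 4, W (v i) (v j) =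
        if i = j then (if i = 3 then W m m else W F F) else 0 := by
      intro i j
      fin_cases i <;> fin_cases j <;> simp [hv, hW, hp, hp']
    have e1 : ∀ i, W (v i) (∑ k, c k • v k) = ∑ k, c k * W (v i) (v k) :=
      fun i => by rw [W_comm, W_sum_left]; exact Finset.sum_congr rfl fun k _ => by rw [W_comm]
    rw [W_sum_left]
    simp only [e1]
    simp only [g, Fin.sum_univ_four]
    simp
    ring
  have halt : ∀ c : Fin 4 → ℝ, Alt (∑ k, c k • v k) := by
    intro c
    refine alt_comb (fun k => ?_) c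
    fin_cases k
    · exact he 0
    · exact he 1
    · exact he 2
    · exact hm
  have fin : ∀ c : Fin 4 → ℝ, c ≠ 0 →
      W F F * W (∑ k, c k • v k) (∑ k, c k • v k) ≤ 0 → (W F F * W (∑ k, c k • v k) (∑ k, c k • v k)
        = 0 → ∑ k, c k • v k = 0) → False := by
    intro c hc hle heq
    have hF2 : 0 < W F F ^ 2 := by positivity
    have h1 : W F F * W (∑ k, c k • v k) (∑ k, c k • v k) =
        (c 0 ^ 2 + c 1 ^ 2 + c 2 ^ 2) * W F F ^ 2 + c 3 ^ 2 * (W F F * W m m) := by
      rw [hsq]; ring
    have h2 : 0 ≤ c 3 ^ 2 * (W F F * W m m) := by positivity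
    have h3 : 0 ≤ (c 0 ^ 2 + c 1 ^ 2 + c 2 ^ 2) * W F F ^ 2 := by positivity
    have h4 : (c 0 ^ 2 + c 1 ^ 2 + c 2 ^ 2) * W F F ^ 2 = 0 := by linarith
    have h5 : c 0 ^ 2 + c 1 ^ 2 + c 2 ^ 2 = 0 := (mul_eq_zero.1 h4).resolve_right hF2.ne'
    have c0 : c 0 = 0 := by nlinarith [sq_nonneg (c 0), sq_nonneg (c 1), sq_nonneg (c 2)]
    have c1 : c 1 = 0 := by nlinarith [sq_nonneg (c 0), sq_nonneg (c 1), sq_nonneg (c 2)]
    have c2 : c 2 = 0 := by nlinarith [sq_nonneg (c 0), sq_nonneg (c 1), sq_nonneg (c 2)]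
    have h6 := heq (by linarith)
    have h7 : ∑ k, c k • v k = c 3 • m := by
      simp only [Fin.sum_univ_four, c0, c1, c2, hv, Matrix.cons_val_zero, Matrix.cons_val_one,
        Matrix.cons_val, zero_smul, zero_add]
    rw [h7] at h6
    have c3 : c 3 = 0 := (smul_eq_zero.1 h6).resolve_right hm0
    apply hc
    funext i
    fin_cases i <;> assumption
  rcases lt_or_gt_of_ne hF0 with hneg | hpos
  · obtain ⟨c, hc, h0⟩ := exists_comb mi (fun b c i => by
      fin_cases i <;> simp [mi, ent_add] <;> ring) (fun r b i => by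
      fin_cases i <;> simp [mi, ent_smul] <;> ring) v
    have h1 := W_pm (∑ k, c k • v k)
    simp only [h0] at h1
    have h2 : 0 ≤ ∑ i, pl (∑ k, c k • v k) i ^ 2 := Finset.sum_nonneg fun i _ => sq_nonneg _
    have h1' : 2 * W (∑ k, c k • v k) (∑ k, c k • v k) = ∑ i, pl (∑ k, c k • v k) i ^ 2 := by
      rw [h1]; simp
    refine fin c hc (by nlinarith) fun h3 => ?_
    have h4 : W (∑ k, c k • v k) (∑ k, c k • v k) = 0 := (mul_eq_zero.1 h3).resolve_left hF0
    rw [h4] at h1'
    have h5 : ∑ i, pl (∑ k, c k • v k) i ^ 2 = 0 := by linarith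
    refine eq_zero_of_pm (halt c) (fun i => ?_) h0
    have := (Finset.sum_eq_zero_iff_of_nonneg fun i _ => sq_nonneg _).1 h5 i (Finset.mem_univ i)
    exact pow_eq_zero_iff two_ne_zero |>.1 this
  · obtain ⟨c, hc, h0⟩ := exists_comb pl (fun b c i => by
      fin_cases i <;> simp [pl, ent_add] <;> ring) (fun r b i => by
      fin_cases i <;> simp [pl, ent_smul] <;> ring) v
    have h1 := W_pm (∑ k, c k • v k)
    simp only [h0] at h1
    have h2 : 0 ≤ ∑ i, mi (∑ k, c k • v k) i ^ 2 := Finset.sum_nonneg fun i _ => sq_nonneg _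
    have h1' : 2 * W (∑ k, c k • v k) (∑ k, c k • v k) = - ∑ i, mi (∑ k, c k • v k) i ^ 2 := by
      rw [h1]; simp
    refine fin c hc (by nlinarith) fun h3 => ?_
    have h4 : W (∑ k, c k • v k) (∑ k, c k • v k) = 0 := (mul_eq_zero.1 h3).resolve_left hF0
    rw [h4] at h1'
    have h5 : ∑ i, mi (∑ k, c k • v k) i ^ 2 = 0 := by linarith
    refine eq_zero_of_pm (halt c) h0 (fun i => ?_)
    have := (Finset.sum_eq_zero_iff_of_nonneg fun i _ => sq_nonneg _).1 h5 i (Finset.mem_univ i)
    exact pow_eq_zero_iff two_ne_zero |>.1 this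

end Pt

/-! ### the fundamental lemma for an arbitrary nondegenerate form -/

section Fund

variable {M : Type u} [TopologicalSpace M] [T2Space M] [CompactSpace M]
  [ChartedSpace E4 M] [IsManifold 𝓘(ℝ, E4) ∞ M] [MeasurableSpace M] [BorelSpace M]

/-- **a smooth two-form orthogonal to all exact forms is closed**. -/
theorem fund_vol {F : F2 E4 M} (hV : Vol F) {η : F2 E4 M} (hsm : Smooth2 η)
    (hη : ∀ b : F2 E4 M, IsEx b → I F η b = 0) : Closed2 η := by
  intro p y0 hy0 u v w
  -- a ball on which the chart orientation is constant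
  have hev := (Int.sg_locally_const hV hy0).and ((chartAt E4 p).open_target.mem_nhds hy0)
  obtain ⟨r, hr, hball⟩ := Metric.eventually_nhds_iff_ball.1 hev
  have hσ : Int.sg F p y0 ≠ 0 := by
    unfold Int.sg
    have h := hV.rep_ne hy0
    rcases lt_or_gt_of_ne h with h1 | h1
    · rw [sign_neg h1]; norm_num
    · rw [sign_pos h1]; norm_num
  have hcl : En.Cl (rep p η) y0 := by
    refine Fund.cl_of_weak (U := Metric.ball y0 r) Metric.isOpen_ball
      ((hsm.2 p).mono fun z hz => (hball z hz).2) (fun z _ => ?_) ?_ (Metric.mem_ball_self hr)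
    · intro v
      rw [rep_apply]
      exact hsm.1 _ _
    · intro S hS hSc hSU
      have hsub : tsupport S ⊆ (chartAt E4 p).target := fun z hz => (hball z (hSU hz)).2
      have hEx : IsEx (ext2 p (Ch.d1 S)) := isEx_ext2_d1' hS hSc hsub
      have h0 := hη (ext2 p (Ch.d1 S)) hEx
      have hb2 : Smooth2 (ext2 p (Ch.d1 S)) := IsEx.smooth2 hEx
      have h1 : I F η (ext2 p (Ch.d1 S)) = ∫ y in (chartAt E4 p).target,
          Int.dens F p y • qG F η (ext2 p (Ch.d1 S)) ((chartAt E4 p).symm y) := by
        unfold Int.I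
        refine Int.integral_mu_of_supp hV p
          (continuous_qG hV (Smooth2.cont2 hsm) (Smooth2.cont2 hb2)).aestronglyMeasurable ?_
        intro x hx
        unfold qG q
        rw [Sm4.at2_ext2_of_notMem hx, Fund.W_zero_right, zero_div]
      have h2 : ∫ y in (chartAt E4 p).target,
          Int.dens F p y • qG F η (ext2 p (Ch.d1 S)) ((chartAt E4 p).symm y) =
          ∫ y in (chartAt E4 p).target, Int.sg F p y0 * W (rep p η y) (En.d1 S y) := by
        refine setIntegral_congr_fun (chartAt E4 p).open_target.measurableSet fun y hy => ?_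
        rw [Int.qG_chart hV (fun x => hsm.1 x) (fun x => hb2.1 x) hy,
          smul_eq_mul, Int.dens_mul_q hV hy, Sm4.rep_ext2_self hy]
        show Int.sg F p y * W (rep p η y) (En.d1 S y) = _
        by_cases hyU : y ∈ Metric.ball y0 r
        · rw [(hball y hyU).1]
        · have hy' : y ∉ tsupport S := fun h' => hyU (hSU h')
          have h0 : fderiv ℝ S y = 0 := by
            have : S =ᶠ[𝓝 y] fun _ => 0 := by
              filter_upwards [(isClosed_tsupport S).isOpen_compl.mem_nhds hy'] with z hz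
              exact image_eq_zero_of_notMem_tsupport hz
            rw [this.fderiv_eq]; simp
          have h00 : En.d1 S y = 0 := by
            ext a b
            rw [En.d1_apply, h0]; simp
          rw [h00, Fund.W_zero_right, mul_zero, mul_zero]
      have h3 : ∫ y in (chartAt E4 p).target, Int.sg F p y0 * W (rep p η y) (En.d1 S y) =
          ∫ y, Int.sg F p y0 * W (rep p η y) (En.d1 S y) := by
        refine setIntegral_eq_integral_of_forall_compl_eq_zero fun y hy => ?_
        have hy' : y ∉ tsupport S := fun h' => hy (hsub h')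
        have h0 : fderiv ℝ S y = 0 := by
          have : S =ᶠ[𝓝 y] fun _ => 0 := by
            filter_upwards [(isClosed_tsupport S).isOpen_compl.mem_nhds hy'] with z hz
            exact image_eq_zero_of_notMem_tsupport hz
          rw [this.fderiv_eq]; simp
        have h00 : En.d1 S y = 0 := by
          ext a b
          rw [En.d1_apply, h0]; simp
        rw [h00, Fund.W_zero_right, mul_zero]
      rw [h2, h3, integral_const_mul] at h1
      rw [h0] at h1
      exact (mul_eq_zero.1 h1.symm).resolve_left hσ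
  refine Fund.dd_of_Cl (hsm.diff hy0) (fun z v => ?_) hcl u v w
  rw [rep_apply]
  exact hsm.1 _ _

end Fund

end

end Crest.Agent.R235.Hodge_194
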