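import Crest.Agent.R235.HodgeDic_194
import Crest.Agent.R249.WkD_352
import Crest.Agent.R249.TofM_352

/-!
Row 235 (S0364), package IND, leaf IND-7 HODGE (helper194), part 4: the Hodge system of a closed
Riemannian 4-manifold.

* `JL`, `GLL`  : the scalar products of functions and one-forms;
* `δL`        : the divergence of a one-form;
* `Hs s F h`  : `HSys`;
* `poissonL`, `finrank_kerDL` : Poisson, constants;
* `basis_H1`  : a basis of the harmonic one-forms is a basis of `H¹`.
-/

set_option autoImplicit false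
set_option maxSynthPendingDepth 3
set_option linter.unusedSectionVars false

open Set Function Filter MeasureTheory Bundle
open scoped Manifold ContDiff Topology ENNReal
open Crest.GeometryTopology.CoordMetric Crest.GeometryTopology.ChartCurvature
  Crest.GeometryTopology.PointedLimit
open Crest.Agent.R202.Tens Crest.Agent.R247.Bo84 Crest.Agent.R249.Vf281
open Crest.Agent.R249.Tz2_805 Crest.Agent.R249.Tz805 Crest.Agent.R249.Idx789

namespace Crest.Agent.R235.Hodge_194

open Crest.Agent.R240 Crest.Agent.R240.Ch Crest.Agent.R240.Int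
open Crest.Agent.R235.HodgeAbs_194
open Crest.Agent.R249.Tv57 (ip_comm SmV memLp_smooth integrable_ip eq_zero_of_ip)

noncomputable section

section Hs

variable {M : Type} [MetricSpace M] [ChartedSpace (EuclideanSpace ℝ (Fin 4)) M]
  [IsManifold (𝓡 4) ∞ M]
  [RiemannianBundle (fun p : M => TangentSpace (𝓡 4) p)]
  [IsContMDiffRiemannianBundle (𝓡 4) ∞ (EuclideanSpace ℝ (Fin 4)) (fun p : M => TangentSpace (𝓡 4) p)]
  [IsRiemannianManifold (𝓡 4) M] [MeasurableSpace M] [BorelSpace M]
  [SecondCountableTopology M] [Nonempty M] [CompactSpace M]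

local notation "𝔼" => EuclideanSpace ℝ (Fin 4)
local notation "𝓘E" => 𝓘(ℝ, EuclideanSpace ℝ (Fin 4))
local notation "μ4" => (μHE[4] : Measure M)
local notation "ip" => Crest.Agent.R249.Tv57.ip

theorem fin4 : IsFiniteMeasureOnCompacts μ4 := by
  have := Crest.Agent.R247.HR216.properSpace_of_riemannian 4 M
  have := Crest.Agent.R247.Mcp688.isLocallyFinite_muHE 4 M
  infer_instance

theorem smf (f : CFn M) : ContMDiff 𝓘E 𝓘(ℝ, ℝ) ∞ f.1 := (smoothF_iff' _).1 f.2

theorem int_ff (f g : CFn M) : Integrable (fun z => f.1 z * g.1 z) μ4 := by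
  have := fin4 (M := M)
  exact (memLp_smooth (smf f)).integrable_mul (memLp_smooth (smf g))

/-- scalar product of functions -/
def JL : CFn M →ₗ[ℝ] CFn M →ₗ[ℝ] ℝ :=
  LinearMap.mk₂ ℝ (fun f g => ∫ z, f.1 z * g.1 z ∂μ4)
    (fun a b c => by
      rw [← integral_add (int_ff a c) (int_ff b c)]
      exact integral_congr_ae (Eventually.of_forall fun z => add_mul (a.1 z) (b.1 z) (c.1 z)))
    (fun r a b => by
      rw [smul_eq_mul, ← integral_const_mul]
      exact integral_congr_ae (Eventually.of_forall fun z => mul_assoc r (a.1 z) (b.1 z)))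
    (fun a b c => by
      rw [← integral_add (int_ff a b) (int_ff a c)]
      exact integral_congr_ae (Eventually.of_forall fun z => mul_add (a.1 z) (b.1 z) (c.1 z)))
    (fun r a b => by
      rw [smul_eq_mul, ← integral_const_mul]
      exact integral_congr_ae (Eventually.of_forall fun z => mul_left_comm (a.1 z) r (b.1 z)))

theorem JL_apply (f g : CFn M) : JL f g = ∫ z, f.1 z * g.1 z ∂μ4 := rfl

variable {κ : Type} [Fintype κ] (s : PF 4 M κ)

theorem cof_add (α β : F1 E4 M) (A : κ) (z : M) : cof s (α + β) A z = cof s α A z + cof s β A z :=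
  rfl

theorem cof_smul (r : ℝ) (α : F1 E4 M) (A : κ) (z : M) : cof s (r • α) A z = r * cof s α A z :=
  rfl

theorem int_cof (α β : X1 M) :
    Integrable (fun z => ∑ A, cof s α.1 A z * cof s β.1 A z) μ4 := by
  have := fin4 (M := M)
  exact integrable_ip (smU_cof s α.2) (smU_cof s β.2)

/-- scalar product of one-forms -/
def GLL : X1 M →ₗ[ℝ] X1 M →ₗ[ℝ] ℝ :=
  LinearMap.mk₂ ℝ (fun α β => ip 4 (cof s α.1) (cof s β.1))
    (fun a b c => by
      unfold Crest.Agent.R249.Tv57.ip
      rw [← integral_add (int_cof s a c) (int_cof s b c)]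
      refine integral_congr_ae (Eventually.of_forall fun z => ?_)
      show ∑ A, cof s (a.1 + b.1) A z * cof s c.1 A z = _
      beta_reduce
      rw [← Finset.sum_add_distrib]
      exact Finset.sum_congr rfl fun A _ => by rw [cof_add, add_mul])
    (fun r a b => by
      unfold Crest.Agent.R249.Tv57.ip
      rw [smul_eq_mul, ← integral_const_mul]
      refine integral_congr_ae (Eventually.of_forall fun z => ?_)
      show ∑ A, cof s (r • a.1) A z * cof s b.1 A z = _
      beta_reduce
      rw [Finset.mul_sum]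
      exact Finset.sum_congr rfl fun A _ => by rw [cof_smul, mul_assoc])
    (fun a b c => by
      unfold Crest.Agent.R249.Tv57.ip
      rw [← integral_add (int_cof s a b) (int_cof s a c)]
      refine integral_congr_ae (Eventually.of_forall fun z => ?_)
      show ∑ A, cof s a.1 A z * cof s (b.1 + c.1) A z = _
      beta_reduce
      rw [← Finset.sum_add_distrib]
      exact Finset.sum_congr rfl fun A _ => by rw [cof_add, mul_add])
    (fun r a b => by
      unfold Crest.Agent.R249.Tv57.ip
      rw [smul_eq_mul, ← integral_const_mul]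
      refine integral_congr_ae (Eventually.of_forall fun z => ?_)
      show ∑ A, cof s a.1 A z * cof s (r • b.1) A z = _
      beta_reduce
      rw [Finset.mul_sum]
      exact Finset.sum_congr rfl fun A _ => by rw [cof_smul]; ring)

theorem GLL_apply (α β : X1 M) : GLL s α β = ip 4 (cof s α.1) (cof s β.1) := rfl

theorem shp_add (α β : F1 E4 M) (z : M) : shp s (α + β) z = shp s α z + shp s β z := by
  refine ext_inner_right ℝ fun v => ?_
  rw [inner_add_left, inner_shp, inner_shp, inner_shp]
  rfl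

theorem shp_smul (r : ℝ) (α : F1 E4 M) (z : M) : shp s (r • α) z = r • shp s α z := by
  refine ext_inner_right ℝ fun v => ?_
  rw [real_inner_smul_left, inner_shp, inner_shp]
  rfl

/-- the divergence of a one-form -/
def δL : X1 M →ₗ[ℝ] CFn M where
  toFun α := ⟨mDiv 4 (shp s α.1), (smoothF_iff' _).2
    (Crest.Agent.R249.Sg129.contMDiff_mDiv fun q => vsm_shp s α.2 q)⟩
  map_add' α β := by
    apply Subtype.ext
    funext z
    show mDiv 4 (shp s (α.1 + β.1)) z = mDiv 4 (shp s α.1) z + mDiv 4 (shp s β.1) z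
    rw [← mDiv_add ((vsm_shp s α.2 z).of_le (by simp)) ((vsm_shp s β.2 z).of_le (by simp))]
    congr 1
    funext q
    exact shp_add s α.1 β.1 q
  map_smul' r α := by
    apply Subtype.ext
    funext z
    show mDiv 4 (shp s (r • α.1)) z = r * mDiv 4 (shp s α.1) z
    have h1 : shp s (r • α.1) = fun q => (fun _ : M => r) q • shp s α.1 q := by
      funext q
      exact shp_smul s r α.1 q
    have h2 : mgrad 4 (fun _ : M => r) z = 0 := by
      rw [mgrad_const]
    rw [h1, mDiv_smul mdifferentiableAt_const ((vsm_shp s α.2 z).of_le (by simp))]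
    have h3 : dM 4 (fun _ : M => r) z (shp s α.1 z) = 0 := by
      refine (inner_mgrad (n := 4) (fun _ : M => r) z (shp s α.1 z)).symm.trans ?_
      rw [h2, inner_zero_left]
    rw [h3, add_zero]

theorem δL_apply (α : X1 M) (z : M) : (δL s α).1 z = mDiv 4 (shp s α.1) z := rfl

theorem shp_DL (f : CFn M) : shp s (DL f).1 = mgrad 4 f.1 := by
  rw [DL_coe, dF_eq_flat, shp_flat]

theorem adjL (f : CFn M) (α : X1 M) : JL f (δL s α) = - GLL s (DL f) α := by
  have e := Crest.Agent.R249.Wk352.integral_eq_of_mDiv (n := 4)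
    (f := fun z => f.1 z * mDiv 4 (shp s α.1) z) (g := fun z => - ∑ A, cof s (DL f).1 A z * cof s α.1 A z)
    (X := fun z => f.1 z • shp s α.1 z)
    (fun z => (vsm_shp s α.2 z).smul le_rfl ((smf f) z)) (fun z => by
      rw [mDiv_smul ((smf f z).mdifferentiableAt (by simp)) ((vsm_shp s α.2 z).of_le (by simp)),
        sum_cof, shp_DL]
      have h3 : dM 4 f.1 z (shp s α.1 z) = (inner ℝ (mgrad 4 f.1 z) (shp s α.1 z) : ℝ) :=
        (inner_mgrad (n := 4) f.1 z (shp s α.1 z)).symm
      rw [h3]
      ring)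
  rw [JL_apply, GLL_apply]
  unfold Crest.Agent.R249.Tv57.ip
  rw [← integral_neg]
  exact e

/-- **the Hodge system** -/
def Hs {F : F2 E4 M} (hF : Vol F) : HSys (CFn M) (X1 M) (X2 M) where
  J := JL
  G := GLL s
  I := IL F hF
  D := DL
  δ := δL s
  d := dL
  Jdef f h := by
    have := fin4 (M := M)
    apply Subtype.ext
    funext z
    refine eq_zero_of_ip (n := 4) (u := fun _ : Unit => f.1) (fun _ => smf f) ?_ () z
    unfold Crest.Agent.R249.Tv57.ip
    rw [← h, JL_apply]
    simp
  Gdef α h := by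
    have := fin4 (M := M)
    apply Subtype.ext
    have h1 : cof s α.1 = 0 := by
      funext A z
      exact eq_zero_of_ip (n := 4) (smU_cof s α.2) h A z
    have h2 : shp s α.1 = shp s (0 : F1 E4 M) := by
      funext z
      rw [shp, h1, shp]
      rfl
    rw [← flat_shp s α.1, h2, flat_shp]
    rfl
  symm := IL_symm hF
  adj := adjL s
  dD := dL_DL
  stokes α β := IL_stokes hF α (dL_closed β)

/-- Poisson -/
theorem poissonL [ConnectedSpace M] (α : X1 M) : ∃ f : CFn M, δL s (DL f) = δL s α := by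
  have hX : ∀ q, VSm 4 ∞ (shp s α.1) q := fun q => vsm_shp s α.2 q
  obtain ⟨-, h0⟩ := integral_mDiv_eq_zero (n := 4) (X := shp s α.1) isOpen_univ
    (fun z _ => (hX z).of_le (by simp)) isCompact_univ (subset_univ _)
    (fun z hz => absurd (mem_univ z) hz)
  obtain ⟨u, hu, he, -⟩ := Crest.Agent.R249.Grn324.exists_poisson (n := 4)
    (Crest.Agent.R249.Sg129.contMDiff_mDiv hX) h0
  refine ⟨⟨u, (smoothF_iff' _).2 hu⟩, Subtype.ext (funext fun z => ?_)⟩
  rw [δL_apply, δL_apply, shp_DL, ← he z, mDiv_mgrad]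

/-- the functions with `df = 0` are the constants. -/
theorem const_of_DL [ConnectedSpace M] {f : CFn M} (hf : DL f = 0) (p q : M) : f.1 p = f.1 q := by
  have h1 : ∀ z, mgrad 4 f.1 z = 0 := by
    intro z
    have h2 : dF (E := E4) f.1 = 0 := congrArg Subtype.val hf
    rw [dF_eq_flat] at h2
    have h3 := inner_self_eq_zero (𝕜 := ℝ) (x := mgrad 4 f.1 z)
    refine h3.1 ?_
    exact congrArg (fun g : F1 E4 M => at1 g z (mgrad 4 f.1 z)) h2
  refine Crest.Agent.R249.Grn324.const_of_mGam_zero (n := 4) ((smf f).of_le (by simp))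
    (fun z => ?_) p q
  rw [mGam_eq_mfderiv, h1 z]
  exact map_zero _

theorem finrank_kerDL [ConnectedSpace M] :
    Module.finrank ℝ (LinearMap.ker (DL : CFn M →ₗ[ℝ] X1 M)) = 1 := by
  have h1 : SmoothF E4 (fun _ : M => (1 : ℝ)) := fun _ => contDiffOn_const
  have hk : DL (⟨fun _ => 1, h1⟩ : CFn M) = 0 := by
    apply Subtype.ext
    funext x
    show fderiv ℝ (fun _ : E4 => (1 : ℝ)) (chartAt E4 x x) = 0
    exact fderiv_fun_const _ |> fun h => congrFun h _
  refine finrank_eq_one (⟨⟨fun _ => 1, h1⟩, hk⟩ : LinearMap.ker (DL : CFn M →ₗ[ℝ] X1 M)) ?_ ?_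
  · intro h
    obtain ⟨p⟩ := ‹Nonempty M›
    have h2 := congrArg (fun g : LinearMap.ker (DL : CFn M →ₗ[ℝ] X1 M) => g.1.1 p) h
    exact one_ne_zero h2
  · intro w
    obtain ⟨p⟩ := ‹Nonempty M›
    refine ⟨w.1.1 p, Subtype.ext (Subtype.ext (funext fun q => ?_))⟩
    show w.1.1 p * 1 = w.1.1 q
    rw [mul_one]
    exact const_of_DL w.2 p q

end Hs

section abs

variable {CF X1 X2 : Type*} [AddCommGroup CF] [Module ℝ CF] [AddCommGroup X1] [Module ℝ X1]
    [AddCommGroup X2] [Module ℝ X2] {H : HSys CF X1 X2}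

/-- a basis of the harmonic forms is a basis of the first cohomology. -/
theorem basis_H1 (poisson : ∀ α, ∃ f, H.δ (H.D f) = H.δ α) {b : ℕ}
    (B : Module.Basis (Fin b) ℝ H.Harm) :
    (∀ α, H.d α = 0 → ∃ (c : Fin b → ℝ) (f : CF), α = ∑ i, c i • (B i : X1) + H.D f) ∧
      ∀ (c : Fin b → ℝ) (f : CF), ∑ i, c i • (B i : X1) = H.D f → c = 0 := by
  constructor
  · intro α hα
    obtain ⟨f, hf⟩ := poisson α
    have hm : α - H.D f ∈ H.Harm := by
      refine ⟨?_, ?_⟩
      · show H.δ _ = 0
        rw [map_sub, hf, sub_self]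
      · show H.d _ = 0
        rw [map_sub, H.dD, sub_zero, hα]
    refine ⟨B.repr ⟨_, hm⟩, f, ?_⟩
    have h1 := congrArg (Subtype.val) (B.sum_repr ⟨_, hm⟩)
    have h2 : ∑ i, B.repr ⟨_, hm⟩ i • (B i : X1) = α - H.D f := by
      rw [Submodule.coe_sum] at h1
      exact h1
    rw [h2]; abel
  · intro c f h
    have h1 : H.δ (H.D f) = 0 := by
      rw [← h]
      exact (∑ i, c i • B i : H.Harm).2.1 |> fun h => by simpa using h
    have h2 := H.adj f (H.D f)
    rw [h1, map_zero] at h2
    have h3 := H.Gdef _ (neg_eq_zero.1 h2.symm)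
    rw [h3] at h
    have h4 : ∑ i, c i • B i = 0 := by
      apply Subtype.ext
      simpa using h
    funext i
    exact Fintype.linearIndependent_iff.1 B.linearIndependent c h4 i

end abs

end

end Crest.Agent.R235.Hodge_194
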