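import Crest.Agent.R235.HodgeR_194

/-!
Row 235 (S0364), package IND, leaf IND-7 HODGE (helper194), part 8: `Inp` of the pair `pairR`.

* `PhiR`  : sections of `ℝ ⊕ Λ⁻` = functions and anti-self-dual forms;
* `inpR`  : `Inp (pairR s hv) s h.fr.vol (SDm (e 0) e)`, `c = c' = -2`.
-/

set_option autoImplicit false
set_option maxSynthPendingDepth 3
set_option linter.unusedSectionVars false

open Set Function Filter MeasureTheory Bundle
open scoped Manifold ContDiff Topology ENNReal
open Crest.GeometryTopology.CoordMetric Crest.GeometryTopology.ChartCurvature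
  Crest.GeometryTopology.PointedLimit
open Crest.Agent.R202.Tens Crest.Agent.R247.Bo84 Crest.Agent.R249.Vf281
open Crest.Agent.R249.Tz2_805 Crest.Agent.R249.Tz805 Crest.Agent.R249.Idx789

namespace Crest.Agent.R235.Hodge_194

open Crest.Agent.R240 Crest.Agent.R240.Ch Crest.Agent.R240.Int
open Crest.Agent.R235.HodgeAbs_194
open Crest.Agent.R249.Tv57 (SmV memLp_smooth integrable_ip eq_zero_of_ip)

noncomputable section

variable {M : Type} [MetricSpace M] [ChartedSpace (EuclideanSpace ℝ (Fin 4)) M]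
  [IsManifold (𝓡 4) ∞ M]
  [RiemannianBundle (fun p : M => TangentSpace (𝓡 4) p)]
  [IsContMDiffRiemannianBundle (𝓡 4) ∞ (EuclideanSpace ℝ (Fin 4)) (fun p : M => TangentSpace (𝓡 4) p)]
  [IsRiemannianManifold (𝓡 4) M] [MeasurableSpace M] [BorelSpace M]
  [SecondCountableTopology M] [Nonempty M] [CompactSpace M]

local notation "𝔼" => EuclideanSpace ℝ (Fin 4)
local notation "𝓘E" => 𝓘(ℝ, EuclideanSpace ℝ (Fin 4))
local notation "μ4" => (μHE[4] : Measure M)
local notation "ip" => Crest.Agent.R249.Tv57.ip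

variable {κ : Type} [Fintype κ] (s : PF 4 M κ)
  {vol : (z : M) → (Fin 4 → TangentSpace 𝓘(ℝ, EuclideanSpace ℝ (Fin 4)) z) → ℝ}
  (hv : IsVol vol) {e : Fin 3 → F2 E4 M} (hR : HR vol e)

/-- the components of a section -/
def cmp (u : SS (pairR s hv).D0) (y : κ × κ) : CFn M := ⟨u.1 (some y), (smoothF_iff' _).2 (u.2.1 _)⟩

theorem cmp_sec (u : SS (pairR s hv).D0) (z : M) (x : κ × κ) :
    ∑ y, lamP s vol x y z * (cmp s hv u y).1 z = (cmp s hv u x).1 z := by
  have h := u.2.2 (some x) z
  rw [Fintype.sum_option] at h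
  have h1 : (pairR s hv).D0.p (some x) none z = 0 := rfl
  rw [h1, zero_mul, zero_add] at h
  exact h

/-- the section of a function and a form -/
def secR (f : CFn M) (η : F2 E4 M) (o : Option (κ × κ)) (z : M) : ℝ :=
  match o with
  | none => f.1 z
  | some y => at2 η z (s.s y.1 z) (s.s y.2 z)

theorem hpR (a b : κ) (z : M) : (pairR s hv).D1.p a b z = tanP s a b z := rfl

theorem hWR (a b : κ) (z : M) : (pairR s hv).D1.W a b z = tanW s a b z := rfl

include hR

theorem q_asd {η : X2 M} (hη : η ∈ SDm (e 0) e) (z : M) (i : Fin 3) :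
    q (at2 (e 0) z) (at2 η.1 z) (at2 (e i) z) = 0 := hη i z

theorem secR_mem (f : CFn M) {η : X2 M} (hη : η ∈ SDm (e 0) e) :
    secR s f η.1 ∈ SS (pairR s hv).D0 := by
  refine ⟨fun o => ?_, fun o z => ?_⟩
  · cases o with
    | none => exact smf f
    | some y => exact (smoothF_iff' _).1 (smooth_at2 η.2 (s.sm y.1) (s.sm y.2))
  · rw [Fintype.sum_option]
    cases o with
    | none =>
      have h1 : (pairR s hv).D0.p none none z = 1 := rfl
      have h2 : ∀ y, (pairR s hv).D0.p none (some y) z = 0 := fun y => rfl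
      simp only [h1, h2, one_mul, zero_mul, Finset.sum_const_zero, add_zero]
    | some x =>
      have h1 : (pairR s hv).D0.p (some x) none z = 0 := rfl
      rw [h1, zero_mul, zero_add]
      obtain ⟨E, hE⟩ := hR.ad z
      have h2 := lamP_form s hR z (η.2.1 z) (c := -2)
        (vol_asd hE s (fun i => hR.fr.alt i z) (hR.fr.ne z) (η.2.1 z) fun i => q_asd hR hη z i)
        x.1 x.2
      refine h2.trans ?_
      show 1 / 4 * (2 - -2) * _ = at2 η.1 z (s.s x.1 z) (s.s x.2 z)
      ring

/-- **sections of `ℝ ⊕ Λ⁻`** -/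
def PhiR : SS (pairR s hv).D0 ≃ₗ[ℝ] CFn M × SDm (e 0) e where
  toFun u := (⟨u.1 none, (smoothF_iff' _).2 (u.2.1 _)⟩,
    ⟨frmS s (cmp s hv u), fun i z => (frmS_sec s hR hv z (cmp_sec s hv u z)).2 i⟩)
  map_add' u v := by
    refine Prod.ext rfl (Subtype.ext (Subtype.ext (funext fun z => ?_)))
    apply ContinuousLinearMap.ext
    intro x
    apply ContinuousLinearMap.ext
    intro y
    refine (frmS_apply s (cmp s hv (u + v)) z x y).trans ?_
    refine Eq.trans ?_ (congrArg₂ (· + ·) (frmS_apply s (cmp s hv u) z x y)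
      (frmS_apply s (cmp s hv v) z x y)).symm
    rw [← mul_add, ← Finset.sum_add_distrib]
    congr 1
    refine Finset.sum_congr rfl fun y _ => ?_
    exact add_mul ((cmp s hv u y).1 z) ((cmp s hv v y).1 z) _
  map_smul' r u := by
    refine Prod.ext rfl (Subtype.ext (Subtype.ext (funext fun z => ?_)))
    apply ContinuousLinearMap.ext
    intro x
    apply ContinuousLinearMap.ext
    intro y
    refine (frmS_apply s (cmp s hv (r • u)) z x y).trans ?_
    refine Eq.trans ?_ (congrArg (fun t => r * t) (frmS_apply s (cmp s hv u) z x y)).symm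
    beta_reduce
    rw [mul_left_comm r, Finset.mul_sum _ _ r]
    congr 1
    refine Finset.sum_congr rfl fun y _ => ?_
    exact mul_assoc r ((cmp s hv u y).1 z) _
  invFun p := ⟨secR s p.1 p.2.1.1, secR_mem s hv hR p.1 p.2.2⟩
  left_inv u := by
    apply Subtype.ext
    funext o z
    cases o with
    | none => rfl
    | some y => exact (frmS_sec s hR hv z (cmp_sec s hv u z)).1 y.1 y.2
  right_inv p := by
    refine Prod.ext rfl (Subtype.ext (Subtype.ext (funext fun z => ?_)))
    exact frmS_of s (p.2.1.2.1 z) fun y => rfl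

theorem PhiR_val (u : SS (pairR s hv).D0) (z : M) (A B : κ) :
    at2 (PhiR s hv hR u).2.1.1 z (s.s A z) (s.s B z) = u.1 (some (A, B)) z :=
  (frmS_sec s hR hv z (cmp_sec s hv u z)).1 A B

theorem sum_PhiR (u : SS (pairR s hv).D0) (γ : X2 M) (z : M) :
    ∑ A, ∑ B, u.1 (some (A, B)) z * at2 γ.1 z (s.s A z) (s.s B z) =
      - 4 * qG (e 0) (PhiR s hv hR u).2.1.1 γ.1 z := by
  obtain ⟨E, hE⟩ := hR.ad z
  have h1 := sum_asd hE s (fun i => hR.fr.alt i z) (hR.fr.ne z) ((PhiR s hv hR u).2.1.2.1 z)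
    (γ.2.1 z) fun i => q_asd hR (PhiR s hv hR u).2.2 z i
  refine Eq.trans ?_ h1
  exact Finset.sum_congr rfl fun A _ => Finset.sum_congr rfl fun B _ =>
    congrArg (fun t : ℝ => t * _) (PhiR_val s hv hR u z A B).symm

variable (hI : ∀ a b : F2 E4 M, Int.I (e 0) a b = ∫ x, 2 * qG (e 0) a b x ∂(μHE[4] : Measure M))
include hI

theorem int_PhiR (u : SS (pairR s hv).D0) (γ : X2 M) :
    ∫ z, ∑ A, ∑ B, u.1 (some (A, B)) z * at2 γ.1 z (s.s A z) (s.s B z) ∂μ4 =
      - 2 * IL (e 0) hR.fr.vol (PhiR s hv hR u).2.1 γ := by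
  rw [IL_apply, hI, ← integral_const_mul]
  refine integral_congr_ae (Eventually.of_forall fun z => ?_)
  refine (sum_PhiR s hv hR u γ z).trans ?_
  beta_reduce
  ring

theorem form0R (u v : SS (pairR s hv).D0) : ip 4 u.1 v.1 =
    JL (PhiR s hv hR u).1 (PhiR s hv hR v).1 +
      (-2) * IL (e 0) hR.fr.vol (PhiR s hv hR u).2.1 (PhiR s hv hR v).2.1 := by
  have := fin4 (M := M)
  unfold Crest.Agent.R249.Tv57.ip
  rw [← int_PhiR s hv hR hI, JL_apply, ← integral_add]
  · refine integral_congr_ae (Eventually.of_forall fun z => ?_)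
    beta_reduce
    rw [Fintype.sum_option, Fintype.sum_prod_type]
    congr 1
    exact Finset.sum_congr rfl fun A _ => Finset.sum_congr rfl fun B _ =>
      congrArg (fun t : ℝ => _ * t) (PhiR_val s hv hR v z A B).symm
  · exact int_ff _ _
  · have h1 := integrable_ip (n := 4) (u := fun y : κ × κ => u.1 (some y))
      (v := fun y : κ × κ => v.1 (some y)) (fun y => u.2.1 _) (fun y => v.2.1 _)
    refine h1.congr (Eventually.of_forall fun z => ?_)
    beta_reduce
    rw [Fintype.sum_prod_type]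
    exact Finset.sum_congr rfl fun A _ => Finset.sum_congr rfl fun B _ =>
      congrArg (fun t : ℝ => _ * t) (PhiR_val s hv hR v z A B).symm

omit hI in
/-- the second components of `B w` -/
theorem sum_B (u : SS (pairR s hv).D0) (w : SS (pairR s hv).D1) (z : M) :
    ∑ y, u.1 (some y) z * opB (pairR s hv).D1 (pairR s hv).cc w.1 (some y) z =
      ∑ A, ∑ B, u.1 (some (A, B)) z *
        at2 (dL (PsiL s (pairR s hv).D1 (hpR s hv) w)).1 z (s.s A z) (s.s B z) := by
  set Y := fieldOf s w.1 with hY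
  have hYs : ∀ q, VSm 4 ∞ Y q := fun q => VSm_fieldOf s w.2.1 q
  set m : κ → κ → ℝ := fun A B => inner ℝ (mCov 4 Y z (s.s B z)) (s.s A z) with hm
  have hsec : ∀ a z, ∑ b, tanP s a b z * w.1 b z = w.1 a z := w.2.2
  have h1 : ∀ y, opB (pairR s hv).D1 (pairR s hv).cc w.1 (some y) z =
      - (2 * ∑ A, ∑ B, lamP s vol (A, B) y z * m A B) := fun y =>
    opB_some s vol (D := (pairR s hv).D1) (hWR s hv) w.2.1 hsec y z
  have h2 : ∀ A B, ∑ y, lamP s vol (A, B) y z * u.1 (some y) z = u.1 (some (A, B)) z := fun A B =>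
    cmp_sec s hv u z (A, B)
  have h3 : ∑ y, u.1 (some y) z * opB (pairR s hv).D1 (pairR s hv).cc w.1 (some y) z =
      - 2 * ∑ A, ∑ B, u.1 (some (A, B)) z * m A B := by
    have h8 : ∑ y, u.1 (some y) z * (- (2 * ∑ A, ∑ B, lamP s vol (A, B) y z * m A B)) =
        - 2 * ∑ A, ∑ B, (∑ y, lamP s vol (A, B) y z * u.1 (some y) z) * m A B := by
      simp only [Finset.mul_sum, Finset.sum_mul, mul_neg, neg_mul, Finset.sum_neg_distrib]
      congr 1
      rw [Finset.sum_comm]
      refine Finset.sum_congr rfl fun A _ => ?_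
      rw [Finset.sum_comm]
      refine Finset.sum_congr rfl fun B _ => Finset.sum_congr rfl fun y _ => ?_
      ring
    simp only [h1]
    rw [h8]
    simp only [h2]
  have h4 : ∀ A B, at2 (dL (PsiL s (pairR s hv).D1 (hpR s hv) w)).1 z (s.s A z) (s.s B z) =
      m B A - m A B := by
    intro A B
    exact at2_dG_flat hYs z (s.s A z) (s.s B z)
  have h5 : ∀ A B, u.1 (some (A, B)) z = - u.1 (some (B, A)) z := by
    intro A B
    have e1 := PhiR_val s hv hR u z A B
    have e2 := PhiR_val s hv hR u z B A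
    have e3 := Alt.swap ((PhiR s hv hR u).2.1.2.1 z) (s.s A z) (s.s B z)
    linarith
  have h6 : ∑ A, ∑ B, u.1 (some (A, B)) z * m B A = - ∑ A, ∑ B, u.1 (some (A, B)) z * m A B := by
    rw [Finset.sum_comm, ← Finset.sum_neg_distrib]
    refine Finset.sum_congr rfl fun A _ => ?_
    rw [← Finset.sum_neg_distrib]
    exact Finset.sum_congr rfl fun B _ => by rw [h5 B A, neg_mul]
  rw [h3]
  simp only [h4, mul_sub, Finset.sum_sub_distrib]
  rw [h6]
  ring

theorem formR (u : SS (pairR s hv).D0) (w : SS (pairR s hv).D1) :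
    ip 4 u.1 (opB (pairR s hv).D1 (pairR s hv).cc w.1) =
      - JL (PhiR s hv hR u).1 (δL s (PsiL s (pairR s hv).D1 (hpR s hv) w)) +
        (-2) * IL (e 0) hR.fr.vol (PhiR s hv hR u).2.1
          (dL (PsiL s (pairR s hv).D1 (hpR s hv) w)) := by
  have := fin4 (M := M)
  have hsec : ∀ a z, ∑ b, tanP s a b z * w.1 b z = w.1 a z := w.2.2
  have hB := Crest.Agent.R249.Wk352.sm_opB (D1 := (pairR s hv).D1) (pairR s hv).smc w.2.1
  unfold Crest.Agent.R249.Tv57.ip
  rw [← int_PhiR s hv hR hI, JL_apply, ← integral_neg, ← integral_add]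
  · refine integral_congr_ae (Eventually.of_forall fun z => ?_)
    beta_reduce
    rw [Fintype.sum_option, sum_B s hv hR]
    congr 1
    have h1 := opB_none s vol (D := (pairR s hv).D1) (hWR s hv) w.2.1 hsec z
    have h9 := δL_PsiL s (pairR s hv).D1 (hpR s hv) w z
    rw [h9]
    have h2 : opB (pairR s hv).D1 (pairR s hv).cc w.1 none z = - mDiv 4 (fieldOf s w.1) z := h1
    rw [h2, mul_neg]
    rfl
  · exact (int_ff _ _).neg
  · have h1 := integrable_ip (n := 4) (u := fun y : κ × κ => u.1 (some y))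
      (v := fun y : κ × κ => opB (pairR s hv).D1 (pairR s hv).cc w.1 (some y))
      (fun y => u.2.1 _) (fun y => hB _)
    refine h1.congr (Eventually.of_forall fun z => ?_)
    beta_reduce
    exact sum_B s hv hR u w z

/-- **the input of the pair `pairR`** -/
def inpR : Inp (pairR s hv) s hR.fr.vol (SDm (e 0) e) where
  hp := hpR s hv
  Φ := PhiR s hv hR
  c := -2
  c0 := by norm_num
  c' := -2
  c'0 := by norm_num
  form := formR s hv hR hI
  form0 := form0R s hv hR hI

end

end Crest.Agent.R235.Hodge_194
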