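import Crest.Agent.R235.HodgeAda_194
import Crest.Agent.R235.HodgePr_194
import Crest.Agent.R249.Tz6_805

/-!
Row 235 (S0364), package IND, leaf IND-7 HODGE (helper194), part 7: the pair `pairR` (`ℝ ⊕ Λ⁻ → T`).

* `HR vol e`       : the geometric hypotheses;
* `frmS s a`       : the two-form of a section of `T ⊗ T`;
* `frmS_sec`       : for a section of `Λ⁻`: `frmS a (s_A, s_B) = a_AB`, anti-self-dual;
* `inpR`           : `Inp (pairR s hv) s h.fr.vol (SDm (e 0) e)`.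
-/

set_option autoImplicit false
set_option maxSynthPendingDepth 3
set_option linter.unusedSectionVars false

open Set Function Filter MeasureTheory Bundle
open scoped Manifold ContDiff Topology ENNReal
open Crest.GeometryTopology.CoordMetric Crest.GeometryTopology.ChartCurvature
  Crest.GeometryTopology.PointedLimit
open Crest.Agent.R202.Tens Crest.Agent.R247.Bo84 Crest.Agent.R249.Vf281
open Crest.Agent.R249.Tz2_805 Crest.Agent.R249.Tz805 Crest.Agent.R249.Idx789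

namespace Crest.Agent.R235.Hodge_194

open Crest.Agent.R240 Crest.Agent.R240.Ch Crest.Agent.R240.Int
open Crest.Agent.R235.HodgeAbs_194
open Crest.Agent.R235.IndVol_57 (WF WF_vol)
open Crest.Agent.R249.Tv57 (SmV memLp_smooth integrable_ip eq_zero_of_ip)

noncomputable section

section dic

variable {M : Type} [TopologicalSpace M] [ChartedSpace (EuclideanSpace ℝ (Fin 4)) M]
  [IsManifold 𝓘(ℝ, EuclideanSpace ℝ (Fin 4)) ∞ M]
  [RiemannianBundle (fun x : M => TangentSpace 𝓘(ℝ, EuclideanSpace ℝ (Fin 4)) x)]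
  [IsContMDiffRiemannianBundle 𝓘(ℝ, EuclideanSpace ℝ (Fin 4)) ∞ (EuclideanSpace ℝ (Fin 4))
      (fun x : M => TangentSpace 𝓘(ℝ, EuclideanSpace ℝ (Fin 4)) x)]

local notation "𝔼" => EuclideanSpace ℝ (Fin 4)
local notation "𝓘E" => 𝓘(ℝ, EuclideanSpace ℝ (Fin 4))

/-- the value of a smooth two-form on smooth fields is smooth. -/
theorem smooth_at2 {a : F2 E4 M} (ha : Smooth2 a) {X Y : (p : M) → TangentSpace 𝓘E p}
    (hX : ∀ z, VSm 4 ∞ X z) (hY : ∀ z, VSm 4 ∞ Y z) :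
    SmoothF E4 (fun z => at2 a z (X z) (Y z)) := by
  intro p
  have h1 : ContDiffOn ℝ ∞ (fun y => rep p a y (vCh 4 p X y) (vCh 4 p Y y))
      (chartAt E4 p).target := by
    refine ((ha.2 p).clm_apply fun y hy => ?_).clm_apply fun y hy => ?_
    · exact (VSm.chart (n := 4) le_rfl hy (hX _)).contDiffWithinAt
    · exact (VSm.chart (n := 4) le_rfl hy (hY _)).contDiffWithinAt
  refine h1.congr fun y hy => ?_
  show at2 a ((chartAt E4 p).symm y) (X ((chartAt E4 p).symm y)) (Y ((chartAt E4 p).symm y)) = _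
  rw [rep_apply, ← dSy_tcc p hy, dSy_vCh hy, ← dSy_tcc p hy, dSy_vCh hy]

variable {κ : Type} [Fintype κ] (s : PF 4 M κ)

/-- `∑ ⟨s_A, v⟩ φ(s_A) = φ(v)` -/
theorem pexp1 (z : M) (φ : E4 →L[ℝ] ℝ) (v : TangentSpace 𝓘E z) :
    ∑ A, (inner ℝ (s.s A z) v : ℝ) * φ (s.s A z) = φ v := by
  have h0 := congrArg (fun y : TangentSpace 𝓘E z => φ y) (s.pars z v)
  refine Eq.trans ?_ h0
  have h2 := map_sum φ (fun A => ((inner ℝ (s.s A z) v : ℝ) • s.s A z : E4)) Finset.univ
  refine Eq.trans ?_ h2.symm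
  exact Finset.sum_congr rfl fun A _ => (map_smul φ (inner ℝ (s.s A z) v : ℝ) (s.s A z : E4)).symm

theorem pexp2 (z : M) (β : Bil) (u v : TangentSpace 𝓘E z) :
    ∑ C, ∑ D, (inner ℝ (s.s C z) u : ℝ) * inner ℝ (s.s D z) v * β (s.s C z) (s.s D z) =
      β u v := by
  have h1 : ∀ C, ∑ D, (inner ℝ (s.s C z) u : ℝ) * inner ℝ (s.s D z) v * β (s.s C z) (s.s D z) =
      (inner ℝ (s.s C z) u : ℝ) * β.flip v (s.s C z) := by
    intro C
    have h2 : β.flip v (s.s C z) = ∑ D, (inner ℝ (s.s D z) v : ℝ) * β (s.s C z) (s.s D z) :=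
      (pexp1 s z (β (s.s C z)) v).symm
    rw [h2, Finset.mul_sum]
    exact Finset.sum_congr rfl fun D _ => by ring
  simp only [h1]
  exact pexp1 s z (β.flip v) u

/-- the two-form of a section of `T ⊗ T`. -/
def frmS (a : κ × κ → CFn M) : X2 M :=
  (1 / 2 : ℝ) • ∑ y, (⟨fmul (a y).1 (wedG (flat (s.s y.1)) (flat (s.s y.2))),
    Smooth2.fmul (a y).2 (Smooth2.wed (smooth1_flat (s.sm y.1)) (smooth1_flat (s.sm y.2)))⟩ : X2 M)

theorem frmS_apply (a : κ × κ → CFn M) (z : M) (u v : TangentSpace 𝓘E z) :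
    at2 (frmS s a).1 z u v = (1 / 2) * ∑ y, (a y).1 z *
      ((inner ℝ (s.s y.1 z) u : ℝ) * inner ℝ (s.s y.2 z) v -
        inner ℝ (s.s y.2 z) u * inner ℝ (s.s y.1 z) v) := by
  have h1 : (frmS s a).1 = (1 / 2 : ℝ) •
      ∑ y, fmul (a y).1 (wedG (flat (s.s y.1)) (flat (s.s y.2))) := by
    unfold frmS
    rw [Submodule.coe_smul, Submodule.coe_sum]
  have h2 : at2 (∑ y, fmul (a y).1 (wedG (flat (s.s y.1)) (flat (s.s y.2)))) z =
      ∑ y, at2 (fmul (a y).1 (wedG (flat (s.s y.1)) (flat (s.s y.2)))) z := by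
    show (∑ y, fmul (a y).1 (wedG (flat (s.s y.1)) (flat (s.s y.2)))) z = _
    rw [Finset.sum_apply]
    rfl
  rw [h1]
  show (1 / 2 : ℝ) * at2 (∑ y, fmul (a y).1 (wedG (flat (s.s y.1)) (flat (s.s y.2)))) z u v = _
  rw [h2]
  congr 1
  have h3 := map_sum (ContinuousLinearMap.apply ℝ (E4 →L[ℝ] ℝ) (u : E4))
    (fun y : κ × κ => at2 (fmul (a y).1 (wedG (flat (s.s y.1)) (flat (s.s y.2)))) z) Finset.univ
  have h4 := map_sum (ContinuousLinearMap.apply ℝ ℝ (v : E4))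
    (fun y : κ × κ => at2 (fmul (a y).1 (wedG (flat (s.s y.1)) (flat (s.s y.2)))) z u) Finset.univ
  refine (congrArg (ContinuousLinearMap.apply ℝ ℝ (v : E4)) h3).trans (h4.trans ?_)
  exact Finset.sum_congr rfl fun y _ => rfl

theorem frmS_alt (a : κ × κ → CFn M) (z : M) : Alt (at2 (frmS s a).1 z) := (frmS s a).2.1 z

/-- the form with components `β(s_C, s_D)` is `β`. -/
theorem frmS_of {a : κ × κ → CFn M} {z : M} {β : Bil} (hβ : Alt β)
    (ha : ∀ y, (a y).1 z = β (s.s y.1 z) (s.s y.2 z)) : at2 (frmS s a).1 z = β := by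
  apply ContinuousLinearMap.ext
  intro u
  apply ContinuousLinearMap.ext
  intro v
  refine (frmS_apply s a z u v).trans ?_
  have e1 := pexp2 s z β u v
  have e2 := pexp2 s z β v u
  rw [Alt.swap hβ v u] at e2
  have e3 : ∑ y, (a y).1 z * ((inner ℝ (s.s y.1 z) (u : TangentSpace 𝓘E z) : ℝ) *
      inner ℝ (s.s y.2 z) (v : TangentSpace 𝓘E z) -
        inner ℝ (s.s y.2 z) (u : TangentSpace 𝓘E z) * inner ℝ (s.s y.1 z) (v : TangentSpace 𝓘E z)) =
      (∑ C, ∑ D, (inner ℝ (s.s C z) (u : TangentSpace 𝓘E z) : ℝ) *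
        inner ℝ (s.s D z) (v : TangentSpace 𝓘E z) * β (s.s C z) (s.s D z)) -
      ∑ C, ∑ D, (inner ℝ (s.s C z) (v : TangentSpace 𝓘E z) : ℝ) *
        inner ℝ (s.s D z) (u : TangentSpace 𝓘E z) * β (s.s C z) (s.s D z) := by
    rw [Fintype.sum_prod_type, ← Finset.sum_sub_distrib]
    refine Finset.sum_congr rfl fun C _ => ?_
    rw [← Finset.sum_sub_distrib]
    exact Finset.sum_congr rfl fun D _ => by
      rw [ha]
      ring
  refine (congrArg (fun r : ℝ => 1 / 2 * r) (e3.trans (congrArg₂ (· - ·) e1 e2))).trans ?_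
  show 1 / 2 * (β u v - -β u v) = β u v
  ring

/-- the projection to `Λ⁻` as a bilinear form. -/
def lamBil (F : Bil) (z : M) (y : κ × κ) : Bil :=
  (1 / 4 : ℝ) • ((flatL z (s.s y.1 z)).smulRight (flatL z (s.s y.2 z)) -
    (flatL z (s.s y.2 z)).smulRight (flatL z (s.s y.1 z)) - volB F (s.s y.1 z) (s.s y.2 z))

theorem lamBil_apply (F : Bil) (z : M) (y : κ × κ) (u v : TangentSpace 𝓘E z) :
    lamBil s F z y u v = (1 / 4) * ((inner ℝ (s.s y.1 z) u : ℝ) * inner ℝ (s.s y.2 z) v -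
      inner ℝ (s.s y.2 z) u * inner ℝ (s.s y.1 z) v - volB F (s.s y.1 z) (s.s y.2 z) u v) := rfl

theorem lamBil_alt {F : Bil} (hF : Alt F) (z : M) (y : κ × κ) : Alt (lamBil s F z y) := by
  intro v
  refine (lamBil_apply s F z y v v).trans ?_
  have h1 : volB F (s.s y.1 z) (s.s y.2 z) v v = 0 := by
    refine (volB_apply F (s.s y.1 z) (s.s y.2 z) v v).trans ?_
    have h2 := hF v
    linear_combination F (s.s y.1 z) (s.s y.2 z) * h2
  linear_combination (-(1 / 4)) * h1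

variable {vol : (z : M) → (Fin 4 → TangentSpace 𝓘(ℝ, EuclideanSpace ℝ (Fin 4)) z) → ℝ}
  {e : Fin 3 → F2 E4 M}

/-- the geometric hypotheses -/
structure HR (vol : (z : M) → (Fin 4 → TangentSpace 𝓘(ℝ, EuclideanSpace ℝ (Fin 4)) z) → ℝ)
    (e : Fin 3 → F2 E4 M) : Prop where
  fr : Fr (e 0) e
  ad : ∀ z, ∃ E, AdF e z E
  vol : ∀ z v, vol z v = WF (at2 (e 0) z) (at2 (e 0) z) v / 2

variable (hR : HR vol e)
include hR

theorem lamP_eq (A B : κ) (y : κ × κ) (z : M) :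
    lamP s vol (A, B) y z = lamBil s (at2 (e 0) z) z y (s.s A z) (s.s B z) := by
  have h1 := volB_comm (hR.fr.alt 0 z) (s.s A z) (s.s B z) (s.s y.1 z) (s.s y.2 z)
  have h2 : vol z ![s.s A z, s.s B z, s.s y.1 z, s.s y.2 z] =
      volB (at2 (e 0) z) (s.s A z) (s.s B z) (s.s y.1 z) (s.s y.2 z) :=
    (hR.vol z _).trans (WF_volB _)
  have t : ∀ A C, tanP s A C z = inner ℝ (s.s C z) (s.s A z) := fun A C => real_inner_comm _ _
  refine Eq.trans ?_ (lamBil_apply s (at2 (e 0) z) z y (s.s A z) (s.s B z)).symm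
  show (1 / 4) * (tanP s A y.1 z * tanP s B y.2 z - tanP s A y.2 z * tanP s B y.1 z -
    vol z ![s.s A z, s.s B z, s.s y.1 z, s.s y.2 z]) = _
  rw [t, t, t, t]
  linear_combination (-(1 / 4)) * h2 - (1 / 4) * h1

/-- the projection of a form with a star eigenvalue -/
theorem lamP_form (z : M) {β : Bil} (hβ : Alt β) {c : ℝ}
    (hc : ∀ u v : TangentSpace 𝓘E z, ∑ C, ∑ D, volB (at2 (e 0) z) u v (s.s C z) (s.s D z) *
      β (s.s C z) (s.s D z) = c * β u v) (A B : κ) :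
    ∑ y, lamP s vol (A, B) y z * β (s.s y.1 z) (s.s y.2 z) =
      (1 / 4) * (2 - c) * β (s.s A z) (s.s B z) := by
  have e1 := pexp2 s z β (s.s A z) (s.s B z)
  have e2 := pexp2 s z β (s.s B z) (s.s A z)
  rw [Alt.swap hβ (s.s B z) (s.s A z)] at e2
  have e3 := hc (s.s A z) (s.s B z)
  have e4 : ∀ C D, lamP s vol (A, B) (C, D) z * β (s.s C z) (s.s D z) =
      (1 / 4) * ((inner ℝ (s.s C z) (s.s A z) : ℝ) * inner ℝ (s.s D z) (s.s B z) *
        β (s.s C z) (s.s D z)) + (1 / 4) * ((inner ℝ (s.s C z) (s.s B z) : ℝ) *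
          inner ℝ (s.s D z) (s.s A z) * - β (s.s C z) (s.s D z)) - (1 / 4) *
        (volB (at2 (e 0) z) (s.s A z) (s.s B z) (s.s C z) (s.s D z) *
      β (s.s C z) (s.s D z)) := by
    intro C D
    have h1 := volB_comm (hR.fr.alt 0 z) (s.s C z) (s.s D z) (s.s A z) (s.s B z)
    have h2 := (lamP_eq s hR A B (C, D) z).trans
      (lamBil_apply s (at2 (e 0) z) z (C, D) (s.s A z) (s.s B z))
    simp only at h2
    rw [h2]
    linear_combination (-(1 / 4) * β (s.s C z) (s.s D z)) * h1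
  rw [Fintype.sum_prod_type]
  simp only [e4, Finset.sum_sub_distrib, Finset.sum_add_distrib, ← Finset.mul_sum, mul_neg,
    Finset.sum_neg_distrib]
  rw [e1, e2, e3]
  ring

/-- sections of `Λ⁻` and forms -/
theorem frmS_sec (hv : IsVol vol) {a : κ × κ → CFn M} (z : M)
    (ha : ∀ x, ∑ y, lamP s vol x y z * (a y).1 z = (a x).1 z) :
    (∀ A B, at2 (frmS s a).1 z (s.s A z) (s.s B z) = (a (A, B)).1 z) ∧
      ∀ i, qG (e 0) (frmS s a).1 (e i) z = 0 := by
  obtain ⟨E, hE⟩ := hR.ad z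
  let η : Bil := ∑ y, (a y).1 z • lamBil s (at2 (e 0) z) z y
  have hη : ∀ u v : TangentSpace 𝓘E z, η u v =
      ∑ y, (a y).1 z * lamBil s (at2 (e 0) z) z y u v := by
    intro u v
    have h3 := map_sum (ContinuousLinearMap.apply ℝ (E4 →L[ℝ] ℝ) (u : E4))
      (fun y : κ × κ => (a y).1 z • lamBil s (at2 (e 0) z) z y) Finset.univ
    have h4 := map_sum (ContinuousLinearMap.apply ℝ ℝ (v : E4))
      (fun y : κ × κ => ((a y).1 z • lamBil s (at2 (e 0) z) z y) u) Finset.univ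
    exact (congrArg (ContinuousLinearMap.apply ℝ ℝ (v : E4)) h3).trans h4
  have hηa : Alt η := by
    intro v
    refine (hη v v).trans (Finset.sum_eq_zero fun y _ => ?_)
    rw [lamBil_alt s (hR.fr.alt 0 z) z y v, mul_zero]
  have hηs : ∀ A B, η (s.s A z) (s.s B z) = (a (A, B)).1 z := by
    intro A B
    refine (hη _ _).trans ?_
    rw [← ha (A, B)]
    exact Finset.sum_congr rfl fun y _ => by rw [lamP_eq s hR, mul_comm]
  have h1 : at2 (frmS s a).1 z = η := frmS_of s hηa fun y => (hηs y.1 y.2).symm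
  have h2 : ∀ A B, at2 (frmS s a).1 z (s.s A z) (s.s B z) = (a (A, B)).1 z := by
    intro A B
    rw [h1]
    exact hηs A B
  refine ⟨h2, fun i => ?_⟩
  have h3 := sum_sd hE s (fun i => hR.fr.alt i z) (hR.fr.ne z) (frmS_alt s a z) i
  have h4 : ∑ A, ∑ B, at2 (e i) z (s.s A z) (s.s B z) * at2 (frmS s a).1 z (s.s A z) (s.s B z) =
      ∑ y, ∑ x, (at2 (e i) z (s.s x.1 z) (s.s x.2 z) * (lamP s vol x y z * (a y).1 z)) := by
    rw [Finset.sum_comm (s := (Finset.univ : Finset (κ × κ))), ← Fintype.sum_prod_type']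
    refine Finset.sum_congr rfl fun x _ => ?_
    rw [← Finset.mul_sum, ha x, h2]
  have h5 : ∀ y : κ × κ, ∑ x : κ × κ, (at2 (e i) z (s.s x.1 z) (s.s x.2 z) *
      (lamP s vol x y z * (a y).1 z)) = 0 := by
    intro y
    have h6 := lamP_form s hR z (hR.fr.alt i z) (c := 2)
      (vol_sd hE s (fun i => hR.fr.alt i z) (hR.fr.ne z) i) y.1 y.2
    have h7 : ∑ x : κ × κ, (at2 (e i) z (s.s x.1 z) (s.s x.2 z) *
      (lamP s vol x y z * (a y).1 z)) = (a y).1 z *
        ∑ x : κ × κ, lamP s vol (y.1, y.2) x z * at2 (e i) z (s.s x.1 z) (s.s x.2 z) := by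
      rw [Finset.mul_sum]
      refine Finset.sum_congr rfl fun x _ => ?_
      have h8 : lamP s vol x y z = lamP s vol y x z := (lamB s hv).symmp x y z
      rw [h8]
      ring
    rw [h7, h6]
    ring
  rw [h4, Finset.sum_congr rfl fun y _ => h5 y, Finset.sum_const_zero] at h3
  have h9 : q (at2 (e 0) z) (at2 (e i) z) (at2 (frmS s a).1 z) = 0 := by linarith
  show q (at2 (e 0) z) (at2 (frmS s a).1 z) (at2 (e i) z) = 0
  unfold q at h9 ⊢
  rw [W_comm]
  exact h9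

end dic

end

end Crest.Agent.R235.Hodge_194
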