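import Crest.Agent.R235.HodgeForm_194

/-!
Row 235 (S0364), package IND, leaf IND-7 HODGE (helper194), part 2: the spaces and operators.

* `CFn M`       : smooth functions; `IL`, `dL`, `DL` : intersection form, `d` on one-forms, `d` on
                  functions, as linear maps;
* `Fr F e`      : `e` is an orthonormal frame of the self-dual forms (`W(e_i,e_j) = δ_ij W(F,F)`);
* `SDp`, `SDm`  : self-dual, anti-self-dual smooth forms; `Fr.spl` : the splitting.
* `H1`          : first de Rham cohomology.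
-/

set_option autoImplicit false
set_option maxSynthPendingDepth 3

open Set Function Filter MeasureTheory
open scoped Manifold ContDiff Topology ENNReal

universe u

namespace Crest.Agent.R235.Hodge_194

open Crest.Agent.R240 Crest.Agent.R240.Ch Crest.Agent.R240.Int
open Crest.Agent.R235.HodgeAbs_194

noncomputable section

section Basic

variable {M : Type u} [TopologicalSpace M] [ChartedSpace E4 M] [IsManifold 𝓘(ℝ, E4) ∞ M]

variable (M) in
/-- smooth functions. -/
def CFn : Submodule ℝ (M → ℝ) where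
  carrier := {f | SmoothF E4 f}
  zero_mem' := fun _ => contDiffOn_const
  add_mem' hf hg := SmoothF.add hf hg
  smul_mem' r _ hf := fun p => contDiffOn_const.mul (hf p)

instance instX1ACG : AddCommGroup (X1 M) := inferInstance
instance instX1Mod : Module ℝ (X1 M) := inferInstance

/-- `d` on one-forms. -/
def dL : X1 M →ₗ[ℝ] X2 M where
  toFun s := ⟨dG s.1, Smooth2.dG s.2⟩
  map_add' s t := Subtype.ext (dG_add s.2 t.2)
  map_smul' r s := Subtype.ext (dG_smul r s.2)

@[simp] theorem dL_coe (s : X1 M) : ((dL s : X2 M) : F2 E4 M) = dG s.1 := rfl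

theorem dF_add {f g : M → ℝ} (hf : SmoothF E4 f) (hg : SmoothF E4 g) :
    dF (E := E4) (f + g) = dF f + dF g := by
  funext x
  show fderiv ℝ (repF x (f + g)) (chartAt E4 x x) =
    fderiv ℝ (repF x f) (chartAt E4 x x) + fderiv ℝ (repF x g) (chartAt E4 x x)
  exact fderiv_add (SmoothF.diffAt hf (mem_chart_target E4 x))
    (SmoothF.diffAt hg (mem_chart_target E4 x))

theorem dF_smul (r : ℝ) {f : M → ℝ} (hf : SmoothF E4 f) :
    dF (E := E4) (r • f) = r • dF f := by
  funext x
  show fderiv ℝ (repF x (r • f)) (chartAt E4 x x) = r • fderiv ℝ (repF x f) (chartAt E4 x x)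
  exact fderiv_const_smul (SmoothF.diffAt hf (mem_chart_target E4 x)) r

/-- `d` on functions. -/
def DL : CFn M →ₗ[ℝ] X1 M where
  toFun f := ⟨dF f.1, Smooth1.dF f.2⟩
  map_add' f g := Subtype.ext (dF_add f.2 g.2)
  map_smul' r f := Subtype.ext (dF_smul r f.2)

@[simp] theorem DL_coe (f : CFn M) : ((DL f : X1 M) : F1 E4 M) = dF f.1 := rfl

theorem dL_DL (f : CFn M) : dL (DL f) = 0 := Subtype.ext (dG_dF f.2)

theorem dL_closed (s : X1 M) : dL s ∈ Z2 M := Closed2.dG s.2

/-- closed one-forms in the sense of `Closed1` are the kernel of `dL`. -/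
theorem closed1_iff (s : X1 M) : Closed1 (s.1 : F1 E4 M) ↔ dL s = 0 := by
  constructor
  · intro h
    apply Subtype.ext
    funext x
    exact h.2 x _ (mem_chart_target E4 x)
  · intro h
    refine ⟨s.2, fun p y hy => ?_⟩
    have h1 : dG s.1 = 0 := congrArg Subtype.val h
    rw [← rep_dG s.2 hy, h1, rep_zero]

/-! ### the frame of the self-dual forms -/

/-- `e` is an orthonormal frame of the self-dual forms. -/
structure Fr (F : F2 E4 M) (e : Fin 3 → F2 E4 M) : Prop where
  smF : Smooth2 F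
  ne : ∀ x, W (at2 F x) (at2 F x) ≠ 0
  sm : ∀ i, Smooth2 (e i)
  orth : ∀ i j x, W (at2 (e i) x) (at2 (e j) x) = if i = j then W (at2 F x) (at2 F x) else 0

/-- self-dual forms. -/
def SDp (F : F2 E4 M) (e : Fin 3 → F2 E4 M) : Submodule ℝ (X2 M) where
  carrier := {a | ∀ x, at2 a.1 x = ∑ i, qG F a.1 (e i) x • at2 (e i) x}
  zero_mem' := by
    intro x
    have h : ∀ i, qG F (0 : X2 M).1 (e i) x = 0 := fun i => by
      have := qG_smul_left F 0 (0 : F2 E4 M) (e i) x
      rw [zero_smul, zero_mul] at this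
      exact this
    simp only [h, zero_smul, Finset.sum_const_zero]
    rfl
  add_mem' := by
    intro a b ha hb x
    show at2 a.1 x + at2 b.1 x = ∑ i, qG F (a.1 + b.1) (e i) x • at2 (e i) x
    simp only [qG_add_left, add_smul, Finset.sum_add_distrib]
    rw [← ha x, ← hb x]
  smul_mem' := by
    intro r a ha x
    show r • at2 a.1 x = ∑ i, qG F (r • a.1) (e i) x • at2 (e i) x
    simp only [qG_smul_left, mul_smul, ← Finset.smul_sum]
    rw [← ha x]

/-- anti-self-dual forms. -/
def SDm (F : F2 E4 M) (e : Fin 3 → F2 E4 M) : Submodule ℝ (X2 M) where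
  carrier := {a | ∀ i x, qG F a.1 (e i) x = 0}
  zero_mem' := by
    intro i x
    have := qG_smul_left F 0 (0 : F2 E4 M) (e i) x
    rw [zero_smul, zero_mul] at this
    exact this
  add_mem' := by
    intro a b ha hb i x
    show qG F (a.1 + b.1) (e i) x = 0
    rw [qG_add_left, ha i x, hb i x, add_zero]
  smul_mem' := by
    intro r a ha i x
    show qG F (r • a.1) (e i) x = 0
    rw [qG_smul_left, ha i x, mul_zero]

variable {F : F2 E4 M} {e : Fin 3 → F2 E4 M}

theorem mem_SDp {a : X2 M} : a ∈ SDp F e ↔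
    ∀ x, at2 a.1 x = ∑ i, qG F a.1 (e i) x • at2 (e i) x := Iff.rfl

theorem mem_SDm {a : X2 M} : a ∈ SDm F e ↔ ∀ i x, qG F a.1 (e i) x = 0 := Iff.rfl

theorem q_comb (F : F2 E4 M) (x : M) (c : Fin 3 → ℝ) (b : Bil) :
    q (at2 F x) (∑ i, c i • at2 (e i) x) b = ∑ i, c i * q (at2 F x) (at2 (e i) x) b := by
  unfold q
  rw [W_sum_left, Finset.sum_div]
  exact Finset.sum_congr rfl fun i _ => by rw [mul_div_assoc]

namespace Fr

variable (h : Fr F e)
include h

theorem q_e (i j : Fin 3) (x : M) : q (at2 F x) (at2 (e i) x) (at2 (e j) x) =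
    if i = j then 1 else 0 := by
  unfold q
  rw [h.orth]
  split_ifs
  · exact div_self (h.ne x)
  · exact zero_div _

theorem alt (i : Fin 3) (x : M) : Alt (at2 (e i) x) := (h.sm i).1 x

/-- the self-dual form with given coefficients -/
theorem smooth_comb {c : Fin 3 → M → ℝ} (hc : ∀ i, SmoothF E4 (c i)) :
    Smooth2 (fun x => (∑ i, c i x • at2 (e i) x : Bil)) := by
  have e1 : (fun x => (∑ i, c i x • at2 (e i) x : Bil)) =
      (fmul (c 0) (e 0) + fmul (c 1) (e 1)) + fmul (c 2) (e 2) := by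
    funext x
    rw [Fin.sum_univ_three]
    rfl
  rw [e1]
  exact Smooth2.add (Smooth2.add (Smooth2.fmul (hc 0) (h.sm 0)) (Smooth2.fmul (hc 1) (h.sm 1)))
    (Smooth2.fmul (hc 2) (h.sm 2))

theorem sF (a : X2 M) (i : Fin 3) : SmoothF E4 (qG F a.1 (e i)) :=
  En4.smoothF_qG h.smF h.ne a.2 (h.sm i)

/-- the self-dual form with coefficients `c`. -/
def sdf (c : Fin 3 → CFn M) : X2 M :=
  ⟨fun x => (∑ i, (c i).1 x • at2 (e i) x : Bil), h.smooth_comb fun i => (c i).2⟩

theorem q_sdf (c : Fin 3 → CFn M) (i : Fin 3) (x : M) :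
    qG F (h.sdf c).1 (e i) x = (c i).1 x := by
  show q (at2 F x) (∑ j, (c j).1 x • at2 (e j) x) (at2 (e i) x) = _
  rw [q_comb]
  simp only [h.q_e, mul_ite, mul_one, mul_zero, Finset.sum_ite_eq', Finset.mem_univ, if_true]

theorem sdf_mem (c : Fin 3 → CFn M) : h.sdf c ∈ SDp F e := by
  intro x
  show (∑ i, (c i).1 x • at2 (e i) x : Bil) = _
  exact Finset.sum_congr rfl fun i _ => by rw [h.q_sdf]

/-- the coefficients -/
def cf (a : X2 M) (i : Fin 3) : CFn M := ⟨qG F a.1 (e i), h.sF a i⟩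

theorem sdf_cf {a : X2 M} (ha : a ∈ SDp F e) : h.sdf (h.cf a) = a := by
  apply Subtype.ext
  funext x
  exact (ha x).symm

theorem sub_mem (a : X2 M) : a - h.sdf (h.cf a) ∈ SDm F e := by
  intro i x
  show qG F (a.1 - (h.sdf (h.cf a)).1) (e i) x = 0
  have h1 : qG F (a.1 - (h.sdf (h.cf a)).1) (e i) x =
      qG F a.1 (e i) x - qG F (h.sdf (h.cf a)).1 (e i) x := by
    unfold qG q
    rw [at2_sub, W_sub_left, sub_div]
  rw [h1, h.q_sdf]
  exact sub_self _

/-- `q` of a self-dual form and an arbitrary form. -/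
theorem q_left {a : X2 M} (ha : a ∈ SDp F e) (b : F2 E4 M) (x : M) :
    qG F a.1 b x = ∑ i, qG F a.1 (e i) x * qG F b (e i) x := by
  show q (at2 F x) (at2 a.1 x) (at2 b x) = _
  rw [ha x, q_comb]
  refine Finset.sum_congr rfl fun i _ => ?_
  congr 1
  show q _ _ _ = q _ _ _
  unfold q
  rw [W_comm]

theorem qG_pm {a b : X2 M} (ha : a ∈ SDp F e) (hb : b ∈ SDm F e) (x : M) :
    qG F a.1 b.1 x = 0 := by
  rw [h.q_left ha]
  exact Finset.sum_eq_zero fun i _ => by rw [hb i x, mul_zero]

theorem qG_pp {a : X2 M} (ha : a ∈ SDp F e) (x : M) :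
    qG F a.1 a.1 x = ∑ i, qG F a.1 (e i) x ^ 2 := by
  rw [h.q_left ha]
  exact Finset.sum_congr rfl fun i _ => by ring

theorem qG_mm {a : X2 M} (ha : a ∈ SDm F e) {x : M} (hx : at2 a.1 x ≠ 0) :
    qG F a.1 a.1 x < 0 := by
  have h1 := neg_of_perp (h.ne x) (fun i => h.alt i x) (fun i j => h.orth i j x) (a.2.1 x)
    (fun i => by
      have h2 : W (at2 a.1 x) (at2 (e i) x) / W (at2 F x) (at2 F x) = 0 := ha i x
      exact (div_eq_zero_iff.1 h2).resolve_right (h.ne x)) hx
  have h3 : 0 < W (at2 F x) (at2 F x) ^ 2 := by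
    have := h.ne x
    positivity
  have h4 : W (at2 F x) (at2 F x) * W (at2 a.1 x) (at2 a.1 x) =
      W (at2 F x) (at2 F x) ^ 2 * qG F a.1 a.1 x := by
    show _ = _ * (W (at2 a.1 x) (at2 a.1 x) / W (at2 F x) (at2 F x))
    have := h.ne x
    field_simp
  rw [h4] at h1
  nlinarith

theorem vol : Vol F where
  alt := h.smF.1
  cont p := (h.smF.2 p).continuousOn
  ne := h.ne

end Fr

end Basic

section Closed

variable {M : Type u} [TopologicalSpace M] [T2Space M] [CompactSpace M]
  [ChartedSpace E4 M] [IsManifold 𝓘(ℝ, E4) ∞ M] [MeasurableSpace M] [BorelSpace M]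

/-- the intersection form on smooth two-forms. -/
def IL (F : F2 E4 M) (hF : Vol F) : X2 M →ₗ[ℝ] X2 M →ₗ[ℝ] ℝ :=
  LinearMap.mk₂ ℝ (fun a b => I F a.1 b.1)
    (fun a b c => I_add_left hF (Smooth2.cont2 a.2) (Smooth2.cont2 b.2) (Smooth2.cont2 c.2))
    (fun r a b => I_smul_left F r _ _)
    (fun a b c => I_add_right hF (Smooth2.cont2 a.2) (Smooth2.cont2 b.2) (Smooth2.cont2 c.2))
    (fun r a b => I_smul_right F r _ _)

@[simp] theorem IL_apply {F : F2 E4 M} (hF : Vol F) (a b : X2 M) :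
    IL F hF a b = I F a.1 b.1 := rfl

theorem IL_symm {F : F2 E4 M} (hF : Vol F) (a b : X2 M) : IL F hF a b = IL F hF b a :=
  I_comm _ _ _

theorem IL_stokes {F : F2 E4 M} (hF : Vol F) (s : X1 M) {b : X2 M} (hb : b ∈ Z2 M) :
    IL F hF (dL s) b = 0 :=
  stokes_smooth hF s.2 (fun _ _ hy => rep_dG s.2 hy) b.2 hb

/-- **closed = orthogonal to exact**. -/
theorem mem_Z2_iff {F : F2 E4 M} (hF : Vol F) (a : X2 M) :
    a ∈ Z2 M ↔ ∀ s : X1 M, IL F hF a (dL s) = 0 := by
  constructor
  · intro ha s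
    rw [IL_symm]; exact IL_stokes hF s ha
  · intro h
    refine fund_vol hF a.2 fun b hb => ?_
    obtain ⟨s, hs, rfl⟩ := isEx_iff.1 hb
    exact h ⟨s, hs⟩

/-- a continuous function with a sign and vanishing integral is zero. -/
theorem eq_zero_of_I {F : F2 E4 M} (hF : Vol F) {a b : F2 E4 M} (ha : Cont2 a) (hb : Cont2 b)
    (hn : ∀ x, 0 ≤ qG F a b x) (h : I F a b = 0) (x : M) : qG F a b x = 0 := by
  have hfin := isFinite_mu hF
  have hop := isOpenPos_mu hF
  have hc := continuous_qG hF ha hb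
  have h1 := (integral_eq_zero_iff_of_nonneg hn (integrable_qG hF ha hb)).1 h
  have h2 : qG F a b = fun _ => 0 := (hc.ae_eq_iff_eq _ continuous_const).1 h1
  rw [h2]

theorem Fr.spl {F : F2 E4 M} {e : Fin 3 → F2 E4 M} (h : Fr F e) :
    Spl (IL F h.vol) (SDp F e) (SDm F e) where
  split a := ⟨h.sdf (h.cf a), h.sdf_mem _, _, h.sub_mem a, by abel⟩
  orth p hp m hm := by
    show ∫ x, qG F p.1 m.1 x ∂(mu F) = 0
    simp only [h.qG_pm hp hm, integral_zero]
  def1 p hp h0 := by
    have h1 := eq_zero_of_I h.vol (Smooth2.cont2 p.2) (Smooth2.cont2 p.2) (fun x => by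
      rw [h.qG_pp hp]; exact Finset.sum_nonneg fun i _ => sq_nonneg _) h0
    apply Subtype.ext
    funext x
    have h2 := h1 x
    rw [h.qG_pp hp] at h2
    have h3 : ∀ i, qG F p.1 (e i) x = 0 := fun i => by
      have := (Finset.sum_eq_zero_iff_of_nonneg fun i _ => sq_nonneg _).1 h2 i (Finset.mem_univ i)
      exact pow_eq_zero_iff two_ne_zero |>.1 this
    have h4 := hp x
    simp only [h3, zero_smul, Finset.sum_const_zero] at h4
    exact h4
  def2 m hm h0 := by
    have h1 := eq_zero_of_I (a := m.1) (b := (-1 : ℝ) • m.1) h.vol (Smooth2.cont2 m.2)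
      ((Smooth2.cont2 m.2).smul _) (fun x => by
        rw [qG_smul_right]
        by_cases hx : at2 m.1 x = 0
        · have : qG F m.1 m.1 x = 0 := by
            show q _ _ _ = 0
            rw [hx]
            unfold q
            rw [Fund.W_zero_right, zero_div]
          rw [this]; norm_num
        · have := h.qG_mm hm hx
          linarith) (by
        rw [I_smul_right]
        have h00 : I F m.1 m.1 = 0 := h0
        rw [h00, mul_zero])
    apply Subtype.ext
    funext x
    by_contra hx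
    have h2 := h1 x
    rw [qG_smul_right] at h2
    have h3 := h.qG_mm hm hx
    linarith

end Closed

end

end Crest.Agent.R235.Hodge_194
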