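import Mathlib

/-!
Row 235 (S0364), REG-CYL C09 / HOLE-A: for a finite set `Y ⊆ ℂ` with at most `k` points there is a
smooth function `Ψ` such that `Im (z̄ dz) - dΨ` is bounded by `C (k) · dist (z, Y)`.
Induction on `k`: split `Y` at a gap of the distances from one end of a diameter, glue with a
radial cut-off.
-/

set_option autoImplicit false

open Metric Set Filter
open scoped ContDiff Topology

namespace Crest.Agent.R235.HoleA_800

noncomputable section

/-- the derivative of the smooth transition is bounded and vanishes outside `[0,1]`. -/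
theorem exists_bound : ∃ M : ℝ, 0 ≤ M ∧ (∀ x, |deriv Real.smoothTransition x| ≤ M) ∧
    ∀ x, deriv Real.smoothTransition x ≠ 0 → 0 ≤ x ∧ x ≤ 1 := by
  have hc : Continuous (deriv Real.smoothTransition) :=
    (Real.smoothTransition.contDiff (n := ⊤)).continuous_deriv (by simp)
  have h0 : ∀ x, x < 0 → deriv Real.smoothTransition x = 0 := by
    intro x hx
    have h : Real.smoothTransition =ᶠ[𝓝 x] fun _ => 0 := by
      filter_upwards [Iio_mem_nhds hx] with t ht
      exact Real.smoothTransition.zero_of_nonpos (le_of_lt ht)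
    rw [h.deriv_eq]
    simp
  have h1 : ∀ x, 1 < x → deriv Real.smoothTransition x = 0 := by
    intro x hx
    have h : Real.smoothTransition =ᶠ[𝓝 x] fun _ => 1 := by
      filter_upwards [Ioi_mem_nhds hx] with t ht
      exact Real.smoothTransition.one_of_one_le (le_of_lt ht)
    rw [h.deriv_eq]
    simp
  obtain ⟨M, hM⟩ := isCompact_Icc.exists_bound_of_continuousOn (hc.continuousOn (s := Icc 0 1))
  have hne : ∀ x, deriv Real.smoothTransition x ≠ 0 → 0 ≤ x ∧ x ≤ 1 := by
    intro x hx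
    constructor
    · by_contra h
      exact hx (h0 x (not_le.1 h))
    · by_contra h
      exact hx (h1 x (not_le.1 h))
  refine ⟨max M 0, le_max_right _ _, fun x => ?_, hne⟩
  by_cases hx : deriv Real.smoothTransition x = 0
  · rw [hx, abs_zero]
    exact le_max_right _ _
  · exact (hM x (hne x hx)).trans (le_max_left _ _)

/-- a gap in the distances from `y`. -/
theorem exists_gap (n : ℕ) (Y : Finset ℂ) (hc : Y.card ≤ n + 1) (y : ℂ) (hy : y ∈ Y) (s : ℝ)
    (hs : 0 < s) : ∃ j : ℕ, j < n + 1 ∧ ∀ u ∈ Y, dist y u ≤ j * s ∨ (j + 1) * s < dist y u := by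
  classical
  set f : ℂ → ℕ := fun u => ⌈dist y u / s⌉₊ - 1 with hf
  have h1 : ((Y.erase y).image f).card < (Finset.range (n + 1)).card := by
    rw [Finset.card_range]
    refine lt_of_le_of_lt Finset.card_image_le ?_
    rw [Finset.card_erase_of_mem hy]
    have : 0 < Y.card := Finset.card_pos.2 ⟨y, hy⟩
    omega
  obtain ⟨j, hj, hj'⟩ := Finset.exists_mem_notMem_of_card_lt_card h1
  refine ⟨j, Finset.mem_range.1 hj, fun u hu => ?_⟩
  by_contra hcon
  push Not at hcon
  obtain ⟨h2, h3⟩ := hcon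
  apply hj'
  rw [Finset.mem_image]
  refine ⟨u, Finset.mem_erase.2 ⟨?_, hu⟩, ?_⟩
  · rintro rfl
    rw [dist_self] at h2
    have : (0 : ℝ) ≤ j * s := by positivity
    linarith
  · have h4 : ⌈dist y u / s⌉₊ = j + 1 := by
      rw [Nat.ceil_eq_iff (Nat.succ_ne_zero j)]
      refine ⟨?_, ?_⟩
      · rw [lt_div_iff₀ hs]
        simpa using h2
      · rw [div_le_iff₀ hs]
        push_cast
        exact h3
    simp only [hf, h4]
    rfl

/-- the form `w ↦ Im (z̄ w)`. -/
def al (z : ℂ) : ℂ →L[ℝ] ℝ :=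
  Complex.imCLM.comp (ContinuousLinearMap.mul ℝ ℂ ((starRingEnd ℂ) z))

theorem al_apply (z w : ℂ) : al z w = ((starRingEnd ℂ) z * w).im := rfl

theorem al_sub_le (z y w : ℂ) : |al z w - al y w| ≤ dist z y * ‖w‖ := by
  have h : al z w - al y w = ((starRingEnd ℂ) (z - y) * w).im := by
    rw [al_apply, al_apply, ← Complex.sub_im, map_sub, sub_mul]
  rw [h]
  refine (Complex.abs_im_le_norm _).trans ?_
  rw [norm_mul, RCLike.norm_conj, dist_eq_norm]

/-- the radial cut-off -/
def chi (y : ℂ) (a b : ℝ) (z : ℂ) : ℝ :=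
  Real.smoothTransition ((‖z - y‖ ^ 2 - a ^ 2) / (b ^ 2 - a ^ 2))

theorem contDiff_chi (y : ℂ) (a b : ℝ) : ContDiff ℝ ∞ (chi y a b) := by
  unfold chi
  refine Real.smoothTransition.contDiff.comp ?_
  have h1 : ContDiff ℝ ∞ fun z : ℂ => ‖z - y‖ ^ 2 := (contDiff_id.sub contDiff_const).norm_sq ℝ
  exact (h1.sub contDiff_const).div_const _

theorem chi_nonneg (y : ℂ) (a b : ℝ) (z : ℂ) : 0 ≤ chi y a b z := Real.smoothTransition.nonneg _

theorem chi_le_one (y : ℂ) (a b : ℝ) (z : ℂ) : chi y a b z ≤ 1 := Real.smoothTransition.le_one _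

theorem chi_zero {y : ℂ} {a b : ℝ} (ha : 0 ≤ a) (hab : a < b) {z : ℂ} (h : dist z y ≤ a) :
    chi y a b z = 0 := by
  unfold chi
  apply Real.smoothTransition.zero_of_nonpos
  have h1 : ‖z - y‖ ^ 2 ≤ a ^ 2 := by
    rw [← dist_eq_norm]
    exact pow_le_pow_left₀ dist_nonneg h 2
  have h2 : 0 ≤ b ^ 2 - a ^ 2 := by nlinarith
  exact div_nonpos_of_nonpos_of_nonneg (by linarith) h2

theorem chi_one {y : ℂ} {a b : ℝ} (ha : 0 ≤ a) (hab : a < b) {z : ℂ} (h : b ≤ dist z y) :
    chi y a b z = 1 := by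
  unfold chi
  apply Real.smoothTransition.one_of_one_le
  have h1 : b ^ 2 ≤ ‖z - y‖ ^ 2 := by
    rw [← dist_eq_norm]
    exact pow_le_pow_left₀ (by linarith) h 2
  have h2 : 0 < b ^ 2 - a ^ 2 := by nlinarith
  rw [le_div_iff₀ h2]
  linarith

/-- the differential of the cut-off. -/
theorem chi_deriv {M : ℝ} (hM : ∀ x, |deriv Real.smoothTransition x| ≤ M)
    (hne : ∀ x, deriv Real.smoothTransition x ≠ 0 → 0 ≤ x ∧ x ≤ 1) (hM0 : 0 ≤ M) {y : ℂ}
    {a b : ℝ} (ha : 0 ≤ a) (hab : a < b) (z : ℂ) :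
    (∀ w, fderiv ℝ (chi y a b) z w = 0) ∨ (a ≤ dist z y ∧ dist z y ≤ b ∧
      ∀ w, |fderiv ℝ (chi y a b) z w| ≤ 2 * M / (b - a) * ‖w‖) := by
  set q : ℝ := b ^ 2 - a ^ 2 with hq
  have hq0 : 0 < q := by
    rw [hq]
    nlinarith
  set g : ℂ → ℝ := fun z => (‖z - y‖ ^ 2 - a ^ 2) / q with hg
  have hgd : HasFDerivAt g (q⁻¹ • (2 • (innerSL ℝ (z - y)))) z := by
    have h1 : HasFDerivAt (fun z : ℂ => ‖z - y‖ ^ 2)
        (2 • (innerSL ℝ (z - y)).comp (ContinuousLinearMap.id ℝ ℂ)) z :=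
      ((hasFDerivAt_id z).sub_const y).norm_sq
    have h2 := (h1.sub_const (a ^ 2)).const_smul q⁻¹
    refine (h2.congr_of_eventuallyEq (Eventually.of_forall fun x => ?_)).congr_fderiv ?_
    · simp only [hg, Pi.smul_apply, smul_eq_mul]
      rw [div_eq_inv_mul]
    · ext <;> simp
  have hcd : HasFDerivAt (chi y a b)
      (deriv Real.smoothTransition (g z) • (q⁻¹ • (2 • (innerSL ℝ (z - y))))) z := by
    have h3 : HasDerivAt Real.smoothTransition (deriv Real.smoothTransition (g z)) (g z) :=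
      ((Real.smoothTransition.contDiff (n := ⊤)).differentiable (by simp) (g z)).hasDerivAt
    exact h3.comp_hasFDerivAt z hgd
  rw [hcd.fderiv]
  by_cases h0 : deriv Real.smoothTransition (g z) = 0
  · left
    intro w
    rw [h0]
    simp
  · right
    obtain ⟨h4, h5⟩ := hne _ h0
    have h6 : a ^ 2 ≤ dist z y ^ 2 := by
      rw [dist_eq_norm]
      have := (div_nonneg_iff.1 h4).resolve_right (fun h => absurd h.2 (not_le.2 hq0))
      linarith [this.1]
    have h7 : dist z y ^ 2 ≤ b ^ 2 := by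
      rw [dist_eq_norm]
      have := (div_le_one hq0).1 h5
      rw [hq] at this
      linarith
    have h8 : a ≤ dist z y := by
      exact (pow_le_pow_iff_left₀ ha dist_nonneg two_ne_zero).1 h6
    have h9 : dist z y ≤ b := by
      exact (pow_le_pow_iff_left₀ dist_nonneg (by linarith) two_ne_zero).1 h7
    refine ⟨h8, h9, fun w => ?_⟩
    have h10 : |inner ℝ (z - y) w| ≤ b * ‖w‖ := by
      refine (abs_real_inner_le_norm _ _).trans ?_
      rw [← dist_eq_norm]
      gcongr
    have h11 : (deriv Real.smoothTransition (g z) • (q⁻¹ • (2 • (innerSL ℝ (z - y))))) w =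
        deriv Real.smoothTransition (g z) * (q⁻¹ * (2 * inner ℝ (z - y) w)) := by
      simp only [smul_apply, smul_eq_mul, nsmul_eq_mul, innerSL_apply_apply]
      norm_num
    rw [h11, abs_mul, abs_mul, abs_mul, abs_two, abs_of_pos (inv_pos.2 hq0)]
    calc |deriv Real.smoothTransition (g z)| * (q⁻¹ * (2 * |inner ℝ (z - y) w|))
        ≤ M * (q⁻¹ * (2 * (b * ‖w‖))) := by
          have := hM (g z)
          gcongr
      _ = 2 * M * (b / q) * ‖w‖ := by ring
      _ ≤ 2 * M * (1 / (b - a)) * ‖w‖ := by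
          have : b / q ≤ 1 / (b - a) := by
            rw [div_le_div_iff₀ hq0 (by linarith), hq]
            nlinarith
          gcongr
      _ = 2 * M / (b - a) * ‖w‖ := by ring

/-- `Ψ` is a primitive of `Im (z̄ dz)` up to an error `C dist (z, Y)`. -/
def Prim (C : ℝ) (Y : Finset ℂ) (Ψ : ℂ → ℝ) : Prop :=
  ContDiff ℝ ∞ Ψ ∧ ∀ z w : ℂ, |al z w - fderiv ℝ Ψ z w| ≤ C * infDist z (Y : Set ℂ) * ‖w‖

theorem exists_near {Y : Finset ℂ} (hY : Y.Nonempty) (z : ℂ) :
    ∃ u ∈ Y, infDist z (Y : Set ℂ) = dist z u := by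
  obtain ⟨u, hu, h⟩ := Y.finite_toSet.isCompact.exists_infDist_eq_dist (by simpa using hY) z
  exact ⟨u, hu, h⟩

theorem glue {M : ℝ} (hM : ∀ x, |deriv Real.smoothTransition x| ≤ M)
    (hne : ∀ x, deriv Real.smoothTransition x ≠ 0 → 0 ≤ x ∧ x ≤ 1) (hM0 : 0 ≤ M) {N C : ℝ}
    (hN : 0 < N) (hC : 0 ≤ C) {Y Y1 Y2 : Finset ℂ} {y y' : ℂ} {D s : ℝ} {j : ℕ} (hs : 0 < s)
    (hD : D = N * s) (hdiam : ∀ u ∈ Y, ∀ v ∈ Y, dist u v ≤ D)
    (hY1 : ∀ u ∈ Y1, u ∈ Y ∧ dist y u ≤ j * s) (hY2 : ∀ u ∈ Y2, u ∈ Y ∧ (j + 1) * s < dist y u)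
    (hY : ∀ u ∈ Y, u ∈ Y1 ∨ u ∈ Y2) (hy : y ∈ Y1) (hy' : y' ∈ Y2) {Ψ1 Ψ2 : ℂ → ℝ}
    (h1 : Prim C Y1 Ψ1) (h2 : Prim C Y2 Ψ2) :
    ∃ Ψ, Prim (C * (2 * (1 + 4 * N) + 48 * M * N ^ 2)) Y Ψ := by
  have hyY : y ∈ Y := (hY1 y hy).1
  have hy'Y : y' ∈ Y := (hY2 y' hy').1
  have hj0 : (0 : ℝ) ≤ j := Nat.cast_nonneg j
  set a : ℝ := (j + 1 / 4) * s with ha
  set b : ℝ := (j + 3 / 4) * s with hb
  have ha0 : 0 ≤ a := by positivity
  have hab : a < b := by
    rw [ha, hb]
    nlinarith
  have hba : b - a = s / 2 := by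
    rw [ha, hb]
    ring
  have hbD : b < D := by
    have h3 := (hY2 y' hy').2
    have h4 := hdiam y hyY y' hy'Y
    have h5 : b < (j + 1) * s := by
      rw [hb]
      nlinarith
    linarith
  have hD0 : 0 ≤ D := by
    rw [hD]
    positivity
  -- distance comparisons
  have hd : ∀ z, (dist z y < b → infDist z (Y1 : Set ℂ) ≤ (1 + 4 * N) * infDist z (Y : Set ℂ)) ∧
      (a < dist z y → infDist z (Y2 : Set ℂ) ≤ (1 + 4 * N) * infDist z (Y : Set ℂ)) ∧
      (a ≤ dist z y → dist z y ≤ b → D ≤ 4 * N * infDist z (Y : Set ℂ)) := by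
    intro z
    obtain ⟨u, hu, hzu⟩ := exists_near ⟨y, hyY⟩ z
    rw [hzu]
    have hz0 : 0 ≤ dist z u := dist_nonneg
    have t1 : dist z y ≤ dist z u + dist y u := by
      rw [dist_comm y u]
      exact dist_triangle _ _ _
    have t2 : dist y u ≤ dist z y + dist z u := by
      rw [dist_comm z y]
      exact dist_triangle _ _ _
    refine ⟨fun hzb => ?_, fun hza => ?_, fun hza hzb => ?_⟩
    · rcases hY u hu with hu1 | hu2
      · have h3 : infDist z (Y1 : Set ℂ) ≤ dist z u := infDist_le_dist_of_mem hu1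
        nlinarith
      · have h3 : infDist z (Y1 : Set ℂ) ≤ dist z y := infDist_le_dist_of_mem hy
        have h4 := (hY2 u hu2).2
        have h5 := hdiam y hyY u hu
        have h6 : s / 4 ≤ dist z u := by
          rw [hb] at hzb
          nlinarith
        have h7 : D ≤ 4 * N * dist z u := by
          rw [hD]
          nlinarith
        linarith
    · rcases hY u hu with hu1 | hu2
      · have h3 : infDist z (Y2 : Set ℂ) ≤ dist z y' := infDist_le_dist_of_mem hy'
        have h4 := (hY1 u hu1).2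
        have h5 := hdiam u hu y' hy'Y
        have h8 := dist_triangle z u y'
        have h6 : s / 4 ≤ dist z u := by
          rw [ha] at hza
          nlinarith
        have h7 : D ≤ 4 * N * dist z u := by
          rw [hD]
          nlinarith
        linarith
      · have h3 : infDist z (Y2 : Set ℂ) ≤ dist z u := infDist_le_dist_of_mem hu2
        nlinarith
    · have h6 : s / 4 ≤ dist z u := by
        rcases hY u hu with hu1 | hu2
        · have h4 := (hY1 u hu1).2
          rw [ha] at hza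
          nlinarith
        · have h4 := (hY2 u hu2).2
          rw [hb] at hzb
          nlinarith
      rw [hD]
      nlinarith
  -- the difference of the two primitives
  set E : ℂ → ℝ := fun z => Ψ2 z - Ψ1 z - (Ψ2 y - Ψ1 y) with hE
  have hEd : ∀ z, HasFDerivAt E (fderiv ℝ Ψ2 z - fderiv ℝ Ψ1 z) z := by
    intro z
    have h3 := (h2.1.differentiable (by simp) z).hasFDerivAt
    have h4 := (h1.1.differentiable (by simp) z).hasFDerivAt
    exact (h3.sub h4).sub_const _
  have hE0 : E y = 0 := by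
    simp only [hE]
    ring
  have hEb : ∀ z, dist z y ≤ D → |E z| ≤ 3 * C * D ^ 2 := by
    intro z hz
    have h3 : ‖E z - E y‖ ≤ (3 * C * D) * ‖z - y‖ := by
      refine Convex.norm_image_sub_le_of_norm_fderiv_le (𝕜 := ℝ) (s := closedBall y D)
        (fun x _ => (hEd x).differentiableAt) (fun x hx => ?_) (convex_closedBall y D)
        (mem_closedBall_self hD0) hz
      rw [(hEd x).fderiv]
      refine ContinuousLinearMap.opNorm_le_bound _ (by positivity) fun w => ?_
      have hx' : dist x y ≤ D := hx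
      have h4 := h1.2 x w
      have h5 := h2.2 x w
      have h6 : infDist x (Y1 : Set ℂ) ≤ D := (infDist_le_dist_of_mem hy).trans hx'
      have h7 : infDist x (Y2 : Set ℂ) ≤ 2 * D := by
        refine (infDist_le_dist_of_mem hy').trans ?_
        have h8 := dist_triangle x y y'
        have h9 := hdiam y hyY y' hy'Y
        linarith
      rw [Real.norm_eq_abs]
      have e1 : (fderiv ℝ Ψ2 x - fderiv ℝ Ψ1 x) w =
          (al x w - fderiv ℝ Ψ1 x w) - (al x w - fderiv ℝ Ψ2 x w) := by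
        rw [sub_apply]
        ring
      rw [e1]
      calc |(al x w - fderiv ℝ Ψ1 x w) - (al x w - fderiv ℝ Ψ2 x w)|
          ≤ |al x w - fderiv ℝ Ψ1 x w| + |al x w - fderiv ℝ Ψ2 x w| := abs_sub _ _
        _ ≤ C * infDist x (Y1 : Set ℂ) * ‖w‖ + C * infDist x (Y2 : Set ℂ) * ‖w‖ := by linarith
        _ ≤ C * D * ‖w‖ + C * (2 * D) * ‖w‖ := by gcongr
        _ = 3 * C * D * ‖w‖ := by ring
    rw [hE0, sub_zero, Real.norm_eq_abs, ← dist_eq_norm] at h3
    refine h3.trans ?_
    calc 3 * C * D * dist z y ≤ 3 * C * D * D := by gcongr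
      _ = 3 * C * D ^ 2 := by ring
  -- gluing
  refine ⟨fun z => Ψ1 z + chi y a b z * E z, ?_, fun z w => ?_⟩
  · exact h1.1.add ((contDiff_chi y a b).mul ((h2.1.sub h1.1).sub contDiff_const))
  have hΨ : HasFDerivAt (fun z => Ψ1 z + chi y a b z * E z)
      (fderiv ℝ Ψ1 z + (chi y a b z • (fderiv ℝ Ψ2 z - fderiv ℝ Ψ1 z) +
        E z • fderiv ℝ (chi y a b) z)) z := by
    have h3 := (h1.1.differentiable (by simp) z).hasFDerivAt
    have h4 := ((contDiff_chi y a b).differentiable (by simp) z).hasFDerivAt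
    exact h3.add (h4.mul (hEd z))
  rw [hΨ.fderiv]
  set d : ℝ := infDist z (Y : Set ℂ) with hdd
  have hd0 : 0 ≤ d := infDist_nonneg
  obtain ⟨hd1, hd2, hd3⟩ := hd z
  have e1 : al z w - (fderiv ℝ Ψ1 z + (chi y a b z • (fderiv ℝ Ψ2 z - fderiv ℝ Ψ1 z) +
        E z • fderiv ℝ (chi y a b) z)) w =
      (1 - chi y a b z) * (al z w - fderiv ℝ Ψ1 z w) + chi y a b z * (al z w - fderiv ℝ Ψ2 z w)
        - E z * fderiv ℝ (chi y a b) z w := by
    simp only [add_apply, smul_apply, sub_apply, smul_eq_mul]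
    ring
  have hχ0 := chi_nonneg y a b z
  have hχ1 := chi_le_one y a b z
  have T1 : |(1 - chi y a b z) * (al z w - fderiv ℝ Ψ1 z w)| ≤ C * ((1 + 4 * N) * d) * ‖w‖ := by
    rcases lt_or_ge (dist z y) b with hzb | hzb
    · rw [abs_mul, abs_of_nonneg (by linarith : 0 ≤ 1 - chi y a b z)]
      calc (1 - chi y a b z) * |al z w - fderiv ℝ Ψ1 z w|
          ≤ 1 * (C * infDist z (Y1 : Set ℂ) * ‖w‖) := by
            apply mul_le_mul (by linarith) (h1.2 z w) (abs_nonneg _) one_pos.le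
        _ ≤ 1 * (C * ((1 + 4 * N) * d) * ‖w‖) := by
            have := hd1 hzb
            gcongr
        _ = _ := by ring
    · rw [chi_one ha0 hab hzb]
      simp only [sub_self, zero_mul, abs_zero]
      positivity
  have T2 : |chi y a b z * (al z w - fderiv ℝ Ψ2 z w)| ≤ C * ((1 + 4 * N) * d) * ‖w‖ := by
    rcases lt_or_ge a (dist z y) with hza | hza
    · rw [abs_mul, abs_of_nonneg hχ0]
      calc chi y a b z * |al z w - fderiv ℝ Ψ2 z w|
          ≤ 1 * (C * infDist z (Y2 : Set ℂ) * ‖w‖) := by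
            apply mul_le_mul hχ1 (h2.2 z w) (abs_nonneg _) one_pos.le
        _ ≤ 1 * (C * ((1 + 4 * N) * d) * ‖w‖) := by
            have := hd2 hza
            gcongr
        _ = _ := by ring
    · rw [chi_zero ha0 hab hza]
      simp only [zero_mul, abs_zero]
      positivity
  have T3 : |E z * fderiv ℝ (chi y a b) z w| ≤ C * (48 * M * N ^ 2) * d * ‖w‖ := by
    rcases chi_deriv hM hne hM0 ha0 hab z (y := y) with h0 | ⟨hza, hzb, hDc⟩
    · rw [h0 w]
      simp only [mul_zero, abs_zero]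
      positivity
    · have h5 := hd3 hza hzb
      rw [abs_mul]
      calc |E z| * |fderiv ℝ (chi y a b) z w|
          ≤ (3 * C * D ^ 2) * (2 * M / (b - a) * ‖w‖) := by
            have h3 := hEb z (hzb.trans hbD.le)
            have h4 := hDc w
            gcongr
        _ = 12 * C * M * N * D * ‖w‖ := by
            rw [hba, hD]
            field_simp
            ring
        _ ≤ 12 * C * M * N * (4 * N * d) * ‖w‖ := by gcongr
        _ = _ := by ring
  rw [e1]
  have h9 : |(1 - chi y a b z) * (al z w - fderiv ℝ Ψ1 z w) +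
      chi y a b z * (al z w - fderiv ℝ Ψ2 z w) - E z * fderiv ℝ (chi y a b) z w| ≤
      |(1 - chi y a b z) * (al z w - fderiv ℝ Ψ1 z w)| +
      |chi y a b z * (al z w - fderiv ℝ Ψ2 z w)| + |E z * fderiv ℝ (chi y a b) z w| :=
    (abs_sub _ _).trans (by gcongr; exact abs_add_le _ _)
  refine h9.trans ?_
  have e2 : C * (2 * (1 + 4 * N) + 48 * M * N ^ 2) * d * ‖w‖ =
      C * ((1 + 4 * N) * d) * ‖w‖ + C * ((1 + 4 * N) * d) * ‖w‖ +
        C * (48 * M * N ^ 2) * d * ‖w‖ := by ring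
  rw [e2]
  linarith

theorem exists_prim_aux (k : ℕ) : ∃ C : ℝ, 0 ≤ C ∧ ∀ Y : Finset ℂ, Y.Nonempty → Y.card ≤ k →
    ∃ Ψ : ℂ → ℝ, Prim C Y Ψ := by
  classical
  obtain ⟨M, hM0, hM, hne⟩ := exists_bound
  induction k with
  | zero =>
    refine ⟨0, le_rfl, fun Y hY hc => ?_⟩
    have := Finset.card_pos.2 hY
    omega
  | succ n ih =>
    obtain ⟨C, hC, hP⟩ := ih
    set N : ℝ := n + 1 with hN
    have hN0 : 0 < N := by positivity
    set C' : ℝ := 1 + C * (2 * (1 + 4 * N) + 48 * M * N ^ 2) with hC'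
    have hC'0 : 0 ≤ C * (2 * (1 + 4 * N) + 48 * M * N ^ 2) := by positivity
    refine ⟨C', by positivity, fun Y hY hc => ?_⟩
    -- a diameter
    obtain ⟨q, hq, hmax⟩ := Finset.exists_max_image (Y ×ˢ Y) (fun q => dist q.1 q.2)
      (hY.product hY)
    rw [Finset.mem_product] at hq
    have hdiam : ∀ u ∈ Y, ∀ v ∈ Y, dist u v ≤ dist q.1 q.2 := fun u hu v hv =>
      hmax (u, v) (Finset.mem_product.2 ⟨hu, hv⟩)
    rcases (dist_nonneg (x := q.1) (y := q.2)).eq_or_lt with h0 | h0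
    · -- one point
      refine ⟨al q.1, (al q.1).contDiff, fun z w => ?_⟩
      rw [ContinuousLinearMap.fderiv]
      obtain ⟨u, hu, hzu⟩ := exists_near hY z
      have huq : u = q.1 := by
        have := hdiam u hu q.1 hq.1
        rw [← h0] at this
        exact dist_le_zero.1 this
      rw [hzu, huq]
      refine (al_sub_le z q.1 w).trans ?_
      have h3 : 1 ≤ C' := by
        rw [hC']
        linarith
      have h4 : 0 ≤ dist z q.1 * ‖w‖ := by positivity
      nlinarith
    · set D : ℝ := dist q.1 q.2 with hD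
      set s : ℝ := D / N with hs
      have hs0 : 0 < s := by positivity
      have hDN : D = N * s := by
        rw [hs]
        field_simp
      obtain ⟨j, hj, hgap⟩ := exists_gap n Y hc q.1 hq.1 s hs0
      set Y1 : Finset ℂ := Y.filter fun u => dist q.1 u ≤ j * s with hY1
      set Y2 : Finset ℂ := Y.filter fun u => (j + 1) * s < dist q.1 u with hY2
      have hy : q.1 ∈ Y1 := by
        rw [hY1, Finset.mem_filter, dist_self]
        exact ⟨hq.1, by positivity⟩
      have hq1 : q.1 ∉ Y2 := by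
        rw [hY2, Finset.mem_filter, dist_self]
        rintro ⟨_, h5⟩
        have : (0 : ℝ) ≤ (j + 1) * s := by positivity
        linarith
      have hjN : (j : ℝ) * s < D := by
        rw [hDN, hN]
        have : (j : ℝ) < n + 1 := by exact_mod_cast hj
        nlinarith
      have hy' : q.2 ∈ Y2 := by
        rw [hY2, Finset.mem_filter]
        refine ⟨hq.2, ?_⟩
        rcases hgap q.2 hq.2 with h5 | h5
        · linarith
        · exact h5
      have hq2 : q.2 ∉ Y1 := by
        rw [hY1, Finset.mem_filter]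
        rintro ⟨_, h5⟩
        linarith
      have hc1 : Y1.card ≤ n := by
        have : Y1.card < Y.card := Finset.card_lt_card
          ⟨Finset.filter_subset _ _, fun h => hq2 (h hq.2)⟩
        omega
      have hc2 : Y2.card ≤ n := by
        have : Y2.card < Y.card := Finset.card_lt_card
          ⟨Finset.filter_subset _ _, fun h => hq1 (h hq.1)⟩
        omega
      obtain ⟨Ψ1, hΨ1⟩ := hP Y1 ⟨_, hy⟩ hc1
      obtain ⟨Ψ2, hΨ2⟩ := hP Y2 ⟨_, hy'⟩ hc2
      obtain ⟨Ψ, hΨ⟩ := glue hM hne hM0 hN0 hC hs0 hDN hdiam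
        (fun u hu => Finset.mem_filter.1 hu) (fun u hu => Finset.mem_filter.1 hu)
        (fun u hu => (hgap u hu).imp (fun h => Finset.mem_filter.2 ⟨hu, h⟩)
          (fun h => Finset.mem_filter.2 ⟨hu, h⟩)) hy hy' hΨ1 hΨ2
      refine ⟨Ψ, hΨ.1, fun z w => (hΨ.2 z w).trans ?_⟩
      have h6 : 0 ≤ infDist z (Y : Set ℂ) := infDist_nonneg
      have h7 : C * (2 * (1 + 4 * N) + 48 * M * N ^ 2) ≤ C' := by
        rw [hC']
        linarith
      gcongr

/-- **HOLE-A**: local primitive of the area form, vanishing linearly on a finite set. -/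
theorem exists_prim (k : ℕ) : ∃ C : ℝ, 0 ≤ C ∧ ∀ Y : Finset ℂ, Y.Nonempty → Y.card ≤ k →
    ∃ Ψ : ℂ → ℝ, ContDiff ℝ ∞ Ψ ∧ ∀ z w : ℂ, |((starRingEnd ℂ) z * w).im - fderiv ℝ Ψ z w| ≤
      C * Metric.infDist z (Y : Set ℂ) * ‖w‖ := by
  obtain ⟨C, hC, h⟩ := exists_prim_aux k
  exact ⟨C, hC, fun Y hY hc => h Y hY hc⟩

end

end Crest.Agent.R235.HoleA_800
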