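import Mathlib

/-!
Row 235, REG-CYL C09 (HOLE), helper859: two elementary lemmas.
`iter` : hole filling iteration `a(ρ) ≤ C₁ρ² + C₂(a(2ρ) - a(ρ)) ⇒ a(ρ) ≤ C' ρ^{2b}`.
`exists_dist` : smooth one-Lipschitz quasi-distance to a finite set.
-/

set_option autoImplicit false

open MeasureTheory Metric Set Filter Complex
open scoped ContDiff Topology ComplexConjugate

namespace Crest.Agent.R235.HoleB_859

noncomputable section

/-- **hole filling iteration**. -/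
theorem iter (P A₀ C₁ C₂ : ℝ) (hP : 0 < P) (hC₁ : 0 ≤ C₁) (hC₂ : 0 ≤ C₂) :
    ∃ C' b : ℝ, 0 < C' ∧ 0 < b ∧ b < 1 ∧ ∀ a : ℝ → ℝ, (∀ ρ, 0 < ρ → ρ ≤ P → a ρ ≤ A₀) →
      (∀ ρ, 0 < ρ → ρ ≤ P / 2 → a ρ ≤ C₁ * ρ ^ 2 + C₂ * (a (2 * ρ) - a ρ)) →
      ∀ ρ, 0 < ρ → ρ ≤ P → a ρ ≤ C' * ρ ^ (2 * b) := by
  set θ : ℝ := (C₂ + 1) / (C₂ + 2) with hθ
  have hθ0 : 0 < θ := by positivity
  have hθ1 : θ < 1 := by
    rw [hθ, div_lt_one (by linarith)]
    linarith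
  have hθ' : 1 < (1 + θ) / (2 * θ) := by
    rw [one_lt_div (by linarith)]
    linarith
  -- choose b
  have hcont : Tendsto (fun b : ℝ => (4 : ℝ) ^ b) (𝓝 0) (𝓝 1) := by
    have h := (Real.continuous_const_rpow (a := 4) (by norm_num)).tendsto 0
    simpa using h
  have hev : ∀ᶠ b in 𝓝[>] (0 : ℝ), (4 : ℝ) ^ b < (1 + θ) / (2 * θ) ∧ b < 1 := by
    have h1 : ∀ᶠ b in 𝓝 (0 : ℝ), (4 : ℝ) ^ b < (1 + θ) / (2 * θ) := hcont.eventually (gt_mem_nhds hθ')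
    have h2 : ∀ᶠ b in 𝓝 (0 : ℝ), b < 1 := gt_mem_nhds (by norm_num)
    exact (h1.and h2).filter_mono nhdsWithin_le_nhds
  obtain ⟨b, hb4, hb0⟩ := (hev.and self_mem_nhdsWithin).exists
  obtain ⟨hb4, hb1⟩ := hb4
  have hb0 : 0 < b := hb0
  have hPb : 0 < (P / 2) ^ (2 * b) := Real.rpow_pos_of_pos (by positivity) _
  set C' : ℝ := max (max 1 (A₀ / (P / 2) ^ (2 * b))) (2 * C₁ * P ^ (2 - 2 * b) / (1 - θ)) with hC'
  have hC'1 : 1 ≤ C' := (le_max_left _ _).trans (le_max_left _ _)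
  have hC'2 : A₀ / (P / 2) ^ (2 * b) ≤ C' := (le_max_right _ _).trans (le_max_left _ _)
  have hC'3 : 2 * C₁ * P ^ (2 - 2 * b) / (1 - θ) ≤ C' := le_max_right _ _
  refine ⟨C', b, by linarith, hb0, hb1, fun a ha1 ha2 => ?_⟩
  -- one step
  have hstep : ∀ ρ, 0 < ρ → ρ ≤ P / 2 → a (2 * ρ) ≤ C' * (2 * ρ) ^ (2 * b) →
      a ρ ≤ C' * ρ ^ (2 * b) := by
    intro ρ h0 h1 h2
    have h3 := ha2 ρ h0 h1
    -- `a ρ ≤ θ * a (2ρ) + C₁ ρ²`
    have h4 : a ρ * (C₂ + 1) ≤ C₁ * ρ ^ 2 + C₂ * (C' * (2 * ρ) ^ (2 * b)) := by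
      have := mul_le_mul_of_nonneg_left h2 hC₂
      nlinarith
    have hρb : 0 < ρ ^ (2 * b) := Real.rpow_pos_of_pos h0 _
    have h5 : (2 * ρ) ^ (2 * b) = 4 ^ b * ρ ^ (2 * b) := by
      rw [Real.mul_rpow (by norm_num) h0.le, Real.rpow_mul (by norm_num)]
      norm_num
    have h6 : ρ ^ 2 ≤ P ^ (2 - 2 * b) * ρ ^ (2 * b) := by
      have e : ρ ^ 2 = ρ ^ (2 - 2 * b) * ρ ^ (2 * b) := by
        rw [← Real.rpow_add h0]
        have : (2 - 2 * b + 2 * b : ℝ) = (2 : ℕ) := by norm_num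
        rw [this, Real.rpow_natCast]
      rw [e]
      have : ρ ^ (2 - 2 * b) ≤ P ^ (2 - 2 * b) :=
        Real.rpow_le_rpow h0.le (by linarith) (by linarith)
      exact mul_le_mul_of_nonneg_right this hρb.le
    -- reduce to constants
    have h7 : C₁ * P ^ (2 - 2 * b) ≤ C' * (1 - θ) / 2 := by
      rw [div_le_iff₀ (by linarith)] at hC'3
      linarith
    have h8 : θ * 4 ^ b ≤ (1 + θ) / 2 := by
      have := mul_le_mul_of_nonneg_left hb4.le hθ0.le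
      have e : θ * ((1 + θ) / (2 * θ)) = (1 + θ) / 2 := by
        field_simp
      linarith
    have h9 : C₂ / (C₂ + 1) ≤ θ := by
      rw [hθ, div_le_div_iff₀ (by linarith) (by linarith)]
      nlinarith
    have h10 : a ρ ≤ C₁ * ρ ^ 2 / (C₂ + 1) + C₂ / (C₂ + 1) * (C' * (2 * ρ) ^ (2 * b)) := by
      have : a ρ ≤ (C₁ * ρ ^ 2 + C₂ * (C' * (2 * ρ) ^ (2 * b))) / (C₂ + 1) := by
        rw [le_div_iff₀ (by linarith)]
        exact h4
      calc a ρ ≤ _ := this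
        _ = _ := by ring
    have h11 : C₁ * ρ ^ 2 / (C₂ + 1) ≤ C₁ * ρ ^ 2 :=
      div_le_self (by positivity) (by linarith)
    have h12 : C₁ * ρ ^ 2 ≤ C' * (1 - θ) / 2 * ρ ^ (2 * b) := by
      calc C₁ * ρ ^ 2 ≤ C₁ * (P ^ (2 - 2 * b) * ρ ^ (2 * b)) := mul_le_mul_of_nonneg_left h6 hC₁
        _ = C₁ * P ^ (2 - 2 * b) * ρ ^ (2 * b) := by ring
        _ ≤ _ := mul_le_mul_of_nonneg_right h7 hρb.le
    have h13 : C₂ / (C₂ + 1) * (C' * (2 * ρ) ^ (2 * b)) ≤ C' * ((1 + θ) / 2) * ρ ^ (2 * b) := by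
      rw [h5]
      have hx : 0 ≤ C' * (4 ^ b * ρ ^ (2 * b)) := by positivity
      calc C₂ / (C₂ + 1) * (C' * (4 ^ b * ρ ^ (2 * b)))
          ≤ θ * (C' * (4 ^ b * ρ ^ (2 * b))) := mul_le_mul_of_nonneg_right h9 hx
        _ = (θ * 4 ^ b) * (C' * ρ ^ (2 * b)) := by ring
        _ ≤ ((1 + θ) / 2) * (C' * ρ ^ (2 * b)) :=
          mul_le_mul_of_nonneg_right h8 (by positivity)
        _ = _ := by ring
    calc a ρ ≤ _ := h10
      _ ≤ C' * (1 - θ) / 2 * ρ ^ (2 * b) + C' * ((1 + θ) / 2) * ρ ^ (2 * b) := by linarith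
      _ = C' * ρ ^ (2 * b) := by ring
  -- induction
  have hind : ∀ n : ℕ, ∀ ρ, 0 < ρ → ρ ≤ P → P / 2 < 2 ^ n * ρ → a ρ ≤ C' * ρ ^ (2 * b) := by
    intro n
    induction n with
    | zero =>
      intro ρ h0 h1 h2
      simp only [pow_zero, one_mul] at h2
      have h3 : (P / 2) ^ (2 * b) ≤ ρ ^ (2 * b) :=
        Real.rpow_le_rpow (by positivity) h2.le (by positivity)
      calc a ρ ≤ A₀ := ha1 ρ h0 h1
        _ ≤ C' * (P / 2) ^ (2 * b) := by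
          rw [div_le_iff₀ hPb] at hC'2
          exact hC'2
        _ ≤ _ := mul_le_mul_of_nonneg_left h3 (by linarith)
    | succ n ih =>
      intro ρ h0 h1 h2
      by_cases h3 : ρ ≤ P / 2
      · refine hstep ρ h0 h3 (ih (2 * ρ) (by linarith) (by linarith) ?_)
        rw [pow_succ] at h2
        linarith
      · refine ih ρ h0 h1 ?_
        have : (1 : ℝ) ≤ 2 ^ n := one_le_pow₀ (by norm_num)
        nlinarith
  intro ρ h0 h1
  obtain ⟨n, hn⟩ := pow_unbounded_of_one_lt (P / 2 / ρ) (by norm_num : (1 : ℝ) < 2)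
  refine hind n ρ h0 h1 ?_
  rwa [div_lt_iff₀ h0] at hn

/-- smooth one-Lipschitz quasi-distance to a finite set. -/
theorem exists_dist (Y : Finset ℂ) (hY : Y.Nonempty) (ε : ℝ) (hε : 0 < ε) :
    ∃ Φ : ℂ → ℝ, ContDiff ℝ ∞ Φ ∧ (∀ z, 0 ≤ Φ z) ∧ (∀ z w, |fderiv ℝ Φ z w| ≤ ‖w‖) ∧
      (∀ z, infDist z (Y : Set ℂ) ≤ √(Y.card) * Φ z) ∧ ∀ z, ∀ y ∈ Y, Φ z ≤ ε + dist z y := by
  classical
  set q : ℂ → ℂ → ℝ := fun y z => ε ^ 2 + ‖z - y‖ ^ 2 with hq
  have hq0 : ∀ y z, 0 < q y z := fun y z => by simp only [hq]; positivity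
  have hqd : ∀ y, ContDiff ℝ ∞ (q y) := fun y =>
    contDiff_const.add ((contDiff_id.sub contDiff_const).norm_sq ℝ)
  set S : ℂ → ℝ := fun z => ∑ y ∈ Y, (q y z)⁻¹ with hS
  have hS0 : ∀ z, 0 < S z := fun z => Finset.sum_pos (fun y _ => inv_pos.2 (hq0 y z)) hY
  have hSd : ContDiff ℝ ∞ S := ContDiff.sum fun y _ => (hqd y).inv fun z => (hq0 y z).ne'
  set Φ : ℂ → ℝ := fun z => (√(S z))⁻¹ with hΦ
  have hΦd : ContDiff ℝ ∞ Φ := by
    refine (hSd.sqrt fun z => (hS0 z).ne').inv fun z => ?_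
    exact (Real.sqrt_pos.2 (hS0 z)).ne'
  refine ⟨Φ, hΦd, fun z => by simp only [hΦ]; positivity, ?_, ?_, ?_⟩
  · -- gradient
    intro z w
    have hqder : ∀ y, HasFDerivAt (q y) ((2 : ℝ) • (innerSL ℝ (z - y))) z := by
      intro y
      have h := ((hasFDerivAt_id (𝕜 := ℝ) z).sub_const y).norm_sq
      have h2 := h.const_add (ε ^ 2)
      have e : ((2 : ℕ) • (innerSL ℝ (id z - y)).comp (ContinuousLinearMap.id ℝ ℂ)) =
          ((2 : ℝ) • (innerSL ℝ (z - y)) : ℂ →L[ℝ] ℝ) := by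
        ext v
        simp [two_mul]
      rw [← e]
      exact h2
    have hSder : HasFDerivAt S (∑ y ∈ Y, (-(q y z ^ 2)⁻¹) • ((2 : ℝ) • (innerSL ℝ (z - y)))) z := by
      simp only [hS]
      have := HasFDerivAt.fun_sum (u := Y) (A := fun y z => (q y z)⁻¹)
        (A' := fun y => (-(q y z ^ 2)⁻¹) • ((2 : ℝ) • (innerSL ℝ (z - y)))) (x := z) (fun y _ => by
          exact (hasDerivAt_inv (hq0 y z).ne').comp_hasFDerivAt z (hqder y))
      exact this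
    have hs : 0 < √(S z) := Real.sqrt_pos.2 (hS0 z)
    have hΦder := (hasDerivAt_inv hs.ne').comp_hasFDerivAt z (hSder.sqrt (hS0 z).ne')
    have hΦ' : fderiv ℝ Φ z = _ := hΦder.fderiv
    rw [hΦ']
    simp only [smul_apply, sum_apply, smul_eq_mul,
      innerSL_apply_apply]
    -- bound the sum
    have hsum : |∑ y ∈ Y, -(q y z ^ 2)⁻¹ * (2 * inner ℝ (z - y) w)| ≤
        2 * (√(S z)) ^ 3 * ‖w‖ := by
      calc |∑ y ∈ Y, -(q y z ^ 2)⁻¹ * (2 * inner ℝ (z - y) w)|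
          ≤ ∑ y ∈ Y, |-(q y z ^ 2)⁻¹ * (2 * inner ℝ (z - y) w)| := Finset.abs_sum_le_sum_abs _ _
        _ ≤ ∑ y ∈ Y, (q y z)⁻¹ * (2 * √(S z) * ‖w‖) := by
          refine Finset.sum_le_sum fun y hy => ?_
          have h1 : |inner ℝ (z - y) w| ≤ ‖z - y‖ * ‖w‖ := abs_real_inner_le_norm _ _
          have h2 : ‖z - y‖ * (q y z)⁻¹ ≤ √(S z) := by
            have h3 : (q y z)⁻¹ ≤ S z :=
              Finset.single_le_sum (f := fun y => (q y z)⁻¹)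
                (fun y _ => (inv_pos.2 (hq0 y z)).le) hy
            have h4 : ‖z - y‖ ≤ √(q y z) := by
              refine Real.le_sqrt_of_sq_le ?_
              simp only [hq]
              nlinarith [sq_nonneg ε]
            have h5 : √(q y z) * (q y z)⁻¹ = √((q y z)⁻¹) := by
              rw [Real.sqrt_inv]
              have h5' := Real.mul_self_sqrt (hq0 y z).le
              have h6 : √(q y z) ≠ 0 := (Real.sqrt_pos.2 (hq0 y z)).ne'
              calc √(q y z) * (q y z)⁻¹ = √(q y z) * (√(q y z) * √(q y z))⁻¹ := by rw [h5']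
                _ = (√(q y z))⁻¹ := by field_simp
            calc ‖z - y‖ * (q y z)⁻¹ ≤ √(q y z) * (q y z)⁻¹ :=
                  mul_le_mul_of_nonneg_right h4 (inv_pos.2 (hq0 y z)).le
              _ = √((q y z)⁻¹) := h5
              _ ≤ √(S z) := Real.sqrt_le_sqrt h3
          rw [abs_mul, abs_neg, abs_of_pos (inv_pos.2 (pow_pos (hq0 y z) 2)), abs_mul,
            abs_of_pos (by norm_num : (0 : ℝ) < 2)]
          have h7 : (q y z ^ 2)⁻¹ = (q y z)⁻¹ * (q y z)⁻¹ := by rw [sq, mul_inv]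
          rw [h7]
          have h8 : 0 < (q y z)⁻¹ := inv_pos.2 (hq0 y z)
          calc (q y z)⁻¹ * (q y z)⁻¹ * (2 * |inner ℝ (z - y) w|)
              ≤ (q y z)⁻¹ * (q y z)⁻¹ * (2 * (‖z - y‖ * ‖w‖)) := by gcongr
            _ = (q y z)⁻¹ * (2 * (‖z - y‖ * (q y z)⁻¹) * ‖w‖) := by ring
            _ ≤ (q y z)⁻¹ * (2 * √(S z) * ‖w‖) := by gcongr
        _ = S z * (2 * √(S z) * ‖w‖) := by rw [← Finset.sum_mul]
        _ = 2 * (√(S z)) ^ 3 * ‖w‖ := by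
          have h9 := Real.sq_sqrt (hS0 z).le
          calc S z * (2 * √(S z) * ‖w‖) = (√(S z)) ^ 2 * (2 * √(S z) * ‖w‖) := by rw [h9]
            _ = _ := by ring
    have hkey : ∀ x : ℝ, |x| ≤ 2 * (√(S z)) ^ 3 * ‖w‖ →
        |-(√(S z) ^ 2)⁻¹ * (1 / (2 * √(S z)) * x)| ≤ ‖w‖ := by
      intro x hx
      rw [abs_mul, abs_neg, abs_of_pos (inv_pos.2 (pow_pos hs 2)), abs_mul,
        abs_of_pos (by positivity : 0 < 1 / (2 * √(S z)))]
      calc (√(S z) ^ 2)⁻¹ * (1 / (2 * √(S z)) * |x|)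
          ≤ (√(S z) ^ 2)⁻¹ * (1 / (2 * √(S z)) * (2 * (√(S z)) ^ 3 * ‖w‖)) := by gcongr
        _ = ‖w‖ := by field_simp
    exact hkey _ hsum
  · -- lower bound
    intro z
    have hs : 0 < √(S z) := Real.sqrt_pos.2 (hS0 z)
    by_cases hd : infDist z (Y : Set ℂ) = 0
    · rw [hd]
      positivity
    have hd0 : 0 < infDist z (Y : Set ℂ) := lt_of_le_of_ne infDist_nonneg (Ne.symm hd)
    have h1 : S z ≤ Y.card * (infDist z (Y : Set ℂ) ^ 2)⁻¹ := by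
      rw [← nsmul_eq_mul]
      refine Finset.sum_le_card_nsmul _ _ _ fun y hy => ?_
      refine inv_anti₀ (by positivity) ?_
      have : infDist z (Y : Set ℂ) ≤ ‖z - y‖ := by
        rw [← dist_eq_norm]
        exact infDist_le_dist_of_mem (by exact_mod_cast hy)
      simp only [hq]
      nlinarith [sq_nonneg ε]
    have h2 : √(S z) * infDist z (Y : Set ℂ) ≤ √(Y.card) := by
      refine Real.le_sqrt_of_sq_le ?_
      rw [mul_pow, Real.sq_sqrt (hS0 z).le]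
      calc S z * infDist z (Y : Set ℂ) ^ 2
          ≤ (Y.card : ℝ) * (infDist z (Y : Set ℂ) ^ 2)⁻¹ * infDist z (Y : Set ℂ) ^ 2 := by gcongr
        _ = (Y.card : ℝ) := by field_simp
    simp only [hΦ]
    rw [← div_eq_mul_inv, le_div_iff₀ hs, mul_comm]
    exact h2
  · -- upper bound
    intro z y hy
    have hs : 0 < √(S z) := Real.sqrt_pos.2 (hS0 z)
    have h3 : (q y z)⁻¹ ≤ S z :=
      Finset.single_le_sum (f := fun y => (q y z)⁻¹) (fun y _ => (inv_pos.2 (hq0 y z)).le) hy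
    have h4 : √(q y z) ≤ ε + dist z y := by
      rw [Real.sqrt_le_left (by positivity)]
      simp only [hq, dist_eq_norm]
      nlinarith [norm_nonneg (z - y)]
    refine le_trans ?_ h4
    simp only [hΦ]
    rw [← Real.sqrt_inv]
    refine Real.sqrt_le_sqrt ?_
    exact inv_le_of_inv_le₀ (hq0 y z) h3

end

end Crest.Agent.R235.HoleB_859
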