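import Mathlib

/-!
Row 235, REG-CYL C09 (HOLE), helper859: the circle inequality
`|∫ ∑ Im (z̄ dz)| ≤ C k^{1/2} (∫ ∑ |dz|)²` for a closed `k`-valued curve.
-/

set_option autoImplicit false

open MeasureTheory Metric Set Filter Complex
open scoped ContDiff Topology ComplexConjugate

namespace Crest.Agent.R235.HoleC_859

noncomputable section

/-- the circle inequality, abstract form. -/
theorem circle_ineq {k : ℕ} {C : ℝ} (hC : 0 ≤ C) {ν : Measure ℝ} (TT : ℝ → Finset ℂ)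
    (aa : ℝ → ℂ → ℂ) (T0 : Finset ℂ) (h0 : T0.card = k)
    (hn : Integrable (fun τ => ∑ z ∈ TT τ, ‖aa τ z‖) ν)
    (h : ∀ ε > 0, ∃ (Y : Finset ℂ) (Φ Ψ : ℂ → ℝ), (∀ z ∈ T0, ∃ y ∈ Y, dist z y ≤ ε) ∧
      (∀ z, 0 ≤ Φ z) ∧ (∀ z, infDist z (Y : Set ℂ) ≤ √k * Φ z) ∧
      (∀ z, ∀ y ∈ Y, Φ z ≤ ε + dist z y) ∧
      (∀ z w, |(conj z * w).im - fderiv ℝ Ψ z w| ≤ C * infDist z (Y : Set ℂ) * ‖w‖) ∧
      (∀ᵐ τ ∂ν, ∑ z ∈ TT τ, Φ z ≤ ∑ z ∈ T0, Φ z + ∫ σ, ∑ z ∈ TT σ, ‖aa σ z‖ ∂ν) ∧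
      Integrable (fun τ => ∑ z ∈ TT τ, fderiv ℝ Ψ z (aa τ z)) ν ∧
      ∫ τ, ∑ z ∈ TT τ, fderiv ℝ Ψ z (aa τ z) ∂ν = 0) :
    |∫ τ, ∑ z ∈ TT τ, (conj z * aa τ z).im ∂ν| ≤
      C * √k * (∫ τ, ∑ z ∈ TT τ, ‖aa τ z‖ ∂ν) ^ 2 := by
  set L : ℝ := ∫ τ, ∑ z ∈ TT τ, ‖aa τ z‖ ∂ν with hL
  have hL0 : 0 ≤ L := integral_nonneg fun τ => Finset.sum_nonneg fun _ _ => norm_nonneg _
  by_cases hb : Integrable (fun τ => ∑ z ∈ TT τ, (conj z * aa τ z).im) ν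
  swap
  · rw [integral_undef hb, abs_zero]
    positivity
  -- the bound for every ε
  have key : ∀ ε > 0, |∫ τ, ∑ z ∈ TT τ, (conj z * aa τ z).im ∂ν| ≤
      C * (√k * (2 * k * ε + L)) * L := by
    intro ε hε
    obtain ⟨Y, Φ, Ψ, h1, h2, h3, h4, h5, h6, h7, h8⟩ := h ε hε
    have e1 : ∫ τ, ∑ z ∈ TT τ, (conj z * aa τ z).im ∂ν =
        ∫ τ, (∑ z ∈ TT τ, (conj z * aa τ z).im - ∑ z ∈ TT τ, fderiv ℝ Ψ z (aa τ z)) ∂ν := by
      rw [integral_sub hb h7, h8, sub_zero]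
    have hT0 : ∑ z ∈ T0, Φ z ≤ 2 * k * ε := by
      calc ∑ z ∈ T0, Φ z ≤ ∑ _z ∈ T0, 2 * ε := by
            refine Finset.sum_le_sum fun z hz => ?_
            obtain ⟨y, hy, hzy⟩ := h1 z hz
            linarith [h4 z y hy]
        _ = 2 * k * ε := by
            rw [Finset.sum_const, h0, nsmul_eq_mul]
            ring
    rw [e1]
    have hbd : ∀ᵐ τ ∂ν,
        ‖∑ z ∈ TT τ, (conj z * aa τ z).im - ∑ z ∈ TT τ, fderiv ℝ Ψ z (aa τ z)‖ ≤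
        C * (√k * (2 * k * ε + L)) * ∑ z ∈ TT τ, ‖aa τ z‖ := by
      filter_upwards [h6] with τ hτ
      rw [← Finset.sum_sub_distrib, Real.norm_eq_abs]
      refine (Finset.abs_sum_le_sum_abs _ _).trans ?_
      rw [Finset.mul_sum]
      refine Finset.sum_le_sum fun z hz => (h5 z _).trans ?_
      have h9 : Φ z ≤ ∑ z ∈ TT τ, Φ z := Finset.single_le_sum (fun z _ => h2 z) hz
      have h10 : infDist z (Y : Set ℂ) ≤ √k * (2 * k * ε + L) := by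
        refine (h3 z).trans (mul_le_mul_of_nonneg_left ?_ (Real.sqrt_nonneg _))
        linarith
      gcongr
    calc |∫ τ, (∑ z ∈ TT τ, (conj z * aa τ z).im - ∑ z ∈ TT τ, fderiv ℝ Ψ z (aa τ z)) ∂ν|
        = ‖∫ τ, (∑ z ∈ TT τ, (conj z * aa τ z).im - ∑ z ∈ TT τ, fderiv ℝ Ψ z (aa τ z)) ∂ν‖ :=
          (Real.norm_eq_abs _).symm
      _ ≤ ∫ τ, C * (√k * (2 * k * ε + L)) * ∑ z ∈ TT τ, ‖aa τ z‖ ∂ν :=
          norm_integral_le_of_norm_le (hn.const_mul _) hbd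
      _ = _ := by rw [integral_const_mul]
  -- ε → 0
  have hlim : Tendsto (fun ε : ℝ => C * (√k * (2 * k * ε + L)) * L) (𝓝[>] 0)
      (𝓝 (C * (√k * (2 * k * 0 + L)) * L)) := by
    refine Tendsto.mono_left ?_ nhdsWithin_le_nhds
    exact Continuous.tendsto (by fun_prop) 0
  have := ge_of_tendsto hlim (eventually_of_mem self_mem_nhdsWithin fun ε hε => key ε hε)
  calc _ ≤ _ := this
    _ = _ := by ring

end

end Crest.Agent.R235.HoleC_859
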