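import Mathlib

/-!
Row 235 (S0364), REG-CYL C09/HOLE-R (helper128, for helper859): a weak derivative along the
rotation field gives absolute continuity on almost every circle; averaging over rotations.
-/

set_option autoImplicit false

open MeasureTheory Metric Set Complex
open scoped ContDiff Topology

namespace Crest.Agent.R235.HoleR_128

noncomputable section

/-- rotation by the angle `τ` about `t₀`. -/
def rot (t₀ : ℂ) (τ : ℝ) (t : ℂ) : ℂ := t₀ + exp (τ * I) * (t - t₀)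

theorem rot_zero (t₀ t : ℂ) : rot t₀ 0 t = t := by simp [rot]

theorem rot_two_pi (t₀ t : ℂ) : rot t₀ (2 * Real.pi) t = t := by
  simp [rot]

theorem rot_rot (t₀ : ℂ) (σ τ : ℝ) (t : ℂ) : rot t₀ σ (rot t₀ τ t) = rot t₀ (σ + τ) t := by
  simp only [rot, ofReal_add, add_mul, exp_add]
  ring

theorem rot_neg_rot (t₀ : ℂ) (τ : ℝ) (t : ℂ) : rot t₀ (-τ) (rot t₀ τ t) = t := by
  rw [rot_rot]; simp [rot_zero]

theorem rot_rot_neg (t₀ : ℂ) (τ : ℝ) (t : ℂ) : rot t₀ τ (rot t₀ (-τ) t) = t := by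
  rw [rot_rot]; simp [rot_zero]

theorem norm_rot_sub (t₀ : ℂ) (τ : ℝ) (t : ℂ) : ‖rot t₀ τ t - t₀‖ = ‖t - t₀‖ := by
  simp [rot, Complex.norm_exp_ofReal_mul_I]

theorem rot_mem_ball {t₀ : ℂ} {P τ : ℝ} {t : ℂ} : rot t₀ τ t ∈ ball t₀ P ↔ t ∈ ball t₀ P := by
  rw [mem_ball, mem_ball, dist_eq_norm, dist_eq_norm, norm_rot_sub]

theorem rot_preimage_ball (t₀ : ℂ) (P τ : ℝ) : rot t₀ τ ⁻¹' ball t₀ P = ball t₀ P := by
  ext t; exact rot_mem_ball

theorem rot_cont₂ (t₀ : ℂ) : Continuous fun z : ℝ × ℂ => rot t₀ z.1 z.2 := by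
  unfold rot; fun_prop

theorem rot_cont (t₀ : ℂ) (τ : ℝ) : Continuous (rot t₀ τ) := by
  unfold rot; fun_prop

theorem mp_rot' (t₀ : ℂ) (τ : ℝ) : MeasurePreserving (rot t₀ τ) volume volume := by
  have h1 : MeasurePreserving (fun t : ℂ => t - t₀) volume volume :=
    measurePreserving_sub_right volume t₀
  have h2 : MeasurePreserving (rotation (Circle.exp τ)) volume volume :=
    (rotation (Circle.exp τ)).measurePreserving
  have h3 : MeasurePreserving (fun t : ℂ => t₀ + t) volume volume :=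
    measurePreserving_add_left volume t₀
  have h := h3.comp (h2.comp h1)
  have : (fun t : ℂ => t₀ + t) ∘ ((rotation (Circle.exp τ)) ∘ fun t : ℂ => t - t₀) = rot t₀ τ := by
    funext t
    simp [rot, rotation_apply, Circle.coe_exp]
  rwa [this] at h

/-- (R0) -/
theorem mp_rot (t₀ : ℂ) (P τ : ℝ) :
    MeasurePreserving (rot t₀ τ) (volume.restrict (ball t₀ P)) (volume.restrict (ball t₀ P)) := by
  have := (mp_rot' t₀ τ).restrict_preimage (measurableSet_ball (x := t₀) (ε := P))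
  rwa [rot_preimage_ball] at this

/-- the rotation as a measure preserving map of the product. -/
theorem mp_prod (t₀ : ℂ) (P : ℝ) (ν : Measure ℝ) [SFinite ν] :
    MeasurePreserving (fun z : ℂ × ℝ => (rot t₀ z.2 z.1, z.2))
      ((volume.restrict (ball t₀ P)).prod ν) ((volume.restrict (ball t₀ P)).prod ν) := by
  have h1 : MeasurePreserving (fun z : ℝ × ℂ => (z.1, rot t₀ z.1 z.2))
      (ν.prod (volume.restrict (ball t₀ P))) (ν.prod (volume.restrict (ball t₀ P))) :=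
    (MeasurePreserving.id ν).skew_product (g := fun τ t => rot t₀ τ t)
      (rot_cont₂ t₀).measurable (Filter.Eventually.of_forall fun τ => (mp_rot t₀ P τ).map_eq)
  have h2 := (Measure.measurePreserving_swap (μ := ν) (ν := volume.restrict (ball t₀ P))).comp
    (h1.comp (Measure.measurePreserving_swap (μ := volume.restrict (ball t₀ P)) (ν := ν)))
  exact h2

/-- (R1), with an arbitrary measure of angles. -/
theorem ae_rot' {t₀ : ℂ} {P : ℝ} {p : ℂ → Prop} (ν : Measure ℝ) [SFinite ν]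
    (h : ∀ᵐ t ∂(volume.restrict (ball t₀ P)), p t) :
    ∀ᵐ t ∂(volume.restrict (ball t₀ P)), ∀ᵐ τ ∂ν, p (rot t₀ τ t) := by
  have h1 : ∀ᵐ z ∂((volume.restrict (ball t₀ P)).prod ν), p z.1 :=
    Measure.quasiMeasurePreserving_fst.ae h
  have h2 := (mp_prod t₀ P ν).quasiMeasurePreserving.ae h1
  exact Measure.ae_ae_of_ae_prod h2

/-- (R1) -/
theorem ae_rot {t₀ : ℂ} {P : ℝ} {p : ℂ → Prop} (h : ∀ᵐ t ∂(volume.restrict (ball t₀ P)), p t) :
    ∀ᵐ t ∂(volume.restrict (ball t₀ P)), ∀ᵐ τ ∂(volume.restrict (Ioc (0:ℝ) (2 * Real.pi))),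
      p (rot t₀ τ t) := ae_rot' _ h

theorem int_prod {t₀ : ℂ} {P : ℝ} {b : ℂ → ℝ} (hb : IntegrableOn b (ball t₀ P)) (ν : Measure ℝ)
    [IsFiniteMeasure ν] :
    Integrable (fun z : ℂ × ℝ => b (rot t₀ z.2 z.1)) ((volume.restrict (ball t₀ P)).prod ν) := by
  have h1 : Integrable (fun z : ℂ × ℝ => b z.1) ((volume.restrict (ball t₀ P)).prod ν) :=
    Integrable.comp_fst hb ν
  have h2 := ((mp_prod t₀ P ν).integrable_comp h1.aestronglyMeasurable).2 h1
  exact h2

theorem integral_prod_rot {t₀ : ℂ} {P : ℝ} {b : ℂ → ℝ} (hb : IntegrableOn b (ball t₀ P))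
    (ν : Measure ℝ) [IsFiniteMeasure ν] :
    ∫ t in ball t₀ P, (∫ τ, b (rot t₀ τ t) ∂ν) = ν.real univ * ∫ t in ball t₀ P, b t := by
  have h1 : Integrable (fun z : ℂ × ℝ => b z.1) ((volume.restrict (ball t₀ P)).prod ν) :=
    Integrable.comp_fst hb ν
  rw [← integral_prod _ (int_prod hb ν)]
  have h2 := (mp_prod t₀ P ν).map_eq
  have h3 := integral_map (mp_prod t₀ P ν).measurable.aemeasurable
    (f := fun z : ℂ × ℝ => b z.1) (by rw [h2]; exact h1.aestronglyMeasurable)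
  rw [h2, integral_fun_fst] at h3
  simpa using h3.symm

/-- (R2) -/
theorem int_rot {t₀ : ℂ} {P : ℝ} {b : ℂ → ℝ} (hb : IntegrableOn b (ball t₀ P)) :
    (∀ᵐ t ∂(volume.restrict (ball t₀ P)),
      IntegrableOn (fun τ : ℝ => b (rot t₀ τ t)) (Ioc 0 (2 * Real.pi))) ∧
    IntegrableOn (fun t => ∫ τ in Ioc (0:ℝ) (2 * Real.pi), b (rot t₀ τ t)) (ball t₀ P) ∧
    ∫ t in ball t₀ P, (∫ τ in Ioc (0:ℝ) (2 * Real.pi), b (rot t₀ τ t)) =
      2 * Real.pi * ∫ t in ball t₀ P, b t := by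
  have h := int_prod hb (volume.restrict (Ioc (0:ℝ) (2 * Real.pi)))
  refine ⟨h.prod_right_ae, h.integral_prod_left, ?_⟩
  rw [integral_prod_rot hb]
  congr 1
  simp [Measure.real, Real.pi_pos.le]

/-! ### the weak derivative -/

theorem hasDerivAt_rot (t₀ t : ℂ) (τ : ℝ) :
    HasDerivAt (fun τ : ℝ => rot t₀ (-τ) t) (-(I * (rot t₀ (-τ) t - t₀))) τ := by
  have h1 : HasDerivAt (fun τ : ℝ => ((-τ : ℝ) : ℂ) * I) (-1 * I) τ := by
    have := (hasDerivAt_neg τ).ofReal_comp.mul_const I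
    simpa using this
  have h2 := (h1.cexp.mul_const (t - t₀)).const_add t₀
  refine h2.congr_deriv ?_
  simp [rot]; ring

theorem fderiv_comp_rot {η : ℂ → ℝ} (hη : ContDiff ℝ ∞ η) (t₀ : ℂ) (τ : ℝ) (t v : ℂ) :
    fderiv ℝ (fun t => η (rot t₀ (-τ) t)) t v =
      fderiv ℝ η (rot t₀ (-τ) t) (exp (((-τ : ℝ) : ℂ) * I) * v) := by
  have h1 : HasFDerivAt (fun t : ℂ => rot t₀ (-τ) t)
      ((exp (((-τ : ℝ) : ℂ) * I)) • (ContinuousLinearMap.id ℝ ℂ)) t := by
    have h0 : HasFDerivAt (fun t : ℂ => t - t₀) (ContinuousLinearMap.id ℝ ℂ) t :=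
      (hasFDerivAt_id t).sub_const t₀
    have := (h0.const_mul (exp (((-τ : ℝ) : ℂ) * I))).const_add t₀
    exact this
  have h2 : HasFDerivAt η (fderiv ℝ η (rot t₀ (-τ) t)) (rot t₀ (-τ) t) :=
    (hη.differentiable (by simp)).differentiableAt.hasFDerivAt
  have h3 := h2.comp t h1
  have h4 : (η ∘ fun t => rot t₀ (-τ) t) = fun t => η (rot t₀ (-τ) t) := rfl
  rw [h4] at h3
  rw [h3.fderiv]
  simp

section weak

variable {t₀ : ℂ} {P : ℝ} {F g : ℂ → ℝ}

theorem phi_deriv (hF : IntegrableOn F (ball t₀ P))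
    (weak : ∀ η : ℂ → ℝ, ContDiff ℝ ∞ η → HasCompactSupport η → tsupport η ⊆ ball t₀ P →
      ∫ t in ball t₀ P, F t * fderiv ℝ η t (I * (t - t₀)) = - ∫ t in ball t₀ P, g t * η t)
    {η : ℂ → ℝ} (hη : ContDiff ℝ ∞ η) (hηc : HasCompactSupport η) (hηs : tsupport η ⊆ ball t₀ P)
    (τ : ℝ) :
    HasDerivAt (fun τ : ℝ => ∫ t in ball t₀ P, F t * η (rot t₀ (-τ) t))
      (∫ t in ball t₀ P, g t * η (rot t₀ (-τ) t)) τ := by
  obtain ⟨C, hC⟩ := (hη.continuous_fderiv (by simp)).bounded_above_of_compact_support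
    (hηc.fderiv (𝕜 := ℝ))
  obtain ⟨C', hC'⟩ := hη.continuous.bounded_above_of_compact_support hηc
  have hcη : ∀ σ : ℝ, Continuous fun t => η (rot t₀ (-σ) t) := fun σ =>
    hη.continuous.comp (rot_cont _ _)
  have hd : ∀ (σ : ℝ) (t : ℂ), HasDerivAt (fun τ : ℝ => F t * η (rot t₀ (-τ) t))
      (F t * fderiv ℝ η (rot t₀ (-σ) t) (-(I * (rot t₀ (-σ) t - t₀)))) σ := by
    intro σ t
    have h2 : HasFDerivAt η (fderiv ℝ η (rot t₀ (-σ) t)) (rot t₀ (-σ) t) :=
      (hη.differentiable (by simp)).differentiableAt.hasFDerivAt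
    exact (h2.comp_hasDerivAt σ (hasDerivAt_rot t₀ t σ)).const_mul (F t)
  have key := hasDerivAt_integral_of_dominated_loc_of_deriv_le (μ := volume.restrict (ball t₀ P))
    (F := fun (τ : ℝ) (t : ℂ) => F t * η (rot t₀ (-τ) t))
    (F' := fun (σ : ℝ) (t : ℂ) =>
      F t * fderiv ℝ η (rot t₀ (-σ) t) (-(I * (rot t₀ (-σ) t - t₀))))
    (x₀ := τ) (s := univ) (bound := fun t => ‖F t‖ * (C * P)) Filter.univ_mem
    (Filter.Eventually.of_forall fun σ =>
      hF.aestronglyMeasurable.mul (hcη σ).aestronglyMeasurable)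
    (hF.mul_bdd (c := C') (hcη τ).aestronglyMeasurable
      (Filter.Eventually.of_forall fun t => hC' _))
    (by
      refine hF.aestronglyMeasurable.mul (Continuous.aestronglyMeasurable ?_)
      have h1 : Continuous fun t => fderiv ℝ η (rot t₀ (-τ) t) :=
        (hη.continuous_fderiv (by simp)).comp (rot_cont _ _)
      have h2 := rot_cont t₀ (-τ)
      exact h1.clm_apply (by fun_prop))
    (by
      filter_upwards [ae_restrict_mem measurableSet_ball] with t ht σ _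
      rw [norm_mul]
      refine mul_le_mul_of_nonneg_left ?_ (norm_nonneg _)
      refine (ContinuousLinearMap.le_opNorm _ _).trans ?_
      have h3 : ‖-(I * (rot t₀ (-σ) t - t₀))‖ ≤ P := by
        rw [norm_neg, norm_mul, norm_rot_sub, norm_I, one_mul, ← dist_eq_norm]
        exact (mem_ball.1 ht).le
      exact mul_le_mul (hC _) h3 (norm_nonneg _) ((norm_nonneg _).trans (hC 0)))
    (hF.norm.mul_const _)
    (Filter.Eventually.of_forall fun t σ _ => hd σ t)
  refine key.2.congr_deriv ?_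
  -- identify the derivative
  have hη' : ContDiff ℝ ∞ (fun t => η (rot t₀ (-τ) t)) := by
    apply hη.comp
    unfold rot
    fun_prop
  have hsupp : tsupport (fun t => η (rot t₀ (-τ) t)) ⊆ rot t₀ (-τ) ⁻¹' tsupport η :=
    tsupport_comp_subset_preimage η (rot_cont t₀ (-τ))
  have hsub : tsupport (fun t => η (rot t₀ (-τ) t)) ⊆ ball t₀ P :=
    hsupp.trans fun t ht => rot_mem_ball.1 (hηs ht)
  have hcs : HasCompactSupport (fun t => η (rot t₀ (-τ) t)) := by
    have h5 : rot t₀ (-τ) ⁻¹' tsupport η = rot t₀ τ '' tsupport η := by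
      ext t
      constructor
      · intro ht
        exact ⟨rot t₀ (-τ) t, ht, rot_rot_neg _ _ _⟩
      · rintro ⟨s, hs, rfl⟩
        show rot t₀ (-τ) (rot t₀ τ s) ∈ tsupport η
        rwa [rot_neg_rot]
    have h6 : IsCompact (rot t₀ (-τ) ⁻¹' tsupport η) := by
      rw [h5]; exact hηc.isCompact.image (rot_cont _ _)
    exact h6.of_isClosed_subset (isClosed_tsupport _) hsupp
  have hw := weak _ hη' hcs hsub
  have h7 : ∫ t in ball t₀ P, F t * fderiv ℝ η (rot t₀ (-τ) t) (-(I * (rot t₀ (-τ) t - t₀))) =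
      - ∫ t in ball t₀ P, F t * fderiv ℝ (fun t => η (rot t₀ (-τ) t)) t (I * (t - t₀)) := by
    rw [← integral_neg]
    congr 1
    funext t
    have h8 : exp (((-τ : ℝ) : ℂ) * I) * (I * (t - t₀)) = I * (rot t₀ (-τ) t - t₀) := by
      simp only [rot]; ring
    rw [fderiv_comp_rot hη, map_neg, mul_neg, h8]
  rw [h7, hw, neg_neg]

theorem psi_cont (hg : IntegrableOn g (ball t₀ P)) {η : ℂ → ℝ} (hη : ContDiff ℝ ∞ η)
    (hηc : HasCompactSupport η) :
    Continuous fun τ : ℝ => ∫ t in ball t₀ P, g t * η (rot t₀ (-τ) t) := by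
  obtain ⟨C', hC'⟩ := hη.continuous.bounded_above_of_compact_support hηc
  have hcη : ∀ σ : ℝ, Continuous fun t => η (rot t₀ (-σ) t) := fun σ =>
    hη.continuous.comp (rot_cont _ _)
  refine continuous_of_dominated (bound := fun t => ‖g t‖ * C')
    (fun σ => hg.aestronglyMeasurable.mul (hcη σ).aestronglyMeasurable)
    (fun σ => Filter.Eventually.of_forall fun t => ?_) (hg.norm.mul_const _)
    (Filter.Eventually.of_forall fun t => ?_)
  · rw [norm_mul]
    exact mul_le_mul_of_nonneg_left (hC' _) (norm_nonneg _)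
  · have h1 : Continuous fun σ : ℝ => rot t₀ (-σ) t := by unfold rot; fun_prop
    exact continuous_const.mul (hη.continuous.comp h1)

theorem change {b : ℂ → ℝ} (hb : IntegrableOn b (ball t₀ P)) {η : ℂ → ℝ} (hη : Continuous η)
    (τ : ℝ) :
    ∫ t in ball t₀ P, b t * η (rot t₀ (-τ) t) = ∫ t in ball t₀ P, b (rot t₀ τ t) * η t := by
  have h2 := (mp_rot t₀ P τ).map_eq
  have hcη : Continuous fun t => η (rot t₀ (-τ) t) := hη.comp (rot_cont _ _)
  have h3 := integral_map (mp_rot t₀ P τ).measurable.aemeasurable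
    (f := fun t => b t * η (rot t₀ (-τ) t))
    (by rw [h2]; exact hb.aestronglyMeasurable.mul hcη.aestronglyMeasurable)
  rw [h2] at h3
  rw [h3]
  congr 1
  funext t
  rw [rot_neg_rot]

/-- for every angle, almost every point. -/
theorem rot_every (hF : IntegrableOn F (ball t₀ P)) (hg : IntegrableOn g (ball t₀ P))
    (weak : ∀ η : ℂ → ℝ, ContDiff ℝ ∞ η → HasCompactSupport η → tsupport η ⊆ ball t₀ P →
      ∫ t in ball t₀ P, F t * fderiv ℝ η t (I * (t - t₀)) = - ∫ t in ball t₀ P, g t * η t)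
    {τ : ℝ} (hτ : 0 ≤ τ) :
    ∀ᵐ t ∂(volume.restrict (ball t₀ P)),
      F (rot t₀ τ t) - F t - ∫ σ in Ioc (0:ℝ) τ, g (rot t₀ σ t) = 0 := by
  have hFr : IntegrableOn (fun t => F (rot t₀ τ t)) (ball t₀ P) :=
    ((mp_rot t₀ P τ).integrable_comp hF.aestronglyMeasurable).2 hF
  have hgp := int_prod hg (volume.restrict (Ioc (0:ℝ) τ))
  have hK : IntegrableOn (fun t => ∫ σ in Ioc (0:ℝ) τ, g (rot t₀ σ t)) (ball t₀ P) :=
    hgp.integral_prod_left
  have hH : IntegrableOn (fun t => F (rot t₀ τ t) - F t - ∫ σ in Ioc (0:ℝ) τ, g (rot t₀ σ t))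
      (ball t₀ P) := (hFr.sub hF).sub hK
  rw [ae_restrict_iff' measurableSet_ball]
  have := isOpen_ball.ae_eq_zero_of_integral_contDiff_smul_eq_zero (μ := volume)
    (f := fun t => F (rot t₀ τ t) - F t - ∫ σ in Ioc (0:ℝ) τ, g (rot t₀ σ t))
    (U := ball t₀ P) hH.locallyIntegrableOn ?_
  · exact this
  intro η hη hηc hηs
  obtain ⟨C', hC'⟩ := hη.continuous.bounded_above_of_compact_support hηc
  -- reduce to the ball
  have h0 : ∫ x, η x • (F (rot t₀ τ x) - F x - ∫ σ in Ioc (0:ℝ) τ, g (rot t₀ σ x)) =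
      ∫ x in ball t₀ P, η x • (F (rot t₀ τ x) - F x - ∫ σ in Ioc (0:ℝ) τ, g (rot t₀ σ x)) := by
    rw [setIntegral_eq_integral_of_forall_compl_eq_zero]
    intro x hx
    have : η x = 0 := by
      by_contra h
      exact hx (hηs (subset_tsupport _ h))
    rw [this, zero_smul]
  rw [h0]
  -- the fundamental theorem of calculus
  have hftc := intervalIntegral.integral_eq_sub_of_hasDerivAt
    (f := fun τ : ℝ => ∫ t in ball t₀ P, F t * η (rot t₀ (-τ) t))
    (f' := fun τ : ℝ => ∫ t in ball t₀ P, g t * η (rot t₀ (-τ) t)) (a := 0) (b := τ)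
    (fun σ _ => phi_deriv hF weak hη hηc hηs σ) ((psi_cont hg hη hηc).intervalIntegrable _ _)
  simp only [change hF hη.continuous, change hg hη.continuous, rot_zero] at hftc
  rw [intervalIntegral.integral_of_le hτ] at hftc
  -- Fubini
  have hfub : ∫ σ in Ioc (0:ℝ) τ, (∫ t in ball t₀ P, g (rot t₀ σ t) * η t) =
      ∫ t in ball t₀ P, (∫ σ in Ioc (0:ℝ) τ, g (rot t₀ σ t)) * η t := by
    have h1 : Integrable (fun z : ℂ × ℝ => g (rot t₀ z.2 z.1) * η z.1)
        ((volume.restrict (ball t₀ P)).prod (volume.restrict (Ioc (0:ℝ) τ))) :=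
      hgp.mul_bdd (c := C') (hη.continuous.comp continuous_fst).aestronglyMeasurable
        (Filter.Eventually.of_forall fun z => hC' _)
    rw [← integral_integral_swap (f := fun t σ => g (rot t₀ σ t) * η t) h1]
    congr 1
    funext t
    rw [integral_mul_const]
  rw [hfub] at hftc
  have e1 : IntegrableOn (fun t => F (rot t₀ τ t) * η t) (ball t₀ P) :=
    hFr.mul_bdd (c := C') hη.continuous.aestronglyMeasurable
      (Filter.Eventually.of_forall fun z => hC' _)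
  have e2 : IntegrableOn (fun t => F t * η t) (ball t₀ P) :=
    hF.mul_bdd (c := C') hη.continuous.aestronglyMeasurable
      (Filter.Eventually.of_forall fun z => hC' _)
  have e3 : IntegrableOn (fun t => (∫ σ in Ioc (0:ℝ) τ, g (rot t₀ σ t)) * η t) (ball t₀ P) :=
    hK.mul_bdd (c := C') hη.continuous.aestronglyMeasurable
      (Filter.Eventually.of_forall fun z => hC' _)
  have e4 : ∫ x in ball t₀ P, η x • (F (rot t₀ τ x) - F x - ∫ σ in Ioc (0:ℝ) τ, g (rot t₀ σ x)) =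
      (∫ x in ball t₀ P, F (rot t₀ τ x) * η x) - (∫ x in ball t₀ P, F x * η x) -
        ∫ x in ball t₀ P, (∫ σ in Ioc (0:ℝ) τ, g (rot t₀ σ x)) * η x := by
    have e12 : IntegrableOn (fun t => F (rot t₀ τ t) * η t - F t * η t) (ball t₀ P) := e1.sub e2
    rw [← integral_sub e1 e2, ← integral_sub e12 e3]
    congr 1
    funext x
    simp only [smul_eq_mul]
    ring
  rw [e4, hftc]
  ring

/-- (R3) for measurable representatives. -/
theorem rot_weak_meas (hFm : StronglyMeasurable F) (hgm : StronglyMeasurable g)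
    (hF : IntegrableOn F (ball t₀ P)) (hg : IntegrableOn g (ball t₀ P))
    (weak : ∀ η : ℂ → ℝ, ContDiff ℝ ∞ η → HasCompactSupport η → tsupport η ⊆ ball t₀ P →
      ∫ t in ball t₀ P, F t * fderiv ℝ η t (I * (t - t₀)) = - ∫ t in ball t₀ P, g t * η t) :
    ∀ᵐ t ∂(volume.restrict (ball t₀ P)),
      ∀ᵐ τ ∂(volume.restrict (Ioc (0:ℝ) (2 * Real.pi))),
        F (rot t₀ τ t) - F t - ∫ σ in Ioc (0:ℝ) τ, g (rot t₀ σ t) = 0 := by
  have hrot : Measurable fun z : ℂ × ℝ => rot t₀ z.2 z.1 :=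
    ((rot_cont₂ t₀).comp continuous_swap).measurable
  have hK : StronglyMeasurable fun z : ℂ × ℝ => ∫ σ in Ioc (0:ℝ) z.2, g (rot t₀ σ z.1) := by
    have h1 : (fun z : ℂ × ℝ => ∫ σ in Ioc (0:ℝ) z.2, g (rot t₀ σ z.1)) =
        fun z : ℂ × ℝ => ∫ σ : ℝ, {x : (ℂ × ℝ) × ℝ | 0 < x.2 ∧ x.2 ≤ x.1.2}.indicator
          (fun x => g (rot t₀ x.2 x.1.1)) (z, σ) := by
      funext z
      rw [← integral_indicator measurableSet_Ioc]
      congr 1
    rw [h1]
    apply StronglyMeasurable.integral_prod_right (f := fun (z : ℂ × ℝ) (σ : ℝ) =>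
      {x : (ℂ × ℝ) × ℝ | 0 < x.2 ∧ x.2 ≤ x.1.2}.indicator
          (fun x => g (rot t₀ x.2 x.1.1)) (z, σ))
    have h2 : StronglyMeasurable ({x : (ℂ × ℝ) × ℝ | 0 < x.2 ∧ x.2 ≤ x.1.2}.indicator
          (fun x : (ℂ × ℝ) × ℝ => g (rot t₀ x.2 x.1.1))) := by
      apply StronglyMeasurable.indicator
      · exact hgm.comp_measurable (hrot.comp (by fun_prop :
          Measurable fun x : (ℂ × ℝ) × ℝ => (x.1.1, x.2)))
      · exact (measurableSet_lt measurable_const measurable_snd).inter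
          (measurableSet_le measurable_snd (measurable_snd.comp measurable_fst))
    exact h2
  have hH : StronglyMeasurable fun z : ℂ × ℝ =>
      F (rot t₀ z.2 z.1) - F z.1 - ∫ σ in Ioc (0:ℝ) z.2, g (rot t₀ σ z.1) :=
    ((hFm.comp_measurable hrot).sub (hFm.comp_measurable measurable_fst)).sub hK
  have hS : MeasurableSet {z : ℂ × ℝ |
      F (rot t₀ z.2 z.1) - F z.1 - ∫ σ in Ioc (0:ℝ) z.2, g (rot t₀ σ z.1) = 0} :=
    hH.measurable (measurableSet_singleton 0)
  rw [Measure.ae_ae_comm hS]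
  filter_upwards [ae_restrict_mem measurableSet_Ioc] with τ hτ
  exact rot_every hF hg weak hτ.1.le

/-- (R3) -/
theorem rot_weak (hF : IntegrableOn F (ball t₀ P)) (hg : IntegrableOn g (ball t₀ P))
    (weak : ∀ η : ℂ → ℝ, ContDiff ℝ ∞ η → HasCompactSupport η → tsupport η ⊆ ball t₀ P →
      ∫ t in ball t₀ P, F t * fderiv ℝ η t (I * (t - t₀)) = - ∫ t in ball t₀ P, g t * η t) :
    ∀ᵐ t ∂(volume.restrict (ball t₀ P)),
      IntegrableOn (fun σ : ℝ => g (rot t₀ σ t)) (Ioc 0 (2 * Real.pi)) ∧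
      (∫ σ in Ioc (0:ℝ) (2 * Real.pi), g (rot t₀ σ t)) = 0 ∧
      ∀ᵐ τ ∂(volume.restrict (Ioc (0:ℝ) (2 * Real.pi))),
        F (rot t₀ τ t) - F t = ∫ σ in Ioc (0:ℝ) τ, g (rot t₀ σ t) := by
  have h2π : ∀ᵐ t ∂(volume.restrict (ball t₀ P)),
      F (rot t₀ (2 * Real.pi) t) - F t - ∫ σ in Ioc (0:ℝ) (2 * Real.pi), g (rot t₀ σ t) = 0 :=
    rot_every hF hg weak (by positivity)
  obtain ⟨F', hF'm, hFF'⟩ := hF.aestronglyMeasurable
  obtain ⟨g', hg'm, hgg'⟩ := hg.aestronglyMeasurable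
  have hF' : IntegrableOn F' (ball t₀ P) := hF.congr_fun_ae hFF'
  have hg' : IntegrableOn g' (ball t₀ P) := hg.congr_fun_ae hgg'
  have weak' : ∀ η : ℂ → ℝ, ContDiff ℝ ∞ η → HasCompactSupport η → tsupport η ⊆ ball t₀ P →
      ∫ t in ball t₀ P, F' t * fderiv ℝ η t (I * (t - t₀)) = - ∫ t in ball t₀ P, g' t * η t := by
    intro η h1 h2 h3
    rw [← integral_congr_ae (f := fun t => F t * fderiv ℝ η t (I * (t - t₀)))
        (g := fun t => F' t * fderiv ℝ η t (I * (t - t₀)))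
        (by filter_upwards [hFF'] with t ht; rw [ht]),
      ← integral_congr_ae (f := fun t => g t * η t) (g := fun t => g' t * η t)
        (by filter_upwards [hgg'] with t ht; rw [ht])]
    exact weak η h1 h2 h3
  have hmain := rot_weak_meas hF'm hg'm hF' hg' weak'
  have hrF := ae_rot hFF'
  have hrg := ae_rot hgg'
  filter_upwards [(int_rot hg).1, h2π, hmain, hrF, hrg, hFF'] with t h1 h2 h3 h4 h5 h6
  refine ⟨h1, ?_, ?_⟩
  · rw [rot_two_pi] at h2; linarith
  · filter_upwards [h3, h4, ae_restrict_mem measurableSet_Ioc] with τ h7 h8 h9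
    have h10 : ∫ σ in Ioc (0:ℝ) τ, g (rot t₀ σ t) = ∫ σ in Ioc (0:ℝ) τ, g' (rot t₀ σ t) := by
      apply integral_congr_ae
      have : volume.restrict (Ioc (0:ℝ) τ) ≤ volume.restrict (Ioc (0:ℝ) (2 * Real.pi)) :=
        Measure.restrict_mono (Ioc_subset_Ioc_right h9.2) le_rfl
      exact ae_mono this h5
    rw [h10, h8, h6]
    linarith

end weak

end

end Crest.Agent.R235.HoleR_128
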