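import Crest.Agent.R235.HoleA_800
import Crest.Agent.R235.HoleR_128
import Crest.Agent.R235.HoleB_859
import Crest.Agent.R235.HoleC_859

/-!
Row 235, REG-CYL C09 (HOLE), helper859: the planar theorem.
A `k`-valued function `T` on the disc `ball t₀ P` with weak derivative in `L²` satisfies
`|∫ h ∑ Im (z̄ dz (i (t - t₀)))| ≤ C ∫ |h| |t - t₀|² e` for all radial `h`.
-/

set_option autoImplicit false

open MeasureTheory Metric Set Filter Complex
open scoped ContDiff Topology ComplexConjugate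

namespace Crest.Agent.R235.HoleD_859

open HoleR_128

noncomputable section

/-- the real linear map with values `p x` at `1` and `q x` at `i`. -/
def sv (p q : ℂ × ℂ → ℂ) (x : ℂ × ℂ) (v : ℂ) : ℂ := v.re • p x + v.im • q x

/-- sum over the fibre. -/
def FS (T : ℂ → Finset ℂ) (f : ℂ × ℂ → ℝ) (t : ℂ) : ℝ := ∑ z ∈ T t, f (t, z)

/-- energy density. -/
def ee (p q : ℂ × ℂ → ℂ) (x : ℂ × ℂ) : ℝ := 1 + ‖p x‖ ^ 2 + ‖q x‖ ^ 2

/-- planar data of a `k`-valued weakly differentiable function. -/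
structure PD (t₀ : ℂ) (P : ℝ) (k : ℕ) (T : ℂ → Finset ℂ) (p q : ℂ × ℂ → ℂ) : Prop where
  card : ∀ᵐ t ∂(volume.restrict (ball t₀ P)), (T t).card = k ∧ ∀ z ∈ T t, ‖z‖ ≤ 1 / 2
  mp : Measurable p
  mq : Measurable q
  meas : ∀ Φ : ℂ × ℂ → ENNReal, Measurable Φ →
    AEMeasurable (fun t => ∑ z ∈ T t, Φ (t, z)) (volume.restrict (ball t₀ P))
  en : IntegrableOn (FS T (ee p q)) (ball t₀ P)
  weak1 : ∀ φ : ℂ → ℝ, ContDiff ℝ ∞ φ → ∀ η : ℂ → ℝ, ContDiff ℝ ∞ η → HasCompactSupport η →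
    tsupport η ⊆ ball t₀ P →
    ∫ t, (∑ z ∈ T t, φ z) * fderiv ℝ η t 1 = - ∫ t, η t * ∑ z ∈ T t, fderiv ℝ φ z (p (t, z))
  weak2 : ∀ φ : ℂ → ℝ, ContDiff ℝ ∞ φ → ∀ η : ℂ → ℝ, ContDiff ℝ ∞ η → HasCompactSupport η →
    tsupport η ⊆ ball t₀ P →
    ∫ t, (∑ z ∈ T t, φ z) * fderiv ℝ η t I = - ∫ t, η t * ∑ z ∈ T t, fderiv ℝ φ z (q (t, z))

/-- the rotation field. -/
def X (t₀ t : ℂ) : ℂ := I * (t - t₀)

/-- `∑ |dz(X)|`. -/
def nn (t₀ : ℂ) (p q : ℂ × ℂ → ℂ) (x : ℂ × ℂ) : ℝ := ‖sv p q x (X t₀ x.1)‖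

/-- `∑ Im (z̄ dz(X))`. -/
def bb (t₀ : ℂ) (p q : ℂ × ℂ → ℂ) (x : ℂ × ℂ) : ℝ := (conj x.2 * sv p q x (X t₀ x.1)).im

/-- `∑ dφ(dz(X))`. -/
def gg (t₀ : ℂ) (p q : ℂ × ℂ → ℂ) (φ : ℂ → ℝ) (x : ℂ × ℂ) : ℝ :=
  fderiv ℝ φ x.2 (sv p q x (X t₀ x.1))

theorem sv_sq_le (p q : ℂ × ℂ → ℂ) (x : ℂ × ℂ) (v : ℂ) :
    ‖sv p q x v‖ ^ 2 ≤ ‖v‖ ^ 2 * (‖p x‖ ^ 2 + ‖q x‖ ^ 2) := by
  have h1 : ‖sv p q x v‖ ≤ |v.re| * ‖p x‖ + |v.im| * ‖q x‖ := by
    unfold sv
    refine (norm_add_le _ _).trans ?_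
    rw [norm_smul, norm_smul, Real.norm_eq_abs, Real.norm_eq_abs]
  have h2 : ‖v‖ ^ 2 = |v.re| ^ 2 + |v.im| ^ 2 := by
    rw [sq_abs, sq_abs, ← Complex.normSq_eq_norm_sq, Complex.normSq_apply]
    ring
  have h3 : ‖sv p q x v‖ ^ 2 ≤ (|v.re| * ‖p x‖ + |v.im| * ‖q x‖) ^ 2 :=
    pow_le_pow_left₀ (norm_nonneg _) h1 2
  rw [h2]
  nlinarith [sq_nonneg (|v.re| * ‖q x‖ - |v.im| * ‖p x‖)]

theorem sv_le (p q : ℂ × ℂ → ℂ) (x : ℂ × ℂ) (v : ℂ) :
    ‖sv p q x v‖ ≤ ‖v‖ * ee p q x := by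
  have h1 := sv_sq_le p q x v
  have h2 : ‖p x‖ ^ 2 + ‖q x‖ ^ 2 ≤ ee p q x ^ 2 := by
    unfold ee
    nlinarith [sq_nonneg (‖p x‖ ^ 2 + ‖q x‖ ^ 2), sq_nonneg ‖p x‖, sq_nonneg ‖q x‖]
  have h3 : 0 ≤ ee p q x := by unfold ee; positivity
  refine abs_le_of_sq_le_sq' ?_ (by positivity) |>.2
  rw [mul_pow]
  exact h1.trans (mul_le_mul_of_nonneg_left h2 (by positivity))

theorem ee_pos (p q : ℂ × ℂ → ℂ) (x : ℂ × ℂ) : 1 ≤ ee p q x := by
  unfold ee
  nlinarith [sq_nonneg ‖p x‖, sq_nonneg ‖q x‖]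

section

variable {t₀ : ℂ} {P : ℝ} {k : ℕ} {T : ℂ → Finset ℂ} {p q : ℂ × ℂ → ℂ}

theorem meas_sv (D : PD t₀ P k T p q) : Measurable fun x : ℂ × ℂ => sv p q x (X t₀ x.1) := by
  unfold sv X
  have h1 : Measurable fun x : ℂ × ℂ => I * (x.1 - t₀) := by fun_prop
  exact ((Complex.measurable_re.comp h1).smul D.mp).add ((Complex.measurable_im.comp h1).smul D.mq)

theorem meas_FS' {U : Set ℂ} (hm : ∀ Φ : ℂ × ℂ → ENNReal, Measurable Φ →
    AEMeasurable (fun t => ∑ z ∈ T t, Φ (t, z)) (volume.restrict U)) {f : ℂ × ℂ → ℝ}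
    (hf : Measurable f) : AEMeasurable (FS T f) (volume.restrict U) := by
  have h1 := (hm (fun x => ENNReal.ofReal (f x)) hf.ennreal_ofReal).ennreal_toReal
  have h2 := (hm (fun x => ENNReal.ofReal (-f x)) hf.neg.ennreal_ofReal).ennreal_toReal
  refine (h1.sub h2).congr (ae_of_all _ fun t => ?_)
  simp only [Pi.sub_apply, FS]
  rw [ENNReal.toReal_sum fun _ _ => ENNReal.ofReal_ne_top,
    ENNReal.toReal_sum fun _ _ => ENNReal.ofReal_ne_top, ← Finset.sum_sub_distrib]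
  refine Finset.sum_congr rfl fun z _ => ?_
  rw [ENNReal.toReal_ofReal', ENNReal.toReal_ofReal']
  rcases le_total (f (t, z)) 0 with h | h
  · rw [max_eq_right h, max_eq_left (by linarith)]; ring
  · rw [max_eq_left h, max_eq_right (by linarith)]; ring

theorem meas_FS (D : PD t₀ P k T p q) {f : ℂ × ℂ → ℝ} (hf : Measurable f) :
    AEMeasurable (FS T f) (volume.restrict (ball t₀ P)) := meas_FS' D.meas hf

theorem int_FS (D : PD t₀ P k T p q) {f : ℂ × ℂ → ℝ} (hf : Measurable f) (c : ℝ)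
    (h : ∀ t ∈ ball t₀ P, ∀ z : ℂ, ‖z‖ ≤ 1 / 2 → |f (t, z)| ≤ c * ee p q (t, z)) :
    IntegrableOn (FS T f) (ball t₀ P) := by
  refine Integrable.mono' (D.en.const_mul c) (meas_FS D hf).aestronglyMeasurable ?_
  filter_upwards [D.card, ae_restrict_mem measurableSet_ball] with t ht htb
  rw [Real.norm_eq_abs]
  unfold FS
  rw [Finset.mul_sum]
  exact (Finset.abs_sum_le_sum_abs _ _).trans
    (Finset.sum_le_sum fun z hz => h t htb z (ht.2 z hz))

theorem norm_X_le {t : ℂ} (ht : t ∈ ball t₀ P) : ‖X t₀ t‖ ≤ P := by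
  unfold X
  rw [norm_mul, Complex.norm_I, one_mul, ← dist_eq_norm]
  exact (mem_ball.1 ht).le

theorem int_nn (D : PD t₀ P k T p q) : IntegrableOn (FS T (nn t₀ p q)) (ball t₀ P) := by
  refine int_FS D (meas_sv D).norm P fun t ht z _ => ?_
  unfold nn
  rw [abs_of_nonneg (norm_nonneg _)]
  refine (sv_le _ _ _ _).trans (mul_le_mul_of_nonneg_right (norm_X_le ht) ?_)
  linarith [ee_pos p q (t, z)]

theorem int_bb (D : PD t₀ P k T p q) : IntegrableOn (FS T (bb t₀ p q)) (ball t₀ P) := by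
  refine int_FS D ?_ P fun t ht z hz => ?_
  · unfold bb
    exact Complex.measurable_im.comp
      ((Complex.continuous_conj.measurable.comp measurable_snd).mul (meas_sv D))
  · unfold bb
    refine (Complex.abs_im_le_norm _).trans ?_
    rw [norm_mul, Complex.norm_conj]
    have h1 := sv_le p q (t, z) (X t₀ t)
    have h2 := norm_X_le ht
    have h3 := ee_pos p q (t, z)
    have h4 : ‖sv p q (t, z) (X t₀ t)‖ ≤ P * ee p q (t, z) :=
      h1.trans (mul_le_mul_of_nonneg_right h2 (by linarith))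
    calc ‖z‖ * ‖sv p q (t, z) (X t₀ t)‖ ≤ 1 * ‖sv p q (t, z) (X t₀ t)‖ := by
          refine mul_le_mul_of_nonneg_right ?_ (norm_nonneg _)
          linarith
      _ ≤ _ := by rw [one_mul]; exact h4

theorem meas_dphi {φ : ℂ → ℝ} (hφ : ContDiff ℝ ∞ φ) {u : ℂ × ℂ → ℂ} (hu : Measurable u) :
    Measurable fun x : ℂ × ℂ => fderiv ℝ φ x.2 (u x) := by
  have hc : Continuous fun y : ℂ × ℂ => fderiv ℝ φ y.1 y.2 :=
    (hφ.continuous_fderiv (by simp)).comp continuous_fst |>.clm_apply continuous_snd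
  exact hc.measurable.comp (measurable_snd.prodMk hu)

theorem bdd_dphi {φ : ℂ → ℝ} (hφ : ContDiff ℝ ∞ φ) :
    ∃ K : ℝ, 0 ≤ K ∧ ∀ z : ℂ, ‖z‖ ≤ 1 / 2 → ‖fderiv ℝ φ z‖ ≤ K ∧ |φ z| ≤ K := by
  have hcpt : IsCompact (closedBall (0 : ℂ) (1 / 2)) := isCompact_closedBall _ _
  obtain ⟨K1, h1⟩ := hcpt.exists_bound_of_continuousOn (f := fderiv ℝ φ)
    (hφ.continuous_fderiv (by simp)).continuousOn
  obtain ⟨K2, h2⟩ := hcpt.exists_bound_of_continuousOn (f := φ) hφ.continuous.continuousOn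
  refine ⟨max 0 (max K1 K2), le_max_left _ _, fun z hz => ?_⟩
  have hz' : z ∈ closedBall (0 : ℂ) (1 / 2) := by simpa using hz
  exact ⟨(h1 z hz').trans ((le_max_left _ _).trans (le_max_right _ _)),
    (h2 z hz').trans ((le_max_right _ _).trans (le_max_right _ _))⟩

theorem int_gg (D : PD t₀ P k T p q) {φ : ℂ → ℝ} (hφ : ContDiff ℝ ∞ φ) :
    IntegrableOn (FS T (gg t₀ p q φ)) (ball t₀ P) := by
  obtain ⟨K, hK0, hK⟩ := bdd_dphi hφ
  refine int_FS D (meas_dphi hφ (meas_sv D)) (K * P) fun t ht z hz => ?_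
  unfold gg
  have h1 := sv_le p q (t, z) (X t₀ t)
  have h2 := norm_X_le ht
  have h3 := ee_pos p q (t, z)
  have h4 : ‖sv p q (t, z) (X t₀ t)‖ ≤ P * ee p q (t, z) :=
    h1.trans (mul_le_mul_of_nonneg_right h2 (by linarith))
  calc |fderiv ℝ φ z (sv p q (t, z) (X t₀ t))| ≤ ‖fderiv ℝ φ z‖ * ‖sv p q (t, z) (X t₀ t)‖ := by
        rw [← Real.norm_eq_abs]
        exact ContinuousLinearMap.le_opNorm _ _
    _ ≤ K * (P * ee p q (t, z)) := by
        gcongr
        exact (hK z hz).1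
    _ = _ := by ring

theorem int_phi (D : PD t₀ P k T p q) {φ : ℂ → ℝ} (hφ : ContDiff ℝ ∞ φ) :
    IntegrableOn (FS T (fun x => φ x.2)) (ball t₀ P) := by
  obtain ⟨K, hK0, hK⟩ := bdd_dphi hφ
  refine int_FS D (hφ.continuous.measurable.comp measurable_snd) K fun t ht z hz => ?_
  calc |φ z| ≤ K := (hK z hz).2
    _ ≤ K * ee p q (t, z) := le_mul_of_one_le_right hK0 (ee_pos p q (t, z))

/-- the weak derivative along the rotation field. -/
theorem weak_rot (D : PD t₀ P k T p q) {φ : ℂ → ℝ} (hφ : ContDiff ℝ ∞ φ) (η : ℂ → ℝ)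
    (hη : ContDiff ℝ ∞ η) (hηc : HasCompactSupport η) (hηs : tsupport η ⊆ ball t₀ P) :
    ∫ t in ball t₀ P, FS T (fun x => φ x.2) t * fderiv ℝ η t (I * (t - t₀)) =
      - ∫ t in ball t₀ P, FS T (gg t₀ p q φ) t * η t := by
  -- the components of the field
  set a : ℂ → ℝ := fun t => -(t - t₀).im with ha
  set b : ℂ → ℝ := fun t => (t - t₀).re with hb
  have haL : ∀ t, HasFDerivAt a (-Complex.imCLM) t := by
    intro t
    have h1 : HasFDerivAt (fun t : ℂ => Complex.imCLM (t - t₀)) (Complex.imCLM) t := by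
      have := Complex.imCLM.hasFDerivAt.comp t ((hasFDerivAt_id (𝕜 := ℝ) t).sub_const t₀)
      rwa [ContinuousLinearMap.comp_id] at this
    exact h1.neg
  have hbL : ∀ t, HasFDerivAt b (Complex.reCLM) t := by
    intro t
    have h1 : HasFDerivAt (fun t : ℂ => Complex.reCLM (t - t₀)) (Complex.reCLM) t := by
      have := Complex.reCLM.hasFDerivAt.comp t ((hasFDerivAt_id (𝕜 := ℝ) t).sub_const t₀)
      rwa [ContinuousLinearMap.comp_id] at this
    exact h1
  have had : ContDiff ℝ ∞ a := (Complex.imCLM.contDiff.comp (contDiff_id.sub contDiff_const)).neg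
  have hbd : ContDiff ℝ ∞ b := Complex.reCLM.contDiff.comp (contDiff_id.sub contDiff_const)
  have hηd : ∀ t, HasFDerivAt η (fderiv ℝ η t) t := fun t =>
    ((hη.differentiable (by simp)) t).hasFDerivAt
  have hd1 : ∀ t, fderiv ℝ (fun t => a t * η t) t 1 = a t * fderiv ℝ η t 1 := by
    intro t
    rw [((haL t).fun_mul (hηd t)).fderiv]
    simp
  have hd2 : ∀ t, fderiv ℝ (fun t => b t * η t) t I = b t * fderiv ℝ η t I := by
    intro t
    rw [((hbL t).fun_mul (hηd t)).fderiv]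
    simp
  have hsub : ∀ c : ℂ → ℝ, tsupport (fun t => c t * η t) ⊆ tsupport η := fun c =>
    closure_mono fun t ht => by
      simp only [Function.mem_support] at ht ⊢
      exact right_ne_zero_of_mul ht
  have hw1 := D.weak1 φ hφ (fun t => a t * η t) (had.mul hη)
    (HasCompactSupport.of_support_subset_isCompact hηc
      ((subset_tsupport _).trans (hsub a))) ((hsub a).trans hηs)
  have hw2 := D.weak2 φ hφ (fun t => b t * η t) (hbd.mul hη)
    (HasCompactSupport.of_support_subset_isCompact hηc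
      ((subset_tsupport _).trans (hsub b))) ((hsub b).trans hηs)
  simp only [hd1, hd2] at hw1 hw2
  -- outside the ball everything vanishes
  have hη0 : ∀ t, t ∉ ball t₀ P → η t = 0 := fun t ht =>
    image_eq_zero_of_notMem_tsupport fun h => ht (hηs h)
  have hdη0 : ∀ t, t ∉ ball t₀ P → fderiv ℝ η t = 0 := fun t ht =>
    image_eq_zero_of_notMem_tsupport fun h => ht (hηs (tsupport_fderiv_subset ℝ h))
  have r1 : ∀ f : ℂ → ℝ, (∀ t, t ∉ ball t₀ P → f t = 0) → ∫ t, f t = ∫ t in ball t₀ P, f t :=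
    fun f hf => (setIntegral_eq_integral_of_forall_compl_eq_zero hf).symm
  rw [r1 _ fun t ht => by rw [hdη0 t ht]; simp, r1 _ fun t ht => by rw [hη0 t ht]; simp]
    at hw1 hw2
  -- boundedness of the test functions
  have hηb : ∃ K, ∀ t, ‖η t‖ ≤ K := hηc.exists_bound_of_continuous hη.continuous
  obtain ⟨Kη, hKη⟩ := hηb
  obtain ⟨Kd, hKd⟩ := (hηc.fderiv ℝ).exists_bound_of_continuous (hη.continuous_fderiv (by simp))
  have hF := int_phi D hφ
  have hab : ∀ t ∈ ball t₀ P, |a t| ≤ P ∧ |b t| ≤ P := by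
    intro t ht
    have h1 : ‖t - t₀‖ ≤ P := by
      rw [← dist_eq_norm]
      exact (mem_ball.1 ht).le
    refine ⟨?_, (Complex.abs_re_le_norm _).trans h1⟩
    simp only [ha, abs_neg]
    exact (Complex.abs_im_le_norm _).trans h1
  have i1 : ∀ (c : ℂ → ℝ) (v : ℂ), Continuous c → (∀ t ∈ ball t₀ P, |c t| ≤ P) →
      Integrable (fun t => FS T (fun x => φ x.2) t * (c t * fderiv ℝ η t v))
        (volume.restrict (ball t₀ P)) := by
    intro c v hc hcb
    refine Integrable.mul_bdd (c := P * (Kd * ‖v‖)) hF ?_ ?_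
    · exact (hc.mul ((hη.continuous_fderiv (by simp)).clm_apply
        continuous_const)).aestronglyMeasurable
    · filter_upwards [ae_restrict_mem measurableSet_ball] with t ht
      rw [norm_mul]
      have h1 := hcb t ht
      have h2 : ‖fderiv ℝ η t v‖ ≤ Kd * ‖v‖ :=
        (ContinuousLinearMap.le_opNorm _ _).trans
          (mul_le_mul_of_nonneg_right (hKd t) (norm_nonneg _))
      rw [Real.norm_eq_abs]
      have h3 : 0 ≤ P := (abs_nonneg _).trans h1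
      gcongr
  have i2 : ∀ (c : ℂ → ℝ) (u : ℂ × ℂ → ℂ), Continuous c → (∀ t ∈ ball t₀ P, |c t| ≤ P) →
      Measurable u → (∀ x, ‖u x‖ ≤ ee p q x) →
      Integrable (fun t => c t * η t * FS T (fun x => fderiv ℝ φ x.2 (u x)) t)
        (volume.restrict (ball t₀ P)) := by
    intro c u hc hcb hu hub
    obtain ⟨K, hK0, hK⟩ := bdd_dphi hφ
    have h1 : IntegrableOn (FS T (fun x => fderiv ℝ φ x.2 (u x))) (ball t₀ P) := by
      refine int_FS D (meas_dphi hφ hu) K fun t _ z hz => ?_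
      calc |fderiv ℝ φ z (u (t, z))| ≤ ‖fderiv ℝ φ z‖ * ‖u (t, z)‖ := by
            rw [← Real.norm_eq_abs]
            exact ContinuousLinearMap.le_opNorm _ _
        _ ≤ K * ee p q (t, z) := by
            gcongr
            · exact (hK z hz).1
            · exact hub _
    refine Integrable.bdd_mul (c := P * Kη) h1 ?_ ?_
    · exact (hc.mul hη.continuous).aestronglyMeasurable
    · filter_upwards [ae_restrict_mem measurableSet_ball] with t ht
      rw [norm_mul]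
      have h2 := hcb t ht
      rw [Real.norm_eq_abs]
      have h3 : 0 ≤ P := (abs_nonneg _).trans h2
      exact mul_le_mul h2 (hKη t) (norm_nonneg _) h3
  have hpe : ∀ x, ‖p x‖ ≤ ee p q x := fun x => by
    unfold ee
    nlinarith [sq_nonneg (‖p x‖ - 1), sq_nonneg ‖q x‖, norm_nonneg (p x)]
  have hqe : ∀ x, ‖q x‖ ≤ ee p q x := fun x => by
    unfold ee
    nlinarith [sq_nonneg (‖q x‖ - 1), sq_nonneg ‖p x‖, norm_nonneg (q x)]
  have e1 : ∫ t in ball t₀ P, FS T (fun x => φ x.2) t * fderiv ℝ η t (I * (t - t₀)) =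
      (∫ t in ball t₀ P, FS T (fun x => φ x.2) t * (a t * fderiv ℝ η t 1)) +
      ∫ t in ball t₀ P, FS T (fun x => φ x.2) t * (b t * fderiv ℝ η t I) := by
    rw [← integral_add (i1 a 1 had.continuous fun t ht => (hab t ht).1)
      (i1 b I hbd.continuous fun t ht => (hab t ht).2)]
    refine integral_congr_ae (ae_of_all _ fun t => ?_)
    have : I * (t - t₀) = (a t) • (1 : ℂ) + (b t) • I := by
      apply Complex.ext <;> simp [ha, hb]
    simp only
    rw [this, map_add, map_smul, map_smul, smul_eq_mul, smul_eq_mul]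
    ring
  have e2 : ∫ t in ball t₀ P, FS T (gg t₀ p q φ) t * η t =
      (∫ t in ball t₀ P, a t * η t * FS T (fun x => fderiv ℝ φ x.2 (p x)) t) +
      ∫ t in ball t₀ P, b t * η t * FS T (fun x => fderiv ℝ φ x.2 (q x)) t := by
    rw [← integral_add (i2 a p had.continuous (fun t ht => (hab t ht).1) D.mp hpe)
      (i2 b q hbd.continuous (fun t ht => (hab t ht).2) D.mq hqe)]
    refine integral_congr_ae (ae_of_all _ fun t => ?_)
    simp only [FS, gg, sv, X]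
    rw [Finset.sum_mul, Finset.mul_sum, Finset.mul_sum, ← Finset.sum_add_distrib]
    refine Finset.sum_congr rfl fun z _ => ?_
    rw [map_add, map_smul, map_smul, smul_eq_mul, smul_eq_mul]
    have h1 : (I * (t - t₀)).re = a t := by simp [ha]
    have h2 : (I * (t - t₀)).im = b t := by simp [hb]
    rw [h1, h2]
    ring
  rw [e1, e2, neg_add]
  exact congrArg₂ (· + ·) hw1 hw2

end

end

end Crest.Agent.R235.HoleD_859
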