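import Crest.Agent.R235.MdlD_489

/-!
Row 235 (S0364), PACKAGE SW, MODEL output MODB (helper755), leaf X3 of helper489: over a
Seiberg-Witten system in the twisted format `Tws S p` with `N = 1` (so `p = 1`) the sections
`u = P_ν s / |P_ν s|` are parallel sections of constant length `1` for the flat family with
`a₀ = 0`:

* `hatf_one` : `hatf S u = V_u 1`;
* `psec_of`  : `PSec` for one `t ≠ 0`;
* `psec_mh`  : `PSec` for the family `thT` of `MdlD_489.Mh`.
-/

set_option autoImplicit false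
set_option maxSynthPendingDepth 3
set_option linter.unusedSectionVars false

open scoped ContDiff ENNReal NNReal Topology Manifold Bundle RealInnerProductSpace
open MeasureTheory Set Filter Metric Bundle Matrix

universe v

namespace Crest.Agent.R235.MdlE_755

open Crest.Agent.R240 Crest.Agent.R240.Ch Crest.Agent.R235.SWDefs_53 Crest.Agent.R235.IndTri_451
open Crest.Agent.R249.Tz805 (ToF Bun opB)
open Crest.Agent.R235.Tau483 Crest.Agent.R235.TauJ Crest.Agent.R235.SWTn_451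
open Crest.Agent.R235.MdlA_489 Crest.Agent.R235.MdlB_489 Crest.Agent.R235.MdlC_489
open Crest.Agent.R235.MdlD_489 Crest.Agent.R235.MdlL_453 Crest.Agent.R235.VIso_470

noncomputable section

variable {M : Type v} [MetricSpace M] [CompactSpace M] [ConnectedSpace M]
  [ChartedSpace (EuclideanSpace ℝ (Fin 4)) M] [IsManifold (𝓡 4) ∞ M]
  [RiemannianBundle (fun p : M => TangentSpace (𝓡 4) p)]
  [IsContMDiffRiemannianBundle (𝓡 4) ∞ (EuclideanSpace ℝ (Fin 4))
    (fun p : M => TangentSpace (𝓡 4) p)]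
  [IsRiemannianManifold (𝓡 4) M] [MeasurableSpace M] [BorelSpace M]
  [SecondCountableTopology M] [Nonempty M] [IsFiniteMeasureOnCompacts (μHE[4] : Measure M)]
  {κ1 κT : Type} [Fintype κ1] [Fintype κT]

/-- the constant section of the trivial line. -/
def one1 (M : Type v) : M → Fin 1 → ℂ := fun _ _ => 1

theorem smV_one1 : Tau483.SmV (one1 M) := fun _ => contMDiff_const

theorem nab_one1 (p : M → Matrix (Fin 1) (Fin 1) ℂ) (z : M) (v : E4) :
    nab p (0 : F1 E4 M) (one1 M) z v = 0 := by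
  have h1 : dV (one1 M) z v = 0 := by
    funext j
    show dC (fun _ : M => (1 : ℂ)) z v = 0
    unfold dC
    simp
  have h2 : at1 (0 : F1 E4 M) z v = 0 := by simp [at1]
  unfold nab
  rw [h1, h2, Matrix.mulVec_zero, Complex.ofReal_zero, mul_zero, zero_smul, add_zero]

variable {S : SWS M (Fin 4 × Fin 1) κ1 κT} {p : M → Matrix (Fin 1) (Fin 1) ℂ}

/-- the complex coordinate of a real section. -/
theorem hatf_one (hT : Tws S p) (hp : IsLine p) (u : Fin 4 → M → ℝ) (z : M) :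
    hatf S (fun y => u y.1) z = Vu MdlL_453.Jc p u z *ᵥ one1 M z := by
  have hpz : p z 0 0 = 1 := by rw [isLine_one hp z]; simp
  funext y
  have h0 : (Jm S z *ᵥ sv (fun y => u y.1) z) y = (MdlL_453.Jc *ᵥ fun a => u a z) y.1 :=
    iu_one hT hp u y z
  have e1 : hatf S (fun y => u y.1) z y = (((1 / √2 : ℝ)) : ℂ) *
      ((u y.1 z : ℂ) - Complex.I * (((Jm S z *ᵥ sv (fun y => u y.1) z) y : ℝ) : ℂ)) := rfl
  have e2 : (Vu MdlL_453.Jc p u z *ᵥ one1 M z) y = ∑ l : Fin 1, (hc MdlL_453.Jc (fun a => u a z) y.1 * p z y.2 l) * 1 := rfl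
  have e3 : hc MdlL_453.Jc (fun a => u a z) y.1 = ((((√2)⁻¹ : ℝ)) : ℂ) *
      ((u y.1 z : ℂ) - Complex.I * (((MdlL_453.Jc *ᵥ fun a => u a z) y.1 : ℝ) : ℂ)) := rfl
  have hy : y.2 = 0 := Subsingleton.elim _ _
  rw [e1, e2, h0, Fin.sum_univ_one, hy, hpz, mul_one, mul_one, e3, one_div]

variable {T : ToF 4 M} {c : κ1 → Fin 4 × Fin 1 → (z : M) → TangentSpace (𝓡 4) z}
    {W : Fin 4 × Fin 1 → Fin 4 × Fin 1 → (z : M) → TangentSpace (𝓡 4) z}
    {sT : κT → (z : M) → TangentSpace (𝓡 4) z} {w : Trip M} {e : Fin 3 → F2 E4 M}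
    {σ ι : ℝ} {ww : Fin 3 → Fin 3 → M → ℝ} {D : Fin 3 → ℝ}

/-- the unit section over the trivial line. -/
def Us (D : Fin 3 → ℝ) (ww : Fin 3 → Fin 3 → M → ℝ) (t : E3) (s : Fin 4 → ℝ) (y : Fin 4 × Fin 1)
    (z : M) : ℝ := us rhoc (muT D t) (nuT ww t) s y.1 z

/-- **parallel sections over the trivial line.** -/
theorem psec_of (hS : S.OK) (h : TG S T c W sT w e σ ι)
    (ti : ∀ (z : M) (X : TangentSpace (𝓡 4) z), ∑ A, (inner ℝ (sT A z) X : ℝ) • sT A z = X)
    (hT : Tws S p) (hp : IsLine p) (hL : LT ww)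
    (hs : ∀ i k, ContMDiff (𝓡 4) 𝓘(ℝ, ℝ) ∞ (ww i k))
    (hD1 : ∀ k, D k ^ 2 = 1) (hD : ∀ k z, 0 < D k * ww k k z) {t : E3} (ht : t ≠ 0)
    {τ : TD M κT} (hn : ∀ k z, τ.n k z = nt ww t k z) {s : Fin 4 → ℝ}
    (hs0 : VIso_470.PP rhoc (muT D t) *ᵥ s = s) (hs1 : s ⬝ᵥ s = 1) :
    τ.PSec S (cmp sT (thF τ S W sT e (lamN (-1) (muT D t) (nuT ww t)) 0)) (1 / 2)
      (Us D ww t s) := by
  have hsm : ∀ k, ContMDiff (𝓡 4) 𝓘(ℝ, ℝ) ∞ (nuT ww t k) := fun k => smooth_nuT hL hs ht k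
  have hnn : ∀ z, ∑ k, nuT ww t k z ^ 2 = 1 := fun z => nuT_sq hL ht z
  have hpos : ∀ z, 0 < 1 + ∑ k, nuT ww t k z * muT D t k := fun z => nu_mu_pos hL hD1 hD ht z
  have hU : Us D ww t s = fun y => us rhoc (muT D t) (nuT ww t) s y.1 := rfl
  have nn : ∀ z, ∑ k, τ.n k z ^ 2 = 1 := fun z => by
    simp only [hn]
    exact hL.norm_nt ht z
  have hsU : Crest.Agent.R249.Tv57.SmV (n := 4) (Us D ww t s) := fun y => smooth_us hsm hpos s y.1
  have hEU : τ.SecE S (Us D ww t s) := by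
    rw [hU]
    refine secE_one hT hp fun z => ?_
    have h1 := us_PP q4 (muT D t) hnn s z
    have h2 : (fun k => - τ.n k z) = fun k => nuT ww t k z := by
      funext k
      rw [hn]
      rfl
    rw [h2]
    exact h1
  obtain ⟨hV, hl⟩ := vi_t hT hp hL hs hD1 hD ht hn hs0 hs1
  refine ⟨hsU, hEU, fun z => ?_, fun y z => ?_⟩
  · have h1 := us_unit q4 hnn hs0 hs1 (hpos z)
    have h2 : ∑ y : Fin 4 × Fin 1, Us D ww t s y z ^ 2 =
        (fun y => us rhoc (muT D t) (nuT ww t) s y z) ⬝ᵥ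
          (fun y => us rhoc (muT D t) (nuT ww t) s y z) := by
      rw [Fintype.sum_prod_type]
      refine Finset.sum_congr rfl fun a _ => ?_
      rw [Fin.sum_univ_one, pow_two]
      rfl
    rw [h2, h1]
    norm_num
  · refine par_of hS h ti nn (ln_of hp) hV hl hsU hEU smV_one1 (fun x => ?_) (fun z => ?_)
      (fun z v => nab_one1 p z v) y z
    · rw [isLine_one hp x, Matrix.one_mulVec]
    · exact hatf_one hT hp _ z

/-- the family. -/
theorem psec_mh {τ : E3 → TD M κT} {cE : E3 → Z2 M} {C : ℝ}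
    (h : Mh S T c W sT w e ι ww D p τ cE C) {t : E3} (ht : t ≠ 0) {s : Fin 4 → ℝ}
    (hs0 : VIso_470.PP rhoc (muT D t) *ᵥ s = s) (hs1 : s ⬝ᵥ s = 1) :
    (τ t).PSec S (thT τ S W sT e ww D 0 t) (1 / 2) (Us D ww t s) :=
  psec_of h.ok h.tg h.ti h.tws h.line h.lt h.smw h.D1 h.Dp ht (h.n_eq t) hs0 hs1

end

end Crest.Agent.R235.MdlE_755
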