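import Crest.Agent.R235.TauA_483

/-!
Row 235 (S0364), SW-TAU (helper483), part D: matrix algebra at a point.

`P` projection of real rank `4`, `J` complex structure, `ρ_k` Clifford matrices, `R = ∑ n_k ρ_k`,
`Π₀ = (P - R)/2` of real rank `2`; the complex line `P_E = (Π₀ - i J Π₀)/2`.
-/

set_option autoImplicit false
set_option linter.unusedSectionVars false

open Matrix

namespace Crest.Agent.R235.Tau483

noncomputable section

variable {κ κ' : Type*} [Fintype κ] [Fintype κ']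

/-- the algebra of the two eigenlines at a point. -/
structure Al (P J : Matrix κ κ ℝ) (ρ : Fin 3 → Matrix κ κ ℝ) (n : Fin 3 → ℝ) (ι : ℝ) : Prop where
  PP : P * P = P
  PT : Pᵀ = P
  JJ : J * J = -P
  JT : Jᵀ = -J
  PJ : P * J = J
  rT : ∀ k, (ρ k)ᵀ = ρ k
  Pr : ∀ k, P * ρ k = ρ k
  Jr : ∀ k, J * ρ k = ρ k * J
  r2 : ∀ j k, ρ j * ρ k + ρ k * ρ j = if j = k then (2 : ℝ) • P else 0
  r3 : ∀ j, ρ j * ρ (j + 1) = ι • (J * ρ (j + 2))
  nn : ∑ k, n k ^ 2 = 1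
  tr : P.trace = 4

/-- `R = ∑ n_k ρ_k`. -/
def RR (ρ : Fin 3 → Matrix κ κ ℝ) (n : Fin 3 → ℝ) : Matrix κ κ ℝ := ∑ k, n k • ρ k

/-- the projection `(P - R)/2`. -/
def P0 (P : Matrix κ κ ℝ) (ρ : Fin 3 → Matrix κ κ ℝ) (n : Fin 3 → ℝ) : Matrix κ κ ℝ :=
  (1 / 2 : ℝ) • (P - RR ρ n)

/-- vectors of `E`. -/
def InE (P : Matrix κ κ ℝ) (ρ : Fin 3 → Matrix κ κ ℝ) (n : Fin 3 → ℝ) (G : κ → ℝ) : Prop :=
  P *ᵥ G = G ∧ RR ρ n *ᵥ G = -G

/-- vectors of the complement. -/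
def InE' (P : Matrix κ κ ℝ) (ρ : Fin 3 → Matrix κ κ ℝ) (n : Fin 3 → ℝ) (G : κ → ℝ) : Prop :=
  P *ᵥ G = G ∧ RR ρ n *ᵥ G = G

namespace Al

variable {P J : Matrix κ κ ℝ} {ρ : Fin 3 → Matrix κ κ ℝ} {n : Fin 3 → ℝ} {ι : ℝ}

theorem JP (h : Al P J ρ n ι) : J * P = J := by
  have := congrArg Matrix.transpose h.PJ
  rw [transpose_mul, h.JT, h.PT, Matrix.neg_mul, neg_inj] at this
  exact this

theorem rP (h : Al P J ρ n ι) (k : Fin 3) : ρ k * P = ρ k := by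
  have := congrArg Matrix.transpose (h.Pr k)
  rwa [transpose_mul, h.rT, h.PT] at this

theorem r_sq (h : Al P J ρ n ι) (k : Fin 3) : ρ k * ρ k = P := by
  have := h.r2 k k
  rw [if_pos rfl, ← two_smul ℝ (ρ k * ρ k)] at this
  exact smul_right_injective _ (two_ne_zero) this

theorem r_anti (h : Al P J ρ n ι) {j k : Fin 3} (hjk : j ≠ k) : ρ j * ρ k = - (ρ k * ρ j) := by
  have := h.r2 j k
  rw [if_neg hjk] at this
  exact eq_neg_of_add_eq_zero_left this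

theorem RT (h : Al P J ρ n ι) : (RR ρ n)ᵀ = RR ρ n := by
  unfold RR
  rw [transpose_sum]
  exact Finset.sum_congr rfl fun k _ => by rw [transpose_smul, h.rT]

theorem PR (h : Al P J ρ n ι) : P * RR ρ n = RR ρ n := by
  unfold RR
  rw [Finset.mul_sum]
  exact Finset.sum_congr rfl fun k _ => by rw [Matrix.mul_smul, h.Pr]

theorem RP (h : Al P J ρ n ι) : RR ρ n * P = RR ρ n := by
  have := congrArg Matrix.transpose h.PR
  rwa [transpose_mul, h.RT, h.PT] at this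

theorem JR (h : Al P J ρ n ι) : J * RR ρ n = RR ρ n * J := by
  unfold RR
  rw [Finset.mul_sum, Finset.sum_mul]
  exact Finset.sum_congr rfl fun k _ => by rw [Matrix.mul_smul, Matrix.smul_mul, h.Jr]

/-- `ρ_y R + R ρ_y = 2 (y·n) P`. -/
theorem rr (h : Al P J ρ n ι) (y m : Fin 3 → ℝ) :
    RR ρ y * RR ρ m + RR ρ m * RR ρ y = (2 * ∑ k, y k * m k) • P := by
  have h01 := h.r_anti (j := 1) (k := 0) (by decide)
  have h02 := h.r_anti (j := 2) (k := 0) (by decide)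
  have h12 := h.r_anti (j := 2) (k := 1) (by decide)
  unfold RR
  simp only [Fin.sum_univ_three, Matrix.add_mul, Matrix.mul_add, Matrix.smul_mul, Matrix.mul_smul,
    h.r_sq, h01, h02, h12, smul_neg]
  module

theorem Rr (h : Al P J ρ n ι) (y : Fin 3 → ℝ) (hy : ∑ k, y k * n k = 0) :
    RR ρ n * RR ρ y = - (RR ρ y * RR ρ n) := by
  have := h.rr y n
  rw [hy, mul_zero, zero_smul] at this
  exact eq_neg_of_add_eq_zero_right this

theorem R_sq (h : Al P J ρ n ι) : RR ρ n * RR ρ n = P := by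
  have := h.rr n n
  have h1 : ∑ k, n k * n k = 1 := by rw [← h.nn]; exact Finset.sum_congr rfl fun k _ => by ring
  rw [h1, mul_one, ← two_smul ℝ (RR ρ n * RR ρ n)] at this
  exact smul_right_injective _ (two_ne_zero) this

theorem P0T (h : Al P J ρ n ι) : (P0 P ρ n)ᵀ = P0 P ρ n := by
  unfold P0
  rw [transpose_smul, transpose_sub, h.PT, h.RT]

theorem P0P0 (h : Al P J ρ n ι) : P0 P ρ n * P0 P ρ n = P0 P ρ n := by
  unfold P0
  rw [Matrix.smul_mul, Matrix.mul_smul, Matrix.sub_mul, Matrix.mul_sub, Matrix.mul_sub, h.PP, h.PR,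
    h.RP, h.R_sq]
  module

theorem JP0 (h : Al P J ρ n ι) : J * P0 P ρ n = P0 P ρ n * J := by
  unfold P0
  rw [Matrix.mul_smul, Matrix.smul_mul, Matrix.mul_sub, Matrix.sub_mul, h.JP, h.PJ, h.JR]

theorem PP0 (h : Al P J ρ n ι) : P * P0 P ρ n = P0 P ρ n := by
  unfold P0
  rw [Matrix.mul_smul, Matrix.mul_sub, h.PP, h.PR]

theorem P0P (h : Al P J ρ n ι) : P0 P ρ n * P = P0 P ρ n := by
  unfold P0
  rw [Matrix.smul_mul, Matrix.sub_mul, h.PP, h.RP]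

theorem trace_r (h : Al P J ρ n ι) (k : Fin 3) : (ρ k).trace = 0 := by
  have hk : k ≠ k + 1 := by
    intro h0
    fin_cases k <;> simp at h0
  have h1 : ρ k = - (ρ (k + 1) * ρ k * ρ (k + 1)) := by
    rw [h.r_anti hk.symm, Matrix.neg_mul, neg_neg, Matrix.mul_assoc, h.r_sq, h.rP]
  have h2 : (ρ k).trace = - (ρ k).trace := by
    conv_lhs => rw [h1]
    rw [trace_neg, Matrix.mul_assoc, trace_mul_comm, Matrix.mul_assoc, h.r_sq, h.rP]
  linarith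

theorem trace_P0 (h : Al P J ρ n ι) : (P0 P ρ n).trace = 2 := by
  unfold P0 RR
  rw [trace_smul, trace_sub, trace_sum, h.tr]
  simp only [trace_smul, h.trace_r, smul_zero, Finset.sum_const_zero]
  norm_num

/-! ### vectors -/

theorem inE_iff (h : Al P J ρ n ι) (G : κ → ℝ) : InE P ρ n G ↔ P0 P ρ n *ᵥ G = G := by
  unfold InE P0
  constructor
  · rintro ⟨h1, h2⟩
    rw [smul_mulVec, sub_mulVec, h1, h2]
    module
  · intro h1
    have h2 : P *ᵥ G = G := by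
      conv_rhs => rw [← h1]
      conv_lhs => rw [← h1]
      rw [mulVec_mulVec]
      have := h.PP0
      unfold P0 at this
      rw [this]
    refine ⟨h2, ?_⟩
    rw [smul_mulVec, sub_mulVec, h2] at h1
    have h3 := congrArg (fun v => (2 : ℝ) • v) h1
    simp only [smul_smul] at h3
    norm_num at h3
    have h4 : RR ρ n *ᵥ G = G - (2 : ℝ) • G := by rw [← h3]; abel
    rw [h4]; module

theorem inE_J (h : Al P J ρ n ι) {G : κ → ℝ} (hG : InE P ρ n G) : InE P ρ n (J *ᵥ G) := by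
  refine ⟨by rw [mulVec_mulVec, h.PJ], ?_⟩
  rw [mulVec_mulVec, ← h.JR, ← mulVec_mulVec, hG.2, mulVec_neg]

theorem JJG (h : Al P J ρ n ι) {G : κ → ℝ} (hG : P *ᵥ G = G) : J *ᵥ (J *ᵥ G) = -G := by
  rw [mulVec_mulVec, h.JJ, neg_mulVec, hG]

theorem J_dot (h : Al P J ρ n ι) (G H : κ → ℝ) : (J *ᵥ G) ⬝ᵥ H = - (G ⬝ᵥ (J *ᵥ H)) := by
  rw [dotProduct_comm, dotProduct_mulVec, ← mulVec_transpose, h.JT, neg_mulVec, neg_dotProduct,
    dotProduct_comm]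

theorem R_dot (h : Al P J ρ n ι) (G H : κ → ℝ) : (RR ρ n *ᵥ G) ⬝ᵥ H = G ⬝ᵥ (RR ρ n *ᵥ H) := by
  rw [dotProduct_comm, dotProduct_mulVec, ← mulVec_transpose, h.RT, dotProduct_comm]

/-- `⟨G, ρ_y H⟩ = - (y·n) ⟨G, H⟩` on `E`. -/
theorem dot_r (h : Al P J ρ n ι) {G H : κ → ℝ} (hG : InE P ρ n G) (hH : InE P ρ n H)
    (y : Fin 3 → ℝ) : G ⬝ᵥ (RR ρ y *ᵥ H) = - (∑ k, y k * n k) * (G ⬝ᵥ H) := by
  have h1 := congrArg (fun A => G ⬝ᵥ (A *ᵥ H)) (h.rr y n)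
  simp only [add_mulVec, smul_mulVec, dotProduct_add, dotProduct_smul, smul_eq_mul] at h1
  rw [← mulVec_mulVec, ← mulVec_mulVec, hH.2, hH.1, ← h.R_dot, hG.2, mulVec_neg, dotProduct_neg,
    neg_dotProduct] at h1
  linarith

theorem dot_rk (h : Al P J ρ n ι) {G H : κ → ℝ} (hG : InE P ρ n G) (hH : InE P ρ n H)
    (k : Fin 3) : G ⬝ᵥ (ρ k *ᵥ H) = - n k * (G ⬝ᵥ H) := by
  have h1 := h.dot_r hG hH (Pi.single k 1)
  have h2 : RR ρ (Pi.single k 1) = ρ k := by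
    unfold RR
    rw [Finset.sum_eq_single k]
    · simp
    · intro b _ hb; rw [Pi.single_eq_of_ne hb, zero_smul]
    · intro hk; exact absurd (Finset.mem_univ _) hk
  have h3 : ∑ j, (Pi.single k 1 : Fin 3 → ℝ) j * n j = n k := by
    rw [Finset.sum_eq_single k]
    · simp
    · intro b _ hb; rw [Pi.single_eq_of_ne hb, zero_mul]
    · intro hk; exact absurd (Finset.mem_univ _) hk
  rwa [h2, h3] at h1

/-- `⟨G, J ρ_k H⟩ = - n_k ⟨G, J H⟩` on `E`. -/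
theorem dot_Jr (h : Al P J ρ n ι) {G H : κ → ℝ} (hG : InE P ρ n G) (hH : InE P ρ n H)
    (k : Fin 3) : G ⬝ᵥ ((J * ρ k) *ᵥ H) = - n k * (G ⬝ᵥ (J *ᵥ H)) := by
  rw [h.Jr, ← mulVec_mulVec, h.dot_rk hG (h.inE_J hH)]

theorem dot_EE' (h : Al P J ρ n ι) {G K : κ → ℝ} (hG : InE P ρ n G) (hK : InE' P ρ n K) :
    G ⬝ᵥ K = 0 := by
  have h1 : G ⬝ᵥ K = - (G ⬝ᵥ K) := by
    conv_lhs => rw [← hK.2]
    rw [← h.R_dot, hG.2, neg_dotProduct]
  linarith

theorem Pry (h : Al P J ρ n ι) (y : Fin 3 → ℝ) : P * RR ρ y = RR ρ y := by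
  unfold RR
  rw [Finset.mul_sum]
  exact Finset.sum_congr rfl fun k _ => by rw [Matrix.mul_smul, h.Pr]

/-- `ρ_y` maps `E` to `E'` for `y ⊥ n`. -/
theorem inE'_ry (h : Al P J ρ n ι) {H : κ → ℝ} (hH : InE P ρ n H) {y : Fin 3 → ℝ}
    (hy : ∑ k, y k * n k = 0) : InE' P ρ n (RR ρ y *ᵥ H) := by
  refine ⟨by rw [mulVec_mulVec, h.Pry], ?_⟩
  rw [mulVec_mulVec, h.Rr y hy, neg_mulVec, ← mulVec_mulVec, hH.2, mulVec_neg, neg_neg]

/-- `ρ_y` maps `E'` to `E` for `y ⊥ n`. -/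
theorem inE_ry (h : Al P J ρ n ι) {H : κ → ℝ} (hH : InE' P ρ n H) {y : Fin 3 → ℝ}
    (hy : ∑ k, y k * n k = 0) : InE P ρ n (RR ρ y *ᵥ H) := by
  refine ⟨by rw [mulVec_mulVec, h.Pry], ?_⟩
  rw [mulVec_mulVec, h.Rr y hy, neg_mulVec, ← mulVec_mulVec, hH.2]

/-- `ρ_k ρ_y = y_k P + ι J (y_{k+1} ρ_{k+2} - y_{k+2} ρ_{k+1})`. -/
theorem r_ry (h : Al P J ρ n ι) (k : Fin 3) (y : Fin 3 → ℝ) :
    ρ k * RR ρ y = y k • P +
      ι • (J * (y (k + 1) • ρ (k + 2) - y (k + 2) • ρ (k + 1))) := by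
  have e1 := h.r3 k
  have e2 : ρ k * ρ (k + 2) = - (ι • (J * ρ (k + 1))) := by
    have hk : k ≠ k + 2 := by
      intro h0
      fin_cases k <;> simp at h0
    have h3 := h.r3 (k + 2)
    have e3 : k + 2 + 1 = k := by fin_cases k <;> rfl
    have e4 : k + 2 + 2 = k + 1 := by fin_cases k <;> rfl
    rw [e3, e4] at h3
    rw [h.r_anti hk, h3]
  have hs : RR ρ y = y k • ρ k + y (k + 1) • ρ (k + 1) + y (k + 2) • ρ (k + 2) := by
    unfold RR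
    rw [Fin.sum_univ_three]
    fin_cases k
    · rfl
    · show y 0 • ρ 0 + y 1 • ρ 1 + y 2 • ρ 2 = y 1 • ρ 1 + y 2 • ρ 2 + y 0 • ρ 0
      abel
    · show y 0 • ρ 0 + y 1 • ρ 1 + y 2 • ρ 2 = y 2 • ρ 2 + y 0 • ρ 0 + y 1 • ρ 1
      abel
  rw [hs, Matrix.mul_add, Matrix.mul_add, Matrix.mul_smul, Matrix.mul_smul, Matrix.mul_smul, e1, e2,
    h.r_sq, Matrix.mul_sub, Matrix.mul_smul, Matrix.mul_smul]
  module

/-- `y × n`. -/
def cr (y n : Fin 3 → ℝ) (k : Fin 3) : ℝ := y (k + 1) * n (k + 2) - y (k + 2) * n (k + 1)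

theorem dot_rry (h : Al P J ρ n ι) {G H : κ → ℝ} (hG : InE P ρ n G) (hH : InE P ρ n H)
    (k : Fin 3) (y : Fin 3 → ℝ) :
    G ⬝ᵥ (ρ k *ᵥ (RR ρ y *ᵥ H)) = y k * (G ⬝ᵥ H) - ι * cr y n k * (G ⬝ᵥ (J *ᵥ H)) := by
  rw [mulVec_mulVec, h.r_ry, add_mulVec, smul_mulVec, smul_mulVec, hH.1, Matrix.mul_sub,
    Matrix.mul_smul, Matrix.mul_smul, sub_mulVec, smul_mulVec, smul_mulVec, dotProduct_add,
    dotProduct_smul, dotProduct_smul, dotProduct_sub, dotProduct_smul, dotProduct_smul,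
    h.dot_Jr hG hH, h.dot_Jr hG hH]
  simp only [smul_eq_mul, cr]
  ring

theorem dot_Jrry (h : Al P J ρ n ι) {G H : κ → ℝ} (hG : InE P ρ n G) (hH : InE P ρ n H)
    (k : Fin 3) (y : Fin 3 → ℝ) :
    G ⬝ᵥ ((J * ρ k) *ᵥ (RR ρ y *ᵥ H)) =
      y k * (G ⬝ᵥ (J *ᵥ H)) + ι * cr y n k * (G ⬝ᵥ H) := by
  have h1 := h.dot_rry (h.inE_J hG) hH k y
  rw [← mulVec_mulVec]
  have h2 := h.J_dot G (ρ k *ᵥ (RR ρ y *ᵥ H))
  have h3 := h.J_dot G H
  have h4 := h.J_dot G (J *ᵥ H)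
  rw [h.JJG hH.1, dotProduct_neg, neg_neg] at h4
  rw [h2, h3, h4] at h1
  linarith

/-- the projection of the `k`-th basis vector on the complement of `n`. -/
def yk (n : Fin 3 → ℝ) (k : Fin 3) : Fin 3 → ℝ := fun l => (if l = k then 1 else 0) - n k * n l

theorem yk_perp (h : Al P J ρ n ι) (k : Fin 3) : ∑ l, yk n k l * n l = 0 := by
  unfold yk
  have h1 : ∑ l, ((if l = k then 1 else 0) - n k * n l) * n l = n k - n k * ∑ l, n l ^ 2 := by
    simp only [sub_mul, Finset.sum_sub_distrib, ite_mul, one_mul, zero_mul, Finset.sum_ite_eq',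
      Finset.mem_univ, if_true, Finset.mul_sum]
    congr 1
    exact Finset.sum_congr rfl fun l _ => by ring
  rw [h1, h.nn]; ring

theorem sum_yk (h : Al P J ρ n ι) : ∑ k, RR ρ (yk n k) * RR ρ (yk n k) = (2 : ℝ) • P := by
  have h1 : ∀ k, RR ρ (yk n k) * RR ρ (yk n k) = (∑ l, yk n k l * yk n k l) • P := by
    intro k
    have := h.rr (yk n k) (yk n k)
    rw [← two_smul ℝ (RR ρ (yk n k) * RR ρ (yk n k)), mul_smul] at this
    exact smul_right_injective _ (two_ne_zero) this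
  simp only [h1, ← Finset.sum_smul]
  congr 1
  have h2 := h.nn
  rw [Fin.sum_univ_three] at h2
  simp only [yk, Fin.sum_univ_three, Fin.isValue]
  simp
  nlinarith [h2, sq_nonneg (n 0 ^ 2 + n 1 ^ 2 + n 2 ^ 2 - 1)]

/-! ### the Clifford product in a frame -/

section Frame

variable {σ : ℝ} {ε : Fin 3 → Fin 4 → Fin 4 → ℝ} {C : Fin 4 → Matrix κ' κ ℝ}

theorem clif_dot (hC : ∀ i j, (C i)ᵀ * C j = (if i = j then (1 : ℝ) else 0) • P +
      σ • ∑ k, ε k i j • (J * ρ k)) {G K : Fin 4 → κ → ℝ} (hK : ∀ i, P *ᵥ K i = K i) :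
    (∑ i, C i *ᵥ G i) ⬝ᵥ (∑ j, C j *ᵥ K j) = ∑ i, G i ⬝ᵥ K i +
      σ * ∑ k, ∑ i, ∑ j, ε k i j * (G i ⬝ᵥ ((J * ρ k) *ᵥ K j)) := by
  have h1 : ∀ i j, (C i *ᵥ G i) ⬝ᵥ (C j *ᵥ K j) = (if i = j then G i ⬝ᵥ K j else 0) +
      σ * ∑ k, ε k i j * (G i ⬝ᵥ ((J * ρ k) *ᵥ K j)) := by
    intro i j
    have e1 : (C i *ᵥ G i) ⬝ᵥ (C j *ᵥ K j) = G i ⬝ᵥ (((C i)ᵀ * C j) *ᵥ K j) := by
      rw [← mulVec_mulVec, dotProduct_comm, dotProduct_mulVec, ← mulVec_transpose, dotProduct_comm]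
    rw [e1, hC, add_mulVec, smul_mulVec, smul_mulVec, hK, dotProduct_add, dotProduct_smul,
      dotProduct_smul, sum_mulVec, dotProduct_sum, smul_eq_mul, smul_eq_mul, ite_mul, one_mul,
      zero_mul]
    congr 2
    exact Finset.sum_congr rfl fun k _ => by rw [smul_mulVec, dotProduct_smul, smul_eq_mul]
  rw [sum_dotProduct]
  simp only [dotProduct_sum, h1, Finset.sum_add_distrib, Finset.sum_ite_eq, Finset.mem_univ,
    if_true, ← Finset.mul_sum]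
  congr 2
  have h2 : ∀ i, ∑ j, ∑ k, ε k i j * (G i ⬝ᵥ ((J * ρ k) *ᵥ K j)) =
      ∑ k, ∑ j, ε k i j * (G i ⬝ᵥ ((J * ρ k) *ᵥ K j)) := fun i => Finset.sum_comm
  simp only [h2]
  exact Finset.sum_comm

/-- `|c(G)|²` for `G ∈ T ⊗ E`. -/
theorem clif_sq (h : Al P J ρ n ι) (hC : ∀ i j, (C i)ᵀ * C j = (if i = j then (1 : ℝ) else 0) • P +
      σ • ∑ k, ε k i j • (J * ρ k)) {G K : Fin 4 → κ → ℝ} (hG : ∀ i, InE P ρ n (G i))
    (hK : ∀ i, InE P ρ n (K i)) :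
    (∑ i, C i *ᵥ G i) ⬝ᵥ (∑ j, C j *ᵥ K j) = ∑ i, G i ⬝ᵥ K i -
      σ * ∑ k, n k * ∑ i, ∑ j, ε k i j * (G i ⬝ᵥ (J *ᵥ K j)) := by
  rw [clif_dot hC fun i => (hK i).1, sub_eq_add_neg, ← mul_neg, ← Finset.sum_neg_distrib]
  congr 2
  refine Finset.sum_congr rfl fun k _ => ?_
  rw [Finset.mul_sum, ← Finset.sum_neg_distrib]
  refine Finset.sum_congr rfl fun i _ => ?_
  rw [Finset.mul_sum, ← Finset.sum_neg_distrib]
  refine Finset.sum_congr rfl fun j _ => ?_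
  rw [h.dot_Jr (hG i) (hK j)]
  ring

/-- `⟨c(G), c(ρ_y H)⟩` for `G, H ∈ T ⊗ E`, `y ⊥ n`. -/
theorem clif_ry (h : Al P J ρ n ι) (hC : ∀ i j, (C i)ᵀ * C j = (if i = j then (1 : ℝ) else 0) • P +
      σ • ∑ k, ε k i j • (J * ρ k)) {G K : Fin 4 → κ → ℝ} (hG : ∀ i, InE P ρ n (G i))
    (hK : ∀ i, InE P ρ n (K i)) {y : Fin 3 → ℝ} (hy : ∑ k, y k * n k = 0) :
    (∑ i, C i *ᵥ G i) ⬝ᵥ (∑ j, C j *ᵥ (RR ρ y *ᵥ K j)) =
      σ * ∑ k, ∑ i, ∑ j, ε k i j *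
        (y k * (G i ⬝ᵥ (J *ᵥ K j)) + ι * cr y n k * (G i ⬝ᵥ K j)) := by
  rw [clif_dot hC fun i => (h.inE'_ry (hK i) hy).1]
  have h1 : ∑ i, G i ⬝ᵥ (RR ρ y *ᵥ K i) = 0 :=
    Finset.sum_eq_zero fun i _ => h.dot_EE' (hG i) (h.inE'_ry (hK i) hy)
  rw [h1, zero_add]
  congr 1
  refine Finset.sum_congr rfl fun k _ => Finset.sum_congr rfl fun i _ =>
    Finset.sum_congr rfl fun j _ => ?_
  rw [h.dot_Jrry (hG i) (hK j)]

end Frame

end Al

/-! ### sandwich -/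

theorem R1.sandwich {p : Matrix κ κ ℂ} (h : R1 p) (X : Matrix κ κ ℂ) :
    p * X * p = (p * X).trace • p := by
  have h0 : p ≠ 0 := by
    intro h1
    have := h.rank
    rw [h1, trace_zero] at this
    exact zero_ne_one this
  obtain ⟨v, hv⟩ : ∃ v, p *ᵥ v ≠ 0 := by
    by_contra hcon
    push Not at hcon
    classical exact h0 (Matrix.ext_of_mulVec_single fun i => by rw [hcon, zero_mulVec])
  have hα : p *ᵥ (p *ᵥ v) = p *ᵥ v := by rw [mulVec_mulVec, h.idem]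
  have hpe := h.eq_of_mulVec hα hv
  set α := p *ᵥ v with hαd
  set m := hp α α with hm
  have hm0 : m ≠ 0 := hp_self_ne hv
  have h1 : vecMulVec α (star α) * X * vecMulVec α (star α) =
      (star α ⬝ᵥ (X *ᵥ α)) • vecMulVec α (star α) := by
    rw [Matrix.mul_assoc, mul_vecMulVec, vecMulVec_mul_vecMulVec]
    ext i j
    simp only [vecMulVec_apply, Matrix.smul_apply, smul_eq_mul, Pi.smul_apply, Pi.star_apply]
    ring
  have h2 : (vecMulVec α (star α) * X).trace = star α ⬝ᵥ (X *ᵥ α) := by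
    rw [vecMulVec_mul, trace_vecMulVec, dotProduct_comm, ← dotProduct_mulVec]
  rw [hpe, Matrix.smul_mul, Matrix.smul_mul, Matrix.mul_smul, h1, trace_smul, h2, smul_eq_mul]
  module

/-! ### the complex line -/

/-- real matrix as a complex one. -/
def cM (A : Matrix κ κ ℝ) : Matrix κ κ ℂ := A.map (algebraMap ℝ ℂ)

/-- real vector as a complex one. -/
def cV (v : κ → ℝ) : κ → ℂ := fun j => (v j : ℂ)

theorem cM_mul (A B : Matrix κ κ ℝ) : cM (A * B) = cM A * cM B := Matrix.map_mul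

theorem cM_mulVec (A : Matrix κ κ ℝ) (v : κ → ℝ) : cM A *ᵥ cV v = cV (A *ᵥ v) := by
  ext i
  unfold cM cV mulVec dotProduct
  simp

theorem cM_neg (A : Matrix κ κ ℝ) : cM (-A) = - cM A := by
  ext i j; simp [cM]

theorem cM_trace (A : Matrix κ κ ℝ) : (cM A).trace = (A.trace : ℂ) := by
  unfold cM Matrix.trace
  simp

theorem cM_conj (A : Matrix κ κ ℝ) : (cM A)ᴴ = cM Aᵀ := by
  ext i j
  simp [cM, conjTranspose_apply]

theorem cV_add (v w : κ → ℝ) : cV (v + w) = cV v + cV w := by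
  ext j; simp [cV]

theorem cV_sub (v w : κ → ℝ) : cV (v - w) = cV v - cV w := by
  ext j; simp [cV]

theorem cV_neg (v : κ → ℝ) : cV (-v) = - cV v := by
  ext j; simp [cV]

theorem cV_smul (c : ℝ) (v : κ → ℝ) : cV (c • v) = (c : ℂ) • cV v := by
  ext j; simp [cV]

/-- `(s - i J s)/√2`. -/
def hat (J : Matrix κ κ ℝ) (s : κ → ℝ) : κ → ℂ :=
  ((1 / √2 : ℝ) : ℂ) • (cV s - Complex.I • cV (J *ᵥ s))

/-- the projection on the complex line. -/
def PE (P J : Matrix κ κ ℝ) (ρ : Fin 3 → Matrix κ κ ℝ) (n : Fin 3 → ℝ) : Matrix κ κ ℂ :=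
  (1 / 2 : ℂ) • (cM (P0 P ρ n) - Complex.I • cM (J * P0 P ρ n))

theorem hat_add (J : Matrix κ κ ℝ) (s t : κ → ℝ) : hat J (s + t) = hat J s + hat J t := by
  unfold hat
  rw [mulVec_add, cV_add, cV_add]
  module

theorem hat_smul (J : Matrix κ κ ℝ) (c : ℝ) (s : κ → ℝ) : hat J (c • s) = (c : ℂ) • hat J s := by
  unfold hat
  rw [mulVec_smul, cV_smul, cV_smul]
  module

theorem sqrt2_sq : (((1 / √2 : ℝ) : ℂ)) * ((1 / √2 : ℝ) : ℂ) = 1 / 2 := by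
  rw [← Complex.ofReal_mul]
  have : (1 / √2 : ℝ) * (1 / √2) = 1 / 2 := by
    rw [div_mul_div_comm, Real.mul_self_sqrt (by norm_num)]; norm_num
  rw [this]; push_cast; rfl

theorem hp_cV (s t : κ → ℝ) : hp (cV s) (cV t) = ((s ⬝ᵥ t : ℝ) : ℂ) := by
  unfold hp cV dotProduct
  simp

namespace Al

variable {P J : Matrix κ κ ℝ} {ρ : Fin 3 → Matrix κ κ ℝ} {n : Fin 3 → ℝ} {ι : ℝ}

/-- `⟨ŝ, t̂⟩ = ⟨s, t⟩ + i ⟨s, J t⟩`. -/
theorem hp_hat (h : Al P J ρ n ι) {s t : κ → ℝ} (ht : P *ᵥ t = t) :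
    hp (hat J s) (hat J t) = ((s ⬝ᵥ t : ℝ) : ℂ) + Complex.I * ((s ⬝ᵥ (J *ᵥ t) : ℝ) : ℂ) := by
  have hI : star Complex.I = -Complex.I := Complex.conj_I
  have hc : star ((1 / √2 : ℝ) : ℂ) = ((1 / √2 : ℝ) : ℂ) := Complex.conj_ofReal _
  unfold hat
  rw [hp_smul_left, hp_smul_right, hc, ← mul_assoc, sqrt2_sq, hp_sub_left, hp_sub_right,
    hp_sub_right, hp_smul_left, hp_smul_left, hp_smul_right, hp_smul_right, hI, hp_cV, hp_cV, hp_cV,
    hp_cV, h.J_dot s t, h.J_dot s (J *ᵥ t), h.JJG ht, dotProduct_neg]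
  have hII := Complex.I_mul_I
  push_cast
  linear_combination (-(1 / 2 : ℂ) * ((s ⬝ᵥ t : ℝ) : ℂ)) * hII

theorem I_hat (h : Al P J ρ n ι) {s : κ → ℝ} (hs : P *ᵥ s = s) :
    Complex.I • hat J s = hat J (J *ᵥ s) := by
  unfold hat
  rw [h.JJG hs, cV_neg, smul_comm Complex.I]
  congr 1
  rw [smul_sub, smul_smul, Complex.I_mul_I]
  module

theorem PE_cV (_h : Al P J ρ n ι) (x : κ → ℝ) :
    PE P J ρ n *ᵥ cV x = ((1 / √2 : ℝ) : ℂ) • hat J (P0 P ρ n *ᵥ x) := by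
  unfold PE hat
  rw [smul_mulVec, sub_mulVec, smul_mulVec, cM_mulVec, cM_mulVec, smul_smul, sqrt2_sq,
    ← mulVec_mulVec]

theorem PE_hat (h : Al P J ρ n ι) {s : κ → ℝ} (hs : InE P ρ n s) :
    PE P J ρ n *ᵥ hat J s = hat J s := by
  have h1 := (h.inE_iff s).1 hs
  have h2 := (h.inE_iff _).1 (h.inE_J hs)
  have h3 : PE P J ρ n *ᵥ hat J s =
      ((1 / √2 : ℝ) : ℂ) • (PE P J ρ n *ᵥ cV s - Complex.I • (PE P J ρ n *ᵥ cV (J *ᵥ s))) := by
    conv_lhs => rw [hat]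
    rw [mulVec_smul, mulVec_sub, mulVec_smul]
  rw [h3, h.PE_cV, h.PE_cV, h1, h2, smul_comm Complex.I, h.I_hat (h.inE_J hs).1, ← smul_sub,
    smul_smul, sqrt2_sq, h.JJG hs.1]
  have h4 : hat J (-s) = - hat J s := by
    have := hat_smul J (-1) s
    rw [neg_one_smul] at this
    rw [this]; push_cast; module
  rw [h4]; module

theorem r1_PE (h : Al P J ρ n ι) : R1 (PE P J ρ n) where
  idem := by
    unfold PE
    have e1 : cM (P0 P ρ n) * cM (P0 P ρ n) = cM (P0 P ρ n) := by rw [← cM_mul, h.P0P0]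
    have e2 : cM (P0 P ρ n) * cM (J * P0 P ρ n) = cM (J * P0 P ρ n) := by
      rw [← cM_mul, h.JP0, ← Matrix.mul_assoc, h.P0P0]
    have e3 : cM (J * P0 P ρ n) * cM (P0 P ρ n) = cM (J * P0 P ρ n) := by
      rw [← cM_mul, Matrix.mul_assoc, h.P0P0]
    have e4 : cM (J * P0 P ρ n) * cM (J * P0 P ρ n) = - cM (P0 P ρ n) := by
      rw [← cM_mul, ← cM_neg]
      congr 1
      rw [Matrix.mul_assoc, ← Matrix.mul_assoc (P0 P ρ n), ← h.JP0, Matrix.mul_assoc J, h.P0P0,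
        ← Matrix.mul_assoc, h.JJ, Matrix.neg_mul, h.PP0]
    rw [Matrix.smul_mul, Matrix.mul_smul, Matrix.sub_mul, Matrix.mul_sub, Matrix.mul_sub,
      Matrix.smul_mul, Matrix.smul_mul, Matrix.mul_smul, Matrix.mul_smul, e1, e2, e3, e4, smul_smul,
      smul_smul, Complex.I_mul_I]
    module
  herm := by
    unfold PE
    rw [conjTranspose_smul, conjTranspose_sub, conjTranspose_smul, cM_conj, cM_conj, h.P0T,
      transpose_mul, h.P0T, h.JT, Matrix.mul_neg, ← h.JP0, cM_neg]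
    have hI : star Complex.I = -Complex.I := Complex.conj_I
    have h2 : star (1 / 2 : ℂ) = 1 / 2 := by
      rw [star_div₀, star_one]; simp
    rw [hI, h2]
    module
  rank := by
    unfold PE
    have h1 : (J * P0 P ρ n).trace = 0 := by
      have h2 : (J * P0 P ρ n).trace = - (J * P0 P ρ n).trace := by
        conv_lhs => rw [← trace_transpose, transpose_mul, h.P0T, h.JT, Matrix.mul_neg, trace_neg,
          ← h.JP0]
      linarith
    rw [trace_smul, trace_sub, trace_smul, cM_trace, cM_trace, h.trace_P0, h1]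
    simp

/-- **the connection at a point**: `hat (Π₀ (ds + X s)) = P_E dŝ + i β ŝ`, `β = -(1/2) tr (J Π₀ X)`. -/
theorem conn_pt (h : Al P J ρ n ι) {s ds dJs : κ → ℝ} (hs : InE P ρ n s) {X : Matrix κ κ ℝ}
    (hX : Xᵀ = -X) (hpar : dJs + X *ᵥ (J *ᵥ s) = J *ᵥ (ds + X *ᵥ s)) :
    hat J (P0 P ρ n *ᵥ (ds + X *ᵥ s)) =
      PE P J ρ n *ᵥ (((1 / √2 : ℝ) : ℂ) • (cV ds - Complex.I • cV dJs)) +
        (Complex.I * ((-(1 / 2) * (J * P0 P ρ n * X).trace : ℝ) : ℂ)) • hat J s := by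
  set E := PE P J ρ n with hE
  -- `tr (P_E X) = i β`
  have htr : (E * cM X).trace = Complex.I * ((-(1 / 2) * (J * P0 P ρ n * X).trace : ℝ) : ℂ) := by
    have h0 : (P0 P ρ n * X).trace = 0 := by
      have h2 : (P0 P ρ n * X).trace = - (P0 P ρ n * X).trace := by
        conv_lhs => rw [← trace_transpose, transpose_mul, h.P0T, hX, Matrix.neg_mul, trace_neg,
          trace_mul_comm]
      linarith
    rw [hE]
    unfold PE
    rw [Matrix.smul_mul, Matrix.sub_mul, Matrix.smul_mul, ← cM_mul, ← cM_mul, trace_smul,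
      trace_sub, trace_smul, cM_trace, cM_trace, h0]
    simp only [smul_eq_mul]
    push_cast
    ring
  -- `P_E X ŝ = tr (P_E X) ŝ`
  have hsand : (E * cM X) *ᵥ hat J s = (E * cM X).trace • hat J s := by
    have h1 := congrArg (fun A => A *ᵥ hat J s) (h.r1_PE.sandwich (cM X))
    simp only [← hE, smul_mulVec] at h1
    rw [← mulVec_mulVec (hat J s) (E * cM X) E, hE, h.PE_hat hs] at h1
    exact h1
  rw [← htr, ← hsand, ← mulVec_mulVec]
  have e1 : cM X *ᵥ hat J s =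
      ((1 / √2 : ℝ) : ℂ) • (cV (X *ᵥ s) - Complex.I • cV (X *ᵥ (J *ᵥ s))) := by
    unfold hat
    rw [mulVec_smul, mulVec_sub, mulVec_smul, cM_mulVec, cM_mulVec]
  rw [e1, ← mulVec_add, ← smul_add]
  have e2 : cV ds - Complex.I • cV dJs + (cV (X *ᵥ s) - Complex.I • cV (X *ᵥ (J *ᵥ s))) =
      cV (ds + X *ᵥ s) - Complex.I • cV (J *ᵥ (ds + X *ᵥ s)) := by
    rw [← hpar, cV_add, cV_add]
    module
  rw [e2, mulVec_smul, mulVec_sub, mulVec_smul, hE, h.PE_cV, h.PE_cV, mulVec_mulVec, ← h.JP0,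
    ← mulVec_mulVec, smul_comm Complex.I]
  set y := P0 P ρ n *ᵥ (ds + X *ᵥ s) with hy
  have hyE : InE P ρ n y := (h.inE_iff y).2 (by rw [hy, mulVec_mulVec, h.P0P0])
  rw [h.I_hat (h.inE_J hyE).1, h.JJG hyE.1]
  have h4 : hat J (-y) = - hat J y := by
    have := hat_smul J (-1) y
    rw [neg_one_smul] at this
    rw [this]; push_cast; module
  rw [h4, ← smul_sub, smul_smul, sqrt2_sq]
  module

end Al

end

end Crest.Agent.R235.Tau483
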