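import Crest.Agent.R235.TauC_483
import Crest.Agent.R235.TauD_483

/-!
Row 235 (S0364), PACKAGE SW, MODEL outputs MODF / MODB (helper489), part B: isometries between line
bundles. `p` a line in `ℂ^ι`, `q` a line in `ℂ^κ`, `V : M → Mat_{κ ι}(ℂ)` smooth with `V^* V = p`,
`V V^* = q`, `V p = V`:

* `lamV V`  : the real one-form `Im tr (V^* dV)`;
* `nab_V`   : `∇^{q,θ} (V α) = V ∇^{p, λ + θ} α`;
* `Phi_V`   : the curvatures of `(q, θ)` and `(p, λ + θ)` agree.
-/

set_option autoImplicit false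
set_option maxSynthPendingDepth 3
set_option linter.unusedSectionVars false

open Set Function Filter MeasureTheory Matrix Complex
open scoped Manifold ContDiff Topology

universe u

namespace Crest.Agent.R235.MdlB_489

open Crest.Agent.R240 Crest.Agent.R240.Ch Crest.Agent.R240.Int Crest.Agent.R235.Tau483

noncomputable section

variable {M : Type u} [TopologicalSpace M] [ChartedSpace E4 M] [IsManifold 𝓘(ℝ, E4) ∞ M]
variable {ι κ : Type*} [Fintype ι] [Fintype κ]

/-- an isometry of line bundles. -/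
structure VI (p : M → Matrix ι ι ℂ) (q : M → Matrix κ κ ℂ) (V : M → Matrix κ ι ℂ) : Prop where
  sm : ∀ y l, SmC fun x => V x y l
  vv : ∀ x, (V x)ᴴ * V x = p x
  vv' : ∀ x, V x * (V x)ᴴ = q x
  vp : ∀ x, V x * p x = V x

/-- the differential of `V`. -/
def dVm (V : M → Matrix κ ι ℂ) (x : M) (u : E4) : Matrix κ ι ℂ := fun y l => dC (fun z => V z y l) x u

/-- the one-form `Im tr (V^* dV)`. -/
def lamV (V : M → Matrix κ ι ℂ) : F1 E4 M :=
  ∑ y, ∑ l, (fmul1 (fun x => (V x y l).re) (dF fun x => (V x y l).im) +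
    fmul1 (fun x => -(V x y l).im) (dF fun x => (V x y l).re))

variable {p : M → Matrix ι ι ℂ} {q : M → Matrix κ κ ℂ} {V : M → Matrix κ ι ℂ}

theorem at1_sum {σ : Type*} (s : Finset σ) (f : σ → F1 E4 M) (x : M) (u : E4) :
    at1 (∑ i ∈ s, f i) x u = ∑ i ∈ s, at1 (f i) x u := by
  classical
  induction s using Finset.induction_on with
  | empty => simp [at1]
  | insert i s hi ih => rw [Finset.sum_insert hi, Finset.sum_insert hi, at1_add, ih]

theorem smooth1_sum {σ : Type*} (s : Finset σ) {f : σ → F1 E4 M} (hf : ∀ i, Smooth1 (f i)) :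
    Smooth1 (∑ i ∈ s, f i) := by
  classical
  induction s using Finset.induction_on with
  | empty => simpa using (smooth1_zero : Smooth1 (0 : F1 E4 M))
  | insert i s hi ih => rw [Finset.sum_insert hi]; exact (hf i).add ih

theorem smooth_lamV (h : ∀ y l, SmC fun x => V x y l) : Smooth1 (lamV V) := by
  refine smooth1_sum _ fun y => smooth1_sum _ fun l => Smooth1.add ?_ ?_
  · exact Smooth1.fmul (h y l).re (Smooth1.dF (h y l).im)
  · exact Smooth1.fmul (h y l).im.neg (Smooth1.dF (h y l).re)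

theorem at1_lamV (h : ∀ y l, SmC fun x => V x y l) (x : M) (u : E4) :
    at1 (lamV V) x u = (∑ l, ∑ y, star (V x y l) * dVm V x u y l).im := by
  unfold lamV
  rw [at1_sum]
  simp only [at1_sum, Complex.im_sum]
  rw [Finset.sum_comm]
  refine Finset.sum_congr rfl fun l _ => Finset.sum_congr rfl fun y _ => ?_
  rw [at1_add, at1_fmul1, at1_fmul1, ← dC_im (h _ _), ← dC_re (h _ _), Complex.mul_im]
  unfold dVm
  simp only [Complex.star_def, Complex.conj_re, Complex.conj_im]

theorem trace_eq (x : M) (u : E4) :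
    ((V x)ᴴ * dVm V x u).trace = ∑ l, ∑ y, star (V x y l) * dVm V x u y l := by
  rw [Matrix.trace]
  refine Finset.sum_congr rfl fun l _ => ?_
  rw [Matrix.diag_apply, Matrix.mul_apply]
  rfl

theorem tr_dV (h : VI p q V) (hp : Ln p) (x : M) (u : E4) :
    ((V x)ᴴ * dVm V x u).trace = Complex.I * (at1 (lamV V) x u : ℂ) := by
  have h1 : dC (fun z => ∑ l, ∑ y, star (V z y l) * V z y l) x u = 0 := by
    have e : (fun z => ∑ l, ∑ y, star (V z y l) * V z y l) = fun _ : M => (1 : ℂ) := by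
      funext z
      rw [← hp.rank z, ← h.vv z, Matrix.trace]
      refine Finset.sum_congr rfl fun l _ => ?_
      rw [Matrix.diag_apply, Matrix.mul_apply]
      rfl
    rw [e]
    unfold dC
    simp
  have h2 : dC (fun z => ∑ l, ∑ y, star (V z y l) * V z y l) x u =
      star ((V x)ᴴ * dVm V x u).trace + ((V x)ᴴ * dVm V x u).trace := by
    rw [dC_sum _ fun l _ => SmC.sum _ fun y _ => SmC.mul (SmC.star (h.sm y l)) (h.sm y l),
      trace_eq, star_sum, ← Finset.sum_add_distrib]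
    refine Finset.sum_congr rfl fun l _ => ?_
    rw [dC_sum _ fun y _ => SmC.mul (SmC.star (h.sm y l)) (h.sm y l), star_sum,
      ← Finset.sum_add_distrib]
    refine Finset.sum_congr rfl fun y _ => ?_
    rw [dC_mul (SmC.star (h.sm y l)) (h.sm y l), dC_star (h.sm y l), star_mul', star_star]
    unfold dVm
    ring
  rw [h1] at h2
  have h3 : (((V x)ᴴ * dVm V x u).trace).re = 0 := by
    have := congrArg Complex.re h2
    simp only [Complex.add_re, Complex.star_def, Complex.conj_re, Complex.zero_re] at this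
    linarith
  apply Complex.ext
  · rw [h3]; simp
  · rw [at1_lamV h.sm, ← trace_eq]; simp

theorem dV_mulVec (hV : ∀ y l, SmC fun x => V x y l) {α : M → ι → ℂ} (hα : SmV α) (x : M)
    (u : E4) : dV (fun z => V z *ᵥ α z) x u = dVm V x u *ᵥ α x + V x *ᵥ dV α x u := by
  funext y
  have e : dV (fun z => V z *ᵥ α z) x u y = dC (fun z => ∑ l, V z y l * α z l) x u := rfl
  rw [e, dC_sum _ fun l _ => SmC.mul (hV y l) (hα l)]
  simp only [dC_mul (hV y _) (hα _)]
  rw [Finset.sum_add_distrib]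
  rfl

theorem smV_mulVec (hV : ∀ y l, SmC fun x => V x y l) {α : M → ι → ℂ} (hα : SmV α) :
    SmV fun z => V z *ᵥ α z := by
  intro y
  exact SmC.sum _ fun l _ => SmC.mul (hV y l) (hα l)

theorem proj_V (h : VI p q V) (α : ι → ℂ) (x : M) : q x *ᵥ (V x *ᵥ α) = V x *ᵥ (p x *ᵥ α) := by
  rw [Matrix.mulVec_mulVec, Matrix.mulVec_mulVec, ← h.vv', ← h.vv, Matrix.mul_assoc]

/-- **the isometry is parallel up to `λ`.** -/
theorem nab_V (h : VI p q V) (hp : Ln p) (θ : F1 E4 M) {α : M → ι → ℂ} (hα : SmV α)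
    (hpα : ∀ x, p x *ᵥ α x = α x) (x : M) (u : E4) :
    nab q θ (fun z => V z *ᵥ α z) x u = V x *ᵥ nab p (lamV V + θ) α x u := by
  unfold nab
  rw [dV_mulVec h.sm hα, at1_add, ← h.vv' x, ← Matrix.mulVec_mulVec, Matrix.mulVec_add,
    Matrix.mulVec_mulVec, Matrix.mulVec_mulVec, h.vv x]
  -- `V^* dV α = i λ α`
  have hV1 : (V x)ᴴ = p x * (V x)ᴴ := by
    have := congrArg Matrix.conjTranspose (h.vp x)
    rw [Matrix.conjTranspose_mul, hp.herm] at this
    exact this.symm
  have h1 : ((V x)ᴴ * dVm V x u) *ᵥ α x = (Complex.I * (at1 (lamV V) x u : ℂ)) • α x := by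
    have h2 := R1.sandwich (r1 hp x) ((V x)ᴴ * dVm V x u)
    have h3 : p x * ((V x)ᴴ * dVm V x u) = (V x)ᴴ * dVm V x u := by
      rw [← Matrix.mul_assoc, ← hV1]
    rw [h3, tr_dV h hp] at h2
    have h4 := congrArg (fun A => A *ᵥ α x) h2
    simp only [← Matrix.mulVec_mulVec, hpα, Matrix.smul_mulVec] at h4
    rw [← h4, Matrix.mulVec_mulVec]
  rw [h1, ← Matrix.mulVec_smul, ← Matrix.mulVec_add]
  congr 1
  push_cast
  rw [mul_add, add_smul]
  abel

theorem hp_V (h : VI p q V) (hp : Ln p) {α b : ι → ℂ} (x : M) (hb : p x *ᵥ b = b) :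
    Tau483.hp (V x *ᵥ α) (V x *ᵥ b) = Tau483.hp α b := by
  unfold Tau483.hp
  rw [star_mulVec, dotProduct_comm, ← dotProduct_mulVec, Matrix.mulVec_mulVec, h.vv,
    dotProduct_mulVec, ← hp.herm x, ← star_mulVec, hb, dotProduct_comm]

/-- columns of `p`. -/
def col (p : M → Matrix ι ι ℂ) (j : ι) (x : M) : ι → ℂ := fun i => p x i j

theorem smV_col (hp : Ln p) (j : ι) : SmV (col p j) := fun i => hp.smooth i j

theorem p_col (hp : Ln p) (j : ι) (x : M) : p x *ᵥ col p j x = col p j x := by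
  funext i
  have := congrFun (congrFun (hp.idem x) i) j
  exact this

theorem exists_col (hp : Ln p) (x : M) : ∃ j, col p j x ≠ 0 := by
  by_contra hcon
  push Not at hcon
  have h1 : (p x).trace = 0 := by
    rw [Matrix.trace]
    refine Finset.sum_eq_zero fun i _ => ?_
    exact congrFun (hcon i) i
  rw [hp.rank x] at h1
  exact one_ne_zero h1

/-- the hermitian wedges agree. -/
theorem hw_V (h : VI p q V) (hp : Ln p) (θ : F1 E4 M) {α b : M → ι → ℂ} (hα : SmV α)
    (hb : SmV b) (hpα : ∀ x, p x *ᵥ α x = α x) (hpb : ∀ x, p x *ᵥ b x = b x) (x : M) (u v : E4) :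
    hw (nab q θ (fun z => V z *ᵥ α z) x) (nab q θ (fun z => V z *ᵥ b z) x) u v =
      hw (nab p (lamV V + θ) α x) (nab p (lamV V + θ) b x) u v := by
  have hpn : ∀ w, p x *ᵥ nab p (lamV V + θ) b x w = nab p (lamV V + θ) b x w := by
    intro w
    unfold nab
    rw [Matrix.mulVec_add, Matrix.mulVec_mulVec, hp.idem, Matrix.mulVec_smul, hpb]
  unfold hw
  rw [nab_V h hp θ hα hpα, nab_V h hp θ hb hpb, nab_V h hp θ hα hpα, nab_V h hp θ hb hpb,
    hp_V h hp x (hpn v), hp_V h hp x (hpn u)]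

theorem lim_V (h : VI p q V) (hp : Ln p) (hq : Ln q) (θ : F1 E4 M) {α b : M → ι → ℂ} (hα : SmV α)
    (hpα : ∀ x, p x *ᵥ α x = α x) (hpb : ∀ x, p x *ᵥ b x = b x) :
    lim θ (fun z => V z *ᵥ α z) (fun z => V z *ᵥ b z) = lim (lamV V + θ) α b := by
  funext x
  refine ContinuousLinearMap.ext fun u => ?_
  have h1 := at1_lim hq (a := θ) (smV_mulVec h.sm hα) (b := fun z => V z *ᵥ b z)
    (fun z => by rw [proj_V h, hpb]) x u
  have h2 := at1_lim hp (a := lamV V + θ) hα hpb x u
  rw [nab_V h hp θ hα hpα, hp_V h hp x (hpb x), ← h2] at h1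
  exact h1

/-- **the curvatures agree.** -/
theorem Phi_V (h : VI p q V) (hp : Ln p) (hq : Ln q) {θ : F1 E4 M} (hθ : Smooth1 θ) {c c' : Z2 M}
    (hc : Ch0 p c) (hc' : Ch0 q c') (x : M) : Phi c' θ x = Phi c (lamV V + θ) x := by
  obtain ⟨j, hj⟩ := exists_col hp x
  have hs := smV_col hp j
  have hpc := p_col hp j
  have hlam : Smooth1 (lamV V + θ) := (smooth_lamV h.sm).add hθ
  have hVs : SmV fun z => V z *ᵥ col p j z := smV_mulVec h.sm hs
  have hqs : ∀ z, q z *ᵥ (V z *ᵥ col p j z) = V z *ᵥ col p j z := fun z => by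
    rw [proj_V h, hpc]
  have hne : ((Tau483.hp (col p j x) (col p j x)).re : ℝ) ≠ 0 := by
    intro h0
    refine hp_self_ne hj ?_
    rw [hp_self] at h0 ⊢
    rw [Complex.ofReal_re] at h0
    rw [h0, Complex.ofReal_zero]
  refine ContinuousLinearMap.ext fun u => ContinuousLinearMap.ext fun v => ?_
  have h1 := dG_lim_eq hq hc' hθ hVs hVs hqs hqs x u v
  have h2 := dG_lim_eq hp hc hlam hs hs hpc hpc x u v
  rw [lim_V h hp hq θ hs hpc hpc, h2, hw_V h hp θ hs hs hpc hpc, hp_V h hp x (hpc x)] at h1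
  have h3 : (Phi c' θ x u v - Phi c (lamV V + θ) x u v) *
      (Tau483.hp (col p j x) (col p j x)).re = 0 := by linarith
  rcases mul_eq_zero.1 h3 with h4 | h4
  · linarith
  · exact absurd h4 hne

end

end Crest.Agent.R235.MdlB_489
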