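import Crest.Agent.R235.VIso_470
import Crest.Agent.R235.MdlB_489

/-!
Row 235 (S0364), PACKAGE SW, MODEL outputs MODF / MODB (helper489), part A: the unit section
`u = P_ν s / |P_ν s|` of an eigenline, `s` a constant vector with `P_μ s = s`, `|s| = 1`,
`P_ν = (1 + ∑ ν_k ρ_k)/2`, `1 + ν·μ > 0`, its isometry `Vu` and the form

`λ = ⟨J u, du⟩ = (ι/2) (1 + ν·μ)⁻¹ ∑_j μ_{j+2} (ν_j dν_{j+1} - ν_{j+1} dν_j)`   (independent of `s`).
-/

set_option autoImplicit false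
set_option maxSynthPendingDepth 3
set_option linter.unusedSectionVars false

open Set Function Filter Matrix
open scoped Manifold ContDiff Topology

universe u

namespace Crest.Agent.R235.MdlA_489

open Crest.Agent.R240 Crest.Agent.R240.Ch Crest.Agent.R235 Crest.Agent.R235.VIso_470
open Crest.Agent.R235.Tau483 (Ln SmC dC dC_mul dC_sum dC_re dC_im ln_of dmt dmt_line r1 hp_re)
open Crest.Agent.R235.MdlB_489

noncomputable section

/-! ### algebra -/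

section alg

variable {κ : Type} [Fintype κ] [DecidableEq κ] {J : Matrix κ κ ℝ} {ρ : Fin 3 → Matrix κ κ ℝ}

theorem _root_.Crest.Agent.R235.VIso_470.Q4.s_rho (h : Q4 J ρ) {μ : Fin 3 → ℝ} {s : κ → ℝ} (hs : PP ρ μ *ᵥ s = s)
    (h1 : s ⬝ᵥ s = 1) (k : Fin 3) : s ⬝ᵥ (ρ k *ᵥ s) = μ k := by
  have e1 : (∑ j, μ j • ρ j) *ᵥ s = s := by
    have h2 := hs
    unfold PP at h2
    rw [Matrix.smul_mulVec, Matrix.add_mulVec, Matrix.one_mulVec] at h2
    have h3 := congrArg (fun v => (2 : ℝ) • v) h2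
    simp only [smul_smul] at h3
    norm_num at h3
    rw [two_smul] at h3
    exact add_left_cancel h3
  have e2 : ρ k * (∑ j, μ j • ρ j) + (∑ j, μ j • ρ j) * ρ k = (2 * μ k) • (1 : Matrix κ κ ℝ) := by
    rw [Finset.mul_sum, Finset.sum_mul, ← Finset.sum_add_distrib]
    have : ∀ j, ρ k * (μ j • ρ j) + μ j • ρ j * ρ k = μ j • (ρ k * ρ j + ρ j * ρ k) := by
      intro j
      rw [Matrix.mul_smul, Matrix.smul_mul, smul_add]
    simp only [this]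
    rw [Finset.sum_eq_single k]
    · rw [h.anti, if_pos rfl, smul_smul, mul_comm]
    · intro j _ hj
      rw [h.anti, if_neg (Ne.symm hj), smul_zero]
    · intro hk; exact absurd (Finset.mem_univ k) hk
  have e3 := congrArg (fun A => s ⬝ᵥ (A *ᵥ s)) e2
  simp only [Matrix.add_mulVec, dotProduct_add, ← Matrix.mulVec_mulVec, Matrix.smul_mulVec,
    Matrix.one_mulVec, dotProduct_smul, h1, e1, smul_eq_mul, mul_one] at e3
  have e4 : s ⬝ᵥ ((∑ j, μ j • ρ j) *ᵥ (ρ k *ᵥ s)) = s ⬝ᵥ (ρ k *ᵥ s) := by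
    have h5 : (∑ j, μ j • ρ j : Matrix κ κ ℝ)ᵀ = ∑ j, μ j • ρ j := by
      rw [Matrix.transpose_sum]
      simp only [Matrix.transpose_smul, h.sym]
    have h6 := mv_dot (∑ j, μ j • ρ j) s (ρ k *ᵥ s)
    rw [h5, e1] at h6
    exact h6.symm
  rw [e4] at e3
  linarith

/-- `⟨J ρ_l s, ρ_k s⟩`. -/
theorem _root_.Crest.Agent.R235.VIso_470.Q4.a_next (h : Q4 J ρ) {ι : ℝ} (h3 : ∀ j, ρ j * ρ (j + 1) = ι • (J * ρ (j + 2)))
    {μ : Fin 3 → ℝ} {s : κ → ℝ} (hs : PP ρ μ *ᵥ s = s) (h1 : s ⬝ᵥ s = 1) (j : Fin 3) :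
    (J *ᵥ (ρ (j + 1) *ᵥ s)) ⬝ᵥ (ρ j *ᵥ s) = - ι * μ (j + 2) := by
  have e1 : (J *ᵥ (ρ (j + 1) *ᵥ s)) ⬝ᵥ (ρ j *ᵥ s) = s ⬝ᵥ ((J * (ρ j * ρ (j + 1))) *ᵥ s) := by
    have h2 := mv_dot (ρ j) s (J *ᵥ (ρ (j + 1) *ᵥ s))
    rw [h.sym] at h2
    rw [dotProduct_comm, h2, ← Matrix.mulVec_mulVec, ← Matrix.mulVec_mulVec, Matrix.mulVec_mulVec,
      ← h.com, ← Matrix.mulVec_mulVec]
  rw [e1, h3, Matrix.mul_smul, ← Matrix.mul_assoc, h.sq, Matrix.neg_mul, Matrix.one_mul,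
    Matrix.smul_mulVec, Matrix.neg_mulVec, dotProduct_smul, dotProduct_neg, h.s_rho hs h1,
    smul_eq_mul]
  ring

theorem _root_.Crest.Agent.R235.VIso_470.Q4.a_prev (h : Q4 J ρ) {ι : ℝ} (h3 : ∀ j, ρ j * ρ (j + 1) = ι • (J * ρ (j + 2)))
    {μ : Fin 3 → ℝ} {s : κ → ℝ} (hs : PP ρ μ *ᵥ s = s) (h1 : s ⬝ᵥ s = 1) (j : Fin 3) :
    (J *ᵥ (ρ j *ᵥ s)) ⬝ᵥ (ρ (j + 1) *ᵥ s) = ι * μ (j + 2) := by
  have h2 := h.a_next h3 hs h1 j
  rw [mv_dot, h.skew, Matrix.neg_mulVec, dotProduct_neg, dotProduct_comm] at h2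
  linarith

theorem _root_.Crest.Agent.R235.VIso_470.Q4.a_self (h : Q4 J ρ) (s : κ → ℝ) (j : Fin 3) :
    (J *ᵥ (ρ j *ᵥ s)) ⬝ᵥ (ρ j *ᵥ s) = 0 := by
  rw [dotProduct_comm]
  exact skew_dot h.skew _

theorem _root_.Crest.Agent.R235.VIso_470.Q4.a_zero (h : Q4 J ρ) (s : κ → ℝ) (j : Fin 3) : (J *ᵥ s) ⬝ᵥ (ρ j *ᵥ s) = 0 := by
  have h2 : (J *ᵥ s) ⬝ᵥ (ρ j *ᵥ s) = s ⬝ᵥ ((-(J * ρ j)) *ᵥ s) := by
    rw [mv_dot, h.skew, Matrix.mulVec_mulVec, Matrix.neg_mul]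
  rw [h2]
  refine skew_dot ?_ s
  rw [Matrix.transpose_neg, Matrix.transpose_mul, h.sym, h.skew, h.com, Matrix.mul_neg]

/-- the algebra of `λ`. -/
theorem _root_.Crest.Agent.R235.VIso_470.Q4.lam_alg (h : Q4 J ρ) {ι : ℝ} (h3 : ∀ j, ρ j * ρ (j + 1) = ι • (J * ρ (j + 2)))
    {μ ν : Fin 3 → ℝ} {s : κ → ℝ} (hs : PP ρ μ *ᵥ s = s) (h1 : s ⬝ᵥ s = 1) (c dc : ℝ)
    (dν : Fin 3 → ℝ) (hc : c ^ 2 * (1 + ∑ k, ν k * μ k) = 2) :
    (J *ᵥ (c • (PP ρ ν *ᵥ s))) ⬝ᵥ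
      (dc • (PP ρ ν *ᵥ s) + (c / 2) • ((∑ k, dν k • ρ k) *ᵥ s)) =
      ∑ j, (ι / 2 * (1 + ∑ k, ν k * μ k)⁻¹ * μ (j + 2)) * (ν j * dν (j + 1) - ν (j + 1) * dν j) := by
  have hpos : 1 + ∑ k, ν k * μ k ≠ 0 := by
    intro h0
    rw [h0, mul_zero] at hc
    norm_num at hc
  have hc2 : (1 + ∑ k, ν k * μ k)⁻¹ = c ^ 2 / 2 := by
    field_simp
    linarith
  have e0 : (J *ᵥ (PP ρ ν *ᵥ s)) ⬝ᵥ (PP ρ ν *ᵥ s) = 0 := by
    rw [dotProduct_comm]; exact skew_dot h.skew _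
  have e1 : J *ᵥ (PP ρ ν *ᵥ s) = (1 / 2 : ℝ) • (J *ᵥ s + ∑ l, ν l • (J *ᵥ (ρ l *ᵥ s))) := by
    unfold PP
    rw [Matrix.smul_mulVec, Matrix.mulVec_smul, Matrix.add_mulVec, Matrix.one_mulVec,
      Matrix.mulVec_add, Matrix.sum_mulVec, Matrix.mulVec_sum]
    simp only [Matrix.smul_mulVec, Matrix.mulVec_smul]
  have e2 : (∑ k, dν k • ρ k) *ᵥ s = ∑ k, dν k • (ρ k *ᵥ s) := by
    rw [Matrix.sum_mulVec]
    simp only [Matrix.smul_mulVec]
  rw [Matrix.mulVec_smul, smul_dotProduct, dotProduct_add, dotProduct_smul, e0, smul_zero, zero_add,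
    dotProduct_smul, e1, e2, smul_dotProduct, add_dotProduct, sum_dotProduct, dotProduct_sum, hc2]
  have e3 : ∑ k, (J *ᵥ s) ⬝ᵥ (dν k • (ρ k *ᵥ s)) = 0 := by
    refine Finset.sum_eq_zero fun k _ => ?_
    rw [dotProduct_smul, h.a_zero, smul_zero]
  have e4 : ∀ l, (ν l • (J *ᵥ (ρ l *ᵥ s))) ⬝ᵥ (∑ k, dν k • (ρ k *ᵥ s)) =
      ∑ k, ν l * dν k * ((J *ᵥ (ρ l *ᵥ s)) ⬝ᵥ (ρ k *ᵥ s)) := by
    intro l
    rw [smul_dotProduct, dotProduct_sum, Finset.smul_sum]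
    refine Finset.sum_congr rfl fun k _ => ?_
    rw [dotProduct_smul, smul_eq_mul, smul_eq_mul, mul_assoc]
  have a01 := h.a_prev h3 hs h1 0
  have a10 := h.a_next h3 hs h1 0
  have a12 := h.a_prev h3 hs h1 1
  have a21 := h.a_next h3 hs h1 1
  have a20 := h.a_prev h3 hs h1 2
  have a02 := h.a_next h3 hs h1 2
  have a00 := h.a_self s 0
  have a11 := h.a_self s 1
  have a22 := h.a_self s 2
  rw [show (0 : Fin 3) + 1 = 1 from rfl, show (0 : Fin 3) + 2 = 2 from rfl] at a01 a10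
  rw [show (1 : Fin 3) + 1 = 2 from rfl, show (1 : Fin 3) + 2 = 0 from rfl] at a12 a21
  rw [show (2 : Fin 3) + 1 = 0 from rfl, show (2 : Fin 3) + 2 = 1 from rfl] at a20 a02
  rw [e3, zero_add]
  simp only [e4]
  simp only [Fin.sum_univ_three, a01, a10, a12, a21, a20, a02, a00, a11, a22, smul_eq_mul]
  rw [show (0 : Fin 3) + 1 = 1 from rfl, show (0 : Fin 3) + 2 = 2 from rfl,
    show (1 : Fin 3) + 1 = 2 from rfl, show (1 : Fin 3) + 2 = 0 from rfl,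
    show (2 : Fin 3) + 1 = 0 from rfl, show (2 : Fin 3) + 2 = 1 from rfl]
  ring

end alg

/-! ### the section `u` -/

section man

variable {M : Type u} [TopologicalSpace M] [ChartedSpace E4 M] [IsManifold 𝓘(ℝ, E4) ∞ M]
variable {κ : Type} [Fintype κ] [DecidableEq κ] {J : Matrix κ κ ℝ} {ρ : Fin 3 → Matrix κ κ ℝ}
variable {N : ℕ}

/-- `(√((1 + ν·μ)/2))⁻¹`. -/
def cf (μ : Fin 3 → ℝ) (ν : Fin 3 → M → ℝ) (z : M) : ℝ := (√((1 + ∑ k, ν k z * μ k) / 2))⁻¹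

/-- the unit section `P_ν s / |P_ν s|`. -/
def us (ρ : Fin 3 → Matrix κ κ ℝ) (μ : Fin 3 → ℝ) (ν : Fin 3 → M → ℝ) (s : κ → ℝ) (y : κ) (z : M) :
    ℝ := cf μ ν z * (PP ρ (fun k => ν k z) *ᵥ s) y

omit [IsManifold 𝓘(ℝ, E4) ∞ M] [DecidableEq κ] in
theorem us_eq [DecidableEq κ] (μ : Fin 3 → ℝ) (ν : Fin 3 → M → ℝ) (s : κ → ℝ) (z : M) :
    (fun y => us ρ μ ν s y z) = cf μ ν z • (PP ρ (fun k => ν k z) *ᵥ s) := rfl

omit [IsManifold 𝓘(ℝ, E4) ∞ M] in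
theorem us_PP (h : Q4 J ρ) (μ : Fin 3 → ℝ) {ν : Fin 3 → M → ℝ} (hn : ∀ z, ∑ k, ν k z ^ 2 = 1)
    (s : κ → ℝ) (z : M) :
    PP ρ (fun k => ν k z) *ᵥ (fun y => us ρ μ ν s y z) = fun y => us ρ μ ν s y z := by
  rw [us_eq, Matrix.mulVec_smul, Matrix.mulVec_mulVec, h.PP_idem (hn z)]

omit [IsManifold 𝓘(ℝ, E4) ∞ M] [ChartedSpace E4 M] [TopologicalSpace M] in
theorem cf_sq {μ : Fin 3 → ℝ} {ν : Fin 3 → M → ℝ} {z : M} (hpos : 0 < 1 + ∑ k, ν k z * μ k) :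
    cf μ ν z ^ 2 * (1 + ∑ k, ν k z * μ k) = 2 := by
  unfold cf
  rw [inv_pow, Real.sq_sqrt (by linarith)]
  field_simp

omit [IsManifold 𝓘(ℝ, E4) ∞ M] in
theorem us_unit (h : Q4 J ρ) {μ : Fin 3 → ℝ} {ν : Fin 3 → M → ℝ}
    (hn : ∀ z, ∑ k, ν k z ^ 2 = 1) {s : κ → ℝ} (hs : PP ρ μ *ᵥ s = s) (h1 : s ⬝ᵥ s = 1) {z : M}
    (hpos : 0 < 1 + ∑ k, ν k z * μ k) :
    (fun y => us ρ μ ν s y z) ⬝ᵥ (fun y => us ρ μ ν s y z) = 1 := by
  have e1 : s ⬝ᵥ (PP ρ (fun k => ν k z) *ᵥ s) = (1 + ∑ k, ν k z * μ k) / 2 := by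
    unfold PP
    rw [Matrix.smul_mulVec, dotProduct_smul, Matrix.add_mulVec, Matrix.one_mulVec, dotProduct_add,
      h1, Matrix.sum_mulVec, dotProduct_sum, smul_eq_mul]
    have : ∀ k, s ⬝ᵥ ((ν k z • ρ k) *ᵥ s) = ν k z * μ k := by
      intro k
      rw [Matrix.smul_mulVec, dotProduct_smul, h.s_rho hs h1, smul_eq_mul]
    simp only [this]
    ring
  rw [us_eq, smul_dotProduct, dotProduct_smul, mv_dot, h.PP_sym, Matrix.mulVec_mulVec,
    h.PP_idem (hn z), e1, smul_eq_mul, smul_eq_mul]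
  have := cf_sq hpos
  linear_combination (1 / 2 : ℝ) * this

theorem smooth_cf {μ : Fin 3 → ℝ} {ν : Fin 3 → M → ℝ}
    (hsm : ∀ k, ContMDiff 𝓘(ℝ, E4) 𝓘(ℝ, ℝ) ∞ (ν k)) (hpos : ∀ z, 0 < 1 + ∑ k, ν k z * μ k) :
    ContMDiff 𝓘(ℝ, E4) 𝓘(ℝ, ℝ) ∞ (cf μ ν) := by
  have h1 : ContMDiff 𝓘(ℝ, E4) 𝓘(ℝ, ℝ) ∞ (fun z => (1 + ∑ k, ν k z * μ k) / 2) := by
    simp only [div_eq_mul_inv]
    exact (contMDiff_const.add (contMDiff_finsetSum fun k _ => (hsm k).mul contMDiff_const)).mul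
      contMDiff_const
  intro z
  have hf0 : 0 < (1 + ∑ k, ν k z * μ k) / 2 := by linarith [hpos z]
  have h2 : ContDiffAt ℝ ∞ (fun r : ℝ => (√r)⁻¹) ((1 + ∑ k, ν k z * μ k) / 2) :=
    (Real.contDiffAt_sqrt hf0.ne').inv (Real.sqrt_pos.2 hf0).ne'
  exact ContMDiffAt.comp (g := fun r : ℝ => (√r)⁻¹) (f := fun z => (1 + ∑ k, ν k z * μ k) / 2) z
    h2.contMDiffAt (h1 z)

omit [IsManifold 𝓘(ℝ, E4) ∞ M] [ChartedSpace E4 M] [TopologicalSpace M] in
theorem PP_app (ν : Fin 3 → M → ℝ) (s : κ → ℝ) (y : κ) (z : M) :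
    (PP ρ (fun k => ν k z) *ᵥ s) y = (1 / 2) * (s y + ∑ k, ν k z * (ρ k *ᵥ s) y) := by
  unfold PP
  rw [Matrix.smul_mulVec, Matrix.add_mulVec, Matrix.one_mulVec, Matrix.sum_mulVec]
  simp only [Matrix.smul_mulVec, Pi.smul_apply, Pi.add_apply, Finset.sum_apply, smul_eq_mul]

theorem smooth_PP {ν : Fin 3 → M → ℝ} (hsm : ∀ k, ContMDiff 𝓘(ℝ, E4) 𝓘(ℝ, ℝ) ∞ (ν k)) (s : κ → ℝ)
    (y : κ) : ContMDiff 𝓘(ℝ, E4) 𝓘(ℝ, ℝ) ∞ (fun z => (PP ρ (fun k => ν k z) *ᵥ s) y) := by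
  simp only [PP_app]
  refine contMDiff_const.mul (contMDiff_const.add ?_)
  exact contMDiff_finsetSum fun k _ => (hsm k).mul contMDiff_const

theorem smooth_us {μ : Fin 3 → ℝ} {ν : Fin 3 → M → ℝ}
    (hsm : ∀ k, ContMDiff 𝓘(ℝ, E4) 𝓘(ℝ, ℝ) ∞ (ν k)) (hpos : ∀ z, 0 < 1 + ∑ k, ν k z * μ k)
    (s : κ → ℝ) (y : κ) : ContMDiff 𝓘(ℝ, E4) 𝓘(ℝ, ℝ) ∞ (us ρ μ ν s y) :=
  (smooth_cf hsm hpos).mul (smooth_PP hsm s y)

/-! ### the isometry of a unit section -/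

/-- the matrix of the isometry. -/
def Vu (J : Matrix κ κ ℝ) (p : M → Matrix (Fin N) (Fin N) ℂ) (u : κ → M → ℝ) (z : M) :
    Matrix (κ × Fin N) (Fin N) ℂ := Matrix.of fun y l => hc J (fun a => u a z) y.1 * p z y.2 l

theorem smooth_hc {u : κ → M → ℝ} (hu : ∀ a, ContMDiff 𝓘(ℝ, E4) 𝓘(ℝ, ℝ) ∞ (u a)) (a : κ) :
    SmC fun z => hc J (fun a => u a z) a := by
  have c1 : ∀ {f : M → ℝ}, ContMDiff 𝓘(ℝ, E4) 𝓘(ℝ, ℝ) ∞ f →
      ContMDiff 𝓘(ℝ, E4) 𝓘(ℝ, ℂ) ∞ (fun z => (f z : ℂ)) := fun hf =>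
    (Complex.ofRealCLM.contDiff.contMDiff).comp hf
  unfold hc
  refine cmul contMDiff_const ((c1 (hu a)).sub (cmul contMDiff_const (c1 ?_)))
  have e : ∀ z, (J *ᵥ fun a => u a z) a = ∑ b, J a b * u b z := fun z => rfl
  simp only [e]
  exact contMDiff_finsetSum fun b _ => contMDiff_const.mul (hu b)

theorem vi_Vu (h : Q4 J ρ) {p : M → Matrix (Fin N) (Fin N) ℂ} (hq : IsLine p)
    {ν : Fin 3 → M → ℝ} (hn : ∀ z, ∑ k, ν k z ^ 2 = 1) {u : κ → M → ℝ}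
    (hu1 : ∀ a, ContMDiff 𝓘(ℝ, E4) 𝓘(ℝ, ℝ) ∞ (u a))
    (hu3 : ∀ z, PP ρ (fun k => ν k z) *ᵥ (fun a => u a z) = fun a => u a z)
    (hu4 : ∀ z, (fun a => u a z) ⬝ᵥ (fun a => u a z) = 1) :
    VI p (fun z => Matrix.of (PE J (p z) (PP ρ (fun k => ν k z)))) (Vu J p u) where
  sm y l := cmul (smooth_hc hu1 y.1) (hq.smooth y.2 l)
  vv z := by
    ext l l'
    rw [Matrix.mul_apply]
    simp only [Vu, Matrix.conjTranspose_apply, Matrix.of_apply, star_mul']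
    rw [Fintype.sum_prod_type]
    have e1 : ∀ (a : κ) (k : Fin N), star (hc J (fun a => u a z) a) * star (p z k l) *
        (hc J (fun a => u a z) a * p z k l') =
        (star (hc J (fun a => u a z) a) * hc J (fun a => u a z) a) *
          ((p z).conjTranspose l k * p z k l') := by
      intro a k
      rw [Matrix.conjTranspose_apply]; ring
    simp only [e1]
    simp only [← Finset.mul_sum]
    rw [← Finset.sum_mul, h.sum_hc (hu4 z), one_mul, ← Matrix.mul_apply, hq.herm, hq.idem]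
  vv' z := by
    ext y y'
    rw [Matrix.mul_apply]
    simp only [Vu, Matrix.conjTranspose_apply, Matrix.of_apply, star_mul']
    rw [PE_apply]
    have e1 : ∀ l, hc J (fun a => u a z) y.1 * p z y.2 l *
        (star (hc J (fun a => u a z) y'.1) * star (p z y'.2 l)) =
        (hc J (fun a => u a z) y.1 * star (hc J (fun a => u a z) y'.1)) *
          (p z y.2 l * (p z).conjTranspose l y'.2) := by
      intro l
      rw [Matrix.conjTranspose_apply]; ring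
    simp only [e1]
    rw [← Finset.mul_sum, ← Matrix.mul_apply, hq.herm, hq.idem, h.hc_mul (hn z) (hu3 z) (hu4 z)]
    ring
  vp z := by
    ext y l
    rw [Matrix.mul_apply]
    simp only [Vu, Matrix.of_apply, mul_assoc]
    rw [← Finset.mul_sum, ← Matrix.mul_apply, hq.idem]

/-! ### the form `λ` -/

theorem tr_p_dp {p : M → Matrix (Fin N) (Fin N) ℂ} (hq : Ln p) (x : M) (v : E4) :
    ∑ l, ∑ k, star (p x k l) * dmt p x v k l = 0 := by
  have h1 : ∑ l, ∑ k, star (p x k l) * dmt p x v k l = (p x * dmt p x v).trace := by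
    rw [Matrix.trace]
    refine Finset.sum_congr rfl fun l _ => ?_
    rw [Matrix.diag_apply, Matrix.mul_apply]
    refine Finset.sum_congr rfl fun k _ => ?_
    have := congrFun (congrFun (hq.herm x) l) k
    rw [Matrix.conjTranspose_apply] at this
    rw [this]
  have h2 : p x * dmt p x v * p x = 0 := by
    have h3 := congrArg (fun A => p x * A) (dmt_line hq x v)
    simp only [Matrix.mul_add] at h3
    rw [← Matrix.mul_assoc, ← Matrix.mul_assoc, hq.idem] at h3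
    have h4 : p x * dmt p x v = p x * dmt p x v * p x + p x * dmt p x v := h3
    have h5 := congrArg (fun A => A - p x * dmt p x v) h4
    simp only [sub_self, add_sub_cancel_right] at h5
    exact h5.symm
  rw [h1, ← hq.idem x, Matrix.mul_assoc, Matrix.trace_mul_comm, h2, Matrix.trace_zero]

theorem dF_sum {σ : Type*} (s : Finset σ) {f : σ → M → ℝ}
    (hf : ∀ i, ContMDiff 𝓘(ℝ, E4) 𝓘(ℝ, ℝ) ∞ (f i)) (c : σ → ℝ) (x : M) (v : E4) :
    at1 (dF (E := E4) fun z => ∑ i ∈ s, c i * f i z) x v =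
      ∑ i ∈ s, c i * at1 (dF (E := E4) (f i)) x v := by
  have hd : ∀ i, DifferentiableAt ℝ (fun y : E4 => f i ((chartAt E4 x).symm y))
      (chartAt E4 x x) := by
    intro i
    have hs : ContMDiffAt 𝓘(ℝ, E4) 𝓘(ℝ, E4) ∞ (chartAt E4 x).symm (chartAt E4 x x) :=
      (contMDiffOn_chart_symm (I := 𝓘(ℝ, E4)) (x := x)).contMDiffAt
        ((chartAt E4 x).open_target.mem_nhds (mem_chart_target E4 x))
    have h := ((hf i).contMDiffAt.comp (chartAt E4 x x) hs).contDiffAt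
    exact h.differentiableAt (by norm_num)
  have e1 : at1 (dF (E := E4) fun z => ∑ i ∈ s, c i * f i z) x =
      fderiv ℝ (fun y : E4 => ∑ i ∈ s, c i * f i ((chartAt E4 x).symm y)) (chartAt E4 x x) := rfl
  rw [e1, fderiv_fun_sum fun i _ => (hd i).const_mul (c i)]
  simp only [_root_.sum_apply]
  refine Finset.sum_congr rfl fun i _ => ?_
  rw [fderiv_const_mul (hd i)]
  rfl

theorem dF_Ju {u : κ → M → ℝ} (hu : ∀ a, ContMDiff 𝓘(ℝ, E4) 𝓘(ℝ, ℝ) ∞ (u a)) (a : κ) (x : M)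
    (v : E4) : at1 (dF (E := E4) fun z => (J *ᵥ fun a => u a z) a) x v =
      ∑ b, J a b * at1 (dF (E := E4) (u b)) x v :=
  dF_sum Finset.univ hu (fun b => J a b) x v

/-- **the form of the isometry `Vu`** is `⟨J u, du⟩`. -/
theorem lamV_Vu (h : Q4 J ρ) {p : M → Matrix (Fin N) (Fin N) ℂ} (hq : IsLine p)
    {u : κ → M → ℝ} (hu1 : ∀ a, ContMDiff 𝓘(ℝ, E4) 𝓘(ℝ, ℝ) ∞ (u a))
    (hu4 : ∀ z, (fun a => u a z) ⬝ᵥ (fun a => u a z) = 1) (x : M) (v : E4) :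
    at1 (lamV (Vu J p u)) x v =
      ∑ a, (J *ᵥ fun a => u a x) a * at1 (dF (E := E4) (u a)) x v := by
  have hl := ln_of hq
  have hVs : ∀ (y : κ × Fin N) (l : Fin N), SmC fun x => Vu J p u x y l := fun y l =>
    cmul (smooth_hc hu1 y.1) (hq.smooth y.2 l)
  rw [at1_lamV hVs]
  set hh : κ → M → ℂ := fun a z => hc J (fun a => u a z) a with hhd
  have hsm : ∀ a, SmC (hh a) := fun a => smooth_hc hu1 a
  have e1 : ∀ (l : Fin N) (y : κ × Fin N), star (Vu J p u x y l) * dVm (Vu J p u) x v y l =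
      (star (hh y.1 x) * dC (hh y.1) x v) * (star (p x y.2 l) * p x y.2 l) +
      (star (hh y.1 x) * hh y.1 x) * (star (p x y.2 l) * dmt p x v y.2 l) := by
    intro l y
    have e2 : dVm (Vu J p u) x v y l = dC (hh y.1) x v * p x y.2 l + hh y.1 x * dmt p x v y.2 l :=
      dC_mul (hsm y.1) (hq.smooth y.2 l) x v
    have e3 : Vu J p u x y l = hh y.1 x * p x y.2 l := rfl
    rw [e2, e3, star_mul']
    ring
  simp only [e1, Fintype.sum_prod_type]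
  have e4 : ∑ l, ∑ a, ∑ k, ((star (hh a x) * dC (hh a) x v) * (star (p x k l) * p x k l) +
      (star (hh a x) * hh a x) * (star (p x k l) * dmt p x v k l)) =
      (∑ a, star (hh a x) * dC (hh a) x v) * (∑ l, ∑ k, star (p x k l) * p x k l) +
      (∑ a, star (hh a x) * hh a x) * (∑ l, ∑ k, star (p x k l) * dmt p x v k l) := by
    have e5 : ∀ (f : κ → ℂ) (g : Fin N → Fin N → ℂ),
        (∑ a, f a) * (∑ l, ∑ k, g k l) = ∑ l, ∑ a, ∑ k, f a * g k l := by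
      intro f g
      rw [Finset.mul_sum]
      refine Finset.sum_congr rfl fun l _ => ?_
      rw [Finset.sum_mul_sum]
    rw [e5 _ fun k l => star (p x k l) * p x k l, e5 _ fun k l => star (p x k l) * dmt p x v k l]
    simp only [Finset.sum_add_distrib]
  have e6 : ∑ l, ∑ k, star (p x k l) * p x k l = 1 := by
    have e7 : (p x * p x).trace = 1 := by rw [hq.idem, hq.rank]
    rw [← e7, Matrix.trace]
    refine Finset.sum_congr rfl fun l _ => ?_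
    rw [Matrix.diag_apply, Matrix.mul_apply]
    refine Finset.sum_congr rfl fun k _ => ?_
    have := congrFun (congrFun (hq.herm x) l) k
    rw [Matrix.conjTranspose_apply] at this
    rw [this]
  rw [e4, tr_p_dp hl, mul_zero, add_zero, e6, mul_one, Complex.im_sum]
  -- the real computation
  have h2 : (√2)⁻¹ * (√2)⁻¹ = (1 / 2 : ℝ) := by
    rw [← mul_inv, Real.mul_self_sqrt (by norm_num)]; norm_num
  have hre : ∀ a z, (hh a z).re = (√2)⁻¹ * u a z := by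
    intro a z
    have : hh a z = ((((√2)⁻¹ : ℝ)) : ℂ) *
      ((u a z : ℂ) - Complex.I * (((J *ᵥ fun a => u a z) a : ℝ) : ℂ)) := rfl
    rw [this, Complex.re_ofReal_mul]
    congr 1
    simp
  have him : ∀ a z, (hh a z).im = (√2)⁻¹ * -((J *ᵥ fun a => u a z) a) := by
    intro a z
    have : hh a z = ((((√2)⁻¹ : ℝ)) : ℂ) *
      ((u a z : ℂ) - Complex.I * (((J *ᵥ fun a => u a z) a : ℝ) : ℂ)) := rfl
    rw [this, Complex.im_ofReal_mul]
    congr 1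
    simp
  have hsu : ∀ a, ContMDiff 𝓘(ℝ, E4) 𝓘(ℝ, ℝ) ∞ fun z => (J *ᵥ fun a => u a z) a := by
    intro a
    have e : ∀ z, (J *ᵥ fun a => u a z) a = ∑ b, J a b * u b z := fun z => rfl
    simp only [e]
    exact contMDiff_finsetSum fun b _ => contMDiff_const.mul (hu1 b)
  have hdre : ∀ a, (dC (hh a) x v).re = (√2)⁻¹ * at1 (dF (E := E4) (u a)) x v := by
    intro a
    rw [dC_re (hsm a)]
    simp only [hre]
    have := dF_sum (Finset.univ : Finset Unit) (f := fun _ => u a) (fun _ => hu1 a)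
      (fun _ => (√2)⁻¹) x v
    simpa using this
  have hdim : ∀ a, (dC (hh a) x v).im =
      (√2)⁻¹ * -(∑ b, J a b * at1 (dF (E := E4) (u b)) x v) := by
    intro a
    rw [dC_im (hsm a), ← dF_Ju hu1]
    simp only [him]
    have := dF_sum (Finset.univ : Finset Unit) (f := fun _ z => (J *ᵥ fun a => u a z) a)
      (fun _ => hsu a) (fun _ => -(√2)⁻¹) x v
    simp only [Finset.univ_unique, Finset.sum_const, Finset.card_singleton, one_smul] at this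
    rw [mul_neg, ← neg_mul, ← this]
    congr 3
    funext z
    ring
  have h3 : ∑ a, u a x * ∑ b, J a b * at1 (dF (E := E4) (u b)) x v =
      - ∑ a, (J *ᵥ fun a => u a x) a * at1 (dF (E := E4) (u a)) x v := by
    have h4 : ∀ a, (J *ᵥ fun a => u a x) a = - ∑ b, u b x * J b a := by
      intro a
      have h5 : ∀ b, J a b = - J b a := fun b => by
        have := congrFun (congrFun h.skew b) a
        rw [Matrix.transpose_apply, Matrix.neg_apply] at this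
        exact this
      have h6 : (J *ᵥ fun a => u a x) a = ∑ b, J a b * u b x := rfl
      rw [h6, ← Finset.sum_neg_distrib]
      refine Finset.sum_congr rfl fun b _ => ?_
      rw [h5 b]
      ring
    simp only [h4, neg_mul, Finset.sum_neg_distrib, neg_neg, Finset.sum_mul, Finset.mul_sum]
    rw [Finset.sum_comm]
    refine Finset.sum_congr rfl fun b _ => Finset.sum_congr rfl fun a _ => ?_
    ring
  have e7 : ∀ a, (star (hh a x) * dC (hh a) x v).im =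
      (1 / 2) * ((J *ᵥ fun a => u a x) a * at1 (dF (E := E4) (u a)) x v) -
      (1 / 2) * (u a x * ∑ b, J a b * at1 (dF (E := E4) (u b)) x v) := by
    intro a
    rw [Complex.mul_im, Complex.star_def, Complex.conj_re, Complex.conj_im, hre, him, hdre, hdim]
    linear_combination (-(u a x * ∑ b, J a b * at1 (dF (E := E4) (u b)) x v) +
      (J *ᵥ fun a => u a x) a * at1 (dF (E := E4) (u a)) x v) * h2
  simp only [e7, Finset.sum_sub_distrib, ← Finset.mul_sum]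
  rw [h3]
  ring

/-- the form `λ`. -/
def lamN (ι : ℝ) (μ : Fin 3 → ℝ) (ν : Fin 3 → M → ℝ) : F1 E4 M :=
  ∑ j, fmul1 (fun z => ι / 2 * (1 + ∑ k, ν k z * μ k)⁻¹ * μ (j + 2))
    (fmul1 (ν j) (dF (ν (j + 1))) + fmul1 (fun z => -(ν (j + 1) z)) (dF (ν j)))

/-- **`λ` does not depend on `s`.** -/
theorem lamV_us (h : Q4 J ρ) {ι : ℝ} (h3 : ∀ j, ρ j * ρ (j + 1) = ι • (J * ρ (j + 2)))
    {p : M → Matrix (Fin N) (Fin N) ℂ} (hq : IsLine p) {μ : Fin 3 → ℝ} {ν : Fin 3 → M → ℝ}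
    (hsm : ∀ k, ContMDiff 𝓘(ℝ, E4) 𝓘(ℝ, ℝ) ∞ (ν k)) (hn : ∀ z, ∑ k, ν k z ^ 2 = 1) {s : κ → ℝ}
    (hs : PP ρ μ *ᵥ s = s) (h1 : s ⬝ᵥ s = 1) (hpos : ∀ z, 0 < 1 + ∑ k, ν k z * μ k) :
    lamV (Vu J p (us ρ μ ν s)) = lamN ι μ ν := by
  funext x
  refine ContinuousLinearMap.ext fun v => ?_
  have e0 := lamV_Vu h hq (fun a => smooth_us hsm hpos s a)
    (fun z => us_unit h hn hs h1 (hpos z)) x v
  refine e0.trans ?_
  -- the derivative of `u`
  have hd : ∀ {f : M → ℝ}, ContMDiff 𝓘(ℝ, E4) 𝓘(ℝ, ℝ) ∞ f →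
      DifferentiableAt ℝ (fun y : E4 => f ((chartAt E4 x).symm y)) (chartAt E4 x x) := by
    intro f hf
    have hs : ContMDiffAt 𝓘(ℝ, E4) 𝓘(ℝ, E4) ∞ (chartAt E4 x).symm (chartAt E4 x x) :=
      (contMDiffOn_chart_symm (I := 𝓘(ℝ, E4)) (x := x)).contMDiffAt
        ((chartAt E4 x).open_target.mem_nhds (mem_chart_target E4 x))
    exact ((hf.contMDiffAt.comp (chartAt E4 x x) hs).contDiffAt).differentiableAt (by norm_num)
  have e1 : ∀ y, at1 (dF (E := E4) (us ρ μ ν s y)) x v =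
      at1 (dF (E := E4) (cf μ ν)) x v * (PP ρ (fun k => ν k x) *ᵥ s) y +
      cf μ ν x / 2 * ((∑ k, (at1 (dF (E := E4) (ν k)) x v) • ρ k) *ᵥ s) y := by
    intro y
    have h4 : at1 (dF (E := E4) (us ρ μ ν s y)) x v =
        cf μ ν x * at1 (dF (E := E4) fun z => (PP ρ (fun k => ν k z) *ᵥ s) y) x v +
        (PP ρ (fun k => ν k x) *ᵥ s) y * at1 (dF (E := E4) (cf μ ν)) x v := by
      have h5 := fderiv_fun_mul (hd (smooth_cf hsm hpos)) (hd (smooth_PP (ρ := ρ) hsm s y))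
      have h6 := congrArg (fun L : E4 →L[ℝ] ℝ => L v) h5
      simp only [_root_.add_apply, _root_.smul_apply, smul_eq_mul] at h6
      rw [Tau483.symm_chart] at h6
      exact h6
    have h7 : at1 (dF (E := E4) fun z => (PP ρ (fun k => ν k z) *ᵥ s) y) x v =
        (1 / 2) * ∑ k, (ρ k *ᵥ s) y * at1 (dF (E := E4) (ν k)) x v := by
      have h8 := dF_sum (Finset.univ : Finset (Option (Fin 3)))
        (f := fun o => o.elim (fun _ => (1 : ℝ)) ν)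
        (fun o => by
          cases o with
          | none => exact contMDiff_const
          | some k => exact hsm k)
        (fun o => o.elim ((1 / 2) * s y) fun k => (1 / 2) * (ρ k *ᵥ s) y) x v
      simp only [Fintype.sum_option, Option.elim] at h8
      have h9 : at1 (dF (E := E4) fun _ : M => (1 : ℝ)) x v = 0 := by
        have : at1 (dF (E := E4) fun _ : M => (1 : ℝ)) x =
          fderiv ℝ (fun _ : E4 => (1 : ℝ)) (chartAt E4 x x) := rfl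
        rw [this, fderiv_fun_const]
        rfl
      rw [h9, mul_zero, zero_add] at h8
      rw [Finset.mul_sum]
      simp only [← mul_assoc]
      rw [← h8]
      congr 3
      funext z
      rw [PP_app, mul_one, mul_add, Finset.mul_sum]
      congr 1
      exact Finset.sum_congr rfl fun k _ => by ring
    have h10 : ((∑ k, (at1 (dF (E := E4) (ν k)) x v) • ρ k) *ᵥ s) y =
        ∑ k, (ρ k *ᵥ s) y * at1 (dF (E := E4) (ν k)) x v := by
      rw [Matrix.sum_mulVec, Finset.sum_apply]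
      refine Finset.sum_congr rfl fun k _ => ?_
      rw [Matrix.smul_mulVec, Pi.smul_apply, smul_eq_mul, mul_comm]
    rw [h4, h7, h10]
    ring
  have e2 := h.lam_alg h3 hs h1 (ν := fun k => ν k x) (cf μ ν x)
    (at1 (dF (E := E4) (cf μ ν)) x v) (fun k => at1 (dF (E := E4) (ν k)) x v) (cf_sq (hpos x))
  have e3 : ∑ a, (J *ᵥ fun a => us ρ μ ν s a x) a * at1 (dF (E := E4) (us ρ μ ν s a)) x v =
      (J *ᵥ (cf μ ν x • (PP ρ (fun k => ν k x) *ᵥ s))) ⬝ᵥ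
        ((at1 (dF (E := E4) (cf μ ν)) x v) • (PP ρ (fun k => ν k x) *ᵥ s) +
          (cf μ ν x / 2) • ((∑ k, (at1 (dF (E := E4) (ν k)) x v) • ρ k) *ᵥ s)) := by
    rw [us_eq]
    refine Finset.sum_congr rfl fun a _ => ?_
    rw [e1]
    rfl
  rw [e3, e2]
  change _ = at1 (lamN ι μ ν) x v
  unfold lamN
  rw [at1_sum]
  refine Finset.sum_congr rfl fun j _ => ?_
  rw [Tau483.at1_fmul1, Tau483.at1_add, Tau483.at1_fmul1, Tau483.at1_fmul1]
  ring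

end man

end

end Crest.Agent.R235.MdlA_489
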