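import Crest.Agent.R235.TauF_483
import Crest.Agent.R235.QSTri_451
import Crest.Agent.R235.SwcProd_215

/-!
Row 235 (S0364), PACKAGE SW/SWC, `Lnk` of `SwcProd_215` (helper451): the dictionary between the real
sections of the eigenline `E` and complex sections.
-/

set_option autoImplicit false
set_option maxSynthPendingDepth 3
set_option linter.unusedSectionVars false

open scoped ContDiff ENNReal NNReal Topology Manifold Bundle RealInnerProductSpace
open MeasureTheory Set Filter Metric Bundle Matrix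

universe v

namespace Crest.Agent.R235.SWLnk_451

open Crest.Agent.R240 Crest.Agent.R240.Ch Crest.Agent.R235 Crest.Agent.R235.SWDefs_53
open Crest.Agent.R235.IndTri_451 Crest.Agent.R235.Tau483
open Crest.Agent.R249.Tv57 (Dat OpPair SmF)
open Crest.Agent.R249.Tz805 (ToF)
open Crest.Agent.R249.Vf281 (VSm)
open Crest.Agent.R235.SwcProd_215 (zv zet pi0 Jn thE Lnk)

noncomputable section

variable {M : Type v} [MetricSpace M] [CompactSpace M] [ConnectedSpace M]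
  [ChartedSpace (EuclideanSpace ℝ (Fin 4)) M] [IsManifold (𝓡 4) ∞ M]
  [RiemannianBundle (fun p : M => TangentSpace (𝓡 4) p)]
  [IsContMDiffRiemannianBundle (𝓡 4) ∞ (EuclideanSpace ℝ (Fin 4))
    (fun p : M => TangentSpace (𝓡 4) p)]
  [IsRiemannianManifold (𝓡 4) M] [MeasurableSpace M] [BorelSpace M]
  [SecondCountableTopology M] [Nonempty M] [IsFiniteMeasureOnCompacts (μHE[4] : Measure M)]
  {κ0 κ1 κT : Type} [Fintype κ0] [Fintype κ1] [Fintype κT]
  {τ : TD M κT} {S : SWS M κ0 κ1 κT} {T : ToF 4 M}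
    {cc : κ1 → κ0 → (z : M) → TangentSpace (𝓡 4) z}
    {W : κ0 → κ0 → (z : M) → TangentSpace (𝓡 4) z}
    {sT : κT → (z : M) → TangentSpace (𝓡 4) z} {w : Trip M} {e : Fin 3 → F2 E4 M}
    {σ ι : ℝ}

theorem pi0_eq (x : M) (y y' : κ0) : pi0 τ S y y' x = P0f τ S x y y' := (P0f_apply τ S x y y').symm

theorem PE_eq (x : M) : SwcProd_215.PE τ S x = PEf τ S x := by
  ext y y'
  show ((pi0 τ S y y' x : ℂ) - Complex.I * ((∑ c, S.J y c x * pi0 τ S c y' x : ℝ) : ℂ)) / 2 =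
    (1 / 2 : ℂ) * ((P0f τ S x y y' : ℂ) - Complex.I * (((Jm S x * P0f τ S x) y y' : ℝ) : ℂ))
  rw [Matrix.mul_apply]
  simp only [pi0_eq]
  have : ∀ c, Jm S x y c = S.J y c x := fun c => rfl
  simp only [this]
  ring

theorem zv_eq (x : M) (c : κ0 → ℝ) (y : κ0) : zv S x c y = hat (Jm S x) c y := by
  show ((c y : ℂ) - Complex.I * ((∑ y', S.J y y' x * c y' : ℝ) : ℂ)) / ((√2 : ℝ) : ℂ) =
    ((1 / √2 : ℝ) : ℂ) * ((c y : ℂ) - Complex.I * (((Jm S x *ᵥ c) y : ℝ) : ℂ))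
  have : (Jm S x *ᵥ c) y = ∑ y', S.J y y' x * c y' := rfl
  rw [this]
  push_cast
  ring

theorem zet_eq (s : κ0 → M → ℝ) (x : M) (y : κ0) : zet S s x y = hatf S s x y := zv_eq x _ y

/-! ### the line -/

theorem line (hS : S.OK) (h : TG S T cc W sT w e σ ι)
    (hn : ∀ k, ContMDiff (𝓡 4) 𝓘(ℝ, ℝ) ∞ (τ.n k)) (nn : ∀ z, ∑ k, τ.n k z ^ 2 = 1) (N : ℕ)
    (ν : Fin N ≃ κ0) : IsLine (fun x => (SwcProd_215.PE τ S x).submatrix ν ν) := by
  have hL := ln_PEf hS h hn nn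
  simp only [PE_eq]
  refine ⟨fun i j => hL.smooth (ν i) (ν j), fun x => ?_, fun x => ?_, fun x => ?_⟩
  · rw [Matrix.submatrix_mul_equiv, hL.idem]
  · rw [Matrix.conjTranspose_submatrix, hL.herm]
  · have h1 : ((PEf τ S x).submatrix ν ν).trace = (PEf τ S x).trace := by
      unfold Matrix.trace
      exact Equiv.sum_comp ν (fun i => (PEf τ S x).diag i)
    rw [h1, hL.rank]

theorem trace_sub' {n m : Type*} [Fintype n] [Fintype m] (ν : n ≃ m) (A B C : Matrix m m ℂ) :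
    ((A.submatrix ν ν) * ((B.submatrix ν ν) * (C.submatrix ν ν) -
      (C.submatrix ν ν) * (B.submatrix ν ν))).trace = (A * (B * C - C * B)).trace := by
  have h1 : ((A.submatrix ν ν) * ((B.submatrix ν ν) * (C.submatrix ν ν) -
      (C.submatrix ν ν) * (B.submatrix ν ν))) = (A * (B * C - C * B)).submatrix ν ν := by
    rw [Matrix.submatrix_mul_equiv, Matrix.submatrix_mul_equiv]
    have h2 : (B * C).submatrix ν ν - (C * B).submatrix ν ν = (B * C - C * B).submatrix ν ν := rfl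
    rw [h2, Matrix.submatrix_mul_equiv]
  rw [h1]
  unfold Matrix.trace
  exact Equiv.sum_comp ν (fun i => (A * (B * C - C * B)).diag i)

theorem chern {a0 : Z2 M} (hc : Ch0 (PEf τ S) a0) (N : ℕ)
    (ν : Fin N ≃ κ0) : IsChern (fun x => (SwcProd_215.PE τ S x).submatrix ν ν) a0 := by
  intro x u v
  rw [hc x u v]
  have e1 : ∀ u, dmat (fun x => (SwcProd_215.PE τ S x).submatrix ν ν) x u =
      (dmt (PEf τ S) x u).submatrix ν ν := by
    intro u
    ext i j
    show fderiv ℝ (fun y : E4 => (SwcProd_215.PE τ S ((chartAt E4 x).symm y)) (ν i) (ν j)) _ u =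
      fderiv ℝ (fun y : E4 => (PEf τ S ((chartAt E4 x).symm y)) (ν i) (ν j)) _ u
    simp only [PE_eq]
  rw [e1, e1]
  simp only [PE_eq]
  rw [trace_sub']

/-! ### the connection -/

theorem con (hS : S.OK) (h : TG S T cc W sT w e σ ι) (nn : ∀ z, ∑ k, τ.n k z ^ 2 = 1)
    (a : κT → M → ℝ) {s : κ0 → M → ℝ} (hs : Crest.Agent.R249.Tv57.SmV (n := 4) s)
    (hE : τ.SecE S s) (x : M) (v : TangentSpace (𝓡 4) x) (y : κ0) :
    (∑ y', SwcProd_215.PE τ S x y y' * fderiv ℝ (fun q : E4 => zet S s ((chartAt E4 x).symm q) y')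
        (chartAt E4 x x) v) -
        Complex.I * ((at1 (thE sT e (bF τ S W sT e) a) x v : ℝ) : ℂ) * zet S s x y =
      zv S x (fun y => inner ℝ (τ.nE S a s y x) (T.toF x v)) y := by
  rw [zv_eq]
  have h1 := congrFun (hat_gE hS h nn a hs hE x v) y
  have h2 : hat (Jm S x) (fun y => inner ℝ (τ.nE S a s y x) (T.toF x v)) y =
      hat (Jm S x) (gE τ S T a s x v) y := rfl
  rw [h2, h1, zet_eq, PE_eq]
  simp only [zet_eq]
  have h3 : at1 (thE sT e (bF τ S W sT e) a) x v = - at1 (tF τ S W sT e a) x v := by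
    show - at1 (RiemB_399.flG (gg e) (fld sT a)) x v - at1 (bF τ S W sT e) x v =
      - (at1 (RiemB_399.flG (gg e) (fld sT a)) x v + at1 (bF τ S W sT e) x v)
    ring
  rw [h3]
  show (∑ y', PEf τ S x y y' * dC (fun q => hatf S s q y') x v) - _ =
    (∑ y', PEf τ S x y y' * dC (fun q => hatf S s q y') x v) +
      (Complex.I * (at1 (tF τ S W sT e a) x v : ℂ)) * hatf S s x y
  push_cast
  ring

/-! ### the curvature -/

theorem smooth_fld (h : TG S T cc W sT w e σ ι) {a : κT → M → ℝ}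
    (ha : Crest.Agent.R249.Tv57.SmV (n := 4) a) (z : M) : VSm 4 ∞ (fld sT a) z :=
  RiemB_399.VSm_sum fun A => VSm.smul le_rfl (ha A).contMDiffAt (h.smsT A z)

theorem smooth_flG (h : TG S T cc W sT w e σ ι) {a : κT → M → ℝ}
    (ha : Crest.Agent.R249.Tv57.SmV (n := 4) a) :
    Smooth1 (RiemB_399.flG (gg e) (fld sT a)) :=
  RiemB_399.smooth1_flG (QSTri_451.met_gg h.tri) (smooth_fld h ha)

theorem smooth_bF (hS : S.OK) (h : TG S T cc W sT w e σ ι)
    (hn : ∀ k, ContMDiff (𝓡 4) 𝓘(ℝ, ℝ) ∞ (τ.n k))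
    (hsh : Crest.Agent.R249.Tv57.SmV (n := 4) τ.sh) : Smooth1 (bF τ S W sT e) := by
  refine RiemB_399.smooth1_flG (QSTri_451.met_gg h.tri) fun z => ?_
  refine (smooth_fld h hsh z).add ?_
  refine RiemB_399.VSm_sum fun y => RiemB_399.VSm_sum fun y' => ?_
  exact VSm.smul le_rfl (sm_mul (sm_const _) (sm_JP0f hS hn y y')).contMDiffAt (h.smW y' y z)

theorem thE_eq (β : F1 E4 M) (a : κT → M → ℝ) : thE sT e β a =
    (-1 : ℝ) • RiemB_399.flG (gg e) (fld sT a) + (-1 : ℝ) • β := by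
  funext x
  show (- at1 (RiemB_399.flG (gg e) (fld sT a)) x - at1 β x : E4 →L[ℝ] ℝ) =
    (-1 : ℝ) • at1 (RiemB_399.flG (gg e) (fld sT a)) x + (-1 : ℝ) • at1 β x
  module

theorem cur (h : TG S T cc W sT w e (-1) ι) {β : F1 E4 M} (hβ : Smooth1 β) {a0 : Z2 M}
    (hfE : ∀ k x, τ.fE k x = 2 * qG (w 0).1.1 (e k) (PhiF a0 β) x) {a : κT → M → ℝ}
    (ha : Crest.Agent.R249.Tv57.SmV (n := 4) a) (hsec : S.DT.Sec a) (k : Fin 3) (x : M) :
    2 * (2 * Real.pi * qG (w 0).1.1 (e k) (a0.1.1 : F2 E4 M) x +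
      qG (w 0).1.1 (e k) (dG (thE sT e β a)) x) = S.H.B a k.succ x + τ.fE k x := by
  have h1 := smooth_flG h ha
  rw [thE_eq, dG_add (Smooth1.smul _ h1) (Smooth1.smul _ hβ), dG_smul _ h1, dG_smul _ hβ,
    h.HB a ha hsec k x, hfE]
  unfold qG q
  rw [at2_PhiF]
  unfold Phi
  have e1 : at2 ((-1 : ℝ) • dG (RiemB_399.flG (gg e) (fld sT a)) + (-1 : ℝ) • dG β) x =
      (-1 : ℝ) • at2 (dG (RiemB_399.flG (gg e) (fld sT a))) x + (-1 : ℝ) • at2 (dG β) x := rfl
  rw [e1, W_add_right, W_smul_right, W_smul_right, W_sub_right, W_smul_right]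
  unfold val
  ring

/-! ### the symbol -/

section dbar

theorem P0_mem_iff (η : κ0 → ℝ) (x : M) (hη : ∀ y, ∑ y', pi0 τ S y y' x * η y' = η y) :
    P0f τ S x *ᵥ η = η := by
  funext y
  rw [← hη y]
  show ∑ y', P0f τ S x y y' * η y' = _
  simp only [pi0_eq]

/-- a vector bundle version of Cauchy-Schwarz in an orthonormal frame. -/
theorem cs4 (c v : Fin 4 → ℝ) : (∑ i, c i * v i) ^ 2 ≤ (∑ i, v i ^ 2) * ∑ i, c i ^ 2 := by
  have := Finset.sum_mul_sq_le_sq_mul_sq Finset.univ c v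
  rw [mul_comm (∑ i, v i ^ 2)]
  exact this

end dbar

end

end Crest.Agent.R235.SWLnk_451
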