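import Crest.Agent.R235.SWJF_451
import Crest.Agent.R235.SWTn_451
import Crest.Agent.R235.SWLnk_451
import Crest.Agent.R235.SwsQ_755
import Crest.Agent.R235.MdlA_489
import Crest.Agent.R235.SWJDefs_53

/-!
Row 235 (S0364), PACKAGE SW, MODEL outputs MODF / MODB (helper489), part C: THE FAMILY `th_t` which
makes the eigenlines flat.

* `nt_dot`   : `∑ n_k D_k t_k > -‖t‖` (`D_k` = sign of `ww k k`), from the triangular form;
* `thF`      : the form `a₀ - λ_t - β_t`, `thT` its components, `SmV`, `Sec`, `flG (fld th) = thF`;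
* `j1_thF`, `jf_thT`, `jf_opB` : joint smoothness;
* `flat_of`  : the curvature of `E_t` with `th_t` vanishes (from an isometry with `λ_V = λ_t`);
* `par_of`   : sections `V α` are parallel.
-/

set_option autoImplicit false
set_option maxSynthPendingDepth 3
set_option linter.unusedSectionVars false

open scoped ContDiff ENNReal NNReal Topology Manifold Bundle RealInnerProductSpace
open MeasureTheory Set Filter Metric Bundle Matrix

universe v

namespace Crest.Agent.R235.MdlC_489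

open Crest.Agent.R240 Crest.Agent.R240.Ch Crest.Agent.R235.SWDefs_53 Crest.Agent.R235.IndTri_451
open Crest.Agent.R249.Tv57 (Dat OpPair SmF Spec)
open Crest.Agent.R247.Ms322 (Gr)
open Crest.Agent.R249.Vf281 (VSm mCov)
open Crest.Agent.R249.Tz805 (ToF Bun opB)
open Crest.Agent.R235.Tau483 Crest.Agent.R235.TauJ Crest.Agent.R235.SWTn_451
open Crest.Agent.R235.MdlA_489 Crest.Agent.R235.MdlB_489

noncomputable section

/-! ### positivity -/

section pos

variable {M : Type v} {ww : Fin 3 → Fin 3 → M → ℝ}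

/-- the largest index with a nonzero entry. -/
theorem exists_top {t : E3} (ht : t ≠ 0) : ∃ i : Fin 3, t i ≠ 0 ∧ ∀ j, i < j → t j = 0 := by
  by_cases h2 : t 2 = 0
  · by_cases h1 : t 1 = 0
    · refine ⟨0, fun h => ht ?_, ?_⟩
      · ext j; fin_cases j
        · exact h
        · exact h1
        · exact h2
      · intro j hj; fin_cases j
        · exact absurd hj (by decide)
        · exact h1
        · exact h2
    · refine ⟨1, h1, ?_⟩
      intro j hj; fin_cases j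
      · exact absurd hj (by decide)
      · exact absurd hj (by decide)
      · exact h2
  · refine ⟨2, h2, ?_⟩
    intro j hj; fin_cases j
    · exact absurd hj (by decide)
    · exact absurd hj (by decide)
    · exact absurd hj (by decide)

theorem nt_dot (h : LT ww) {D : Fin 3 → ℝ} (hD1 : ∀ k, D k ^ 2 = 1)
    (hD : ∀ k z, 0 < D k * ww k k z) {t : E3} (ht : t ≠ 0) (z : M) :
    - ‖t‖ < ∑ k, nt ww t k z * (D k * t k) := by
  by_contra hcon
  push Not at hcon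
  have hn := h.norm_nt ht z
  have hpos : 0 < ‖t‖ := norm_pos_iff.2 ht
  have ht2 : ∑ k, t k ^ 2 = ‖t‖ ^ 2 := by
    rw [EuclideanSpace.norm_sq_eq]
    simp only [Real.norm_eq_abs, sq_abs]
  have h1 : ∑ k, (D k * t k + ‖t‖ * nt ww t k z) ^ 2 ≤ 0 := by
    have e : ∑ k, (D k * t k + ‖t‖ * nt ww t k z) ^ 2 =
        ∑ k, D k ^ 2 * t k ^ 2 + 2 * ‖t‖ * (∑ k, nt ww t k z * (D k * t k)) +
          ‖t‖ ^ 2 * ∑ k, nt ww t k z ^ 2 := by
      simp only [Finset.mul_sum, ← Finset.sum_add_distrib]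
      refine Finset.sum_congr rfl fun k _ => ?_
      ring
    simp only [hD1, one_mul] at e
    rw [e, ht2, hn]
    nlinarith [mul_le_mul_of_nonneg_left hcon hpos.le]
  have h2 := (Finset.sum_eq_zero_iff_of_nonneg (fun k _ => sq_nonneg _)).1
    (le_antisymm h1 (Finset.sum_nonneg fun k _ => sq_nonneg _))
  obtain ⟨i, hi, hij⟩ := exists_top ht
  have h3 : D i * t i + ‖t‖ * nt ww t i z = 0 := by
    have := h2 i (Finset.mem_univ i)
    exact pow_eq_zero_iff (two_ne_zero) |>.1 this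
  have h4 : wtk ww t i z = t i * ww i i z := by
    unfold wtk
    rw [Finset.sum_eq_single i]
    · intro j _ hj
      rcases lt_or_gt_of_ne hj with h5 | h5
      · rw [h.lt j i z h5, mul_zero]
      · rw [hij j h5, zero_mul]
    · intro h5; exact absurd (Finset.mem_univ i) h5
  have h5 := h.mul_nt ht i z
  have h6 : t i * (rrt ww t z * D i + ‖t‖ * ww i i z) = 0 := by
    have : rrt ww t z * (D i * t i + ‖t‖ * nt ww t i z) = 0 := by rw [h3, mul_zero]
    rw [h4] at h5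
    linear_combination this + ‖t‖ * (- h5)
  have h7 := (mul_eq_zero.1 h6).resolve_left hi
  have h8 : D i * (rrt ww t z * D i + ‖t‖ * ww i i z) = 0 := by rw [h7, mul_zero]
  have h9 : rrt ww t z + ‖t‖ * (D i * ww i i z) = 0 := by
    have := hD1 i
    linear_combination h8 - rrt ww t z * this
  have h10 := h.pos ht z
  have h11 := mul_pos hpos (hD i z)
  linarith

end pos

/-! ### the form -/

/-- `μ_t = - D t/‖t‖`. -/
def muT (D : Fin 3 → ℝ) (t : E3) (k : Fin 3) : ℝ := -(D k * (t k / ‖t‖))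

/-- `ν_t = - n_t`. -/
def nuT {M : Type v} (ww : Fin 3 → Fin 3 → M → ℝ) (t : E3) (k : Fin 3) (z : M) : ℝ :=
  -(nt ww t k z)

section posb

variable {M : Type v} {ww : Fin 3 → Fin 3 → M → ℝ}

theorem nu_mu_pos (h : LT ww) {D : Fin 3 → ℝ} (hD1 : ∀ k, D k ^ 2 = 1)
    (hD : ∀ k z, 0 < D k * ww k k z) {t : E3} (ht : t ≠ 0) (z : M) :
    0 < 1 + ∑ k, nuT ww t k z * muT D t k := by
  have hpos : 0 < ‖t‖ := norm_pos_iff.2 ht
  have h1 := nt_dot h hD1 hD ht z
  have h2 : ∑ k, nuT ww t k z * muT D t k = ‖t‖⁻¹ * ∑ k, nt ww t k z * (D k * t k) := by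
    rw [Finset.mul_sum]
    refine Finset.sum_congr rfl fun k _ => ?_
    unfold nuT muT
    rw [div_eq_mul_inv]
    ring
  rw [h2]
  have h3 := mul_lt_mul_of_pos_left h1 (inv_pos.2 hpos)
  rw [mul_neg, inv_mul_cancel₀ hpos.ne'] at h3
  linarith

theorem nuT_sq (h : LT ww) {t : E3} (ht : t ≠ 0) (z : M) : ∑ k, nuT ww t k z ^ 2 = 1 := by
  have := h.norm_nt ht z
  unfold nuT
  simpa using this

end posb

section top

variable {M : Type v} [TopologicalSpace M] [ChartedSpace E4 M] [IsManifold 𝓘(ℝ, E4) ∞ M]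
variable {ww : Fin 3 → Fin 3 → M → ℝ}

theorem jf_muT (D : Fin 3 → ℝ) (k : Fin 3) : JF fun t (_ : M) => muT D t k :=
  ((JF.cmul (D k) ((JF.coord k).div JF.norm fun _ ht _ => norm_ne_zero_iff.2 ht))).neg

end top

variable {M : Type v} [MetricSpace M] [CompactSpace M] [ConnectedSpace M]
  [ChartedSpace (EuclideanSpace ℝ (Fin 4)) M] [IsManifold (𝓡 4) ∞ M]
  [RiemannianBundle (fun p : M => TangentSpace (𝓡 4) p)]
  [IsContMDiffRiemannianBundle (𝓡 4) ∞ (EuclideanSpace ℝ (Fin 4))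
    (fun p : M => TangentSpace (𝓡 4) p)]
  [IsRiemannianManifold (𝓡 4) M] [MeasurableSpace M] [BorelSpace M]
  [SecondCountableTopology M] [Nonempty M]
  {κ0 κ1 κT : Type} [Fintype κ0] [Fintype κ1] [Fintype κT]

section jf

variable {ww : Fin 3 → Fin 3 → M → ℝ}

theorem jf_nuT (h : LT ww) (hs : ∀ i k, ContMDiff (𝓡 4) 𝓘(ℝ, ℝ) ∞ (ww i k)) (k : Fin 3) :
    JF fun t => nuT ww t k := (SWJF_451.jf_nt h hs k).neg

theorem smooth_nuT (h : LT ww) (hs : ∀ i k, ContMDiff (𝓡 4) 𝓘(ℝ, ℝ) ∞ (ww i k)) {t : E3}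
    (ht : t ≠ 0) (k : Fin 3) : ContMDiff (𝓡 4) 𝓘(ℝ, ℝ) ∞ (nuT ww t k) := (smooth_nt h hs ht k).neg

theorem j1_lamN (h : LT ww) (hs : ∀ i k, ContMDiff (𝓡 4) 𝓘(ℝ, ℝ) ∞ (ww i k)) {D : Fin 3 → ℝ}
    (hD1 : ∀ k, D k ^ 2 = 1) (hD : ∀ k z, 0 < D k * ww k k z) (ι : ℝ) :
    J1 fun t => lamN ι (muT D t) (nuT ww t) := by
  have h1 : JF fun t z => (1 + ∑ k, nuT ww t k z * muT D t k)⁻¹ :=
    JF.inv ((JF.const 1).add (JF.sum' fun k => (jf_nuT h hs k).mul (jf_muT D k)))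
      fun t ht z => (nu_mu_pos h hD1 hD ht z).ne'
  refine J1.sum' fun j => J1.fmul1 ((JF.cmul (ι / 2) h1).mul (jf_muT D (j + 2))) ?_
  exact (J1.fmul1 (jf_nuT h hs j) (J1.dF (jf_nuT h hs (j + 1)))).add
    (J1.fmul1 (jf_nuT h hs (j + 1)).neg (J1.dF (jf_nuT h hs j)))

/-- first order operators preserve joint smoothness. -/
theorem jf_opB (T : ToF 4 M) {κa κb : Type} [Fintype κa] [Fintype κb] (D1 : Bun 4 M κb)
    {cc : κb → κa → (p : M) → TangentSpace 𝓘(ℝ, EuclideanSpace ℝ (Fin 4)) p}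
    (hcc : ∀ x y z, VSm 4 ∞ (cc x y) z) {a : E3 → κb → M → ℝ} (ha : ∀ x, JF fun t => a t x)
    (y : κa) : JF fun t z => opB D1 cc (a t) y z := by
  have h1 : ∀ x, JF fun t z => (inner ℝ (D1.cv (a t) x z) (cc x y z) : ℝ) := by
    intro x
    have h2 : JF fun t z => at1 (dF (E := E4) (a t x)) z (cc x y z) +
        ∑ b, a t b z * (⟪T.toF z (D1.W x b z), T.toF z (cc x y z)⟫ : ℝ) :=
      (JF.fld1 (J1.dF (ha x)) (hcc x y)).add
        (JF.sum' fun b => (ha b).mul (SWJF_451.jf_inner T (D1.smW x b) (hcc x y)))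
    refine h2.congr fun t _ z => ?_
    unfold Bun.cv
    rw [inner_add_left, sum_inner, Crest.Agent.R247.Bo84.inner_mgrad]
    simp only [real_inner_smul_left, T.inner_toF]
    congr 1
    exact (RiemB_399.dF_eq_mfderiv (a t x) z (cc x y z)).symm
  exact (JF.sum' h1).neg

end jf

/-! ### the family -/

section fam

variable {S : SWS M κ0 κ1 κT} {T : ToF 4 M}
    {c : κ1 → κ0 → (z : M) → TangentSpace (𝓡 4) z}
    {W : κ0 → κ0 → (z : M) → TangentSpace (𝓡 4) z}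
    {sT : κT → (z : M) → TangentSpace (𝓡 4) z} {w : Trip M} {e : Fin 3 → F2 E4 M}
    {σ ι : ℝ} {ww : Fin 3 → Fin 3 → M → ℝ}

/-- the form `a₀ - λ - β`. -/
def thF (τ : TD M κT) (S : SWS M κ0 κ1 κT) (W : κ0 → κ0 → (z : M) → TangentSpace (𝓡 4) z)
    (sT : κT → (z : M) → TangentSpace (𝓡 4) z) (e : Fin 3 → F2 E4 M) (lam a0 : F1 E4 M) : F1 E4 M :=
  a0 - lam - bF τ S W sT e

/-- the components of a one-form. -/
def cmp (sT : κT → (z : M) → TangentSpace (𝓡 4) z) (θ : F1 E4 M) (A : κT) (z : M) : ℝ :=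
  at1 θ z (sT A z)

theorem fld_cmp (h : TG S T c W sT w e σ ι)
    (ti : ∀ (z : M) (X : TangentSpace (𝓡 4) z), ∑ A, (inner ℝ (sT A z) X : ℝ) • sT A z = X)
    (θ : F1 E4 M) : RiemB_399.flG (gg e) (fld sT (cmp sT θ)) = θ := by
  funext z
  refine ContinuousLinearMap.ext fun X => ?_
  have key : ∀ X : TangentSpace (𝓡 4) z,
      at2 (gg e) z (fld sT (cmp sT θ) z) X = (at1 θ z : TangentSpace (𝓡 4) z →L[ℝ] ℝ) X := by
    intro X
    rw [← h.met z (fld sT (cmp sT θ) z) X]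
    have h0 : (inner ℝ (fld sT (cmp sT θ) z) X : ℝ) =
        ∑ A, cmp sT θ A z * (inner ℝ (sT A z) X : ℝ) := by
      unfold fld
      rw [sum_inner]
      simp only [real_inner_smul_left]
    rw [h0]
    have h2 : (at1 θ z : TangentSpace (𝓡 4) z →L[ℝ] ℝ) (∑ A, (inner ℝ (sT A z) X : ℝ) • sT A z) =
        ∑ A, (inner ℝ (sT A z) X : ℝ) * (at1 θ z : TangentSpace (𝓡 4) z →L[ℝ] ℝ) (sT A z) := by
      have := map_sum (at1 θ z : TangentSpace (𝓡 4) z →L[ℝ] ℝ)
        (fun A => (inner ℝ (sT A z) X : ℝ) • sT A z) Finset.univ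
      refine this.trans (Finset.sum_congr rfl fun A _ => ?_)
      exact (map_smul (at1 θ z : TangentSpace (𝓡 4) z →L[ℝ] ℝ) _ _)
    rw [ti z X] at h2
    rw [h2]
    exact Finset.sum_congr rfl fun A _ => mul_comm _ _
  exact key X

theorem smooth_cmp (h : TG S T c W sT w e σ ι) {θ : F1 E4 M} (hθ : Smooth1 θ) (A : κT) :
    ContMDiff (𝓡 4) 𝓘(ℝ, ℝ) ∞ (cmp sT θ A) := by
  have h1 : JF fun (_ : E3) x => at1 θ x (sT A x) := JF.fld1 (J1.of hθ) (h.smsT A)
  have h2 : (EuclideanSpace.single 0 1 : E3) ≠ 0 := by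
    intro h0
    have := congrArg (fun v : E3 => v 0) h0
    simp at this
  exact (smoothF_iff _).2 (h1.sl h2)

theorem sec_cmp (ti : ∀ (z : M) (X : TangentSpace (𝓡 4) z), ∑ A, (inner ℝ (sT A z) X : ℝ) • sT A z = X)
    (pT : ∀ A B z, S.DT.p A B z = inner ℝ (sT A z) (sT B z)) (θ : F1 E4 M) :
    S.DT.Sec (cmp sT θ) := by
  intro A z
  have h2 : (at1 θ z : TangentSpace (𝓡 4) z →L[ℝ] ℝ)
      (∑ B, (inner ℝ (sT B z) (sT A z) : ℝ) • sT B z) =
      ∑ B, (inner ℝ (sT B z) (sT A z) : ℝ) *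
        (at1 θ z : TangentSpace (𝓡 4) z →L[ℝ] ℝ) (sT B z) := by
    have := map_sum (at1 θ z : TangentSpace (𝓡 4) z →L[ℝ] ℝ)
      (fun B => (inner ℝ (sT B z) (sT A z) : ℝ) • sT B z) Finset.univ
    refine this.trans (Finset.sum_congr rfl fun B _ => ?_)
    exact (map_smul (at1 θ z : TangentSpace (𝓡 4) z →L[ℝ] ℝ) _ _)
  rw [ti z (sT A z)] at h2
  change ∑ B, S.DT.p A B z * (at1 θ z : TangentSpace (𝓡 4) z →L[ℝ] ℝ) (sT B z) =
    (at1 θ z : TangentSpace (𝓡 4) z →L[ℝ] ℝ) (sT A z)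
  rw [h2]
  refine Finset.sum_congr rfl fun B _ => ?_
  rw [pT, real_inner_comm]

/-- the connection form of the twisted eigenline. -/
theorem tF_thF (h : TG S T c W sT w e σ ι)
    (ti : ∀ (z : M) (X : TangentSpace (𝓡 4) z), ∑ A, (inner ℝ (sT A z) X : ℝ) • sT A z = X)
    (τ : TD M κT) (lam a0 : F1 E4 M) :
    lam + tF τ S W sT e (cmp sT (thF τ S W sT e lam a0)) = a0 := by
  unfold tF
  rw [fld_cmp h ti]
  unfold thF
  abel

variable {N : ℕ} {p : M → Matrix (Fin N) (Fin N) ℂ} {V : M → Matrix κ0 (Fin N) ℂ} {τ : TD M κT}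

/-- **the eigenline is flat.** -/
theorem flat_of [IsFiniteMeasureOnCompacts (μHE[4] : Measure M)] (hS : S.OK)
    (h : TG S T c W sT w e (-1) ι)
    (ti : ∀ (z : M) (X : TangentSpace (𝓡 4) z), ∑ A, (inner ℝ (sT A z) X : ℝ) • sT A z = X)
    (pT : ∀ A B z, S.DT.p A B z = inner ℝ (sT A z) (sT B z))
    (hn : ∀ k, ContMDiff (𝓡 4) 𝓘(ℝ, ℝ) ∞ (τ.n k)) (nn : ∀ z, ∑ k, τ.n k z ^ 2 = 1)
    (hsh : Crest.Agent.R249.Tv57.SmV (n := 4) τ.sh)
    (hp : Ln p) (hV : VI p (PEf τ S) V) {lam a0 : F1 E4 M} (hlam : Smooth1 lam)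
    (ha0 : Smooth1 a0) (hVl : lamV V = lam) {cL cE : Z2 M} (hcL : Ch0 p cL)
    (hcE : Ch0 (PEf τ S) cE)
    (hd : ∀ x, (2 * Real.pi) • val cL x = at2 (dG a0) x)
    (hfE : ∀ k x, τ.fE k x = 2 * qG (w 0).1.1 (e k) (PhiF cE (bF τ S W sT e)) x) :
    τ.Flat S (cmp sT (thF τ S W sT e lam a0)) := by
  intro k z
  have hbF : Smooth1 (bF τ S W sT e) := SWLnk_451.smooth_bF hS h hn hsh
  have h2 : (EuclideanSpace.single 0 1 : E3) ≠ 0 := by
    intro h0
    have := congrArg (fun v : E3 => v 0) h0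
    simp at this
  have hth : Smooth1 (thF τ S W sT e lam a0) :=
    (((J1.of ha0).sub (J1.of hlam)).sub (J1.of hbF)).sl h2
  have e1 := h.HB (cmp sT (thF τ S W sT e lam a0)) (fun A => smooth_cmp h hth A)
    (sec_cmp ti pT _) k z
  rw [fld_cmp h ti] at e1
  have e2 : Phi cE (tF τ S W sT e (cmp sT (thF τ S W sT e lam a0))) z = 0 := by
    have hq := ln_PEf hS h hn nn
    have ht : Smooth1 (tF τ S W sT e (cmp sT (thF τ S W sT e lam a0))) := by
      unfold tF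
      rw [fld_cmp h ti]
      exact hth.add hbF
    rw [Phi_V hV hp hq ht hcL hcE, hVl, tF_thF h ti]
    unfold Phi
    rw [hd, sub_self]
  have e3 : Phi cE (tF τ S W sT e (cmp sT (thF τ S W sT e lam a0))) z =
      at2 (PhiF cE (bF τ S W sT e)) z - at2 (dG (thF τ S W sT e lam a0)) z := by
    unfold tF
    rw [fld_cmp h ti, at2_PhiF]
    unfold Phi
    rw [dG_add hth hbF]
    have : at2 (dG (thF τ S W sT e lam a0) + dG (bF τ S W sT e)) z =
      at2 (dG (thF τ S W sT e lam a0)) z + at2 (dG (bF τ S W sT e)) z := rfl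
    rw [this]
    abel
  rw [hfE, e1]
  unfold qG
  have e4 : q (at2 ((w 0).1.1 : F2 E4 M) z) (at2 (e k) z)
      (at2 (PhiF cE (bF τ S W sT e)) z - at2 (dG (thF τ S W sT e lam a0)) z) = 0 := by
    rw [← e3, e2]
    have h0 := q_smul_right (at2 ((w 0).1.1 : F2 E4 M) z) 0 (at2 (e k) z) 0
    rw [zero_smul, zero_mul] at h0
    exact h0
  rw [q_comm, q_sub_left, q_comm _ _ (at2 (e k) z), q_comm _ _ (at2 (e k) z)] at e4
  linear_combination 2 * e4

/-- **parallel sections.** -/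
theorem par_of [IsFiniteMeasureOnCompacts (μHE[4] : Measure M)] (hS : S.OK)
    (h : TG S T c W sT w e σ ι)
    (ti : ∀ (z : M) (X : TangentSpace (𝓡 4) z), ∑ A, (inner ℝ (sT A z) X : ℝ) • sT A z = X)
    (nn : ∀ z, ∑ k, τ.n k z ^ 2 = 1)
    (hp : Ln p) (hV : VI p (PEf τ S) V) {lam a0 : F1 E4 M} (hVl : lamV V = lam)
    {s : κ0 → M → ℝ} (hsm : Crest.Agent.R249.Tv57.SmV (n := 4) s) (hs : τ.SecE S s)
    {α : M → Fin N → ℂ} (hα : Tau483.SmV α) (hpα : ∀ x, p x *ᵥ α x = α x)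
    (hVα : ∀ z, hatf S s z = V z *ᵥ α z) (hpar : ∀ z v, nab p a0 α z v = 0) (y : κ0) (z : M) :
    τ.nE S (cmp sT (thF τ S W sT e lam a0)) s y z = 0 := by
  have h1 : ∀ v : TangentSpace (𝓡 4) z,
      gE τ S T (cmp sT (thF τ S W sT e lam a0)) s z v = 0 := by
    intro v
    have e1 := hat_gE hS h nn (cmp sT (thF τ S W sT e lam a0)) hsm hs z v
    have e2 : hatf S s = fun z => V z *ᵥ α z := funext hVα
    have e5 : nab (PEf τ S) (tF τ S W sT e (cmp sT (thF τ S W sT e lam a0)))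
        (fun z => V z *ᵥ α z) z v = 0 := by
      refine (nab_V hV hp (tF τ S W sT e (cmp sT (thF τ S W sT e lam a0))) hα hpα z v).trans ?_
      rw [hVl, tF_thF h ti]
      exact (congrArg (fun x => V z *ᵥ x) (hpar z v)).trans (Matrix.mulVec_zero _)
    rw [e2] at e1
    replace e1 := e1.trans e5
    funext y
    have e3 := congrArg Complex.re (congrFun e1 y)
    have e4 : (hat (Jm S z) (gE τ S T (cmp sT (thF τ S W sT e lam a0)) s z v) y).re =
        (√2 / 2) * gE τ S T (cmp sT (thF τ S W sT e lam a0)) s z v y := by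
      unfold hat
      simp [cV]
    rw [e4] at e3
    have h2 : (√2 / 2 : ℝ) ≠ 0 := by positivity
    exact (mul_eq_zero.1 (e3.trans Complex.zero_re)).resolve_left h2
  have h2 : ∀ G : EuclideanSpace ℝ (Fin 4),
      ⟪τ.nE S (cmp sT (thF τ S W sT e lam a0)) s y z, G⟫ = 0 := by
    intro G
    obtain ⟨v, rfl⟩ := SwsQ_755.toF_surj T z G
    exact congrFun (h1 v) y
  exact inner_self_eq_zero.1 (h2 _)

end fam

end

end Crest.Agent.R235.MdlC_489
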