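import Crest.Agent.R235.MdlG_453
import Crest.Agent.R235.MdlC_489

/-!
Row 235 (S0364), helper453, leaf (X2) of helper489's #2818, part 2: **the fields of `HopfD`**
(`L` trivial, `N = 1`) for `piD D` and `UU D ww s (y, i) z = us rhoc (μ_{π s}) (ν_{π s}) (j s) y z`.
-/

set_option autoImplicit false
set_option maxSynthPendingDepth 3
set_option linter.unusedSectionVars false

open scoped ContDiff ENNReal NNReal Topology Manifold Bundle RealInnerProductSpace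
open MeasureTheory Set Filter Metric Bundle Matrix

universe v

namespace Crest.Agent.R235.MdlH_453

open Crest.Agent.R235.VIso_470 (Q4 PP)
open Crest.Agent.R235.MdlL_453 (Jc rhoc q4 Tws iu_one)
open Crest.Agent.R235.SWDefs_53 Crest.Agent.R235.SWTn_451
open Crest.Agent.R235.MdlA_489 Crest.Agent.R235.MdlC_489
open Crest.Agent.R235.TauJ (JF)

noncomputable section

section alg

variable {D : Fin 3 → ℝ}

theorem muT_piD (hD : ∀ k, D k ^ 2 = 1) {s : C2} (hs : ‖s‖ = 1) : muT D (piD D s) = hv (jj s) := by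
  funext k
  unfold muT
  rw [norm_piD hD, hs, one_pow, div_one, piD_hv hD]

theorem jj_one {s : C2} (hs : ‖s‖ = 1) : jj s ⬝ᵥ jj s = 1 := by rw [jj_dot, hs, one_pow]

theorem PP_jj (hD : ∀ k, D k ^ 2 = 1) {s : C2} (hs : ‖s‖ = 1) :
    PP rhoc (muT D (piD D s)) *ᵥ jj s = jj s := by
  rw [muT_piD hD hs]
  exact PP_hv (jj_one hs)

theorem muT_sq' (hD : ∀ k, D k ^ 2 = 1) {t : E3} (ht : ‖t‖ = 1) : ∑ k, muT D t k ^ 2 = 1 := by
  have ht2 : ∑ k, t k ^ 2 = 1 := by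
    have h1 : ‖t‖ ^ 2 = 1 := by rw [ht, one_pow]
    rw [EuclideanSpace.norm_sq_eq] at h1
    simpa only [Real.norm_eq_abs, sq_abs] using h1
  have h1 : ∀ k, muT D t k ^ 2 = t k ^ 2 := by
    intro k
    unfold muT
    rw [neg_sq, mul_pow, hD, one_mul, ht, div_one]
  simp only [h1]
  exact ht2

theorem exists_unit {μ : Fin 3 → ℝ} (hμ : ∑ k, μ k ^ 2 = 1) :
    ∃ s : Fin 4 → ℝ, PP rhoc μ *ᵥ s = s ∧ s ⬝ᵥ s = 1 := by
  have h := q4
  have hne : ∃ w, VIso_470.PP rhoc μ *ᵥ w ≠ 0 := by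
    by_contra hcon
    push Not at hcon
    have h1 : VIso_470.PP rhoc μ = 0 := by
      refine Matrix.ext_of_mulVec_single fun i => ?_
      rw [hcon, Matrix.zero_mulVec]
    have h2 := h.PP_tr μ
    rw [h1, Matrix.trace_zero] at h2
    norm_num at h2
  obtain ⟨w, hw⟩ := hne
  set v := VIso_470.PP rhoc μ *ᵥ w with hv
  have hvv : VIso_470.PP rhoc μ *ᵥ v = v := by rw [hv, Matrix.mulVec_mulVec, h.PP_idem hμ]
  have hpos : 0 < v ⬝ᵥ v := by
    have h1 : 0 ≤ v ⬝ᵥ v := Finset.sum_nonneg fun i _ => mul_self_nonneg _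
    refine lt_of_le_of_ne h1 fun h2 => hw ?_
    exact dotProduct_self_eq_zero.1 h2.symm
  refine ⟨(√(v ⬝ᵥ v))⁻¹ • v, by rw [Matrix.mulVec_smul, hvv], ?_⟩
  rw [smul_dotProduct, dotProduct_smul, smul_eq_mul, smul_eq_mul, ← mul_assoc, ← pow_two, inv_pow,
    Real.sq_sqrt hpos.le, inv_mul_cancel₀ hpos.ne']

/-- surjectivity of the Hopf map. -/
theorem spiD (hD : ∀ k, D k ^ 2 = 1) (t : E3) (ht : ‖t‖ = 1) : ∃ s : C2, ‖s‖ = 1 ∧ piD D s = t := by
  obtain ⟨v, hv1, hv2⟩ := exists_unit (muT_sq' hD ht)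
  obtain ⟨s, rfl⟩ := jj_surj v
  have hs : ‖s‖ = 1 := by
    rw [jj_dot] at hv2
    exact (pow_eq_one_iff_of_nonneg (norm_nonneg s) two_ne_zero).1 hv2
  refine ⟨s, hs, ?_⟩
  ext k
  rw [piD_apply]
  have h1 : hv (jj s) k = muT D t k := q4.s_rho hv1 hv2 k
  rw [h1]
  unfold muT
  rw [ht, div_one]
  have := hD k
  linear_combination t k * this

end alg

section us

variable {M : Type v} [TopologicalSpace M] [ChartedSpace (EuclideanSpace ℝ (Fin 4)) M]
  [IsManifold (𝓡 4) ∞ M]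
  {ww : Fin 3 → Fin 3 → M → ℝ} {D : Fin 3 → ℝ}

/-- the sections `U s`. -/
def UU (D : Fin 3 → ℝ) (ww : Fin 3 → Fin 3 → M → ℝ) (s : C2) (y : Fin 4 × Fin 1) (z : M) : ℝ :=
  us rhoc (muT D (piD D s)) (nuT ww (piD D s)) (jj s) y.1 z

theorem PP_Jc (μ : Fin 3 → ℝ) (v : Fin 4 → ℝ) : PP rhoc μ *ᵥ (Jc *ᵥ v) = Jc *ᵥ (PP rhoc μ *ᵥ v) := by
  rw [Matrix.mulVec_mulVec, Matrix.mulVec_mulVec, q4.PP_com]

theorem piD_smul {z : ℂ} (hz : ‖z‖ = 1) (s : C2) : piD D (z • s) = piD D s := by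
  ext k
  rw [piD_apply, piD_apply, hv_smul, hz]
  ring

theorem UU_smul {c : ℂ} (hc : ‖c‖ = 1) (s : C2) (y : Fin 4 × Fin 1) (x : M) :
    UU D ww (c • s) y x = c.re * UU D ww s y x +
      c.im * (Jc *ᵥ fun y' => UU D ww s (y', 0) x) y.1 := by
  unfold UU us
  rw [piD_smul hc, jj_smul, Matrix.mulVec_add, Matrix.mulVec_smul, Matrix.mulVec_smul, PP_Jc]
  have e1 : (Jc *ᵥ fun y' => cf (muT D (piD D s)) (nuT ww (piD D s)) x *
      (PP rhoc (fun k => nuT ww (piD D s) k x) *ᵥ jj s) y') y.1 =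
      cf (muT D (piD D s)) (nuT ww (piD D s)) x *
        (Jc *ᵥ (PP rhoc (fun k => nuT ww (piD D s) k x) *ᵥ jj s)) y.1 := by
    have := congrFun (Matrix.mulVec_smul Jc (cf (muT D (piD D s)) (nuT ww (piD D s)) x)
      (PP rhoc (fun k => nuT ww (piD D s) k x) *ᵥ jj s)) y.1
    exact this
  rw [e1]
  simp only [Pi.add_apply, Pi.smul_apply, smul_eq_mul]
  ring

end us

section top

variable {M : Type v} [TopologicalSpace M] [ChartedSpace (EuclideanSpace ℝ (Fin 4)) M]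
  [IsManifold (𝓡 4) ∞ M] [CompactSpace M]
  {ww : Fin 3 → Fin 3 → M → ℝ} {D : Fin 3 → ℝ}

theorem cont_nu (hc : ∀ k, ContinuousOn (fun q : E3 × M => nuT ww q.1 k q.2) {q | ‖q.1‖ = 1})
    (hD : ∀ k, D k ^ 2 = 1) (k : Fin 3) :
    ContinuousOn (fun q : C2 × M => nuT ww (piD D q.1) k q.2) {q | ‖q.1‖ = 1} := by
  refine (hc k).comp (f := fun q : C2 × M => (piD D q.1, q.2)) ?_ ?_
  · exact (((continuous_piD D).comp continuous_fst).prodMk continuous_snd).continuousOn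
  · intro q hq
    have h1 : ‖q.1‖ = 1 := hq
    show ‖piD D q.1‖ = 1
    rw [norm_piD hD, h1, one_pow]

theorem cont_mu (hD : ∀ k, D k ^ 2 = 1) (k : Fin 3) :
    ContinuousOn (fun q : C2 × M => muT D (piD D q.1) k) {q | ‖q.1‖ = 1} := by
  have h1 : ContinuousOn (fun q : C2 × M => hv (jj q.1) k) {q | ‖q.1‖ = 1} :=
    ((continuous_hv k).comp (continuous_jj.comp continuous_fst)).continuousOn
  refine h1.congr fun q hq => ?_
  have h2 : ‖q.1‖ = 1 := hq
  show muT D (piD D q.1) k = hv (jj q.1) k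
  rw [muT_piD hD h2]

theorem cont_jj (A : Matrix (Fin 4) (Fin 4) ℝ) (a : Fin 4) :
    Continuous fun q : C2 × M => (A *ᵥ jj q.1) a := by
  have h1 : Continuous fun q : C2 × M => jj q.1 := continuous_jj.comp continuous_fst
  have h2 : Continuous fun q : C2 × M => A *ᵥ jj q.1 := by
    unfold Matrix.mulVec dotProduct
    refine continuous_pi fun i => continuous_finsetSum _ fun j _ => ?_
    exact continuous_const.mul ((continuous_apply j).comp h1)
  exact (continuous_apply a).comp h2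

/-- **joint continuity of `U`.** -/
theorem cUU (hc : ∀ k, ContinuousOn (fun q : E3 × M => nuT ww q.1 k q.2) {q | ‖q.1‖ = 1})
    (hD : ∀ k, D k ^ 2 = 1)
    (hpos : ∀ t : E3, ‖t‖ = 1 → ∀ z, 0 < 1 + ∑ k, nuT ww t k z * muT D t k) (y : Fin 4 × Fin 1) :
    ContinuousOn (fun q : C2 × M => UU D ww q.1 y q.2) {q | ‖q.1‖ = 1} := by
  have hsum : ContinuousOn (fun q : C2 × M => (1 + ∑ k, nuT ww (piD D q.1) k q.2 *
      muT D (piD D q.1) k) / 2) {q | ‖q.1‖ = 1} := by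
    refine (continuousOn_const.add (continuousOn_finsetSum _ fun k _ => ?_)).div_const 2
    exact (cont_nu hc hD k).mul (cont_mu hD k)
  have h1 : ContinuousOn (fun q : C2 × M => (√((1 + ∑ k, nuT ww (piD D q.1) k q.2 *
      muT D (piD D q.1) k) / 2))⁻¹) {q | ‖q.1‖ = 1} := by
    refine (hsum.sqrt).inv₀ fun q hq => ?_
    have h2 : ‖q.1‖ = 1 := hq
    have h3 : ‖piD D q.1‖ = 1 := by rw [norm_piD hD, h2, one_pow]
    have h4 := hpos (piD D q.1) h3 q.2
    exact (Real.sqrt_pos.2 (by linarith)).ne'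
  have h2 : ContinuousOn (fun q : C2 × M => (1 / 2 : ℝ) * (jj q.1 y.1 + ∑ k,
      nuT ww (piD D q.1) k q.2 * (rhoc k *ᵥ jj q.1) y.1)) {q | ‖q.1‖ = 1} := by
    refine continuousOn_const.mul ?_
    refine ((continuous_apply y.1).comp (continuous_jj.comp continuous_fst)).continuousOn.add ?_
    refine continuousOn_finsetSum _ fun k _ => ?_
    exact (cont_nu hc hD k).mul (cont_jj _ _).continuousOn
  refine (h1.mul h2).congr fun q _ => ?_
  show UU D ww q.1 y q.2 = _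
  unfold UU us cf
  rw [PP_app]
  rfl

end top

section main

variable {M : Type v} [MetricSpace M] [CompactSpace M] [ConnectedSpace M]
  [ChartedSpace (EuclideanSpace ℝ (Fin 4)) M] [IsManifold (𝓡 4) ∞ M]
  [RiemannianBundle (fun p : M => TangentSpace (𝓡 4) p)]
  [IsContMDiffRiemannianBundle (𝓡 4) ∞ (EuclideanSpace ℝ (Fin 4))
    (fun p : M => TangentSpace (𝓡 4) p)]
  [IsRiemannianManifold (𝓡 4) M] [MeasurableSpace M] [BorelSpace M]
  [SecondCountableTopology M] [Nonempty M] [IsFiniteMeasureOnCompacts (μHE[4] : Measure M)]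
  {κ1 κT : Type} [Fintype κ1] [Fintype κT]
  {S : SWS M (Fin 4 × Fin 1) κ1 κT} {p : M → Matrix (Fin 1) (Fin 1) ℂ}
  {ww : Fin 3 → Fin 3 → M → ℝ} {D : Fin 3 → ℝ} {τ : E3 → TD M κT} {C : ℝ}
  {th : E3 → κT → M → ℝ}

theorem ne_of_one {t : E3} (ht : ‖t‖ = 1) : t ≠ 0 := by
  rintro rfl
  rw [norm_zero] at ht
  exact zero_ne_one ht

/-- **`HopfD` from the flat family and the parallel sections.** -/
theorem hopf_of (hT : Tws S p) (hp : IsLine p) (hL : LT ww)
    (hs : ∀ i k, ContMDiff (𝓡 4) 𝓘(ℝ, ℝ) ∞ (ww i k)) (hD1 : ∀ k, D k ^ 2 = 1)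
    (hDp : ∀ k z, 0 < D k * ww k k z) (fam : FFam S ww τ C th)
    (hpsec : ∀ t : E3, ‖t‖ = 1 → ∀ v : Fin 4 → ℝ, PP rhoc (muT D t) *ᵥ v = v → v ⬝ᵥ v = 1 →
      (τ t).PSec S (th t) (1 / 2) (fun y z => us rhoc (muT D t) (nuT ww t) v y.1 z)) :
    HopfD S ww τ C th (piD D) (UU D ww) where
  fam := fam
  cpi := continuous_piD D
  npi s hs1 := by rw [norm_piD hD1, hs1, one_pow]
  spi := spiD hD1
  fpi := fpiD hD1
  psec s hs1 := hpsec (piD D s) (by rw [norm_piD hD1, hs1, one_pow]) (jj s) (PP_jj hD1 hs1)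
    (jj_one hs1)
  eqU s c _ hc y x := by
    rw [UU_smul hc]
    have h1 := iu_one hT hp (fun a z => us rhoc (muT D (piD D s)) (nuT ww (piD D s)) (jj s) a z) y x
    rw [show S.iu (UU D ww s) y x = S.iu (fun y => (fun a z => us rhoc (muT D (piD D s))
      (nuT ww (piD D s)) (jj s) a z) y.1) y x from rfl, h1]
    rfl
  cU y := cUU (fun k => (jf_nuT hL hs k).contS) hD1
    (fun t ht z => nu_mu_pos hL hD1 hDp (ne_of_one ht) z) y

end main

end

end Crest.Agent.R235.MdlH_453
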