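import Crest.Agent.R235.LTwE_453
import Crest.Agent.R235.LTwLd_774
import Crest.Agent.R235.SwsQ_755
import Crest.Agent.R235.TauE_483
import Crest.Agent.R235.VIso_470
import Crest.Agent.R235.MdlB_489
import Crest.Agent.R235.SWJDefs_53

/-!
Row 235, helper453, leaf (L) of helper489's #2606: bridge between the twisted Clifford pair and
`VIso_470`.

* `Jc`, `rhoc` : constant matrices; `q4 : Q4 Jc rhoc`; `iota`.
* `Tws S p` : `p`, `J`, `ρ` of the Seiberg-Witten system `S` are the twisted ones; `tws_swsQ`.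
* `al_tws` : the algebra `Tau483.Al` at every point, `ι = -1`.
* `PEf_eq` : `PEf τ S z = VIso_470.PE Jc (p z) (PP rhoc (-n))`.
* `link` : a unit section of `E` gives a nowhere zero section of `p`.
* `secE_one`, `iu_one` : the case `N = 1`, `p = 1`.
-/

set_option autoImplicit false
set_option maxSynthPendingDepth 3
set_option linter.unusedSectionVars false

open scoped ContDiff ENNReal NNReal Topology Manifold Bundle RealInnerProductSpace
open MeasureTheory Set Filter Metric Bundle Matrix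

universe v

namespace Crest.Agent.R235.MdlL_453

open Crest.Agent.R240 Crest.Agent.R240.Ch Crest.Agent.R235.SWDefs_53
open Crest.Agent.R235.Ind167 (QS)
open Crest.Agent.R249.Tz805 (ToF CPair)
open Crest.Agent.R249.Tz2_805 (PF)
open Crest.Agent.R249.Tv57 (Dat OpPair SmF)
open Crest.Agent.R235.VIso_470 (Q4 PP tw tw_add tw_smul tw_sum tw_mul)
open Crest.Agent.R235.Tau483 (Pm Jm Rm nv sv P0f PEf hatf Al InE RR P0 hat secE_of inE_of)
open Crest.Agent.R235.LTw_453 (LD twZ J0Z J1Z KtZ)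

noncomputable section

/-! ### constant matrices -/

/-- left multiplication by `i` -/
def Jc : Matrix (Fin 4) (Fin 4) ℝ := Crest.Agent.R249.C2_198.J ℝ 0

/-- `ρ_k = - J K_k` -/
def rhoc (k : Fin 3) : Matrix (Fin 4) (Fin 4) ℝ := -(Jc * Crest.Agent.R249.C2_198.K ℝ k)

/-- **(L1)** -/
theorem q4 : Q4 Jc rhoc where
  skew := SymQ_755.J0_t
  sq := SymQ_755.J0_sq
  sym := SymQ_755.JK_t
  com k := (SymQ_755.J_JK k).trans (SymQ_755.JK_J k).symm
  anti j k := by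
    have h1 : rhoc j * rhoc k + rhoc k * rhoc j =
        -(Crest.Agent.R249.C2_198.K ℝ j * Crest.Agent.R249.C2_198.K ℝ k +
          Crest.Agent.R249.C2_198.K ℝ k * Crest.Agent.R249.C2_198.K ℝ j) := by
      rw [neg_add]
      exact congrArg₂ (· + ·) (SymQ_755.JK_JK j k) (SymQ_755.JK_JK k j)
    rw [h1, SymQ_755.K_cl]
    split_ifs
    · rw [neg_smul, neg_neg]
    · rw [neg_zero]
  card := rfl

/-- `ρ_j ρ_{j+1} = - J ρ_{j+2}` -/
theorem iota (j : Fin 3) : rhoc j * rhoc (j + 1) = (-1 : ℝ) • (Jc * rhoc (j + 2)) := by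
  have h1 : rhoc j * rhoc (j + 1) =
      -(Crest.Agent.R249.C2_198.K ℝ j * Crest.Agent.R249.C2_198.K ℝ (j + 1)) :=
    SymQ_755.JK_JK j (j + 1)
  have h2 : Jc * rhoc (j + 2) = Crest.Agent.R249.C2_198.K ℝ (j + 2) := SymQ_755.J_JK (j + 2)
  rw [h1, h2, neg_one_smul]
  congr 1
  fin_cases j
  · exact SymQ_755.K_mul01
  · exact SymQ_755.K_mul12
  · exact SymQ_755.K_mul20

/-! ### the twisted format -/

section tw

variable {κ : Type} [Fintype κ] {N : ℕ}

theorem tw_transpose {J A : Matrix κ κ ℝ} (hJ : Jᵀ = -J) (hA : Aᵀ = A) (hc : J * A = A * J)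
    (C : Matrix (Fin N) (Fin N) ℂ) : (tw J C A)ᵀ = tw J Cᴴ A := by
  ext y y'
  have h1 : A y'.1 y.1 = A y.1 y'.1 := congrFun (congrFun hA y.1) y'.1
  have h2 : (J * A) y'.1 y.1 = - (J * A) y.1 y'.1 := by
    have h3 : (J * A)ᵀ = -(J * A) := by
      rw [Matrix.transpose_mul, hJ, hA, Matrix.mul_neg, hc]
    exact congrFun (congrFun h3 y.1) y'.1
  show (C y'.2 y.2).re * A y'.1 y.1 + (C y'.2 y.2).im * (J * A) y'.1 y.1 =
    (Cᴴ y.2 y'.2).re * A y.1 y'.1 + (Cᴴ y.2 y'.2).im * (J * A) y.1 y'.1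
  rw [h1, h2, Matrix.conjTranspose_apply, Complex.star_def, Complex.conj_re, Complex.conj_im]
  ring

theorem tw_neg (J : Matrix κ κ ℝ) (C : Matrix (Fin N) (Fin N) ℂ) (A : Matrix κ κ ℝ) :
    tw J C (-A) = - tw J C A := by
  have h := tw_smul J C (-1) A
  rw [neg_one_smul, neg_one_smul] at h
  exact h

theorem tw_negC (J : Matrix κ κ ℝ) (C : Matrix (Fin N) (Fin N) ℂ) (A : Matrix κ κ ℝ) :
    tw J (-C) A = - tw J C A := by
  ext y y'
  show (-C y.2 y'.2).re * A y.1 y'.1 + (-C y.2 y'.2).im * (J * A) y.1 y'.1 =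
    -((C y.2 y'.2).re * A y.1 y'.1 + (C y.2 y'.2).im * (J * A) y.1 y'.1)
  rw [Complex.neg_re, Complex.neg_im]
  ring

/-- `tw J (i C) A = tw J C (J A)` -/
theorem tw_I {J : Matrix κ κ ℝ} [DecidableEq κ] (hJ : J * J = -1) (C : Matrix (Fin N) (Fin N) ℂ)
    (A : Matrix κ κ ℝ) : tw J (Complex.I • C) A = tw J C (J * A) := by
  ext y y'
  have e1 : ((Complex.I • C) y.2 y'.2).re = - (C y.2 y'.2).im := by simp [Matrix.smul_apply]
  have e2 : ((Complex.I • C) y.2 y'.2).im = (C y.2 y'.2).re := by simp [Matrix.smul_apply]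
  have e3 : J * (J * A) = - A := by rw [← Matrix.mul_assoc, hJ, Matrix.neg_mul, Matrix.one_mul]
  show ((Complex.I • C) y.2 y'.2).re * A y.1 y'.1 + ((Complex.I • C) y.2 y'.2).im *
    (J * A) y.1 y'.1 = (C y.2 y'.2).re * (J * A) y.1 y'.1 + (C y.2 y'.2).im * (J * (J * A)) y.1 y'.1
  rw [e1, e2, e3, Matrix.neg_apply]
  ring

end tw

variable {M : Type v} [MetricSpace M] [CompactSpace M] [ConnectedSpace M]
  [ChartedSpace (EuclideanSpace ℝ (Fin 4)) M] [IsManifold (𝓡 4) ∞ M]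
  [RiemannianBundle (fun p : M => TangentSpace (𝓡 4) p)]
  [IsContMDiffRiemannianBundle (𝓡 4) ∞ (EuclideanSpace ℝ (Fin 4))
    (fun p : M => TangentSpace (𝓡 4) p)]
  [IsRiemannianManifold (𝓡 4) M] [MeasurableSpace M] [BorelSpace M]
  [SecondCountableTopology M] [Nonempty M]
  {κ κ1 κT : Type} [Fintype κ] [Fintype κ1] [Fintype κT] {N : ℕ}

/-- the twisted format of a Seiberg-Witten system. -/
structure Tws (S : SWS M (Fin 4 × Fin N) κ1 κT) (p : M → Matrix (Fin N) (Fin N) ℂ) : Prop where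
  P : ∀ z, Pm S z = tw Jc (p z) 1
  J : ∀ z, Jm S z = tw Jc (p z) Jc
  R : ∀ z k, Rm S z k = tw Jc (p z) (rhoc k)

/-- **755's system over the twisted pair**. -/
theorem tws_swsQ (T : ToF 4 M) (q : QS M) (s : PF 4 M κ) {p : M → Matrix (Fin N) (Fin N) ℂ}
    (hp : IsLine p) (L : LD 4 M N) (hr : ∀ k l z, L.r k l z = (p z k l).re)
    (hs : ∀ k l z, L.s k l z = (p z k l).im)
    {DL : Dat 4 M (Fin 4)} {DT : Dat 4 M κ} (H : OpPair DL DT) :
    Tws (SwsQ_755.swsQ T (twZ q s L) (J0Z q s L) (KtZ M L) H) p where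
  P z := by
    ext y y'
    show (if y.1 = y'.1 then (1 : ℝ) else 0) * L.r y.2 y'.2 z +
      Jc y.1 y'.1 * L.s y.2 y'.2 z =
      (p z y.2 y'.2).re * (1 : Matrix (Fin 4) (Fin 4) ℝ) y.1 y'.1 +
        (p z y.2 y'.2).im * (Jc * (1 : Matrix (Fin 4) (Fin 4) ℝ)) y.1 y'.1
    rw [hr, hs, Matrix.mul_one, Matrix.one_apply]
    ring
  J z := by
    ext y y'
    have e1 : (Jc * Jc) y.1 y'.1 = - (if y.1 = y'.1 then (1 : ℝ) else 0) := by
      rw [q4.sq, Matrix.neg_apply, Matrix.one_apply]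
    show (if y.1 = y'.1 then (1 : ℝ) else 0) * (- L.s y.2 y'.2 z) +
      Jc y.1 y'.1 * L.r y.2 y'.2 z =
      (p z y.2 y'.2).re * Jc y.1 y'.1 + (p z y.2 y'.2).im * (Jc * Jc) y.1 y'.1
    rw [hr, hs, e1]
    ring
  R z k := by
    have h1 : Rm (SwsQ_755.swsQ T (twZ q s L) (J0Z q s L) (KtZ M L) H) z k =
        -(tw Jc (p z) Jc * tw Jc (p z) (Crest.Agent.R249.C2_198.K ℝ k)) := by
      have h2 := SymQ_755.rho_mat (J0Z q s L) (KtZ M L) k z
      have e1 : (Matrix.of fun y y' => J0Z q s L y y' z) = tw Jc (p z) Jc := by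
        ext y y'
        have e1 : (Jc * Jc) y.1 y'.1 = - (if y.1 = y'.1 then (1 : ℝ) else 0) := by
          rw [q4.sq, Matrix.neg_apply, Matrix.one_apply]
        show (if y.1 = y'.1 then (1 : ℝ) else 0) * (- L.s y.2 y'.2 z) +
          Jc y.1 y'.1 * L.r y.2 y'.2 z =
          (p z y.2 y'.2).re * Jc y.1 y'.1 + (p z y.2 y'.2).im * (Jc * Jc) y.1 y'.1
        rw [hr, hs, e1]
        ring
      have e2 : (Matrix.of fun y y' => KtZ M L k y y' z) =
          tw Jc (p z) (Crest.Agent.R249.C2_198.K ℝ k) := by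
        ext y y'
        show L.r y.2 y'.2 z * Crest.Agent.R249.C2_198.K ℝ k y.1 y'.1 +
          L.s y.2 y'.2 z * (Jc * Crest.Agent.R249.C2_198.K ℝ k) y.1 y'.1 =
          (p z y.2 y'.2).re * Crest.Agent.R249.C2_198.K ℝ k y.1 y'.1 +
          (p z y.2 y'.2).im * (Jc * Crest.Agent.R249.C2_198.K ℝ k) y.1 y'.1
        rw [hr, hs]
      rw [e1, e2] at h2
      exact h2
    rw [h1, tw_mul q4.sq (p z) (p z) (A := Jc) rfl, hp.idem, rhoc, tw_neg]

section alg

variable {S : SWS M (Fin 4 × Fin N) κ1 κT} {p : M → Matrix (Fin N) (Fin N) ℂ}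

theorem Tws.rr_eq (hT : Tws S p) (z : M) (n : Fin 3 → ℝ) :
    RR (Rm S z) n = tw Jc (p z) (∑ k, n k • rhoc k) := by
  rw [tw_sum]
  unfold Tau483.RR
  refine Finset.sum_congr rfl fun k _ => ?_
  rw [tw_smul, hT.R z k]

theorem Tws.p0_eq (hT : Tws S p) (z : M) (n : Fin 3 → ℝ) :
    P0 (Pm S z) (Rm S z) n = tw Jc (p z) (PP rhoc (fun k => - n k)) := by
  unfold Tau483.P0 VIso_470.PP
  rw [hT.rr_eq, hT.P, tw_smul, sub_eq_add_neg, ← tw_neg, ← tw_add]
  congr 3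
  rw [← Finset.sum_neg_distrib]
  exact Finset.sum_congr rfl fun k _ => (neg_smul _ _).symm

/-- the algebra at a point. -/
theorem Tws.al (hT : Tws S p) (hp : IsLine p) (z : M) {n : Fin 3 → ℝ} (hn : ∑ k, n k ^ 2 = 1) :
    Al (Pm S z) (Jm S z) (Rm S z) n (-1) where
  PP := by rw [hT.P, tw_mul q4.sq _ _ (A := 1) (by rw [Matrix.mul_one, Matrix.one_mul]), hp.idem,
    Matrix.one_mul]
  PT := by
    rw [hT.P, tw_transpose q4.skew Matrix.transpose_one (by rw [Matrix.mul_one, Matrix.one_mul]),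
      hp.herm]
  JJ := by rw [hT.J, hT.P, tw_mul q4.sq _ _ (A := Jc) rfl, hp.idem, q4.sq, tw_neg]
  JT := by
    rw [hT.J]
    have h1 : tw Jc (p z) Jc = tw Jc (Complex.I • p z) 1 := by
      rw [tw_I q4.sq, Matrix.mul_one]
    rw [h1, tw_transpose q4.skew Matrix.transpose_one (by rw [Matrix.mul_one, Matrix.one_mul]),
      Matrix.conjTranspose_smul, hp.herm, ← tw_negC]
    congr 1
    rw [Complex.star_def, Complex.conj_I, neg_smul]
  PJ := by rw [hT.J, hT.P, tw_mul q4.sq _ _ (A := 1) (by rw [Matrix.mul_one, Matrix.one_mul]),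
    hp.idem, Matrix.one_mul]
  rT k := by rw [hT.R, tw_transpose q4.skew (q4.sym k) (q4.com k), hp.herm]
  Pr k := by rw [hT.R, hT.P, tw_mul q4.sq _ _ (A := 1) (by rw [Matrix.mul_one, Matrix.one_mul]),
    hp.idem, Matrix.one_mul]
  Jr k := by rw [hT.R, hT.J, tw_mul q4.sq _ _ (A := Jc) rfl, tw_mul q4.sq _ _ (q4.com k), q4.com k]
  r2 j k := by
    rw [hT.R, hT.R, hT.P, tw_mul q4.sq _ _ (q4.com j), tw_mul q4.sq _ _ (q4.com k), ← tw_add,
      q4.anti, hp.idem]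
    split_ifs
    · rw [tw_smul]
    · ext y y'
      simp [tw]
  r3 j := by
    rw [hT.R, hT.R, hT.R, hT.J, tw_mul q4.sq _ _ (q4.com j), iota, tw_smul,
      tw_mul q4.sq _ _ (A := Jc) rfl]
  nn := hn
  tr := by
    have h1 : (tw Jc (p z) 1).trace = ∑ a : Fin 4, ∑ k, (p z k k).re := by
      rw [Matrix.trace, Fintype.sum_prod_type]
      refine Finset.sum_congr rfl fun a _ => Finset.sum_congr rfl fun k _ => ?_
      have h2 : (Jc * (1 : Matrix (Fin 4) (Fin 4) ℝ)) a a = 0 := by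
        rw [Matrix.mul_one]
        have h3 := congrFun (congrFun q4.skew a) a
        rw [Matrix.transpose_apply, Matrix.neg_apply] at h3
        linarith
      show (p z k k).re * (1 : Matrix (Fin 4) (Fin 4) ℝ) a a + (p z k k).im * (Jc * (1 : Matrix (Fin 4) (Fin 4) ℝ)) a a = _
      rw [h2, Matrix.one_apply_eq]
      ring
    have h2 : ∑ k, (p z k k).re = 1 := by
      have h3 := congrArg Complex.re (hp.rank z)
      rw [Matrix.trace, Complex.re_sum] at h3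
      simpa using h3
    rw [hT.P, h1, h2]
    simp

/-- **(L2)** -/
theorem Tws.pEf_eq (hT : Tws S p) (hp : IsLine p) (τ : TD M κT) (z : M) :
    PEf τ S z = Matrix.of (VIso_470.PE Jc (p z) (PP rhoc (fun k => - τ.n k z))) := by
  have h1 : P0 (Pm S z) (Rm S z) (nv τ z) = tw Jc (p z) (PP rhoc (fun k => - τ.n k z)) :=
    hT.p0_eq z _
  have h2 : Jm S z * P0 (Pm S z) (Rm S z) (nv τ z) =
      tw Jc (Complex.I • p z) (PP rhoc (fun k => - τ.n k z)) := by
    rw [h1, hT.J, tw_mul q4.sq _ _ (A := Jc) rfl, hp.idem, tw_I q4.sq]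
  ext y y'
  show (Tau483.PE (Pm S z) (Jm S z) (Rm S z) (nv τ z)) y y' = _
  unfold Tau483.PE
  rw [h2, h1]
  rfl

theorem Tws.hat_ne (hT : Tws S p) (hp : IsLine p) {τ : TD M κT}
    (hn : ∀ z, ∑ k, τ.n k z ^ 2 = 1) {s : Fin 4 × Fin N → M → ℝ} (hs : τ.SecE S s) {z : M}
    (h1 : ∑ y, s y z ^ 2 ≠ 0) : hatf S s z ≠ 0 := by
  intro h0
  have ha := hT.al hp z (hn z)
  have h2 := ha.hp_hat (s := sv s z) (t := sv s z) (inE_of hs z).1
  have h3 : hat (Jm S z) (sv s z) = 0 := h0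
  rw [h3] at h2
  have h4 := congrArg Complex.re h2
  have h5 : (Tau483.hp (0 : Fin 4 × Fin N → ℂ) 0).re = 0 := by simp [Tau483.hp]
  rw [h5] at h4
  simp only [Complex.add_re, Complex.ofReal_re, Complex.mul_re, Complex.I_re, zero_mul,
    Complex.I_im, Complex.ofReal_im, mul_zero, sub_self, add_zero] at h4
  refine h1 ?_
  rw [h4]
  exact Finset.sum_congr rfl fun y _ => pow_two _

/-- **(L3)** a nowhere zero section of `E` gives a nowhere zero section of `p`. -/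
theorem Tws.link [IsFiniteMeasureOnCompacts (μHE[4] : Measure M)] (hS : S.OK) (hT : Tws S p) (hp : IsLine p) {τ : TD M κT}
    {V : M → Matrix (Fin 4 × Fin N) (Fin N) ℂ} (hV : MdlB_489.VI p (Tau483.PEf τ S) V)
    (hn : ∀ z, ∑ k, τ.n k z ^ 2 = 1) {s : Fin 4 × Fin N → M → ℝ}
    (hsm : Crest.Agent.R249.Tv57.SmV (n := 4) s) (hs : τ.SecE S s)
    (h1 : ∀ z, ∑ y, s y z ^ 2 ≠ 0) :
    (∀ l, Tau483.SmC fun z => ((V z)ᴴ *ᵥ hatf S s z) l) ∧
      (∀ z, (V z)ᴴ *ᵥ hatf S s z ≠ 0) ∧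
      (∀ z, p z *ᵥ ((V z)ᴴ *ᵥ hatf S s z) = (V z)ᴴ *ᵥ hatf S s z) ∧
      ∀ z, V z *ᵥ ((V z)ᴴ *ᵥ hatf S s z) = hatf S s z := by
  have hPE : ∀ z, Tau483.PEf τ S z *ᵥ hatf S s z = hatf S s z := fun z =>
    (hT.al hp z (hn z)).PE_hat (inE_of hs z)
  have h4 : ∀ z, V z *ᵥ ((V z)ᴴ *ᵥ hatf S s z) = hatf S s z := by
    intro z
    rw [Matrix.mulVec_mulVec, hV.vv' z, hPE z]
  refine ⟨fun l => ?_, fun z h0 => ?_, fun z => ?_, h4⟩
  · have h2 : (fun z => ((V z)ᴴ *ᵥ hatf S s z) l) = fun z => ∑ y, star (V z y l) * hatf S s z y := rfl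
    rw [h2]
    exact Tau483.SmC.sum _ fun y _ =>
      Tau483.SmC.mul (Tau483.SmC.star (hV.sm y l)) (Tau483.smV_hatf hS hsm y)
  · have h5 := h4 z
    rw [h0, Matrix.mulVec_zero] at h5
    exact hT.hat_ne hp hn hs (h1 z) h5.symm
  · rw [← hV.vv z, Matrix.mulVec_mulVec, Matrix.mul_assoc, ← Matrix.mulVec_mulVec, hV.vv' z, hPE z]

/-- the isometry `V`, from `VIso_470.exists_V`. -/
theorem Tws.exists_VI (hT : Tws S p) (hp : IsLine p) {τ : TD M κT}
    (hsm : ∀ k, ContMDiff (𝓡 4) 𝓘(ℝ, ℝ) ∞ (τ.n k)) (hn : ∀ z, ∑ k, τ.n k z ^ 2 = 1) (k0 : Fin 3)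
    {s : ℝ} (hs : s ^ 2 = 1) (hpos : ∀ z, s * τ.n k0 z < 1) :
    ∃ V : M → Matrix (Fin 4 × Fin N) (Fin N) ℂ, MdlB_489.VI p (Tau483.PEf τ S) V := by
  obtain ⟨V, h1, h2, h3, h4⟩ := VIso_470.exists_V q4 hp (n := fun k z => - τ.n k z)
    (fun k => (hsm k).neg) (fun z => by simpa using hn z) k0 hs (fun z => by
      have := hpos z
      show -1 < s * - τ.n k0 z
      linarith)
  refine ⟨V, h1, h2, fun z => ?_, h4⟩
  rw [h3 z, hT.pEf_eq hp]

end alg

/-! ### the trivial line bundle -/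

section one

variable {S : SWS M (Fin 4 × Fin 1) κ1 κT} {p : M → Matrix (Fin 1) (Fin 1) ℂ}

theorem isLine_one (hp : IsLine p) (z : M) : p z = 1 := by
  have h1 := hp.rank z
  rw [Matrix.trace_fin_one] at h1
  ext i j
  fin_cases i; fin_cases j
  simpa using h1

theorem tw_one_mulVec (A : Matrix (Fin 4) (Fin 4) ℝ) (v : Fin 4 → ℝ) :
    tw Jc (1 : Matrix (Fin 1) (Fin 1) ℂ) A *ᵥ (fun y => v y.1) = fun y => (A *ᵥ v) y.1 := by
  ext y
  have hy : y.2 = 0 := Subsingleton.elim _ _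
  have e1 : ∀ a : Fin 4, tw Jc (1 : Matrix (Fin 1) (Fin 1) ℂ) A y (a, 0) = A y.1 a := by
    intro a
    show ((1 : Matrix (Fin 1) (Fin 1) ℂ) y.2 0).re * A y.1 a +
      ((1 : Matrix (Fin 1) (Fin 1) ℂ) y.2 0).im * (Jc * A) y.1 a = A y.1 a
    rw [hy, Matrix.one_apply_eq, Complex.one_re, Complex.one_im]
    ring
  show ∑ y', tw Jc (1 : Matrix (Fin 1) (Fin 1) ℂ) A y y' * v y'.1 = ∑ a, A y.1 a * v a
  rw [Fintype.sum_prod_type]
  simp only [Fin.sum_univ_one, Fin.isValue, e1]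

/-- **(L4)** sections of `E` for `N = 1`. -/
theorem secE_one (hT : Tws S p) (hp : IsLine p) {τ : TD M κT} {u : Fin 4 → M → ℝ}
    (hu : ∀ z, PP rhoc (fun k => - τ.n k z) *ᵥ (fun y => u y z) = fun y => u y z) :
    τ.SecE S (fun y => u y.1) := by
  refine secE_of fun z => ⟨?_, ?_⟩
  · rw [hT.P z, isLine_one hp z]
    have h1 := tw_one_mulVec 1 (fun y => u y z)
    rw [Matrix.one_mulVec] at h1
    exact h1
  · rw [hT.rr_eq, isLine_one hp z]
    have h1 := tw_one_mulVec (∑ k, nv τ z k • rhoc k) (fun y => u y z)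
    have h2 : (∑ k, nv τ z k • rhoc k) *ᵥ (fun y => u y z) = - fun y => u y z := by
      have h3 := hu z
      unfold VIso_470.PP at h3
      rw [Matrix.smul_mulVec, Matrix.add_mulVec, Matrix.one_mulVec] at h3
      have h4 : (∑ k, (- τ.n k z) • rhoc k) = - ∑ k, nv τ z k • rhoc k := by
        rw [← Finset.sum_neg_distrib]
        exact Finset.sum_congr rfl fun k _ => neg_smul _ _
      rw [h4, Matrix.neg_mulVec] at h3
      ext y
      have h5 := congrFun h3 y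
      simp only [Pi.smul_apply, Pi.add_apply, Pi.neg_apply, smul_eq_mul] at h5 ⊢
      linarith
    rw [h2] at h1
    exact h1

/-- `i u` for `N = 1`. -/
theorem iu_one (hT : Tws S p) (hp : IsLine p) (u : Fin 4 → M → ℝ) (y : Fin 4 × Fin 1) (z : M) :
    S.iu (fun y => u y.1) y z = (Jc *ᵥ fun y => u y z) y.1 := by
  have h1 := tw_one_mulVec Jc (fun y => u y z)
  have h2 : S.iu (fun y => u y.1) y z = (Jm S z *ᵥ fun y => u y.1 z) y := rfl
  rw [h2, hT.J z, isLine_one hp z]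
  exact congrFun h1 y

end one

end

end Crest.Agent.R235.MdlL_453
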