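import Crest.Agent.R235.MdlC_489
import Crest.Agent.R235.MdlL_453

/-!
Row 235 (S0364), PACKAGE SW, MODEL outputs MODF / MODB (helper489), part D: over the twisted format
`MdlL_453.Tws S p`.

* `exists_D`   : the signs `D_k` of `ww k k`;
* `exists_s0`  : a constant unit vector with `P_μ s = s`;
* `Mh`         : the hypotheses on the model; `Mh.th`, `Mh.ffam` : **the flat family** `FFam`.
-/

set_option autoImplicit false
set_option maxSynthPendingDepth 3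
set_option linter.unusedSectionVars false

open scoped ContDiff ENNReal NNReal Topology Manifold Bundle RealInnerProductSpace
open MeasureTheory Set Filter Metric Bundle Matrix

universe v

namespace Crest.Agent.R235.MdlD_489

open Crest.Agent.R240 Crest.Agent.R240.Ch Crest.Agent.R235.SWDefs_53 Crest.Agent.R235.IndTri_451
open Crest.Agent.R249.Tv57 (Dat OpPair SmF Spec)
open Crest.Agent.R247.Ms322 (Gr)
open Crest.Agent.R249.Vf281 (VSm mCov)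
open Crest.Agent.R249.Tz805 (ToF Bun opB)
open Crest.Agent.R235.Tau483 Crest.Agent.R235.TauJ Crest.Agent.R235.SWTn_451
open Crest.Agent.R235.MdlA_489 Crest.Agent.R235.MdlB_489 Crest.Agent.R235.MdlC_489
open Crest.Agent.R235.MdlL_453 Crest.Agent.R235.VIso_470

noncomputable section

/-- a constant unit vector of the eigenspace. -/
theorem exists_s0 {κ : Type} [Fintype κ] [DecidableEq κ] {J : Matrix κ κ ℝ}
    {ρ : Fin 3 → Matrix κ κ ℝ} (h : Q4 J ρ) {μ : Fin 3 → ℝ} (hμ : ∑ k, μ k ^ 2 = 1) :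
    ∃ s : κ → ℝ, VIso_470.PP ρ μ *ᵥ s = s ∧ s ⬝ᵥ s = 1 := by
  have hne : ∃ w, VIso_470.PP ρ μ *ᵥ w ≠ 0 := by
    by_contra hcon
    push Not at hcon
    have h1 : VIso_470.PP ρ μ = 0 := by
      refine Matrix.ext_of_mulVec_single fun i => ?_
      rw [hcon, Matrix.zero_mulVec]
    have h2 := h.PP_tr μ
    rw [h1, Matrix.trace_zero] at h2
    norm_num at h2
  obtain ⟨w, hw⟩ := hne
  set v := VIso_470.PP ρ μ *ᵥ w with hv
  have hvv : VIso_470.PP ρ μ *ᵥ v = v := by rw [hv, Matrix.mulVec_mulVec, h.PP_idem hμ]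
  have hpos : 0 < v ⬝ᵥ v := by
    have h1 : 0 ≤ v ⬝ᵥ v := Finset.sum_nonneg fun i _ => mul_self_nonneg _
    refine lt_of_le_of_ne h1 fun h2 => hw ?_
    exact dotProduct_self_eq_zero.1 h2.symm
  refine ⟨(√(v ⬝ᵥ v))⁻¹ • v, by rw [Matrix.mulVec_smul, hvv], ?_⟩
  rw [smul_dotProduct, dotProduct_smul, smul_eq_mul, smul_eq_mul, ← mul_assoc, ← pow_two, inv_pow,
    Real.sq_sqrt hpos.le, inv_mul_cancel₀ hpos.ne']

theorem muT_sq {D : Fin 3 → ℝ} (hD1 : ∀ k, D k ^ 2 = 1) {t : E3} (ht : t ≠ 0) :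
    ∑ k, muT D t k ^ 2 = 1 := by
  have hpos : 0 < ‖t‖ := norm_pos_iff.2 ht
  have ht2 : ∑ k, t k ^ 2 = ‖t‖ ^ 2 := by
    rw [EuclideanSpace.norm_sq_eq]
    simp only [Real.norm_eq_abs, sq_abs]
  have h1 : ∀ k, muT D t k ^ 2 = (‖t‖ ^ 2)⁻¹ * t k ^ 2 := by
    intro k
    unfold muT
    rw [neg_sq, mul_pow, hD1, one_mul, div_pow, div_eq_mul_inv, mul_comm]
  simp only [h1]
  rw [← Finset.mul_sum, ht2, inv_mul_cancel₀ (pow_ne_zero 2 hpos.ne')]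

/-- the signs of the diagonal. -/
theorem exists_D {M : Type v} [TopologicalSpace M] [ConnectedSpace M] {ww : Fin 3 → Fin 3 → M → ℝ}
    (h : LT ww) (hc : ∀ i, Continuous (ww i i)) :
    ∃ D : Fin 3 → ℝ, (∀ k, D k ^ 2 = 1) ∧ ∀ k z, 0 < D k * ww k k z := by
  choose D hD1 hD using fun k => const_sign (hc k) fun z => h.diag k z
  exact ⟨D, hD1, hD⟩

variable {M : Type v} [MetricSpace M] [CompactSpace M] [ConnectedSpace M]
  [ChartedSpace (EuclideanSpace ℝ (Fin 4)) M] [IsManifold (𝓡 4) ∞ M]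
  [RiemannianBundle (fun p : M => TangentSpace (𝓡 4) p)]
  [IsContMDiffRiemannianBundle (𝓡 4) ∞ (EuclideanSpace ℝ (Fin 4))
    (fun p : M => TangentSpace (𝓡 4) p)]
  [IsRiemannianManifold (𝓡 4) M] [MeasurableSpace M] [BorelSpace M]
  [SecondCountableTopology M] [Nonempty M] [IsFiniteMeasureOnCompacts (μHE[4] : Measure M)]
  {κ1 κT : Type} [Fintype κ1] [Fintype κT] {N : ℕ}

section twf

variable {S : SWS M (Fin 4 × Fin N) κ1 κT} {p : M → Matrix (Fin N) (Fin N) ℂ}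
  {ww : Fin 3 → Fin 3 → M → ℝ} {D : Fin 3 → ℝ}

/-- **the isometry with connection form `λ_t`.** -/
theorem vi_t (hT : Tws S p) (hp : IsLine p) (hL : LT ww)
    (hs : ∀ i k, ContMDiff (𝓡 4) 𝓘(ℝ, ℝ) ∞ (ww i k))
    (hD1 : ∀ k, D k ^ 2 = 1) (hD : ∀ k z, 0 < D k * ww k k z) {t : E3} (ht : t ≠ 0)
    {τ : TD M κT} (hn : ∀ k z, τ.n k z = nt ww t k z) {s : Fin 4 → ℝ}
    (hs0 : VIso_470.PP rhoc (muT D t) *ᵥ s = s) (hs1 : s ⬝ᵥ s = 1) :
    VI p (PEf τ S) (Vu Jc p (us rhoc (muT D t) (nuT ww t) s)) ∧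
      lamV (Vu Jc p (us rhoc (muT D t) (nuT ww t) s)) = lamN (-1) (muT D t) (nuT ww t) := by
  have hsm : ∀ k, ContMDiff (𝓡 4) 𝓘(ℝ, ℝ) ∞ (nuT ww t k) := fun k => smooth_nuT hL hs ht k
  have hnn : ∀ z, ∑ k, nuT ww t k z ^ 2 = 1 := fun z => nuT_sq hL ht z
  have hpos : ∀ z, 0 < 1 + ∑ k, nuT ww t k z * muT D t k := fun z => nu_mu_pos hL hD1 hD ht z
  refine ⟨?_, lamV_us q4 iota hp hsm hnn hs0 hs1 hpos⟩
  have h1 : PEf τ S = fun z => Matrix.of (VIso_470.PE Jc (p z)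
      (VIso_470.PP rhoc (fun k => nuT ww t k z))) := by
    funext z
    rw [hT.pEf_eq hp τ z]
    have : (fun k => - τ.n k z) = fun k => nuT ww t k z := by
      funext k
      rw [hn]
      rfl
    rw [this]
  rw [h1]
  exact vi_Vu q4 hp hnn (fun a => smooth_us hsm hpos s a)
    (fun z => us_PP q4 (muT D t) hnn s z) (fun z => us_unit q4 hnn hs0 hs1 (hpos z))

end twf

/-! ### the flat family -/

section fam

variable (S : SWS M (Fin 4 × Fin N) κ1 κT) (T : ToF 4 M)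
    (c : κ1 → Fin 4 × Fin N → (z : M) → TangentSpace (𝓡 4) z)
    (W : Fin 4 × Fin N → Fin 4 × Fin N → (z : M) → TangentSpace (𝓡 4) z)
    (sT : κT → (z : M) → TangentSpace (𝓡 4) z) (w : Trip M) (e : Fin 3 → F2 E4 M)
    (ι : ℝ) (ww : Fin 3 → Fin 3 → M → ℝ) (D : Fin 3 → ℝ) (p : M → Matrix (Fin N) (Fin N) ℂ)
    (τ : E3 → TD M κT) (cE : E3 → Z2 M) (C : ℝ)

/-- the hypotheses on the model. -/
structure Mh : Prop where
  ok : S.OK
  sym : SWSym_451.Sym S fun x y z => T.toF z (c x y z)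
  tg : TG S T c W sT w e (-1) ι
  tws : Tws S p
  line : IsLine p
  lt : LT ww
  smw : ∀ i k, ContMDiff (𝓡 4) 𝓘(ℝ, ℝ) ∞ (ww i k)
  harm : ∀ i x z, S.H.A (Fin.cons (fun _ => 0) (ww i)) x z = 0
  D1 : ∀ k, D k ^ 2 = 1
  Dp : ∀ k z, 0 < D k * ww k k z
  n_eq : ∀ t k z, (τ t).n k z = nt ww t k z
  rr_eq : ∀ t z, (τ t).rr z = rrt ww t z
  jsh : ∀ A, JF fun t => (τ t).sh A
  tau : ∀ t : E3, ‖t‖ = 1 → (τ t).OK S C
  fE : ∀ t : E3, t ≠ 0 → ∀ k x, (τ t).fE k x =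
    2 * qG (w 0).1.1 (e k) (PhiF (cE t) (bF (τ t) S W sT e)) x
  ch : ∀ t : E3, t ≠ 0 → Ch0 (PEf (τ t) S) (cE t)
  ti : ∀ (z : M) (X : TangentSpace (𝓡 4) z), ∑ A, (inner ℝ (sT A z) X : ℝ) • sT A z = X
  pT : ∀ A B z, S.DT.p A B z = inner ℝ (sT A z) (sT B z)
  HB : ∃ (D1 : Bun 4 M κT) (cH : κT → Fin 4 → (z : M) → TangentSpace (𝓡 4) z),
    (∀ x y z, VSm 4 ∞ (cH x y) z) ∧ ∀ a : κT → M → ℝ, S.H.B a = opB D1 cH a

variable {S T c W sT w e ι ww D p τ cE C}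

/-- the family `th_t`. -/
def thT (τ : E3 → TD M κT) (S : SWS M (Fin 4 × Fin N) κ1 κT)
    (W : Fin 4 × Fin N → Fin 4 × Fin N → (z : M) → TangentSpace (𝓡 4) z)
    (sT : κT → (z : M) → TangentSpace (𝓡 4) z) (e : Fin 3 → F2 E4 M)
    (ww : Fin 3 → Fin 3 → M → ℝ) (D : Fin 3 → ℝ) (a0 : F1 E4 M) (t : E3) : κT → M → ℝ :=
  cmp sT (thF (τ t) S W sT e (lamN (-1) (muT D t) (nuT ww t)) a0)

theorem Mh.j1_lam (h : Mh S T c W sT w e ι ww D p τ cE C) :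
    J1 fun t => lamN (-1) (muT D t) (nuT ww t) := j1_lamN h.lt h.smw h.D1 h.Dp (-1)

theorem Mh.jn (h : Mh S T c W sT w e ι ww D p τ cE C) (k : Fin 3) : JF fun t => (τ t).n k := by
  have e1 : (fun t => (τ t).n k) = fun t => nt ww t k := by
    funext t z
    exact h.n_eq t k z
  rw [e1]
  exact SWJF_451.jf_nt h.lt h.smw k

theorem Mh.j1_b (h : Mh S T c W sT w e ι ww D p τ cE C) : J1 fun t => bF (τ t) S W sT e :=
  SWJF_451.j1_bF h.sym h.tg h.jsh h.jn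

theorem Mh.j1_th (h : Mh S T c W sT w e ι ww D p τ cE C) {a0 : F1 E4 M} (ha0 : Smooth1 a0) :
    J1 fun t => thF (τ t) S W sT e (lamN (-1) (muT D t) (nuT ww t)) a0 :=
  ((J1.of ha0).sub h.j1_lam).sub h.j1_b

theorem Mh.jf_th (h : Mh S T c W sT w e ι ww D p τ cE C) {a0 : F1 E4 M} (ha0 : Smooth1 a0)
    (A : κT) : JF fun t => thT τ S W sT e ww D a0 t A := JF.fld1 (h.j1_th ha0) (h.tg.smsT A)

theorem ne_of {t : E3} (ht : ‖t‖ = 1) : t ≠ 0 := by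
  rintro rfl
  rw [norm_zero] at ht
  exact zero_ne_one ht

/-- **the flat family.** -/
theorem Mh.ffam (h : Mh S T c W sT w e ι ww D p τ cE C) {a0 : F1 E4 M} (ha0 : Smooth1 a0)
    {cL : Z2 M} (hcL : Ch0 p cL) (hd : ∀ x, (2 * Real.pi) • val cL x = at2 (dG a0) x) :
    FFam S ww τ C (thT τ S W sT e ww D a0) where
  ok := h.ok
  smw := h.smw
  harm := h.harm
  ndeg t z ht := h.lt.ndeg t z ht
  rr t z ht := by rw [h.rr_eq]; rfl
  nn t k z ht := by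
    rw [h.rr_eq, h.n_eq, h.lt.mul_nt (ne_of ht)]
    rfl
  tau := h.tau
  smth t ht A := smooth_cmp h.tg ((h.j1_th ha0).sl (ne_of ht)) A
  secth t ht := sec_cmp h.ti h.pT _
  cth A := (h.jf_th ha0 A).contS
  cdth k := by
    obtain ⟨B1, cH, hcH, hB⟩ := h.HB
    have h1 : JF fun t z => opB B1 cH (thT τ S W sT e ww D a0 t) k z :=
      jf_opB T B1 hcH (fun A => h.jf_th ha0 A) k
    have h2 := h1.contS
    refine h2.congr fun q _ => ?_
    rw [hB]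
  flat t ht := by
    have ht0 := ne_of ht
    obtain ⟨s, hs0, hs1⟩ := exists_s0 q4 (muT_sq h.D1 ht0)
    obtain ⟨hV, hl⟩ := vi_t h.tws h.line h.lt h.smw h.D1 h.Dp ht0 (h.n_eq t) hs0 hs1
    exact flat_of h.ok h.tg h.ti h.pT (h.tau t ht).smn (h.tau t ht).norm (h.tau t ht).smsh
      (ln_of h.line) hV (h.j1_lam.sl ht0) ha0 hl hcL (h.ch t ht0) hd (h.fE t ht0)

end fam

end

end Crest.Agent.R235.MdlD_489
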