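import Crest.Agent.R235.MdlL_453
import Crest.Agent.R235.SwsL_755

/-!
Row 235, helper453: `Tws` for 755's system `SL T q s L` (any `L` with `r = Re p`, `s = Im p`,
e.g. `LTwLd_774.ldOf p hp`).
-/

set_option autoImplicit false
set_option maxSynthPendingDepth 3
set_option linter.unusedSectionVars false

open scoped ContDiff ENNReal NNReal Topology Manifold Bundle RealInnerProductSpace
open MeasureTheory Set Filter Metric Bundle Matrix

universe v

namespace Crest.Agent.R235.MdlL_453

open Crest.Agent.R240 Crest.Agent.R240.Ch Crest.Agent.R235.SWDefs_53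
open Crest.Agent.R235.Ind167 (QS)
open Crest.Agent.R249.Tz805 (ToF CPair)
open Crest.Agent.R249.Tz2_805 (PF)
open Crest.Agent.R235.LTw_453 (LD)

noncomputable section

variable {M : Type v} [MetricSpace M] [CompactSpace M] [ConnectedSpace M]
  [ChartedSpace (EuclideanSpace ℝ (Fin 4)) M] [IsManifold (𝓡 4) ∞ M]
  [RiemannianBundle (fun p : M => TangentSpace (𝓡 4) p)]
  [IsContMDiffRiemannianBundle (𝓡 4) ∞ (EuclideanSpace ℝ (Fin 4))
    (fun p : M => TangentSpace (𝓡 4) p)]
  [IsRiemannianManifold (𝓡 4) M] [MeasurableSpace M] [BorelSpace M]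
  [SecondCountableTopology M] [Nonempty M]
  {κ : Type} [Fintype κ] {N : ℕ}

/-- **755's system of the twist has the twisted format** -/
theorem tws_SL (T : ToF 4 M) (q : QS M) (s : PF 4 M κ) {p : M → Matrix (Fin N) (Fin N) ℂ}
    (hp : IsLine p) (L : LD 4 M N) (hr : ∀ k l z, L.r k l z = (p z k l).re)
    (hs : ∀ k l z, L.s k l z = (p z k l).im) :
    Tws (SwsL_755.SL T q s L) p :=
  tws_swsQ T q s hp L hr hs (Mdl3_399.Hp T q s)

/-- the same for `ldOf p hp`. -/
theorem tws_ldOf (T : ToF 4 M) (q : QS M) (s : PF 4 M κ) {p : M → Matrix (Fin N) (Fin N) ℂ}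
    (hp : IsLine p) : Tws (SwsL_755.SL T q s (LTwLd_774.ldOf p hp)) p :=
  tws_SL T q s hp _ (fun _ _ _ => rfl) (fun _ _ _ => rfl)

end

end Crest.Agent.R235.MdlL_453
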