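import Crest.Agent.R235.ModRE_692
import Crest.Agent.R235.MdlD_489
import Crest.Agent.R235.MdlL2_453

/-!
Row 235 (S0364), package SW (helper692): **MODF is a theorem**, from 489's `Mh.ffam`.

* `mh_g`  : 489's hypotheses `Mh` for the concrete system;
* `modf`  : `SWTop_53.MODF`.
-/

set_option autoImplicit false
set_option maxSynthPendingDepth 3
set_option linter.unusedSectionVars false
set_option maxHeartbeats 1000000

open scoped ContDiff ENNReal NNReal Topology Manifold Bundle RealInnerProductSpace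
open MeasureTheory Set Filter Metric Bundle Matrix

namespace Crest.Agent.R235.ModR_692

open Crest.Agent.R240 Crest.Agent.R240.Ch Crest.Agent.R240.Int Crest.Agent.R235.SWDefs_53
open Crest.Agent.R235.IndTri_451 Crest.Agent.R235.Tau483
open Crest.Agent.R235.SWData_451 Crest.Agent.R235.SWTn_451
open Crest.Agent.R249.Tz805 (ToF)
open Crest.Agent.R249.Tz2_805 (PF)
open Crest.Agent.R235.Ind167
open Crest.Agent.R235.SwsL_755 Crest.Agent.R235.TwfL_755
open Crest.Agent.R235.LTwLd_774 (ldOf)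
open Crest.Agent.R235.QSTri_451 (qs)
open Crest.Agent.R235.MdlD_489

noncomputable section

variable {M : Type} [MetricSpace M] [CompactSpace M] [ConnectedSpace M]
  [ChartedSpace (EuclideanSpace ℝ (Fin 4)) M] [IsManifold (𝓡 4) ∞ M]
  [RiemannianBundle (fun p : M => TangentSpace (𝓡 4) p)]
  [IsContMDiffRiemannianBundle (𝓡 4) ∞ (EuclideanSpace ℝ (Fin 4))
    (fun p : M => TangentSpace (𝓡 4) p)]
  [IsRiemannianManifold (𝓡 4) M] [MeasurableSpace M] [BorelSpace M]
  [SecondCountableTopology M] [Nonempty M] [IsFiniteMeasureOnCompacts (μHE[4] : Measure M)]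
  {w : Trip M} {e : Fin 3 → F2 E4 M} (he : IsTri (und w) e)
  (hin : ∀ (x : M) (u v : TangentSpace 𝓘(ℝ, E4) x), inner ℝ u v = at2 (gg e) x u v)
  {N : ℕ} {p : M → Matrix (Fin N) (Fin N) ℂ} {a : Z2 M} (hp : IsLine p) (hc : IsChern p a)
  {κ : Type} [Fintype κ] (T : ToF 4 M) (s : PF 4 M κ)

/-- the family of Taubes data of the concrete system. -/
abbrev tG (t : E3) : TD M κ :=
  tauF (SL T (qs he hin) s (ldOf p hp)) T (twL (qs he hin) s (ldOf p hp)).cc
    (twL (qs he hin) s (ldOf p hp)).D0.W s.s w e (-1) (wwf (und w) e)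
    (SWGen_53.cEg T s he hin (ldOf p hp)) t

include hc in
/-- **`TD.OK`**, uniformly. -/
theorem tau_g : ∃ C, ∀ t : E3, ‖t‖ = 1 →
    (tG he hin hp T s t).OK (SL T (qs he hin) s (ldOf p hp)) C := by
  have hS := okL T (qs he hin) s (ldOf p hp)
  exact FamR_692.tau_ok (hyp_g he hin hp hc T s) hS
    (fun i x z => harmL T s (ldOf p hp) he hin i x z)
    (fun t ht => cls_g he hin hp hc T s (Hyp.ne_of ht)) (t2_hyp hS (hyp_g he hin hp hc T s))

include hc in
/-- **489's hypotheses.** -/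
theorem mh_g {D : Fin 3 → ℝ} (hD1 : ∀ k, D k ^ 2 = 1)
    (hD : ∀ k z, 0 < D k * wwf (und w) e k k z) {C : ℝ}
    (hC : ∀ t : E3, ‖t‖ = 1 → (tG he hin hp T s t).OK (SL T (qs he hin) s (ldOf p hp)) C) :
    Mh (SL T (qs he hin) s (ldOf p hp)) T (twL (qs he hin) s (ldOf p hp)).cc
      (twL (qs he hin) s (ldOf p hp)).D0.W s.s w e (-1) (wwf (und w) e) D p
      (tG he hin hp T s) (SWGen_53.cEg T s he hin (ldOf p hp)) C where
  ok := okL T (qs he hin) s (ldOf p hp)
  sym := (hyp_g he hin hp hc T s).sym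
  tg := (hyp_g he hin hp hc T s).tg
  tws := MdlL_453.tws_ldOf T (qs he hin) s hp
  line := hp
  lt := (hyp_g he hin hp hc T s).lt
  smw := (hyp_g he hin hp hc T s).smw
  harm i x z := harmL T s (ldOf p hp) he hin i x z
  D1 := hD1
  Dp := hD
  n_eq _ _ _ := rfl
  rr_eq _ _ := rfl
  jsh A := (hyp_g he hin hp hc T s).jf_sh A
  tau := hC
  fE t ht k x := by
    have h4 := ((hyp_g he hin hp hc T s).tc ht).fE k x
    rw [h4]
    unfold qG
    rw [at2_PhiF]
    ring
  ch _ ht := (hyp_g he hin hp hc T s).ch _ ht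
  ti z X := s.pars z X
  pT A B z := Mdl3_399.Hp_pT T (qs he hin) s A B z
  HB := ⟨(pairH (qs he hin) s).D1, (pairH (qs he hin) s).cc,
    fun A y z => (pairH (qs he hin) s).smc A y z,
    fun b => Mdl3_399.Hp_B T (qs he hin) s b⟩

/-- **MODF**. -/
theorem modf : SWTop_53.MODF := by
  intro M _ _ _ _ _ _ _ _ _ _ _ _ _ w e hw he hin hK N p a hp hc ha
  obtain ⟨m, ⟨s⟩⟩ := R249.Tz2_805.exists_PF (n := 4) (M := M)
  let T : ToF 4 M := R249.Tof352.tof 4 M
  have hV := hw.vol 0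
  have haa : pI (w 0) a a = 0 := by rw [← ip_cls hV, ha, ip_zero_left hV]
  have hS := okL T (qs he hin) s (ldOf p hp)
  obtain ⟨C, hC⟩ := tau_g he hin hp hc T s
  obtain ⟨D, hD1, hD⟩ := exists_D (SWGen_53.lt_g he)
    (fun i => (SWGen_53.sm_g he i i).continuous)
  have H := mh_g he hin hp hc T s hD1 hD hC
  -- the form `a0` with `2 π a = d a0`
  have hex : IsEx (a.1.1 : F2 E4 M) := by
    have h1 : a ∈ B2 M := (Submodule.Quotient.mk_eq_zero _).1 ha
    exact h1
  obtain ⟨b, hb, hab⟩ := isEx_iff.1 hex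
  have hd : ∀ x, (2 * Real.pi) • val a x = at2 (dG ((2 * Real.pi) • b)) x := by
    intro x
    rw [dG_smul _ hb, ← hab]
    rfl
  have hF := H.ffam (hb.smul (2 * Real.pi)) (ch0_of hc) hd
  obtain ⟨d0, d1, K0, K1, hlt, K4⟩ := nums_flat hw he hin T s hp hc hK haa
  refine ⟨_, _, _, inferInstance, inferInstance, inferInstance, _, _, _, _, C, _, d0, d1, hF,
    H.sym, K0, K1, hlt, K4, ?_⟩
  intro t u ht hu
  have ht0 : t ≠ 0 := Hyp.ne_of ht
  obtain ⟨s0, hs0, hs1⟩ := exists_s0 MdlL_453.q4 (muT_sq hD1 ht0)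
  obtain ⟨hVI, -⟩ := vi_t H.tws hp H.lt H.smw hD1 hD ht0 (H.n_eq t) hs0 hs1
  obtain ⟨l1, l2, l3, -⟩ := MdlL_453.Tws.link hS H.tws hp hVI (hC t ht).norm hu.sm hu.sec
    (fun z => by rw [hu.nrm z]; norm_num)
  exact ⟨_, l1, fun x => ⟨l2 x, l3 x⟩⟩

end

end Crest.Agent.R235.ModR_692
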