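import Crest.Agent.R235.ModB_344
import Crest.Agent.R235.ModF_692
import Crest.Agent.R235.MdlH_453
import Crest.Agent.R235.MdlE_755

/-!
Row 235 (S0364), PACKAGE SW, MODEL output MODB (helper755): **HOPFM** of `ModB_344` from 489's flat
family, the parallel sections of `MdlE_755` and 453's `hopf_of`.

* `AI`     : the linear isometry with `piD D s = AI (hopf s)`;
* `hopfm`  : `ModB_344.HOPFM`;
* `modb`   : `SWTop_53.MODB`.
-/

set_option autoImplicit false
set_option maxSynthPendingDepth 3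
set_option linter.unusedSectionVars false
set_option maxHeartbeats 1000000

open scoped ContDiff ENNReal NNReal Topology Manifold Bundle RealInnerProductSpace
open MeasureTheory Set Filter Metric Bundle Matrix

namespace Crest.Agent.R235.HopfM_755

open Crest.Agent.R240 Crest.Agent.R240.Ch Crest.Agent.R235.SWDefs_53
open Crest.Agent.R235.Tau483 Crest.Agent.R235.ModB_344 Crest.Agent.R235.ModR_692
open Crest.Agent.R235.MdlD_489 Crest.Agent.R235.MdlH_453
open Crest.Agent.R235.Hopf_143 (hopf)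

noncomputable section

/-! ### the isometry -/

/-- `(D₀ t₀, D₁ t₂, D₂ t₁)`. -/
def AL (D : Fin 3 → ℝ) : E3 →ₗ[ℝ] E3 where
  toFun t := WithLp.toLp 2 ![D 0 * t 0, D 1 * t 2, D 2 * t 1]
  map_add' x y := by
    ext k
    fin_cases k <;> simp [mul_add]
  map_smul' r x := by
    ext k
    fin_cases k <;> simp <;> ring

theorem norm_AL {D : Fin 3 → ℝ} (hD : ∀ k, D k ^ 2 = 1) (t : E3) : ‖AL D t‖ = ‖t‖ := by
  have h1 : ‖AL D t‖ ^ 2 = ‖t‖ ^ 2 := by
    rw [EuclideanSpace.norm_sq_eq, EuclideanSpace.norm_sq_eq, Fin.sum_univ_three,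
      Fin.sum_univ_three]
    simp only [Real.norm_eq_abs, sq_abs]
    have e0 : AL D t 0 = D 0 * t 0 := rfl
    have e1 : AL D t 1 = D 1 * t 2 := rfl
    have e2 : AL D t 2 = D 2 * t 1 := rfl
    rw [e0, e1, e2, mul_pow, mul_pow, mul_pow, hD, hD, hD]
    ring
  exact (pow_left_inj₀ (norm_nonneg _) (norm_nonneg _) two_ne_zero).1 h1

/-- the isometry. -/
def AI {D : Fin 3 → ℝ} (hD : ∀ k, D k ^ 2 = 1) : E3 ≃ₗᵢ[ℝ] E3 :=
  LinearIsometry.toLinearIsometryEquiv ⟨AL D, norm_AL hD⟩ rfl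

theorem piD_hopf {D : Fin 3 → ℝ} (hD : ∀ k, D k ^ 2 = 1) (s : EuclideanSpace ℂ (Fin 2)) :
    piD D s = AI hD (hopf s) := by
  have h0 : AI hD (hopf s) = AL D (hopf s) := rfl
  rw [h0]
  ext k
  fin_cases k
  · have e1 : AL D (hopf s) 0 = D 0 * hopf s 0 := rfl
    show piD D s 0 = AL D (hopf s) 0
    rw [e1, piD_apply, hv0, Hopf_143.hopf_0, Complex.sq_norm, Complex.sq_norm,
      Complex.normSq_apply, Complex.normSq_apply]
    simp [jj]
    ring
  · have e1 : AL D (hopf s) 1 = D 1 * hopf s 2 := rfl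
    show piD D s 1 = AL D (hopf s) 1
    rw [e1, piD_apply, hv1, Hopf_143.hopf_2]
    simp [jj]
    ring
  · have e1 : AL D (hopf s) 2 = D 2 * hopf s 1 := rfl
    show piD D s 2 = AL D (hopf s) 2
    rw [e1, piD_apply, hv2, Hopf_143.hopf_1]
    simp [jj]

/-! ### HOPFM -/

theorem hopfm : HOPFM := by
  intro M _ _ _ _ _ _ _ _ _ _ _ _ _ w e he hin hp κ _ T s
  obtain ⟨C, hC⟩ := tau_g he hin hp isChern1 T s
  obtain ⟨D, hD1, hD⟩ := exists_D (SWGen_53.lt_g he)
    (fun i => (SWGen_53.sm_g he i i).continuous)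
  have H := mh_g he hin hp isChern1 T s hD1 hD hC
  have hF := H.ffam (a0 := 0) smooth1_zero (ch0_of isChern1) (by
    intro x
    have e1 : val (0 : Z2 M) x = 0 := rfl
    have e2 : at2 (dG (0 : F1 E4 M)) x = 0 := by
      have h := dG_smul (0 : ℝ) (smooth1_zero : Smooth1 (0 : F1 E4 M))
      rw [zero_smul, zero_smul] at h
      rw [h]
      rfl
    rw [e1, e2, smul_zero])
  exact ⟨_, _, C, _, _, _, hopf_of H.tws hp H.lt H.smw hD1 hD hF
    (fun t ht v h0 h1 => MdlE_755.psec_mh H (ne_of_one ht) h0 h1), AI hD1,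
    fun s _ => piD_hopf hD1 s⟩

/-- **MODB**. -/
theorem modb : SWTop_53.MODB := modb_of hopfm

end

end Crest.Agent.R235.HopfM_755
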