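import Crest.Agent.R249.C2j_198

/-!
Row 235, package IND (helper167), part 1: RING LEVEL algebra of the quaternionic Clifford pairs.

`θ k : Fin 3 → S` are the components of an `so(3)`-connection.  Over 129's frame ring `F`
(dimension four):

* `bA0 F θ k = (1/2) ∑ (eta_b K_b + θ_b J_b)`  (bundle `ℝ⁴`);
* `bA1 F θ k = tan + (1/2) ∑ (θ_b - eta_b) K_b = (1/2) ∑ (pp_b J_b + θ_b K_b)` (tangent bundle);
* `par_b : Par F (bA0 F θ) (bA1 F θ) (cK S)` for EVERY `θ`.

`θ = eta` : 198's pair (`e0`, `tan`) (`ℝ ⊕ Λ⁻ → T`, HODGE);  `θ = 0` : quaternionic pair;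
`θ = s eta` : interpolation;  `θ = 2 α e_0` : twist by a line bundle with connection `α`.

* `curv_b0`, `curv_b1` : curvatures;  `GG F θ` = curvature components of `θ`.

The densities are in `IndDen_167`.
-/

set_option autoImplicit false
set_option linter.unusedSectionVars false
set_option linter.unusedSimpArgs false
set_option maxHeartbeats 1000000

noncomputable section

namespace Crest.Agent.R235.IndAlg_167

open Finset
open Matrix hiding J
open Crest.Agent.R249.Fr129 Crest.Agent.R249.C2_198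

section const

variable {S : Type*} [CommRing S]

/-- `∑ p_b J_b` -/
def JJ (p : Fin 3 → S) : Matrix (Fin 4) (Fin 4) S :=
  !![0, -p 0, -p 1, -p 2; p 0, 0, -p 2, p 1; p 1, p 2, 0, -p 0; p 2, -p 1, p 0, 0]

/-- `∑ p_b K_b` -/
def Kp (p : Fin 3 → S) : Matrix (Fin 4) (Fin 4) S :=
  !![0, p 0, p 1, p 2; -p 0, 0, -p 2, p 1; -p 1, p 2, 0, -p 0; -p 2, -p 1, p 0, 0]

lemma JJ_eq (p : Fin 3 → S) : JJ p = ∑ b, p b • J S b := by
  ext i j
  rw [Matrix.sum_apply, Fin.sum_univ_three]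
  fin_cases i <;> fin_cases j <;> simp [JJ, J]

lemma Kp_eq (p : Fin 3 → S) : Kp p = ∑ b, p b • K S b := by
  ext i j
  rw [Matrix.sum_apply, Fin.sum_univ_three]
  fin_cases i <;> fin_cases j <;> simp [Kp, K]

/-- cross product -/
def cp (p q : Fin 3 → S) : Fin 3 → S :=
  ![p 1 * q 2 - p 2 * q 1, p 2 * q 0 - p 0 * q 2, p 0 * q 1 - p 1 * q 0]

lemma JJ_mul (p q : Fin 3 → S) :
    JJ p * JJ q = JJ (cp p q) - (∑ b, p b * q b) • (1 : Matrix (Fin 4) (Fin 4) S) := by
  ext i j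
  rw [Matrix.mul_apply, Fin.sum_univ_four, Fin.sum_univ_three]
  fin_cases i <;> fin_cases j <;> simp [JJ, cp, Matrix.one_apply] <;> ring

lemma Kp_mul (p q : Fin 3 → S) :
    Kp p * Kp q = Kp (cp p q) - (∑ b, p b * q b) • (1 : Matrix (Fin 4) (Fin 4) S) := by
  ext i j
  rw [Matrix.mul_apply, Fin.sum_univ_four, Fin.sum_univ_three]
  fin_cases i <;> fin_cases j <;> simp [Kp, cp, Matrix.one_apply] <;> ring

lemma JK_comm (p q : Fin 3 → S) : JJ p * Kp q = Kp q * JJ p := by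
  ext i j
  rw [Matrix.mul_apply, Matrix.mul_apply, Fin.sum_univ_four, Fin.sum_univ_four]
  fin_cases i <;> fin_cases j <;> simp [Kp, JJ] <;> ring

lemma JJ_t (p : Fin 3 → S) : (JJ p)ᵀ = - JJ p := by
  ext i j
  fin_cases i <;> fin_cases j <;> simp [JJ]

lemma Kp_t (p : Fin 3 → S) : (Kp p)ᵀ = - Kp p := by
  ext i j
  fin_cases i <;> fin_cases j <;> simp [Kp]

/-- the symbol intertwines `J_b` and `K_b` -/
lemma Kp_cK (p : Fin 3 → S) (i : Fin 4) : Kp p * cK S i = cK S i * JJ p := by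
  fin_cases i <;>
    simp only [cK_zero, cK_one, cK_two, cK_three, Fin.zero_eta, Fin.mk_one, Fin.reduceFinMk] <;>
    ext x y <;> fin_cases x <;> fin_cases y <;>
    simp [Matrix.mul_apply, Fin.sum_univ_four, Kp, JJ]

lemma cKt_Kp (p : Fin 3 → S) (i : Fin 4) : (cK S i)ᵀ * Kp p = JJ p * (cK S i)ᵀ := by
  have h := congrArg Matrix.transpose (Kp_cK p i)
  rw [Matrix.transpose_mul, Matrix.transpose_mul, Kp_t, JJ_t, Matrix.mul_neg, Matrix.neg_mul] at h
  exact neg_injective h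

/-- `c_iᵀ c_j = δ_ij + ∑ (K_b)_ij K_b` -/
lemma ctc (i j : Fin 4) :
    (cK S i)ᵀ * cK S j = (if i = j then (1 : Matrix (Fin 4) (Fin 4) S) else 0)
      + Kp (fun b => K S b i j) := by
  fin_cases i <;> fin_cases j <;>
    simp only [cK_zero, cK_one, cK_two, cK_three, Fin.zero_eta, Fin.mk_one, Fin.reduceFinMk] <;>
    ext x y <;> fin_cases x <;> fin_cases y <;>
    simp [Matrix.mul_apply, Fin.sum_univ_four, Kp, K, Matrix.one_apply]

/-- `c_i c_jᵀ = δ_ij + ∑ (J_b)_ij J_b` -/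
lemma cct (i j : Fin 4) :
    cK S i * (cK S j)ᵀ = (if i = j then (1 : Matrix (Fin 4) (Fin 4) S) else 0)
      + JJ (fun b => J S b i j) := by
  fin_cases i <;> fin_cases j <;>
    simp only [cK_zero, cK_one, cK_two, cK_three, Fin.zero_eta, Fin.mk_one, Fin.reduceFinMk] <;>
    ext x y <;> fin_cases x <;> fin_cases y <;>
    simp [Matrix.mul_apply, Fin.sum_univ_four, JJ, J, Matrix.one_apply]

end const

variable {S : Type*} [CommRing S] [Algebra ℝ S] (F : Frame 4 S)

lemma half_two : (Frame.half (S := S)) * 2 = 1 := by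
  rw [mul_comm]; exact Frame.two_half

lemma D_half (k : Fin 4) : F.D k (Frame.half (S := S)) = 0 := by
  rw [Frame.half, Derivation.map_algebraMap]

/-- connection of the bundle `ℝ⁴` -/
def bA0 (θ : Fin 4 → Fin 3 → S) (k : Fin 4) : Matrix (Fin 4) (Fin 4) S :=
  e0 F k + (Frame.half (S := S)) • JJ (fun b => θ k b - eta F k b)

/-- connection of the bundle `T` -/
def bA1 (θ : Fin 4 → Fin 3 → S) (k : Fin 4) : Matrix (Fin 4) (Fin 4) S :=
  F.tan k + (Frame.half (S := S)) • Kp (fun b => θ k b - eta F k b)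

lemma e0_half (k : Fin 4) :
    e0 F k = (Frame.half (S := S)) • (Kp (eta F k) + JJ (eta F k)) := by
  have h := half_two (S := S)
  have h2 : ∀ x : S, Frame.half (S := S) * (x + x) = x := fun x => by
    linear_combination x * h
  have h3 : ∀ x : S, Frame.half (S := S) * (-x + -x) = -x := fun x => by
    linear_combination (-x) * h
  ext i j
  fin_cases i <;> fin_cases j <;> simp [e0, Kp, JJ, h2, h3]

lemma tan_half (k : Fin 4) :
    F.tan k = (Frame.half (S := S)) • (JJ (F.pp k) + Kp (eta F k)) := by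
  have h := half_two (S := S)
  ext i j
  fin_cases i <;> fin_cases j <;>
    simp [Frame.tan, Kp, JJ, Frame.pp, eta, Frame.w_self, Frame.w10, Frame.w20, Frame.w30,
      Frame.w21, Frame.w31, Frame.w32]
  · linear_combination (F.w k 0 1) * h
  · linear_combination (F.w k 0 2) * h
  · linear_combination (F.w k 0 3) * h
  · linear_combination (-F.w k 0 1) * h
  · linear_combination (F.w k 1 2) * h
  · linear_combination (F.w k 1 3) * h
  · linear_combination (-F.w k 0 2) * h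
  · linear_combination (-F.w k 1 2) * h
  · linear_combination (F.w k 2 3) * h
  · linear_combination (-F.w k 0 3) * h
  · linear_combination (-F.w k 1 3) * h
  · linear_combination (-F.w k 2 3) * h

lemma JJ_lin (c : S) (p q : Fin 3 → S) : JJ (fun b => p b + c * q b) = JJ p + c • JJ q := by
  ext i j
  fin_cases i <;> fin_cases j <;> simp [JJ] <;> ring

lemma Kp_lin (c : S) (p q : Fin 3 → S) : Kp (fun b => p b + c * q b) = Kp p + c • Kp q := by
  ext i j
  fin_cases i <;> fin_cases j <;> simp [Kp] <;> ring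

lemma JJ_sub (p q : Fin 3 → S) : JJ (fun b => p b - q b) = JJ p - JJ q := by
  have := JJ_lin (-1) p q
  simpa [sub_eq_add_neg] using this

lemma Kp_sub (p q : Fin 3 → S) : Kp (fun b => p b - q b) = Kp p - Kp q := by
  have := Kp_lin (-1) p q
  simpa [sub_eq_add_neg] using this

lemma bA0_eq (θ : Fin 4 → Fin 3 → S) (k : Fin 4) :
    bA0 F θ k = (Frame.half (S := S)) • (Kp (eta F k) + JJ (θ k)) := by
  rw [bA0, e0_half, JJ_sub, ← smul_add]
  congr 1
  abel

lemma bA1_eq (θ : Fin 4 → Fin 3 → S) (k : Fin 4) :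
    bA1 F θ k = (Frame.half (S := S)) • (JJ (F.pp k) + Kp (θ k)) := by
  rw [bA1, tan_half, Kp_sub, ← smul_add]
  congr 1
  abel

lemma bA0_eta : bA0 F (eta F) = e0 F := by
  funext k
  rw [bA0]
  have : (fun b => eta F k b - eta F k b) = (0 : Fin 3 → S) := by funext b; simp
  rw [this]
  have h : JJ (0 : Fin 3 → S) = 0 := by
    ext i j; fin_cases i <;> fin_cases j <;> simp [JJ]
  rw [h, smul_zero, add_zero]

lemma bA1_eta : bA1 F (eta F) = F.tan := by
  funext k
  rw [bA1]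
  have : (fun b => eta F k b - eta F k b) = (0 : Fin 3 → S) := by funext b; simp
  rw [this]
  have h : Kp (0 : Fin 3 → S) = 0 := by
    ext i j; fin_cases i <;> fin_cases j <;> simp [Kp]
  rw [h, smul_zero, add_zero]

/-- the symbol is parallel for all `θ` -/
theorem par_b (θ : Fin 4 → Fin 3 → S) : Par F (bA0 F θ) (bA1 F θ) (cK S) where
  const := (par_cK F).const
  par := by
    intro m i
    rw [bA0, bA1, Matrix.add_mul, Matrix.mul_add, Matrix.smul_mul, Matrix.mul_smul, Kp_cK,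
      (par_cK F).par m i]
    abel

lemma skew_b0 (θ : Fin 4 → Fin 3 → S) : Frame.Skew (bA0 F θ) := by
  intro k i j
  rw [bA0_eq]
  fin_cases i <;> fin_cases j <;> simp [Kp, JJ] <;> ring

lemma skew_b1 (θ : Fin 4 → Fin 3 → S) : Frame.Skew (bA1 F θ) := by
  intro k i j
  rw [bA1_eq]
  fin_cases i <;> fin_cases j <;> simp [Kp, JJ] <;> ring

/-- curvature components of the `so(3)`-connection `θ` -/
def GG (θ : Fin 4 → Fin 3 → S) (k l : Fin 4) (c : Fin 3) : S :=
  F.D k (θ l c) - F.D l (θ k c) + cp (θ k) (θ l) c - ∑ m, F.T k l m * θ m c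

lemma curv_cr (θ : Fin 4 → Fin 3 → S) (k l : Fin 4) :
    F.curv (fun k => cr (θ k)) k l = cr (GG F θ k l) := by
  ext i j
  fin_cases i <;> fin_cases j <;>
    simp [Frame.curv, cr, GG, cp, Fin.sum_univ_four, Fin.sum_univ_three, map_neg] <;> ring

lemma GG_eta (k l : Fin 4) : GG F (eta F) k l = EE F k l := by
  have h := curv_cr F (eta F) k l
  have h2 : F.curv (fun k => cr (eta F k)) k l = cr (EE F k l) := curv_asc F k l
  exact cr_inj (h.symm.trans h2)

lemma GG_pp (k l : Fin 4) : GG F F.pp k l = F.PP k l := by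
  have h := curv_cr F F.pp k l
  have h2 : F.curv (fun k => cr (F.pp k)) k l = cr (F.PP k l) := F.curv_sdc k l
  exact cr_inj (h.symm.trans h2)

/-- entrywise derivative -/
def dm (k : Fin 4) (A : Matrix (Fin 4) (Fin 4) S) : Matrix (Fin 4) (Fin 4) S :=
  Matrix.of fun i j => F.D k (A i j)

lemma curv_mat (a : Fin 4 → Matrix (Fin 4) (Fin 4) S) (k l : Fin 4) :
    F.curv a k l = dm F k (a l) - dm F l (a k) + (a k * a l - a l * a k)
      - ∑ m, F.T k l m • a m := by
  ext i j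
  rw [Matrix.sub_apply, Matrix.add_apply, Matrix.sub_apply, Matrix.sub_apply, Matrix.mul_apply,
    Matrix.mul_apply, ← Finset.sum_sub_distrib, Matrix.sum_apply]
  rfl

lemma dm_half (k : Fin 4) (A : Matrix (Fin 4) (Fin 4) S) :
    dm F k ((Frame.half (S := S)) • A) = (Frame.half (S := S)) • dm F k A := by
  ext i j
  change F.D k (Frame.half (S := S) * A i j) = Frame.half (S := S) * F.D k (A i j)
  rw [F.D_mul, D_half]; ring

lemma dm_add (k : Fin 4) (A B : Matrix (Fin 4) (Fin 4) S) :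
    dm F k (A + B) = dm F k A + dm F k B := by
  ext i j
  exact map_add (F.D k) _ _

lemma dm_JJ (k : Fin 4) (p : Fin 3 → S) : dm F k (JJ p) = JJ (fun b => F.D k (p b)) := by
  ext i j
  fin_cases i <;> fin_cases j <;> simp [JJ, dm]

lemma dm_Kp (k : Fin 4) (p : Fin 3 → S) : dm F k (Kp p) = Kp (fun b => F.D k (p b)) := by
  ext i j
  fin_cases i <;> fin_cases j <;> simp [Kp, dm]

lemma br_JJ (p q : Fin 3 → S) : JJ p * JJ q - JJ q * JJ p = (2 : S) • JJ (cp p q) := by
  rw [JJ_mul, JJ_mul]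
  have h : ∑ b, q b * p b = ∑ b, p b * q b := Finset.sum_congr rfl fun b _ => mul_comm _ _
  rw [h]
  ext i j
  fin_cases i <;> fin_cases j <;> simp [JJ, cp, Matrix.one_apply] <;> ring

lemma br_Kp (p q : Fin 3 → S) : Kp p * Kp q - Kp q * Kp p = (2 : S) • Kp (cp p q) := by
  rw [Kp_mul, Kp_mul]
  have h : ∑ b, q b * p b = ∑ b, p b * q b := Finset.sum_congr rfl fun b _ => mul_comm _ _
  rw [h]
  ext i j
  fin_cases i <;> fin_cases j <;> simp [Kp, cp, Matrix.one_apply] <;> ring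

lemma JJ_comb (a b c : Fin 3 → S) (T : Fin 4 → S) (θ : Fin 4 → Fin 3 → S) :
    JJ (fun x => a x - b x + c x - ∑ m, T m * θ m x)
      = JJ a - JJ b + JJ c - ∑ m, T m • JJ (θ m) := by
  ext i j
  rw [Matrix.sub_apply, Matrix.sum_apply, Fin.sum_univ_four]
  fin_cases i <;> fin_cases j <;> simp [JJ, Fin.sum_univ_four] <;> ring

lemma Kp_comb (a b c : Fin 3 → S) (T : Fin 4 → S) (θ : Fin 4 → Fin 3 → S) :
    Kp (fun x => a x - b x + c x - ∑ m, T m * θ m x)
      = Kp a - Kp b + Kp c - ∑ m, T m • Kp (θ m) := by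
  ext i j
  rw [Matrix.sub_apply, Matrix.sum_apply, Fin.sum_univ_four]
  fin_cases i <;> fin_cases j <;> simp [Kp, Fin.sum_univ_four] <;> ring

/-- curvature of two commuting `so(3)`-connections -/
lemma curv_JK (ξ ζ : Fin 4 → Fin 3 → S) (k l : Fin 4) :
    F.curv (fun k => (Frame.half (S := S)) • (JJ (ξ k) + Kp (ζ k))) k l
      = (Frame.half (S := S)) • (JJ (GG F ξ k l) + Kp (GG F ζ k l)) := by
  have hh := half_two (S := S)
  rw [curv_mat, dm_half, dm_half, dm_add, dm_add, dm_JJ, dm_JJ, dm_Kp, dm_Kp]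
  have e1 : JJ (GG F ξ k l) = JJ (fun b => F.D k (ξ l b)) - JJ (fun b => F.D l (ξ k b))
      + JJ (cp (ξ k) (ξ l)) - ∑ m, F.T k l m • JJ (ξ m) :=
    JJ_comb _ _ _ (fun m => F.T k l m) ξ
  have e2 : Kp (GG F ζ k l) = Kp (fun b => F.D k (ζ l b)) - Kp (fun b => F.D l (ζ k b))
      + Kp (cp (ζ k) (ζ l)) - ∑ m, F.T k l m • Kp (ζ m) :=
    Kp_comb _ _ _ (fun m => F.T k l m) ζ
  rw [e1, e2]
  have e3 : (JJ (ξ k) + Kp (ζ k)) * (JJ (ξ l) + Kp (ζ l)) - (JJ (ξ l) + Kp (ζ l))
      * (JJ (ξ k) + Kp (ζ k)) = (2 : S) • (JJ (cp (ξ k) (ξ l)) + Kp (cp (ζ k) (ζ l))) := by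
    rw [smul_add, ← br_JJ, ← br_Kp]
    simp only [Matrix.add_mul, Matrix.mul_add]
    rw [JK_comm (ξ k) (ζ l), JK_comm (ξ l) (ζ k)]
    abel
  have e4 : ((Frame.half (S := S)) • (JJ (ξ k) + Kp (ζ k))) * ((Frame.half (S := S)) •
      (JJ (ξ l) + Kp (ζ l))) - ((Frame.half (S := S)) • (JJ (ξ l) + Kp (ζ l)))
      * ((Frame.half (S := S)) • (JJ (ξ k) + Kp (ζ k)))
      = (Frame.half (S := S)) • (JJ (cp (ξ k) (ξ l)) + Kp (cp (ζ k) (ζ l))) := by
    rw [Matrix.smul_mul, Matrix.mul_smul, Matrix.smul_mul, Matrix.mul_smul, smul_smul, smul_smul,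
      ← smul_sub, e3, smul_smul, mul_assoc, hh, mul_one]
  rw [e4]
  have e5 : ∑ m, F.T k l m • (Frame.half (S := S)) • (JJ (ξ m) + Kp (ζ m))
      = (Frame.half (S := S)) • (∑ m, F.T k l m • JJ (ξ m) + ∑ m, F.T k l m • Kp (ζ m)) := by
    rw [← Finset.sum_add_distrib, Finset.smul_sum]
    refine Finset.sum_congr rfl fun m _ => ?_
    rw [← smul_add, smul_comm]
  rw [e5, ← smul_sub, ← smul_add, ← smul_sub]
  congr 1
  abel

lemma curv_b0 (θ : Fin 4 → Fin 3 → S) (k l : Fin 4) :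
    F.curv (bA0 F θ) k l = (Frame.half (S := S)) • (JJ (GG F θ k l) + Kp (EE F k l)) := by
  have e : bA0 F θ = fun k => (Frame.half (S := S)) • (JJ (θ k) + Kp (eta F k)) := by
    funext k; rw [bA0_eq, add_comm]
  rw [e, curv_JK, GG_eta]

lemma curv_b1 (θ : Fin 4 → Fin 3 → S) (k l : Fin 4) :
    F.curv (bA1 F θ) k l = (Frame.half (S := S)) • (JJ (F.PP k l) + Kp (GG F θ k l)) := by
  have e : bA1 F θ = fun k => (Frame.half (S := S)) • (JJ (F.pp k) + Kp (θ k)) := by
    funext k; rw [bA1_eq]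
  rw [e, curv_JK, GG_pp]

end Crest.Agent.R235.IndAlg_167
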