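import Crest.Agent.R235.IndAlg_167

/-!
Row 235, package IND (helper167), part 2: RING LEVEL densities of the quaternionic Clifford pairs
of `IndAlg_167`.  For every `so(3)`-connection `θ`:

* `trQ` : the traces of the two potentials agree;
* `trQQ` : `tr Q0² - tr Q1² = -4 ∑_c pf (GG_c)`;
* `tO_b` : `tO a0 - tO a1 = TT F` (independent of `θ`), `TT F = ∑_ij ∑_c (PP² - EE²)`;
* `TT_eq` : `TT F = 4 ∑_c (pf EE_c + pf PP_c)`;
* `GG_line` : `θ = (α,0,0)`.
-/

set_option autoImplicit false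
set_option linter.unusedSectionVars false
set_option linter.unusedSimpArgs false
set_option maxHeartbeats 1000000

noncomputable section

namespace Crest.Agent.R235.IndDen_167

open Finset
open Matrix hiding J
open Crest.Agent.R249.Fr129
open Crest.Agent.R249.C2_198 hiding cp half_two
open Crest.Agent.R235.IndAlg_167

section const

variable {S : Type*} [CommRing S]

/-! ### the potentials -/

/-- `∑ n_bc K_b J_c` -/
def NM (n : Fin 3 → Fin 3 → S) : Matrix (Fin 4) (Fin 4) S :=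
  ∑ b, ∑ c, n b c • (K S b * J S c)

lemma Kp_JJ (p q : Fin 3 → S) : Kp p * JJ q = NM (fun b c => p b * q c) := by
  rw [Kp_eq, JJ_eq, NM, Finset.sum_mul]
  refine Finset.sum_congr rfl fun b _ => ?_
  rw [Finset.mul_sum]
  refine Finset.sum_congr rfl fun c _ => ?_
  rw [Matrix.smul_mul, Matrix.mul_smul, smul_smul]

lemma NM_sum {ι : Type*} (t : Finset ι) (n : ι → Fin 3 → Fin 3 → S) :
    ∑ i ∈ t, NM (n i) = NM (fun b c => ∑ i ∈ t, n i b c) := by
  simp only [NM, Finset.sum_smul]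
  rw [Finset.sum_comm]
  refine Finset.sum_congr rfl fun b _ => ?_
  rw [Finset.sum_comm]

lemma NM_mat (n : Fin 3 → Fin 3 → S) : NM n =
    !![n 0 0 + n 1 1 + n 2 2, n 1 2 - n 2 1, n 2 0 - n 0 2, n 0 1 - n 1 0;
      n 1 2 - n 2 1, n 0 0 - n 1 1 - n 2 2, n 0 1 + n 1 0, n 0 2 + n 2 0;
      n 2 0 - n 0 2, n 0 1 + n 1 0, n 1 1 - n 0 0 - n 2 2, n 1 2 + n 2 1;
      n 0 1 - n 1 0, n 0 2 + n 2 0, n 1 2 + n 2 1, n 2 2 - n 0 0 - n 1 1] := by
  ext i j
  simp only [NM, Fin.sum_univ_three, Matrix.add_apply, Matrix.smul_apply, Matrix.mul_apply,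
    Fin.sum_univ_four]
  fin_cases i <;> fin_cases j <;> simp [K, J] <;> ring

lemma NM_tr (n : Fin 3 → Fin 3 → S) : (NM n).trace = 0 := by
  rw [NM_mat, Matrix.trace, Fin.sum_univ_four]
  simp; ring

lemma NM_sq (n : Fin 3 → Fin 3 → S) : (NM n * NM n).trace = 4 * ∑ b, ∑ c, n b c ^ 2 := by
  rw [NM_mat, Matrix.trace]
  simp only [Fin.sum_univ_four, Fin.sum_univ_three, Matrix.diag_apply, Matrix.mul_apply]
  simp; ring


end const

variable {S : Type*} [CommRing S] [Algebra ℝ S] (F : Frame 4 S)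

lemma GG_self (θ : Fin 4 → Fin 3 → S) (k : Fin 4) (c : Fin 3) : GG F θ k k c = 0 := by
  have h : ∑ m, F.T k k m * θ m c = 0 :=
    Finset.sum_eq_zero fun m _ => by rw [Frame.T, sub_self, zero_mul]
  rw [GG, h]
  fin_cases c <;> simp [cp] <;> ring

lemma GG_anti (θ : Fin 4 → Fin 3 → S) (k l : Fin 4) (c : Fin 3) :
    GG F θ k l c = - GG F θ l k c := by
  have h : ∑ m, F.T k l m * θ m c = - ∑ m, F.T l k m * θ m c := by
    rw [← Finset.sum_neg_distrib]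
    exact Finset.sum_congr rfl fun m _ => by rw [F.T_anti k l m]; ring
  rw [GG, GG, h]
  fin_cases c <;> simp [cp] <;> ring

/-- `∑_ij (K_b)_ij X_ij` -/
def mK (X : Fin 4 → Fin 4 → S) (b : Fin 3) : S := ∑ i, ∑ j, K S b i j * X i j

/-- `∑_ij (J_b)_ij X_ij` -/
def mJ (X : Fin 4 → Fin 4 → S) (b : Fin 3) : S := ∑ i, ∑ j, J S b i j * X i j

lemma mK_eq (X : Fin 4 → Fin 4 → S) (hX : ∀ i j, X i j = - X j i) (b : Fin 3) :
    mK X b = 2 * ![X 0 1 - X 2 3, X 0 2 + X 1 3, X 0 3 - X 1 2] b := by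
  fin_cases b <;> simp [mK, K, Fin.sum_univ_four]
  · linear_combination (-1 : S) * hX 1 0 + hX 3 2
  · linear_combination (-1 : S) * hX 2 0 - hX 3 1
  · linear_combination (-1 : S) * hX 3 0 + hX 2 1

lemma mJ_eq (X : Fin 4 → Fin 4 → S) (hX : ∀ i j, X i j = - X j i) (b : Fin 3) :
    mJ X b = -2 * ![X 0 1 + X 2 3, X 0 2 - X 1 3, X 0 3 + X 1 2] b := by
  fin_cases b <;> simp [mJ, J, Fin.sum_univ_four]
  · linear_combination hX 1 0 + hX 3 2
  · linear_combination hX 2 0 - hX 3 1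
  · linear_combination hX 3 0 + hX 2 1

/-- Pfaffian -/
def pf (X : Fin 4 → Fin 4 → S) : S := X 0 1 * X 2 3 - X 0 2 * X 1 3 + X 0 3 * X 1 2

lemma mK_mJ (X : Fin 4 → Fin 4 → S) (hX : ∀ i j, X i j = - X j i) :
    ∑ b, mK X b ^ 2 - ∑ b, mJ X b ^ 2 = -16 * pf X := by
  simp only [mK_eq X hX, mJ_eq X hX, Fin.sum_univ_three, pf]
  simp; ring

/-- scalar curvature (up to a factor) -/
def sc : S := ∑ b, mK (fun i j => EE F i j b) b

lemma EE_anti' (c : Fin 3) (i j : Fin 4) : EE F i j c = - EE F j i c := EE_anti F i j c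

lemma mK_symm (b c : Fin 3) :
    mK (fun i j => EE F i j c) b = mK (fun i j => EE F i j b) c := by
  have hp := F.Rm_pair
  rw [mK_eq _ (EE_anti' F c), mK_eq _ (EE_anti' F b)]
  fin_cases b <;> fin_cases c <;> simp [EE]
  · rw [hp 0 2 0 1, hp 0 2 2 3, hp 1 3 0 1, hp 1 3 2 3]; ring
  · rw [hp 0 3 0 1, hp 0 3 2 3, hp 1 2 0 1, hp 1 2 2 3]; ring
  · rw [hp 0 2 0 1, hp 0 2 2 3, hp 1 3 0 1, hp 1 3 2 3]; ring
  · rw [hp 0 3 0 2, hp 0 3 1 3, hp 1 2 0 2, hp 1 2 1 3]; ring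
  · rw [hp 0 3 0 1, hp 0 3 2 3, hp 1 2 0 1, hp 1 2 2 3]; ring
  · rw [hp 0 3 0 2, hp 0 3 1 3, hp 1 2 0 2, hp 1 2 1 3]; ring

lemma mJ_symm (b c : Fin 3) :
    mJ (fun i j => F.PP i j c) b = mJ (fun i j => F.PP i j b) c := by
  have hp := F.Rm_pair
  rw [mJ_eq _ (fun i j => F.PP_anti i j c), mJ_eq _ (fun i j => F.PP_anti i j b)]
  fin_cases b <;> fin_cases c <;> simp [Frame.PP]
  · rw [hp 0 2 0 1, hp 0 2 2 3, hp 1 3 0 1, hp 1 3 2 3]; ring
  · rw [hp 0 3 0 1, hp 0 3 2 3, hp 1 2 0 1, hp 1 2 2 3]; ring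
  · rw [hp 0 2 0 1, hp 0 2 2 3, hp 1 3 0 1, hp 1 3 2 3]; ring
  · rw [hp 0 3 0 2, hp 0 3 1 3, hp 1 2 0 2, hp 1 2 1 3]; ring
  · rw [hp 0 3 0 1, hp 0 3 2 3, hp 1 2 0 1, hp 1 2 2 3]; ring
  · rw [hp 0 3 0 2, hp 0 3 1 3, hp 1 2 0 2, hp 1 2 1 3]; ring

lemma sc_eq : ∑ b, mJ (fun i j => F.PP i j b) b = sc F := by
  have hp := F.Rm_pair
  have hb := F.bianchi1 0 1 2 3
  rw [sc]
  simp only [mK_eq _ (EE_anti' F _), mJ_eq _ (fun i j => F.PP_anti i j _), Fin.sum_univ_three]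
  simp [EE, Frame.PP]
  have h1 := F.Rm_anti12 2 0 1 3
  rw [hp 1 2 0 3] at hb
  rw [hp 2 3 0 1, hp 1 3 0 2, hp 1 2 0 3]
  linear_combination (-8 : S) * hb + (8 : S) * h1

lemma Kp_zero : Kp (0 : Fin 3 → S) = 0 := by
  ext i j; fin_cases i <;> fin_cases j <;> simp [Kp]

lemma JJ_zero : JJ (0 : Fin 3 → S) = 0 := by
  ext i j; fin_cases i <;> fin_cases j <;> simp [JJ]

lemma Kp_sum {ι : Type*} (t : Finset ι) (p : ι → Fin 3 → S) :
    ∑ i ∈ t, Kp (p i) = Kp (fun b => ∑ i ∈ t, p i b) := by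
  simp only [Kp_eq, Finset.sum_smul]
  rw [Finset.sum_comm]

lemma JJ_sum {ι : Type*} (t : Finset ι) (p : ι → Fin 3 → S) :
    ∑ i ∈ t, JJ (p i) = JJ (fun b => ∑ i ∈ t, p i b) := by
  simp only [JJ_eq, Finset.sum_smul]
  rw [Finset.sum_comm]

lemma sum_cpK : (fun b => ∑ i, ∑ j, cp (fun b => K S b i j) (EE F i j) b) = (0 : Fin 3 → S) := by
  have h : ∀ b c, ∑ i, ∑ j, (K S b i j * EE F i j c - K S c i j * EE F i j b) = 0 := by
    intro b c
    simp only [Finset.sum_sub_distrib]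
    exact sub_eq_zero.2 (mK_symm F b c)
  funext b
  fin_cases b
  · exact h 1 2
  · exact h 2 0
  · exact h 0 1

lemma sum_cpJ : (fun b => ∑ i, ∑ j, cp (fun b => J S b i j) (F.PP i j) b) = (0 : Fin 3 → S) := by
  have h : ∀ b c, ∑ i, ∑ j, (J S b i j * F.PP i j c - J S c i j * F.PP i j b) = 0 := by
    intro b c
    simp only [Finset.sum_sub_distrib]
    exact sub_eq_zero.2 (mJ_symm F b c)
  funext b
  fin_cases b
  · exact h 1 2
  · exact h 2 0
  · exact h 0 1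

lemma EE_zero (i : Fin 4) : EE F i i = 0 := by
  funext c
  exact Frame.eq_zero_of_two (by have := EE_anti F i i c; linear_combination this)

lemma PP_zero (i : Fin 4) : F.PP i i = 0 := by
  funext c
  exact Frame.eq_zero_of_two (by have := F.PP_anti i i c; linear_combination this)

lemma GG_zero (θ : Fin 4 → Fin 3 → S) (i : Fin 4) : GG F θ i i = 0 := by
  funext c
  exact GG_self F θ i c

/-- the potential on `ℝ⁴` -/
theorem Q0_b (θ : Fin 4 → Fin 3 → S) :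
    Q F (bA0 F θ) (cK S) = (Frame.half (S := S) * Frame.half (S := S)) •
      (sc F • (1 : Matrix (Fin 4) (Fin 4) S)
        - NM (fun b c => mK (fun i j => GG F θ i j c) b)) := by
  have key : ∀ i j, ((cK S i)ᵀ * cK S j) * F.curv (bA0 F θ) i j = (Frame.half (S := S)) •
      (NM (fun b c => K S b i j * GG F θ i j c) + Kp (cp (fun b => K S b i j) (EE F i j))
        - (∑ b, K S b i j * EE F i j b) • (1 : Matrix (Fin 4) (Fin 4) S)) := by
    intro i j
    rw [IndAlg_167.ctc, curv_b0, Matrix.mul_smul]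
    congr 1
    rw [Matrix.add_mul, Matrix.mul_add (Kp _), Kp_JJ, Kp_mul]
    by_cases hij : i = j
    · subst hij
      rw [GG_zero, EE_zero, JJ_zero, Kp_zero, add_zero, Matrix.mul_zero, zero_add]
      abel
    · rw [if_neg hij, Matrix.zero_mul, zero_add]
      abel
  rw [Q]
  simp only [key, ← Finset.smul_sum, Finset.sum_sub_distrib, Finset.sum_add_distrib, NM_sum,
    Kp_sum, sum_cpK, Kp_zero, add_zero, ← Finset.sum_smul]
  rw [smul_smul, neg_mul, neg_smul, ← smul_neg]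
  congr 1
  rw [neg_sub]
  have e1 : (∑ i, ∑ j, ∑ b, K S b i j * EE F i j b) = sc F := by
    rw [sc]
    simp only [mK]
    rw [Finset.sum_congr rfl fun i _ => Finset.sum_comm, Finset.sum_comm]
  rw [e1]
  rfl

/-- the potential on `T` -/
theorem Q1_b (θ : Fin 4 → Fin 3 → S) :
    Q F (bA1 F θ) (fun i => (cK S i)ᵀ) = (Frame.half (S := S) * Frame.half (S := S)) •
      (sc F • (1 : Matrix (Fin 4) (Fin 4) S)
        - NM (fun b c => mJ (fun i j => GG F θ i j b) c)) := by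
  have key : ∀ i j, (((cK S i)ᵀ)ᵀ * (cK S j)ᵀ) * F.curv (bA1 F θ) i j = (Frame.half (S := S)) •
      (NM (fun b c => GG F θ i j b * J S c i j) + JJ (cp (fun b => J S b i j) (F.PP i j))
        - (∑ b, J S b i j * F.PP i j b) • (1 : Matrix (Fin 4) (Fin 4) S)) := by
    intro i j
    rw [Matrix.transpose_transpose, IndAlg_167.cct, curv_b1, Matrix.mul_smul]
    congr 1
    rw [Matrix.add_mul, Matrix.mul_add (JJ _), JK_comm, Kp_JJ, JJ_mul]
    by_cases hij : i = j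
    · subst hij
      rw [GG_zero, PP_zero, JJ_zero, Kp_zero, add_zero, Matrix.mul_zero, zero_add]
      abel
    · rw [if_neg hij, Matrix.zero_mul, zero_add]
      abel
  rw [Q]
  simp only [key, ← Finset.smul_sum, Finset.sum_sub_distrib, Finset.sum_add_distrib, NM_sum,
    JJ_sum, sum_cpJ, JJ_zero, add_zero, ← Finset.sum_smul]
  rw [smul_smul, neg_mul, neg_smul, ← smul_neg]
  congr 1
  rw [neg_sub]
  have e1 : (∑ i, ∑ j, ∑ b, J S b i j * F.PP i j b) = sc F := by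
    rw [← sc_eq]
    simp only [mJ]
    rw [Finset.sum_congr rfl fun i _ => Finset.sum_comm, Finset.sum_comm]
  rw [e1]
  congr 2
  funext b c
  simp only [mJ]
  exact Finset.sum_congr rfl fun i _ => Finset.sum_congr rfl fun j _ => mul_comm _ _

lemma trN (a x : S) (n : Fin 3 → Fin 3 → S) :
    (a • (x • (1 : Matrix (Fin 4) (Fin 4) S) - NM n)).trace = 4 * a * x := by
  rw [Matrix.trace_smul, Matrix.trace_sub, NM_tr, Matrix.trace_smul, Matrix.trace_one]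
  simp; ring

lemma trNN (a x : S) (n : Fin 3 → Fin 3 → S) :
    ((a • (x • (1 : Matrix (Fin 4) (Fin 4) S) - NM n))
      * (a • (x • (1 : Matrix (Fin 4) (Fin 4) S) - NM n))).trace
      = 4 * a ^ 2 * x ^ 2 + 4 * a ^ 2 * ∑ b, ∑ c, n b c ^ 2 := by
  have e : (a • (x • (1 : Matrix (Fin 4) (Fin 4) S) - NM n))
      * (a • (x • (1 : Matrix (Fin 4) (Fin 4) S) - NM n))
      = (a * a) • ((x * x) • (1 : Matrix (Fin 4) (Fin 4) S) - (2 * x) • NM n + NM n * NM n) := by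
    rw [Matrix.smul_mul, Matrix.mul_smul, smul_smul]
    congr 1
    simp only [Matrix.sub_mul, Matrix.mul_sub, Matrix.smul_mul, Matrix.mul_smul, Matrix.one_mul,
      Matrix.mul_one, smul_smul, two_mul, add_smul, smul_sub]
    abel
  rw [e, Matrix.trace_smul, Matrix.trace_add, Matrix.trace_sub, NM_sq, Matrix.trace_smul,
    Matrix.trace_smul, NM_tr, Matrix.trace_one]
  simp; ring

theorem trQ (θ : Fin 4 → Fin 3 → S) :
    (Q F (bA0 F θ) (cK S)).trace = (Q F (bA1 F θ) (fun i => (cK S i)ᵀ)).trace := by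
  rw [Q0_b, Q1_b, trN, trN]

lemma half4 : 16 * (Frame.half (S := S) * Frame.half (S := S)) ^ 2 = 1 := by
  have h := half_two (S := S)
  calc 16 * (Frame.half (S := S) * Frame.half (S := S)) ^ 2
      = (Frame.half (S := S) * 2) ^ 4 := by ring
    _ = 1 := by rw [h, one_pow]

theorem trQQ (θ : Fin 4 → Fin 3 → S) :
    (Q F (bA0 F θ) (cK S) * Q F (bA0 F θ) (cK S)).trace
      - (Q F (bA1 F θ) (fun i => (cK S i)ᵀ) * Q F (bA1 F θ) (fun i => (cK S i)ᵀ)).trace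
      = -4 * ∑ c, pf (fun i j => GG F θ i j c) := by
  rw [Q0_b, Q1_b, trNN, trNN]
  have h4 := half4 (S := S)
  have e : ∑ b, ∑ c, mK (fun i j => GG F θ i j c) b ^ 2
      - ∑ b, ∑ c, mJ (fun i j => GG F θ i j b) c ^ 2 = -16 * ∑ c, pf (fun i j => GG F θ i j c) := by
    rw [Finset.sum_comm, ← Finset.sum_sub_distrib, Finset.mul_sum]
    exact Finset.sum_congr rfl fun c _ => mK_mJ _ (fun i j => GG_anti F θ i j c)
  linear_combination (4 * (Frame.half (S := S) * Frame.half (S := S)) ^ 2) * e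
    - 4 * (∑ c, pf (fun i j => GG F θ i j c)) * h4

/-- the universal part of the density -/
def TT : S := ∑ i, ∑ j, (∑ c, F.PP i j c ^ 2 - ∑ c, EE F i j c ^ 2)

lemma tr_JK (a : S) (p q : Fin 3 → S) :
    ((a • (JJ p + Kp q)) * (a • (JJ p + Kp q))).trace
      = -4 * a ^ 2 * (∑ c, p c ^ 2 + ∑ c, q c ^ 2) := by
  rw [Matrix.trace]
  simp only [Fin.sum_univ_four, Fin.sum_univ_three, Matrix.diag_apply, Matrix.mul_apply]
  simp [JJ, Kp]; ring

theorem tO_b (θ : Fin 4 → Fin 3 → S) : tO F (bA0 F θ) - tO F (bA1 F θ) = TT F := by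
  have h := half_two (S := S)
  have h4 : 4 * (Frame.half (S := S)) ^ 2 = 1 := by
    calc 4 * (Frame.half (S := S)) ^ 2 = (Frame.half (S := S) * 2) ^ 2 := by ring
      _ = 1 := by rw [h, one_pow]
  rw [tO, tO, TT, ← Finset.sum_sub_distrib]
  refine Finset.sum_congr rfl fun i _ => ?_
  rw [← Finset.sum_sub_distrib]
  refine Finset.sum_congr rfl fun j _ => ?_
  rw [curv_b0, curv_b1, tr_JK, tr_JK]
  linear_combination (∑ c, F.PP i j c ^ 2 - ∑ c, EE F i j c ^ 2) * h4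

lemma sq_split (X : Fin 4 → Fin 4 → S) (hX : ∀ i j, X i j = - X j i) :
    4 * ∑ i, ∑ j, X i j ^ 2 = ∑ b, mK X b ^ 2 + ∑ b, mJ X b ^ 2 := by
  have h0 : ∀ i, X i i = 0 := fun i => Frame.eq_zero_of_two (by linear_combination hX i i)
  simp only [mK_eq X hX, mJ_eq X hX, Fin.sum_univ_three, Fin.sum_univ_four, h0, hX 1 0, hX 2 0,
    hX 3 0, hX 2 1, hX 3 1, hX 3 2]
  simp; ring

/-- the mixed blocks are transposed -/
lemma mix (b c : Fin 3) :
    mJ (fun i j => EE F i j c) b = mK (fun i j => F.PP i j b) c := by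
  have hp := F.Rm_pair
  rw [mJ_eq _ (EE_anti' F c), mK_eq _ (fun i j => F.PP_anti i j b)]
  fin_cases b <;> fin_cases c <;> simp [EE, Frame.PP]
  · rw [hp 0 1 2 3]; ring
  · rw [hp 0 1 0 2, hp 0 1 1 3, hp 2 3 0 2, hp 2 3 1 3]; ring
  · rw [hp 0 1 0 3, hp 0 1 1 2, hp 2 3 0 3, hp 2 3 1 2]; ring
  · rw [hp 0 2 0 1, hp 0 2 2 3, hp 1 3 0 1, hp 1 3 2 3]; ring
  · rw [hp 0 2 1 3]; ring
  · rw [hp 0 2 0 3, hp 0 2 1 2, hp 1 3 0 3, hp 1 3 1 2]; ring
  · rw [hp 0 3 0 1, hp 0 3 2 3, hp 1 2 0 1, hp 1 2 2 3]; ring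
  · rw [hp 0 3 0 2, hp 0 3 1 3, hp 1 2 0 2, hp 1 2 1 3]; ring
  · rw [hp 0 3 1 2]; ring

lemma four_inj {x y : S} (h : 4 * x = 4 * y) : x = y :=
  Frame.eq_of_two (Frame.eq_of_two (by linear_combination h))

theorem TT_eq : TT F = 4 * ∑ c, (pf (fun i j => EE F i j c) + pf (fun i j => F.PP i j c)) := by
  apply four_inj
  have h1 : ∀ c, 4 * ∑ i, ∑ j, F.PP i j c ^ 2 = ∑ b, mK (fun i j => F.PP i j c) b ^ 2
      + ∑ b, mJ (fun i j => F.PP i j c) b ^ 2 := fun c => sq_split _ (fun i j => F.PP_anti i j c)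
  have h2 : ∀ c, 4 * ∑ i, ∑ j, EE F i j c ^ 2 = ∑ b, mK (fun i j => EE F i j c) b ^ 2
      + ∑ b, mJ (fun i j => EE F i j c) b ^ 2 := fun c => sq_split _ (EE_anti' F c)
  have h3 : ∀ c, ∑ b, mK (fun i j => EE F i j c) b ^ 2 - ∑ b, mJ (fun i j => EE F i j c) b ^ 2
      = -16 * pf (fun i j => EE F i j c) := fun c => mK_mJ _ (EE_anti' F c)
  have h4 : ∀ c, ∑ b, mK (fun i j => F.PP i j c) b ^ 2 - ∑ b, mJ (fun i j => F.PP i j c) b ^ 2
      = -16 * pf (fun i j => F.PP i j c) := fun c => mK_mJ _ (fun i j => F.PP_anti i j c)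
  have h5 : ∑ c, ∑ b, mJ (fun i j => EE F i j c) b ^ 2
      = ∑ c, ∑ b, mK (fun i j => F.PP i j c) b ^ 2 := by
    simp only [mix]
    exact Finset.sum_comm
  have e : 4 * TT F = ∑ c, (4 * ∑ i, ∑ j, F.PP i j c ^ 2) - ∑ c, (4 * ∑ i, ∑ j, EE F i j c ^ 2) := by
    rw [TT, ← Finset.mul_sum, ← Finset.mul_sum, ← mul_sub]
    congr 1
    simp only [Finset.sum_sub_distrib]
    congr 1
    · rw [Finset.sum_congr rfl fun i _ => Finset.sum_comm, Finset.sum_comm]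
    · rw [Finset.sum_congr rfl fun i _ => Finset.sum_comm, Finset.sum_comm]
  rw [e]
  simp only [h1, h2, Finset.sum_add_distrib]
  have h3' : ∑ c, ∑ b, mK (fun i j => EE F i j c) b ^ 2
      - ∑ c, ∑ b, mJ (fun i j => EE F i j c) b ^ 2 = -16 * ∑ c, pf (fun i j => EE F i j c) := by
    rw [← Finset.sum_sub_distrib, Finset.mul_sum]
    exact Finset.sum_congr rfl fun c _ => h3 c
  have h4' : ∑ c, ∑ b, mK (fun i j => F.PP i j c) b ^ 2
      - ∑ c, ∑ b, mJ (fun i j => F.PP i j c) b ^ 2 = -16 * ∑ c, pf (fun i j => F.PP i j c) := by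
    rw [← Finset.sum_sub_distrib, Finset.mul_sum]
    exact Finset.sum_congr rfl fun c _ => h4 c
  linear_combination (-1 : S) * h3' - h4' - 2 * h5

end Crest.Agent.R235.IndDen_167
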