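import Crest.Agent.R235.IndDen_167
import Crest.Agent.R235.IndQS_167
import Crest.Agent.R235.IndVol_57
import Crest.Agent.R249.DenP_714
import Crest.Agent.R249.Tv12_57
import Crest.Agent.R249.HKEnd_286

/-!
Row 235, package IND, leaf L6 (helper692), part A: densities of Clifford pairs whose local form over an
adapted frame is 167's `bA0 F θ`, `bA1 F θ`, `cK`.

* `tw al`           : the `so(3)`-connection `(2α, 0, 0)`;  `dal F al i j = (dα)(e_i, e_j)`;
* `bA0_tw`, `bA1_tw`: `bA0 F (tw al) k = bA0 F 0 k + al k • J_0`, `bA1 .. = bA1 F 0 k + al k • K_0`;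
* `sum_pf_tw`       : `∑_c pf GG_c = 4 pf dα`;
* `dn_sub`          : `dn D0 z - dn D1 z = 1/(32π²) ev (-4 ∑ pf GG_c) + 1/(192π²) ev (TT F)`, every `θ`;
* `dn_tw`           : for `θ = tw al` : `= -1/(2π²) ev (pf dα) + 1/(192π²) ev (TT F)`;
* `rank0`, `rank1`, `tr_eq` : the hypotheses of 57's `index_D`;
* `dal_unit`        : for `α = Im ⟨v, Dv⟩ = ∑ (x Dy - y Dx)`: `dα_ij = 2 ∑ (D_i x D_j y - D_j x D_i y)`.
-/

set_option autoImplicit false
set_option maxSynthPendingDepth 3
set_option linter.unusedSectionVars false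
set_option linter.unusedSimpArgs false
set_option maxHeartbeats 1000000

open Filter Topology Set Bundle Manifold MeasureTheory
open Matrix hiding J
open scoped ContDiff ENNReal NNReal
open Crest.GeometryTopology.CoordMetric Crest.GeometryTopology.ChartCurvature
open Crest.Agent.R249.Fr129
open Crest.Agent.R249.C2_198 hiding cp half_two
open Crest.Agent.R249.Sg129 (SG ev ONF)
open Crest.Agent.R249.Tv57 hiding GG
open Crest.Agent.R249.Tz805 Crest.Agent.R249.HK9_714
open Crest.Agent.R235.IndAlg_167 hiding half_two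
open Crest.Agent.R235.IndDen_167
open Crest.Agent.R249.Fr129.Frame (half two_half)

noncomputable section

namespace Crest.Agent.R235.IndEven_692

/-! ### ring level -/

section ring

variable {S : Type*} [CommRing S] [Algebra ℝ S] (F : R249.Fr129.Frame 4 S)

/-- the `so(3)`-connection `(2α, 0, 0)` -/
def tw (al : Fin 4 → S) (k : Fin 4) (b : Fin 3) : S := if b = 0 then 2 * al k else 0

/-- `(dα)(e_i, e_j)` -/
def dal (al : Fin 4 → S) (i j : Fin 4) : S :=
  F.D i (al j) - F.D j (al i) - ∑ m, F.T i j m * al m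

lemma half_mul_two (x : S) : half (S := S) * (2 * x) = x := by
  have h : (2 : S) * half = 1 := two_half
  linear_combination x * h

lemma JJ_tw (al : Fin 4 → S) (k : Fin 4) : half (S := S) • JJ (tw al k) = al k • J S 0 := by
  ext i j
  have h := half_mul_two (al k)
  have h' : half (S := S) * (-(2 * al k)) = - al k := by rw [mul_neg, h]
  fin_cases i <;> fin_cases j <;> simp [JJ, J, tw, h, h']

lemma Kp_tw (al : Fin 4 → S) (k : Fin 4) : half (S := S) • Kp (tw al k) = al k • K S 0 := by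
  ext i j
  have h := half_mul_two (al k)
  have h' : half (S := S) * (-(2 * al k)) = - al k := by rw [mul_neg, h]
  fin_cases i <;> fin_cases j <;> simp [Kp, K, tw, h, h']

lemma bA0_tw (al : Fin 4 → S) (k : Fin 4) : bA0 F (tw al) k = bA0 F 0 k + al k • J S 0 := by
  rw [bA0_eq, bA0_eq, smul_add, smul_add, JJ_tw]
  have : JJ ((0 : Fin 4 → Fin 3 → S) k) = 0 := JJ_zero
  rw [this, smul_zero, add_zero]

lemma bA1_tw (al : Fin 4 → S) (k : Fin 4) : bA1 F (tw al) k = bA1 F 0 k + al k • K S 0 := by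
  rw [bA1_eq, bA1_eq, smul_add, smul_add, Kp_tw]
  have : Kp ((0 : Fin 4 → Fin 3 → S) k) = 0 := Kp_zero
  rw [this, smul_zero, add_zero]

lemma D_two (k : Fin 4) (x : S) : F.D k (2 * x) = 2 * F.D k x := by
  rw [two_mul, map_add, two_mul]

lemma GG_tw_zero (al : Fin 4 → S) (i j : Fin 4) : GG F (tw al) i j 0 = 2 * dal F al i j := by
  simp only [GG, tw, cp, dal, if_true, D_two, Fin.isValue]
  simp only [Fin.isValue, Matrix.cons_val_zero, one_ne_zero, if_false, Fin.reduceEq, mul_zero, sub_zero]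
  have : ∑ m, F.T i j m * (2 * al m) = 2 * ∑ m, F.T i j m * al m := by
    rw [Finset.mul_sum]; exact Finset.sum_congr rfl fun m _ => by ring
  rw [this]; ring

lemma GG_tw_one (al : Fin 4 → S) (i j : Fin 4) : GG F (tw al) i j 1 = 0 := by
  simp [GG, tw, cp]

lemma GG_tw_two (al : Fin 4 → S) (i j : Fin 4) : GG F (tw al) i j 2 = 0 := by
  simp [GG, tw, cp]

lemma GG_null (i j : Fin 4) (c : Fin 3) : GG F (0 : Fin 4 → Fin 3 → S) i j c = 0 := by
  fin_cases c <;> simp [GG, cp]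

lemma sum_pf_tw (al : Fin 4 → S) :
    ∑ c, pf (fun i j => GG F (tw al) i j c) = 4 * pf (dal F al) := by
  rw [Fin.sum_univ_three]
  simp only [GG_tw_zero, GG_tw_one, GG_tw_two, pf]
  ring

lemma sum_pf_null : ∑ c, pf (fun i j => GG F (0 : Fin 4 → Fin 3 → S) i j c) = 0 := by
  simp [pf, GG_null]

/-- curvature of `α = ∑_a (x_a D y_a - y_a D x_a)` -/
lemma dal_unit {ι : Type*} [Fintype ι] (x y : ι → S) (i j : Fin 4) :
    dal F (fun k => ∑ a, (x a * F.D k (y a) - y a * F.D k (x a))) i j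
      = 2 * ∑ a, (F.D i (x a) * F.D j (y a) - F.D j (x a) * F.D i (y a)) := by
  have h : ∀ a, F.D i (x a * F.D j (y a) - y a * F.D j (x a))
      - F.D j (x a * F.D i (y a) - y a * F.D i (x a))
      - ∑ m, F.T i j m * (x a * F.D m (y a) - y a * F.D m (x a))
      = 2 * (F.D i (x a) * F.D j (y a) - F.D j (x a) * F.D i (y a)) := by
    intro a
    have h1 := F.tors' i j (y a)
    have h2 := F.tors' i j (x a)
    have e1 : ∑ m, F.T i j m * (x a * F.D m (y a) - y a * F.D m (x a))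
        = x a * ∑ m, F.T i j m * F.D m (y a) - y a * ∑ m, F.T i j m * F.D m (x a) := by
      rw [Finset.mul_sum, Finset.mul_sum, ← Finset.sum_sub_distrib]
      exact Finset.sum_congr rfl fun m _ => by ring
    rw [e1]
    simp only [map_sub, F.D_mul]
    linear_combination x a * h1 - y a * h2
  have e3 : ∑ m, F.T i j m * ∑ a, (x a * F.D m (y a) - y a * F.D m (x a))
      = ∑ a, ∑ m, F.T i j m * (x a * F.D m (y a) - y a * F.D m (x a)) := by
    rw [Finset.sum_comm]
    exact Finset.sum_congr rfl fun m _ => Finset.mul_sum _ _ _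
  unfold dal
  rw [F.D_sum, F.D_sum, e3, ← Finset.sum_sub_distrib, ← Finset.sum_sub_distrib, Finset.mul_sum]
  exact Finset.sum_congr rfl fun a _ => h a

end ring

/-! ### densities -/

section dens

variable {M : Type*} [MetricSpace M] [ChartedSpace (EuclideanSpace ℝ (Fin 4)) M]
  [IsManifold (𝓡 4) ∞ M]
  [RiemannianBundle (fun p : M => TangentSpace (𝓡 4) p)]
  [IsContMDiffRiemannianBundle (𝓡 4) ∞ (EuclideanSpace ℝ (Fin 4)) (fun p : M => TangentSpace (𝓡 4) p)]
  [IsRiemannianManifold (𝓡 4) M] [MeasurableSpace M] [BorelSpace M]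
  [SecondCountableTopology M] [Nonempty M]

variable {κ κ0 κ1 : Type} [Fintype κ] [Fintype κ0] [Fintype κ1]
  {T : ToF 4 M} {P : CPair 4 M κ κ0 κ1} {D0 : Dat 4 M κ0} {D1 : Dat 4 M κ1}
  (W : WD T P D0 D1)
  {z : M} {e : Fin 4 → EuclideanSpace ℝ (Fin 4) → EuclideanSpace ℝ (Fin 4)}
  {h : ONF (chartMetric 4 M z) (chartAt (EuclideanSpace ℝ (Fin 4)) z).target (chartCentre 4 M z) e}
  {θ : Fin 4 → Fin 3 → SG (chartCentre 4 M z)}
  {j0 : Matrix κ0 (Fin 4) (SG (chartCentre 4 M z))} {j1 : Matrix κ1 (Fin 4) (SG (chartCentre 4 M z))}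
  (C : CLoc P.D0 P.D1 P.cc h (bA0 h.frameOf θ) (bA1 h.frameOf θ)
    (cK (SG (chartCentre 4 M z))) j0 j1)

include W C

theorem rank0 : ∑ x, D0.p x x z = 4 := by
  have h := W.rank0 C
  simp only [Fintype.card_fin] at h
  exact_mod_cast h

theorem rank1 : ∑ x, D1.p x x z = 4 := by
  have h := W.rank1 C
  simp only [Fintype.card_fin] at h
  exact_mod_cast h

theorem tr_eq : ∑ x, ∑ y, D0.Q x y z * D0.p x y z = ∑ x, ∑ y, D1.Q x y z * D1.p x y z := by
  rw [W.tr0 C, W.tr1 C, IndDen_167.trQ]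

/-- **the density**, for every `θ` -/
theorem dn_sub : dn D0 z - dn D1 z
    = 1 / (32 * Real.pi ^ 2) * ev (-4 * ∑ c, pf (fun i j => GG h.frameOf θ i j c))
      + 1 / (192 * Real.pi ^ 2) * ev (TT h.frameOf) := by
  rw [W.dn0 C, W.dn1 C, ← trQQ, ← tO_b h.frameOf θ, map_sub, map_sub]
  ring

end dens

section dens2

variable {M : Type*} [MetricSpace M] [ChartedSpace (EuclideanSpace ℝ (Fin 4)) M]
  [IsManifold (𝓡 4) ∞ M]
  [RiemannianBundle (fun p : M => TangentSpace (𝓡 4) p)]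
  [IsContMDiffRiemannianBundle (𝓡 4) ∞ (EuclideanSpace ℝ (Fin 4)) (fun p : M => TangentSpace (𝓡 4) p)]
  [IsRiemannianManifold (𝓡 4) M] [MeasurableSpace M] [BorelSpace M]
  [SecondCountableTopology M] [Nonempty M]

variable {κ κ0 κ1 : Type} [Fintype κ] [Fintype κ0] [Fintype κ1]
  {T : ToF 4 M} {P : CPair 4 M κ κ0 κ1} {D0 : Dat 4 M κ0} {D1 : Dat 4 M κ1}
  (W : WD T P D0 D1)
  {z : M} {e : Fin 4 → EuclideanSpace ℝ (Fin 4) → EuclideanSpace ℝ (Fin 4)}
  {h : ONF (chartMetric 4 M z) (chartAt (EuclideanSpace ℝ (Fin 4)) z).target (chartCentre 4 M z) e}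
  {j0 : Matrix κ0 (Fin 4) (SG (chartCentre 4 M z))} {j1 : Matrix κ1 (Fin 4) (SG (chartCentre 4 M z))}

include W

/-- the untwisted density -/
theorem dn_null (C : CLoc P.D0 P.D1 P.cc h (bA0 h.frameOf 0) (bA1 h.frameOf 0)
    (cK (SG (chartCentre 4 M z))) j0 j1) :
    dn D0 z - dn D1 z = 1 / (192 * Real.pi ^ 2) * ev (TT h.frameOf) := by
  rw [dn_sub W C, sum_pf_null]
  simp

/-- the density of the twist by a connection `α` -/
theorem dn_tw {al : Fin 4 → SG (chartCentre 4 M z)}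
    (C : CLoc P.D0 P.D1 P.cc h (bA0 h.frameOf (tw al)) (bA1 h.frameOf (tw al))
      (cK (SG (chartCentre 4 M z))) j0 j1) :
    dn D0 z - dn D1 z = - (1 / (2 * Real.pi ^ 2)) * ev (pf (dal h.frameOf al))
      + 1 / (192 * Real.pi ^ 2) * ev (TT h.frameOf) := by
  rw [dn_sub W C, sum_pf_tw, map_mul, map_mul, map_neg]
  have h4 : ev (4 : SG (chartCentre 4 M z)) = 4 := map_ofNat ev 4
  rw [h4]
  have hp := Real.pi_ne_zero
  field_simp
  ring

end dens2

end Crest.Agent.R235.IndEven_692
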