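import Crest.Agent.R235.IndEvenA_692
import Crest.Agent.R235.IndPair_167
import Crest.Agent.R235.RiemC_399
import Crest.Agent.R249.WkD_352
import Crest.Agent.R249.TofM_352

/-!
Row 235, package IND, leaf L6 (helper692), part B: the index of a twist of the quaternionic pair.

* `LocTw q P b` : over every adapted frame of `q : QS M` the pair `P` is `bA0 F (tw al)`, `bA1 F (tw al)`,
  `cK` with `(dα)(e_i, e_j) = b(e_i, e_j)`;
* `dn_qG`  : `dn D0 z - dn D1 z = r0 + 1/(4π²) · 2 q_F(b, b)`, `F = ⟨I_0 ·, ·⟩`, same `r0` for all pairs;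
* `exists_index` : `∃ d0 d1, KerD .. d0, KerD .. d1, (d0:ℝ) - d1 = ∫ (dn D0 - dn D1)`;
* `index_diff`   : `(d0' - d1') - (d0 - d1) = 1/(4π²) (I F b' b' - I F b b)`.
-/

set_option autoImplicit false
set_option maxSynthPendingDepth 3
set_option linter.unusedSectionVars false
set_option linter.unusedSimpArgs false
set_option maxHeartbeats 1000000

open Filter Topology Set Bundle Manifold MeasureTheory
open Matrix hiding J
open scoped ContDiff ENNReal NNReal
open Crest.GeometryTopology.CoordMetric Crest.GeometryTopology.ChartCurvature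
open Crest.Agent.R240 Crest.Agent.R240.Ch
open Crest.Agent.R202.Tens
open Crest.Agent.R247.Bo84 hiding trans
open Crest.Agent.R249.Vf281 Crest.Agent.R249.Tz2_805 Crest.Agent.R249.Tz1_805
open Crest.Agent.R249.Fr129
open Crest.Agent.R249.C2_198 hiding cp half_two
open Crest.Agent.R249.Sg129 (SG ev ONF)
open Crest.Agent.R249.Tv57 hiding GG
open Crest.Agent.R249.Tz805 Crest.Agent.R249.Dic805 Crest.Agent.R249.HK9_714
open Crest.Agent.R235.IndAlg_167 hiding half_two
open Crest.Agent.R235.IndDen_167 Crest.Agent.R235.Ind167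
open Crest.Agent.R235.IndVol_57 Crest.Agent.R235.RiemB_399

universe u

noncomputable section

namespace Crest.Agent.R235.IndEven_692

section top

variable {M : Type u} [TopologicalSpace M] [ChartedSpace E4 M] [IsManifold 𝓘(ℝ, E4) ∞ M]
  [RiemannianBundle (fun x : M => TangentSpace 𝓘(ℝ, E4) x)]
  [IsContMDiffRiemannianBundle 𝓘(ℝ, E4) ∞ E4 (fun x : M => TangentSpace 𝓘(ℝ, E4) x)]

/-- local form of a twist of the quaternionic pair, by a connection with curvature `b` -/
def LocTw (q : QS M) {κ κ0 κ1 : Type} [Fintype κ] [Fintype κ0] [Fintype κ1]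
    (P : CPair 4 M κ κ0 κ1) (b : F2 E4 M) : Prop :=
  ∀ (z : M) (e : Fin 4 → EuclideanSpace ℝ (Fin 4) → EuclideanSpace ℝ (Fin 4))
    (h : ONF (chartMetric 4 M z) (chartAt (EuclideanSpace ℝ (Fin 4)) z).target
      (chartCentre 4 M z) e), Adp q z e →
    ∃ (al : Fin 4 → SG (chartCentre 4 M z)) (j0 : Matrix κ0 (Fin 4) (SG (chartCentre 4 M z)))
      (j1 : Matrix κ1 (Fin 4) (SG (chartCentre 4 M z))),
      CLoc P.D0 P.D1 P.cc h (bA0 h.frameOf (tw al)) (bA1 h.frameOf (tw al))
        (cK (SG (chartCentre 4 M z))) j0 j1 ∧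
      ∀ i j, ev (dal h.frameOf al i j)
        = at2 b z (e i (chartCentre 4 M z)) (e j (chartCentre 4 M z))

/-! ### frames at the centre -/

lemma symm_centre (z : M) : (chartAt E4 z).symm (chartCentre 4 M z) = z :=
  (chartAt E4 z).left_inv (mem_chart_source E4 z)

lemma tvy_centre (z : M) (v : E4) : (tvy z (chartCentre 4 M z) v : E4) = v := by
  have h := dSy_tcc z (centre_mem (n := 4) z) v
  rw [symm_centre] at h
  refine Eq.trans ?_ (h.trans (tcc_self (mem_chart_source E4 z) v))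
  rfl

/-- a vector of the model space as a tangent vector -/
def tv (z : M) (v : E4) : TangentSpace 𝓘(ℝ, E4) z := v

lemma inner_centre (z : M) (u v : E4) :
    inner ℝ (tv z u) (tv z v) = bil (chartMetric 4 M z (chartCentre 4 M z)) u v := by
  have h := inner_eq_bil (n := 4) z (mem_chart_source E4 z) (tv z u) (tv z v)
  have hu : ∀ u : E4, dCh (n := 4) z z (tv z u) = u := fun u =>
    (dCh_tcc z (mem_chart_source E4 z) u).trans (tcc_self (mem_chart_source E4 z) u)
  rw [hu, hu] at h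
  exact h

variable {q : QS M} {z : M} {e : Fin 4 → E4 → E4}

/-- the frame at the centre is the adapted frame of `e_0` -/
lemma adp_centre (ha : Adp q z e) (k : Fin 4) :
    tv z (e k (chartCentre 4 M z)) = q.fr z (tv z (e 0 (chartCentre 4 M z))) k := by
  have h := ha.self_of_nhds k
  have h1 : ∀ (p : M), p = z → ∀ u : E4, (q.fr p (tv p u) k : E4) = (q.fr z (tv z u) k : E4) := by
    rintro p rfl u; rfl
  have h2 := h1 _ (symm_centre z) (tvy z (chartCentre 4 M z) (e 0 (chartCentre 4 M z)) : E4)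
  have h3 : (tvy z (chartCentre 4 M z) (e k (chartCentre 4 M z)) : E4)
      = (q.fr z (tv z (tvy z (chartCentre 4 M z) (e 0 (chartCentre 4 M z)) : E4)) k : E4) :=
    h.trans h2
  rw [tvy_centre] at h3
  refine h3.trans ?_
  rw [tvy_centre]

/-- the signs of the positive frame -/
def sg (i : Fin 4) : ℝ := if i = 3 then -1 else 1

lemma WF_sg (b c : Bil) (v : Fin 4 → E4) : WF b c (fun i => sg i • v i) = - WF b c v := by
  simp [WF, sg, map_smul]
  ring

lemma WF_pf (b : Bil) (v : Fin 4 → E4) :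
    WF b b v = 2 * pf (fun i j => b (v i) (v j)) := by
  unfold WF pf; ring

end top

section metric

variable {M : Type u} [MetricSpace M] [ChartedSpace E4 M] [IsManifold (𝓡 4) ∞ M]
  [RiemannianBundle (fun x : M => TangentSpace (𝓡 4) x)]
  [IsContMDiffRiemannianBundle (𝓡 4) ∞ E4 (fun x : M => TangentSpace (𝓡 4) x)]

variable {q : QS M} {z : M} {e : Fin 4 → E4 → E4}

/-- `2 q_F(b,b) = -2 pf (b(e_i, e_j))` in an adapted frame -/
theorem qG_adp [IsRiemannianManifold (𝓡 4) M] [MeasurableSpace M] [BorelSpace M] [CompactSpace M]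
    {F : F2 E4 M} {J : EndF E4 M} (hC : Cpt F J)
    (hF : ∀ (x : M) (u v : TangentSpace (𝓡 4) x), at2 F x u v = inner ℝ (q.op 0 x u) v)
    (h : ONF (chartMetric 4 M z) (chartAt E4 z).target (chartCentre 4 M z) e) (ha : Adp q z e)
    {b : F2 E4 M} (hb : Alt (at2 b z)) :
    2 * qG F b b z = -2 * pf (fun i j => at2 b z (e i (chartCentre 4 M z))
      (e j (chartCentre 4 M z))) := by
  set c : E4 := chartCentre 4 M z with hc
  have ho : ∀ i j, inner ℝ (tv z (e i c)) (tv z (e j c)) = if i = j then (1:ℝ) else 0 := by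
    intro i j
    exact (inner_centre z _ _).trans (h.orth.self_of_nhds i j)
  have ho' : ∀ i j, inner ℝ (tv z (sg i • e i c)) (tv z (sg j • e j c))
      = if i = j then (1:ℝ) else 0 := by
    intro i j
    have h0 : ∀ i, tv z (sg i • e i c) = sg i • tv z (e i c) := fun i => rfl
    rw [h0, h0, real_inner_smul_left, real_inner_smul_right, ho]
    by_cases hij : i = j
    · subst hij
      rw [if_pos rfl]
      unfold sg
      split_ifs <;> norm_num
    · rw [if_neg hij]; ring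
  -- the values of `F`
  have hu : (inner ℝ (tv z (e 0 c)) (tv z (e 0 c)) : ℝ) = 1 := by
    rw [ho]; simp
  have hFe : ∀ i j, at2 F z (e i c) (e j c) = K ℝ 0 j i := by
    intro i j
    have h1 := hF z (tv z (e i c)) (tv z (e j c))
    refine Eq.trans h1 ?_
    rw [adp_centre ha i, adp_centre ha j, q.op_fr, sum_inner]
    have h4 : ∀ l, inner ℝ (K ℝ 0 l i • q.fr z (tv z (e 0 c)) l) (q.fr z (tv z (e 0 c)) j)
        = K ℝ 0 l i * (if l = j then (1:ℝ) else 0) := by
      intro l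
      rw [real_inner_smul_left, q.fr_orth z hu]
    rw [Finset.sum_congr rfl fun l _ => h4 l]
    simp
  have hWF : WF (at2 F z) (at2 F z) (fun i => e i c) = -2 := by
    unfold WF
    simp only [hFe]
    simp [K]
    norm_num
  have hpos : 0 < WF (at2 F z) (at2 F z) (fun i => sg i • e i c) := by
    rw [WF_sg, hWF]; norm_num
  have h5 : 2 * qG F b b z = WF (at2 b z) (at2 b z) (fun i => sg i • e i c) :=
    qG_frame hC z hb hb (e := fun i => tv z (sg i • e i c)) ho' hpos
  rw [h5, WF_sg, WF_pf]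
  ring

variable [IsRiemannianManifold (𝓡 4) M] [MeasurableSpace M] [BorelSpace M]
  [SecondCountableTopology M] [Nonempty M]

variable {κ κ0 κ1 : Type} [Fintype κ] [Fintype κ0] [Fintype κ1]

/-- **the density of a twist**; `r` only depends on the frame -/
theorem dn_qG [CompactSpace M] {F : F2 E4 M} {J : EndF E4 M} (hC : Cpt F J)
    (hF : ∀ (x : M) (u v : TangentSpace (𝓡 4) x), at2 F x u v = inner ℝ (q.op 0 x u) v)
    (h : ONF (chartMetric 4 M z) (chartAt E4 z).target (chartCentre 4 M z) e) (ha : Adp q z e)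
    {P : CPair 4 M κ κ0 κ1} {b : F2 E4 M} (hb : Alt (at2 b z)) (L : LocTw q P b)
    {T : ToF 4 M} {D0 : Dat 4 M κ0} {D1 : Dat 4 M κ1} (W : WD T P D0 D1) :
    dn D0 z - dn D1 z = 1 / (192 * Real.pi ^ 2) * ev (TT h.frameOf)
      + 1 / (4 * Real.pi ^ 2) * (2 * qG F b b z) := by
  obtain ⟨al, j0, j1, C, hal⟩ := L z e h ha
  rw [dn_tw W C, qG_adp hC hF h ha hb]
  have h1 : ev (pf (dal h.frameOf al))
      = pf (fun i j => at2 b z (e i (chartCentre 4 M z)) (e j (chartCentre 4 M z))) := by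
    unfold pf
    simp only [map_add, map_sub, map_mul, hal]
  rw [h1]
  have hp := Real.pi_ne_zero
  field_simp
  ring

theorem rank_loc {P : CPair 4 M κ κ0 κ1} {b : F2 E4 M} (L : LocTw q P b)
    {T : ToF 4 M} {D0 : Dat 4 M κ0} {D1 : Dat 4 M κ1} (W : WD T P D0 D1) (z : M) :
    ∑ x, D0.p x x z = 4 ∧ ∑ x, D1.p x x z = 4 := by
  obtain ⟨e, h, ha⟩ := exists_adp q z
  obtain ⟨al, j0, j1, C, hal⟩ := L z e h ha
  exact ⟨rank0 W C, rank1 W C⟩

theorem tr_loc {P : CPair 4 M κ κ0 κ1} {b : F2 E4 M} (L : LocTw q P b)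
    {T : ToF 4 M} {D0 : Dat 4 M κ0} {D1 : Dat 4 M κ1} (W : WD T P D0 D1) (z : M) :
    ∑ x, ∑ y, D0.Q x y z * D0.p x y z = ∑ x, ∑ y, D1.Q x y z * D1.p x y z := by
  obtain ⟨e, h, ha⟩ := exists_adp q z
  obtain ⟨al, j0, j1, C, hal⟩ := L z e h ha
  exact tr_eq W C

theorem exists_ne {κ : Type} [Fintype κ] {f : κ → M → ℝ} (z : M) (h : ∑ x, f x z = 4) :
    ∃ z a, f a z ≠ 0 := by
  obtain ⟨a, -, ha⟩ := Finset.exists_ne_zero_of_sum_ne_zero
    (show ∑ x, f x z ≠ 0 by rw [h]; norm_num)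
  exact ⟨z, a, ha⟩

/-- the data of the pair -/
theorem wd_dat [CompactSpace M] (T : ToF 4 M) (P : CPair 4 M κ κ0 κ1) :
    WD T P (R249.Wk352.dat0 T P) (R249.Wk352.dat0 T (R249.Wk352.swapP P)) :=
  ⟨fun _ _ _ => rfl, rfl, rfl, fun _ _ _ => rfl, rfl, rfl⟩

/-- **the index of a twist** -/
theorem exists_index [CompactSpace M] [ConnectedSpace M] (T : ToF 4 M)
    {P : CPair 4 M κ κ0 κ1} {b : F2 E4 M} (L : LocTw q P b) :
    ∃ (d0 d1 : ℕ) (_ : KerD (R249.Wk352.dat0 T P) (opA P.D0 P.cc) d0)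
      (_ : KerD (R249.Wk352.dat0 T (R249.Wk352.swapP P)) (opB P.D1 P.cc) d1),
      Integrable (fun z => dn (R249.Wk352.dat0 T P) z - dn (R249.Wk352.dat0 T (R249.Wk352.swapP P)) z)
        (μHE[4] : Measure M) ∧
      (d0 : ℝ) - d1 = ∫ z, (dn (R249.Wk352.dat0 T P) z - dn (R249.Wk352.dat0 T (R249.Wk352.swapP P)) z)
        ∂(μHE[4] : Measure M) := by
  have W := wd_dat T P
  have z0 : M := Classical.arbitrary M
  exact index_D R249.HK286.chartStmt (R249.Wk352.dpair T P)
    (exists_ne (f := fun a z => (R249.Wk352.dat0 T P).p a a z) z0 (rank_loc L W z0).1)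
    (exists_ne (f := fun a z => (R249.Wk352.dat0 T (R249.Wk352.swapP P)).p a a z) z0 (rank_loc L W z0).2)
    (fun z => by rw [(rank_loc L W z).1, (rank_loc L W z).2]) (fun z => tr_loc L W z)

/-- the difference of the densities of two twists -/
theorem dn_diff {κ0' κ1' κ' : Type} [Fintype κ0'] [Fintype κ1'] [Fintype κ']
    [CompactSpace M] (T : ToF 4 M) {F : F2 E4 M} {J : EndF E4 M} (hC : Cpt F J)
    (hF : ∀ (x : M) (u v : TangentSpace (𝓡 4) x), at2 F x u v = inner ℝ (q.op 0 x u) v)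
    {P : CPair 4 M κ κ0 κ1} {b : F2 E4 M} (hb : ∀ x, Alt (at2 b x)) (L : LocTw q P b)
    {P' : CPair 4 M κ' κ0' κ1'} {b' : F2 E4 M} (hb' : ∀ x, Alt (at2 b' x)) (L' : LocTw q P' b')
    (z : M) :
    (dn (R249.Wk352.dat0 T P') z - dn (R249.Wk352.dat0 T (R249.Wk352.swapP P')) z)
      - (dn (R249.Wk352.dat0 T P) z - dn (R249.Wk352.dat0 T (R249.Wk352.swapP P)) z)
      = 1 / (4 * Real.pi ^ 2) * (2 * qG F b' b' z - 2 * qG F b b z) := by
  obtain ⟨e, h, ha⟩ := exists_adp q z
  rw [dn_qG hC hF h ha (hb z) L (wd_dat T P), dn_qG hC hF h ha (hb' z) L' (wd_dat T P')]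
  ring

end metric

end Crest.Agent.R235.IndEven_692
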