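import Crest.Agent.R235.IndEvenB_692
import Crest.Agent.R235.LbA_453

/-!
Row 235, package IND, leaf L6 (helper692), part C: the curvature of the connection `α = Im ⟨v, Dv⟩` of a
line bundle `p = v v^*` is `-2π` times the Chern form of `p`.
-/

set_option autoImplicit false
set_option maxSynthPendingDepth 3
set_option linter.unusedSectionVars false
set_option linter.unusedSimpArgs false
set_option maxHeartbeats 1000000

open Filter Topology Set Bundle Manifold MeasureTheory
open Matrix hiding J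
open scoped ContDiff ENNReal NNReal ComplexConjugate
open Crest.GeometryTopology.CoordMetric Crest.GeometryTopology.ChartCurvature
open Crest.Agent.R240 Crest.Agent.R240.Ch
open Crest.Agent.R202.Tens
open Crest.Agent.R247.Bo84 hiding trans
open Crest.Agent.R249.Vf281 Crest.Agent.R249.Tz2_805 Crest.Agent.R249.Tz1_805
open Crest.Agent.R249.Fr129
open Crest.Agent.R249.Sg129 (SG ev ONF germ ev_germ)
open Crest.Agent.R249.Tz805 Crest.Agent.R249.Dic805

universe u

noncomputable section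

namespace Crest.Agent.R235.IndEven_692

/-- derivative of real and imaginary parts -/
theorem fderiv_re {E : Type*} [NormedAddCommGroup E] [NormedSpace ℝ E] {f : E → ℂ} {y : E}
    (hf : DifferentiableAt ℝ f y) (u : E) :
    (fderiv ℝ f y u).re = fderiv ℝ (fun z => (f z).re) y u := by
  have h1 : HasFDerivAt (fun z => (f z).re) ((Complex.reCLM : ℂ →L[ℝ] ℝ).comp (fderiv ℝ f y)) y :=
    (Complex.reCLM : ℂ →L[ℝ] ℝ).hasFDerivAt.comp y hf.hasFDerivAt
  rw [h1.fderiv]
  rfl

theorem fderiv_im {E : Type*} [NormedAddCommGroup E] [NormedSpace ℝ E] {f : E → ℂ} {y : E}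
    (hf : DifferentiableAt ℝ f y) (u : E) :
    (fderiv ℝ f y u).im = fderiv ℝ (fun z => (f z).im) y u := by
  have h1 : HasFDerivAt (fun z => (f z).im) ((Complex.imCLM : ℂ →L[ℝ] ℝ).comp (fderiv ℝ f y)) y :=
    (Complex.imCLM : ℂ →L[ℝ] ℝ).hasFDerivAt.comp y hf.hasFDerivAt
  rw [h1.fderiv]
  rfl

variable {M : Type u} [TopologicalSpace M] [ChartedSpace E4 M] [IsManifold 𝓘(ℝ, E4) ∞ M]
  [RiemannianBundle (fun x : M => TangentSpace 𝓘(ℝ, E4) x)]
  [IsContMDiffRiemannianBundle 𝓘(ℝ, E4) ∞ E4 (fun x : M => TangentSpace 𝓘(ℝ, E4) x)]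

/-- the germ of a smooth function -/
theorem fg_eq {z : M} {f : M → ℝ} (hf : ContMDiff 𝓘(ℝ, E4) 𝓘(ℝ, ℝ) ∞ f) :
    ∃ h : ContDiffAt ℝ ∞ (f ∘ (chartAt E4 z).symm) (chartCentre 4 M z),
      fg (n := 4) z f = germ _ h := by
  have h : ContDiffAt ℝ ∞ (f ∘ (chartAt E4 z).symm) (chartCentre 4 M z) := by
    have h1 : ContMDiffAt 𝓘(ℝ, E4) 𝓘(ℝ, ℝ) ∞ f ((chartAt E4 z).symm (chartCentre 4 M z)) := hf _
    have h2 : ContMDiffAt 𝓘(ℝ, E4) 𝓘(ℝ, E4) ∞ (chartAt E4 z).symm (chartCentre 4 M z) :=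
      (contMDiffOn_chart_symm (I := 𝓘(ℝ, E4)) (n := ∞) (x := z)).contMDiffAt
        ((chartAt E4 z).open_target.mem_nhds (centre_mem (n := 4) z))
    exact (h1.comp _ h2).contDiffAt
  exact ⟨h, dif_pos h⟩

variable {z : M} {e : Fin 4 → E4 → E4}
  (h : ONF (chartMetric 4 M z) (chartAt E4 z).target (chartCentre 4 M z) e)

theorem ev_fg' {f : M → ℝ} (hf : ContMDiff 𝓘(ℝ, E4) 𝓘(ℝ, ℝ) ∞ f) : ev (fg (n := 4) z f) = f z := by
  obtain ⟨h1, h2⟩ := fg_eq (z := z) hf
  rw [h2, ev_germ, Function.comp, symm_centre]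

theorem ev_D_fg {f : M → ℝ} (hf : ContMDiff 𝓘(ℝ, E4) 𝓘(ℝ, ℝ) ∞ f) (i : Fin 4) :
    ev (h.frameOf.D i (fg (n := 4) z f))
      = fderiv ℝ (fun y => f ((chartAt E4 z).symm y)) (chartAt E4 z z)
          (e i (chartCentre 4 M z)) := by
  obtain ⟨h1, h2⟩ := fg_eq (z := z) hf
  rw [h2, h.D_germ, ev_germ]
  rfl

variable {N : ℕ} {p : M → Matrix (Fin N) (Fin N) ℂ}

theorem sm_re (hp : IsLine p) (a b : Fin N) :
    ContMDiff 𝓘(ℝ, E4) 𝓘(ℝ, ℝ) ∞ (fun m => (p m a b).re) :=
  (Complex.reCLM : ℂ →L[ℝ] ℝ).contDiff.contMDiff.comp (hp.smooth a b)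

theorem sm_im (hp : IsLine p) (a b : Fin N) :
    ContMDiff 𝓘(ℝ, E4) 𝓘(ℝ, ℝ) ∞ (fun m => (p m a b).im) :=
  (Complex.imCLM : ℂ →L[ℝ] ℝ).contDiff.contMDiff.comp (hp.smooth a b)

theorem diff_p (hp : IsLine p) (z : M) (a b : Fin N) :
    DifferentiableAt ℝ (fun y : E4 => p ((chartAt E4 z).symm y) a b) (chartAt E4 z z) := by
  have h1 : ContMDiffAt 𝓘(ℝ, E4) 𝓘(ℝ, ℂ) ∞ (fun x => p x a b)
      ((chartAt E4 z).symm (chartAt E4 z z)) := hp.smooth a b _
  have h2 : ContMDiffAt 𝓘(ℝ, E4) 𝓘(ℝ, E4) ∞ (chartAt E4 z).symm (chartAt E4 z z) :=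
    (contMDiffOn_chart_symm (I := 𝓘(ℝ, E4)) (n := ∞) (x := z)).contMDiffAt
      ((chartAt E4 z).open_target.mem_nhds (mem_chart_target E4 z))
  exact (h1.comp _ h2).contDiffAt.differentiableAt (by simp)

theorem dmat_re (hp : IsLine p) (i : Fin 4) (a b : Fin N) :
    (dmat p z (e i (chartCentre 4 M z)) a b).re
      = ev (h.frameOf.D i (fg (n := 4) z fun m => (p m a b).re)) := by
  rw [ev_D_fg h (sm_re hp a b)]
  exact fderiv_re (diff_p hp z a b) _

theorem dmat_im (hp : IsLine p) (i : Fin 4) (a b : Fin N) :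
    (dmat p z (e i (chartCentre 4 M z)) a b).im
      = ev (h.frameOf.D i (fg (n := 4) z fun m => (p m a b).im)) := by
  rw [ev_D_fg h (sm_im hp a b)]
  exact fderiv_im (diff_p hp z a b) _

/-- **the curvature**: `dα = -2π a`. -/
theorem chern_germ (hp : IsLine p) {a : Z2 M} (hc : IsChern p a)
    (x y : Fin N → SG (chartCentre 4 M z))
    (hr : ∀ k l, fg (n := 4) z (fun m => (p m k l).re) = x k * x l + y k * y l)
    (hs : ∀ k l, fg (n := 4) z (fun m => (p m k l).im) = y k * x l - x k * y l)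
    (hu : ∑ k, (x k * x k + y k * y k) = 1) (i j : Fin 4) :
    ev (dal h.frameOf (fun m => ∑ k, (x k * h.frameOf.D m (y k) - y k * h.frameOf.D m (x k))) i j)
      = -(2 * Real.pi) * val a z (e i (chartCentre 4 M z)) (e j (chartCentre 4 M z)) := by
  set F := h.frameOf with hF
  set V : Fin N → ℂ := fun k => (ev (x k) : ℂ) + Complex.I * (ev (y k) : ℂ) with hV
  set dV : Fin 4 → Fin N → ℂ := fun i k =>
    (ev (F.D i (x k)) : ℂ) + Complex.I * (ev (F.D i (y k)) : ℂ) with hdV
  have hcV : ∀ k, conj (V k) = (ev (x k) : ℂ) - Complex.I * (ev (y k) : ℂ) := by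
    intro k
    simp only [hV, map_add, map_mul, Complex.conj_ofReal, Complex.conj_I]
    ring
  have hcdV : ∀ i k, conj (dV i k)
      = (ev (F.D i (x k)) : ℂ) - Complex.I * (ev (F.D i (y k)) : ℂ) := by
    intro i k
    simp only [hdV, map_add, map_mul, Complex.conj_ofReal, Complex.conj_I]
    ring
  have hI : Complex.I * Complex.I = -1 := Complex.I_mul_I
  -- the projection at `z`
  have h1 : p z = Lb453.pr V := by
    ext k l
    rw [Lb453.pr, hcV]
    have e1 := congrArg ev (hr k l)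
    have e2 := congrArg ev (hs k l)
    rw [ev_fg' (sm_re hp k l), map_add, map_mul, map_mul] at e1
    rw [ev_fg' (sm_im hp k l), map_sub, map_mul, map_mul] at e2
    have e3 : p z k l = ((p z k l).re : ℂ) + ((p z k l).im : ℂ) * Complex.I :=
      (Complex.re_add_im _).symm
    rw [e3, e1, e2]
    push_cast
    simp only [hV]
    linear_combination ((ev (y k) : ℂ) * (ev (y l) : ℂ)) * hI
  -- the derivative at `z`
  have h2 : ∀ i, dmat p z (e i (chartCentre 4 M z))
      = Matrix.of fun k l => dV i k * conj (V l) + V k * conj (dV i l) := by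
    intro i
    ext k l
    have e1 : (dmat p z (e i (chartCentre 4 M z)) k l).re
        = ev (F.D i (x k * x l + y k * y l)) :=
      (dmat_re h hp i k l).trans (congrArg (fun t => ev (F.D i t)) (hr k l))
    have e2 : (dmat p z (e i (chartCentre 4 M z)) k l).im
        = ev (F.D i (y k * x l - x k * y l)) :=
      (dmat_im h hp i k l).trans (congrArg (fun t => ev (F.D i t)) (hs k l))
    rw [map_add, F.D_mul, F.D_mul] at e1
    rw [map_sub, F.D_mul, F.D_mul] at e2
    have e3 : dmat p z (e i (chartCentre 4 M z)) k l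
        = ((dmat p z (e i (chartCentre 4 M z)) k l).re : ℂ)
          + ((dmat p z (e i (chartCentre 4 M z)) k l).im : ℂ) * Complex.I :=
      (Complex.re_add_im _).symm
    rw [e3, e1, e2]
    rw [Matrix.of_apply, hcV, hcdV]
    simp only [map_add, map_sub, map_mul, hV, hdV]
    push_cast
    linear_combination ((ev (F.D i (y k)) : ℂ) * (ev (y l) : ℂ)
      + (ev (y k) : ℂ) * (ev (F.D i (y l)) : ℂ)) * hI
  -- unit length
  have h3 : ∑ k, conj (V k) * V k = 1 := by
    have e1 := congrArg ev hu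
    rw [map_sum, map_one] at e1
    have e2 : ∀ k, conj (V k) * V k = ((ev (x k * x k + y k * y k) : ℝ) : ℂ) := by
      intro k
      rw [hcV, map_add, map_mul, map_mul]
      push_cast
      simp only [hV]
      linear_combination (-(ev (y k) : ℂ) * (ev (y k) : ℂ)) * hI
    rw [Finset.sum_congr rfl fun k _ => e2 k, ← Complex.ofReal_sum, e1]
    simp
  have h4 : ∀ i, ∑ k, conj (dV i k) * V k = - ∑ k, conj (V k) * dV i k := by
    intro i
    have e1 := congrArg (fun t => ev (F.D i t)) hu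
    have e0 : F.D i (1 : SG (chartCentre 4 M z)) = 0 := (F.D i).map_one_eq_zero
    simp only [F.D_sum, map_sum, e0, map_zero] at e1
    rw [eq_neg_iff_add_eq_zero, ← Finset.sum_add_distrib]
    have e2 : ∀ k, conj (dV i k) * V k + conj (V k) * dV i k
        = ((ev (F.D i (x k * x k + y k * y k)) : ℝ) : ℂ) := by
      intro k
      rw [hcV, hcdV, map_add, F.D_mul, F.D_mul]
      simp only [map_add, map_mul]
      push_cast
      simp only [hV, hdV]
      linear_combination (-2 * (ev (y k) : ℂ) * (ev (F.D i (y k)) : ℂ)) * hI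
    rw [Finset.sum_congr rfl fun k _ => e2 k, ← Complex.ofReal_sum, e1]
    simp
  -- the trace
  have h5 := Lb453.curv_alg h3 (h4 i) (h4 j)
  have h6 : ∑ k, (conj (dV i k) * dV j k - conj (dV j k) * dV i k)
      = 2 * Complex.I * ((∑ k, (ev (F.D i (x k)) * ev (F.D j (y k))
          - ev (F.D j (x k)) * ev (F.D i (y k))) : ℝ) : ℂ) := by
    rw [Complex.ofReal_sum, Finset.mul_sum]
    refine Finset.sum_congr rfl fun k _ => ?_
    rw [hcdV, hcdV]
    push_cast
    simp only [hdV]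
    ring
  have h7 := hc z (e i (chartCentre 4 M z)) (e j (chartCentre 4 M z))
  rw [h7, h2 i, h2 j, h1, h5, h6, dal_unit, map_mul, map_sum]
  have h8 : ev (2 : SG (chartCentre 4 M z)) = 2 := map_ofNat ev 2
  rw [h8]
  simp only [map_sub, map_mul]
  set S : ℝ := ∑ k, (ev (F.D i (x k)) * ev (F.D j (y k)) - ev (F.D j (x k)) * ev (F.D i (y k)))
    with hS
  have hpi : (Real.pi : ℂ) ≠ 0 := by exact_mod_cast Real.pi_ne_zero
  have h9 : Complex.I / (2 * (Real.pi : ℂ)) * (2 * Complex.I * (S : ℂ))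
      = ((-(S / Real.pi) : ℝ) : ℂ) := by
    push_cast
    field_simp
    linear_combination (S : ℂ) * hI
  rw [h9, Complex.ofReal_re]
  have := Real.pi_ne_zero
  field_simp

end Crest.Agent.R235.IndEven_692
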