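import Crest.Agent.R235.IndEvenB_692
import Crest.Agent.R235.IndQ2_167
import Crest.Agent.R235.IndKer4_936

/-!
Row 235, package IND, leaf L6 (helper692), part D: the index of a twist of the quaternionic pair.

* `dens_tw`  : `dens T P z = dens T (pairZ q s) z + 1/(4π²) · 2 q_F(b, b)`;
* `index_tw` : `d0 - d1 = ∫ dens (pairZ) + 1/(4π²) I F b b`;
* `even_tw`  : if the twist is complex then `1/(4π²) I F b b` is an even integer.
-/

set_option autoImplicit false
set_option maxSynthPendingDepth 3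
set_option linter.unusedSectionVars false
set_option linter.unusedSimpArgs false
set_option maxHeartbeats 1000000

open Filter Topology Set Bundle Manifold MeasureTheory
open Matrix hiding J
open scoped ContDiff ENNReal NNReal
open Crest.GeometryTopology.CoordMetric Crest.GeometryTopology.ChartCurvature
open Crest.Agent.R240 Crest.Agent.R240.Ch
open Crest.Agent.R249.Tz2_805 Crest.Agent.R249.Tz1_805
open Crest.Agent.R249.Sg129 (SG ev ONF)
open Crest.Agent.R249.Tv57 hiding GG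
open Crest.Agent.R249.Tz805 Crest.Agent.R249.HK9_714
open Crest.Agent.R235.Ind167 Crest.Agent.R235.IndVol_57

universe u

noncomputable section

namespace Crest.Agent.R235.IndEven_692

variable {M : Type u} [MetricSpace M] [ChartedSpace E4 M] [IsManifold (𝓡 4) ∞ M]
  [RiemannianBundle (fun x : M => TangentSpace (𝓡 4) x)]
  [IsContMDiffRiemannianBundle (𝓡 4) ∞ E4 (fun x : M => TangentSpace (𝓡 4) x)]
  [IsRiemannianManifold (𝓡 4) M] [MeasurableSpace M] [BorelSpace M]
  [SecondCountableTopology M] [Nonempty M] [CompactSpace M]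

variable {κ κ' κ0 κ1 : Type} [Fintype κ] [Fintype κ'] [Fintype κ0] [Fintype κ1]
  {q : QS M} (s : PF 4 M κ) (T : ToF 4 M) {F : F2 E4 M} {J : EndF E4 M} (hC : Cpt F J)
  (hF : ∀ (x : M) (u v : TangentSpace (𝓡 4) x), at2 F x u v = inner ℝ (q.op 0 x u) v)
  {P : CPair 4 M κ' κ0 κ1} {b : F2 E4 M} (hb : ∀ x, Alt (at2 b x)) (L : LocTw q P b)

include hC hF hb L

/-- **density of a twist** -/
theorem dens_tw (z : M) : dens T P z = dens T (pairZ q s) z
    + 1 / (4 * Real.pi ^ 2) * (2 * qG F b b z) := by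
  obtain ⟨e, h, ha⟩ := exists_adp q z
  rw [rZ_eq T s h ha]
  exact dn_qG hC hF h ha (hb z) L (wdd T P)

variable [ConnectedSpace M]

/-- **index of a twist** -/
theorem index_tw : ∃ (d0 d1 : ℕ) (_ : KerD (R249.Wk352.dat0 T P) (opA P.D0 P.cc) d0)
      (_ : KerD (R249.Wk352.dat0 T (R249.Wk352.swapP P)) (opB P.D1 P.cc) d1),
      Integrable (dens T P) (μHE[4] : Measure M) ∧
      (d0 : ℝ) - d1 = ∫ z, dens T (pairZ q s) z ∂(μHE[4] : Measure M)
        + 1 / (4 * Real.pi ^ 2) * Int.I F b b := by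
  obtain ⟨d0, d1, K0, K1, hi, he⟩ := exists_index T L
  obtain ⟨c0, c1, k0, k1, hj, hf⟩ := index_Z T q s
  refine ⟨d0, d1, K0, K1, hi, ?_⟩
  have h1 : ∀ z, dens T P z = dens T (pairZ q s) z + 1 / (4 * Real.pi ^ 2) * (2 * qG F b b z) :=
    fun z => dens_tw s T hC hF hb L z
  have h2 : Integrable (fun z => 1 / (4 * Real.pi ^ 2) * (2 * qG F b b z))
      (μHE[4] : Measure M) := by
    have h3 := hi.sub hj
    refine h3.congr (Eventually.of_forall fun z => ?_)
    have h4 := h1 z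
    show dens T P z - dens T (pairZ q s) z = _
    rw [h4]; ring
  rw [he, I_eq hC, ← integral_const_mul, ← integral_add hj h2]
  exact integral_congr_ae (Eventually.of_forall h1)

include s T in
/-- **parity**: if the twist is complex then `1/(4π²) I F b b` is even. -/
theorem even_tw {J0 : κ0 → κ0 → M → ℝ} {J1 : κ1 → κ1 → M → ℝ}
    (h0 : PJ P.D0 J0) (h1 : PJ P.D1 J1)
    (hc : ∀ A y z, ∑ B, J1 A B z • P.cc B y z = ∑ x, J0 x y z • P.cc A x z) :
    ∃ n : ℤ, 1 / (4 * Real.pi ^ 2) * Int.I F b b = 2 * n := by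
  obtain ⟨d0, d1, K0, K1, hi, he⟩ := index_tw s T hC hF hb L
  obtain ⟨c0, c1, k0, k1, hj, hf⟩ := index_Z T q s
  obtain ⟨m0, rfl⟩ := IndKer4_936.two_dvd_A h0 hc (E := R249.Wk352.dat0 T P)
    (fun _ _ _ => rfl) K0
  obtain ⟨m1, rfl⟩ := IndKer4_936.two_dvd_B h0 h1 hc
    (E := R249.Wk352.dat0 T (R249.Wk352.swapP P)) (fun _ _ _ => rfl) K1
  obtain ⟨n0, rfl⟩ := IndKer4_936.ker4_A q s (E := R249.Wk352.dat0 T (pairZ q s))
    (fun _ _ _ => rfl) k0
  obtain ⟨n1, rfl⟩ := IndKer4_936.ker4_B q s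
    (E := R249.Wk352.dat0 T (R249.Wk352.swapP (pairZ q s))) (fun _ _ _ => rfl) k1
  refine ⟨(m0 : ℤ) - m1 - 2 * n0 + 2 * n1, ?_⟩
  push_cast at he hf ⊢
  rw [← hf] at he
  linarith

end Crest.Agent.R235.IndEven_692
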