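import Crest.Agent.R235.RiemD_399
import Crest.Agent.R235.IndQS_167

/-!
Row 235, package IND (helper399): bridge from a quaternionic triple of `EndF` (in particular of
`IndTri_451.IsTri`) to the structure `QS` of helper167.

* `qsOf hin (h : QT g I) : QS M`, `I b x = atJ (I b) x`;
* `qsTri hin (h : IsTri w e) : QS M` for `inner = at2 (gg e)`, `I b x = atJ (II e b) x`;
* `e_inner` : `e_b (u, v) = ⟨I_b u, v⟩`.
-/

set_option autoImplicit false
set_option maxSynthPendingDepth 3

universe u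

open Set Function Filter Bundle Manifold
open scoped Manifold ContDiff Topology ENNReal
open Crest.GeometryTopology.CoordMetric Crest.GeometryTopology.ChartCurvature
open Crest.Agent.R240 Crest.Agent.R240.Ch
open Crest.Agent.R249.Vf281 Crest.Agent.R249.Tz2_805
open Crest.Agent.R235.RiemB_399 Crest.Agent.R235.QLin_399 Crest.Agent.R235.RiemD_399
open Crest.Agent.R235.Ind167

noncomputable section

namespace Crest.Agent.R235.RiemQ_399

local notation "E4" => EuclideanSpace ℝ (Fin 4)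

variable {M : Type u} [TopologicalSpace M] [ChartedSpace E4 M] [IsManifold 𝓘(ℝ, E4) ∞ M]
  [RiemannianBundle (fun x : M => TangentSpace 𝓘(ℝ, E4) x)]
  [IsContMDiffRiemannianBundle 𝓘(ℝ, E4) ∞ E4 (fun x : M => TangentSpace 𝓘(ℝ, E4) x)]

/-- the quaternionic structure of a triple. -/
def qsOf {g : F2 E4 M} {I : Fin 3 → EndF E4 M}
    (hin : ∀ (x : M) (u v : TangentSpace 𝓘(ℝ, E4) x), inner ℝ u v = at2 g x u v)
    (h : QT g I) : QS M where
  I b x := atJ (I b) x
  sm b _ _ hX := VSm_tJ (h.smooth b) hX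
  skew b p u v := (hin p _ _).trans ((h.skew b p u v).trans (congrArg Neg.neg (hin p _ _).symm))
  sq b p u := h.sq b p u
  mul p u := h.mul 0 p u

theorem qsOf_I {g : F2 E4 M} {I : Fin 3 → EndF E4 M}
    (hin : ∀ (x : M) (u v : TangentSpace 𝓘(ℝ, E4) x), inner ℝ u v = at2 g x u v)
    (h : QT g I) (b : Fin 3) (x : M) : (qsOf hin h).I b x = atJ (I b) x := rfl

variable {w e : Fin 3 → F2 E4 M}

/-- the quaternionic structure of a positive triple. -/
def qsTri (hin : ∀ (x : M) (u v : TangentSpace 𝓘(ℝ, E4) x),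
      inner ℝ u v = at2 (IndTri_451.gg e) x u v)
    (h : IndTri_451.IsTri w e) : QS M := qsOf hin (QT.of_tri h)

theorem qsTri_I (hin : ∀ (x : M) (u v : TangentSpace 𝓘(ℝ, E4) x),
      inner ℝ u v = at2 (IndTri_451.gg e) x u v)
    (h : IndTri_451.IsTri w e) (b : Fin 3) (x : M) :
    (qsTri hin h).I b x = atJ (IndTri_451.II e b) x := rfl

/-- `e_b (u, v) = ⟨I_b u, v⟩`. -/
theorem e_inner (hin : ∀ (x : M) (u v : TangentSpace 𝓘(ℝ, E4) x),
      inner ℝ u v = at2 (IndTri_451.gg e) x u v)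
    (h : IndTri_451.IsTri w e) (b : Fin 3) (x : M) (u v : TangentSpace 𝓘(ℝ, E4) x) :
    at2 (e b) x u v = inner ℝ ((qsTri hin h).op b x u) v :=
  (h.e_eq b x u v).trans (hin x _ _).symm

/-- `w_0 (u, v) = ⟨I_0 u, v⟩`. -/
theorem w_inner (hin : ∀ (x : M) (u v : TangentSpace 𝓘(ℝ, E4) x),
      inner ℝ u v = at2 (IndTri_451.gg e) x u v)
    (h : IndTri_451.IsTri w e) (x : M) (u v : TangentSpace 𝓘(ℝ, E4) x) :
    at2 (w 0) x u v = inner ℝ ((qsTri hin h).op 0 x u) v := by
  rw [← e_inner hin h 0 x u v, h.e_zero]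

end Crest.Agent.R235.RiemQ_399

end
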