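import Crest.Agent.R235.IndEvenC_692
import Crest.Agent.R235.IndEvenD_692
import Crest.Agent.R235.RiemQ_399
import Crest.Agent.R235.QSTri_451
import Crest.Agent.R235.DichProps_723
import Crest.Agent.R235.Ip_288

/-!
Row 235, package IND, leaf L6 (helper692), part E: descent.

* `TW`      : for every line bundle there is a complex Clifford pair which is the twist of the quaternionic
              pair (453);
* `even_of` : `TW → EVEN235`.
-/

set_option autoImplicit false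
set_option maxSynthPendingDepth 3
set_option linter.unusedSectionVars false
set_option linter.unusedSimpArgs false
set_option maxHeartbeats 1000000

open Filter Topology Set Bundle Manifold MeasureTheory
open scoped ContDiff ENNReal NNReal
open Crest.GeometryTopology.CoordMetric Crest.GeometryTopology.ChartCurvature
open Crest.Agent.R240 Crest.Agent.R240.Ch
open Crest.Agent.R249.Tz2_805 Crest.Agent.R249.Tz1_805
open Crest.Agent.R249.Tz805
open Crest.Agent.R235.Ind167 Crest.Agent.R235.IndVol_57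

universe u

noncomputable section

namespace Crest.Agent.R235.IndEven_692

/-- the twist of the quaternionic pair by a line bundle -/
def TW : Prop :=
  ∀ (M : Type u) [TopologicalSpace M] [ChartedSpace E4 M] [IsManifold (𝓡 4) ∞ M]
    [RiemannianBundle (fun x : M => TangentSpace (𝓡 4) x)]
    [IsContMDiffRiemannianBundle (𝓡 4) ∞ E4 (fun x : M => TangentSpace (𝓡 4) x)]
    (q : QS M) (κ : Type) [Fintype κ] (_ : PF 4 M κ) (N : ℕ)
    (p : M → Matrix (Fin N) (Fin N) ℂ) (a : Z2 M), IsLine p → IsChern p a →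
    ∃ (κ0 κ1 : Type) (_ : Fintype κ0) (_ : Fintype κ1) (P : CPair 4 M κ κ0 κ1)
      (J0 : κ0 → κ0 → M → ℝ) (J1 : κ1 → κ1 → M → ℝ), PJ P.D0 J0 ∧ PJ P.D1 J1 ∧
      (∀ A y z, ∑ B, J1 A B z • P.cc B y z = ∑ x, J0 x y z • P.cc A x z) ∧
      LocTw q P ((-(2 * Real.pi)) • (a.1.1 : F2 E4 M))

section inst

variable {M : Type u} [MetricSpace M] [CompactSpace M] [ConnectedSpace M]
  [ChartedSpace E4 M] [IsManifold (𝓡 4) ∞ M]
  [RiemannianBundle (fun x : M => TangentSpace (𝓡 4) x)]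
  [IsContMDiffRiemannianBundle (𝓡 4) ∞ E4 (fun x : M => TangentSpace (𝓡 4) x)]
  [IsRiemannianManifold (𝓡 4) M] [MeasurableSpace M] [BorelSpace M]
  [SecondCountableTopology M] [Nonempty M]

/-- the constant of the twist -/
theorem I_smul_chern {F a : Z2 M} {J : EndF E4 M} (hC : Cpt (F.1.1 : F2 E4 M) J) :
    1 / (4 * Real.pi ^ 2) * Int.I (F.1.1 : F2 E4 M) ((-(2 * Real.pi)) • (a.1.1 : F2 E4 M))
      ((-(2 * Real.pi)) • (a.1.1 : F2 E4 M)) = pI F a a := by
  have h1 := pI_eq_I F ((-(2 * Real.pi)) • a) ((-(2 * Real.pi)) • a)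
  rw [pI_smul_left, pI_smul_right] at h1
  have h2 : Int.I (F.1.1 : F2 E4 M) ((-(2 * Real.pi)) • (a.1.1 : F2 E4 M))
      ((-(2 * Real.pi)) • (a.1.1 : F2 E4 M)) = -(2 * Real.pi) * (-(2 * Real.pi) * pI F a a) :=
    h1.symm
  rw [h2]
  have := Real.pi_ne_zero
  field_simp
  ring

theorem even_inst (hTW : TW.{u}) (w : Trip M) (e : Fin 3 → F2 E4 M)
    (he : IndTri_451.IsTri (IndTri_451.und w) e)
    (hin : ∀ (x : M) (u v : TangentSpace (𝓡 4) x), inner ℝ u v = at2 (IndTri_451.gg e) x u v)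
    {N : ℕ} {p : M → Matrix (Fin N) (Fin N) ℂ} {a : Z2 M} (hp : IsLine p) (hc : IsChern p a) :
    ∃ n : ℤ, pI (w 0) a a = 2 * n := by
  obtain ⟨m, ⟨s⟩⟩ := exists_PF (n := 4) (M := M)
  have hC : Cpt ((w 0).1.1 : F2 E4 M) (IndTri_451.II e 0) := (QSTri_451.comp_w he hin).cpt
  obtain ⟨κ0, κ1, i0, i1, P, J0, J1, h0, h1, hcc, L⟩ :=
    hTW M (RiemQ_399.qsTri hin he) _ s N p a hp hc
  have hb : ∀ x, Alt (at2 ((-(2 * Real.pi)) • (a.1.1 : F2 E4 M)) x) := fun x =>
    val_alt ((-(2 * Real.pi)) • a) x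
  obtain ⟨n, hn⟩ := even_tw s (R249.Tof352.tof 4 M) hC
    (fun x u v => RiemQ_399.w_inner hin he x u v) hb L h0 h1 hcc
  exact ⟨n, by rw [← I_smul_chern hC, hn]⟩

end inst

/-- **EVEN235** -/
theorem even_of (hTW : TW.{u}) : DichProps_723.EVEN235.{u} := by
  intro M _ _ _ _ _ _ w hw c hc
  obtain ⟨N, p, a, hp, hch, rfl⟩ := hc
  rw [ip_cls (hw.vol 0)]
  obtain ⟨e, he⟩ := IndTri_451.exists_tri hw
  obtain ⟨rb, crb, mM, rfl, hd, hin⟩ := Riem_399.exists_riem (QSTri_451.met_gg he)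
  haveI : IsRiemannianManifold (𝓡 4) M := ⟨hd⟩
  letI : MeasurableSpace M := borel M
  haveI : BorelSpace M := ⟨rfl⟩
  haveI := Riem_399.secondCountable (M := M)
  exact even_inst hTW w e he hin hp hch

end Crest.Agent.R235.IndEven_692
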