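import Mathlib

/-!
Row 235 (S0364), package IND (helper167), leaf L1 (INTERP), helper936: if
`∫ (r₀ + s² c₂ + s³ c₃ + s⁴ c₄)` exists and is an integer for every real `s`, it does not depend on
`s`.
-/

set_option autoImplicit false

open MeasureTheory Set Filter Topology

namespace Crest.Agent.R235.IndInterp_936

/-- a continuous function on the line with integer values is constant. -/
theorem const_of_int (p : ℝ → ℝ) (hp : Continuous p) (hZ : ∀ s, ∃ k : ℤ, p s = k) (s t : ℝ) :
    p s = p t := by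
  choose k hk using hZ
  have hc : Continuous k := by
    rw [continuous_discrete_rng]
    intro m
    have e : k ⁻¹' {m} = p ⁻¹' (Ioo ((m : ℝ) - 1) ((m : ℝ) + 1)) := by
      ext x
      simp only [mem_preimage, mem_singleton_iff, mem_Ioo]
      rw [hk]
      constructor
      · rintro rfl
        constructor <;> linarith
      · rintro ⟨h1, h2⟩
        have h1' : m - 1 < k x := by exact_mod_cast h1
        have h2' : k x < m + 1 := by exact_mod_cast h2
        omega
    rw [e]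
    exact isOpen_Ioo.preimage hp
  have h := PreconnectedSpace.constant (α := ℝ) (Y := ℤ) inferInstance hc (x := s) (y := t)
  rw [hk, hk, h]

variable {α : Type*} [MeasurableSpace α] {μ : Measure α} {r0 c2 c3 c4 : α → ℝ}

/-- the coefficients are integrable. -/
theorem integrable_coeff
    (hint : ∀ s : ℝ, Integrable (fun z => r0 z + s ^ 2 * c2 z + s ^ 3 * c3 z + s ^ 4 * c4 z) μ) :
    Integrable r0 μ ∧ Integrable c2 μ ∧ Integrable c3 μ ∧ Integrable c4 μ := by
  have h0 : Integrable r0 μ := by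
    have := hint 0
    simpa using this
  have h1 := (hint 1).sub h0
  have h2 := (hint (-1)).sub h0
  have h3 := (hint 2).sub h0
  have hc3 : Integrable c3 μ := by
    have h4 := (h1.sub h2).const_mul (1 / 2)
    refine h4.congr (Eventually.of_forall fun z => ?_)
    simp only [Pi.sub_apply]
    ring
  have hc4 : Integrable c4 μ := by
    have h4 := ((h3.sub (hc3.const_mul 8)).sub ((h1.add h2).const_mul 2)).const_mul (1 / 12)
    refine h4.congr (Eventually.of_forall fun z => ?_)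
    simp only [Pi.sub_apply, Pi.add_apply]
    ring
  have hc2 : Integrable c2 μ := by
    have h4 := (h1.sub hc3).sub hc4
    refine h4.congr (Eventually.of_forall fun z => ?_)
    simp only [Pi.sub_apply]
    ring
  exact ⟨h0, hc2, hc3, hc4⟩

/-- **INTERP**. -/
theorem interp
    (hint : ∀ s : ℝ, Integrable (fun z => r0 z + s ^ 2 * c2 z + s ^ 3 * c3 z + s ^ 4 * c4 z) μ)
    (hZ : ∀ s : ℝ, ∃ k : ℤ, ∫ z, (r0 z + s ^ 2 * c2 z + s ^ 3 * c3 z + s ^ 4 * c4 z) ∂μ = k)
    (s t : ℝ) :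
    ∫ z, (r0 z + s ^ 2 * c2 z + s ^ 3 * c3 z + s ^ 4 * c4 z) ∂μ =
      ∫ z, (r0 z + t ^ 2 * c2 z + t ^ 3 * c3 z + t ^ 4 * c4 z) ∂μ := by
  obtain ⟨h0, h2, h3, h4⟩ := integrable_coeff hint
  have e : ∀ s : ℝ, ∫ z, (r0 z + s ^ 2 * c2 z + s ^ 3 * c3 z + s ^ 4 * c4 z) ∂μ =
      (∫ z, r0 z ∂μ) + s ^ 2 * (∫ z, c2 z ∂μ) + s ^ 3 * (∫ z, c3 z ∂μ) +
        s ^ 4 * (∫ z, c4 z ∂μ) := by
    intro s
    have a1 : Integrable (fun z => r0 z + s ^ 2 * c2 z) μ := h0.add (h2.const_mul _)
    have a2 : Integrable (fun z => r0 z + s ^ 2 * c2 z + s ^ 3 * c3 z) μ :=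
      a1.add (h3.const_mul _)
    rw [integral_add a2 (h4.const_mul _), integral_add a1 (h3.const_mul _),
      integral_add h0 (h2.const_mul _), integral_const_mul, integral_const_mul,
      integral_const_mul]
  have hc : Continuous fun s : ℝ =>
      ∫ z, (r0 z + s ^ 2 * c2 z + s ^ 3 * c3 z + s ^ 4 * c4 z) ∂μ := by
    simp only [e]
    fun_prop
  exact const_of_int _ hc hZ s t

/-- **INTERP**, from `s = 1` to `s = 0`. -/
theorem interp_one
    (hint : ∀ s : ℝ, Integrable (fun z => r0 z + s ^ 2 * c2 z + s ^ 3 * c3 z + s ^ 4 * c4 z) μ)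
    (hZ : ∀ s : ℝ, ∃ k : ℤ, ∫ z, (r0 z + s ^ 2 * c2 z + s ^ 3 * c3 z + s ^ 4 * c4 z) ∂μ = k) :
    ∫ z, (r0 z + c2 z + c3 z + c4 z) ∂μ = ∫ z, r0 z ∂μ := by
  have h := interp hint hZ 1 0
  simpa using h

end Crest.Agent.R235.IndInterp_936
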