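import Crest.Agent.R235.IndKer4_936
import Crest.Agent.R235.IndSig2_723

/-!
Row 235 (S0364), package IND (helper167), leaf L2 (KER4), helper936, part 2: the exact Prop
`IndSig2_723.KER4`.
-/

set_option autoImplicit false
set_option maxSynthPendingDepth 3

open scoped ContDiff Manifold
open Crest.Agent.R249.Tv57 Crest.Agent.R235.Ind167

namespace Crest.Agent.R235.IndKer4b_936

/-- **KER4** -/
theorem ker4 : IndSig2_723.KER4 := by
  intro M _ _ _ _ _ _ _ _ _ _ _ _ κ _ T q s d0 d1 ⟨k0⟩ ⟨k1⟩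
  exact ⟨IndKer4_936.ker4_A q s (fun _ _ _ => rfl) k0, IndKer4_936.ker4_B q s (fun _ _ _ => rfl) k1⟩

end Crest.Agent.R235.IndKer4b_936
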