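import Crest.Agent.R235.IndPar_167
import Crest.Agent.R235.IndDen_167
import Crest.Agent.R249.Idx12_789
import Crest.Agent.R249.TofM_352
import Crest.Agent.R249.HKEnd_286

/-!
Row 235, package IND (helper167), part 6 (leaf L3 INDQ): densities and the INDEX THEOREM for the
quaternionic Clifford pairs.

* `index_of` : the index theorem of R249 for any Clifford pair whose local frames have equal rank
  and equal trace of the potentials;
* `densQ` : `dn D0 z - dn D1 z` for `pairQ` in an adapted frame;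
* `indexQ` : the index theorem for `pairQ q s hth`;
* `dens_poly`, `index_const` : `th = s0 • etaV`: the density is a polynomial in `s0`, the index does
  not depend on `s0`.
-/

set_option autoImplicit false
set_option maxSynthPendingDepth 3
set_option linter.unusedSectionVars false
set_option linter.unusedSimpArgs false
set_option maxHeartbeats 1000000

open Filter Topology Set Bundle Manifold MeasureTheory
open Matrix hiding J
open scoped ContDiff ENNReal NNReal
open Crest.GeometryTopology.CoordMetric Crest.GeometryTopology.ChartCurvature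
  Crest.GeometryTopology.PointedLimit
open Crest.Agent.R202.Tens Crest.Agent.R247.Bo84 Crest.Agent.R249.FrmB_285 Crest.Agent.R249.Vf281
  Crest.Agent.R249.Tz1_805 Crest.Agent.R249.Tz2_805
open Crest.Agent.R249.Fr129
open Crest.Agent.R249.C2_198 hiding cp half_two
open Crest.Agent.R249.Sg129 hiding fg fg_add fg_sub fg_mul fg_const fg_sum ev_fg contMDiff_inner VSm_mCov
open Crest.Agent.R249.Tz805 Crest.Agent.R249.Dic805
open Crest.Agent.R249.Tv57 Crest.Agent.R249.HK9_714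
open Crest.Agent.R235.IndAlg_167 Crest.Agent.R235.IndDen_167

noncomputable section

namespace Crest.Agent.R235.Ind167

section gen

universe v

variable {M : Type v} [MetricSpace M] [ChartedSpace (EuclideanSpace ℝ (Fin 4)) M]
  [IsManifold (𝓡 4) ∞ M]
  [RiemannianBundle (fun p : M => TangentSpace (𝓡 4) p)]
  [IsContMDiffRiemannianBundle (𝓡 4) ∞ (EuclideanSpace ℝ (Fin 4)) (fun p : M => TangentSpace (𝓡 4) p)]
  [IsRiemannianManifold (𝓡 4) M] [MeasurableSpace M] [BorelSpace M]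
  [SecondCountableTopology M] [Nonempty M]

variable {κ κ0 κ1 : Type} [Fintype κ] [Fintype κ0] [Fintype κ1]

/-- the `Dat`s of 352's `dpair` -/
theorem wdd (T : ToF 4 M) (P : CPair 4 M κ κ0 κ1) :
    WD T P (R249.Wk352.dat0 T P) (R249.Wk352.dat0 T (R249.Wk352.swapP P)) where
  X0 _ _ _ := rfl
  p0 := rfl
  Q0 := rfl
  X1 _ _ _ := rfl
  p1 := rfl
  Q1 := rfl

/-- local data with equal ranks and equal traces of the potentials -/
def Bal (P : CPair 4 M κ κ0 κ1) : Prop :=
  ∀ z : M, ∃ e, ∃ h : ONF (chartMetric 4 M z) (chartAt (EuclideanSpace ℝ (Fin 4)) z).target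
      (chartCentre 4 M z) e, ∃ (ι0 ι1 : Type) (_ : Fintype ι0) (_ : DecidableEq ι0)
      (_ : Fintype ι1) (_ : DecidableEq ι1) (a0 : Fin 4 → Matrix ι0 ι0 (SG (chartCentre 4 M z)))
      (a1 : Fin 4 → Matrix ι1 ι1 (SG (chartCentre 4 M z)))
      (c : Fin 4 → Matrix ι1 ι0 (SG (chartCentre 4 M z)))
      (j0 : Matrix κ0 ι0 (SG (chartCentre 4 M z))) (j1 : Matrix κ1 ι1 (SG (chartCentre 4 M z))),
      CLoc P.D0 P.D1 P.cc h a0 a1 c j0 j1 ∧ Fintype.card ι0 = Fintype.card ι1 ∧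
      Fintype.card ι0 ≠ 0 ∧
      (R249.C2_198.Q h.frameOf a0 c).trace = (R249.C2_198.Q h.frameOf a1 (fun i => (c i)ᵀ)).trace

/-- **the index theorem** for balanced Clifford pairs -/
theorem index_of [CompactSpace M] [ConnectedSpace M] (T : ToF 4 M) (P : CPair 4 M κ κ0 κ1)
    (hP : Bal P) :
    ∃ (d0 d1 : ℕ) (_ : KerD (R249.Wk352.dat0 T P) (R249.Wk352.dpair T P).A d0)
      (_ : KerD (R249.Wk352.dat0 T (R249.Wk352.swapP P)) (R249.Wk352.dpair T P).B d1),
      Integrable (fun z => dn (R249.Wk352.dat0 T P) z - dn (R249.Wk352.dat0 T (R249.Wk352.swapP P)) z)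
        (μHE[4] : Measure M) ∧
      (d0 : ℝ) - d1 = ∫ z, (dn (R249.Wk352.dat0 T P) z - dn (R249.Wk352.dat0 T (R249.Wk352.swapP P)) z)
        ∂(μHE[4] : Measure M) := by
  have hr : ∀ z, ∑ a, (R249.Wk352.dat0 T P).p a a z
      = ∑ a, (R249.Wk352.dat0 T (R249.Wk352.swapP P)).p a a z := by
    intro z
    obtain ⟨e, h, ι0, ι1, i1, i2, i3, i4, a0, a1, c, j0, j1, C, hc, h0, ht⟩ := hP z
    rw [(wdd T P).rank0 C, (wdd T P).rank1 C, hc]
  have hq : ∀ z, ∑ a, ∑ b, (R249.Wk352.dat0 T P).Q a b z * (R249.Wk352.dat0 T P).p a b z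
      = ∑ a, ∑ b, (R249.Wk352.dat0 T (R249.Wk352.swapP P)).Q a b z
        * (R249.Wk352.dat0 T (R249.Wk352.swapP P)).p a b z := by
    intro z
    obtain ⟨e, h, ι0, ι1, i1, i2, i3, i4, a0, a1, c, j0, j1, C, hc, h0, ht⟩ := hP z
    rw [(wdd T P).tr0 C, (wdd T P).tr1 C, ht]
  have hne : ∀ z, ∑ a, (R249.Wk352.dat0 T P).p a a z ≠ 0 := by
    intro z
    obtain ⟨e, h, ι0, ι1, i1, i2, i3, i4, a0, a1, c, j0, j1, C, hc, h0, ht⟩ := hP z
    rw [(wdd T P).rank0 C]
    exact_mod_cast h0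
  obtain ⟨z⟩ := ‹Nonempty M›
  have h0 : ∃ z a, (R249.Wk352.dat0 T P).p a a z ≠ 0 := by
    obtain ⟨a, -, ha⟩ := Finset.exists_ne_zero_of_sum_ne_zero (hne z)
    exact ⟨z, a, ha⟩
  have h1 : ∃ z a, (R249.Wk352.dat0 T (R249.Wk352.swapP P)).p a a z ≠ 0 := by
    have := hne z
    rw [hr z] at this
    obtain ⟨a, -, ha⟩ := Finset.exists_ne_zero_of_sum_ne_zero this
    exact ⟨z, a, ha⟩
  haveI : Nonempty M := ⟨z⟩
  exact index_D Crest.Agent.R249.HK286.chartStmt (R249.Wk352.dpair T P) h0 h1 hr hq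

variable (q : QS M) (s : PF 4 M κ)
  {th : Fin 3 → (z : M) → TangentSpace 𝓘(ℝ, EuclideanSpace ℝ (Fin 4)) z}
  (hth : ∀ b z, VSm 4 ∞ (th b) z)

/-- `pairQ` is balanced -/
theorem balQ : Bal (pairQ q s hth) := by
  intro z
  obtain ⟨e, h, ha⟩ := exists_adp q z
  exact ⟨e, h, _, _, _, _, _, _, _, _, _, _, _, clocQ s hth h ha, rfl, by simp,
    trQ h.frameOf (thF th z e)⟩

/-- **density of `pairQ`** in an adapted frame -/
theorem densQ {T : ToF 4 M} {D0 : Dat 4 M (Fin 4)} {D1 : Dat 4 M κ}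
    (W : WD T (pairQ q s hth) D0 D1) {z : M}
    {e : Fin 4 → EuclideanSpace ℝ (Fin 4) → EuclideanSpace ℝ (Fin 4)}
    (h : ONF (chartMetric 4 M z) (chartAt (EuclideanSpace ℝ (Fin 4)) z).target
      (chartCentre 4 M z) e) (ha : Adp q z e) :
    dn D0 z - dn D1 z
      = 1 / (32 * Real.pi ^ 2) * ev (-4 * ∑ c, pf (fun i j => GG h.frameOf (thF th z e) i j c))
        + 1 / (192 * Real.pi ^ 2) * ev (TT h.frameOf) := by
  have C := clocQ s hth h ha
  rw [W.dn0 C, W.dn1 C, ← trQQ, ← tO_b h.frameOf (thF th z e), map_sub, map_sub]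
  ring

/-- **the index theorem for `pairQ`** -/
theorem indexQ [CompactSpace M] [ConnectedSpace M] (T : ToF 4 M) :
    ∃ (d0 d1 : ℕ) (_ : KerD (R249.Wk352.dat0 T (pairQ q s hth)) (R249.Wk352.dpair T (pairQ q s hth)).A d0)
      (_ : KerD (R249.Wk352.dat0 T (R249.Wk352.swapP (pairQ q s hth)))
        (R249.Wk352.dpair T (pairQ q s hth)).B d1),
      Integrable (fun z => dn (R249.Wk352.dat0 T (pairQ q s hth)) z
        - dn (R249.Wk352.dat0 T (R249.Wk352.swapP (pairQ q s hth))) z) (μHE[4] : Measure M) ∧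
      (d0 : ℝ) - d1 = ∫ z, (dn (R249.Wk352.dat0 T (pairQ q s hth)) z
        - dn (R249.Wk352.dat0 T (R249.Wk352.swapP (pairQ q s hth))) z) ∂(μHE[4] : Measure M) :=
  index_of T _ (balQ q s hth)

end gen

end Crest.Agent.R235.Ind167
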