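import Crest.Agent.R235.DichProps_723
import Crest.Agent.R235.QSTri_451
import Crest.Agent.R235.HodgePr_194
import Crest.Agent.R235.IndPair_167
import Crest.Agent.R249.Tz6_805

/-!
Row 235 (S0364), package IND, leaf L5 (helper723): `SIG235`, part 1: arithmetic and descent.

* `sig_num`   : the arithmetic of the index numbers;
* `SigOut`    : the conclusion of `SIG235` for one triple;
* `HodgeOut`  : the output of HODGE (helper194) in terms of the four kernel dimensions;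
* `sigOut_of` : HODGE + index identities => `SigOut`;
* `Inst`      : the statement over the Riemannian instances;
* `sig235_of` : the descent.
-/

set_option autoImplicit false
set_option maxSynthPendingDepth 3
set_option linter.unusedSectionVars false
set_option linter.unusedVariables false
set_option linter.style.haveILetI false

open Set Function Filter MeasureTheory Bundle
open scoped Manifold ContDiff Topology

namespace Crest.Agent.R235.IndSig_723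

open Crest.Agent.R240 Crest.Agent.R240.Ch Crest.Agent.R240.Int
open Crest.Agent.R235.DichProps_723

noncomputable section

/-- the arithmetic. -/
theorem sig_num {b1 bp bm d0H d1H d0R d1R d00 d01 : ℕ} {IH IR I0 : ℝ}
    (eH : (d0H : ℝ) - d1H = IH) (eR : (d0R : ℝ) - d1R = IR) (e0 : (d00 : ℝ) - d01 = I0)
    (hH0 : IH = I0) (hR : IH - IR = -4 * I0) (h40 : 4 ∣ d00) (h41 : 4 ∣ d01)
    (hp : bp + 1 = d0H) (hm : bm + 1 = d0R) (b1H : b1 = d1H) (b1R : b1 = d1R) :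
    5 * bp + 4 = 4 * b1 + bm ∧ (4 : ℤ) ∣ 1 - b1 + bp := by
  subst hp hm b1H
  subst b1R
  have h1 : ((bp + 1 : ℕ) : ℝ) - b1 = (d00 : ℝ) - d01 := by rw [eH, hH0, e0]
  have h2 : (((bp + 1 : ℕ) : ℝ) - b1) - (((bm + 1 : ℕ) : ℝ) - b1) = -4 * ((d00 : ℝ) - d01) := by
    rw [eH, eR, hR, e0]
  have h1' : ((bp + 1 : ℕ) : ℤ) - b1 = (d00 : ℤ) - d01 := by exact_mod_cast h1
  have h2' : (((bp + 1 : ℕ) : ℤ) - b1) - (((bm + 1 : ℕ) : ℤ) - b1) = -4 * ((d00 : ℤ) - d01) := by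
    exact_mod_cast h2
  obtain ⟨x, hx⟩ := h40
  obtain ⟨y, hy⟩ := h41
  subst hx hy
  push_cast at h1' h2'
  refine ⟨by omega, ⟨(x : ℤ) - y, by linarith⟩⟩

section out

variable {M : Type} [TopologicalSpace M] [T2Space M] [CompactSpace M]
  [ChartedSpace E4 M] [IsManifold 𝓘(ℝ, E4) ∞ M]

/-- the conclusion of `SIG235`. -/
def SigOut (w : Trip M) : Prop :=
  ∃ (b1 bp bm : ℕ) (P N : Submodule ℝ (H2 M)), HasB1 M b1 ∧
    FiniteDimensional ℝ (H2 M) ∧ P ⊔ N = ⊤ ∧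
    Module.finrank ℝ P = bp ∧ Module.finrank ℝ N = bm ∧
    (∀ x ∈ P, x ≠ 0 → 0 < ip (w 0) x x) ∧ (∀ x ∈ N, x ≠ 0 → ip (w 0) x x < 0) ∧
    (∀ x ∈ P, ∀ y ∈ N, ip (w 0) x y = 0) ∧
    5 * bp + 4 = 4 * b1 + bm ∧ (4 : ℤ) ∣ 1 - b1 + bp

/-- the output of HODGE, in terms of the kernel dimensions. -/
def HodgeOut (w : Trip M) (d0H d1H d0R d1R : ℕ) : Prop :=
  ∃ (P N : Submodule ℝ (H2 M)), HasB1 M d1H ∧ d1H = d1R ∧
    FiniteDimensional ℝ (H2 M) ∧ P ⊔ N = ⊤ ∧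
    Module.finrank ℝ P + 1 = d0H ∧ Module.finrank ℝ N + 1 = d0R ∧
    (∀ x ∈ P, x ≠ 0 → 0 < ip (w 0) x x) ∧ (∀ x ∈ N, x ≠ 0 → ip (w 0) x x < 0) ∧
    (∀ x ∈ P, ∀ y ∈ N, ip (w 0) x y = 0)

theorem sigOut_of {w : Trip M} {d0H d1H d0R d1R d00 d01 : ℕ} {IH IR I0 : ℝ}
    (h : HodgeOut w d0H d1H d0R d1R)
    (eH : (d0H : ℝ) - d1H = IH) (eR : (d0R : ℝ) - d1R = IR) (e0 : (d00 : ℝ) - d01 = I0)
    (hH0 : IH = I0) (hR : IH - IR = -4 * I0) (h40 : 4 ∣ d00) (h41 : 4 ∣ d01) : SigOut w := by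
  obtain ⟨P, N, hb, he, hf, hs, hp, hm, h1, h2, h3⟩ := h
  obtain ⟨e1, e2⟩ := sig_num eH eR e0 hH0 hR h40 h41 hp hm rfl he
  exact ⟨d1H, _, _, P, N, hb, hf, hs, rfl, rfl, h1, h2, h3, e1, e2⟩

end out

/-- the statement over the Riemannian instances. -/
def Inst : Prop :=
  ∀ (M : Type) [MetricSpace M] [CompactSpace M] [ConnectedSpace M]
    [ChartedSpace (EuclideanSpace ℝ (Fin 4)) M] [IsManifold (𝓡 4) ∞ M]
    [RiemannianBundle (fun p : M => TangentSpace (𝓡 4) p)]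
    [IsContMDiffRiemannianBundle (𝓡 4) ∞ (EuclideanSpace ℝ (Fin 4))
      (fun p : M => TangentSpace (𝓡 4) p)]
    [IsRiemannianManifold (𝓡 4) M] [MeasurableSpace M] [BorelSpace M]
    [SecondCountableTopology M] [Nonempty M] (w : Trip M), Pos3 w →
    ∀ (e : Fin 3 → F2 E4 M), IndTri_451.IsTri (IndTri_451.und w) e →
    (∀ (x : M) (u v : TangentSpace 𝓘(ℝ, E4) x), inner ℝ u v = at2 (IndTri_451.gg e) x u v) →
    SigOut w

/-- the descent. -/
theorem sig235_of (H : Inst) : SIG235.{0} := by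
  intro M tM _ _ _ _ _ w hw
  obtain ⟨e, he⟩ := IndTri_451.exists_tri hw
  obtain ⟨rb, crb, mM, rfl, hd, hin⟩ := Riem_399.exists_riem (QSTri_451.met_gg he)
  haveI : IsRiemannianManifold (𝓡 4) M := ⟨hd⟩
  letI : MeasurableSpace M := borel M
  haveI : BorelSpace M := ⟨rfl⟩
  haveI := Riem_399.secondCountable (M := M)
  exact H M w hw e he hin

end

end Crest.Agent.R235.IndSig_723
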