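import Crest.Agent.R249.Tv7_57

/-!
# R235, PACKAGE IND, node IND-6 SOLVE (helper956), part A: Fredholm alternative for the abstract form.

* `formSolve`  : `a(v, w) - s <j v, j w> = <f, j w>` is solvable when `f` is orthogonal to the
                 eigenvectors with `lam k = s`;
* `weakSolve`  : the same for `∫ en u v` on `L²(E)` (`AD`);
* `weak_div_rhs` : the equation component by component.
-/

set_option autoImplicit false
set_option linter.unusedSectionVars false
open MeasureTheory Set Filter Topology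
open scoped ENNReal NNReal RealInnerProductSpace

noncomputable section
namespace Crest.Agent.R235.IndSolve_956

open Crest.Agent.R202.Sp Crest.Agent.R247.Dir593 Crest.Agent.R249.Tv57

/-! ### the abstract form -/

section form
variable {H : Type*} [NormedAddCommGroup H] [InnerProductSpace ℝ H] [CompleteSpace H]
variable {V : Type*} [NormedAddCommGroup V] [InnerProductSpace ℝ V] [CompleteSpace V]
variable {j : V →L[ℝ] H} {A : CForm j}

/-- multipliers bounded on the spectrum -/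
theorem exists_bound {lam : ℕ → ℝ} (hl : Tendsto lam atTop atTop) (s : ℝ) :
    ∃ C : ℝ, 0 ≤ C ∧ ∀ k, |(lam k - s)⁻¹| ≤ C := by
  have h1 : ∀ᶠ k in atTop, s + 1 ≤ lam k := hl.eventually_ge_atTop _
  obtain ⟨N, hN⟩ := eventually_atTop.1 h1
  refine ⟨1 + ∑ k ∈ Finset.range N, |(lam k - s)⁻¹|, by positivity, fun k => ?_⟩
  by_cases hk : k < N
  · have := Finset.single_le_sum (f := fun k => |(lam k - s)⁻¹|) (fun i _ => abs_nonneg _)
      (Finset.mem_range.2 hk)
    linarith
  · have h2 := hN k (not_lt.1 hk)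
    have h3 : 1 ≤ lam k - s := by linarith
    have h4 : |(lam k - s)⁻¹| ≤ 1 := by
      rw [abs_inv, abs_of_pos (by linarith)]
      exact inv_le_one_of_one_le₀ h3
    have h5 : 0 ≤ ∑ k ∈ Finset.range N, |(lam k - s)⁻¹| := Finset.sum_nonneg fun i _ => abs_nonneg _
    linarith

/-- multiplication of the coefficients by a bounded sequence -/
theorem exists_mult (e : HilbertBasis ℕ ℝ H) {m : ℕ → ℝ} {C : ℝ} (hm : ∀ k, |m k| ≤ C) (f : H) :
    ∃ y : H, ∀ k, ⟪e k, y⟫ = m k * ⟪e k, f⟫ := by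
  have h1 : Memℓp (fun k => m k * ⟪e k, f⟫) 2 := by
    have h2 : Memℓp (fun k => e.repr f k) 2 := (e.repr f).2
    refine memℓp_gen ?_
    have h3 : Summable fun k => ‖e.repr f k‖ ^ (2 : ℝ≥0∞).toReal := h2.summable (by norm_num)
    refine Summable.of_nonneg_of_le (fun k => by positivity) (fun k => ?_) (h3.mul_left (C ^ 2))
    have h4 : e.repr f k = ⟪e k, f⟫ := e.repr_apply_apply f k
    rw [h4]
    simp only [ENNReal.toReal_ofNat, Real.rpow_ofNat, norm_mul, mul_pow, Real.norm_eq_abs, sq_abs]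
    have h5 : m k ^ 2 ≤ C ^ 2 := by
      rw [← sq_abs (m k)]
      exact pow_le_pow_left₀ (abs_nonneg _) (hm k) 2
    exact mul_le_mul_of_nonneg_right h5 (sq_nonneg _)
  refine ⟨e.repr.symm ⟨_, h1⟩, fun k => ?_⟩
  rw [← e.repr_apply_apply, LinearIsometryEquiv.apply_symm_apply]

theorem ext_basis (e : HilbertBasis ℕ ℝ H) {x y : H} (h : ∀ k, ⟪e k, x⟫ = ⟪e k, y⟫) : x = y := by
  apply e.repr.injective
  ext k
  rw [e.repr_apply_apply, e.repr_apply_apply, h k]

/-- **Fredholm alternative** for a form with compact resolvent -/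
theorem formSolve (S : FormSeq A) (s : ℝ) {f : H} (hf : ∀ k, S.lam k = s → ⟪S.e k, f⟫ = 0) :
    ∃ v : V, ∀ w, A.a v w - s * ⟪j v, j w⟫ = ⟪f, j w⟫ := by
  obtain ⟨C, -, hC⟩ := exists_bound S.lim s
  obtain ⟨y, hy⟩ := exists_mult S.e hC f
  set g : H := f + (s + 1) • y with hg
  have h1 : j (A.T g) = y := by
    refine ext_basis S.e fun k => ?_
    have a1 : A.B (A.T g) (S.ev k) = ⟪g, S.e k⟫ := by rw [A.B_T, S.j_ev]
    have a2 := S.B_ev k (A.T g)
    rw [A.B_symm, a1] at a2
    have a3 : ⟪g, S.e k⟫ = ⟪S.e k, f⟫ + (s + 1) * ⟪S.e k, y⟫ := by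
      rw [real_inner_comm, hg, inner_add_right, real_inner_smul_right]
    rw [a3, hy] at a2
    rw [hy]
    have a4 : 0 < S.lam k + 1 := by have := S.nonneg k; linarith
    by_cases hk : S.lam k = s
    · rw [hf k hk, mul_zero, mul_zero, add_zero] at a2
      rw [hf k hk, mul_zero]
      rcases mul_eq_zero.1 a2.symm with h | h
      · linarith
      · exact h
    · have a5 : S.lam k - s ≠ 0 := sub_ne_zero.2 hk
      field_simp at a2 ⊢
      nlinarith [mul_comm (S.lam k + 1) (⟪S.e k, j (A.T g)⟫ * (S.lam k - s)), a2]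
  refine ⟨A.T g, fun w => ?_⟩
  have h2 := A.B_T g w
  rw [A.B_apply, h1] at h2
  have h3 : ⟪g, j w⟫ = ⟪f, j w⟫ + (s + 1) * ⟪y, j w⟫ := by
    rw [hg, inner_add_left, real_inner_smul_left]
  rw [h3] at h2
  rw [h1]
  linarith

end form

/-! ### the form `∫ en u v` -/

section ad
variable {X : Type*} [MetricSpace X] [MeasurableSpace X] [BorelSpace X] {F : Type*}
  [NormedAddCommGroup F] [InnerProductSpace ℝ F] {μ : Measure X} [IsFiniteMeasureOnCompacts μ]
variable {S : GradS X F μ} {κ : Type} [Fintype κ] (A : AD S κ)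

/-- **Fredholm alternative** for `∫ en u v` on `L²(E)` -/
theorem weakSolve [CompleteSpace F] (hS : AD.Fried S) (hd : Dense (S.V : Set (Lp ℝ 2 μ)))
    (hinf : ¬ FiniteDimensional ℝ A.HE) {f : HH μ κ} (hPf : A.P f = f)
    (hker : ∀ u : HH μ κ, (∀ a, u a ∈ S.V) → A.P u = u →
      (∀ v : HH μ κ, (∀ a, v a ∈ S.V) → ∫ x, A.en u v x ∂μ = 0) → ⟪u, f⟫ = 0) :
    ∃ u : HH μ κ, (∀ a, u a ∈ S.V) ∧ A.P u = u ∧
      ∀ v : HH μ κ, (∀ a, v a ∈ S.V) → ∫ x, A.en u v x ∂μ = ⟪f, v⟫ := by
  obtain ⟨Sq⟩ := A.form.exists_formSeq (A.compact_jj hS) (A.dense_jj hd) hinf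
  have hju : ∀ k, A.i1 (Sq.ev k) = (Sq.e k : HH μ κ) := fun k => congrArg Subtype.val (Sq.j_ev k)
  -- test with all `v`
  have htest : ∀ (w : A.WE) (c : ℝ) (g : A.HE),
      (∀ w' : A.WE, A.form.a w w' - A.shift * ⟪A.jj w, A.jj w'⟫ = c * ⟪g, A.jj w'⟫) →
      ∀ v : HH μ κ, (∀ a, v a ∈ S.V) → ∫ x, A.en (A.i1 w) v x ∂μ = c * ⟪(g : HH μ κ), v⟫ := by
    intro w c g hw v hv
    have hv' : ∀ a, A.P v a ∈ S.V := fun a => (A.P_mem hv a).1
    have h1 := hw (A.mkW (A.P v) hv' (A.P_P v))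
    rw [AD.form_apply, AD.form_eq] at h1
    have h2 : A.i1 (A.mkW (A.P v) hv' (A.P_P v)) = A.P v := rfl
    have hwV : ∀ a, A.i1 w a ∈ S.V := fun a => S.mem_V.2 ⟨_, w.2.1 a⟩
    have hwP : A.P (A.i1 w) = A.i1 w := w.2.2
    have h3 : ⟪A.jj w, A.jj (A.mkW (A.P v) hv' (A.P_P v))⟫ = ⟪A.i1 w, A.P v⟫ := rfl
    have h4 : ⟪g, A.jj (A.mkW (A.P v) hv' (A.P_P v))⟫ = ⟪(g : HH μ κ), v⟫ := by
      have : ⟪g, A.jj (A.mkW (A.P v) hv' (A.P_P v))⟫ = ⟪(g : HH μ κ), A.P v⟫ := rfl
      rw [this, ← A.inner_P, show A.P (g : HH μ κ) = g from g.2]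
    rw [h2, h3, h4, integral_congr_ae (A.en_P hwV hv hwP)] at h1
    linarith
  have hmem : ∀ k a, (Sq.e k : HH μ κ) a ∈ S.V := by
    intro k a
    rw [← hju]
    exact S.mem_V.2 ⟨_, (Sq.ev k).2.1 a⟩
  obtain ⟨w, hw⟩ := formSolve Sq A.shift (f := (⟨f, hPf⟩ : A.HE)) (by
    intro k hk
    have h1 := hker (Sq.e k : HH μ κ) (hmem k) (Sq.e k).2 (by
      intro v hv
      have h2 := htest (Sq.ev k) 0 (Sq.e k) (by
        intro w'
        rw [Sq.eig, Sq.j_ev, hk]
        ring) v hv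
      rw [hju] at h2
      rw [h2, zero_mul])
    exact h1)
  refine ⟨A.i1 w, fun a => S.mem_V.2 ⟨_, w.2.1 a⟩, w.2.2, fun v hv => ?_⟩
  have := htest w 1 ⟨f, hPf⟩ (by intro w'; rw [hw w', one_mul]) v hv
  rw [this, one_mul]

open Classical in
/-- **the weak equation with right hand side, component by component** -/
theorem weak_div_rhs {u f : HH μ κ}
    (h : ∀ v : HH μ κ, (∀ a, v a ∈ S.V) → ∫ x, A.en u v x ∂μ = ⟪f, v⟫) (a : κ) {p : X → ℝ}
    (hp : GradS.IsT p) :
    ∫ x, ⟪A.cvf u a x, S.G p x⟫ ∂μ = - ∫ x, (A.low u 0 a x - f a x) * p x ∂μ := by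
  set v : HH μ κ := WithLp.toLp 2 (fun c => if c = a then GradS.tL hp else 0) with hv
  have hva : ∀ c, v c = if c = a then GradS.tL hp else 0 := fun c => rfl
  have hvV : ∀ c, v c ∈ S.V := by
    intro c
    rw [hva]
    split_ifs
    · exact S.tL_mem hp
    · exact S.V.zero_mem
  have h1 := h v hvV
  -- values of `v`
  have hvx : ∀ᵐ x ∂μ, ∀ c, (v c : Lp ℝ 2 μ) x = if c = a then p x else 0 := by
    rw [ae_all_iff]
    intro c
    rw [hva]
    split_ifs with hc
    · filter_upwards [GradS.coe_tL (μ := μ) hp] with x e1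
      rw [e1]
    · filter_upwards [Lp.coeFn_zero ℝ 2 μ] with x e1
      rw [e1, Pi.zero_apply]
  have hDx : ∀ᵐ x ∂μ, ∀ c, (S.D (v c) : Lp F 2 μ) x = if c = a then S.G p x else 0 := by
    rw [ae_all_iff]
    intro c
    rw [hva]
    split_ifs with hc
    · filter_upwards [S.D_tL hp] with x e1
      rw [e1]
    · rw [S.D_zero]
      filter_upwards [Lp.coeFn_zero F 2 μ] with x e1
      rw [e1, Pi.zero_apply]
  have hen : ∀ᵐ x ∂μ, A.en u v x = ⟪A.cvf u a x, S.G p x⟫ +
      (∑ c, ⟪A.cvf u c x, A.w c a x⟫ + ∑ b, A.q a b x * u b x) * p x := by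
    filter_upwards [hvx, hDx] with x e1 e2
    rw [AD.en]
    have e3 : ∀ c, A.cvf v c x = (if c = a then S.G p x else 0) + p x • A.w c a x := by
      intro c
      rw [AD.cvf, e2 c]
      congr 1
      simp only [e1, ite_smul, zero_smul, Finset.sum_ite_eq', Finset.mem_univ, if_true]
    simp only [e3, inner_add_right, Finset.sum_add_distrib, real_inner_smul_right, e1]
    have e4 : ∑ c, ⟪A.cvf u c x, if c = a then S.G p x else 0⟫ = ⟪A.cvf u a x, S.G p x⟫ := by
      rw [Finset.sum_eq_single a]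
      · rw [if_pos rfl]
      · intro b _ hb
        rw [if_neg hb, inner_zero_right]
      · intro h; exact absurd (Finset.mem_univ a) h
    have e5 : ∑ c, ∑ b, A.q c b x * u b x * (if c = a then p x else 0) =
        (∑ b, A.q a b x * u b x) * p x := by
      rw [Finset.sum_eq_single a]
      · simp only [if_pos]
        rw [Finset.sum_mul]
      · intro b _ hb
        simp only [if_neg hb, mul_zero, Finset.sum_const_zero]
      · intro h; exact absurd (Finset.mem_univ a) h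
    have e6 : ∑ c, p x * ⟪A.cvf u c x, A.w c a x⟫ = (∑ c, ⟪A.cvf u c x, A.w c a x⟫) * p x := by
      rw [Finset.sum_mul]
      exact Finset.sum_congr rfl fun c _ => mul_comm _ _
    rw [e4, e5, e6]
    ring
  have hin : ⟪f, v⟫ = ∫ x, f a x * p x ∂μ := by
    rw [PiLp.inner_apply]
    simp only [L2.inner_def]
    rw [Finset.sum_eq_single a]
    · refine integral_congr_ae ?_
      filter_upwards [hvx] with x e1
      rw [e1 a, if_pos rfl, rin]
    · intro b _ hb
      rw [← integral_zero X ℝ (μ := μ)]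
      refine integral_congr_ae ?_
      filter_upwards [hvx] with x e1
      rw [e1 b, if_neg hb, inner_zero_right]
    · intro h; exact absurd (Finset.mem_univ a) h
  have i1 : Integrable (fun x => (⟪A.cvf u a x, S.G p x⟫ : ℝ)) μ :=
    integrable_inner' (A.memLp_cvf u a) (hp.memLpG S)
  have ip : ∀ c, MemLp (fun x => p x • A.w c a x) 2 μ := by
    intro c
    refine (memLp_congr_ae ?_).1 ((A.hw c a).memLp (GradS.tL hp))
    filter_upwards [GradS.coe_tL (μ := μ) hp] with x e1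
    rw [e1]
  have iq : ∀ b, MemLp (fun x => A.q a b x * u b x) 2 μ := by
    intro b
    refine (memLp_congr_ae ?_).1 ((A.hq a b).memLp (u b))
    refine Eventually.of_forall fun x => ?_
    simp only [smul_eq_mul]
    ring
  have i2 : Integrable (fun x => (∑ c, ⟪A.cvf u c x, A.w c a x⟫ + ∑ b, A.q a b x * u b x) * p x) μ := by
    have j1 : Integrable (fun x => ∑ c, (⟪A.cvf u c x, p x • A.w c a x⟫ : ℝ)) μ :=
      integrable_finsetSum _ fun c _ => integrable_inner' (A.memLp_cvf u c) (ip c)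
    have j2 : Integrable (fun x => ∑ b, (⟪A.q a b x * u b x, p x⟫ : ℝ)) μ :=
      integrable_finsetSum _ fun b _ => integrable_inner' (iq b) hp.memLp
    refine (j1.add j2).congr (Eventually.of_forall fun x => ?_)
    simp only [Pi.add_apply, real_inner_smul_right, rin]
    have e6 : ∑ c, p x * ⟪A.cvf u c x, A.w c a x⟫ = (∑ c, ⟪A.cvf u c x, A.w c a x⟫) * p x := by
      rw [Finset.sum_mul]
      exact Finset.sum_congr rfl fun c _ => mul_comm _ _
    rw [e6, add_mul, Finset.sum_mul, Finset.sum_mul]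
  have i3 : Integrable (fun x => f a x * p x) μ :=
    (integrable_inner' (Lp.memLp (f a)) hp.memLp).congr (Eventually.of_forall fun x => rin _ _)
  rw [integral_congr_ae hen, integral_add i1 i2, hin] at h1
  have h2 : ∫ x, (A.low u 0 a x - f a x) * p x ∂μ =
      (∫ x, (∑ c, ⟪A.cvf u c x, A.w c a x⟫ + ∑ b, A.q a b x * u b x) * p x ∂μ) -
        ∫ x, f a x * p x ∂μ := by
    rw [← integral_sub i2 i3]
    refine integral_congr_ae (Eventually.of_forall fun x => ?_)
    simp only [AD.low]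
    ring
  rw [h2]
  linarith

end ad

end Crest.Agent.R235.IndSolve_956
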