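import Crest.Agent.R235.IndSolveA_956
import Crest.Agent.R249.Tv9_57

/-!
# R235, PACKAGE IND, node IND-6 SOLVE (helper956), part B: regularity with a smooth right hand side.

* `sys_reg_rhs`   : `Tv57.sys_reg_div` with a right hand side (adding the component `1`);
* `chart_reg_rhs` : in a chart;
* `smooth_rhs`    : weak solutions of `D* D u + Q u = f`, `f` smooth, are smooth.
-/

set_option autoImplicit false
set_option linter.unusedSectionVars false
set_option maxSynthPendingDepth 3
open scoped ContDiff ENNReal NNReal Topology Manifold Bundle RealInnerProductSpace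
open MeasureTheory Set Filter Metric Bundle

noncomputable section
namespace Crest.Agent.R235.IndSolve_956

open Crest.Agent.R247.Dir593 Crest.Agent.R247.Ms322 Crest.Agent.R247.Frd657
open Crest.GeometryTopology.CoordMetric Crest.GeometryTopology.ChartCurvature
open Crest.Agent.R202.Ell Crest.Agent.R249.Tv57 Crest.Agent.R249.SReg352

/-- the integral of a derivative of a test function vanishes -/
theorem integral_pderiv_test {n : ℕ} (i : Fin n) {φ : EuclideanSpace ℝ (Fin n) → ℝ}
    (h1 : ContDiff ℝ ∞ φ) (h2 : HasCompactSupport φ) : ∫ x, pderiv i φ x = 0 := by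
  have hd : Differentiable ℝ φ := h1.differentiable (by simp)
  have hc : Continuous fun x => fderiv ℝ φ x (EuclideanSpace.single i (1:ℝ)) :=
    (h1.continuous_fderiv (by simp)).clm_apply continuous_const
  have h3 := integral_mul_fderiv_eq_neg_fderiv_mul_of_integrable (𝕜 := ℝ)
    (μ := (volume : Measure (EuclideanSpace ℝ (Fin n)))) (f := fun _ => (1:ℝ)) (g := φ)
    (v := EuclideanSpace.single i (1:ℝ)) (by simp)
    (by
      simp only [one_mul]
      exact hc.integrable_of_hasCompactSupport (h2.fderiv_apply ℝ _))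
    (by
      simp only [one_mul]
      exact h1.continuous.integrable_of_hasCompactSupport h2)
    (fun x _ => differentiableAt_const _) (fun x _ => hd x)
  simp only [one_mul] at h3
  unfold pderiv
  rw [h3]
  simp

section euclid
variable {n : ℕ} {κ : Type*} [Fintype κ]

/-- **regularity**, divergence form with lower order terms on both sides and right hand side -/
theorem sys_reg_rhs {U : Set (EuclideanSpace ℝ (Fin n))} (hU : IsOpen U)
    {A : Fin n → Fin n → EuclideanSpace ℝ (Fin n) → ℝ} (hA : ∀ i j, ContDiffOn ℝ ∞ (A i j) U)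
    (hpos : ∀ x ∈ U, (Matrix.of fun i j => A i j x).PosDef)
    {W : κ → κ → Fin n → EuclideanSpace ℝ (Fin n) → ℝ} (hW : ∀ a b j, ContDiffOn ℝ ∞ (W a b j) U)
    {q : κ → κ → EuclideanSpace ℝ (Fin n) → ℝ} (hq : ∀ a b, ContDiffOn ℝ ∞ (q a b) U)
    {f : κ → EuclideanSpace ℝ (Fin n) → ℝ} (hf : ∀ a, ContDiffOn ℝ ∞ (f a) U)
    {u : κ → EuclideanSpace ℝ (Fin n) → ℝ} {u' : Fin n → κ → EuclideanSpace ℝ (Fin n) → ℝ}
    (hu : ∀ a, L2on U (u a)) (hu' : ∀ i a, L2on U (u' i a))
    (hWD : ∀ i a, ∀ φ : EuclideanSpace ℝ (Fin n) → ℝ, ContDiff ℝ ∞ φ → HasCompactSupport φ →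
      tsupport φ ⊆ U → ∫ x, u a x * pderiv i φ x = - ∫ x, u' i a x * φ x)
    (heq : ∀ a, ∀ φ : EuclideanSpace ℝ (Fin n) → ℝ, ContDiff ℝ ∞ φ → HasCompactSupport φ →
      tsupport φ ⊆ U → ∫ x, ∑ i, ∑ j, A i j x * (u' j a x + ∑ b, u b x * W a b j x) * pderiv i φ x =
        - ∫ x, (∑ c, ∑ i, ∑ j, A i j x * (u' j c x + ∑ b, u b x * W c b j x) * W c a i x
          + ∑ b, q a b x * u b x - f a x) * φ x) :
    ∃ v : κ → EuclideanSpace ℝ (Fin n) → ℝ, (∀ a, ContDiffOn ℝ ∞ (v a) U) ∧
      (∀ a, ∀ᵐ x, x ∈ U → v a x = u a x) ∧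
      (∀ i a, ∀ᵐ x, x ∈ U → pderiv i (v a) x = u' i a x) := by
  set W' : Option κ → Option κ → Fin n → EuclideanSpace ℝ (Fin n) → ℝ := fun a b j x =>
    match a, b with
    | some a, some b => W a b j x
    | _, _ => 0 with hW'
  set q' : Option κ → Option κ → EuclideanSpace ℝ (Fin n) → ℝ := fun a b x =>
    match a, b with
    | some a, some b => q a b x
    | some a, none => - f a x
    | none, _ => 0 with hq'
  set w : Option κ → EuclideanSpace ℝ (Fin n) → ℝ := fun a x =>
    match a with
    | some a => u a x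
    | none => 1 with hw
  set w' : Fin n → Option κ → EuclideanSpace ℝ (Fin n) → ℝ := fun i a x =>
    match a with
    | some a => u' i a x
    | none => 0 with hw'
  obtain ⟨v, h1, h2, h3⟩ := sys_reg_div (κ := Option κ) hU (A := A) hA hpos (W := W') (by
      intro a b j
      rcases a with _ | a
      · exact contDiffOn_const
      · rcases b with _ | b
        · exact contDiffOn_const
        · exact hW a b j) (q := q') (by
      intro a b
      rcases a with _ | a
      · exact contDiffOn_const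
      · rcases b with _ | b
        · exact (hf a).neg
        · exact hq a b) (u := w) (u' := w') (by
      intro a
      rcases a with _ | a
      · exact ⟨locallyIntegrableOn_const _, by
          show LocallyIntegrableOn (fun _ => (1:ℝ) ^ 2) U volume
          exact locallyIntegrableOn_const _⟩
      · exact hu a) (by
      intro i a
      rcases a with _ | a
      · exact ⟨locallyIntegrableOn_const _, by
          show LocallyIntegrableOn (fun _ => (0:ℝ) ^ 2) U volume
          exact locallyIntegrableOn_const _⟩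
      · exact hu' i a) (by
      intro i a φ hφ1 hφ2 hφ3
      rcases a with _ | a
      · show ∫ x, (1:ℝ) * pderiv i φ x = - ∫ x, (0:ℝ) * φ x
        simp only [one_mul, zero_mul, integral_zero, neg_zero]
        exact integral_pderiv_test i hφ1 hφ2
      · exact hWD i a φ hφ1 hφ2 hφ3) (by
      intro a φ hφ1 hφ2 hφ3
      rcases a with _ | a
      · have e1 : ∀ x, ∑ i, ∑ j, A i j x * (w' j none x + ∑ b, w b x * W' none b j x) * pderiv i φ x
            = 0 := by
          intro x
          simp only [hw', hW', mul_zero, Finset.sum_const_zero, add_zero, zero_mul]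
        have e2 : ∀ x, (∑ c, ∑ i, ∑ j, A i j x * (w' j c x + ∑ b, w b x * W' c b j x) *
            W' c none i x + ∑ b, q' none b x * w b x) * φ x = 0 := by
          intro x
          have : ∀ c i, W' c none i x = 0 := by
            intro c i
            rcases c with _ | c <;> rfl
          simp only [this, hq', mul_zero, Finset.sum_const_zero, add_zero, zero_mul]
        simp only [e1, e2, integral_zero, neg_zero]
      · have e0 : ∀ c j x, w' j (some c) x + ∑ b, w b x * W' (some c) b j x =
            u' j c x + ∑ b, u b x * W c b j x := by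
          intro c j x
          rw [Fintype.sum_option]
          simp only [hw, hw', hW', mul_zero, zero_add]
        have e1 : ∀ x, ∑ i, ∑ j, A i j x * (w' j (some a) x + ∑ b, w b x * W' (some a) b j x) *
            pderiv i φ x = ∑ i, ∑ j, A i j x * (u' j a x + ∑ b, u b x * W a b j x) *
              pderiv i φ x := by
          intro x
          simp only [e0]
        have e2 : ∀ x, (∑ c, ∑ i, ∑ j, A i j x * (w' j c x + ∑ b, w b x * W' c b j x) *
            W' c (some a) i x + ∑ b, q' (some a) b x * w b x) * φ x =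
            (∑ c, ∑ i, ∑ j, A i j x * (u' j c x + ∑ b, u b x * W c b j x) * W c a i x
              + ∑ b, q a b x * u b x - f a x) * φ x := by
          intro x
          rw [Fintype.sum_option, Fintype.sum_option]
          simp only [e0]
          simp only [hw, hW', hq', mul_zero, mul_one, Finset.sum_const_zero, zero_add]
          ring
        simp only [e1, e2]
        exact heq a φ hφ1 hφ2 hφ3)
  exact ⟨fun a => v (some a), fun a => h1 (some a), fun a => h2 (some a), fun i a => h3 i (some a)⟩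

end euclid

variable {n : ℕ} {M : Type*} [MetricSpace M] [ChartedSpace (EuclideanSpace ℝ (Fin n)) M]
  [IsManifold (𝓡 n) ∞ M]
  [RiemannianBundle (fun p : M => TangentSpace (𝓡 n) p)]
  [IsContMDiffRiemannianBundle (𝓡 n) ∞ (EuclideanSpace ℝ (Fin n)) (fun p : M => TangentSpace (𝓡 n) p)]
  [IsRiemannianManifold (𝓡 n) M] [MeasurableSpace M] [BorelSpace M]
  [SecondCountableTopology M] [Nonempty M]

local notation "𝔼" => EuclideanSpace ℝ (Fin n)

variable [CompactSpace M] [IsFiniteMeasureOnCompacts (μHE[n] : Measure M)] {κ : Type} [Fintype κ]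

open Classical in
/-- **regularity in a chart**, smooth right hand side -/
theorem chart_reg_rhs (D : Dat n M κ) {u g : HH (μHE[n] : Measure M) κ}
    (hu : ∀ a, u a ∈ (gradS n M).V) {f : κ → M → ℝ} (hf : SmV (n := n) f)
    (hgf : ∀ᵐ z ∂(μHE[n] : Measure M), ∀ a, (g a : M → ℝ) z = f a z)
    (h : ∀ v : HH (μHE[n] : Measure M) κ, (∀ a, v a ∈ (gradS n M).V) →
      ∫ x, D.toAD.en u v x ∂(μHE[n] : Measure M) = ⟪g, v⟫) (x₀ : M) :
    ∃ v : κ → EuclideanSpace ℝ (Fin n) → ℝ, (∀ a, ContDiffOn ℝ ∞ (v a) (chartAt 𝔼 x₀).target) ∧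
      ∀ a, ∀ᵐ b : 𝔼, b ∈ (chartAt 𝔼 x₀).target → v a b = u a ((chartAt 𝔼 x₀).symm b) := by
  have hU := (chartAt 𝔼 x₀).open_target
  have hA := coefOn_Ac (n := n) x₀
  have hsymm : ∀ b ∈ (chartAt 𝔼 x₀).target, ∀ i j, Ac (n := n) x₀ i j b = Ac x₀ j i b := by
    intro b hb i j
    rw [Ac, Ac, inv_symm x₀ hb]
  obtain ⟨v, h1, h2, -⟩ := sys_reg_rhs (κ := κ) hU (A := Ac (n := n) x₀) hA.smooth
    (fun b hb => by
      rw [Matrix.posDef_iff_dotProduct_mulVec]
      refine ⟨?_, fun ξ hξ => ?_⟩
      · ext i j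
        simp only [Matrix.conjTranspose_apply, Matrix.of_apply, star_trivial]
        exact hsymm b hb j i
      · refine lt_of_lt_of_eq (hA.pos b hb ξ hξ) ?_
        simp only [star_trivial, dotProduct, Matrix.mulVec, Matrix.of_apply, Finset.mul_sum]
        refine Finset.sum_congr rfl fun i _ => Finset.sum_congr rfl fun j _ => ?_
        ring)
    (W := fun a b j => cf x₀ j (D.X a b)) (fun a b j => D.smX a b x₀ j)
    (q := fun a b y => dens (n := n) x₀ y * D.Q a b ((chartAt 𝔼 x₀).symm y))
    (fun a b => (contDiffOn_dens x₀).mul (chart_smooth (D.smQ a b) x₀))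
    (f := fun a y => dens (n := n) x₀ y * f a ((chartAt 𝔼 x₀).symm y))
    (fun a => (contDiffOn_dens x₀).mul (chart_smooth (hf a) x₀))
    (u := fun a b => u a ((chartAt 𝔼 x₀).symm b))
    (u' := fun i a => cf x₀ i ((gradS n M).D (u a)))
    (fun a => l2on_of_L2On hU (L2On_chart fun K _ => (Lp.memLp (u a)).restrict K))
    (fun i a => l2on_of_L2On hU (L2On_cf x₀ i (Lp.memLp _)))
    (fun i a φ hφ1 hφ2 hφ3 => wdOn_cf (gradS n M) (fun f => rfl) x₀ i (hu a) φ ⟨hφ1, hφ2⟩ hφ3)
    (fun a φ hφ1 hφ2 hφ3 => by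
      have h3 := weak_eq_chart (n := n) (F := D.toAD.cvf u a)
        (f := fun z => D.toAD.low u 0 a z - f a z)
        (fun p hp => by
          have e0 := weak_div_rhs D.toAD h a hp
          have e0' : ∫ x, ⟪D.toAD.cvf u a x, Gr (n := n) p x⟫ ∂(μHE[n] : Measure M) =
            - ∫ x, (D.toAD.low u 0 a x - g a x) * p x ∂(μHE[n] : Measure M) := e0
          rw [e0']
          congr 1
          refine integral_congr_ae ?_
          filter_upwards [hgf] with z e1
          rw [e1 a]) x₀ ⟨hφ1, hφ2⟩ hφ3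
      have hcf : ∀ c j b, cf x₀ j (D.toAD.cvf u c) b = cf x₀ j ((gradS n M).D (u c)) b +
          ∑ b', u b' ((chartAt 𝔼 x₀).symm b) * cf x₀ j (D.X c b') b := by
        intro c j b
        simp only [cf, AD.cvf, inner_add_right, inner_sum, real_inner_smul_right]
        rfl
      have e1 : ∫ b, ∑ i, ∑ j, Ac (n := n) x₀ i j b * (cf x₀ j ((gradS n M).D (u a)) b +
          ∑ b', u b' ((chartAt 𝔼 x₀).symm b) * cf x₀ j (D.X a b') b) * pderiv i φ b =
          ∫ b, ∑ i, ∑ j, Ac x₀ i j b * cf x₀ j (D.toAD.cvf u a) b * pderiv i φ b := by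
        simp only [hcf]
      rw [e1, h3]
      congr 1
      refine integral_congr_ae (Eventually.of_forall fun b => ?_)
      simp only
      by_cases hb : b ∈ (chartAt 𝔼 x₀).target
      · congr 1
        rw [AD.low]
        have e2 : ∀ c, dens (n := n) x₀ b * ⟪D.toAD.cvf u c ((chartAt 𝔼 x₀).symm b),
            D.toAD.w c a ((chartAt 𝔼 x₀).symm b)⟫ = ∑ i, ∑ j, Ac x₀ i j b *
            (cf x₀ j ((gradS n M).D (u c)) b + ∑ b', u b' ((chartAt 𝔼 x₀).symm b) *
              cf x₀ j (D.X c b') b) * cf x₀ i (D.X c a) b := by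
          intro c
          have h5 := inner_cf x₀ (D.toAD.cvf u c) (D.X c a) hb
          rw [show D.toAD.w c a = D.X c a from rfl, h5, Finset.mul_sum]
          refine Finset.sum_congr rfl fun i _ => ?_
          rw [Finset.mul_sum]
          refine Finset.sum_congr rfl fun j _ => ?_
          rw [hcf, Ac]
          ring
        rw [zero_mul, sub_zero, mul_sub, mul_add, Finset.mul_sum,
          Finset.sum_congr rfl fun c _ => e2 c]
        have e3 : ∑ b', dens (n := n) x₀ b * D.Q a b' ((chartAt 𝔼 x₀).symm b) *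
            u b' ((chartAt 𝔼 x₀).symm b) =
            dens (n := n) x₀ b * (∑ b', D.toAD.q a b' ((chartAt 𝔼 x₀).symm b) *
              u b' ((chartAt 𝔼 x₀).symm b)) := by
          rw [Finset.mul_sum]
          refine Finset.sum_congr rfl fun b' _ => ?_
          rw [show D.toAD.q a b' = D.Q a b' from rfl]
          ring
        rw [e3]
      · have : φ b = 0 := image_eq_zero_of_notMem_tsupport fun h => hb (hφ3 h)
        rw [this, mul_zero, mul_zero])
  exact ⟨v, h1, h2⟩

/-- **weak solutions with smooth right hand side are smooth** -/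
theorem smooth_rhs (D : Dat n M κ) {u g : HH (μHE[n] : Measure M) κ}
    (hu : ∀ a, u a ∈ (gradS n M).V) {f : κ → M → ℝ} (hf : SmV (n := n) f)
    (hgf : ∀ᵐ z ∂(μHE[n] : Measure M), ∀ a, (g a : M → ℝ) z = f a z)
    (h : ∀ v : HH (μHE[n] : Measure M) κ, (∀ a, v a ∈ (gradS n M).V) →
      ∫ x, D.toAD.en u v x ∂(μHE[n] : Measure M) = ⟪g, v⟫) :
    ∃ φ : κ → M → ℝ, (∀ a, ContMDiff (𝓡 n) 𝓘(ℝ, ℝ) ∞ (φ a)) ∧
      ∀ᵐ z ∂(μHE[n] : Measure M), ∀ a, (u a : M → ℝ) z = φ a z := by
  have h1 : ∀ a, ∃ φ : M → ℝ, ContMDiff (𝓡 n) 𝓘(ℝ, ℝ) ∞ φ ∧ φ =ᵐ[(μHE[n] : Measure M)] (u a : M → ℝ) := by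
    intro a
    refine glue fun x₀ => ?_
    obtain ⟨v, h1, h2⟩ := chart_reg_rhs D hu hf hgf h x₀
    exact ⟨v a, h1 a, h2 a⟩
  choose φ h2 h3 using h1
  refine ⟨φ, h2, ae_all_iff.2 fun a => ?_⟩
  filter_upwards [h3 a] with z hz using hz.symm

end Crest.Agent.R235.IndSolve_956
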