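import Crest.Agent.R235.HodgeEnd_194
import Crest.Agent.R235.IndKer4b_936
import Crest.Agent.R235.IndTW_692

/-!
Row 235, package IND (helper167): the two outputs of the package, closed.
-/

set_option autoImplicit false

universe u

namespace Crest.Agent.R235.IndTop_167

/-- **SIG235** -/
theorem sig235 : DichProps_723.SIG235.{0} :=
  IndSig2_723.sig235_of_hodge IndKer4b_936.ker4 Hodge_194.hodge

/-- **EVEN235** -/
theorem even235 : DichProps_723.EVEN235.{u} := IndEven_692.even235

end Crest.Agent.R235.IndTop_167
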