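import Mathlib

/-!
Row 235 (S0364), PACKAGE ADJ, leaf X3 INTEG (helper984), part 1: the Sard argument.
-/

set_option autoImplicit false

open Matrix Complex MeasureTheory Set Filter Topology

namespace Crest.Agent.R235.Integ_984

noncomputable section

section Sard

/-- Sard in the plane, for `A + t B`. -/
theorem gen_dir {O : Set ℂ} (hO : IsOpen O) {A B : ℂ → ℂ} (hA : ContDiffOn ℝ 1 A O)
    (hB : ContDiffOn ℝ 1 B O) (h0 : ∀ z ∈ O, B z ≠ 0) :
    ∀ᵐ t : ℂ, ∀ z ∈ O, A z + t * B z = 0 → ∀ w : ℂ,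
      fderiv ℝ A z w + t * fderiv ℝ B z w = 0 → w = 0 := by
  set R : ℂ → ℂ := fun z => -A z * (B z)⁻¹ with hR
  set S : Set ℂ := {z | z ∈ O ∧ (fderiv ℝ R z).det = 0} with hS
  have dA : ∀ z ∈ O, DifferentiableAt ℝ A z := fun z hz =>
    (hA.contDiffAt (hO.mem_nhds hz)).differentiableAt one_ne_zero
  have dB : ∀ z ∈ O, DifferentiableAt ℝ B z := fun z hz =>
    (hB.contDiffAt (hO.mem_nhds hz)).differentiableAt one_ne_zero
  have dR : ∀ z ∈ O, DifferentiableAt ℝ R z := fun z hz =>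
    (dA z hz).neg.mul ((dB z hz).fun_inv (h0 z hz))
  have h1 : volume (R '' S) = 0 :=
    addHaar_image_eq_zero_of_det_fderivWithin_eq_zero volume
      (fun z hz => ((dR z hz.1).hasFDerivAt).hasFDerivWithinAt) (fun z hz => hz.2)
  have h2 : ∀ᵐ t : ℂ, t ∉ R '' S := measure_eq_zero_iff_ae_notMem.1 h1
  filter_upwards [h2] with t ht z hz hzt w hw
  have hB0 := h0 z hz
  have htR : t = R z := by
    rw [hR]; simp only; rw [← div_eq_mul_inv, eq_div_iff hB0]; linear_combination hzt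
  have hdet : (fderiv ℝ R z).det ≠ 0 := fun h => ht ⟨z, ⟨hz, h⟩, htR.symm⟩
  have hker : LinearMap.ker ((fderiv ℝ R z : ℂ →L[ℝ] ℂ) : ℂ →ₗ[ℝ] ℂ) = ⊥ := by
    by_contra hc
    exact hdet (LinearMap.det_eq_zero_iff_ker_ne_bot.2 hc)
  -- `A = - R B`
  have hev : A =ᶠ[𝓝 z] fun y => -(R y * B y) := by
    filter_upwards [hO.mem_nhds hz] with y hy
    rw [hR]; simp only
    field_simp [h0 y hy]
  have hdA : fderiv ℝ A z w = -(R z * fderiv ℝ B z w + fderiv ℝ R z w * B z) := by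
    rw [hev.fderiv_eq, fderiv_fun_neg, fderiv_fun_mul (dR z hz) (dB z hz)]
    simp only [_root_.neg_apply, _root_.add_apply, _root_.smul_apply, smul_eq_mul]
    ring
  rw [hdA, htR] at hw
  have hw2 : fderiv ℝ R z w * B z = 0 := by linear_combination -hw
  have hw3 : fderiv ℝ R z w = 0 := (mul_eq_zero.1 hw2).resolve_right hB0
  have : w ∈ LinearMap.ker ((fderiv ℝ R z : ℂ →L[ℝ] ℂ) : ℂ →ₗ[ℝ] ℂ) := hw3
  rw [hker] at this
  exact this

variable {N : ℕ}

/-- linear combinations. -/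
def cmb (g : Fin N → ℂ → ℂ) (e : Fin N → ℂ) (z : ℂ) : ℂ := ∑ j, e j * g j z

/-- their derivative. -/
def dcmb (g : Fin N → ℂ → ℂ) (e : Fin N → ℂ) (z : ℂ) : ℂ →L[ℝ] ℂ := ∑ j, e j • fderiv ℝ (g j) z

theorem hasFDerivAt_cmb {g : Fin N → ℂ → ℂ} {z : ℂ} (hg : ∀ j, DifferentiableAt ℝ (g j) z)
    (e : Fin N → ℂ) : HasFDerivAt (cmb g e) (dcmb g e z) z := by
  unfold cmb dcmb
  exact HasFDerivAt.fun_sum fun j _ => (hg j).hasFDerivAt.const_mul (e j)

theorem cmb_add (g : Fin N → ℂ → ℂ) (e v : Fin N → ℂ) (t : ℂ) (z : ℂ) :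
    cmb g (e + t • v) z = cmb g e z + t * cmb g v z := by
  simp only [cmb, Pi.add_apply, Pi.smul_apply, smul_eq_mul, add_mul, Finset.sum_add_distrib,
    Finset.mul_sum, mul_assoc]

theorem dcmb_add (g : Fin N → ℂ → ℂ) (e v : Fin N → ℂ) (t : ℂ) (z w : ℂ) :
    dcmb g (e + t • v) z w = dcmb g e z w + t * dcmb g v z w := by
  simp only [dcmb, Pi.add_apply, Pi.smul_apply, smul_eq_mul, add_smul, Finset.sum_add_distrib,
    _root_.add_apply, _root_.sum_apply, _root_.smul_apply,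
    Finset.mul_sum, mul_assoc]

theorem gen {O K : Set ℂ} (hO : IsOpen O) (hK : IsCompact K) (hKO : K ⊆ O) {g : Fin N → ℂ → ℂ}
    (hg : ∀ j, ContDiffOn ℝ 1 (g j) O) (v : Fin N → ℂ) (hv : ∀ z ∈ O, cmb g v z ≠ 0) :
    ∀ᵐ e : Fin N → ℂ, ∀ z ∈ K, cmb g e z = 0 → ∀ w, dcmb g e z w = 0 → w = 0 := by
  have dg : ∀ z ∈ O, ∀ j, DifferentiableAt ℝ (g j) z := fun z hz j =>
    ((hg j).contDiffAt (hO.mem_nhds hz)).differentiableAt one_ne_zero
  have hcK : CompactSpace K := isCompact_iff_compactSpace.1 hK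
  -- the bad set
  set Φ : (Fin N → ℂ) × K → ℂ × ℝ := fun q => (cmb g q.1 q.2, (dcmb g q.1 q.2).det) with hΦ
  have hΦc : Continuous Φ := by
    have e1 : ∀ j, Continuous fun q : (Fin N → ℂ) × K => g j q.2 := fun j =>
      (((hg j).continuousOn.mono hKO).domRestrict).comp continuous_snd
    have e2 : ∀ j, Continuous fun q : (Fin N → ℂ) × K => fderiv ℝ (g j) q.2 := fun j =>
      ((((hg j).continuousOn_fderiv_of_isOpen hO le_rfl).mono hKO).domRestrict).comp continuous_snd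
    have e3 : ∀ j, Continuous fun q : (Fin N → ℂ) × K => q.1 j := fun j =>
      (continuous_apply j).comp continuous_fst
    refine Continuous.prodMk ?_ ?_
    · exact continuous_finsetSum _ fun j _ => (e3 j).mul (e1 j)
    · refine ContinuousLinearMap.continuous_det.comp ?_
      exact continuous_finsetSum _ fun j _ => (e3 j).smul (e2 j)
  have hbad : IsClosed (Prod.fst '' (Φ ⁻¹' {0})) :=
    isClosedMap_fst_of_compactSpace _ (isClosed_singleton.preimage hΦc)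
  have key : ∀ᵐ e : Fin N → ℂ, e ∈ (Prod.fst '' (Φ ⁻¹' {0}))ᶜ := by
    refine ae_mem_of_ae_add_linearMap_mem (𝕜 := ℂ) (LinearMap.toSpanSingleton ℂ (Fin N → ℂ) v)
      (volume : Measure ℂ) volume hbad.isOpen_compl.measurableSet fun e => ?_
    have hA : ContDiffOn ℝ 1 (cmb g e) O := ContDiffOn.sum fun j _ => contDiffOn_const.mul (hg j)
    have hB : ContDiffOn ℝ 1 (cmb g v) O := ContDiffOn.sum fun j _ => contDiffOn_const.mul (hg j)
    filter_upwards [gen_dir hO hA hB hv] with t ht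
    rw [LinearMap.toSpanSingleton_apply]
    rintro ⟨⟨e', z⟩, hz, rfl⟩
    obtain ⟨hz1, hz2⟩ := Prod.ext_iff.1 hz
    simp only [hΦ] at hz1 hz2
    rw [cmb_add] at hz1
    have hker := LinearMap.bot_lt_ker_of_det_eq_zero hz2
    obtain ⟨w, hw, hw0⟩ := (Submodule.ne_bot_iff _).1 hker.ne'
    refine hw0 (ht z (hKO z.2) hz1 w ?_)
    have h3 : dcmb g (e + t • v) z w = 0 := hw
    rw [dcmb_add] at h3
    rw [(hasFDerivAt_cmb (dg z (hKO z.2)) e).fderiv, (hasFDerivAt_cmb (dg z (hKO z.2)) v).fderiv]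
    exact h3
  filter_upwards [key] with e he z hz hz0 w hw
  by_contra hw0
  refine he ⟨(e, ⟨z, hz⟩), ?_, rfl⟩
  have h4 : (dcmb g e z).det = 0 := by
    refine LinearMap.det_eq_zero_iff_ker_ne_bot.2 ((Submodule.ne_bot_iff _).2 ⟨w, hw, hw0⟩)
  show Φ (e, ⟨z, hz⟩) = 0
  simp only [hΦ, hz0, h4]
  rfl

/-- isolated zeros. -/
theorem isolated {g : Fin N → ℂ → ℂ} {z : ℂ} (hg : ∀ j, DifferentiableAt ℝ (g j) z)
    {e : Fin N → ℂ} (h : ∀ w, dcmb g e z w = 0 → w = 0) : ∀ᶠ y in 𝓝[≠] z, cmb g e y ≠ 0 := by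
  refine (hasFDerivAt_cmb hg e).eventually_ne ?_
  obtain ⟨C, -, hC⟩ := LinearMap.exists_antilipschitzWith
    ((dcmb g e z : ℂ →L[ℝ] ℂ) : ℂ →ₗ[ℝ] ℂ) (LinearMap.ker_eq_bot'.2 h)
  exact ⟨C, hC⟩

/-- **generic sections have finitely many zeros.** -/
theorem fin_zeros {O K : Set ℂ} (hO : IsOpen O) (hK : IsCompact K) (hKO : K ⊆ O)
    {P : ℂ → Matrix (Fin N) (Fin N) ℂ} (hP : ∀ i j, ContDiffOn ℝ 1 (fun z => P z i j) O)
    (ht : ∀ z ∈ K, (P z).trace = 1) :
    ∀ᵐ e : Fin N → ℂ, {z | z ∈ K ∧ P z *ᵥ e = 0}.Finite := by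
  classical
  set U : Fin N → Set ℂ := fun i => {z | z ∈ O ∧ P z i i ≠ 0} with hU
  have hUo : ∀ i, IsOpen (U i) := fun i =>
    (hP i i).continuousOn.isOpen_inter_preimage hO isOpen_ne
  have hcov : K ⊆ ⋃ i ∈ (Finset.univ : Finset (Fin N)), U i := by
    intro z hz
    have h1 : ∃ i, P z i i ≠ 0 := by
      by_contra hc
      push Not at hc
      have := ht z hz
      rw [Matrix.trace] at this
      simp [hc] at this
    obtain ⟨i, hi⟩ := h1
    exact mem_iUnion₂.2 ⟨i, Finset.mem_univ i, hKO hz, hi⟩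
  obtain ⟨L, hL1, hL2, hL3⟩ := hK.finite_compact_cover Finset.univ U (fun i _ => hUo i) hcov
  have h1 : ∀ i, ∀ᵐ e : Fin N → ℂ, ∀ z ∈ L i, cmb (fun j z => P z i j) e z = 0 →
      ∀ w, dcmb (fun j z => P z i j) e z w = 0 → w = 0 := by
    intro i
    refine gen (hUo i) (hL1 i) (hL2 i) (fun j => (hP i j).mono fun z hz => hz.1)
      (Pi.single i 1) ?_
    intro z hz
    have : cmb (fun j z => P z i j) (Pi.single i 1) z = P z i i := by
      rw [cmb, Finset.sum_eq_single i]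
      · simp
      · intro b _ hb; simp [hb]
      · intro h; exact absurd (Finset.mem_univ i) h
    rw [this]
    exact hz.2
  filter_upwards [ae_all_iff.2 h1] with e he
  by_contra hinf
  obtain ⟨z, hzK, hz⟩ := Set.Infinite.exists_accPt_of_subset_isCompact hinf hK fun z hz => hz.1
  have hzi : ∃ i, z ∈ L i := by
    rw [hL3] at hzK
    obtain ⟨i, -, hi⟩ := mem_iUnion₂.1 hzK
    exact ⟨i, hi⟩
  obtain ⟨i, hi⟩ := hzi
  set g : Fin N → ℂ → ℂ := fun j z => P z i j with hg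
  have hcm : ∀ y, cmb g e y = (P y *ᵥ e) i := fun y => by
    rw [cmb, mulVec, dotProduct]
    exact Finset.sum_congr rfl fun j _ => mul_comm _ _
  rw [accPt_iff_frequently_nhdsNE] at hz
  have hgd : ∀ j, ContDiffAt ℝ 1 (g j) z := fun j => (hP i j).contDiffAt (hO.mem_nhds (hKO hzK))
  have hz0 : cmb g e z = 0 := by
    have hcont : ContinuousAt (cmb g e) z :=
      tendsto_finsetSum _ fun j _ => tendsto_const_nhds.mul (hgd j).continuousAt
    by_contra hne
    have h2 : ∀ᶠ y in 𝓝[≠] z, cmb g e y ≠ 0 :=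
      (hcont.eventually (isOpen_ne.mem_nhds hne)).filter_mono nhdsWithin_le_nhds
    obtain ⟨y, hy1, hy2⟩ := (hz.and_eventually h2).exists
    exact hy2 (by rw [hcm, hy1.2]; rfl)
  have h3 := isolated (g := g) (e := e) (z := z) (fun j => (hgd j).differentiableAt one_ne_zero)
    (he i z hi hz0)
  obtain ⟨y, hy1, hy2⟩ := (hz.and_eventually h3).exists
  exact hy2 (by rw [hcm, hy1.2]; rfl)

end Sard

end

end Crest.Agent.R235.Integ_984
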