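import Crest.Agent.R235.Glob2_370
import Crest.Agent.R235.Integ0_984

/-!
Row 235 (S0364), PACKAGE ADJ, leaf X3 INTEG (helper984), part 2: the connection forms of the
sections `p v` of a line bundle `p`.

* `al p v`  : `(1/2π) Im ⟨p v, d (p v)⟩`, smooth one-form
* `mu p v`  : `|p v|²`
* `cal`     : for `lam` smooth, supported in `mu ≠ 0`, `lam/mu · al` is smooth and
              `d (lam/mu · al) = d lam ∧ al/mu - lam a`, `a` the Chern form
-/

set_option autoImplicit false
set_option maxSynthPendingDepth 3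
set_option linter.unusedSectionVars false

open Set Function Filter MeasureTheory Metric Matrix
open scoped Manifold ContDiff Topology

universe u

namespace Crest.Agent.R235.Integ_984

open Crest.Agent.R240 Crest.Agent.R240.Ch Crest.Agent.R235 Crest.Agent.R235.Glob_370

noncomputable section

/-! ### sums of one-forms -/

section Sums

variable {M : Type u} [TopologicalSpace M] [ChartedSpace E4 M] [IsManifold 𝓘(ℝ, E4) ∞ M]

/-- `f dg - g df` -/
def pr (f g : M → ℝ) : F1 E4 M := fmul1 f (dF g) + (-1 : ℝ) • fmul1 g (dF f)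

theorem at1_pr (f g : M → ℝ) (x : M) (w : E4) :
    at1 (pr f g) x w = f x * at1 (dF g) x w - g x * at1 (dF f) x w := by
  have h : at1 (pr f g) x w = f x * at1 (dF g) x w + (-1) * (g x * at1 (dF f) x w) := rfl
  rw [h]; ring

theorem smooth1_pr {f g : M → ℝ} (hf : SmoothF E4 f) (hg : SmoothF E4 g) : Smooth1 (pr f g) :=
  (Smooth1.fmul hf (Smooth1.dF hg)).add ((Smooth1.fmul hg (Smooth1.dF hf)).smul _)

theorem at2_dG_pr {f g : M → ℝ} (hf : SmoothF E4 f) (hg : SmoothF E4 g) (x : M) (u w : E4) :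
    at2 (dG (pr f g)) x u w =
      2 * (at1 (dF f) x u * at1 (dF g) x w - at1 (dF g) x u * at1 (dF f) x w) := by
  have h : dG (pr f g) = (wedG (dF f) (dF g) + fmul f (dG (dF g))) +
      (-1 : ℝ) • (wedG (dF g) (dF f) + fmul g (dG (dF f))) := by
    rw [pr, dG_add (Smooth1.fmul hf (Smooth1.dF hg)) ((Smooth1.fmul hg (Smooth1.dF hf)).smul _),
      dG_smul _ (Smooth1.fmul hg (Smooth1.dF hf)), dG_fmul1 hf (Smooth1.dF hg),
      dG_fmul1 hg (Smooth1.dF hf)]
  rw [h, dG_dF hf, dG_dF hg]
  have h2 : at2 ((wedG (dF f) (dF g) + fmul f (0 : F2 E4 M)) +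
      (-1 : ℝ) • (wedG (dF g) (dF f) + fmul g (0 : F2 E4 M))) x u w =
      ((at1 (dF f) x u * at1 (dF g) x w - at1 (dF g) x u * at1 (dF f) x w) + f x * 0) +
      (-1) * ((at1 (dF g) x u * at1 (dF f) x w - at1 (dF f) x u * at1 (dF g) x w) + g x * 0) :=
    rfl
  rw [h2]; ring

theorem smooth1_sum {ι : Type*} (s : Finset ι) {a : ι → F1 E4 M} (ha : ∀ i ∈ s, Smooth1 (a i)) :
    Smooth1 (∑ i ∈ s, a i) := by
  classical
  induction s using Finset.induction_on with
  | empty => simpa using smooth1_zero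
  | insert i s hi ih =>
    rw [Finset.sum_insert hi]
    exact (ha i (Finset.mem_insert_self _ _)).add
      (ih fun j hj => ha j (Finset.mem_insert_of_mem hj))

theorem dG_zero : dG (0 : F1 E4 M) = 0 := by
  have h := dG_smul (0 : ℝ) (smooth1_zero (E := E4) (M := M))
  simpa using h

theorem dG_sum {ι : Type*} (s : Finset ι) {a : ι → F1 E4 M} (ha : ∀ i ∈ s, Smooth1 (a i)) :
    dG (∑ i ∈ s, a i) = ∑ i ∈ s, dG (a i) := by
  classical
  induction s using Finset.induction_on with
  | empty => simpa using dG_zero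
  | insert i s hi ih =>
    rw [Finset.sum_insert hi, Finset.sum_insert hi,
      dG_add (ha i (Finset.mem_insert_self _ _))
        (smooth1_sum s fun j hj => ha j (Finset.mem_insert_of_mem hj)),
      ih fun j hj => ha j (Finset.mem_insert_of_mem hj)]

theorem at1_sum {ι : Type*} (s : Finset ι) (a : ι → F1 E4 M) (x : M) (w : E4) :
    at1 (∑ i ∈ s, a i) x w = ∑ i ∈ s, at1 (a i) x w := by
  classical
  induction s using Finset.induction_on with
  | empty => simp [at1]
  | insert i s hi ih =>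
    rw [Finset.sum_insert hi, Finset.sum_insert hi, ← ih]
    rfl

theorem at2_sum {ι : Type*} (s : Finset ι) (a : ι → F2 E4 M) (x : M) (v w : E4) :
    at2 (∑ i ∈ s, a i) x v w = ∑ i ∈ s, at2 (a i) x v w := by
  classical
  induction s using Finset.induction_on with
  | empty => simp [at2]
  | insert i s hi ih =>
    rw [Finset.sum_insert hi, Finset.sum_insert hi, ← ih]
    rfl

theorem smoothF_sum {ι : Type*} (s : Finset ι) {f : ι → M → ℝ} (hf : ∀ i ∈ s, SmoothF E4 (f i)) :
    SmoothF E4 (fun x => ∑ i ∈ s, f i x) := fun p =>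
  ContDiffOn.sum fun i hi => hf i hi p

/-- the differential of a function which vanishes near a point. -/
theorem at1_dF_congr {f g : M → ℝ} {x : M} (h : f =ᶠ[𝓝 x] g) :
    at1 (dF (E := E4) f) x = at1 (dF (E := E4) g) x := by
  show fderiv ℝ (repF x f) (chartAt E4 x x) = fderiv ℝ (repF x g) (chartAt E4 x x)
  have h1 : repF x f =ᶠ[𝓝 (chartAt E4 x x)] repF x g := by
    have h2 : Tendsto (chartAt E4 x).symm (𝓝 (chartAt E4 x x)) (𝓝 x) := by
      have := (chartAt E4 x).continuousAt_symm (mem_chart_target E4 x)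
      unfold ContinuousAt at this
      rwa [(chartAt E4 x).left_inv (mem_chart_source E4 x)] at this
    exact h2.eventually h
  exact h1.fderiv_eq

theorem at1_dF_const (c : ℝ) (x : M) : at1 (dF (E := E4) (fun _ : M => c)) x = 0 := by
  show fderiv ℝ (repF x (fun _ : M => c)) (chartAt E4 x x) = 0
  have : repF x (fun _ : M => c) = fun _ : E4 => c := rfl
  rw [this, fderiv_fun_const]
  rfl

theorem at1_dF_mul {f g : M → ℝ} (hf : SmoothF E4 f) (hg : SmoothF E4 g) (x : M) (w : E4) :
    at1 (dF (fun x => f x * g x)) x w = f x * at1 (dF g) x w + g x * at1 (dF f) x w := by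
  show fderiv ℝ (fun y => repF x f y * repF x g y) (chartAt E4 x x) w = _
  rw [fderiv_fun_mul ((hf.at (mem_chart_target E4 x)).differentiableAt infty_ne_zero)
    ((hg.at (mem_chart_target E4 x)).differentiableAt infty_ne_zero)]
  have e1 : repF x f (chartAt E4 x x) = f x := repF_chart (mem_chart_source E4 x) f
  have e2 : repF x g (chartAt E4 x x) = g x := repF_chart (mem_chart_source E4 x) g
  simp only [_root_.add_apply, _root_.smul_apply, smul_eq_mul, e1, e2]
  rfl

theorem at1_dF_add {f g : M → ℝ} (hf : SmoothF E4 f) (hg : SmoothF E4 g) (x : M) (w : E4) :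
    at1 (dF (fun x => f x + g x)) x w = at1 (dF f) x w + at1 (dF g) x w := by
  show fderiv ℝ (fun y => repF x f y + repF x g y) (chartAt E4 x x) w = _
  rw [fderiv_fun_add ((hf.at (mem_chart_target E4 x)).differentiableAt infty_ne_zero)
    ((hg.at (mem_chart_target E4 x)).differentiableAt infty_ne_zero)]
  rfl

theorem at1_dF_sum {ι : Type*} (s : Finset ι) {f : ι → M → ℝ} (hf : ∀ i ∈ s, SmoothF E4 (f i))
    (x : M) (w : E4) :
    at1 (dF (fun x => ∑ i ∈ s, f i x)) x w = ∑ i ∈ s, at1 (dF (f i)) x w := by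
  show fderiv ℝ (fun y => ∑ i ∈ s, repF x (f i) y) (chartAt E4 x x) w = _
  rw [fderiv_fun_sum fun i hi =>
    ((hf i hi).at (mem_chart_target E4 x)).differentiableAt infty_ne_zero]
  rw [_root_.sum_apply]
  rfl

end Sums

section Line

variable {M : Type u} [TopologicalSpace M] [T2Space M] [CompactSpace M]
  [ChartedSpace E4 M] [IsManifold 𝓘(ℝ, E4) ∞ M] {N : ℕ} {p : M → Matrix (Fin N) (Fin N) ℂ}

theorem isP (hp : IsLine p) (x : M) : IsP (p x) := ⟨hp.idem x, hp.herm x, hp.rank x⟩

/-- the entries in the preferred chart. -/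
theorem diff_p (hp : IsLine p) (x : M) (i j : Fin N) :
    DifferentiableAt ℝ (fun y : E4 => p ((chartAt E4 x).symm y) i j) (chartAt E4 x x) := by
  have h1 : ContMDiffAt 𝓘(ℝ, E4) 𝓘(ℝ, ℂ) ∞ (fun x => p x i j) x := hp.smooth i j x
  have h2 := (contMDiffAt_of_eq (mem_chart_source E4 x) (g := fun x => p x i j)
    (f := fun y : E4 => p ((chartAt E4 x).symm y) i j) (fun z hz => by
      rw [(chartAt E4 x).left_inv hz])).1 h1
  exact h2.differentiableAt (by simp)

theorem isT (hp : IsLine p) (x : M) (w : E4) : IsT (p x) (dmat p x w) := by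
  constructor
  · ext i j
    rw [conjTranspose_apply]
    unfold dmat
    have h1 : (fun y : E4 => p ((chartAt E4 x).symm y) i j) =
        fun y => (starRingEnd ℂ) (p ((chartAt E4 x).symm y) j i) := by
      funext y
      have := congrFun (congrFun (hp.herm ((chartAt E4 x).symm y)) i) j
      rw [conjTranspose_apply] at this
      exact this.symm
    have h2 := (Complex.conjCLE.toContinuousLinearMap.hasFDerivAt.comp (chartAt E4 x x)
      (diff_p hp x j i).hasFDerivAt).fderiv
    have h3 : fderiv ℝ (fun y : E4 => p ((chartAt E4 x).symm y) i j) (chartAt E4 x x) =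
        fderiv ℝ (⇑(Complex.conjCLE.toContinuousLinearMap) ∘
          fun y : E4 => p ((chartAt E4 x).symm y) j i) (chartAt E4 x x) := by
      rw [h1]; rfl
    rw [h3, h2]
    rfl
  · ext i j
    have h1 : (fun y : E4 => p ((chartAt E4 x).symm y) i j) =
        fun y => ∑ k, p ((chartAt E4 x).symm y) i k * p ((chartAt E4 x).symm y) k j := by
      funext y
      have := congrFun (congrFun (hp.idem ((chartAt E4 x).symm y)) i) j
      rw [Matrix.mul_apply] at this
      exact this.symm
    have h2 : HasFDerivAt (fun y : E4 => ∑ k, p ((chartAt E4 x).symm y) i k *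
        p ((chartAt E4 x).symm y) k j) _ (chartAt E4 x x) :=
      HasFDerivAt.fun_sum (u := Finset.univ) fun k _ =>
        (diff_p hp x i k).hasFDerivAt.fun_mul (diff_p hp x k j).hasFDerivAt
    have e : (chartAt E4 x).symm (chartAt E4 x x) = x :=
      (chartAt E4 x).left_inv (mem_chart_source E4 x)
    have h3 : dmat p x w i j = fderiv ℝ (fun y : E4 => ∑ k, p ((chartAt E4 x).symm y) i k *
        p ((chartAt E4 x).symm y) k j) (chartAt E4 x x) w := by
      unfold dmat; rw [h1]
    rw [h3, h2.fderiv, _root_.sum_apply, Matrix.add_apply, Matrix.mul_apply, Matrix.mul_apply,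
      ← Finset.sum_add_distrib]
    refine Finset.sum_congr rfl fun k _ => ?_
    simp only [_root_.add_apply, _root_.smul_apply, smul_eq_mul, e, dmat]
    ring

/-- real and imaginary parts of the components of `p v`. -/
def cre (p : M → Matrix (Fin N) (Fin N) ℂ) (v : Fin N → ℂ) (i : Fin N) (x : M) : ℝ :=
  ((p x *ᵥ v) i).re

/-- imaginary parts -/
def cim (p : M → Matrix (Fin N) (Fin N) ℂ) (v : Fin N → ℂ) (i : Fin N) (x : M) : ℝ :=
  ((p x *ᵥ v) i).im

theorem smooth_sec (hp : IsLine p) (v : Fin N → ℂ) (i : Fin N) :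
    ContMDiff 𝓘(ℝ, E4) 𝓘(ℝ, ℂ) ∞ (fun x => (p x *ᵥ v) i) := by
  have h : (fun x => (p x *ᵥ v) i) = fun x => ∑ j, p x i j * v j := rfl
  rw [h]
  refine contMDiff_finsetSum fun j _ => ?_
  have h1 : ContMDiff 𝓘(ℝ, ℂ) 𝓘(ℝ, ℂ) ∞ (fun z : ℂ => z * v j) :=
    (contDiff_id.mul contDiff_const).contMDiff
  exact h1.comp (hp.smooth i j)

theorem smooth_cre (hp : IsLine p) (v : Fin N → ℂ) (i : Fin N) : SmoothF E4 (cre p v i) :=
  (smoothF_iff _).1 ((Complex.reCLM.contDiff.contMDiff).comp (smooth_sec hp v i))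

theorem smooth_cim (hp : IsLine p) (v : Fin N → ℂ) (i : Fin N) : SmoothF E4 (cim p v i) :=
  (smoothF_iff _).1 ((Complex.imCLM.contDiff.contMDiff).comp (smooth_sec hp v i))

theorem hasFDerivAt_sec (hp : IsLine p) (v : Fin N → ℂ) (i : Fin N) (x : M) :
    HasFDerivAt (fun y : E4 => (p ((chartAt E4 x).symm y) *ᵥ v) i)
      (∑ j, (v j) • fderiv ℝ (fun y : E4 => p ((chartAt E4 x).symm y) i j) (chartAt E4 x x))
      (chartAt E4 x x) := by
  have h : (fun y : E4 => (p ((chartAt E4 x).symm y) *ᵥ v) i) =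
      fun y => ∑ j, p ((chartAt E4 x).symm y) i j * v j := rfl
  rw [h]
  exact HasFDerivAt.fun_sum fun j _ => (diff_p hp x i j).hasFDerivAt.mul_const (v j)

theorem fderiv_sec (hp : IsLine p) (v : Fin N → ℂ) (i : Fin N) (x : M) (w : E4) :
    fderiv ℝ (fun y : E4 => (p ((chartAt E4 x).symm y) *ᵥ v) i) (chartAt E4 x x) w =
      (dmat p x w *ᵥ v) i := by
  rw [(hasFDerivAt_sec hp v i x).fderiv, _root_.sum_apply, mulVec, dotProduct]
  refine Finset.sum_congr rfl fun j _ => ?_
  rw [_root_.smul_apply, smul_eq_mul, mul_comm]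
  rfl

theorem at1_cre (hp : IsLine p) (v : Fin N → ℂ) (i : Fin N) (x : M) (w : E4) :
    at1 (dF (cre p v i)) x w = ((dmat p x w *ᵥ v) i).re := by
  rw [← fderiv_sec hp]
  have h := (Complex.reCLM.hasFDerivAt.comp (chartAt E4 x x) (hasFDerivAt_sec hp v i x)).fderiv
  rw [(hasFDerivAt_sec hp v i x).fderiv]
  exact congrArg (fun L : E4 →L[ℝ] ℝ => L w) h

theorem at1_cim (hp : IsLine p) (v : Fin N → ℂ) (i : Fin N) (x : M) (w : E4) :
    at1 (dF (cim p v i)) x w = ((dmat p x w *ᵥ v) i).im := by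
  rw [← fderiv_sec hp]
  have h := (Complex.imCLM.hasFDerivAt.comp (chartAt E4 x x) (hasFDerivAt_sec hp v i x)).fderiv
  rw [(hasFDerivAt_sec hp v i x).fderiv]
  exact congrArg (fun L : E4 →L[ℝ] ℝ => L w) h

/-- `|p v|²` -/
def mu (p : M → Matrix (Fin N) (Fin N) ℂ) (v : Fin N → ℂ) (x : M) : ℝ :=
  ∑ i, (cre p v i x * cre p v i x + cim p v i x * cim p v i x)

/-- `(1/2π) Im ⟨p v, d (p v)⟩` -/
def al (p : M → Matrix (Fin N) (Fin N) ℂ) (v : Fin N → ℂ) : F1 E4 M :=
  (2 * Real.pi)⁻¹ • ∑ i, pr (cre p v i) (cim p v i)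

theorem smooth_mu (hp : IsLine p) (v : Fin N → ℂ) : SmoothF E4 (mu p v) :=
  smoothF_sum _ fun i _ => ((smooth_cre hp v i).mul (smooth_cre hp v i)).add
    ((smooth_cim hp v i).mul (smooth_cim hp v i))

theorem smooth1_al (hp : IsLine p) (v : Fin N → ℂ) : Smooth1 (al p v) :=
  (smooth1_sum _ fun i _ => smooth1_pr (smooth_cre hp v i) (smooth_cim hp v i)).smul _

theorem re_dot (a b : Fin N → ℂ) : (star a ⬝ᵥ b).re =
    ∑ i, ((a i).re * (b i).re + (a i).im * (b i).im) := by
  simp only [dotProduct, Pi.star_apply, RCLike.star_def, Complex.re_sum, Complex.mul_re,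
    Complex.conj_re, Complex.conj_im]
  exact Finset.sum_congr rfl fun i _ => by ring

theorem im_dot (a b : Fin N → ℂ) : (star a ⬝ᵥ b).im =
    ∑ i, ((a i).re * (b i).im - (a i).im * (b i).re) := by
  simp only [dotProduct, Pi.star_apply, RCLike.star_def, Complex.im_sum, Complex.mul_im,
    Complex.conj_re, Complex.conj_im]
  exact Finset.sum_congr rfl fun i _ => by ring

theorem mu_eq (v : Fin N → ℂ) (x : M) :
    mu p v x = (star (p x *ᵥ v) ⬝ᵥ (p x *ᵥ v)).re := by
  rw [re_dot]; rfl

theorem mu_eq_zero {v : Fin N → ℂ} {x : M} (h : mu p v x = 0) : p x *ᵥ v = 0 := by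
  funext i
  have h1 := (Finset.sum_eq_zero_iff_of_nonneg (s := Finset.univ)
    (f := fun i => cre p v i x * cre p v i x + cim p v i x * cim p v i x)
    (fun i _ => add_nonneg (mul_self_nonneg _) (mul_self_nonneg _))).1 h i (Finset.mem_univ i)
  have e1 := mul_self_nonneg (cre p v i x)
  have e2 := mul_self_nonneg (cim p v i x)
  have h2 : cre p v i x = 0 := mul_self_eq_zero.1 (by linarith)
  have h3 : cim p v i x = 0 := mul_self_eq_zero.1 (by linarith)
  exact Complex.ext h2 h3

theorem at1_al (hp : IsLine p) (v : Fin N → ℂ) (x : M) (w : E4) :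
    at1 (al p v) x w = (2 * Real.pi)⁻¹ * (star (p x *ᵥ v) ⬝ᵥ (dmat p x w *ᵥ v)).im := by
  have h : at1 (al p v) x w = (2 * Real.pi)⁻¹ * at1 (∑ i, pr (cre p v i) (cim p v i)) x w := rfl
  rw [h, at1_sum, im_dot]
  congr 1
  refine Finset.sum_congr rfl fun i _ => ?_
  rw [at1_pr, at1_cre hp, at1_cim hp]
  rfl

theorem at1_dmu (hp : IsLine p) (v : Fin N → ℂ) (x : M) (w : E4) :
    at1 (dF (mu p v)) x w = 2 * (star (p x *ᵥ v) ⬝ᵥ (dmat p x w *ᵥ v)).re := by
  have h := at1_dF_sum (Finset.univ : Finset (Fin N))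
    (f := fun i x => cre p v i x * cre p v i x + cim p v i x * cim p v i x)
    (fun i _ => ((smooth_cre hp v i).mul (smooth_cre hp v i)).add
      ((smooth_cim hp v i).mul (smooth_cim hp v i))) x w
  have h0 : at1 (dF (mu p v)) x w = at1 (dF (fun x => ∑ i ∈ (Finset.univ : Finset (Fin N)),
    (fun i x => cre p v i x * cre p v i x + cim p v i x * cim p v i x) i x)) x w := rfl
  rw [h0, h, re_dot, Finset.mul_sum]
  refine Finset.sum_congr rfl fun i _ => ?_
  have h1 := at1_dF_add ((smooth_cre hp v i).mul (smooth_cre hp v i))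
    ((smooth_cim hp v i).mul (smooth_cim hp v i)) x w
  rw [h1, at1_dF_mul (smooth_cre hp v i) (smooth_cre hp v i),
    at1_dF_mul (smooth_cim hp v i) (smooth_cim hp v i), at1_cre hp, at1_cim hp]
  simp only [cre, cim]
  ring

theorem at2_dal (hp : IsLine p) (v : Fin N → ℂ) (x : M) (u w : E4) :
    at2 (dG (al p v)) x u w =
      (2 * Real.pi)⁻¹ * (2 * (star (dmat p x u *ᵥ v) ⬝ᵥ (dmat p x w *ᵥ v)).im) := by
  have hs : ∀ i ∈ (Finset.univ : Finset (Fin N)), Smooth1 (pr (cre p v i) (cim p v i)) :=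
    fun i _ => smooth1_pr (smooth_cre hp v i) (smooth_cim hp v i)
  rw [al, dG_smul _ (smooth1_sum _ hs), dG_sum _ hs]
  have h : ∀ (c : ℝ) (a : F2 E4 M), at2 (c • a) x u w = c * at2 a x u w := fun _ _ => rfl
  rw [h, at2_sum, im_dot]
  congr 1
  rw [Finset.mul_sum]
  refine Finset.sum_congr rfl fun i _ => ?_
  rw [at2_dG_pr (smooth_cre hp v i) (smooth_cim hp v i), at1_cre hp, at1_cre hp, at1_cim hp,
    at1_cim hp]

/-- the curvature identity. -/
theorem curvM (hp : IsLine p) {a : Z2 M} (ha : IsChern p a) (v : Fin N → ℂ) (x : M) (u w : E4) :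
    mu p v x ^ 2 * val a x u w + mu p v x * at2 (dG (al p v)) x u w -
      (at1 (dF (mu p v)) x u * at1 (al p v) x w - at1 (dF (mu p v)) x w * at1 (al p v) x u) = 0 := by
  have h := curv (isP hp x) (isT hp x u) (isT hp x w) v (mu_eq (p := p) v x)
  rw [ha x u w, at2_dal hp, at1_al hp, at1_al hp, at1_dmu hp, at1_dmu hp]
  exact h

/-- the quotient `lam/mu`. -/
theorem exists_quot (hp : IsLine p) (v : Fin N → ℂ) {lam : M → ℝ} (hl : SmoothF E4 lam)
    (hs : tsupport lam ⊆ {x | mu p v x ≠ 0}) :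
    SmoothF E4 (fun x => lam x / mu p v x) := by
  refine SmoothF.of_local fun x => ⟨x, mem_chart_source E4 x, ?_⟩
  by_cases hx : x ∈ tsupport lam
  · have h1 : ContDiffAt ℝ ∞ (repF x lam) (chartAt E4 x x) := hl.at (mem_chart_target E4 x)
    have h2 : ContDiffAt ℝ ∞ (repF x (mu p v)) (chartAt E4 x x) :=
      (smooth_mu hp v).at (mem_chart_target E4 x)
    refine h1.div h2 ?_
    rw [(chartAt E4 x).left_inv (mem_chart_source E4 x)]
    exact hs hx
  · have h1 : ∀ᶠ y in 𝓝 x, lam y = 0 := by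
      filter_upwards [(isClosed_tsupport lam).isOpen_compl.mem_nhds hx] with z hz
      exact image_eq_zero_of_notMem_tsupport hz
    have h2 : Tendsto (chartAt E4 x).symm (𝓝 (chartAt E4 x x)) (𝓝 x) := by
      have := (chartAt E4 x).continuousAt_symm (mem_chart_target E4 x)
      unfold ContinuousAt at this
      rwa [(chartAt E4 x).left_inv (mem_chart_source E4 x)] at this
    refine (contDiffAt_const (c := (0 : ℝ))).congr_of_eventuallyEq ?_
    filter_upwards [h2.eventually h1] with y hy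
    show lam _ / _ = 0
    rw [hy, zero_div]

/-- `d (lam/mu · al) = d lam ∧ al/mu - lam a`. -/
theorem cal (hp : IsLine p) {a : Z2 M} (ha : IsChern p a) (v : Fin N → ℂ) {lam : M → ℝ}
    (hl : SmoothF E4 lam) (hs : tsupport lam ⊆ {x | mu p v x ≠ 0}) :
    ∃ s : F1 E4 M, Smooth1 s ∧ ∀ (x : M) (u w : E4), at2 (dG s) x u w =
      (at1 (dF lam) x u * (at1 (al p v) x w / mu p v x) -
        at1 (dF lam) x w * (at1 (al p v) x u / mu p v x)) - lam x * val a x u w := by
  have hq := exists_quot hp v hl hs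
  set c : M → ℝ := fun x => lam x / mu p v x with hc
  refine ⟨fmul1 c (al p v), Smooth1.fmul hq (smooth1_al hp v), fun x u w => ?_⟩
  have h1 : at2 (dG (fmul1 c (al p v))) x u w = (at1 (dF c) x u * at1 (al p v) x w -
      at1 (al p v) x u * at1 (dF c) x w) + c x * at2 (dG (al p v)) x u w := by
    rw [dG_fmul1 hq (smooth1_al hp v)]
    rfl
  rw [h1]
  by_cases hx : x ∈ tsupport lam
  · have hm : mu p v x ≠ 0 := hs hx
    have hlc : ∀ t : E4, at1 (dF lam) x t = c x * at1 (dF (mu p v)) x t +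
        mu p v x * at1 (dF c) x t := by
      intro t
      rw [← at1_dF_mul hq (smooth_mu hp v)]
      have he : lam =ᶠ[𝓝 x] fun x => c x * mu p v x := by
        have h2 : ∀ᶠ y in 𝓝 x, mu p v y ≠ 0 := by
          have h3 : Continuous (mu p v) := by
            have := (smoothF_iff (E := E4) (mu p v)).2 (smooth_mu hp v)
            exact this.continuous
          exact h3.continuousAt.eventually (isOpen_ne.mem_nhds hm)
        filter_upwards [h2] with y hy
        rw [hc]; simp only; rw [div_mul_cancel₀ _ hy]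
      rw [at1_dF_congr he]
    have hk := curvM hp ha v x u w
    have hcx : c x * mu p v x = lam x := by rw [hc]; simp only; rw [div_mul_cancel₀ _ hm]
    rw [hlc u, hlc w, ← hcx]
    field_simp
    linear_combination (c x) * hk
  · have h0 : ∀ᶠ y in 𝓝 x, lam y = 0 := by
      filter_upwards [(isClosed_tsupport lam).isOpen_compl.mem_nhds hx] with z hz
      exact image_eq_zero_of_notMem_tsupport hz
    have e1 : at1 (dF (E := E4) lam) x = 0 := by
      rw [at1_dF_congr (g := fun _ => (0 : ℝ)) h0, at1_dF_const]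
    have e2 : at1 (dF (E := E4) c) x = 0 := by
      have : c =ᶠ[𝓝 x] fun _ => (0 : ℝ) := by
        filter_upwards [h0] with y hy
        rw [hc]; simp only; rw [hy, zero_div]
      rw [at1_dF_congr this, at1_dF_const]
    have e3 : lam x = 0 := h0.self_of_nhds
    have e4 : c x = 0 := by rw [hc]; simp only; rw [e3, zero_div]
    rw [e1, e2, e3, e4]
    simp

end Line

end

end Crest.Agent.R235.Integ_984
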