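import Crest.Agent.R235.Integ2_984
import Crest.Agent.R235.Wind4_688

/-!
Row 235 (S0364), PACKAGE ADJ, leaf X3 INTEG (helper984), part 3: the local contribution of a disc
is a winding number.
-/

set_option autoImplicit false
set_option maxSynthPendingDepth 3
set_option linter.unusedSectionVars false

open Set Function Filter MeasureTheory Metric Matrix
open scoped Manifold ContDiff Topology

universe u

namespace Crest.Agent.R235.Integ_984

open Crest.Agent.R240 Crest.Agent.R240.Ch Crest.Agent.R235 Crest.Agent.R235.Glob_370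
open Crest.Agent.R235.Wind_688

noncomputable section

section Chain

variable {M : Type u} [TopologicalSpace M] [ChartedSpace E4 M] [IsManifold 𝓘(ℝ, E4) ∞ M]
variable {F' : Type*} [NormedAddCommGroup F'] [NormedSpace ℝ F']

/-- chain rule for functions on `M` along maps of the plane. -/
theorem hasFDerivAt_disc {g : M → F'} {u : ℂ → M} {z : ℂ}
    (hg : ContMDiffAt 𝓘(ℝ, E4) 𝓘(ℝ, F') ∞ g (u z))
    (hu : ContMDiffAt 𝓘(ℝ, ℂ) 𝓘(ℝ, E4) ∞ u z) :
    HasFDerivAt (fun w => g (u w))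
      ((fderiv ℝ (fun y : E4 => g ((chartAt E4 (u z)).symm y)) (chartAt E4 (u z) (u z))).comp
        (fderiv ℝ (fun w => chartAt E4 (u z) (u w)) z)) z := by
  have h1 : ContDiffAt ℝ ∞ (fun y : E4 => g ((chartAt E4 (u z)).symm y))
      (chartAt E4 (u z) (u z)) :=
    (contMDiffAt_of_eq (mem_chart_source E4 (u z)) (g := g)
      (f := fun y : E4 => g ((chartAt E4 (u z)).symm y)) (fun y hy => by
        rw [(chartAt E4 (u z)).left_inv hy])).1 hg
  have h2 := (cd_chart hu).differentiableAt (by simp)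
  have h3 := (h1.differentiableAt (by simp)).hasFDerivAt.comp z h2.hasFDerivAt
  refine h3.congr_of_eventuallyEq ?_
  filter_upwards [hu.continuousAt.eventually
    ((chartAt E4 (u z)).open_source.mem_nhds (mem_chart_source E4 (u z)))] with w hw
  show g (u w) = g ((chartAt E4 (u z)).symm (chartAt E4 (u z) (u w)))
  rw [(chartAt E4 (u z)).left_inv hw]

theorem fderiv_disc {g : M → F'} {u : ℂ → M} {z : ℂ}
    (hg : ContMDiffAt 𝓘(ℝ, E4) 𝓘(ℝ, F') ∞ g (u z))
    (hu : ContMDiffAt 𝓘(ℝ, ℂ) 𝓘(ℝ, E4) ∞ u z) (t : ℂ) :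
    fderiv ℝ (fun w => g (u w)) z t =
      fderiv ℝ (fun y : E4 => g ((chartAt E4 (u z)).symm y)) (chartAt E4 (u z) (u z))
        (dmap u z t) := by
  rw [(hasFDerivAt_disc hg hu).fderiv]
  rfl

theorem fderiv_disc_F {f : M → ℝ} {u : ℂ → M} {z : ℂ} (hf : SmoothF E4 f)
    (hu : ContMDiffAt 𝓘(ℝ, ℂ) 𝓘(ℝ, E4) ∞ u z) (t : ℂ) :
    fderiv ℝ (fun w => f (u w)) z t = at1 (dF f) (u z) (dmap u z t) :=
  fderiv_disc ((smoothF_iff f).2 hf (u z)) hu t

end Chain

section Disc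

variable {M : Type u} [TopologicalSpace M] [T2Space M] [CompactSpace M]
  [ChartedSpace E4 M] [IsManifold 𝓘(ℝ, E4) ∞ M] {N : ℕ} {p : M → Matrix (Fin N) (Fin N) ℂ}

/-- the function `v* p e`. -/
def Gf (p : M → Matrix (Fin N) (Fin N) ℂ) (v e : Fin N → ℂ) (x : M) : ℂ := star v ⬝ᵥ (p x *ᵥ e)

theorem smooth_Gf (hp : IsLine p) (v e : Fin N → ℂ) :
    ContMDiff 𝓘(ℝ, E4) 𝓘(ℝ, ℂ) ∞ (Gf p v e) := by
  have h : Gf p v e = fun x => ∑ i, star v i * (p x *ᵥ e) i := rfl
  rw [h]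
  refine contMDiff_finsetSum fun i _ => ?_
  have h1 : ContMDiff 𝓘(ℝ, ℂ) 𝓘(ℝ, ℂ) ∞ (fun z : ℂ => star v i * z) :=
    (contDiff_const.mul contDiff_id).contMDiff
  exact h1.comp (smooth_sec hp e i)

theorem fderiv_Gf (hp : IsLine p) (v e : Fin N → ℂ) (x : M) (w : E4) :
    fderiv ℝ (fun y : E4 => Gf p v e ((chartAt E4 x).symm y)) (chartAt E4 x x) w =
      star v ⬝ᵥ (dmat p x w *ᵥ e) := by
  have h : (fun y : E4 => Gf p v e ((chartAt E4 x).symm y)) =
      fun y => ∑ i, star v i * (p ((chartAt E4 x).symm y) *ᵥ e) i := rfl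
  rw [h, (HasFDerivAt.fun_sum (u := Finset.univ) fun i _ =>
    (hasFDerivAt_sec hp e i x).const_mul (star v i)).fderiv, _root_.sum_apply, dotProduct]
  refine Finset.sum_congr rfl fun i _ => ?_
  rw [_root_.smul_apply, smul_eq_mul, ← (hasFDerivAt_sec hp e i x).fderiv, fderiv_sec hp]

/-- the difference of two connection forms. -/
theorem diff_al (hp : IsLine p) (v e : Fin N → ℂ) {x : M} (hv : mu p v x ≠ 0)
    (he : mu p e x ≠ 0) (w : E4) :
    Gf p v e x ≠ 0 ∧ at1 (al p e) x w / mu p e x - at1 (al p v) x w / mu p v x =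
      (2 * Real.pi)⁻¹ * ((star v ⬝ᵥ (dmat p x w *ᵥ e)) / Gf p v e x).im := by
  obtain ⟨h1, h2⟩ := change (isP hp x) (isT hp x w) v e (mu_eq (p := p) v x)
    (mu_eq (p := p) e x)
  have h3 : Gf p v e x ≠ 0 := by
    intro h4
    have h5 : Complex.normSq (Gf p v e x) = mu p v x * mu p e x := h2
    rw [h4, map_zero] at h5
    exact mul_ne_zero hv he h5.symm
  refine ⟨h3, ?_⟩
  have h4 : ((star v ⬝ᵥ (dmat p x w *ᵥ e)) / Gf p v e x).im =
      ((star v ⬝ᵥ (dmat p x w *ᵥ e)) * star (Gf p v e x)).im / (mu p v x * mu p e x) := by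
    rw [← h2, div_eq_mul_inv, Complex.inv_def]
    show _ = _ / Complex.normSq (Gf p v e x)
    rw [← mul_assoc, Complex.im_mul_ofReal, div_eq_mul_inv]
    rfl
  rw [h4]
  have h5 : ((star v ⬝ᵥ (dmat p x w *ᵥ e)) * star (Gf p v e x)).im =
      mu p v x * (star (p x *ᵥ e) ⬝ᵥ (dmat p x w *ᵥ e)).im -
        mu p e x * (star (p x *ᵥ v) ⬝ᵥ (dmat p x w *ᵥ v)).im := h1.symm
  rw [h5, at1_al hp, at1_al hp]
  field_simp

/-- **the local contribution is an integer.** -/
theorem loc (hp : IsLine p) {v e : Fin N → ℂ} {u : ℂ → M} {V : Set M} (hV : IsOpen V)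
    (hu : ContMDiffOn 𝓘(ℝ, ℂ) 𝓘(ℝ, E4) ∞ u (ball 0 1)) (hvV : ∀ x ∈ V, mu p v x ≠ 0)
    (h0V : u 0 ∈ V) (hz : ∀ z ∈ ball (0 : ℂ) 1, u z ∈ V → mu p e (u z) = 0 → z = 0)
    {κ ρ : M → ℝ} (hκ : SmoothF E4 κ) (hρ : SmoothF E4 ρ) (hκV : tsupport κ ⊆ V)
    {r : ℝ} (hr : r < 1) (hκr : ∀ z ∈ ball (0 : ℂ) 1, u z ∈ tsupport κ → ‖z‖ ≤ r)
    (hκ1 : ∀ᶠ x in 𝓝 (u 0), κ x = 1) (hρ0 : ∀ᶠ x in 𝓝 (u 0), ρ x = 0)
    (hρs : tsupport ρ ⊆ {x | mu p e x ≠ 0}) {b : F2 E4 M}
    (hb : ∀ z ∈ ball (0 : ℂ) 1,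
      ((∀ᶠ x in 𝓝 (u z), κ x = 1) ∧ ∀ s t : E4, at2 b (u z) s t =
        at1 (dF ρ) (u z) s * (at1 (al p e) (u z) t / mu p e (u z) -
          at1 (al p v) (u z) t / mu p v (u z)) -
        at1 (dF ρ) (u z) t * (at1 (al p e) (u z) s / mu p e (u z) -
          at1 (al p v) (u z) s / mu p v (u z))) ∨
      ((∀ᶠ x in 𝓝 (u z), κ x * (1 - ρ x) = 0) ∧ at2 (fmul κ b) (u z) = 0)) :
    ∃ n : ℤ, ∫ z in ball (0 : ℂ) 1, pb u (fmul κ b) z = n := by
  classical
  have hua : ∀ z ∈ ball (0 : ℂ) 1, ContMDiffAt 𝓘(ℝ, ℂ) 𝓘(ℝ, E4) ∞ u z := fun z hz =>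
    hu.contMDiffAt (isOpen_ball.mem_nhds hz)
  have huc : ContinuousOn u (ball 0 1) := hu.continuousOn
  have h00 : (0 : ℂ) ∈ ball (0 : ℂ) 1 := mem_ball_self one_pos
  -- the open set
  set O : Set ℂ := {z | z ∈ ball (0 : ℂ) 1 ∧ u z ∈ V} with hO
  have hOo : IsOpen O := huc.isOpen_inter_preimage isOpen_ball hV
  have h0O : (0 : ℂ) ∈ O := ⟨h00, h0V⟩
  set F : ℂ → ℂ := fun z => Gf p v e (u z) with hF
  have hFs : ContDiffOn ℝ ∞ F (ball 0 1) := by
    have h1 : ContMDiffOn 𝓘(ℝ, ℂ) 𝓘(ℝ, ℂ) ∞ F (ball 0 1) :=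
      (smooth_Gf hp v e).comp_contMDiffOn hu
    exact h1.contDiffOn
  have hF0 : ∀ z ∈ O, z ≠ 0 → F z ≠ 0 := by
    intro z hz1 hz0
    have h1 : mu p e (u z) ≠ 0 := fun h => hz0 (hz z hz1.1 hz1.2 h)
    exact (diff_al hp v e (hvV _ hz1.2) h1 0).1
  -- the winding number
  obtain ⟨n, hn⟩ : ∃ n : ℤ, ∀ᶠ r in 𝓝[>] (0 : ℝ), IsW F 0 r n := by
    obtain ⟨R, hR, hRO⟩ := Metric.isOpen_iff.1 hOo 0 h0O
    have hR2 : 0 < R / 2 := by positivity
    have hFc : ContinuousOn F (ball 0 R \ {0}) :=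
      (hFs.continuousOn.mono fun z hz => (hRO hz.1).1)
    obtain ⟨n, hn⟩ := exists_isW (F := F) (p := 0) hR2.le (hFs.continuousOn.mono fun z hz =>
      (hRO (sphere_subset_ball (by linarith) hz)).1) (fun z hz => hF0 z
        (hRO (sphere_subset_ball (by linarith) hz)) (by
          rintro rfl
          rw [mem_sphere, dist_self] at hz
          exact hR2.ne hz))
    refine ⟨n, ?_⟩
    filter_upwards [Ioo_mem_nhdsGT hR] with s hs
    exact IsW.radius' hFc (fun z hz hz0 => hF0 z (hRO hz) hz0) hR2 (by linarith) hs.1 hs.2 hn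
  -- the cut-off
  set χ : ℂ → ℝ := fun z => if z ∈ ball (0 : ℂ) 1 then κ (u z) * (1 - ρ (u z)) else 0 with hχ
  set q : M → ℝ := fun x => κ x * (1 - ρ x) with hq
  have hqs : SmoothF E4 q := hκ.mul ((smoothF_const 1).sub hρ)
  have hχb : ∀ z ∈ ball (0 : ℂ) 1, χ =ᶠ[𝓝 z] fun z => q (u z) := by
    intro z hz1
    filter_upwards [isOpen_ball.mem_nhds hz1] with y hy
    rw [hχ]; simp only; rw [if_pos hy]
  have hχ0 : ∀ z : ℂ, r < ‖z‖ → χ z = 0 := by
    intro z hz1
    rw [hχ]; simp only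
    split_ifs with h1
    · have h2 : u z ∉ tsupport κ := fun h => absurd (hκr z h1 h) (not_le.2 hz1)
      rw [image_eq_zero_of_notMem_tsupport h2, zero_mul]
    · rfl
  have hχ0e : ∀ z : ℂ, z ∉ ball (0 : ℂ) 1 → χ =ᶠ[𝓝 z] fun _ => 0 := by
    intro z hz1
    rw [mem_ball, dist_zero_right, not_lt] at hz1
    have : ∀ᶠ y in 𝓝 z, r < ‖y‖ :=
      continuous_norm.continuousAt.eventually (Ioi_mem_nhds (hr.trans_le hz1))
    filter_upwards [this] with y hy using hχ0 y hy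
  have hqu : ∀ z ∈ ball (0 : ℂ) 1, ContDiffAt ℝ ∞ (fun z => q (u z)) z := by
    intro z hz1
    have h1 : ContMDiffAt 𝓘(ℝ, ℂ) 𝓘(ℝ, ℝ) ∞ (fun z => q (u z)) z :=
      ((smoothF_iff q).2 hqs (u z)).comp z (hua z hz1)
    exact h1.contDiffAt
  have hχs : ContDiff ℝ 1 χ := by
    rw [contDiff_iff_contDiffAt]
    intro z
    by_cases hz1 : z ∈ ball (0 : ℂ) 1
    · exact ((hqu z hz1).of_le one_le_infty).congr_of_eventuallyEq (hχb z hz1)
    · exact (contDiffAt_const (c := (0 : ℝ))).congr_of_eventuallyEq (hχ0e z hz1)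
  have hχc : HasCompactSupport χ := by
    refine HasCompactSupport.intro (isCompact_closedBall (0 : ℂ) r) fun z hz1 => ?_
    rw [mem_closedBall, dist_zero_right, not_le] at hz1
    exact hχ0 z hz1
  have hχt : tsupport χ ⊆ O := by
    intro z hz1
    by_contra hzO
    have h1 : χ =ᶠ[𝓝 z] 0 := by
      by_cases hzb : z ∈ ball (0 : ℂ) 1
      · have h2 : u z ∉ tsupport κ := fun h => hzO ⟨hzb, hκV h⟩
        have h3 : ∀ᶠ y in 𝓝 z, u y ∉ tsupport κ :=
          (hua z hzb).continuousAt.eventually ((isClosed_tsupport κ).isOpen_compl.mem_nhds h2)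
        filter_upwards [h3, hχb z hzb] with y hy1 hy2
        rw [hy2]
        show κ (u y) * _ = 0
        rw [image_eq_zero_of_notMem_tsupport hy1, zero_mul]
      · exact hχ0e z hzb
    exact (notMem_tsupport_iff_eventuallyEq.2 h1) hz1
  have hu0 : Tendsto u (𝓝 0) (𝓝 (u 0)) := (hua 0 h00).continuousAt
  have hχ1 : ∀ᶠ z in 𝓝 (0 : ℂ), χ z = 1 := by
    filter_upwards [hχb 0 h00, hu0.eventually hκ1, hu0.eventually hρ0] with z h1 h2 h3
    rw [h1]
    show κ (u z) * (1 - ρ (u z)) = 1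
    rw [h2, h3]; ring
  -- the cut-off formula
  have hcut := cut (U := O \ {0}) (hOo.sdiff isClosed_singleton) (F := F)
    ((hFs.of_le two_le_infty).mono fun z hz => hz.1.1) (fun z hz => hF0 z hz.1 hz.2) {0}
    (fun _ => n) ?_ ?_ χ hχs hχc ?_ ?_
  rotate_left
  · intro s hs
    rw [Finset.mem_singleton] at hs
    subst hs
    rw [eventually_nhdsWithin_iff]
    filter_upwards [hOo.mem_nhds h0O] with z h1 h2 using ⟨h1, h2⟩
  · intro s hs
    rw [Finset.mem_singleton] at hs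
    subst hs
    exact hn
  · intro z hz1
    by_cases hz0 : z = 0
    · right; simp [hz0]
    · left; exact ⟨hχt hz1, hz0⟩
  · intro s hs
    rw [Finset.mem_singleton] at hs
    subst hs
    have h1 := hχ1.self_of_nhds
    filter_upwards [hχ1] with z h2
    rw [h1, h2]
  obtain ⟨hint, hcutv⟩ := hcut
  -- the pointwise identity
  have key : ∀ z ∈ ball (0 : ℂ) 1, pb u (fmul κ b) z =
      -((2 * Real.pi)⁻¹ * (jac χ F z / F z).im) := by
    intro z hzb
    have dχ : ∀ t : ℂ, fderiv ℝ χ z t = at1 (dF q) (u z) (dmap u z t) := by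
      intro t
      rw [(hχb z hzb).fderiv_eq]
      exact fderiv_disc_F hqs (hua z hzb) t
    have dFz : ∀ t : ℂ, fderiv ℝ F z t = star v ⬝ᵥ (dmat p (u z) (dmap u z t) *ᵥ e) := by
      intro t
      rw [← fderiv_Gf hp]
      exact fderiv_disc (smooth_Gf hp v e (u z)) (hua z hzb) t
    rcases hb z hzb with ⟨h1, h2⟩ | ⟨h1, h2⟩
    · have h3 : at1 (dF (E := E4) q) (u z) = - at1 (dF (E := E4) ρ) (u z) := by
        have h4 : q =ᶠ[𝓝 (u z)] fun x => 1 + (-1) * ρ x := by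
          filter_upwards [h1] with x hx
          rw [hq]; simp only; rw [hx]; ring
        rw [at1_dF_congr h4]
        ext w
        rw [at1_dF_add (smoothF_const 1) ((smoothF_const (-1)).mul hρ),
          at1_dF_mul (smoothF_const (-1)) hρ, at1_dF_const, at1_dF_const]
        simp
      have h4 : pb u (fmul κ b) z = κ (u z) * at2 b (u z) (dmap u z 1) (dmap u z Complex.I) := rfl
      rw [h4, h1.self_of_nhds, one_mul, h2]
      by_cases hm : mu p e (u z) = 0
      · have h5 : u z ∉ tsupport ρ := fun h => hρs h hm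
        have h6 : at1 (dF (E := E4) ρ) (u z) = 0 := by
          have : ρ =ᶠ[𝓝 (u z)] fun _ => 0 := notMem_tsupport_iff_eventuallyEq.1 h5
          rw [at1_dF_congr this, at1_dF_const]
        have h7 : jac χ F z = 0 := by
          unfold jac
          rw [dχ, dχ, h3, h6]
          simp
        rw [h6, h7]
        simp
      · have hκz : u z ∈ V := hκV (subset_tsupport _ (by
          rw [mem_support, h1.self_of_nhds]; exact one_ne_zero))
        have d1 := (diff_al hp v e (hvV _ hκz) hm (dmap u z 1)).2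
        have d2 := (diff_al hp v e (hvV _ hκz) hm (dmap u z Complex.I)).2
        rw [d1, d2, ← dFz, ← dFz]
        have h8 : jac χ F z / F z =
            ((- at1 (dF ρ) (u z) (dmap u z 1) : ℝ) : ℂ) * (fderiv ℝ F z Complex.I / F z) -
            ((- at1 (dF ρ) (u z) (dmap u z Complex.I) : ℝ) : ℂ) * (fderiv ℝ F z 1 / F z) := by
          unfold jac
          rw [dχ, dχ, h3]
          simp only [_root_.neg_apply]
          ring
        rw [h8, Complex.sub_im, Complex.im_ofReal_mul, Complex.im_ofReal_mul]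
        show at1 (dF ρ) (u z) (dmap u z 1) * ((2 * Real.pi)⁻¹ *
          (fderiv ℝ F z Complex.I / F z).im) - at1 (dF ρ) (u z) (dmap u z Complex.I) *
          ((2 * Real.pi)⁻¹ * (fderiv ℝ F z 1 / F z).im) = _
        ring
    · have h3 : at1 (dF (E := E4) q) (u z) = 0 := by
        rw [at1_dF_congr (g := fun _ => (0 : ℝ)) h1, at1_dF_const]
      have h4 : pb u (fmul κ b) z = 0 := by
        unfold pb
        rw [h2]; rfl
      have h7 : jac χ F z = 0 := by
        unfold jac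
        rw [dχ, dχ, h3]
        simp
      rw [h4, h7]
      simp
  refine ⟨n, ?_⟩
  rw [setIntegral_congr_fun measurableSet_ball key, integral_neg, integral_const_mul]
  have h1 : ∫ z in ball (0 : ℂ) 1, (jac χ F z / F z).im = ∫ z, (jac χ F z / F z).im := by
    refine setIntegral_eq_integral_of_forall_compl_eq_zero fun z hz1 => ?_
    have h2 : jac χ F z = 0 := by
      unfold jac
      rw [(hχ0e z hz1).fderiv_eq]
      simp
    rw [h2]; simp
  have h2 : ∫ z, (jac χ F z / F z).im = (∫ z, jac χ F z / F z).im := integral_im hint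
  rw [h1, h2, hcutv]
  simp only [Finset.sum_singleton, hχ1.self_of_nhds, one_mul]
  have h3 : (-(2 * (Real.pi : ℂ) * Complex.I) * (((n : ℤ) : ℝ) : ℂ)).im = -(2 * Real.pi * n) := by
    simp
  rw [h3]
  field_simp

end Disc

end

end Crest.Agent.R235.Integ_984
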