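import Mathlib

/-!
Row 235 (S0364), package ADJ, leaf X3 (INTEG), helper796, file A: transversality.
`q : ℂ → Matrix` smooth on the open set `O`; for `e` in an open dense set the section `q e` has
only nondegenerate (hence finitely many) zeros on the compact set `C ⊆ O` where the diagonal of
`q` does not vanish.  Only Sard in equal dimensions (`ℂ → ℂ`) is used.
-/

set_option autoImplicit false

open Set Function Filter Topology Metric MeasureTheory
open scoped ContDiff Matrix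

namespace Crest.Agent.R235.Integ_796

noncomputable section

variable {K : ℕ} {q : ℂ → Matrix (Fin K) (Fin K) ℂ} {O C : Set ℂ}

/-- the derivative of the matrix valued function `q`. -/
def Dq (q : ℂ → Matrix (Fin K) (Fin K) ℂ) (z v : ℂ) : Matrix (Fin K) (Fin K) ℂ :=
  fun i j => fderiv ℝ (fun z => q z i j) z v

/-- the good vectors -/
def Gd (q : ℂ → Matrix (Fin K) (Fin K) ℂ) (C : Set ℂ) : Set (Fin K → ℂ) :=
  {e | ∀ z ∈ C, q z *ᵥ e = 0 → ∀ v : ℂ, ‖v‖ = 1 → Dq q z v *ᵥ e ≠ 0}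

theorem Gd_mono {C' : Set ℂ} (h : C' ⊆ C) : Gd q C ⊆ Gd q C' := fun _ he z hz => he z (h hz)

theorem hasFDerivAt_entry (hO : IsOpen O) (hq : ∀ i j, ContDiffOn ℝ ∞ (fun z => q z i j) O)
    {z : ℂ} (hz : z ∈ O) (i j : Fin K) :
    HasFDerivAt (fun z => q z i j) (fderiv ℝ (fun z => q z i j) z) z :=
  (((hq i j).contDiffAt (hO.mem_nhds hz)).differentiableAt (by simp)).hasFDerivAt

/-- the derivative of the section -/
theorem hasFDerivAt_sec (hO : IsOpen O) (hq : ∀ i j, ContDiffOn ℝ ∞ (fun z => q z i j) O)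
    {z : ℂ} (hz : z ∈ O) (e : Fin K → ℂ) (i : Fin K) :
    ∃ L : ℂ →L[ℝ] ℂ, HasFDerivAt (fun z => (q z *ᵥ e) i) L z ∧ ∀ v, L v = (Dq q z v *ᵥ e) i := by
  refine ⟨∑ j, e j • fderiv ℝ (fun z => q z i j) z, ?_, fun v => ?_⟩
  · have h : HasFDerivAt (fun z => ∑ j, q z i j * e j)
        (∑ j, e j • fderiv ℝ (fun z => q z i j) z) z :=
      HasFDerivAt.fun_sum fun j _ => (hasFDerivAt_entry hO hq hz i j).mul_const (e j)
    exact h
  · rw [sum_apply]
    show _ = ∑ j, Dq q z v i j * e j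
    refine Finset.sum_congr rfl fun j _ => ?_
    show e j * _ = _
    rw [mul_comm]; rfl

/-- the zeros of a good section are isolated -/
theorem finite_zeros (hO : IsOpen O) (hq : ∀ i j, ContDiffOn ℝ ∞ (fun z => q z i j) O)
    (hC : IsCompact C) (hCO : C ⊆ O) {e : Fin K → ℂ} (he : e ∈ Gd q C) :
    {z | z ∈ C ∧ q z *ᵥ e = 0}.Finite := by
  by_contra hinf
  obtain ⟨x, hxC, hacc⟩ := Set.Infinite.exists_accPt_of_subset_isCompact hinf hC
    (fun z hz => hz.1)
  have hfr : ∃ᶠ z in 𝓝[≠] x, z ∈ C ∧ q z *ᵥ e = 0 := accPt_iff_frequently_nhdsNE.1 hacc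
  choose L hL hLv using hasFDerivAt_sec hO hq (hCO hxC) e
  have hd : HasFDerivAt (fun z => q z *ᵥ e) (ContinuousLinearMap.pi L) x := hasFDerivAt_pi.2 hL
  have hx0 : q x *ᵥ e = 0 := by
    by_contra hne
    have h1 : ∀ᶠ z in 𝓝 x, q z *ᵥ e ≠ 0 := hd.continuousAt.eventually_ne hne
    obtain ⟨z, h2, h3⟩ := (hfr.and_eventually (nhdsWithin_le_nhds h1)).exists
    exact h3 h2.2
  have hinj : Injective (ContinuousLinearMap.pi L) := by
    rw [injective_iff_map_eq_zero]
    intro v hv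
    by_contra hv0
    have hn : ‖v‖ ≠ 0 := norm_ne_zero_iff.2 hv0
    refine he x hxC hx0 ((‖v‖⁻¹ : ℝ) • v) (by rw [norm_smul]; simp [hn]) ?_
    ext i
    rw [← hLv i, map_smul]
    have := congrFun hv i
    simp only [ContinuousLinearMap.coe_pi', Pi.zero_apply] at this
    rw [this, smul_zero]; rfl
  obtain ⟨c, -, hc⟩ := (ContinuousLinearMap.pi L : ℂ →L[ℝ] (Fin K → ℂ)).toLinearMap.exists_antilipschitzWith
    (LinearMap.ker_eq_bot.2 hinj)
  have hne : ∀ᶠ z in 𝓝[≠] x, q z *ᵥ e ≠ 0 := hd.eventually_ne ⟨c, hc⟩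
  obtain ⟨z, h2, h3⟩ := (hfr.and_eventually hne).exists
  exact h3 h2.2

theorem isOpen_Gd (hO : IsOpen O) (hq : ∀ i j, ContDiffOn ℝ ∞ (fun z => q z i j) O)
    (hC : IsCompact C) (hCO : C ⊆ O) : IsOpen (Gd q C) := by
  have hP : IsCompact (C ×ˢ sphere (0 : ℂ) 1) := hC.prod (isCompact_sphere _ _)
  have : CompactSpace (C ×ˢ sphere (0 : ℂ) 1 : Set (ℂ × ℂ)) := isCompact_iff_compactSpace.1 hP
  have hcq : ∀ i j, Continuous fun x : (C ×ˢ sphere (0 : ℂ) 1 : Set (ℂ × ℂ)) => q x.1.1 i j := by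
    intro i j
    have h1 : ContinuousOn (fun z => q z i j) C := ((hq i j).continuousOn).mono hCO
    exact h1.comp_continuous (continuous_fst.comp continuous_subtype_val) fun x => x.2.1
  have hcD : ∀ i j, Continuous fun x : (C ×ˢ sphere (0 : ℂ) 1 : Set (ℂ × ℂ)) =>
      Dq q x.1.1 x.1.2 i j := by
    intro i j
    have h1 : ContinuousOn (fun z => fderiv ℝ (fun z => q z i j) z) C :=
      ((hq i j).continuousOn_fderiv_of_isOpen hO (by simp)).mono hCO
    have h2 : Continuous fun x : (C ×ˢ sphere (0 : ℂ) 1 : Set (ℂ × ℂ)) =>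
        fderiv ℝ (fun z => q z i j) x.1.1 :=
      h1.comp_continuous (continuous_fst.comp continuous_subtype_val) fun x => x.2.1
    exact h2.clm_apply (continuous_snd.comp continuous_subtype_val)
  set R : Set ((C ×ˢ sphere (0 : ℂ) 1 : Set (ℂ × ℂ)) × (Fin K → ℂ)) :=
    {x | q x.1.1.1 *ᵥ x.2 = 0 ∧ Dq q x.1.1.1 x.1.1.2 *ᵥ x.2 = 0} with hR
  have hRc : IsClosed R := by
    refine IsClosed.inter (isClosed_eq ?_ continuous_const) (isClosed_eq ?_ continuous_const)
    · refine continuous_pi fun i => ?_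
      show Continuous fun x : (C ×ˢ sphere (0 : ℂ) 1 : Set (ℂ × ℂ)) × (Fin K → ℂ) =>
        ∑ j, q x.1.1.1 i j * x.2 j
      exact continuous_finsetSum _ fun j _ => ((hcq i j).comp continuous_fst).mul
        ((continuous_apply j).comp continuous_snd)
    · refine continuous_pi fun i => ?_
      show Continuous fun x : (C ×ˢ sphere (0 : ℂ) 1 : Set (ℂ × ℂ)) × (Fin K → ℂ) =>
        ∑ j, Dq q x.1.1.1 x.1.1.2 i j * x.2 j
      exact continuous_finsetSum _ fun j _ => ((hcD i j).comp continuous_fst).mul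
        ((continuous_apply j).comp continuous_snd)
  have h1 : IsClosed (Prod.snd '' R) := isClosedMap_snd_of_compactSpace _ hRc
  have h2 : (Gd q C) = (Prod.snd '' R)ᶜ := by
    ext e
    simp only [Gd, mem_ofPred_eq, mem_compl_iff, mem_image, Prod.exists, exists_eq_right,
      Subtype.exists, not_exists]
    constructor
    · rintro h a b ⟨hab, hb⟩ ⟨h3, h4⟩
      exact h a hab h3 b (by simpa using hb) h4
    · intro h z hz h3 v hv h4
      exact h z v ⟨hz, by simpa using hv⟩ ⟨h3, h4⟩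
  rw [h2]
  exact h1.isOpen_compl

theorem dense_Gd_aux (hO : IsOpen O) (hq : ∀ i j, ContDiffOn ℝ ∞ (fun z => q z i j) O)
    (hCO : C ⊆ O) {i : Fin K} (hi : ∀ z ∈ C, q z i i ≠ 0) : Dense (Gd q C) := by
  rw [Metric.dense_iff]
  intro e0 δ hδ
  set g : ℂ → ℂ := fun z => -((q z *ᵥ e0) i * (q z i i)⁻¹) with hg
  choose L hL hLv using fun z (hz : z ∈ O) => hasFDerivAt_sec hO hq hz e0 i
  have hgd : ∀ z (hz : z ∈ C), ∃ g' : ℂ →L[ℝ] ℂ, HasFDerivAt g g' z ∧ ∀ v, g' v =
      -((L z (hCO hz) v * q z i i - (q z *ᵥ e0) i * Dq q z v i i) / (q z i i) ^ 2) := by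
    intro z hz
    have h1 := hL z (hCO hz)
    have h2 := hasFDerivAt_entry hO hq (hCO hz) i i
    have h2' : HasFDerivAt (fun z => (q z i i)⁻¹) _ z :=
      (hasFDerivAt_inv' (𝕜 := ℝ) (hi z hz)).comp z h2
    have h3 := (h1.mul h2').neg
    refine ⟨_, h3, fun v => ?_⟩
    simp only [_root_.neg_apply, _root_.smul_apply, _root_.add_apply, smul_eq_mul,
      ContinuousLinearMap.comp_apply, ContinuousLinearMap.mulLeftRight_apply]
    show _ = -((L z (hCO hz) v * q z i i - (q z *ᵥ e0) i *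
      (fderiv ℝ (fun z => q z i i) z v)) / (q z i i) ^ 2)
    have := hi z hz
    field_simp
    ring
  choose! g' hg' hg'v using hgd
  set A : Set ℂ := {z | z ∈ C ∧ (g' z).det = 0} with hA
  have hnull : volume (g '' A) = 0 :=
    addHaar_image_eq_zero_of_det_fderivWithin_eq_zero volume
      (fun z hz => (hg' z hz.1).hasFDerivWithinAt) (fun z hz => hz.2)
  obtain ⟨t, ht, htA⟩ : ∃ t ∈ ball (0 : ℂ) δ, t ∉ g '' A := by
    by_contra h
    push Not at h
    have h1 : volume (ball (0 : ℂ) δ) ≤ volume (g '' A) := measure_mono h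
    rw [hnull] at h1
    exact (measure_ball_pos volume (0 : ℂ) hδ).ne' (le_antisymm h1 bot_le)
  refine ⟨e0 + Pi.single i t, ?_, ?_⟩
  · rw [mem_ball, dist_eq_norm, add_sub_cancel_left, Pi.norm_single]
    simpa using ht
  · intro z hz h0 v hv h3
    have e1 : ∀ B : Matrix (Fin K) (Fin K) ℂ, (B *ᵥ (e0 + Pi.single i t)) i =
        (B *ᵥ e0) i + B i i * t := by
      intro B
      rw [Matrix.mulVec_add, Pi.add_apply, Matrix.mulVec_single]
      simp
    have h0i := congrFun h0 i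
    rw [e1, Pi.zero_apply] at h0i
    have h3i := congrFun h3 i
    rw [e1, Pi.zero_apply] at h3i
    have hne := hi z hz
    have hgt : g z = t := by
      rw [hg]
      beta_reduce
      rw [neg_eq_iff_eq_neg, ← div_eq_mul_inv, div_eq_iff hne]
      linear_combination h0i
    have hzA : z ∉ A := fun h => htA ⟨z, h, hgt⟩
    have hdet : (g' z).det ≠ 0 := fun h => hzA ⟨hz, h⟩
    have hgv : g' z v = 0 := by
      rw [hg'v z hz v, hLv z (hCO hz) v]
      have : (Dq q z v *ᵥ e0) i * q z i i - (q z *ᵥ e0) i * Dq q z v i i = 0 := by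
        linear_combination (q z i i) * h3i - (Dq q z v i i) * h0i
      rw [this]; simp
    have hinj : Injective (g' z) := by
      have h4 : (g' z : ℂ →ₗ[ℝ] ℂ).det ≠ 0 := hdet
      exact (LinearEquiv.ofIsUnitDet (f := (g' z : ℂ →ₗ[ℝ] ℂ)) (isUnit_iff_ne_zero.2 (by
        rwa [LinearMap.det_toMatrix (Module.finBasis ℝ ℂ)]) : IsUnit
          (LinearMap.toMatrix (Module.finBasis ℝ ℂ) (Module.finBasis ℝ ℂ)
            (g' z : ℂ →ₗ[ℝ] ℂ)).det)).injective
    have : v = 0 := by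
      apply hinj
      rw [hgv, map_zero]
    rw [this, norm_zero] at hv
    exact zero_ne_one hv

/-- **transversality**: `Gd q C` is open and dense. -/
theorem Gd_open_dense (hO : IsOpen O) (hq : ∀ i j, ContDiffOn ℝ ∞ (fun z => q z i j) O)
    (hC : IsCompact C) (hCO : C ⊆ O) (htr : ∀ z ∈ C, (q z).trace = 1) :
    IsOpen (Gd q C) ∧ Dense (Gd q C) := by
  refine ⟨isOpen_Gd hO hq hC hCO, ?_⟩
  -- the pieces
  have hKpos : C.Nonempty → 0 < K := by
    rintro ⟨z, hz⟩
    rcases Nat.eq_zero_or_pos K with h | h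
    · subst h
      have := htr z hz
      simp [Matrix.trace] at this
    · exact h
  set P : Fin K → Set ℂ := fun i => {z | z ∈ C ∧ (1 : ℝ) / K ≤ ‖q z i i‖} with hP
  have hPc : ∀ i, IsCompact (P i) := by
    intro i
    have h1 : ContinuousOn (fun z => ‖q z i i‖) C := ((hq i i).continuousOn.mono hCO).norm
    have h2 : IsClosed (C ∩ (fun z => ‖q z i i‖) ⁻¹' Ici ((1 : ℝ) / K)) :=
      h1.preimage_isClosed_of_isClosed hC.isClosed isClosed_Ici
    exact hC.of_isClosed_subset h2 inter_subset_left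
  have hcov : Gd q C = ⋂ i, Gd q (P i) := by
    refine Subset.antisymm (subset_iInter fun i => Gd_mono fun z hz => hz.1) ?_
    intro e he z hz
    have hK := hKpos ⟨z, hz⟩
    have : ∃ i, (1 : ℝ) / K ≤ ‖q z i i‖ := by
      by_contra h
      push Not at h
      have h1 : ‖(q z).trace‖ < 1 := by
        calc ‖(q z).trace‖ ≤ ∑ i, ‖q z i i‖ := norm_sum_le _ _
          _ < ∑ _i : Fin K, (1 : ℝ) / K := by
            have : Nonempty (Fin K) := ⟨⟨0, hK⟩⟩
            exact Finset.sum_lt_sum_of_nonempty Finset.univ_nonempty fun i _ => h i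
          _ = 1 := by
            rw [Finset.sum_const, Finset.card_univ, Fintype.card_fin, nsmul_eq_mul]
            field_simp
      rw [htr z hz] at h1
      simp at h1
    obtain ⟨i, hi⟩ := this
    exact (mem_iInter.1 he i) z ⟨hz, hi⟩
  rw [hcov]
  refine dense_iInter_of_isOpen (fun i => isOpen_Gd hO hq (hPc i) fun z hz => hCO hz.1) fun i => ?_
  refine dense_Gd_aux hO hq (fun z hz => hCO hz.1) (i := i) fun z hz h => ?_
  have h1 := hz.2
  rw [h, norm_zero] at h1
  have hK := hKpos ⟨z, hz.1⟩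
  have : (0 : ℝ) < 1 / K := by positivity
  linarith

end

end Crest.Agent.R235.Integ_796
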