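import Crest.Agent.R240.Ch4
import Crest.Agent.R235.Wind4_688

/-!
Row 235 (S0364), package ADJ, leaf X3 (INTEG), helper796, file B: the planar integral.
If `om` is a one-form on a disc with `om = (1/2π) d arg F` near a circle, then the integral of
`η dom` (`η` a radial cut-off) is the winding number of `F`.
-/

set_option autoImplicit false

open Set Function Filter Topology Metric MeasureTheory
open scoped ContDiff Real

namespace Crest.Agent.R235.Integ_796

open Crest.Agent.R240.Ch Crest.Agent.R235.Wind_688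

noncomputable section

theorem integral_fderiv_zero_real {f : ℂ → ℝ} (hf : ContDiff ℝ 1 f) (hs : HasCompactSupport f)
    (v : ℂ) : Integrable (fun z => fderiv ℝ f z v) ∧ ∫ z, fderiv ℝ f z v = 0 := by
  have hc : Continuous fun z => fderiv ℝ f z v :=
    (hf.continuous_fderiv one_ne_zero).clm_apply continuous_const
  have hcs : HasCompactSupport fun z => fderiv ℝ f z v := by
    have h1 := hs.fderiv (𝕜 := ℝ)
    refine h1.mono ?_
    intro z hz
    rw [Function.mem_support] at hz ⊢
    intro h0; exact hz (by rw [h0]; rfl)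
  refine ⟨hc.integrable_of_hasCompactSupport hcs, ?_⟩
  have h := integral_mul_fderiv_eq_neg_fderiv_mul_of_integrable (μ := (volume : Measure ℂ))
    (𝕜 := ℝ) (f := fun _ : ℂ => (1 : ℝ)) (g := f) (v := v) (by simp)
    (by simpa using hc.integrable_of_hasCompactSupport hcs)
    (by simpa using hf.continuous.integrable_of_hasCompactSupport hs)
    (fun x _ => differentiableAt_const _) (fun x _ => (hf.differentiable one_ne_zero) x)
  simpa using h

/-- a product with a cut-off, extended by zero -/
theorem contDiff_cut {U : Set ℂ} (hU : IsOpen U) {χ : ℂ → ℝ} {G : ℂ → ℝ} (hχ : ContDiff ℝ 1 χ)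
    (hsub : tsupport χ ⊆ U) (hG : ContDiffOn ℝ 1 G U) : ContDiff ℝ 1 fun z => χ z * G z := by
  rw [contDiff_iff_contDiffAt]
  intro z
  by_cases hz : z ∈ tsupport χ
  · exact hχ.contDiffAt.mul (hG.contDiffAt (hU.mem_nhds (hsub hz)))
  · have : (fun z => χ z * G z) =ᶠ[𝓝 z] fun _ => 0 := by
      have := (isClosed_tsupport χ).isOpen_compl.mem_nhds hz
      filter_upwards [this] with y hy
      rw [image_eq_zero_of_notMem_tsupport hy]; simp
    exact contDiffAt_const.congr_of_eventuallyEq this

/-- **planar integral**. -/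
theorem planar_int {om : ℂ → ℂ →L[ℝ] ℝ} {R : ℝ} (hR : 0 < R) (hom : ContDiffOn ℝ 1 om (ball 0 R))
    {F : ℂ → ℂ} (hF : ContDiffOn ℝ 1 F (ball 0 R \ {0})) (h0 : ∀ z ∈ ball 0 R \ {0}, F z ≠ 0)
    {a b : ℝ} (ha : 0 < a) (hab : a < b) (hb : b < R ^ 2)
    (hrel : ∀ z : ℂ, a ≤ ‖z‖ ^ 2 → ‖z‖ ^ 2 ≤ b → ∀ v,
      om z v = (2 * π)⁻¹ * (fderiv ℝ F z v / F z).im) :
    ∃ n : ℤ, ∫ z, rbc 0 a b z * d1 om z 1 Complex.I = n := by
  -- the winding number
  obtain ⟨n, hn⟩ : ∃ n, IsW F 0 (R / 2) n := by
    have hs : ∀ z ∈ sphere (0 : ℂ) (R / 2), z ∈ ball (0 : ℂ) R \ {0} := by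
      intro z hz
      rw [mem_sphere, dist_zero_right] at hz
      refine ⟨by rw [mem_ball, dist_zero_right, hz]; linarith, ?_⟩
      intro h
      rw [mem_singleton_iff] at h
      rw [h, norm_zero] at hz
      linarith
    exact exists_isW (by positivity) (hF.continuousOn.mono hs) fun z hz => h0 z (hs z hz)
  have hnr : ∀ r, 0 < r → r < R → IsW F 0 r n := fun r hr hrR =>
    IsW.radius' hF.continuousOn (fun z hz hz0 => h0 z ⟨hz, hz0⟩) (by positivity) (by linarith)
      hr hrR hn
  have hrad := cut_radial hF h0 hnr ha hab hb hR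
  have hradi := cut_radial_int hF h0 ha hab hb hR
  -- the form `η om`
  set η : ℂ → ℝ := rbc 0 a b with hη
  have hηc : ContDiff ℝ 1 η := rbc_contDiff _ _ _
  have hbpos : 0 < b := ha.trans hab
  have hsup : tsupport η ⊆ ball (0 : ℂ) R := by
    refine (rbc_supp hab (Real.sqrt_nonneg b) (Real.sq_sqrt hbpos.le).ge).trans ?_
    intro z hz
    rw [mem_closedBall] at hz
    rw [mem_ball]
    exact hz.trans_lt ((Real.sqrt_lt' hR).2 hb)
  have hηs : HasCompactSupport η := rbc_compact hab
  have homv : ∀ v : ℂ, ContDiffOn ℝ 1 (fun z => om z v) (ball 0 R) := fun v =>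
    hom.clm_apply contDiffOn_const
  have hP : ∀ v : ℂ, ContDiff ℝ 1 fun z => η z * om z v := fun v =>
    contDiff_cut isOpen_ball hηc hsup (homv v)
  have hPs : ∀ v : ℂ, HasCompactSupport fun z => η z * om z v := fun v => hηs.mul_right
  have hI1 := integral_fderiv_zero_real (hP Complex.I) (hPs Complex.I) 1
  have hI2 := integral_fderiv_zero_real (hP 1) (hPs 1) Complex.I
  -- the key identity
  have key : ∀ z, η z * d1 om z 1 Complex.I =
      fderiv ℝ (fun z => η z * om z Complex.I) z 1 - fderiv ℝ (fun z => η z * om z 1) z Complex.I -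
        (2 * π)⁻¹ * (jac η F z / F z).im := by
    intro z
    have hjac : fderiv ℝ η z 1 * om z Complex.I - fderiv ℝ η z Complex.I * om z 1 =
        (2 * π)⁻¹ * (jac η F z / F z).im := by
      by_cases hz : ‖z‖ ^ 2 < a ∨ b < ‖z‖ ^ 2
      · have h1 : fderiv ℝ η z = 0 :=
          (rbc_fderiv hab (z := z) (p := 0) (by simpa using hz)).self_of_nhds
        simp [jac, h1]
      · push Not at hz
        rw [hrel z hz.1 hz.2, hrel z hz.1 hz.2]
        unfold jac
        have e : ((fderiv ℝ η z 1 : ℂ) * fderiv ℝ F z Complex.I -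
            (fderiv ℝ η z Complex.I : ℂ) * fderiv ℝ F z 1) / F z =
            (fderiv ℝ η z 1 : ℂ) * (fderiv ℝ F z Complex.I / F z) -
            (fderiv ℝ η z Complex.I : ℂ) * (fderiv ℝ F z 1 / F z) := by ring
        rw [e, Complex.sub_im, Complex.im_ofReal_mul, Complex.im_ofReal_mul]
        ring
    by_cases hz : z ∈ tsupport η
    · have hzB := isOpen_ball.mem_nhds (hsup hz)
      have homd : DifferentiableAt ℝ om z := (hom.contDiffAt hzB).differentiableAt one_ne_zero
      have hηd : DifferentiableAt ℝ η z := (hηc.differentiable one_ne_zero) z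
      have hv : ∀ v : ℂ, HasFDerivAt (fun z => om z v)
          ((ContinuousLinearMap.apply ℝ ℝ v).comp (fderiv ℝ om z)) z := fun v =>
        (ContinuousLinearMap.apply ℝ ℝ v).hasFDerivAt.comp z homd.hasFDerivAt
      have hm : ∀ v : ℂ, HasFDerivAt (fun z => η z * om z v) _ z := fun v =>
        hηd.hasFDerivAt.mul (hv v)
      rw [(hm Complex.I).fderiv, (hm 1).fderiv, ← hjac, d1_apply]
      simp only [_root_.add_apply, _root_.smul_apply, ContinuousLinearMap.comp_apply,
        ContinuousLinearMap.apply_apply, smul_eq_mul]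
      ring
    · have h1 : ∀ v w : ℂ, fderiv ℝ (fun z => η z * om z v) z w = 0 := by
        intro v w
        have : (fun z => η z * om z v) =ᶠ[𝓝 z] fun _ => 0 := by
          filter_upwards [(isClosed_tsupport η).isOpen_compl.mem_nhds hz] with y hy
          rw [image_eq_zero_of_notMem_tsupport hy]; simp
        rw [this.fderiv_eq]; simp
      rw [h1, h1, image_eq_zero_of_notMem_tsupport hz, jac_supp hz]
      simp
  refine ⟨n, ?_⟩
  have him : Integrable fun z => (2 * π)⁻¹ * (jac η F z / F z).im := hradi.im.const_mul _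
  calc ∫ z, η z * d1 om z 1 Complex.I
      = ∫ z, (fderiv ℝ (fun z => η z * om z Complex.I) z 1 -
          fderiv ℝ (fun z => η z * om z 1) z Complex.I -
          (2 * π)⁻¹ * (jac η F z / F z).im) := by simp_rw [key]
    _ = 0 - 0 - (2 * π)⁻¹ * (∫ z, jac η F z / F z).im := by
        have e1 := integral_sub (hI1.1.sub hI2.1) him
        have e2 := integral_sub hI1.1 hI2.1
        have e3 : ∫ z, (jac η F z / F z).im = (∫ z, jac η F z / F z).im :=
          Complex.imCLM.integral_comp_comm hradi
        simp only [Pi.sub_apply] at e1 e2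
        rw [e1, e2, hI1.2, hI2.2, integral_const_mul, e3]
    _ = n := by
        rw [hrad]
        simp
        field_simp

end

end Crest.Agent.R235.Integ_796
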