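import Crest.Agent.R235.LbG_453
import Crest.Agent.R235.GlobDefs_370
import Crest.Agent.R235.Pull_129
import Crest.Agent.R235.AdjGen_83

/-!
Row 235 (S0364), package ADJ, leaf X3 (INTEG), helper796, file C: the section `p e` of a line bundle
and its connection form.
-/

set_option autoImplicit false
set_option maxSynthPendingDepth 3
set_option linter.unusedSectionVars false

open Set Function Filter Topology Complex
open scoped ContDiff ComplexConjugate Matrix Manifold ComplexOrder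

universe u

namespace Crest.Agent.R235.Integ_796

open Crest.Agent.R240 Crest.Agent.R240.Ch Crest.Agent.R235.Loc_524 Crest.Agent.R235.Lb453

noncomputable section

/-! ### linear algebra -/

section lin

variable {K : ℕ} {P : Matrix (Fin K) (Fin K) ℂ}

/-- the square norm of a vector -/
def nsqv (v : Fin K → ℂ) : ℝ := ∑ l, Complex.normSq (v l)

/-- the normalised vector -/
def nv (v : Fin K → ℂ) (l : Fin K) : ℂ := v l * (((√(nsqv v))⁻¹ : ℝ) : ℂ)

theorem nsqv_nonneg (v : Fin K → ℂ) : 0 ≤ nsqv v := Finset.sum_nonneg fun _ _ => normSq_nonneg _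

theorem nsqv_eq_zero {v : Fin K → ℂ} (h : nsqv v = 0) : v = 0 := by
  funext l
  have := (Finset.sum_eq_zero_iff_of_nonneg fun l _ => normSq_nonneg (v l)).1 h l (Finset.mem_univ l)
  exact normSq_eq_zero.1 this

theorem nsqv_pos {v : Fin K → ℂ} (h : v ≠ 0) : 0 < nsqv v :=
  lt_of_le_of_ne (nsqv_nonneg v) fun h0 => h (nsqv_eq_zero h0.symm)

theorem nv_unit {v : Fin K → ℂ} (h : 0 < nsqv v) : ∑ l, conj (nv v l) * nv v l = 1 := by
  have e : ∀ l, conj (nv v l) * nv v l = ((normSq (v l) * (nsqv v)⁻¹ : ℝ) : ℂ) := by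
    intro l
    unfold nv
    rw [map_mul, Complex.conj_ofReal]
    have hs : (((√(nsqv v))⁻¹ : ℝ) : ℂ) * (((√(nsqv v))⁻¹ : ℝ) : ℂ) = (((nsqv v)⁻¹ : ℝ) : ℂ) := by
      rw [← Complex.ofReal_mul, ← mul_inv, Real.mul_self_sqrt h.le]
    rw [Complex.ofReal_mul, Complex.normSq_eq_conj_mul_self]
    linear_combination (conj (v l) * v l) * hs
  simp only [e]
  rw [← Complex.ofReal_sum, ← Finset.sum_mul]
  show (((nsqv v) * (nsqv v)⁻¹ : ℝ) : ℂ) = 1
  rw [mul_inv_cancel₀ h.ne', Complex.ofReal_one]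

theorem exists_diag (ht : P.trace = 1) : ∃ m, P m m ≠ 0 := by
  by_contra h
  push Not at h
  have : P.trace = 0 := Finset.sum_eq_zero fun i _ => h i
  rw [ht] at this
  exact one_ne_zero this

/-- the projection on the normalised section. -/
theorem pr_nv (hi : P * P = P) (hh : P.conjTranspose = P) (ht : P.trace = 1) {e : Fin K → ℂ}
    (h : 0 < nsqv (P *ᵥ e)) : P = pr (nv (P *ᵥ e)) := by
  obtain ⟨m, hm⟩ := exists_diag ht
  have hP := eq_pr_col hi hh ht hm
  have hu := col_unit hi hh hm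
  set t : Fin K → ℂ := col P m with htdef
  set φ : ℂ := ∑ k, conj (t k) * e k with hφ
  have hv : ∀ l, (P *ᵥ e) l = t l * φ := by
    intro l
    show ∑ k, P l k * e k = _
    rw [hφ, Finset.mul_sum]
    refine Finset.sum_congr rfl fun k _ => ?_
    conv_lhs => rw [hP]
    unfold Lb453.pr
    ring
  have hn : nsqv (P *ᵥ e) = normSq φ := by
    have e1 : ((nsqv (P *ᵥ e) : ℝ) : ℂ) = ((normSq φ : ℝ) : ℂ) := by
      unfold nsqv
      rw [Complex.ofReal_sum]
      have e2 : ∀ l, ((normSq ((P *ᵥ e) l) : ℝ) : ℂ) = (conj (t l) * t l) * ((normSq φ : ℝ) : ℂ) := by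
        intro l
        rw [hv l, Complex.normSq_eq_conj_mul_self, Complex.normSq_eq_conj_mul_self, map_mul]
        ring
      simp only [e2, ← Finset.sum_mul, hu, one_mul]
    exact_mod_cast e1
  have hs : (((√(nsqv (P *ᵥ e)))⁻¹ : ℝ) : ℂ) * (((√(nsqv (P *ᵥ e)))⁻¹ : ℝ) : ℂ) *
      (φ * conj φ) = 1 := by
    rw [← Complex.ofReal_mul, ← mul_inv, Real.mul_self_sqrt h.le, hn, Complex.mul_conj,
      ← Complex.ofReal_mul]
    rw [hn] at h
    rw [inv_mul_cancel₀ h.ne', Complex.ofReal_one]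
  ext i j
  have e1 : P i j = t i * conj (t j) := by
    conv_lhs => rw [hP]
    rfl
  rw [e1]
  show _ = nv (P *ᵥ e) i * conj (nv (P *ᵥ e) j)
  unfold nv
  rw [hv i, hv j, map_mul, map_mul, Complex.conj_ofReal]
  linear_combination (-(t i * conj (t j))) * hs

end lin

variable {M : Type u} [TopologicalSpace M] [ChartedSpace E4 M] [IsManifold 𝓘(ℝ, E4) ∞ M]
variable {K : ℕ} {p : M → Matrix (Fin K) (Fin K) ℂ}

/-! ### the section `p e` -/

/-- the square norm of the section `p e`. -/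
def hh (p : M → Matrix (Fin K) (Fin K) ℂ) (e : Fin K → ℂ) (x : M) : ℝ := nsqv (p x *ᵥ e)

/-- the normalised section. -/
def sn (p : M → Matrix (Fin K) (Fin K) ℂ) (e : Fin K → ℂ) (x : M) : Fin K → ℂ := nv (p x *ᵥ e)

theorem sc_const (c : ℂ) (x : M) : SC (fun _ => c) x := contDiffAt_const

theorem sc_sec (hp : ∀ i j, ContMDiff 𝓘(ℝ, E4) 𝓘(ℝ, ℂ) ∞ (fun x => p x i j)) (e : Fin K → ℂ)
    (l : Fin K) (x : M) : SC (fun z => (p z *ᵥ e) l) x := by
  show SC (fun z => ∑ j, p z l j * e j) x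
  exact SC.sum fun j _ => (sc_entry hp l j x).mul (sc_const (e j) x)

theorem smAt_hh (hp : ∀ i j, ContMDiff 𝓘(ℝ, E4) 𝓘(ℝ, ℂ) ∞ (fun x => p x i j)) (e : Fin K → ℂ)
    (x : M) : ContDiffAt ℝ ∞ (fun y => hh p e ((chartAt E4 x).symm y)) (chartAt E4 x x) := by
  unfold hh nsqv
  refine ContDiffAt.sum fun l _ => ?_
  have h1 := sc_sec hp e l x
  have h2 : ContDiffAt ℝ ∞ (fun y => (rc x (fun z => (p z *ᵥ e) l) y).re *
      (rc x (fun z => (p z *ᵥ e) l) y).re + (rc x (fun z => (p z *ᵥ e) l) y).im *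
      (rc x (fun z => (p z *ᵥ e) l) y).im) (chartAt E4 x x) :=
    (h1.re.mul h1.re).add (h1.im.mul h1.im)
  refine h2.congr_of_eventuallyEq (Eventually.of_forall fun y => ?_)
  exact Complex.normSq_apply _

theorem continuous_hh (hp : ∀ i j, ContMDiff 𝓘(ℝ, E4) 𝓘(ℝ, ℂ) ∞ (fun x => p x i j))
    (e : Fin K → ℂ) : Continuous (hh p e) := by
  unfold hh nsqv
  refine continuous_finsetSum _ fun l _ => Complex.continuous_normSq.comp ?_
  show Continuous fun x => ∑ j, p x l j * e j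
  exact continuous_finsetSum _ fun j _ => ((hp l j).continuous).mul continuous_const

theorem sc_sn (hp : ∀ i j, ContMDiff 𝓘(ℝ, E4) 𝓘(ℝ, ℂ) ∞ (fun x => p x i j)) {e : Fin K → ℂ}
    {x : M} (hx : 0 < hh p e x) (l : Fin K) : SC (fun z => sn p e z l) x := by
  refine (sc_sec hp e l x).mul ?_
  have h1 := smAt_hh hp e x
  have h2 : hh p e ((chartAt E4 x).symm (chartAt E4 x x)) ≠ 0 := by
    rw [(chartAt E4 x).left_inv (mem_chart_source E4 x)]; exact hx.ne'
  have h3 := (h1.sqrt h2).inv (by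
    rw [(chartAt E4 x).left_inv (mem_chart_source E4 x)]; exact (Real.sqrt_pos.2 hx).ne')
  exact Complex.ofRealCLM.contDiff.contDiffAt.comp _ h3

variable [T2Space M] [CompactSpace M]

/-- **curvature**: the differential of the connection form of any unit section is the Chern form. -/
theorem dG_conn_gen {a : Z2 M} (ha : IsChern p a) {s : M → Fin K → ℂ}
    {U : Set M} (hU : IsOpen U) (hs : ∀ x ∈ U, ∀ l, SC (fun z => s z l) x)
    (hs1 : ∀ x ∈ U, ∑ l, conj (s x l) * s x l = 1) (hpr : ∀ x ∈ U, p x = pr (s x)) {x : M}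
    (hx : x ∈ U) : at2 (dG (conn s)) x = at2 (a.1.1 : F2 E4 M) x := by
  ext u v
  rw [dG_conn hU hs hx]
  have h := ha x u v
  have h' : at2 (a.1.1 : F2 E4 M) x u v = val a x u v := rfl
  rw [h', h]
  set y0 := chartAt E4 x x with hy0
  set V : E4 → Fin K → ℂ := fun y => s ((chartAt E4 x).symm y) with hV
  have hOe : ∀ᶠ z in 𝓝 x, z ∈ U := hU.mem_nhds hx
  have hpev : ∀ᶠ y in 𝓝 y0, p ((chartAt E4 x).symm y) = pr (V y) := by
    filter_upwards [ev_chart hOe] with y hy
    exact hpr _ hy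
  have hp0 : p x = pr (V y0) := by
    have := hpev.self_of_nhds
    rwa [hy0, (chartAt E4 x).left_inv (mem_chart_source E4 x)] at this
  have hdm : ∀ w, dmat p x w = Matrix.of fun i j => fderiv ℝ (fun z => pr (V z) i j) y0 w := by
    intro w
    ext i j
    have h : (fun y : E4 => p ((chartAt E4 x).symm y) i j) =ᶠ[𝓝 y0] fun z => pr (V z) i j := by
      filter_upwards [hpev] with y hy
      rw [hy]
    show fderiv ℝ (fun y : E4 => p ((chartAt E4 x).symm y) i j) (chartAt E4 x x) w = _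
    rw [← hy0, h.fderiv_eq]
    rfl
  have hunit : ∀ᶠ z in 𝓝 y0, ∑ i, conj (V z i) * V z i = 1 := by
    filter_upwards [ev_chart hOe] with y hy
    exact hs1 _ hy
  have hVd : ∀ i, DifferentiableAt ℝ (fun y => V y i) y0 := fun i => (hs x hx i).diff
  rw [hdm, hdm]
  nth_rewrite 1 [hp0]
  rw [curv_pr hVd hunit]
  rfl

omit [T2Space M] [CompactSpace M] in
/-- comparison of the connection forms of two unit sections of the same line bundle. -/
theorem conn_diff {s t : M → Fin K → ℂ} {U : Set M} (hU : IsOpen U)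
    (hs : ∀ x ∈ U, ∀ l, SC (fun z => s z l) x) (ht : ∀ x ∈ U, ∀ l, SC (fun z => t z l) x)
    (hs1 : ∀ x ∈ U, ∑ l, conj (s x l) * s x l = 1) (ht1 : ∀ x ∈ U, ∑ l, conj (t x l) * t x l = 1)
    (hst : ∀ x ∈ U, pr (s x) = pr (t x)) {x : M} (hx : x ∈ U) (u : E4) :
    SC (fun z => ∑ k, conj (t z k) * s z k) x ∧
    conj (∑ k, conj (t x k) * s x k) * (∑ k, conj (t x k) * s x k) = 1 ∧
    at1 (conn t) x u - at1 (conn s) x u = (2 * Real.pi)⁻¹ *
      (dC (fun z => ∑ k, conj (t z k) * s z k) x u / (∑ k, conj (t x k) * s x k)).im := by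
  have hρ : SC (fun z => ∑ k, conj (t z k) * s z k) x :=
    SC.sum fun k _ => ((ht x hx k).conj).mul (hs x hx k)
  have hρ1 := norm_ip (ht1 x hx) (hs1 x hx) (hst x hx).symm
  refine ⟨hρ, hρ1, ?_⟩
  rw [conn_apply (hs x hx), conn_apply (ht x hx)]
  set ρ : M → ℂ := fun z => ∑ k, conj (t z k) * s z k with hρdef
  have hse : ∀ l, ∀ᶠ z in 𝓝 x, s z l = ρ z * t z l := by
    intro l
    filter_upwards [hU.mem_nhds hx] with z hz
    exact pr_eq_pr (hs1 z hz) (hst z hz).symm l
  have hd : ∀ l, dC (fun z => s z l) x u = ρ x * dC (fun z => t z l) x u +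
      t x l * dC ρ x u := by
    intro l
    rw [dC_congr (hse l), dC_mul hρ (ht x hx l)]
  have hsx : ∀ l, s x l = ρ x * t x l := fun l => (hse l).self_of_nhds
  have hρ1' : conj (ρ x) * ρ x = 1 := hρ1
  have key : ∑ l, conj (s x l) * dC (fun z => s z l) x u =
      (∑ l, conj (t x l) * dC (fun z => t z l) x u) + conj (ρ x) * dC ρ x u := by
    have e : ∀ l, conj (s x l) * dC (fun z => s z l) x u =
        conj (t x l) * dC (fun z => t z l) x u +
          (conj (t x l) * t x l) * (conj (ρ x) * dC ρ x u) := by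
      intro l
      rw [hd l, hsx l, map_mul]
      linear_combination (conj (t x l) * dC (fun z => t z l) x u) * hρ1'
    simp only [e, Finset.sum_add_distrib, ← Finset.sum_mul, ht1 x hx, one_mul]
  have hinv : dC ρ x u / ρ x = conj (ρ x) * dC ρ x u := by
    have h0 : ρ x ≠ 0 := fun h => by rw [h, mul_zero] at hρ1'; exact zero_ne_one hρ1'
    rw [div_eq_iff h0]
    linear_combination (-(dC ρ x u)) * hρ1'
  show _ = (2 * Real.pi)⁻¹ * (dC ρ x u / ρ x).im
  rw [key, mul_add, Complex.add_re, hinv]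
  have e3 : (I / (2 * Real.pi)) * (conj (ρ x) * dC ρ x u) =
      (((2 * Real.pi)⁻¹ : ℝ) : ℂ) * (I * (conj (ρ x) * dC ρ x u)) := by
    push_cast; ring
  rw [e3, Complex.re_ofReal_mul]
  simp only [Complex.mul_re, Complex.I_re, Complex.I_im, Complex.mul_im]
  ring

omit [T2Space M] [CompactSpace M] in
/-- the chain rule for complex functions. -/
theorem fderiv_comp_dC {g : M → ℂ} {u : ℂ → M} {z : ℂ}
    (hu : ContMDiffAt 𝓘(ℝ, ℂ) 𝓘(ℝ, E4) ∞ u z) (hg : SC g (u z)) :
    ContDiffAt ℝ ∞ (fun z => g (u z)) z ∧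
      ∀ v, fderiv ℝ (fun z => g (u z)) z v = dC g (u z) (dmap u z v) := by
  have hc := AdjGen_83.contDiffAt_chart hu (mem_chart_source E4 (u z))
  have h1 : (fun z => g (u z)) =ᶠ[𝓝 z] fun y => rc (u z) g (chartAt E4 (u z) (u y)) := by
    filter_upwards [hu.continuousAt.eventually ((chartAt E4 (u z)).open_source.mem_nhds
      (mem_chart_source E4 (u z)))] with y hy
    unfold rc
    rw [(chartAt E4 (u z)).left_inv hy]
  have hg' : ContDiffAt ℝ ∞ (rc (u z) g) ((fun y => chartAt E4 (u z) (u y)) z) := hg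
  refine ⟨(ContDiffAt.comp z (f := fun y => chartAt E4 (u z) (u y)) hg' hc).congr_of_eventuallyEq
    h1, fun v => ?_⟩
  rw [h1.fderiv_eq]
  have h2 := fderiv_comp (g := rc (u z) g) (f := fun y => chartAt E4 (u z) (u y)) z
    (hg.differentiableAt (by simp)) (hc.differentiableAt (by simp))
  have h3 : fderiv ℝ (fun y => rc (u z) g (chartAt E4 (u z) (u y))) z =
    (fderiv ℝ (rc (u z) g) (chartAt E4 (u z) (u z))).comp
      (fderiv ℝ (fun y => chartAt E4 (u z) (u y)) z) := h2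
  rw [h3]
  rfl

end

end Crest.Agent.R235.Integ_796
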