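import Crest.Agent.R235.IntegA_796
import Crest.Agent.R235.IntegB_796
import Crest.Agent.R235.IntegC_796

/-!
Row 235 (S0364), package ADJ, leaf X3 (INTEG), helper796, file D: the local contribution of a zero
of the section `p e` to the integral of the Chern form over a `J`-curve is an integer.
-/

set_option autoImplicit false
set_option maxSynthPendingDepth 3
set_option linter.unusedSectionVars false

open Set Function Filter Topology Metric MeasureTheory
open scoped ContDiff ComplexConjugate Matrix Manifold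

universe u

namespace Crest.Agent.R235.Integ_796

open Crest.Agent.R240 Crest.Agent.R240.Ch Crest.Agent.R235.Loc_524 Crest.Agent.R235.Lb453
open Crest.Agent.R235.Glob_370 Crest.Agent.R235.Wind_688 Crest.Agent.R235.Pull_129

noncomputable section

variable {M : Type u} [TopologicalSpace M] [T2Space M] [CompactSpace M]
  [ChartedSpace E4 M] [IsManifold 𝓘(ℝ, E4) ∞ M] {J : EndF E4 M}

theorem mem_range_of_disc (c : JCurve J) (x0 : M) (j : Fin (c.L x0).n) {z : ℂ}
    (hz : z ∈ ball (0 : ℂ) 1) : (c.L x0).u j z ∈ range c.f ∩ (c.L x0).U := by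
  rw [(c.L x0).supp]
  exact mem_iUnion.2 ⟨j, mem_image_of_mem _ hz⟩

/-- **support**: `T b` only depends on the values of `b` on the curve. -/
theorem T_eq_zero (c : JCurve J) {b : X2 M} (hb : ∀ x ∈ range c.f, at2 (b.1 : F2 E4 M) x = 0) :
    c.T b = 0 := by
  obtain ⟨t, χ, hχs, hχ1, hχU⟩ := AdjGen_83.exists_pu (fun p => (c.L p).U)
    (fun p => (c.L p).openU) (fun p => (c.L p).mem)
  set bb : M → X2 M := fun p => ⟨fmul (χ p) b.1, Smooth2.fmul (hχs p) b.2⟩ with hbb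
  have h1 : ∀ p, c.T (bb p) = 0 := by
    intro p
    rw [c.cur p (bb p) (tsupport (χ p)) (isClosed_tsupport (χ p)).isCompact (hχU p) (by
      intro x hx
      show χ p x • at2 (b.1 : F2 E4 M) x = 0
      rw [image_eq_zero_of_notMem_tsupport hx, zero_smul])]
    refine Finset.sum_eq_zero fun j _ => ?_
    refine (setIntegral_congr_fun measurableSet_ball fun z hz => ?_).trans
      (by simp : ∫ z in ball (0 : ℂ) 1, (0 : ℝ) = 0)
    have h2 := hb _ (mem_range_of_disc c p j hz).1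
    show (χ p _ • at2 (b.1 : F2 E4 M) _) _ _ = 0
    rw [h2, smul_zero]; rfl
  have h2 : ∑ p ∈ t, bb p = b := by
    apply Subtype.ext
    rw [AddSubmonoidClass.coe_finsetSum]
    funext x
    rw [Finset.sum_apply]
    show ∑ p ∈ t, χ p x • (b.1 : F2 E4 M) x = b.1 x
    rw [← Finset.sum_smul, hχ1, one_smul]
  rw [← h2, map_sum]
  exact Finset.sum_eq_zero fun p _ => h1 p

variable {K : ℕ} {p : M → Matrix (Fin K) (Fin K) ℂ} {a : Z2 M}

theorem isOpen_hh (hp : IsLine p) (e : Fin K → ℂ) : IsOpen {x | 0 < hh p e x} :=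
  isOpen_lt continuous_const (continuous_hh hp.smooth e)

theorem dG_sn (hp : IsLine p) (ha : IsChern p a) {e : Fin K → ℂ} {x : M} (hx : 0 < hh p e x) :
    at2 (dG (conn (sn p e))) x = at2 (a.1.1 : F2 E4 M) x :=
  dG_conn_gen ha (isOpen_hh hp e) (fun _ hz l => sc_sn hp.smooth hz l)
    (fun _ hz => nv_unit hz) (fun z hz => pr_nv (hp.idem z) (hp.herm z) (hp.rank z) hz) hx

theorem smooth1_sub {s t : F1 E4 M} (hs : Smooth1 s) (ht : Smooth1 t) : Smooth1 (s - t) := by
  rw [smooth1_iff_smAt]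
  exact fun x => (smAt1_of_smooth hs x).sub (smAt1_of_smooth ht x)

/-- `a - dS`. -/
def bX (a : Z2 M) {S : F1 E4 M} (hS : Smooth1 S) : X2 M := a.1 - ⟨dG S, Smooth2.dG hS⟩

/-- `χ (a - dS)`. -/
def cX (a : Z2 M) {S : F1 E4 M} (hS : Smooth1 S) {χ : M → ℝ} (hχ : SmoothF E4 χ) : X2 M :=
  ⟨fmul χ (bX a hS).1, Smooth2.fmul hχ (bX a hS).2⟩

theorem at2_bX (a : Z2 M) {S : F1 E4 M} (hS : Smooth1 S) (x : M) :
    at2 ((bX a hS).1 : F2 E4 M) x = at2 (a.1.1 : F2 E4 M) x - at2 (dG S) x := rfl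

/-- **the local contribution**. -/
theorem local_int (c : JCurve J) (hp : IsLine p) (ha : IsChern p a) (e : Fin K → ℂ) {x0 : M}
    {O : Set M} (hO : IsOpen O) (hx0 : x0 ∈ O) (hOU : O ⊆ (c.L x0).U) {m : Fin K}
    (hOm : O ⊆ Om p m) (hz : ∀ x ∈ O, x ∈ range c.f → p x *ᵥ e = 0 → x = x0)
    {χ : M → ℝ} (hχ : SmoothF E4 χ) (hχ1 : ∀ᶠ x in 𝓝 x0, χ x = 1) (hχO : tsupport χ ⊆ O) :
    ∃ G : Set M, IsOpen G ∧ x0 ∈ G ∧ G ⊆ O ∧ (∀ x ∈ G, χ x = 1) ∧
      ∀ (S : F1 E4 M) (hS : Smooth1 S),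
        (∀ x ∈ range c.f, x ∈ O → x ∉ G → S =ᶠ[𝓝 x] conn (sn p e)) →
        ∃ n : ℤ, c.T (cX a hS hχ) = n := by
  set L := c.L x0 with hL
  have hball0 : (0 : ℂ) ∈ ball (0 : ℂ) 1 := mem_ball_self one_pos
  have husm : ∀ j, ContMDiffOn 𝓘(ℝ, ℂ) 𝓘(ℝ, E4) ∞ (L.u j) (ball 0 1) := fun j =>
    (L.disc j).hol.smooth
  have huc : ∀ j, ContinuousOn (L.u j) (ball 0 1) := fun j => (husm j).continuousOn
  set O1 : Set M := {x | ∀ᶠ y in 𝓝 x, χ y = 1} ∩ O with hO1
  have hO1o : IsOpen O1 := (isOpen_setOfPred_eventually_nhds).inter hO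
  have hx01 : x0 ∈ O1 := ⟨hχ1, hx0⟩
  -- the radii
  have hr : ∀ j, ∃ r : ℝ, 0 < r ∧ r < 1 ∧ ∀ z ∈ ball (0 : ℂ) r, L.u j z ∈ O1 := by
    intro j
    have h1 : ContinuousAt (L.u j) 0 := (huc j).continuousAt (isOpen_ball.mem_nhds hball0)
    have h2 : ∀ᶠ z in 𝓝 (0 : ℂ), L.u j z ∈ O1 := by
      refine h1.eventually ?_
      rw [L.centre j]
      exact hO1o.mem_nhds hx01
    obtain ⟨r, hr, h3⟩ := Metric.eventually_nhds_iff_ball.1 h2
    refine ⟨min r (1 / 2), lt_min hr (by norm_num), (min_le_right _ _).trans_lt (by norm_num),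
      fun z hz => h3 z (ball_subset_ball (min_le_left _ _) hz)⟩
  choose r hr0 hr1 hrO using hr
  set C : Fin L.n → Set ℂ := fun j =>
    {z | z ∈ ball (0 : ℂ) 1 ∧ r j / 2 ≤ ‖z‖ ∧ L.u j z ∈ tsupport χ} with hC
  have hCc : ∀ j, IsCompact (C j) := by
    intro j
    obtain ⟨R, hR1, hR⟩ := L.proper j (tsupport χ) (isClosed_tsupport χ).isCompact
      (hχO.trans hOU)
    have h1 : ContinuousOn (L.u j) (closedBall 0 R) :=
      (huc j).mono fun z hz => by
        rw [mem_closedBall, dist_zero_right] at hz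
        rw [mem_ball, dist_zero_right]
        exact hz.trans_lt hR1
    have h2 : IsClosed (closedBall (0 : ℂ) R ∩ L.u j ⁻¹' tsupport χ) :=
      h1.preimage_isClosed_of_isClosed isClosed_closedBall (isClosed_tsupport χ)
    have h3 : C j = (closedBall (0 : ℂ) R ∩ L.u j ⁻¹' tsupport χ) ∩ {z | r j / 2 ≤ ‖z‖} := by
      ext z
      constructor
      · rintro ⟨h4, h5, h6⟩
        refine ⟨⟨?_, h6⟩, h5⟩
        rw [mem_closedBall, dist_zero_right]
        exact hR z h4 h6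
      · rintro ⟨⟨h4, h5⟩, h6⟩
        refine ⟨?_, h6, h5⟩
        rw [mem_closedBall, dist_zero_right] at h4
        rw [mem_ball, dist_zero_right]
        exact h4.trans_lt hR1
    rw [h3]
    exact ((isCompact_closedBall (0 : ℂ) R).of_isClosed_subset
      (h2.inter (isClosed_le continuous_const continuous_norm))
      (inter_subset_left.trans inter_subset_left))
  have hCim : ∀ j, IsClosed (L.u j '' C j) := fun j =>
    ((hCc j).image_of_continuousOn ((huc j).mono fun z hz => hz.1)).isClosed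
  set G : Set M := O1 \ ⋃ j, L.u j '' C j with hG
  have hGo : IsOpen G := hO1o.sdiff (isClosed_iUnion_of_finite hCim)
  have hGx : x0 ∈ G := by
    refine ⟨hx01, fun h => ?_⟩
    obtain ⟨j, z, hzC, hzx⟩ := mem_iUnion.1 h
    have h1 : z = 0 := by
      refine (L.disc j).inj hzC.1 hball0 ?_
      rw [hzx, L.centre j]
    have h2 := hzC.2.1
    rw [h1, norm_zero] at h2
    linarith [hr0 j]
  refine ⟨G, hGo, hGx, fun x hx => hx.1.2, fun x hx => hx.1.1.self_of_nhds, ?_⟩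
  intro S hS hSG
  -- outside `G` the form `a - dS` vanishes on the curve
  have hnz : ∀ x ∈ range c.f, x ∈ O → x ∉ G → 0 < hh p e x := by
    intro x hx hxO hxG
    refine nsqv_pos fun h0 => hxG ?_
    rw [hz x hxO hx h0]
    exact hGx
  have hb0 : ∀ x ∈ range c.f, x ∈ O → x ∉ G → at2 ((bX a hS).1 : F2 E4 M) x = 0 := by
    intro x hx hxO hxG
    rw [at2_bX, dG_congr (hSG x hx hxO hxG), dG_sn hp ha (hnz x hx hxO hxG), sub_self]
  have hcur := c.cur x0 (cX a hS hχ) (tsupport χ) (isClosed_tsupport χ).isCompact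
    (hχO.trans hOU) (by
      intro x hx
      show χ x • at2 ((bX a hS).1 : F2 E4 M) x = 0
      rw [image_eq_zero_of_notMem_tsupport hx, zero_smul])
  rw [hcur]
  suffices h : ∀ j : Fin L.n, ∃ n : ℤ,
      ∫ z in ball (0 : ℂ) 1, pb (L.u j) ((cX a hS hχ).1 : F2 E4 M) z = n by
    choose n hn using h
    refine ⟨∑ j, n j, ?_⟩
    push_cast
    exact Finset.sum_congr rfl fun j _ => hn j
  intro j
  -- the local section `t` and its connection form
  set t : M → Fin K → ℂ := fun z => col (p z) m with ht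
  obtain ⟨A, hA, hAt⟩ := exists_ext1 (E := E4) (s := conn t) (isClosed_tsupport χ)
    (isOpen_Om hp.smooth m) (hχO.trans hOm)
    (fun x hx => smAt1_conn (isOpen_Om hp.smooth m) (fun z hz l => sc_col hp.smooth hz l) hx)
  have hAS : Smooth1 (A - S) := smooth1_sub hA hS
  set u : ℂ → M := L.u j with hu
  set om : ℂ → ℂ →L[ℝ] ℝ := pb1 (E := E4) u (A - S) with hom
  have homs : ContDiffOn ℝ ∞ om (ball 0 1) := pb1_contDiffOn isOpen_ball (husm j) hAS
  have hrj := hr0 j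
  have hrj1 := hr1 j
  have hsub : ball (0 : ℂ) (r j) ⊆ ball 0 1 := ball_subset_ball hrj1.le
  have hrange : ∀ z ∈ ball (0 : ℂ) 1, u z ∈ range c.f := fun z hz =>
    (mem_range_of_disc c x0 j hz).1
  -- a point outside the small disc, in the support of `χ`
  have hout : ∀ z ∈ ball (0 : ℂ) 1, r j / 2 ≤ ‖z‖ → u z ∈ tsupport χ → u z ∉ G := by
    intro z hz h1 h2 h3
    exact h3.2 (mem_iUnion.2 ⟨j, z, ⟨hz, h1, h2⟩, rfl⟩)
  have hsupp1 : ∀ z ∈ ball (0 : ℂ) (r j), u z ∈ tsupport χ := by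
    intro z hz
    refine subset_tsupport _ ?_
    rw [mem_support, (hrO j z hz).1.self_of_nhds]
    exact one_ne_zero
  have hd1 : ∀ z ∈ ball (0 : ℂ) 1, u z ∈ tsupport χ →
      d1 om z 1 Complex.I = pb u ((bX a hS).1 : F2 E4 M) z := by
    intro z hz hzs
    rw [hom, d1_pb1 isOpen_ball (husm j) hz hAS]
    show at2 (dG (A - S)) (u z) _ _ = at2 ((bX a hS).1 : F2 E4 M) (u z) _ _
    have h1 : at2 (dG (A - S)) (u z) = at2 ((bX a hS).1 : F2 E4 M) (u z) := by
      rw [dG_sub_at (smAt1_of_smooth hA _) (smAt1_of_smooth hS _), at2_bX,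
        dG_congr (hAt _ hzs), dG_conn_eq hp ha (hOm (hχO hzs))]
    rw [h1]
    rfl
  -- the integrand
  set η : ℂ → ℝ := rbc 0 ((r j / 2) ^ 2) ((3 * r j / 4) ^ 2) with hη
  have hab : (r j / 2) ^ 2 < (3 * r j / 4) ^ 2 := by nlinarith
  have hbR : (3 * r j / 4) ^ 2 < r j ^ 2 := by nlinarith
  have hη1 : ∀ z : ℂ, ‖z‖ ≤ r j / 2 → η z = 1 := fun z hz => by
    refine rbc_one hab ?_
    rw [sub_zero]
    gcongr
  have hη0 : ∀ z : ℂ, 3 * r j / 4 ≤ ‖z‖ → η z = 0 := fun z hz => by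
    refine rbc_zero hab ?_
    rw [sub_zero]
    gcongr
  have hint : ∀ z ∈ ball (0 : ℂ) 1, pb u ((cX a hS hχ).1 : F2 E4 M) z =
      η z * d1 om z 1 Complex.I := by
    intro z hzb
    have e1 : pb u ((cX a hS hχ).1 : F2 E4 M) z = χ (u z) * pb u ((bX a hS).1 : F2 E4 M) z := rfl
    have hzero : r j / 2 ≤ ‖z‖ → u z ∈ tsupport χ → pb u ((bX a hS).1 : F2 E4 M) z = 0 := by
      intro h1 h2
      unfold pb
      rw [hb0 _ (hrange z hzb) (hχO h2) (hout z hzb h1 h2)]
      rfl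
    rw [e1]
    by_cases h1 : ‖z‖ ≤ r j / 2
    · have h2 : z ∈ ball (0 : ℂ) (r j) := by
        rw [mem_ball, dist_zero_right]; linarith
      rw [hη1 z h1, hd1 z hzb (hsupp1 z h2), (hrO j z h2).1.self_of_nhds]
    · push Not at h1
      by_cases h3 : z ∈ ball (0 : ℂ) (r j)
      · rw [hd1 z hzb (hsupp1 z h3), hzero h1.le (hsupp1 z h3), mul_zero, mul_zero]
      · rw [mem_ball, dist_zero_right, not_lt] at h3
        rw [hη0 z (by linarith), zero_mul]
        by_cases h4 : u z ∈ tsupport χ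
        · rw [hzero h1.le h4, mul_zero]
        · rw [image_eq_zero_of_notMem_tsupport h4, zero_mul]
  have hset : ∫ z in ball (0 : ℂ) 1, pb u ((cX a hS hχ).1 : F2 E4 M) z =
      ∫ z, η z * d1 om z 1 Complex.I := by
    rw [setIntegral_congr_fun measurableSet_ball hint]
    refine setIntegral_eq_integral_of_forall_compl_eq_zero fun z hz => ?_
    rw [mem_ball, dist_zero_right, not_lt] at hz
    rw [hη0 z (by linarith), zero_mul]
  rw [hset]
  -- the function `F`
  set U : Set M := Om p m ∩ {x | 0 < hh p e x} with hU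
  have hUo : IsOpen U := (isOpen_Om hp.smooth m).inter (isOpen_hh hp e)
  have hcd : ∀ x ∈ U, ∀ w : E4, _ := fun x hx w => conn_diff (s := sn p e) (t := t) hUo
    (fun z hz l => sc_sn hp.smooth hz.2 l) (fun z hz l => sc_col hp.smooth hz.1 l)
    (fun z hz => nv_unit hz.2) (fun z hz => unit_col hp hz.1)
    (fun z hz => (pr_nv (hp.idem z) (hp.herm z) (hp.rank z) hz.2).symm.trans (p_eq hp hz.1)) hx w
  set ρ : M → ℂ := fun x => ∑ k, conj (t x k) * sn p e x k with hρ
  have hUz : ∀ z ∈ ball (0 : ℂ) (r j) \ {0}, u z ∈ U := by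
    intro z hz'
    have h1 := hrO j z hz'.1
    refine ⟨hOm h1.2, ?_⟩
    refine nsqv_pos fun h0 => hz'.2 ?_
    have h2 := hz (u z) h1.2 (hrange z (hsub hz'.1)) h0
    have h3 : z = 0 := by
      refine (L.disc j).inj (hsub hz'.1) hball0 ?_
      rw [L.centre j]; exact h2
    rw [h3]; rfl
  have hat : ∀ z ∈ ball (0 : ℂ) 1, ContMDiffAt 𝓘(ℝ, ℂ) 𝓘(ℝ, E4) ∞ u z := fun z hz' =>
    (husm j).contMDiffAt (isOpen_ball.mem_nhds hz')
  refine planar_int (F := fun z => ρ (u z)) hrj ((homs.of_le (by simp)).mono hsub) ?_ ?_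
    (by positivity) hab hbR ?_
  · intro z hz'
    have h1 := fderiv_comp_dC (hat z (hsub hz'.1)) (hcd _ (hUz z hz') 0).1
    exact (h1.1.of_le (by simp)).contDiffWithinAt
  · intro z hz' h0
    have h1 := (hcd _ (hUz z hz') 0).2.1
    have h2 : conj (ρ (u z)) * ρ (u z) = 1 := h1
    have h3 : ρ (u z) = 0 := h0
    rw [h3, mul_zero] at h2
    exact zero_ne_one h2
  · intro z h1 h2 v
    have h1' : r j / 2 ≤ ‖z‖ := le_of_sq_le_sq h1 (norm_nonneg z)
    have h2' : ‖z‖ ≤ 3 * r j / 4 := le_of_sq_le_sq h2 (by positivity)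
    have hzr : z ∈ ball (0 : ℂ) (r j) := by
      rw [mem_ball, dist_zero_right]; linarith
    have hz0 : z ∈ ball (0 : ℂ) (r j) \ {0} := by
      refine ⟨hzr, fun h => ?_⟩
      rw [mem_singleton_iff] at h
      rw [h, norm_zero] at h1'
      linarith
    have h3 := hcd _ (hUz z hz0) (dmap u z v)
    have h4 := fderiv_comp_dC (hat z (hsub hzr)) h3.1
    have h5 : at1 S (u z) = at1 (conn (sn p e)) (u z) :=
      (hSG _ (hrange z (hsub hzr)) (hrO j z hzr).2
        (hout z (hsub hzr) h1' (hsupp1 z hzr))).self_of_nhds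
    have h6 : at1 A (u z) = at1 (conn t) (u z) := (hAt _ (hsupp1 z hzr)).self_of_nhds
    show at1 A (u z) (dmap u z v) - at1 S (u z) (dmap u z v) =
      (2 * Real.pi)⁻¹ * (fderiv ℝ (fun z => ρ (u z)) z v / ρ (u z)).im
    rw [h5, h6, h4.2 v]
    exact h3.2.2

end

end Crest.Agent.R235.Integ_796
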