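import Crest.Agent.R235.Integ3_984
import Crest.Agent.R235.Integ1_984
import Crest.Agent.R235.Props_844

/-!
Row 235 (S0364), PACKAGE ADJ, leaf X3 INTEG (helper984): the Chern form of a line bundle has integral
integral over a `J`-curve.

Proof: a generic section `p e` (Sard) has finitely many zeros `Y` on the curve; with cut-offs
`ρ` (supported off the zeros, `1` on the curve off a neighbourhood of `Y`) and `κ_y`, the form
`b = a + d (ρ θ_e) + Σ_y d (κ_y (1 - ρ) θ_{v_y})` is cohomologous to `a` and vanishes on the curve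
off the discs at `Y`; the contribution of a disc at `y` is the winding number of `v_y* p e`.
-/

set_option autoImplicit false
set_option maxSynthPendingDepth 3
set_option linter.unusedSectionVars false

open Set Function Filter MeasureTheory Metric Matrix
open scoped Manifold ContDiff Topology

universe u

namespace Crest.Agent.R235.Integ_984

open Crest.Agent.R240 Crest.Agent.R240.Ch Crest.Agent.R235 Crest.Agent.R235.Glob_370

noncomputable section

variable {M : Type u} [TopologicalSpace M] [T2Space M] [CompactSpace M]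
  [ChartedSpace E4 M] [IsManifold 𝓘(ℝ, E4) ∞ M]

/-- smooth cut-off functions. -/
theorem exists_cut {C V : Set M} (hC : IsClosed C) (hV : IsOpen V) (hCV : C ⊆ V) :
    ∃ g : M → ℝ, SmoothF E4 g ∧ (∀ x ∈ C, ∀ᶠ z in 𝓝 x, g z = 1) ∧ tsupport g ⊆ V := by
  obtain ⟨W, hW1, hW2, hW3⟩ := normal_exists_closure_subset hC hV hCV
  obtain ⟨g, hg1, hg2, hg3⟩ := exists_contMDiffMap_one_nhds_of_subset_interior 𝓘(ℝ, E4)
    (n := ⊤) hC (hW2.trans hW1.interior_eq.symm.subset)
  refine ⟨g, (smoothF_iff (E := E4) _).1 g.contMDiff, fun x hx => ?_, ?_⟩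
  · exact (eventually_nhdsSet_iff_forall.1 hg1) x hx
  · refine (closure_mono ?_).trans hW3
    intro x hx
    by_contra hxW
    exact hx (hg2 x hxW)

/-- `f b` as an element of `X2 M`. -/
def fX (f : M → ℝ) (hf : SmoothF E4 f) (b : X2 M) : X2 M :=
  ⟨fmul f (b.1 : F2 E4 M), Smooth2.fmul hf b.2⟩

/-- the disc lies in the curve. -/
theorem disc_mem {J : EndF E4 M} (c : JCurve J) (q : M) (j : Fin (c.L q).n) {z : ℂ}
    (hz : z ∈ ball (0 : ℂ) 1) : (c.L q).u j z ∈ range c.f :=
  ⟨c.φ q j z, c.φ_f q j z hz⟩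

/-- `T b` depends only on the values of `b` on the curve. -/
theorem T_zero {J : EndF E4 M} (c : JCurve J) {b : X2 M}
    (hb : ∀ x ∈ range c.f, at2 (b.1 : F2 E4 M) x = 0) : c.T b = 0 := by
  classical
  obtain ⟨t, ht⟩ := isCompact_univ.elim_finite_subcover (fun q : M => (c.L q).U)
    (fun q => (c.L q).openU) (fun q _ => mem_iUnion.2 ⟨q, (c.L q).mem⟩)
  obtain ⟨f, hf⟩ := SmoothPartitionOfUnity.exists_isSubordinate 𝓘(ℝ, E4)
    (isClosed_univ (X := M)) (fun i : t => (c.L i.1).U) (fun i => (c.L i.1).openU)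
    (fun x hx => by
      obtain ⟨q, hq, hx⟩ := mem_iUnion₂.1 (ht hx)
      exact mem_iUnion.2 ⟨⟨q, hq⟩, hx⟩)
  have hs : ∀ i, SmoothF E4 (f i) := fun i => (smoothF_iff (E := E4) _).1 (f i).contMDiff
  have h1 : b = ∑ i, fX (f i) (hs i) b := by
    apply Subtype.ext
    have h2 : ((∑ i, fX (f i) (hs i) b : X2 M) : F2 E4 M) = ∑ i, fmul (f i) (b.1 : F2 E4 M) :=
      map_sum (X2 M).subtype _ _
    rw [h2]
    funext x
    rw [Finset.sum_apply]
    have h3 : ∀ i, fmul (f i) (b.1 : F2 E4 M) x = f i x • (b.1 : F2 E4 M) x := fun i => rfl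
    simp only [h3]
    rw [← Finset.sum_smul, ← finsum_eq_sum_of_fintype, f.sum_eq_one (mem_univ x), one_smul]
  rw [h1, map_sum]
  refine Finset.sum_eq_zero fun i _ => ?_
  rw [c.cur i.1 (fX (f i) (hs i) b) (tsupport (f i)) (isClosed_tsupport _).isCompact (hf i)
    (fun x hx => by
      have : at2 ((fX (f i) (hs i) b).1 : F2 E4 M) x = f i x • at2 (b.1 : F2 E4 M) x := rfl
      rw [this, image_eq_zero_of_notMem_tsupport hx, zero_smul])]
  refine Finset.sum_eq_zero fun j _ => ?_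
  rw [setIntegral_congr_fun (g := fun _ => (0 : ℝ)) measurableSet_ball fun z hz => ?_]
  · simp
  · have : at2 ((fX (f i) (hs i) b).1 : F2 E4 M) ((c.L i.1).u j z) =
        f i ((c.L i.1).u j z) • at2 (b.1 : F2 E4 M) ((c.L i.1).u j z) := rfl
    simp only [pb]
    rw [this, hb _ (disc_mem c i.1 j hz), smul_zero]
    rfl

variable {N : ℕ} {p : M → Matrix (Fin N) (Fin N) ℂ}

/-- a generic section has finitely many zeros on the curve. -/
theorem exists_generic (hp : IsLine p) {J : EndF E4 M} (c : JCurve J) :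
    ∃ e : Fin N → ℂ, {x | x ∈ range c.f ∧ mu p e x = 0}.Finite := by
  classical
  have h1 : ∀ q : M, ∃ W : Set M, IsOpen W ∧ q ∈ W ∧ closure W ⊆ (c.L q).U := by
    intro q
    obtain ⟨W, hW1, hW2, hW3⟩ := normal_exists_closure_subset (isClosed_singleton (x := q))
      (c.L q).openU (singleton_subset_iff.2 (c.L q).mem)
    exact ⟨W, hW1, hW2 rfl, hW3⟩
  choose W hW1 hW2 hW3 using h1
  have h2 : ∀ (q : M) (j : Fin (c.L q).n), ∃ r < (1 : ℝ), ∀ z ∈ ball (0 : ℂ) 1,
      (c.L q).u j z ∈ closure (W q) → ‖z‖ ≤ r := fun q j =>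
    (c.L q).proper j (closure (W q)) isClosed_closure.isCompact (hW3 q)
  choose r hr1 hr2 using h2
  obtain ⟨t, ht⟩ := isCompact_univ.elim_finite_subcover W hW1
    (fun q _ => mem_iUnion.2 ⟨q, hW2 q⟩)
  have h3 : ∀ (q : M) (j : Fin (c.L q).n), ∀ᵐ e : Fin N → ℂ,
      {z | z ∈ closedBall (0 : ℂ) (r q j) ∧ p ((c.L q).u j z) *ᵥ e = 0}.Finite := by
    intro q j
    refine fin_zeros isOpen_ball (isCompact_closedBall _ _) (closedBall_subset_ball (hr1 q j))
      (P := fun z => p ((c.L q).u j z)) (fun i k => ?_) (fun z _ => hp.rank _)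
    have h4 : ContMDiffOn 𝓘(ℝ, ℂ) 𝓘(ℝ, ℂ) ∞ (fun z => p ((c.L q).u j z) i k) (ball 0 1) :=
      (hp.smooth i k).comp_contMDiffOn ((c.L q).disc j).hol.smooth
    exact h4.contDiffOn.of_le one_le_infty
  have h4 : ∀ᵐ e : Fin N → ℂ, ∀ q ∈ t, ∀ j : Fin (c.L q).n,
      {z | z ∈ closedBall (0 : ℂ) (r q j) ∧ p ((c.L q).u j z) *ᵥ e = 0}.Finite := by
    rw [Filter.eventually_all_finset]
    intro q _
    exact ae_all_iff.2 (h3 q)
  obtain ⟨e, he⟩ := h4.exists
  refine ⟨e, ?_⟩
  refine Set.Finite.subset (t.finite_toSet.biUnion fun q hq =>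
    Set.finite_iUnion fun j => (he q hq j).image ((c.L q).u j)) ?_
  rintro x ⟨hx1, hx2⟩
  obtain ⟨q, hq, hxq⟩ := mem_iUnion₂.1 (ht (mem_univ x))
  have hxU : x ∈ range c.f ∩ (c.L q).U := ⟨hx1, hW3 q (subset_closure hxq)⟩
  rw [(c.L q).supp] at hxU
  obtain ⟨j, z, hz, rfl⟩ := mem_iUnion.1 hxU
  refine mem_iUnion₂.2 ⟨q, hq, mem_iUnion.2 ⟨j, z, ⟨?_, ?_⟩, rfl⟩⟩
  · rw [mem_closedBall, dist_zero_right]
    exact hr2 q j z hz (subset_closure hxq)
  · exact mu_eq_zero hx2

/-- a frame at a point. -/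
theorem exists_frame (hp : IsLine p) (x : M) : ∃ v : Fin N → ℂ, mu p v x ≠ 0 := by
  by_contra hc
  push Not at hc
  have h1 : p x = 0 := by
    ext i j
    have := congrFun (mu_eq_zero (hc (Pi.single j 1))) i
    simpa using this
  have h2 := hp.rank x
  rw [h1] at h2
  simp at h2

/-- **INTEG**: the integral of a Chern form over a `J`-curve is an integer. -/
theorem integral_chern {J : EndF E4 M} (c : JCurve J) (hp : IsLine p) {a : Z2 M}
    (ha : IsChern p a) : ∃ n : ℤ, c.T a.1 = n := by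
  classical
  obtain ⟨e, he⟩ := exists_generic hp c
  set Y : Finset M := he.toFinset with hY
  have memY : ∀ x, x ∈ Y ↔ x ∈ range c.f ∧ mu p e x = 0 := fun x => by
    rw [hY, Set.Finite.mem_toFinset]; rfl
  choose v hv using exists_frame hp
  obtain ⟨S, hS1, hS2⟩ := he.t2_separation
  -- the neighbourhoods
  have hmc : ∀ w, Continuous (mu p w) := fun w =>
    ((smoothF_iff (E := E4) (mu p w)).2 (smooth_mu hp w)).continuous
  set V : M → Set M := fun y => (S y ∩ (c.L y).U) ∩ {x | mu p (v y) x ≠ 0} with hV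
  have hVo : ∀ y, IsOpen (V y) := fun y =>
    ((hS1 y).2.inter (c.L y).openU).inter (isOpen_ne.preimage (hmc (v y)))
  have hVm : ∀ y, y ∈ V y := fun y => ⟨⟨(hS1 y).1, (c.L y).mem⟩, hv y⟩
  have hVd : ∀ y ∈ Y, ∀ y' ∈ Y, y ≠ y' → ∀ x ∈ V y, x ∉ V y' := by
    intro y hy y' hy' hyy x hx hx'
    have h1 := hS2 (show y ∈ {x | x ∈ range c.f ∧ mu p e x = 0} from (memY y).1 hy)
      (show y' ∈ {x | x ∈ range c.f ∧ mu p e x = 0} from (memY y').1 hy') hyy
    exact Set.disjoint_left.1 h1 hx.1.1 hx'.1.1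
  -- the cut-offs
  choose κ hκ1 hκ2 hκ3 using fun y : M => exists_cut (isClosed_singleton (x := y)) (hVo y)
    (singleton_subset_iff.2 (hVm y))
  have hκy : ∀ y, ∀ᶠ z in 𝓝 y, κ y z = 1 := fun y => hκ2 y y rfl
  set I : M → Set M := fun y => {x | ∀ᶠ z in 𝓝 x, κ y z = 1} with hI
  have hIo : ∀ y, IsOpen (I y) := fun y => by
    have : I y = interior {x | κ y x = 1} := by
      ext x; rw [mem_interior_iff_mem_nhds]; rfl
    rw [this]; exact isOpen_interior
  have hfc : IsClosed (range c.f) := (isCompact_range c.cont).isClosed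
  set C : Set M := range c.f ∩ (⋃ y ∈ Y, I y)ᶜ with hC
  have hCc : IsClosed C := hfc.inter (isOpen_biUnion fun y _ => hIo y).isClosed_compl
  obtain ⟨ρ, hρ1, hρ2, hρ3⟩ := exists_cut hCc (V := {x | mu p e x ≠ 0})
    (isOpen_ne.preimage (hmc e)) (fun x hx h0 => hx.2 (mem_biUnion ((memY x).2 ⟨hx.1, h0⟩) (hκy x)))
  -- the weights
  set lam : M → M → ℝ := fun y x => κ y x * (1 - ρ x) with hlam
  have hlams : ∀ y, SmoothF E4 (lam y) := fun y => (hκ1 y).mul ((smoothF_const 1).sub hρ1)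
  have hlamt : ∀ y, tsupport (lam y) ⊆ {x | mu p (v y) x ≠ 0} := fun y =>
    (closure_mono (fun x hx => by
      rw [mem_support] at hx ⊢
      exact left_ne_zero_of_mul hx)).trans ((hκ3 y).trans fun x hx => hx.2)
  obtain ⟨s0, hs0, hs0'⟩ := cal hp ha e hρ1 hρ3
  choose s hs hs' using fun y => cal hp ha (v y) (hlams y) (hlamt y)
  -- the form
  have hsum : Smooth1 (∑ y ∈ Y, s y) := smooth1_sum Y fun y _ => hs y
  have hΘ : Smooth1 (s0 + ∑ y ∈ Y, s y) := hs0.add hsum
  set d : X2 M := ⟨dG (s0 + ∑ y ∈ Y, s y), Smooth2.dG hΘ⟩ with hd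
  set b : X2 M := a.1 + d with hb
  have hTb : c.T a.1 = c.T b := by
    rw [hb, map_add, c.pcur.closed d (isEx_dG hΘ), add_zero]
  have hbv : ∀ (x : M) (u w : E4), at2 (b.1 : F2 E4 M) x u w = val a x u w +
      (((at1 (dF ρ) x u * (at1 (al p e) x w / mu p e x) -
        at1 (dF ρ) x w * (at1 (al p e) x u / mu p e x)) - ρ x * val a x u w) +
      ∑ y ∈ Y, ((at1 (dF (lam y)) x u * (at1 (al p (v y)) x w / mu p (v y) x) -
        at1 (dF (lam y)) x w * (at1 (al p (v y)) x u / mu p (v y) x)) -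
          lam y x * val a x u w)) := by
    intro x u w
    have h1 : at2 (b.1 : F2 E4 M) x u w = val a x u w +
        at2 (dG (s0 + ∑ y ∈ Y, s y)) x u w := rfl
    have h2 : at2 (dG s0 + ∑ y ∈ Y, dG (s y)) x u w =
        at2 (dG s0) x u w + at2 (∑ y ∈ Y, dG (s y)) x u w := rfl
    rw [h1, dG_add hs0 hsum, dG_sum Y fun y _ => hs y, h2, at2_sum, hs0']
    simp only [hs']
  -- off the supports
  have hoff : ∀ y ∈ Y, ∀ y' ∈ Y, y' ≠ y → ∀ x ∈ I y, ∀ᶠ z in 𝓝 x, κ y' z = 0 := by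
    intro y hy y' hy' hyy x hx
    have h1 : x ∈ V y := hκ3 y (subset_tsupport _ (by
      rw [mem_support, hx.self_of_nhds]; exact one_ne_zero))
    have h2 : x ∉ tsupport (κ y') := fun h => hVd y hy y' hy' hyy.symm x h1 (hκ3 y' h)
    exact notMem_tsupport_iff_eventuallyEq.1 h2
  have zero_term : ∀ y x, (∀ᶠ z in 𝓝 x, lam y z = 0) → ∀ u w : E4,
      (at1 (dF (lam y)) x u * (at1 (al p (v y)) x w / mu p (v y) x) -
        at1 (dF (lam y)) x w * (at1 (al p (v y)) x u / mu p (v y) x)) -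
          lam y x * val a x u w = 0 := by
    intro y x h u w
    have h1 : at1 (dF (E := E4) (lam y)) x = 0 := by
      rw [at1_dF_congr (g := fun _ => (0 : ℝ)) h, at1_dF_const]
    rw [h1, h.self_of_nhds]
    simp
  have caseA : ∀ y ∈ Y, ∀ x ∈ I y, ∀ u w : E4, at2 (b.1 : F2 E4 M) x u w =
      at1 (dF ρ) x u * (at1 (al p e) x w / mu p e x - at1 (al p (v y)) x w / mu p (v y) x) -
      at1 (dF ρ) x w * (at1 (al p e) x u / mu p e x -
        at1 (al p (v y)) x u / mu p (v y) x) := by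
    intro y hy x hx u w
    rw [hbv, Finset.sum_eq_single_of_mem y hy fun y' hy' hyy => zero_term y' x (by
      filter_upwards [hoff y hy y' hy' hyy x hx] with z hz
      rw [hlam]; simp only; rw [hz, zero_mul]) u w]
    have h1 : lam y =ᶠ[𝓝 x] fun z => 1 + (-1) * ρ z := by
      filter_upwards [hx] with z hz
      rw [hlam]; simp only; rw [hz]; ring
    have h2 : at1 (dF (E := E4) (lam y)) x = - at1 (dF (E := E4) ρ) x := by
      rw [at1_dF_congr h1]
      ext w
      rw [at1_dF_add (smoothF_const 1) ((smoothF_const (-1)).mul hρ1),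
        at1_dF_mul (smoothF_const (-1)) hρ1, at1_dF_const, at1_dF_const]
      simp
    rw [h2, h1.self_of_nhds]
    simp only [_root_.neg_apply]
    ring
  have caseB : ∀ x ∈ C, at2 (b.1 : F2 E4 M) x = 0 := by
    intro x hx
    ext u w
    have h0 := hρ2 x hx
    rw [hbv, Finset.sum_eq_zero fun y _ => zero_term y x (by
      filter_upwards [h0] with z hz
      rw [hlam]; simp only; rw [hz]; ring) u w]
    have h2 : at1 (dF (E := E4) ρ) x = 0 := by
      rw [at1_dF_congr (g := fun _ => (1 : ℝ)) h0, at1_dF_const]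
    rw [h2, h0.self_of_nhds]
    simp
  have cases : ∀ x ∈ range c.f, (∃ y ∈ Y, x ∈ I y) ∨ x ∈ C := by
    intro x hx
    by_cases h : x ∈ ⋃ y ∈ Y, I y
    · obtain ⟨y, hy, hxy⟩ := mem_iUnion₂.1 h
      exact Or.inl ⟨y, hy, hxy⟩
    · exact Or.inr ⟨hx, h⟩
  -- localisation
  have hTs : c.T b = ∑ y ∈ Y, c.T (fX (κ y) (hκ1 y) b) := by
    have h1 : c.T (b - ∑ y ∈ Y, fX (κ y) (hκ1 y) b) = 0 := by
      refine T_zero c fun x hx => ?_
      have h2 : at2 ((b - ∑ y ∈ Y, fX (κ y) (hκ1 y) b : X2 M) : F2 E4 M) x =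
          at2 (b.1 : F2 E4 M) x - ∑ y ∈ Y, κ y x • at2 (b.1 : F2 E4 M) x := by
        have h3 : ((∑ y ∈ Y, fX (κ y) (hκ1 y) b : X2 M) : F2 E4 M) =
            ∑ y ∈ Y, fmul (κ y) (b.1 : F2 E4 M) := map_sum (X2 M).subtype _ _
        have h4 : at2 ((b - ∑ y ∈ Y, fX (κ y) (hκ1 y) b : X2 M) : F2 E4 M) x =
          at2 (b.1 : F2 E4 M) x - at2 ((∑ y ∈ Y, fX (κ y) (hκ1 y) b : X2 M) : F2 E4 M) x := rfl
        rw [h4, h3]
        congr 1
        ext u w
        rw [at2_sum, _root_.sum_apply, _root_.sum_apply]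
        rfl
      rw [h2, ← Finset.sum_smul]
      rcases cases x hx with ⟨y, hy, hxy⟩ | hxC
      · rw [Finset.sum_eq_single_of_mem y hy fun y' hy' hyy =>
          (hoff y hy y' hy' hyy x hxy).self_of_nhds, hxy.self_of_nhds, one_smul, sub_self]
      · rw [caseB x hxC, smul_zero, sub_zero]
    rw [map_sub, map_sum, sub_eq_zero] at h1
    exact h1
  -- the local contributions
  have hloc : ∀ y ∈ Y, ∃ n : ℤ, c.T (fX (κ y) (hκ1 y) b) = n := by
    intro y hy
    rw [c.cur y (fX (κ y) (hκ1 y) b) (tsupport (κ y)) (isClosed_tsupport _).isCompact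
      ((hκ3 y).trans fun x hx => hx.1.2) (fun x hx => by
        have : at2 ((fX (κ y) (hκ1 y) b).1 : F2 E4 M) x = κ y x • at2 (b.1 : F2 E4 M) x := rfl
        rw [this, image_eq_zero_of_notMem_tsupport hx, zero_smul])]
    have h1 : ∀ j : Fin (c.L y).n, ∃ n : ℤ, ∫ z in ball (0 : ℂ) 1,
        pb ((c.L y).u j) ((fX (κ y) (hκ1 y) b).1 : F2 E4 M) z = n := by
      intro j
      obtain ⟨r, hr, hr'⟩ := (c.L y).proper j (tsupport (κ y)) (isClosed_tsupport _).isCompact
        ((hκ3 y).trans fun x hx => hx.1.2)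
      have hc0 : (c.L y).u j 0 = y := (c.L y).centre j
      refine loc hp (v := v y) (e := e) (u := (c.L y).u j) (V := V y) (hVo y)
        ((c.L y).disc j).hol.smooth (fun x hx => hx.2) (by rw [hc0]; exact hVm y) ?_
        (hκ1 y) hρ1 (hκ3 y) hr hr' (by rw [hc0]; exact hκy y) ?_ hρ3 ?_
      · intro z hz hzV hz0
        have h2 : (c.L y).u j z ∈ Y := (memY _).2 ⟨disc_mem c y j hz, hz0⟩
        have h3 : (c.L y).u j z = y := by
          by_contra hne
          exact hVd _ h2 y hy hne _ (hVm _) hzV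
        exact ((c.L y).disc j).inj hz (mem_ball_self one_pos) (by rw [h3, hc0])
      · rw [hc0]
        have h2 : y ∉ tsupport ρ := fun h => hρ3 h ((memY y).1 hy).2
        exact notMem_tsupport_iff_eventuallyEq.1 h2
      · intro z hz
        rcases cases _ (disc_mem c y j hz) with ⟨y', hy', hxy⟩ | hxC
        · by_cases hyy : y' = y
          · subst hyy
            left
            exact ⟨hxy, fun s t => caseA y' hy' _ hxy s t⟩
          · right
            have h2 := hoff y' hy' y hy (Ne.symm hyy) _ hxy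
            refine ⟨?_, ?_⟩
            · filter_upwards [h2] with x hx
              rw [hx, zero_mul]
            · have : at2 (fmul (κ y) (b.1 : F2 E4 M)) ((c.L y).u j z) =
                  κ y ((c.L y).u j z) • at2 (b.1 : F2 E4 M) ((c.L y).u j z) := rfl
              rw [this, h2.self_of_nhds, zero_smul]
        · right
          refine ⟨?_, ?_⟩
          · filter_upwards [hρ2 _ hxC] with x hx
            rw [hx]; ring
          · have : at2 (fmul (κ y) (b.1 : F2 E4 M)) ((c.L y).u j z) =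
                κ y ((c.L y).u j z) • at2 (b.1 : F2 E4 M) ((c.L y).u j z) := rfl
            rw [this, caseB _ hxC, smul_zero]
    choose n hn using h1
    exact ⟨∑ j, n j, by rw [Finset.sum_congr rfl fun j _ => hn j]; push_cast; rfl⟩
  choose! n hn using hloc
  refine ⟨∑ y ∈ Y, n y, ?_⟩
  rw [hTb, hTs, Finset.sum_congr rfl hn]
  push_cast
  rfl

end

/-- **INTEG** (ADJ, X3). -/
def INTEG : Prop :=
  ∀ (M : Type u) [TopologicalSpace M] [T2Space M] [CompactSpace M] [ConnectedSpace M]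
    [ChartedSpace E4 M] [IsManifold 𝓘(ℝ, E4) ∞ M] (w : Trip M) (J : EndF E4 M), Pos3 w → IsJ w J →
    ∀ (c : JCurve J) (N : ℕ) (p : M → Matrix (Fin N) (Fin N) ℂ) (a : Z2 M), IsLine p →
      IsChern p a → ∃ n : ℤ, c.T a.1 = n

theorem integ : INTEG.{u} := by
  intro M _ _ _ _ _ _ w J _ _ c N p a hp ha
  exact integral_chern c hp ha

end Crest.Agent.R235.Integ_984
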