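import Mathlib

/-!
Row 235, package IND, leaf (L1) of helper167 (#2166): a family of integrals which is polynomial in
a real parameter and integer valued is constant.
-/

open MeasureTheory

namespace Crest.Agent.R235.Interp_283

/-- an integer valued continuous real function is constant -/
theorem const_of_int {F : ℝ → ℝ} (hF : Continuous F) (hi : ∀ s, ∃ n : ℤ, F s = n) (s t : ℝ) :
    F s = F t := by
  choose n hn using hi
  have hc : Continuous n := by
    rw [continuous_def]
    have : Continuous (fun s => (n s : ℝ)) := by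
      have h : (fun s => (n s : ℝ)) = F := by ext s; exact (hn s).symm
      rw [h]; exact hF
    intro U hU
    have h1 := Int.isClosedEmbedding_coe_real.isInducing
    exact (h1.continuous_iff.2 this).isOpen_preimage U hU
  have h1 : n s = n t := by
    have hpc : IsPreconnected (Set.range n) := isPreconnected_range hc
    exact hpc.subsingleton ⟨s, rfl⟩ ⟨t, rfl⟩
  rw [hn, hn, h1]

/-- INTERP. -/
theorem interp {M : Type*} [MeasurableSpace M] (μ : Measure M) (r0 c2 c3 c4 : M → ℝ)
    (hint : ∀ s : ℝ, Integrable (fun x => r0 x + s ^ 2 * c2 x + s ^ 3 * c3 x + s ^ 4 * c4 x) μ)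
    (hZ : ∀ s : ℝ, ∃ n : ℤ, ∫ x, (r0 x + s ^ 2 * c2 x + s ^ 3 * c3 x + s ^ 4 * c4 x) ∂μ = n)
    (s t : ℝ) : ∫ x, (r0 x + s ^ 2 * c2 x + s ^ 3 * c3 x + s ^ 4 * c4 x) ∂μ =
      ∫ x, (r0 x + t ^ 2 * c2 x + t ^ 3 * c3 x + t ^ 4 * c4 x) ∂μ := by
  have i0 : Integrable r0 μ := by simpa using hint 0
  have h1 : Integrable (fun x => c2 x + c3 x + c4 x) μ := by
    refine ((hint 1).sub i0).congr (Filter.Eventually.of_forall fun x => ?_)
    simp only [Pi.sub_apply]; ring
  have h2 : Integrable (fun x => c2 x - c3 x + c4 x) μ := by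
    refine ((hint (-1)).sub i0).congr (Filter.Eventually.of_forall fun x => ?_)
    simp only [Pi.sub_apply]; ring
  have h3 : Integrable (fun x => 4 * c2 x + 8 * c3 x + 16 * c4 x) μ := by
    refine ((hint 2).sub i0).congr (Filter.Eventually.of_forall fun x => ?_)
    simp only [Pi.sub_apply]; ring
  have i3 : Integrable c3 μ := by
    refine ((h1.sub h2).const_mul (1 / 2)).congr (Filter.Eventually.of_forall fun x => ?_)
    simp only [Pi.sub_apply]; ring
  have h4 : Integrable (fun x => c2 x + c4 x) μ := by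
    refine (h1.sub i3).congr (Filter.Eventually.of_forall fun x => ?_)
    simp only [Pi.sub_apply]; ring
  have i4 : Integrable c4 μ := by
    refine (((h3.sub (i3.const_mul 8)).sub (h4.const_mul 4)).const_mul (1 / 12)).congr
      (Filter.Eventually.of_forall fun x => ?_)
    simp only [Pi.sub_apply]; ring
  have i2 : Integrable c2 μ := by
    refine (h4.sub i4).congr (Filter.Eventually.of_forall fun x => ?_)
    simp only [Pi.sub_apply]; ring
  have hF : ∀ s : ℝ, ∫ x, (r0 x + s ^ 2 * c2 x + s ^ 3 * c3 x + s ^ 4 * c4 x) ∂μ =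
      ∫ x, r0 x ∂μ + s ^ 2 * ∫ x, c2 x ∂μ + s ^ 3 * ∫ x, c3 x ∂μ + s ^ 4 * ∫ x, c4 x ∂μ := by
    intro s
    have j2 : Integrable (fun x => s ^ 2 * c2 x) μ := i2.const_mul _
    have j3 : Integrable (fun x => s ^ 3 * c3 x) μ := i3.const_mul _
    have j4 : Integrable (fun x => s ^ 4 * c4 x) μ := i4.const_mul _
    have k2 : Integrable (fun x => r0 x + s ^ 2 * c2 x) μ := i0.add j2
    have k3 : Integrable (fun x => r0 x + s ^ 2 * c2 x + s ^ 3 * c3 x) μ := k2.add j3
    rw [integral_add k3 j4, integral_add k2 j3, integral_add i0 j2, integral_const_mul,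
      integral_const_mul, integral_const_mul]
  refine const_of_int (F := fun s => ∫ x, (r0 x + s ^ 2 * c2 x + s ^ 3 * c3 x + s ^ 4 * c4 x) ∂μ)
    ?_ hZ s t
  simp only [hF]
  fun_prop

end Crest.Agent.R235.Interp_283
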