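import Mathlib
import Crest.Agent.R235.GCov_470
import Crest.Agent.R235.Tau_692
import Crest.Agent.R275.OAJ_627

/-!
Row 235 (S0364), package HZ (helper692, blueprint helper470 #1591): the oriented atlas of a good
cover and the dictionary `∫ f0 df1 df2 df3 df4` (R275/OAJ_627) = `Int.I` (R240).
-/

set_option autoImplicit false
set_option maxSynthPendingDepth 3
set_option linter.unusedSectionVars false

open Set Function Filter MeasureTheory
open scoped Manifold ContDiff Topology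

universe u

namespace Crest.Agent.R235.JD_692

open Crest.Agent.R240 Crest.Agent.R240.Ch Crest.Agent.R235.Tau_692
open Crest.Agent.R275.StkR627 Crest.Agent.R275.OAt627 Crest.Agent.R275.OAJ627

noncomputable section

/-! ### linear part -/

/-- the sign -/
def sb (b : Bool) : ℝ := if b then -1 else 1

theorem sb_mul_self (b : Bool) : sb b * sb b = 1 := by cases b <;> simp [sb]

theorem sb_ne (b : Bool) : sb b ≠ 0 := by cases b <;> simp [sb]

theorem abs_sb (b : Bool) : |sb b| = 1 := by cases b <;> simp [sb]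

/-- the reflection of the first coordinate -/
def Rf (b : Bool) : Rn 4 →ₗ[ℝ] Rn 4 := Matrix.toLin' (Matrix.diagonal ![sb b, 1, 1, 1])

theorem Rf_apply (b : Bool) (v : Rn 4) : Rf b v = ![sb b * v 0, v 1, v 2, v 3] := by
  unfold Rf
  rw [Matrix.toLin'_apply]
  funext j
  rw [Matrix.mulVec_diagonal]
  fin_cases j <;> simp

theorem Rf_Rf (b : Bool) (v : Rn 4) : Rf b (Rf b v) = v := by
  rw [Rf_apply, Rf_apply]
  funext j
  fin_cases j
  · show sb b * (sb b * v 0) = v 0
    rw [← mul_assoc, sb_mul_self, one_mul]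
  all_goals rfl

theorem det_Rf (b : Bool) : LinearMap.det (Rf b) = sb b := by
  unfold Rf
  rw [LinearMap.det_toLin', Matrix.det_diagonal, Fin.prod_univ_four]
  simp

/-- `E4 ≃ ℝ⁴` with a reflection -/
def Lb (b : Bool) : E4 ≃L[ℝ] Rn 4 :=
  ((EuclideanSpace.equiv (Fin 4) ℝ).toLinearEquiv.trans
    (LinearEquiv.ofInvolutive (Rf b) (Rf_Rf b))).toContinuousLinearEquiv

theorem Lb_apply (b : Bool) (v : E4) : Lb b v = Rf b (WithLp.ofLp v) := rfl

theorem Lb_symm_single (b : Bool) (j : Fin 4) :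
    (Lb b).symm (Pi.single j 1) = (if j = 0 then sb b else 1) • ee j := by
  rw [ContinuousLinearEquiv.symm_apply_eq, map_smul, Lb_apply, Rf_apply]
  funext k
  have h : ∀ i, (WithLp.ofLp (ee j) : Rn 4) i = if i = j then (1 : ℝ) else 0 := fun i =>
    ee_apply j i
  simp only [h, Pi.smul_apply, smul_eq_mul]
  fin_cases j <;> fin_cases k <;> simp [sb_mul_self]

theorem mp_Lb (b : Bool) : MeasurePreserving (Lb b) volume volume := by
  have h1 : MeasurePreserving (fun v : E4 => (WithLp.ofLp v : Rn 4)) volume volume :=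
    PiLp.volume_preserving_ofLp (Fin 4)
  have h2 : MeasurePreserving (Rf b) volume volume := by
    refine ⟨(LinearMap.continuous_of_finiteDimensional (Rf b)).measurable, ?_⟩
    rw [Real.map_linearMap_volume_pi_eq_smul_volume_pi (by rw [det_Rf]; exact sb_ne b), det_Rf,
      abs_inv, abs_sb]
    simp
  exact h2.comp h1

/-- the 4x4 determinant as a wedge product -/
theorem W_four (s : Fin 4 → E4 →L[ℝ] ℝ) {b c : Bil}
    (hb : ∀ u v, b u v = s 0 u * s 1 v - s 1 u * s 0 v)
    (hc : ∀ u v, c u v = s 2 u * s 3 v - s 3 u * s 2 v) :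
    W b c = Matrix.det (Matrix.of fun a j => s a (ee j)) := by
  unfold W ent
  simp only [hb, hc]
  simp only [Matrix.det_succ_row_zero, Fin.sum_univ_succ, Matrix.of_apply, Matrix.submatrix_apply,
    Fin.succ_zero_eq_one, Fin.succ_one_eq_two, Finset.univ_unique, Fin.default_eq_zero,
    Matrix.det_unique, Finset.sum_singleton, Fin.zero_succAbove, Fin.val_zero, pow_zero, one_mul,
    Fin.val_succ, zero_add, pow_one]
  simp [Fin.succAbove, Fin.lt_def]
  ring

/-! ### the charts -/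

section Charts

variable {M : Type u} [TopologicalSpace M] [ChartedSpace E4 M] [IsManifold 𝓘(ℝ, E4) ∞ M]
variable (G : RGC M) (F : F2 E4 M)

/-- the orientation bit of the `i`-th set -/
def ob (i : Fin G.n) : Bool := by
  classical
  exact decide (∃ x ∈ G.B i, W (rep (G.p i) F (chartAt E4 (G.p i) x))
    (rep (G.p i) F (chartAt E4 (G.p i) x)) < 0)

variable {G F}

theorem W_pos (hF : Int.Vol F) (i : Fin G.n) {y : E4} (hy : y ∈ chartAt E4 (G.p i) '' G.B i) :
    0 < sb (ob G F i) * W (rep (G.p i) F y) (rep (G.p i) F y) := by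
  classical
  have hsub : chartAt E4 (G.p i) '' G.B i ⊆ (chartAt E4 (G.p i)).target :=
    G.image_subset_target subset_rfl
  have hc : ContinuousOn (fun y => W (rep (G.p i) F y) (rep (G.p i) F y))
      (chartAt E4 (G.p i) '' G.B i) :=
    (Int.continuousOn_W (hF.cont _) (hF.cont _)).mono hsub
  have hpre : IsPreconnected (chartAt E4 (G.p i) '' G.B i) := (G.convex_B i).isPreconnected
  have hne : ∀ z ∈ chartAt E4 (G.p i) '' G.B i,
      W (rep (G.p i) F z) (rep (G.p i) F z) ≠ 0 := fun z hz => hF.rep_ne (hsub hz)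
  have himg := (hpre.image _ hc).ordConnected
  by_cases h : ∃ x ∈ G.B i, W (rep (G.p i) F (chartAt E4 (G.p i) x))
      (rep (G.p i) F (chartAt E4 (G.p i) x)) < 0
  · have hb : ob G F i = true := by unfold ob; exact decide_eq_true h
    obtain ⟨x, hx, hx0⟩ := h
    rw [hb]
    simp only [sb, if_true]
    have : W (rep (G.p i) F y) (rep (G.p i) F y) < 0 := by
      rcases lt_or_gt_of_ne (hne y hy) with h1 | h1
      · exact h1
      · exfalso
        have h0 := himg.out ⟨_, ⟨x, hx, rfl⟩, rfl⟩ ⟨y, hy, rfl⟩ ⟨hx0.le, h1.le⟩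
        obtain ⟨z, hz, hz0⟩ := h0
        exact hne z hz hz0
    linarith
  · have hb : ob G F i = false := by unfold ob; exact decide_eq_false h
    push Not at h
    rw [hb]
    simp only [sb, Bool.false_eq_true, if_false, one_mul]
    obtain ⟨x, hx, rfl⟩ := hy
    exact lt_of_le_of_ne (h x hx) (Ne.symm (hne _ ⟨x, hx, rfl⟩))

variable (G F)

/-- the oriented chart on `B i` -/
def ech (i : Fin G.n) : Ch 4 M :=
  ((chartAt E4 (G.p i)).restrOpen (G.B i) (G.isOpen i)).transHomeomorph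
    (Lb (ob G F i)).toHomeomorph

theorem ech_source (i : Fin G.n) : (ech G F i).source = G.B i := by
  show (chartAt E4 (G.p i)).source ∩ G.B i = G.B i
  exact inter_eq_right.2 (G.sub i)

theorem ech_apply (i : Fin G.n) (x : M) :
    ech G F i x = Lb (ob G F i) (chartAt E4 (G.p i) x) := rfl

theorem ech_symm_apply (i : Fin G.n) (y : Rn 4) :
    (ech G F i).symm y = (chartAt E4 (G.p i)).symm ((Lb (ob G F i)).symm y) := rfl

theorem mem_ech_target {i : Fin G.n} {y : Rn 4} : y ∈ (ech G F i).target ↔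
    (Lb (ob G F i)).symm y ∈ chartAt E4 (G.p i) '' G.B i := by
  have h1 : y ∈ (ech G F i).target ↔ (Lb (ob G F i)).symm y ∈ (chartAt E4 (G.p i)).target ∧
      (chartAt E4 (G.p i)).symm ((Lb (ob G F i)).symm y) ∈ G.B i := Iff.rfl
  rw [h1]
  constructor
  · rintro ⟨h2, h3⟩
    exact ⟨_, h3, (chartAt E4 (G.p i)).right_inv h2⟩
  · intro h
    exact ⟨G.image_subset_target subset_rfl h, G.symm_mem_of_image subset_rfl h⟩

variable {G F}

/-- smoothness in the chart -/
theorem smO_ech {i : Fin G.n} {f : M → ℝ} (hf : SmoothF E4 f) : SmO (ech G F i) f := by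
  have h1 : ContDiffOn ℝ ∞ (fun y : Rn 4 => repF (G.p i) f ((Lb (ob G F i)).symm y))
      (ech G F i).target := by
    refine (hf (G.p i)).comp ((Lb (ob G F i)).symm.contDiff.contDiffOn) fun y hy => ?_
    exact G.image_subset_target subset_rfl ((mem_ech_target G F).1 hy)
  exact h1

theorem cpt_ech (hF : Int.Vol F) (i j : Fin G.n) : Cpt (ech G F i) (ech G F j) := by
  set bi := ob G F i with hbi
  set bj := ob G F j with hbj
  have hmem : ∀ z ∈ (ech G F i).target ∩ (ech G F i).symm ⁻¹' (ech G F j).source,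
      (Lb bi).symm z ∈ (chartAt E4 (G.p i)).target ∧
      (chartAt E4 (G.p i)).symm ((Lb bi).symm z) ∈ G.B i ∧
      (chartAt E4 (G.p i)).symm ((Lb bi).symm z) ∈ G.B j := by
    rintro z ⟨h1, h2⟩
    have h3 := (mem_ech_target G F).1 h1
    rw [ech_source] at h2
    exact ⟨G.image_subset_target subset_rfl h3, G.symm_mem_of_image subset_rfl h3, h2⟩
  have hfun : (fun z => ech G F j ((ech G F i).symm z)) =
      fun z => Lb bj (trans (G.p i) (G.p j) ((Lb bi).symm z)) := rfl
  have hsm : ∀ z ∈ (ech G F i).target ∩ (ech G F i).symm ⁻¹' (ech G F j).source,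
      ContDiffAt ℝ ∞ (fun z => ech G F j ((ech G F i).symm z)) z := by
    intro z hz
    obtain ⟨h1, h2, h3⟩ := hmem z hz
    rw [hfun]
    have ht := trans_contDiffAt (E := E4) h1 (G.sub j h3)
    have h4 : ContDiffAt ℝ ∞ (fun z => trans (G.p i) (G.p j) ((Lb bi).symm z)) z :=
      ContDiffAt.comp z (f := fun z => (Lb bi).symm z) (g := trans (G.p i) (G.p j)) ht
        (Lb bi).symm.contDiff.contDiffAt
    exact (Lb bj).contDiff.contDiffAt.comp z h4
  refine ⟨fun z hz => (hsm z hz).contDiffWithinAt, fun z hz => ?_⟩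
  obtain ⟨h1, h2, h3⟩ := hmem z hz
  set y := (Lb bi).symm z with hy
  have ht := (trans_contDiffAt (E := E4) h1 (G.sub j h3)).differentiableAt infty_ne_zero
  set T : E4 →L[ℝ] E4 := fderiv ℝ (trans (G.p i) (G.p j)) y with hT
  have hfd : fderiv ℝ (fun z => ech G F j ((ech G F i).symm z)) z =
      ((Lb bj : E4 →L[ℝ] Rn 4).comp T).comp ((Lb bi).symm : Rn 4 →L[ℝ] E4) := by
    rw [hfun]
    have hd1 : HasFDerivAt (fun z => (Lb bi).symm z) ((Lb bi).symm : Rn 4 →L[ℝ] E4) z :=
      (Lb bi).symm.hasFDerivAt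
    have hd2 : HasFDerivAt (trans (G.p i) (G.p j)) T ((Lb bi).symm z) := ht.hasFDerivAt
    have hd3 := hd2.comp z hd1
    have hd4 : HasFDerivAt (fun v => Lb bj v) (Lb bj : E4 →L[ℝ] Rn 4)
        ((trans (G.p i) (G.p j) ∘ fun z => (Lb bi).symm z) z) := (Lb bj).hasFDerivAt
    exact (hd4.comp z hd3).fderiv
  rw [hfd]
  have hdet : (((Lb bj : E4 →L[ℝ] Rn 4).comp T).comp ((Lb bi).symm : Rn 4 →L[ℝ] E4)).det =
      sb bj * LinearMap.det (T : E4 →ₗ[ℝ] E4) * sb bi := by
    set L0 : E4 ≃ₗ[ℝ] Rn 4 := (EuclideanSpace.equiv (Fin 4) ℝ).toLinearEquiv with hL0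
    have h5 : ((((Lb bj : E4 →L[ℝ] Rn 4).comp T).comp ((Lb bi).symm : Rn 4 →L[ℝ] E4) :
        Rn 4 →L[ℝ] Rn 4) : Rn 4 →ₗ[ℝ] Rn 4) =
        (Rf bj ∘ₗ ((L0 : E4 →ₗ[ℝ] Rn 4) ∘ₗ (T : E4 →ₗ[ℝ] E4) ∘ₗ (L0.symm : Rn 4 →ₗ[ℝ] E4))) ∘ₗ
          Rf bi := by
      apply LinearMap.ext
      intro v
      rfl
    unfold ContinuousLinearMap.det
    rw [h5, LinearMap.det_comp, LinearMap.det_comp, LinearMap.det_conj, det_Rf, det_Rf]
  rw [hdet]
  have hy1 : y ∈ chartAt E4 (G.p i) '' G.B i := ⟨_, h2, (chartAt E4 (G.p i)).right_inv h1⟩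
  have hy2 : trans (G.p i) (G.p j) y ∈ chartAt E4 (G.p j) '' G.B j := ⟨_, h3, rfl⟩
  have hW := Int.rep_trans_pull h1 (G.sub j h3) F
  have hW2 : W (rep (G.p i) F y) (rep (G.p i) F y) = LinearMap.det (T : E4 →ₗ[ℝ] E4) *
      W (rep (G.p j) F (trans (G.p i) (G.p j) y)) (rep (G.p j) F (trans (G.p i) (G.p j) y)) := by
    have h6 := W_pull (Int.rep_alt hF.alt (G.p j) (trans (G.p i) (G.p j) y))
      (Int.rep_alt hF.alt (G.p j) (trans (G.p i) (G.p j) y)) T
    rw [← h6]
    have h7 : rep (G.p i) F y = pull T (rep (G.p j) F (trans (G.p i) (G.p j) y)) := hW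
    rw [h7]
  have hp1 := W_pos hF i hy1
  have hp2 := W_pos hF j hy2
  rw [hW2] at hp1
  set D := LinearMap.det (T : E4 →ₗ[ℝ] E4) with hD
  set w := W (rep (G.p j) F (trans (G.p i) (G.p j) y))
    (rep (G.p j) F (trans (G.p i) (G.p j) y)) with hw
  have hp1' : 0 < sb bi * (D * w) := hp1
  have hp2' : 0 < sb bj * w := hp2
  have e1 : (sb bj * D * sb bi) * (sb bj * w) = sb bi * (D * w) := by
    have := sb_mul_self bj
    calc (sb bj * D * sb bi) * (sb bj * w) = (sb bj * sb bj) * (sb bi * (D * w)) := by ring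
      _ = _ := by rw [this, one_mul]
  rw [← e1] at hp1'
  exact (mul_pos_iff_of_pos_right hp2').1 hp1'

variable [T2Space M] [CompactSpace M]

/-- **the oriented atlas of a good cover** -/
def oaG (G : RGC M) {F : F2 E4 M} (hF : Int.Vol F) : OA 4 M where
  ι := Fin G.n
  e := ech G F
  cpt i j := cpt_ech hF i j
  θ := G.ψ
  θ_sm i j := smO_ech (G.smooth i)
  θ_cpt i := (isClosed_tsupport _).isCompact
  θ_sub i := by rw [ech_source]; exact G.supp i
  lf K hK := Set.toFinite _
  sum x := by rw [finsum_eq_sum_of_fintype]; exact G.sum x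

theorem sm_oaG (hF : Int.Vol F) {f : M → ℝ} : (oaG G hF).Sm f ↔ SmoothF E4 f := by
  constructor
  · intro h
    refine SmoothF.of_local fun x => ?_
    obtain ⟨i, hi⟩ := G.cover x
    refine ⟨G.p i, G.sub i hi, ?_⟩
    have h1 : SmO (ech G F i) f := h i
    have h2 : ContDiffAt ℝ ∞ (fun z => f ((ech G F i).symm z)) (ech G F i x) :=
      h1.contDiffAt ((ech G F i).map_source (by rw [ech_source]; exact hi))
    have h3 : ContDiffAt ℝ ∞ (fun v => (fun z => f ((ech G F i).symm z)) (Lb (ob G F i) v))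
        (chartAt E4 (G.p i) x) :=
      ContDiffAt.comp _ (g := fun z => f ((ech G F i).symm z)) (f := fun v => Lb (ob G F i) v) h2
        (Lb (ob G F i)).contDiff.contDiffAt
    have h4 : (fun v => (fun z => f ((ech G F i).symm z)) (Lb (ob G F i) v)) =
        repF (G.p i) f := by
      funext v
      show f ((chartAt E4 (G.p i)).symm ((Lb (ob G F i)).symm (Lb (ob G F i) v))) = _
      rw [ContinuousLinearEquiv.symm_apply_apply]
      rfl
    rwa [h4] at h3
  · intro h i
    exact smO_ech h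

/-! ### the dictionary -/

/-- coordinate derivatives in the oriented chart -/
theorem der_ech {i : Fin G.n} {f : M → ℝ} (hf : SmoothF E4 f) {y : Rn 4}
    (hy : y ∈ (ech G F i).target) (b : Fin 4) :
    der (ech G F i) f y b = (if b = 0 then sb (ob G F i) else 1) *
      rep1 (G.p i) (dF f) ((Lb (ob G F i)).symm y) (ee b) := by
  have hy' : (Lb (ob G F i)).symm y ∈ (chartAt E4 (G.p i)).target :=
    G.image_subset_target subset_rfl ((mem_ech_target G F).1 hy)
  have hd : HasFDerivAt (repF (G.p i) f) (fderiv ℝ (repF (G.p i) f) ((Lb (ob G F i)).symm y))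
      ((Lb (ob G F i)).symm y) :=
    ((hf.at hy').differentiableAt infty_ne_zero).hasFDerivAt
  have hd1 : HasFDerivAt (fun z => (Lb (ob G F i)).symm z)
      ((Lb (ob G F i)).symm : Rn 4 →L[ℝ] E4) y := (Lb (ob G F i)).symm.hasFDerivAt
  have hd2 := (hd.comp y hd1).fderiv
  unfold der pd
  have h0 : (fun z => f ((ech G F i).symm z)) =
      repF (G.p i) f ∘ fun z => (Lb (ob G F i)).symm z := rfl
  rw [h0, hd2, rep1_dF hf hy']
  show fderiv ℝ (repF (G.p i) f) ((Lb (ob G F i)).symm y)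
    ((Lb (ob G F i)).symm (Pi.single b 1)) = _
  rw [Lb_symm_single, map_smul, smul_eq_mul]

/-- the integrand in the oriented chart -/
theorem Dt_ech {i : Fin G.n} {f : Fin 4 → M → ℝ} (hf : ∀ k, SmoothF E4 (f k)) {y : Rn 4}
    (hy : y ∈ (ech G F i).target) :
    Dt (ech G F i) f y = sb (ob G F i) *
      W (rep (G.p i) (wedG (dF (f 0)) (dF (f 1))) ((Lb (ob G F i)).symm y))
        (rep (G.p i) (wedG (dF (f 2)) (dF (f 3))) ((Lb (ob G F i)).symm y)) := by
  rw [W_four (fun k => rep1 (G.p i) (dF (f k)) ((Lb (ob G F i)).symm y)) (fun u v => rfl)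
    (fun u v => rfl), Dt_eq]
  have h1 : (Matrix.of fun a b => der (ech G F i) (f a) y b) =
      (Matrix.of fun a j => rep1 (G.p i) (dF (f a)) ((Lb (ob G F i)).symm y) (ee j)) *
        Matrix.diagonal (fun b => if b = 0 then sb (ob G F i) else 1) := by
    ext a b
    rw [Matrix.mul_diagonal]
    simp only [Matrix.of_apply]
    rw [der_ech (hf a) hy b, mul_comm]
  rw [h1, Matrix.det_mul, Matrix.det_diagonal, Fin.prod_univ_four]
  simp
  ring

/-- change of variables -/
theorem integral_target (i : Fin G.n) (g : Rn 4 → ℝ) :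
    ∫ y in (ech G F i).target, g y =
      ∫ z in chartAt E4 (G.p i) '' G.B i, g (Lb (ob G F i) z) := by
  have hme : MeasurableEmbedding (Lb (ob G F i)) :=
    (Lb (ob G F i)).toHomeomorph.measurableEmbedding
  rw [← (mp_Lb (ob G F i)).setIntegral_preimage_emb hme g (ech G F i).target]
  congr 2
  ext z
  rw [mem_preimage, mem_ech_target, ContinuousLinearEquiv.symm_apply_apply]

variable [MeasurableSpace M] [BorelSpace M]

theorem cont_of_smoothF {f : M → ℝ} (hf : SmoothF E4 f) : Continuous f :=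
  ((smoothF_iff f).2 hf).continuous

/-- one term -/
theorem term_eq (hF : Int.Vol F) {f : Fin 5 → M → ℝ} (hf : ∀ k, SmoothF E4 (f k))
    (i : Fin G.n) :
    OA.Jt (oaG G hF) f i = ∫ x, G.ψ i x * qG F
      (fmul (f 0) (wedG (dF (E := E4) (f 1)) (dF (f 2)))) (wedG (dF (f 3)) (dF (f 4))) x
      ∂(Int.mu F) := by
  have hb : Smooth2 (fmul (f 0) (wedG (dF (f 1)) (dF (f 2)))) :=
    Smooth2.fmul (hf 0) (Smooth2.wed (Smooth1.dF (hf 1)) (Smooth1.dF (hf 2)))
  have hc : Smooth2 (wedG (dF (f 3)) (dF (f 4))) :=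
    Smooth2.wed (Smooth1.dF (hf 3)) (Smooth1.dF (hf 4))
  set b : F2 E4 M := fmul (f 0) (wedG (dF (f 1)) (dF (f 2))) with hbd
  set c : F2 E4 M := wedG (dF (f 3)) (dF (f 4)) with hcd
  have hcont : Continuous fun x => G.ψ i x * qG F b c x :=
    (cont_of_smoothF (G.smooth i)).mul
      (Int.continuous_qG hF (Int.Smooth2.cont2 hb) (Int.Smooth2.cont2 hc))
  have hz : ∀ x, x ∉ G.B i → G.ψ i x = 0 := fun x hx =>
    image_eq_zero_of_notMem_tsupport fun h => hx (G.supp i h)
  rw [Int.integral_mu_of_supp hF (G.p i) hcont.aestronglyMeasurable fun x hx => by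
    rw [hz x fun h => hx (G.sub i h), zero_mul]]
  have hsub : chartAt E4 (G.p i) '' G.B i ⊆ (chartAt E4 (G.p i)).target :=
    G.image_subset_target subset_rfl
  have hR : ∫ y in (chartAt E4 (G.p i)).target, Int.dens F (G.p i) y •
      (G.ψ i ((chartAt E4 (G.p i)).symm y) * qG F b c ((chartAt E4 (G.p i)).symm y)) =
      ∫ y in chartAt E4 (G.p i) '' G.B i, Int.dens F (G.p i) y •
      (G.ψ i ((chartAt E4 (G.p i)).symm y) * qG F b c ((chartAt E4 (G.p i)).symm y)) := by
    refine (setIntegral_eq_of_subset_of_forall_sdiff_eq_zero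
      (chartAt E4 (G.p i)).open_target.measurableSet hsub fun y hy => ?_)
    rw [hz _ fun h => hy.2 ⟨_, h, (chartAt E4 (G.p i)).right_inv hy.1⟩, zero_mul, smul_zero]
  rw [hR]
  unfold OA.Jt
  have hL : ∫ y in ((oaG G hF).e i).target, (oaG G hF).θ i (((oaG G hF).e i).symm y) *
      Crest.Agent.R275.OAJ627.OA.W ((oaG G hF).e i) f y =
      ∫ y in (ech G F i).target, G.ψ i ((ech G F i).symm y) *
        (f 0 ((ech G F i).symm y) * Dt (ech G F i) (fun a => f a.succ) y) := rfl
  rw [hL, integral_target]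
  refine setIntegral_congr_fun (G.isOpen_image (G.isOpen i) subset_rfl).measurableSet
    fun y hy => ?_
  have hy0 := hsub hy
  have hyt : Lb (ob G F i) y ∈ (ech G F i).target := by
    rw [mem_ech_target, ContinuousLinearEquiv.symm_apply_apply]; exact hy
  have hsy : (ech G F i).symm (Lb (ob G F i) y) = (chartAt E4 (G.p i)).symm y := by
    rw [ech_symm_apply, ContinuousLinearEquiv.symm_apply_apply]
  show G.ψ i ((ech G F i).symm (Lb (ob G F i) y)) * (f 0 ((ech G F i).symm (Lb (ob G F i) y)) *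
    Dt (ech G F i) (fun a => f a.succ) (Lb (ob G F i) y)) = Int.dens F (G.p i) y •
      (G.ψ i ((chartAt E4 (G.p i)).symm y) * qG F b c ((chartAt E4 (G.p i)).symm y))
  rw [hsy, Dt_ech (fun k => hf k.succ) hyt, ContinuousLinearEquiv.symm_apply_apply,
    Int.qG_chart hF hb.1 hc.1 hy0, smul_eq_mul]
  have h1 := Int.dens_mul_q hF hy0 (rep (G.p i) b y) (rep (G.p i) c y)
  have h2 : Int.sg F (G.p i) y = sb (ob G F i) := by
    have h3 := W_pos hF i hy
    unfold Int.sg
    cases hbb : ob G F i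
    · rw [hbb] at h3
      simp only [sb, Bool.false_eq_true, if_false, one_mul] at h3 ⊢
      rw [sign_pos h3]; simp
    · rw [hbb] at h3
      simp only [sb, if_true] at h3 ⊢
      rw [sign_neg (by linarith)]; simp
  have h4 : rep (G.p i) b y = f 0 ((chartAt E4 (G.p i)).symm y) •
      rep (G.p i) (wedG (dF (f 1)) (dF (f 2))) y := rfl
  rw [h2] at h1
  have h5 : Int.dens F (G.p i) y * (G.ψ i ((chartAt E4 (G.p i)).symm y) *
      q (rep (G.p i) F y) (rep (G.p i) b y) (rep (G.p i) c y)) =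
      G.ψ i ((chartAt E4 (G.p i)).symm y) * (Int.dens F (G.p i) y *
      q (rep (G.p i) F y) (rep (G.p i) b y) (rep (G.p i) c y)) := by ring
  rw [h5, h1, h4, W_smul_left]
  show _ * (_ * (sb (ob G F i) * W (rep (G.p i) (wedG (dF (f 1)) (dF (f 2))) y)
    (rep (G.p i) (wedG (dF (f 3)) (dF (f 4))) y))) = _
  ring

/-- **the dictionary** `∫ f0 df1 df2 df3 df4`. -/
theorem jf_eq (hF : Int.Vol F) {f : Fin 5 → M → ℝ} (hf : ∀ k, SmoothF E4 (f k)) :
    OA.Jf (oaG G hF) f = Int.I F (fmul (f 0) (wedG (dF (f 1)) (dF (f 2))))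
      (wedG (dF (f 3)) (dF (f 4))) := by
  have hb : Smooth2 (fmul (f 0) (wedG (dF (f 1)) (dF (f 2)))) :=
    Smooth2.fmul (hf 0) (Smooth2.wed (Smooth1.dF (hf 1)) (Smooth1.dF (hf 2)))
  have hc : Smooth2 (wedG (dF (f 3)) (dF (f 4))) :=
    Smooth2.wed (Smooth1.dF (hf 3)) (Smooth1.dF (hf 4))
  have h1 : OA.Jf (oaG G hF) f = ∑ i : Fin G.n, OA.Jt (oaG G hF) f i :=
    finsum_eq_sum_of_fintype (fun i : Fin G.n => OA.Jt (oaG G hF) f i)
  rw [h1]
  simp only [term_eq hF hf]
  have hint : ∀ i ∈ (Finset.univ : Finset (Fin G.n)), Integrable (fun x => G.ψ i x * qG F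
      (fmul (f 0) (wedG (dF (E := E4) (f 1)) (dF (f 2)))) (wedG (dF (f 3)) (dF (f 4))) x)
      (Int.mu F) := fun i _ => Int.integrable_of_cont hF
    ((cont_of_smoothF (G.smooth i)).mul
      (Int.continuous_qG hF (Int.Smooth2.cont2 hb) (Int.Smooth2.cont2 hc)))
  rw [← integral_finsetSum _ hint]
  unfold Int.I
  congr 1
  funext x
  rw [← Finset.sum_mul, G.sum x, one_mul]

/-- `Tau_692.PUn` of a good cover. -/
theorem pun (G : RGC M) : PUn E4 G.B G.ψ where
  op := G.isOpen
  sm := G.smooth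
  supp := G.supp
  sum := G.sum

/-- **LINK over a good cover**: the wedge pairing in terms of `J`. -/
theorem I_tau_J (G : RGC M) (hF : Int.Vol F) (c : Fin G.n → Fin G.n → Fin G.n → ℝ)
    {c' : Fin G.n → Fin G.n → Fin G.n → ℝ} (hc' : Coc G.B c') :
    Int.I F (tau (E := E4) G.ψ c) (tau (E := E4) G.ψ c') =
      ∑ i, ∑ j, ∑ k, ∑ l, ∑ m, c i j k * c' k l m *
        OA.Jf (oaG G hF) ![G.ψ i, G.ψ j, G.ψ k, G.ψ l, G.ψ m] := by
  rw [I_tau (pun G) hF c hc']
  refine Finset.sum_congr rfl fun i _ => Finset.sum_congr rfl fun j _ =>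
    Finset.sum_congr rfl fun k _ => Finset.sum_congr rfl fun l _ =>
    Finset.sum_congr rfl fun m _ => ?_
  rw [jf_eq hF (f := ![G.ψ i, G.ψ j, G.ψ k, G.ψ l, G.ψ m]) (by
    intro k; fin_cases k <;> exact G.smooth _)]
  rfl

end Charts

end

end Crest.Agent.R235.JD_692
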