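import Crest.Agent.R235.K12Defs_417

/-! Row 235, K12 (helper417): the Pfaffian inequalities `algq : ALGQ`, `algi : ALGI`. -/

set_option autoImplicit false

open Set Function Filter

namespace Crest.Agent.R235.K12_417

/-- a positive definite binary form. -/
theorem bin_pos {P Q k t s : ℝ} (hP : 0 < P) (hQ : Q ^ 2 < 4 * k * P) (h : t ≠ 0 ∨ s ≠ 0) :
    0 < P * t ^ 2 - Q * t * s + k * s ^ 2 := by
  have h1 : P * (P * t ^ 2 - Q * t * s + k * s ^ 2) =
      (P * t - Q * s / 2) ^ 2 + (4 * k * P - Q ^ 2) / 4 * s ^ 2 := by ring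
  have h2 : 0 < (P * t - Q * s / 2) ^ 2 + (4 * k * P - Q ^ 2) / 4 * s ^ 2 := by
    by_cases hs : s = 0
    · have ht : t ≠ 0 := by
        rcases h with h | h
        · exact h
        · exact absurd hs h
      subst hs
      have : 0 < (P * t) ^ 2 := by positivity
      nlinarith
    · have : 0 < s ^ 2 := by positivity
      have h3 : 0 < (4 * k * P - Q ^ 2) / 4 * s ^ 2 := mul_pos (by linarith) this
      nlinarith [sq_nonneg (P * t - Q * s / 2)]
  rw [← h1] at h2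
  exact (mul_pos_iff_of_pos_left hP).1 h2

theorem abs_lin {x y a b B : ℝ} (ha : |a| ≤ B) (hb : |b| ≤ B) :
    |x * a + y * b| ≤ B * (|x| + |y|) := by
  calc |x * a + y * b| ≤ |x * a| + |y * b| := abs_add_le _ _
    _ = |x| * |a| + |y| * |b| := by rw [abs_mul, abs_mul]
    _ ≤ |x| * B + |y| * B := by gcongr
    _ = B * (|x| + |y|) := by ring

theorem abs_mul_le' {x y X Y : ℝ} (hx : |x| ≤ X) (hy : |y| ≤ Y) : -(X * Y) ≤ x * y := by
  have h1 : |x * y| ≤ X * Y := by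
    rw [abs_mul]
    exact mul_le_mul hx hy (abs_nonneg _) ((abs_nonneg _).trans hx)
  exact (abs_le.1 h1).1

theorem sq_sum_le (a b : ℝ) : (|a| + |b|) ^ 2 ≤ 2 * (a ^ 2 + b ^ 2) := by
  have h1 : a ^ 2 = |a| ^ 2 := (sq_abs a).symm
  have h2 : b ^ 2 = |b| ^ 2 := (sq_abs b).symm
  rw [h1, h2]
  nlinarith [sq_nonneg (|a| - |b|)]

theorem algq : ALGQ := by
  intro κ a b m B e₁ e₂ E hκ ha hb h01 h23 m1 m2 m3 m4 p1 p2 q1 q2 B1 B2 B3 B4 B5 B6 B7 B8 hdet
    he hQ c hc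
  have hm : 0 ≤ m := (abs_nonneg _).trans m1
  have hB : 0 ≤ B := (abs_nonneg _).trans B1
  have he1 : 0 ≤ e₁ := (abs_nonneg _).trans p1
  have he2 : 0 ≤ e₂ := (abs_nonneg _).trans q1
  have hd := hdet (c 1) (c 2)
  simp only [detE] at hd
  simp only [pfE, Fin.sum_univ_three, h01, h23]
  set x := c 0
  set y := c 1
  set w := c 2
  set s := |y| + |w| with hs
  have hs0 : 0 ≤ s := by positivity
  have b1 := abs_lin (x := y) (y := w) p1 p2
  have b2 := abs_lin (x := y) (y := w) q1 q2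
  have n02 := abs_lin (x := y) (y := w) B1 B5
  have n03 := abs_lin (x := y) (y := w) B2 B6
  have n12 := abs_lin (x := y) (y := w) B3 B7
  have n13 := abs_lin (x := y) (y := w) B4 B8
  rw [← hs] at b1 b2 n02 n03 n12 n13
  set ε := y * E 1 0 1 + w * E 2 0 1
  set δ := y * E 1 2 3 + w * E 2 2 3
  set N02 := y * E 1 0 2 + w * E 2 0 2
  set N03 := y * E 1 0 3 + w * E 2 0 3
  set N12 := y * E 1 1 2 + w * E 2 1 2
  set N13 := y * E 1 1 3 + w * E 2 1 3
  have hx : |x| = |x| := rfl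
  -- the diagonal part
  have d1 : -(|x| * (a * (e₂ * s))) ≤ -(x * (a * δ)) := by
    have := abs_mul_le' (x := x) (y := -(a * δ)) (X := |x|) (Y := a * (e₂ * s)) le_rfl
      (by rw [abs_neg, abs_mul, abs_of_pos ha]; gcongr)
    linarith
  have d2 : -(|x| * (b * (e₁ * s))) ≤ x * (b * ε) := by
    have := abs_mul_le' (x := x) (y := b * ε) (X := |x|) (Y := b * (e₁ * s)) le_rfl
      (by rw [abs_mul, abs_of_pos hb]; gcongr)
    linarith
  have d3 : -((e₁ * s) * (e₂ * s)) ≤ -(ε * δ) := by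
    have := abs_mul_le' (x := ε) (y := -δ) (Y := e₂ * s) b1 (by rw [abs_neg]; exact b2)
    linarith
  -- the mixed part
  have k1 : -(m * m) ≤ E 0 0 2 * E 0 1 3 := abs_mul_le' m1 m4
  have k2 : -(m * m) ≤ -(E 0 0 3) * E 0 1 2 := abs_mul_le' (by rw [abs_neg]; exact m2) m3
  have l1 : -(|x| * (m * (B * s))) ≤ x * (E 0 0 2 * N13) :=
    abs_mul_le' le_rfl (by rw [abs_mul]; gcongr)
  have l2 : -(|x| * ((B * s) * m)) ≤ x * (N02 * E 0 1 3) :=
    abs_mul_le' le_rfl (by rw [abs_mul]; gcongr)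
  have l3 : -(|x| * (m * (B * s))) ≤ x * (-(E 0 0 3 * N12)) :=
    abs_mul_le' le_rfl (by rw [abs_neg, abs_mul]; gcongr)
  have l4 : -(|x| * ((B * s) * m)) ≤ x * (-(N03 * E 0 1 2)) :=
    abs_mul_le' le_rfl (by rw [abs_neg, abs_mul]; gcongr)
  have hss : s ^ 2 ≤ 2 * (y ^ 2 + w ^ 2) := sq_sum_le y w
  have hne : |x| ≠ 0 ∨ s ≠ 0 := by
    by_contra hcon
    rw [not_or, not_not, not_not] at hcon
    apply hc
    have hx0 : x = 0 := abs_eq_zero.1 hcon.1
    have h1 := abs_nonneg y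
    have h2 := abs_nonneg w
    have h3 : |y| + |w| = 0 := hcon.2
    have hy0 : y = 0 := abs_eq_zero.1 (by linarith)
    have hw0 : w = 0 := abs_eq_zero.1 (by linarith)
    funext i
    fin_cases i
    · exact hx0
    · exact hy0
    · exact hw0
  have hP : 0 < a * b - 2 * m ^ 2 := by
    by_contra hcon
    have h1 : κ * (a * b - 2 * m ^ 2) ≤ 0 :=
      mul_nonpos_of_nonneg_of_nonpos hκ.le (not_lt.1 hcon)
    have h2 := sq_nonneg (a * e₂ + b * e₁ + 4 * (m * B))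
    linarith
  have hmain := bin_pos (P := a * b - 2 * m ^ 2) (Q := a * e₂ + b * e₁ + 4 * (m * B)) (k := κ / 4)
    (t := |x|) (s := s) hP (by
      have : 4 * (κ / 4) * (a * b - 2 * m ^ 2) = κ * (a * b - 2 * m ^ 2) := by ring
      rw [this]; exact hQ) hne
  have hx2 : |x| ^ 2 = x ^ 2 := sq_abs x
  rw [hx2] at hmain
  have hes : (e₁ * s) * (e₂ * s) ≤ κ / 4 * s ^ 2 := by
    have h1 : (e₁ * s) * (e₂ * s) = (e₁ * e₂) * s ^ 2 := by ring
    rw [h1]
    exact mul_le_mul_of_nonneg_right (by linarith) (sq_nonneg s)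
  have hk : κ / 2 * s ^ 2 ≤ κ * (y ^ 2 + w ^ 2) := by
    have := mul_le_mul_of_nonneg_left hss hκ.le
    linarith
  have k3 : -(2 * m ^ 2 * x ^ 2) ≤ x ^ 2 * (E 0 0 2 * E 0 1 3 - E 0 0 3 * E 0 1 2) := by
    have h1 : -(2 * m ^ 2) ≤ E 0 0 2 * E 0 1 3 - E 0 0 3 * E 0 1 2 := by linarith
    have h2 := mul_le_mul_of_nonneg_left h1 (sq_nonneg x)
    linarith
  have hd' : κ * (y ^ 2 + w ^ 2) ≤ N02 * N13 - N03 * N12 := hd
  have key : (x * a + y * E 1 0 1 + w * E 2 0 1) * (x * -b + y * E 1 2 3 + w * E 2 2 3) -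
      (x * E 0 0 2 + y * E 1 0 2 + w * E 2 0 2) * (x * E 0 1 3 + y * E 1 1 3 + w * E 2 1 3) +
      (x * E 0 0 3 + y * E 1 0 3 + w * E 2 0 3) * (x * E 0 1 2 + y * E 1 1 2 + w * E 2 1 2) =
      -(x ^ 2 * (a * b)) + x * (a * δ) - x * (b * ε) + ε * δ
      - x ^ 2 * (E 0 0 2 * E 0 1 3 - E 0 0 3 * E 0 1 2)
      - x * (E 0 0 2 * N13) - x * (N02 * E 0 1 3) - x * (-(E 0 0 3 * N12))
      - x * (-(N03 * E 0 1 2)) - (N02 * N13 - N03 * N12) := by ring
  rw [key]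
  linarith

theorem algi : ALGI := by
  intro κ α C A L e₁ E hκ hα hA hL he h01 h23 p1 p2 hpf hA1 hA2 hL1 c hc
  have h := hpf c
  simp only [pfE, Fin.sum_univ_three] at h ⊢
  simp only [Fin.isValue, and_self, and_true, and_false, ite_true, ite_false,
    Fin.reduceEq, sub_zero]
  have hC : 0 ≤ C := (abs_nonneg _).trans (h23 0)
  set x := c 0
  set y := c 1
  set w := c 2
  set s := |y| + |w| with hs
  have hs0 : 0 ≤ s := by positivity
  have b1 := abs_lin (x := y) (y := w) p1 p2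
  rw [← hs] at b1
  have b2 : |x * E 0 2 3 + y * E 1 2 3 + w * E 2 2 3| ≤ C * (|x| + s) := by
    have h1 := abs_lin (x := y) (y := w) (h23 1) (h23 2)
    have h2 : |x * E 0 2 3| ≤ |x| * C := by
      rw [abs_mul]; exact mul_le_mul_of_nonneg_left (h23 0) (abs_nonneg x)
    have h3 : x * E 0 2 3 + y * E 1 2 3 + w * E 2 2 3 =
      x * E 0 2 3 + (y * E 1 2 3 + w * E 2 2 3) := by ring
    rw [h3]
    have h4 := abs_add_le (x * E 0 2 3) (y * E 1 2 3 + w * E 2 2 3)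
    rw [← hs] at h1
    linarith
  have hss : s ^ 2 ≤ 2 * (y ^ 2 + w ^ 2) := sq_sum_le y w
  set a := E 0 0 1
  set ε := y * E 1 0 1 + w * E 2 0 1
  set S := x * E 0 2 3 + y * E 1 2 3 + w * E 2 2 3
  have hx0 : 0 ≤ |x| := abs_nonneg x
  have hx2 : |x| ^ 2 = x ^ 2 := sq_abs x
  -- the three error terms
  have t1 : -(|x| * A * (C * (|x| + s))) ≤ (x * A) * S := by
    refine abs_mul_le' ?_ b2
    rw [abs_mul, abs_of_nonneg hA]
  have t2 : -(|x| * L * (e₁ * s)) ≤ (x * L) * ε := by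
    refine abs_mul_le' ?_ b1
    rw [abs_mul, abs_of_nonneg hL]
  have hpos : 0 < x ^ 2 + y ^ 2 + w ^ 2 := by
    by_contra hcon
    apply hc
    have h1 := sq_nonneg x
    have h2 := sq_nonneg y
    have h3 := sq_nonneg w
    have hx : x = 0 := pow_eq_zero_iff (two_ne_zero) |>.1 (by linarith)
    have hy : y = 0 := pow_eq_zero_iff (two_ne_zero) |>.1 (by linarith)
    have hw : w = 0 := pow_eq_zero_iff (two_ne_zero) |>.1 (by linarith)
    funext i
    fin_cases i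
    · exact hx
    · exact hy
    · exact hw
  have u1 : |x| * A * (C * (|x| + s)) ≤ κ / 16 * (2 * (x ^ 2 + 2 * (y ^ 2 + w ^ 2))) := by
    have h1 : |x| * (|x| + s) ≤ 2 * |x| ^ 2 + s ^ 2 := by
      clear * -
      nlinarith [sq_nonneg (|x| - s), sq_nonneg |x|, sq_nonneg s]
    have h2 : |x| * (|x| + s) ≤ 2 * (x ^ 2 + 2 * (y ^ 2 + w ^ 2)) := by
      rw [hx2] at h1
      have := sq_nonneg y
      have := sq_nonneg w
      linarith
    have h3 : A * C ≤ κ / 16 := by linarith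
    have h4 : 0 ≤ |x| * (|x| + s) := by positivity
    calc |x| * A * (C * (|x| + s)) = (A * C) * (|x| * (|x| + s)) := by ring
      _ ≤ κ / 16 * (|x| * (|x| + s)) := mul_le_mul_of_nonneg_right h3 h4
      _ ≤ _ := mul_le_mul_of_nonneg_left h2 (by positivity)
  have u2 : |x| * L * (e₁ * s) ≤ L * x ^ 2 * (α / 2) + κ / 16 * s ^ 2 := by
    -- 2 |x| √.. ≤ ..
    have h1 : 0 ≤ (α * |x| - e₁ * s) ^ 2 := sq_nonneg _
    have h2 : 2 * α * (|x| * (e₁ * s)) ≤ α ^ 2 * x ^ 2 + e₁ ^ 2 * s ^ 2 := by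
      rw [← hx2]; linarith
    have h3 : L * (2 * α * (|x| * (e₁ * s))) ≤ L * (α ^ 2 * x ^ 2 + e₁ ^ 2 * s ^ 2) :=
      mul_le_mul_of_nonneg_left h2 hL
    have h4 : (L * e₁ ^ 2) * s ^ 2 ≤ κ * α / 16 * s ^ 2 :=
      mul_le_mul_of_nonneg_right (by linarith) (sq_nonneg s)
    have h5 : α * (2 * (|x| * L * (e₁ * s))) ≤ α * (2 * (L * x ^ 2 * (α / 2)) + κ / 16 * s ^ 2) := by
      clear * - h3 h4
      linarith
    have h6 := le_of_mul_le_mul_left h5 hα
    have h7 : 0 ≤ κ / 16 * s ^ 2 := by positivity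
    clear * - h6 h7
    linarith
  have u3 : α / 2 * (L * x ^ 2) ≤ (a - A) * (L * x ^ 2) := by
    have h1 : 0 ≤ L * x ^ 2 := by positivity
    exact mul_le_mul_of_nonneg_right (by linarith) h1
  have key : (x * a + y * E 1 0 1 + w * E 2 0 1 - x * A) *
      (x * E 0 2 3 + y * E 1 2 3 + w * E 2 2 3 - x * L) -
      (x * E 0 0 2 + y * E 1 0 2 + w * E 2 0 2) * (x * E 0 1 3 + y * E 1 1 3 + w * E 2 1 3) +
      (x * E 0 0 3 + y * E 1 0 3 + w * E 2 0 3) * (x * E 0 1 2 + y * E 1 1 2 + w * E 2 1 2) =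
      ((x * a + y * E 1 0 1 + w * E 2 0 1) * (x * E 0 2 3 + y * E 1 2 3 + w * E 2 2 3) -
      (x * E 0 0 2 + y * E 1 0 2 + w * E 2 0 2) * (x * E 0 1 3 + y * E 1 1 3 + w * E 2 1 3) +
      (x * E 0 0 3 + y * E 1 0 3 + w * E 2 0 3) * (x * E 0 1 2 + y * E 1 1 2 + w * E 2 1 2))
      - (x * A) * S - (a - A) * (L * x ^ 2) - (x * L) * ε := by ring
  rw [key]
  have hss' : κ / 16 * s ^ 2 ≤ κ / 16 * (2 * (y ^ 2 + w ^ 2)) :=
    mul_le_mul_of_nonneg_left hss (by positivity)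
  have hfin : 0 < κ * (x ^ 2 + y ^ 2 + w ^ 2) := by positivity
  have hy2 : 0 ≤ κ * y ^ 2 := by positivity
  have hw2 : 0 ≤ κ * w ^ 2 := by positivity
  have hx2' : 0 ≤ κ * x ^ 2 := by positivity
  linarith

end Crest.Agent.R235.K12_417
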