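import Crest.Agent.R235.K12Defs_417

/-!
Row 235 (S0364), block K12, analytic assembly (helper776): DEFINITIONS AND LEAF PROPS over
`K12Defs_417`.

* `PB1`, `PB2` : pull-back by the retraction `Pi`; `l3 = |p|² ψ`, `ar` = area form of the base;
* `Prof g c K t₀` : a radial profile, `g t = c + K t²/2` for `t ≤ t₀`;
* `FG g c K t₀` : the smooth closed two-form `- d(g(|p|) ψ)` on `OS r` (entries `01 ↦ g`,
  `23 ↦ - g'/|p|`, mixed `0`);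
* `ONE` : the one-sphere theorem; `STDL` : `ONE ⇒ K12`.
-/

set_option autoImplicit false
set_option maxSynthPendingDepth 3

open Set Function Filter MeasureTheory
open scoped Manifold ContDiff Topology RealInnerProductSpace

universe u

namespace Crest.Agent.R235.K12An_776

open Crest.Agent.R240 Crest.Agent.R240.Ch Crest.Agent.R235 Crest.Agent.R235.K12_417

noncomputable section

/-! ### pull-back by the retraction -/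

/-- pull-back of a one-form by `Pi`. -/
def PB1 (β : E6 → E6 →L[ℝ] ℝ) (z : E6) : E6 →L[ℝ] ℝ := (β (Pi z)).comp (fderiv ℝ Pi z)

/-- pull-back of a two-form by `Pi`. -/
def PB2 (b : E6 → B6) (z : E6) : B6 := PB_604.pl (fderiv ℝ Pi z) (b (Pi z))

/-- `(q × p) · dp = |p|² ψ`. -/
def l3 (z : E6) : E6 →L[ℝ] ℝ := (innerSL ℝ (cr z.1 z.2)).comp (ContinuousLinearMap.snd ℝ E3 E3)

/-- the coordinate differentials `dq i`. -/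
def dq (i : Fin 3) : E6 →L[ℝ] ℝ :=
  (EuclideanSpace.proj i : E3 →L[ℝ] ℝ).comp (ContinuousLinearMap.fst ℝ E3 E3)

/-- `a ∧ b` for constant one-forms. -/
def wd (a b : E6 →L[ℝ] ℝ) : B6 := a.smulRight b - b.smulRight a

/-- the area form of the base, `ar z U V = ⟪q, U.1 × V.1⟫`. -/
def ar (z : E6) : B6 :=
  z.1 0 • wd (dq 1) (dq 2) + z.1 1 • wd (dq 2) (dq 0) + z.1 2 • wd (dq 0) (dq 1)

/-- the radius in the fibre. -/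
def rho (z : E6) : ℝ := ‖(Pi z).2‖

/-! ### radial profiles -/

/-- a radial profile: smooth and `c + K t²/2` near `0`. -/
structure Prof (g : ℝ → ℝ) (c K t₀ : ℝ) : Prop where
  smooth : ContDiff ℝ ∞ g
  pos : 0 < t₀
  eq : ∀ t ≤ t₀, g t = c + K * t ^ 2 / 2

open Classical in
/-- `(g t - c) / t²`, extended by `K/2`. -/
def kf (g : ℝ → ℝ) (c K t₀ t : ℝ) : ℝ := if t ≤ t₀ then K / 2 else (g t - c) / t ^ 2

/-- the smooth closed two-form `- d (g(|p|) ψ)`. -/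
def FG (g : ℝ → ℝ) (c K t₀ : ℝ) (z : E6) : B6 :=
  d1 (fun y => (- kf g c K t₀ (rho y)) • PB1 l3 y) z + c • PB2 ar z

/-- the value of `g' t / t`, with `K` at `0`. -/
def gd (g : ℝ → ℝ) (K t : ℝ) : ℝ := if t = 0 then K else deriv g t / t

/-! ### leaves -/

/-- LEAF GEO: the retraction. -/
structure GEO : Prop where
  Pi_TS : ∀ (r : ℝ) (z : E6), z ∈ TS r → Pi z = z
  Pi_mem : ∀ (r : ℝ) (z : E6), z ∈ OS r → Pi z ∈ TS r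
  TS_sub : ∀ r : ℝ, TS r ⊆ OS r
  open_OS : ∀ r : ℝ, IsOpen (OS r)
  smooth : ContDiffOn ℝ ∞ Pi {z | z.1 ≠ 0}
  fix : ∀ (r : ℝ) (z : E6) (e : E3), z ∈ TS r → IsFr z.1 e → ∀ i,
    fderiv ℝ Pi z (X z e i) = X z e i
  fixh : ∀ q u : E3, ‖q‖ = 1 → ⟪q, u⟫ = 0 → fderiv ℝ Pi ((q, 0) : E6) (u, 0) = (u, 0)
  fixv : ∀ q u : E3, ‖q‖ = 1 → ⟪q, u⟫ = 0 → fderiv ℝ Pi ((q, 0) : E6) (0, u) = (0, u)
  bas1 : ∀ (r : ℝ) (β : E6 → E6 →L[ℝ] ℝ), (∀ z ∈ OS r, ContDiffAt ℝ ∞ β (Pi z)) →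
    Bas1 r (PB1 β)
  d1PB : ∀ (r : ℝ) (β : E6 → E6 →L[ℝ] ℝ) (z : E6), z ∈ OS r → DifferentiableAt ℝ β (Pi z) →
    d1 (PB1 β) z = PB_604.pl (fderiv ℝ Pi z) (d1 β (Pi z))
  basd : ∀ (r : ℝ) (β : E6 → E6 →L[ℝ] ℝ), Bas1 r β → Bas r (d1 β)
  bas2 : ∀ (r : ℝ) (b : E6 → B6), (∀ z ∈ OS r, ContDiffAt ℝ ∞ b (Pi z)) →
    (∀ z ∈ TS r, ∀ U V : E6, b z U V = - b z V U) →
    (∀ z ∈ OS r, ∀ U V Y : E6, dd b (Pi z) (fderiv ℝ Pi z U) (fderiv ℝ Pi z V)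
      (fderiv ℝ Pi z Y) = 0) → Bas r (PB2 b)
  en_PB1 : ∀ (r : ℝ) (β : E6 → E6 →L[ℝ] ℝ) (z : E6) (e : E3), z ∈ TS r → IsFr z.1 e → ∀ i,
    PB1 β z (X z e i) = β z (X z e i)
  en_PB2 : ∀ (r : ℝ) (b : E6 → B6) (z : E6) (e : E3), z ∈ TS r → IsFr z.1 e → ∀ i j,
    en (PB2 b z) z e i j = en (b z) z e i j

/-- LEAF FGL: the form `FG`. -/
structure FGL : Prop where
  bas : ∀ (r : ℝ) (g : ℝ → ℝ) (c K t₀ : ℝ), Prof g c K t₀ → Bas r (FG g c K t₀)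
  e : ∀ (r : ℝ) (g : ℝ → ℝ) (c K t₀ : ℝ), Prof g c K t₀ → ∀ (z : E6) (e : E3), z ∈ TS r →
    IsFr z.1 e → ∀ i j, en (FG g c K t₀ z) z e i j =
      if i = 0 ∧ j = 1 then g ‖z.2‖ else if i = 1 ∧ j = 0 then - g ‖z.2‖
      else if i = 2 ∧ j = 3 then - gd g K ‖z.2‖
      else if i = 3 ∧ j = 2 then gd g K ‖z.2‖ else 0
  /-- additivity -/
  add : ∀ (r : ℝ) (g g' : ℝ → ℝ) (c K t₀ c' K' t₀' : ℝ), Prof g c K t₀ → Prof g' c' K' t₀' →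
    ∀ (t : ℝ) (t₁ : ℝ), 0 < t₁ → t₁ ≤ t₀ → t₁ ≤ t₀' → ∀ z ∈ OS r,
      FG (fun x => g x + t * g' x) (c + t * c') (K + t * K') t₁ z =
        FG g c K t₀ z + t • FG g' c' K' t₀' z
  /-- locality -/
  congr : ∀ (r : ℝ) (g g' : ℝ → ℝ) (c K t₀ t₀' : ℝ), Prof g c K t₀ → Prof g' c K t₀' →
    ∀ (ρ : ℝ), (∀ t < ρ, g t = g' t) → ∀ z ∈ OS r, rho z < ρ →
      FG g c K t₀ z = FG g' c K t₀' z
  /-- support -/
  supp : ∀ (r : ℝ) (g : ℝ → ℝ) (c K t₀ : ℝ), Prof g c K t₀ → ∀ ρ : ℝ, (∀ t, ρ ≤ t → g t = 0) →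
    ∀ z ∈ OS r, ρ ≤ rho z → FG g c K t₀ z = 0

/-- LEAF BUMP: the profile of the bump. -/
def BUMP : Prop :=
  ∃ C : ℝ, 0 < C ∧ ∀ (A s : ℝ), 0 < A → 0 < s → ∃ (h : ℝ → ℝ) (K t₀ : ℝ),
    Prof h (-A) K t₀ ∧ t₀ < s ∧ A / s ^ 2 ≤ K ∧ (∀ t, 0 ≤ t → -A ≤ h t ∧ h t ≤ 0) ∧
    (∀ t, s ≤ t → h t = 0) ∧ (∀ t, 0 ≤ t → 0 ≤ deriv h t ∧ t * deriv h t ≤ C * A)

/-- LEAF LIP: entries of a smooth form, uniform bounds on the disc bundle. -/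
def LIP : Prop :=
  ∀ (r r' : ℝ) (W : E6 → B6), 0 < r' → r' < r → ContDiffOn ℝ ∞ W (OS r) →
    ∃ C : ℝ, 0 < C ∧ ∀ (z : E6) (e : E3), z ∈ TS r → ‖z.2‖ ≤ r' → IsFr z.1 e → ∀ i j,
      |en (W z) z e i j| ≤ C ∧ |en (W z) z e i j - en (W (z.1, 0)) (z.1, 0) e i j| ≤ C * ‖z.2‖

/-! ### on the manifold -/

section Closed

variable {M : Type u} [TopologicalSpace M] [T2Space M] [CompactSpace M]
  [ChartedSpace E4 M] [IsManifold 𝓘(ℝ, E4) ∞ M]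

/-- `Om` of a form. -/
abbrev Om (Ps : E6 → M) (a : Z2 M) : E6 → B6 := P2 Ps (a.1.1 : F2 E4 M)

variable (M) in
/-- LEAF EXT2: extension by zero of a basic closed two-form; pull-backs are basic. -/
structure EXT2 : Prop where
  ext : ∀ (σ : E3 → M) (r : ℝ) (Ps : E6 → M) (G : M → E6) (U : Set M), Tube σ r Ps G U →
    ∀ (W : E6 → B6) (r' : ℝ), r' < r → Bas r W → (∀ z ∈ TS r, r' ≤ ‖z.2‖ → W z = 0) →
      ∃ a : Z2 M, (∀ x, (∀ z ∈ TS r, ‖z.2‖ ≤ r' → x ≠ Ps z) → val a x = 0) ∧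
        ∀ z ∈ OS r, Om Ps a z = W z
  bas : ∀ (σ : E3 → M) (r : ℝ) (Ps : E6 → M) (G : M → E6) (U : Set M), Tube σ r Ps G U →
    ∀ a : Z2 M, Bas r (Om Ps a)

variable (M) in
/-- LEAF PFIFF: a form is degenerate at a point of the tube iff its Pfaffian vanishes. -/
def PFIFF : Prop :=
  ∀ (σ : E3 → M) (r : ℝ) (Ps : E6 → M) (G : M → E6) (U : Set M), Tube σ r Ps G U →
    ∀ (a : Z2 M) (z : E6) (e : E3), z ∈ TS r → IsFr z.1 e →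
      (W (val a (Ps z)) (val a (Ps z)) = 0 ↔ pf (Om Ps a z) z e = 0)

variable (M) in
/-- LEAF ZERO: the zero section. `f` is the area density of `w 0` on the sphere; all entries at
the zero section. -/
def ZERO : Prop :=
  ∀ (w : Trip M), Pos3 w → ∀ σ : E3 → M, EmbS σ →
    0 < sphI σ ((w 0).1.1 : F2 E4 M) →
    ∀ (r : ℝ) (Ps : E6 → M) (G : M → E6) (U : Set M), Tube σ r Ps G U → Jet w Ps →
    ∃ f : E3 → ℝ, Hom0 f ∧ (∀ q, q ≠ 0 → 0 < f q) ∧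
      (∀ q u v : E3, ‖q‖ = 1 → ⟪q, u⟫ = 0 → ⟪q, v⟫ = 0 →
        Om Ps (w 0) (q, 0) (u, 0) (v, 0) = f q * ⟪q, cr u v⟫) ∧
      (∀ q e : E3, IsFr q e →
        en (Om Ps (w 0) (q, 0)) (q, 0) e 0 1 = f q ∧
        en (Om Ps (w 1) (q, 0)) (q, 0) e 0 1 = 0 ∧ en (Om Ps (w 1) (q, 0)) (q, 0) e 2 3 = 0 ∧
        en (Om Ps (w 1) (q, 0)) (q, 0) e 0 2 = -1 ∧ en (Om Ps (w 1) (q, 0)) (q, 0) e 1 3 = -1 ∧
        en (Om Ps (w 1) (q, 0)) (q, 0) e 0 3 = 0 ∧ en (Om Ps (w 1) (q, 0)) (q, 0) e 1 2 = 0 ∧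
        en (Om Ps (w 2) (q, 0)) (q, 0) e 0 1 = 0 ∧ en (Om Ps (w 2) (q, 0)) (q, 0) e 2 3 = 0)

/-- output of the one-sphere theorem: `w'` is standard near the sphere `σ`. -/
structure Out1 (w' : Trip M) (σ : E3 → M) (O : Set M) (r : ℝ) (Ps : E6 → M) (G : M → E6)
    (U : Set M) (ρ s : ℝ) (g : ℝ → ℝ) (c K t₀ t₁ : ℝ) : Prop where
  tube : Tube σ r Ps G U
  sub : U ⊆ O
  ρ_pos : 0 < ρ
  ρ_lt : ρ < r
  sgn : s = 1 ∨ s = -1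
  one : ∀ z ∈ OS ρ, Om Ps (w' 1) z = d1 (PB1 l1) z
  two : ∀ z ∈ OS ρ, Om Ps (w' 2) z = s • d1 (PB1 l2) z
  prof : Prof g c K t₀
  c_pos : 0 < c
  K_pos : 0 < K
  g_pos : ∀ t, 0 ≤ t → t < ρ → 0 < g t
  g_deriv : ∀ t, 0 < t → t < ρ → 0 < deriv g t
  t_pos : 0 < t₁
  t_lt : t₁ < ρ
  flat : ∀ t, t₁ ≤ t → t < ρ → g t = t
  zero : ∀ z ∈ OS ρ, Om Ps (w' 0) z = FG g c K t₀ z

variable (M) in
/-- the ONE-SPHERE THEOREM. -/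
def ONE : Prop :=
  ∀ (w : Trip M), Pos3 w → ∀ σ : E3 → M, EmbS σ →
    (∀ y u v : E3, ‖y‖ = 1 → val (w 1) (σ y) (dmap σ y u) (dmap σ y v) = 0) →
    (∀ y u v : E3, ‖y‖ = 1 → val (w 2) (σ y) (dmap σ y u) (dmap σ y v) = 0) →
    0 < sphI σ ((w 0).1.1 : F2 E4 M) →
    ∀ O : Set M, IsOpen O → im σ ⊆ O →
    ∃ (w' : Trip M) (r : ℝ) (Ps : E6 → M) (G : M → E6) (U : Set M) (ρ s : ℝ) (g : ℝ → ℝ)
      (c K t₀ t₁ : ℝ), PL w w' ∧ Pos3 w' ∧ (∀ i x, x ∉ O → val (w' i) x = val (w i) x) ∧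
      Out1 w' σ O r Ps G U ρ s g c K t₀ t₁

variable (M) in
/-- LEAF STDL: induction over the spheres, constancy of the sign, the neck parametrisations
`φ i = Ps i ∘ hh (ρ i)`. -/
def STDL [ConnectedSpace M] : Prop := GEO → FGL → RADF → PHI → ONE M → K12 M

end Closed

end

end Crest.Agent.R235.K12An_776
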