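import Crest.Agent.R235.K12Defs_417

/-!
Row 235 (S0364), package KUM, block K12: leaves CUT and FLAT (task 314): logarithmic cut-off
functions with the compensating function, and the radial profile with a flat zone.
-/

set_option autoImplicit false

open Set Function Filter MeasureTheory
open scoped Manifold ContDiff Topology RealInnerProductSpace
open Crest.Agent.R235.K12_417

namespace Crest.Agent.R235.K12Cut_895

/-! ### the smooth step -/

theorem st_contDiff : ContDiff ℝ ∞ Real.smoothTransition := Real.smoothTransition.contDiff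

theorem st_differentiable : Differentiable ℝ Real.smoothTransition :=
  st_contDiff.differentiable (by simp)

theorem st_deriv_nonneg (x : ℝ) : 0 ≤ deriv Real.smoothTransition x :=
  Real.smoothTransition.monotone.deriv_nonneg

theorem st_deriv_left {x : ℝ} (h : x < 0) : deriv Real.smoothTransition x = 0 := by
  have : Real.smoothTransition =ᶠ[𝓝 x] fun _ => 0 := by
    filter_upwards [Iio_mem_nhds h] with y hy
    exact Real.smoothTransition.zero_of_nonpos (le_of_lt hy)
  rw [this.deriv_eq]; simp

theorem st_deriv_right {x : ℝ} (h : 1 < x) : deriv Real.smoothTransition x = 0 := by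
  have : Real.smoothTransition =ᶠ[𝓝 x] fun _ => 1 := by
    filter_upwards [Ioi_mem_nhds h] with y hy
    exact Real.smoothTransition.one_of_one_le (le_of_lt hy)
  rw [this.deriv_eq]; simp

theorem st_deriv_bdd : ∃ C : ℝ, 0 < C ∧ ∀ x, |deriv Real.smoothTransition x| ≤ C := by
  have hc : Continuous (deriv Real.smoothTransition) :=
    st_contDiff.continuous_deriv (by simp)
  obtain ⟨C, hC⟩ := (isCompact_Icc (a := (0 : ℝ)) (b := 1)).exists_bound_of_continuousOn
    hc.continuousOn
  refine ⟨max C 1, by positivity, fun x => ?_⟩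
  by_cases h0 : x < 0
  · rw [st_deriv_left h0]; simp
  by_cases h1 : 1 < x
  · rw [st_deriv_right h1]; simp
  have := hC x ⟨not_lt.mp h0, not_lt.mp h1⟩
  rw [Real.norm_eq_abs] at this
  exact this.trans (le_max_left _ _)

/-! ### LEAF CUT -/

theorem cut : CUT := by
  intro ρ η hρ hη
  obtain ⟨C, hC0, hC⟩ := st_deriv_bdd
  obtain ⟨N, hN1, hN⟩ : ∃ N : ℝ, 1 ≤ N ∧ C / N ≤ η := by
    refine ⟨max 1 (C / η), le_max_left _ _, ?_⟩
    have h1 : 0 < max 1 (C / η) := by positivity
    rw [div_le_iff₀ h1]
    have h2 : C / η ≤ max 1 (C / η) := le_max_right _ _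
    rw [div_le_iff₀ hη] at h2
    linarith
  have hN0 : 0 < N := by linarith
  set ρ' : ℝ := ρ * Real.exp (-N) with hρ'
  have hρ'0 : 0 < ρ' := by positivity
  have hρ'ρ : ρ' < ρ := by
    have : Real.exp (-N) < 1 := by rw [Real.exp_lt_one_iff]; linarith
    rw [hρ']; nlinarith
  have hρ'2 : ρ' / 2 < ρ' := by linarith
  -- the logarithmic variable
  let x : ℝ → ℝ := fun t => Real.log (ρ / t) / N
  have hx1 : ∀ t, 0 < t → t ≤ ρ' → 1 ≤ x t := by
    intro t ht h
    show 1 ≤ Real.log (ρ / t) / N
    rw [le_div_iff₀ hN0, one_mul, Real.le_log_iff_exp_le (by positivity), le_div_iff₀ ht]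
    have h1 : Real.exp N * t ≤ Real.exp N * ρ' := by gcongr
    have h2 : Real.exp N * ρ' = ρ := by
      rw [hρ', mul_left_comm, ← Real.exp_add]; simp
    linarith
  have hx0 : ∀ t, ρ ≤ t → x t ≤ 0 := by
    intro t ht
    show Real.log (ρ / t) / N ≤ 0
    apply div_nonpos_of_nonpos_of_nonneg _ hN0.le
    have ht0 : 0 < t := by linarith
    apply Real.log_nonpos (by positivity)
    rw [div_le_one ht0]; exact ht
  have hxd : ∀ t, 0 < t → HasDerivAt x (-(1 / (N * t))) t := by
    intro t ht
    have h1 : HasDerivAt (fun t => ρ / t) (ρ * (-(t ^ 2)⁻¹)) t := by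
      have := (hasDerivAt_inv ht.ne').const_mul ρ
      simpa only [div_eq_mul_inv] using this
    have h2 := (h1.log (by positivity)).div_const N
    refine h2.congr_deriv ?_
    field_simp
  let χ : ℝ → ℝ := fun t => if t ≤ ρ' then 1 else Real.smoothTransition (x t)
  have hχ1 : ∀ t ≤ ρ', χ t = 1 := fun t ht => if_pos ht
  have hχx : ∀ t, 0 < t → χ t = Real.smoothTransition (x t) := by
    intro t ht
    by_cases h : t ≤ ρ'
    · rw [hχ1 t h, Real.smoothTransition.one_of_one_le (hx1 t ht h)]
    · exact if_neg h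
  have hχd : ∀ t, 0 < t → HasDerivAt χ (deriv Real.smoothTransition (x t) * (-(1 / (N * t)))) t := by
    intro t ht
    have h1 := (st_differentiable (x t)).hasDerivAt.comp t (hxd t ht)
    refine h1.congr_of_eventuallyEq ?_
    filter_upwards [Ioi_mem_nhds ht] with s hs
    exact hχx s hs
  have hχl : ∀ t, t < ρ' → HasDerivAt χ 0 t := by
    intro t ht
    refine (hasDerivAt_const t (1 : ℝ)).congr_of_eventuallyEq ?_
    filter_upwards [Iio_mem_nhds ht] with s hs
    exact hχ1 s (le_of_lt hs)
  have hχs : ContDiff ℝ ∞ χ := by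
    rw [contDiff_iff_contDiffAt]
    intro t
    by_cases h : t < ρ'
    · refine (contDiffAt_const (c := (1 : ℝ))).congr_of_eventuallyEq ?_
      filter_upwards [Iio_mem_nhds h] with s hs
      exact hχ1 s (le_of_lt hs)
    · have ht : 0 < t := by linarith [not_lt.mp h]
      have h1 : ContDiffAt ℝ ∞ x t := by
        show ContDiffAt ℝ ∞ (fun t => Real.log (ρ / t) / N) t
        apply ContDiffAt.div_const
        apply ContDiffAt.log
        · exact contDiffAt_const.div contDiffAt_id ht.ne'
        · positivity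
      refine (st_contDiff.contDiffAt.comp t h1).congr_of_eventuallyEq ?_
      filter_upwards [Ioi_mem_nhds ht] with s hs
      exact hχx s hs
  have hχnn : ∀ t, 0 ≤ χ t ∧ χ t ≤ 1 := by
    intro t
    by_cases h : t ≤ ρ'
    · rw [hχ1 t h]; norm_num
    · have : χ t = Real.smoothTransition (x t) := if_neg h
      rw [this]
      exact ⟨Real.smoothTransition.nonneg _, Real.smoothTransition.le_one _⟩
  have hχ0 : ∀ t, ρ ≤ t → χ t = 0 := by
    intro t ht
    rw [hχx t (by linarith), Real.smoothTransition.zero_of_nonpos (hx0 t ht)]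
  have hχneg : ∀ t, deriv χ t ≤ 0 := by
    intro t
    by_cases h : t < ρ'
    · rw [(hχl t h).deriv]
    · have ht : 0 < t := by linarith [not_lt.mp h]
      rw [(hχd t ht).deriv]
      have h1 := st_deriv_nonneg (x t)
      have h2 : 0 ≤ 1 / (N * t) := by positivity
      nlinarith
  have hχt : ∀ t, |t * deriv χ t| ≤ η := by
    intro t
    by_cases h : t < ρ'
    · rw [(hχl t h).deriv]; simpa using hη.le
    · have ht : 0 < t := by linarith [not_lt.mp h]
      rw [(hχd t ht).deriv]
      have h1 : t * (deriv Real.smoothTransition (x t) * (-(1 / (N * t))))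
          = - (deriv Real.smoothTransition (x t) / N) := by field_simp
      rw [h1, abs_neg, abs_div, abs_of_pos hN0]
      exact (div_le_div_of_nonneg_right (hC _) hN0.le).trans hN
  have hχ't0 : ∀ t, ρ ≤ t → deriv χ t = 0 := by
    intro t ht
    rcases eq_or_lt_of_le ht with h | h
    · -- a minimum
      have hmin : IsLocalMin χ t := by
        filter_upwards with s
        rw [hχ0 t ht]; exact (hχnn s).1
      exact hmin.deriv_eq_zero
    · have : χ =ᶠ[𝓝 t] fun _ => 0 := by
        filter_upwards [Ioi_mem_nhds h] with s hs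
        exact hχ0 s (le_of_lt hs)
      rw [this.deriv_eq]; simp
  have hχ'l0 : ∀ t, t ≤ ρ' → deriv χ t = 0 := by
    intro t ht
    have hmax : IsLocalMax χ t := by
      filter_upwards with s
      rw [hχ1 t ht]; exact (hχnn s).2
    exact hmax.deriv_eq_zero
  -- the compensating function
  have hdχ : ContDiff ℝ ∞ (deriv χ) := by
    have := contDiff_infty_iff_deriv.mp hχs
    exact this.2
  let f : ℝ → ℝ := fun t => - (t * deriv χ t ^ 2)
  have hf : ContDiff ℝ ∞ f := (contDiff_id.mul (hdχ.pow 2)).neg
  let a : ℝ → ℝ := fun t => ∫ s in ρ..t, f s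
  have had : ∀ t, HasDerivAt a (f t) t := fun t =>
    intervalIntegral.integral_hasDerivAt_right (hf.continuous.intervalIntegrable _ _)
      (hf.continuous.stronglyMeasurableAtFilter _ _) hf.continuous.continuousAt
  have hader : deriv a = f := funext fun t => (had t).deriv
  have has : ContDiff ℝ ∞ a := by
    rw [contDiff_infty_iff_deriv]
    exact ⟨fun t => (had t).differentiableAt, by rw [hader]; exact hf⟩
  have haρ : a ρ = 0 := by simp [a]
  have ha0 : ∀ t, ρ ≤ t → a t = 0 := by
    intro t ht
    show ∫ s in ρ..t, f s = 0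
    rw [intervalIntegral.integral_congr (g := fun _ => (0 : ℝ))]
    · simp
    · intro s hs
      rw [uIcc_of_le ht] at hs
      show - (s * deriv χ s ^ 2) = 0
      rw [hχ't0 s hs.1]; simp
  have hanti : AntitoneOn a (Ici 0) := by
    apply antitoneOn_of_deriv_nonpos (convex_Ici 0) has.continuous.continuousOn
    · exact fun t _ => (had t).differentiableAt.differentiableWithinAt
    · intro t ht
      rw [interior_Ici] at ht
      rw [hader]
      show - (t * deriv χ t ^ 2) ≤ 0
      have : 0 ≤ t * deriv χ t ^ 2 := mul_nonneg (le_of_lt ht) (sq_nonneg _)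
      linarith
  have hmono : MonotoneOn (fun t => a t - η * χ t) (Ici 0) := by
    have hd : ∀ t, HasDerivAt (fun t => a t - η * χ t) (f t - η * deriv χ t) t := fun t =>
      (had t).sub (((hχs.differentiable (by simp)) t).hasDerivAt.const_mul η)
    apply monotoneOn_of_deriv_nonneg (convex_Ici 0)
    · exact fun t _ => (hd t).continuousAt.continuousWithinAt
    · exact fun t _ => (hd t).differentiableAt.differentiableWithinAt
    · intro t ht
      rw [interior_Ici] at ht
      rw [(hd t).deriv]
      show 0 ≤ - (t * deriv χ t ^ 2) - η * deriv χ t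
      have h1 := (abs_le.mp (hχt t)).1
      have h2 := hχneg t
      nlinarith
  have hab : ∀ t, 0 ≤ t → 0 ≤ a t ∧ a t ≤ η := by
    intro t ht
    constructor
    · have h1 := hanti (show t ∈ Ici (0 : ℝ) from ht)
        (show max t ρ ∈ Ici (0 : ℝ) from le_trans ht (le_max_left _ _)) (le_max_left _ _)
      rwa [ha0 _ (le_max_right _ _)] at h1
    · have h1 : a t ≤ a 0 := hanti (mem_Ici.mpr (le_refl (0 : ℝ))) (mem_Ici.mpr ht) ht
      have h2 := hmono (mem_Ici.mpr (le_refl (0 : ℝ))) (mem_Ici.mpr hρ.le) hρ.le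
      simp only [haρ, hχ0 ρ le_rfl, hχ1 0 hρ'0.le, mul_one, mul_zero, sub_zero] at h2
      linarith
  have hac : ∀ t ≤ ρ', a t = a 0 := by
    intro t ht
    have key : ∀ t : ℝ, t ≤ ρ' → a t = a ρ' := by
      intro t ht
      have h1 : a t - a ρ' = ∫ s in ρ'..t, f s :=
        intervalIntegral.integral_interval_sub_left (hf.continuous.intervalIntegrable _ _)
          (hf.continuous.intervalIntegrable _ _)
      rw [intervalIntegral.integral_congr (g := fun _ => (0 : ℝ))] at h1
      · simp at h1; linarith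
      · intro s hs
        rw [uIcc_of_ge ht] at hs
        show - (s * deriv χ s ^ 2) = 0
        rw [hχ'l0 s hs.2]; simp
    rw [key t ht, key 0 hρ'0.le]
  refine ⟨ρ', χ, a, hρ'0, hρ'ρ, hχs, hχnn, hχ1, hχ0, hχt, has, hab, ha0, hac, ?_⟩
  intro t
  rw [hader]

/-! ### LEAF FLAT -/

theorem step_deriv {A B t : ℝ} :
    HasDerivAt (fun t => Real.smoothTransition (A * t + B))
      (A * deriv Real.smoothTransition (A * t + B)) t := by
  have h1 : HasDerivAt (fun t : ℝ => A * t + B) A t := by
    simpa using ((hasDerivAt_id t).const_mul A).add_const B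
  have := (st_differentiable (A * t + B)).hasDerivAt.comp t h1
  rw [mul_comm]; exact this

theorem flat : FLAT := by
  intro c K ρ hc hK hρ
  set T : ℝ := min ρ c / 2 with hT
  have hmin : 0 < min ρ c := lt_min hρ hc
  have hT0 : 0 < T := by positivity
  have hTρ : T < ρ := by
    have := min_le_left ρ c; rw [hT]; linarith
  have hTc : 2 * T ≤ c := by
    have := min_le_right ρ c; rw [hT]; linarith
  let S1 : ℝ → ℝ := fun t => Real.smoothTransition (8 / T * t + -1)
  let S2 : ℝ → ℝ := fun t => Real.smoothTransition (2 / T * t + -1)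
  have hS1z : ∀ t, t ≤ T / 8 → S1 t = 0 := by
    intro t ht
    apply Real.smoothTransition.zero_of_nonpos
    have : 8 / T * t ≤ 8 / T * (T / 8) := by gcongr
    have h2 : 8 / T * (T / 8) = 1 := by field_simp
    linarith
  have hS1o : ∀ t, T / 4 ≤ t → S1 t = 1 := by
    intro t ht
    apply Real.smoothTransition.one_of_one_le
    have : 8 / T * (T / 4) ≤ 8 / T * t := by gcongr
    have h2 : 8 / T * (T / 4) = 2 := by field_simp; norm_num
    linarith
  have hS2z : ∀ t, t ≤ T / 2 → S2 t = 0 := by
    intro t ht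
    apply Real.smoothTransition.zero_of_nonpos
    have : 2 / T * t ≤ 2 / T * (T / 2) := by gcongr
    have h2 : 2 / T * (T / 2) = 1 := by field_simp
    linarith
  have hS2o : ∀ t, T ≤ t → S2 t = 1 := by
    intro t ht
    apply Real.smoothTransition.one_of_one_le
    have : 2 / T * T ≤ 2 / T * t := by gcongr
    have h2 : 2 / T * T = 2 := by field_simp
    linarith
  have hS1n : ∀ t, 0 ≤ S1 t ∧ S1 t ≤ 1 := fun t =>
    ⟨Real.smoothTransition.nonneg _, Real.smoothTransition.le_one _⟩
  have hS2n : ∀ t, 0 ≤ S2 t ∧ S2 t ≤ 1 := fun t =>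
    ⟨Real.smoothTransition.nonneg _, Real.smoothTransition.le_one _⟩
  set D1 : ℝ → ℝ := fun t => 8 / T * deriv Real.smoothTransition (8 / T * t + -1) with hD1
  set D2 : ℝ → ℝ := fun t => 2 / T * deriv Real.smoothTransition (2 / T * t + -1) with hD2
  have hS1d : ∀ t, HasDerivAt S1 (D1 t) t := fun t => step_deriv
  have hS2d : ∀ t, HasDerivAt S2 (D2 t) t := fun t => step_deriv
  have hD1n : ∀ t, 0 ≤ D1 t := fun t => mul_nonneg (by positivity) (st_deriv_nonneg _)
  have hD2n : ∀ t, 0 ≤ D2 t := fun t => mul_nonneg (by positivity) (st_deriv_nonneg _)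
  have hD1l : ∀ t, t < T / 8 → D1 t = 0 := by
    intro t ht
    have : 8 / T * t < 8 / T * (T / 8) := by gcongr
    have h2 : 8 / T * (T / 8) = 1 := by field_simp
    simp only [hD1]
    rw [st_deriv_left (by linarith), mul_zero]
  have hD1r : ∀ t, T / 4 < t → D1 t = 0 := by
    intro t ht
    have : 8 / T * (T / 4) < 8 / T * t := by gcongr
    have h2 : 8 / T * (T / 4) = 2 := by field_simp; norm_num
    simp only [hD1]
    rw [st_deriv_right (by linarith), mul_zero]
  have hD2r : ∀ t, T < t → D2 t = 0 := by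
    intro t ht
    have : 2 / T * T < 2 / T * t := by gcongr
    have h2 : 2 / T * T = 2 := by field_simp
    simp only [hD2]
    rw [st_deriv_right (by linarith), mul_zero]
  let h0 : ℝ → ℝ := fun t => T / 16 + 1 / T * t ^ 2 / 2
  let h2 : ℝ → ℝ := fun t => c + K * t ^ 2 / 2
  have h0d : ∀ t, HasDerivAt h0 (1 / T * t) t := by
    intro t
    have := (((hasDerivAt_pow 2 t).const_mul (1 / T)).div_const 2).const_add (T / 16)
    refine this.congr_deriv ?_
    norm_num; ring
  have h2d : ∀ t, HasDerivAt h2 (K * t) t := by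
    intro t
    have := (((hasDerivAt_pow 2 t).const_mul K).div_const 2).const_add c
    refine this.congr_deriv ?_
    norm_num; ring
  let g : ℝ → ℝ := fun t => (1 - S1 t) * h0 t + S1 t * ((1 - S2 t) * t + S2 t * h2 t)
  have hgd : ∀ t, HasDerivAt g (((0 - D1 t) * h0 t + (1 - S1 t) * (1 / T * t)) +
      (D1 t * ((1 - S2 t) * t + S2 t * h2 t) +
        S1 t * (((0 - D2 t) * t + (1 - S2 t) * 1) + (D2 t * h2 t + S2 t * (K * t))))) t := by
    intro t
    exact (((hasDerivAt_const t (1 : ℝ)).sub (hS1d t)).mul (h0d t)).add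
      ((hS1d t).mul ((((hasDerivAt_const t (1 : ℝ)).sub (hS2d t)).mul (hasDerivAt_id t)).add
        ((hS2d t).mul (h2d t))))
  have hS1s : ContDiff ℝ ∞ S1 := st_contDiff.comp ((contDiff_const.mul contDiff_id).add contDiff_const)
  have hS2s : ContDiff ℝ ∞ S2 := st_contDiff.comp ((contDiff_const.mul contDiff_id).add contDiff_const)
  have hh0s : ContDiff ℝ ∞ h0 := by
    show ContDiff ℝ ∞ (fun t : ℝ => T / 16 + 1 / T * t ^ 2 / 2)
    fun_prop
  have hh2s : ContDiff ℝ ∞ h2 := by
    show ContDiff ℝ ∞ (fun t : ℝ => c + K * t ^ 2 / 2)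
    fun_prop
  have hgs : ContDiff ℝ ∞ g :=
    ((contDiff_const.sub hS1s).mul hh0s).add
      (hS1s.mul (((contDiff_const.sub hS2s).mul contDiff_id).add (hS2s.mul hh2s)))
  have hh0p : ∀ t, 0 < h0 t := by
    intro t
    show 0 < T / 16 + 1 / T * t ^ 2 / 2
    positivity
  have hh2p : ∀ t, 0 < h2 t := by
    intro t
    show 0 < c + K * t ^ 2 / 2
    positivity
  refine ⟨T / 4, T / 2, T, g, by positivity, by linarith, by linarith, hTρ, hgs, ?_, ?_, ?_, ?_,
    T / 16, 1 / T, T / 8, by positivity, by positivity, by positivity, ?_⟩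
  · intro t ht
    show (1 - S1 t) * h0 t + S1 t * ((1 - S2 t) * t + S2 t * h2 t) = c + K * t ^ 2 / 2
    rw [hS1o t (by linarith), hS2o t ht]
    simp [h2]
  · intro t ht ht'
    show (1 - S1 t) * h0 t + S1 t * ((1 - S2 t) * t + S2 t * h2 t) = t
    rw [hS1o t ht, hS2z t ht']
    simp
  · intro t ht
    show 0 < (1 - S1 t) * h0 t + S1 t * ((1 - S2 t) * t + S2 t * h2 t)
    rcases eq_or_lt_of_le ht with h | h
    · rw [hS1z t (by rw [← h]; positivity)]
      simpa using hh0p t
    · have e1 := hh0p t
      have e2 := hh2p t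
      have hin : 0 < (1 - S2 t) * t + S2 t * h2 t := by
        rcases eq_or_lt_of_le (hS2n t).1 with hs | hs
        · rw [← hs]; simpa using h
        · have : 0 ≤ (1 - S2 t) * t := mul_nonneg (by linarith [(hS2n t).2]) h.le
          have : 0 < S2 t * h2 t := mul_pos hs e2
          linarith
      rcases eq_or_lt_of_le (hS1n t).1 with hs | hs
      · rw [← hs]; simpa using e1
      · have : 0 ≤ (1 - S1 t) * h0 t := mul_nonneg (by linarith [(hS1n t).2]) e1.le
        have : 0 < S1 t * ((1 - S2 t) * t + S2 t * h2 t) := mul_pos hs hin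
        linarith
  · intro t ht
    rw [(hgd t).deriv]
    have c1 : 0 ≤ D2 t * (h2 t - t) := by
      by_cases h : T < t
      · rw [hD2r t h]; simp
      · apply mul_nonneg (hD2n t)
        have : c ≤ h2 t := by
          show c ≤ c + K * t ^ 2 / 2
          have : 0 ≤ K * t ^ 2 / 2 := by positivity
          linarith
        linarith [not_lt.mp h]
    have c2 : 0 ≤ D1 t * (((1 - S2 t) * t + S2 t * h2 t) - h0 t) := by
      by_cases ha : t < T / 8
      · rw [hD1l t ha]; simp
      by_cases hb : T / 4 < t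
      · rw [hD1r t hb]; simp
      push Not at ha hb
      apply mul_nonneg (hD1n t)
      rw [hS2z t (by linarith)]
      have e1 : h0 t ≤ t := by
        show T / 16 + 1 / T * t ^ 2 / 2 ≤ t
        have e2 : t ^ 2 ≤ T ^ 2 / 16 := by nlinarith
        have e3 : 1 / T * t ^ 2 ≤ 1 / T * (T ^ 2 / 16) := by gcongr
        have e4 : 1 / T * (T ^ 2 / 16) = T / 16 := by field_simp
        linarith
      simp only [sub_zero, one_mul, zero_mul, add_zero]
      linarith
    have c3 : 0 < (1 - S1 t) * (1 / T * t) + S1 t * ((1 - S2 t) * 1 + S2 t * (K * t)) := by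
      have e1 : 0 < 1 / T * t := by positivity
      have e2 : 0 < K * t := by positivity
      have hin : 0 < (1 - S2 t) * 1 + S2 t * (K * t) := by
        rcases eq_or_lt_of_le (hS2n t).1 with hs | hs
        · rw [← hs]; simp
        · have : 0 ≤ (1 - S2 t) * 1 := mul_nonneg (by linarith [(hS2n t).2]) (by norm_num)
          have : 0 < S2 t * (K * t) := mul_pos hs e2
          linarith
      rcases eq_or_lt_of_le (hS1n t).1 with hs | hs
      · rw [← hs]; simpa using e1
      · have : 0 ≤ (1 - S1 t) * (1 / T * t) := mul_nonneg (by linarith [(hS1n t).2]) e1.le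
        have : 0 < S1 t * ((1 - S2 t) * 1 + S2 t * (K * t)) := mul_pos hs hin
        linarith
    have c4 : 0 ≤ S1 t * (D2 t * (h2 t - t)) := mul_nonneg (hS1n t).1 c1
    have : (((0 - D1 t) * h0 t + (1 - S1 t) * (1 / T * t)) +
      (D1 t * ((1 - S2 t) * t + S2 t * h2 t) +
        S1 t * (((0 - D2 t) * t + (1 - S2 t) * 1) + (D2 t * h2 t + S2 t * (K * t)))))
      = ((1 - S1 t) * (1 / T * t) + S1 t * ((1 - S2 t) * 1 + S2 t * (K * t)))
        + D1 t * (((1 - S2 t) * t + S2 t * h2 t) - h0 t) + S1 t * (D2 t * (h2 t - t)) := by ring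
    rw [this]
    linarith
  · intro t ht
    show (1 - S1 t) * h0 t + S1 t * ((1 - S2 t) * t + S2 t * h2 t) = T / 16 + 1 / T * t ^ 2 / 2
    rw [hS1z t ht]
    simp [h0]

end Crest.Agent.R235.K12Cut_895
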