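import Crest.Agent.R235.K12Ext_168

/-!
Row 235 (S0364), block K12, leaf EXT2 (asked for by helper776; helper168): a basic closed two-form on
`OS r` with support in `{|p| ≤ r'}`, `r' < r`, extends by zero to a smooth closed two-form on `M`.
-/

set_option autoImplicit false
set_option maxSynthPendingDepth 3
set_option linter.unusedSectionVars false

open Set Function Filter MeasureTheory
open scoped Manifold ContDiff Topology RealInnerProductSpace

universe u

namespace Crest.Agent.R235.K12Ext2_168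

open Crest.Agent.R240 Crest.Agent.R240.Ch Crest.Agent.R235 Crest.Agent.R235.K12_417
  Crest.Agent.R235.PB_604 Crest.Agent.R235.K12Ext_168

noncomputable section

variable {M : Type u} [TopologicalSpace M] [T2Space M] [CompactSpace M]
  [ChartedSpace E4 M] [IsManifold 𝓘(ℝ, E4) ∞ M]

variable {σ : E3 → M} {r : ℝ} {Ps : E6 → M} {G : M → E6} {U : Set M}

open Classical in
/-- the extension by zero. -/
def wx (G : M → E6) (U : Set M) (W : E6 → B6) : F2 E4 M :=
  fun x => if x ∈ U then pb2 (E := E4) (F := E6) (X := M) (M := E6) G W x else 0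

lemma wx_of_mem {W : E6 → B6} {x : M} (hx : x ∈ U) :
    at2 (wx G U W) x = at2 (pb2 (E := E4) (F := E6) (X := M) (M := E6) G W) x := by
  show wx G U W x = _
  unfold wx
  rw [if_pos hx]
  rfl

lemma wx_zero (h : Tube σ r Ps G U) {W : E6 → B6} {r' : ℝ}
    (hW : ∀ z ∈ TS r, r' ≤ ‖z.2‖ → W z = 0) {x : M} (hx : x ∉ KK r' Ps) :
    at2 (wx G U W) x = 0 := by
  by_cases hU : x ∈ U
  · rw [wx_of_mem hU, at2_pb2]
    have h1 := h.mapsG x hU
    have h2 : W (G x) = 0 := by
      refine hW _ h1 ?_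
      by_contra hc
      exact hx ⟨G x, ⟨h1.1, h1.2.1, (not_le.1 hc).le⟩, h.left x hU⟩
    show pl _ (W (G x)) = 0
    rw [h2]
    ext u v
    simp
  · show wx G U W x = _
    unfold wx
    rw [if_neg hU]

lemma z2At_zero (x : M) : Z2At (0 : F2 E4 M) x :=
  z2At_of_mem smooth2_zero closed2_zero x

lemma z2At_of_Bas {W : E6 → B6} (hb : Bas r W) {z : E6} (hz : z ∈ OS r) :
    Z2At (E := E6) (X := E6) (W : F2 E6 E6) z := by
  have h : rep z (W : F2 E6 E6) = W := by
    funext y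
    exact rep_model z (W : F2 E6 E6) y
  refine ⟨fun v => hb.alt z hz v, ?_, fun u v w => ?_⟩
  · rw [h]
    exact hb.smooth.contDiffAt ((isOpen_OS r).mem_nhds hz)
  · rw [h]
    exact hb.closed z hz u v w

lemma z2At_wx (h : Tube σ r Ps G U) {W : E6 → B6} {r' : ℝ} (hr : r' < r) (hb : Bas r W)
    (hW : ∀ z ∈ TS r, r' ≤ ‖z.2‖ → W z = 0) (x : M) : Z2At (wx G U W) x := by
  by_cases hx : x ∈ U
  · have h1 : Z2At (pb2 (E := E4) (F := E6) (X := M) (M := E6) G W) x :=
      (z2At_of_Bas hb (TS_subset_OS r (h.mapsG x hx))).pb2 (smoothGAt h hx)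
    refine h1.congr ?_
    filter_upwards [h.openU.mem_nhds hx] with y hy using (wx_of_mem hy).symm
  · have hK : x ∉ KK r' Ps := fun hc => hx (KK_subset h hr hc)
    refine (z2At_zero x).congr ?_
    filter_upwards [(isClosed_KK h hr).isOpen_compl.mem_nhds hK] with y hy
    exact (wx_zero h hW hy).symm

/-- the pull-back of the extension. -/
lemma pb2_wx (h : Tube σ r Ps G U) {W : E6 → B6} (hb : Bas r W) {z : E6} (hz : z ∈ OS r) :
    at2 (pb2 (E := E6) (F := E4) (X := E6) (M := M) Ps (wx G U W)) z = W z := by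
  have hU : Ps z ∈ U := h.maps z hz
  have hP : ContMDiffAt 𝓘(ℝ, E6) 𝓘(ℝ, E4) 1 Ps z := (smoothAt h hz).of_le one_le_infty
  have hG : ContMDiffAt 𝓘(ℝ, E4) 𝓘(ℝ, E6) 1 G (Ps z) := (smoothGAt h hU).of_le one_le_infty
  have h1 : at2 (pb2 (E := E6) (F := E4) (X := E6) (M := M) Ps (wx G U W)) z =
      at2 (pb2 (E := E6) (F := E4) (X := E6) (M := M) Ps
        (pb2 (E := E4) (F := E6) (X := M) (M := E6) G W)) z := by
    rw [at2_pb2, at2_pb2, wx_of_mem hU]
  have h2 := pb2_comp (E := E6) (F := E4) (G := E6) (X := E6) (M := M) (N := E6) hP hG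
    (W : F2 E6 E6)
  rw [h1, ← h2, at2_pb2, D1_congr (comp_ev h hz), D1_Pi]
  refine ContinuousLinearMap.ext fun u => ContinuousLinearMap.ext fun v => ?_
  rw [pl_apply]
  show W (G (Ps z)) (fderiv ℝ Pi z u) (fderiv ℝ Pi z v) = W z u v
  rw [h.right z hz, ← hb.bas z hz u v]

variable (M) in
/-- LEAF EXT2: a basic closed two-form on `OS r` with support in `{|p| ≤ r'}`, `r' < r`, extends by
zero to a smooth closed two-form on `M`. -/
def EXT2 : Prop :=
  ∀ (σ : E3 → M) (r : ℝ) (Ps : E6 → M) (G : M → E6) (U : Set M), Tube σ r Ps G U →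
    ∀ (W : E6 → B6) (r' : ℝ), r' < r → Bas r W → (∀ z ∈ TS r, r' ≤ ‖z.2‖ → W z = 0) →
      ∃ a : Z2 M,
        (∀ x, (∀ z ∈ TS r, ‖z.2‖ ≤ r' → x ≠ Ps z) → val a x = 0) ∧
        ∀ z ∈ OS r, P2 Ps (a.1.1 : F2 E4 M) z = W z

variable (M) in
/-- LEAF EXT2. -/
theorem ext2 : EXT2 M := by
  intro σ r Ps G U hT W r' hr hb hW
  have hz : ∀ x, Z2At (wx G U W) x := z2At_wx hT hr hb hW
  refine ⟨⟨⟨wx G U W, smooth2_of_z2At hz⟩, closed2_of_z2At hz⟩, ?_, ?_⟩
  · intro x hx
    have hK : x ∉ KK r' Ps := by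
      rintro ⟨z, hz, rfl⟩
      exact hx z (mem_TS_of hr hz) hz.2.2 rfl
    exact wx_zero hT hW hK
  · intro z hz
    exact pb2_wx hT hb hz

end

end Crest.Agent.R235.K12Ext2_168
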