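import Crest.Agent.R235.K12AnDefs_776
import Crest.Agent.R235.K12Ext_168
import Crest.Agent.R235.K12Phi_291

/-!
Row 235 (S0364), block K12, leaf STDL (helper235), part A: the neck parametrisation
`φ = Ps ∘ hh ρ` of one standardised sphere.
-/

set_option autoImplicit false
set_option maxSynthPendingDepth 3
set_option linter.unusedSectionVars false

open Set Function Filter MeasureTheory
open scoped Manifold ContDiff Topology RealInnerProductSpace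

universe u

namespace Crest.Agent.R235.K12Std_235

open Crest.Agent.R240 Crest.Agent.R240.Ch Crest.Agent.R235 Crest.Agent.R235.K12_417
  Crest.Agent.R235.PB_604 Crest.Agent.R235.K12An_776 Crest.Agent.R235.K12Ext_168

noncomputable section

/-! ### the map `hh` -/

lemma hh_mem (hF : PHI) {ρ : ℝ} (hρ : 0 < ρ) {z : E4} (hz : z ≠ 0) {r : ℝ}
    (hr : ρ * ‖z‖ ^ 2 < r) : hh ρ z ∈ TS r := by
  obtain ⟨h1, h2, h3⟩ := hF.mem z ρ hz
  refine ⟨h1, h2, ?_⟩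
  show ‖ρ • hP z‖ < r
  rw [norm_smul, h3, Real.norm_eq_abs, abs_of_pos hρ]
  exact hr

lemma norm_hh2 (hF : PHI) {ρ : ℝ} (hρ : 0 < ρ) {z : E4} (hz : z ≠ 0) :
    ‖(hh ρ z).2‖ = ρ * ‖z‖ ^ 2 := by
  obtain ⟨-, -, h3⟩ := hF.mem z ρ hz
  show ‖ρ • hP z‖ = _
  rw [norm_smul, h3, Real.norm_eq_abs, abs_of_pos hρ]

lemma hh_PB (hF : PHI) {ρ : ℝ} (hρ : 0 < ρ) {z : E4} (hz : z ∈ KT_604.PB 1) : hh ρ z ∈ TS ρ := by
  refine hh_mem hF hρ hz.1 ?_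
  have h1 := hz.2
  have h2 : ‖z‖ ^ 2 < 1 := by
    have := norm_nonneg z
    nlinarith
  nlinarith

lemma hh_smoothAt (hF : PHI) (ρ : ℝ) {z : E4} (hz : z ≠ 0) : ContDiffAt ℝ ∞ (hh ρ) z :=
  (hF.smooth ρ).contDiffAt (isOpen_compl_singleton.mem_nhds hz)

lemma Pi_hh (hF : PHI) {ρ : ℝ} (hρ : 0 < ρ) {z : E4} (hz : z ≠ 0) : Pi (hh ρ z) = hh ρ z :=
  Pi_of_TS (hh_mem hF hρ hz (lt_add_one _))

lemma hh_fst_ne (hF : PHI) {ρ : ℝ} (hρ : 0 < ρ) {z : E4} (hz : z ≠ 0) : (hh ρ z).1 ≠ 0 :=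
  (TS_subset_OS _ (hh_mem hF hρ hz (lt_add_one _))).1

/-- the differential of `hh` is fixed by that of `Pi`. -/
lemma fderiv_Pi_hh (hF : PHI) {ρ : ℝ} (hρ : 0 < ρ) {z : E4} (hz : z ≠ 0) (v : E4) :
    fderiv ℝ Pi (hh ρ z) (fderiv ℝ (hh ρ) z v) = fderiv ℝ (hh ρ) z v := by
  have h1 : Pi ∘ hh ρ =ᶠ[𝓝 z] hh ρ := by
    filter_upwards [isOpen_compl_singleton.mem_nhds hz] with y hy using Pi_hh hF hρ hy
  have h2 : DifferentiableAt ℝ Pi (hh ρ z) :=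
    (contDiffAt_Pi (hh_fst_ne hF hρ hz)).differentiableAt (by simp)
  have h3 : DifferentiableAt ℝ (hh ρ) z := (hh_smoothAt hF ρ hz).differentiableAt (by simp)
  have h4 := h1.fderiv_eq (𝕜 := ℝ)
  rw [fderiv_comp z h2 h3] at h4
  exact congrArg (fun A : E4 →L[ℝ] E6 => A v) h4

lemma PB1_hh (hF : PHI) {ρ : ℝ} (hρ : 0 < ρ) (β : E6 → E6 →L[ℝ] ℝ) {z : E4} (hz : z ≠ 0) (v : E4) :
    PB1 β (hh ρ z) (fderiv ℝ (hh ρ) z v) = β (hh ρ z) (fderiv ℝ (hh ρ) z v) := by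
  unfold PB1
  rw [ContinuousLinearMap.comp_apply, fderiv_Pi_hh hF hρ hz, Pi_hh hF hρ hz]

/-- the differential of a one-form which is linear in the point. -/
lemma d1_lin {L : E4 → E4} (hadd : ∀ a b, L (a + b) = L a + L b)
    (hsm : ∀ (c : ℝ) a, L (c • a) = c • L a) (k : ℝ) (z u v : E4) :
    d1 (fun y => k • innerSL ℝ (L y)) z u v = k * (⟪L u, v⟫ - ⟪L v, u⟫) := by
  set A : E4 →L[ℝ] (E4 →L[ℝ] ℝ) := k • ((innerSL ℝ).comp
    (LinearMap.toContinuousLinearMap (⟨⟨L, hadd⟩, hsm⟩ : E4 →ₗ[ℝ] E4))) with hA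
  have h1 : (fun y => k • innerSL ℝ (L y)) = A := by
    funext y
    rfl
  rw [h1, d1_apply, A.fderiv]
  show k * ⟪L u, v⟫ - k * ⟪L v, u⟫ = _
  ring

lemma qI_add (a b : E4) : qI (a + b) = qI a + qI b := by
  ext i; fin_cases i <;> simp [qI] <;> ring

lemma qJ_add (a b : E4) : qJ (a + b) = qJ a + qJ b := by
  ext i; fin_cases i <;> simp [qJ] <;> ring

lemma qK_add (a b : E4) : qK (a + b) = qK a + qK b := by
  ext i; fin_cases i <;> simp [qK] <;> ring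

lemma qI_smul (c : ℝ) (a : E4) : qI (c • a) = c • qI a := by
  ext i; fin_cases i <;> simp [qI]

lemma qJ_smul (c : ℝ) (a : E4) : qJ (c • a) = c • qJ a := by
  ext i; fin_cases i <;> simp [qJ]

lemma qK_smul (c : ℝ) (a : E4) : qK (c • a) = c • qK a := by
  ext i; fin_cases i <;> simp [qK]

lemma qI_skew (u v : E4) : ⟪qI v, u⟫ = -⟪qI u, v⟫ := by
  rw [K12Phi_291.i4, K12Phi_291.i4]; simp [qI]; ring

lemma qJ_skew (u v : E4) : ⟪qJ v, u⟫ = -⟪qJ u, v⟫ := by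
  rw [K12Phi_291.i4, K12Phi_291.i4]; simp [qJ]; ring

lemma qK_skew (u v : E4) : ⟪qK v, u⟫ = -⟪qK u, v⟫ := by
  rw [K12Phi_291.i4, K12Phi_291.i4]; simp [qK]; ring

lemma smooth_l1 : ContDiff ℝ ∞ l1 := by
  have h : l1 = fun z : E6 => (innerSL ℝ z.2).comp (ContinuousLinearMap.fst ℝ E3 E3) := rfl
  rw [h]
  exact ((innerSL ℝ).contDiff.comp contDiff_snd).clm_comp contDiff_const

lemma smooth_crL : ContDiff ℝ ∞ crL := by
  set A : E3 →ₗ[ℝ] (E3 →L[ℝ] E3) :=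
    { toFun := crL
      map_add' := fun a b => by
        ext v i; fin_cases i <;> simp [crL, cr] <;> ring
      map_smul' := fun c a => by
        ext v i; fin_cases i <;> simp [crL, cr] <;> ring } with hA
  exact (LinearMap.toContinuousLinearMap A).contDiff

lemma smooth_l2 : ContDiff ℝ ∞ l2 := by
  have h : l2 = fun z : E6 => (innerSL ℝ z.2).comp ((crL z.1).comp
    (ContinuousLinearMap.fst ℝ E3 E3)) := rfl
  rw [h]
  exact ((innerSL ℝ).contDiff.comp contDiff_snd).clm_comp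
    ((smooth_crL.comp contDiff_fst).clm_comp contDiff_const)

lemma PB1_diff {β : E6 → E6 →L[ℝ] ℝ} (hβ : ContDiff ℝ ∞ β) {z : E6} (hz : z.1 ≠ 0) :
    DifferentiableAt ℝ (PB1 β) z := by
  have h1 : ContDiffAt ℝ ∞ (fun z => β (Pi z)) z := hβ.contDiffAt.comp z (contDiffAt_Pi hz)
  have h2 : ContDiffAt ℝ ∞ (fun z => fderiv ℝ Pi z) z :=
    (contDiffAt_Pi hz).fderiv_right (m := ∞) (by simp)
  exact (h1.clm_comp h2).differentiableAt (by simp)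

/-- the form `w 1` in the neck. -/
lemma d1_l1_hh (hF : PHI) {ρ : ℝ} (hρ : 0 < ρ) {z : E4} (hz : z ≠ 0) (u v : E4) :
    d1 (PB1 l1) (hh ρ z) (fderiv ℝ (hh ρ) z u) (fderiv ℝ (hh ρ) z v) = 4 * ρ * ⟪qJ u, v⟫ := by
  have h1 : ∀ᶠ y in 𝓝 z, (2 * ρ) • innerSL ℝ (qJ y) =
      (PB1 l1 (hh ρ y)).comp (fderiv ℝ (hh ρ) y) := by
    filter_upwards [isOpen_compl_singleton.mem_nhds hz] with y hy
    refine ContinuousLinearMap.ext fun w => ?_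
    rw [ContinuousLinearMap.comp_apply, PB1_hh hF hρ l1 hy, hF.pl1 y w ρ hy]
    rfl
  rw [← d1_pullback' (t := fun y => (2 * ρ) • innerSL ℝ (qJ y)) (hh_smoothAt hF ρ hz)
    (PB1_diff smooth_l1 (hh_fst_ne hF hρ hz)) h1 u v, d1_lin qJ_add qJ_smul, qJ_skew u v]
  ring

/-- the form `w 2` in the neck. -/
lemma d1_l2_hh (hF : PHI) {ρ : ℝ} (hρ : 0 < ρ) {z : E4} (hz : z ≠ 0) (u v : E4) :
    d1 (PB1 l2) (hh ρ z) (fderiv ℝ (hh ρ) z u) (fderiv ℝ (hh ρ) z v) =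
      -(4 * ρ * ⟪qK u, v⟫) := by
  have h1 : ∀ᶠ y in 𝓝 z, (-(2 * ρ)) • innerSL ℝ (qK y) =
      (PB1 l2 (hh ρ y)).comp (fderiv ℝ (hh ρ) y) := by
    filter_upwards [isOpen_compl_singleton.mem_nhds hz] with y hy
    refine ContinuousLinearMap.ext fun w => ?_
    rw [ContinuousLinearMap.comp_apply, PB1_hh hF hρ l2 hy, hF.pl2 y w ρ hy]
    show -(2 * ρ) * ⟪qK y, w⟫ = _
    ring
  rw [← d1_pullback' (t := fun y => (-(2 * ρ)) • innerSL ℝ (qK y)) (hh_smoothAt hF ρ hz)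
    (PB1_diff smooth_l2 (hh_fst_ne hF hρ hz)) h1 u v, d1_lin qK_add qK_smul, qK_skew u v]
  ring

/-! ### the form `w 0` in the neck -/

lemma exists_fr {q : E3} (hq : ‖q‖ = 1) : ∃ e : E3, IsFr q e := by
  have h1 : (ℝ ∙ q)ᗮ ≠ ⊥ := by
    intro h
    have h2 := Submodule.finrank_add_finrank_orthogonal (ℝ ∙ q)
    rw [h, finrank_bot, finrank_euclideanSpace_fin] at h2
    have h3 := finrank_span_le_card (R := ℝ) ({q} : Set E3)
    simp at h3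
    omega
  obtain ⟨v, hv, hv0⟩ := Submodule.exists_mem_ne_zero_of_ne_bot h1
  refine ⟨‖v‖⁻¹ • v, hq, ?_, ?_⟩
  · rw [norm_smul, norm_inv, norm_norm, inv_mul_cancel₀ (norm_ne_zero_iff.2 hv0)]
  · rw [inner_smul_right, Submodule.mem_orthogonal_singleton_iff_inner_right.1 hv, mul_zero]

lemma cr_inner_left (a b : E3) : ⟪a, cr a b⟫ = 0 := by
  rw [K12Phi_291.i3]; simp [cr]; ring

lemma cr_inner_right (a b : E3) : ⟪b, cr a b⟫ = 0 := by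
  rw [K12Phi_291.i3]; simp [cr]; ring

lemma cr_norm {q e : E3} (h : IsFr q e) : ‖cr q e‖ = 1 := by
  obtain ⟨h1, h2, h3⟩ := h
  have h4 : ‖cr q e‖ ^ 2 = ‖q‖ ^ 2 * ‖e‖ ^ 2 - ⟪q, e⟫ ^ 2 := by
    rw [K12Phi_291.n3, K12Phi_291.n3, K12Phi_291.n3, K12Phi_291.i3]; simp [cr]; ring
  rw [h1, h2, h3] at h4
  have h5 : ‖cr q e‖ ^ 2 = 1 := by rw [h4]; norm_num
  have h6 := norm_nonneg (cr q e)
  nlinarith

/-- the expansion of a vector orthogonal to `q`. -/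
lemma expand {q e : E3} (h : IsFr q e) {a : E3} (ha : ⟪q, a⟫ = 0) :
    a = ⟪e, a⟫ • e + ⟪cr q e, a⟫ • cr q e := by
  have hon : Orthonormal ℝ ![q, e, cr q e] := by
    rw [orthonormal_iff_ite]
    obtain ⟨h1, h2, h3⟩ := h
    have h4 := cr_norm ⟨h1, h2, h3⟩
    intro i j
    fin_cases i <;> fin_cases j <;>
      simp [h1, h2, h3, h4, cr_inner_left, cr_inner_right, real_inner_comm]
  set b := (basisOfOrthonormalOfCardEqFinrank hon (by simp)) with hb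
  have hbon : Orthonormal ℝ b := by
    rw [hb, coe_basisOfOrthonormalOfCardEqFinrank]; exact hon
  have h5 := (b.toOrthonormalBasis hbon).sum_repr' a
  rw [Fin.sum_univ_three] at h5
  simp only [Module.Basis.coe_toOrthonormalBasis, hb, coe_basisOfOrthonormalOfCardEqFinrank] at h5
  simp only [Matrix.cons_val_zero, Matrix.cons_val_one, Matrix.cons_val_two, Matrix.head_cons,
    Matrix.tail_cons, ha, zero_smul, zero_add] at h5
  exact h5.symm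

/-- tangent vectors of `T S²` are combinations of the frame. -/
lemma tangent_span {z : E6} {e : E3} (h : IsFr z.1 e) {V : E6} (h1 : ⟪z.1, V.1⟫ = 0)
    (h2 : ⟪z.1, V.2⟫ + ⟪V.1, z.2⟫ = 0) : ∃ a : Fin 4 → ℝ, V = ∑ i, a i • X z e i := by
  refine ⟨![⟪e, V.1⟫, ⟪cr z.1 e, V.1⟫, ⟪e, V.2⟫, ⟪cr z.1 e, V.2⟫], ?_⟩
  have h3 := expand h h1
  have h4 : ⟪z.1, V.2 + ⟪V.1, z.2⟫ • z.1⟫ = 0 := by
    rw [inner_add_right, inner_smul_right, real_inner_self_eq_norm_sq, h.1]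
    linarith
  have h5 := expand h h4
  have h6 : ⟪e, V.2 + ⟪V.1, z.2⟫ • z.1⟫ = ⟪e, V.2⟫ := by
    rw [inner_add_right, inner_smul_right, real_inner_comm z.1 e, h.2.2, mul_zero, add_zero]
  have h7 : ⟪cr z.1 e, V.2 + ⟪V.1, z.2⟫ • z.1⟫ = ⟪cr z.1 e, V.2⟫ := by
    rw [inner_add_right, inner_smul_right, real_inner_comm z.1, cr_inner_left, mul_zero, add_zero]
  rw [h6, h7] at h5
  have h8 : ⟪V.1, z.2⟫ = ⟪e, V.1⟫ * ⟪z.2, e⟫ + ⟪cr z.1 e, V.1⟫ * ⟪z.2, cr z.1 e⟫ := by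
    conv_lhs => rw [h3]
    rw [inner_add_left, real_inner_smul_left, real_inner_smul_left, real_inner_comm z.2 e,
      real_inner_comm z.2 (cr z.1 e)]
  rw [Fin.sum_univ_four]
  simp only [X, hor, ver, Matrix.cons_val_zero, Matrix.cons_val_one, Matrix.cons_val]
  refine Prod.ext ?_ ?_
  · simpa using h3
  · have h9 : V.2 = ⟪e, V.2⟫ • e + ⟪cr z.1 e, V.2⟫ • cr z.1 e - ⟪V.1, z.2⟫ • z.1 := by
      rw [← h5]; abel
    simp only [Prod.snd_add, Prod.smul_snd]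
    conv_lhs => rw [h9, h8]
    module

lemma bil_eq {A A' : B6} {z : E6} {e : E3} (h : ∀ i j, en A z e i j = en A' z e i j) {V V' : E6}
    (hV : ∃ a : Fin 4 → ℝ, V = ∑ i, a i • X z e i)
    (hV' : ∃ a : Fin 4 → ℝ, V' = ∑ i, a i • X z e i) : A V V' = A' V V' := by
  obtain ⟨a, rfl⟩ := hV
  obtain ⟨b, rfl⟩ := hV'
  simp only [map_sum, map_smul, _root_.sum_apply, _root_.smul_apply]
  refine Finset.sum_congr rfl fun i _ => ?_
  refine congrArg _ ?_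
  refine Finset.sum_congr rfl fun j _ => ?_
  refine congrArg _ ?_
  exact h j i

lemma hh_tangent (hF : PHI) {ρ : ℝ} (hρ : 0 < ρ) {z : E4} (hz : z ≠ 0) (v : E4) :
    ⟪(hh ρ z).1, (fderiv ℝ (hh ρ) z v).1⟫ = 0 ∧
    ⟪(hh ρ z).1, (fderiv ℝ (hh ρ) z v).2⟫ + ⟪(fderiv ℝ (hh ρ) z v).1, (hh ρ z).2⟫ = 0 := by
  have hd : DifferentiableAt ℝ (hh ρ) z := (hh_smoothAt hF ρ hz).differentiableAt (by simp)
  have hd1 : HasFDerivAt (fun y => (hh ρ y).1)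
      ((ContinuousLinearMap.fst ℝ E3 E3).comp (fderiv ℝ (hh ρ) z)) z := hd.hasFDerivAt.fst
  have hd2 : HasFDerivAt (fun y => (hh ρ y).2)
      ((ContinuousLinearMap.snd ℝ E3 E3).comp (fderiv ℝ (hh ρ) z)) z := hd.hasFDerivAt.snd
  have e1 : (fun y => ⟪(hh ρ y).1, (hh ρ y).1⟫) =ᶠ[𝓝 z] fun _ => (1 : ℝ) := by
    filter_upwards [isOpen_compl_singleton.mem_nhds hz] with y hy
    have h1 := (hh_mem hF hρ hy (lt_add_one _)).1
    rw [real_inner_self_eq_norm_sq, h1, one_pow]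
  have e2 : (fun y => ⟪(hh ρ y).1, (hh ρ y).2⟫) =ᶠ[𝓝 z] fun _ => (0 : ℝ) := by
    filter_upwards [isOpen_compl_singleton.mem_nhds hz] with y hy
    exact (hh_mem hF hρ hy (lt_add_one _)).2.1
  have f1 := e1.fderiv_eq (𝕜 := ℝ)
  have f2 := e2.fderiv_eq (𝕜 := ℝ)
  have g1 := fderiv_inner_apply ℝ hd1.differentiableAt hd1.differentiableAt v
  have g2 := fderiv_inner_apply ℝ hd1.differentiableAt hd2.differentiableAt v
  rw [f1, fderiv_fun_const, hd1.fderiv] at g1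
  rw [f2, fderiv_fun_const, hd1.fderiv, hd2.fderiv] at g2
  simp only [ContinuousLinearMap.comp_apply, ContinuousLinearMap.coe_fst',
    ContinuousLinearMap.coe_snd', Pi.zero_apply, _root_.zero_apply] at g1 g2
  constructor
  · rw [real_inner_comm ((hh ρ z).1)] at g1
    linarith
  · linarith

lemma smooth_cr : ContDiff ℝ ∞ (fun z : E6 => cr z.1 z.2) := by
  have h : (fun z : E6 => cr z.1 z.2) = fun z : E6 => crL z.1 z.2 := rfl
  rw [h]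
  exact (smooth_crL.comp contDiff_fst).clm_apply contDiff_snd

lemma gps_diff {g : ℝ → ℝ} (hg : ContDiff ℝ ∞ g) {z : E6} (hz : z.2 ≠ 0) :
    DifferentiableAt ℝ (fun y : E6 => (-g ‖y.2‖) • ps y) z := by
  have h1 : ContDiffAt ℝ ∞ (fun y : E6 => ‖y.2‖) z := contDiffAt_snd.norm ℝ hz
  have h2 : ContDiffAt ℝ ∞ (fun y : E6 => (‖y.2‖ ^ 2)⁻¹) z :=
    (h1.pow 2).inv (pow_ne_zero 2 (norm_ne_zero_iff.2 hz))
  have h3 : ContDiffAt ℝ ∞ ps z := by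
    have h : ps = fun z : E6 => (‖z.2‖ ^ 2)⁻¹ •
        (innerSL ℝ (cr z.1 z.2)).comp (ContinuousLinearMap.snd ℝ E3 E3) := rfl
    rw [h]
    exact h2.smul ((((innerSL ℝ).contDiff.comp smooth_cr).contDiffAt).clm_comp contDiffAt_const)
  have h4 : ContDiffAt ℝ ∞ (fun y : E6 => -g ‖y.2‖) z := (hg.contDiffAt.comp z h1).neg
  exact (h4.smul h3).differentiableAt (by simp)

lemma hh2_ne (hF : PHI) {ρ : ℝ} (hρ : 0 < ρ) {z : E4} (hz : z ≠ 0) : (hh ρ z).2 ≠ 0 := by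
  rw [← norm_ne_zero_iff, norm_hh2 hF hρ hz]
  have := norm_ne_zero_iff.2 hz
  positivity

/-- the form `w 0` in the neck. -/
lemma FG_hh (hG : FGL) (hR : RADF) (hF : PHI) {ρ : ℝ} (hρ : 0 < ρ) {g : ℝ → ℝ} {c K t₀ : ℝ}
    (hg : Prof g c K t₀) {z : E4} (hz : z ≠ 0) (u v : E4) :
    FG g c K t₀ (hh ρ z) (fderiv ℝ (hh ρ) z u) (fderiv ℝ (hh ρ) z v) =
      4 * ρ * d1 (lg (fun t => g (ρ * t) / ρ)) z u v := by
  have hm := hh_mem hF hρ hz (lt_add_one _)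
  obtain ⟨e, he⟩ := exists_fr hm.1
  have hp := hh2_ne hF hρ hz
  have hpn : ‖(hh ρ z).2‖ ≠ 0 := norm_ne_zero_iff.2 hp
  have h1 : ∀ i j, en (FG g c K t₀ (hh ρ z)) (hh ρ z) e i j =
      en (d1 (fun y : E6 => (-g ‖y.2‖) • ps y) (hh ρ z)) (hh ρ z) e i j := by
    intro i j
    rw [hG.e _ g c K t₀ hg (hh ρ z) e hm he i j,
      hR.psf (hh ρ z) _ e (fun t => -g t) hm hp he
        ((hg.smooth.neg.contDiffAt).of_le (by exact_mod_cast le_top)) i j]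
    have h2 : deriv (fun t => -g t) ‖(hh ρ z).2‖ = - deriv g ‖(hh ρ z).2‖ := deriv.neg
    rw [h2]
    unfold gd
    rw [if_neg hpn]
    split_ifs <;> ring
  have hu := hh_tangent hF hρ hz u
  have hv := hh_tangent hF hρ hz v
  rw [bil_eq h1 (tangent_span he hu.1 hu.2) (tangent_span he hv.1 hv.2)]
  have h3 : ∀ᶠ y in 𝓝 z, (4 * ρ) • lg (fun t => g (ρ * t) / ρ) y =
      ((-g ‖(hh ρ y).2‖) • ps (hh ρ y)).comp (fderiv ℝ (hh ρ) y) := by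
    filter_upwards [isOpen_compl_singleton.mem_nhds hz] with y hy
    refine ContinuousLinearMap.ext fun w => ?_
    rw [ContinuousLinearMap.comp_apply]
    show (4 * ρ) * (lg (fun t => g (ρ * t) / ρ) y w) =
      (-g ‖(hh ρ y).2‖) * ps (hh ρ y) (fderiv ℝ (hh ρ) y w)
    rw [hF.pps y w ρ hy hρ, norm_hh2 hF hρ hy]
    show 4 * ρ * (g (ρ * ‖y‖ ^ 2) / ρ / ‖y‖ ^ 2 / 2 * ⟪qI y, w⟫) =
      -g (ρ * ‖y‖ ^ 2) * -(2 * ⟪qI y, w⟫ / ‖y‖ ^ 2)
    have hy' : ‖y‖ ≠ 0 := norm_ne_zero_iff.2 hy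
    field_simp
    ring
  rw [← d1_pullback' (s := fun y : E6 => (-g ‖y.2‖) • ps y)
    (t := fun y => (4 * ρ) • lg (fun t => g (ρ * t) / ρ) y) (hh_smoothAt hF ρ hz)
    (gps_diff hg.smooth hp) h3 u v]
  rw [d1_apply, d1_apply]
  have h4 : (fun y => (4 * ρ) • lg (fun t => g (ρ * t) / ρ) y) =
    (4 * ρ) • lg (fun t => g (ρ * t) / ρ) := rfl
  rw [h4, fderiv_const_smul_field]
  simp only [Pi.smul_apply, _root_.smul_apply, smul_eq_mul]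
  ring

/-! ### the map to the manifold -/

section Man

variable {M : Type u} [TopologicalSpace M] [T2Space M] [CompactSpace M]
  [ChartedSpace E4 M] [IsManifold 𝓘(ℝ, E4) ∞ M]

variable {σ : E3 → M} {r : ℝ} {Ps : E6 → M} {G : M → E6} {U : Set M}

/-- the neck. -/
def nk (Ps : E6 → M) (ρ : ℝ) : E4 → M := Ps ∘ hh ρ

lemma OS_mono {r r' : ℝ} (h : r ≤ r') : OS r ⊆ OS r' := fun _ hz => ⟨hz.1, hz.2.trans_le h⟩

lemma TS_mono {r r' : ℝ} (h : r ≤ r') : TS r ⊆ TS r' := fun _ hz => ⟨hz.1, hz.2.1, hz.2.2.trans_le h⟩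

lemma hh_OS (hF : PHI) {ρ : ℝ} (hρ : 0 < ρ) (hr : ρ < r) {z : E4} (hz : z ∈ KT_604.PB 1) :
    hh ρ z ∈ OS r := OS_mono hr.le (TS_subset_OS ρ (hh_PB hF hρ hz))

lemma hh_contMDiffAt (hF : PHI) (ρ : ℝ) {z : E4} (hz : z ≠ 0) :
    ContMDiffAt 𝓘(ℝ, E4) 𝓘(ℝ, E6) ∞ (hh ρ) z := (hh_smoothAt hF ρ hz).contMDiffAt

lemma D1_hh (ρ : ℝ) (z : E4) : D1 E4 E6 (hh ρ) z = fderiv ℝ (hh ρ) z := rfl

lemma dmap_nk (ρ : ℝ) (z u : E4) : dmap (nk Ps ρ) z u = D1 E4 E4 (nk Ps ρ) z u := rfl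

lemma D1_nk (h : Tube σ r Ps G U) (hF : PHI) {ρ : ℝ} (hρ : 0 < ρ) (hr : ρ < r) {z : E4}
    (hz : z ∈ KT_604.PB 1) :
    D1 E4 E4 (nk Ps ρ) z = (D1 E6 E4 Ps (hh ρ z)).comp (fderiv ℝ (hh ρ) z) := by
  have h1 := (hh_contMDiffAt hF ρ hz.1).of_le one_le_infty
  have h2 := (smoothAt h (hh_OS hF hρ hr hz)).of_le one_le_infty
  exact D1_comp (E := E4) (F := E6) (G := E4) (X := E4) (M := E6) (N := M) h1 h2

lemma val_nk (h : Tube σ r Ps G U) (hF : PHI) {ρ : ℝ} (hρ : 0 < ρ) (hr : ρ < r) {z : E4}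
    (hz : z ∈ KT_604.PB 1) (a : Z2 M) (u v : E4) :
    val a (nk Ps ρ z) (dmap (nk Ps ρ) z u) (dmap (nk Ps ρ) z v) =
      Om Ps a (hh ρ z) (fderiv ℝ (hh ρ) z u) (fderiv ℝ (hh ρ) z v) := by
  rw [dmap_nk, dmap_nk, D1_nk h hF hρ hr hz]
  rfl

lemma imm_nk (h : Tube σ r Ps G U) (hF : PHI) {ρ : ℝ} (hρ : 0 < ρ) (hr : ρ < r) {z : E4}
    (hz : z ∈ KT_604.PB 1) {v : E4} (hv : dmap (nk Ps ρ) z v = 0) : v = 0 := by
  refine hF.imm z v ρ hz.1 hρ.ne' ?_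
  have hz' := hh_OS hF hρ hr hz
  have h1 : G ∘ nk Ps ρ =ᶠ[𝓝 z] hh ρ := by
    have hop : IsOpen (KT_604.PB 1) := by
      have : KT_604.PB 1 = {0}ᶜ ∩ Metric.ball (0 : E4) 1 := by
        ext y; simp [KT_604.PB]
      rw [this]
      exact isOpen_compl_singleton.inter Metric.isOpen_ball
    filter_upwards [hop.mem_nhds hz] with y hy
    show G (Ps (hh ρ y)) = _
    rw [h.right _ (hh_OS hF hρ hr hy), Pi_hh hF hρ hy.1]
  have h2 : ContMDiffAt 𝓘(ℝ, E4) 𝓘(ℝ, E4) 1 (nk Ps ρ) z :=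
    ((smoothAt h hz').comp z (hh_contMDiffAt hF ρ hz.1)).of_le one_le_infty
  have h3 : ContMDiffAt 𝓘(ℝ, E4) 𝓘(ℝ, E6) 1 G (nk Ps ρ z) :=
    (smoothGAt h (h.maps _ hz')).of_le one_le_infty
  have h4 := D1_comp (E := E4) (F := E4) (G := E6) (X := E4) (M := M) (N := E6) h2 h3
  rw [D1_congr h1, D1_hh] at h4
  rw [h4, ContinuousLinearMap.comp_apply, ← dmap_nk, hv, map_zero]

end Man

end

end Crest.Agent.R235.K12Std_235
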