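import Crest.Agent.R235.K12Geo_128
import Crest.Agent.R235.K12Radf_843
import Crest.Agent.R235.K12StdA_235

/-!
Row 235 (S0364), block K12, leaf FGL of `K12AnDefs_776` (helper152): the closed form
`FG g c K t₀ = - d (g(|p|) ψ)`.
-/

set_option autoImplicit false
set_option maxSynthPendingDepth 3

open Set Function Filter MeasureTheory
open scoped Manifold ContDiff Topology RealInnerProductSpace

universe u

namespace Crest.Agent.R235.K12Fgl_152

open Crest.Agent.R240 Crest.Agent.R240.Ch Crest.Agent.R235 Crest.Agent.R235.K12_417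
  Crest.Agent.R235.K12An_776 Crest.Agent.R235.K12Ext_168

noncomputable section

variable {g g' : ℝ → ℝ} {c K t₀ c' K' t₀' : ℝ}

/-! ### the radial function -/

theorem kf_small {t : ℝ} (h : t ≤ t₀) : kf g c K t₀ t = K / 2 := if_pos h

theorem kf_pos (h : Prof g c K t₀) {t : ℝ} (ht : 0 < t) :
    kf g c K t₀ t = (g t - c) / t ^ 2 := by
  unfold kf
  split_ifs with h1
  · rw [h.eq t h1]
    field_simp
    ring
  · rfl

theorem prof_mono (h : Prof g c K t₀) {t₁ : ℝ} (h1 : 0 < t₁) (h2 : t₁ ≤ t₀) : Prof g c K t₁ :=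
  ⟨h.smooth, h1, fun s hs => h.eq s (hs.trans h2)⟩

theorem kf_eq (h : Prof g c K t₀) {t₁ : ℝ} (h1 : 0 < t₁) (h2 : t₁ ≤ t₀) :
    kf g c K t₁ = kf g c K t₀ := by
  funext t
  by_cases ht : t ≤ t₁
  · rw [kf_small ht, kf_small (ht.trans h2)]
  · have h0 : 0 < t := h1.trans (not_le.1 ht)
    rw [kf_pos (prof_mono h h1 h2) h0, kf_pos h h0]

theorem kf_smooth (h : Prof g c K t₀) : ContDiff ℝ ∞ (kf g c K t₀) := by
  rw [contDiff_iff_contDiffAt]
  intro t
  rcases lt_or_ge t t₀ with ht | ht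
  · refine (contDiffAt_const (c := K / 2)).congr_of_eventuallyEq ?_
    filter_upwards [Iio_mem_nhds ht] with s hs using kf_small (le_of_lt hs)
  · have h0 : 0 < t := h.pos.trans_le ht
    have h1 : ContDiffAt ℝ ∞ (fun s => (g s - c) / s ^ 2) t :=
      (h.smooth.contDiffAt.sub contDiffAt_const).div (contDiffAt_id.pow 2)
        (pow_ne_zero 2 h0.ne')
    refine h1.congr_of_eventuallyEq ?_
    filter_upwards [Ioi_mem_nhds h0] with s hs using kf_pos h hs

theorem kr_smooth (h : Prof g c K t₀) : ContDiff ℝ ∞ (fun y : E6 => kf g c K t₀ ‖y.2‖) := by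
  rw [contDiff_iff_contDiffAt]
  intro y
  by_cases hy : y.2 = 0
  · refine (contDiffAt_const (c := K / 2)).congr_of_eventuallyEq ?_
    have h1 : ∀ᶠ z : E6 in 𝓝 y, ‖z.2‖ < t₀ := by
      refine (continuous_snd.norm.continuousAt (x := y)).eventually (Iio_mem_nhds ?_)
      show ‖y.2‖ < t₀
      rw [hy, norm_zero]
      exact h.pos
    filter_upwards [h1] with z hz using kf_small hz.le
  · exact (kf_smooth h).contDiffAt.comp y (contDiffAt_snd.norm ℝ hy)

/-! ### the forms -/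

theorem l3_apply (z V : E6) : l3 z V = ⟪cr z.1 z.2, V.2⟫ := rfl

theorem contDiff_l3 : ContDiff ℝ ∞ l3 := by
  rw [contDiff_clm_apply_iff]
  intro V
  simp only [l3_apply]
  exact K12Radf_843.contDiff_cr.inner ℝ contDiff_const

/-- the one-form `- kf(|p|) |p|² ψ`. -/
def b0 (g : ℝ → ℝ) (c K t₀ : ℝ) (y : E6) : E6 →L[ℝ] ℝ := (- kf g c K t₀ ‖y.2‖) • l3 y

theorem contDiff_b0 (h : Prof g c K t₀) : ContDiff ℝ ∞ (b0 g c K t₀) :=
  (kr_smooth h).neg.smul contDiff_l3

theorem ar_apply (z U V : E6) : ar z U V = ⟪z.1, cr U.1 V.1⟫ := by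
  simp [ar, wd, dq, K12Radf_843.inn]

/-- the area form, as a linear map. -/
def arL : E6 →L[ℝ] B6 :=
  LinearMap.toContinuousLinearMap
    { toFun := ar
      map_add' := fun a b => by
        ext <;> simp [ar, add_smul] <;> ring
      map_smul' := fun t a => by
        ext <;> simp [ar, mul_smul] }

theorem arL_eq : (arL : E6 → B6) = ar := rfl

theorem contDiff_ar : ContDiff ℝ ∞ ar := by
  rw [← arL_eq]; exact arL.contDiff

theorem fderiv_ar (z : E6) : fderiv ℝ ar z = arL := by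
  rw [← arL_eq]; exact arL.fderiv

/-- the total form. -/
def BB (g : ℝ → ℝ) (c K t₀ : ℝ) (z : E6) : B6 := d1 (b0 g c K t₀) z + c • ar z

theorem FG_eq (g : ℝ → ℝ) (c K t₀ : ℝ) :
    FG g c K t₀ = fun z => d1 (PB1 (b0 g c K t₀)) z + c • PB2 ar z := rfl

theorem FG_pl (h : Prof g c K t₀) {r : ℝ} {z : E6} (hz : z ∈ OS r) :
    FG g c K t₀ z = PB_604.pl (fderiv ℝ Pi z) (BB g c K t₀ (Pi z)) := by
  rw [FG_eq]
  show d1 (PB1 (b0 g c K t₀)) z + c • PB2 ar z = _
  rw [K12Geo_128.d1PB r _ z hz ((contDiff_b0 h).differentiable (by simp) _)]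
  refine ContinuousLinearMap.ext fun U => ContinuousLinearMap.ext fun V => ?_
  simp only [_root_.add_apply, _root_.smul_apply, PB_604.pl_apply, PB2, BB]

theorem FG_apply (h : Prof g c K t₀) {r : ℝ} {z : E6} (hz : z ∈ OS r) (U V : E6) :
    FG g c K t₀ z U V = BB g c K t₀ (Pi z) (fderiv ℝ Pi z U) (fderiv ℝ Pi z V) := by
  rw [FG_pl h hz, PB_604.pl_apply]

/-! ### the entries -/

theorem en_ar {z : E6} {e : E3} (he : IsFr z.1 e) (i j : Fin 4) :
    en (ar z) z e i j = if i = 0 ∧ j = 1 then 1 else if i = 1 ∧ j = 0 then -1 else 0 := by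
  have h1 : cr e (cr z.1 e) = z.1 := K12Radf_843.fr_cr_e he
  have h2 : cr (cr z.1 e) e = -z.1 := by rw [K12Radf_843.cr_anti, h1]
  have h3 : ⟪z.1, z.1⟫ = 1 := K12Radf_843.fr_qq he
  fin_cases i <;> fin_cases j <;>
    simp [en, X, hor, ver, ar_apply, h1, h2, he.1, K12Radf_843.cr_self,
      K12Radf_843.cr_zero_right, K12Radf_843.cr_zero_left]

theorem fd_l3 (z U V : E6) : fderiv ℝ l3 z U V = ⟪cr U.1 z.2 + cr z.1 U.2, V.2⟫ := by
  refine K12Radf_843.fd_apply (contDiff_l3.differentiable (by simp) z) U V ?_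
  simp only [l3_apply]
  simpa using (K12Radf_843.hd_cr z U).inner ℝ (hasDerivAt_const (0 : ℝ) V.2)

theorem en_BB (h : Prof g c K t₀) {r : ℝ} {z : E6} {e : E3} (hz : z ∈ TS r) (he : IsFr z.1 e)
    (i j : Fin 4) : en (BB g c K t₀ z) z e i j =
      if i = 0 ∧ j = 1 then g ‖z.2‖ else if i = 1 ∧ j = 0 then - g ‖z.2‖
      else if i = 2 ∧ j = 3 then - gd g K ‖z.2‖
      else if i = 3 ∧ j = 2 then gd g K ‖z.2‖ else 0 := by
  have h0 : en (BB g c K t₀ z) z e i j =
      en (d1 (b0 g c K t₀) z) z e i j + c * en (ar z) z e i j := by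
    simp only [en, BB, _root_.add_apply, _root_.smul_apply, smul_eq_mul]
  rw [h0, en_ar he]
  by_cases hz2 : z.2 = 0
  · -- the zero section
    have h1 : b0 g c K t₀ =ᶠ[𝓝 z] fun y => (-(K / 2)) • l3 y := by
      have h1 : ∀ᶠ y : E6 in 𝓝 z, ‖y.2‖ < t₀ := by
        refine (continuous_snd.norm.continuousAt (x := z)).eventually (Iio_mem_nhds ?_)
        show ‖z.2‖ < t₀
        rw [hz2, norm_zero]
        exact h.pos
      filter_upwards [h1] with y hy
      show (- kf g c K t₀ ‖y.2‖) • l3 y = _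
      rw [kf_small hy.le]
    have h2 : ∀ U V : E6, d1 (b0 g c K t₀) z U V =
        (-(K / 2)) * (⟪cr z.1 U.2, V.2⟫ - ⟪cr z.1 V.2, U.2⟫) := by
      intro U V
      rw [d1_apply, h1.fderiv_eq, fderiv_fun_const_smul (contDiff_l3.differentiable (by simp) z)]
      simp only [_root_.smul_apply, smul_eq_mul, fd_l3, hz2, K12Radf_843.cr_zero_right, zero_add]
      ring
    have hg : g 0 = c := by
      rw [h.eq 0 h.pos.le]; ring
    have F := K12Radf_843.fac he hz.2.1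
    obtain ⟨q, p⟩ := z
    simp only at F he hz2
    subst hz2
    generalize hf : cr q e = f at F
    obtain ⟨h1, h2', h3, h4, h5, h6, h7, h8, h9, h10, h11, h12, h13, h14, h15, h16, h17, h18,
      h19, h20⟩ := F
    fin_cases i <;> fin_cases j <;>
      simp [en, X, hor, ver, h2, hf, gd, h2', h3, h8, h9, h12, hg, K12Radf_843.cr_zero_right]
    all_goals ring
  · have hn : 0 < ‖z.2‖ := norm_pos_iff.2 hz2
    have h1 : b0 g c K t₀ =ᶠ[𝓝 z] fun y => (fun t => c - g t) ‖y.2‖ • ps y := by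
      have ho : IsOpen {y : E6 | y.2 ≠ 0} := isOpen_ne_fun continuous_snd continuous_const
      filter_upwards [ho.mem_nhds hz2] with y hy
      have hy' : 0 < ‖y.2‖ := norm_pos_iff.2 hy
      refine ContinuousLinearMap.ext fun V => ?_
      show (- kf g c K t₀ ‖y.2‖) * l3 y V = (c - g ‖y.2‖) * ps y V
      rw [kf_pos h hy', K12Radf_843.ps_apply, l3_apply]
      field_simp
      ring
    have h2 : d1 (b0 g c K t₀) z = d1 (fun y => (fun t => c - g t) ‖y.2‖ • ps y) z := by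
      unfold d1
      rw [h1.fderiv_eq]
    have h3 : ContDiffAt ℝ 1 (fun t => c - g t) ‖z.2‖ :=
      (contDiffAt_const.sub h.smooth.contDiffAt).of_le (by norm_num)
    have h4 : deriv (fun t => c - g t) ‖z.2‖ = - deriv g ‖z.2‖ := by
      rw [deriv_const_sub]
    rw [h2, K12Radf_843.radf.psf z r e _ hz hz2 he h3, h4]
    fin_cases i <;> fin_cases j <;> simp [gd, hn.ne']
    all_goals ring

theorem en_FG (h : Prof g c K t₀) {r : ℝ} {z : E6} {e : E3} (hz : z ∈ TS r) (he : IsFr z.1 e)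
    (i j : Fin 4) : en (FG g c K t₀ z) z e i j =
      if i = 0 ∧ j = 1 then g ‖z.2‖ else if i = 1 ∧ j = 0 then - g ‖z.2‖
      else if i = 2 ∧ j = 3 then - gd g K ‖z.2‖
      else if i = 3 ∧ j = 2 then gd g K ‖z.2‖ else 0 := by
  rw [← en_BB h hz he, en, en, FG_apply h (TS_subset_OS r hz), Pi_of_TS hz,
    K12Geo_128.fix hz he, K12Geo_128.fix hz he]

/-! ### tangent vectors -/

/-- the values of `D Pi` are tangent to `T S²`. -/
theorem tan1 {z : E6} (hz : z.1 ≠ 0) (U : E6) : ⟪(Pi z).1, (fderiv ℝ Pi z U).1⟫ = 0 := by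
  have h1 : HasFDerivAt Pi (fderiv ℝ Pi z) z :=
    ((contDiffAt_Pi hz).differentiableAt (by simp)).hasFDerivAt
  have h2 : HasFDerivAt (fun y => (Pi y).1)
      ((ContinuousLinearMap.fst ℝ E3 E3).comp (fderiv ℝ Pi z)) z := h1.fst
  have h3 := h2.inner ℝ h2
  have h4 : (fun y => ⟪(Pi y).1, (Pi y).1⟫) =ᶠ[𝓝 z] fun _ => (1 : ℝ) := by
    filter_upwards [K12Geo_128.isOpen_ne.mem_nhds hz] with y hy
    rw [real_inner_self_eq_norm_sq, Pi_fst_norm hy, one_pow]
  have h5 := h3.unique ((hasFDerivAt_const (1 : ℝ) z).congr_of_eventuallyEq h4)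
  have h6 := congrArg (fun L : E6 →L[ℝ] ℝ => L U) h5
  have h7 : ⟪(Pi z).1, (fderiv ℝ Pi z U).1⟫ + ⟪(fderiv ℝ Pi z U).1, (Pi z).1⟫ = 0 := by
    simpa [fderivInnerCLM_apply] using h6
  rw [real_inner_comm (Pi z).1] at h7
  linarith

theorem tan2 {z : E6} (hz : z.1 ≠ 0) (U : E6) :
    ⟪(Pi z).1, (fderiv ℝ Pi z U).2⟫ + ⟪(fderiv ℝ Pi z U).1, (Pi z).2⟫ = 0 := by
  have h1 : HasFDerivAt Pi (fderiv ℝ Pi z) z :=
    ((contDiffAt_Pi hz).differentiableAt (by simp)).hasFDerivAt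
  have h2 : HasFDerivAt (fun y => (Pi y).1)
      ((ContinuousLinearMap.fst ℝ E3 E3).comp (fderiv ℝ Pi z)) z := h1.fst
  have h2' : HasFDerivAt (fun y => (Pi y).2)
      ((ContinuousLinearMap.snd ℝ E3 E3).comp (fderiv ℝ Pi z)) z := h1.snd
  have h3 := h2.inner ℝ h2'
  have h4 : (fun y => ⟪(Pi y).1, (Pi y).2⟫) =ᶠ[𝓝 z] fun _ => (0 : ℝ) := by
    filter_upwards [K12Geo_128.isOpen_ne.mem_nhds hz] with y hy
    exact Pi_inner hy
  have h5 := h3.unique ((hasFDerivAt_const (0 : ℝ) z).congr_of_eventuallyEq h4)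
  have h6 := congrArg (fun L : E6 →L[ℝ] ℝ => L U) h5
  simpa [fderivInnerCLM_apply] using h6

theorem span {z : E6} (hz : z.1 ≠ 0) {e : E3} (he : IsFr (Pi z).1 e) (U : E6) :
    ∃ a : Fin 4 → ℝ, fderiv ℝ Pi z U = ∑ i, a i • X (Pi z) e i :=
  K12Std_235.tangent_span he (tan1 hz U) (tan2 hz U)

/-! ### the area form is closed and basic -/

theorem inner_cr_tan {q a b c : E3} (hq : ‖q‖ = 1) (ha : ⟪q, a⟫ = 0) (hb : ⟪q, b⟫ = 0)
    (hc : ⟪q, c⟫ = 0) : ⟪a, cr b c⟫ = 0 := by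
  have h1 : cr q (cr b c) = 0 := by
    rw [K12Radf_843.cr_cr, hc, hb, zero_smul, zero_smul, sub_zero]
  have h2 : cr q (cr q (cr b c)) = ⟪q, cr b c⟫ • q - ⟪q, q⟫ • cr b c := K12Radf_843.cr_cr _ _ _
  rw [h1, K12Radf_843.cr_zero_right, real_inner_self_eq_norm_sq, hq, one_pow, one_smul] at h2
  have h3 : cr b c = ⟪q, cr b c⟫ • q := (sub_eq_zero.1 h2.symm).symm
  have h4 : ⟪a, q⟫ = 0 := by rw [real_inner_comm]; exact ha
  rw [h3, real_inner_smul_right, h4, mul_zero]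

theorem bas_ar (r : ℝ) : Bas r (PB2 ar) := by
  refine K12Geo_128.bas2 r ar (fun z _ => contDiff_ar.contDiffAt) ?_ ?_
  · intro z _ U V
    rw [ar_apply, ar_apply, K12Radf_843.cr_anti V.1 U.1, inner_neg_right]
  · intro z hz U V Y
    have hq := Pi_fst_norm hz.1
    have h1 := tan1 hz.1 U
    have h2 := tan1 hz.1 V
    have h3 := tan1 hz.1 Y
    simp only [dd, fderiv_ar]
    show ar (fderiv ℝ Pi z U) _ _ - ar (fderiv ℝ Pi z V) _ _ + ar (fderiv ℝ Pi z Y) _ _ = 0
    rw [ar_apply, ar_apply, ar_apply, inner_cr_tan hq h1 h2 h3, inner_cr_tan hq h2 h1 h3,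
      inner_cr_tan hq h3 h1 h2]
    ring

theorem bas_add {r : ℝ} {A B : E6 → B6} (hA : Bas r A) (hB : Bas r B) (c : ℝ) :
    Bas r (fun z => A z + c • B z) where
  smooth := hA.smooth.add (hB.smooth.const_smul c)
  alt := fun z hz U => by
    show A z U U + c * B z U U = 0
    rw [hA.alt z hz, hB.alt z hz, mul_zero, add_zero]
  closed := fun z hz U V Y => by
    have h1 : DifferentiableAt ℝ A z :=
      (hA.smooth.contDiffAt ((isOpen_OS r).mem_nhds hz)).differentiableAt (by simp)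
    have h2 : DifferentiableAt ℝ B z :=
      (hB.smooth.contDiffAt ((isOpen_OS r).mem_nhds hz)).differentiableAt (by simp)
    have h3 : dd (fun z => A z + c • B z) z U V Y = dd A z U V Y + c * dd B z U V Y := by
      simp only [dd]
      rw [fderiv_fun_add h1 (h2.fun_const_smul c), fderiv_fun_const_smul h2]
      simp only [_root_.add_apply, _root_.smul_apply, smul_eq_mul]
      ring
    rw [h3, hA.closed z hz, hB.closed z hz, mul_zero, add_zero]
  bas := fun z hz U V => by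
    show A z U V + c * B z U V = A (Pi z) _ _ + c * B (Pi z) _ _
    rw [hA.bas z hz, hB.bas z hz]

theorem bas_FG (h : Prof g c K t₀) (r : ℝ) : Bas r (FG g c K t₀) := by
  rw [FG_eq]
  exact bas_add (K12Geo_128.basd r _ (K12Geo_128.bas1 r _ fun z _ =>
    (contDiff_b0 h).contDiffAt)) (bas_ar r) c

/-! ### additivity, locality, support -/

theorem d1_add {a b : E6 → E6 →L[ℝ] ℝ} {z : E6} (ha : DifferentiableAt ℝ a z)
    (hb : DifferentiableAt ℝ b z) (t : ℝ) :
    d1 (fun y => a y + t • b y) z = d1 a z + t • d1 b z := by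
  refine ContinuousLinearMap.ext fun U => ContinuousLinearMap.ext fun V => ?_
  simp only [_root_.add_apply, _root_.smul_apply, smul_eq_mul, d1_apply]
  rw [fderiv_fun_add ha (hb.fun_const_smul t), fderiv_fun_const_smul hb]
  simp only [_root_.add_apply, _root_.smul_apply, smul_eq_mul]
  ring

theorem d1_congr {a b : E6 → E6 →L[ℝ] ℝ} {z : E6} (h : a =ᶠ[𝓝 z] b) : d1 a z = d1 b z := by
  unfold d1
  rw [h.fderiv_eq]

theorem prof_add (h : Prof g c K t₀) (h' : Prof g' c' K' t₀') (t : ℝ) {t₁ : ℝ} (h0 : 0 < t₁)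
    (h1 : t₁ ≤ t₀) (h2 : t₁ ≤ t₀') :
    Prof (fun x => g x + t * g' x) (c + t * c') (K + t * K') t₁ where
  smooth := h.smooth.add (contDiff_const.mul h'.smooth)
  pos := h0
  eq := fun s hs => by
    rw [h.eq s (hs.trans h1), h'.eq s (hs.trans h2)]
    ring

theorem kf_add (h : Prof g c K t₀) (h' : Prof g' c' K' t₀') (t : ℝ) {t₁ : ℝ} (h0 : 0 < t₁)
    (h1 : t₁ ≤ t₀) (h2 : t₁ ≤ t₀') (s : ℝ) :
    kf (fun x => g x + t * g' x) (c + t * c') (K + t * K') t₁ s =
      kf g c K t₀ s + t * kf g' c' K' t₀' s := by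
  rw [← kf_eq h h0 h1, ← kf_eq h' h0 h2]
  unfold kf
  split_ifs
  · ring
  · ring

theorem FG_add (h : Prof g c K t₀) (h' : Prof g' c' K' t₀') (t : ℝ) {t₁ : ℝ} (h0 : 0 < t₁)
    (h1 : t₁ ≤ t₀) (h2 : t₁ ≤ t₀') {r : ℝ} {z : E6} (hz : z ∈ OS r) :
    FG (fun x => g x + t * g' x) (c + t * c') (K + t * K') t₁ z =
      FG g c K t₀ z + t • FG g' c' K' t₀' z := by
  have h3 : b0 (fun x => g x + t * g' x) (c + t * c') (K + t * K') t₁ =
      fun y => b0 g c K t₀ y + t • b0 g' c' K' t₀' y := by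
    funext y
    simp only [b0, kf_add h h' t h0 h1 h2]
    module
  refine ContinuousLinearMap.ext fun U => ContinuousLinearMap.ext fun V => ?_
  simp only [_root_.add_apply, _root_.smul_apply, smul_eq_mul,
    FG_apply (prof_add h h' t h0 h1 h2) hz, FG_apply h hz, FG_apply h' hz, BB]
  rw [h3, d1_add ((contDiff_b0 h).differentiable (by simp) _)
    ((contDiff_b0 h').differentiable (by simp) _)]
  simp only [_root_.add_apply, _root_.smul_apply, smul_eq_mul]
  ring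

theorem FG_congr (h : Prof g c K t₀) (h' : Prof g' c K t₀') {ρ : ℝ}
    (he : ∀ t < ρ, g t = g' t) {r : ℝ} {z : E6} (hz : z ∈ OS r) (hr : rho z < ρ) :
    FG g c K t₀ z = FG g' c K t₀' z := by
  have h1 : b0 g c K t₀ =ᶠ[𝓝 (Pi z)] b0 g' c K t₀' := by
    have h1 : ∀ᶠ y : E6 in 𝓝 (Pi z), ‖y.2‖ < ρ :=
      (continuous_snd.norm.continuousAt (x := Pi z)).eventually (Iio_mem_nhds hr)
    filter_upwards [h1] with y hy
    unfold b0
    rcases (norm_nonneg y.2).eq_or_lt with h2 | h2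
    · rw [kf_small (by rw [← h2]; exact h.pos.le), kf_small (by rw [← h2]; exact h'.pos.le)]
    · rw [kf_pos h h2, kf_pos h' h2, he _ hy]
  rw [FG_pl h hz, FG_pl h' hz]
  unfold BB
  rw [d1_congr h1]

theorem FG_supp (h : Prof g c K t₀) {ρ : ℝ} (hg : ∀ t, ρ ≤ t → g t = 0) {r : ℝ} {z : E6}
    (hz : z ∈ OS r) (hr : ρ ≤ rho z) : FG g c K t₀ z = 0 := by
  have hP := Pi_mem_TS hz
  obtain ⟨e, he⟩ := K12Std_235.exists_fr hP.1
  have h1 : g ‖(Pi z).2‖ = 0 := hg _ hr
  have h2 : gd g K ‖(Pi z).2‖ = 0 := by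
    unfold gd
    split_ifs with h3
    · have h4 : ∀ t, 0 ≤ t → g t = 0 := fun t ht =>
        hg t ((hr.trans_eq h3).trans ht)
      have h5 := h.eq 0 h.pos.le
      have h6 := h.eq t₀ le_rfl
      rw [h4 0 le_rfl] at h5
      rw [h4 t₀ h.pos.le] at h6
      have h7 : c = 0 := by linarith
      have h8 : K * t₀ ^ 2 = 0 := by linarith
      exact (mul_eq_zero.1 h8).resolve_right (pow_ne_zero 2 h.pos.ne')
    · have h4 : deriv g ‖(Pi z).2‖ = 0 := by
        have h5 : HasDerivWithinAt g (deriv g ‖(Pi z).2‖) (Ici ‖(Pi z).2‖) ‖(Pi z).2‖ :=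
          ((h.smooth.differentiable (by simp)) _).hasDerivAt.hasDerivWithinAt
        have h6 : HasDerivWithinAt g 0 (Ici ‖(Pi z).2‖) ‖(Pi z).2‖ :=
          (hasDerivWithinAt_const _ _ (0 : ℝ)).congr (fun t ht => hg t (le_trans hr ht)) h1
        exact (uniqueDiffWithinAt_Ici _).eq_deriv _ h5 h6
      rw [h4, zero_div]
  refine ContinuousLinearMap.ext fun U => ContinuousLinearMap.ext fun V => ?_
  rw [FG_apply h hz]
  refine (K12Std_235.bil_eq (A' := 0) (e := e) ?_ (span hz.1 he U) (span hz.1 he V)).trans rfl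
  intro i j
  rw [en_BB h hP he i j, h1, h2]
  simp [en]

/-- LEAF FGL. -/
theorem fgl : FGL where
  bas := fun r _ _ _ _ h => bas_FG h r
  e := fun _ _ _ _ _ h _ _ hz he i j => en_FG h hz he i j
  add := fun _ _ _ _ _ _ _ _ _ h h' t _ h0 h1 h2 _ hz => FG_add h h' t h0 h1 h2 hz
  congr := fun _ _ _ _ _ _ _ h h' _ he _ hz hr => FG_congr h h' he hz hr
  supp := fun _ _ _ _ _ h _ hg _ hz hr => FG_supp h hg hz hr

end

end Crest.Agent.R235.K12Fgl_152
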