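import Crest.Agent.R235.K12S2a_776

/-!
Row 235 (S0364), block K12, leaf FGL (helper504): the smooth closed form `FG = - d (g(|p|) ψ)`.
-/

set_option autoImplicit false
set_option maxSynthPendingDepth 3

open Set Function Filter MeasureTheory
open scoped Manifold ContDiff Topology RealInnerProductSpace

universe u

namespace Crest.Agent.R235.K12Fgl_504

open Crest.Agent.R240 Crest.Agent.R240.Ch Crest.Agent.R235 Crest.Agent.R235.K12_417
  Crest.Agent.R235.K12An_776 Crest.Agent.R235.K12S2a_776 Crest.Agent.R235.K12Ext_168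

noncomputable section

/-! ### the profile -/

section prof

variable {g : ℝ → ℝ} {c K t₀ : ℝ}

theorem kf_le {t : ℝ} (h : t ≤ t₀) : kf g c K t₀ t = K / 2 := if_pos h

theorem kf_sq (h : Prof g c K t₀) (t : ℝ) : kf g c K t₀ t * t ^ 2 = g t - c := by
  unfold kf
  split_ifs with h1
  · rw [h.eq t h1]; ring
  · have h2 : 0 < t := lt_trans h.pos (not_le.1 h1)
    field_simp

theorem kf_pos (h : Prof g c K t₀) {t : ℝ} (ht : 0 < t) :
    kf g c K t₀ t = (g t - c) / t ^ 2 := by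
  rw [eq_div_iff (by positivity), kf_sq h]

theorem kf_smooth (h : Prof g c K t₀) : ContDiff ℝ ∞ (kf g c K t₀) := by
  rw [contDiff_iff_contDiffAt]
  intro t
  by_cases h1 : t < t₀
  · refine (contDiffAt_const (c := K / 2)).congr_of_eventuallyEq ?_
    filter_upwards [Iio_mem_nhds h1] with s hs
    exact kf_le (le_of_lt hs)
  · have h2 : 0 < t := lt_of_lt_of_le h.pos (not_lt.1 h1)
    have h3 : ContDiffAt ℝ ∞ (fun s => (g s - c) / s ^ 2) t :=
      (h.smooth.contDiffAt.sub contDiffAt_const).div (contDiffAt_id.pow 2) (by positivity)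
    refine h3.congr_of_eventuallyEq ?_
    filter_upwards [Ioi_mem_nhds h2] with s hs
    exact kf_pos h hs

end prof

/-! ### the forms `l3` and `ar` -/

theorem l3_apply (z V : E6) : l3 z V = ⟪cr z.1 z.2, V.2⟫ := by
  simp [l3]

theorem contDiff_l3 : ContDiff ℝ ∞ l3 := by
  rw [contDiff_clm_apply_iff]
  intro V
  simp only [l3_apply]
  exact K12Radf_843.contDiff_cr.inner ℝ contDiff_const

theorem l3_eq_ps {z : E6} (hz : z.2 ≠ 0) : l3 z = ‖z.2‖ ^ 2 • ps z := by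
  have hn : ‖z.2‖ ^ 2 ≠ 0 := pow_ne_zero 2 (norm_ne_zero_iff.2 hz)
  rw [ps, smul_smul, mul_inv_cancel₀ hn, one_smul]
  rfl

theorem fd_l3 (z U V : E6) : fderiv ℝ l3 z U V = ⟪cr U.1 z.2 + cr z.1 U.2, V.2⟫ := by
  refine K12Radf_843.fd_apply (contDiff_l3.differentiable (by simp) z) U V ?_
  simp only [l3_apply]
  simpa using (K12Radf_843.hd_cr z U).inner ℝ (hasDerivAt_const (0 : ℝ) V.2)

theorem ar_apply (z U V : E6) : ar z U V = ⟪z.1, cr U.1 V.1⟫ := by
  rw [K12Radf_843.inn]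
  simp [ar, wd, dq, cr]

/-- `ar` as a linear map. -/
def arL : E6 →L[ℝ] B6 :=
  (((EuclideanSpace.proj 0 : E3 →L[ℝ] ℝ).comp (ContinuousLinearMap.fst ℝ E3 E3)).smulRight
      (wd (dq 1) (dq 2)) +
    ((EuclideanSpace.proj 1 : E3 →L[ℝ] ℝ).comp (ContinuousLinearMap.fst ℝ E3 E3)).smulRight
      (wd (dq 2) (dq 0))) +
    ((EuclideanSpace.proj 2 : E3 →L[ℝ] ℝ).comp (ContinuousLinearMap.fst ℝ E3 E3)).smulRight
      (wd (dq 0) (dq 1))

theorem ar_eq : ar = fun z => arL z := by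
  funext z
  rfl

theorem contDiff_ar : ContDiff ℝ ∞ ar := by
  rw [ar_eq]; exact arL.contDiff

theorem fd_ar (z U : E6) : fderiv ℝ ar z U = ar U := by
  have h : HasFDerivAt ar arL z := by
    rw [ar_eq]; exact arL.hasFDerivAt
  rw [h.fderiv]
  rfl

theorem det_zero {q a b c : E3} (hq : ‖q‖ = 1) (ha : ⟪q, a⟫ = 0) (hb : ⟪q, b⟫ = 0)
    (hc : ⟪q, c⟫ = 0) : ⟪a, cr b c⟫ = 0 := by
  have h1 : ⟪q, q⟫ = 1 := by rw [real_inner_self_eq_norm_sq, hq]; norm_num
  rw [K12Radf_843.inn] at ha hb hc h1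
  rw [K12Radf_843.inn]
  simp only [K12Radf_843.cr0, K12Radf_843.cr1, K12Radf_843.cr2]
  linear_combination (-(a 0 * (b 1 * c 2 - b 2 * c 1) + a 1 * (b 2 * c 0 - b 0 * c 2) +
      a 2 * (b 0 * c 1 - b 1 * c 0))) * h1 +
    (q 0 * (b 1 * c 2 - b 2 * c 1) + q 1 * (b 2 * c 0 - b 0 * c 2) +
      q 2 * (b 0 * c 1 - b 1 * c 0)) * ha +
    (q 0 * (c 1 * a 2 - c 2 * a 1) + q 1 * (c 2 * a 0 - c 0 * a 2) +
      q 2 * (c 0 * a 1 - c 1 * a 0)) * hb +
    (q 0 * (a 1 * b 2 - a 2 * b 1) + q 1 * (a 2 * b 0 - a 0 * b 2) +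
      q 2 * (a 0 * b 1 - a 1 * b 0)) * hc

/-! ### tangent vectors -/

/-- the image of the differential of `Pi` is tangent to `T S²`. -/
theorem tan_Pi {z : E6} (hz : z.1 ≠ 0) (U : E6) :
    ⟪(Pi z).1, (fderiv ℝ Pi z U).1⟫ = 0 ∧
      ⟪(Pi z).1, (fderiv ℝ Pi z U).2⟫ + ⟪(fderiv ℝ Pi z U).1, (Pi z).2⟫ = 0 := by
  have hl : HasDerivAt (fun t : ℝ => z + t • U) U 0 := K12Radf_843.hd_line z U
  have hP : HasFDerivAt Pi (fderiv ℝ Pi z) (z + (0 : ℝ) • U) := by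
    rw [zero_smul, add_zero]
    exact ((contDiffAt_Pi hz).differentiableAt (by simp)).hasFDerivAt
  have hD : HasDerivAt (fun t : ℝ => Pi (z + t • U)) (fderiv ℝ Pi z U) 0 :=
    HasFDerivAt.comp_hasDerivAt (0 : ℝ) (l := Pi) hP hl
  have h1 : HasDerivAt (fun t : ℝ => (Pi (z + t • U)).1) (fderiv ℝ Pi z U).1 0 := hD.fst
  have h2 : HasDerivAt (fun t : ℝ => (Pi (z + t • U)).2) (fderiv ℝ Pi z U).2 0 := hD.snd
  have hev : ∀ᶠ t : ℝ in 𝓝 0, (z + t • U).1 ≠ 0 := by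
    have hc : ContinuousAt (fun t : ℝ => (z + t • U).1) 0 := by fun_prop
    apply hc.eventually_ne
    simpa using hz
  constructor
  · have h3 := h1.inner ℝ h1
    have h4 : HasDerivAt (fun t : ℝ => (⟪(Pi (z + t • U)).1, (Pi (z + t • U)).1⟫ : ℝ)) 0 0 := by
      refine (hasDerivAt_const (0 : ℝ) (1 : ℝ)).congr_of_eventuallyEq ?_
      filter_upwards [hev] with t ht
      rw [real_inner_self_eq_norm_sq, Pi_fst_norm ht]; norm_num
    have h5 := h3.unique h4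
    simp only [zero_smul, add_zero] at h5
    have h6 := real_inner_comm (Pi z).1 (fderiv ℝ Pi z U).1
    linarith
  · have h3 := h1.inner ℝ h2
    have h4 : HasDerivAt (fun t : ℝ => (⟪(Pi (z + t • U)).1, (Pi (z + t • U)).2⟫ : ℝ)) 0 0 := by
      refine (hasDerivAt_const (0 : ℝ) (0 : ℝ)).congr_of_eventuallyEq ?_
      filter_upwards [hev] with t ht
      exact Pi_inner ht
    have h5 := h3.unique h4
    simpa using h5

/-- expansion in an orthonormal frame. -/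
theorem expand {q e : E3} (h : IsFr q e) (x : E3) :
    x = ⟪q, x⟫ • q + ⟪e, x⟫ • e + ⟪cr q e, x⟫ • cr q e := by
  have hqq := K12Radf_843.fr_qq h
  have hee := K12Radf_843.fr_ee h
  have hff := K12Radf_843.fr_e3 h
  have hqe : ⟪q, e⟫ = 0 := h.2.2
  have heq : ⟪e, q⟫ = 0 := by rw [real_inner_comm]; exact hqe
  have hqf : ⟪q, cr q e⟫ = 0 := K12Radf_843.inn_cr_left _ _
  have hfq : ⟪cr q e, q⟫ = 0 := by rw [real_inner_comm]; exact hqf
  have hef : ⟪e, cr q e⟫ = 0 := K12Radf_843.inn_cr_right _ _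
  have hfe : ⟪cr q e, e⟫ = 0 := by rw [real_inner_comm]; exact hef
  set f := cr q e with hf
  set y : E3 := x - (⟪q, x⟫ • q + ⟪e, x⟫ • e + ⟪f, x⟫ • f) with hy
  have hy1 : ⟪q, y⟫ = 0 := by
    rw [hy]
    simp only [inner_sub_right, inner_add_right, inner_smul_right, hqq, hqe, hqf]
    ring
  have hy2 : ⟪y, e⟫ = 0 := by
    rw [real_inner_comm, hy]
    simp only [inner_sub_right, inner_add_right, inner_smul_right, hee, heq, hef]
    ring
  have hy3 : ⟪y, f⟫ = 0 := by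
    rw [real_inner_comm, hy]
    simp only [inner_sub_right, inner_add_right, inner_smul_right, hff, hfq, hfe]
    ring
  have h1 := K12Radf_843.fr_sq h hy1
  rw [← hf, hy2, hy3] at h1
  have h2 : ‖y‖ = 0 := by nlinarith [norm_nonneg y]
  have h3 := norm_eq_zero.1 h2
  rw [hy, sub_eq_zero] at h3
  exact h3

/-- a tangent vector in the frame. -/
theorem tan_span {z : E6} {e : E3} (he : IsFr z.1 e) {U : E6} (h1 : ⟪z.1, U.1⟫ = 0)
    (h2 : ⟪z.1, U.2⟫ + ⟪U.1, z.2⟫ = 0) : ∃ a : Fin 4 → ℝ, U = ∑ i, a i • X z e i := by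
  refine ⟨![⟪e, U.1⟫, ⟪cr z.1 e, U.1⟫, ⟪e, U.2⟫, ⟪cr z.1 e, U.2⟫], ?_⟩
  have e1 := expand he U.1
  have e2 := expand he U.2
  rw [h1, zero_smul, zero_add] at e1
  have h3 : ⟪z.1, U.2⟫ = -(⟪e, U.1⟫ * ⟪z.2, e⟫ + ⟪cr z.1 e, U.1⟫ * ⟪z.2, cr z.1 e⟫) := by
    have h4 : ⟪U.1, z.2⟫ = ⟪e, U.1⟫ * ⟪z.2, e⟫ + ⟪cr z.1 e, U.1⟫ * ⟪z.2, cr z.1 e⟫ := by
      conv_lhs => rw [e1]
      rw [inner_add_left, real_inner_smul_left, real_inner_smul_left, real_inner_comm e,
        real_inner_comm (cr z.1 e)]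
    linarith
  rw [Fin.sum_univ_four]
  refine Prod.ext ?_ ?_
  · show U.1 = ⟪e, U.1⟫ • e + ⟪cr z.1 e, U.1⟫ • cr z.1 e + ⟪e, U.2⟫ • (0 : E3) +
      ⟪cr z.1 e, U.2⟫ • (0 : E3)
    rw [smul_zero, smul_zero, add_zero, add_zero]
    exact e1
  · show U.2 = ⟪e, U.1⟫ • (-(⟪z.2, e⟫ • z.1)) + ⟪cr z.1 e, U.1⟫ • (-(⟪z.2, cr z.1 e⟫ • z.1)) +
      ⟪e, U.2⟫ • e + ⟪cr z.1 e, U.2⟫ • cr z.1 e
    conv_lhs => rw [e2, h3]
    module

/-- a form whose entries vanish kills the tangent vectors. -/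
theorem en_zero {b : B6} {z : E6} {e : E3} (h : ∀ i j, en b z e i j = 0) {U V : E6}
    (hU : ∃ a : Fin 4 → ℝ, U = ∑ i, a i • X z e i)
    (hV : ∃ a : Fin 4 → ℝ, V = ∑ i, a i • X z e i) : b U V = 0 := by
  obtain ⟨a, rfl⟩ := hU
  obtain ⟨a', rfl⟩ := hV
  simp only [map_sum, sum_apply, map_smul, smul_apply]
  refine Finset.sum_eq_zero fun i _ => ?_
  rw [Finset.sum_eq_zero, smul_zero]
  intro j _
  have := h j i
  unfold en at this
  rw [this, smul_zero]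

/-! ### the radial one-form -/

section main

variable {r : ℝ} {g : ℝ → ℝ} {c K t₀ : ℝ}

theorem d1_csmul (a : ℝ) {s : E6 → E6 →L[ℝ] ℝ} {z : E6} (hs : DifferentiableAt ℝ s z) :
    d1 (fun y => a • s y) z = a • d1 s z := by
  refine ContinuousLinearMap.ext fun U => ContinuousLinearMap.ext fun V => ?_
  rw [Ch.d1_smul (differentiableAt_const a) hs]
  simp

/-- the one-form on `E6`. -/
def gam (g : ℝ → ℝ) (c K t₀ : ℝ) (w : E6) : E6 →L[ℝ] ℝ := (- kf g c K t₀ ‖w.2‖) • l3 w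

/-- its pull-back. -/
def bt (g : ℝ → ℝ) (c K t₀ : ℝ) (y : E6) : E6 →L[ℝ] ℝ := (- kf g c K t₀ (rho y)) • PB1 l3 y

theorem bt_eq : bt g c K t₀ = PB1 (gam g c K t₀) := by
  funext y
  rfl

theorem FG_eq (z : E6) : FG g c K t₀ z = d1 (bt g c K t₀) z + c • PB2 ar z := rfl

theorem bas1_bt (hG : GEO) (h : Prof g c K t₀) : Bas1 r (bt g c K t₀) :=
  bas1_chi (χ := fun t => - kf g c K t₀ t) (kf_smooth h).neg h.pos (c := -(K / 2))
    (fun t ht => by rw [kf_le ht]) (hG.bas1 r l3 fun _ _ => contDiff_l3.contDiffAt)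

theorem bas_ar (hG : GEO) : Bas r (PB2 ar) := by
  refine hG.bas2 r ar (fun _ _ => contDiff_ar.contDiffAt) ?_ ?_
  · intro z _ U V
    rw [ar_apply, ar_apply, K12Radf_843.cr_anti, inner_neg_right]
  · intro z hz U V Y
    have h1 := (tan_Pi hz.1 U).1
    have h2 := (tan_Pi hz.1 V).1
    have h3 := (tan_Pi hz.1 Y).1
    have hq := Pi_fst_norm hz.1
    unfold dd
    rw [fd_ar, fd_ar, fd_ar, ar_apply, ar_apply, ar_apply, det_zero hq h1 h2 h3,
      det_zero hq h2 h1 h3, det_zero hq h3 h1 h2]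
    ring

theorem bas_FG (hG : GEO) (h : Prof g c K t₀) : Bas r (FG g c K t₀) :=
  bas_add (hG.basd r _ (bas1_bt hG h)) (bas_smul c (bas_ar hG))

theorem gam_ps (h : Prof g c K t₀) {y : E6} (hy : y.2 ≠ 0) :
    gam g c K t₀ y = (c - g ‖y.2‖) • ps y := by
  unfold gam
  rw [l3_eq_ps hy, smul_smul]
  congr 1
  have := kf_sq h ‖y.2‖
  linarith

theorem gam_ev_ps (h : Prof g c K t₀) {w : E6} (hw : w.2 ≠ 0) :
    gam g c K t₀ =ᶠ[𝓝 w] fun y => (fun t => c - g t) ‖y.2‖ • ps y := by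
  filter_upwards [continuousAt_snd.eventually_ne hw] with y hy
  exact gam_ps h hy

theorem gam_ev_zero (h : Prof g c K t₀) {w : E6} (hw : w.2 = 0) :
    gam g c K t₀ =ᶠ[𝓝 w] fun y => (-(K / 2)) • l3 y := by
  have hc : ContinuousAt (fun y : E6 => ‖y.2‖) w := by fun_prop
  have h1 : ∀ᶠ y : E6 in 𝓝 w, ‖y.2‖ < t₀ := by
    apply hc.eventually_lt_const
    show ‖w.2‖ < t₀
    rw [hw, norm_zero]
    exact h.pos
  filter_upwards [h1] with y hy
  unfold gam
  rw [kf_le hy.le]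

theorem gam_diff (h : Prof g c K t₀) (w : E6) : DifferentiableAt ℝ (gam g c K t₀) w := by
  by_cases hw : w.2 = 0
  · refine DifferentiableAt.congr_of_eventuallyEq ?_ (gam_ev_zero h hw)
    exact (contDiff_l3.differentiable (by simp) w).const_smul (-(K / 2) : ℝ)
  · have h1 : ContDiffAt ℝ ∞ (fun y : E6 => ‖y.2‖) w :=
      (contDiffAt_norm ℝ hw).comp w contDiffAt_snd
    have h2 : ContDiffAt ℝ ∞ (fun y : E6 => - kf g c K t₀ ‖y.2‖) w :=
      ((kf_smooth h).contDiffAt.comp w h1).neg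
    exact (h2.smul contDiff_l3.contDiffAt).differentiableAt (by simp)

/-- the entries of `ar`. -/
theorem en_ar {z : E6} {e : E3} (he : IsFr z.1 e) (i j : Fin 4) :
    en (ar z) z e i j = if i = 0 ∧ j = 1 then 1 else if i = 1 ∧ j = 0 then -1 else 0 := by
  have h1 : ⟪z.1, cr e (cr z.1 e)⟫ = 1 := by
    rw [K12Radf_843.fr_cr_e he, K12Radf_843.fr_qq he]
  have h2 : ⟪z.1, cr (cr z.1 e) e⟫ = -1 := by
    rw [K12Radf_843.cr_anti, inner_neg_right, h1]
  unfold en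
  rw [ar_apply]
  fin_cases i <;> fin_cases j <;>
    simp [X, hor, ver, h1, h2, K12Radf_843.cr_self, K12Radf_843.cr_zero_left,
      K12Radf_843.cr_zero_right]

/-- the entries of `d l3` on the zero section. -/
theorem en_l3 {z : E6} {e : E3} (hz : z.2 = 0) (he : IsFr z.1 e) (i j : Fin 4) :
    en (d1 l3 z) z e i j = if i = 2 ∧ j = 3 then 2 else if i = 3 ∧ j = 2 then -2 else 0 := by
  have hff := K12Radf_843.fr_e3 he
  have hee := K12Radf_843.fr_ee he
  have h3 := K12Radf_843.fr_cr_qq he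
  have hef : ⟪e, cr z.1 e⟫ = 0 := K12Radf_843.inn_cr_right _ _
  have hfe : ⟪cr z.1 e, e⟫ = 0 := by rw [real_inner_comm]; exact hef
  unfold en
  rw [d1_apply, fd_l3, fd_l3, hz]
  fin_cases i <;> fin_cases j <;>
    simp [X, hor, ver, hz, h3, K12Radf_843.cr_zero_right, he.2.1, K12Radf_843.fr_norm_e3 he,
      hef, hfe] <;> norm_num

theorem en_bt (hG : GEO) (h : Prof g c K t₀) {z : E6} {e : E3} (hz : z ∈ TS r)
    (he : IsFr z.1 e) (i j : Fin 4) :
    en (d1 (bt g c K t₀) z) z e i j = en (d1 (gam g c K t₀) z) z e i j := by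
  have h1 := hG.d1PB r (gam g c K t₀) z (hG.TS_sub r hz) (gam_diff h _)
  rw [bt_eq, h1, en, PB_604.pl_apply, hG.fix r z e hz he, hG.fix r z e hz he, hG.Pi_TS r z hz]
  rfl

theorem en_gam (hR : RADF) (h : Prof g c K t₀) {z : E6} {e : E3} (hz : z ∈ TS r)
    (he : IsFr z.1 e) (i j : Fin 4) : en (d1 (gam g c K t₀) z) z e i j =
      if i = 0 ∧ j = 1 then g ‖z.2‖ - c else if i = 1 ∧ j = 0 then c - g ‖z.2‖
      else if i = 2 ∧ j = 3 then - gd g K ‖z.2‖
      else if i = 3 ∧ j = 2 then gd g K ‖z.2‖ else 0 := by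
  by_cases hp : z.2 = 0
  · have h0 : g 0 = c := by
      have := h.eq 0 h.pos.le
      simpa using this
    have h1 : d1 (gam g c K t₀) z = (-(K / 2)) • d1 l3 z := by
      rw [d1_congr (gam_ev_zero h hp)]
      exact d1_csmul _ (contDiff_l3.differentiable (by simp) z)
    rw [h1, K12Pos_776.en_smul, en_l3 hp he, hp, norm_zero, h0]
    have h2 : gd g K 0 = K := if_pos rfl
    rw [h2]
    fin_cases i <;> fin_cases j <;> simp
  · rw [d1_congr (gam_ev_ps h hp)]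
    have hn : ‖z.2‖ ≠ 0 := norm_ne_zero_iff.2 hp
    have h1 := hR.psf z r e (fun t => c - g t) hz hp he
      ((contDiff_const.sub (h.smooth.of_le (by simp))).contDiffAt) i j
    rw [h1]
    have h2 : deriv (fun t => c - g t) ‖z.2‖ = - deriv g ‖z.2‖ := by
      rw [deriv_const_sub]
    have h3 : gd g K ‖z.2‖ = deriv g ‖z.2‖ / ‖z.2‖ := if_neg hn
    rw [h2, h3]
    simp only [neg_sub, neg_div, neg_neg]

/-- the entries of `FG`. -/
theorem en_FG (hG : GEO) (hR : RADF) (h : Prof g c K t₀) {z : E6} {e : E3} (hz : z ∈ TS r)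
    (he : IsFr z.1 e) (i j : Fin 4) : en (FG g c K t₀ z) z e i j =
      if i = 0 ∧ j = 1 then g ‖z.2‖ else if i = 1 ∧ j = 0 then - g ‖z.2‖
      else if i = 2 ∧ j = 3 then - gd g K ‖z.2‖
      else if i = 3 ∧ j = 2 then gd g K ‖z.2‖ else 0 := by
  rw [FG_eq, K12Pos_776.en_add, K12Pos_776.en_smul, en_bt hG h hz he, en_gam hR h hz he,
    hG.en_PB2 r ar z e hz he, en_ar he]
  fin_cases i <;> fin_cases j <;> simp
  ring

theorem FG_add (hG : GEO) {g' : ℝ → ℝ} {c' K' t₀' : ℝ} (h : Prof g c K t₀)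
    (h' : Prof g' c' K' t₀') (t t₁ : ℝ) (ht : 0 < t₁) (h1 : t₁ ≤ t₀) (h2 : t₁ ≤ t₀') {z : E6}
    (hz : z ∈ OS r) :
    FG (fun x => g x + t * g' x) (c + t * c') (K + t * K') t₁ z =
      FG g c K t₀ z + t • FG g' c' K' t₀' z := by
  have hk : ∀ s : ℝ, kf (fun x => g x + t * g' x) (c + t * c') (K + t * K') t₁ s =
      kf g c K t₀ s + t * kf g' c' K' t₀' s := by
    intro s
    by_cases hs : s ≤ t₁
    · rw [kf_le hs, kf_le (hs.trans h1), kf_le (hs.trans h2)]; ring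
    · have hs0 : 0 < s := lt_trans ht (not_le.1 hs)
      rw [kf_pos h hs0, kf_pos h' hs0]
      unfold kf
      rw [if_neg hs]
      ring
  have hb : bt (fun x => g x + t * g' x) (c + t * c') (K + t * K') t₁ =
      fun y => bt g c K t₀ y + t • bt g' c' K' t₀' y := by
    funext y
    unfold bt
    rw [hk, smul_smul, ← add_smul]
    congr 1
    ring
  have hd1 : DifferentiableAt ℝ (bt g c K t₀) z :=
    (bas1_diff (bas1_bt hG h) hz).differentiableAt (by simp)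
  have hd2 : DifferentiableAt ℝ (bt g' c' K' t₀') z :=
    (bas1_diff (bas1_bt hG h') hz).differentiableAt (by simp)
  have hd3 : DifferentiableAt ℝ (fun y => t • bt g' c' K' t₀' y) z := hd2.const_smul t
  rw [FG_eq, FG_eq, FG_eq, hb, Ch.d1_add hd1 hd3, d1_csmul t hd2]
  module

theorem FG_congr {g' : ℝ → ℝ} {t₀' : ℝ} (h : Prof g c K t₀) (h' : Prof g' c K t₀') {ρ : ℝ}
    (hg : ∀ t < ρ, g t = g' t) {z : E6} (hz : z ∈ OS r) (hr : rho z < ρ) :
    FG g c K t₀ z = FG g' c K t₀' z := by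
  have hb : bt g c K t₀ =ᶠ[𝓝 z] bt g' c K t₀' := by
    filter_upwards [(rho_cont hz.1).eventually_lt_const hr] with y hy
    unfold bt
    have hk : kf g c K t₀ (rho y) = kf g' c K t₀' (rho y) := by
      have h0 : 0 ≤ rho y := norm_nonneg _
      rcases h0.eq_or_lt with h1 | h1
      · rw [← h1, kf_le h.pos.le, kf_le h'.pos.le]
      · rw [kf_pos h h1, kf_pos h' h1, hg _ hy]
    rw [hk]
  rw [FG_eq, FG_eq, Ch.d1_congr hb]

theorem FG_supp (hG : GEO) (hR : RADF) (h : Prof g c K t₀) {ρ : ℝ} (hg : ∀ t, ρ ≤ t → g t = 0)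
    {z : E6} (hz : z ∈ OS r) (hr : ρ ≤ rho z) : FG g c K t₀ z = 0 := by
  have hTS := Pi_mem_TS hz
  obtain ⟨e, he⟩ := K12Pos_776.exists_fr (Pi_fst_norm hz.1)
  have hg0 : g ‖(Pi z).2‖ = 0 := hg _ hr
  have hgd : gd g K ‖(Pi z).2‖ = 0 := by
    unfold gd
    split_ifs with h0
    · have h1 : ρ ≤ 0 := by rw [← h0]; exact hr
      have h2 := h.eq 0 h.pos.le
      have h3 := h.eq t₀ le_rfl
      rw [hg 0 h1] at h2
      rw [hg t₀ (h1.trans h.pos.le)] at h3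
      have h4 : c = 0 := by nlinarith
      rw [h4] at h3
      have h5 : 0 < t₀ ^ 2 := by have := h.pos; positivity
      have h6 : K * t₀ ^ 2 = 0 := by linarith
      exact (mul_eq_zero.1 h6).resolve_right h5.ne'
    · have h1 : HasDerivAt g (deriv g ‖(Pi z).2‖) ‖(Pi z).2‖ :=
        (h.smooth.differentiable (by simp)).differentiableAt.hasDerivAt
      have h2 : HasDerivWithinAt g 0 (Ici ‖(Pi z).2‖) ‖(Pi z).2‖ := by
        refine (hasDerivWithinAt_const _ _ (0 : ℝ)).congr_of_mem (fun t ht => ?_) self_mem_Ici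
        exact hg t (le_trans hr ht)
      have h3 := (uniqueDiffWithinAt_Ici ‖(Pi z).2‖).eq_deriv _ h1.hasDerivWithinAt h2
      rw [h3, zero_div]
  have hen : ∀ i j, en (FG g c K t₀ (Pi z)) (Pi z) e i j = 0 := by
    intro i j
    rw [en_FG hG hR h hTS he, hg0, hgd]
    simp
  have hb := bas_FG hG h (r := r)
  refine ContinuousLinearMap.ext fun U => ContinuousLinearMap.ext fun V => ?_
  rw [hb.bas z hz U V]
  have tU := tan_Pi hz.1 U
  have tV := tan_Pi hz.1 V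
  exact en_zero hen (tan_span he tU.1 tU.2) (tan_span he tV.1 tV.2)

end main

/-- LEAF FGL. -/
theorem fgl (hG : GEO) (hR : RADF) : K12An_776.FGL where
  bas := fun _ _ _ _ _ h => bas_FG hG h
  e := fun _ _ _ _ _ h _ _ hz he i j => en_FG hG hR h hz he i j
  add := fun _ _ _ _ _ _ _ _ _ h h' t t₁ ht h1 h2 _ hz => FG_add hG h h' t t₁ ht h1 h2 hz
  congr := fun _ _ _ _ _ _ _ h h' _ hg _ hz hr => FG_congr h h' hg hz hr
  supp := fun _ _ _ _ _ h _ hg _ hz hr => FG_supp hG hR h hg hz hr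

/-- LEAF FGL, closed form. -/
theorem fgl' : K12An_776.FGL := fgl K12Geo_128.geo K12Radf_843.radf

end

end Crest.Agent.R235.K12Fgl_504
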