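import Crest.Agent.R235.K12Std_235
import Crest.Agent.R235.KumDefs2_152
import Crest.Agent.R235.K12Geo_128
import Crest.Agent.R235.K12Radf_843
import Crest.Agent.R235.K12Phi_291

/-!
Row 235 (S0364), block K12 (helper417): final assembly, node `K12T` of `KumDefs2_152`
(`stdl` of helper235 with the tubes).
-/

set_option autoImplicit false
set_option maxSynthPendingDepth 3

open Set Function Filter MeasureTheory
open scoped Manifold ContDiff Topology RealInnerProductSpace

universe u

namespace Crest.Agent.R235.K12_417

open Crest.Agent.R240 Crest.Agent.R240.Ch Crest.Agent.R235 Crest.Agent.R235.K12An_776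
  Crest.Agent.R235.K12Std_235

noncomputable section

/-- `K12T` from the one-sphere theorem. -/
theorem k12t_of (hL : FGL) (hone : ∀ (M : Type u) [TopologicalSpace M] [T2Space M] [CompactSpace M]
    [ChartedSpace E4 M] [IsManifold 𝓘(ℝ, E4) ∞ M], ONE M) : K12T.{u} := by
  intro M _ _ _ _ _ _ w hw m σ hemb hl1 hl2 hpos hdis
  have hR : RADF := K12Radf_843.radf
  have hF : PHI := K12Phi_291.phi
  obtain ⟨O, hO, hsub, hdisj⟩ := sep_opens (fun i => isCompact_im (hemb i)) hdis
  obtain ⟨w', hPL, hw', -, hout⟩ := induct (hone M) hw hemb hl1 hl2 hpos hO hsub hdisj m le_rfl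
  have hout' := fun i : Fin m => hout i i.2
  choose r Ps G U ρ s g c K t₀ t₁ h using hout'
  obtain ⟨S, hS, hsgn⟩ := sign_eq hw'
  have hst := fun i => lstd_of hF hL hR (h i)
  have hs : ∀ i, -(s i) = S := fun i => hsgn _ _ _ _ _ _ _ (hst i)
  have hUO : ∀ i, U i ⊆ O i := fun i => (h i).sub
  refine ⟨w', fun i => nk (Ps i) (ρ i), S, fun i => 4 * ρ i, fun i => Real.sqrt (t₁ i / ρ i),
    fun i t => g i (ρ i * t) / ρ i, hPL, hw', ?_, fun i =>
      ⟨r i, ρ i, Ps i, G i, U i, (h i).tube, (h i).ρ_pos, (h i).ρ_lt, fun z _ => rfl⟩⟩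
  exact
    { smooth := fun i => (hst i).smooth
      even := fun i => (hst i).even
      inj := fun i => (hst i).inj
      imm := fun i => (hst i).imm
      out := by
        intro i j z hz hz'
        by_cases hij : i = j
        · subst hij
          exact (hst i).out z hz hz'
        · exact (Set.disjoint_left.1 (hdisj i j hij)) (hUO i ((hst i).mapsU z hz)) (hsub j hz')
      sep := by
        intro i j hij z hz z' hz' he
        exact (Set.disjoint_left.1 (hdisj i j hij)) (hUO i ((hst i).mapsU z hz))
          (by rw [he]; exact hUO j ((hst j).mapsU z' hz'))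
      nbh := fun i => (hst i).nbh
      shrink := fun i => (hst i).shrink
      sgn := hS
      R_pos := fun i => (hst i).R_pos
      r_pos := fun i => (hst i).r_pos
      w1 := fun i => (hst i).w1
      w2 := fun i z hz u v => by rw [(hst i).w2 z hz u v, hs i]
      w0 := fun i => (hst i).w0
      g_smooth := fun i => (hst i).g_smooth
      g_pos := fun i => (hst i).g_pos
      g_flat := fun i => (hst i).g_flat }

end

end Crest.Agent.R235.K12_417
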