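import Crest.Agent.R235.K12AnDefs_776

/-!
Row 235 (S0364), block K12, analytic assembly of helper776: leaves BUMP and LIP (task 363).
-/

set_option autoImplicit false
set_option maxSynthPendingDepth 3

open Set Function Filter MeasureTheory
open scoped Manifold ContDiff Topology RealInnerProductSpace

namespace Crest.Agent.R235.K12Lip_895

open Crest.Agent.R235.K12_417 Crest.Agent.R235.K12An_776

/-! ### BUMP -/

/-- the step: `1` on `(-∞, 1/2]`, `0` on `[3/4, ∞)`. -/
noncomputable def th (x : ℝ) : ℝ := 1 - Real.smoothTransition (4 * x - 2)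

theorem th_contDiff : ContDiff ℝ ∞ th := by
  have : ContDiff ℝ ∞ Real.smoothTransition := Real.smoothTransition.contDiff
  exact contDiff_const.sub (this.comp ((contDiff_const.mul contDiff_id).sub contDiff_const))

theorem th_one {x : ℝ} (h : x ≤ 1 / 2) : th x = 1 := by
  unfold th; rw [Real.smoothTransition.zero_of_nonpos (by linarith)]; ring

theorem th_zero {x : ℝ} (h : 3 / 4 ≤ x) : th x = 0 := by
  unfold th; rw [Real.smoothTransition.one_of_one_le (by linarith)]; ring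

theorem th_nonneg (x : ℝ) : 0 ≤ th x := by
  unfold th; linarith [Real.smoothTransition.le_one (4 * x - 2)]

theorem th_le_one (x : ℝ) : th x ≤ 1 := by
  unfold th; linarith [Real.smoothTransition.nonneg (4 * x - 2)]

/-- `∫₀^y x θ(x) dx`. -/
noncomputable def F (y : ℝ) : ℝ := ∫ x in (0 : ℝ)..y, x * th x

theorem xth_contDiff : ContDiff ℝ ∞ (fun x : ℝ => x * th x) := contDiff_id.mul th_contDiff

theorem F_hasDerivAt (y : ℝ) : HasDerivAt F (y * th y) y :=
  intervalIntegral.integral_hasDerivAt_right (xth_contDiff.continuous.intervalIntegrable _ _)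
    (xth_contDiff.continuous.stronglyMeasurableAtFilter _ _) xth_contDiff.continuous.continuousAt

theorem F_contDiff : ContDiff ℝ ∞ F := by
  rw [contDiff_infty_iff_deriv]
  refine ⟨fun y => (F_hasDerivAt y).differentiableAt, ?_⟩
  have : deriv F = fun x : ℝ => x * th x := funext fun y => (F_hasDerivAt y).deriv
  rw [this]; exact xth_contDiff

theorem F_small {y : ℝ} (h : y ≤ 1 / 2) : F y = y ^ 2 / 2 := by
  unfold F
  rw [intervalIntegral.integral_congr (g := fun x => x)]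
  · simp
  · intro x hx
    have hx' : x ≤ 1 / 2 := by
      rcases le_total 0 y with h0 | h0
      · rw [uIcc_of_le h0] at hx; exact hx.2.trans h
      · rw [uIcc_of_ge h0] at hx; linarith [hx.2]
    simp only [th_one hx', mul_one]

theorem F_mono : MonotoneOn F (Ici 0) := by
  apply monotoneOn_of_deriv_nonneg (convex_Ici 0) F_contDiff.continuous.continuousOn
  · exact fun y _ => (F_hasDerivAt y).differentiableAt.differentiableWithinAt
  · intro y hy
    rw [interior_Ici] at hy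
    rw [(F_hasDerivAt y).deriv]
    exact mul_nonneg (le_of_lt hy) (th_nonneg y)

theorem F_large {y : ℝ} (h : 1 ≤ y) : F y = F 1 := by
  have h1 : F y - F 1 = ∫ x in (1 : ℝ)..y, x * th x :=
    intervalIntegral.integral_interval_sub_left (xth_contDiff.continuous.intervalIntegrable _ _)
      (xth_contDiff.continuous.intervalIntegrable _ _)
  rw [intervalIntegral.integral_congr (g := fun _ => (0 : ℝ))] at h1
  · simp at h1; linarith
  · intro x hx
    rw [uIcc_of_le h] at hx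
    simp only [th_zero (show (3 : ℝ) / 4 ≤ x by linarith [hx.1]), mul_zero]

theorem F_one_le : F 1 ≤ 1 / 2 := by
  unfold F
  have : ∫ x in (0 : ℝ)..1, x * th x ≤ ∫ x in (0 : ℝ)..1, x := by
    apply intervalIntegral.integral_mono_on (by norm_num)
      (xth_contDiff.continuous.intervalIntegrable _ _) (continuous_id.intervalIntegrable _ _)
    intro x hx
    have := th_le_one x
    show x * th x ≤ x
    nlinarith [hx.1]
  refine this.trans ?_
  simp

theorem le_F_one : 1 / 8 ≤ F 1 := by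
  have h1 : F (1 / 2) ≤ F 1 := F_mono (by norm_num [mem_Ici]) (by norm_num [mem_Ici]) (by norm_num)
  rw [F_small le_rfl] at h1
  norm_num at h1 ⊢
  linarith

/-- LEAF BUMP. -/
theorem bump : BUMP := by
  refine ⟨8, by norm_num, ?_⟩
  intro A s hA hs
  have hc1 := F_one_le
  have hc2 := le_F_one
  set c₀ : ℝ := F 1 with hc₀
  have hc0 : 0 < c₀ := by linarith
  let h : ℝ → ℝ := fun t => A / c₀ * (F (t / s) - c₀)
  have hd : ∀ t, HasDerivAt h (A / c₀ * ((t / s) * th (t / s) * (1 / s))) t := by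
    intro t
    have h1 : HasDerivAt (fun t : ℝ => t / s) (1 / s) t := (hasDerivAt_id t).div_const s
    exact (((F_hasDerivAt (t / s)).comp t h1).sub_const c₀).const_mul (A / c₀)
  have hs8 : 1 / c₀ ≤ 8 := by
    rw [div_le_iff₀ hc0]; linarith
  have hAc : A / c₀ ≤ 8 * A := by
    have : A / c₀ = A * (1 / c₀) := by ring
    rw [this]; nlinarith
  have hAc0 : 0 < A / c₀ := by positivity
  have hmono : ∀ t, 0 ≤ t → F 0 ≤ F (t / s) ∧ F (t / s) ≤ c₀ := by
    intro t ht
    have h0 : 0 ≤ t / s := by positivity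
    refine ⟨F_mono (mem_Ici.mpr le_rfl) (mem_Ici.mpr h0) h0, ?_⟩
    rcases le_total 1 (t / s) with h1 | h1
    · rw [F_large h1]
    · exact F_mono (mem_Ici.mpr h0) (mem_Ici.mpr (by norm_num)) h1
  have hF0 : F 0 = 0 := by simp [F]
  refine ⟨h, A / (c₀ * s ^ 2), s / 2, ⟨?_, by positivity, ?_⟩, by linarith, ?_, ?_, ?_, ?_⟩
  · exact contDiff_const.mul ((F_contDiff.comp (contDiff_id.div_const s)).sub contDiff_const)
  · intro t ht
    show A / c₀ * (F (t / s) - c₀) = -A + A / (c₀ * s ^ 2) * t ^ 2 / 2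
    have : t / s ≤ 1 / 2 := by rw [div_le_iff₀ hs]; linarith
    rw [F_small this]
    field_simp
    ring
  · rw [div_le_div_iff₀ (by positivity) (by positivity)]
    have : c₀ * s ^ 2 ≤ 1 * s ^ 2 := by gcongr; linarith
    nlinarith
  · intro t ht
    obtain ⟨h1, h2⟩ := hmono t ht
    show -A ≤ A / c₀ * (F (t / s) - c₀) ∧ A / c₀ * (F (t / s) - c₀) ≤ 0
    rw [hF0] at h1
    constructor
    · have : A / c₀ * (0 - c₀) ≤ A / c₀ * (F (t / s) - c₀) := by gcongr
      have e : A / c₀ * (0 - c₀) = -A := by field_simp; ring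
      linarith
    · apply mul_nonpos_of_nonneg_of_nonpos hAc0.le; linarith
  · intro t ht
    show A / c₀ * (F (t / s) - c₀) = 0
    have : 1 ≤ t / s := by rw [le_div_iff₀ hs]; linarith
    rw [F_large this]; simp [hc₀]
  · intro t ht
    rw [(hd t).deriv]
    have h0 : 0 ≤ t / s := by positivity
    have ht1 := th_nonneg (t / s)
    refine ⟨by positivity, ?_⟩
    have e : t * (A / c₀ * ((t / s) * th (t / s) * (1 / s)))
        = A / c₀ * ((t / s) ^ 2 * th (t / s)) := by field_simp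
    rw [e]
    have h2 : (t / s) ^ 2 * th (t / s) ≤ 1 := by
      rcases le_total 1 (t / s) with h1 | h1
      · rw [th_zero (by linarith)]; simp
      · have h3 := th_le_one (t / s)
        have h4 : (t / s) ^ 2 ≤ 1 := by nlinarith
        nlinarith [sq_nonneg (t / s)]
    calc A / c₀ * ((t / s) ^ 2 * th (t / s)) ≤ A / c₀ * 1 := by gcongr
      _ ≤ 8 * A := by linarith

/-! ### LIP -/

theorem norm_cr_sq (a b : E3) : ‖cr a b‖ ^ 2 = ‖a‖ ^ 2 * ‖b‖ ^ 2 - ⟪a, b⟫ ^ 2 := by
  simp only [EuclideanSpace.norm_sq_eq, Fin.sum_univ_three, PiLp.inner_apply, Real.norm_eq_abs,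
    sq_abs, cr, RCLike.inner_apply, conj_trivial]
  simp
  ring

theorem norm_cr_le (a b : E3) : ‖cr a b‖ ≤ ‖a‖ * ‖b‖ := by
  have h := norm_cr_sq a b
  refine le_of_sq_le_sq ?_ (by positivity)
  rw [h, mul_pow]
  nlinarith [sq_nonneg ⟪a, b⟫]

theorem norm_hor_le {z : E6} {e : E3} {r : ℝ} (h1 : ‖z.1‖ = 1) (h2 : ‖z.2‖ ≤ r) (he : ‖e‖ ≤ 1) :
    ‖hor z e‖ ≤ 1 + r := by
  have hr : 0 ≤ r := (norm_nonneg _).trans h2
  unfold hor
  rw [Prod.norm_def]
  apply max_le
  · show ‖e‖ ≤ 1 + r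
    linarith
  · show ‖-(⟪z.2, e⟫ • z.1)‖ ≤ 1 + r
    rw [norm_neg, norm_smul, h1, mul_one, Real.norm_eq_abs]
    have := abs_real_inner_le_norm z.2 e
    have h3 : ‖z.2‖ * ‖e‖ ≤ r * 1 := by gcongr
    linarith

theorem norm_ver_le {e : E3} {r : ℝ} (hr : 0 ≤ r) (he : ‖e‖ ≤ 1) : ‖ver e‖ ≤ 1 + r := by
  unfold ver
  rw [Prod.norm_def]
  apply max_le
  · show ‖(0 : E3)‖ ≤ 1 + r
    rw [norm_zero]; linarith
  · show ‖e‖ ≤ 1 + r
    linarith

theorem norm_cr_fr_le {q e : E3} (h : IsFr q e) : ‖cr q e‖ ≤ 1 := by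
  have := norm_cr_le q e
  rw [h.1, h.2.1] at this
  linarith

theorem norm_X_le {z : E6} {e : E3} {r : ℝ} (h2 : ‖z.2‖ ≤ r) (h : IsFr z.1 e) (i : Fin 4) :
    ‖X z e i‖ ≤ 1 + r := by
  have hr : 0 ≤ r := (norm_nonneg _).trans h2
  fin_cases i
  · exact norm_hor_le h.1 h2 h.2.1.le
  · exact norm_hor_le h.1 h2 (norm_cr_fr_le h)
  · exact norm_ver_le hr h.2.1.le
  · exact norm_ver_le hr (norm_cr_fr_le h)

theorem norm_hor_sub_le {z : E6} {e : E3} (h1 : ‖z.1‖ = 1) (he : ‖e‖ ≤ 1) :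
    ‖hor z e - hor (z.1, 0) e‖ ≤ ‖z.2‖ := by
  have : hor z e - hor (z.1, 0) e = (0, -(⟪z.2, e⟫ • z.1)) := by
    unfold hor; ext1 <;> simp
  rw [this, Prod.norm_def]
  apply max_le
  · simp
  · show ‖-(⟪z.2, e⟫ • z.1)‖ ≤ ‖z.2‖
    rw [norm_neg, norm_smul, h1, mul_one, Real.norm_eq_abs]
    have := abs_real_inner_le_norm z.2 e
    have h3 : ‖z.2‖ * ‖e‖ ≤ ‖z.2‖ * 1 := by gcongr
    linarith

theorem norm_X_sub_le {z : E6} {e : E3} (h : IsFr z.1 e) (i : Fin 4) :
    ‖X z e i - X (z.1, 0) e i‖ ≤ ‖z.2‖ := by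
  fin_cases i
  · exact norm_hor_sub_le h.1 h.2.1.le
  · exact norm_hor_sub_le h.1 (norm_cr_fr_le h)
  · show ‖ver e - ver e‖ ≤ ‖z.2‖
    simp
  · show ‖ver (cr z.1 e) - ver (cr z.1 e)‖ ≤ ‖z.2‖
    simp

/-- the closed disc bundle. -/
def KK (r : ℝ) : Set E6 := {z | ‖z.1‖ = 1 ∧ ⟪z.1, z.2⟫ = 0 ∧ ‖z.2‖ ≤ r}

theorem isCompact_KK (r : ℝ) : IsCompact (KK r) := by
  have h1 : IsCompact ((Metric.sphere (0 : E3) 1) ×ˢ (Metric.closedBall (0 : E3) r)) :=
    (isCompact_sphere _ _).prod (isCompact_closedBall _ _)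
  have h2 : IsClosed {z : E6 | ⟪z.1, z.2⟫ = 0} :=
    isClosed_eq (continuous_fst.inner continuous_snd) continuous_const
  have : KK r = ((Metric.sphere (0 : E3) 1) ×ˢ (Metric.closedBall (0 : E3) r)) ∩
      {z : E6 | ⟪z.1, z.2⟫ = 0} := by
    ext z
    simp [KK, mem_prod]
    tauto
  rw [this]
  exact h1.inter_right h2

/-- LEAF LIP. -/
theorem lip (hG : GEO) : LIP := by
  intro r r' W hr' hr'r hW
  have hsub : KK r' ⊆ OS r := by
    intro z hz
    exact hG.TS_sub r ⟨hz.1, hz.2.1, lt_of_le_of_lt hz.2.2 hr'r⟩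
  obtain ⟨B₀, hB₀⟩ := (isCompact_KK r').exists_bound_of_continuousOn (hW.continuousOn.mono hsub)
  obtain ⟨B₁, hB₁⟩ := (isCompact_KK r').exists_bound_of_continuousOn
    ((hW.continuousOn_fderiv_of_isOpen (hG.open_OS r) (by simp)).mono hsub)
  set B : ℝ := max (max B₀ B₁) 1 with hB
  have hB0 : 0 < B := lt_of_lt_of_le one_pos (le_max_right _ _)
  have hBW : ∀ z ∈ KK r', ‖W z‖ ≤ B := fun z hz =>
    (hB₀ z hz).trans ((le_max_left _ _).trans (le_max_left _ _))
  have hBD : ∀ z ∈ KK r', ‖fderiv ℝ W z‖ ≤ B := fun z hz =>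
    (hB₁ z hz).trans ((le_max_right _ _).trans (le_max_left _ _))
  set N : ℝ := 1 + r' with hN
  have hN0 : 0 < N := by positivity
  have hN1 : 1 ≤ N := by linarith
  refine ⟨3 * (B * N ^ 2), by positivity, ?_⟩
  intro z e hz hzr he i j
  have hzK : z ∈ KK r' := ⟨hz.1, hz.2.1, hzr⟩
  have hz0K : ((z.1, 0) : E6) ∈ KK r' := ⟨hz.1, by simp, by simpa using hr'.le⟩
  have hXi := norm_X_le hzr he i
  have hXj := norm_X_le hzr he j
  have hX0i : ‖X (z.1, 0) e i‖ ≤ N := norm_X_le (z := (z.1, 0)) (by simpa using hr'.le) he i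
  have hdi := norm_X_sub_le he i
  have hdj := norm_X_sub_le he j
  have hWd : ‖W z - W (z.1, 0)‖ ≤ B * ‖z.2‖ := by
    have hseg : segment ℝ ((z.1, 0) : E6) z ⊆ KK r' := by
      intro y hy
      rw [segment_eq_image'] at hy
      obtain ⟨t, ht, rfl⟩ := hy
      have h1 : ((z.1, 0) : E6) + t • (z - (z.1, 0)) = (z.1, t • z.2) := by
        ext1 <;> simp
      show ((z.1, 0) : E6) + t • (z - (z.1, 0)) ∈ KK r'
      rw [h1]
      refine ⟨hz.1, ?_, ?_⟩
      · show ⟪z.1, t • z.2⟫ = 0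
        rw [real_inner_smul_right, hz.2.1, mul_zero]
      · show ‖t • z.2‖ ≤ r'
        rw [norm_smul, Real.norm_eq_abs, abs_of_nonneg ht.1]
        calc t * ‖z.2‖ ≤ 1 * ‖z.2‖ := by gcongr; exact ht.2
          _ ≤ r' := by linarith
    have h1 := (convex_segment ((z.1, 0) : E6) z).norm_image_sub_le_of_norm_hasFDerivWithin_le
      (f := W) (f' := fderiv ℝ W) (C := B)
      (fun y hy => (((hW.contDiffAt ((hG.open_OS r).mem_nhds (hsub (hseg hy)))).differentiableAt
        (by simp)).hasFDerivAt).hasFDerivWithinAt)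
      (fun y hy => hBD y (hseg hy)) (left_mem_segment ℝ _ _) (right_mem_segment ℝ _ _)
    refine h1.trans ?_
    gcongr
    have : z - ((z.1, 0) : E6) = (0, z.2) := by ext1 <;> simp
    rw [this, Prod.norm_def]
    simp
  have hz2 := norm_nonneg z.2
  constructor
  · unfold en
    have h1 : |W z (X z e i) (X z e j)| ≤ ‖W z‖ * ‖X z e i‖ * ‖X z e j‖ := by
      rw [← Real.norm_eq_abs]; exact (W z).le_opNorm₂ _ _
    calc |W z (X z e i) (X z e j)| ≤ ‖W z‖ * ‖X z e i‖ * ‖X z e j‖ := h1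
      _ ≤ B * N * N := by
          have := hBW z hzK
          gcongr
      _ ≤ 3 * (B * N ^ 2) := by nlinarith [mul_pos hB0 (mul_pos hN0 hN0)]
  · unfold en
    have e1 : W z (X z e i) (X z e j) - W (z.1, 0) (X (z.1, 0) e i) (X (z.1, 0) e j)
        = (W z - W (z.1, 0)) (X z e i) (X z e j)
          + W (z.1, 0) (X z e i - X (z.1, 0) e i) (X z e j)
          + W (z.1, 0) (X (z.1, 0) e i) (X z e j - X (z.1, 0) e j) := by
      simp only [map_sub, sub_apply]
      ring
    rw [e1]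
    have a1 : |(W z - W (z.1, 0)) (X z e i) (X z e j)| ≤ B * ‖z.2‖ * N * N := by
      rw [← Real.norm_eq_abs]
      refine ((W z - W (z.1, 0)).le_opNorm₂ _ _).trans ?_
      gcongr
    have a2 : |W (z.1, 0) (X z e i - X (z.1, 0) e i) (X z e j)| ≤ B * ‖z.2‖ * N := by
      rw [← Real.norm_eq_abs]
      refine ((W (z.1, 0)).le_opNorm₂ _ _).trans ?_
      have := hBW _ hz0K
      gcongr
    have a3 : |W (z.1, 0) (X (z.1, 0) e i) (X z e j - X (z.1, 0) e j)| ≤ B * N * ‖z.2‖ := by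
      rw [← Real.norm_eq_abs]
      refine ((W (z.1, 0)).le_opNorm₂ _ _).trans ?_
      have := hBW _ hz0K
      gcongr
    refine (abs_add_three _ _ _).trans ?_
    have h5 : B * ‖z.2‖ * N ≤ B * ‖z.2‖ * N * N := by
      have : 0 ≤ B * ‖z.2‖ * N := by positivity
      nlinarith
    nlinarith

end Crest.Agent.R235.K12Lip_895
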