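import Crest.Agent.R235.K12TubDefs_417
import Crest.Agent.R235.Exj_900

/-!
Row 235 (S0364), block K12 (helper417): POINTWISE ALGEBRA of the normal vector `ν(q,p)`.
-/

set_option autoImplicit false
set_option maxSynthPendingDepth 3

open Set Function Filter
open scoped Manifold ContDiff Topology RealInnerProductSpace

namespace Crest.Agent.R235.K12_417

open Crest.Agent.R240 Crest.Agent.R240.Ch Crest.Agent.R235 Crest.Agent.R235.Exj_900

noncomputable section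

/-! ### `a⁻¹` -/

/-- `a⁻¹`. -/
def ainv (a : Bil) (ξ : E4 →L[ℝ] ℝ) : E4 := (2 / W a a) • Kop a ξ

theorem a_ainv {a : Bil} (ha : Alt a) (h0 : W a a ≠ 0) (ξ : E4 →L[ℝ] ℝ) (v : E4) :
    a (ainv a ξ) v = ξ v := by
  rw [ainv, map_smul, smul_apply, a_Kop ha, smul_eq_mul]
  field_simp

theorem a_inj {a : Bil} (ha : Alt a) (h0 : W a a ≠ 0) {u v : E4} (h : ∀ w, a u w = a v w) :
    u = v := by
  by_contra hne
  refine h0 (ker_W ha (sub_ne_zero.2 hne) fun w => ?_)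
  rw [map_sub, sub_apply, h, sub_self]

/-- the `J`-invariant part. -/
def FJ (f : Bil) (J : E4 →L[ℝ] E4) (u : E4) : E4 →L[ℝ] ℝ := (1 / 2 : ℝ) • (f u + (f (J u)).comp J)

theorem FJ_apply (f : Bil) (J : E4 →L[ℝ] E4) (u v : E4) :
    FJ f J u v = (f u v + f (J u) (J v)) / 2 := by
  simp [FJ]; ring

/-- `K = a⁻¹ F`. -/
def KJ (f a : Bil) (J : E4 →L[ℝ] E4) (u : E4) : E4 := ainv a (FJ f J u)

section Alg

variable {f a b : Bil} {J : E4 →L[ℝ] E4}

theorem a_KJ (ha : Alt a) (h0 : W a a ≠ 0) (u v : E4) :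
    a (KJ f a J u) v = FJ f J u v := a_ainv ha h0 _ _

theorem KJ_lin (ha : Alt a) (h0 : W a a ≠ 0) (s t : ℝ) (u v : E4) :
    KJ f a J (s • u + t • v) = s • KJ f a J u + t • KJ f a J v := by
  refine a_inj ha h0 fun w => ?_
  rw [a_KJ ha h0, map_add, map_smul, map_smul, add_apply, smul_apply, smul_apply, a_KJ ha h0,
    a_KJ ha h0, FJ_apply, FJ_apply, FJ_apply]
  simp only [map_add, map_smul, add_apply, smul_apply, smul_eq_mul]
  ring

theorem KJ_J (ha : Alt a) (h0 : W a a ≠ 0) (hJ : ∀ v, J (J v) = -v)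
    (h1 : ∀ u v, a (J u) (J v) = - a u v) (v : E4) : KJ f a J (J v) = - J (KJ f a J v) := by
  refine a_inj ha h0 fun w => ?_
  have h2 : a (J (KJ f a J v)) w = a (KJ f a J v) (J w) := by
    have h3 := h1 (KJ f a J v) (J w)
    rw [hJ, map_neg] at h3
    linarith
  rw [a_KJ ha h0, map_neg, neg_apply, h2, a_KJ ha h0, FJ_apply, FJ_apply, hJ, hJ]
  simp only [map_neg, neg_apply]
  ring

end Alg

/-! ### the plane -/

section Plane

variable {f a b : Bil} {J : E4 →L[ℝ] E4} {T : E3 →L[ℝ] E4} {q : E3}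

theorem ker_pair_rank (ha : Alt a) (hb : Alt b) (h : P3 f a b) {x : E4} (hx : x ≠ 0) :
    Module.finrank ℝ (LinearMap.ker ((((a x : E4 →L[ℝ] ℝ) : E4 →ₗ[ℝ] ℝ)).prod
      ((b x : E4 →L[ℝ] ℝ) : E4 →ₗ[ℝ] ℝ))) = 2 := by
  set L : E4 →ₗ[ℝ] ℝ × ℝ := (((a x : E4 →L[ℝ] ℝ) : E4 →ₗ[ℝ] ℝ)).prod
      ((b x : E4 →L[ℝ] ℝ) : E4 →ₗ[ℝ] ℝ) with hL
  have hsurj : Function.Surjective L := by
    rw [← LinearMap.range_eq_top]
    by_contra hne
    obtain ⟨φ, hφ0, hφ⟩ := Submodule.exists_dual_map_eq_bot_of_lt_top (lt_top_iff_ne_top.2 hne)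
      inferInstance
    have h1 : ∀ y, φ (L y) = 0 := by
      intro y
      have h2 : φ (L y) ∈ (LinearMap.range L).map φ := ⟨L y, ⟨y, rfl⟩, rfl⟩
      rw [hφ] at h2
      simpa using h2
    set c1 := φ (1, 0) with hc1
    set c2 := φ (0, 1) with hc2
    have h2 : ∀ s t : ℝ, φ (s, t) = s * c1 + t * c2 := by
      intro s t
      have : ((s, t) : ℝ × ℝ) = s • (1, 0) + t • (0, 1) := by simp
      rw [this, map_add, map_smul, map_smul, smul_eq_mul, smul_eq_mul]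
    have h3 : ![0, c1, c2] ≠ 0 := by
      intro h0
      apply hφ0
      have e1 : c1 = 0 := by simpa using congrFun h0 1
      have e2 : c2 = 0 := by simpa using congrFun h0 2
      ext
      · show φ (1, 0) = 0
        exact e1
      · show φ (0, 1) = 0
        exact e2
    refine h _ h3 ?_
    have hA : Alt ((![0, c1, c2] : Fin 3 → ℝ) 0 • f + (![0, c1, c2] : Fin 3 → ℝ) 1 • a +
        (![0, c1, c2] : Fin 3 → ℝ) 2 • b) := by
      simp only [Matrix.cons_val_zero, Matrix.cons_val_one, Matrix.cons_val, zero_smul, zero_add]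
      exact (ha.smul _).add (hb.smul _)
    refine ker_W hA hx fun u => ?_
    simp only [Matrix.cons_val_zero, Matrix.cons_val_one, Matrix.cons_val, zero_smul, zero_add,
      add_apply, smul_apply, smul_eq_mul]
    have h4 := h1 u
    have h5 : L u = (a x u, b x u) := rfl
    rw [h5, h2] at h4
    linarith
  have h1 := LinearMap.finrank_range_add_finrank_ker L
  rw [LinearMap.range_eq_top.2 hsurj, finrank_top] at h1
  have h2 : Module.finrank ℝ E4 = 4 := by simp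
  have h3 : Module.finrank ℝ (ℝ × ℝ) = 2 := by simp
  omega

theorem range_rank (hq : q ≠ 0) (hTq : T q = 0) (hTi : ∀ u, T u = 0 → ∃ t : ℝ, u = t • q) :
    Module.finrank ℝ (LinearMap.range (T : E3 →ₗ[ℝ] E4)) = 2 := by
  have h1 := LinearMap.finrank_range_add_finrank_ker (T : E3 →ₗ[ℝ] E4)
  have h2 : LinearMap.ker (T : E3 →ₗ[ℝ] E4) = Submodule.span ℝ {q} := by
    ext u
    rw [LinearMap.mem_ker, Submodule.mem_span_singleton]
    constructor
    · intro h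
      obtain ⟨t, ht⟩ := hTi u h
      exact ⟨t, ht.symm⟩
    · rintro ⟨t, rfl⟩
      show T (t • q) = 0
      rw [map_smul, hTq, smul_zero]
  rw [h2, finrank_span_singleton hq] at h1
  have h3 : Module.finrank ℝ E3 = 3 := by simp
  omega

/-- `T u = s x + t J x` for every `x ≠ 0` in the plane. -/
theorem plane (ha : Alt a) (hb : Alt b) (h : P3 f a b) (hJ : Jp f a b J) (hq : q ≠ 0)
    (hTq : T q = 0) (hTi : ∀ u, T u = 0 → ∃ t : ℝ, u = t • q)
    (hla : ∀ u v, a (T u) (T v) = 0) (hlb : ∀ u v, b (T u) (T v) = 0) {x : E3} (hx : T x ≠ 0) :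
    (∀ u, ∃ s t : ℝ, T u = s • T x + t • J (T x)) ∧ ∃ v, T v = J (T x) := by
  set S := LinearMap.ker ((((a (T x) : E4 →L[ℝ] ℝ) : E4 →ₗ[ℝ] ℝ)).prod
      ((b (T x) : E4 →L[ℝ] ℝ) : E4 →ₗ[ℝ] ℝ)) with hS
  have hSr : Module.finrank ℝ S = 2 := ker_pair_rank ha hb h hx
  have hmem : ∀ y, y ∈ S ↔ a (T x) y = 0 ∧ b (T x) y = 0 := by
    intro y
    rw [hS, LinearMap.mem_ker]
    show (a (T x) y, b (T x) y) = 0 ↔ _
    rw [Prod.mk_eq_zero]
  have hR : LinearMap.range (T : E3 →ₗ[ℝ] E4) = S := by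
    refine Submodule.eq_of_le_of_finrank_eq ?_ ?_
    · rintro _ ⟨u, rfl⟩
      exact (hmem _).2 ⟨hla x u, hlb x u⟩
    · rw [range_rank hq hTq hTi, hSr]
  have hJx : J (T x) ∈ S :=
    (hmem _).2 ⟨anti_diag ha hJ.sq hJ.anti1 _, anti_diag hb hJ.sq hJ.anti2 _⟩
  have hx' : T x ∈ S := (hmem _).2 ⟨ha _, hb _⟩
  have hD : Submodule.span ℝ (Set.range ![T x, J (T x)]) = S := by
    refine Submodule.eq_of_le_of_finrank_eq ?_ ?_
    · rw [Submodule.span_le]
      rintro _ ⟨i, rfl⟩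
      fin_cases i
      · exact hx'
      · exact hJx
    · rw [finrank_span_eq_card (indep_J hJ.sq hx), hSr]; simp
  constructor
  · intro u
    have h1 : T u ∈ S := by rw [← hR]; exact ⟨u, rfl⟩
    rw [← hD, Matrix.range_cons, Matrix.range_cons, Matrix.range_empty, Set.union_empty,
      Set.singleton_union, Submodule.mem_span_pair] at h1
    obtain ⟨s, t, hst⟩ := h1
    exact ⟨s, t, hst.symm⟩
  · have h1 : J (T x) ∈ LinearMap.range (T : E3 →ₗ[ℝ] E4) := by rw [hR]; exact hJx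
    obtain ⟨v, hv⟩ := h1
    exact ⟨v, hv⟩

end Plane

/-! ### vectors in three-space -/

theorem in3 (u v : E3) : ⟪u, v⟫ = u 0 * v 0 + u 1 * v 1 + u 2 * v 2 := by
  simp [PiLp.inner_apply, Fin.sum_univ_three]
  ring

theorem cr0 (u v : E3) : cr u v 0 = u 1 * v 2 - u 2 * v 1 := by simp [cr]
theorem cr1 (u v : E3) : cr u v 1 = u 2 * v 0 - u 0 * v 2 := by simp [cr]
theorem cr2 (u v : E3) : cr u v 2 = u 0 * v 1 - u 1 * v 0 := by simp [cr]

theorem e3ext {u v : E3} (h0 : u 0 = v 0) (h1 : u 1 = v 1) (h2 : u 2 = v 2) : u = v := by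
  ext i; fin_cases i <;> assumption

/-- the basis. -/
def bs (i : Fin 3) : E3 := EuclideanSpace.single i 1

theorem bs_00 : bs 0 0 = 1 := by simp [bs]
theorem bs_01 : bs 0 1 = 0 := by simp [bs]
theorem bs_02 : bs 0 2 = 0 := by simp [bs]
theorem bs_10 : bs 1 0 = 0 := by simp [bs]
theorem bs_11 : bs 1 1 = 1 := by simp [bs]
theorem bs_12 : bs 1 2 = 0 := by simp [bs]
theorem bs_20 : bs 2 0 = 0 := by simp [bs]
theorem bs_21 : bs 2 1 = 0 := by simp [bs]
theorem bs_22 : bs 2 2 = 1 := by simp [bs]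

theorem expand3 (T : E3 →L[ℝ] E4) (u : E3) :
    T u = u 0 • T (bs 0) + u 1 • T (bs 1) + u 2 • T (bs 2) := by
  have h : u = u 0 • bs 0 + u 1 • bs 1 + u 2 • bs 2 := by
    refine e3ext ?_ ?_ ?_ <;> simp [bs]
  conv_lhs => rw [h]
  simp only [map_add, map_smul]

/-- the density of a two-form on the plane. -/
def dn (f : Bil) (T : E3 →L[ℝ] E4) (q : E3) : ℝ :=
  q 0 * f (T (bs 1)) (T (bs 2)) + q 1 * f (T (bs 2)) (T (bs 0)) + q 2 * f (T (bs 0)) (T (bs 1))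

theorem dn_eq {f : Bil} (hf : Alt f) {T : E3 →L[ℝ] E4} {q : E3} (hq : ‖q‖ = 1) (hTq : T q = 0)
    (u v : E3) : f (T u) (T v) = dn f T q * ⟪q, cr u v⟫ := by
  have hexp : ∀ u v : E3, f (T u) (T v) =
      f (T (bs 1)) (T (bs 2)) * (u 1 * v 2 - u 2 * v 1) +
      f (T (bs 2)) (T (bs 0)) * (u 2 * v 0 - u 0 * v 2) +
      f (T (bs 0)) (T (bs 1)) * (u 0 * v 1 - u 1 * v 0) := by
    intro u v
    rw [expand3 T u, expand3 T v]
    simp only [map_add, map_smul, add_apply, smul_apply, smul_eq_mul, hf (T (bs 0)),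
      hf (T (bs 1)), hf (T (bs 2)), hf.swap (T (bs 2)) (T (bs 1)), hf.swap (T (bs 0)) (T (bs 2)),
      hf.swap (T (bs 1)) (T (bs 0))]
    ring
  have h1 : ∀ v, f (T q) (T v) = 0 := by intro v; rw [hTq]; simp
  have h2 := h1 (bs 0)
  have h3 := h1 (bs 1)
  have h4 := h1 (bs 2)
  rw [hexp] at h2 h3 h4
  simp only [bs_00, bs_01, bs_02, bs_10, bs_11, bs_12, bs_20, bs_21, bs_22] at h2 h3 h4
  have hn : q 0 * q 0 + q 1 * q 1 + q 2 * q 2 = 1 := by
    rw [← in3, real_inner_self_eq_norm_sq, hq]; norm_num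
  rw [hexp u v, in3, cr0, cr1, cr2, dn]
  set A := f (T (bs 1)) (T (bs 2))
  set B := f (T (bs 2)) (T (bs 0))
  set C := f (T (bs 0)) (T (bs 1))
  have eA : A = (q 0 * A + q 1 * B + q 2 * C) * q 0 := by
    linear_combination (-A) * hn + (q 1) * h4 - (q 2) * h3
  have eB : B = (q 0 * A + q 1 * B + q 2 * C) * q 1 := by
    linear_combination (-B) * hn - (q 0) * h4 + (q 2) * h2
  have eC : C = (q 0 * A + q 1 * B + q 2 * C) * q 2 := by
    linear_combination (-C) * hn + (q 0) * h3 - (q 1) * h2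
  linear_combination (u 1 * v 2 - u 2 * v 1) * eA + (u 2 * v 0 - u 0 * v 2) * eB +
    (u 0 * v 1 - u 1 * v 0) * eC

/-- `f (T x)(T u) = F (T x) (T u)`. -/
theorem FJ_plane {f : Bil} {J : E4 →L[ℝ] E4} (hf : Alt f) (hJ : ∀ v, J (J v) = -v) {x y : E4}
    (h : ∃ s t : ℝ, y = s • x + t • J x) : FJ f J x y = f x y := by
  obtain ⟨s, t, rfl⟩ := h
  rw [FJ_apply]
  simp only [map_add, map_smul, hJ, smul_neg, map_neg, smul_eq_mul, hf x, hf (J x),
    hf.swap (J x) x]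
  ring

/-! ### the normal vector -/

/-- `ν(q,p)`. -/
def nu (f a : Bil) (J : E4 →L[ℝ] E4) (T : E3 →L[ℝ] E4) (q p : E3) : E4 :=
  (- (dn f T q)⁻¹) • KJ f a J (T (cr q p))

/-- the data at a point of the sphere. -/
structure Pt (f a b : Bil) (J : E4 →L[ℝ] E4) (T : E3 →L[ℝ] E4) (q : E3) : Prop where
  hf : Alt f
  ha : Alt a
  hb : Alt b
  P : P3 f a b
  J : Jp f a b J
  hq : ‖q‖ = 1
  Tq : T q = 0
  Ti : ∀ u, T u = 0 → ∃ t : ℝ, u = t • q
  la : ∀ u v, a (T u) (T v) = 0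
  lb : ∀ u v, b (T u) (T v) = 0

section Nu

variable {f a b : Bil} {J : E4 →L[ℝ] E4} {T : E3 →L[ℝ] E4} {q : E3}

theorem Pt.q0 (h : Pt f a b J T q) : q ≠ 0 := by
  intro h0
  have := h.hq
  rw [h0, norm_zero] at this
  norm_num at this

theorem Pt.ne (h : Pt f a b J T q) {u : E3} (hu : ⟪q, u⟫ = 0) (hu0 : u ≠ 0) : T u ≠ 0 := by
  intro h0
  obtain ⟨t, ht⟩ := h.Ti u h0
  rw [ht, inner_smul_right, real_inner_self_eq_norm_sq, h.hq] at hu
  have : t = 0 := by simpa using hu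
  rw [this, zero_smul] at ht
  exact hu0 ht

theorem Pt.plane (h : Pt f a b J T q) {x : E3} (hx : T x ≠ 0) :
    (∀ u, ∃ s t : ℝ, T u = s • T x + t • J (T x)) ∧ ∃ v, T v = J (T x) :=
  K12_417.plane h.ha h.hb h.P h.J h.q0 h.Tq h.Ti h.la h.lb hx

/-- a unit tangential vector. -/
theorem exists_tan (q : E3) (hq : ‖q‖ = 1) : ∃ u : E3, ⟪q, u⟫ = 0 ∧ u ≠ 0 := by
  have hn : q 0 * q 0 + q 1 * q 1 + q 2 * q 2 = 1 := by
    rw [← in3, real_inner_self_eq_norm_sq, hq]; norm_num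
  by_cases h0 : q 0 = 0 ∧ q 1 = 0
  · refine ⟨bs 0, ?_, ?_⟩
    · rw [in3]; simp [h0.1, bs_01, bs_02]
    · intro h; have := congrArg (fun z : E3 => z 0) h; simp [bs_00] at this
  · refine ⟨!₂[- q 1, q 0, 0], ?_, ?_⟩
    · rw [in3]; simp; ring
    · intro h
      apply h0
      have e0 := congrArg (fun z : E3 => z 0) h
      have e1 := congrArg (fun z : E3 => z 1) h
      simp at e0 e1
      exact ⟨e1, e0⟩

theorem Pt.dn_ne (h : Pt f a b J T q) : dn f T q ≠ 0 := by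
  intro h0
  obtain ⟨u, hu, hu0⟩ := exists_tan q h.hq
  have hTu := h.ne hu hu0
  obtain ⟨v, hv⟩ := (h.plane hTu).2
  have h1 := h.J.tame (T u) hTu
  rw [← hv, dn_eq h.hf h.hq h.Tq, h0, zero_mul] at h1
  exact lt_irrefl _ h1

theorem cr_cr {q p u : E3} (hp : ⟪q, p⟫ = 0) (hq : ‖q‖ = 1) :
    ⟪q, cr (cr q p) u⟫ = - ⟪p, u⟫ := by
  have hn : q 0 * q 0 + q 1 * q 1 + q 2 * q 2 = 1 := by
    rw [← in3, real_inner_self_eq_norm_sq, hq]; norm_num
  rw [in3] at hp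
  rw [in3, in3]
  simp only [cr0, cr1, cr2]
  linear_combination (u 0 * q 0 + u 1 * q 1 + u 2 * q 2) * hp -
    (p 0 * u 0 + p 1 * u 1 + p 2 * u 2) * hn

theorem cr_tan (q p : E3) : ⟪q, cr q p⟫ = 0 := by
  rw [in3, cr0, cr1, cr2]; ring

theorem cr_ne {q p : E3} (hp : ⟪q, p⟫ = 0) (hq : ‖q‖ = 1) (hp0 : p ≠ 0) : cr q p ≠ 0 := by
  intro h0
  have h1 := cr_cr (u := p) hp hq
  rw [h0] at h1
  have h2 : cr 0 p = 0 := by refine e3ext ?_ ?_ ?_ <;> simp [cr0, cr1, cr2]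
  rw [h2, inner_zero_right, real_inner_self_eq_norm_sq] at h1
  have h3 : ‖p‖ ^ 2 = 0 := by linarith
  exact hp0 (norm_eq_zero.1 (pow_eq_zero_iff (two_ne_zero)|>.1 h3))

/-- `a (ν(q,p), T u) = ⟪p, u⟫`. -/
theorem Pt.nu_T (h : Pt f a b J T q) {p : E3} (hp : ⟪q, p⟫ = 0) (u : E3) :
    a (nu f a J T q p) (T u) = ⟪p, u⟫ := by
  have hd := h.dn_ne
  have key : FJ f J (T (cr q p)) (T u) = f (T (cr q p)) (T u) := by
    by_cases h0 : p = 0
    · have h2 : cr q p = 0 := by rw [h0]; refine e3ext ?_ ?_ ?_ <;> simp [cr0, cr1, cr2]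
      rw [h2]; simp [FJ_apply]
    · exact FJ_plane h.hf h.J.sq ((h.plane (h.ne (cr_tan q p) (cr_ne hp h.hq h0))).1 u)
  rw [nu, map_smul, smul_apply, a_KJ h.ha h.P.ne, key, dn_eq h.hf h.hq h.Tq, cr_cr hp h.hq,
    smul_eq_mul]
  field_simp

theorem Pt.nu_mem (h : Pt f a b J T q) {p p' : E3} (hp : ⟪q, p⟫ = 0)
    (hp0 : p ≠ 0) : ∃ s t : ℝ, nu f a J T q p' = s • nu f a J T q p + t • J (nu f a J T q p) := by
  obtain ⟨s, t, hst⟩ := (h.plane (h.ne (cr_tan q p) (cr_ne hp h.hq hp0))).1 (cr q p')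
  refine ⟨s, -t, ?_⟩
  rw [nu, nu, hst, KJ_lin h.ha h.P.ne, KJ_J h.ha h.P.ne h.J.sq h.J.anti1, map_smul]
  module

theorem Pt.nu_nu (h : Pt f a b J T q) {p p' : E3} (hp : ⟪q, p⟫ = 0) :
    a (nu f a J T q p) (nu f a J T q p') = 0 ∧ b (nu f a J T q p) (nu f a J T q p') = 0 := by
  by_cases h0 : p = 0
  · have h2 : nu f a J T q p = 0 := by
      have h3 : cr q p = 0 := by rw [h0]; refine e3ext ?_ ?_ ?_ <;> simp [cr0, cr1, cr2]
      have h4 : KJ f a J 0 = 0 := by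
        have := KJ_lin (f := f) (J := J) h.ha h.P.ne 0 0 0 0
        simpa using this
      rw [nu, h3, map_zero, h4, smul_zero]
    rw [h2]; simp
  · obtain ⟨s, t, hst⟩ := h.nu_mem (p' := p') hp h0
    rw [hst]
    simp only [map_add, map_smul, h.ha (nu f a J T q p), h.hb (nu f a J T q p),
      anti_diag h.ha h.J.sq h.J.anti1, anti_diag h.hb h.J.sq h.J.anti2, smul_zero, add_zero,
      and_self]

theorem nu_lin (ha : Alt a) (h0 : W a a ≠ 0) (s : ℝ) (p : E3) :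
    nu f a J T q (s • p) = s • nu f a J T q p := by
  have h3 : cr q (s • p) = s • cr q p := by
    refine e3ext ?_ ?_ ?_ <;> simp [cr0, cr1, cr2] <;> ring
  have h4 := KJ_lin (f := f) (J := J) ha h0 s 0 (T (cr q p)) 0
  rw [nu, nu, h3, map_smul]
  rw [zero_smul, zero_smul, add_zero, add_zero] at h4
  rw [h4, smul_comm]

theorem nu_zero (ha : Alt a) (h0 : W a a ≠ 0) : nu f a J T q 0 = 0 := by
  have := nu_lin (f := f) (J := J) (T := T) (q := q) ha h0 0 0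
  simpa using this

/-- change of coordinates. -/
theorem nu_pull {A : E4 →L[ℝ] E4} (hA : Function.Surjective A) {f' a' : Bil} {J' : E4 →L[ℝ] E4}
    {T' : E3 →L[ℝ] E4} (ha : Alt a) (h0 : W a a ≠ 0) (ha' : Alt a') (h0' : W a' a' ≠ 0)
    (hf : ∀ u v, f' u v = f (A u) (A v)) (haa : ∀ u v, a' u v = a (A u) (A v))
    (hJ : ∀ u, A (J' u) = J (A u)) (hT : ∀ u, A (T' u) = T u) (p : E3) :
    A (nu f' a' J' T' q p) = nu f a J T q p := by
  have hd : dn f' T' q = dn f T q := by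
    simp only [dn, hf, hT]
  rw [nu, nu, map_smul, hd]
  congr 1
  refine a_inj ha h0 fun w => ?_
  obtain ⟨w', rfl⟩ := hA w
  rw [← haa, a_KJ ha' h0', a_KJ ha h0, FJ_apply, FJ_apply, hf, hf, hJ, hJ, hT]

end Nu

end

end Crest.Agent.R235.K12_417
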