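import Crest.Agent.R235.K12AnDefs_776

/-!
Row 235 (S0364), block K12, analytic assembly (helper776): the NUMERICAL part of the second step
(logarithmic cut-off): `numQ` turns the bounds of the entries into the hypotheses of `ALGQ`;
`conv` : convexity of the mixed blocks; `pert` : perturbation of the determinant.
-/

set_option autoImplicit false
set_option maxSynthPendingDepth 3

namespace Crest.Agent.R235.K12Num_776

open Crest.Agent.R235.K12_417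

noncomputable section

theorem sum3 (a b c : ℝ) : (a + b + c) ^ 2 ≤ 3 * (a ^ 2 + b ^ 2 + c ^ 2) := by
  nlinarith [sq_nonneg (a - b), sq_nonneg (b - c), sq_nonneg (a - c)]

theorem sqC {a C : ℝ} (h0 : 0 ≤ a) (hC : 0 ≤ C) (h : a ≤ C) : (a * C) ^ 2 ≤ C ^ 4 := by
  have h1 : a ^ 2 ≤ C ^ 2 := by nlinarith
  have h2 : (a * C) ^ 2 = a ^ 2 * C ^ 2 := by ring
  have h3 : C ^ 4 = C ^ 2 * C ^ 2 := by ring
  rw [h2, h3]
  exact mul_le_mul_of_nonneg_right h1 (sq_nonneg _)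

/-- the numerical lemma of step II. -/
theorem numQ (hQ : ALGQ) {α C κ : ℝ} (hα : 0 < α) (hC : 1 ≤ C) (hκ : 0 < κ) :
    ∃ K₀ Λ δ : ℝ, 0 < K₀ ∧ 0 < Λ ∧ 0 < δ ∧ ∀ (ρ K Y : ℝ) (E : Fin 3 → Fin 4 → Fin 4 → ℝ),
      0 ≤ ρ → ρ ≤ δ → K₀ ≤ K → 0 ≤ Y → K * ρ ^ 2 ≤ δ → Λ * Y * ρ ^ 2 ≤ δ →
      α ≤ E 0 0 1 → E 0 0 1 ≤ C → K / 2 + Λ * Y ≤ - E 0 2 3 → - E 0 2 3 ≤ 2 * K + Λ * Y →
      |E 0 0 2| ≤ C * (1 + √Y) → |E 0 0 3| ≤ C * (1 + √Y) → |E 0 1 2| ≤ C * (1 + √Y) →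
      |E 0 1 3| ≤ C * (1 + √Y) →
      |E 1 0 1| ≤ C * ρ → |E 2 0 1| ≤ C * ρ → |E 1 2 3| ≤ C → |E 2 2 3| ≤ C →
      |E 1 0 2| ≤ C → |E 1 0 3| ≤ C → |E 1 1 2| ≤ C → |E 1 1 3| ≤ C →
      |E 2 0 2| ≤ C → |E 2 0 3| ≤ C → |E 2 1 2| ≤ C → |E 2 1 3| ≤ C →
      (∀ x y : ℝ, κ * (x ^ 2 + y ^ 2) ≤ detE (fun i j => x * E 1 i j + y * E 2 i j)) →
      ∀ c : Fin 3 → ℝ, c ≠ 0 → pfE (fun i j => ∑ k, c k * E k i j) < 0 := by
  have hC0 : 0 < C := by linarith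
  -- the constant in front of `1 + Y`
  set C₁ : ℝ := 3 * C ^ 4 + (96 * C ^ 4 + 4 * κ * C ^ 2) with hC₁
  have hC₁0 : 0 < C₁ := by positivity
  refine ⟨16 * (C₁ + 1) / (κ * α), 8 * (C₁ + 1) / (κ * α),
    min (κ / (4 * C ^ 2)) (κ * α / (72 * C ^ 2)), by positivity, by positivity, by positivity, ?_⟩
  intro ρ K Y E hρ0 hρ hK hY hKρ hΛρ ha haC hb hb2 m02 m03 m12 m13 e11 e21 e12 e22
    b02 b03 b12 b13 c02 c03 c12 c13 hdet
  set Λ : ℝ := 8 * (C₁ + 1) / (κ * α) with hΛ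
  have hΛ0 : 0 < Λ := by positivity
  have hK0 : 0 < K := lt_of_lt_of_le (by positivity) hK
  have hρ1 : ρ ≤ κ / (4 * C ^ 2) := hρ.trans (min_le_left _ _)
  have hδ2 : K * ρ ^ 2 ≤ κ * α / (72 * C ^ 2) := hKρ.trans (min_le_right _ _)
  have hδ3 : Λ * Y * ρ ^ 2 ≤ κ * α / (72 * C ^ 2) := hΛρ.trans (min_le_right _ _)
  have hΛY : 0 ≤ Λ * Y := by positivity
  set a : ℝ := E 0 0 1 with ha'
  set b : ℝ := - E 0 2 3 with hb'
  have hapos : 0 < a := lt_of_lt_of_le hα ha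
  have hbpos : 0 < b := by linarith
  set sY : ℝ := √Y with hsY
  have hsY0 : 0 ≤ sY := Real.sqrt_nonneg _
  have hsY2 : sY ^ 2 = Y := Real.sq_sqrt hY
  set m : ℝ := C * (1 + sY) with hm
  have hm0 : 0 ≤ m := by positivity
  have hm2 : m ^ 2 ≤ 2 * C ^ 2 * (1 + Y) := by
    rw [hm, mul_pow, ← hsY2]
    nlinarith [sq_nonneg (1 - sY), sq_nonneg C]
  -- `κ α K / 16 ≥ C₁ + 1`, `κ α Λ / 8 = C₁ + 1`
  have h1 : 16 * (C₁ + 1) ≤ κ * α * K := by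
    have := (div_le_iff₀ (by positivity : 0 < κ * α)).1 hK
    linarith
  have h2 : κ * α * Λ = 8 * (C₁ + 1) := by
    rw [hΛ]; field_simp
  have h3 : (C₁ + 1) * (1 + Y) ≤ κ * α * b / 8 := by
    have h4 : κ * α * (K / 2 + Λ * Y) ≤ κ * α * b :=
      mul_le_mul_of_nonneg_left hb (by positivity)
    have h5 : κ * α * (K / 2 + Λ * Y) = κ * α * K / 2 + 8 * ((C₁ + 1) * Y) := by
      have : κ * α * (K / 2 + Λ * Y) = κ * α * K / 2 + (κ * α * Λ) * Y := by ring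
      rw [this, h2]; ring
    have h6 : (C₁ + 1) * (1 + Y) = (C₁ + 1) + (C₁ + 1) * Y := by ring
    rw [h5] at h4
    rw [h6]
    linarith
  -- `b e₁² ≤ ...`
  have h6 : C ^ 2 * (b * ρ ^ 2) ≤ κ * α / 24 := by
    have h7 : b * ρ ^ 2 ≤ (2 * K + Λ * Y) * ρ ^ 2 := mul_le_mul_of_nonneg_right hb2 (sq_nonneg _)
    have h8 : (2 * K + Λ * Y) * ρ ^ 2 = 2 * (K * ρ ^ 2) + Λ * Y * ρ ^ 2 := by ring
    have h9 : b * ρ ^ 2 ≤ 3 * (κ * α / (72 * C ^ 2)) := by linarith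
    calc C ^ 2 * (b * ρ ^ 2) ≤ C ^ 2 * (3 * (κ * α / (72 * C ^ 2))) :=
          mul_le_mul_of_nonneg_left h9 (sq_nonneg _)
      _ = κ * α / 24 := by field_simp; ring
  refine hQ κ a b m C (C * ρ) C E hκ hapos hbpos rfl (by rw [hb']; ring)
    m02 m03 m12 m13 e11 e21 e12 e22 b02 b03 b12 b13 c02 c03 c12 c13 hdet ?_ ?_
  · have h7 := (le_div_iff₀ (by positivity : 0 < 4 * C ^ 2)).1 hρ1
    have h8 : 4 * (C * ρ * C) = ρ * (4 * C ^ 2) := by ring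
    rw [h8]
    exact h7
  · -- the main inequality
    have haC2 : (a * C) ^ 2 ≤ C ^ 4 := sqC hapos.le hC0.le haC
    have hbe : (b * (C * ρ)) ^ 2 ≤ b * (κ * α / 24) := by
      have : (b * (C * ρ)) ^ 2 = b * (C ^ 2 * (b * ρ ^ 2)) := by ring
      rw [this]
      exact mul_le_mul_of_nonneg_left h6 hbpos.le
    have hmB : (4 * (m * C)) ^ 2 ≤ 16 * C ^ 2 * (2 * C ^ 2 * (1 + Y)) := by
      have : (4 * (m * C)) ^ 2 = 16 * C ^ 2 * m ^ 2 := by ring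
      rw [this]
      exact mul_le_mul_of_nonneg_left hm2 (by positivity)
    have hsum : (a * C + b * (C * ρ) + 4 * (m * C)) ^ 2 ≤
        3 * ((a * C) ^ 2 + (b * (C * ρ)) ^ 2 + (4 * (m * C)) ^ 2) := sum3 _ _ _
    have hab : α * b ≤ a * b := mul_le_mul_of_nonneg_right ha hbpos.le
    have hκab : κ * (α * b) ≤ κ * (a * b) := mul_le_mul_of_nonneg_left hab hκ.le
    have hκm : κ * (2 * m ^ 2) ≤ κ * (2 * (2 * C ^ 2 * (1 + Y))) := by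
      refine mul_le_mul_of_nonneg_left ?_ hκ.le
      linarith
    have hC4Y : C ^ 4 ≤ C ^ 4 * (1 + Y) := by
      have h7 : 0 ≤ C ^ 4 := by positivity
      have h8 : 0 ≤ C ^ 4 * Y := by positivity
      have h9 : C ^ 4 * (1 + Y) = C ^ 4 + C ^ 4 * Y := by ring
      rw [h9]
      linarith
    have hY1 : (C₁ + 1) * (1 + Y) = C₁ * (1 + Y) + (1 + Y) := by ring
    have hC₁e : C₁ * (1 + Y) = 3 * (C ^ 4 * (1 + Y)) + 96 * C ^ 4 * (1 + Y) +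
        4 * κ * C ^ 2 * (1 + Y) := by rw [hC₁]; ring
    have hκb : 0 < κ * α * b := by positivity
    have e1 : κ * (α * b) = κ * α * b := by ring
    have e2 : b * (κ * α / 24) = κ * α * b / 24 := by ring
    have e3 : κ * (a * b - 2 * m ^ 2) = κ * (a * b) - κ * (2 * m ^ 2) := by ring
    have e4 : 16 * C ^ 2 * (2 * C ^ 2 * (1 + Y)) = 32 * C ^ 4 * (1 + Y) := by ring
    have e5 : κ * (2 * (2 * C ^ 2 * (1 + Y))) = 4 * κ * C ^ 2 * (1 + Y) := by ring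
    rw [e1] at hκab
    rw [e2] at hbe
    rw [e4] at hmB
    rw [e5] at hκm
    rw [e3]
    rw [hY1, hC₁e] at h3
    linarith

/-- the mixed block of the second form, convexity. -/
theorem conv {x₀ m n y₀ s D₀ : ℝ} (hs : s = 1 ∨ s = -1)
    (hD : D₀ ≤ -(x₀ - y₀) ^ 2 - 4 * m * n) (hD0 : 0 < D₀) (hD4 : D₀ ≤ 4)
    (hsgn : 0 < s * (n - m)) {τ : ℝ} (h0 : 0 ≤ τ) (h1 : τ ≤ 1) :
    D₀ / 2 ≤ -(((1 - τ) * x₀ + τ * 0) - ((1 - τ) * y₀ + τ * 0)) ^ 2 -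
      4 * ((1 - τ) * m + τ * (s * (-1))) * ((1 - τ) * n + τ * (s * 1)) := by
  have hs2 : s ^ 2 = 1 := by rcases hs with h | h <;> rw [h] <;> norm_num
  have e : -(((1 - τ) * x₀ + τ * 0) - ((1 - τ) * y₀ + τ * 0)) ^ 2 -
      4 * ((1 - τ) * m + τ * (s * (-1))) * ((1 - τ) * n + τ * (s * 1)) =
      (1 - τ) ^ 2 * (-(x₀ - y₀) ^ 2 - 4 * m * n) + 4 * τ * (1 - τ) * (s * (n - m)) +
        4 * τ ^ 2 * s ^ 2 := by ring
  rw [e, hs2]
  have h2 : (1 - τ) ^ 2 * D₀ ≤ (1 - τ) ^ 2 * (-(x₀ - y₀) ^ 2 - 4 * m * n) :=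
    mul_le_mul_of_nonneg_left hD (sq_nonneg _)
  have h3 : 0 ≤ 4 * τ * (1 - τ) * (s * (n - m)) := by
    have : 0 ≤ 1 - τ := by linarith
    positivity
  nlinarith [sq_nonneg (2 * τ - 1), mul_nonneg (sq_nonneg τ) (by linarith : (0 : ℝ) ≤ 4 - D₀)]

/-- from the discriminant to the lower bound, for blocks near `-1`. -/
theorem quad {T Δ D₀ B : ℝ} (hD0 : 0 < D₀) (hD : D₀ ≤ 4 * Δ - T ^ 2) (hT : |T| ≤ B) (x y : ℝ) :
    min (1 / 2) (D₀ / (4 + 2 * B ^ 2)) * (x ^ 2 + y ^ 2) ≤ x ^ 2 - x * y * T + y ^ 2 * Δ := by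
  have hB : T ^ 2 ≤ B ^ 2 := by
    have := abs_nonneg T
    nlinarith [sq_abs T]
  set κ : ℝ := min (1 / 2) (D₀ / (4 + 2 * B ^ 2)) with hκ
  have hκ0 : 0 < κ := by positivity
  have h1 : κ ≤ 1 / 2 := min_le_left _ _
  have h2 : κ * (4 + 2 * B ^ 2) ≤ D₀ := by
    have := min_le_right (1 / 2 : ℝ) (D₀ / (4 + 2 * B ^ 2))
    rwa [← hκ, le_div_iff₀ (by positivity)] at this
  -- x² ≤ 2 (x - yT/2)² + y² T²/2
  have e : x ^ 2 - x * y * T + y ^ 2 * Δ = (x - y * T / 2) ^ 2 + y ^ 2 * (4 * Δ - T ^ 2) / 4 := by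
    ring
  rw [e]
  have h3 : x ^ 2 ≤ 2 * (x - y * T / 2) ^ 2 + y ^ 2 * T ^ 2 / 2 := by
    nlinarith [sq_nonneg (x - y * T)]
  have h4 : y ^ 2 * D₀ ≤ y ^ 2 * (4 * Δ - T ^ 2) := mul_le_mul_of_nonneg_left hD (sq_nonneg _)
  have h5 : y ^ 2 * T ^ 2 ≤ y ^ 2 * B ^ 2 := mul_le_mul_of_nonneg_left hB (sq_nonneg _)
  have h6 : κ * (x ^ 2 + y ^ 2) ≤ κ * (2 * (x - y * T / 2) ^ 2 + y ^ 2 * B ^ 2 / 2 + y ^ 2) := by
    refine mul_le_mul_of_nonneg_left ?_ hκ0.le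
    linarith
  have h7 : κ * (2 * (x - y * T / 2) ^ 2) ≤ (x - y * T / 2) ^ 2 := by
    have := sq_nonneg (x - y * T / 2)
    nlinarith
  have h8 : κ * (y ^ 2 * B ^ 2 / 2 + y ^ 2) ≤ y ^ 2 * D₀ / 4 := by
    have h9 := mul_le_mul_of_nonneg_left h2 (sq_nonneg y)
    nlinarith
  nlinarith

/-- perturbation of the determinant of the mixed block. -/
theorem pert {B ε κ : ℝ} (hε : 0 ≤ ε) (hε1 : ε ≤ 1) (hB : 0 ≤ B) (hκ : 16 * (B + 1) * ε ≤ κ / 2)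
    {A A' F F' : Fin 4 → Fin 4 → ℝ}
    (a1 : |A' 0 2| ≤ B) (a2 : |A' 0 3| ≤ B) (a3 : |A' 1 2| ≤ B) (a4 : |A' 1 3| ≤ B)
    (f1 : |F' 0 2| ≤ B) (f2 : |F' 0 3| ≤ B) (f3 : |F' 1 2| ≤ B) (f4 : |F' 1 3| ≤ B)
    (d1 : |A 0 2 - A' 0 2| ≤ ε) (d2 : |A 0 3 - A' 0 3| ≤ ε) (d3 : |A 1 2 - A' 1 2| ≤ ε)
    (d4 : |A 1 3 - A' 1 3| ≤ ε)
    (g1 : |F 0 2 - F' 0 2| ≤ ε) (g2 : |F 0 3 - F' 0 3| ≤ ε) (g3 : |F 1 2 - F' 1 2| ≤ ε)
    (g4 : |F 1 3 - F' 1 3| ≤ ε)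
    (h : ∀ x y : ℝ, κ * (x ^ 2 + y ^ 2) ≤ detE (fun i j => x * A' i j + y * F' i j)) (x y : ℝ) :
    κ / 2 * (x ^ 2 + y ^ 2) ≤ detE (fun i j => x * A i j + y * F i j) := by
  have h0 := h x y
  -- entries of the combination
  have key : ∀ i j, |A i j - A' i j| ≤ ε → |F i j - F' i j| ≤ ε →
      |(x * A i j + y * F i j) - (x * A' i j + y * F' i j)| ≤ ε * (|x| + |y|) := by
    intro i j h1 h2
    have : (x * A i j + y * F i j) - (x * A' i j + y * F' i j) =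
        x * (A i j - A' i j) + y * (F i j - F' i j) := by ring
    rw [this]
    refine (abs_add_le _ _).trans ?_
    rw [abs_mul, abs_mul]
    have k1 := mul_le_mul_of_nonneg_left h1 (abs_nonneg x)
    have k2 := mul_le_mul_of_nonneg_left h2 (abs_nonneg y)
    linarith
  have kb : ∀ i j, |A' i j| ≤ B → |F' i j| ≤ B → |x * A' i j + y * F' i j| ≤ B * (|x| + |y|) := by
    intro i j h1 h2
    refine (abs_add_le _ _).trans ?_
    rw [abs_mul, abs_mul]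
    have k1 := mul_le_mul_of_nonneg_left h1 (abs_nonneg x)
    have k2 := mul_le_mul_of_nonneg_left h2 (abs_nonneg y)
    linarith
  set S : ℝ := |x| + |y| with hS
  have hS0 : 0 ≤ S := by positivity
  have hS2 : S ^ 2 ≤ 2 * (x ^ 2 + y ^ 2) := by
    rw [hS]
    nlinarith [sq_abs x, sq_abs y, sq_nonneg (|x| - |y|)]
  have pr : ∀ u v u' v' : ℝ, |u - u'| ≤ ε * S → |v - v'| ≤ ε * S → |u'| ≤ B * S → |v'| ≤ B * S →
      |u * v - u' * v'| ≤ (2 * B + 1) * ε * S ^ 2 := by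
    intro u v u' v' h1 h2 h3 h4
    have e : u * v - u' * v' = (u - u') * (v - v') + (u - u') * v' + u' * (v - v') := by ring
    rw [e]
    have t1 : |(u - u') * (v - v')| ≤ (ε * S) * (ε * S) := by
      rw [abs_mul]; exact mul_le_mul h1 h2 (abs_nonneg _) (by positivity)
    have t2 : |(u - u') * v'| ≤ (ε * S) * (B * S) := by
      rw [abs_mul]; exact mul_le_mul h1 h4 (abs_nonneg _) (by positivity)
    have t3 : |u' * (v - v')| ≤ (B * S) * (ε * S) := by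
      rw [abs_mul]; exact mul_le_mul h3 h2 (abs_nonneg _) (by positivity)
    have t4 := abs_add_le ((u - u') * (v - v') + (u - u') * v') (u' * (v - v'))
    have t5 := abs_add_le ((u - u') * (v - v')) ((u - u') * v')
    have t6 : (ε * S) * (ε * S) ≤ ε * S ^ 2 := by
      have : (ε * S) * (ε * S) = ε * (ε * S ^ 2) := by ring
      rw [this]
      have h7 : 0 ≤ ε * S ^ 2 := by positivity
      exact mul_le_of_le_one_left h7 hε1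
    have e2 : (2 * B + 1) * ε * S ^ 2 = (ε * S) * (B * S) + (B * S) * (ε * S) + ε * S ^ 2 := by ring
    rw [e2]
    linarith
  have p1 := pr _ _ _ _ (key 0 2 d1 g1) (key 1 3 d4 g4) (kb 0 2 a1 f1) (kb 1 3 a4 f4)
  have p2 := pr _ _ _ _ (key 0 3 d2 g2) (key 1 2 d3 g3) (kb 0 3 a2 f2) (kb 1 2 a3 f3)
  simp only [detE] at h0 ⊢
  have q1 := (abs_le.1 p1).1
  have q2 := (abs_le.1 p2).2
  have hfin : 2 * ((2 * B + 1) * ε * S ^ 2) ≤ κ / 2 * (x ^ 2 + y ^ 2) := by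
    have h1 : 2 * ((2 * B + 1) * ε * S ^ 2) ≤ 2 * ((2 * B + 1) * ε * (2 * (x ^ 2 + y ^ 2))) := by
      have h7 : 0 ≤ (2 * B + 1) * ε := by positivity
      have h8 := mul_le_mul_of_nonneg_left hS2 h7
      linarith
    have h2 : 2 * ((2 * B + 1) * ε * (2 * (x ^ 2 + y ^ 2))) ≤
        (16 * (B + 1) * ε) * (x ^ 2 + y ^ 2) := by
      have h3 : 0 ≤ ε * (x ^ 2 + y ^ 2) := by positivity
      have h4 : 0 ≤ B * (ε * (x ^ 2 + y ^ 2)) := by positivity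
      have e1 : 2 * ((2 * B + 1) * ε * (2 * (x ^ 2 + y ^ 2))) =
        8 * (B * (ε * (x ^ 2 + y ^ 2))) + 4 * (ε * (x ^ 2 + y ^ 2)) := by ring
      have e2 : (16 * (B + 1) * ε) * (x ^ 2 + y ^ 2) =
        16 * (B * (ε * (x ^ 2 + y ^ 2))) + 16 * (ε * (x ^ 2 + y ^ 2)) := by ring
      rw [e1, e2]
      linarith
    have h3 : (16 * (B + 1) * ε) * (x ^ 2 + y ^ 2) ≤ κ / 2 * (x ^ 2 + y ^ 2) :=
      mul_le_mul_of_nonneg_right hκ (by positivity)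
    linarith
  linarith

end

end Crest.Agent.R235.K12Num_776
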