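import Crest.Agent.R235.K12Defs_417

/-!
Row 235 (S0364), package KUM, block K12, leaf POSF (helper601): positivity at a point of the tube,
read in a frame.
-/

set_option autoImplicit false
set_option maxSynthPendingDepth 3

open Set Function Filter MeasureTheory
open scoped Manifold ContDiff Topology RealInnerProductSpace

universe u

namespace Crest.Agent.R235.K12Posf_601

open Crest.Agent.R240 Crest.Agent.R240.Ch Crest.Agent.R235 Crest.Agent.R235.K12_417

noncomputable section

/-- the linear map with columns `Y i`. -/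
def colM (Y : Fin 4 → E4) : E4 →L[ℝ] E4 :=
  ∑ i, (EuclideanSpace.proj i : E4 →L[ℝ] ℝ).smulRight (Y i)

theorem colM_ee (Y : Fin 4 → E4) (i : Fin 4) : colM Y (ee i) = Y i := by
  simp [colM, sum_apply]

theorem W_ne_of_pf {b : Bil} (hb : Alt b) (Y : Fin 4 → E4)
    (h : b (Y 0) (Y 1) * b (Y 2) (Y 3) - b (Y 0) (Y 2) * b (Y 1) (Y 3)
      + b (Y 0) (Y 3) * b (Y 1) (Y 2) ≠ 0) : W b b ≠ 0 := by
  intro hW
  have h1 := W_pull hb hb (colM Y)
  rw [hW, mul_zero] at h1
  refine h ?_
  unfold W ent at h1
  simp only [pull_apply, colM_ee] at h1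
  linarith

section Closed

variable {M : Type u} [TopologicalSpace M] [ChartedSpace E4 M] [IsManifold 𝓘(ℝ, E4) ∞ M]

theorem posf : POSF M := by
  intro σ r Ps G U _ w z e _ _ hP c hc
  have h1 := hP c hc
  set A : E6 →L[ℝ] E4 := PB_604.D1 E6 E4 Ps z with hA
  set b : Bil := ∑ i, c i • val (w i) (Ps z) with hb
  have halt : Alt b := by
    intro v
    rw [hb]
    simp only [sum_apply, smul_apply, smul_eq_mul]
    refine Finset.sum_eq_zero fun i _ => ?_
    have h2 : val (w i) (Ps z) v v = 0 := (w i).1.2.1 (Ps z) v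
    rw [h2, mul_zero]
  have hen : ∀ i j : Fin 4, en (∑ i, c i • P2 Ps ((w i).1.1 : F2 E4 M) z) z e i j =
      b (A (X z e i)) (A (X z e j)) := by
    intro i j
    rw [hb]
    simp only [en, sum_apply, smul_apply, smul_eq_mul]
    refine Finset.sum_congr rfl fun k _ => ?_
    rw [P2, PB_604.at2_pb2, PB_604.pl_apply]
    rfl
  refine W_ne_of_pf halt (fun i => A (X z e i)) ?_
  unfold pf at h1
  simp only [hen] at h1
  exact h1.ne

end Closed

end

end Crest.Agent.R235.K12Posf_601
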