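import Crest.Agent.R235.K12Pos_776
import Crest.Agent.R235.K12Posf_601

/-!
Row 235 (S0364), block K12 (helper776): LEAF PFIFF (a form is degenerate at a point of the tube iff
its Pfaffian in the frame vanishes) and LEAF EXT2 in the form of `K12AnDefs_776`.
-/

set_option autoImplicit false
set_option maxSynthPendingDepth 3
set_option linter.unusedSectionVars false

open Set Function Filter MeasureTheory
open scoped Manifold ContDiff Topology RealInnerProductSpace

universe u

namespace Crest.Agent.R235.K12Pf_776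

open Crest.Agent.R240 Crest.Agent.R240.Ch Crest.Agent.R235 Crest.Agent.R235.K12_417
  Crest.Agent.R235.K12An_776 Crest.Agent.R235.PB_604 Crest.Agent.R235.K12Ext_168
  Crest.Agent.R235.K12Posf_601

noncomputable section

variable {M : Type u} [TopologicalSpace M] [T2Space M] [CompactSpace M]
  [ChartedSpace E4 M] [IsManifold 𝓘(ℝ, E4) ∞ M]

variable {σ : E3 → M} {r : ℝ} {Ps : E6 → M} {G : M → E6} {U : Set M}

/-- the frame is linearly independent. -/
theorem X_indep {z : E6} {e : E3} (he : IsFr z.1 e) {c : Fin 4 → ℝ}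
    (h : ∑ i, c i • X z e i = 0) : c = 0 := by
  rw [Fin.sum_univ_four] at h
  have h1 := congrArg Prod.fst h
  have h2 := congrArg Prod.snd h
  have x0 : X z e 0 = (e, -(⟪z.2, e⟫ • z.1)) := rfl
  have x1 : X z e 1 = (cr z.1 e, -(⟪z.2, cr z.1 e⟫ • z.1)) := rfl
  have x2 : X z e 2 = (0, e) := rfl
  have x3 : X z e 3 = (0, cr z.1 e) := rfl
  rw [x0, x1, x2, x3] at h1 h2
  simp only [Prod.fst_add, Prod.smul_fst, Prod.fst_zero, smul_zero, add_zero, Prod.snd_add,
    Prod.smul_snd, Prod.snd_zero] at h1 h2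
  have hee : ⟪e, e⟫ = 1 := by rw [real_inner_self_eq_norm_sq, he.2.1]; norm_num
  have h33 : ⟪cr z.1 e, cr z.1 e⟫ = 1 := K12Radf_843.fr_e3 he
  have he3 : ⟪e, cr z.1 e⟫ = 0 := K12Radf_843.inn_cr_right z.1 e
  have h3e : ⟪cr z.1 e, e⟫ = 0 := by rw [real_inner_comm]; exact he3
  have c0 : c 0 = 0 := by
    have := congrArg (fun v => ⟪e, v⟫) h1
    simp only [inner_add_right, inner_smul_right, hee, he3, inner_zero_right] at this
    linarith
  have c1 : c 1 = 0 := by
    have := congrArg (fun v => ⟪cr z.1 e, v⟫) h1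
    simp only [inner_add_right, inner_smul_right, h3e, h33, inner_zero_right] at this
    linarith
  rw [c0, c1, zero_smul, zero_smul, zero_add, zero_add] at h2
  have c2 : c 2 = 0 := by
    have := congrArg (fun v => ⟪e, v⟫) h2
    simp only [inner_add_right, inner_smul_right, hee, he3, inner_zero_right] at this
    linarith
  have c3 : c 3 = 0 := by
    have := congrArg (fun v => ⟪cr z.1 e, v⟫) h2
    simp only [inner_add_right, inner_smul_right, h3e, h33, inner_zero_right] at this
    linarith
  funext i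
  fin_cases i
  · exact c0
  · exact c1
  · exact c2
  · exact c3

theorem colM_apply (Y : Fin 4 → E4) (v : E4) : colM Y v = ∑ i, v i • Y i := by
  simp [colM, sum_apply]

/-- the images of the frame are independent. -/
theorem colM_inj (hT : Tube σ r Ps G U) {z : E6} {e : E3} (hz : z ∈ TS r) (he : IsFr z.1 e) :
    LinearMap.det (colM (fun i => D1 E6 E4 Ps z (X z e i)) : E4 →ₗ[ℝ] E4) ≠ 0 := by
  have hzO := TS_subset_OS r hz
  have hU : Ps z ∈ U := hT.maps z hzO
  have hP : ContMDiffAt 𝓘(ℝ, E6) 𝓘(ℝ, E4) 1 Ps z := (smoothAt hT hzO).of_le one_le_infty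
  have hG : ContMDiffAt 𝓘(ℝ, E4) 𝓘(ℝ, E6) 1 G (Ps z) := (smoothGAt hT hU).of_le one_le_infty
  have h1 := D1_comp (E := E6) (F := E4) (G := E6) hP hG
  have h2 : D1 E6 E6 (G ∘ Ps) z = fderiv ℝ Pi z := by
    rw [D1_congr (comp_ev hT hzO), D1_Pi]
  rw [h2] at h1
  have hinj : Function.Injective
      (colM (fun i => D1 E6 E4 Ps z (X z e i)) : E4 →ₗ[ℝ] E4) := by
    rw [injective_iff_map_eq_zero]
    intro v hv
    have hv' : ∑ i, v i • D1 E6 E4 Ps z (X z e i) = 0 := by
      rw [← colM_apply]; exact hv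
    have h3 : ∑ i, v i • X z e i = 0 := by
      have h4 : ∑ i, v i • X z e i = fderiv ℝ Pi z (∑ i, v i • X z e i) := by
        rw [map_sum]
        refine Finset.sum_congr rfl fun i _ => ?_
        rw [map_smul, K12Geo_128.fix hz he i]
      rw [h4, h1]
      show D1 E4 E6 G (Ps z) (D1 E6 E4 Ps z (∑ i, v i • X z e i)) = 0
      have h5 : D1 E6 E4 Ps z (∑ i, v i • X z e i) =
          ∑ i, v i • D1 E6 E4 Ps z (X z e i) := by
        rw [map_sum]
        exact Finset.sum_congr rfl fun i _ => map_smul _ _ _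
      rw [h5, hv', map_zero]
    have h4 := X_indep he (c := fun i => v i) h3
    ext i
    exact congrFun h4 i
  exact (LinearEquiv.isUnit_det' (LinearEquiv.ofInjectiveEndo _ hinj)).ne_zero

variable (M) in
/-- LEAF PFIFF. -/
theorem pfiff : PFIFF M := by
  intro σ r Ps G U hT a z e hz he
  set A : E6 →L[ℝ] E4 := D1 E6 E4 Ps z with hA
  set b : Bil := val a (Ps z) with hb
  have halt : Alt b := fun v => a.1.2.1 (Ps z) v
  have hen : ∀ i j : Fin 4, en (Om Ps a z) z e i j = b (A (X z e i)) (A (X z e j)) := by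
    intro i j
    rw [en, K12Pos_776.Om_eq, pl_apply]
  have h1 := W_pull halt halt (colM (fun i => A (X z e i)))
  have h2 : W (pull (colM (fun i => A (X z e i))) b) (pull (colM (fun i => A (X z e i))) b) =
      2 * pf (Om Ps a z) z e := by
    unfold W ent pf
    simp only [pull_apply, colM_ee, hen]
    ring
  rw [h2] at h1
  have h3 := colM_inj hT hz he
  constructor
  · intro h
    rw [h, mul_zero] at h1
    linarith
  · intro h
    rw [h, mul_zero] at h1
    rcases mul_eq_zero.1 h1.symm with h4 | h4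
    · exact absurd h4 h3
    · exact h4

variable (M) in
/-- LEAF EXT2. -/
theorem ext2 : K12An_776.EXT2 M where
  ext := K12Ext2_168.ext2 M
  bas := fun _ _ _ _ _ h a => K12Pos_776.basOm h a

end

end Crest.Agent.R235.K12Pf_776
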