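import Crest.Agent.R235.K12AnDefs_776
import Crest.Agent.R235.K12Ext2_168

/-!
Row 235 (S0364), package KUM, block K12, leaf ZERO (task 364, helper692): the entries of the
triple at the zero section; the area density `f > 0`.
-/

set_option autoImplicit false
set_option maxSynthPendingDepth 3
set_option linter.unusedSectionVars false

open Set Function Filter MeasureTheory
open scoped Manifold ContDiff Topology RealInnerProductSpace

universe u

namespace Crest.Agent.R235.K12Zero_692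

open Crest.Agent.R240 Crest.Agent.R240.Ch Crest.Agent.R235 Crest.Agent.R235.K12_417
  Crest.Agent.R235.K12An_776 Crest.Agent.R235.PB_604 Crest.Agent.R235.K12Ext_168

noncomputable section

/-! ### algebra in `ℝ³` -/

theorem inner3 (a b : E3) : ⟪a, b⟫ = a 0 * b 0 + a 1 * b 1 + a 2 * b 2 := by
  rw [PiLp.inner_apply, Fin.sum_univ_three]
  simp only [RCLike.inner_apply, conj_trivial]
  ring

theorem norm3 {q : E3} (hq : ‖q‖ = 1) : q 0 * q 0 + q 1 * q 1 + q 2 * q 2 = 1 := by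
  rw [← inner3, real_inner_self_eq_norm_sq, hq]
  norm_num

theorem cr0 (a b : E3) : cr a b 0 = a 1 * b 2 - a 2 * b 1 := by simp [cr]
theorem cr1 (a b : E3) : cr a b 1 = a 2 * b 0 - a 0 * b 2 := by simp [cr]
theorem cr2 (a b : E3) : cr a b 2 = a 0 * b 1 - a 1 * b 0 := by simp [cr]

/-- the standard basis. -/
abbrev b3 (i : Fin 3) : E3 := EuclideanSpace.single i 1

theorem expand3 (u : E3) : u = u 0 • b3 0 + u 1 • b3 1 + u 2 • b3 2 := by
  ext i
  fin_cases i <;> simp [b3]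

/-- an alternating form on `ℝ³` with kernel `q`. -/
theorem alt_axis (B : E3 →ₗ[ℝ] E3 →ₗ[ℝ] ℝ) (hB : ∀ u, B u u = 0) {q : E3} (hq : ‖q‖ = 1)
    (hk : ∀ v, B q v = 0) (u v : E3) :
    B u v = (q 2 * B (b3 0) (b3 1) + q 0 * B (b3 1) (b3 2) + q 1 * B (b3 2) (b3 0)) *
      ⟪q, cr u v⟫ := by
  have hs : ∀ a b, B b a = - B a b := by
    intro a b
    have h1 := hB (a + b)
    simp only [map_add, LinearMap.add_apply, hB] at h1
    linarith
  have h1 : ∀ u v : E3, B u v = (u 0 * v 1 - u 1 * v 0) * B (b3 0) (b3 1) +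
      (u 1 * v 2 - u 2 * v 1) * B (b3 1) (b3 2) + (u 2 * v 0 - u 0 * v 2) * B (b3 2) (b3 0) := by
    intro u v
    conv_lhs => rw [expand3 u, expand3 v]
    simp only [map_add, map_smul, LinearMap.add_apply, LinearMap.smul_apply, smul_eq_mul, hB]
    rw [hs (b3 0) (b3 1), hs (b3 1) (b3 2), hs (b3 2) (b3 0)]
    ring
  have k0 := hk (b3 0)
  have k1 := hk (b3 1)
  have k2 := hk (b3 2)
  rw [h1] at k0 k1 k2
  simp [b3] at k0 k1 k2
  rw [h1 u v, inner3, cr0, cr1, cr2]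
  set x := B (b3 0) (b3 1)
  set y := B (b3 1) (b3 2)
  set z := B (b3 2) (b3 0)
  have hn := norm3 hq
  have e0 : q 1 * x = q 2 * z := by
    have : x = B (EuclideanSpace.single 0 1) (EuclideanSpace.single 1 1) := rfl
    have : z = B (EuclideanSpace.single 2 1) (EuclideanSpace.single 0 1) := rfl
    linarith
  have e1 : q 0 * x = q 2 * y := by
    have : x = B (EuclideanSpace.single 0 1) (EuclideanSpace.single 1 1) := rfl
    have : y = B (EuclideanSpace.single 1 1) (EuclideanSpace.single 2 1) := rfl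
    linarith
  have e2 : q 1 * y = q 0 * z := by
    have : y = B (EuclideanSpace.single 1 1) (EuclideanSpace.single 2 1) := rfl
    have : z = B (EuclideanSpace.single 2 1) (EuclideanSpace.single 0 1) := rfl
    linarith
  have f0 : y = (q 2 * x + q 0 * y + q 1 * z) * q 0 := by
    linear_combination (-y) * hn + q 2 * e1 * (-1) + q 1 * e2
  have f1 : z = (q 2 * x + q 0 * y + q 1 * z) * q 1 := by
    linear_combination (-z) * hn + q 2 * e0 * (-1) - q 0 * e2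
  have f2 : x = (q 2 * x + q 0 * y + q 1 * z) * q 2 := by
    linear_combination (-x) * hn + q 1 * e0 + q 0 * e1
  linear_combination (u 0 * v 1 - u 1 * v 0) * f2 + (u 1 * v 2 - u 2 * v 1) * f0 +
    (u 2 * v 0 - u 0 * v 2) * f1

theorem inner_cr_cr {q e : E3} (h : IsFr q e) : ⟪q, cr e (cr q e)⟫ = 1 := by
  obtain ⟨h1, h2, h3⟩ := h
  have n1 := norm3 h1
  have n2 := norm3 h2
  rw [inner3] at h3
  simp only [inner3, cr0, cr1, cr2]
  have : (q 0 * q 0 + q 1 * q 1 + q 2 * q 2) * (e 0 * e 0 + e 1 * e 1 + e 2 * e 2) -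
      (q 0 * e 0 + q 1 * e 1 + q 2 * e 2) ^ 2 = 1 := by
    rw [n1, n2, h3]; norm_num
  linear_combination this

theorem inner_cr_self {q e : E3} : ⟪q, cr q e⟫ = 0 := by
  rw [inner3, cr0, cr1, cr2]; ring

/-- existence of frames. -/
theorem exists_fr {q : E3} (hq : ‖q‖ = 1) : ∃ e, IsFr q e := by
  obtain ⟨v, hv, hv0⟩ : ∃ v : E3, ⟪q, v⟫ = 0 ∧ v ≠ 0 := by
    by_cases h : q 0 = 0 ∧ q 1 = 0
    · refine ⟨b3 0, ?_, ?_⟩
      · rw [inner3, h.1, h.2]; simp [b3]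
      · intro h0
        have := congrArg (fun v : E3 => v 0) h0
        simp [b3] at this
    · refine ⟨!₂[-q 1, q 0, 0], ?_, ?_⟩
      · rw [inner3]; simp; ring
      · intro h0
        have e1 := congrArg (fun v : E3 => v 0) h0
        have e2 := congrArg (fun v : E3 => v 1) h0
        simp at e1 e2
        exact h ⟨e2, e1⟩
  refine ⟨‖v‖⁻¹ • v, hq, ?_, ?_⟩
  · rw [norm_smul, norm_inv, norm_norm, inv_mul_cancel₀ (norm_ne_zero_iff.2 hv0)]
  · rw [inner_smul_right, hv, mul_zero]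

/-- a pencil of `2 × 2` matrices with the identity contains a singular one. -/
theorem exists_sing (a b c d a' b' c' d' : ℝ) : ∃ x y z : ℝ, (x ≠ 0 ∨ y ≠ 0 ∨ z ≠ 0) ∧
    (x * a - y + z * a') * (x * d - y + z * d') - (x * b + z * b') * (x * c + z * c') = 0 := by
  obtain ⟨x, z, hxz, h1⟩ : ∃ x z : ℝ, (x ≠ 0 ∨ z ≠ 0) ∧ x * b + z * b' = x * c + z * c' := by
    by_cases h : b - c = 0
    · exact ⟨1, 0, Or.inl one_ne_zero, by linarith⟩
    · refine ⟨-(b' - c'), b - c, Or.inr h, by ring⟩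
  set A := x * a + z * a' with hA
  set D := x * d + z * d' with hD
  set β := x * b + z * b' with hβ
  refine ⟨x, ((A + D) + Real.sqrt ((A - D) ^ 2 + 4 * β ^ 2)) / 2, z, ?_, ?_⟩
  · rcases hxz with h | h
    · exact Or.inl h
    · exact Or.inr (Or.inr h)
  · rw [← h1]
    have hs : Real.sqrt ((A - D) ^ 2 + 4 * β ^ 2) ^ 2 = (A - D) ^ 2 + 4 * β ^ 2 :=
      Real.sq_sqrt (by positivity)
    set s := Real.sqrt ((A - D) ^ 2 + 4 * β ^ 2)
    have e1 : x * a - (A + D + s) / 2 + z * a' = (A - D - s) / 2 := by rw [hA]; ring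
    have e2 : x * d - (A + D + s) / 2 + z * d' = (D - A - s) / 2 := by rw [hD]; ring
    rw [e1, e2]
    linear_combination (1 / 4) * hs

/-! ### the zero section -/

section Closed

variable {M : Type u} [TopologicalSpace M] [T2Space M] [CompactSpace M]
  [ChartedSpace E4 M] [IsManifold 𝓘(ℝ, E4) ∞ M]
variable {σ : E3 → M} {r : ℝ} {Ps : E6 → M} {G : M → E6} {U : Set M}

theorem mem_TS_zero (h : Tube σ r Ps G U) {q : E3} (hq : ‖q‖ = 1) : ((q, 0) : E6) ∈ TS r :=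
  ⟨hq, by simp, by simpa using h.r_pos⟩

theorem Pi_zero (q : E3) : Pi ((q, 0) : E6) = (‖q‖⁻¹ • q, 0) := by
  simp [Pi]

theorem mem_OS_zero (h : Tube σ r Ps G U) {q : E3} (hq : q ≠ 0) : ((q, 0) : E6) ∈ OS r := by
  refine ⟨hq, ?_⟩
  rw [Pi_zero]
  simpa using h.r_pos

theorem om_apply (a : Z2 M) (z X Y : E6) :
    Om Ps a z X Y = at2 (a.1.1 : F2 E4 M) (Ps z) (D1 E6 E4 Ps z X) (D1 E6 E4 Ps z Y) := rfl

theorem om_alt (a : Z2 M) (z X : E6) : Om Ps a z X X = 0 := by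
  rw [om_apply]; exact a.1.2.1 _ _

/-- `D Ps` kills the radial direction. -/
theorem D1_rad (h : Tube σ r Ps G U) {q : E3} (hq : ‖q‖ = 1) :
    D1 E6 E4 Ps ((q, 0) : E6) ((q, 0) : E6) = 0 := by
  have hq0 : q ≠ 0 := by
    intro h0; rw [h0, norm_zero] at hq; exact zero_ne_one hq
  have hz : ((q, 0) : E6) ∈ OS r := mem_OS_zero h hq0
  have hPz : Pi ((q, 0) : E6) = (q, 0) := by rw [Pi_zero, hq]; simp
  have e1 : Ps ∘ Pi =ᶠ[𝓝 ((q, 0) : E6)] Ps := by
    filter_upwards [(isOpen_OS r).mem_nhds hz] with z hz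
    exact h.fac z hz
  have hPi : ContMDiffAt 𝓘(ℝ, E6) 𝓘(ℝ, E6) 1 Pi ((q, 0) : E6) :=
    ((contDiffAt_Pi (z := ((q, 0) : E6)) hq0).contMDiffAt).of_le one_le_infty
  have hPs : ContMDiffAt 𝓘(ℝ, E6) 𝓘(ℝ, E4) 1 Ps (Pi ((q, 0) : E6)) := by
    rw [hPz]; exact (smoothAt h hz).of_le one_le_infty
  have e2 := D1_comp (E := E6) (F := E6) (G := E4) hPi hPs
  have e3 : (D1 E6 E4 (Ps ∘ Pi) ((q, 0) : E6) : E6 →L[ℝ] E4) = D1 E6 E4 Ps ((q, 0) : E6) :=
    D1_congr e1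
  rw [← e3, e2, ContinuousLinearMap.comp_apply]
  have e4 : D1 E6 E6 Pi ((q, 0) : E6) ((q, 0) : E6) = 0 := by
    rw [D1_Pi]
    have hd : DifferentiableAt ℝ Pi ((q, 0) : E6) :=
      (contDiffAt_Pi (z := ((q, 0) : E6)) hq0).differentiableAt infty_ne_zero
    have hc : HasDerivAt (fun t : ℝ => (((1 + t) • q, 0) : E6)) (q, 0) 0 := by
      have h1 : HasDerivAt (fun t : ℝ => (1 + t) • q) q 0 := by
        have := ((hasDerivAt_id (0 : ℝ)).const_add 1).smul_const q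
        simpa using this
      exact h1.prodMk (hasDerivAt_const _ _)
    have hc' : HasDerivAt (fun t : ℝ => Pi (((1 + t) • q, 0) : E6)) (fderiv ℝ Pi (q, 0) (q, 0)) 0 := by
      have h2 : HasFDerivAt Pi (fderiv ℝ Pi ((q, 0) : E6)) (((1 + (0 : ℝ)) • q, 0) : E6) := by
        simpa using hd.hasFDerivAt
      exact h2.comp_hasDerivAt (0 : ℝ) hc
    have hev : (fun t : ℝ => Pi (((1 + t) • q, 0) : E6)) =ᶠ[𝓝 0] fun _ => (q, 0) := by
      filter_upwards [lt_mem_nhds (show (-1 : ℝ) < 0 by norm_num)] with t ht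
      have h1t : 0 < 1 + t := by linarith
      rw [Pi_zero, norm_smul, Real.norm_of_nonneg h1t.le, hq, mul_one, smul_smul,
        inv_mul_cancel₀ h1t.ne', one_smul]
    have h3 := hc'.congr_of_eventuallyEq hev.symm
    exact h3.unique (hasDerivAt_const _ _)
  rw [e4, map_zero]

/-- the form on `ℝ³` induced at the zero section. -/
def B0 (Ps : E6 → M) (a : Z2 M) (q : E3) : E3 →ₗ[ℝ] E3 →ₗ[ℝ] ℝ :=
  LinearMap.mk₂ ℝ (fun u v => Om Ps a (q, 0) (u, 0) (v, 0))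
    (fun u u' v => by
      have : ((u + u', 0) : E6) = (u, 0) + (u', 0) := by simp
      rw [this, map_add]; rfl)
    (fun c u v => by
      have : ((c • u, 0) : E6) = c • ((u, 0) : E6) := by simp
      rw [this, map_smul]; rfl)
    (fun u v v' => by
      have : ((v + v', 0) : E6) = (v, 0) + (v', 0) := by simp
      rw [this, map_add])
    (fun c u v => by
      have : ((c • v, 0) : E6) = c • ((v, 0) : E6) := by simp
      rw [this, map_smul])

/-- the area density of `a` on the unit sphere. -/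
def dens (Ps : E6 → M) (a : Z2 M) (q : E3) : ℝ :=
  q 2 * Om Ps a (q, 0) (b3 0, 0) (b3 1, 0) + q 0 * Om Ps a (q, 0) (b3 1, 0) (b3 2, 0) +
    q 1 * Om Ps a (q, 0) (b3 2, 0) (b3 0, 0)

theorem om_dens (h : Tube σ r Ps G U) (a : Z2 M) {q : E3} (hq : ‖q‖ = 1) (u v : E3) :
    Om Ps a (q, 0) (u, 0) (v, 0) = dens Ps a q * ⟪q, cr u v⟫ := by
  refine alt_axis (B0 Ps a q) (fun u => om_alt a _ _) hq (fun v => ?_) u v
  show Om Ps a (q, 0) (q, 0) (v, 0) = 0
  rw [om_apply, D1_rad h hq, map_zero]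
  rfl

theorem contDiffAt_om (h : Tube σ r Ps G U) (a : Z2 M) {z : E6} (hz : z ∈ OS r) :
    ContDiffAt ℝ ∞ (Om Ps a) z := by
  have h1 : Z2At (pb2 (E := E6) (F := E4) Ps (a.1.1 : F2 E4 M)) z :=
    (z2At_of_mem a.1.2 a.2 (Ps z)).pb2 (smoothAt h hz)
  have h2 := h1.sm
  have h3 : rep z (pb2 (E := E6) (F := E4) Ps (a.1.1 : F2 E4 M)) = Om Ps a := by
    funext y
    exact rep_model z _ y
  rw [h3] at h2
  exact h2

/-- the density, extended. -/
def fz (Ps : E6 → M) (a : Z2 M) (q : E3) : ℝ := dens Ps a (‖q‖⁻¹ • q)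

theorem hom0_fz (h : Tube σ r Ps G U) (a : Z2 M) : Hom0 (fz Ps a) := by
  refine ⟨fun q hq => ContDiffAt.contDiffWithinAt ?_, fun t q ht => ?_⟩
  · have hq0 : q ≠ 0 := hq
    have hne : ‖q‖ ≠ 0 := norm_ne_zero_iff.2 hq0
    have h1 : ContDiffAt ℝ ∞ (fun q : E3 => ‖q‖⁻¹ • q) q :=
      ((contDiffAt_id.norm ℝ hq0).inv hne).smul contDiffAt_id
    have h1' : ContDiffAt ℝ ∞ (fun q : E3 => ((‖q‖⁻¹ • q, 0) : E6)) q := h1.prodMk contDiffAt_const
    have hm : (((‖q‖⁻¹ • q, 0) : E6)) ∈ OS r := mem_OS_zero h (by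
      rw [Ne, smul_eq_zero, not_or]
      exact ⟨inv_ne_zero hne, hq0⟩)
    have h2 : ContDiffAt ℝ ∞ (fun q : E3 => Om Ps a ((‖q‖⁻¹ • q, 0) : E6)) q :=
      (contDiffAt_om h a hm).comp q h1'
    have h3 : ∀ i : Fin 3, ContDiffAt ℝ ∞ (fun q : E3 => (‖q‖⁻¹ • q) i) q := fun i =>
      (EuclideanSpace.proj i : E3 →L[ℝ] ℝ).contDiff.contDiffAt.comp q h1
    have h4 : ∀ i j : Fin 3, ContDiffAt ℝ ∞
        (fun q : E3 => Om Ps a ((‖q‖⁻¹ • q, 0) : E6) (b3 i, 0) (b3 j, 0)) q := fun i j =>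
      (h2.clm_apply contDiffAt_const).clm_apply contDiffAt_const
    unfold fz dens
    exact (((h3 2).mul (h4 0 1)).add ((h3 0).mul (h4 1 2))).add ((h3 1).mul (h4 2 0))
  · unfold fz
    have e : ‖t • q‖⁻¹ • t • q = ‖q‖⁻¹ • q := by
      rw [norm_smul, Real.norm_of_nonneg ht.le, smul_smul, mul_inv]
      congr 1
      rw [mul_comm t⁻¹, mul_assoc, inv_mul_cancel₀ ht.ne', mul_one]
    rw [e]

theorem fz_unit (a : Z2 M) {q : E3} (hq : ‖q‖ = 1) : fz Ps a q = dens Ps a q := by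
  unfold fz
  rw [hq, inv_one, one_smul]

/-! #### entries -/

theorem en01 (h : Tube σ r Ps G U) (a : Z2 M) {q e : E3} (he : IsFr q e) :
    en (Om Ps a (q, 0)) (q, 0) e 0 1 = dens Ps a q := by
  have e1 : X ((q, 0) : E6) e 0 = (e, 0) := by simp [X, hor]
  have e2 : X ((q, 0) : E6) e 1 = (cr q e, 0) := by simp [X, hor]
  unfold en
  rw [e1, e2, om_dens h a he.1, inner_cr_cr he, mul_one]

theorem en_one (hG : GEO) (hR : RADF) (h : Tube σ r Ps G U) {w : Trip M} (hJ : Jet w Ps)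
    {q e : E3} (he : IsFr q e) (i j : Fin 4) :
    en (Om Ps (w 1) (q, 0)) (q, 0) e i j =
      if (i = 0 ∧ j = 2) ∨ (i = 1 ∧ j = 3) then -1
      else if (i = 2 ∧ j = 0) ∨ (i = 3 ∧ j = 1) then 1 else 0 := by
  have hz : ((q, 0) : E6) ∈ TS r := mem_TS_zero h he.1
  have e1 : Om Ps (w 1) (q, 0) = d1 (PB1 l1) (q, 0) := hJ.one q he.1
  have hd : DifferentiableAt ℝ l1 (Pi ((q, 0) : E6)) := by
    unfold l1
    have h1 : DifferentiableAt ℝ (fun z : E6 => (innerSL ℝ z.2 : E3 →L[ℝ] ℝ)) (Pi ((q, 0) : E6)) :=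
      ((innerSL ℝ : E3 →L[ℝ] E3 →L[ℝ] ℝ).comp (ContinuousLinearMap.snd ℝ E3 E3)).differentiableAt
    exact h1.clm_comp (differentiableAt_const _)
  have e2 : d1 (PB1 l1) (q, 0) = PB2 (d1 l1) (q, 0) := hG.d1PB r l1 (q, 0) (hG.TS_sub r hz) hd
  rw [e1, e2, hG.en_PB2 r (d1 l1) (q, 0) e hz he i j, hR.l1f (q, 0) r e hz he i j]

/-! #### the density does not vanish -/

theorem dens_ne (hG : GEO) (hP : PFIFF M) (hR : RADF) {w : Trip M} (hw : Pos3 w)
    (h : Tube σ r Ps G U) (hJ : Jet w Ps) {q : E3} (hq : ‖q‖ = 1) : dens Ps (w 0) q ≠ 0 := by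
  intro h0
  obtain ⟨e, he⟩ := exists_fr hq
  have hz : ((q, 0) : E6) ∈ TS r := mem_TS_zero h hq
  obtain ⟨x, y, z, hne, hs⟩ := exists_sing
    (en (Om Ps (w 0) (q, 0)) (q, 0) e 0 2) (en (Om Ps (w 0) (q, 0)) (q, 0) e 0 3)
    (en (Om Ps (w 0) (q, 0)) (q, 0) e 1 2) (en (Om Ps (w 0) (q, 0)) (q, 0) e 1 3)
    (en (Om Ps (w 2) (q, 0)) (q, 0) e 0 2) (en (Om Ps (w 2) (q, 0)) (q, 0) e 0 3)
    (en (Om Ps (w 2) (q, 0)) (q, 0) e 1 2) (en (Om Ps (w 2) (q, 0)) (q, 0) e 1 3)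
  have hen : ∀ i j, en (Om Ps (x • w 0 + y • w 1 + z • w 2) (q, 0)) (q, 0) e i j =
      x * en (Om Ps (w 0) (q, 0)) (q, 0) e i j + y * en (Om Ps (w 1) (q, 0)) (q, 0) e i j +
        z * en (Om Ps (w 2) (q, 0)) (q, 0) e i j := fun i j => rfl
  have a2 : en (Om Ps (w 2) (q, 0)) (q, 0) e 0 1 = 0 := by
    unfold en
    have e1 : X ((q, 0) : E6) e 0 = (e, 0) := by simp [X, hor]
    have e2 : X ((q, 0) : E6) e 1 = (cr q e, 0) := by simp [X, hor]
    rw [e1, e2]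
    exact hJ.hor2 q e _ hq
  have hpf : pf (Om Ps (x • w 0 + y • w 1 + z • w 2) (q, 0)) (q, 0) e = 0 := by
    unfold pf
    simp only [hen]
    have c01 : en (Om Ps (w 1) (q, 0)) (q, 0) e 0 1 = 0 := by
      rw [en_one hG hR h hJ he]; simp
    have c02 : en (Om Ps (w 1) (q, 0)) (q, 0) e 0 2 = -1 := by
      rw [en_one hG hR h hJ he]; simp
    have c03 : en (Om Ps (w 1) (q, 0)) (q, 0) e 0 3 = 0 := by
      rw [en_one hG hR h hJ he]; simp
    have c12 : en (Om Ps (w 1) (q, 0)) (q, 0) e 1 2 = 0 := by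
      rw [en_one hG hR h hJ he]; simp
    have c13 : en (Om Ps (w 1) (q, 0)) (q, 0) e 1 3 = -1 := by
      rw [en_one hG hR h hJ he]; simp
    rw [a2, en01 h (w 0) he, h0, c01, c02, c03, c12, c13]
    linear_combination -hs
  have h1 := (hP σ r Ps G U h (x • w 0 + y • w 1 + z • w 2) (q, 0) e hz he).2 hpf
  refine hw (Ps (q, 0)) ![x, y, z] (fun hc => ?_) ?_
  · have c0 := congrFun hc 0
    have c1 := congrFun hc 1
    have c2 := congrFun hc 2
    simp at c0 c1 c2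
    rcases hne with h | h | h
    · exact h c0
    · exact h c1
    · exact h c2
  · have e3 : ∑ i, (![x, y, z] : Fin 3 → ℝ) i • val (w i) (Ps (q, 0)) =
        val (x • w 0 + y • w 1 + z • w 2) (Ps (q, 0)) := by
      rw [Fin.sum_univ_three]
      rfl
    rw [e3]
    exact h1

/-! #### the sign -/

theorem sigma_eq (hσ : EmbS σ) (h : Tube σ r Ps G U) {q : E3} (hq : q ≠ 0) :
    σ q = Ps (q, 0) := by
  have hn : ‖q‖ ≠ 0 := norm_ne_zero_iff.2 hq
  rw [← h.fac _ (mem_OS_zero h hq), Pi_zero, h.zero _ (by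
    rw [norm_smul, norm_inv, norm_norm, inv_mul_cancel₀ hn]),
    hσ.hom _ _ (inv_pos.2 (norm_pos_iff.2 hq)) hq]

theorem dmap_eq (hσ : EmbS σ) (h : Tube σ r Ps G U) {q : E3} (hq : q ≠ 0) (v : E3) :
    dmap σ q v = D1 E6 E4 Ps (q, 0) (v, 0) := by
  have h1 : dmap σ q v = D1 E3 E4 σ q v := rfl
  have h2 : σ =ᶠ[𝓝 q] Ps ∘ (fun q : E3 => ((q, 0) : E6)) := by
    filter_upwards [isOpen_ne.mem_nhds hq] with y hy
    exact sigma_eq hσ h hy
  have hi : ContMDiffAt 𝓘(ℝ, E3) 𝓘(ℝ, E6) 1 (fun q : E3 => ((q, 0) : E6)) q :=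
    (contDiffAt_id.prodMk contDiffAt_const).contMDiffAt
  have hPs : ContMDiffAt 𝓘(ℝ, E6) 𝓘(ℝ, E4) 1 Ps ((fun q : E3 => ((q, 0) : E6)) q) :=
    (smoothAt h (mem_OS_zero h hq)).of_le one_le_infty
  have e2 := D1_comp (E := E3) (F := E6) (G := E4) hi hPs
  have e3 : (D1 E3 E4 σ q : E3 →L[ℝ] E4) = D1 E3 E4 (Ps ∘ (fun q : E3 => ((q, 0) : E6))) q :=
    D1_congr h2
  rw [h1, e3, e2, ContinuousLinearMap.comp_apply]
  congr 1
  show fderiv ℝ (fun q : E3 => ((q, 0) : E6)) q v = (v, 0)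
  have : HasFDerivAt (fun q : E3 => ((q, 0) : E6)) (ContinuousLinearMap.inl ℝ E3 E3) q :=
    (hasFDerivAt_id q).prodMk (hasFDerivAt_const _ _)
  rw [this.fderiv]
  rfl

theorem sphI_eq (hσ : EmbS σ) (h : Tube σ r Ps G U) (a : Z2 M) :
    sphI σ (a.1.1 : F2 E4 M) =
      ∫ y : Metric.sphere (0 : E3) 1, fz Ps a y ∂((volume : Measure E3).toSphere) := by
  unfold sphI
  refine integral_congr_ae (Eventually.of_forall fun y => ?_)
  have hy : ‖(y : E3)‖ = 1 := by simp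
  have hy0 : (y : E3) ≠ 0 := by
    intro h0; rw [h0, norm_zero] at hy; exact zero_ne_one hy
  beta_reduce
  rw [fz_unit a hy, dmap_eq hσ h hy0, dmap_eq hσ h hy0, dmap_eq hσ h hy0, sigma_eq hσ h hy0]
  rfl

theorem fz_pos (hG : GEO) (hP : PFIFF M) (hR : RADF) {w : Trip M} (hw : Pos3 w)
    (hσ : EmbS σ) (hI : 0 < sphI σ ((w 0).1.1 : F2 E4 M)) (h : Tube σ r Ps G U)
    (hJ : Jet w Ps) {q : E3} (hq : ‖q‖ = 1) : 0 < fz Ps (w 0) q := by
  by_contra hn
  have hne : ∀ q : E3, ‖q‖ = 1 → fz Ps (w 0) q ≠ 0 := fun q hq => by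
    rw [fz_unit _ hq]; exact dens_ne hG hP hR hw h hJ hq
  have hneg : fz Ps (w 0) q < 0 := lt_of_le_of_ne (not_lt.1 hn) (hne q hq)
  have hall : ∀ y : E3, ‖y‖ = 1 → fz Ps (w 0) y ≤ 0 := by
    intro y hy
    by_contra hy'
    have hconn : IsPreconnected (Metric.sphere (0 : E3) 1) := by
      refine (isConnected_sphere ?_ (0 : E3) zero_le_one).isPreconnected
      rw [← Module.finrank_eq_rank, finrank_euclideanSpace_fin]
      norm_cast
    have hcont : ContinuousOn (fz Ps (w 0)) (Metric.sphere (0 : E3) 1) :=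
      ((hom0_fz h (w 0)).1.continuousOn).mono fun z hz h0 => by
        rw [mem_sphere_zero_iff_norm] at hz
        have : z = 0 := h0
        rw [this, norm_zero] at hz
        exact zero_ne_one hz
    obtain ⟨z, hz, hz0⟩ := hconn.intermediate_value (f := fz Ps (w 0))
      (a := q) (b := y) (by simpa using hq) (by simpa using hy) hcont
      ⟨hneg.le, (not_le.1 hy').le⟩
    exact hne z (by simpa using hz) hz0
  have hint : ∫ y : Metric.sphere (0 : E3) 1, fz Ps (w 0) y ∂((volume : Measure E3).toSphere) ≤ 0 :=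
    integral_nonpos fun y => hall y (by simp)
  rw [← sphI_eq hσ h] at hint
  linarith

/-- **LEAF ZERO**. -/
theorem zero (hG : K12An_776.GEO) (hP : K12An_776.PFIFF M) (hR : K12_417.RADF) :
    K12An_776.ZERO M := by
  intro w hw σ hσ hI r Ps G U h hJ
  refine ⟨fz Ps (w 0), hom0_fz h (w 0), fun q hq => ?_, fun q u v hq _ _ => ?_, fun q e he => ?_⟩
  · have hn : ‖q‖ ≠ 0 := norm_ne_zero_iff.2 hq
    have h1 : fz Ps (w 0) q = fz Ps (w 0) (‖q‖⁻¹ • q) :=
      ((hom0_fz h (w 0)).2 _ q (inv_pos.2 (norm_pos_iff.2 hq))).symm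
    rw [h1]
    exact fz_pos hG hP hR hw hσ hI h hJ (by
      rw [norm_smul, norm_inv, norm_norm, inv_mul_cancel₀ hn])
  · rw [om_dens h (w 0) hq, fz_unit _ hq]
  · refine ⟨?_, ?_, ?_, ?_, ?_, ?_, ?_, ?_, ?_⟩
    · rw [en01 h (w 0) he, fz_unit _ he.1]
    · rw [en_one hG hR h hJ he]; simp
    · rw [en_one hG hR h hJ he]; simp
    · rw [en_one hG hR h hJ he]; simp
    · rw [en_one hG hR h hJ he]; simp
    · rw [en_one hG hR h hJ he]; simp
    · rw [en_one hG hR h hJ he]; simp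
    · unfold en
      have e1 : X ((q, 0) : E6) e 0 = (e, 0) := by simp [X, hor]
      have e2 : X ((q, 0) : E6) e 1 = (cr q e, 0) := by simp [X, hor]
      rw [e1, e2]
      exact hJ.hor2 q e _ he.1
    · exact hJ.ver2 q e (cr q e) he.1 he.2.2 inner_cr_self

end Closed

end

end Crest.Agent.R235.K12Zero_692
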