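import Crest.Agent.R235.K12One_776
import Crest.Agent.R235.K12Pf_776
import Crest.Agent.R235.K12Zero_692
import Crest.Agent.R235.K12Alg_417
import Crest.Agent.R235.K12Cut_895
import Crest.Agent.R235.K12Rprim_82
import Crest.Agent.R235.K12S2_423
import Crest.Agent.R235.K12Fin_417

/-!
Row 235 (S0364), block K12 (helper776): `ONE` and `K12T` from the two leaves `FGL` and `TUBE`.
-/

set_option autoImplicit false
set_option maxSynthPendingDepth 3

open scoped Manifold ContDiff

universe u

namespace Crest.Agent.R235.K12OneA_776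

open Crest.Agent.R240 Crest.Agent.R240.Ch Crest.Agent.R235 Crest.Agent.R235.K12_417
  Crest.Agent.R235.K12An_776

theorem one_of (M : Type u) [TopologicalSpace M] [T2Space M] [CompactSpace M]
    [ChartedSpace E4 M] [IsManifold 𝓘(ℝ, E4) ∞ M] (hF : FGL) (hTu : TUBE M) : ONE M :=
  K12One_776.one K12Geo_128.geo hF K12Radf_843.radf K12Lip_895.bump
    (K12Lip_895.lip K12Geo_128.geo) (K12Pf_776.pfiff M)
    (K12Zero_692.zero K12Geo_128.geo (K12Pf_776.pfiff M) K12Radf_843.radf) K12_417.algi
    K12_417.algq K12Cut_895.cut K12Cut_895.flat K12S2_423.s2prim K12Rprim_82.rprim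
    (K12Ext_168.ext M) (K12Pf_776.ext2 M) hTu

theorem k12t_of (hF : FGL) (hTu : ∀ (M : Type u) [TopologicalSpace M] [T2Space M]
    [CompactSpace M] [ChartedSpace E4 M] [IsManifold 𝓘(ℝ, E4) ∞ M], TUBE M) : K12T.{u} :=
  K12_417.k12t_of hF fun M _ _ _ _ _ => one_of M hF (hTu M)

end Crest.Agent.R235.K12OneA_776
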