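import Crest.Agent.R235.K12S3_776

/-!
Row 235 (S0364), block K12, analytic assembly (helper776): the ONE-SPHERE THEOREM.
-/

set_option autoImplicit false
set_option maxSynthPendingDepth 3
set_option linter.unusedSectionVars false

open Set Function Filter MeasureTheory
open scoped Manifold ContDiff Topology RealInnerProductSpace

universe u

namespace Crest.Agent.R235.K12One_776

open Crest.Agent.R240 Crest.Agent.R240.Ch Crest.Agent.R235 Crest.Agent.R235.K12_417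
  Crest.Agent.R235.K12An_776 Crest.Agent.R235.K12Pos_776 Crest.Agent.R235.K12S1_776
  Crest.Agent.R235.K12Ext_168 Crest.Agent.R235.K12S2a_776 Crest.Agent.R235.K12S2b_776
  Crest.Agent.R235.K12S2c_776 Crest.Agent.R235.K12S2n_776 Crest.Agent.R235.K12S2d_776
  Crest.Agent.R235.K12S3_776

noncomputable section

/-- the depth of the bump. -/
theorem exists_A {κ α C Cb : ℝ} (hκ : 0 < κ) (hα : 0 < α) (hC : 0 < C) (hCb : 0 < Cb) :
    ∃ A : ℝ, 0 < A ∧ 2 * A ≤ α ∧ 16 * (A * C) ≤ κ ∧ 16 * (C ^ 2 * (Cb * A)) ≤ κ * α := by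
  refine ⟨min (α / 2) (min (κ / (16 * C)) (κ * α / (16 * (C ^ 2 * Cb)))), by positivity, ?_, ?_,
    ?_⟩
  · have := min_le_left (α / 2) (min (κ / (16 * C)) (κ * α / (16 * (C ^ 2 * Cb))))
    linarith
  · have h1 := (min_le_right (α / 2) (min (κ / (16 * C)) (κ * α / (16 * (C ^ 2 * Cb))))).trans
      (min_le_left _ _)
    rw [le_div_iff₀ (by positivity)] at h1
    linarith
  · have h1 := (min_le_right (α / 2) (min (κ / (16 * C)) (κ * α / (16 * (C ^ 2 * Cb))))).trans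
      (min_le_right _ _)
    rw [le_div_iff₀ (by positivity)] at h1
    linarith

/-- the radius of the bump. -/
theorem exists_s {A L r' : ℝ} (hA : 0 < A) (hL : 0 < L) (hr' : 0 < r') :
    ∃ s : ℝ, 0 < s ∧ s ≤ r' ∧ L ≤ A / s ^ 2 := by
  refine ⟨min r' (√(A / L)), by positivity, min_le_left _ _, ?_⟩
  have h1 : 0 < min r' (√(A / L)) := by positivity
  rw [le_div_iff₀ (by positivity)]
  have h2 : (min r' (√(A / L))) ^ 2 ≤ √(A / L) ^ 2 := by
    have := min_le_right r' (√(A / L))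
    nlinarith
  rw [Real.sq_sqrt (by positivity)] at h2
  have h3 := mul_le_mul_of_nonneg_left h2 hL.le
  have h4 : L * (A / L) = A := by field_simp
  linarith

/-- the parameters of the cut-off. -/
theorem exists_dη {α Λ δ C K t₀ r' κ₂ : ℝ} (hα : 0 < α) (hΛ : 0 < Λ) (hδ : 0 < δ) (hC : 0 < C)
    (hK : 0 < K) (ht₀ : 0 < t₀) (hr' : 0 < r') (hκ₂ : 0 < κ₂) :
    ∃ d η ε : ℝ, 0 < d ∧ 0 < η ∧ d ≤ 1 ∧ d ≤ r' ∧ d < t₀ ∧ η ≤ 1 ∧ Λ * η ≤ α / 4 ∧ d ≤ δ ∧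
      K * d ^ 2 ≤ δ ∧ Λ * η ^ 2 ≤ δ ∧ 2 * (C * d) ≤ ε ∧ C * d + C * η ≤ ε ∧ ε ≤ 1 ∧
      16 * (C + 1) * ε ≤ κ₂ / 2 := by
  set ε : ℝ := min 1 (κ₂ / (32 * (C + 1))) with hε
  have hε0 : 0 < ε := by positivity
  set η : ℝ := min 1 (min (α / (4 * Λ)) (min (δ / Λ) (ε / (2 * C)))) with hη
  have hη0 : 0 < η := by positivity
  set d : ℝ := min 1 (min r' (min (t₀ / 2) (min δ (min (δ / K) (ε / (2 * C)))))) with hd
  have hd0 : 0 < d := by positivity
  have d1 : d ≤ 1 := min_le_left _ _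
  have d2 : d ≤ r' := (min_le_right _ _).trans (min_le_left _ _)
  have d3 : d ≤ t₀ / 2 := (min_le_right _ _).trans ((min_le_right _ _).trans (min_le_left _ _))
  have d4 : d ≤ δ := (min_le_right _ _).trans ((min_le_right _ _).trans
    ((min_le_right _ _).trans (min_le_left _ _)))
  have d5 : d ≤ δ / K := (min_le_right _ _).trans ((min_le_right _ _).trans
    ((min_le_right _ _).trans ((min_le_right _ _).trans (min_le_left _ _))))
  have d6 : d ≤ ε / (2 * C) := (min_le_right _ _).trans ((min_le_right _ _).trans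
    ((min_le_right _ _).trans ((min_le_right _ _).trans (min_le_right _ _))))
  have n1 : η ≤ 1 := min_le_left _ _
  have n2 : η ≤ α / (4 * Λ) := (min_le_right _ _).trans (min_le_left _ _)
  have n3 : η ≤ δ / Λ := (min_le_right _ _).trans ((min_le_right _ _).trans (min_le_left _ _))
  have n4 : η ≤ ε / (2 * C) := (min_le_right _ _).trans ((min_le_right _ _).trans
    (min_le_right _ _))
  rw [le_div_iff₀ (by positivity)] at d5 d6 n2 n3 n4
  refine ⟨d, η, ε, hd0, hη0, d1, d2, by linarith, n1, by linarith, d4, ?_, ?_, by linarith,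
    by linarith, min_le_left _ _, ?_⟩
  · have h1 : d ^ 2 ≤ d := by nlinarith
    have h2 := mul_le_mul_of_nonneg_left h1 hK.le
    linarith
  · have h1 : η ^ 2 ≤ η := by nlinarith
    have h2 := mul_le_mul_of_nonneg_left h1 hΛ.le
    linarith
  · have h1 : ε ≤ κ₂ / (32 * (C + 1)) := min_le_right _ _
    rw [le_div_iff₀ (by positivity)] at h1
    linarith

section Man

variable {M : Type u} [TopologicalSpace M] [T2Space M] [CompactSpace M]
  [ChartedSpace E4 M] [IsManifold 𝓘(ℝ, E4) ∞ M]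

/-- the ONE-SPHERE THEOREM. -/
theorem one (hG : GEO) (hF : FGL) (hR : RADF) (hBu : BUMP) (hL : LIP) (hPF : PFIFF M)
    (hZ : ZERO M) (hI : ALGI) (hQ : ALGQ) (hCu : CUT) (hFl : FLAT) (hS : S2PRIM) (hRP : RPRIM)
    (hE1 : K12_417.EXT M) (hE2 : K12An_776.EXT2 M) (hTu : TUBE M) : ONE M := by
  intro w hw σ hσ hl1 hl2 harea O hO hσO
  obtain ⟨r, Ps, G, U, hT, hUO, hJ⟩ := hTu w hw σ hσ hl1 hl2 O hO hσO
  obtain ⟨f, f1, f2, f3, f4⟩ := hZ w hw σ hσ harea r Ps G U hT hJ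
  have hZD : ZD w Ps f := ⟨f1, f2, f3, f4⟩
  obtain ⟨c, hc0, hc⟩ := exists_mean f1 f2
  obtain ⟨r', κ, α, C₁, hD₁, hαc, hcC₁⟩ := exists_CD hPF hT hw hZD hL hc0
  obtain ⟨s, hs, hsgn⟩ := exists_sgn hT hD₁ hZD
  obtain ⟨C₂, β, hB₂⟩ := exists_BD hG hF hS hRP hT hJ hZD hc s hD₁.r'_pos hD₁.r'_lt
  set C : ℝ := max (max C₁ C₂) 1 with hC
  have hC1 : 1 ≤ C := le_max_right _ _
  have hC0 : 0 < C := by linarith
  have hD : CD w Ps r r' κ α C := CD.mono hD₁ ((le_max_left _ _).trans (le_max_left _ _))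
  have hB : BD w Ps r r' c s C β := BD.mono hB₂ ((le_max_right _ _).trans (le_max_left _ _))
  have hcC : c ≤ C := hcC₁.trans ((le_max_left _ _).trans (le_max_left _ _))
  obtain ⟨Cb, hCb0, hbump⟩ := hBu
  obtain ⟨A, hA0, hA1, hA2, hA3⟩ := exists_A hD.κ_pos hD.α_pos hC0 hCb0
  have hκ₂ := kap2_pos (C := C) hD.κ_pos
  obtain ⟨K₀, Λ, δ, hK₀, hΛ, hδ, hN⟩ := exists_NQ hQ (α := α / 4) (C := 3 * C)
    (κ := kap2 κ C / 2) (by have := hD.α_pos; positivity) (by linarith) (by positivity)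
  -- the bump
  obtain ⟨sb, hsb0, hsbr, hsbK⟩ := exists_s (A := A) (L := max K₀ (6 * C)) (r' := r') hA0
    (lt_of_lt_of_le hK₀ (le_max_left _ _)) hD.r'_pos
  obtain ⟨h, K, t₀, hp, ht₀s, hKs, hh1, hh2, hh3⟩ := hbump A sb hA0 hsb0
  have hKm : max K₀ (6 * C) ≤ K := hsbK.trans hKs
  have hK0 : K₀ ≤ K := (le_max_left _ _).trans hKm
  have hK6 : 6 * C ≤ K := (le_max_right _ _).trans hKm
  have hKpos : 0 < K := by linarith
  obtain ⟨a, ha1, ha2, ha3⟩ := step1 hG hPF hT hw hZD hF hI hE2 hD hsbr hA1 hA2 hA3 hp hKpos.le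
    hh1 hh2 hh3
  set w₁ : Trip M := fun i => w i + at0 a i with hw₁
  have hw₁p : Pos3 w₁ := pos_end ha3
  -- the cut-off
  obtain ⟨d, η, ε, hd0, hη0, d1, d2, d3, n1, n2, d4, d5, n3, e1, e2, e3, e4⟩ :=
    exists_dη hD.α_pos hΛ hδ hC0 hKpos hp.pos hD.r'_pos hκ₂
  obtain ⟨ρ', χ, ca, hcu⟩ := exists_CU hCu hd0 hη0
  have hw₁0 : ∀ z ∈ OS r, Om Ps (w₁ 0) z = Om Ps (w 0) z + FG h (-A) K t₀ z := by
    intro z hz
    show Om Ps (w 0 + a) z = _
    rw [Om_add, ha2 z hz]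
  have hw₁1 : ∀ z ∈ OS r, Om Ps (w₁ 1) z = Om Ps (w 1) z := by
    intro z hz
    show Om Ps (w 1 + 0) z = _
    rw [add_zero]
  have hw₁2 : ∀ z ∈ OS r, Om Ps (w₁ 2) z = Om Ps (w 2) z := by
    intro z hz
    show Om Ps (w 2 + 0) z = _
    rw [add_zero]
  obtain ⟨b, hb1, hb2, hb3, hb4, hb5⟩ := step2 hG hF hR hPF hE1 hE2 hT hJ hZD hD hB hs hsgn hC1
    hN hp hh1 hw₁p hw₁0 hw₁1 hw₁2 hcu d1 d2 d3 n1 hA1 hΛ n2 hαc hcC hK6 hK0 d4 d5 n3 e1 e2 e3 e4
  set w₂ : Trip M := fun i => w₁ i + b i with hw₂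
  have hw₂p : Pos3 w₂ := pos_end hb2
  -- the triple near the zero section
  have hd_lt : d < r := lt_of_le_of_lt d2 hD.r'_lt
  have hρ'r : ρ' < r := hcu.ρ'_lt.trans hd_lt
  set c₂ : ℝ := -A + 1 * c + 1 * (-(Λ * ca 0)) with hc₂
  have hc₂0 : 0 < c₂ := by
    have h1 := (hcu.mema 0 le_rfl).2
    have h2 := mul_le_mul_of_nonneg_left h1 hΛ.le
    have h3 := hD.α_pos
    rw [hc₂]
    linarith
  set K₂ : ℝ := K + 1 * 0 + 1 * 0 with hK₂
  have hK₂0 : 0 < K₂ := by rw [hK₂]; linarith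
  set ρ₁ : ℝ := min ρ' t₀ with hρ₁
  have hρ₁0 : 0 < ρ₁ := lt_min hcu.ρ'_pos hp.pos
  have hρ₁' : ρ₁ ≤ ρ' := min_le_left _ _
  have hρ₁t : ρ₁ ≤ t₀ := min_le_right _ _
  have hpc := prof_const c one_pos
  have hpa := prof_a hcu Λ
  set T1 : ℝ := min t₀ 1 with hT1
  have hT10 : 0 < T1 := lt_min hp.pos one_pos
  have hp1 := prof_add hp hpc 1 hT10 (min_le_left _ _) (min_le_right _ _)
  set T2 : ℝ := min T1 ρ' with hT2
  have hT20 : 0 < T2 := lt_min hT10 hcu.ρ'_pos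
  have hp2 := prof_add hp1 hpa 1 hT20 (min_le_left _ _) (min_le_right _ _)
  have hFG : ∀ z ∈ OS r, rho z < ρ₁ → FG h (-A) K t₀ z + FG (fun _ => c) c 0 1 z +
      FG (fun t => -(Λ * ca t)) (-(Λ * ca 0)) 0 ρ' z = FG (qd c₂ K₂) c₂ K₂ 1 z := by
    intro z hz hzρ
    have h1 := hF.add r h (fun _ => c) (-A) K t₀ c 0 1 hp hpc 1 T1 hT10 (min_le_left _ _)
      (min_le_right _ _) z hz
    have h2 := hF.add r _ (fun t => -(Λ * ca t)) _ _ _ (-(Λ * ca 0)) 0 ρ' hp1 hpa 1 T2 hT20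
      (min_le_left _ _) (min_le_right _ _) z hz
    rw [one_smul] at h1 h2
    rw [← h1, ← h2]
    refine hF.congr r _ _ c₂ K₂ T2 1 hp2 (prof_qd c₂ K₂ one_pos) ρ₁ ?_ z hz hzρ
    intro t ht
    show h t + 1 * c + 1 * -(Λ * ca t) = qd c₂ K₂ t
    rw [hp.eq t (ht.le.trans hρ₁t), hcu.cona t (ht.le.trans hρ₁'), qd, hc₂, hK₂]
    ring
  have hw₂0 : ∀ z ∈ OS r, rho z < ρ₁ → Om Ps (w₂ 0) z = FG (qd c₂ K₂) c₂ K₂ 1 z := by
    intro z hz hzρ
    show Om Ps (w₁ 0 + b 0) z = _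
    rw [Om_add, hw₁0 z hz, hb3 z hz (lt_of_lt_of_le hzρ hρ₁'), ← hFG z hz hzρ]
    abel
  have hw₂1 : ∀ z ∈ OS r, rho z < ρ₁ → Om Ps (w₂ 1) z = Ch.d1 (PB1 l1) z := by
    intro z hz hzρ
    show Om Ps (w₁ 1 + b 1) z = _
    rw [Om_add, hw₁1 z hz, hb4 z hz (lt_of_lt_of_le hzρ hρ₁')]
    abel
  have hw₂2 : ∀ z ∈ OS r, rho z < ρ₁ → Om Ps (w₂ 2) z = s • Ch.d1 (PB1 l2) z := by
    intro z hz hzρ
    show Om Ps (w₁ 2 + b 2) z = _
    rw [Om_add, hw₁2 z hz, hb5 z hz (lt_of_lt_of_le hzρ hρ₁')]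
    abel
  obtain ⟨a₃, ρ, g, c₃, K₃, t₃, t₁, g1, g2, g3, g4, g5, g6, g7, g8, g9, g10, g11, g12, g13⟩ :=
    step3 hG hF hR hPF hE2 hFl hT hw₂p hc₂0 hK₂0 hρ₁0 (hρ₁'.trans hρ'r.le) hs hw₂0 hw₂1 hw₂2
  set w₃ : Trip M := fun i => w₂ i + at0 a₃ i with hw₃
  have hρr : ρ < r := g4.trans_le (hρ₁'.trans hρ'r.le)
  have hsub : ∀ z ∈ OS ρ, z ∈ OS r ∧ rho z < ρ₁ := fun z hz =>
    ⟨⟨hz.1, hz.2.trans hρr⟩, hz.2.trans g4⟩
  refine ⟨w₃, r, Ps, G, U, ρ, s, g, c₃, K₃, t₃, t₁, ?_, pos_end g2, ?_, ?_⟩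
  · exact ((Relation.ReflTransGen.single ha3).tail hb2).tail g2
  · intro i x hx
    have hxU : x ∉ U := fun h => hx (hUO h)
    have h1 : ∀ (a : Z2 M), (∀ x, x ∉ U → val a x = 0) → val (at0 a i) x = 0 := by
      intro a ha
      fin_cases i
      · exact ha x hxU
      · exact val_zero x
      · exact val_zero x
    show val (w i + at0 a i + b i + at0 a₃ i) x = val (w i) x
    rw [val_add, val_add, val_add, h1 a ha1, h1 a₃ g1, hb1 i x hxU]
    simp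
  · exact
      { tube := hT
        sub := hUO
        ρ_pos := g3
        ρ_lt := hρr
        sgn := hs
        one := fun z hz => by
          show Om Ps (w₂ 1 + 0) z = _
          rw [add_zero]
          exact hw₂1 z (hsub z hz).1 (hsub z hz).2
        two := fun z hz => by
          show Om Ps (w₂ 2 + 0) z = _
          rw [add_zero]
          exact hw₂2 z (hsub z hz).1 (hsub z hz).2
        prof := g5
        c_pos := g6
        K_pos := g7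
        g_pos := g8
        g_deriv := g9
        t_pos := g10
        t_lt := g11
        flat := g12
        zero := fun z hz => g13 z (hsub z hz).1 (hsub z hz).2 }

end Man

end

end Crest.Agent.R235.K12One_776
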