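import Crest.Agent.R235.K12Num_776
import Crest.Agent.R235.K12Geo_128
import Crest.Agent.R235.K12Lip_895
import Crest.Agent.R235.K12Ext2_168
import Crest.Agent.R235.K12Radf_843

/-!
Row 235 (S0364), block K12, analytic assembly (helper776): linearity of `Om`, pull-backs are
basic, existence of frames, the segment lemma, positivity on the whole tube and its uniform bound.
-/

set_option autoImplicit false
set_option maxSynthPendingDepth 3
set_option linter.unusedSectionVars false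

open Set Function Filter MeasureTheory
open scoped Manifold ContDiff Topology RealInnerProductSpace

universe u

namespace Crest.Agent.R235.K12Pos_776

open Crest.Agent.R240 Crest.Agent.R240.Ch Crest.Agent.R235 Crest.Agent.R235.K12_417
  Crest.Agent.R235.K12An_776 Crest.Agent.R235.PB_604 Crest.Agent.R235.K12Ext_168

noncomputable section

/-! ### frames -/

theorem exists_fr {q : E3} (hq : ‖q‖ = 1) : ∃ e : E3, IsFr q e := by
  have h1 : ∃ v : E3, v ≠ 0 ∧ ⟪q, v⟫ = 0 := by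
    by_cases h : q 0 = 0 ∧ q 1 = 0
    · refine ⟨EuclideanSpace.single 0 1, ?_, ?_⟩
      · intro hc
        have := congrArg (fun v : E3 => v 0) hc
        simp at this
      · simp [EuclideanSpace.inner_single_right, h.1]
    · refine ⟨!₂[q 1, - q 0, 0], ?_, ?_⟩
      · intro hc
        have h0 := congrArg (fun v : E3 => v 0) hc
        have h1 := congrArg (fun v : E3 => v 1) hc
        simp at h0 h1
        exact h ⟨h1, h0⟩
      · rw [K12Radf_843.inn]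
        simp
        ring
  obtain ⟨v, hv0, hv⟩ := h1
  have hn : ‖v‖ ≠ 0 := norm_ne_zero_iff.2 hv0
  refine ⟨‖v‖⁻¹ • v, hq, ?_, ?_⟩
  · rw [norm_smul, norm_inv, norm_norm, inv_mul_cancel₀ hn]
  · rw [real_inner_smul_right, hv, mul_zero]

/-! ### entries -/

theorem en_add (a b : B6) (z : E6) (e : E3) (i j : Fin 4) :
    en (a + b) z e i j = en a z e i j + en b z e i j := rfl

theorem en_sub (a b : B6) (z : E6) (e : E3) (i j : Fin 4) :
    en (a - b) z e i j = en a z e i j - en b z e i j := rfl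

theorem en_smul (c : ℝ) (b : B6) (z : E6) (e : E3) (i j : Fin 4) :
    en (c • b) z e i j = c * en b z e i j := rfl

theorem en_sum (c : Fin 3 → ℝ) (b : Fin 3 → B6) (z : E6) (e : E3) (i j : Fin 4) :
    en (∑ k, c k • b k) z e i j = ∑ k, c k * en (b k) z e i j := by
  simp [en, Fin.sum_univ_three]

theorem pf_sum (c : Fin 3 → ℝ) (b : Fin 3 → B6) (z : E6) (e : E3) :
    pf (∑ k, c k • b k) z e = pfE (fun i j => ∑ k, c k * en (b k) z e i j) := by
  simp only [pf, pfE, en_sum]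

theorem posF_iff (b : Fin 3 → B6) (z : E6) (e : E3) : PosF b z e ↔
    ∀ c : Fin 3 → ℝ, c ≠ 0 → pfE (fun i j => ∑ k, c k * en (b k) z e i j) < 0 := by
  unfold PosF
  simp only [pf_sum]

/-! ### the pull-back -/

section Man

variable {M : Type u} [TopologicalSpace M] [T2Space M] [CompactSpace M]
  [ChartedSpace E4 M] [IsManifold 𝓘(ℝ, E4) ∞ M]

variable {σ : E3 → M} {r : ℝ} {Ps : E6 → M} {G : M → E6} {U : Set M}

theorem Om_eq (Ps : E6 → M) (a : Z2 M) (z : E6) :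
    Om Ps a z = pl (D1 E6 E4 Ps z) (val a (Ps z)) := rfl

theorem Om_add (a b : Z2 M) (z : E6) : Om Ps (a + b) z = Om Ps a z + Om Ps b z := by
  rw [Om_eq, Om_eq, Om_eq, ← pl_add]; rfl

theorem Om_smul (c : ℝ) (a : Z2 M) (z : E6) : Om Ps (c • a) z = c • Om Ps a z := by
  rw [Om_eq, Om_eq, ← pl_smul]; rfl

theorem Om_neg (a : Z2 M) (z : E6) : Om Ps (-a) z = - Om Ps a z := by
  have := Om_smul (Ps := Ps) (-1) a z
  simpa using this

theorem Om_sum (c : Fin 3 → ℝ) (a : Fin 3 → Z2 M) (z : E6) :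
    Om Ps (∑ k, c k • a k) z = ∑ k, c k • Om Ps (a k) z := by
  simp only [Fin.sum_univ_three, Om_add, Om_smul]

theorem val_sum (c : Fin 3 → ℝ) (a : Fin 3 → Z2 M) (x : M) :
    val (∑ k, c k • a k) x = ∑ k, c k • val (a k) x := by
  simp only [Fin.sum_univ_three]; rfl

theorem val_add (a b : Z2 M) (x : M) : val (a + b) x = val a x + val b x := rfl

theorem val_smul (c : ℝ) (a : Z2 M) (x : M) : val (c • a) x = c • val a x := rfl

theorem z2At_rep {W : F2 E6 E6} {z : E6} (h : Z2At (E := E6) (X := E6) W z) :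
    ContDiffAt ℝ ∞ (fun y => at2 W y) z ∧ (∀ u v w, dd (fun y => at2 W y) z u v w = 0) := by
  have h1 : rep z W = fun y => at2 W y := by
    funext y; exact rep_model z W y
  exact ⟨h1 ▸ h.sm, fun u v w => h1 ▸ h.cl u v w⟩

/-- the pull-back of a closed form by a tube is basic. -/
theorem basOm (h : Tube σ r Ps G U) (a : Z2 M) : Bas r (Om Ps a) := by
  have hz2 : ∀ z ∈ OS r, Z2At (E := E6) (X := E6)
      (pb2 (E := E6) (F := E4) (X := E6) (M := M) Ps (a.1.1 : F2 E4 M)) z := fun z hz =>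
    (z2At_of_mem a.1.2 a.2 (Ps z)).pb2 (smoothAt h hz)
  refine ⟨?_, ?_, ?_, ?_⟩
  · intro z hz
    exact ((z2At_rep (hz2 z hz)).1).contDiffWithinAt
  · intro z hz V
    exact (hz2 z hz).alt V
  · intro z hz V Y T
    exact (z2At_rep (hz2 z hz)).2 V Y T
  · intro z hz V Y
    have hP : ContMDiffAt 𝓘(ℝ, E6) 𝓘(ℝ, E4) 1 Ps (Pi z) :=
      (smoothAt h (TS_subset_OS r (Pi_mem_TS hz))).of_le one_le_infty
    have hPi : ContMDiffAt 𝓘(ℝ, E6) 𝓘(ℝ, E6) 1 Pi z :=
      ((contDiffAt_Pi hz.1).contMDiffAt).of_le one_le_infty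
    have h1 : (Ps ∘ Pi) =ᶠ[𝓝 z] Ps := by
      filter_upwards [(isOpen_OS r).mem_nhds hz] with y hy
      exact h.fac y hy
    have h2 := D1_comp (E := E6) (F := E6) (G := E4) hPi hP
    have h3 : D1 E6 E4 (Ps ∘ Pi) z = D1 E6 E4 Ps z := D1_congr h1
    rw [h3, D1_Pi] at h2
    rw [Om_eq, Om_eq, h.fac z hz, pl_apply, pl_apply, h2]
    rfl

/-! ### the segment lemma -/

theorem posF_ne (hPF : PFIFF M) (hT : Tube σ r Ps G U) {w : Trip M} {z : E6} {e : E3}
    (hz : z ∈ TS r) (he : IsFr z.1 e) (hp : PosF (fun i => Om Ps (w i) z) z e)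
    {c : Fin 3 → ℝ} (hc : c ≠ 0) :
    W (∑ i, c i • val (w i) (Ps z)) (∑ i, c i • val (w i) (Ps z)) ≠ 0 := by
  have h1 := hp c hc
  rw [← Om_sum] at h1
  have h2 := (hPF σ r Ps G U hT (∑ k, c k • w k) z e hz he).not.2 h1.ne
  rwa [val_sum] at h2

theorem seg_of (hPF : PFIFF M) (hT : Tube σ r Ps G U) {w : Trip M} (hw : Pos3 w)
    (a : Fin 3 → Z2 M) {r' : ℝ} (_hr' : r' < r)
    (hs : ∀ i x, (∀ z ∈ TS r, ‖z.2‖ ≤ r' → x ≠ Ps z) → val (a i) x = 0)
    (hp : ∀ t ∈ Icc (0 : ℝ) 1, ∀ z ∈ TS r, ‖z.2‖ ≤ r' → ∀ e, IsFr z.1 e →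
      PosF (fun i => Om Ps (w i) z + t • Om Ps (a i) z) z e) :
    Seg w (fun i => w i + a i) := by
  intro t h0 h1 x c hc
  have hseg : ∀ i, seg w (fun i => w i + a i) t i = w i + t • a i := by
    intro i
    show (1 - t) • w i + t • (w i + a i) = _
    rw [smul_add]
    module
  by_cases hx : ∃ z ∈ TS r, ‖z.2‖ ≤ r' ∧ x = Ps z
  · obtain ⟨z, hz, hzr, rfl⟩ := hx
    obtain ⟨e, he⟩ := exists_fr hz.1
    have h2 := hp t ⟨h0, h1⟩ z hz hzr e he
    refine posF_ne hPF hT (w := seg w (fun i => w i + a i) t) hz he ?_ hc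
    have h3 : (fun i => Om Ps (seg w (fun i => w i + a i) t i) z) =
        fun i => Om Ps (w i) z + t • Om Ps (a i) z := by
      funext i
      rw [hseg, Om_add, Om_smul]
    rw [h3]
    exact h2
  · push Not at hx
    have h2 : ∀ i, val (seg w (fun i => w i + a i) t i) x = val (w i) x := by
      intro i
      rw [hseg, val_add, val_smul, hs i x (fun z hz hzr => hx z hz hzr), smul_zero, add_zero]
    simp only [h2]
    exact hw x c hc

theorem pos_end {w w' : Trip M} (h : Seg w w') : Pos3 w' := by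
  have h1 := h 1 zero_le_one le_rfl
  have h2 : seg w w' 1 = w' := by
    funext i
    show (1 - (1 : ℝ)) • w i + (1 : ℝ) • w' i = w' i
    simp
  rwa [h2] at h1

/-! ### continuity of the entries -/

theorem continuous_cr : Continuous (fun x : E3 × E3 => cr x.1 x.2) := by
  unfold cr
  refine (PiLp.continuous_toLp 2 _).comp ?_
  refine continuous_pi fun i => ?_
  fin_cases i <;> simp <;> fun_prop

theorem continuous_X (i : Fin 4) : Continuous (fun x : E6 × E3 => X x.1 x.2 i) := by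
  have h1 : Continuous (fun x : E6 × E3 => cr x.1.1 x.2) :=
    continuous_cr.comp ((continuous_fst.comp continuous_fst).prodMk continuous_snd)
  fin_cases i
  · show Continuous (fun x : E6 × E3 => ((x.2, -(⟪x.1.2, x.2⟫ • x.1.1)) : E6))
    fun_prop
  · show Continuous (fun x : E6 × E3 => ((cr x.1.1 x.2, -(⟪x.1.2, cr x.1.1 x.2⟫ • x.1.1)) : E6))
    fun_prop
  · show Continuous (fun x : E6 × E3 => ((0, x.2) : E6))
    fun_prop
  · show Continuous (fun x : E6 × E3 => ((0, cr x.1.1 x.2) : E6))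
    fun_prop

theorem continuousOn_en {W : E6 → B6} (hW : ContinuousOn W (OS r)) (i j : Fin 4) :
    ContinuousOn (fun x : E6 × E3 => en (W x.1) x.1 x.2 i j) (OS r ×ˢ univ) := by
  have h1 : ContinuousOn (fun x : E6 × E3 => W x.1) (OS r ×ˢ univ) :=
    hW.comp continuous_fst.continuousOn fun x hx => hx.1
  exact (h1.clm_apply (continuous_X i).continuousOn).clm_apply (continuous_X j).continuousOn

/-- the entries of the combination, as a function of everything. -/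
def QF (b : Fin 3 → E6 → B6) (x : (E6 × E3) × (Fin 3 → ℝ)) : ℝ :=
  pfE (fun i j => ∑ k, x.2 k * en (b k x.1.1) x.1.1 x.1.2 i j)

theorem continuousOn_QF {b : Fin 3 → E6 → B6} (hb : ∀ k, ContinuousOn (b k) (OS r)) :
    ContinuousOn (QF b) ((OS r ×ˢ univ) ×ˢ univ) := by
  have h1 : ∀ i j, ContinuousOn (fun x : (E6 × E3) × (Fin 3 → ℝ) =>
      ∑ k, x.2 k * en (b k x.1.1) x.1.1 x.1.2 i j) ((OS r ×ˢ univ) ×ˢ univ) := by
    intro i j
    refine continuousOn_finsetSum _ fun k _ => ?_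
    refine ContinuousOn.mul (by fun_prop) ?_
    exact (continuousOn_en (hb k) i j).comp continuous_fst.continuousOn fun x hx => hx.1
  unfold QF pfE
  exact (((h1 0 1).mul (h1 2 3)).sub ((h1 0 2).mul (h1 1 3))).add ((h1 0 3).mul (h1 1 2))

theorem QF_smul (b : Fin 3 → E6 → B6) (x : E6 × E3) (t : ℝ) (c : Fin 3 → ℝ) :
    QF b (x, t • c) = t ^ 2 * QF b (x, c) := by
  unfold QF pfE
  simp only [Fin.sum_univ_three, Pi.smul_apply, smul_eq_mul]
  ring

/-! ### positivity on the tube -/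

theorem QF_ne (hPF : PFIFF M) (hT : Tube σ r Ps G U) {w : Trip M} (hw : Pos3 w) {z : E6} {e : E3}
    (hz : z ∈ TS r) (he : IsFr z.1 e) {c : Fin 3 → ℝ} (hc : c ≠ 0) :
    QF (fun k => Om Ps (w k)) ((z, e), c) ≠ 0 := by
  have h1 := hw (Ps z) c hc
  rw [← val_sum] at h1
  have h2 := (hPF σ r Ps G U hT (∑ k, c k • w k) z e hz he).not.1 h1
  rw [Om_sum, pf_sum] at h2
  exact h2

/-- all the forms are positive in the sense of `PosF` on the tube. -/
theorem pos_tube (hPF : PFIFF M) (hT : Tube σ r Ps G U) {w : Trip M} (hw : Pos3 w)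
    (h1 : ∀ q e : E3, IsFr q e → en (Om Ps (w 1) (q, 0)) (q, 0) e 0 1 = 0 ∧
      en (Om Ps (w 1) (q, 0)) (q, 0) e 0 2 = -1 ∧ en (Om Ps (w 1) (q, 0)) (q, 0) e 1 3 = -1 ∧
        en (Om Ps (w 1) (q, 0)) (q, 0) e 0 3 = 0)
    {z : E6} {e : E3} (hz : z ∈ TS r) (he : IsFr z.1 e) :
    PosF (fun i => Om Ps (w i) z) z e := by
  rw [posF_iff]
  intro c hc
  -- the path
  set F : ℝ × (Fin 3 → ℝ) → ℝ := fun x =>
    QF (fun k => Om Ps (w k)) ((((z.1, x.1 • z.2) : E6), e), x.2) with hF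
  set S : Set (ℝ × (Fin 3 → ℝ)) := Icc (0 : ℝ) 1 ×ˢ {(0 : Fin 3 → ℝ)}ᶜ with hS
  have hmem : ∀ x ∈ S, ((z.1, x.1 • z.2) : E6) ∈ TS r := by
    intro x hx
    have hx1 := hx.1
    refine ⟨hz.1, ?_, ?_⟩
    · show ⟪z.1, x.1 • z.2⟫ = 0
      rw [real_inner_smul_right, hz.2.1, mul_zero]
    · show ‖x.1 • z.2‖ < r
      rw [norm_smul, Real.norm_of_nonneg hx1.1]
      have h3 : x.1 * ‖z.2‖ ≤ ‖z.2‖ := mul_le_of_le_one_left (norm_nonneg _) hx1.2
      exact lt_of_le_of_lt h3 hz.2.2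
  have hcont : ContinuousOn F S := by
    have hb : ∀ k, ContinuousOn ((fun k => Om Ps (w k)) k) (OS r) := fun k =>
      (basOm hT (w k)).smooth.continuousOn
    refine (continuousOn_QF hb).comp ?_ ?_
    · fun_prop
    · intro x hx
      exact ⟨⟨TS_subset_OS r (hmem x hx), mem_univ _⟩, mem_univ _⟩
  have hpre : IsPreconnected S := by
    refine isPreconnected_Icc.prod ?_
    refine (isConnected_compl_singleton_of_one_lt_rank ?_ 0).isPreconnected
    rw [rank_fun']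
    norm_num
  have hne : ∀ x ∈ S, F x ≠ 0 := fun x hx => QF_ne hPF hT hw (hmem x hx) he hx.2
  -- the value at the zero section
  set c₁ : Fin 3 → ℝ := ![0, 1, 0] with hc₁
  have hx0 : ((0 : ℝ), c₁) ∈ S := by
    refine ⟨⟨le_rfl, zero_le_one⟩, ?_⟩
    intro h
    have := congrFun h 1
    simp [hc₁] at this
  have hv0 : F (0, c₁) < 0 := by
    obtain ⟨t1, t2, t3, t4⟩ := h1 z.1 e he
    simp only [hF, QF, pfE, Fin.sum_univ_three, hc₁]
    simp [t1, t2, t3, t4]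
  have hx1 : ((1 : ℝ), c) ∈ S := ⟨⟨zero_le_one, le_rfl⟩, hc⟩
  have hFc : F (1, c) = pfE (fun i j => ∑ k, c k * en (Om Ps (w k) z) z e i j) := by
    simp only [hF, QF, one_smul]
  rw [← hFc]
  by_contra hcon
  have hpos : 0 < F (1, c) := lt_of_le_of_ne (not_lt.1 hcon) (hne _ hx1).symm
  obtain ⟨x, hx, hxe⟩ := hpre.intermediate_value hx0 hx1 hcont ⟨hv0.le, hpos.le⟩
  exact hne x hx hxe

/-- the set of frames over the closed disc bundle. -/
def FR (r : ℝ) : Set (E6 × E3) := {x | x.1 ∈ K12Lip_895.KK r ∧ ‖x.2‖ = 1 ∧ ⟪x.1.1, x.2⟫ = 0}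

theorem isCompact_FR (r : ℝ) : IsCompact (FR r) := by
  have h1 : IsCompact ((K12Lip_895.KK r) ×ˢ (Metric.sphere (0 : E3) 1)) :=
    (K12Lip_895.isCompact_KK r).prod (isCompact_sphere _ _)
  have h2 : IsClosed {x : E6 × E3 | ⟪x.1.1, x.2⟫ = 0} :=
    isClosed_eq ((continuous_fst.comp continuous_fst).inner continuous_snd) continuous_const
  have : FR r = ((K12Lip_895.KK r) ×ˢ (Metric.sphere (0 : E3) 1)) ∩
      {x : E6 × E3 | ⟪x.1.1, x.2⟫ = 0} := by
    ext x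
    simp [FR, mem_prod]
    tauto
  rw [this]
  exact h1.inter_right h2

theorem mem_FR {r' : ℝ} {z : E6} {e : E3} (hz : z ∈ TS r) (hr : ‖z.2‖ ≤ r') (he : IsFr z.1 e) :
    (z, e) ∈ FR r' := ⟨⟨hz.1, hz.2.1, hr⟩, he.2.1, he.2.2⟩

/-- uniform positivity. -/
theorem kappa (hPF : PFIFF M) (hT : Tube σ r Ps G U) {w : Trip M} (hw : Pos3 w)
    (h1 : ∀ q e : E3, IsFr q e → en (Om Ps (w 1) (q, 0)) (q, 0) e 0 1 = 0 ∧
      en (Om Ps (w 1) (q, 0)) (q, 0) e 0 2 = -1 ∧ en (Om Ps (w 1) (q, 0)) (q, 0) e 1 3 = -1 ∧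
        en (Om Ps (w 1) (q, 0)) (q, 0) e 0 3 = 0) {r' : ℝ} (hr' : r' < r) :
    ∃ κ : ℝ, 0 < κ ∧ ∀ z ∈ TS r, ‖z.2‖ ≤ r' → ∀ e, IsFr z.1 e → ∀ c : Fin 3 → ℝ,
      κ * (c 0 ^ 2 + c 1 ^ 2 + c 2 ^ 2) ≤
        - pfE (fun i j => ∑ k, c k * en (Om Ps (w k) z) z e i j) := by
  set Sph : Set (Fin 3 → ℝ) := {c | c 0 ^ 2 + c 1 ^ 2 + c 2 ^ 2 = 1} with hSph
  have hSc : IsCompact Sph := by
    refine Metric.isCompact_of_isClosed_isBounded ?_ ?_
    · exact isClosed_eq (by fun_prop) continuous_const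
    · refine (Metric.isBounded_closedBall (x := (0 : Fin 3 → ℝ)) (r := 1)).subset ?_
      intro c hc
      rw [mem_closedBall_zero_iff, pi_norm_le_iff_of_nonneg zero_le_one]
      intro i
      rw [Real.norm_eq_abs, abs_le_one_iff_mul_self_le_one]
      have hc' : c 0 ^ 2 + c 1 ^ 2 + c 2 ^ 2 = 1 := hc
      fin_cases i <;> simp <;> nlinarith [sq_nonneg (c 0), sq_nonneg (c 1), sq_nonneg (c 2)]
  have hsub : FR r' ×ˢ Sph ⊆ (OS r ×ˢ univ) ×ˢ univ := by
    rintro ⟨⟨z, e⟩, c⟩ ⟨h, _⟩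
    refine ⟨⟨TS_subset_OS r ?_, mem_univ _⟩, mem_univ _⟩
    exact ⟨h.1.1, h.1.2.1, lt_of_le_of_lt h.1.2.2 hr'⟩
  have hb : ∀ k, ContinuousOn ((fun k => Om Ps (w k)) k) (OS r) := fun k =>
    (basOm hT (w k)).smooth.continuousOn
  have hcont : ContinuousOn (fun x => - QF (fun k => Om Ps (w k)) x) (FR r' ×ˢ Sph) :=
    ((continuousOn_QF hb).mono hsub).neg
  have hK : IsCompact (FR r' ×ˢ Sph) := (isCompact_FR r').prod hSc
  have hpos : ∀ x ∈ FR r' ×ˢ Sph, 0 < - QF (fun k => Om Ps (w k)) x := by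
    rintro ⟨⟨z, e⟩, c⟩ ⟨h, hc⟩
    have hz : z ∈ TS r := ⟨h.1.1, h.1.2.1, lt_of_le_of_lt h.1.2.2 hr'⟩
    have h2 := pos_tube hPF hT hw h1 hz (e := e) ⟨h.1.1, h.2.1, h.2.2⟩
    rw [posF_iff] at h2
    have hc0 : c ≠ 0 := by
      rintro rfl
      have : (0 : ℝ) ^ 2 + 0 ^ 2 + 0 ^ 2 = 1 := hc
      norm_num at this
    have h3 := h2 c hc0
    show 0 < - pfE _
    linarith
  obtain ⟨κ, hκ0, hκ⟩ : ∃ κ : ℝ, 0 < κ ∧ ∀ x ∈ FR r' ×ˢ Sph,
      κ ≤ - QF (fun k => Om Ps (w k)) x := by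
    rcases (FR r' ×ˢ Sph).eq_empty_or_nonempty with h | h
    · exact ⟨1, one_pos, fun x hx => by rw [h] at hx; exact absurd hx (notMem_empty x)⟩
    · obtain ⟨x0, hx0, hmin⟩ := hK.exists_isMinOn h hcont
      exact ⟨_, hpos x0 hx0, fun x hx => hmin hx⟩
  refine ⟨κ, hκ0, ?_⟩
  intro z hz hzr e he c
  by_cases hc : c 0 ^ 2 + c 1 ^ 2 + c 2 ^ 2 = 0
  · have h0 : c 0 = 0 := by nlinarith [sq_nonneg (c 0), sq_nonneg (c 1), sq_nonneg (c 2)]
    have h1 : c 1 = 0 := by nlinarith [sq_nonneg (c 0), sq_nonneg (c 1), sq_nonneg (c 2)]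
    have h2 : c 2 = 0 := by nlinarith [sq_nonneg (c 0), sq_nonneg (c 1), sq_nonneg (c 2)]
    simp [pfE, Fin.sum_univ_three, h0, h1, h2]
  · set N : ℝ := c 0 ^ 2 + c 1 ^ 2 + c 2 ^ 2 with hN
    have hN0 : 0 < N := lt_of_le_of_ne (by positivity) (Ne.symm hc)
    set t : ℝ := (√N)⁻¹ with ht
    have hsq : √N ^ 2 = N := Real.sq_sqrt hN0.le
    have hsp : 0 < √N := Real.sqrt_pos.2 hN0
    have ht2 : t ^ 2 * N = 1 := by
      rw [ht, inv_pow, hsq]; field_simp
    have hmem : (((z, e), t • c) : (E6 × E3) × (Fin 3 → ℝ)) ∈ FR r' ×ˢ Sph := by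
      refine ⟨mem_FR hz hzr he, ?_⟩
      show (t • c) 0 ^ 2 + (t • c) 1 ^ 2 + (t • c) 2 ^ 2 = 1
      simp only [Pi.smul_apply, smul_eq_mul]
      rw [← ht2, hN]; ring
    have h2 := hκ _ hmem
    rw [QF_smul] at h2
    have h3 : κ * N ≤ (- (t ^ 2 * QF (fun k => Om Ps (w k)) ((z, e), c))) * N :=
      mul_le_mul_of_nonneg_right h2 hN0.le
    have h4 : (- (t ^ 2 * QF (fun k => Om Ps (w k)) ((z, e), c))) * N =
        - ((t ^ 2 * N) * QF (fun k => Om Ps (w k)) ((z, e), c)) := by ring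
    rw [h4, ht2, one_mul] at h3
    exact h3

end Man

end

end Crest.Agent.R235.K12Pos_776
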