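import Crest.Agent.R281.Poi_234

/-!
Row 235 (S0364), KUM-K12 (helper776): the RADIAL PRIMITIVE of a closed two-form.

`D : E →L[ℝ] E` is the projection to the fibres, `P D s z = z - D z + s • D z`.  For `om` smooth,
alternating and closed on an open set `U` which is star shaped along the fibres,
`rprim D om z = ∫₀¹ om (P s z) (D z) (P s ·) ds` is smooth on `U` and
`d (rprim) = om - π^* om`, `π = P 0` (`rprim_d`), `‖rprim‖ ≤ C ‖D z‖ sup ‖om‖` (`rprim_bd`),
`≤ C ‖D z‖²` if `om` vanishes on the base (`rprim_bd2`).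
-/

set_option autoImplicit false
set_option linter.unusedSectionVars false
set_option maxSynthPendingDepth 3

open Set Filter Topology MeasureTheory
open scoped ContDiff Interval

namespace Crest.Agent.R235.K12Rad_776

open Crest.Agent.R216.Par Crest.Agent.R281.Poi_234

noncomputable section

variable {E : Type} [NormedAddCommGroup E] [NormedSpace ℝ E]

/-- the radial homotopy along the fibres. -/
def Ps (D : E →L[ℝ] E) (s : ℝ) : E →L[ℝ] E := ContinuousLinearMap.id ℝ E - D + s • D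

theorem Ps_apply (D : E →L[ℝ] E) (s : ℝ) (z : E) : Ps D s z = z - D z + s • D z := rfl

@[simp] theorem Ps_one (D : E →L[ℝ] E) (z : E) : Ps D 1 z = z := by simp [Ps_apply]

theorem Ps_zero (D : E →L[ℝ] E) (z : E) : Ps D 0 z = z - D z := by simp [Ps_apply]

theorem norm_Ps_le (D : E →L[ℝ] E) {s : ℝ} (h0 : 0 ≤ s) (h1 : s ≤ 1) (z : E) :
    ‖Ps D s z‖ ≤ (1 + ‖D‖) * ‖z‖ := by
  have h2 : Ps D s z = z - (1 - s) • D z := by rw [Ps_apply]; module
  rw [h2]
  have h3 : ‖(1 - s) • D z‖ ≤ ‖D‖ * ‖z‖ := by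
    rw [norm_smul, Real.norm_of_nonneg (by linarith)]
    have h4 := D.le_opNorm z
    have h5 : 0 ≤ ‖D z‖ := norm_nonneg _
    nlinarith
  have h6 := norm_sub_le z ((1 - s) • D z)
  linarith

/-- the integrand. -/
def gI (D : E →L[ℝ] E) (om : E → E →L[ℝ] E →L[ℝ] ℝ) (p : E × ℝ) : E →L[ℝ] ℝ :=
  (om (Ps D p.2 p.1) (D p.1)).comp (Ps D p.2)

theorem gI_apply (D : E →L[ℝ] E) (om : E → E →L[ℝ] E →L[ℝ] ℝ) (p : E × ℝ) (v : E) :
    gI D om p v = om (Ps D p.2 p.1) (D p.1) (Ps D p.2 v) := rfl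

/-- the radial primitive. -/
def rprim (D : E →L[ℝ] E) (om : E → E →L[ℝ] E →L[ℝ] ℝ) (z : E) : E →L[ℝ] ℝ :=
  ∫ s in (0 : ℝ)..1, gI D om (z, s)

/-- star shaped along the fibres. -/
def Star (D : E →L[ℝ] E) (U : Set E) : Prop := ∀ z ∈ U, ∀ s ∈ Icc (0 : ℝ) 1, Ps D s z ∈ U

variable [FiniteDimensional ℝ E]

section Main

variable {D : E →L[ℝ] E} {U : Set E} {om : E → E →L[ℝ] E →L[ℝ] ℝ}

theorem contDiff_PsP (D : E →L[ℝ] E) : ContDiff ℝ ∞ (fun p : E × ℝ => Ps D p.2 p.1) := by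
  have : (fun p : E × ℝ => Ps D p.2 p.1) = fun p => p.1 - D p.1 + p.2 • D p.1 := by
    funext p; exact Ps_apply _ _ _
  rw [this]
  fun_prop

theorem contDiff_PsL (D : E →L[ℝ] E) : ContDiff ℝ ∞ (fun p : E × ℝ => Ps D p.2) := by
  unfold Ps
  fun_prop

/-- the open set on which the integrand is smooth. -/
def OI (D : E →L[ℝ] E) (U : Set E) : Set (E × ℝ) := (fun p : E × ℝ => Ps D p.2 p.1) ⁻¹' U

theorem isOpen_OI (hU : IsOpen U) : IsOpen (OI D U) := hU.preimage (contDiff_PsP D).continuous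

theorem mem_OI (hst : Star D U) {z : E} (hz : z ∈ U) : ∀ s ∈ uIcc (0 : ℝ) 1, (z, s) ∈ OI D U := by
  intro s hs
  rw [uIcc_of_le zero_le_one] at hs
  exact hst z hz s hs

theorem contDiffOn_gI (hom : ContDiffOn ℝ ∞ om U) : ContDiffOn ℝ ∞ (gI D om) (OI D U) := by
  have h1 : ContDiffOn ℝ ∞ (fun p : E × ℝ => om (Ps D p.2 p.1)) (OI D U) :=
    hom.comp (contDiff_PsP D).contDiffOn fun p hp => hp
  have h2 : ContDiffOn ℝ ∞ (fun p : E × ℝ => om (Ps D p.2 p.1) (D p.1)) (OI D U) :=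
    h1.clm_apply (D.contDiff.comp contDiff_fst).contDiffOn
  exact h2.clm_comp (contDiff_PsL D).contDiffOn

/-- the radial primitive is smooth. -/
theorem contDiffOn_rprim (hU : IsOpen U) (hst : Star D U) (hom : ContDiffOn ℝ ∞ om U) :
    ContDiffOn ℝ ∞ (rprim D om) U :=
  contDiffOn_par hU (isOpen_OI hU) (fun _ hz => mem_OI hst hz) (contDiffOn_gI hom)

/-- the derivative of the integrand. -/
theorem fderiv_gI (hU : IsOpen U) (hom : ContDiffOn ℝ ∞ om U) {z : E} {s : ℝ}
    (hin : (z, s) ∈ OI D U) (a b : E) : fderiv ℝ (gI D om) (z, s) (a, 0) b =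
      fderiv ℝ om (Ps D s z) (Ps D s a) (D z) (Ps D s b) + om (Ps D s z) (D a) (Ps D s b) := by
  have hOo := isOpen_OI (D := D) hU
  have homd : DifferentiableAt ℝ om (Ps D s z) :=
    (hom.contDiffAt (hU.mem_nhds hin)).differentiableAt (by simp)
  have h1 : HasFDerivAt (gI D om) (fderiv ℝ (gI D om) (z, s)) (z, s) :=
    (((contDiffOn_gI hom).contDiffAt (hOo.mem_nhds hin)).differentiableAt (by simp)).hasFDerivAt
  have hline : HasDerivAt (fun t : ℝ => ((z + t • a, s) : E × ℝ)) (a, 0) 0 := by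
    have h2 : HasDerivAt (fun t : ℝ => z + t • a) a 0 := by
      simpa using ((hasDerivAt_id (0 : ℝ)).smul_const a).const_add z
    exact h2.prodMk (hasDerivAt_const (0 : ℝ) s)
  have h3 : HasDerivAt (fun t : ℝ => gI D om (z + t • a, s)) (fderiv ℝ (gI D om) (z, s) (a, 0)) 0 := by
    have h1' : HasFDerivAt (gI D om) (fderiv ℝ (gI D om) (z, s)) (z + (0 : ℝ) • a, s) := by
      simpa using h1
    exact h1'.comp_hasDerivAt (0 : ℝ) hline
  have h4 : HasDerivAt (fun t : ℝ => gI D om (z + t • a, s) b)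
      (fderiv ℝ (gI D om) (z, s) (a, 0) b) 0 := by
    simpa using h3.clm_apply (hasDerivAt_const (0 : ℝ) b)
  have h5 : HasDerivAt (fun t : ℝ => Ps D s (z + t • a)) (Ps D s a) 0 := by
    have h6 : HasDerivAt (fun t : ℝ => z + t • a) a 0 := by
      simpa using ((hasDerivAt_id (0 : ℝ)).smul_const a).const_add z
    exact (Ps D s).hasFDerivAt.comp_hasDerivAt (0 : ℝ) h6
  have h6 : HasDerivAt (fun t : ℝ => om (Ps D s (z + t • a)))
      (fderiv ℝ om (Ps D s z) (Ps D s a)) 0 := by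
    have h7 : HasFDerivAt om (fderiv ℝ om (Ps D s z)) (Ps D s (z + (0 : ℝ) • a)) := by
      simpa using homd.hasFDerivAt
    exact HasFDerivAt.comp_hasDerivAt (l := om) (0 : ℝ) h7 h5
  have h8 : HasDerivAt (fun t : ℝ => D (z + t • a)) (D a) 0 := by
    have h6 : HasDerivAt (fun t : ℝ => z + t • a) a 0 := by
      simpa using ((hasDerivAt_id (0 : ℝ)).smul_const a).const_add z
    exact D.hasFDerivAt.comp_hasDerivAt (0 : ℝ) h6
  have h9 := (h6.clm_apply h8).clm_apply (hasDerivAt_const (0 : ℝ) (Ps D s b))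
  have := h4.unique h9
  rw [this]
  simp

/-- **the differential of the radial primitive.** -/
theorem rprim_d (hU : IsOpen U) (hst : Star D U) (hom : ContDiffOn ℝ ∞ om U) (ha : Alt2 om U)
    (hcl : Closed2 om U) {z : E} (hz : z ∈ U) (v w : E) :
    fderiv ℝ (rprim D om) z v w - fderiv ℝ (rprim D om) z w v =
      om z v w - om (z - D z) (v - D v) (w - D w) := by
  have hOo := isOpen_OI (D := D) hU
  have hz' := mem_OI hst hz
  have hgs := contDiffOn_gI (D := D) hom
  have hg1 : ContDiffOn ℝ 1 (gI D om) (OI D U) := hgs.of_le (by exact_mod_cast le_top)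
  have key : ∀ a b : E, fderiv ℝ (rprim D om) z a b =
      ∫ s in (0 : ℝ)..1, fderiv ℝ (gI D om) (z, s) (a, 0) b := by
    intro a b
    have h0 : rprim D om = fun z => ∫ s in (0 : ℝ)..1, gI D om (z, s) := rfl
    rw [h0, fderiv_par_apply hOo hg1 hz' a]
    have hcont : ContinuousOn (fun s => fderiv ℝ (gI D om) (z, s) (a, 0)) (uIcc (0 : ℝ) 1) := by
      have h1 : ContinuousOn (fderiv ℝ (gI D om)) (OI D U) :=
        hg1.continuousOn_fderiv_of_isOpen hOo (by simp)
      have h2 : ContinuousOn (fun s : ℝ => fderiv ℝ (gI D om) (z, s)) (uIcc (0 : ℝ) 1) :=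
        h1.comp (by fun_prop) hz'
      exact h2.clm_apply continuousOn_const
    rw [ContinuousLinearMap.intervalIntegral_apply hcont.intervalIntegrable]
  have hint : ∀ a b : E,
      IntervalIntegrable (fun s => fderiv ℝ (gI D om) (z, s) (a, 0) b) volume 0 1 := by
    intro a b
    have h1 : ContinuousOn (fderiv ℝ (gI D om)) (OI D U) :=
      hg1.continuousOn_fderiv_of_isOpen hOo (by simp)
    have h2 : ContinuousOn (fun s : ℝ => fderiv ℝ (gI D om) (z, s)) (uIcc (0 : ℝ) 1) :=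
      h1.comp (by fun_prop) hz'
    exact ((h2.clm_apply continuousOn_const).clm_apply continuousOn_const).intervalIntegrable
  rw [key, key, ← intervalIntegral.integral_sub (hint v w) (hint w v)]
  have hder : ∀ s ∈ uIcc (0 : ℝ) 1, HasDerivAt (fun s : ℝ => om (Ps D s z) (Ps D s v) (Ps D s w))
      (fderiv ℝ (gI D om) (z, s) (v, 0) w - fderiv ℝ (gI D om) (z, s) (w, 0) v) s := by
    intro s hs
    have hin : (z, s) ∈ OI D U := hz' s hs
    have homd : DifferentiableAt ℝ om (Ps D s z) :=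
      (hom.contDiffAt (hU.mem_nhds hin)).differentiableAt (by simp)
    have h5 : ∀ y : E, HasDerivAt (fun s : ℝ => Ps D s y) (D y) s := by
      intro y
      have : (fun s : ℝ => Ps D s y) = fun s => (y - D y) + s • D y := by
        funext s; exact Ps_apply _ _ _
      rw [this]
      simpa using ((hasDerivAt_id s).smul_const (D y)).const_add (y - D y)
    have h6 : HasDerivAt (fun s : ℝ => om (Ps D s z)) (fderiv ℝ om (Ps D s z) (D z)) s :=
      HasFDerivAt.comp_hasDerivAt (l := om) s homd.hasFDerivAt (h5 z)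
    have h7 := (h6.clm_apply (h5 v)).clm_apply (h5 w)
    refine h7.congr_deriv ?_
    rw [fderiv_gI hU hom hin v w, fderiv_gI hU hom hin w v]
    have e1 := hcl _ hin (D z) (Ps D s v) (Ps D s w)
    have e2 := ha.fderiv_swap hU hin homd (Ps D s v) (D z) (Ps D s w)
    have e3 := ha.swap hin (Ps D s v) (D w)
    simp only [add_apply]
    rw [e3]
    linarith
  rw [intervalIntegral.integral_eq_sub_of_hasDerivAt hder ((hint v w).sub (hint w v))]
  simp [Ps_zero]

/-- the bound of the radial primitive. -/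
theorem rprim_bd {z : E} {B : ℝ} (hB : ∀ s ∈ Icc (0 : ℝ) 1, ‖om (Ps D s z)‖ ≤ B) :
    ‖rprim D om z‖ ≤ B * ‖D z‖ * (1 + ‖D‖) := by
  have h0 : ∀ s ∈ Ι (0 : ℝ) 1, ‖gI D om (z, s)‖ ≤ B * ‖D z‖ * (1 + ‖D‖) := by
    intro s hs
    rw [uIoc_of_le zero_le_one] at hs
    have hB0 : 0 ≤ B := (norm_nonneg _).trans (hB s ⟨hs.1.le, hs.2⟩)
    refine ContinuousLinearMap.opNorm_le_bound _ (by positivity) fun v => ?_
    rw [gI_apply]
    have h1 := ContinuousLinearMap.le_opNorm₂ (om (Ps D s z)) (D z) (Ps D s v)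
    have h2 := norm_Ps_le D hs.1.le hs.2 v
    have h3 := hB s ⟨hs.1.le, hs.2⟩
    calc ‖om (Ps D s z) (D z) (Ps D s v)‖ ≤ ‖om (Ps D s z)‖ * ‖D z‖ * ‖Ps D s v‖ := h1
      _ ≤ B * ‖D z‖ * ((1 + ‖D‖) * ‖v‖) := by gcongr
      _ = B * ‖D z‖ * (1 + ‖D‖) * ‖v‖ := by ring
  have h1 := intervalIntegral.norm_integral_le_of_norm_le_const h0
  simpa [rprim] using h1

end Main

end

end Crest.Agent.R235.K12Rad_776
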