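import Crest.Agent.R235.K12Pos_776

/-!
Row 235 (S0364), block K12, analytic assembly (helper776): STEP I, the bump.
-/

set_option autoImplicit false
set_option maxSynthPendingDepth 3
set_option linter.unusedSectionVars false

open Set Function Filter MeasureTheory
open scoped Manifold ContDiff Topology RealInnerProductSpace

universe u

namespace Crest.Agent.R235.K12S1_776

open Crest.Agent.R240 Crest.Agent.R240.Ch Crest.Agent.R235 Crest.Agent.R235.K12_417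
  Crest.Agent.R235.K12An_776 Crest.Agent.R235.K12Pos_776

noncomputable section

/-- `pfE` depends only on six entries. -/
theorem pfE_congr {m n : Fin 4 → Fin 4 → ℝ} (h1 : m 0 1 = n 0 1) (h2 : m 2 3 = n 2 3)
    (h3 : m 0 2 = n 0 2) (h4 : m 1 3 = n 1 3) (h5 : m 0 3 = n 0 3) (h6 : m 1 2 = n 1 2) :
    pfE m = pfE n := by
  unfold pfE; rw [h1, h2, h3, h4, h5, h6]

section FGe

variable {g : ℝ → ℝ} {c K t₀ r : ℝ} {z : E6} {e : E3}

theorem FG01 (hF : FGL) (hp : Prof g c K t₀) (hz : z ∈ TS r) (he : IsFr z.1 e) :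
    en (FG g c K t₀ z) z e 0 1 = g ‖z.2‖ := by
  rw [hF.e r g c K t₀ hp z e hz he]; simp

theorem FG23 (hF : FGL) (hp : Prof g c K t₀) (hz : z ∈ TS r) (he : IsFr z.1 e) :
    en (FG g c K t₀ z) z e 2 3 = - gd g K ‖z.2‖ := by
  rw [hF.e r g c K t₀ hp z e hz he]; simp

theorem FG02 (hF : FGL) (hp : Prof g c K t₀) (hz : z ∈ TS r) (he : IsFr z.1 e) :
    en (FG g c K t₀ z) z e 0 2 = 0 := by
  rw [hF.e r g c K t₀ hp z e hz he]; simp

theorem FG13 (hF : FGL) (hp : Prof g c K t₀) (hz : z ∈ TS r) (he : IsFr z.1 e) :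
    en (FG g c K t₀ z) z e 1 3 = 0 := by
  rw [hF.e r g c K t₀ hp z e hz he]; simp

theorem FG03 (hF : FGL) (hp : Prof g c K t₀) (hz : z ∈ TS r) (he : IsFr z.1 e) :
    en (FG g c K t₀ z) z e 0 3 = 0 := by
  rw [hF.e r g c K t₀ hp z e hz he]; simp

theorem FG12 (hF : FGL) (hp : Prof g c K t₀) (hz : z ∈ TS r) (he : IsFr z.1 e) :
    en (FG g c K t₀ z) z e 1 2 = 0 := by
  rw [hF.e r g c K t₀ hp z e hz he]; simp

end FGe

theorem rho_TS (hG : GEO) {r : ℝ} {z : E6} (hz : z ∈ TS r) : rho z = ‖z.2‖ := by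
  unfold rho; rw [hG.Pi_TS r z hz]

section Man

variable {M : Type u} [TopologicalSpace M] [T2Space M] [CompactSpace M]
  [ChartedSpace E4 M] [IsManifold 𝓘(ℝ, E4) ∞ M]

variable {σ : E3 → M} {r : ℝ} {Ps : E6 → M} {G : M → E6} {U : Set M}

/-- the data of `ZERO`. -/
structure ZD (w : Trip M) (Ps : E6 → M) (f : E3 → ℝ) : Prop where
  hom : Hom0 f
  pos : ∀ q, q ≠ 0 → 0 < f q
  area : ∀ q u v : E3, ‖q‖ = 1 → ⟪q, u⟫ = 0 → ⟪q, v⟫ = 0 →
    Om Ps (w 0) (q, 0) (u, 0) (v, 0) = f q * ⟪q, cr u v⟫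
  ent : ∀ q e : E3, IsFr q e →
    en (Om Ps (w 0) (q, 0)) (q, 0) e 0 1 = f q ∧
    en (Om Ps (w 1) (q, 0)) (q, 0) e 0 1 = 0 ∧ en (Om Ps (w 1) (q, 0)) (q, 0) e 2 3 = 0 ∧
    en (Om Ps (w 1) (q, 0)) (q, 0) e 0 2 = -1 ∧ en (Om Ps (w 1) (q, 0)) (q, 0) e 1 3 = -1 ∧
    en (Om Ps (w 1) (q, 0)) (q, 0) e 0 3 = 0 ∧ en (Om Ps (w 1) (q, 0)) (q, 0) e 1 2 = 0 ∧
    en (Om Ps (w 2) (q, 0)) (q, 0) e 0 1 = 0 ∧ en (Om Ps (w 2) (q, 0)) (q, 0) e 2 3 = 0

/-- a triple concentrated in the zeroth slot. -/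
def at0 (a : Z2 M) : Fin 3 → Z2 M := ![a, 0, 0]

theorem val_zero (x : M) : val (0 : Z2 M) x = 0 := rfl

theorem Om_zero (z : E6) : Om Ps (0 : Z2 M) z = 0 := by
  have h := Om_smul (Ps := Ps) (0 : ℝ) (0 : Z2 M) z
  rw [zero_smul, zero_smul] at h
  exact h

/-- the constants of a triple on the disc bundle of radius `r'`. -/
structure CD (w : Trip M) (Ps : E6 → M) (r r' κ α C : ℝ) : Prop where
  κ_pos : 0 < κ
  α_pos : 0 < α
  C_pos : 0 < C
  r'_pos : 0 < r'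
  r'_lt : r' < r
  kap : ∀ z ∈ TS r, ‖z.2‖ ≤ r' → ∀ e, IsFr z.1 e → ∀ c : Fin 3 → ℝ,
    κ * (c 0 ^ 2 + c 1 ^ 2 + c 2 ^ 2) ≤
      - pfE (fun i j => ∑ k, c k * en (Om Ps (w k) z) z e i j)
  alp : ∀ z ∈ TS r, ‖z.2‖ ≤ r' → ∀ e, IsFr z.1 e → α ≤ en (Om Ps (w 0) z) z e 0 1
  bd : ∀ z ∈ TS r, ‖z.2‖ ≤ r' → ∀ e, IsFr z.1 e → ∀ k i j, |en (Om Ps (w k) z) z e i j| ≤ C
  lip : ∀ z ∈ TS r, ‖z.2‖ ≤ r' → ∀ e, IsFr z.1 e → ∀ k i j,
    |en (Om Ps (w k) z) z e i j - en (Om Ps (w k) (z.1, 0)) (z.1, 0) e i j| ≤ C * ‖z.2‖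

theorem exists_CD (hPF : PFIFF M) (hT : Tube σ r Ps G U) {w : Trip M} (hw : Pos3 w)
    {f : E3 → ℝ} (hZ : ZD w Ps f) (hL : LIP) {c : ℝ} (hc : 0 < c) :
    ∃ r' κ α C : ℝ, CD w Ps r r' κ α C ∧ α ≤ c ∧ c ≤ C := by
  have hr := hT.r_pos
  obtain ⟨κ, hκ0, hκ⟩ := kappa hPF hT hw (fun q e he => by
    obtain ⟨_, h1, _, h2, h3, h4, _⟩ := hZ.ent q e he
    exact ⟨h1, h2, h3, h4⟩) (r' := r / 2) (by linarith)
  have hLk : ∀ k, ∃ C : ℝ, 0 < C ∧ ∀ (z : E6) (e : E3), z ∈ TS r → ‖z.2‖ ≤ r / 2 → IsFr z.1 e →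
      ∀ i j, |en (Om Ps (w k) z) z e i j| ≤ C ∧
        |en (Om Ps (w k) z) z e i j - en (Om Ps (w k) (z.1, 0)) (z.1, 0) e i j| ≤ C * ‖z.2‖ :=
    fun k => hL r (r / 2) (Om Ps (w k)) (by linarith) (by linarith) (basOm hT (w k)).smooth
  choose Ck hCk0 hCk using hLk
  set C : ℝ := Ck 0 + Ck 1 + Ck 2 + c with hC
  have hCle : ∀ k, Ck k ≤ C := by
    intro k
    have h0 := hCk0 0
    have h1 := hCk0 1
    have h2 := hCk0 2
    fin_cases k <;> simp [hC] <;> linarith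
  have hC0 : 0 < C := by
    have h0 := hCk0 0
    have h1 := hCle 0
    linarith
  -- the minimum of the density
  obtain ⟨α₀, hα₀, hα⟩ : ∃ α₀ : ℝ, 0 < α₀ ∧ ∀ q : E3, ‖q‖ = 1 → α₀ ≤ f q := by
    have hcont : ContinuousOn f (Metric.sphere (0 : E3) 1) := by
      refine hZ.hom.1.continuousOn.mono fun q hq => ?_
      rintro rfl
      simp at hq
    have hne : (Metric.sphere (0 : E3) 1).Nonempty :=
      ⟨EuclideanSpace.single 0 1, by simp⟩
    obtain ⟨q0, hq0, hmin⟩ := (isCompact_sphere (0 : E3) 1).exists_isMinOn hne hcont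
    refine ⟨f q0, hZ.pos q0 ?_, fun q hq => hmin (by simpa using hq)⟩
    rintro rfl
    simp at hq0
  set r' : ℝ := min (r / 2) (α₀ / (2 * C)) with hr'
  have hr'0 : 0 < r' := by positivity
  have hr'1 : r' ≤ r / 2 := min_le_left _ _
  have hr'2 : C * r' ≤ α₀ / 2 := by
    have h1 : r' ≤ α₀ / (2 * C) := min_le_right _ _
    have h2 := mul_le_mul_of_nonneg_left h1 hC0.le
    have h3 : C * (α₀ / (2 * C)) = α₀ / 2 := by field_simp
    linarith
  refine ⟨r', κ, min (α₀ / 2) c, C, ⟨hκ0, by positivity, hC0, hr'0, by linarith, ?_, ?_, ?_, ?_⟩,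
    min_le_right _ _, ?_⟩
  · intro z hz hzr e he
    exact hκ z hz (hzr.trans hr'1) e he
  · intro z hz hzr e he
    have h1 := ((hCk 0 z e hz (hzr.trans hr'1) he 0 1).2).trans
      (mul_le_mul_of_nonneg_right (hCle 0) (norm_nonneg _))
    rw [(hZ.ent z.1 e he).1] at h1
    have h2 := hα z.1 hz.1
    have h3 : C * ‖z.2‖ ≤ C * r' := mul_le_mul_of_nonneg_left hzr hC0.le
    have h4 := (abs_le.1 h1).1
    have h5 := min_le_left (α₀ / 2) c
    linarith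
  · intro z hz hzr e he k i j
    exact ((hCk k z e hz (hzr.trans hr'1) he i j).1).trans (hCle k)
  · intro z hz hzr e he k i j
    exact ((hCk k z e hz (hzr.trans hr'1) he i j).2).trans
      (mul_le_mul_of_nonneg_right (hCle k) (norm_nonneg _))
  · have h0 := hCk0 0
    have h1 := hCk0 1
    have h2 := hCk0 2
    rw [hC]
    linarith

/-- STEP I. -/
theorem step1 (hG : GEO) (hPF : PFIFF M) (hT : Tube σ r Ps G U) {w : Trip M} (hw : Pos3 w)
    {f : E3 → ℝ} (hZ : ZD w Ps f) (hF : FGL) (hI : ALGI) (hE : K12An_776.EXT2 M)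
    {r' κ α C Cb A s K t₀ : ℝ} {h : ℝ → ℝ} (hD : CD w Ps r r' κ α C)
    (hsr : s ≤ r') (hA1 : 2 * A ≤ α) (hA2 : 16 * (A * C) ≤ κ)
    (hA3 : 16 * (C ^ 2 * (Cb * A)) ≤ κ * α)
    (hp : Prof h (-A) K t₀) (hK : 0 ≤ K)
    (hh1 : ∀ t, 0 ≤ t → -A ≤ h t ∧ h t ≤ 0) (hh2 : ∀ t, s ≤ t → h t = 0)
    (hh3 : ∀ t, 0 ≤ t → 0 ≤ deriv h t ∧ t * deriv h t ≤ Cb * A) :
    ∃ a : Z2 M, (∀ x, x ∉ U → val a x = 0) ∧ (∀ z ∈ OS r, Om Ps a z = FG h (-A) K t₀ z) ∧
      Seg w (fun i => w i + at0 a i) := by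
  have hsr2 : s < r := lt_of_le_of_lt hsr hD.r'_lt
  obtain ⟨a, ha1, ha2⟩ := hE.ext σ r Ps G U hT (FG h (-A) K t₀) s hsr2 (hF.bas r h (-A) K t₀ hp)
    (fun z hz hzs => hF.supp r h (-A) K t₀ hp s hh2 z (hG.TS_sub r hz) (by
      rw [rho_TS hG hz]; exact hzs))
  refine ⟨a, ?_, ha2, ?_⟩
  · intro x hx
    refine ha1 x fun z hz _ hxe => hx ?_
    rw [hxe]
    exact hT.maps z (hG.TS_sub r hz)
  refine seg_of hPF hT hw (at0 a) hsr2 ?_ ?_
  · intro i x hx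
    fin_cases i
    · exact ha1 x hx
    · exact val_zero x
    · exact val_zero x
  · intro t ht z hz hzs e he
    rw [posF_iff]
    intro c hc
    have hzr : ‖z.2‖ ≤ r' := hzs.trans hsr
    have hρ0 : 0 ≤ ‖z.2‖ := norm_nonneg _
    obtain ⟨f1, f2, f3, f4, f5, f6, f7, f8, f9⟩ := hZ.ent z.1 e he
    -- the two parameters
    set A' : ℝ := - (t * h ‖z.2‖) with hA'
    set L : ℝ := t * gd h K ‖z.2‖ with hL'
    have hA'0 : 0 ≤ A' := by
      have := mul_nonneg ht.1 (neg_nonneg.2 (hh1 _ hρ0).2)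
      rw [hA']; linarith
    have hA'A : A' ≤ A := by
      have h1 : - h ‖z.2‖ ≤ A := by linarith [(hh1 _ hρ0).1]
      have h2 : A' = t * (- h ‖z.2‖) := by rw [hA']; ring
      have h3 : 0 ≤ - h ‖z.2‖ := neg_nonneg.2 (hh1 _ hρ0).2
      rw [h2]
      exact (mul_le_of_le_one_left h3 ht.2).trans h1
    have hgd0 : 0 ≤ gd h K ‖z.2‖ := by
      unfold gd
      split_ifs with h0
      · exact hK
      · exact div_nonneg (hh3 _ hρ0).1 hρ0
    have hL0 : 0 ≤ L := mul_nonneg ht.1 hgd0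
    have hLb : L * ‖z.2‖ ^ 2 ≤ Cb * A := by
      have h1 : gd h K ‖z.2‖ * ‖z.2‖ ^ 2 ≤ Cb * A := by
        unfold gd
        split_ifs with h0
        · have h2 := (hh3 0 le_rfl).2
          rw [h0]
          simpa using h2
        · have h2 := (hh3 _ hρ0).2
          have h3 : deriv h ‖z.2‖ / ‖z.2‖ * ‖z.2‖ ^ 2 = ‖z.2‖ * deriv h ‖z.2‖ := by
            field_simp
          rw [h3]; exact h2
      have h2 : L * ‖z.2‖ ^ 2 = t * (gd h K ‖z.2‖ * ‖z.2‖ ^ 2) := by rw [hL']; ring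
      have h3 : 0 ≤ gd h K ‖z.2‖ * ‖z.2‖ ^ 2 := by positivity
      rw [h2]
      exact (mul_le_of_le_one_left h3 ht.2).trans h1
    have hl := hD.lip z hz hzr e he
    have key := hI κ α C A' L (C * ‖z.2‖) (fun k i j => en (Om Ps (w k) z) z e i j) hD.κ_pos
      hD.α_pos hA'0 hL0 (by have := hD.C_pos; positivity) (hD.alp z hz hzr e he)
      (fun k => hD.bd z hz hzr e he k 2 3)
      (by have := hl 1 0 1; rwa [f2, sub_zero] at this)
      (by have := hl 2 0 1; rwa [f8, sub_zero] at this)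
      (hD.kap z hz hzr e he) (by linarith)
      (by
        have : A' * C ≤ A * C := mul_le_mul_of_nonneg_right hA'A hD.C_pos.le
        linarith)
      (by
        have h1 : L * (C * ‖z.2‖) ^ 2 = C ^ 2 * (L * ‖z.2‖ ^ 2) := by ring
        have h2 := mul_le_mul_of_nonneg_left hLb (sq_nonneg C)
        rw [h1]
        linarith) c hc
    refine lt_of_eq_of_lt ?_ key
    have e0 : ∀ i j, en (Om Ps (w 0) z + t • Om Ps (at0 a 0) z) z e i j =
        en (Om Ps (w 0) z) z e i j + t * en (FG h (-A) K t₀ z) z e i j := by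
      intro i j
      rw [en_add, en_smul, show at0 a 0 = a from rfl, ha2 z (hG.TS_sub r hz)]
    have e1 : ∀ i j, en (Om Ps (w 1) z + t • Om Ps (at0 a 1) z) z e i j =
        en (Om Ps (w 1) z) z e i j := by
      intro i j
      rw [show at0 a 1 = 0 from rfl, Om_zero, smul_zero, add_zero]
    have e2 : ∀ i j, en (Om Ps (w 2) z + t • Om Ps (at0 a 2) z) z e i j =
        en (Om Ps (w 2) z) z e i j := by
      intro i j
      rw [show at0 a 2 = 0 from rfl, Om_zero, smul_zero, add_zero]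
    refine pfE_congr ?_ ?_ ?_ ?_ ?_ ?_
    · simp only [Fin.sum_univ_three, e0, e1, e2, FG01 hF hp hz he]
      simp [hA']; ring
    · simp only [Fin.sum_univ_three, e0, e1, e2, FG23 hF hp hz he]
      simp [hL']; ring
    · simp only [Fin.sum_univ_three, e0, e1, e2, FG02 hF hp hz he]
      simp
    · simp only [Fin.sum_univ_three, e0, e1, e2, FG13 hF hp hz he]
      simp
    · simp only [Fin.sum_univ_three, e0, e1, e2, FG03 hF hp hz he]
      simp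
    · simp only [Fin.sum_univ_three, e0, e1, e2, FG12 hF hp hz he]
      simp

end Man

end

end Crest.Agent.R235.K12S1_776
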