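import Mathlib
import Crest.Agent.R213.J0bGen

/-!
Row 235 (S0364), package KUM, block K12, leaf S2PRIM (task 315, helper423), part A:
parametric integrals on open sets; primitives of homogeneous angular forms on `ℂ \ {0}`.
-/

set_option autoImplicit false

open Set MeasureTheory Filter Complex
open scoped ContDiff Topology

namespace Crest.Agent.R235.K12S2_423

noncomputable section

/-! ### parametric integrals on open sets -/

section PI

variable {E F : Type} [NormedAddCommGroup E] [NormedSpace ℝ E] [NormedAddCommGroup F]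
  [NormedSpace ℝ F] {U : Set E} {a b : ℝ} {H : ℝ × E → F}

theorem pint_smooth (hab : a < b) (hU : IsOpen U) (hH : ContDiffOn ℝ ∞ H (Icc a b ×ˢ U)) :
    ContDiffOn ℝ ∞ (fun q => ∫ r in a..b, H (r, q)) U := by
  intro x hx
  obtain ⟨ε, hε, hb⟩ := Metric.isOpen_iff.1 hU x hx
  have h1 := R213.contDiffOn_pint hab (convex_ball x ε) Metric.isOpen_ball.uniqueDiffOn
    (hH.mono (prod_mono_right hb))
  exact ((h1 x (Metric.mem_ball_self hε)).contDiffAt
    (Metric.ball_mem_nhds x hε)).contDiffWithinAt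

theorem pint_deriv (hab : a ≤ b) (hU : IsOpen U) {H' : ℝ × E → E →L[ℝ] F}
    (hH : ContinuousOn H (Icc a b ×ˢ U)) (hH' : ContinuousOn H' (Icc a b ×ˢ U))
    (hd : ∀ r ∈ Icc a b, ∀ q ∈ U, HasFDerivAt (fun q => H (r, q)) (H' (r, q)) q)
    {p : E} (hp : p ∈ U) :
    HasFDerivAt (fun q => ∫ r in a..b, H (r, q)) (∫ r in a..b, H' (r, p)) p := by
  obtain ⟨ε, hε, hb⟩ := Metric.isOpen_iff.1 hU p hp
  have h1 := R213.hasFDerivWithinAt_pint hab (convex_ball p ε)
    (hH.mono (prod_mono_right hb)) (hH'.mono (prod_mono_right hb))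
    (fun r hr q hq => (hd r hr q (hb hq)).hasFDerivWithinAt) (Metric.mem_ball_self hε)
  exact h1.hasFDerivAt (Metric.ball_mem_nhds p hε)

theorem pint_cont (hU : IsOpen U) (hH : ContDiffOn ℝ ∞ H ((univ : Set ℝ) ×ˢ U)) :
    ContinuousOn (fun z : ℝ × E => (fderiv ℝ H z).comp (ContinuousLinearMap.inr ℝ ℝ E))
      ((univ : Set ℝ) ×ˢ U) :=
  (hH.continuousOn_fderiv_of_isOpen (isOpen_univ.prod hU) (by simp)).clm_comp continuousOn_const

theorem pint_slice (hU : IsOpen U) (hH : ContDiffOn ℝ ∞ H ((univ : Set ℝ) ×ˢ U)) (r : ℝ) {q : E}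
    (hq : q ∈ U) : HasFDerivAt (fun q => H (r, q))
      ((fderiv ℝ H (r, q)).comp (ContinuousLinearMap.inr ℝ ℝ E)) q := by
  have h1 : HasFDerivAt H (fderiv ℝ H (r, q)) (r, q) :=
    ((hH.contDiffAt ((isOpen_univ.prod hU).mem_nhds ⟨mem_univ _, hq⟩)).differentiableAt
      (by simp)).hasFDerivAt
  have h2 : HasFDerivAt (fun q : E => ((r, q) : ℝ × E)) (ContinuousLinearMap.inr ℝ ℝ E) q :=
    (hasFDerivAt_const r q).prodMk (hasFDerivAt_id q)
  exact h1.comp q h2

theorem pint_deriv' (hU : IsOpen U) (hH : ContDiffOn ℝ ∞ H ((univ : Set ℝ) ×ˢ U)) {p : E}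
    (hp : p ∈ U) : HasFDerivAt (fun q => ∫ r in (0 : ℝ)..1, H (r, q))
      (∫ r in (0 : ℝ)..1, (fderiv ℝ H (r, p)).comp (ContinuousLinearMap.inr ℝ ℝ E)) p :=
  pint_deriv (H' := fun z : ℝ × E => (fderiv ℝ H z).comp (ContinuousLinearMap.inr ℝ ℝ E))
    zero_le_one hU
    (hH.continuousOn.mono (prod_mono_left (subset_univ _)))
    ((pint_cont hU hH).mono (prod_mono_left (subset_univ _)))
    (fun r _ _ hq => pint_slice hU hH r hq) hp

theorem pint_line (hU : IsOpen U) (hH : ContDiffOn ℝ ∞ H ((univ : Set ℝ) ×ˢ U)) (r : ℝ) {x : E}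
    (hx : x ∈ U) (a : E) : HasDerivAt (fun τ : ℝ => H (r, x + τ • a))
      (((fderiv ℝ H (r, x)).comp (ContinuousLinearMap.inr ℝ ℝ E)) a) 0 := by
  have h1 : HasFDerivAt (fun q => H (r, q))
      ((fderiv ℝ H (r, x)).comp (ContinuousLinearMap.inr ℝ ℝ E)) (x + (0 : ℝ) • a) := by
    rw [zero_smul, add_zero]
    exact pint_slice hU hH r hx
  have e0 : HasDerivAt (fun τ : ℝ => x + τ • a) a 0 := by
    simpa using ((hasDerivAt_id (0 : ℝ)).smul_const a).const_add x
  have h2 := h1.comp_hasDerivAt (0 : ℝ) e0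
  exact h2

/-- FTC under the integral sign. -/
theorem pint_ftc [CompleteSpace F] (hU : IsOpen U) (hH : ContDiffOn ℝ ∞ H ((univ : Set ℝ) ×ˢ U))
    {p : E} (hp : p ∈ U) (a : E) {P : ℝ → F}
    (hP : ∀ t, HasDerivAt P (((fderiv ℝ H (t, p)).comp (ContinuousLinearMap.inr ℝ ℝ E)) a) t) :
    fderiv ℝ (fun q => ∫ r in (0 : ℝ)..1, H (r, q)) p a = P 1 - P 0 := by
  rw [(pint_deriv' hU hH hp).fderiv]
  have hc2 : Continuous (fun r : ℝ => (fderiv ℝ H (r, p)).comp
      (ContinuousLinearMap.inr ℝ ℝ E)) := by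
    rw [← continuousOn_univ]
    exact (pint_cont hU hH).comp (by fun_prop) fun r _ => ⟨mem_univ _, hp⟩
  rw [ContinuousLinearMap.intervalIntegral_apply (hc2.intervalIntegrable _ _)]
  exact intervalIntegral.integral_eq_sub_of_hasDerivAt (fun t _ => hP t)
    ((hc2.clm_apply continuous_const).intervalIntegrable _ _)

end PI

/-! ### the planar lemma -/

/-- homogeneous of degree zero and smooth off the origin. -/
structure Hc (lam : ℂ → ℝ) : Prop where
  smooth : ContDiffOn ℝ ∞ lam {0}ᶜ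
  hom : ∀ (t : ℝ) (z : ℂ), 0 < t → lam (t • z) = lam z

/-- the primitive `(1/2π) ∫_0^{2π} s λ(e^{is} z) ds`. -/
def pr2 (lam : ℂ → ℝ) (z : ℂ) : ℝ :=
  (2 * Real.pi)⁻¹ * ∫ s in (0 : ℝ)..(2 * Real.pi), s * lam (cexp (s * I) * z)

/-- the mean value over the circle. -/
def mean2 (lam : ℂ → ℝ) : ℝ := ∫ s in (0 : ℝ)..(2 * Real.pi), lam (cexp (s * I))

variable {lam : ℂ → ℝ}

theorem rot_smooth : ContDiff ℝ ∞ (fun p : ℝ × ℂ => cexp (p.1 * I) * p.2) := by
  have h1 : ContDiff ℝ ∞ (fun p : ℝ × ℂ => cexp ((p.1 : ℂ) * I)) := by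
    have h2 : ContDiff ℝ ∞ (fun p : ℝ × ℂ => (p.1 : ℂ) * I) :=
      (ofRealCLM.contDiff.comp contDiff_fst).mul contDiff_const
    exact (Complex.contDiff_exp (𝕜 := ℝ)).comp h2
  exact h1.mul contDiff_snd

theorem rot_ne {s : ℝ} {z : ℂ} (hz : z ≠ 0) : cexp (s * I) * z ≠ 0 :=
  mul_ne_zero (Complex.exp_ne_zero _) hz

theorem pr2_smooth (h : Hc lam) : ContDiffOn ℝ ∞ (pr2 lam) {0}ᶜ := by
  unfold pr2
  refine contDiffOn_const.mul ?_
  refine pint_smooth (H := fun p : ℝ × ℂ => p.1 * lam (cexp (p.1 * I) * p.2)) (by positivity)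
    isOpen_compl_singleton ?_
  refine (contDiff_fst.contDiffOn).mul ?_
  exact h.smooth.comp rot_smooth.contDiffOn fun p hp => rot_ne hp.2

theorem pr2_hom (h : Hc lam) (t : ℝ) (z : ℂ) (ht : 0 < t) : pr2 lam (t • z) = pr2 lam z := by
  unfold pr2
  congr 1
  refine intervalIntegral.integral_congr fun s _ => ?_
  rw [mul_smul_comm, h.hom t _ ht]

/-- the values of `λ` on the circle through `z`. -/
def ell (lam : ℂ → ℝ) (z : ℂ) (s : ℝ) : ℝ := lam (cexp (s * I) * z)

theorem ell_cont (h : Hc lam) {z : ℂ} (hz : z ≠ 0) : Continuous (ell lam z) := by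
  unfold ell
  have h1 : Continuous fun s : ℝ => cexp (s * I) * z := by fun_prop
  rw [← continuousOn_univ]
  exact h.smooth.continuousOn.comp h1.continuousOn fun s _ => rot_ne hz

theorem ell_per (z : ℂ) : Function.Periodic (ell lam z) (2 * Real.pi) := by
  intro s
  unfold ell
  congr 2
  push_cast
  rw [add_mul, Complex.exp_add, Complex.exp_two_pi_mul_I, mul_one]

theorem ell_add (z : ℂ) (s t : ℝ) : ell lam (cexp (t * I) * z) s = ell lam z (s + t) := by
  unfold ell
  congr 1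
  push_cast
  rw [add_mul, Complex.exp_add, mul_assoc]

theorem int_ell (h : Hc lam) {z : ℂ} (hz : z ≠ 0) :
    ∫ s in (0 : ℝ)..(2 * Real.pi), ell lam z s = mean2 lam := by
  have h1 : z = ‖z‖ • (cexp (z.arg * I) * 1) := by
    rw [mul_one, real_smul]
    exact (Complex.norm_mul_exp_arg_mul_I z).symm
  have h2 : ∀ s : ℝ, ell lam z s = ell lam 1 (s + z.arg) := by
    intro s
    have h3 : ell lam z s = ell lam (‖z‖ • (cexp (z.arg * I) * 1)) s := by rw [← h1]
    rw [h3, ← ell_add]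
    unfold ell
    rw [mul_smul_comm, h.hom _ _ (norm_pos_iff.2 hz)]
  simp only [h2]
  rw [intervalIntegral.integral_comp_add_right (fun s => ell lam 1 s)]
  have h4 := (ell_per (lam := lam) 1).intervalIntegral_add_eq (z.arg) 0
  rw [zero_add, add_comm z.arg] at h4 
  rw [zero_add, h4]
  simp only [ell, mul_one, mean2]

theorem pr2_rot (h : Hc lam) {z : ℂ} (hz : z ≠ 0) :
    HasDerivAt (fun ε : ℝ => pr2 lam (cexp (ε * I) * z))
      (lam z - (2 * Real.pi)⁻¹ * mean2 lam) 0 := by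
  have hc := ell_cont h hz
  have hpi : (0 : ℝ) < 2 * Real.pi := by positivity
  set g : ℝ → ℝ := fun s => s * ell lam z s with hg
  have hgc : Continuous g := continuous_id.mul hc
  have e1 : ∀ ε : ℝ, pr2 lam (cexp (ε * I) * z) = (2 * Real.pi)⁻¹ *
      ((∫ s in (0 : ℝ)..(2 * Real.pi + ε), g s) - (∫ s in (0 : ℝ)..ε, g s) - ε * mean2 lam) := by
    intro ε
    unfold pr2
    congr 1
    have e2 : ∀ s : ℝ, s * lam (cexp (s * I) * (cexp (ε * I) * z)) =
        (s + ε) * ell lam z (s + ε) - ε * ell lam z (s + ε) := by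
      intro s
      have := ell_add (lam := lam) z s ε
      rw [ell] at this
      rw [this]; ring
    simp only [e2]
    have i1 : IntervalIntegrable (fun s => (s + ε) * ell lam z (s + ε)) volume 0 (2 * Real.pi) := by
      apply Continuous.intervalIntegrable
      fun_prop
    have i2 : IntervalIntegrable (fun s => ε * ell lam z (s + ε)) volume 0 (2 * Real.pi) := by
      apply Continuous.intervalIntegrable
      fun_prop
    rw [intervalIntegral.integral_sub i1 i2, intervalIntegral.integral_const_mul,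
      intervalIntegral.integral_comp_add_right (fun s => s * ell lam z s),
      intervalIntegral.integral_comp_add_right (fun s => ell lam z s)]
    have h4 := (ell_per (lam := lam) z).intervalIntegral_add_eq ε 0
    rw [zero_add, add_comm ε] at h4
    rw [zero_add, h4, int_ell h hz]
    have h5 := intervalIntegral.integral_interval_sub_left
      (hgc.intervalIntegrable (μ := volume) 0 (2 * Real.pi + ε))
      (hgc.intervalIntegrable (μ := volume) 0 ε)
    rw [h5]
  have e3 : HasDerivAt (fun ε : ℝ => ∫ s in (0 : ℝ)..(2 * Real.pi + ε), g s)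
      (g (2 * Real.pi)) 0 := by
    have h1 : HasDerivAt (fun x : ℝ => ∫ s in (0 : ℝ)..x, g s) (g (2 * Real.pi + 0))
        (2 * Real.pi + 0) :=
      intervalIntegral.integral_hasDerivAt_right (hgc.intervalIntegrable _ _)
        (hgc.stronglyMeasurableAtFilter _ _) hgc.continuousAt
    have h2 := HasDerivAt.comp_const_add (2 * Real.pi) 0 h1
    rwa [add_zero] at h2
  have e4 : HasDerivAt (fun ε : ℝ => ∫ s in (0 : ℝ)..ε, g s) (g 0) 0 :=
      intervalIntegral.integral_hasDerivAt_right (hgc.intervalIntegrable _ _)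
        (hgc.stronglyMeasurableAtFilter _ _) hgc.continuousAt
  have e5 := ((e3.sub e4).sub ((hasDerivAt_id (0 : ℝ)).mul_const (mean2 lam))).const_mul
    ((2 * Real.pi)⁻¹)
  have e6 : (fun ε : ℝ => pr2 lam (cexp (ε * I) * z)) = fun ε => (2 * Real.pi)⁻¹ *
      ((∫ s in (0 : ℝ)..(2 * Real.pi + ε), g s) - (∫ s in (0 : ℝ)..ε, g s) - ε * mean2 lam) :=
    funext e1
  have h6 : ell lam z (2 * Real.pi) = lam z := by
    have := ell_per (lam := lam) z 0
    rw [zero_add] at this
    rw [this]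
    simp [ell]
  have h7 : g (2 * Real.pi) = 2 * Real.pi * lam z := by rw [hg]; simp only [h6]
  have h8 : g 0 = 0 := by rw [hg]; simp only [zero_mul]
  have h9 : (2 * Real.pi)⁻¹ * (g (2 * Real.pi) - g 0 - 1 * mean2 lam) =
      lam z - (2 * Real.pi)⁻¹ * mean2 lam := by
    rw [h7, h8]
    field_simp
    ring
  rw [e6, ← h9]
  exact e5

/-- **planar lemma**: the differential of `pr2 λ`. -/
theorem pr2_fderiv (h : Hc lam) (h0 : mean2 lam = 0) {z : ℂ} (hz : z ≠ 0) (v : ℂ) :
    fderiv ℝ (pr2 lam) z v = lam z * ((z.re * v.im - z.im * v.re) / (z.re ^ 2 + z.im ^ 2)) := by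
  have hd : DifferentiableAt ℝ (pr2 lam) z :=
    ((pr2_smooth h).contDiffAt (isOpen_compl_singleton.mem_nhds hz)).differentiableAt (by simp)
  have hn : z.re ^ 2 + z.im ^ 2 ≠ 0 := by
    have := Complex.normSq_pos.2 hz
    rw [Complex.normSq_apply] at this
    nlinarith
  -- radial direction
  have h1 : fderiv ℝ (pr2 lam) z z = 0 := by
    have c1 : HasDerivAt (fun t : ℝ => t • z) z 1 := by
      simpa using (hasDerivAt_id (1 : ℝ)).smul_const z
    have hd' : HasFDerivAt (pr2 lam) (fderiv ℝ (pr2 lam) z) ((1 : ℝ) • z) := by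
      rw [one_smul]; exact hd.hasFDerivAt
    have c2 := hd'.comp_hasDerivAt (1 : ℝ) c1
    have c3 : (fun t : ℝ => pr2 lam (t • z)) =ᶠ[𝓝 1] fun _ => pr2 lam z := by
      filter_upwards [lt_mem_nhds (zero_lt_one : (0 : ℝ) < 1)] with t ht
      exact pr2_hom h t z ht
    have c4 : HasDerivAt (fun t : ℝ => pr2 lam (t • z)) 0 1 :=
      (hasDerivAt_const (1 : ℝ) (pr2 lam z)).congr_of_eventuallyEq c3
    exact c2.unique c4
  -- rotation
  have h2 : fderiv ℝ (pr2 lam) z (I * z) = lam z := by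
    have c1 : HasDerivAt (fun ε : ℝ => cexp (ε * I) * z) (I * z) 0 := by
      have d1 : HasDerivAt (fun ε : ℝ => (ε : ℂ) * I) I 0 := by
        simpa using (Complex.ofRealCLM.hasDerivAt (x := (0 : ℝ))).mul_const I
      have d2 : HasDerivAt (fun ε : ℝ => cexp ((ε : ℂ) * I)) (cexp (((0 : ℝ) : ℂ) * I) * I) 0 :=
        d1.cexp
      have d3 := d2.mul_const z
      simpa using d3
    have hd' : HasFDerivAt (pr2 lam) (fderiv ℝ (pr2 lam) z) (cexp (((0 : ℝ) : ℂ) * I) * z) := by
      simpa using hd.hasFDerivAt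
    have c2 := hd'.comp_hasDerivAt (0 : ℝ) c1
    have c3 := pr2_rot h hz
    rw [h0, mul_zero, sub_zero] at c3
    exact c2.unique c3
  have h3 : v = ((z.re * v.re + z.im * v.im) / (z.re ^ 2 + z.im ^ 2)) • z +
      ((z.re * v.im - z.im * v.re) / (z.re ^ 2 + z.im ^ 2)) • (I * z) := by
    apply Complex.ext
    · simp only [Complex.add_re, Complex.smul_re, Complex.I_mul_re, smul_eq_mul]
      field_simp
      ring
    · simp only [Complex.add_im, Complex.smul_im, Complex.I_mul_im, smul_eq_mul]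
      field_simp
      ring
  have h4 : fderiv ℝ (pr2 lam) z v = fderiv ℝ (pr2 lam) z
      (((z.re * v.re + z.im * v.im) / (z.re ^ 2 + z.im ^ 2)) • z +
      ((z.re * v.im - z.im * v.re) / (z.re ^ 2 + z.im ^ 2)) • (I * z)) := by rw [← h3]
  rw [h4, map_add, map_smul, map_smul, h1, h2, smul_zero, zero_add, smul_eq_mul, mul_comm]

end

end Crest.Agent.R235.K12S2_423
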