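import Crest.Agent.R235.K12Defs_417
import Crest.Agent.R235.K12S2A_423

/-!
Row 235 (S0364), package KUM, block K12, leaf S2PRIM (task 315, helper423), part B:
the monopole potential `γ_a(x) = - F_a(x) ⟪x, a × ·⟫` of `f · area` on the complement of a ray.
-/

set_option autoImplicit false
set_option maxSynthPendingDepth 3

open Set MeasureTheory Filter
open scoped ContDiff Topology RealInnerProductSpace

namespace Crest.Agent.R235.K12S2_423

open Crest.Agent.R235 Crest.Agent.R240.Ch Crest.Agent.R235.K12_417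

noncomputable section

/-! ### coordinates -/

theorem inner3 (x y : E3) : ⟪x, y⟫ = x 0 * y 0 + x 1 * y 1 + x 2 * y 2 := by
  rw [PiLp.inner_apply, Fin.sum_univ_three]
  simp only [RCLike.inner_apply, conj_trivial]
  ring

theorem cr0 (a b : E3) : cr a b 0 = a 1 * b 2 - a 2 * b 1 := rfl
theorem cr1 (a b : E3) : cr a b 1 = a 2 * b 0 - a 0 * b 2 := rfl
theorem cr2 (a b : E3) : cr a b 2 = a 0 * b 1 - a 1 * b 0 := rfl

/-- standard basis vectors. -/
def ee (i : Fin 3) : E3 := EuclideanSpace.single i 1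

theorem lin3 (D : E3 →L[ℝ] ℝ) (u : E3) :
    D u = u 0 * D (ee 0) + u 1 * D (ee 1) + u 2 * D (ee 2) := by
  have h : u = u 0 • ee 0 + u 1 • ee 1 + u 2 • ee 2 := by
    ext i
    fin_cases i <;> simp [ee]
  conv_lhs => rw [h]
  simp only [map_add, map_smul, smul_eq_mul]

/-- the four vector identity. -/
theorem four (D : E3 →L[ℝ] ℝ) (x a u v : E3) :
    D u * ⟪x, cr a v⟫ - D v * ⟪x, cr a u⟫ + D x * ⟪a, cr u v⟫ = D a * ⟪x, cr u v⟫ := by
  rw [lin3 D u, lin3 D v, lin3 D x, lin3 D a]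
  simp only [inner3, cr0, cr1, cr2]
  ring

theorem cr_anti (a u v : E3) : ⟪u, cr a v⟫ - ⟪v, cr a u⟫ = -(2 * ⟪a, cr u v⟫) := by
  simp only [inner3, cr0, cr1, cr2]
  ring

theorem inner_cr_self (a x : E3) : ⟪x, cr a x⟫ = 0 := by
  simp only [inner3, cr0, cr1, cr2]
  ring

/-- Euler's relation. -/
theorem euler {g : E3 → ℝ} {x : E3} (k : ℕ) (hd : DifferentiableAt ℝ g x)
    (h : ∀ s : ℝ, 0 < s → g (s • x) = (s ^ k)⁻¹ * g x) : fderiv ℝ g x x = -(k * g x) := by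
  have c1 : HasDerivAt (fun t : ℝ => t • x) x 1 := by
    simpa using (hasDerivAt_id (1 : ℝ)).smul_const x
  have hd' : HasFDerivAt g (fderiv ℝ g x) ((1 : ℝ) • x) := by
    rw [one_smul]; exact hd.hasFDerivAt
  have c2 := hd'.comp_hasDerivAt (1 : ℝ) c1
  have c3 : (fun t : ℝ => g (t • x)) =ᶠ[𝓝 1] fun t => (t ^ k)⁻¹ * g x := by
    filter_upwards [lt_mem_nhds (zero_lt_one : (0 : ℝ) < 1)] with t ht
    exact h t ht
  have c4 : HasDerivAt (fun t : ℝ => (t ^ k)⁻¹ * g x) (-(k * g x)) 1 := by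
    have d1 := ((hasDerivAt_pow k (1 : ℝ)).inv (by simp)).mul_const (g x)
    have d2 : -(↑k * (1 : ℝ) ^ (k - 1)) / (1 ^ k) ^ 2 * g x = -(k * g x) := by simp
    rw [← d2]
    exact d1
  exact c2.unique (c4.congr_of_eventuallyEq c3)

/-! ### the radial integrals -/

/-- `f(y) |y|⁻³`. -/
def GG (f : E3 → ℝ) (y : E3) : ℝ := f y * (‖y‖ ^ 3)⁻¹

/-- the path from `x` to infinity in direction `a`. -/
def ww (a : E3) (t : ℝ) (x : E3) : E3 := (1 - t) • x + (t * ‖x‖) • a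

/-- the integrand. -/
def HH (f : E3 → ℝ) (a : E3) (p : ℝ × E3) : ℝ := ‖p.2‖ * (1 - p.1) * GG f (ww a p.1 p.2)

/-- `∫_0^∞ f(x + s a) |x + s a|⁻³ ds`. -/
def FF (f : E3 → ℝ) (a x : E3) : ℝ := ∫ t in (0 : ℝ)..1, HH f a (t, x)

/-- the complement of the ray `- ℝ₊ a`. -/
def VV (a : E3) : Set E3 := {x | 0 < ‖x‖ + ⟪x, a⟫}

theorem VV_open (a : E3) : IsOpen (VV a) :=
  isOpen_lt continuous_const (by fun_prop)

theorem VV_ne {a x : E3} (hx : x ∈ VV a) : x ≠ 0 := by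
  rintro rfl
  simp [VV] at hx

theorem VV_smul {a x : E3} (hx : x ∈ VV a) {t : ℝ} (ht : 0 < t) : t • x ∈ VV a := by
  have h1 : 0 < ‖x‖ + ⟪x, a⟫ := hx
  change 0 < ‖t • x‖ + ⟪t • x, a⟫
  rw [norm_smul, Real.norm_eq_abs, abs_of_pos ht, real_inner_smul_left, ← mul_add]
  positivity

theorem ww_ne {a : E3} (ha : ‖a‖ = 1) {x : E3} (hx : x ∈ VV a) (t : ℝ) : ww a t x ≠ 0 := by
  intro h
  have hx0 : 0 < ‖x‖ := norm_pos_iff.2 (VV_ne hx)
  have h1 : (1 - t) • x = (-(t * ‖x‖)) • a := by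
    unfold ww at h
    rw [neg_smul]
    exact eq_neg_of_add_eq_zero_left h
  have h2 : |1 - t| * ‖x‖ = |t| * ‖x‖ := by
    have := congrArg norm h1
    rw [norm_smul, norm_smul, Real.norm_eq_abs, Real.norm_eq_abs, ha, mul_one, abs_neg,
      abs_mul, abs_norm] at this
    exact this
  have h3 : |1 - t| = |t| := mul_right_cancel₀ hx0.ne' h2
  have h4 : t = 1 / 2 := by
    rcases abs_eq_abs.1 h3 with h | h <;> linarith
  have h5 : (1 - t) * ⟪x, a⟫ = -(t * ‖x‖) := by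
    have := congrArg (fun y => ⟪y, a⟫) h1
    simp only [real_inner_smul_left, real_inner_self_eq_norm_sq, ha] at this
    linarith
  rw [h4] at h5
  have h6 : 0 < ‖x‖ + ⟪x, a⟫ := hx
  linarith

theorem ww_zero (a x : E3) : ww a 0 x = x := by simp [ww]

theorem GG_smooth {f : E3 → ℝ} (hf : Hom0 f) : ContDiffOn ℝ ∞ (GG f) {0}ᶜ := by
  unfold GG
  refine hf.1.mul (ContDiffOn.inv ?_ fun x hx => pow_ne_zero _ (norm_ne_zero_iff.2 hx))
  exact (contDiffOn_id.norm ℝ fun x hx => hx).pow 3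

theorem GG_hom {f : E3 → ℝ} (hf : Hom0 f) (x : E3) (s : ℝ) (hs : 0 < s) :
    GG f (s • x) = (s ^ 3)⁻¹ * GG f x := by
  unfold GG
  rw [hf.2 s x hs, norm_smul, Real.norm_eq_abs, abs_of_pos hs, mul_pow, mul_inv]
  ring

theorem ww_hom (a x : E3) (t : ℝ) {s : ℝ} (hs : 0 < s) : ww a t (s • x) = s • ww a t x := by
  unfold ww
  rw [norm_smul, Real.norm_eq_abs, abs_of_pos hs, smul_add, smul_smul, smul_smul, smul_smul]
  congr 2 <;> ring

theorem FF_hom {f : E3 → ℝ} (hf : Hom0 f) (a x : E3) (s : ℝ) (hs : 0 < s) :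
    FF f a (s • x) = (s ^ 2)⁻¹ * FF f a x := by
  unfold FF
  rw [← intervalIntegral.integral_const_mul]
  refine intervalIntegral.integral_congr fun t _ => ?_
  simp only [HH]
  rw [ww_hom a x t hs, GG_hom hf _ s hs, norm_smul, Real.norm_eq_abs, abs_of_pos hs]
  field_simp

theorem HH_smooth {f : E3 → ℝ} (hf : Hom0 f) {a : E3} (ha : ‖a‖ = 1) :
    ContDiffOn ℝ ∞ (HH f a) (univ ×ˢ VV a) := by
  have hn : ContDiffOn ℝ ∞ (fun p : ℝ × E3 => ‖p.2‖) (univ ×ˢ VV a) :=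
    contDiffOn_snd.norm ℝ fun p hp => VV_ne hp.2
  have h1 : ContDiffOn ℝ ∞ (fun p : ℝ × E3 => 1 - p.1) (univ ×ˢ VV a) :=
    contDiffOn_const.sub contDiffOn_fst
  have hw : ContDiffOn ℝ ∞ (fun p : ℝ × E3 => ww a p.1 p.2) (univ ×ˢ VV a) := by
    unfold ww
    exact (h1.smul contDiffOn_snd).add ((contDiffOn_fst.mul hn).smul contDiffOn_const)
  exact (hn.mul h1).mul ((GG_smooth hf).comp hw fun p hp => ww_ne ha hp.2 _)

theorem isOpen_UV (a : E3) : IsOpen ((univ : Set ℝ) ×ˢ VV a) := isOpen_univ.prod (VV_open a)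

theorem FF_smooth {f : E3 → ℝ} (hf : Hom0 f) {a : E3} (ha : ‖a‖ = 1) :
    ContDiffOn ℝ ∞ (FF f a) (VV a) :=
  pint_smooth zero_lt_one (VV_open a) ((HH_smooth hf ha).mono (prod_mono_left (subset_univ _)))

theorem norm_line {x a : E3} (hx : x ≠ 0) :
    HasDerivAt (fun τ : ℝ => ‖x + τ • a‖) (⟪x, a⟫ / ‖x‖) 0 := by
  have h1 : HasDerivAt (fun τ : ℝ => x + τ • a) a 0 := by
    simpa using ((hasDerivAt_id (0 : ℝ)).smul_const a).const_add x
  have h2 := h1.norm_sq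
  have h3 : ‖x + (0 : ℝ) • a‖ ^ 2 ≠ 0 := by
    simpa using hx
  have h4 := h2.sqrt h3
  have h5 : (fun τ : ℝ => ‖x + τ • a‖) = fun τ : ℝ => √(‖x + τ • a‖ ^ 2) := by
    funext τ; rw [Real.sqrt_sq (norm_nonneg _)]
  rw [h5]
  convert h4 using 1
  rw [zero_smul, add_zero, Real.sqrt_sq (norm_nonneg _)]
  field_simp

/-- the key computation: `∂_a` of the integrand is a `t`-derivative. -/
theorem key {f : E3 → ℝ} (hf : Hom0 f) {a : E3} (ha : ‖a‖ = 1) {x : E3} (hx : x ∈ VV a) (t : ℝ) :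
    HasDerivAt (fun s : ℝ => (1 - s) ^ 2 * (1 - s + s * (⟪x, a⟫ / ‖x‖)) * GG f (ww a s x))
      (((fderiv ℝ (HH f a) (t, x)).comp (ContinuousLinearMap.inr ℝ ℝ E3)) a) t := by
  set c : ℝ := ⟪x, a⟫ / ‖x‖ with hc
  set w : E3 := ww a t x with hw
  have hw0 : w ≠ 0 := ww_ne ha hx t
  have hGd : DifferentiableAt ℝ (GG f) w :=
    ((GG_smooth hf).contDiffAt (isOpen_compl_singleton.mem_nhds hw0)).differentiableAt (by simp)
  set D := fderiv ℝ (GG f) w with hD
  have hDf : HasFDerivAt (GG f) D w := hGd.hasFDerivAt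
  have hE : D w = -(3 * GG f w) := by
    have := euler 3 hGd (fun s hs => GG_hom hf w s hs)
    simpa using this
  -- derivative in `s`
  have w1 : HasDerivAt (fun s : ℝ => ww a s x) (‖x‖ • a - x) t := by
    have e1 : HasDerivAt (fun s : ℝ => (1 - s) • x) ((-1 : ℝ) • x) t :=
      ((hasDerivAt_id t).const_sub 1).smul_const x
    have e2 : HasDerivAt (fun s : ℝ => (s * ‖x‖) • a) ((1 * ‖x‖) • a) t :=
      ((hasDerivAt_id t).mul_const ‖x‖).smul_const a
    have e3 := e1.add e2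
    have e4 : (-1 : ℝ) • x + (1 * ‖x‖) • a = ‖x‖ • a - x := by
      rw [one_mul]; module
    rw [e4] at e3
    exact e3
  have hDf1 : HasFDerivAt (GG f) D ((fun s : ℝ => ww a s x) t) := hDf
  have g0 := hDf1.comp_hasDerivAt t w1
  have g1 : HasDerivAt (fun s : ℝ => GG f (ww a s x)) (D (‖x‖ • a - x)) t := g0
  have p1 : HasDerivAt (fun s : ℝ => (1 - s) ^ 2 * (1 - s + s * c))
      (-(2 * (1 - t)) * (1 - t + t * c) + (1 - t) ^ 2 * (-1 + c)) t := by
    have e1 : HasDerivAt (fun s : ℝ => 1 - s) (-1) t := (hasDerivAt_id t).const_sub 1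
    have e2 := e1.pow 2
    have e3 : HasDerivAt (fun s : ℝ => 1 - s + s * c) (-1 + 1 * c) t :=
      e1.add ((hasDerivAt_id t).mul_const c)
    have e4 := e2.mul e3
    have e5 : ((2 : ℕ) : ℝ) * (1 - t) ^ (2 - 1) * (-1) * (1 - t + t * c) +
        (1 - t) ^ 2 * (-1 + 1 * c) =
        -(2 * (1 - t)) * (1 - t + t * c) + (1 - t) ^ 2 * (-1 + c) := by
      norm_num
    rw [← e5]
    exact e4
  have P := p1.mul g1
  -- derivative in direction `a`
  have hn := norm_line (a := a) (VV_ne hx)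
  have w2 : HasDerivAt (fun τ : ℝ => ww a t (x + τ • a)) ((1 - t + t * c) • a) 0 := by
    have e0 : HasDerivAt (fun τ : ℝ => x + τ • a) a 0 := by
      simpa using ((hasDerivAt_id (0 : ℝ)).smul_const a).const_add x
    have e1 := e0.const_smul (1 - t)
    have e2 := (hn.const_mul t).smul_const a
    have e3 := e1.add e2
    have e4 : (1 - t) • a + (t * (⟪x, a⟫ / ‖x‖)) • a = (1 - t + t * c) • a := by
      rw [← add_smul]
    rw [e4] at e3
    exact e3
  have hDf0 : HasFDerivAt (GG f) D ((fun τ : ℝ => ww a t (x + τ • a)) 0) := by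
    change HasFDerivAt (GG f) D (ww a t (x + (0 : ℝ) • a))
    rw [zero_smul, add_zero]; exact hDf
  have g3 := hDf0.comp_hasDerivAt (0 : ℝ) w2
  have g2 : HasDerivAt (fun τ : ℝ => GG f (ww a t (x + τ • a))) (D ((1 - t + t * c) • a)) 0 := g3
  have Q := (hn.mul_const (1 - t)).mul g2
  have Q' := pint_line (VV_open a) (HH_smooth hf ha) t hx a
  have e6 : ((fderiv ℝ (HH f a) (t, x)).comp (ContinuousLinearMap.inr ℝ ℝ E3)) a =
      c * (1 - t) * GG f w + ‖x‖ * (1 - t) * D ((1 - t + t * c) • a) := by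
    have e7 := Q'.unique Q
    rw [e7]
    simp only [zero_smul, add_zero]
    rfl
  rw [e6]
  have e13 : c * (1 - t) * GG f w + ‖x‖ * (1 - t) * D ((1 - t + t * c) • a) =
      (-(2 * (1 - t)) * (1 - t + t * c) + (1 - t) ^ 2 * (-1 + c)) * GG f (ww a t x) +
        (1 - t) ^ 2 * (1 - t + t * c) * D (‖x‖ • a - x) := ?_
  · rw [e13]; exact P
  -- algebra
  have e9 : (1 - t) * D (‖x‖ • a - x) = ‖x‖ * D a + 3 * GG f w := by
    have e10 : (1 - t) • (‖x‖ • a - x) = ‖x‖ • a - w := by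
      rw [hw]; unfold ww; module
    have e11 : D ((1 - t) • (‖x‖ • a - x)) = D (‖x‖ • a - w) := by rw [e10]
    have e12 : D (‖x‖ • a - w) = ‖x‖ * D a - D w := by
      rw [map_sub, map_smul, smul_eq_mul]
    have e13 : D ((1 - t) • (‖x‖ • a - x)) = (1 - t) * D (‖x‖ • a - x) := by
      rw [map_smul, smul_eq_mul]
    rw [e12, hE] at e11
    rw [← e13, e11]
    ring
  rw [map_smul, smul_eq_mul]
  have e12 : (1 - t) ^ 2 * (1 - t + t * c) * D (‖x‖ • a - x) =
      (1 - t) * (1 - t + t * c) * (‖x‖ * D a + 3 * GG f w) := by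
    rw [← e9]; ring
  rw [e12, ← hw]
  ring

theorem FF_deriv_a {f : E3 → ℝ} (hf : Hom0 f) {a : E3} (ha : ‖a‖ = 1) {x : E3} (hx : x ∈ VV a) :
    fderiv ℝ (FF f a) x a = -GG f x := by
  have h := pint_ftc (VV_open a) (HH_smooth hf ha) hx a (fun t => key hf ha hx t)
  have h2 : FF f a = fun q => ∫ r in (0 : ℝ)..1, HH f a (r, q) := rfl
  rw [h2, h, ww_zero]
  norm_num

/-! ### the potential -/

/-- `x ↦ ⟪x, a × ·⟫`. -/
def etaL (a : E3) : E3 →L[ℝ] (E3 →L[ℝ] ℝ) :=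
  LinearMap.toContinuousLinearMap
    { toFun := fun x => (innerSL ℝ x).comp (crL a)
      map_add' := fun x y => by
        ext v
        simp
      map_smul' := fun c x => by
        ext v
        simp }

theorem etaL_apply (a x v : E3) : etaL a x v = ⟪x, cr a v⟫ := rfl

/-- the monopole potential. -/
def gam (f : E3 → ℝ) (a x : E3) : E3 →L[ℝ] ℝ := -(FF f a x • etaL a x)

theorem gam_apply (f : E3 → ℝ) (a x v : E3) : gam f a x v = -(FF f a x * ⟪x, cr a v⟫) := rfl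

theorem gam_smooth {f : E3 → ℝ} (hf : Hom0 f) {a : E3} (ha : ‖a‖ = 1) :
    ContDiffOn ℝ ∞ (gam f a) (VV a) :=
  ((FF_smooth hf ha).smul (etaL a).contDiff.contDiffOn).neg

theorem gam_self (f : E3 → ℝ) (a x : E3) : gam f a x x = 0 := by
  rw [gam_apply, inner_cr_self, mul_zero, neg_zero]

theorem gam_hom {f : E3 → ℝ} (hf : Hom0 f) (a x : E3) (t : ℝ) (ht : 0 < t) :
    gam f a (t • x) = t⁻¹ • gam f a x := by
  ext v
  rw [_root_.smul_apply, gam_apply, gam_apply, FF_hom hf a x t ht,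
    real_inner_smul_left, smul_eq_mul]
  field_simp

theorem gam_d1 {f : E3 → ℝ} (hf : Hom0 f) {a : E3} (ha : ‖a‖ = 1) {x : E3} (hx : x ∈ VV a)
    (u v : E3) : d1 (gam f a) x u v = GG f x * ⟪x, cr u v⟫ := by
  have hFd : DifferentiableAt ℝ (FF f a) x :=
    ((FF_smooth hf ha).contDiffAt ((VV_open a).mem_nhds hx)).differentiableAt (by simp)
  have h1 : HasFDerivAt (gam f a) (-(FF f a x • etaL a +
      (fderiv ℝ (FF f a) x).smulRight (etaL a x))) x :=
    (hFd.hasFDerivAt.smul (etaL a).hasFDerivAt).neg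
  have h2 : fderiv ℝ (FF f a) x x = -(2 * FF f a x) := by
    have := euler 2 hFd (fun s hs => FF_hom hf a x s hs)
    simpa using this
  have h3 := FF_deriv_a hf ha hx
  have h4 := four (fderiv ℝ (FF f a) x) x a u v
  rw [h2, h3] at h4
  have h5 := cr_anti a u v
  rw [d1_apply, h1.fderiv]
  simp only [_root_.neg_apply, _root_.add_apply,
    _root_.smul_apply, ContinuousLinearMap.smulRight_apply, etaL_apply, smul_eq_mul]
  linear_combination (-1 : ℝ) * h4 - FF f a x * h5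

end

end Crest.Agent.R235.K12S2_423
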