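import Crest.Agent.R235.K12S2B_423

/-!
Row 235 (S0364), package KUM, block K12, leaf S2PRIM (task 315, helper423), part C:
gluing of the two monopole potentials.
-/

set_option autoImplicit false
set_option maxSynthPendingDepth 3

open Set MeasureTheory Filter
open scoped ContDiff Topology RealInnerProductSpace

namespace Crest.Agent.R235.K12S2_423

open Crest.Agent.R235 Crest.Agent.R240.Ch Crest.Agent.R235.K12_417

noncomputable section

/-! ### the axis -/

theorem norm_ee (i : Fin 3) : ‖ee i‖ = 1 := by simp [ee]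

theorem norm_nee (i : Fin 3) : ‖-ee i‖ = 1 := by rw [norm_neg, norm_ee]

theorem normsq3 (x : E3) : ‖x‖ ^ 2 = x 0 ^ 2 + x 1 ^ 2 + x 2 ^ 2 := by
  rw [← real_inner_self_eq_norm_sq, inner3]; ring

theorem inner_ee2 (x : E3) : ⟪x, ee 2⟫ = x 2 := by
  rw [inner3]; simp [ee]

/-- projection to the plane. -/
def prC : E3 →L[ℝ] ℂ :=
  LinearMap.toContinuousLinearMap
    { toFun := fun x => (⟨x 0, x 1⟩ : ℂ)
      map_add' := fun x y => by apply Complex.ext <;> simp
      map_smul' := fun c x => by apply Complex.ext <;> simp }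

theorem prC_re (x : E3) : (prC x).re = x 0 := rfl
theorem prC_im (x : E3) : (prC x).im = x 1 := rfl

/-- the plane in space. -/
def inC : ℂ →L[ℝ] E3 :=
  LinearMap.toContinuousLinearMap
    { toFun := fun z => !₂[z.re, z.im, 0]
      map_add' := fun x y => by ext i; fin_cases i <;> simp
      map_smul' := fun c x => by ext i; fin_cases i <;> simp }

theorem inC_prC (x : E3) : inC (prC x) = x + (-(x 2)) • ee 2 := by
  ext i
  fin_cases i <;> simp [inC, prC, ee]

theorem prC_inC (z : ℂ) : prC (inC z) = z := by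
  apply Complex.ext
  · rw [prC_re]; rfl
  · rw [prC_im]; rfl

theorem prC_add (x : E3) (τ : ℝ) : prC (x + τ • ee 2) = prC x := by
  apply Complex.ext
  · rw [prC_re, prC_re]; simp [ee]
  · rw [prC_im, prC_im]; simp [ee]

theorem off_pos {x : E3} (hx : prC x ≠ 0) : 0 < x 0 ^ 2 + x 1 ^ 2 := by
  by_contra h
  push Not at h
  apply hx
  have h0 : x 0 = 0 := by nlinarith [sq_nonneg (x 0), sq_nonneg (x 1)]
  have h1 : x 1 = 0 := by nlinarith [sq_nonneg (x 0), sq_nonneg (x 1)]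
  apply Complex.ext
  · rw [prC_re, h0]; rfl
  · rw [prC_im, h1]; rfl

theorem off_lt {x : E3} (hx : prC x ≠ 0) : |x 2| < ‖x‖ := by
  have h1 := off_pos hx
  have h2 := normsq3 x
  refine abs_lt_of_sq_lt_sq ?_ (norm_nonneg _)
  linarith

theorem off_V {x : E3} (hx : prC x ≠ 0) : x ∈ VV (ee 2) := by
  have h1 := off_lt hx
  have h2 := (abs_lt.1 h1).1
  change 0 < ‖x‖ + ⟪x, ee 2⟫
  rw [inner_ee2]; linarith

theorem off_V' {x : E3} (hx : prC x ≠ 0) : x ∈ VV (-ee 2) := by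
  have h1 := off_lt hx
  have h2 := (abs_lt.1 h1).2
  change 0 < ‖x‖ + ⟪x, -ee 2⟫
  rw [inner_neg_right, inner_ee2]; linarith

theorem off_open : IsOpen {x : E3 | prC x ≠ 0} :=
  isOpen_ne_fun prC.continuous continuous_const

/-! ### the angular function -/

/-- the sum of the two radial integrals. -/
def LL (f : E3 → ℝ) (x : E3) : ℝ := FF f (ee 2) x + FF f (-ee 2) x

theorem LL_hom {f : E3 → ℝ} (hf : Hom0 f) (x : E3) (s : ℝ) (hs : 0 < s) :
    LL f (s • x) = (s ^ 2)⁻¹ * LL f x := by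
  unfold LL
  rw [FF_hom hf _ _ _ hs, FF_hom hf _ _ _ hs]; ring

theorem LL_smooth {f : E3 → ℝ} (hf : Hom0 f) : ContDiffOn ℝ ∞ (LL f) {x : E3 | prC x ≠ 0} :=
  ((FF_smooth hf (norm_ee 2)).mono fun _ hx => off_V hx).add
    ((FF_smooth hf (norm_nee 2)).mono fun _ hx => off_V' hx)

theorem LL_line {f : E3 → ℝ} (hf : Hom0 f) {x : E3} (hx : prC x ≠ 0) (τ : ℝ) :
    LL f (x + τ • ee 2) = LL f x := by
  have key : ∀ s : ℝ, HasDerivAt (fun τ : ℝ => LL f (x + τ • ee 2)) 0 s := by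
    intro s
    set y : E3 := x + s • ee 2 with hy
    have hy0 : prC y ≠ 0 := by rw [hy, prC_add]; exact hx
    have d1 : HasFDerivAt (FF f (ee 2)) (fderiv ℝ (FF f (ee 2)) y)
        ((fun τ : ℝ => x + τ • ee 2) s) :=
      (((FF_smooth hf (norm_ee 2)).contDiffAt
        ((VV_open _).mem_nhds (off_V hy0))).differentiableAt (by simp)).hasFDerivAt
    have d2 : HasFDerivAt (FF f (-ee 2)) (fderiv ℝ (FF f (-ee 2)) y)
        ((fun τ : ℝ => x + τ • ee 2) s) :=
      (((FF_smooth hf (norm_nee 2)).contDiffAt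
        ((VV_open _).mem_nhds (off_V' hy0))).differentiableAt (by simp)).hasFDerivAt
    have e0 : HasDerivAt (fun τ : ℝ => x + τ • ee 2) (ee 2) s := by
      simpa using ((hasDerivAt_id s).smul_const (ee 2)).const_add x
    have c1 := d1.comp_hasDerivAt s e0
    have c2 := d2.comp_hasDerivAt s e0
    have c3 := c1.add c2
    have h1 := FF_deriv_a hf (norm_ee 2) (off_V hy0)
    have h2 := FF_deriv_a hf (norm_nee 2) (off_V' hy0)
    rw [map_neg] at h2
    have h3 : fderiv ℝ (FF f (-ee 2)) y (ee 2) = GG f y := by linarith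
    rw [h1, h3, neg_add_cancel] at c3
    exact c3
  have h := is_const_of_deriv_eq_zero (f := fun τ : ℝ => LL f (x + τ • ee 2))
    (fun s => (key s).differentiableAt) (fun s => (key s).deriv) τ 0
  simpa using h

theorem LL_eq {f : E3 → ℝ} (hf : Hom0 f) {x : E3} (hx : prC x ≠ 0) :
    LL f (inC (prC x)) = LL f x := by
  rw [inC_prC, LL_line hf hx]

/-- the density of the angular form. -/
def lam (f : E3 → ℝ) (z : ℂ) : ℝ := ‖z‖ ^ 2 * LL f (inC z)

theorem lam_Hc {f : E3 → ℝ} (hf : Hom0 f) : Hc (lam f) where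
  smooth := by
    refine (contDiff_norm_sq ℝ).contDiffOn.mul ?_
    refine (LL_smooth hf).comp inC.contDiff.contDiffOn fun z hz => ?_
    change prC (inC z) ≠ 0
    rw [prC_inC]; exact hz
  hom := fun t z ht => by
    unfold lam
    rw [map_smul, LL_hom hf _ _ ht, norm_smul, Real.norm_eq_abs, abs_of_pos ht]
    field_simp

/-- the primitive of the angular form. -/
def Hh (f : E3 → ℝ) (x : E3) : ℝ := pr2 (lam f) (prC x)

theorem Hh_smooth {f : E3 → ℝ} (hf : Hom0 f) : ContDiffOn ℝ ∞ (Hh f) {x : E3 | prC x ≠ 0} :=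
  (pr2_smooth (lam_Hc hf)).comp prC.contDiff.contDiffOn fun _ hx => hx

theorem Hh_hom {f : E3 → ℝ} (hf : Hom0 f) (x : E3) (t : ℝ) (ht : 0 < t) :
    Hh f (t • x) = Hh f x := by
  unfold Hh
  rw [map_smul, pr2_hom (lam_Hc hf) t _ ht]

theorem Hh_fderiv {f : E3 → ℝ} (hf : Hom0 f) (h0 : mean2 (lam f) = 0) {x : E3}
    (hx : prC x ≠ 0) : fderiv ℝ (Hh f) x = gam f (ee 2) x - gam f (-ee 2) x := by
  have hd : DifferentiableAt ℝ (pr2 (lam f)) (prC x) :=
    ((pr2_smooth (lam_Hc hf)).contDiffAt (isOpen_compl_singleton.mem_nhds hx)).differentiableAt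
      (by simp)
  have h1 : HasFDerivAt (Hh f) ((fderiv ℝ (pr2 (lam f)) (prC x)).comp prC) x :=
    hd.hasFDerivAt.comp x prC.hasFDerivAt
  rw [h1.fderiv]
  ext v
  have h2 : ((fderiv ℝ (pr2 (lam f)) (prC x)).comp prC) v =
      fderiv ℝ (pr2 (lam f)) (prC x) (prC v) := rfl
  have h3 : (gam f (ee 2) x - gam f (-ee 2) x) v = gam f (ee 2) x v - gam f (-ee 2) x v := rfl
  have hp := off_pos hx
  have h4 : ‖prC x‖ ^ 2 = x 0 ^ 2 + x 1 ^ 2 := by
    rw [← Complex.normSq_eq_norm_sq, Complex.normSq_apply, prC_re, prC_im]; ring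
  rw [h2, h3, pr2_fderiv (lam_Hc hf) h0 hx, gam_apply, gam_apply, lam, LL_eq hf hx, h4,
    prC_re, prC_im, prC_re, prC_im, LL]
  simp only [inner3, cr0, cr1, cr2]
  simp only [ee, PiLp.neg_apply, PiLp.single_apply]
  simp
  field_simp
  ring

/-! ### the cut-off -/

/-- the cut-off function. -/
def chi (x : E3) : ℝ := Real.smoothTransition (1 / 2 - x 2 / ‖x‖)

theorem chi_smooth : ContDiffOn ℝ ∞ chi {0}ᶜ := by
  refine Real.smoothTransition.contDiff.comp_contDiffOn ?_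
  refine contDiffOn_const.sub (ContDiffOn.div ?_ (contDiffOn_id.norm ℝ fun x hx => hx)
    fun x hx => norm_ne_zero_iff.2 hx)
  exact (contDiff_apply_apply_e2).contDiffOn
  where contDiff_apply_apply_e2 : ContDiff ℝ ∞ (fun x : E3 => x 2) := by fun_prop

theorem chi_hom (x : E3) (t : ℝ) (ht : 0 < t) : chi (t • x) = chi x := by
  unfold chi
  congr 2
  rw [norm_smul, Real.norm_eq_abs, abs_of_pos ht]
  change t * x 2 / (t * ‖x‖) = x 2 / ‖x‖
  rw [mul_div_mul_left _ _ ht.ne']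

theorem chi_zero {x : E3} (hx : ‖x‖ / 2 < x 2) : chi x = 0 := by
  refine Real.smoothTransition.zero_of_nonpos ?_
  have h0 : 0 < ‖x‖ := by
    rcases (norm_nonneg x).lt_or_eq with h | h
    · exact h
    · rw [← h] at hx
      have h1 := normsq3 x
      rw [← h] at h1
      nlinarith [sq_nonneg (x 0), sq_nonneg (x 1)]
  have h2 : 1 / 2 ≤ x 2 / ‖x‖ := by
    rw [le_div_iff₀ h0]; linarith
  linarith

theorem chi_one {x : E3} (hx : x 2 < -(‖x‖ / 2)) : chi x = 1 := by
  refine Real.smoothTransition.one_of_one_le ?_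
  have h0 : 0 < ‖x‖ := by
    rcases (norm_nonneg x).lt_or_eq with h | h
    · exact h
    · rw [← h] at hx
      have h1 := normsq3 x
      rw [← h] at h1
      nlinarith [sq_nonneg (x 0), sq_nonneg (x 1)]
  have h2 : x 2 / ‖x‖ ≤ -(1 / 2) := by
    rw [div_le_iff₀ h0]; linarith
  linarith

theorem open_up : IsOpen {x : E3 | ‖x‖ / 2 < x 2} := isOpen_lt (by fun_prop) (by fun_prop)
theorem open_dn : IsOpen {x : E3 | x 2 < -(‖x‖ / 2)} := isOpen_lt (by fun_prop) (by fun_prop)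

theorem dchi_up {x : E3} (hx : ‖x‖ / 2 < x 2) : fderiv ℝ chi x = 0 := by
  have h : chi =ᶠ[𝓝 x] fun _ => (0 : ℝ) := by
    filter_upwards [open_up.mem_nhds hx] with y hy using chi_zero hy
  rw [h.fderiv_eq]; simp

theorem dchi_dn {x : E3} (hx : x 2 < -(‖x‖ / 2)) : fderiv ℝ chi x = 0 := by
  have h : chi =ᶠ[𝓝 x] fun _ => (1 : ℝ) := by
    filter_upwards [open_dn.mem_nhds hx] with y hy using chi_one hy
  rw [h.fderiv_eq]; simp

theorem mid_off {x : E3} (hx : x ≠ 0) (h1 : ¬ ‖x‖ / 2 < x 2) (h2 : ¬ x 2 < -(‖x‖ / 2)) :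
    prC x ≠ 0 := by
  intro h
  have e0 : x 0 = 0 := by rw [← prC_re, h]; rfl
  have e1 : x 1 = 0 := by rw [← prC_im, h]; rfl
  have e2 := normsq3 x
  rw [e0, e1] at e2
  have h0 : 0 < ‖x‖ := norm_pos_iff.2 hx
  push Not at h1 h2
  nlinarith

/-! ### the glued potential -/

/-- the primitive. -/
def Gam (f : E3 → ℝ) (x : E3) : E3 →L[ℝ] ℝ :=
  (1 - chi x) • gam f (ee 2) x + chi x • gam f (-ee 2) x - Hh f x • fderiv ℝ chi x

theorem Gam_up (f : E3 → ℝ) {x : E3} (hx : ‖x‖ / 2 < x 2) : Gam f x = gam f (ee 2) x := by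
  unfold Gam
  rw [chi_zero hx, dchi_up hx, sub_zero, one_smul, zero_smul, smul_zero, add_zero, sub_zero]

theorem Gam_dn (f : E3 → ℝ) {x : E3} (hx : x 2 < -(‖x‖ / 2)) : Gam f x = gam f (-ee 2) x := by
  unfold Gam
  rw [chi_one hx, dchi_dn hx, sub_self, one_smul, zero_smul, smul_zero, zero_add, sub_zero]

theorem up_V {x : E3} (hx : ‖x‖ / 2 < x 2) : x ∈ VV (ee 2) := by
  change 0 < ‖x‖ + ⟪x, ee 2⟫
  rw [inner_ee2]
  have := norm_nonneg x
  by_cases h : ‖x‖ = 0
  · rw [h] at hx ⊢; linarith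
  · have : 0 < ‖x‖ := lt_of_le_of_ne this (Ne.symm h)
    linarith

theorem dn_V {x : E3} (hx : x 2 < -(‖x‖ / 2)) : x ∈ VV (-ee 2) := by
  change 0 < ‖x‖ + ⟪x, -ee 2⟫
  rw [inner_neg_right, inner_ee2]
  have := norm_nonneg x
  linarith

theorem Gam_smooth {f : E3 → ℝ} (hf : Hom0 f) : ContDiffOn ℝ ∞ (Gam f) {0}ᶜ := by
  intro x hx
  refine ContDiffAt.contDiffWithinAt ?_
  by_cases h1 : ‖x‖ / 2 < x 2
  · have h : Gam f =ᶠ[𝓝 x] gam f (ee 2) := by
      filter_upwards [open_up.mem_nhds h1] with y hy using Gam_up f hy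
    exact ((gam_smooth hf (norm_ee 2)).contDiffAt
      ((VV_open _).mem_nhds (up_V h1))).congr_of_eventuallyEq h
  by_cases h2 : x 2 < -(‖x‖ / 2)
  · have h : Gam f =ᶠ[𝓝 x] gam f (-ee 2) := by
      filter_upwards [open_dn.mem_nhds h2] with y hy using Gam_dn f hy
    exact ((gam_smooth hf (norm_nee 2)).contDiffAt
      ((VV_open _).mem_nhds (dn_V h2))).congr_of_eventuallyEq h
  have h3 := mid_off hx h1 h2
  have a1 := (gam_smooth hf (norm_ee 2)).contDiffAt ((VV_open _).mem_nhds (off_V h3))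
  have a2 := (gam_smooth hf (norm_nee 2)).contDiffAt ((VV_open _).mem_nhds (off_V' h3))
  have a3 := (Hh_smooth hf).contDiffAt (off_open.mem_nhds h3)
  have a4 : ContDiffAt ℝ ∞ chi x := chi_smooth.contDiffAt (isOpen_compl_singleton.mem_nhds hx)
  have a5 : ContDiffAt ℝ ∞ (fderiv ℝ chi) x := a4.fderiv_right (m := ∞) (by simp)
  unfold Gam
  exact (((contDiffAt_const.sub a4).smul a1).add (a4.smul a2)).sub (a3.smul a5)

theorem d1_congr {g h : E3 → E3 →L[ℝ] ℝ} {x : E3} (e : g =ᶠ[𝓝 x] h) : d1 g x = d1 h x := by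
  unfold d1; rw [e.fderiv_eq]

theorem Gam_d1 {f : E3 → ℝ} (hf : Hom0 f) (h0 : mean2 (lam f) = 0) {x : E3} (hx : x ≠ 0)
    (u v : E3) : d1 (Gam f) x u v = GG f x * ⟪x, cr u v⟫ := by
  by_cases h1 : ‖x‖ / 2 < x 2
  · have h : Gam f =ᶠ[𝓝 x] gam f (ee 2) := by
      filter_upwards [open_up.mem_nhds h1] with y hy using Gam_up f hy
    rw [d1_congr h, gam_d1 hf (norm_ee 2) (up_V h1)]
  by_cases h2 : x 2 < -(‖x‖ / 2)
  · have h : Gam f =ᶠ[𝓝 x] gam f (-ee 2) := by
      filter_upwards [open_dn.mem_nhds h2] with y hy using Gam_dn f hy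
    rw [d1_congr h, gam_d1 hf (norm_nee 2) (dn_V h2)]
  have h3 := mid_off hx h1 h2
  have a3 := (Hh_smooth hf).contDiffAt (off_open.mem_nhds h3)
  have a4 : ContDiffAt ℝ ∞ chi x := chi_smooth.contDiffAt (isOpen_compl_singleton.mem_nhds hx)
  set K : E3 → ℝ := fun y => chi y * Hh f y with hK
  have hKs : ContDiffAt ℝ ∞ K x := a4.mul a3
  have h : Gam f =ᶠ[𝓝 x] fun y => gam f (ee 2) y - fderiv ℝ K y := by
    filter_upwards [off_open.mem_nhds h3, isOpen_compl_singleton.mem_nhds hx] with y hy hy0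
    have b3 := ((Hh_smooth hf).contDiffAt (off_open.mem_nhds hy)).differentiableAt
      (by simp : (∞ : WithTop ℕ∞) ≠ 0)
    have b4 : DifferentiableAt ℝ chi y :=
      (chi_smooth.contDiffAt (isOpen_compl_singleton.mem_nhds hy0)).differentiableAt (by simp)
    have b5 : fderiv ℝ K y = chi y • fderiv ℝ (Hh f) y + Hh f y • fderiv ℝ chi y :=
      fderiv_fun_mul b4 b3
    rw [b5, Hh_fderiv hf h0 hy]
    unfold Gam
    module
  have hg : DifferentiableAt ℝ (gam f (ee 2)) x :=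
    ((gam_smooth hf (norm_ee 2)).contDiffAt
      ((VV_open _).mem_nhds (off_V h3))).differentiableAt (by simp)
  have hK1 : DifferentiableAt ℝ (fderiv ℝ K) x :=
    (hKs.fderiv_right (m := ∞) (by simp)).differentiableAt (by simp)
  have hsym : fderiv ℝ (fderiv ℝ K) x u v = fderiv ℝ (fderiv ℝ K) x v u :=
    (hKs.isSymmSndFDerivAt (by simp only [minSmoothness_of_isRCLikeNormedField]; exact WithTop.coe_le_coe.2 le_top)) u v
  rw [d1_congr h, d1_apply, fderiv_fun_sub hg hK1]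
  have e1 := gam_d1 hf (norm_ee 2) (off_V h3) u v
  rw [d1_apply] at e1
  simp only [_root_.sub_apply]
  linarith

theorem Gam_self (f : E3 → ℝ) (x : E3) : Gam f x x = 0 := by
  have h1 : fderiv ℝ chi x x = 0 := by
    by_cases hx : x = 0
    · rw [hx, map_zero]
    · have hd : DifferentiableAt ℝ chi x :=
        (chi_smooth.contDiffAt (isOpen_compl_singleton.mem_nhds hx)).differentiableAt (by simp)
      have := euler 0 hd (fun s hs => by rw [chi_hom x s hs]; simp)
      simpa using this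
  unfold Gam
  simp only [_root_.sub_apply, _root_.add_apply, _root_.smul_apply, gam_self, h1, smul_zero,
    add_zero, sub_zero]

theorem Gam_hom {f : E3 → ℝ} (hf : Hom0 f) (t : ℝ) (x : E3) (ht : 0 < t) :
    Gam f (t • x) = t⁻¹ • Gam f x := by
  have h1 : fderiv ℝ chi (t • x) = t⁻¹ • fderiv ℝ chi x := by
    have h2 : (fun y : E3 => chi (t • y)) = chi := funext fun y => chi_hom y t ht
    have h3 : fderiv ℝ (fun y : E3 => chi (t • y)) x = t • fderiv ℝ chi (t • x) :=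
      fderiv_comp_smul t
    rw [h2] at h3
    rw [h3, smul_smul, inv_mul_cancel₀ ht.ne', one_smul]
  unfold Gam
  rw [chi_hom x t ht, gam_hom hf _ _ _ ht, gam_hom hf _ _ _ ht, Hh_hom hf _ _ ht, h1]
  module

end

end Crest.Agent.R235.K12S2_423
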