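import Crest.Agent.R235.K12S1_776

/-!
Row 235 (S0364), block K12, analytic assembly (helper776): STEP II, the primitives `β k` of the
differences with the model forms, and the cut-off functions on `OS r`.
-/

set_option autoImplicit false
set_option maxSynthPendingDepth 3
set_option linter.unusedSectionVars false

open Set Function Filter MeasureTheory
open scoped Manifold ContDiff Topology RealInnerProductSpace

universe u

namespace Crest.Agent.R235.K12S2a_776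

open Crest.Agent.R240 Crest.Agent.R240.Ch Crest.Agent.R235 Crest.Agent.R235.K12_417
  Crest.Agent.R235.K12An_776 Crest.Agent.R235.K12Pos_776 Crest.Agent.R235.K12S1_776
  Crest.Agent.R235.K12Ext_168

noncomputable section

/-! ### linearity of `Bas` and `Bas1` -/

variable {r : ℝ}

theorem bas_add {W W' : E6 → B6} (h : Bas r W) (h' : Bas r W') :
    Bas r (fun z => W z + W' z) := by
  have hd : ∀ {V : E6 → B6}, Bas r V → ∀ z ∈ OS r, DifferentiableAt ℝ V z := fun hV z hz =>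
    (hV.smooth.contDiffAt ((isOpen_OS r).mem_nhds hz)).differentiableAt (by simp)
  refine ⟨h.smooth.add h'.smooth, ?_, ?_, ?_⟩
  · intro z hz U
    show W z U U + W' z U U = 0
    rw [h.alt z hz, h'.alt z hz, add_zero]
  · intro z hz U V Y
    rw [dd_add (hd h z hz) (hd h' z hz), h.closed z hz, h'.closed z hz, add_zero]
  · intro z hz U V
    show W z U V + W' z U V = W (Pi z) (fderiv ℝ Pi z U) (fderiv ℝ Pi z V) +
      W' (Pi z) (fderiv ℝ Pi z U) (fderiv ℝ Pi z V)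
    rw [h.bas z hz, h'.bas z hz]

theorem bas_smul {W : E6 → B6} (c : ℝ) (h : Bas r W) : Bas r (fun z => c • W z) := by
  have hd : ∀ {V : E6 → B6}, Bas r V → ∀ z ∈ OS r, DifferentiableAt ℝ V z := fun hV z hz =>
    (hV.smooth.contDiffAt ((isOpen_OS r).mem_nhds hz)).differentiableAt (by simp)
  refine ⟨h.smooth.const_smul c, ?_, ?_, ?_⟩
  · intro z hz U
    show c * W z U U = 0
    rw [h.alt z hz, mul_zero]
  · intro z hz U V Y
    rw [dd_const_smul c (hd h z hz), h.closed z hz, mul_zero]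
  · intro z hz U V
    show c * W z U V = c * W (Pi z) (fderiv ℝ Pi z U) (fderiv ℝ Pi z V)
    rw [h.bas z hz]

theorem bas_sub {W W' : E6 → B6} (h : Bas r W) (h' : Bas r W') :
    Bas r (fun z => W z - W' z) := by
  have h1 := bas_add h (bas_smul (-1) h')
  have h2 : (fun z => W z - W' z) = fun z => W z + (-1 : ℝ) • W' z := by
    funext z; rw [neg_one_smul, sub_eq_add_neg]
  rw [h2]; exact h1

theorem bas1_add {β β' : E6 → E6 →L[ℝ] ℝ} (h : Bas1 r β) (h' : Bas1 r β') :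
    Bas1 r (fun z => β z + β' z) := by
  refine ⟨h.smooth.add h'.smooth, ?_⟩
  intro z hz U
  show β z U + β' z U = β (Pi z) (fderiv ℝ Pi z U) + β' (Pi z) (fderiv ℝ Pi z U)
  rw [h.bas z hz, h'.bas z hz]

theorem bas1_diff {β : E6 → E6 →L[ℝ] ℝ} (h : Bas1 r β) {z : E6} (hz : z ∈ OS r) :
    ContDiffAt ℝ ∞ β z := h.smooth.contDiffAt ((isOpen_OS r).mem_nhds hz)

/-! ### the constant multiple of the area form -/

theorem FG_const (c t₀ : ℝ) (z : E6) : FG (fun _ => c) c 0 t₀ z = c • PB2 ar z := by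
  unfold FG
  have h1 : (fun y : E6 => (- kf (fun _ => c) c 0 t₀ (rho y)) • PB1 l3 y) = fun _ => 0 := by
    funext y
    have : kf (fun _ => c) c 0 t₀ (rho y) = 0 := by
      unfold kf; split_ifs <;> simp
    rw [this, neg_zero, zero_smul]
  rw [h1]
  have h2 : d1 (fun _ : E6 => (0 : E6 →L[ℝ] ℝ)) z = 0 := by
    unfold d1; simp
  rw [h2, zero_add]

theorem prof_const (c : ℝ) {t₀ : ℝ} (h : 0 < t₀) : Prof (fun _ => c) c 0 t₀ :=
  ⟨contDiff_const, h, fun t _ => by simp⟩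

theorem Pi_zero' {q : E3} (hq : ‖q‖ = 1) : Pi ((q, 0) : E6) = (q, 0) := by
  unfold Pi; simp [hq]

theorem PB2_ar_zero (hG : GEO) {q u v : E3} (hq : ‖q‖ = 1) (hu : ⟪q, u⟫ = 0) (hv : ⟪q, v⟫ = 0) :
    PB2 ar (q, 0) (u, 0) (v, 0) = ⟪q, cr u v⟫ := by
  rw [PB2, PB_604.pl_apply, hG.fixh q u hq hu, hG.fixh q v hq hv, Pi_zero' hq]
  rw [K12Radf_843.inn]
  simp [ar, wd, dq, cr]

theorem FGc_zero (hG : GEO) (c t₀ : ℝ) {q u v : E3} (hq : ‖q‖ = 1) (hu : ⟪q, u⟫ = 0)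
    (hv : ⟪q, v⟫ = 0) : FG (fun _ => c) c 0 t₀ (q, 0) (u, 0) (v, 0) = c * ⟪q, cr u v⟫ := by
  rw [FG_const]
  show c * PB2 ar (q, 0) (u, 0) (v, 0) = _
  rw [PB2_ar_zero hG hq hu hv]

/-! ### the pulled-back potential on the base -/

/-- the one-form `γ` read on `E6`. -/
def Gam (γ : E3 → E3 →L[ℝ] ℝ) (z : E6) : E6 →L[ℝ] ℝ :=
  (γ z.1).comp (ContinuousLinearMap.fst ℝ E3 E3)

theorem Gam_smooth {γ : E3 → E3 →L[ℝ] ℝ} (hγ : ContDiffOn ℝ ∞ γ {0}ᶜ) {z : E6} (hz : z.1 ≠ 0) :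
    ContDiffAt ℝ ∞ (Gam γ) z := by
  have h1 : ContDiffAt ℝ ∞ γ z.1 := hγ.contDiffAt (isOpen_compl_singleton.mem_nhds hz)
  exact (h1.comp z contDiffAt_fst).clm_comp contDiffAt_const

theorem d1_Gam {γ : E3 → E3 →L[ℝ] ℝ} (hγ : ContDiffOn ℝ ∞ γ {0}ᶜ) {z : E6} (hz : z.1 ≠ 0)
    (U V : E6) : d1 (Gam γ) z U V = d1 γ z.1 U.1 V.1 := by
  have h1 : DifferentiableAt ℝ γ z.1 :=
    (hγ.contDiffAt (isOpen_compl_singleton.mem_nhds hz)).differentiableAt (by simp)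
  have h2 : ∀ U V : E6, fderiv ℝ (Gam γ) z U V = fderiv ℝ γ z.1 U.1 V.1 := by
    intro U V
    have h3 : HasFDerivAt (fun y : E6 => γ y.1)
        ((fderiv ℝ γ z.1).comp (ContinuousLinearMap.fst ℝ E3 E3)) z :=
      h1.hasFDerivAt.comp z hasFDerivAt_fst
    have h4 : HasFDerivAt (Gam γ) _ z :=
      h3.clm_comp (hasFDerivAt_const (ContinuousLinearMap.fst ℝ E3 E3) z)
    rw [h4.fderiv]
    simp
  rw [d1_apply, d1_apply, h2, h2]

theorem PB1_Gam_zero (hG : GEO) {γ : E3 → E3 →L[ℝ] ℝ} (hγ : ContDiffOn ℝ ∞ γ {0}ᶜ)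
    (hr : 0 < r) {q u v : E3} (hq : ‖q‖ = 1) (hu : ⟪q, u⟫ = 0) (hv : ⟪q, v⟫ = 0) :
    d1 (PB1 (Gam γ)) (q, 0) (u, 0) (v, 0) = d1 γ q u v := by
  have hq0 : q ≠ 0 := by rintro rfl; simp at hq
  have hmem : ((q, 0) : E6) ∈ OS r := TS_subset_OS r ⟨hq, by simp, by simpa using hr⟩
  rw [hG.d1PB r (Gam γ) (q, 0) hmem (by
    rw [Pi_zero' hq]
    exact (Gam_smooth hγ hq0).differentiableAt (by simp)),
    PB_604.pl_apply, hG.fixh q u hq hu, hG.fixh q v hq hv, Pi_zero' hq]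
  exact d1_Gam hγ hq0 _ _

theorem bas_l1 (hG : GEO) (r : ℝ) : Bas r (d1 (PB1 l1)) :=
  hG.basd r _ (hG.bas1 r l1 fun _ _ => K12Radf_843.contDiff_l1.contDiffAt)

theorem bas_l2 (hG : GEO) (r : ℝ) : Bas r (d1 (PB1 l2)) :=
  hG.basd r _ (hG.bas1 r l2 fun _ _ => K12Radf_843.contDiff_l2.contDiffAt)

theorem en_l1 (hG : GEO) {z : E6} {e : E3} (hz : z ∈ TS r) (he : IsFr z.1 e) (i j : Fin 4) :
    en (d1 (PB1 l1) z) z e i j = en (d1 l1 z) z e i j := by
  have h1 := hG.d1PB r l1 z (hG.TS_sub r hz)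
    (K12Radf_843.contDiff_l1.differentiable (by simp)).differentiableAt
  rw [h1, en, PB_604.pl_apply, hG.fix r z e hz he, hG.fix r z e hz he, hG.Pi_TS r z hz]
  rfl

theorem en_l2 (hG : GEO) {z : E6} {e : E3} (hz : z ∈ TS r) (he : IsFr z.1 e) (i j : Fin 4) :
    en (d1 (PB1 l2) z) z e i j = en (d1 l2 z) z e i j := by
  have h1 := hG.d1PB r l2 z (hG.TS_sub r hz)
    (K12Radf_843.contDiff_l2.differentiable (by simp)).differentiableAt
  rw [h1, en, PB_604.pl_apply, hG.fix r z e hz he, hG.fix r z e hz he, hG.Pi_TS r z hz]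
  rfl

theorem l2_zero (hG : GEO) (hr : 0 < r) {q u v : E3} (hq : ‖q‖ = 1) (hu : ⟪q, u⟫ = 0)
    (hv : ⟪q, v⟫ = 0) : d1 (PB1 l2) (q, 0) (u, 0) (v, 0) = 0 := by
  have hmem : ((q, 0) : E6) ∈ OS r := TS_subset_OS r ⟨hq, by simp, by simpa using hr⟩
  rw [hG.d1PB r l2 (q, 0) hmem (K12Radf_843.contDiff_l2.differentiable (by simp)).differentiableAt,
    PB_604.pl_apply, hG.fixh q u hq hu, hG.fixh q v hq hv, Pi_zero' hq, K12Radf_843.d1_l2]
  simp

/-! ### the mean value of the density -/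

theorem exists_mean {f : E3 → ℝ} (hf : Hom0 f) (hpos : ∀ q, q ≠ 0 → 0 < f q) :
    ∃ c : ℝ, 0 < c ∧
      ∫ y : Metric.sphere (0 : E3) 1, (f y - c) ∂((volume : Measure E3).toSphere) = 0 := by
  set μ := (volume : Measure E3).toSphere with hμ
  have hcont : Continuous fun y : Metric.sphere (0 : E3) 1 => f y := by
    have h1 : ContinuousOn f {0}ᶜ := hf.1.continuousOn
    refine h1.comp_continuous continuous_subtype_val ?_
    intro y hy
    have h2 := y.2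
    rw [mem_singleton_iff] at hy
    rw [hy] at h2
    simp at h2
  have hne : (univ : Set (Metric.sphere (0 : E3) 1)).Nonempty :=
    ⟨⟨EuclideanSpace.single 0 1, by simp⟩, mem_univ _⟩
  have hint : Integrable (fun y : Metric.sphere (0 : E3) 1 => f y) μ :=
    hcont.integrable_of_hasCompactSupport (HasCompactSupport.of_compactSpace _)
  have hμ0 : μ ≠ 0 := by
    intro h0
    have h1 := congrArg (fun m : Measure (Metric.sphere (0 : E3) 1) => m univ) h0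
    simp only [hμ] at h1
    rw [Measure.toSphere_apply_univ] at h1
    simp only [Measure.coe_zero, Pi.zero_apply, mul_eq_zero] at h1
    rcases h1 with h1 | h1
    · simp at h1
    · exact (Metric.measure_ball_pos volume (0 : E3) one_pos).ne' h1
  have hreal : 0 < μ.real univ := by
    rw [Measure.real, ENNReal.toReal_pos_iff]
    exact ⟨by
      rw [pos_iff_ne_zero]
      exact fun h => hμ0 (Measure.measure_univ_eq_zero.1 h), measure_lt_top μ univ⟩
  have hpos' : 0 < ∫ y : Metric.sphere (0 : E3) 1, f y ∂μ := by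
    obtain ⟨y0, _, hmin⟩ := isCompact_univ.exists_isMinOn hne hcont.continuousOn
    have hy0 : 0 < f y0 := hpos y0 (by
      intro hy
      have h2 := y0.2
      rw [hy] at h2
      simp at h2)
    have h1 : ∫ _ : Metric.sphere (0 : E3) 1, f y0 ∂μ ≤ ∫ y : Metric.sphere (0 : E3) 1, f y ∂μ :=
      integral_mono (integrable_const _) hint fun y => hmin (mem_univ y)
    rw [integral_const, smul_eq_mul] at h1
    exact lt_of_lt_of_le (mul_pos hreal hy0) h1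
  refine ⟨(∫ y : Metric.sphere (0 : E3) 1, f y ∂μ) / μ.real univ, div_pos hpos' hreal, ?_⟩
  rw [integral_sub hint (integrable_const _), integral_const, smul_eq_mul]
  field_simp
  ring

/-! ### the cut-off function -/

theorem rho_cont {z : E6} (hz : z.1 ≠ 0) : ContinuousAt rho z :=
  (continuous_norm.comp continuous_snd).continuousAt.comp (contDiffAt_Pi hz).continuousAt

variable {χ : ℝ → ℝ} {ρ' : ℝ}

theorem chi_ev {z : E6} (hz : z.1 ≠ 0) (hz2 : rho z < ρ') {c : ℝ} (h1 : ∀ t ≤ ρ', χ t = c) :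
    (fun y => χ (rho y)) =ᶠ[𝓝 z] fun _ => c := by
  filter_upwards [(rho_cont hz).eventually_lt_const hz2] with y hy
  exact h1 _ hy.le

theorem chi_smooth (hχ : ContDiff ℝ ∞ χ) (hρ : 0 < ρ') {c : ℝ} (h1 : ∀ t ≤ ρ', χ t = c) {z : E6}
    (hz : z.1 ≠ 0) : ContDiffAt ℝ ∞ (fun y => χ (rho y)) z := by
  by_cases h : rho z < ρ'
  · exact contDiffAt_const.congr_of_eventuallyEq (chi_ev hz h h1)
  · have h2 : (Pi z).2 ≠ 0 := by
      intro h0
      apply h
      show ‖(Pi z).2‖ < ρ'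
      rw [h0, norm_zero]
      exact hρ
    have h3 : ContDiffAt ℝ ∞ rho z :=
      (contDiffAt_norm ℝ h2).comp z (contDiffAt_snd.comp z (contDiffAt_Pi hz))
    exact hχ.contDiffAt.comp z h3

/-- the derivative of the radius in the frame. -/
theorem drho (hG : GEO) {z : E6} {e : E3} (hz : z ∈ TS r) (he : IsFr z.1 e) (h0 : z.2 ≠ 0)
    (i : Fin 4) : HasFDerivAt rho (fderiv ℝ rho z) z ∧
      fderiv ℝ rho z (X z e i) = ⟪z.2, (X z e i).2⟫ / ‖z.2‖ := by
  have hz1 : z.1 ≠ 0 := (TS_subset_OS r hz).1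
  have hPi : HasFDerivAt Pi (fderiv ℝ Pi z) z :=
    ((contDiffAt_Pi hz1).differentiableAt (by simp)).hasFDerivAt
  have hP2 : HasFDerivAt (fun y => (Pi y).2)
      ((ContinuousLinearMap.snd ℝ E3 E3).comp (fderiv ℝ Pi z)) z := hasFDerivAt_snd.comp z hPi
  have hn := hP2.norm_sq
  have hPz : (Pi z).2 = z.2 := by rw [hG.Pi_TS r z hz]
  have hne : ‖(Pi z).2‖ ^ 2 ≠ 0 := by
    rw [hPz]; exact pow_ne_zero 2 (norm_ne_zero_iff.2 h0)
  have hs := hn.sqrt hne
  have he2 : (fun y => √(‖(Pi y).2‖ ^ 2)) = rho := by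
    funext y
    exact Real.sqrt_sq (norm_nonneg _)
  rw [he2] at hs
  refine ⟨hs.differentiableAt.hasFDerivAt, ?_⟩
  rw [hs.fderiv]
  simp only [hPz, smul_apply, ContinuousLinearMap.comp_apply,
    hG.fix r z e hz he, smul_eq_mul, Real.sqrt_sq (norm_nonneg z.2)]
  show 1 / (2 * ‖z.2‖) * (2 • ⟪z.2, (X z e i).2⟫) = _
  have : ‖z.2‖ ≠ 0 := norm_ne_zero_iff.2 h0
  simp only [nsmul_eq_mul]
  field_simp
  norm_num

theorem dchi (hG : GEO) (hχ : ContDiff ℝ ∞ χ) (hρ : 0 < ρ') {c : ℝ} (h1 : ∀ t ≤ ρ', χ t = c)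
    {z : E6} {e : E3} (hz : z ∈ TS r) (he : IsFr z.1 e) :
    fderiv ℝ (fun y => χ (rho y)) z (X z e 0) = 0 ∧
    fderiv ℝ (fun y => χ (rho y)) z (X z e 1) = 0 ∧
    |fderiv ℝ (fun y => χ (rho y)) z (X z e 2)| ≤ |deriv χ ‖z.2‖| ∧
    |fderiv ℝ (fun y => χ (rho y)) z (X z e 3)| ≤ |deriv χ ‖z.2‖| := by
  have hz1 : z.1 ≠ 0 := (TS_subset_OS r hz).1
  have hrz : rho z = ‖z.2‖ := rho_TS hG hz
  by_cases h : rho z < ρ'
  · have h2 : fderiv ℝ (fun y => χ (rho y)) z = fderiv ℝ (fun _ : E6 => c) z :=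
      (chi_ev hz1 h h1).fderiv_eq
    have h3 : fderiv ℝ (fun _ : E6 => c) z = 0 := by simp
    rw [h2, h3]
    simp
  · have h0 : z.2 ≠ 0 := by
      intro h0
      apply h
      rw [hrz, h0, norm_zero]
      exact hρ
    have hn0 : ‖z.2‖ ≠ 0 := norm_ne_zero_iff.2 h0
    have hn1 : 0 < ‖z.2‖ := norm_pos_iff.2 h0
    have hd : ∀ i, fderiv ℝ (fun y => χ (rho y)) z (X z e i) =
        deriv χ ‖z.2‖ * (⟪z.2, (X z e i).2⟫ / ‖z.2‖) := by
      intro i
      obtain ⟨h3, h4⟩ := drho hG hz he h0 i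
      have h5 : HasDerivAt χ (deriv χ (rho z)) (rho z) :=
        (hχ.differentiable (by simp)).differentiableAt.hasDerivAt
      have h6 := h5.comp_hasFDerivAt z h3
      have h7 : fderiv ℝ (fun y => χ (rho y)) z = deriv χ (rho z) • fderiv ℝ rho z := h6.fderiv
      rw [h7, smul_apply, smul_eq_mul, h4, hrz]
    have hin : ∀ v : E3, ‖v‖ = 1 → |⟪z.2, v⟫ / ‖z.2‖| ≤ 1 := by
      intro v hv
      rw [abs_div, abs_of_pos hn1, div_le_one hn1]
      have := abs_real_inner_le_norm z.2 v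
      rwa [hv, mul_one] at this
    refine ⟨?_, ?_, ?_, ?_⟩
    · rw [hd 0]
      have h8 : (X z e 0).2 = -(⟪z.2, e⟫ • z.1) := rfl
      rw [h8, inner_neg_right, real_inner_smul_right, real_inner_comm z.1 z.2, hz.2.1]
      simp
    · rw [hd 1]
      have h8 : (X z e 1).2 = -(⟪z.2, cr z.1 e⟫ • z.1) := rfl
      rw [h8, inner_neg_right, real_inner_smul_right, real_inner_comm z.1 z.2, hz.2.1]
      simp
    · rw [hd 2, abs_mul]
      exact mul_le_of_le_one_right (abs_nonneg _) (hin e he.2.1)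
    · rw [hd 3, abs_mul]
      exact mul_le_of_le_one_right (abs_nonneg _) (hin _ (K12Radf_843.fr_norm_e3 he))

theorem rho_Pi {z : E6} (hz : z.1 ≠ 0) : rho (Pi z) = rho z := by
  unfold rho; rw [K12Geo_128.Pi_Pi hz]

theorem bas1_chi (hχ : ContDiff ℝ ∞ χ) (hρ : 0 < ρ') {c : ℝ} (h1 : ∀ t ≤ ρ', χ t = c)
    {β : E6 → E6 →L[ℝ] ℝ} (hβ : Bas1 r β) : Bas1 r (fun z => χ (rho z) • β z) := by
  refine ⟨fun z hz => ((chi_smooth hχ hρ h1 hz.1).smul (bas1_diff hβ hz)).contDiffWithinAt, ?_⟩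
  intro z hz U
  show χ (rho z) * β z U = χ (rho (Pi z)) * β (Pi z) (fderiv ℝ Pi z U)
  rw [rho_Pi hz.1, hβ.bas z hz]

theorem d1_chi (hχ : ContDiff ℝ ∞ χ) (hρ : 0 < ρ') {c : ℝ} (h1 : ∀ t ≤ ρ', χ t = c)
    {β : E6 → E6 →L[ℝ] ℝ} (hβ : Bas1 r β) {z : E6} (hz : z ∈ OS r) (U V : E6) :
    d1 (fun z => χ (rho z) • β z) z U V =
      fderiv ℝ (fun y => χ (rho y)) z U * β z V - fderiv ℝ (fun y => χ (rho y)) z V * β z U +
        χ (rho z) * d1 β z U V :=
  Ch.d1_smul ((chi_smooth hχ hρ h1 hz.1).differentiableAt (by simp))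
    ((bas1_diff hβ hz).differentiableAt (by simp)) U V

theorem d1_chi_near {β : E6 → E6 →L[ℝ] ℝ} {c : ℝ} (h1 : ∀ t ≤ ρ', χ t = c) {z : E6}
    (hz : z.1 ≠ 0) (hz2 : rho z < ρ') :
    d1 (fun z => χ (rho z) • β z) z = d1 (fun z => c • β z) z := by
  refine Ch.d1_congr ?_
  filter_upwards [chi_ev hz hz2 h1] with y hy
  rw [hy]

end

end Crest.Agent.R235.K12S2a_776
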