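import Crest.Agent.R235.K12S1_776

/-!
Row 235 (S0364), block K12, analytic assembly (helper776): STEP II, the sign of the mixed block of
the second form at the zero section and its discriminant.
-/

set_option autoImplicit false
set_option maxSynthPendingDepth 3
set_option linter.unusedSectionVars false

open Set Function Filter MeasureTheory
open scoped Manifold ContDiff Topology RealInnerProductSpace

universe u

namespace Crest.Agent.R235.K12S2b_776

open Crest.Agent.R240 Crest.Agent.R240.Ch Crest.Agent.R235 Crest.Agent.R235.K12_417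
  Crest.Agent.R235.K12An_776 Crest.Agent.R235.K12Pos_776 Crest.Agent.R235.K12S1_776

noncomputable section

/-- the standard basis. -/
abbrev b3 (i : Fin 3) : E3 := EuclideanSpace.single i 1

theorem expand3 (u : E3) : u = u 0 • b3 0 + u 1 • b3 1 + u 2 • b3 2 := by
  ext i
  fin_cases i <;> simp [b3]

/-- the antisymmetric part of a bilinear form on `ℝ³`. -/
theorem anti3 (B : E3 →ₗ[ℝ] E3 →ₗ[ℝ] ℝ) (u v : E3) :
    B u v - B v u = (B (b3 1) (b3 2) - B (b3 2) (b3 1)) * cr u v 0 +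
      (B (b3 2) (b3 0) - B (b3 0) (b3 2)) * cr u v 1 +
      (B (b3 0) (b3 1) - B (b3 1) (b3 0)) * cr u v 2 := by
  conv_lhs => rw [expand3 u, expand3 v]
  simp only [map_add, map_smul, LinearMap.add_apply, LinearMap.smul_apply, smul_eq_mul,
    K12Radf_843.cr0, K12Radf_843.cr1, K12Radf_843.cr2]
  ring

section Man

variable {M : Type u} [TopologicalSpace M] [T2Space M] [CompactSpace M]
  [ChartedSpace E4 M] [IsManifold 𝓘(ℝ, E4) ∞ M]

variable {σ : E3 → M} {r : ℝ} {Ps : E6 → M} {G : M → E6} {U : Set M}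

theorem zmem {r : ℝ} (hr : 0 < r) {q : E3} (hq : ‖q‖ = 1) : ((q, 0) : E6) ∈ TS r :=
  ⟨hq, by simp, by simpa using hr⟩

/-- the entries of the second form at the zero section. -/
abbrev z2 (w : Trip M) (Ps : E6 → M) (q e : E3) (i j : Fin 4) : ℝ :=
  en (Om Ps (w 2) (q, 0)) (q, 0) e i j

theorem disc {w : Trip M} {f : E3 → ℝ} {r' κ α C : ℝ} (hD : CD w Ps r r' κ α C)
    (hZ : ZD w Ps f) {q e : E3} (he : IsFr q e) :
    4 * κ ≤ -(z2 w Ps q e 0 2 - z2 w Ps q e 1 3) ^ 2 - 4 * z2 w Ps q e 0 3 * z2 w Ps q e 1 2 := by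
  obtain ⟨f1, f2, f3, f4, f5, f6, f7, f8, f9⟩ := hZ.ent q e he
  have hr : 0 < r := hD.r'_pos.trans hD.r'_lt
  set T : ℝ := z2 w Ps q e 0 2 + z2 w Ps q e 1 3 with hT
  have h := hD.kap (q, 0) (zmem hr he.1) (by simpa using hD.r'_pos.le) e he ![0, T / 2, 1]
  simp only [pfE, Fin.sum_univ_three] at h
  simp only [Matrix.cons_val_zero, Matrix.cons_val_one, Matrix.cons_val, f2, f3, f4, f5, f6, f7,
    f8, f9] at h
  have hκ := hD.κ_pos
  have h2 : κ ≤ κ * (0 ^ 2 + (T / 2) ^ 2 + 1 ^ 2) := by nlinarith [sq_nonneg (T / 2)]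
  change _ ≤ _ at h
  have h3 := h2.trans h
  have h4 : -((z2 w Ps q e 0 2 - z2 w Ps q e 1 3) ^ 2) -
      4 * z2 w Ps q e 0 3 * z2 w Ps q e 1 2 =
      4 * ((z2 w Ps q e 0 2 - T / 2) * (z2 w Ps q e 1 3 - T / 2) -
        z2 w Ps q e 0 3 * z2 w Ps q e 1 2) := by
    rw [hT]; ring
  rw [h4]
  refine (mul_le_mul_of_nonneg_left h3 (by norm_num : (0 : ℝ) ≤ 4)).trans (le_of_eq ?_)
  ring

/-- the bilinear form `(u, v) ↦ Om (w 2) (q, 0) (u, 0) (0, v)`. -/
def BB (Ps : E6 → M) (w : Trip M) (q : E3) : E3 →ₗ[ℝ] E3 →ₗ[ℝ] ℝ :=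
  LinearMap.mk₂ ℝ (fun u v => Om Ps (w 2) (q, 0) (u, 0) (0, v))
    (fun u u' v => by
      have : ((u + u', 0) : E6) = (u, 0) + (u', 0) := by simp
      rw [this, map_add]; rfl)
    (fun c u v => by
      have : ((c • u, 0) : E6) = c • (u, 0) := by simp
      rw [this, map_smul]; rfl)
    (fun u v v' => by
      have : ((0, v + v') : E6) = (0, v) + (0, v') := by simp
      rw [this, map_add])
    (fun c u v => by
      have : ((0, c • v) : E6) = c • (0, v) := by simp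
      rw [this, map_smul])

theorem BB_apply (w : Trip M) (q u v : E3) :
    BB Ps w q u v = Om Ps (w 2) (q, 0) (u, 0) (0, v) := rfl

/-- the trace-like function on the sphere. -/
def UU (Ps : E6 → M) (w : Trip M) (q : E3) : ℝ :=
  -((BB Ps w q (b3 1) (b3 2) - BB Ps w q (b3 2) (b3 1)) * q 0 +
      (BB Ps w q (b3 2) (b3 0) - BB Ps w q (b3 0) (b3 2)) * q 1 +
      (BB Ps w q (b3 0) (b3 1) - BB Ps w q (b3 1) (b3 0)) * q 2)

theorem UU_eq (w : Trip M) {q e : E3} (he : IsFr q e) :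
    z2 w Ps q e 1 2 - z2 w Ps q e 0 3 = UU Ps w q := by
  have h1 : z2 w Ps q e 1 2 = BB Ps w q (cr q e) e := by
    rw [BB_apply]
    show Om Ps (w 2) (q, 0) (cr q e, -(⟪(0 : E3), cr q e⟫ • q)) (0, e) = _
    rw [inner_zero_left, zero_smul, neg_zero]
  have h2 : z2 w Ps q e 0 3 = BB Ps w q e (cr q e) := by
    rw [BB_apply]
    show Om Ps (w 2) (q, 0) (e, -(⟪(0 : E3), e⟫ • q)) (0, cr q e) = _
    rw [inner_zero_left, zero_smul, neg_zero]
  rw [h1, h2]
  have h3 := anti3 (BB Ps w q) e (cr q e)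
  rw [K12Radf_843.fr_cr_e he] at h3
  unfold UU
  linarith

theorem continuousOn_UU (hT : Tube σ r Ps G U) (w : Trip M) :
    ContinuousOn (UU Ps w) (Metric.sphere (0 : E3) 1) := by
  have h1 : ContinuousOn (fun q : E3 => Om Ps (w 2) ((q, 0) : E6)) (Metric.sphere (0 : E3) 1) := by
    refine (basOm hT (w 2)).smooth.continuousOn.comp (by fun_prop) ?_
    intro q hq
    exact K12Ext_168.TS_subset_OS r (zmem hT.r_pos (by simpa using hq))
  have h2 : ∀ u v : E3, ContinuousOn (fun q : E3 => BB Ps w q u v)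
      (Metric.sphere (0 : E3) 1) := fun u v =>
    (h1.clm_apply continuousOn_const).clm_apply continuousOn_const
  have h3 : ∀ i : Fin 3, ContinuousOn (fun q : E3 => q i) (Metric.sphere (0 : E3) 1) := fun i =>
    (by fun_prop : Continuous (fun q : E3 => q i)).continuousOn
  unfold UU
  exact (((((h2 _ _).sub (h2 _ _)).mul (h3 0)).add (((h2 _ _).sub (h2 _ _)).mul (h3 1))).add
    (((h2 _ _).sub (h2 _ _)).mul (h3 2))).neg

/-- the sign. -/
theorem exists_sgn (hT : Tube σ r Ps G U) {w : Trip M} {f : E3 → ℝ} {r' κ α C : ℝ}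
    (hD : CD w Ps r r' κ α C) (hZ : ZD w Ps f) :
    ∃ s : ℝ, (s = 1 ∨ s = -1) ∧ ∀ q e, IsFr q e →
      0 < s * (z2 w Ps q e 1 2 - z2 w Ps q e 0 3) := by
  have hne : ∀ q ∈ Metric.sphere (0 : E3) 1, UU Ps w q ≠ 0 := by
    intro q hq h0
    have hq1 : ‖q‖ = 1 := by simpa using hq
    obtain ⟨e, he⟩ := exists_fr hq1
    rw [← UU_eq w he] at h0
    have h1 := disc hD hZ he
    have h2 : z2 w Ps q e 1 2 = z2 w Ps q e 0 3 := by linarith
    rw [h2] at h1
    have h3 := hD.κ_pos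
    nlinarith [sq_nonneg (z2 w Ps q e 0 2 - z2 w Ps q e 1 3), sq_nonneg (z2 w Ps q e 0 3)]
  have hconn : IsPreconnected (Metric.sphere (0 : E3) 1) := by
    refine (isConnected_sphere ?_ _ zero_le_one).isPreconnected
    rw [← Module.finrank_eq_rank]
    norm_num
  have hcont := continuousOn_UU hT w
  set q0 : E3 := b3 0 with hq0
  have hq0m : q0 ∈ Metric.sphere (0 : E3) 1 := by simp [hq0]
  rcases lt_or_gt_of_ne (hne q0 hq0m) with h | h
  · refine ⟨-1, Or.inr rfl, fun q e he => ?_⟩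
    rw [UU_eq w he]
    have hqm : q ∈ Metric.sphere (0 : E3) 1 := by simpa using he.1
    by_contra hcon
    have hpos : 0 ≤ UU Ps w q := by linarith
    obtain ⟨x, hx, hxe⟩ := hconn.intermediate_value hq0m hqm hcont ⟨h.le, hpos⟩
    exact hne x hx hxe
  · refine ⟨1, Or.inl rfl, fun q e he => ?_⟩
    rw [UU_eq w he]
    have hqm : q ∈ Metric.sphere (0 : E3) 1 := by simpa using he.1
    by_contra hcon
    have hpos : UU Ps w q ≤ 0 := by linarith
    obtain ⟨x, hx, hxe⟩ := hconn.intermediate_value hqm hq0m hcont ⟨hpos, h.le⟩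
    exact hne x hx hxe

/-- the interpolated mixed block. -/
theorem mix {w : Trip M} {f : E3 → ℝ} {r' κ α C : ℝ} (hD : CD w Ps r r' κ α C)
    (hZ : ZD w Ps f) {s : ℝ} (hs : s = 1 ∨ s = -1) {q e : E3} (he : IsFr q e)
    (hpos : 0 < s * (z2 w Ps q e 1 2 - z2 w Ps q e 0 3)) {τ : ℝ} (h0 : 0 ≤ τ) (h1 : τ ≤ 1)
    {A F : Fin 4 → Fin 4 → ℝ} (a1 : A 0 2 = -1) (a2 : A 1 3 = -1) (a3 : A 0 3 = 0)
    (a4 : A 1 2 = 0) (b1 : F 0 2 = (1 - τ) * z2 w Ps q e 0 2 + τ * 0)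
    (b2 : F 1 3 = (1 - τ) * z2 w Ps q e 1 3 + τ * 0)
    (b3 : F 0 3 = (1 - τ) * z2 w Ps q e 0 3 + τ * (s * (-1)))
    (b4 : F 1 2 = (1 - τ) * z2 w Ps q e 1 2 + τ * (s * 1)) (x y : ℝ) :
    min (1 / 2) (min (4 * κ) 4 / 2 / (4 + 2 * (2 * C) ^ 2)) * (x ^ 2 + y ^ 2) ≤
      detE (fun i j => x * A i j + y * F i j) := by
  have hr : 0 < r := hD.r'_pos.trans hD.r'_lt
  have hκ := hD.κ_pos
  have hd := disc hD hZ he
  have hc := K12Num_776.conv (x₀ := z2 w Ps q e 0 2) (m := z2 w Ps q e 0 3)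
    (n := z2 w Ps q e 1 2) (y₀ := z2 w Ps q e 1 3) (D₀ := min (4 * κ) 4) hs
    ((min_le_left _ _).trans hd) (by positivity) (min_le_right _ _) hpos h0 h1
  have hbd : ∀ i j, |z2 w Ps q e i j| ≤ C := fun i j =>
    hD.bd (q, 0) (zmem hr he.1) (by simpa using hD.r'_pos.le) e he 2 i j
  have hT : |((1 - τ) * z2 w Ps q e 0 2 + τ * 0) + ((1 - τ) * z2 w Ps q e 1 3 + τ * 0)| ≤
      2 * C := by
    have e1 : ((1 - τ) * z2 w Ps q e 0 2 + τ * 0) + ((1 - τ) * z2 w Ps q e 1 3 + τ * 0) =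
        (1 - τ) * (z2 w Ps q e 0 2 + z2 w Ps q e 1 3) := by ring
    rw [e1, abs_mul, abs_of_nonneg (by linarith : (0 : ℝ) ≤ 1 - τ)]
    have e2 : |z2 w Ps q e 0 2 + z2 w Ps q e 1 3| ≤ 2 * C :=
      (abs_add_le _ _).trans (by linarith [hbd 0 2, hbd 1 3])
    exact (mul_le_of_le_one_left (abs_nonneg _) (by linarith)).trans e2
  have hq := K12Num_776.quad (T := ((1 - τ) * z2 w Ps q e 0 2 + τ * 0) +
      ((1 - τ) * z2 w Ps q e 1 3 + τ * 0))
    (Δ := ((1 - τ) * z2 w Ps q e 0 2 + τ * 0) * ((1 - τ) * z2 w Ps q e 1 3 + τ * 0) -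
      ((1 - τ) * z2 w Ps q e 0 3 + τ * (s * (-1))) * ((1 - τ) * z2 w Ps q e 1 2 + τ * (s * 1)))
    (D₀ := min (4 * κ) 4 / 2) (B := 2 * C) (by positivity) (by
      refine hc.trans (le_of_eq ?_)
      ring) hT x y
  refine hq.trans (le_of_eq ?_)
  simp only [detE]
  rw [a1, a2, a3, a4, b1, b2, b3, b4]
  ring

end Man

end

end Crest.Agent.R235.K12S2b_776
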