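import Crest.Agent.R235.K12S2a_776

/-!
Row 235 (S0364), block K12, analytic assembly (helper776): STEP II, existence of the primitives.
-/

set_option autoImplicit false
set_option maxSynthPendingDepth 3
set_option linter.unusedSectionVars false

open Set Function Filter MeasureTheory
open scoped Manifold ContDiff Topology RealInnerProductSpace

universe u

namespace Crest.Agent.R235.K12S2c_776

open Crest.Agent.R240 Crest.Agent.R240.Ch Crest.Agent.R235 Crest.Agent.R235.K12_417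
  Crest.Agent.R235.K12An_776 Crest.Agent.R235.K12Pos_776 Crest.Agent.R235.K12S1_776
  Crest.Agent.R235.K12Ext_168 Crest.Agent.R235.K12S2a_776

noncomputable section

section Man

variable {M : Type u} [TopologicalSpace M] [T2Space M] [CompactSpace M]
  [ChartedSpace E4 M] [IsManifold 𝓘(ℝ, E4) ∞ M]

variable {σ : E3 → M} {r : ℝ} {Ps : E6 → M} {G : M → E6} {U : Set M}

/-- the primitives of the differences with the model forms. -/
structure BD (w : Trip M) (Ps : E6 → M) (r r' c s C : ℝ) (β : Fin 3 → E6 → E6 →L[ℝ] ℝ) :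
    Prop where
  bas : ∀ k, Bas1 r (β k)
  d0 : ∀ z ∈ OS r, d1 (β 0) z = Om Ps (w 0) z - FG (fun _ => c) c 0 1 z
  d1 : ∀ z ∈ OS r, Ch.d1 (β 1) z = Om Ps (w 1) z - Ch.d1 (PB1 l1) z
  d2 : ∀ z ∈ OS r, Ch.d1 (β 2) z = Om Ps (w 2) z - s • Ch.d1 (PB1 l2) z
  C_pos : 0 < C
  b0 : ∀ z ∈ TS r, ‖z.2‖ ≤ r' → ∀ e, IsFr z.1 e → ∀ i, |β 0 z (X z e i)| ≤ C
  b02 : ∀ z ∈ TS r, ‖z.2‖ ≤ r' → ∀ e, IsFr z.1 e → |β 0 z (X z e 2)| ≤ C * ‖z.2‖
  b03 : ∀ z ∈ TS r, ‖z.2‖ ≤ r' → ∀ e, IsFr z.1 e → |β 0 z (X z e 3)| ≤ C * ‖z.2‖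
  b1 : ∀ z ∈ TS r, ‖z.2‖ ≤ r' → ∀ e, IsFr z.1 e → ∀ i, |β 1 z (X z e i)| ≤ C * ‖z.2‖ ^ 2
  b2 : ∀ z ∈ TS r, ‖z.2‖ ≤ r' → ∀ e, IsFr z.1 e → ∀ i, |β 2 z (X z e i)| ≤ C * ‖z.2‖

/-- bounds on the frames from bounds of norms. -/
theorem fr_bound {β : E6 → E6 →L[ℝ] ℝ} {r' B : ℝ} {z : E6} {e : E3}
    (hzr : ‖z.2‖ ≤ r') (he : IsFr z.1 e) (h : ‖β z‖ ≤ B) (i : Fin 4) :
    |β z (X z e i)| ≤ (1 + r') * B := by
  have h1 : |β z (X z e i)| ≤ ‖β z‖ * ‖X z e i‖ := (β z).le_opNorm _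
  have h2 := K12Lip_895.norm_X_le hzr he i
  have h3 : 0 ≤ B := (norm_nonneg _).trans h
  calc |β z (X z e i)| ≤ ‖β z‖ * ‖X z e i‖ := h1
    _ ≤ B * (1 + r') := mul_le_mul h h2 (norm_nonneg _) h3
    _ = _ := mul_comm _ _

theorem exists_BD (hG : GEO) (hF : FGL) (hS : S2PRIM) (hRP : RPRIM)
    (hT : Tube σ r Ps G U) {w : Trip M} (hJ : Jet w Ps) {f : E3 → ℝ} (hZ : ZD w Ps f) {c : ℝ}
    (hc : ∫ y : Metric.sphere (0 : E3) 1, (f y - c) ∂((volume : Measure E3).toSphere) = 0)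
    (s : ℝ) {r' : ℝ} (hr'0 : 0 < r') (hr' : r' < r) :
    ∃ (C : ℝ) (β : Fin 3 → E6 → E6 →L[ℝ] ℝ), BD w Ps r r' c s C β := by
  have hr := hT.r_pos
  set r2 : ℝ := (r + r') / 2 with hr2
  have hr2r : r2 < r := by rw [hr2]; linarith
  have hr2' : r' < r2 := by rw [hr2]; linarith
  have hmem2 : ∀ z ∈ TS r, ‖z.2‖ ≤ r' → z ∈ TS r2 := fun z hz hzr =>
    ⟨hz.1, hz.2.1, lt_of_le_of_lt hzr hr2'⟩
  -- the zeroth form
  obtain ⟨γ, hγ, _, _, hγd⟩ := hS (fun q => f q - c)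
    ⟨hZ.hom.1.sub contDiffOn_const, fun t q ht => by
      show f (t • q) - c = f q - c
      rw [hZ.hom.2 t q ht]⟩ hc
  have hΓb : Bas1 r (PB1 (Gam γ)) := hG.bas1 r (Gam γ) fun z hz =>
    Gam_smooth hγ (hG.TS_sub r (hG.Pi_mem r z hz)).1
  have hFc : Bas r (FG (fun _ => c) c 0 1) := hF.bas r _ c 0 1 (prof_const c one_pos)
  obtain ⟨β0, hβ0, hβ0d, hβ0b, _⟩ := hRP r
    (fun z => Om Ps (w 0) z - FG (fun _ => c) c 0 1 z - d1 (PB1 (Gam γ)) z) hr
    (bas_sub (bas_sub (basOm hT (w 0)) hFc) (hG.basd r _ hΓb)) (by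
      intro q u v hq hu hv
      show Om Ps (w 0) (q, 0) (u, 0) (v, 0) - FG (fun _ => c) c 0 1 (q, 0) (u, 0) (v, 0) -
        d1 (PB1 (Gam γ)) (q, 0) (u, 0) (v, 0) = 0
      rw [hZ.area q u v hq hu hv, FGc_zero hG c 1 hq hu hv, PB1_Gam_zero hG hγ hr hq hu hv,
        hγd q u v hq hu hv]
      ring)
  obtain ⟨B0, hB0⟩ := hβ0b r2 hr2r
  -- the first form
  obtain ⟨β1, hβ1, hβ1d, _, hβ1b⟩ := hRP r (fun z => Om Ps (w 1) z - d1 (PB1 l1) z) hr
    (bas_sub (basOm hT (w 1)) (bas_l1 hG r)) (by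
      intro q u v hq _ _
      show (Om Ps (w 1) (q, 0) - d1 (PB1 l1) (q, 0)) (u, 0) (v, 0) = 0
      have h1 : Om Ps (w 1) (q, 0) = d1 (PB1 l1) (q, 0) := hJ.one q hq
      rw [h1, sub_self]
      rfl)
  obtain ⟨B1, hB1⟩ := hβ1b (fun q hq => by
    have h1 : Om Ps (w 1) (q, 0) = d1 (PB1 l1) (q, 0) := hJ.one q hq
    show Om Ps (w 1) (q, 0) - d1 (PB1 l1) (q, 0) = 0
    rw [h1, sub_self]) r2 hr2r
  -- the second form
  obtain ⟨β2, hβ2, hβ2d, hβ2b, _⟩ := hRP r (fun z => Om Ps (w 2) z - s • d1 (PB1 l2) z) hr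
    (bas_sub (basOm hT (w 2)) (bas_smul s (bas_l2 hG r))) (by
      intro q u v hq hu hv
      show Om Ps (w 2) (q, 0) (u, 0) (v, 0) - s * d1 (PB1 l2) (q, 0) (u, 0) (v, 0) = 0
      rw [l2_zero hG hr hq hu hv]
      have h1 : Om Ps (w 2) (q, 0) (u, 0) (v, 0) = 0 := hJ.hor2 q u v hq
      rw [h1]; ring)
  obtain ⟨B2, hB2⟩ := hβ2b r2 hr2r
  -- bound for the potential on the base
  obtain ⟨Bg, hBg⟩ : ∃ Bg : ℝ, ∀ q : E3, ‖q‖ = 1 → ‖γ q‖ ≤ Bg := by
    have hcont : ContinuousOn (fun q => ‖γ q‖) (Metric.sphere (0 : E3) 1) := by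
      refine (hγ.continuousOn.mono fun q hq => ?_).norm
      rintro rfl
      simp at hq
    obtain ⟨B, hB⟩ := (isCompact_sphere (0 : E3) 1).bddAbove_image hcont
    exact ⟨B, fun q hq => hB (mem_image_of_mem _ (by simpa using hq))⟩
  set B : ℝ := |B0| + |B1| + |B2| + |Bg| + 1 with hB
  have hBpos : 0 < B := by positivity
  have h0B : B0 ≤ B := by
    have := le_abs_self B0; have := abs_nonneg B1; have := abs_nonneg B2; have := abs_nonneg Bg
    rw [hB]; linarith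
  have h1B : B1 ≤ B := by
    have := le_abs_self B1; have := abs_nonneg B0; have := abs_nonneg B2; have := abs_nonneg Bg
    rw [hB]; linarith
  have h2B : B2 ≤ B := by
    have := le_abs_self B2; have := abs_nonneg B0; have := abs_nonneg B1; have := abs_nonneg Bg
    rw [hB]; linarith
  have hgB : Bg ≤ B := by
    have := le_abs_self Bg; have := abs_nonneg B0; have := abs_nonneg B1; have := abs_nonneg B2
    rw [hB]; linarith
  set C : ℝ := 2 * ((1 + r') * (B * (1 + r'))) with hC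
  have hCpos : 0 < C := by positivity
  have hle1 : (1 + r') * B ≤ C := by
    rw [hC]
    have h1 : 0 < (1 + r') * B := by positivity
    nlinarith
  have hle2 : (1 + r') * (B * r') + (1 + r') * B ≤ C := by
    rw [hC]
    have h1 : 0 < (1 + r') * B := by positivity
    nlinarith
  have hΓX : ∀ z ∈ TS r, ∀ e, IsFr z.1 e → ∀ i,
      PB1 (Gam γ) z (X z e i) = γ z.1 ((X z e i).1) := fun z hz e he i => by
    rw [hG.en_PB1 r _ z e hz he i]; rfl
  have hb0 : ∀ z ∈ TS r, ‖z.2‖ ≤ r' → ∀ e, IsFr z.1 e → ∀ i,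
      |β0 z (X z e i)| ≤ (1 + r') * (B * ‖z.2‖) := fun z hz hzr e he i =>
    fr_bound hzr he ((hB0 z (hmem2 z hz hzr)).trans
      (mul_le_mul_of_nonneg_right h0B (norm_nonneg _))) i
  have hle3 : ∀ z : E6, (1 + r') * (B * ‖z.2‖) ≤ C * ‖z.2‖ := fun z => by
    have := mul_le_mul_of_nonneg_right hle1 (norm_nonneg z.2)
    linarith
  refine ⟨C, ![fun z => PB1 (Gam γ) z + β0 z, β1, β2], ?_, ?_, hβ1d, hβ2d, hCpos, ?_, ?_, ?_,
    ?_, ?_⟩
  · intro k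
    fin_cases k
    · exact bas1_add hΓb hβ0
    · exact hβ1
    · exact hβ2
  · intro z hz
    show Ch.d1 (fun z => PB1 (Gam γ) z + β0 z) z = _
    rw [Ch.d1_add ((bas1_diff hΓb hz).differentiableAt (by simp))
      ((bas1_diff hβ0 hz).differentiableAt (by simp)), hβ0d z hz]
    abel
  · intro z hz hzr e he i
    show |PB1 (Gam γ) z (X z e i) + β0 z (X z e i)| ≤ C
    refine (abs_add_le _ _).trans ?_
    have h1 : |PB1 (Gam γ) z (X z e i)| ≤ (1 + r') * B := by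
      rw [hΓX z hz e he i]
      have h2 : ‖(X z e i).1‖ ≤ 1 + r' :=
        (norm_fst_le _).trans (K12Lip_895.norm_X_le hzr he i)
      have h3 : |γ z.1 ((X z e i).1)| ≤ ‖γ z.1‖ * ‖(X z e i).1‖ := (γ z.1).le_opNorm _
      have h4 : ‖γ z.1‖ * ‖(X z e i).1‖ ≤ B * (1 + r') :=
        mul_le_mul ((hBg z.1 hz.1).trans hgB) h2 (norm_nonneg _) hBpos.le
      linarith
    have h2 := hb0 z hz hzr e he i
    have h3 : (1 + r') * (B * ‖z.2‖) ≤ (1 + r') * (B * r') := by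
      have : B * ‖z.2‖ ≤ B * r' := mul_le_mul_of_nonneg_left hzr hBpos.le
      exact mul_le_mul_of_nonneg_left this (by positivity)
    linarith
  · intro z hz hzr e he
    show |PB1 (Gam γ) z (X z e 2) + β0 z (X z e 2)| ≤ C * ‖z.2‖
    have h1 : PB1 (Gam γ) z (X z e 2) = 0 := by
      rw [hΓX z hz e he 2]
      show γ z.1 0 = 0
      simp
    rw [h1, zero_add]
    exact (hb0 z hz hzr e he 2).trans (hle3 z)
  · intro z hz hzr e he
    show |PB1 (Gam γ) z (X z e 3) + β0 z (X z e 3)| ≤ C * ‖z.2‖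
    have h1 : PB1 (Gam γ) z (X z e 3) = 0 := by
      rw [hΓX z hz e he 3]
      show γ z.1 0 = 0
      simp
    rw [h1, zero_add]
    exact (hb0 z hz hzr e he 3).trans (hle3 z)
  · intro z hz hzr e he i
    show |β1 z (X z e i)| ≤ C * ‖z.2‖ ^ 2
    have h1 := fr_bound (β := β1) hzr he ((hB1 z (hmem2 z hz hzr)).trans
      (mul_le_mul_of_nonneg_right h1B (sq_nonneg _))) i
    have h2 := mul_le_mul_of_nonneg_right hle1 (sq_nonneg ‖z.2‖)
    linarith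
  · intro z hz hzr e he i
    show |β2 z (X z e i)| ≤ C * ‖z.2‖
    have h1 := fr_bound (β := β2) hzr he ((hB2 z (hmem2 z hz hzr)).trans
      (mul_le_mul_of_nonneg_right h2B (norm_nonneg _))) i
    exact h1.trans (hle3 z)

end Man

end

end Crest.Agent.R235.K12S2c_776
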