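import Crest.Agent.R235.K12Num_776

/-!
Row 235 (S0364), block K12, analytic assembly (helper776): STEP II, numerical part: the entries of
the path of the second step satisfy the hypotheses of `numQ`.
-/

set_option autoImplicit false
set_option maxSynthPendingDepth 3

namespace Crest.Agent.R235.K12S2n_776

open Crest.Agent.R235.K12_417

noncomputable section

/-- the conclusion of `numQ`. -/
def NQ (α C κ K₀ Λ δ : ℝ) : Prop :=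
  ∀ (ρ K Y : ℝ) (E : Fin 3 → Fin 4 → Fin 4 → ℝ),
      0 ≤ ρ → ρ ≤ δ → K₀ ≤ K → 0 ≤ Y → K * ρ ^ 2 ≤ δ → Λ * Y * ρ ^ 2 ≤ δ →
      α ≤ E 0 0 1 → E 0 0 1 ≤ C → K / 2 + Λ * Y ≤ - E 0 2 3 → - E 0 2 3 ≤ 2 * K + Λ * Y →
      |E 0 0 2| ≤ C * (1 + √Y) → |E 0 0 3| ≤ C * (1 + √Y) → |E 0 1 2| ≤ C * (1 + √Y) →
      |E 0 1 3| ≤ C * (1 + √Y) →
      |E 1 0 1| ≤ C * ρ → |E 2 0 1| ≤ C * ρ → |E 1 2 3| ≤ C → |E 2 2 3| ≤ C →
      |E 1 0 2| ≤ C → |E 1 0 3| ≤ C → |E 1 1 2| ≤ C → |E 1 1 3| ≤ C →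
      |E 2 0 2| ≤ C → |E 2 0 3| ≤ C → |E 2 1 2| ≤ C → |E 2 1 3| ≤ C →
      (∀ x y : ℝ, κ * (x ^ 2 + y ^ 2) ≤ detE (fun i j => x * E 1 i j + y * E 2 i j)) →
      ∀ c : Fin 3 → ℝ, c ≠ 0 → pfE (fun i j => ∑ k, c k * E k i j) < 0

theorem exists_NQ (hQ : ALGQ) {α C κ : ℝ} (hα : 0 < α) (hC : 1 ≤ C) (hκ : 0 < κ) :
    ∃ K₀ Λ δ : ℝ, 0 < K₀ ∧ 0 < Λ ∧ 0 < δ ∧ NQ α C κ K₀ Λ δ :=
  K12Num_776.numQ hQ hα hC hκ

/-- entry of the path of step II. -/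
def EE (e std : Fin 4 → Fin 4 → ℝ) (b D : Fin 4 → ℝ) (t χ : ℝ) (i j : Fin 4) : ℝ :=
  e i j - t * (D i * b j - D j * b i + χ * (e i j - std i j))

/-- hypotheses on the original entries. -/
structure NH (α C ρ c s : ℝ) (e std : Fin 3 → Fin 4 → Fin 4 → ℝ) (z2 : Fin 4 → Fin 4 → ℝ)
    (b : Fin 3 → Fin 4 → ℝ) : Prop where
  eC : ∀ k i j, |e k i j| ≤ C
  ea : α ≤ e 0 0 1
  e1 : |e 1 0 1| ≤ C * ρ
  e2 : |e 2 0 1| ≤ C * ρ
  l1 : ∀ i j, |e 1 i j - std 1 i j| ≤ C * ρ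
  l2 : ∀ i j, |e 2 i j - z2 i j| ≤ C * ρ
  zC : ∀ i j, |z2 i j| ≤ C
  b0 : ∀ i, |b 0 i| ≤ C
  b02 : |b 0 2| ≤ C * ρ
  b03 : |b 0 3| ≤ C * ρ
  b1 : ∀ i, |b 1 i| ≤ C * ρ ^ 2
  b2 : ∀ i, |b 2 i| ≤ C * ρ
  s001 : std 0 0 1 = c
  s023 : std 0 2 3 = 0
  s002 : std 0 0 2 = 0
  s003 : std 0 0 3 = 0
  s012 : std 0 1 2 = 0
  s013 : std 0 1 3 = 0
  s101 : std 1 0 1 = 0
  s123 : std 1 2 3 = 0
  s102 : std 1 0 2 = -1
  s103 : std 1 0 3 = 0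
  s112 : std 1 1 2 = 0
  s113 : std 1 1 3 = -1
  s201 : std 2 0 1 = 0
  s223 : std 2 2 3 = 0
  s202 : std 2 0 2 = 0
  s203 : std 2 0 3 = s * (-1)
  s212 : std 2 1 2 = s * 1
  s213 : std 2 1 3 = 0

theorem sC {s : ℝ} (hs : s = 1 ∨ s = -1) : |s| = 1 := by
  rcases hs with h | h <;> rw [h] <;> simp

/-- bound of an interpolation. -/
theorem itp {T a b C : ℝ} (h0 : 0 ≤ T) (h1 : T ≤ 1) (ha : |a| ≤ C) (hb : |b| ≤ C) :
    |(1 - T) * a + T * b| ≤ C := by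
  refine (abs_add_le _ _).trans ?_
  rw [abs_mul, abs_mul, abs_of_nonneg h0, abs_of_nonneg (by linarith : (0 : ℝ) ≤ 1 - T)]
  have h2 := mul_le_mul_of_nonneg_left ha (by linarith : (0 : ℝ) ≤ 1 - T)
  have h3 := mul_le_mul_of_nonneg_left hb h0
  linarith

set_option maxHeartbeats 1600000 in
theorem num2 {α C κ K₀ Λ δ ρ c s A h ca K t χ χ' η ε : ℝ} {e std : Fin 3 → Fin 4 → Fin 4 → ℝ}
    {z2 : Fin 4 → Fin 4 → ℝ} {b : Fin 3 → Fin 4 → ℝ} {D : Fin 4 → ℝ}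
    {E : Fin 3 → Fin 4 → Fin 4 → ℝ}
    (hC : 1 ≤ C) (hN : NQ (α / 4) (3 * C) (κ / 2) K₀ Λ δ) (H : NH α C ρ c s e std z2 b)
    (hs : s = 1 ∨ s = -1) (hρ0 : 0 ≤ ρ) (hρ1 : ρ ≤ 1)
    (hD0 : D 0 = 0) (hD1 : D 1 = 0) (hD2 : |D 2| ≤ |χ'|) (hD3 : |D 3| ≤ |χ'|)
    (hη1 : η ≤ 1) (hρχ : |ρ * χ'| ≤ η) (ht0 : 0 ≤ t) (ht1 : t ≤ 1) (hχ0 : 0 ≤ χ) (hχ1 : χ ≤ 1)
    (hA : 2 * A ≤ α) (hh0 : -A ≤ h) (hh1 : h ≤ 0) (hca0 : 0 ≤ ca) (hca1 : ca ≤ η) (hΛ : 0 < Λ)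
    (hΛη : Λ * η ≤ α / 4) (hαc : α ≤ c) (hcC : c ≤ C) (hK : 6 * C ≤ K) (hK0 : K₀ ≤ K)
    (hρδ : ρ ≤ δ) (hKδ : K * ρ ^ 2 ≤ δ) (hΛδ : Λ * η ^ 2 ≤ δ)
    (hε1 : 2 * (C * ρ) ≤ ε) (hε2 : C * ρ + C * η ≤ ε) (hε3 : ε ≤ 1)
    (hε4 : 16 * (C + 1) * ε ≤ κ / 2)
    (hdet : ∀ τ : ℝ, 0 ≤ τ → τ ≤ 1 → ∀ F : Fin 4 → Fin 4 → ℝ,
      (F 0 2 = (1 - τ) * z2 0 2 + τ * 0) → (F 1 3 = (1 - τ) * z2 1 3 + τ * 0) →
      (F 0 3 = (1 - τ) * z2 0 3 + τ * (s * (-1))) → (F 1 2 = (1 - τ) * z2 1 2 + τ * (s * 1)) →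
      ∀ x y : ℝ, κ * (x ^ 2 + y ^ 2) ≤ detE (fun i j => x * std 1 i j + y * F i j))
    (E001 : E 0 0 1 = EE (e 0) (std 0) (b 0) D t χ 0 1 + h - t * (Λ * ca))
    (E023 : E 0 2 3 = EE (e 0) (std 0) (b 0) D t χ 2 3 - K - t * (Λ * χ' ^ 2))
    (E002 : E 0 0 2 = EE (e 0) (std 0) (b 0) D t χ 0 2)
    (E003 : E 0 0 3 = EE (e 0) (std 0) (b 0) D t χ 0 3)
    (E012 : E 0 1 2 = EE (e 0) (std 0) (b 0) D t χ 1 2)
    (E013 : E 0 1 3 = EE (e 0) (std 0) (b 0) D t χ 1 3)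
    (E1 : ∀ i j, E 1 i j = EE (e 1) (std 1) (b 1) D t χ i j)
    (E2 : ∀ i j, E 2 i j = EE (e 2) (std 2) (b 2) D t χ i j) :
    ∀ c : Fin 3 → ℝ, c ≠ 0 → pfE (fun i j => ∑ k, c k * E k i j) < 0 := by
  have hC0 : 0 < C := by linarith
  have hη0 : 0 ≤ η := (abs_nonneg _).trans hρχ
  set T : ℝ := t * χ with hT
  have hT0 : 0 ≤ T := mul_nonneg ht0 hχ0
  have hT1 : T ≤ 1 := by
    have := mul_le_mul ht1 hχ1 hχ0 zero_le_one
    linarith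
  have hρχ' : ρ * |χ'| ≤ η := by
    have : |ρ * χ'| = ρ * |χ'| := by rw [abs_mul, abs_of_nonneg hρ0]
    rwa [this] at hρχ
  set X : ℝ := |χ'| with hX
  have hX0 : 0 ≤ X := abs_nonneg _
  have hX2 : X ^ 2 = χ' ^ 2 := sq_abs _
  set Y : ℝ := t * χ' ^ 2 with hY
  have hY0 : 0 ≤ Y := by positivity
  -- `t X ≤ √Y`
  have hsq : t * X ≤ √Y := by
    rw [Real.le_sqrt (by positivity) hY0]
    have h1 : (t * X) ^ 2 = t * (t * χ' ^ 2) := by rw [mul_pow, hX2]; ring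
    rw [h1, ← hY]
    exact mul_le_of_le_one_left hY0 ht1
  have htX : 0 ≤ t * X := by positivity
  have htXX : t * X ≤ X := mul_le_of_le_one_left hX0 ht1
  -- products with the derivative of the cut-off
  have prod : ∀ d β B : ℝ, |d| ≤ X → |β| ≤ B → |t * (d * β)| ≤ t * X * B := by
    intro d β B h1 h2
    rw [abs_mul, abs_mul, abs_of_nonneg ht0]
    have h3 : |d| * |β| ≤ X * B := mul_le_mul h1 h2 (abs_nonneg _) hX0
    have h4 := mul_le_mul_of_nonneg_left h3 ht0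
    linarith
  have hXρ : t * X * (C * ρ) ≤ C * η := by
    have h1 : t * X * (C * ρ) ≤ X * (C * ρ) :=
      mul_le_mul_of_nonneg_right htXX (by positivity)
    have h2 : X * (C * ρ) = C * (ρ * X) := by ring
    have h3 := mul_le_mul_of_nonneg_left hρχ' hC0.le
    linarith
  have hCη : C * η ≤ C := mul_le_of_le_one_right hC0.le hη1
  have hXρ2 : t * X * (C * ρ ^ 2) ≤ C * ρ := by
    have h1 : t * X * (C * ρ ^ 2) = (t * X * (C * ρ)) * ρ := by ring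
    rw [h1]
    exact mul_le_mul_of_nonneg_right (hXρ.trans hCη) hρ0
  have hCρ : C * ρ ≤ C := mul_le_of_le_one_right hC0.le hρ1
  have h1C : |(-1 : ℝ)| ≤ C := by simpa using hC
  have h0C : |(0 : ℝ)| ≤ C := by simpa using hC0.le
  have hsC1 : |s * (-1)| ≤ C := by rw [abs_mul, sC hs]; simpa using hC
  have hsC2 : |s * 1| ≤ C := by rw [mul_one, sC hs]; exact hC
  -- the shape of the entries
  have f01 : ∀ k, EE (e k) (std k) (b k) D t χ 0 1 = (1 - T) * e k 0 1 + T * std k 0 1 := by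
    intro k; simp only [EE, hD0, hD1, hT]; ring
  have f23 : ∀ k, EE (e k) (std k) (b k) D t χ 2 3 =
      ((1 - T) * e k 2 3 + T * std k 2 3) + (t * (D 3 * b k 2) - t * (D 2 * b k 3)) := by
    intro k; simp only [EE, hT]; ring
  have f02 : ∀ k, EE (e k) (std k) (b k) D t χ 0 2 =
      ((1 - T) * e k 0 2 + T * std k 0 2) + t * (D 2 * b k 0) := by
    intro k; simp only [EE, hD0, hT]; ring
  have f03 : ∀ k, EE (e k) (std k) (b k) D t χ 0 3 =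
      ((1 - T) * e k 0 3 + T * std k 0 3) + t * (D 3 * b k 0) := by
    intro k; simp only [EE, hD0, hT]; ring
  have f12 : ∀ k, EE (e k) (std k) (b k) D t χ 1 2 =
      ((1 - T) * e k 1 2 + T * std k 1 2) + t * (D 2 * b k 1) := by
    intro k; simp only [EE, hD1, hT]; ring
  have f13 : ∀ k, EE (e k) (std k) (b k) D t χ 1 3 =
      ((1 - T) * e k 1 3 + T * std k 1 3) + t * (D 3 * b k 1) := by
    intro k; simp only [EE, hD1, hT]; ring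
  -- mixed entries of the zeroth form
  have m0 : ∀ x y d : ℝ, |x| ≤ C → |d| ≤ X → |y| ≤ C →
      |((1 - T) * x + T * 0) + t * (d * y)| ≤ 3 * C * (1 + √Y) := by
    intro x y d hx hd hy
    refine (abs_add_le _ _).trans ?_
    have h1 := itp hT0 hT1 hx h0C
    have h2 := prod d y C hd hy
    have h3 : t * X * C ≤ √Y * C := mul_le_mul_of_nonneg_right hsq hC0.le
    have h4 : 0 ≤ √Y * C := by positivity
    have h5 : 3 * C * (1 + √Y) = 3 * C + 3 * (√Y * C) := by ring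
    rw [h5]
    linarith
  -- mixed entries of the other forms
  have m1 : ∀ x x' y d B : ℝ, |x| ≤ C → |x'| ≤ C → |d| ≤ X → |y| ≤ B → t * X * B ≤ C →
      |((1 - T) * x + T * x') + t * (d * y)| ≤ 3 * C := by
    intro x x' y d B hx hx' hd hy hB
    refine (abs_add_le _ _).trans ?_
    have h1 := itp hT0 hT1 hx hx'
    have h2 := prod d y B hd hy
    linarith
  have v1 : ∀ x x' y y' d d' B : ℝ, |x| ≤ C → |x'| ≤ C → |d| ≤ X → |d'| ≤ X → |y| ≤ B →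
      |y'| ≤ B → t * X * B ≤ C →
      |((1 - T) * x + T * x') + (t * (d * y) - t * (d' * y'))| ≤ 3 * C := by
    intro x x' y y' d d' B hx hx' hd hd' hy hy' hB
    refine (abs_add_le _ _).trans ?_
    have h1 := itp hT0 hT1 hx hx'
    have h2 := prod d y B hd hy
    have h3 := prod d' y' B hd' hy'
    have h4 := abs_sub (t * (d * y)) (t * (d' * y'))
    linarith
  have hB1 : t * X * (C * ρ ^ 2) ≤ C := hXρ2.trans hCρ
  have hB2 : t * X * (C * ρ) ≤ C := hXρ.trans hCη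
  -- the entry `01` of the zeroth form
  have hΛca : t * (Λ * ca) ≤ α / 4 := by
    have h1 : Λ * ca ≤ Λ * η := mul_le_mul_of_nonneg_left hca1 hΛ.le
    have h2 : 0 ≤ Λ * ca := by positivity
    have h3 := mul_le_of_le_one_left h2 ht1
    linarith
  have hΛca0 : 0 ≤ t * (Λ * ca) := by positivity
  have hα01 : α / 4 ≤ E 0 0 1 := by
    rw [E001, f01, H.s001]
    have h1 := mul_le_mul_of_nonneg_left H.ea (by linarith : (0 : ℝ) ≤ 1 - T)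
    have h2 := mul_le_mul_of_nonneg_left hαc hT0
    linarith
  have hα01' : E 0 0 1 ≤ 3 * C := by
    rw [E001, f01, H.s001]
    have h1 := mul_le_mul_of_nonneg_left ((le_abs_self _).trans (H.eC 0 0 1))
      (by linarith : (0 : ℝ) ≤ 1 - T)
    have h2 := mul_le_mul_of_nonneg_left hcC hT0
    linarith
  -- the entry `23` of the zeroth form
  have hb : |((1 - T) * e 0 2 3 + T * std 0 2 3) + (t * (D 3 * b 0 2) - t * (D 2 * b 0 3))| ≤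
      3 * C := v1 _ _ _ _ _ _ (C * ρ) (H.eC 0 2 3) (by rw [H.s023]; exact h0C) hD3 hD2 H.b02 H.b03
        hB2
  have hΛY : t * (Λ * χ' ^ 2) = Λ * Y := by rw [hY]; ring
  refine hN ρ K Y E hρ0 hρδ hK0 hY0 hKδ ?_ hα01 hα01' ?_ ?_ ?_ ?_ ?_ ?_ ?_ ?_ ?_ ?_ ?_ ?_ ?_ ?_
    ?_ ?_ ?_ ?_ ?_
  · -- Λ Y ρ²
    have h1 : Λ * Y * ρ ^ 2 = t * (Λ * (ρ * X) ^ 2) := by rw [hY, mul_pow, hX2]; ring
    have h2 : (ρ * X) ^ 2 ≤ η ^ 2 := by
      have : 0 ≤ ρ * X := by positivity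
      nlinarith
    have h3 : Λ * (ρ * X) ^ 2 ≤ Λ * η ^ 2 := mul_le_mul_of_nonneg_left h2 hΛ.le
    have h4 : 0 ≤ Λ * (ρ * X) ^ 2 := by positivity
    rw [h1]
    exact ((mul_le_of_le_one_left h4 ht1).trans h3).trans hΛδ
  · rw [E023, f23, hΛY]
    have := (abs_le.1 hb).2
    linarith
  · rw [E023, f23, hΛY]
    have := (abs_le.1 hb).1
    linarith
  · rw [E002, f02, H.s002]; exact m0 _ _ _ (H.eC 0 0 2) hD2 (H.b0 0)
  · rw [E003, f03, H.s003]; exact m0 _ _ _ (H.eC 0 0 3) hD3 (H.b0 0)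
  · rw [E012, f12, H.s012]; exact m0 _ _ _ (H.eC 0 1 2) hD2 (H.b0 1)
  · rw [E013, f13, H.s013]; exact m0 _ _ _ (H.eC 0 1 3) hD3 (H.b0 1)
  · rw [E1, f01, H.s101]
    have h1 := itp (C := C * ρ) hT0 hT1 H.e1 (by rw [abs_zero]; positivity : |(0 : ℝ)| ≤ C * ρ)
    have h2 : 0 ≤ C * ρ := by positivity
    linarith
  · rw [E2, f01, H.s201]
    have h1 := itp (C := C * ρ) hT0 hT1 H.e2 (by rw [abs_zero]; positivity : |(0 : ℝ)| ≤ C * ρ)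
    have h2 : 0 ≤ C * ρ := by positivity
    linarith
  · rw [E1, f23]
    exact v1 _ _ _ _ _ _ (C * ρ ^ 2) (H.eC 1 2 3) (by rw [H.s123]; exact h0C) hD3 hD2 (H.b1 2)
      (H.b1 3) hB1
  · rw [E2, f23]
    exact v1 _ _ _ _ _ _ (C * ρ) (H.eC 2 2 3) (by rw [H.s223]; exact h0C) hD3 hD2 (H.b2 2)
      (H.b2 3) hB2
  · rw [E1, f02, H.s102]; exact m1 _ _ _ _ _ (H.eC 1 0 2) h1C hD2 (H.b1 0) hB1
  · rw [E1, f03, H.s103]; exact m1 _ _ _ _ _ (H.eC 1 0 3) h0C hD3 (H.b1 0) hB1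
  · rw [E1, f12, H.s112]; exact m1 _ _ _ _ _ (H.eC 1 1 2) h0C hD2 (H.b1 1) hB1
  · rw [E1, f13, H.s113]; exact m1 _ _ _ _ _ (H.eC 1 1 3) h1C hD3 (H.b1 1) hB1
  · rw [E2, f02, H.s202]; exact m1 _ _ _ _ _ (H.eC 2 0 2) h0C hD2 (H.b2 0) hB2
  · rw [E2, f03, H.s203]; exact m1 _ _ _ _ _ (H.eC 2 0 3) hsC1 hD3 (H.b2 0) hB2
  · rw [E2, f12, H.s212]; exact m1 _ _ _ _ _ (H.eC 2 1 2) hsC2 hD2 (H.b2 1) hB2
  · rw [E2, f13, H.s213]; exact m1 _ _ _ _ _ (H.eC 2 1 3) h0C hD3 (H.b2 1) hB2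
  · -- the determinant
    have hε0 : 0 ≤ ε := by
      have : 0 ≤ 2 * (C * ρ) := by positivity
      linarith
    set F : Fin 4 → Fin 4 → ℝ := fun i j => (1 - T) * z2 i j + T * std 2 i j with hF
    have hdet' := hdet T hT0 hT1 F (by simp only [hF, H.s202]) (by simp only [hF, H.s213])
      (by simp only [hF, H.s203]) (by simp only [hF, H.s212])
    have d1 : ∀ i j (d y : ℝ), E 1 i j = ((1 - T) * e 1 i j + T * std 1 i j) + t * (d * y) →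
        |d| ≤ X → |y| ≤ C * ρ ^ 2 → |E 1 i j - std 1 i j| ≤ ε := by
      intro i j d y h1 h2 h3
      have h4 : E 1 i j - std 1 i j = (1 - T) * (e 1 i j - std 1 i j) + t * (d * y) := by
        rw [h1]; ring
      rw [h4]
      refine (abs_add_le _ _).trans ?_
      rw [abs_mul, abs_of_nonneg (by linarith : (0 : ℝ) ≤ 1 - T)]
      have h5 : (1 - T) * |e 1 i j - std 1 i j| ≤ C * ρ :=
        (mul_le_of_le_one_left (abs_nonneg _) (by linarith)).trans (H.l1 i j)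
      have h6 := prod d y _ h2 h3
      linarith
    have d2 : ∀ i j (d y : ℝ), E 2 i j = ((1 - T) * e 2 i j + T * std 2 i j) + t * (d * y) →
        |d| ≤ X → |y| ≤ C * ρ → |E 2 i j - F i j| ≤ ε := by
      intro i j d y h1 h2 h3
      have h4 : E 2 i j - F i j = (1 - T) * (e 2 i j - z2 i j) + t * (d * y) := by
        rw [h1, hF]; ring
      rw [h4]
      refine (abs_add_le _ _).trans ?_
      rw [abs_mul, abs_of_nonneg (by linarith : (0 : ℝ) ≤ 1 - T)]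
      have h5 : (1 - T) * |e 2 i j - z2 i j| ≤ C * ρ :=
        (mul_le_of_le_one_left (abs_nonneg _) (by linarith)).trans (H.l2 i j)
      have h6 := prod d y _ h2 h3
      linarith
    refine K12Num_776.pert (B := C) hε0 hε3 hC0.le hε4 (A' := std 1) (F' := F)
      (by rw [H.s102]; exact h1C) (by rw [H.s103]; exact h0C) (by rw [H.s112]; exact h0C)
      (by rw [H.s113]; exact h1C)
      (itp hT0 hT1 (H.zC 0 2) (by rw [H.s202]; exact h0C))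
      (itp hT0 hT1 (H.zC 0 3) (by rw [H.s203]; exact hsC1))
      (itp hT0 hT1 (H.zC 1 2) (by rw [H.s212]; exact hsC2))
      (itp hT0 hT1 (H.zC 1 3) (by rw [H.s213]; exact h0C))
      (d1 0 2 _ _ (by rw [E1, f02]) hD2 (H.b1 0)) (d1 0 3 _ _ (by rw [E1, f03]) hD3 (H.b1 0))
      (d1 1 2 _ _ (by rw [E1, f12]) hD2 (H.b1 1)) (d1 1 3 _ _ (by rw [E1, f13]) hD3 (H.b1 1))
      (d2 0 2 _ _ (by rw [E2, f02]) hD2 (H.b2 0)) (d2 0 3 _ _ (by rw [E2, f03]) hD3 (H.b2 0))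
      (d2 1 2 _ _ (by rw [E2, f12]) hD2 (H.b2 1)) (d2 1 3 _ _ (by rw [E2, f13]) hD3 (H.b2 1))
      hdet'

end

end Crest.Agent.R235.K12S2n_776
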