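import Crest.Agent.R235.K12S2b_776
import Crest.Agent.R235.K12S2c_776
import Crest.Agent.R235.K12S2n_776

/-!
Row 235 (S0364), block K12, analytic assembly (helper776): STEP II, the logarithmic cut-off.
-/

set_option autoImplicit false
set_option maxSynthPendingDepth 3
set_option linter.unusedSectionVars false

open Set Function Filter MeasureTheory
open scoped Manifold ContDiff Topology RealInnerProductSpace

universe u

namespace Crest.Agent.R235.K12S2d_776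

open Crest.Agent.R240 Crest.Agent.R240.Ch Crest.Agent.R235 Crest.Agent.R235.K12_417
  Crest.Agent.R235.K12An_776 Crest.Agent.R235.K12Pos_776 Crest.Agent.R235.K12S1_776
  Crest.Agent.R235.K12Ext_168 Crest.Agent.R235.K12S2a_776 Crest.Agent.R235.K12S2b_776
  Crest.Agent.R235.K12S2c_776 Crest.Agent.R235.K12S2n_776

noncomputable section

/-! ### `gd` of the profiles -/

theorem deriv_prof {g : ℝ → ℝ} {c K t₀ t : ℝ} (hp : Prof g c K t₀) (ht : t < t₀) :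
    deriv g t = K * t := by
  have h1 : g =ᶠ[𝓝 t] fun x => c + K * x ^ 2 / 2 := by
    filter_upwards [Iio_mem_nhds ht] with x hx
    exact hp.eq x (le_of_lt hx)
  rw [h1.deriv_eq]
  have h2 : HasDerivAt (fun x : ℝ => c + K * x ^ 2 / 2) (K * t) t := by
    have h3 := (((hasDerivAt_id t).pow 2).const_mul K).div_const 2
    have h4 := h3.const_add c
    refine (h4.congr_deriv ?_)
    simp
    ring
  exact h2.deriv

theorem gd_prof {g : ℝ → ℝ} {c K t₀ t : ℝ} (hp : Prof g c K t₀) (ht : t < t₀) :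
    gd g K t = K := by
  unfold gd
  split_ifs with h
  · rfl
  · rw [deriv_prof hp ht]
    field_simp

theorem gd_const (c t : ℝ) : gd (fun _ => c) 0 t = 0 := by
  unfold gd; simp

section Man

variable {M : Type u} [TopologicalSpace M] [T2Space M] [CompactSpace M]
  [ChartedSpace E4 M] [IsManifold 𝓘(ℝ, E4) ∞ M]

variable {σ : E3 → M} {r : ℝ} {Ps : E6 → M} {G : M → E6} {U : Set M}

theorem CD.mono {w : Trip M} {r' κ α C C' : ℝ} (h : CD w Ps r r' κ α C) (hC : C ≤ C') :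
    CD w Ps r r' κ α C' where
  κ_pos := h.κ_pos
  α_pos := h.α_pos
  C_pos := h.C_pos.trans_le hC
  r'_pos := h.r'_pos
  r'_lt := h.r'_lt
  kap := h.kap
  alp := h.alp
  bd := fun z hz hzr e he k i j => (h.bd z hz hzr e he k i j).trans hC
  lip := fun z hz hzr e he k i j => (h.lip z hz hzr e he k i j).trans
    (mul_le_mul_of_nonneg_right hC (norm_nonneg _))

theorem BD.mono {w : Trip M} {r' c s C C' : ℝ} {β : Fin 3 → E6 → E6 →L[ℝ] ℝ}
    (h : BD w Ps r r' c s C β) (hC : C ≤ C') : BD w Ps r r' c s C' β where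
  bas := h.bas
  d0 := h.d0
  d1 := h.d1
  d2 := h.d2
  C_pos := h.C_pos.trans_le hC
  b0 := fun z hz hzr e he i => (h.b0 z hz hzr e he i).trans hC
  b02 := fun z hz hzr e he => (h.b02 z hz hzr e he).trans
    (mul_le_mul_of_nonneg_right hC (norm_nonneg _))
  b03 := fun z hz hzr e he => (h.b03 z hz hzr e he).trans
    (mul_le_mul_of_nonneg_right hC (norm_nonneg _))
  b1 := fun z hz hzr e he i => (h.b1 z hz hzr e he i).trans
    (mul_le_mul_of_nonneg_right hC (sq_nonneg _))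
  b2 := fun z hz hzr e he i => (h.b2 z hz hzr e he i).trans
    (mul_le_mul_of_nonneg_right hC (norm_nonneg _))

/-- the constant of the interpolated mixed block. -/
def kap2 (κ C : ℝ) : ℝ := min (1 / 2) (min (4 * κ) 4 / 2 / (4 + 2 * (2 * C) ^ 2))

theorem kap2_pos {κ C : ℝ} (h : 0 < κ) : 0 < kap2 κ C := by
  unfold kap2; positivity

/-- the standard entries. -/
def stdE (c s : ℝ) (z : E6) (e : E3) : Fin 3 → Fin 4 → Fin 4 → ℝ :=
  ![fun i j => en (FG (fun _ => c) c 0 1 z) z e i j, fun i j => en (d1 (PB1 l1) z) z e i j,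
    fun i j => s * en (d1 (PB1 l2) z) z e i j]

/-- the numerical hypotheses hold at every point of the tube. -/
theorem nh (hG : GEO) (hF : FGL) (hR : RADF) {w : Trip M} (hJ : Jet w Ps) {f : E3 → ℝ}
    (hZ : ZD w Ps f) {r' κ α C c s : ℝ} (hD : CD w Ps r r' κ α C)
    {β : Fin 3 → E6 → E6 →L[ℝ] ℝ} (hB : BD w Ps r r' c s C β) {z : E6} {e : E3}
    (hz : z ∈ TS r) (hzr : ‖z.2‖ ≤ r') (he : IsFr z.1 e) :
    NH α C ‖z.2‖ c s (fun k i j => en (Om Ps (w k) z) z e i j) (stdE c s z e)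
      (z2 w Ps z.1 e) (fun k i => β k z (X z e i)) := by
  have hr : 0 < r := hD.r'_pos.trans hD.r'_lt
  obtain ⟨f1, f2, f3, f4, f5, f6, f7, f8, f9⟩ := hZ.ent z.1 e he
  have hl := hD.lip z hz hzr e he
  have hz0 : ((z.1, 0) : E6) ∈ TS r := zmem hr hz.1
  have hcp := prof_const c one_pos
  constructor
  · exact fun k i j => hD.bd z hz hzr e he k i j
  · exact hD.alp z hz hzr e he
  · have := hl 1 0 1
    rwa [f2, sub_zero] at this
  · have := hl 2 0 1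
    rwa [f8, sub_zero] at this
  · intro i j
    have h1 := hl 1 i j
    have h2 : en (Om Ps (w 1) (z.1, 0)) (z.1, 0) e i j = stdE c s z e 1 i j := by
      have h3 : Om Ps (w 1) (z.1, 0) = d1 (PB1 l1) (z.1, 0) := hJ.one z.1 hz.1
      rw [h3]
      show _ = en (d1 (PB1 l1) z) z e i j
      rw [en_l1 hG hz0 he, en_l1 hG hz he, hR.l1f _ r e hz0 he, hR.l1f _ r e hz he]
    rw [h2] at h1
    exact h1
  · exact fun i j => hl 2 i j
  · exact fun i j => hD.bd (z.1, 0) hz0 (by simpa using hD.r'_pos.le) e he 2 i j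
  · exact fun i => hB.b0 z hz hzr e he i
  · exact hB.b02 z hz hzr e he
  · exact hB.b03 z hz hzr e he
  · exact fun i => hB.b1 z hz hzr e he i
  · exact fun i => hB.b2 z hz hzr e he i
  · exact FG01 hF hcp hz he
  · show en (FG (fun _ => c) c 0 1 z) z e 2 3 = 0
    rw [FG23 hF hcp hz he, gd_const, neg_zero]
  · exact FG02 hF hcp hz he
  · exact FG03 hF hcp hz he
  · exact FG12 hF hcp hz he
  · exact FG13 hF hcp hz he
  · show en (d1 (PB1 l1) z) z e 0 1 = 0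
    rw [en_l1 hG hz he, hR.l1f _ r e hz he]; simp
  · show en (d1 (PB1 l1) z) z e 2 3 = 0
    rw [en_l1 hG hz he, hR.l1f _ r e hz he]; simp
  · show en (d1 (PB1 l1) z) z e 0 2 = -1
    rw [en_l1 hG hz he, hR.l1f _ r e hz he]; simp
  · show en (d1 (PB1 l1) z) z e 0 3 = 0
    rw [en_l1 hG hz he, hR.l1f _ r e hz he]; simp
  · show en (d1 (PB1 l1) z) z e 1 2 = 0
    rw [en_l1 hG hz he, hR.l1f _ r e hz he]; simp
  · show en (d1 (PB1 l1) z) z e 1 3 = -1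
    rw [en_l1 hG hz he, hR.l1f _ r e hz he]; simp
  · show s * en (d1 (PB1 l2) z) z e 0 1 = 0
    rw [en_l2 hG hz he, hR.l2f _ r e hz he]; simp
  · show s * en (d1 (PB1 l2) z) z e 2 3 = 0
    rw [en_l2 hG hz he, hR.l2f _ r e hz he]; simp
  · show s * en (d1 (PB1 l2) z) z e 0 2 = 0
    rw [en_l2 hG hz he, hR.l2f _ r e hz he]; simp
  · show s * en (d1 (PB1 l2) z) z e 0 3 = s * (-1)
    rw [en_l2 hG hz he, hR.l2f _ r e hz he]; simp
  · show s * en (d1 (PB1 l2) z) z e 1 2 = s * 1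
    rw [en_l2 hG hz he, hR.l2f _ r e hz he]; simp
  · show s * en (d1 (PB1 l2) z) z e 1 3 = 0
    rw [en_l2 hG hz he, hR.l2f _ r e hz he]; simp

/-- the data of the cut-off. -/
structure CU (ρ η ρ' : ℝ) (χ a : ℝ → ℝ) : Prop where
  ρ'_pos : 0 < ρ'
  ρ'_lt : ρ' < ρ
  smooth : ContDiff ℝ ∞ χ
  mem : ∀ t, 0 ≤ χ t ∧ χ t ≤ 1
  one : ∀ t ≤ ρ', χ t = 1
  zero : ∀ t, ρ ≤ t → χ t = 0
  der : ∀ t, |t * deriv χ t| ≤ η
  smootha : ContDiff ℝ ∞ a
  mema : ∀ t, 0 ≤ t → 0 ≤ a t ∧ a t ≤ η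
  zeroa : ∀ t, ρ ≤ t → a t = 0
  cona : ∀ t ≤ ρ', a t = a 0
  dera : ∀ t, deriv a t = - (t * deriv χ t ^ 2)

theorem exists_CU (h : CUT) {ρ η : ℝ} (hρ : 0 < ρ) (hη : 0 < η) :
    ∃ (ρ' : ℝ) (χ a : ℝ → ℝ), CU ρ η ρ' χ a := by
  obtain ⟨ρ', χ, a, h1, h2, h3, h4, h5, h6, h7, h8, h9, h10, h11, h12⟩ := h ρ η hρ hη
  exact ⟨ρ', χ, a, h1, h2, h3, h4, h5, h6, h7, h8, h9, h10, h11, h12⟩

theorem prof_a {ρ η ρ' : ℝ} {χ a : ℝ → ℝ} (h : CU ρ η ρ' χ a) (Λ : ℝ) :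
    Prof (fun t => -(Λ * a t)) (-(Λ * a 0)) 0 ρ' := by
  refine ⟨(contDiff_const.mul h.smootha).neg, h.ρ'_pos, fun t ht => ?_⟩
  rw [h.cona t ht]
  ring

theorem deriv_chi_zero {ρ η ρ' : ℝ} {χ a : ℝ → ℝ} (h : CU ρ η ρ' χ a) : deriv χ 0 = 0 := by
  have h1 : χ =ᶠ[𝓝 0] fun _ => 1 := by
    filter_upwards [Iio_mem_nhds h.ρ'_pos] with x hx
    exact h.one x (le_of_lt hx)
  rw [h1.deriv_eq]
  simp

theorem gd_a {ρ η ρ' : ℝ} {χ a : ℝ → ℝ} (h : CU ρ η ρ' χ a) (Λ t : ℝ) :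
    gd (fun t => -(Λ * a t)) 0 t = Λ * deriv χ t ^ 2 := by
  unfold gd
  split_ifs with h0
  · rw [h0, deriv_chi_zero h]; ring
  · have h1 : deriv (fun t => -(Λ * a t)) t = Λ * (t * deriv χ t ^ 2) := by
      have h2 : HasDerivAt a (deriv a t) t :=
        (h.smootha.differentiable (by simp)).differentiableAt.hasDerivAt
      have h3 := (h2.const_mul Λ).neg
      have h4 : deriv (fun t => -(Λ * a t)) t = -(Λ * deriv a t) := h3.deriv
      rw [h4, h.dera]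
      ring
    rw [h1]
    field_simp

/-- the entries of the differential of the cut-off primitive. -/
theorem en_chi {χ : ℝ → ℝ} {ρ' : ℝ} (hχ : ContDiff ℝ ∞ χ) (hρ : 0 < ρ')
    (h1 : ∀ t ≤ ρ', χ t = 1) {β : E6 → E6 →L[ℝ] ℝ} (hβ : Bas1 r β) {z : E6} (hz : z ∈ OS r)
    (e : E3) (i j : Fin 4) {o st : ℝ} (hd : en (d1 β z) z e i j = o - st) :
    en (d1 (fun z => χ (rho z) • β z) z) z e i j =
      fderiv ℝ (fun y => χ (rho y)) z (X z e i) * β z (X z e j) -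
        fderiv ℝ (fun y => χ (rho y)) z (X z e j) * β z (X z e i) + χ (rho z) * (o - st) := by
  rw [en, d1_chi hχ hρ h1 hβ hz, ← hd]
  rfl

/-- STEP II. -/
theorem step2 (hG : GEO) (hF : FGL) (hR : RADF) (hPF : PFIFF M) (hE1 : K12_417.EXT M)
    (hE2 : K12An_776.EXT2 M) (hT : Tube σ r Ps G U) {w w' : Trip M} (hJ : Jet w Ps) {f : E3 → ℝ}
    (hZ : ZD w Ps f) {r' κ α C c s : ℝ} (hD : CD w Ps r r' κ α C)
    {β : Fin 3 → E6 → E6 →L[ℝ] ℝ} (hB : BD w Ps r r' c s C β)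
    (hs : s = 1 ∨ s = -1)
    (hsgn : ∀ q e, IsFr q e → 0 < s * (z2 w Ps q e 1 2 - z2 w Ps q e 0 3))
    {K₀ Λ δ : ℝ} (hC : 1 ≤ C) (hN : NQ (α / 4) (3 * C) (kap2 κ C / 2) K₀ Λ δ)
    {h : ℝ → ℝ} {A K t₀ d η ε ρ' : ℝ} {χ a : ℝ → ℝ}
    (hp : Prof h (-A) K t₀) (hh : ∀ t, 0 ≤ t → -A ≤ h t ∧ h t ≤ 0)
    (hw' : Pos3 w') (hw0 : ∀ z ∈ OS r, Om Ps (w' 0) z = Om Ps (w 0) z + FG h (-A) K t₀ z)
    (hw1 : ∀ z ∈ OS r, Om Ps (w' 1) z = Om Ps (w 1) z)
    (hw2 : ∀ z ∈ OS r, Om Ps (w' 2) z = Om Ps (w 2) z)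
    (hcu : CU d η ρ' χ a) (hd1 : d ≤ 1) (hdr : d ≤ r') (hdt : d < t₀) (hη1 : η ≤ 1)
    (hA : 2 * A ≤ α) (hΛ : 0 < Λ) (hΛη : Λ * η ≤ α / 4) (hαc : α ≤ c) (hcC : c ≤ C)
    (hK : 6 * C ≤ K) (hK0 : K₀ ≤ K) (hdδ : d ≤ δ) (hKδ : K * d ^ 2 ≤ δ)
    (hΛδ : Λ * η ^ 2 ≤ δ) (hε1 : 2 * (C * d) ≤ ε) (hε2 : C * d + C * η ≤ ε) (hε3 : ε ≤ 1)
    (hε4 : 16 * (C + 1) * ε ≤ kap2 κ C / 2) :
    ∃ b : Fin 3 → Z2 M, (∀ i x, x ∉ U → val (b i) x = 0) ∧ Seg w' (fun i => w' i + b i) ∧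
      (∀ z ∈ OS r, rho z < ρ' → Om Ps (b 0) z =
        -(Om Ps (w 0) z - FG (fun _ => c) c 0 1 z) +
          FG (fun t => -(Λ * a t)) (-(Λ * a 0)) 0 ρ' z) ∧
      (∀ z ∈ OS r, rho z < ρ' → Om Ps (b 1) z = -(Om Ps (w 1) z - d1 (PB1 l1) z)) ∧
      (∀ z ∈ OS r, rho z < ρ' → Om Ps (b 2) z = -(Om Ps (w 2) z - s • d1 (PB1 l2) z)) := by
  have hdlt : d < r := lt_of_le_of_lt hdr hD.r'_lt
  have hC0 : 0 < C := by linarith
  -- the forms
  have hex : ∀ k, ∃ b : Z2 M, (∀ x, (∀ z ∈ TS r, ‖z.2‖ ≤ d → x ≠ Ps z) → val b x = 0) ∧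
      ∀ z ∈ OS r, Om Ps b z = d1 (fun z => χ (rho z) • β k z) z := by
    intro k
    obtain ⟨b, _, h2, h3⟩ := hE1 σ r Ps G U hT (fun z => χ (rho z) • β k z) d hdlt
      (bas1_chi hcu.smooth hcu.ρ'_pos hcu.one (hB.bas k)) (by
        intro z hz hzd
        show χ (rho z) • β k z = 0
        rw [rho_TS hG hz, hcu.zero _ hzd, zero_smul])
    exact ⟨b, h2, h3⟩
  choose b hb1 hb2 using hex
  have hpa := prof_a hcu Λ
  obtain ⟨b', hb'1, hb'2⟩ := hE2.ext σ r Ps G U hT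
    (FG (fun t => -(Λ * a t)) (-(Λ * a 0)) 0 ρ') d hdlt (hF.bas r _ _ _ _ hpa)
    (fun z hz hzd => hF.supp r _ _ _ _ hpa d (fun t ht => by rw [hcu.zeroa t ht]; simp) z
      (hG.TS_sub r hz) (by rw [rho_TS hG hz]; exact hzd))
  set bb : Fin 3 → Z2 M := ![-(b 0) + b', -(b 1), -(b 2)] with hbb
  have hO0 : ∀ z ∈ OS r, Om Ps (bb 0) z = -(d1 (fun z => χ (rho z) • β 0 z) z) +
      FG (fun t => -(Λ * a t)) (-(Λ * a 0)) 0 ρ' z := by
    intro z hz
    show Om Ps (-(b 0) + b') z = _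
    rw [Om_add, Om_neg, hb2 0 z hz, hb'2 z hz]
  have hO1 : ∀ z ∈ OS r, Om Ps (bb 1) z = -(d1 (fun z => χ (rho z) • β 1 z) z) := by
    intro z hz
    show Om Ps (-(b 1)) z = _
    rw [Om_neg, hb2 1 z hz]
  have hO2 : ∀ z ∈ OS r, Om Ps (bb 2) z = -(d1 (fun z => χ (rho z) • β 2 z) z) := by
    intro z hz
    show Om Ps (-(b 2)) z = _
    rw [Om_neg, hb2 2 z hz]
  have hval_neg : ∀ (a : Z2 M) x, val (-a) x = - val a x := fun a x => rfl
  have hsupp : ∀ i x, (∀ z ∈ TS r, ‖z.2‖ ≤ d → x ≠ Ps z) → val (bb i) x = 0 := by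
    intro i x hx
    fin_cases i
    · show val (-(b 0) + b') x = 0
      rw [val_add, hval_neg, hb1 0 x hx, hb'1 x hx]; simp
    · show val (-(b 1)) x = 0
      rw [hval_neg, hb1 1 x hx]; simp
    · show val (-(b 2)) x = 0
      rw [hval_neg, hb1 2 x hx]; simp
  have hnear : ∀ k, ∀ z ∈ OS r, rho z < ρ' →
      d1 (fun z => χ (rho z) • β k z) z = d1 (β k) z := by
    intro k z hz hzρ
    rw [d1_chi_near hcu.one hz.1 hzρ]
    simp only [one_smul]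
  refine ⟨bb, ?_, ?_, ?_, ?_, ?_⟩
  · intro i x hx
    refine hsupp i x fun z hz _ hxe => hx ?_
    rw [hxe]
    exact hT.maps z (hG.TS_sub r hz)
  · refine seg_of hPF hT hw' bb hdlt hsupp ?_
    intro t ht z hz hzd e he
    rw [posF_iff]
    have hzO := hG.TS_sub r hz
    have hzr : ‖z.2‖ ≤ r' := hzd.trans hdr
    have hρ0 : 0 ≤ ‖z.2‖ := norm_nonneg _
    have H := nh hG hF hR hJ hZ hD hB hz hzr he
    have hrz : rho z = ‖z.2‖ := rho_TS hG hz
    obtain ⟨D0, D1, D2, D3⟩ := dchi hG hcu.smooth hcu.ρ'_pos hcu.one hz he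
    -- entries of the cut-off forms
    have hc0 : ∀ i j, en (d1 (fun z => χ (rho z) • β 0 z) z) z e i j = _ := fun i j =>
      en_chi hcu.smooth hcu.ρ'_pos hcu.one (hB.bas 0) hzO e i j
        (o := en (Om Ps (w 0) z) z e i j) (st := stdE c s z e 0 i j) (by rw [hB.d0 z hzO]; rfl)
    have hc1 : ∀ i j, en (d1 (fun z => χ (rho z) • β 1 z) z) z e i j = _ := fun i j =>
      en_chi hcu.smooth hcu.ρ'_pos hcu.one (hB.bas 1) hzO e i j
        (o := en (Om Ps (w 1) z) z e i j) (st := stdE c s z e 1 i j) (by rw [hB.d1 z hzO]; rfl)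
    have hc2 : ∀ i j, en (d1 (fun z => χ (rho z) • β 2 z) z) z e i j = _ := fun i j =>
      en_chi hcu.smooth hcu.ρ'_pos hcu.one (hB.bas 2) hzO e i j
        (o := en (Om Ps (w 2) z) z e i j) (st := stdE c s z e 2 i j) (by rw [hB.d2 z hzO]; rfl)
    have hE0 : ∀ i j, en (Om Ps (w' 0) z + t • Om Ps (bb 0) z) z e i j =
        EE (fun i j => en (Om Ps (w 0) z) z e i j) (stdE c s z e 0)
          (fun i => β 0 z (X z e i)) (fun i => fderiv ℝ (fun y => χ (rho y)) z (X z e i)) t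
          (χ ‖z.2‖) i j + en (FG h (-A) K t₀ z) z e i j +
          t * en (FG (fun t => -(Λ * a t)) (-(Λ * a 0)) 0 ρ' z) z e i j := by
      intro i j
      rw [en_add, en_smul, hw0 z hzO, hO0 z hzO, en_add, en_add]
      have h1 : en (-(d1 (fun z => χ (rho z) • β 0 z) z)) z e i j =
        -en (d1 (fun z => χ (rho z) • β 0 z) z) z e i j := rfl
      rw [h1, hc0 i j, hrz]
      simp only [EE]
      ring
    have hE1' : ∀ i j, en (Om Ps (w' 1) z + t • Om Ps (bb 1) z) z e i j =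
        EE (fun i j => en (Om Ps (w 1) z) z e i j) (stdE c s z e 1)
          (fun i => β 1 z (X z e i)) (fun i => fderiv ℝ (fun y => χ (rho y)) z (X z e i)) t
          (χ ‖z.2‖) i j := by
      intro i j
      rw [en_add, en_smul, hw1 z hzO, hO1 z hzO]
      have h1 : en (-(d1 (fun z => χ (rho z) • β 1 z) z)) z e i j =
        -en (d1 (fun z => χ (rho z) • β 1 z) z) z e i j := rfl
      rw [h1, hc1 i j, hrz]
      simp only [EE]
      ring
    have hE2' : ∀ i j, en (Om Ps (w' 2) z + t • Om Ps (bb 2) z) z e i j =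
        EE (fun i j => en (Om Ps (w 2) z) z e i j) (stdE c s z e 2)
          (fun i => β 2 z (X z e i)) (fun i => fderiv ℝ (fun y => χ (rho y)) z (X z e i)) t
          (χ ‖z.2‖) i j := by
      intro i j
      rw [en_add, en_smul, hw2 z hzO, hO2 z hzO]
      have h1 : en (-(d1 (fun z => χ (rho z) • β 2 z) z)) z e i j =
        -en (d1 (fun z => χ (rho z) • β 2 z) z) z e i j := rfl
      rw [h1, hc2 i j, hrz]
      simp only [EE]
      ring
    have hCd : C * ‖z.2‖ ≤ C * d := mul_le_mul_of_nonneg_left hzd hC0.le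
    have hρsq : ‖z.2‖ ^ 2 ≤ d ^ 2 := by nlinarith
    have hK' : 0 ≤ K := by linarith
    refine num2 (α := α) (C := C) (κ := kap2 κ C) (K₀ := K₀) (Λ := Λ) (δ := δ) (ρ := ‖z.2‖)
      (c := c) (s := s) (A := A) (h := h ‖z.2‖) (ca := a ‖z.2‖) (K := K) (t := t)
      (χ := χ ‖z.2‖) (χ' := deriv χ ‖z.2‖) (η := η) (ε := ε)
      (e := fun k i j => en (Om Ps (w k) z) z e i j) (std := stdE c s z e)
      (z2 := z2 w Ps z.1 e) (b := fun k i => β k z (X z e i))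
      (D := fun i => fderiv ℝ (fun y => χ (rho y)) z (X z e i))
      (E := fun k i j => en (Om Ps (w' k) z + t • Om Ps (bb k) z) z e i j)
      hC hN H hs hρ0 (hzd.trans hd1) D0 D1 D2 D3 hη1 (hcu.der _) ht.1 ht.2 (hcu.mem _).1
      (hcu.mem _).2 hA (hh _ hρ0).1 (hh _ hρ0).2 (hcu.mema _ hρ0).1 (hcu.mema _ hρ0).2 hΛ hΛη
      hαc hcC hK hK0 (hzd.trans hdδ)
      ((mul_le_mul_of_nonneg_left hρsq hK').trans hKδ) hΛδ (by linarith) (by linarith) hε3 hε4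
      ?_ ?_ ?_ ?_ ?_ ?_ ?_ hE1' hE2'
    · intro τ hτ0 hτ1 F b1 b2 b3 b4 x y
      exact mix hD hZ hs he (hsgn z.1 e he) hτ0 hτ1 H.s102 H.s113 H.s103 H.s112 b1 b2 b3 b4 x y
    · show en (Om Ps (w' 0) z + t • Om Ps (bb 0) z) z e 0 1 = _
      rw [hE0, FG01 hF hp hz he, FG01 hF hpa hz he]
      ring
    · show en (Om Ps (w' 0) z + t • Om Ps (bb 0) z) z e 2 3 = _
      rw [hE0, FG23 hF hp hz he, FG23 hF hpa hz he, gd_a hcu,
        gd_prof hp (lt_of_le_of_lt hzd hdt)]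
      ring
    · show en (Om Ps (w' 0) z + t • Om Ps (bb 0) z) z e 0 2 = _
      rw [hE0, FG02 hF hp hz he, FG02 hF hpa hz he]
      ring
    · show en (Om Ps (w' 0) z + t • Om Ps (bb 0) z) z e 0 3 = _
      rw [hE0, FG03 hF hp hz he, FG03 hF hpa hz he]
      ring
    · show en (Om Ps (w' 0) z + t • Om Ps (bb 0) z) z e 1 2 = _
      rw [hE0, FG12 hF hp hz he, FG12 hF hpa hz he]
      ring
    · show en (Om Ps (w' 0) z + t • Om Ps (bb 0) z) z e 1 3 = _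
      rw [hE0, FG13 hF hp hz he, FG13 hF hpa hz he]
      ring
  · intro z hz hzρ
    rw [hO0 z hz, hnear 0 z hz hzρ, hB.d0 z hz]
  · intro z hz hzρ
    rw [hO1 z hz, hnear 1 z hz hzρ, hB.d1 z hz]
  · intro z hz hzρ
    rw [hO2 z hz, hnear 2 z hz hzρ, hB.d2 z hz]

end Man

end

end Crest.Agent.R235.K12S2d_776
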