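import Crest.Agent.R235.K12S2d_776

/-!
Row 235 (S0364), block K12, analytic assembly (helper776): STEP III, the flat zone.
-/

set_option autoImplicit false
set_option maxSynthPendingDepth 3
set_option linter.unusedSectionVars false

open Set Function Filter MeasureTheory
open scoped Manifold ContDiff Topology RealInnerProductSpace

universe u

namespace Crest.Agent.R235.K12S3_776

open Crest.Agent.R240 Crest.Agent.R240.Ch Crest.Agent.R235 Crest.Agent.R235.K12_417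
  Crest.Agent.R235.K12An_776 Crest.Agent.R235.K12Pos_776 Crest.Agent.R235.K12S1_776
  Crest.Agent.R235.K12Ext_168 Crest.Agent.R235.K12S2a_776 Crest.Agent.R235.K12S2d_776

noncomputable section

/-- the quadratic profile. -/
def qd (c K : ℝ) (t : ℝ) : ℝ := c + K * t ^ 2 / 2

theorem prof_qd (c K : ℝ) {t₀ : ℝ} (h : 0 < t₀) : Prof (qd c K) c K t₀ :=
  ⟨by unfold qd; fun_prop, h, fun _ _ => rfl⟩

theorem prof_add {g g' : ℝ → ℝ} {c K t₀ c' K' t₀' : ℝ} (h : Prof g c K t₀)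
    (h' : Prof g' c' K' t₀') (t : ℝ) {t₁ : ℝ} (h0 : 0 < t₁) (h1 : t₁ ≤ t₀) (h2 : t₁ ≤ t₀') :
    Prof (fun x => g x + t * g' x) (c + t * c') (K + t * K') t₁ := by
  refine ⟨h.smooth.add (contDiff_const.mul h'.smooth), h0, fun x hx => ?_⟩
  rw [h.eq x (hx.trans h1), h'.eq x (hx.trans h2)]
  ring

/-- the Pfaffian of a block diagonal combination. -/
theorem pf_diag {E : Fin 3 → Fin 4 → Fin 4 → ℝ} {a b s : ℝ} (ha : 0 < a) (hb : 0 < b)
    (hs : s = 1 ∨ s = -1)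
    (h001 : E 0 0 1 = a) (h023 : E 0 2 3 = -b) (h002 : E 0 0 2 = 0) (h003 : E 0 0 3 = 0)
    (h012 : E 0 1 2 = 0) (h013 : E 0 1 3 = 0)
    (h101 : E 1 0 1 = 0) (h123 : E 1 2 3 = 0) (h102 : E 1 0 2 = -1) (h103 : E 1 0 3 = 0)
    (h112 : E 1 1 2 = 0) (h113 : E 1 1 3 = -1)
    (h201 : E 2 0 1 = 0) (h223 : E 2 2 3 = 0) (h202 : E 2 0 2 = 0) (h203 : E 2 0 3 = s * (-1))
    (h212 : E 2 1 2 = s * 1) (h213 : E 2 1 3 = 0) (c : Fin 3 → ℝ) (hc : c ≠ 0) :
    pfE (fun i j => ∑ k, c k * E k i j) < 0 := by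
  have hs2 : s * s = 1 := by rcases hs with h | h <;> rw [h] <;> norm_num
  have e : pfE (fun i j => ∑ k, c k * E k i j) =
      -(a * b * c 0 ^ 2 + c 1 ^ 2 + (s * s) * c 2 ^ 2) := by
    simp only [pfE, Fin.sum_univ_three, h001, h023, h002, h003, h012, h013, h101, h123, h102,
      h103, h112, h113, h201, h223, h202, h203, h212, h213]
    ring
  rw [e, hs2]
  have hab : 0 < a * b := mul_pos ha hb
  have h0 : 0 ≤ a * b * c 0 ^ 2 := by positivity
  have h1 : 0 ≤ c 1 ^ 2 := sq_nonneg _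
  have h2 : 0 ≤ c 2 ^ 2 := sq_nonneg _
  by_contra hcon
  have hsum : a * b * c 0 ^ 2 + c 1 ^ 2 + 1 * c 2 ^ 2 ≤ 0 := by linarith
  have e0 : a * b * c 0 ^ 2 = 0 := by linarith
  have e1 : c 1 ^ 2 = 0 := by linarith
  have e2 : c 2 ^ 2 = 0 := by linarith
  have f0 : c 0 = 0 := by
    rcases mul_eq_zero.1 e0 with h | h
    · exact absurd h hab.ne'
    · exact pow_eq_zero_iff (two_ne_zero) |>.1 h
  have f1 : c 1 = 0 := pow_eq_zero_iff (two_ne_zero) |>.1 e1
  have f2 : c 2 = 0 := pow_eq_zero_iff (two_ne_zero) |>.1 e2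
  apply hc
  funext i
  fin_cases i
  · exact f0
  · exact f1
  · exact f2

section Man

variable {M : Type u} [TopologicalSpace M] [T2Space M] [CompactSpace M]
  [ChartedSpace E4 M] [IsManifold 𝓘(ℝ, E4) ∞ M]

variable {σ : E3 → M} {r : ℝ} {Ps : E6 → M} {G : M → E6} {U : Set M}

/-- STEP III. -/
theorem step3 (hG : GEO) (hF : FGL) (hR : RADF) (hPF : PFIFF M)
    (hE2 : K12An_776.EXT2 M) (hFl : FLAT) (hT : Tube σ r Ps G U) {w : Trip M} (hw : Pos3 w)
    {c K ρ₁ s : ℝ} (hc : 0 < c) (hK : 0 < K) (hρ : 0 < ρ₁) (hρr : ρ₁ ≤ r)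
    (hs : s = 1 ∨ s = -1)
    (h0 : ∀ z ∈ OS r, rho z < ρ₁ → Om Ps (w 0) z = FG (qd c K) c K 1 z)
    (h1 : ∀ z ∈ OS r, rho z < ρ₁ → Om Ps (w 1) z = d1 (PB1 l1) z)
    (h2 : ∀ z ∈ OS r, rho z < ρ₁ → Om Ps (w 2) z = s • d1 (PB1 l2) z) :
    ∃ (a : Z2 M) (ρ : ℝ) (g : ℝ → ℝ) (c' K' t₀ t₁ : ℝ), (∀ x, x ∉ U → val a x = 0) ∧
      Seg w (fun i => w i + at0 a i) ∧ 0 < ρ ∧ ρ < ρ₁ ∧ Prof g c' K' t₀ ∧ 0 < c' ∧ 0 < K' ∧
      (∀ t, 0 ≤ t → t < ρ → 0 < g t) ∧ (∀ t, 0 < t → t < ρ → 0 < deriv g t) ∧ 0 < t₁ ∧ t₁ < ρ ∧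
      (∀ t, t₁ ≤ t → t < ρ → g t = t) ∧
      ∀ z ∈ OS r, rho z < ρ₁ → Om Ps (w 0 + a) z = FG g c' K' t₀ z := by
  obtain ⟨t₁, t₂, t₃, g, ht1, ht12, ht23, ht3, hgs, hg3, hgf, hgp, hgd, c', K', t₀, hc', hK', ht0,
    hg0⟩ := hFl c K ρ₁ hc hK hρ
  have hpg : Prof g c' K' t₀ := ⟨hgs, ht0, hg0⟩
  have hpq : Prof (qd c K) c K t₀ := prof_qd c K ht0
  have hpq1 : Prof (qd c K) c K 1 := prof_qd c K one_pos
  have hpd := prof_add hpg hpq (-1) ht0 le_rfl le_rfl
  have ht3r : t₃ < r := lt_of_lt_of_le ht3 hρr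
  obtain ⟨a, ha1, ha2⟩ := hE2.ext σ r Ps G U hT
    (FG (fun x => g x + (-1) * qd c K x) (c' + (-1) * c) (K' + (-1) * K) t₀) t₃ ht3r
    (hF.bas r _ _ _ _ hpd)
    (fun z hz hzd => hF.supp r _ _ _ _ hpd t₃ (fun t ht => by rw [hg3 t ht, qd]; ring) z
      (hG.TS_sub r hz) (by rw [rho_TS hG hz]; exact hzd))
  have hsum : ∀ z ∈ OS r, FG (fun x => g x + (-1) * qd c K x) (c' + (-1) * c) (K' + (-1) * K) t₀ z
      = FG g c' K' t₀ z + (-1 : ℝ) • FG (qd c K) c K t₀ z := fun z hz =>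
    hF.add r g (qd c K) c' K' t₀ c K t₀ hpg hpq (-1) t₀ ht0 le_rfl le_rfl z hz
  have hq1 : ∀ z ∈ OS r, FG (qd c K) c K 1 z = FG (qd c K) c K t₀ z := fun z hz =>
    hF.congr r _ _ c K 1 t₀ hpq1 hpq (rho z + 1) (fun _ _ => rfl) z hz (lt_add_one _)
  have ht2 : 0 < t₂ := ht1.trans ht12
  refine ⟨a, t₂, g, c', K', t₀, t₁, ?_, ?_, ht2, ht23.trans ht3, hpg, hc', hK',
    fun t h _ => hgp t h, fun t h _ => hgd t h, ht1, ht12, fun t h h' => hgf t h h'.le, ?_⟩
  · intro x hx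
    refine ha1 x fun z hz _ hxe => hx ?_
    rw [hxe]
    exact hT.maps z (hG.TS_sub r hz)
  · refine seg_of hPF hT hw (at0 a) ht3r ?_ ?_
    · intro i x hx
      fin_cases i
      · exact ha1 x hx
      · exact val_zero x
      · exact val_zero x
    · intro t ht z hz hzd e he
      rw [posF_iff]
      have hzO := hG.TS_sub r hz
      have hrz : rho z = ‖z.2‖ := rho_TS hG hz
      have hzρ : rho z < ρ₁ := by rw [hrz]; exact lt_of_le_of_lt hzd ht3
      have hρ0 : 0 ≤ ‖z.2‖ := norm_nonneg _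
      have e0 : ∀ i j, en (Om Ps (w 0) z + t • Om Ps (at0 a 0) z) z e i j =
          en (FG (qd c K) c K t₀ z) z e i j + t * en (FG (fun x => g x + (-1) * qd c K x)
            (c' + (-1) * c) (K' + (-1) * K) t₀ z) z e i j := by
        intro i j
        rw [en_add, en_smul, show at0 a 0 = a from rfl, ha2 z hzO, h0 z hzO hzρ, hq1 z hzO]
      have e1 : ∀ i j, en (Om Ps (w 1) z + t • Om Ps (at0 a 1) z) z e i j =
          en (d1 l1 z) z e i j := by
        intro i j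
        rw [show at0 a 1 = 0 from rfl, Om_zero, smul_zero, add_zero, h1 z hzO hzρ,
          en_l1 hG hz he]
      have e2 : ∀ i j, en (Om Ps (w 2) z + t • Om Ps (at0 a 2) z) z e i j =
          s * en (d1 l2 z) z e i j := by
        intro i j
        rw [show at0 a 2 = 0 from rfl, Om_zero, smul_zero, add_zero, h2 z hzO hzρ, en_smul,
          en_l2 hG hz he]
      have hq0 : 0 < qd c K ‖z.2‖ := by unfold qd; positivity
      have ha : 0 < (1 - t) * qd c K ‖z.2‖ + t * g ‖z.2‖ := by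
        have h3 := hgp _ hρ0
        rcases eq_or_lt_of_le ht.1 with h4 | h4
        · rw [← h4]; simpa using hq0
        · have h5 : 0 ≤ (1 - t) * qd c K ‖z.2‖ := mul_nonneg (by linarith [ht.2]) hq0.le
          have h6 : 0 < t * g ‖z.2‖ := mul_pos h4 h3
          linarith
      -- the entry `23`
      have hbv : gd (qd c K) K ‖z.2‖ + t * gd (fun x => g x + (-1) * qd c K x) (K' + (-1) * K)
          ‖z.2‖ = (1 - t) * K + t * gd g K' ‖z.2‖ := by
        rw [gd_prof (prof_qd c K (by positivity : 0 < ‖z.2‖ + 1)) (lt_add_one _)]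
        have h5 : gd (fun x => g x + (-1) * qd c K x) (K' + (-1) * K) ‖z.2‖ =
            gd g K' ‖z.2‖ - K := by
          unfold gd
          split_ifs with h6
          · ring
          · have h7 : HasDerivAt g (deriv g ‖z.2‖) ‖z.2‖ :=
              (hgs.differentiable (by simp)).differentiableAt.hasDerivAt
            have h8 : HasDerivAt (qd c K) (deriv (qd c K) ‖z.2‖) ‖z.2‖ :=
              (hpq.smooth.differentiable (by simp)).differentiableAt.hasDerivAt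
            have h9 := h7.add (h8.const_mul (-1))
            have h10 : deriv (fun x => g x + (-1) * qd c K x) ‖z.2‖ =
              deriv g ‖z.2‖ + (-1) * deriv (qd c K) ‖z.2‖ := h9.deriv
            rw [h10, deriv_prof (prof_qd c K (by positivity : 0 < ‖z.2‖ + 1)) (lt_add_one _)]
            field_simp
            ring
        rw [h5]; ring
      have hb : 0 < (1 - t) * K + t * gd g K' ‖z.2‖ := by
        have h3 : 0 < gd g K' ‖z.2‖ := by
          unfold gd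
          split_ifs with h6
          · exact hK'
          · have h7 : 0 < ‖z.2‖ := lt_of_le_of_ne hρ0 (Ne.symm h6)
            exact div_pos (hgd _ h7) h7
        rcases eq_or_lt_of_le ht.1 with h4 | h4
        · rw [← h4]; simpa using hK
        · have h5 : 0 ≤ (1 - t) * K := mul_nonneg (by linarith [ht.2]) hK.le
          have h6 : 0 < t * gd g K' ‖z.2‖ := mul_pos h4 h3
          linarith
      refine pf_diag ha hb hs ?_ ?_ ?_ ?_ ?_ ?_ ?_ ?_ ?_ ?_ ?_ ?_ ?_ ?_ ?_ ?_ ?_ ?_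
      · rw [e0, FG01 hF hpq hz he, FG01 hF hpd hz he]; ring
      · rw [e0, FG23 hF hpq hz he, FG23 hF hpd hz he, ← hbv]; ring
      · rw [e0, FG02 hF hpq hz he, FG02 hF hpd hz he]; ring
      · rw [e0, FG03 hF hpq hz he, FG03 hF hpd hz he]; ring
      · rw [e0, FG12 hF hpq hz he, FG12 hF hpd hz he]; ring
      · rw [e0, FG13 hF hpq hz he, FG13 hF hpd hz he]; ring
      · rw [e1, hR.l1f _ r e hz he]; simp
      · rw [e1, hR.l1f _ r e hz he]; simp
      · rw [e1, hR.l1f _ r e hz he]; simp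
      · rw [e1, hR.l1f _ r e hz he]; simp
      · rw [e1, hR.l1f _ r e hz he]; simp
      · rw [e1, hR.l1f _ r e hz he]; simp
      · rw [e2, hR.l2f _ r e hz he]; simp
      · rw [e2, hR.l2f _ r e hz he]; simp
      · rw [e2, hR.l2f _ r e hz he]; simp
      · rw [e2, hR.l2f _ r e hz he]; simp
      · rw [e2, hR.l2f _ r e hz he]; simp
      · rw [e2, hR.l2f _ r e hz he]; simp
  · intro z hz hzρ
    rw [Om_add, ha2 z hz, h0 z hz hzρ, hsum z hz, hq1 z hz]
    module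

end Man

end

end Crest.Agent.R235.K12S3_776
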