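import Crest.Agent.R235.K12StdA_235

/-!
Row 235 (S0364), block K12, leaf STDL (helper235), part B: the standard data `LStd` of one
standardised sphere (`Out1 ⇒ LStd`).
-/

set_option autoImplicit false
set_option maxSynthPendingDepth 3
set_option linter.unusedSectionVars false

open Set Function Filter MeasureTheory
open scoped Manifold ContDiff Topology RealInnerProductSpace

universe u

namespace Crest.Agent.R235.K12Std_235

open Crest.Agent.R240 Crest.Agent.R240.Ch Crest.Agent.R235 Crest.Agent.R235.K12_417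
  Crest.Agent.R235.PB_604 Crest.Agent.R235.K12An_776 Crest.Agent.R235.K12Ext_168

noncomputable section

variable {M : Type u} [TopologicalSpace M] [T2Space M] [CompactSpace M]
  [ChartedSpace E4 M] [IsManifold 𝓘(ℝ, E4) ∞ M]

/-- the standard data of one sphere. -/
structure LStd (w : Trip M) (σ : E3 → M) (U : Set M) (φ : E4 → M) (s R r₀ : ℝ) (g : ℝ → ℝ) :
    Prop where
  smooth : ContMDiffOn 𝓘(ℝ, E4) 𝓘(ℝ, E4) ∞ φ (KT_604.PB 1)
  even : ∀ z ∈ KT_604.PB 1, φ (-z) = φ z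
  inj : ∀ z ∈ KT_604.PB 1, ∀ z' ∈ KT_604.PB 1, φ z = φ z' → z' = z ∨ z' = -z
  imm : ∀ z ∈ KT_604.PB 1, ∀ v : E4, dmap φ z v = 0 → v = 0
  out : ∀ z ∈ KT_604.PB 1, φ z ∉ im σ
  mapsU : ∀ z ∈ KT_604.PB 1, φ z ∈ U
  imU : im σ ⊆ U
  nbh : ∀ (r : ℝ), 0 < r → r ≤ 1 → IsOpen (im σ ∪ φ '' KT_604.PB r)
  shrink : ∀ (O : Set M), IsOpen O → im σ ⊆ O →
    ∃ r : ℝ, 0 < r ∧ r ≤ 1 ∧ φ '' KT_604.PB r ⊆ O
  sgn : s = 1 ∨ s = -1
  R_pos : 0 < R
  r_pos : 0 < r₀ ∧ r₀ < 1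
  w1 : ∀ z ∈ KT_604.PB 1, ∀ u v : E4,
    val (w 1) (φ z) (dmap φ z u) (dmap φ z v) = R * ⟪qJ u, v⟫
  w2 : ∀ z ∈ KT_604.PB 1, ∀ u v : E4,
    val (w 2) (φ z) (dmap φ z u) (dmap φ z v) = s * R * ⟪qK u, v⟫
  w0 : ∀ z ∈ KT_604.PB 1, ∀ u v : E4,
    val (w 0) (φ z) (dmap φ z u) (dmap φ z v) = R * d1 (lg g) z u v
  g_smooth : ContDiffOn ℝ ∞ g (Ioi 0)
  g_pos : ∀ t, 0 < t → t < 1 → 0 < g t ∧ 0 < deriv g t
  g_flat : ∀ t, r₀ ^ 2 ≤ t → t < 1 → g t = t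

lemma isOpen_PB : IsOpen (KT_604.PB 1) := by
  have : KT_604.PB 1 = {0}ᶜ ∩ Metric.ball (0 : E4) 1 := by
    ext y; simp [KT_604.PB]
  rw [this]
  exact isOpen_compl_singleton.inter Metric.isOpen_ball

lemma PB_mono {r : ℝ} (hr : r ≤ 1) : KT_604.PB r ⊆ KT_604.PB 1 :=
  fun _ hz => ⟨hz.1, hz.2.trans_le hr⟩

lemma zero_mem_TS {y : E3} (hy : ‖y‖ = 1) {r : ℝ} (hr : 0 < r) : ((y, 0) : E6) ∈ TS r :=
  ⟨hy, inner_zero_right y, by simpa using hr⟩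

variable {σ : E3 → M} {r : ℝ} {Ps : E6 → M} {G : M → E6} {U : Set M}

lemma im_subset (h : Tube σ r Ps G U) : im σ ⊆ U := by
  rintro _ ⟨y, hy, rfl⟩
  have hy' : ‖y‖ = 1 := by simpa using hy
  rw [← h.zero y hy']
  exact h.maps _ (TS_subset_OS r (zero_mem_TS hy' h.r_pos))

lemma G_im (h : Tube σ r Ps G U) {y : E3} (hy : ‖y‖ = 1) : G (σ y) = (y, 0) := by
  rw [← h.zero y hy, h.right _ (TS_subset_OS r (zero_mem_TS hy h.r_pos)),
    Pi_of_TS (zero_mem_TS hy h.r_pos)]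

lemma G_nk (h : Tube σ r Ps G U) (hF : PHI) {ρ : ℝ} (hρ : 0 < ρ) (hr : ρ < r) {z : E4}
    (hz : z ∈ KT_604.PB 1) : G (nk Ps ρ z) = hh ρ z := by
  show G (Ps (hh ρ z)) = _
  rw [h.right _ (hh_OS hF hρ hr hz), Pi_hh hF hρ hz.1]

/-- the neighbourhoods of the sphere. -/
lemma nbh_eq (h : Tube σ r Ps G U) (hF : PHI) {ρ : ℝ} (hρ : 0 < ρ) (hr : ρ < r) {a : ℝ}
    (ha : 0 < a) (ha1 : a ≤ 1) :
    im σ ∪ nk Ps ρ '' KT_604.PB a = U ∩ G ⁻¹' {y : E6 | ‖y.2‖ < ρ * a ^ 2} := by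
  ext x
  constructor
  · rintro (hx | ⟨z, hz, rfl⟩)
    · refine ⟨im_subset h hx, ?_⟩
      obtain ⟨y, hy, rfl⟩ := hx
      have hy' : ‖y‖ = 1 := by simpa using hy
      show ‖(G (σ y)).2‖ < _
      rw [G_im h hy']
      simp only [norm_zero]
      positivity
    · have hz1 := PB_mono ha1 hz
      refine ⟨h.maps _ (hh_OS hF hρ hr hz1), ?_⟩
      show ‖(G (nk Ps ρ z)).2‖ < _
      rw [G_nk h hF hρ hr hz1, norm_hh2 hF hρ hz.1]
      have h1 : ‖z‖ ^ 2 < a ^ 2 := by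
        have := norm_nonneg z
        have := hz.2
        nlinarith
      exact mul_lt_mul_of_pos_left h1 hρ
  · rintro ⟨hxU, hx⟩
    have hx' : ‖(G x).2‖ < ρ * a ^ 2 := hx
    have hT := h.mapsG x hxU
    by_cases hp : (G x).2 = 0
    · left
      refine ⟨(G x).1, by simpa using hT.1, ?_⟩
      rw [← h.zero _ hT.1, ← hp]
      exact h.left x hxU
    · right
      obtain ⟨z, hz0, hz⟩ := hF.surj (G x).1 (G x).2 ρ hT.1 hT.2.1 hp hρ
      refine ⟨z, ⟨hz0, ?_⟩, ?_⟩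
      · have h1 := norm_hh2 hF hρ hz0
        rw [hz] at h1
        have h2 : ρ * ‖z‖ ^ 2 < ρ * a ^ 2 := by rw [← h1]; exact hx'
        have h3 : ‖z‖ ^ 2 < a ^ 2 := lt_of_mul_lt_mul_left h2 hρ.le
        exact lt_of_pow_lt_pow_left₀ 2 ha.le h3
      · show Ps (hh ρ z) = x
        rw [hz]
        exact h.left x hxU

lemma nbh_open (h : Tube σ r Ps G U) (c : ℝ) : IsOpen (U ∩ G ⁻¹' {y : E6 | ‖y.2‖ < c}) :=
  h.smoothG.continuousOn.isOpen_inter_preimage h.openU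
    (isOpen_lt continuous_snd.norm continuous_const)

lemma shrink_nk (h : Tube σ r Ps G U) (hF : PHI) {ρ : ℝ} (hρ : 0 < ρ) (_hr : ρ < r) {O : Set M}
    (hO : IsOpen O) (hσ : im σ ⊆ O) :
    ∃ a : ℝ, 0 < a ∧ a ≤ 1 ∧ nk Ps ρ '' KT_604.PB a ⊆ O := by
  have hK := isCompact_TSle 0
  have hop : IsOpen (OS r ∩ Ps ⁻¹' O) :=
    h.smooth.continuousOn.isOpen_inter_preimage (isOpen_OS r) hO
  have hsub : {z : E6 | ‖z.1‖ = 1 ∧ ⟪z.1, z.2⟫ = 0 ∧ ‖z.2‖ ≤ 0} ⊆ OS r ∩ Ps ⁻¹' O := by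
    rintro ⟨y, p⟩ ⟨h1, h2, h3⟩
    have hp : p = 0 := by simpa using h3
    subst hp
    refine ⟨TS_subset_OS r (zero_mem_TS h1 h.r_pos), ?_⟩
    show Ps (y, 0) ∈ O
    rw [h.zero y h1]
    exact hσ ⟨y, by simpa using h1, rfl⟩
  obtain ⟨δ, hδ, hth⟩ := hK.exists_thickening_subset_open hop hsub
  refine ⟨min 1 (Real.sqrt (δ / (2 * ρ))), by positivity, min_le_left _ _, ?_⟩
  rintro _ ⟨z, hz, rfl⟩
  set a := min 1 (Real.sqrt (δ / (2 * ρ))) with ha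
  have hz1 : z ∈ KT_604.PB 1 := PB_mono (min_le_left _ _) hz
  have h1 : ‖z‖ ^ 2 < δ / ρ := by
    have h2 : ‖z‖ < Real.sqrt (δ / (2 * ρ)) := hz.2.trans_le (min_le_right _ _)
    have h3 : ‖z‖ ^ 2 < Real.sqrt (δ / (2 * ρ)) ^ 2 := by
      have := norm_nonneg z
      nlinarith
    rw [Real.sq_sqrt (by positivity)] at h3
    refine h3.trans_le ?_
    rw [div_le_div_iff₀ (by positivity) hρ]
    nlinarith
  have h4 : hh ρ z ∈ Metric.thickening δ {z : E6 | ‖z.1‖ = 1 ∧ ⟪z.1, z.2⟫ = 0 ∧ ‖z.2‖ ≤ 0} := by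
    rw [Metric.mem_thickening_iff]
    have hT := hh_PB hF hρ hz1
    refine ⟨((hh ρ z).1, 0), ⟨hT.1, inner_zero_right _, by simp⟩, ?_⟩
    rw [Prod.dist_eq, dist_self, dist_eq_norm]
    simp only [sub_zero]
    rw [norm_hh2 hF hρ hz.1]
    refine max_lt hδ ?_
    rw [lt_div_iff₀ hρ] at h1
    linarith
  exact (hth h4).2

theorem lstd_of (hF : PHI) (hL : FGL) (hR : RADF) {w' : Trip M} {O : Set M}
    {ρ s : ℝ} {g : ℝ → ℝ} {c K t₀ t₁ : ℝ} (h : Out1 w' σ O r Ps G U ρ s g c K t₀ t₁) :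
    LStd w' σ U (nk Ps ρ) (-s) (4 * ρ) (Real.sqrt (t₁ / ρ)) (fun t => g (ρ * t) / ρ) := by
  have hT := h.tube
  have hρ := h.ρ_pos
  have hr := h.ρ_lt
  refine ⟨?_, ?_, ?_, ?_, ?_, ?_, ?_, ?_, ?_, ?_, ?_, ?_, ?_, ?_, ?_, ?_, ?_, ?_⟩
  · intro z hz
    exact ((smoothAt hT (hh_OS hF hρ hr hz)).comp z
      (hh_contMDiffAt hF ρ hz.1)).contMDiffWithinAt
  · intro z _
    show Ps (hh ρ (-z)) = Ps (hh ρ z)
    rw [hF.even]
  · intro z hz z' hz' he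
    refine hF.inj z z' ρ hz.1 hz'.1 hρ.ne' ?_
    rw [← G_nk hT hF hρ hr hz, he, G_nk hT hF hρ hr hz']
  · intro z hz v hv
    exact imm_nk hT hF hρ hr hz hv
  · rintro z hz ⟨y, hy, he⟩
    have hy' : ‖y‖ = 1 := by simpa using hy
    have h1 := G_nk hT hF hρ hr hz
    rw [← he, G_im hT hy'] at h1
    exact hh2_ne hF hρ hz.1 (by rw [← h1])
  · intro z hz
    exact hT.maps _ (hh_OS hF hρ hr hz)
  · exact im_subset hT
  · intro a ha ha1
    rw [nbh_eq hT hF hρ hr ha ha1]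
    exact nbh_open hT _
  · intro O' hO' hσ
    exact shrink_nk hT hF hρ hr hO' hσ
  · rcases h.sgn with hs | hs
    · right; rw [hs]
    · left; rw [hs, neg_neg]
  · positivity
  · have h1 : t₁ / ρ < 1 := by rw [div_lt_one hρ]; exact h.t_lt
    refine ⟨Real.sqrt_pos.2 (div_pos h.t_pos hρ), ?_⟩
    rw [Real.sqrt_lt' one_pos]
    linarith
  · intro z hz u v
    rw [val_nk hT hF hρ hr hz, h.one _ (TS_subset_OS ρ (hh_PB hF hρ hz)),
      d1_l1_hh hF hρ hz.1]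
  · intro z hz u v
    rw [val_nk hT hF hρ hr hz, h.two _ (TS_subset_OS ρ (hh_PB hF hρ hz))]
    show s * d1 (PB1 l2) (hh ρ z) (fderiv ℝ (hh ρ) z u) (fderiv ℝ (hh ρ) z v) = _
    rw [d1_l2_hh hF hρ hz.1]
    ring
  · intro z hz u v
    rw [val_nk hT hF hρ hr hz, h.zero _ (TS_subset_OS ρ (hh_PB hF hρ hz)),
      FG_hh hL hR hF hρ h.prof hz.1]
  · refine ContDiff.contDiffOn ?_
    exact (h.prof.smooth.comp (contDiff_const.mul contDiff_id)).div_const ρ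
  · intro t ht ht1
    have h1 : 0 < ρ * t := by positivity
    have h2 : ρ * t < ρ := by nlinarith
    have h3 : deriv (fun t => g (ρ * t) / ρ) t = deriv g (ρ * t) := by
      have h4 : HasDerivAt g (deriv g (ρ * t)) (ρ * t) :=
        (h.prof.smooth.differentiable (by simp)).differentiableAt.hasDerivAt
      have h5 : HasDerivAt (fun t => ρ * t) ρ t := by
        simpa using (hasDerivAt_id t).const_mul ρ
      have h6 := (h4.comp t h5).div_const ρ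
      have h7 : deriv (fun t => g (ρ * t) / ρ) t = deriv g (ρ * t) * ρ / ρ := h6.deriv
      rw [h7]
      field_simp
    refine ⟨div_pos (h.g_pos _ h1.le h2) hρ, ?_⟩
    rw [h3]
    exact h.g_deriv _ h1 h2
  · intro t ht ht1
    rw [Real.sq_sqrt (div_pos h.t_pos hρ).le, div_le_iff₀ hρ] at ht
    have h2 : ρ * t < ρ := by nlinarith
    show g (ρ * t) / ρ = t
    rw [h.flat (ρ * t) (by linarith) h2]
    field_simp

end

end Crest.Agent.R235.K12Std_235
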