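import Crest.Agent.R235.K12StdB_235
import Crest.Agent.R235.IndTriA_451

/-!
Row 235 (S0364), block K12, leaf STDL (helper235), part C: the sign of a positive triple on a
connected manifold is constant.
-/

set_option autoImplicit false
set_option maxSynthPendingDepth 3
set_option linter.unusedSectionVars false

open Set Function Filter MeasureTheory
open scoped Manifold ContDiff Topology RealInnerProductSpace

universe u

namespace Crest.Agent.R235.K12Std_235

open Crest.Agent.R240 Crest.Agent.R240.Ch Crest.Agent.R235 Crest.Agent.R235.K12_417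
  Crest.Agent.R235.PB_604 Crest.Agent.R235.K12An_776 Crest.Agent.R235.K12Ext_168
  Crest.Agent.R235.IndTri_451

noncomputable section

/-! ### pointwise -/

/-- positive triples of two-forms at a point. -/
def Po (b : Fin 3 → Bil) : Prop :=
  (∀ i, Alt (b i)) ∧ ∀ c : Fin 3 → ℝ, c ≠ 0 → W (∑ i, c i • b i) (∑ i, c i • b i) ≠ 0

/-- `b 2 (u, b₀⁻¹ b₁ u)`. -/
def Q (b : Fin 3 → Bil) (u : E4) : ℝ := b 2 u (quo (b 0) (b 1) u)

lemma Po.w0 {b : Fin 3 → Bil} (hb : Po b) : W (b 0) (b 0) ≠ 0 := by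
  have h := hb.2 ![1, 0, 0] (by
    intro h
    have := congrFun h 0
    simp at this)
  simpa [Fin.sum_univ_three] using h

lemma Po.alt {b : Fin 3 → Bil} (hb : Po b) (c : Fin 3 → ℝ) : Alt (∑ i, c i • b i) := by
  intro v
  simp only [_root_.sum_apply, _root_.smul_apply, hb.1 _ v, smul_zero, Finset.sum_const_zero]

lemma Po.inj {b : Fin 3 → Bil} (hb : Po b) {c : Fin 3 → ℝ} {u : E4} (hu : u ≠ 0)
    (h : ∀ y, ∑ i, c i * b i u y = 0) : c = 0 := by
  by_contra hc
  refine hu (nondeg (hb.alt c) (hb.2 c hc) (x := u) (y := 0) fun v => ?_)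
  have h1 := h v
  simp only [_root_.sum_apply, _root_.smul_apply, smul_eq_mul, map_zero, _root_.zero_apply]
  exact h1

lemma Q_ne {b : Fin 3 → Bil} (hb : Po b) {u : E4} (hu : u ≠ 0) : Q b u ≠ 0 := by
  intro hQ
  set v := quo (b 0) (b 1) u with hv
  have h0 : ∀ y, b 0 v y = b 1 u y := fun y => b_quo (hb.1 0) hb.w0 (b 1) u y
  -- `u`, `v` are independent
  have hli : LinearIndependent ℝ ![u, v] := by
    rw [LinearIndependent.pair_iff]
    intro s t hst
    by_contra hne
    have ht : t ≠ 0 := by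
      intro ht
      rw [ht, zero_smul, add_zero] at hst
      rcases smul_eq_zero.1 hst with h | h
      · exact hne ⟨h, ht⟩
      · exact hu h
    have h1 : v = (-(s / t)) • u := by
      have h2 : t • v = -(s • u) := eq_neg_of_add_eq_zero_right hst
      have h3 : v = t⁻¹ • (t • v) := by rw [smul_smul, inv_mul_cancel₀ ht, one_smul]
      rw [h3, h2]
      module
    have h4 : (![-(s / t), -1, 0] : Fin 3 → ℝ) = 0 := by
      refine hb.inj hu fun y => ?_
      rw [Fin.sum_univ_three]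
      have h5 := h0 y
      rw [h1, map_smul, _root_.smul_apply, smul_eq_mul] at h5
      simp only [Matrix.cons_val_zero, Matrix.cons_val_one, Matrix.cons_val]
      linarith
    have h6 := congrFun h4 1
    simp at h6
  -- the map `y ↦ (b i u y)`
  set T : E4 →ₗ[ℝ] (Fin 3 → ℝ) := LinearMap.pi fun i => (b i u : E4 →ₗ[ℝ] ℝ) with hT
  have hTa : ∀ y i, T y i = b i u y := fun y i => rfl
  have hker : Submodule.span ℝ (Set.range ![u, v]) ≤ LinearMap.ker T := by
    rw [Submodule.span_le]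
    rintro _ ⟨j, rfl⟩
    rw [SetLike.mem_coe, LinearMap.mem_ker]
    funext i
    fin_cases j
    · show b i u u = 0
      exact hb.1 i u
    · show b i u v = 0
      fin_cases i
      · show b 0 u v = 0
        rw [(hb.1 0).swap, h0, hb.1 1 u, neg_zero]
      · show b 1 u v = 0
        rw [← h0 v, hb.1 0 v]
      · exact hQ
  have h1 : 2 ≤ Module.finrank ℝ (LinearMap.ker T) := by
    have h2 := Submodule.finrank_mono hker
    rw [finrank_span_eq_card hli, Fintype.card_fin] at h2
    exact h2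
  have h3 := LinearMap.finrank_range_add_finrank_ker T
  rw [finrank_euclideanSpace_fin] at h3
  have h4 : LinearMap.range T < ⊤ := by
    rw [lt_top_iff_ne_top]
    intro h5
    rw [h5, finrank_top, Module.finrank_fin_fun] at h3
    omega
  obtain ⟨f, hf, hfr⟩ := Submodule.exists_le_ker_of_lt_top _ h4
  have h6 : (fun i => f (Pi.single i 1)) = (0 : Fin 3 → ℝ) := by
    refine hb.inj hu fun y => ?_
    have h7 : f (T y) = 0 := hfr (LinearMap.mem_range_self T y)
    rw [← h7]
    conv_rhs => rw [← Finset.univ_sum_single (T y)]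
    rw [map_sum]
    refine Finset.sum_congr rfl fun i _ => ?_
    rw [← hTa]
    have h8 : (Pi.single i (T y i) : Fin 3 → ℝ) =
        (T y i) • (Pi.single i (1 : ℝ) : Fin 3 → ℝ) := by
      funext j
      by_cases hj : j = i
      · subst hj; simp
      · simp [hj]
    rw [h8, map_smul, smul_eq_mul, mul_comm]
  refine hf ?_
  refine LinearMap.pi_ext' fun i => ?_
  ext
  exact congrFun h6 i

lemma Q_continuous (b : Fin 3 → Bil) : Continuous (Q b) := by
  unfold Q
  exact (b 2).continuous.clm_apply (quo (b 0) (b 1)).continuous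

lemma Q_sign {b : Fin 3 → Bil} (hb : Po b) :
    (∀ u : E4, u ≠ 0 → 0 < Q b u) ∨ (∀ u : E4, u ≠ 0 → Q b u < 0) := by
  have hconn : IsPreconnected ({0}ᶜ : Set E4) :=
    (isConnected_compl_singleton_of_one_lt_rank (by
      rw [← Module.finrank_eq_rank, finrank_euclideanSpace_fin]; norm_num) 0).isPreconnected
  by_contra hcon
  push Not at hcon
  obtain ⟨⟨u, hu, hu1⟩, ⟨v, hv, hv1⟩⟩ := hcon
  have h1 : (0 : ℝ) ∈ Q b '' ({0}ᶜ : Set E4) := by
    have h2 := hconn.intermediate_value (a := u) (b := v) hu hv (Q_continuous b).continuousOn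
    exact h2 ⟨hu1, hv1⟩
  obtain ⟨x, hx, hx0⟩ := h1
  exact Q_ne hb hx hx0

lemma Po.pull {b : Fin 3 → Bil} (hb : Po b) {A : E4 →L[ℝ] E4} (hA : Function.Injective A) :
    Po (fun i => R240.pull A (b i)) := by
  have hdet : LinearMap.det (A : E4 →ₗ[ℝ] E4) ≠ 0 := by
    intro h
    have h2 : LinearMap.ker (A : E4 →ₗ[ℝ] E4) = ⊥ := LinearMap.ker_eq_bot.2 hA
    exact (LinearMap.bot_lt_ker_of_det_eq_zero h).ne' h2
  refine ⟨fun i => (hb.1 i).pull A, fun c hc => ?_⟩
  have h1 : (∑ i, c i • R240.pull A (b i)) = R240.pull A (∑ i, c i • b i) := by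
    ext u v
    simp only [_root_.sum_apply, _root_.smul_apply, pull_apply]
  rw [h1, W_pull (hb.alt c) (hb.alt c)]
  exact mul_ne_zero hdet (hb.2 c hc)

lemma Q_pull {b : Fin 3 → Bil} (hb : Po b) {A : E4 →L[ℝ] E4} (hA : Function.Injective A)
    (u : E4) : Q (fun i => R240.pull A (b i)) u = Q b (A u) := by
  have hs : Function.Surjective A :=
    (LinearMap.injective_iff_surjective (f := (A : E4 →ₗ[ℝ] E4))).1 hA
  obtain ⟨x, hx⟩ := hs (quo (b 0) (b 1) (A u))
  have h1 : x = quo (R240.pull A (b 0)) (R240.pull A (b 1)) u := by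
    refine eq_quo ((hb.pull hA).1 0) (hb.pull hA).w0 fun v => ?_
    rw [pull_apply, pull_apply, hx, b_quo (hb.1 0) hb.w0]
  show R240.pull A (b 2) u (quo (R240.pull A (b 0)) (R240.pull A (b 1)) u) = _
  rw [← h1, pull_apply, hx]
  rfl

lemma Q_contAt {X : Type*} [TopologicalSpace X] {b : X → Fin 3 → Bil} {x₀ : X}
    (hb : ∀ i, ContinuousAt (fun x => b x i) x₀) (h0 : W (b x₀ 0) (b x₀ 0) ≠ 0) (u : E4) :
    ContinuousAt (fun x => Q (b x) u) x₀ := by
  have he : ∀ i j k, ContinuousAt (fun x => ent (b x k) i j) x₀ := by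
    intro i j k
    unfold ent
    exact ((hb k).clm_apply continuousAt_const).clm_apply continuousAt_const
  have hW : ContinuousAt (fun x => W (b x 0) (b x 0)) x₀ := by
    unfold W
    fun_prop
  have hstm : ∀ i j, ContinuousAt (fun x => stm (b x 0) i j) x₀ := by
    intro i j
    fin_cases i <;> fin_cases j <;> simp [stm] <;> fun_prop
  have hc : ∀ v, ContinuousAt (fun x => b x 1 u v) x₀ := fun v =>
    ((hb 1).clm_apply continuousAt_const).clm_apply continuousAt_const
  have hq : ∀ k, ContinuousAt (fun x => (quo (b x 0) (b x 1) u) k) x₀ := by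
    intro k
    simp only [quo_apply]
    refine ContinuousAt.mul ?_ ?_
    · exact ContinuousAt.div continuousAt_const hW h0
    · refine tendsto_finsetSum _ fun i _ => ?_
      exact (hc _).mul (hstm i k)
  have hq' : ContinuousAt (fun x => quo (b x 0) (b x 1) u) x₀ := by
    have h2 : (fun x => quo (b x 0) (b x 1) u) = fun x =>
        (quo (b x 0) (b x 1) u) 0 • ee 0 + (quo (b x 0) (b x 1) u) 1 • ee 1 +
        (quo (b x 0) (b x 1) u) 2 • ee 2 + (quo (b x 0) (b x 1) u) 3 • ee 3 := by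
      funext x
      exact sum_ee _
    rw [h2]
    exact ((((hq 0).smul continuousAt_const).add ((hq 1).smul continuousAt_const)).add
      ((hq 2).smul continuousAt_const)).add ((hq 3).smul continuousAt_const)
  unfold Q
  exact ((hb 2).clm_apply continuousAt_const).clm_apply hq'

/-! ### on the manifold -/

section Man

variable {M : Type u} [TopologicalSpace M] [T2Space M] [CompactSpace M]
  [ChartedSpace E4 M] [IsManifold 𝓘(ℝ, E4) ∞ M]

lemma po_of {w : Trip M} (hw : Pos3 w) (x : M) : Po (fun i => val (w i) x) :=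
  ⟨fun i v => (w i).1.2.1 x v, fun c hc => hw x c hc⟩

lemma rep_eq_pull (a : Z2 M) {p x : M} (hx : x ∈ (chartAt E4 p).source) :
    rep p (a.1.1 : F2 E4 M) (chartAt E4 p x) = R240.pull (tcc p x x) (val a x) := by
  ext u v
  rw [rep_apply, (chartAt E4 p).left_inv hx, pull_apply]
  rfl

/-- the sign is locally constant. -/
lemma sign_open {w : Trip M} (hw : Pos3 w) (s : ℝ) (hs : s = 1 ∨ s = -1) :
    IsOpen {x : M | ∀ u : E4, u ≠ 0 → 0 < s * Q (fun i => val (w i) x) u} := by
  rw [isOpen_iff_mem_nhds]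
  intro x₀ hx₀
  have hsrc := mem_chart_source E4 x₀
  have hee : ee 0 ≠ 0 := by
    intro h
    have := congrFun (congrArg (fun v : E4 => (v : Fin 4 → ℝ)) h) 0
    simp at this
  have hinj : ∀ x ∈ (chartAt E4 x₀).source, Function.Injective (tcc (E := E4) x₀ x x) := by
    intro x hx u v h
    have := congrArg (tcc (E := E4) x x₀ x) h
    rwa [tcc_cancel hx, tcc_cancel hx] at this
  have hcont : ∀ i, ContinuousAt
      (fun x => rep x₀ ((w i).1.1 : F2 E4 M) (chartAt E4 x₀ x)) x₀ := by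
    intro i
    have h1 : ContinuousAt (rep x₀ ((w i).1.1 : F2 E4 M)) (chartAt E4 x₀ x₀) :=
      (((w i).1.2.2 x₀).contDiffAt ((chartAt E4 x₀).open_target.mem_nhds
        ((chartAt E4 x₀).map_source hsrc))).continuousAt
    exact ContinuousAt.comp (g := rep x₀ ((w i).1.1 : F2 E4 M)) (f := chartAt E4 x₀) h1
      ((chartAt E4 x₀).continuousAt hsrc)
  have hpt : ∀ x ∈ (chartAt E4 x₀).source,
      (fun i => rep x₀ ((w i).1.1 : F2 E4 M) (chartAt E4 x₀ x)) =
        fun i => R240.pull (tcc x₀ x x) (val (w i) x) := by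
    intro x hx
    funext i
    exact rep_eq_pull (w i) hx
  have hpo0 : Po (fun i => rep x₀ ((w i).1.1 : F2 E4 M) (chartAt E4 x₀ x₀)) := by
    rw [hpt x₀ hsrc]
    exact (po_of hw x₀).pull (hinj x₀ hsrc)
  have hQ := Q_contAt (X := M)
    (b := fun x i => rep x₀ ((w i).1.1 : F2 E4 M) (chartAt E4 x₀ x)) hcont hpo0.w0 (ee 0)
  have hval : ∀ x ∈ (chartAt E4 x₀).source,
      Q (fun i => rep x₀ ((w i).1.1 : F2 E4 M) (chartAt E4 x₀ x)) (ee 0) =
        Q (fun i => val (w i) x) (tcc x₀ x x (ee 0)) := by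
    intro x hx
    rw [hpt x hx]
    exact Q_pull (po_of hw x) (hinj x hx) (ee 0)
  have hne : ∀ x ∈ (chartAt E4 x₀).source, tcc (E := E4) x₀ x x (ee 0) ≠ 0 := by
    intro x hx h
    exact hee (hinj x hx (by rw [h, map_zero]))
  have hpos : 0 < s * Q (fun i => rep x₀ ((w i).1.1 : F2 E4 M) (chartAt E4 x₀ x₀)) (ee 0) := by
    rw [hval x₀ hsrc]
    exact hx₀ _ (hne x₀ hsrc)
  have hev := (continuousAt_const.mul hQ).eventually (lt_mem_nhds hpos)
  filter_upwards [hev, (chartAt E4 x₀).open_source.mem_nhds hsrc] with x hx hxs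
  intro u hu
  have hx' : 0 < s * Q (fun i => val (w i) x) (tcc x₀ x x (ee 0)) := by
    rw [← hval x hxs]; exact hx
  rcases Q_sign (po_of hw x) with h | h
  · have h1 := h _ (hne x hxs)
    have h2 := h u hu
    rcases hs with rfl | rfl
    · linarith
    · linarith
  · have h1 := h _ (hne x hxs)
    have h2 := h u hu
    rcases hs with rfl | rfl
    · linarith
    · linarith

/-- the sign of a positive triple on a connected manifold. -/
theorem sign_const [ConnectedSpace M] {w : Trip M} (hw : Pos3 w) :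
    (∀ (x : M) (u : E4), u ≠ 0 → 0 < Q (fun i => val (w i) x) u) ∨
      (∀ (x : M) (u : E4), u ≠ 0 → Q (fun i => val (w i) x) u < 0) := by
  have h1 := sign_open hw 1 (Or.inl rfl)
  have h2 := sign_open hw (-1) (Or.inr rfl)
  have hee : ee 0 ≠ 0 := by
    intro h
    have := congrFun (congrArg (fun v : E4 => (v : Fin 4 → ℝ)) h) 0
    simp at this
  have hcompl : {x : M | ∀ u : E4, u ≠ 0 → 0 < (1 : ℝ) * Q (fun i => val (w i) x) u}ᶜ =
      {x : M | ∀ u : E4, u ≠ 0 → 0 < (-1 : ℝ) * Q (fun i => val (w i) x) u} := by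
    ext x
    simp only [mem_compl_iff, mem_ofPred_eq, one_mul]
    constructor
    · intro hx u hu
      rcases Q_sign (po_of hw x) with h | h
      · exact absurd h hx
      · have := h u hu; linarith
    · intro hx h
      have h3 := hx (ee 0) hee
      have h4 := h (ee 0) hee
      linarith
  have hclopen : IsClopen {x : M | ∀ u : E4, u ≠ 0 → 0 < (1 : ℝ) * Q (fun i => val (w i) x) u} :=
    ⟨⟨by rw [hcompl]; exact h2⟩, h1⟩
  rcases isClopen_iff.1 hclopen with h | h
  · right
    intro x u hu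
    have h3 : x ∈ {x : M | ∀ u : E4, u ≠ 0 → 0 < (1 : ℝ) * Q (fun i => val (w i) x) u}ᶜ := by
      rw [h]; simp
    rw [hcompl] at h3
    have := h3 u hu
    linarith
  · left
    intro x u hu
    have h3 : x ∈ {x : M | ∀ u : E4, u ≠ 0 → 0 < (1 : ℝ) * Q (fun i => val (w i) x) u} := by
      rw [h]; trivial
    have := h3 u hu
    linarith

/-- the sign of the standard model. -/
theorem sign_lstd {w : Trip M} (hw : Pos3 w) {σ : E3 → M} {U : Set M} {φ : E4 → M} {s R r₀ : ℝ}
    {g : ℝ → ℝ} (h : LStd w σ U φ s R r₀ g) :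
    ∃ (x : M) (u : E4), u ≠ 0 ∧ ∃ k : ℝ, 0 < k ∧ Q (fun i => val (w i) x) u = -(s * k) := by
  -- a point in the flat zone
  obtain ⟨t, ht1, ht2⟩ := exists_between h.r_pos.2
  have ht0 : 0 < t := h.r_pos.1.trans ht1
  set z : E4 := t • ee 0 with hz
  have hee : ‖ee 0‖ = 1 := by simp [ee]
  have hzn : ‖z‖ = t := by rw [hz, norm_smul, hee, mul_one, Real.norm_eq_abs, abs_of_pos ht0]
  have hz0 : z ≠ 0 := by rw [← norm_ne_zero_iff, hzn]; exact ht0.ne'
  have hzP : z ∈ KT_604.PB 1 := ⟨hz0, by rw [hzn]; exact ht2⟩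
  have hlg : lg g =ᶠ[𝓝 z] fun y => (1 / 2 : ℝ) • innerSL ℝ (qI y) := by
    have hop : IsOpen {y : E4 | r₀ < ‖y‖ ∧ ‖y‖ < 1} :=
      (isOpen_lt continuous_const continuous_norm).inter
        (isOpen_lt continuous_norm continuous_const)
    filter_upwards [hop.mem_nhds (show r₀ < ‖z‖ ∧ ‖z‖ < 1 by rw [hzn]; exact ⟨ht1, ht2⟩)] with y hy
    have hr := h.r_pos.1
    have hy0 : 0 < ‖y‖ := hr.trans hy.1
    have h1 : g (‖y‖ ^ 2) = ‖y‖ ^ 2 := by
      refine h.g_flat _ ?_ ?_
      · nlinarith [hy.1]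
      · nlinarith [hy.2]
    unfold lg
    rw [h1, div_self (pow_ne_zero 2 hy0.ne')]
  have hd1 : ∀ u v : E4, d1 (lg g) z u v = ⟪qI u, v⟫ := by
    intro u v
    rw [d1_congr hlg, d1_lin qI_add qI_smul, qI_skew u v]
    ring
  -- the differential
  set A : E4 →L[ℝ] E4 := fderiv ℝ (fun y : E4 => chartAt E4 (φ z) (φ y)) z with hA
  have hAd : ∀ v, dmap φ z v = A v := fun v => rfl
  have hinj : Function.Injective A := by
    rw [injective_iff_map_eq_zero]
    intro v hv
    exact h.imm z hzP v hv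
  have hpo := po_of hw (φ z)
  have hR := h.R_pos
  set u : E4 := ee 0 with hu
  have hu0 : u ≠ 0 := by rw [← norm_ne_zero_iff, hu, hee]; exact one_ne_zero
  refine ⟨φ z, A u, fun h0 => hu0 (hinj (by rw [h0, map_zero])), R * ‖qK u‖ ^ 2, ?_, ?_⟩
  · have : ‖qK u‖ ^ 2 = 1 := by
      rw [K12Phi_291.n4]; simp [qK, hu]
    rw [this]; linarith
  · rw [← Q_pull hpo hinj u]
    have h1 : (-qK u) = quo (R240.pull A (val (w 0) (φ z))) (R240.pull A (val (w 1) (φ z))) u := by
      refine eq_quo ((hpo.pull hinj).1 0) (hpo.pull hinj).w0 fun v => ?_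
      rw [pull_apply, pull_apply, ← hAd, ← hAd, ← hAd, h.w0 z hzP, h.w1 z hzP, hd1]
      congr 1
      rw [K12Phi_291.i4, K12Phi_291.i4]
      simp [qI, qJ, qK]
    show R240.pull A (val (w 2) (φ z)) u (quo (R240.pull A (val (w 0) (φ z)))
      (R240.pull A (val (w 1) (φ z))) u) = _
    rw [← h1, pull_apply, ← hAd, ← hAd, h.w2 z hzP, inner_neg_right, real_inner_self_eq_norm_sq]
    ring

/-- all the signs are equal. -/
theorem sign_eq [ConnectedSpace M] {w : Trip M} (hw : Pos3 w) :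
    ∃ s : ℝ, (s = 1 ∨ s = -1) ∧ ∀ (σ : E3 → M) (U : Set M) (φ : E4 → M) (s' R r₀ : ℝ)
      (g : ℝ → ℝ), LStd w σ U φ s' R r₀ g → s' = s := by
  rcases sign_const hw with h | h
  · refine ⟨-1, Or.inr rfl, fun σ U φ s' R r₀ g hl => ?_⟩
    obtain ⟨x, u, hu, k, hk, he⟩ := sign_lstd hw hl
    have h1 := h x u hu
    rw [he] at h1
    rcases hl.sgn with hs | hs
    · rw [hs] at h1; linarith
    · exact hs
  · refine ⟨1, Or.inl rfl, fun σ U φ s' R r₀ g hl => ?_⟩
    obtain ⟨x, u, hu, k, hk, he⟩ := sign_lstd hw hl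
    have h1 := h x u hu
    rw [he] at h1
    rcases hl.sgn with hs | hs
    · exact hs
    · rw [hs] at h1; linarith

end Man

end

end Crest.Agent.R235.K12Std_235
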