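import Crest.Agent.R235.K12StdC_235

/-!
Row 235 (S0364), block K12, leaf STDL (helper235), part D: induction over the spheres and
assembly: `theorem stdl : K12An_776.STDL M`.
-/

set_option autoImplicit false
set_option maxSynthPendingDepth 3
set_option linter.unusedSectionVars false

open Set Function Filter MeasureTheory
open scoped Manifold ContDiff Topology RealInnerProductSpace

universe u

namespace Crest.Agent.R235.K12Std_235

open Crest.Agent.R240 Crest.Agent.R240.Ch Crest.Agent.R235 Crest.Agent.R235.K12_417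
  Crest.Agent.R235.PB_604 Crest.Agent.R235.K12An_776 Crest.Agent.R235.K12Ext_168

noncomputable section

variable {M : Type u} [TopologicalSpace M] [T2Space M] [CompactSpace M]
  [ChartedSpace E4 M] [IsManifold 𝓘(ℝ, E4) ∞ M]

/-- disjoint compact sets have disjoint open neighbourhoods. -/
lemma sep_opens {X : Type*} [TopologicalSpace X] [T2Space X] {m : ℕ} {C : Fin m → Set X}
    (hC : ∀ i, IsCompact (C i)) (hd : ∀ i j, i ≠ j → Disjoint (C i) (C j)) :
    ∃ O : Fin m → Set X, (∀ i, IsOpen (O i)) ∧ (∀ i, C i ⊆ O i) ∧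
      ∀ i j, i ≠ j → Disjoint (O i) (O j) := by
  have h1 : ∀ i j, i ≠ j → ∃ A B : Set X, IsOpen A ∧ IsOpen B ∧ C i ⊆ A ∧ C j ⊆ B ∧
      Disjoint A B := by
    intro i j hij
    obtain ⟨A, B, hA, hB, hCA, hCB, hAB⟩ :=
      SeparatedNhds.of_isCompact_isCompact (hC i) (hC j) (hd i j hij)
    exact ⟨A, B, hA, hB, hCA, hCB, hAB⟩
  choose A B hA hB hCA hCB hAB using h1
  refine ⟨fun i => ⋂ j, ⋂ h : i ≠ j, (A i j h ∩ B j i h.symm), fun i => ?_, fun i => ?_, ?_⟩
  · exact isOpen_iInter_of_finite fun j => isOpen_iInter_of_finite fun h =>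
      (hA i j h).inter (hB j i h.symm)
  · refine subset_iInter fun j => subset_iInter fun h => ?_
    exact subset_inter (hCA i j h) (hCB j i h.symm)
  · intro i j hij
    rw [Set.disjoint_left]
    intro x hx hx'
    have h2 := mem_iInter.1 (mem_iInter.1 hx j) hij
    have h3 := mem_iInter.1 (mem_iInter.1 hx' i) hij.symm
    exact (Set.disjoint_left.1 (hAB i j hij)) h2.1 h3.2

lemma isCompact_im {σ : E3 → M} (h : EmbS σ) : IsCompact (im σ) := by
  refine (isCompact_sphere (0 : E3) 1).image_of_continuousOn ?_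
  refine h.smooth.continuousOn.mono ?_
  intro y hy
  have hy' : ‖y‖ = 1 := by simpa using hy
  intro h0
  rw [mem_singleton_iff] at h0
  rw [h0, norm_zero] at hy'
  exact zero_ne_one hy'

/-- `Out1` only depends on the values on `O`. -/
lemma out1_congr {w w' : Trip M} {σ : E3 → M} {O : Set M} {r : ℝ} {Ps : E6 → M} {G : M → E6}
    {U : Set M} {ρ s : ℝ} {g : ℝ → ℝ} {c K t₀ t₁ : ℝ}
    (h : Out1 w σ O r Ps G U ρ s g c K t₀ t₁) (he : ∀ k, ∀ x ∈ O, val (w' k) x = val (w k) x) :
    Out1 w' σ O r Ps G U ρ s g c K t₀ t₁ := by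
  have hOm : ∀ k, ∀ z ∈ OS ρ, Om Ps (w' k) z = Om Ps (w k) z := by
    intro k z hz
    have hx : Ps z ∈ O := h.sub (h.tube.maps z (OS_mono h.ρ_lt.le hz))
    show pl (D1 E6 E4 Ps z) (val (w' k) (Ps z)) = pl (D1 E6 E4 Ps z) (val (w k) (Ps z))
    rw [he k _ hx]
  exact
    { tube := h.tube
      sub := h.sub
      ρ_pos := h.ρ_pos
      ρ_lt := h.ρ_lt
      sgn := h.sgn
      one := fun z hz => by rw [hOm 1 z hz]; exact h.one z hz
      two := fun z hz => by rw [hOm 2 z hz]; exact h.two z hz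
      prof := h.prof
      c_pos := h.c_pos
      K_pos := h.K_pos
      g_pos := h.g_pos
      g_deriv := h.g_deriv
      t_pos := h.t_pos
      t_lt := h.t_lt
      flat := h.flat
      zero := fun z hz => by rw [hOm 0 z hz]; exact h.zero z hz }

lemma sphI_congr {σ : E3 → M} {a b : Z2 M} (h : ∀ x ∈ im σ, val a x = val b x) :
    sphI σ (a.1.1 : F2 E4 M) = sphI σ (b.1.1 : F2 E4 M) := by
  unfold sphI
  refine integral_congr_ae (Filter.Eventually.of_forall fun y => ?_)
  have h1 : at2 (a.1.1 : F2 E4 M) (σ y) = at2 (b.1.1 : F2 E4 M) (σ y) :=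
    h (σ y) ⟨y, y.2, rfl⟩
  simp only [h1]

/-- the induction over the spheres. -/
theorem induct (hone : ONE M) {w : Trip M} (hw : Pos3 w) {m : ℕ} {σ : Fin m → E3 → M}
    (hemb : ∀ i, EmbS (σ i))
    (hl1 : ∀ i, ∀ y u v : E3, ‖y‖ = 1 →
      val (w 1) (σ i y) (dmap (σ i) y u) (dmap (σ i) y v) = 0)
    (hl2 : ∀ i, ∀ y u v : E3, ‖y‖ = 1 →
      val (w 2) (σ i y) (dmap (σ i) y u) (dmap (σ i) y v) = 0)
    (hpos : ∀ i, 0 < sphI (σ i) ((w 0).1.1 : F2 E4 M))
    {O : Fin m → Set M} (hO : ∀ i, IsOpen (O i)) (hsub : ∀ i, im (σ i) ⊆ O i)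
    (hdisj : ∀ i j, i ≠ j → Disjoint (O i) (O j)) (n : ℕ) (hn : n ≤ m) :
    ∃ w' : Trip M, PL w w' ∧ Pos3 w' ∧
      (∀ k x, (∀ i : Fin m, i.val < n → x ∉ O i) → val (w' k) x = val (w k) x) ∧
      ∀ i : Fin m, i.val < n → ∃ (r : ℝ) (Ps : E6 → M) (G : M → E6) (U : Set M) (ρ s : ℝ)
        (g : ℝ → ℝ) (c K t₀ t₁ : ℝ), Out1 w' (σ i) (O i) r Ps G U ρ s g c K t₀ t₁ := by
  induction n with
  | zero =>
    exact ⟨w, Relation.ReflTransGen.refl, hw, fun k x _ => rfl,
      fun i hi => absurd hi (Nat.not_lt_zero _)⟩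
  | succ n ih =>
    obtain ⟨w₁, hPL, hw₁, heq, hout⟩ := ih (Nat.le_of_succ_le hn)
    set a : Fin m := ⟨n, hn⟩ with ha
    have hna : ∀ i : Fin m, i.val < n → i ≠ a := by
      intro i hi he
      rw [he] at hi
      exact lt_irrefl _ hi
    have hval : ∀ k, ∀ x ∈ im (σ a), val (w₁ k) x = val (w k) x := by
      intro k x hx
      refine heq k x fun i hi hxi => ?_
      exact (Set.disjoint_left.1 (hdisj i a (hna i hi))) hxi (hsub a hx)
    have himy : ∀ y : E3, ‖y‖ = 1 → σ a y ∈ im (σ a) := fun y hy => ⟨y, by simpa using hy, rfl⟩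
    obtain ⟨w₂, r, Ps, G, U, ρ, s, g, c, K, t₀, t₁, hPL2, hw₂, heq2, hout2⟩ :=
      hone w₁ hw₁ (σ a) (hemb a)
        (fun y u v hy => by rw [hval 1 _ (himy y hy)]; exact hl1 a y u v hy)
        (fun y u v hy => by rw [hval 2 _ (himy y hy)]; exact hl2 a y u v hy)
        (by rw [sphI_congr (hval 0)]; exact hpos a) (O a) (hO a) (hsub a)
    refine ⟨w₂, hPL.trans hPL2, hw₂, ?_, ?_⟩
    · intro k x hx
      rw [heq2 k x (hx a (Nat.lt_succ_self n)), heq k x fun i hi => hx i (Nat.lt_succ_of_lt hi)]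
    · intro i hi
      rcases Nat.lt_succ_iff_lt_or_eq.1 hi with h | h
      · obtain ⟨r', Ps', G', U', ρ', s', g', c', K', t₀', t₁', h'⟩ := hout i h
        refine ⟨r', Ps', G', U', ρ', s', g', c', K', t₀', t₁', out1_congr h' ?_⟩
        intro k x hx
        exact heq2 k x fun hxa => (Set.disjoint_left.1 (hdisj i a (hna i h))) hx hxa
      · have hia : i = a := Fin.ext h
        subst hia
        exact ⟨r, Ps, G, U, ρ, s, g, c, K, t₀, t₁, hout2⟩

variable (M) in
/-- **STDL**: the one-sphere theorem implies the output of the block K12. -/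
theorem stdl [ConnectedSpace M] : K12An_776.STDL M := by
  intro _ hL hR hF hone w hw m σ hemb hl1 hl2 hpos hdis
  obtain ⟨O, hO, hsub, hdisj⟩ := sep_opens (fun i => isCompact_im (hemb i)) hdis
  obtain ⟨w', hPL, hw', -, hout⟩ := induct hone hw hemb hl1 hl2 hpos hO hsub hdisj m le_rfl
  have hout' := fun i : Fin m => hout i i.2
  choose r Ps G U ρ s g c K t₀ t₁ h using hout'
  obtain ⟨S, hS, hsgn⟩ := sign_eq hw'
  have hst := fun i => lstd_of hF hL hR (h i)
  have hs : ∀ i, -(s i) = S := fun i => hsgn _ _ _ _ _ _ _ (hst i)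
  have hUO : ∀ i, U i ⊆ O i := fun i => (h i).sub
  refine ⟨w', fun i => nk (Ps i) (ρ i), S, fun i => 4 * ρ i, fun i => Real.sqrt (t₁ i / ρ i),
    fun i t => g i (ρ i * t) / ρ i, hPL, hw', ?_⟩
  exact
    { smooth := fun i => (hst i).smooth
      even := fun i => (hst i).even
      inj := fun i => (hst i).inj
      imm := fun i => (hst i).imm
      out := by
        intro i j z hz hz'
        by_cases hij : i = j
        · subst hij
          exact (hst i).out z hz hz'
        · exact (Set.disjoint_left.1 (hdisj i j hij)) (hUO i ((hst i).mapsU z hz)) (hsub j hz')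
      sep := by
        intro i j hij z hz z' hz' he
        exact (Set.disjoint_left.1 (hdisj i j hij)) (hUO i ((hst i).mapsU z hz))
          (by rw [he]; exact hUO j ((hst j).mapsU z' hz'))
      nbh := fun i => (hst i).nbh
      shrink := fun i => (hst i).shrink
      sgn := hS
      R_pos := fun i => (hst i).R_pos
      r_pos := fun i => (hst i).r_pos
      w1 := fun i => (hst i).w1
      w2 := fun i z hz u v => by rw [(hst i).w2 z hz u v, hs i]
      w0 := fun i => (hst i).w0
      g_smooth := fun i => (hst i).g_smooth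
      g_pos := fun i => (hst i).g_pos
      g_flat := fun i => (hst i).g_flat }

end

end Crest.Agent.R235.K12Std_235

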