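import Crest.Agent.R235.K12Defs_417

/-!
Row 235 (S0364), block K12 (helper417): the two halves of TUBE.

* `TUBA` : a smooth map `Ps` of `{q ≠ 0}` into `M` which factors through `Pi`, restricts to the
  embedded sphere `σ` on the zero section and is immersive there, is a tube on a small disc bundle;
* `NUX` : existence of such a map with the right one-jet (`Jet`).
-/

set_option autoImplicit false
set_option maxSynthPendingDepth 3

open Set Function Filter MeasureTheory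
open scoped Manifold ContDiff Topology RealInnerProductSpace

universe u

namespace Crest.Agent.R235.K12_417

open Crest.Agent.R240 Crest.Agent.R240.Ch Crest.Agent.R235

noncomputable section

section Closed

variable (M : Type u) [TopologicalSpace M] [T2Space M] [CompactSpace M]
  [ChartedSpace E4 M] [IsManifold 𝓘(ℝ, E4) ∞ M]

/-- LEAF TUBA: the abstract tube theorem. -/
def TUBA : Prop :=
  ∀ (σ : E3 → M) (Ps : E6 → M), EmbS σ →
    ContMDiffOn 𝓘(ℝ, E6) 𝓘(ℝ, E4) ∞ Ps {z | z.1 ≠ 0} →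
    (∀ z : E6, z.1 ≠ 0 → Ps (Pi z) = Ps z) →
    (∀ q : E3, ‖q‖ = 1 → Ps (q, 0) = σ q) →
    (∀ q u v : E3, ‖q‖ = 1 → ⟪q, u⟫ = 0 → ⟪q, v⟫ = 0 → dmap Ps ((q, 0) : E6) (u, v) = 0 →
      u = 0 ∧ v = 0) →
    ∀ O : Set M, IsOpen O → im σ ⊆ O →
    ∃ (r : ℝ) (G : M → E6) (U : Set M), Tube σ r Ps G U ∧ U ⊆ O

/-- LEAF NUX: the map. -/
def NUX : Prop :=
  ∀ (w : Trip M), Pos3 w → ∀ σ : E3 → M, EmbS σ →
    (∀ y u v : E3, ‖y‖ = 1 → val (w 1) (σ y) (dmap σ y u) (dmap σ y v) = 0) →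
    (∀ y u v : E3, ‖y‖ = 1 → val (w 2) (σ y) (dmap σ y u) (dmap σ y v) = 0) →
    ∃ Ps : E6 → M, ContMDiffOn 𝓘(ℝ, E6) 𝓘(ℝ, E4) ∞ Ps {z | z.1 ≠ 0} ∧
      (∀ z : E6, z.1 ≠ 0 → Ps (Pi z) = Ps z) ∧
      (∀ q : E3, ‖q‖ = 1 → Ps (q, 0) = σ q) ∧
      (∀ q u v : E3, ‖q‖ = 1 → ⟪q, u⟫ = 0 → ⟪q, v⟫ = 0 → dmap Ps ((q, 0) : E6) (u, v) = 0 →
        u = 0 ∧ v = 0) ∧
      Jet w Ps

theorem tube_of (hA : TUBA M) (hN : NUX M) : TUBE M := by
  intro w hw σ hσ h1 h2 O hO hσO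
  obtain ⟨Ps, hs, hf, hz, hi, hJ⟩ := hN w hw σ hσ h1 h2
  obtain ⟨r, G, U, hT, hU⟩ := hA σ Ps hσ hs hf hz hi O hO hσO
  exact ⟨r, Ps, G, U, hT, hU, hJ⟩

end Closed

end

end Crest.Agent.R235.K12_417
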