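import Crest.Agent.R235.Sig235_723
import Crest.Agent.R235.IndNum_692
import Crest.Agent.R235.DichH1_723

/-!
Row 235 (S0364), package SW / MODEL (helper723): THE NUMBERS OF THE MODELS.

`w` positive triple, `e` its orthonormalisation, metric of `e`, `q = qs he hin`, `s` any Parseval frame.

* `numbers`   : `KerD pairH.A (bp + 1)`, `KerD pairH.B b1`, `P`, `N`, `HasB1 M b1`, index relations;
* `numK3`     : `K3Type (w 0)` : `d0 = 4`, `d1 = 0` for the Hodge pair;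
* `kerK3`     : `K3Type (w 0)` : `KerD (dat0 T (pairH q s)) (dpair T (pairH q s)).A 4` (and `B`, `0`);
* `lt_of_pI`  : `K3Type (w 0)`, twist with curvature `-2π a`, `-4 < ∫ a ∧ a` : `d1 < d0`;
* `lt_root`   : `cls a ∈ Root (w 0)` : `d1 < d0`;      `lt_flat` : `cls a = 0` : `d1 < d0`;
* `numB`      : untwisted pair: `d0 + b = d1 + 1 + bp`, with `P`, `N`.
-/

set_option autoImplicit false
set_option maxSynthPendingDepth 3
set_option linter.unusedSectionVars false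
set_option linter.unusedVariables false
set_option maxHeartbeats 1000000

open Filter Topology Set Bundle Manifold MeasureTheory
open scoped ContDiff ENNReal NNReal
open Crest.GeometryTopology.CoordMetric Crest.GeometryTopology.ChartCurvature
  Crest.GeometryTopology.PointedLimit
open Crest.Agent.R240 Crest.Agent.R240.Ch
open Crest.Agent.R249.Tz2_805 Crest.Agent.R249.Tz805 Crest.Agent.R249.Vf281
open Crest.Agent.R249.HK9_714 Crest.Agent.R249.FrmB_285
open Crest.Agent.R249.Tv57 hiding GG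
open Crest.Agent.R235.DichProps_723 Crest.Agent.R235.Ind167 Crest.Agent.R235.IndSig_723
open Crest.Agent.R235.IndR_819 Crest.Agent.R235.RiemC_399 Crest.Agent.R235.QSTri_451
open Crest.Agent.R235.IndEven_692 (LocTw exists_H exists_tw num_chern num_Z kerD_unique)

noncomputable section

namespace Crest.Agent.R235.K3Num_723

section lin

variable {V : Type*} [AddCommGroup V] [Module ℝ V] [FiniteDimensional ℝ V]

/-- dimensions of a definite splitting. -/
theorem finrank_split {B : V → V → ℝ} {P N : Submodule ℝ V} (hs : P ⊔ N = ⊤)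
    (hP : ∀ x ∈ P, x ≠ 0 → 0 < B x x) (hN : ∀ x ∈ N, x ≠ 0 → B x x < 0) :
    Module.finrank ℝ P + Module.finrank ℝ N = Module.finrank ℝ V := by
  have h1 : P ⊓ N = ⊥ := by
    rw [eq_bot_iff]
    intro x hx
    by_contra h0
    have h2 := hP x hx.1 h0
    have h3 := hN x hx.2 h0
    linarith
  have h2 := Submodule.finrank_sup_add_finrank_inf_eq P N
  rw [hs, h1, finrank_top, finrank_bot] at h2
  omega

end lin

section top

variable {M : Type} [TopologicalSpace M] [T2Space M] [CompactSpace M]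
  [ChartedSpace E4 M] [IsManifold 𝓘(ℝ, E4) ∞ M]

/-- the K3 lattice has rank `22`. -/
theorem finrank_K3 {F : Z2 M} (h : K3Type F) : Module.finrank ℝ (H2 M) = 22 := by
  obtain ⟨-, e, -⟩ := h
  rw [Module.finrank_eq_card_basis e]
  simp

/-- `b₁ = 0`. -/
theorem hasB1_zero {b : ℕ} (hb : HasB1 M b) (h0 : B1Zero M) : b = 0 := by
  have h1 : HasB1 M 0 := by
    refine ⟨Fin.elim0, fun i => i.elim0, fun r hr => ?_, fun c f hf h => funext fun i => i.elim0⟩
    obtain ⟨f, hf, hr'⟩ := h0 r hr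
    refine ⟨Fin.elim0, f, hf, ?_⟩
    rw [hr', Finset.univ_eq_empty, Finset.sum_empty, zero_add]
  exact DichH1_723.hasB1_unique hb h1

end top

variable {M : Type} [MetricSpace M] [CompactSpace M] [ConnectedSpace M]
    [ChartedSpace (EuclideanSpace ℝ (Fin 4)) M] [IsManifold (𝓡 4) ∞ M]
    [RiemannianBundle (fun p : M => TangentSpace (𝓡 4) p)]
    [IsContMDiffRiemannianBundle (𝓡 4) ∞ (EuclideanSpace ℝ (Fin 4))
      (fun p : M => TangentSpace (𝓡 4) p)]
    [IsRiemannianManifold (𝓡 4) M] [MeasurableSpace M] [BorelSpace M]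
    [SecondCountableTopology M] [Nonempty M]
  {w : Trip M} {e : Fin 3 → F2 E4 M} (hw : Pos3 w) (he : IndTri_451.IsTri (IndTri_451.und w) e)
  (hin : ∀ (x : M) (u v : TangentSpace 𝓘(ℝ, E4) x), inner ℝ u v = at2 (IndTri_451.gg e) x u v)
  {κ : Type} [Fintype κ] (T : ToF 4 M) (s : PF 4 M κ)

include hw in
/-- the numbers of the Hodge pair. -/
theorem numbers {d0 d1 : ℕ}
    (k0 : Nonempty (KerD (R249.Wk352.dat0 T (pairH (qs he hin) s))
      (R249.Wk352.dpair T (pairH (qs he hin) s)).A d0))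
    (k1 : Nonempty (KerD (R249.Wk352.dat0 T (R249.Wk352.swapP (pairH (qs he hin) s)))
      (R249.Wk352.dpair T (pairH (qs he hin) s)).B d1)) :
    ∃ P N : Submodule ℝ (H2 M), HasB1 M d1 ∧ FiniteDimensional ℝ (H2 M) ∧ P ⊔ N = ⊤ ∧
      Module.finrank ℝ P + 1 = d0 ∧
      (∀ x ∈ P, x ≠ 0 → 0 < ip (w 0) x x) ∧ (∀ x ∈ N, x ≠ 0 → ip (w 0) x x < 0) ∧
      (∀ x ∈ P, ∀ y ∈ N, ip (w 0) x y = 0) ∧
      5 * Module.finrank ℝ P + 4 = 4 * d1 + Module.finrank ℝ N ∧
      (4 : ℤ) ∣ 1 - d1 + Module.finrank ℝ P := by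
  set q : QS M := qs he hin with hq
  obtain ⟨c0, c1, k0H, k1H, iH, eH⟩ := index_H T q s
  obtain ⟨d00, d01, k00, k01, i0, e0⟩ := index_Z T q s
  have hC := comp_w he hin
  obtain ⟨d0R, d1R, k0R, k1R, iR, eR⟩ := index_R (wdd T (pairR s (isVol_volF hC)))
    (R249.Wk352.dpair T (pairR s (isVol_volF hC)))
  obtain ⟨h40, h41⟩ := IndSig2_723.ker4 M _ T q s d00 d01 ⟨k00⟩ ⟨k01⟩
  have hout := Hodge_194.hodge M w hw e he hin _ T s c0 c1 d0R d1R ⟨k0H⟩ ⟨k1H⟩ ⟨k0R⟩ ⟨k1R⟩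
  have hqq : ∀ (x : M) (u v : TangentSpace 𝓘(ℝ, E4) x),
      at2 (IndTri_451.und w 0) x u v = inner ℝ (q.op 0 x u) v := by
    intro x u v
    rw [← he.e_zero]
    exact e_eq_inner he hin 0 x u v
  have hHR := int_HR (b := 0) hC hqq (wdd T (pairH q s)) (wdd T (pairR s (isVol_volF hC)))
    (r0 := dens T (pairZ q s)) (fun z e h ha => rZ_eq T s h ha) iH iR
  have hHi : ∫ z, dens T (pairH q s) z ∂(μHE[4] : Measure M) =
      ∫ z, dens T (pairZ q s) z ∂(μHE[4] : Measure M) := by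
    rw [← integral_dens T q s 1]
    exact integral_congr_ae (Filter.Eventually.of_forall fun z => dens_H_poly T q s z)
  obtain ⟨K0⟩ := k0
  obtain ⟨K1⟩ := k1
  have a0 : d0 = c0 := kerD_unique K0 k0H
  have a1 : d1 = c1 := kerD_unique K1 k1H
  subst a0 a1
  obtain ⟨P, N, hb, hbe, hf, hs, hp, hm, h1, h2, h3⟩ := hout
  obtain ⟨e1, e2⟩ := sig_num (eH.trans hHi.symm) eR e0 hHi hHR h40 h41 hp hm rfl hbe
  exact ⟨P, N, hb, hf, hs, hp, h1, h2, h3, e1, e2⟩

include hw in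
/-- **K3 type: the Hodge pair has kernels of dimension `4` and `0`.** -/
theorem numK3 (hK : K3Type (w 0)) {d0 d1 : ℕ}
    (k0 : Nonempty (KerD (R249.Wk352.dat0 T (pairH (qs he hin) s))
      (R249.Wk352.dpair T (pairH (qs he hin) s)).A d0))
    (k1 : Nonempty (KerD (R249.Wk352.dat0 T (R249.Wk352.swapP (pairH (qs he hin) s)))
      (R249.Wk352.dpair T (pairH (qs he hin) s)).B d1)) : d0 = 4 ∧ d1 = 0 := by
  obtain ⟨P, N, hb, hf, hs, hp, h1, h2, h3, e1, e2⟩ := numbers hw he hin T s k0 k1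
  have hb0 : d1 = 0 := hasB1_zero hb hK.1
  have h4 := finrank_split (B := fun x y => ip (w 0) x y) hs h1 h2
  rw [finrank_K3 hK] at h4
  subst hb0
  refine ⟨by omega, rfl⟩

include hw in
/-- **K3 type: the kernels of the Hodge pair.** -/
theorem kerK3 (hK : K3Type (w 0)) :
    Nonempty (KerD (R249.Wk352.dat0 T (pairH (qs he hin) s))
      (R249.Wk352.dpair T (pairH (qs he hin) s)).A 4) ∧
    Nonempty (KerD (R249.Wk352.dat0 T (R249.Wk352.swapP (pairH (qs he hin) s)))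
      (R249.Wk352.dpair T (pairH (qs he hin) s)).B 0) := by
  obtain ⟨d0, d1, k0, k1⟩ := exists_H (q := qs he hin) s T
  obtain ⟨a0, a1⟩ := numK3 hw he hin T s hK k0 k1
  subst a0 a1
  exact ⟨k0, k1⟩

/-- the form of `w 0`. -/
theorem hq0 (x : M) (u v : TangentSpace (𝓡 4) x) :
    at2 ((w 0).1.1 : F2 E4 M) x u v = inner ℝ ((qs he hin).op 0 x u) v := by
  have h := e_eq_inner he hin 0 x u v
  rw [he.e_zero] at h
  exact h

variable {κ' κ0 κ1 : Type} [Fintype κ'] [Fintype κ0] [Fintype κ1]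
  {P : CPair 4 M κ' κ0 κ1} {d0 d1 : ℕ}
  (K0 : Nonempty (KerD (R249.Wk352.dat0 T P) (R249.Wk352.dpair T P).A d0))
  (K1 : Nonempty (KerD (R249.Wk352.dat0 T (R249.Wk352.swapP P)) (R249.Wk352.dpair T P).B d1))

include hw K0 K1 in
/-- **the index of a twist over a manifold of K3 type**: `d0 - d1 = 4 + ∫ a ∧ a`. -/
theorem num_K3 (hK : K3Type (w 0)) {a : Z2 M}
    (L : LocTw (qs he hin) P ((-(2 * Real.pi)) • (a.1.1 : F2 E4 M))) :
    (d0 : ℝ) - d1 = 4 + pI (w 0) a a := by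
  obtain ⟨m, ⟨s⟩⟩ := R249.Tz2_805.exists_PF (n := 4) (M := M)
  obtain ⟨H0, H1⟩ := kerK3 hw he hin T s hK
  have h := num_chern s T K0 K1 H0 H1 (comp_w he hin).cpt (hq0 he hin) L
  rw [h]
  norm_num

include hw K0 K1 in
theorem lt_of_pI (hK : K3Type (w 0)) {a : Z2 M}
    (L : LocTw (qs he hin) P ((-(2 * Real.pi)) • (a.1.1 : F2 E4 M)))
    (ha : -4 < pI (w 0) a a) : d1 < d0 := by
  have h := num_K3 hw he hin T K0 K1 hK L
  have h1 : (d1 : ℝ) < d0 := by linarith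
  exact_mod_cast h1

include hw K0 K1 in
/-- **roots**: `d0 - d1 = 2`. -/
theorem lt_root (hK : K3Type (w 0)) {a : Z2 M}
    (L : LocTw (qs he hin) P ((-(2 * Real.pi)) • (a.1.1 : F2 E4 M)))
    (ha : cls a ∈ Root (w 0)) : d1 < d0 := by
  refine lt_of_pI hw he hin T K0 K1 hK L ?_
  have h := ha.2
  have h1 : ip (w 0) (cls a) (cls a) = pI (w 0) a a := ip_cls (comp_w he hin).vol a a
  rw [← h1, h]
  norm_num

include hw K0 K1 in
/-- **real class zero**: `d0 - d1 = 4`. -/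
theorem lt_flat (hK : K3Type (w 0)) {a : Z2 M}
    (L : LocTw (qs he hin) P ((-(2 * Real.pi)) • (a.1.1 : F2 E4 M)))
    (ha : cls a = 0) : d1 < d0 := by
  refine lt_of_pI hw he hin T K0 K1 hK L ?_
  have hV : Int.Vol ((w 0).1.1 : F2 E4 M) := (comp_w he hin).vol
  have h1 : ip (w 0) (cls a) (cls a) = pI (w 0) a a := ip_cls hV a a
  rw [← h1, ha, ip_zero_left hV]
  norm_num

include hw K0 K1 in
/-- **MODB**: the numbers of the trivial bundle. -/
theorem numB (L : LocTw (qs he hin) P 0) : ∃ (b bp : ℕ),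
    Nonempty (KerD (R249.Wk352.dat0 T (pairH (qs he hin) s))
      (R249.Wk352.dpair T (pairH (qs he hin) s)).A (1 + bp)) ∧
    Nonempty (KerD (R249.Wk352.dat0 T (R249.Wk352.swapP (pairH (qs he hin) s)))
      (R249.Wk352.dpair T (pairH (qs he hin) s)).B b) ∧
    HasB1 M b ∧ d0 + b = d1 + 1 + bp ∧
    ∃ P N : Submodule ℝ (H2 M), FiniteDimensional ℝ (H2 M) ∧ P ⊔ N = ⊤ ∧
        Module.finrank ℝ P = bp ∧
        (∀ x ∈ P, x ≠ 0 → 0 < ip (w 0) x x) ∧ (∀ x ∈ N, x ≠ 0 → ip (w 0) x x < 0) ∧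
        (∀ x ∈ P, ∀ y ∈ N, ip (w 0) x y = 0) := by
  obtain ⟨c0, c1, k0, k1⟩ := exists_H (q := qs he hin) s T
  obtain ⟨P', N', hb, hf, hs, hp, h1, h2, h3, e1, e2⟩ := numbers hw he hin T s k0 k1
  have h := num_Z s T (comp_w he hin).cpt (hq0 he hin) K0 K1 k0 k1 L
  have h4 : (d0 : ℝ) + c1 = d1 + c0 := by linarith
  have h5 : d0 + c1 = d1 + c0 := by exact_mod_cast h4
  have h6 : c0 = 1 + Module.finrank ℝ P' := by omega
  subst h6
  exact ⟨c1, _, k0, k1, hb, by omega, P', N', hf, hs, rfl, h1, h2, h3⟩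

end Crest.Agent.R235.K3Num_723
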