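import Crest.Agent.R235.KumDefs2_152
import Crest.Agent.R235.Word8_504
import Crest.Agent.R235.JPos_225
import Crest.Agent.R235.CurTop_844
import Crest.Agent.R235.Integ_796
import Crest.Agent.R235.Swc1_215

/-!
Row 235 (S0364), helper844: small bridges: `KCODE`, `Swc.CPOS`, `Swc.JINT` are theorems.
-/

set_option autoImplicit false

universe u

namespace Crest.Agent.R235

/-- `KCODE` (504). -/
theorem kcode : KCODE.{u} := by
  intro M _ _ _ _ _ _ w d hw hK hk
  exact Word8_504.word8 w d hw hK hk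

/-- `CPOS` (225). -/
theorem swc_cpos : Swc.CPOS.{u} := by
  intro M _ _ _ _ _ _ w J _ hJ c
  exact JPos_225.T_pos hJ c

/-- `Swc.JINT` (796, 524). -/
theorem swc_jint : Swc.JINT.{0} := by
  intro M _ _ _ _ _ _ w J hw hJ c s hs
  exact CurTop_844.jint (fun M _ _ _ _ _ _ _ _ _ _ c N p a hp ha => Integ_796.integ c hp ha)
    M w J hw hJ c s hs

end Crest.Agent.R235
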