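import Crest.Agent.R240.Ch3

/-!
Row 235 (S0364), helper129: leaf L1 of helper604 (KUP/KDOWN): cut-off functions on `E4` and the
interpolation of profiles.

* `exists_cut` : even cut-offs `0` on `‖z‖ ≤ ε/2`, `1` on `‖z‖ ≥ ε`, differential `≤ C/ε`;
* `exists_logcut` : even cut-offs with `‖ds‖ ‖z‖ ≤ δ`;
* `exists_prof` : interpolation `μ g ↝ t` of increasing positive profiles.
-/

set_option autoImplicit false

open Set Function Filter
open scoped ContDiff Topology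

namespace Crest.Agent.R235.KCut_129

noncomputable section

local notation "ST" => Real.smoothTransition

/-! ### the derivative of `smoothTransition` -/

lemma st_smooth : ContDiff ℝ ∞ ST := Real.smoothTransition.contDiff

lemma st_diff (x : ℝ) : DifferentiableAt ℝ ST x :=
  st_smooth.differentiable (by simp) x

lemma st_deriv_low {x : ℝ} (hx : x < 0) : deriv ST x = 0 := by
  have h : ST =ᶠ[𝓝 x] fun _ => (0 : ℝ) := by
    filter_upwards [Iio_mem_nhds hx] with y hy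
    exact Real.smoothTransition.zero_of_nonpos hy.le
  rw [h.deriv_eq, deriv_const]

lemma st_deriv_high {x : ℝ} (hx : 1 < x) : deriv ST x = 0 := by
  have h : ST =ᶠ[𝓝 x] fun _ => (1 : ℝ) := by
    filter_upwards [Ioi_mem_nhds hx] with y hy
    exact Real.smoothTransition.one_of_one_le (le_of_lt hy)
  rw [h.deriv_eq, deriv_const]

lemma st_deriv_nonneg (x : ℝ) : 0 ≤ deriv ST x :=
  Real.smoothTransition.monotone.deriv_nonneg

lemma st_deriv_cont : Continuous (deriv ST) :=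
  st_smooth.continuous_deriv (by simp)

lemma st_deriv_zero_low {x : ℝ} (hx : x ≤ 0) : deriv ST x = 0 := by
  have h : x ∈ closure (Iio (0 : ℝ)) := by rw [closure_Iio]; exact hx
  exact closure_minimal (fun y hy => st_deriv_low hy)
    (isClosed_singleton.preimage st_deriv_cont) h

lemma st_deriv_zero_high {x : ℝ} (hx : 1 ≤ x) : deriv ST x = 0 := by
  have h : x ∈ closure (Ioi (1 : ℝ)) := by rw [closure_Ioi]; exact hx
  exact closure_minimal (fun y hy => st_deriv_high hy)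
    (isClosed_singleton.preimage st_deriv_cont) h

/-- the derivative is bounded. -/
lemma st_bound : ∃ B : ℝ, 0 < B ∧ ∀ x, |deriv ST x| ≤ B := by
  obtain ⟨B, hB⟩ := (isCompact_Icc (a := (0 : ℝ)) (b := 1)).exists_bound_of_continuousOn
    (f := deriv ST) st_deriv_cont.continuousOn
  refine ⟨max B 1, lt_max_of_lt_right one_pos, fun x => ?_⟩
  rcases lt_or_ge x 0 with h0 | h0
  · rw [st_deriv_low h0, abs_zero]; exact (zero_le_one).trans (le_max_right _ _)
  rcases lt_or_ge 1 x with h1 | h1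
  · rw [st_deriv_high h1, abs_zero]; exact (zero_le_one).trans (le_max_right _ _)
  · exact (hB x ⟨h0, h1⟩).trans (le_max_left _ _)

/-! ### functions of `‖z‖²` -/

section Eu

variable {V : Type*} [NormedAddCommGroup V] [InnerProductSpace ℝ V]

lemma hasFDerivAt_sq (z : V) : HasFDerivAt (fun y : V => ‖y‖ ^ 2) (2 • (innerSL ℝ z)) z := by
  have := (hasStrictFDerivAt_norm_sq z).hasFDerivAt
  exact this

/-- the differential of `f (‖z‖²)`. -/
lemma fderiv_rad {f : ℝ → ℝ} {z : V} (hf : DifferentiableAt ℝ f (‖z‖ ^ 2)) (v : V) :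
    fderiv ℝ (fun y : V => f (‖y‖ ^ 2)) z v = deriv f (‖z‖ ^ 2) * (2 * inner ℝ z v) := by
  have h := (hf.hasDerivAt.hasFDerivAt).comp z (hasFDerivAt_sq z)
  have h' : HasFDerivAt (fun y : V => f (‖y‖ ^ 2)) _ z := h
  rw [h'.fderiv]
  simp [mul_comm]
  ring

lemma abs_fderiv_rad_le {f : ℝ → ℝ} {z : V} (hf : DifferentiableAt ℝ f (‖z‖ ^ 2)) (v : V) :
    |fderiv ℝ (fun y : V => f (‖y‖ ^ 2)) z v| ≤ 2 * |deriv f (‖z‖ ^ 2)| * ‖z‖ * ‖v‖ := by
  rw [fderiv_rad hf, abs_mul, abs_mul, abs_two]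
  have := abs_real_inner_le_norm z v
  have h0 := abs_nonneg (deriv f (‖z‖ ^ 2))
  nlinarith [mul_le_mul_of_nonneg_left this h0]

end Eu

local notation "E4" => EuclideanSpace ℝ (Fin 4)

theorem exists_cut : ∃ C : ℝ, 0 < C ∧ ∀ ε : ℝ, 0 < ε → ∃ χ : E4 → ℝ, ContDiff ℝ ∞ χ ∧
    (∀ z, χ (-z) = χ z) ∧ (∀ z, 0 ≤ χ z ∧ χ z ≤ 1) ∧ (∀ z, ‖z‖ ≤ ε / 2 → χ z = 0) ∧
    (∀ z, ε ≤ ‖z‖ → χ z = 1) ∧ ∀ z v, |fderiv ℝ χ z v| ≤ C / ε * ‖v‖ := by
  obtain ⟨B, hB, hb⟩ := st_bound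
  refine ⟨8 / 3 * B, by positivity, fun ε hε => ?_⟩
  set a : ℝ → ℝ := fun t => (4 * t / ε ^ 2 - 1) / 3 with ha
  have hada : ∀ t, HasDerivAt a (4 / (3 * ε ^ 2)) t := by
    intro t
    have h1 : HasDerivAt (fun t : ℝ => 4 * t / ε ^ 2) (4 * 1 / ε ^ 2) t :=
      ((hasDerivAt_id t).const_mul 4).div_const _
    refine ((h1.sub_const 1).div_const 3).congr_deriv ?_
    field_simp
  have hac : ContDiff ℝ ∞ a := by
    rw [ha]; fun_prop
  set f : ℝ → ℝ := fun t => ST (a t) with hf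
  have hfd : ∀ t, HasDerivAt f (deriv ST (a t) * (4 / (3 * ε ^ 2))) t := fun t =>
    (st_diff (a t)).hasDerivAt.comp t (hada t)
  have hfc : ContDiff ℝ ∞ f := st_smooth.comp hac
  refine ⟨fun z => f (‖z‖ ^ 2), hfc.comp (contDiff_norm_sq ℝ), fun z => by simp,
    fun z => ⟨Real.smoothTransition.nonneg _, Real.smoothTransition.le_one _⟩, ?_, ?_, ?_⟩
  · intro z hz
    refine Real.smoothTransition.zero_of_nonpos ?_
    have h1 : ‖z‖ ^ 2 ≤ (ε / 2) ^ 2 := by gcongr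
    have h2 : 4 * ‖z‖ ^ 2 / ε ^ 2 ≤ 1 := by
      rw [div_le_one (by positivity)]; nlinarith
    show (4 * ‖z‖ ^ 2 / ε ^ 2 - 1) / 3 ≤ 0
    linarith
  · intro z hz
    refine Real.smoothTransition.one_of_one_le ?_
    have h1 : ε ^ 2 ≤ ‖z‖ ^ 2 := by gcongr
    have h2 : 4 ≤ 4 * ‖z‖ ^ 2 / ε ^ 2 := by
      rw [le_div_iff₀ (by positivity)]; nlinarith
    show 1 ≤ (4 * ‖z‖ ^ 2 / ε ^ 2 - 1) / 3
    linarith
  · intro z v
    have h1 := abs_fderiv_rad_le (z := z) (hfd (‖z‖ ^ 2)).differentiableAt v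
    rw [(hfd (‖z‖ ^ 2)).deriv] at h1
    rcases le_or_gt ‖z‖ ε with hz | hz
    · have h2 : |deriv ST (a (‖z‖ ^ 2)) * (4 / (3 * ε ^ 2))| ≤ B * (4 / (3 * ε ^ 2)) := by
        rw [abs_mul, abs_of_pos (a := 4 / (3 * ε ^ 2)) (by positivity)]
        exact mul_le_mul_of_nonneg_right (hb _) (by positivity)
      have h3 : 2 * |deriv ST (a (‖z‖ ^ 2)) * (4 / (3 * ε ^ 2))| * ‖z‖ * ‖v‖ ≤
          2 * (B * (4 / (3 * ε ^ 2))) * ε * ‖v‖ := by gcongr
      refine (h1.trans h3).trans (le_of_eq ?_)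
      field_simp
      ring
    · have h2 : deriv ST (a (‖z‖ ^ 2)) = 0 := by
        refine st_deriv_zero_high ?_
        have h1 : ε ^ 2 ≤ ‖z‖ ^ 2 := by gcongr
        have h2 : 4 ≤ 4 * ‖z‖ ^ 2 / ε ^ 2 := by
          rw [le_div_iff₀ (by positivity)]; nlinarith
        show 1 ≤ (4 * ‖z‖ ^ 2 / ε ^ 2 - 1) / 3
        linarith
      rw [h2] at h1
      refine h1.trans ?_
      simp only [zero_mul, abs_zero, mul_zero]
      positivity

theorem exists_logcut : ∀ r1 δ : ℝ, 0 < r1 → 0 < δ → ∃ (r0 : ℝ) (s : E4 → ℝ), 0 < r0 ∧ r0 < r1 ∧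
    ContDiff ℝ ∞ s ∧ (∀ z, s (-z) = s z) ∧ (∀ z, 0 ≤ s z ∧ s z ≤ 1) ∧
    (∀ z, ‖z‖ ≤ r0 → s z = 0) ∧ (∀ z, r1 ≤ ‖z‖ → s z = 1) ∧
    ∀ z v, |fderiv ℝ s z v| * ‖z‖ ≤ δ * ‖v‖ := by
  obtain ⟨B, hB, hb⟩ := st_bound
  intro r1 δ h1 hδ
  set d : ℝ := δ / (2 * B) with hd
  have hd0 : 0 < d := by positivity
  set q : ℝ := Real.exp (-(1 / d)) with hq
  have hq0 : 0 < q := Real.exp_pos _
  have hq1 : q < 1 := by
    rw [hq, Real.exp_lt_one_iff]
    have : 0 < 1 / d := by positivity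
    linarith
  set c : ℝ := r1 ^ 2 * q / 2 with hc
  have hc0 : 0 < c := by positivity
  set r0 : ℝ := Real.sqrt c with hr0
  have hr00 : 0 < r0 := Real.sqrt_pos.2 hc0
  have hr0sq : r0 ^ 2 = c := Real.sq_sqrt hc0.le
  set a : ℝ → ℝ := fun t => 1 + d * Real.log ((t + c) / r1 ^ 2) with ha
  have hada : ∀ t, 0 ≤ t → HasDerivAt a (d / (t + c)) t := by
    intro t ht
    have h1 : HasDerivAt (fun t : ℝ => (t + c) / r1 ^ 2) (1 / r1 ^ 2) t :=
      ((hasDerivAt_id t).add_const c).div_const _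
    refine (((h1.log (by positivity)).const_mul d).const_add 1).congr_deriv ?_
    have : t + c ≠ 0 := by positivity
    field_simp
  have hac : ∀ t, 0 ≤ t → ContDiffAt ℝ ∞ a t := by
    intro t ht
    rw [ha]
    have h : (t + c) / r1 ^ 2 ≠ 0 := by positivity
    have h2 : ContDiffAt ℝ ∞ (fun t : ℝ => (t + c) / r1 ^ 2) t := by fun_prop
    exact contDiffAt_const.add (contDiffAt_const.mul (h2.log h))
  set f : ℝ → ℝ := fun t => ST (a t) with hf
  have hfd : ∀ t, 0 ≤ t → HasDerivAt f (deriv ST (a t) * (d / (t + c))) t := fun t ht =>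
    (st_diff (a t)).hasDerivAt.comp t (hada t ht)
  have hfc : ∀ t, 0 ≤ t → ContDiffAt ℝ ∞ f t := fun t ht =>
    st_smooth.contDiffAt.comp t (hac t ht)
  refine ⟨r0, fun z => f (‖z‖ ^ 2), hr00, ?_, ?_, fun z => by simp,
    fun z => ⟨Real.smoothTransition.nonneg _, Real.smoothTransition.le_one _⟩, ?_, ?_, ?_⟩
  · have : r0 ^ 2 < r1 ^ 2 := by
      rw [hr0sq, hc]
      have : r1 ^ 2 * q < r1 ^ 2 := by
        have := pow_pos h1 2
        nlinarith
      have := mul_pos (pow_pos h1 2) hq0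
      linarith
    exact lt_of_pow_lt_pow_left₀ 2 h1.le this
  · rw [contDiff_iff_contDiffAt]
    intro z
    exact (hfc (‖z‖ ^ 2) (by positivity)).comp z (contDiff_norm_sq ℝ).contDiffAt
  · intro z hz
    refine Real.smoothTransition.zero_of_nonpos ?_
    have h2 : ‖z‖ ^ 2 ≤ c := by rw [← hr0sq]; gcongr
    have h3 : (‖z‖ ^ 2 + c) / r1 ^ 2 ≤ q := by
      rw [div_le_iff₀ (by positivity)]
      have : q * r1 ^ 2 = 2 * c := by rw [hc]; ring
      rw [this]; linarith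
    have h4 : Real.log ((‖z‖ ^ 2 + c) / r1 ^ 2) ≤ -(1 / d) := by
      rw [← Real.log_exp (-(1 / d))]
      exact Real.log_le_log (by positivity) h3
    have h5 : d * Real.log ((‖z‖ ^ 2 + c) / r1 ^ 2) ≤ d * (-(1 / d)) :=
      mul_le_mul_of_nonneg_left h4 hd0.le
    have h6 : d * (-(1 / d)) = -1 := by field_simp
    show 1 + d * Real.log ((‖z‖ ^ 2 + c) / r1 ^ 2) ≤ 0
    linarith
  · intro z hz
    refine Real.smoothTransition.one_of_one_le ?_
    have h2 : r1 ^ 2 ≤ ‖z‖ ^ 2 := by gcongr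
    have h3 : 1 ≤ (‖z‖ ^ 2 + c) / r1 ^ 2 := by
      rw [le_div_iff₀ (by positivity)]; linarith
    have h4 : 0 ≤ Real.log ((‖z‖ ^ 2 + c) / r1 ^ 2) := Real.log_nonneg h3
    show 1 ≤ 1 + d * Real.log ((‖z‖ ^ 2 + c) / r1 ^ 2)
    have := mul_nonneg hd0.le h4
    linarith
  · intro z v
    have hsq : 0 ≤ ‖z‖ ^ 2 := by positivity
    have h2 := abs_fderiv_rad_le (z := z) (hfd (‖z‖ ^ 2) hsq).differentiableAt v
    rw [(hfd (‖z‖ ^ 2) hsq).deriv] at h2
    have h3 : |deriv ST (a (‖z‖ ^ 2)) * (d / (‖z‖ ^ 2 + c))| ≤ B * (d / (‖z‖ ^ 2 + c)) := by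
      rw [abs_mul, abs_of_pos (a := d / (‖z‖ ^ 2 + c)) (by positivity)]
      exact mul_le_mul_of_nonneg_right (hb _) (by positivity)
    have h4 : |fderiv ℝ (fun z : E4 => f (‖z‖ ^ 2)) z v| * ‖z‖ ≤
        2 * (B * (d / (‖z‖ ^ 2 + c))) * ‖z‖ * ‖v‖ * ‖z‖ := by
      refine mul_le_mul_of_nonneg_right (h2.trans ?_) (norm_nonneg z)
      gcongr
    have h5 : 2 * (B * (d / (‖z‖ ^ 2 + c))) * ‖z‖ * ‖v‖ * ‖z‖ =
        δ * ‖v‖ * (‖z‖ ^ 2 / (‖z‖ ^ 2 + c)) := by
      rw [hd]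
      have : ‖z‖ ^ 2 + c ≠ 0 := by positivity
      field_simp
    have h6 : ‖z‖ ^ 2 / (‖z‖ ^ 2 + c) ≤ 1 := by
      rw [div_le_one (by positivity)]; linarith
    refine h4.trans ?_
    rw [h5]
    exact mul_le_of_le_one_right (by positivity) h6

theorem exists_prof (g : ℝ → ℝ) (hg : ContDiffOn ℝ ∞ g (Ioi 0))
    (hp : ∀ t, 0 < t → t < 1 → 0 < g t ∧ 0 < deriv g t) (t1 : ℝ) (h1 : 0 < t1) (h1' : t1 < 1) :
    ∃ (μ t0 : ℝ) (gd : ℝ → ℝ), 0 < μ ∧ μ ≤ 1 ∧ 0 < t0 ∧ t0 < t1 ∧ ContDiffOn ℝ ∞ gd (Ioi 0) ∧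
      (∀ t, 0 < t → t < 1 → 0 < gd t ∧ 0 < deriv gd t) ∧ (∀ t, t ≤ t0 → gd t = μ * g t) ∧
      (∀ t, t1 ≤ t → gd t = t) := by
  set t0 : ℝ := t1 / 2 with ht0
  have ht00 : 0 < t0 := by positivity
  have ht01 : t0 < t1 := by rw [ht0]; linarith
  have hgd : ∀ t, 0 < t → DifferentiableAt ℝ g t := fun t ht =>
    ((hg t ht).contDiffAt (Ioi_mem_nhds ht)).differentiableAt (by simp)
  have hmono : ∀ t, 0 < t → t ≤ t1 → g t ≤ g t1 := by
    intro t ht htt
    have hm : MonotoneOn g (Ioo 0 1) := by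
      refine monotoneOn_of_deriv_nonneg (convex_Ioo 0 1) (fun s hs => ?_) ?_ ?_
      · exact (hgd s hs.1).continuousAt.continuousWithinAt
      · rw [interior_Ioo]
        exact fun s hs => (hgd s hs.1).differentiableWithinAt
      · rw [interior_Ioo]
        exact fun s hs => (hp s hs.1 hs.2).2.le
    exact hm ⟨ht, lt_of_le_of_lt htt h1'⟩ ⟨h1, h1'⟩ htt
  have hg1 : 0 < g t1 := (hp t1 h1 h1').1
  set μ : ℝ := min 1 (t0 / g t1) with hμ
  have hμ0 : 0 < μ := lt_min one_pos (by positivity)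
  have hμg : μ * g t1 ≤ t0 := by
    have : μ ≤ t0 / g t1 := min_le_right _ _
    calc μ * g t1 ≤ t0 / g t1 * g t1 := mul_le_mul_of_nonneg_right this hg1.le
      _ = t0 := by field_simp
  set a : ℝ → ℝ := fun t => (t - t0) / (t1 - t0) with ha
  have hd0 : 0 < t1 - t0 := by linarith
  have hada : ∀ t, HasDerivAt a (1 / (t1 - t0)) t := fun t =>
    ((hasDerivAt_id t).sub_const t0).div_const _
  have hac : ContDiff ℝ ∞ a := by rw [ha]; fun_prop
  set χ : ℝ → ℝ := fun t => ST (a t) with hχ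
  have hχc : ContDiff ℝ ∞ χ := st_smooth.comp hac
  have hχd : ∀ t, HasDerivAt χ (deriv ST (a t) * (1 / (t1 - t0))) t := fun t =>
    (st_diff (a t)).hasDerivAt.comp t (hada t)
  have hχ0 : ∀ t, 0 ≤ χ t := fun t => Real.smoothTransition.nonneg _
  have hχ1 : ∀ t, χ t ≤ 1 := fun t => Real.smoothTransition.le_one _
  set gd : ℝ → ℝ := fun t => (1 - χ t) * (μ * g t) + χ t * t with hgdd
  have hD : ∀ t, 0 < t → HasDerivAt gd
      ((0 - deriv ST (a t) * (1 / (t1 - t0))) * (μ * g t) + (1 - χ t) * (μ * deriv g t) +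
        (deriv ST (a t) * (1 / (t1 - t0)) * t + χ t * 1)) t := by
    intro t ht
    exact (((hasDerivAt_const t (1 : ℝ)).sub (hχd t)).mul ((hgd t ht).hasDerivAt.const_mul μ)).add
      ((hχd t).mul (hasDerivAt_id t))
  refine ⟨μ, t0, gd, hμ0, min_le_left _ _, ht00, ht01, ?_, ?_, ?_, ?_⟩
  · exact ((contDiffOn_const.sub hχc.contDiffOn).mul (contDiffOn_const.mul hg)).add
      (hχc.contDiffOn.mul contDiffOn_id)
  · intro t ht ht'
    obtain ⟨hp1, hp2⟩ := hp t ht ht'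
    have hc : ∀ x y : ℝ, 0 < x → 0 < y → 0 < (1 - χ t) * x + χ t * y := by
      intro x y hx hy
      rcases (hχ0 t).eq_or_lt with h | h
      · rw [← h]; simpa using hx
      · exact add_pos_of_nonneg_of_pos (mul_nonneg (by linarith [hχ1 t]) hx.le) (mul_pos h hy)
    refine ⟨hc _ _ (by positivity) ht, ?_⟩
    rw [(hD t ht).deriv]
    have h2 := hc (μ * deriv g t) 1 (by positivity) one_pos
    have h3 : 0 ≤ deriv ST (a t) * (1 / (t1 - t0)) * (t - μ * g t) := by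
      rcases lt_or_ge t t0 with h | h
      · have : deriv ST (a t) = 0 := by
          refine st_deriv_zero_low ?_
          exact div_nonpos_of_nonpos_of_nonneg (by linarith) hd0.le
        rw [this]; simp
      rcases lt_or_ge t1 t with h' | h'
      · have : deriv ST (a t) = 0 := by
          refine st_deriv_zero_high ?_
          show 1 ≤ (t - t0) / (t1 - t0)
          rw [le_div_iff₀ hd0]; linarith
        rw [this]; simp
      · have h4 : μ * g t ≤ t := by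
          have := mul_le_mul_of_nonneg_left (hmono t ht h') hμ0.le
          linarith
        exact mul_nonneg (mul_nonneg (st_deriv_nonneg _) (by positivity)) (by linarith)
    nlinarith [h2, h3]
  · intro t ht
    have : χ t = 0 := by
      refine Real.smoothTransition.zero_of_nonpos ?_
      exact div_nonpos_of_nonpos_of_nonneg (by linarith) hd0.le
    show (1 - χ t) * (μ * g t) + χ t * t = μ * g t
    rw [this]; ring
  · intro t ht
    have : χ t = 1 := by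
      refine Real.smoothTransition.one_of_one_le ?_
      show 1 ≤ (t - t0) / (t1 - t0)
      rw [le_div_iff₀ hd0]; linarith
    show (1 - χ t) * (μ * g t) + χ t * t = t
    rw [this]; ring

end

end Crest.Agent.R235.KCut_129
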