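import Crest.Agent.R235.PB_604
import Crest.Agent.R235.KT_604

/-!
Row 235, KUM-K3' (helper604): push forward under local diffeomorphisms, transfer of closed
two-forms between `M` and `X` (`up`, `down`).
-/

set_option autoImplicit false
set_option maxSynthPendingDepth 3
set_option linter.unusedSectionVars false

open Set Function Filter
open scoped Manifold ContDiff Topology

universe u

namespace Crest.Agent.R235.KGlue_604

open Crest.Agent.R240 Crest.Agent.R240.Ch Crest.Agent.R235 Crest.Agent.R235.PB_604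
  Crest.Agent.R235.KT_604

noncomputable section

/-! ### linear algebra -/

/-- an injective endomorphism of `E4` is an equivalence. -/
def eqv (A : E4 →L[ℝ] E4) (h : ∀ v, A v = 0 → v = 0) : E4 ≃L[ℝ] E4 :=
  (LinearEquiv.ofInjectiveEndo (A : E4 →ₗ[ℝ] E4)
    ((injective_iff_map_eq_zero _).2 h)).toContinuousLinearEquiv

@[simp] lemma eqv_coe (A : E4 →L[ℝ] E4) (h : ∀ v, A v = 0 → v = 0) :
    ((eqv A h : E4 ≃L[ℝ] E4) : E4 →L[ℝ] E4) = A := by
  ext v; rfl

lemma eqv_apply (A : E4 →L[ℝ] E4) (h : ∀ v, A v = 0 → v = 0) (v : E4) : eqv A h v = A v := rfl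

lemma pl_id (b : Bil) : pl (ContinuousLinearMap.id ℝ E4) b = b := by
  ext u v; simp

lemma pl_pl (A B : E4 →L[ℝ] E4) (b : Bil) : pl A (pl B b) = pl (B.comp A) b := by
  ext u v; simp

lemma pl_inj {A : E4 →L[ℝ] E4} (h : ∀ v, A v = 0 → v = 0) {b c : Bil} (hbc : pl A b = pl A c) :
    b = c := by
  have h1 : A.comp ((eqv A h).symm : E4 →L[ℝ] E4) = ContinuousLinearMap.id ℝ E4 := by
    refine ContinuousLinearMap.ext fun v => ?_
    show A ((eqv A h).symm v) = v
    have := (eqv A h).apply_symm_apply v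
    rwa [eqv_apply] at this
  have h2 : pl ((eqv A h).symm : E4 →L[ℝ] E4) (pl A b) =
      pl ((eqv A h).symm : E4 →L[ℝ] E4) (pl A c) := by rw [hbc]
  rwa [pl_pl, pl_pl, h1, pl_id, pl_id] at h2

/-- push forward of a bilinear form by an injective map. -/
def ps (A : E4 →L[ℝ] E4) (b : Bil) : Bil :=
  open Classical in
  if h : ∀ v, A v = 0 → v = 0 then pl ((eqv A h).symm : E4 →L[ℝ] E4) b else 0

lemma pl_ps {A : E4 →L[ℝ] E4} (h : ∀ v, A v = 0 → v = 0) (b : Bil) : pl A (ps A b) = b := by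
  unfold ps
  rw [dif_pos h, pl_pl]
  have h1 : ((eqv A h).symm : E4 →L[ℝ] E4).comp A = ContinuousLinearMap.id ℝ E4 := by
    refine ContinuousLinearMap.ext fun v => ?_
    show (eqv A h).symm (A v) = v
    have := (eqv A h).symm_apply_apply v
    rwa [eqv_apply] at this
  rw [h1, pl_id]

/-! ### push forward -/

section Push

variable {X M : Type*} [TopologicalSpace X] [ChartedSpace E4 X] [TopologicalSpace M]
  [ChartedSpace E4 M] [IsManifold 𝓘(ℝ, E4) ∞ X] [IsManifold 𝓘(ℝ, E4) ∞ M]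

/-- if the pull back of `w` under a local diffeomorphism is smooth and closed, so is `w`. -/
theorem push {f : X → M} {U : Set X} (hU : IsOpen U)
    (hf : ContMDiffOn 𝓘(ℝ, E4) 𝓘(ℝ, E4) ∞ f U)
    (hi : ∀ x ∈ U, ∀ v : E4, D1 E4 E4 f x v = 0 → v = 0)
    {a : F2 E4 X} {w : F2 E4 M} {x : X} (hx : x ∈ U) (ha : Z2At a x)
    (hw : ∀ x ∈ U, at2 a x = pl (D1 E4 E4 f x) (at2 w (f x))) : Z2At w (f x) := by
  have hfx : ContMDiffAt 𝓘(ℝ, E4) 𝓘(ℝ, E4) ∞ f x := hf.contMDiffAt (hU.mem_nhds hx)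
  obtain ⟨g, hg, hgx, hg1, hg2⟩ := exists_localInv hfx (eqv _ (hi x hx)) (eqv_coe _ _)
  have ha' : Z2At a (g (f x)) := by rw [hgx]; exact ha
  have h1 := ha'.pb2 (E := E4) hg
  refine h1.congr ?_
  have hgU : ∀ᶠ y in 𝓝 (f x), g y ∈ U :=
    hg.continuousAt.eventually (hU.mem_nhds (by rw [hgx]; exact hx))
  have : IsManifold 𝓘(ℝ, E4) 1 X := IsManifold.of_le (n := ∞) one_le_infty
  have : IsManifold 𝓘(ℝ, E4) 1 M := IsManifold.of_le (n := ∞) one_le_infty
  have hg1c := c1_eventually hg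
  filter_upwards [hgU, hg1c, hg2, hg2.eventually_nhds] with y hy1 hy2 hy3 hy4
  have h2 : ContMDiffAt 𝓘(ℝ, E4) 𝓘(ℝ, E4) 1 f (g y) :=
    (hf.contMDiffAt (hU.mem_nhds hy1)).of_le one_le_infty
  have h3 := D1_comp (E := E4) (F := E4) (G := E4) hy2 h2
  have h4 : D1 E4 E4 (f ∘ g) y = D1 E4 E4 (id : M → M) y := by
    refine D1_congr ?_
    filter_upwards [hy4] with z hz
    exact hz
  rw [at2_pb2, hw _ hy1, pl_pl, ← h3, h4, D1_id, pl_id, hy3]

end Push

/-! ### the setting -/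

section Transfer

variable {M : Type u} [TopologicalSpace M] [ChartedSpace E4 M] [IsManifold 𝓘(ℝ, E4) ∞ M]
  {m : ℕ} {K : KIn M m}
variable {X : Type u} [TopologicalSpace X] [ChartedSpace E4 X] [IsManifold 𝓘(ℝ, E4) ∞ X]

/-- the points of `X` which are not the new ones. -/
def Reg (O : KOut K X) : Set X := {x | ∀ i, x ≠ O.ch i 0}

lemma dX_eq {E F : Type} [NormedAddCommGroup E] [NormedSpace ℝ E] [NormedAddCommGroup F]
    [NormedSpace ℝ F] {X M : Type u} [TopologicalSpace X] [ChartedSpace E X]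
    [TopologicalSpace M] [ChartedSpace F M] (f : X → M) (x : X) :
    dX (E := E) (F := F) f x = D1 E F f x := rfl

lemma dmap_eq {V : Type} [NormedAddCommGroup V] [NormedSpace ℝ V] {M : Type u}
    [TopologicalSpace M] [ChartedSpace E4 M] (f : V → M) (y v : V) :
    dmap f y v = D1 V E4 f y v := rfl

lemma isOpen_PB (r : ℝ) : IsOpen (PB r) := by
  have : PB r = {z : E4 | z ≠ 0} ∩ Metric.ball 0 r := by
    ext z; simp [PB]
  rw [this]
  exact isOpen_ne.inter Metric.isOpen_ball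

lemma PB_mono {r s : ℝ} (h : r ≤ s) : PB r ⊆ PB s := fun _ hz => ⟨hz.1, hz.2.trans_le h⟩

lemma PB_ball {r : ℝ} {z : E4} (hz : z ∈ PB r) : z ∈ Metric.ball (0 : E4) r := by
  simpa using hz.2

lemma neg_mem_PB {r : ℝ} {z : E4} (hz : z ∈ PB r) : -z ∈ PB r :=
  ⟨neg_ne_zero.2 hz.1, by rw [norm_neg]; exact hz.2⟩

namespace KOut

variable (O : KOut K X)

lemma ch_ne {i j : Fin m} {z : E4} (hz : z ∈ PB 1) : O.ch i z ≠ O.ch j 0 := by
  intro h
  by_cases hij : i = j
  · subst hij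
    exact hz.1 (O.ch_inj i (PB_ball hz) (by simp) h)
  · exact O.ch_sep i j hij z (PB_ball hz) 0 (by simp) h

lemma ch_mem_Reg {i : Fin m} {z : E4} (hz : z ∈ PB 1) : O.ch i z ∈ Reg O := fun _ =>
  ch_ne O hz

lemma io_ch0 (i : Fin m) : O.io (O.ch i 0) = O.ch i 0 := by
  have := O.io_ch i 0 (by simp)
  simpa using this

lemma io_Reg {x : X} (hx : x ∈ Reg O) : O.io x ∈ Reg O := by
  intro i h
  have := congrArg O.io h
  rw [O.io_io, io_ch0] at this
  exact hx i this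

lemma isOpen_Reg [T2Space X] : IsOpen (Reg O) := by
  have : Reg O = ⋂ i, {x | x ≠ O.ch i 0} := by
    ext x; simp [Reg]
  rw [this]
  exact isOpen_iInter_of_finite fun i => isOpen_ne

lemma pr_at [T2Space X] {x : X} (hx : x ∈ Reg O) :
    ContMDiffAt 𝓘(ℝ, E4) 𝓘(ℝ, E4) ∞ O.pr x :=
  O.pr_smooth.contMDiffAt ((isOpen_Reg O).mem_nhds hx)

lemma ch_at {i : Fin m} {z : E4} (hz : z ∈ Metric.ball (0 : E4) 1) :
    ContMDiffAt 𝓘(ℝ, E4) 𝓘(ℝ, E4) ∞ (O.ch i) z :=
  (O.ch_smooth i).contMDiffAt (Metric.isOpen_ball.mem_nhds hz)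

end KOut

lemma phi_at {i : Fin m} {z : E4} (hz : z ∈ PB 1) :
    ContMDiffAt 𝓘(ℝ, E4) 𝓘(ℝ, E4) ∞ (K.phi i) z :=
  (K.smooth i).contMDiffAt ((isOpen_PB 1).mem_nhds hz)

/-- chain rule `pr ∘ ch i = phi i`. -/
lemma D1_pr_ch [T2Space X] (O : KOut K X) {i : Fin m} {z : E4} (hz : z ∈ PB 1) :
    D1 E4 E4 (K.phi i) z = (D1 E4 E4 O.pr (O.ch i z)).comp (D1 E4 E4 (O.ch i) z) := by
  rw [← D1_comp (E := E4) (F := E4) (G := E4) ((KOut.ch_at O (PB_ball hz)).of_le one_le_infty)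
    ((KOut.pr_at O (KOut.ch_mem_Reg O hz)).of_le one_le_infty)]
  refine D1_congr ?_
  filter_upwards [(isOpen_PB 1).mem_nhds hz] with y hy
  exact (O.pr_ch i y hy).symm

/-! ### up -/

section Up

variable [T2Space X]

/-- **UP**: a closed form on `M` and closed forms on the balls which agree on the necks give a
closed form on `X`. -/
theorem up (O : KOut K X) (b : F2 E4 M) (hb : ∀ y, (∀ i, y ∉ K.C i) → Z2At b y)
    (β : Fin m → F2 E4 E4) (r : ℝ) (hr : r < 1)
    (hβ : ∀ i, ∀ z ∈ Metric.ball (0 : E4) 1, Z2At (β i) z)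
    (hag : ∀ i, ∀ z ∈ PB 1, r < ‖z‖ → at2 (pb2 (E := E4) (K.phi i) b) z = at2 (β i) z) :
    ∃ c : F2 E4 X, (∀ x, Z2At c x) ∧
      (∀ i, ∀ z ∈ Metric.ball (0 : E4) 1, pl (D1 E4 E4 (O.ch i) z) (at2 c (O.ch i z)) =
        at2 (β i) z) ∧
      (∀ x, (∀ i, ∀ z, ‖z‖ ≤ r → x ≠ O.ch i z) → x ∈ Reg O →
        at2 c x = pl (D1 E4 E4 O.pr x) (at2 b (O.pr x))) := by
  classical
  set c : F2 E4 X := fun x =>
    if h : ∃ p : Fin m × E4, p.2 ∈ Metric.ball (0 : E4) 1 ∧ O.ch p.1 p.2 = x then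
      ps (D1 E4 E4 (O.ch h.choose.1) h.choose.2) (at2 (β h.choose.1) h.choose.2)
    else pl (D1 E4 E4 O.pr x) (at2 b (O.pr x)) with hc
  have hin : ∀ i, ∀ z ∈ Metric.ball (0 : E4) 1, pl (D1 E4 E4 (O.ch i) z)
      (at2 c (O.ch i z)) = at2 (β i) z := by
    intro i z hz
    have h : ∃ p : Fin m × E4, p.2 ∈ Metric.ball (0 : E4) 1 ∧ O.ch p.1 p.2 = O.ch i z :=
      ⟨(i, z), hz, rfl⟩
    have h1 : at2 c (O.ch i z) =
      ps (D1 E4 E4 (O.ch h.choose.1) h.choose.2) (at2 (β h.choose.1) h.choose.2) := dif_pos h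
    obtain ⟨h2, h3⟩ := h.choose_spec
    have h4 : h.choose.1 = i := by
      by_contra hne
      exact O.ch_sep _ _ hne _ h2 _ hz h3
    have h5 : h.choose.2 = z := by
      rw [h4] at h3
      exact O.ch_inj i h2 hz h3
    rw [h4, h5] at h1
    rw [h1]
    exact pl_ps (O.ch_imm i z hz) _
  have hout : ∀ x, (∀ i, ∀ z, ‖z‖ ≤ r → x ≠ O.ch i z) → x ∈ Reg O →
      at2 c x = pl (D1 E4 E4 O.pr x) (at2 b (O.pr x)) := by
    intro x hx hxR
    by_cases h : ∃ p : Fin m × E4, p.2 ∈ Metric.ball (0 : E4) 1 ∧ O.ch p.1 p.2 = x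
    · obtain ⟨⟨i, z⟩, hz, hxz⟩ := h
      dsimp only at hz hxz
      subst hxz
      have hz0 : z ≠ 0 := by
        rintro rfl
        exact hxR i rfl
      have hzP : z ∈ PB 1 := ⟨hz0, by simpa using hz⟩
      have hzr : r < ‖z‖ := by
        by_contra hcon
        exact hx i z (not_lt.1 hcon) rfl
      refine pl_inj (A := D1 E4 E4 (O.ch i) z) (O.ch_imm i z hz) ?_
      have h1 := hin i z hz
      have h2 := hag i z hzP hzr
      rw [at2_pb2, D1_pr_ch O hzP] at h2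
      show pl (D1 E4 E4 (O.ch i) z) (at2 c (O.ch i z)) = _
      rw [h1, ← h2, pl_pl]
      show _ = pl _ (at2 b (O.pr (O.ch i z)))
      rw [O.pr_ch i z hzP]
    · exact dif_neg h
  refine ⟨c, fun x => ?_, hin, hout⟩
  by_cases h : ∃ i, ∃ z, z ∈ Metric.ball (0 : E4) 1 ∧ O.ch i z = x
  · obtain ⟨i, z, hz, rfl⟩ := h
    exact push (f := O.ch i) (U := Metric.ball 0 1) Metric.isOpen_ball (O.ch_smooth i)
      (O.ch_imm i) hz (hβ i z hz) fun z hz => (hin i z hz).symm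
  · push Not at h
    -- a neighbourhood of `x` avoiding the closed balls
    have hxR : x ∈ Reg O := fun i h1 => h i 0 (by simp) h1.symm
    have hcl : IsClosed (⋃ i, O.ch i '' Metric.closedBall 0 (max r 0)) := by
      refine isClosed_iUnion_of_finite fun i => ?_
      refine ((isCompact_closedBall (0 : E4) (max r 0)).image_of_continuousOn ?_).isClosed
      refine (O.ch_smooth i).continuousOn.mono (Metric.closedBall_subset_ball ?_)
      exact max_lt hr one_pos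
    have hxn : x ∉ ⋃ i, O.ch i '' Metric.closedBall 0 (max r 0) := by
      rw [mem_iUnion]
      rintro ⟨i, z, hz, hxz⟩
      exact h i z (Metric.closedBall_subset_ball (max_lt hr one_pos) hz) hxz
    have h1 : Z2At (pb2 (E := E4) O.pr b) x :=
      (hb _ (O.pr_out x hxR)).pb2 (KOut.pr_at O hxR)
    refine h1.congr ?_
    filter_upwards [hcl.isOpen_compl.mem_nhds hxn, (KOut.isOpen_Reg O).mem_nhds hxR] with y hy1 hy2
    refine (hout y (fun i z hz hyz => hy1 ?_) hy2).symm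
    rw [mem_iUnion]
    exact ⟨i, z, by simpa using hz.trans (le_max_left r 0), hyz.symm⟩

end Up

/-! ### down -/

section Down

variable [T2Space X] [T2Space M]

/-- **DOWN**: an even closed form on `X` minus small balls and closed forms near the `C i` which
agree on the necks (through `ν i`) give a closed form on `M`. -/
theorem down (O : KOut K X) (a : F2 E4 X) (ha : ∀ x ∈ Reg O, Z2At a x)
    (heven : ∀ x ∈ Reg O, pl (D1 E4 E4 O.io x) (at2 a (O.io x)) = at2 a x)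
    (ν : Fin m → F2 E4 E4) (hν : ∀ i, ∀ z ∈ PB 1, Z2At (ν i) z)
    (hνe : ∀ i, ∀ z ∈ PB 1, at2 (ν i) (-z) = at2 (ν i) z)
    (r1 : ℝ) (hr1 : r1 < 1)
    (hout : ∀ i, ∀ z ∈ PB 1, r1 < ‖z‖ → at2 (pb2 (E := E4) (O.ch i) a) z = at2 (ν i) z)
    (b : Fin m → F2 E4 M) (r0 : ℝ) (hr0 : 0 < r0) (hr01 : r0 ≤ 1)
    (hb : ∀ i, ∀ y ∈ K.C i, Z2At (b i) y)
    (hin : ∀ i, ∀ z ∈ PB r0, at2 (pb2 (E := E4) (K.phi i) (b i)) z = at2 (ν i) z) :
    ∃ w : F2 E4 M, (∀ y, Z2At w y) ∧
      (∀ i, ∀ y ∈ K.C i, at2 w y = at2 (b i) y) ∧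
      (∀ i, ∀ z ∈ PB 1, pl (D1 E4 E4 (K.phi i) z) (at2 w (K.phi i z)) = at2 (ν i) z) ∧
      (∀ x ∈ Reg O, (∀ i, ∀ z, ‖z‖ ≤ r1 → x ≠ O.ch i z) →
        pl (D1 E4 E4 O.pr x) (at2 w (O.pr x)) = at2 a x) := by
  classical
  set w : F2 E4 M := fun y =>
    if h : ∃ i, y ∈ K.C i then at2 (b h.choose) y
    else if h : ∃ p : Fin m × E4, p.2 ∈ PB 1 ∧ K.phi p.1 p.2 = y then
      ps (D1 E4 E4 (K.phi h.choose.1) h.choose.2) (at2 (ν h.choose.1) h.choose.2)
    else if h : ∃ x, x ∈ Reg O ∧ O.pr x = y then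
      ps (D1 E4 E4 O.pr h.choose) (at2 a h.choose)
    else 0 with hw
  -- on `C i`
  have hC : ∀ i, ∀ y ∈ K.C i, at2 w y = at2 (b i) y := by
    intro i y hy
    have h : ∃ i, y ∈ K.C i := ⟨i, hy⟩
    have h1 : at2 w y = at2 (b h.choose) y := dif_pos h
    have h2 : h.choose = i := by
      by_contra hne
      exact (K.disj _ _ hne).le_bot ⟨h.choose_spec, hy⟩
    rw [h1, h2]
  -- the differential of `phi` at `-z`
  have hneg : ∀ i, ∀ z ∈ PB 1, D1 E4 E4 (K.phi i) (-z) = - D1 E4 E4 (K.phi i) z := by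
    intro i z hz
    have hz' := neg_mem_PB hz
    have h1 : ContMDiffAt 𝓘(ℝ, E4) 𝓘(ℝ, E4) 1 (fun z : E4 => -z) z :=
      (contDiff_neg.contDiffAt (n := 1)).contMDiffAt
    have h2 := D1_comp (E := E4) (F := E4) (G := E4) (f := fun z : E4 => -z) (g := K.phi i)
      (x := z) h1 ((phi_at (K := K) hz').of_le one_le_infty)
    have h3 : D1 E4 E4 (K.phi i ∘ fun z : E4 => -z) z = D1 E4 E4 (K.phi i) z := by
      refine D1_congr ?_
      filter_upwards [(isOpen_PB 1).mem_nhds hz] with y hy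
      exact K.even i y hy
    have h4 : D1 E4 E4 (fun z : E4 => -z) z = - ContinuousLinearMap.id ℝ E4 := by
      show fderiv ℝ (fun z : E4 => -z) z = _
      exact (hasFDerivAt_id (𝕜 := ℝ) z).fun_neg.fderiv
    rw [h3, h4] at h2
    rw [h2]
    refine ContinuousLinearMap.ext fun v => ?_
    simp
  -- on the necks
  have hN : ∀ i, ∀ z ∈ PB 1, pl (D1 E4 E4 (K.phi i) z) (at2 w (K.phi i z)) = at2 (ν i) z := by
    intro i z hz
    have hn : ¬ ∃ j, K.phi i z ∈ K.C j := by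
      rintro ⟨j, hj⟩
      exact K.out i j z hz hj
    have h : ∃ p : Fin m × E4, p.2 ∈ PB 1 ∧ K.phi p.1 p.2 = K.phi i z := ⟨(i, z), hz, rfl⟩
    have h1 : at2 w (K.phi i z) =
        ps (D1 E4 E4 (K.phi h.choose.1) h.choose.2) (at2 (ν h.choose.1) h.choose.2) := by
      show w (K.phi i z) = _
      rw [hw]
      dsimp only
      rw [dif_neg hn, dif_pos h]
    obtain ⟨h2, h3⟩ := h.choose_spec
    have h4 : h.choose.1 = i := by
      by_contra hne
      exact K.sep _ _ hne _ h2 _ hz h3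
    rw [h4] at h1 h3
    rw [h1]
    rcases K.inj i _ h2 _ hz h3 with h5 | h5
    · rw [← h5]
      exact pl_ps (K.imm i z hz) _
    · have h6 : h.choose.2 = - z := by
        have h7 := congrArg (fun t : E4 => -t) h5
        simp only [neg_neg] at h7
        exact h7.symm
      rw [h6, hνe i z hz]
      have h7 : pl (D1 E4 E4 (K.phi i) z) (ps (D1 E4 E4 (K.phi i) (-z)) (at2 (ν i) z)) =
          pl (D1 E4 E4 (K.phi i) (-z)) (ps (D1 E4 E4 (K.phi i) (-z)) (at2 (ν i) z)) := by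
        rw [hneg i z hz]
        ext u v
        simp
      rw [h7]
      exact pl_ps (K.imm i (-z) (neg_mem_PB hz)) _
  -- outside
  have hO : ∀ x ∈ Reg O, (∀ i, ∀ z, ‖z‖ ≤ r1 → x ≠ O.ch i z) →
      pl (D1 E4 E4 O.pr x) (at2 w (O.pr x)) = at2 a x := by
    intro x hx hxr
    have hn : ¬ ∃ j, O.pr x ∈ K.C j := by
      rintro ⟨j, hj⟩
      exact O.pr_out x hx j hj
    by_cases h : ∃ p : Fin m × E4, p.2 ∈ PB 1 ∧ K.phi p.1 p.2 = O.pr x
    · obtain ⟨⟨i, z⟩, hz, hxz⟩ := h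
      dsimp only at hz hxz
      -- `x = ch i z'` with `z' = ± z`
      have h1 : O.pr (O.ch i z) = O.pr x := by rw [O.pr_ch i z hz, hxz]
      have h2 : ∃ z' ∈ PB 1, O.ch i z' = x := by
        rcases O.pr_inj _ _ (KOut.ch_mem_Reg O hz) hx h1 with h3 | h3
        · exact ⟨z, hz, h3.symm⟩
        · exact ⟨-z, neg_mem_PB hz, by rw [h3, O.io_ch i z (PB_ball hz)]⟩
      obtain ⟨z', hz', rfl⟩ := h2
      have hzr : r1 < ‖z'‖ := by
        by_contra hcon
        exact hxr i z' (not_lt.1 hcon) rfl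
      refine pl_inj (A := D1 E4 E4 (O.ch i) z') (O.ch_imm i z' (PB_ball hz')) ?_
      have h3 := hN i z' hz'
      have h4 := hout i z' hz' hzr
      rw [at2_pb2] at h4
      show pl (D1 E4 E4 (O.ch i) z') _ = pl (D1 E4 E4 (O.ch i) z') _
      rw [h4, ← h3, pl_pl, ← D1_pr_ch O hz', O.pr_ch i z' hz']
    · have h2 : ∃ x', x' ∈ Reg O ∧ O.pr x' = O.pr x := ⟨x, hx, rfl⟩
      have h1 : at2 w (O.pr x) = ps (D1 E4 E4 O.pr h2.choose) (at2 a h2.choose) := by
        show w (O.pr x) = _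
        rw [hw]
        dsimp only
        rw [dif_neg hn, dif_neg h, dif_pos h2]
      obtain ⟨h3, h4⟩ := h2.choose_spec
      set x' := h2.choose with hx'
      rw [h1]
      rcases O.pr_inj _ _ hx h3 h4.symm with h5 | h5
      · rw [h5]
        exact pl_ps (O.pr_imm x hx) _
      · -- `x' = io x`
        rw [h5]
        have h6 : D1 E4 E4 O.pr x = (D1 E4 E4 O.pr (O.io x)).comp (D1 E4 E4 O.io x) := by
          have h7 := D1_comp (E := E4) (F := E4) (G := E4) (f := O.io) (g := O.pr) (x := x)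
            ((O.io_smooth x).of_le one_le_infty)
            ((KOut.pr_at O (KOut.io_Reg O hx)).of_le one_le_infty)
          rw [← h7]
          refine D1_congr ?_
          filter_upwards [(KOut.isOpen_Reg O).mem_nhds hx] with y hy
          exact (O.pr_io y hy).symm
        have h8 := pl_ps (O.pr_imm (O.io x) (KOut.io_Reg O hx)) (at2 a (O.io x))
        rw [dX_eq] at h8
        rw [h6, ← pl_pl, h8]
        exact heven x hx
  refine ⟨w, fun y => ?_, hC, hN, hO⟩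
  by_cases hyC : ∃ i, y ∈ K.C i
  · -- near `C i`, `w = b i`
    obtain ⟨i, hi⟩ := hyC
    have hopen := K.nbh i r0 hr0 hr01
    refine (hb i y hi).congr ?_
    filter_upwards [hopen.mem_nhds (Or.inl hi)] with y' hy'
    rcases hy' with hy' | ⟨z, hz, rfl⟩
    · exact (hC i y' hy').symm
    · have hz1 : z ∈ PB 1 := PB_mono hr01 hz
      refine pl_inj (A := D1 E4 E4 (K.phi i) z) (K.imm i z hz1) ?_
      have h1 := hN i z hz1
      have h2 := hin i z hz
      rw [at2_pb2] at h2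
      show pl (D1 E4 E4 (K.phi i) z) _ = pl (D1 E4 E4 (K.phi i) z) _
      rw [h1, h2]
  · have hyC' : ∀ i, y ∉ K.C i := fun i hi => hyC ⟨i, hi⟩
    by_cases h : ∃ i, ∃ z ∈ PB 1, K.phi i z = y
    · obtain ⟨i, z, hz, rfl⟩ := h
      exact push (f := K.phi i) (U := PB 1) (isOpen_PB 1) (K.smooth i) (K.imm i) hz (hν i z hz)
        fun z hz => (hN i z hz).symm
    · obtain ⟨x, hx, rfl⟩ := O.pr_surj y hyC'
      have hcl : IsClosed (⋃ i, O.ch i '' Metric.closedBall 0 (max r1 0)) := by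
        refine isClosed_iUnion_of_finite fun i => ?_
        refine ((isCompact_closedBall (0 : E4) (max r1 0)).image_of_continuousOn ?_).isClosed
        refine (O.ch_smooth i).continuousOn.mono (Metric.closedBall_subset_ball ?_)
        exact max_lt hr1 one_pos
      set U : Set X := Reg O ∩ (⋃ i, O.ch i '' Metric.closedBall 0 (max r1 0))ᶜ with hU
      have hUo : IsOpen U := (KOut.isOpen_Reg O).inter hcl.isOpen_compl
      have hxU : x ∈ U := by
        refine ⟨hx, fun h1 => ?_⟩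
        rw [mem_iUnion] at h1
        obtain ⟨i, z, hz, hxz⟩ := h1
        have hz1 : z ∈ Metric.ball (0 : E4) 1 :=
          Metric.closedBall_subset_ball (max_lt hr1 one_pos) hz
        have hz0 : z ≠ 0 := by
          rintro rfl
          exact hx i hxz.symm
        have hzP : z ∈ PB 1 := ⟨hz0, by simpa using hz1⟩
        exact h ⟨i, z, hzP, by rw [← hxz, O.pr_ch i z hzP]⟩
      refine push (f := O.pr) (U := U) hUo (O.pr_smooth.mono inter_subset_left)
        (fun x hx => O.pr_imm x hx.1) hxU (ha x hx) fun x' hx' => ?_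
      refine (hO x' hx'.1 fun i z hz hxz => hx'.2 ?_).symm
      rw [mem_iUnion]
      exact ⟨i, z, by simpa using hz.trans (le_max_left r1 0), hxz.symm⟩

end Down

end Transfer

end

end Crest.Agent.R235.KGlue_604
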