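import Crest.Agent.R235.KForm_604
import Crest.Agent.R235.KGlue_604

/-!
Row 235, KUM KDOWN leaf L8 (helper57, statements helper604 #2308): positive paths of constant
triples, the family `B (t, σ)` of endomorphisms and the maps `y ↦ B (t, s y) y`.
-/

set_option autoImplicit false
set_option maxSynthPendingDepth 3

open Set Function Filter
open scoped ContDiff Topology

namespace Crest.Agent.R235.KFam_57

open Crest.Agent.R240 Crest.Agent.R235.PB_604 Crest.Agent.R235.KLin_604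
  Crest.Agent.R235.KForm_604 Crest.Agent.R235.KGlue_604

noncomputable section

/-! ### paths -/

theorem pos_path {f : ℝ → ℝ} (hf : ContinuousOn f (Icc 0 1)) (hne : ∀ t ∈ Icc (0 : ℝ) 1, f t ≠ 0)
    (h0 : 0 < f 0) : ∀ t ∈ Icc (0 : ℝ) 1, 0 < f t := by
  intro t ht
  by_contra h
  have h1 : f t ≤ 0 := not_lt.1 h
  obtain ⟨s, hs, hs0⟩ := isPreconnected_Icc.intermediate_value ht
    (left_mem_Icc.2 zero_le_one) hf ⟨h1, h0.le⟩
  exact hne s hs hs0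

theorem contOn_ent {X : Type*} [TopologicalSpace X] {D : Set X} {b : X → Bil}
    (hb : ContinuousOn b D) (i j : Fin 4) : ContinuousOn (fun z => ent (b z) i j) D :=
  (entL i j).continuous.comp_continuousOn hb

theorem contOn_W {X : Type*} [TopologicalSpace X] {D : Set X} {a b : X → Bil}
    (ha : ContinuousOn a D) (hb : ContinuousOn b D) : ContinuousOn (fun z => W (a z) (b z)) D := by
  have ea := fun i j => contOn_ent ha i j
  have eb := fun i j => contOn_ent hb i j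
  unfold W
  exact ((((((ea 0 1).mul (eb 2 3)).sub ((ea 0 2).mul (eb 1 3))).add
    ((ea 0 3).mul (eb 1 2))).add ((ea 1 2).mul (eb 0 3))).sub
    ((ea 1 3).mul (eb 0 2))).add ((ea 2 3).mul (eb 0 1))

theorem contOn_comb {X : Type*} [TopologicalSpace X] {D : Set X} {c : X → Fin 3 → Bil}
    (hc : ContinuousOn c D) (x : Fin 3 → ℝ) : ContinuousOn (fun t => ∑ i, x i • c t i) D := by
  refine continuousOn_finsetSum _ fun i _ => ?_
  exact ((continuous_apply i).comp_continuousOn hc).const_smul (x i)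

theorem path_def3 (c : ℝ → Fin 3 → Bil) (hc : ContinuousOn c (Icc 0 1))
    (ha : ∀ t ∈ Icc (0 : ℝ) 1, ∀ a, Alt (c t a)) (hp : ∀ t ∈ Icc (0 : ℝ) 1, PosB (c t))
    (h0 : Def3 (c 0)) (hN : 0 < NN (c 0)) :
    ∀ t ∈ Icc (0 : ℝ) 1, Def3 (c t) ∧ 0 < NN (c t) := by
  have h1 : ∀ t ∈ Icc (0 : ℝ) 1, Def3 (c t) := fun t ht =>
    ⟨ha t ht, fun x hx => pos_path (f := fun t => W (∑ i, x i • c t i) (∑ i, x i • c t i))
      (contOn_W (contOn_comb hc x) (contOn_comb hc x)) (fun s hs => hp s hs x hx)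
      (h0.pos x hx) t ht⟩
  intro t ht
  refine ⟨h1 t ht, ?_⟩
  refine pos_path (f := fun t => NN (c t)) ?_ (fun s hs => (h1 s hs).NN_ne) hN t ht
  have e := fun a i j => contOn_ent ((continuous_apply a).comp_continuousOn hc) i j
  unfold NN
  exact (((e 0 0 1).mul (((e 1 0 2).mul (e 2 0 3)).sub ((e 1 0 3).mul (e 2 0 2)))).sub
    ((e 0 0 2).mul (((e 1 0 1).mul (e 2 0 3)).sub ((e 1 0 3).mul (e 2 0 1))))).add
    ((e 0 0 3).mul (((e 1 0 1).mul (e 2 0 2)).sub ((e 1 0 2).mul (e 2 0 1))))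

/-! ### the family -/

theorem fam (c0 c1 : Fin 3 → Bil)
    (hd : ∀ t ∈ Icc (0 : ℝ) 1, Def3 (fun a => (1 - t) • c0 a + t • c1 a) ∧
      0 < NN (fun a => (1 - t) • c0 a + t • c1 a))
    (A : ℝ → E4 →L[ℝ] E4) (hA : ∀ σ ∈ Icc (0 : ℝ) 1, ContDiffAt ℝ ∞ A σ ∧ ∀ v, A σ v = 0 → v = 0)
    (hA0 : A 0 = ContinuousLinearMap.id ℝ E4) (hA1 : A 1 = AA c0) :
    ∃ B : ℝ × ℝ → E4 →L[ℝ] E4,
      (∀ p ∈ Icc (0 : ℝ) 1 ×ˢ Icc (0 : ℝ) 1, ContDiffAt ℝ ∞ B p ∧ ∀ v, B p v = 0 → v = 0) ∧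
      (∀ t, B (t, 0) = ContinuousLinearMap.id ℝ E4) ∧
      (∀ t ∈ Icc (0 : ℝ) 1, B (t, 1) = AA (fun a => (1 - t) • c0 a + t • c1 a)) ∧
      (∀ σ, B (0, σ) = A σ) := by
  have hinj : ∀ v, AA c0 v = 0 → v = 0 := by
    rw [← hA1]
    exact (hA 1 (right_mem_Icc.2 zero_le_one)).2
  set K : ℝ → Fin 3 → Bil := fun τ a => (1 - τ) • c0 a + τ • c1 a with hK
  have hK0 : K 0 = c0 := by
    funext a
    simp [hK]
  set S : E4 →L[ℝ] E4 := ((eqv (AA c0) hinj).symm : E4 →L[ℝ] E4) with hS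
  have hS1 : (AA c0).comp S = ContinuousLinearMap.id ℝ E4 := by
    refine ContinuousLinearMap.ext fun v => ?_
    show AA c0 ((eqv (AA c0) hinj).symm v) = v
    have := (eqv (AA c0) hinj).apply_symm_apply v
    rwa [eqv_apply] at this
  have hS2 : S.comp (AA c0) = ContinuousLinearMap.id ℝ E4 := by
    refine ContinuousLinearMap.ext fun v => ?_
    show (eqv (AA c0) hinj).symm (AA c0 v) = v
    have := (eqv (AA c0) hinj).symm_apply_apply v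
    rwa [eqv_apply] at this
  have hSi : ∀ v, S v = 0 → v = 0 := by
    intro v hv
    have h1 : AA c0 (S v) = v := by
      have := congrArg (fun T : E4 →L[ℝ] E4 => T v) hS1
      exact this
    rw [hv, map_zero] at h1
    exact h1.symm
  refine ⟨fun p => (AA (K (p.1 * p.2))).comp (S.comp (A p.2)), ?_, ?_, ?_, ?_⟩
  · rintro ⟨t, σ⟩ ⟨ht, hσ⟩
    have hts : t * σ ∈ Icc (0 : ℝ) 1 :=
      ⟨mul_nonneg ht.1 hσ.1, mul_le_one₀ ht.2 hσ.1 hσ.2⟩
    obtain ⟨hd1, hd2⟩ := hd _ hts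
    constructor
    · have hKs : ContDiffAt ℝ ∞ (fun p : ℝ × ℝ => K (p.1 * p.2)) (t, σ) := by
        rw [hK, contDiffAt_pi]
        intro a
        have hm : ContDiffAt ℝ ∞ (fun p : ℝ × ℝ => p.1 * p.2) (t, σ) :=
          contDiffAt_fst.mul contDiffAt_snd
        exact ((contDiffAt_const.sub hm).smul contDiffAt_const).add (hm.smul contDiffAt_const)
      have h2 : ContDiffAt ℝ ∞ (fun p : ℝ × ℝ => AA (K (p.1 * p.2))) (t, σ) :=
        ContDiffAt.comp (t, σ) (g := AA) (f := fun p : ℝ × ℝ => K (p.1 * p.2))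
          (hd1.cd_AA hd2) hKs
      have h3 : ContDiffAt ℝ ∞ (fun p : ℝ × ℝ => A p.2) (t, σ) :=
        ContDiffAt.comp (t, σ) (g := A) (f := fun p : ℝ × ℝ => p.2) (hA σ hσ).1 contDiffAt_snd
      exact h2.clm_comp (contDiffAt_const.clm_comp h3)
    · intro v hv
      exact (hA σ hσ).2 v (hSi _ (hd1.AA_inj hd2 _ hv))
  · intro t
    show (AA (K (t * 0))).comp (S.comp (A 0)) = _
    rw [mul_zero, hK0, hA0, ContinuousLinearMap.comp_id, hS1]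
  · intro t _
    show (AA (K (t * 1))).comp (S.comp (A 1)) = _
    rw [mul_one, hA1, hS2, ContinuousLinearMap.comp_id]
  · intro σ
    show (AA (K (0 * σ))).comp (S.comp (A σ)) = _
    rw [zero_mul, hK0, ← ContinuousLinearMap.comp_assoc, hS1, ContinuousLinearMap.id_comp]

/-! ### the maps -/

theorem hasFDerivAt_fam {B : ℝ × ℝ → E4 →L[ℝ] E4} {s : E4 → ℝ} {t : ℝ} {z : E4}
    (hB : ContDiffAt ℝ ∞ B (t, s z)) (hs : ContDiff ℝ ∞ s) :
    HasFDerivAt (fun y : E4 => B (t, s y) y)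
      (B (t, s z) + (fderiv ℝ s z).smulRight (fderiv ℝ B (t, s z) (0, 1) z)) z := by
  have h1 : HasFDerivAt s (fderiv ℝ s z) z := (hs.differentiable (by simp) z).hasFDerivAt
  have h2 : HasFDerivAt (fun y : E4 => (t, s y)) ((0 : E4 →L[ℝ] ℝ).prod (fderiv ℝ s z)) z :=
    (hasFDerivAt_const t z).prodMk h1
  have h3 : HasFDerivAt B (fderiv ℝ B (t, s z)) (t, s z) :=
    (hB.differentiableAt (by simp)).hasFDerivAt
  have h4 : HasFDerivAt (fun y => B (t, s y))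
      ((fderiv ℝ B (t, s z)).comp ((0 : E4 →L[ℝ] ℝ).prod (fderiv ℝ s z))) z := h3.comp z h2
  have h5 := h4.clm_apply (hasFDerivAt_id z)
  refine h5.congr_fderiv ?_
  refine ContinuousLinearMap.ext fun v => ?_
  have e : ((0 : ℝ), fderiv ℝ s z v) = fderiv ℝ s z v • ((0 : ℝ), (1 : ℝ)) := by
    rw [Prod.smul_mk, smul_zero, smul_eq_mul, mul_one]
  show B (t, s z) v + (fderiv ℝ B (t, s z) (0, fderiv ℝ s z v)) z =
    B (t, s z) v + fderiv ℝ s z v • (fderiv ℝ B (t, s z) (0, 1) z)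
  rw [e, map_smul]
  rfl

theorem fam_map (B : ℝ × ℝ → E4 →L[ℝ] E4)
    (hB : ∀ p ∈ Icc (0 : ℝ) 1 ×ˢ Icc (0 : ℝ) 1, ContDiffAt ℝ ∞ B p ∧ ∀ v, B p v = 0 → v = 0) :
    ∃ δ0 : ℝ, 0 < δ0 ∧ ∀ s : E4 → ℝ, ContDiff ℝ ∞ s → (∀ z, 0 ≤ s z ∧ s z ≤ 1) →
      (∀ z v, |fderiv ℝ s z v| * ‖z‖ ≤ δ0 * ‖v‖) →
      (∀ t ∈ Icc (0 : ℝ) 1, ContDiff ℝ ∞ (fun y : E4 => B (t, s y) y)) ∧
      (∀ t ∈ Icc (0 : ℝ) 1, ∀ z v : E4, fderiv ℝ (fun y : E4 => B (t, s y) y) z v = 0 → v = 0) ∧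
      ContinuousOn (fun p : ℝ × E4 => fderiv ℝ (fun y : E4 => B (p.1, s y) y) p.2)
        (Icc (0 : ℝ) 1 ×ˢ univ) := by
  have hQ : IsCompact (Icc (0 : ℝ) 1 ×ˢ Icc (0 : ℝ) 1) := isCompact_Icc.prod isCompact_Icc
  have hQne : (Icc (0 : ℝ) 1 ×ˢ Icc (0 : ℝ) 1).Nonempty :=
    ⟨(0, 0), left_mem_Icc.2 zero_le_one, left_mem_Icc.2 zero_le_one⟩
  have hBc : ContinuousOn B (Icc (0 : ℝ) 1 ×ˢ Icc (0 : ℝ) 1) := fun p hp =>
    (hB p hp).1.continuousAt.continuousWithinAt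
  have hDc : ∀ p ∈ Icc (0 : ℝ) 1 ×ˢ Icc (0 : ℝ) 1, ContinuousAt (fderiv ℝ B) p := fun p hp =>
    ((hB p hp).1.fderiv_right (m := ∞) (by simp)).continuousAt
  have hDc' : ContinuousOn (fun p => fderiv ℝ B p (0, 1)) (Icc (0 : ℝ) 1 ×ˢ Icc (0 : ℝ) 1) :=
    fun p hp => ((hDc p hp).clm_apply continuousAt_const).continuousWithinAt
  -- lower bound
  obtain ⟨κ, hκ, hκB⟩ : ∃ κ : ℝ, 0 < κ ∧ ∀ p ∈ Icc (0 : ℝ) 1 ×ˢ Icc (0 : ℝ) 1, ∀ v,
      κ * ‖v‖ ≤ ‖B p v‖ := by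
    have hC : IsCompact ((Icc (0 : ℝ) 1 ×ˢ Icc (0 : ℝ) 1) ×ˢ Metric.sphere (0 : E4) 1) :=
      hQ.prod (isCompact_sphere _ _)
    have hCne : ((Icc (0 : ℝ) 1 ×ˢ Icc (0 : ℝ) 1) ×ˢ Metric.sphere (0 : E4) 1).Nonempty :=
      hQne.prod (NormedSpace.sphere_nonempty.2 zero_le_one)
    have hcont : ContinuousOn (fun q : (ℝ × ℝ) × E4 => ‖B q.1 q.2‖)
        ((Icc (0 : ℝ) 1 ×ˢ Icc (0 : ℝ) 1) ×ˢ Metric.sphere (0 : E4) 1) := by
      refine ContinuousOn.norm ?_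
      exact (hBc.comp continuousOn_fst fun q hq => hq.1).clm_apply continuousOn_snd
    obtain ⟨q, hq, hmin⟩ := hC.exists_isMinOn hCne hcont
    have hqne : q.2 ≠ 0 := by
      intro h0
      have := mem_sphere_zero_iff_norm.1 hq.2
      rw [h0, norm_zero] at this
      exact zero_ne_one this
    refine ⟨‖B q.1 q.2‖, norm_pos_iff.2 fun h => hqne ((hB q.1 hq.1).2 _ h), fun p hp v => ?_⟩
    rcases eq_or_ne v 0 with rfl | hv
    · simp
    have hvn : 0 < ‖v‖ := norm_pos_iff.2 hv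
    have h1 : ‖B q.1 q.2‖ ≤ ‖B p (‖v‖⁻¹ • v)‖ := hmin (a := (p, ‖v‖⁻¹ • v)) ⟨hp, by
      rw [mem_sphere_zero_iff_norm, norm_smul, norm_inv, norm_norm, inv_mul_cancel₀ hvn.ne']⟩
    rw [map_smul, norm_smul, norm_inv, norm_norm] at h1
    calc ‖B q.1 q.2‖ * ‖v‖ ≤ ‖v‖⁻¹ * ‖B p v‖ * ‖v‖ := mul_le_mul_of_nonneg_right h1 hvn.le
      _ = ‖B p v‖ := by field_simp
  -- upper bound of the derivative
  obtain ⟨L, hL⟩ := hQ.exists_bound_of_continuousOn hDc'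
  have hL0 : 0 ≤ L := (norm_nonneg _).trans (hL _ hQne.some_mem)
  refine ⟨κ / (2 * (L + 1)), by positivity, fun s hs hs01 hsm => ?_⟩
  have hmem : ∀ t ∈ Icc (0 : ℝ) 1, ∀ z, (t, s z) ∈ Icc (0 : ℝ) 1 ×ˢ Icc (0 : ℝ) 1 :=
    fun t ht z => ⟨ht, hs01 z⟩
  have hfd : ∀ t ∈ Icc (0 : ℝ) 1, ∀ z, fderiv ℝ (fun y : E4 => B (t, s y) y) z =
      B (t, s z) + (fderiv ℝ s z).smulRight (fderiv ℝ B (t, s z) (0, 1) z) :=
    fun t ht z => (hasFDerivAt_fam (hB _ (hmem t ht z)).1 hs).fderiv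
  refine ⟨fun t ht => ?_, fun t ht z v hv => ?_, ?_⟩
  · rw [contDiff_iff_contDiffAt]
    intro z
    have h1 : ContDiffAt ℝ ∞ (fun y : E4 => (t, s y)) z := contDiffAt_const.prodMk hs.contDiffAt
    have h2 : ContDiffAt ℝ ∞ (fun y : E4 => B (t, s y)) z :=
      ContDiffAt.comp z (g := B) (f := fun y : E4 => (t, s y)) (hB _ (hmem t ht z)).1 h1
    exact h2.clm_apply contDiffAt_id
  · rw [hfd t ht z] at hv
    by_contra hne
    have hvn : 0 < ‖v‖ := norm_pos_iff.2 hne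
    have h1 := hκB _ (hmem t ht z) v
    have h2 : B (t, s z) v = - (fderiv ℝ s z v • (fderiv ℝ B (t, s z) (0, 1) z)) :=
      eq_neg_of_add_eq_zero_left hv
    have h3 : ‖B (t, s z) v‖ ≤ |fderiv ℝ s z v| * (L * ‖z‖) := by
      rw [h2, norm_neg, norm_smul, Real.norm_eq_abs]
      refine mul_le_mul_of_nonneg_left ?_ (abs_nonneg _)
      exact ((fderiv ℝ B (t, s z) (0, 1)).le_opNorm z).trans
        (mul_le_mul_of_nonneg_right (hL _ (hmem t ht z)) (norm_nonneg _))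
    have h4 : |fderiv ℝ s z v| * (L * ‖z‖) ≤ L * (κ / (2 * (L + 1)) * ‖v‖) := by
      calc |fderiv ℝ s z v| * (L * ‖z‖) = L * (|fderiv ℝ s z v| * ‖z‖) := by ring
        _ ≤ L * (κ / (2 * (L + 1)) * ‖v‖) := mul_le_mul_of_nonneg_left (hsm z v) hL0
    have h5 : L * (κ / (2 * (L + 1)) * ‖v‖) ≤ κ / 2 * ‖v‖ := by
      have : L * (κ / (2 * (L + 1)) * ‖v‖) = κ / 2 * ‖v‖ * (L / (L + 1)) := by
        field_simp
      rw [this]
      have h6 : L / (L + 1) ≤ 1 := by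
        rw [div_le_one (by linarith)]; linarith
      have h7 : 0 ≤ κ / 2 * ‖v‖ := by positivity
      calc κ / 2 * ‖v‖ * (L / (L + 1)) ≤ κ / 2 * ‖v‖ * 1 := mul_le_mul_of_nonneg_left h6 h7
        _ = κ / 2 * ‖v‖ := mul_one _
    have h8 : 0 < κ / 2 * ‖v‖ := by positivity
    linarith
  · have hG : ContinuousOn (fun p : ℝ × E4 => B (p.1, s p.2) +
        (fderiv ℝ s p.2).smulRight (fderiv ℝ B (p.1, s p.2) (0, 1) p.2)) (Icc (0 : ℝ) 1 ×ˢ univ) := by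
      have hps : ContinuousOn (fun p : ℝ × E4 => (p.1, s p.2)) (Icc (0 : ℝ) 1 ×ˢ univ) :=
        (continuous_fst.prodMk (hs.continuous.comp continuous_snd)).continuousOn
      have hpm : MapsTo (fun p : ℝ × E4 => (p.1, s p.2)) (Icc (0 : ℝ) 1 ×ˢ univ)
          (Icc (0 : ℝ) 1 ×ˢ Icc (0 : ℝ) 1) := fun p hp => hmem p.1 hp.1 p.2
      have h1 : ContinuousOn (fun p : ℝ × E4 => B (p.1, s p.2)) (Icc (0 : ℝ) 1 ×ˢ univ) :=
        hBc.comp hps hpm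
      have h2 : ContinuousOn (fun p : ℝ × E4 => fderiv ℝ B (p.1, s p.2) (0, 1))
          (Icc (0 : ℝ) 1 ×ˢ univ) := hDc'.comp hps hpm
      have h3 : ContinuousOn (fun p : ℝ × E4 => fderiv ℝ s p.2) (Icc (0 : ℝ) 1 ×ˢ univ) :=
        ((hs.continuous_fderiv (by simp)).comp continuous_snd).continuousOn
      have h4 : ContinuousOn (fun p : ℝ × E4 => fderiv ℝ B (p.1, s p.2) (0, 1) p.2)
          (Icc (0 : ℝ) 1 ×ˢ univ) := h2.clm_apply continuousOn_snd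
      refine h1.add ?_
      have h5 := (ContinuousLinearMap.smulRightL ℝ E4 E4).continuous.comp_continuousOn h3
      exact h5.clm_apply h4
    refine hG.congr fun p hp => ?_
    exact hfd p.1 hp.1 p.2

end

end Crest.Agent.R235.KFam_57
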