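import Crest.Agent.R235.KReal_604

/-!
Row 235, KDOWN L14 (helper129): the flat end of the path.

* `flat_alg`: the lower triangular matrix `rho c` is inverted, `∑ b, A a b • c b = zz c a`;
* `chf_flat`: a triple with constant coefficients in a coframe `s`, in a chart at a new point in
  which `s` is `dΘ`.
-/

set_option autoImplicit false
set_option maxSynthPendingDepth 3
set_option linter.unusedSectionVars false

open Set Function Filter
open scoped Manifold ContDiff Topology RealInnerProductSpace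

universe u

namespace Crest.Agent.R235.KFlat_129

open Crest.Agent.R240 Crest.Agent.R240.Ch Crest.Agent.R235 Crest.Agent.R235.PB_604
  Crest.Agent.R235.KLin_604 Crest.Agent.R235.KT_604 Crest.Agent.R235.KGlue_604
  Crest.Agent.R235.KForm_604 Crest.Agent.R235.K12_417 Crest.Agent.R235.KUp_604
  Crest.Agent.R235.KReal_604

noncomputable section

lemma det_rho {c : Fin 3 → Bil} (h : Def3 c) :
    (Matrix.of (rho c)).det ≠ 0 := by
  have h0 := (h.rho_diag 0).ne'
  have h1 := (h.rho_diag 1).ne'
  have h2 := (h.rho_diag 2).ne'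
  have e : (Matrix.of (rho c)).det = rho c 0 0 * rho c 1 1 * rho c 2 2 := by
    rw [Matrix.det_fin_three]
    simp only [Matrix.of_apply]
    rw [rho_upper (c := c) (a := 0) (b := 1) (by decide),
      rho_upper (c := c) (a := 0) (b := 2) (by decide),
      rho_upper (c := c) (a := 1) (b := 2) (by decide)]
    ring
  rw [e]
  exact mul_ne_zero (mul_ne_zero h0 h1) h2

theorem flat_alg {c : Fin 3 → Bil} (h : Def3 c) : ∃ A : Matrix (Fin 3) (Fin 3) ℝ, A.det ≠ 0 ∧
    (∀ a d, ∑ b, A a b * rho c b d = if a = d then 1 else 0) ∧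
    ∀ a, ∑ b, A a b • c b = zz c a := by
  have hu : IsUnit (Matrix.of (rho c)).det := isUnit_iff_ne_zero.2 (det_rho h)
  have hinv : ∀ a d, ∑ b, ((Matrix.of (rho c))⁻¹) a b * rho c b d = if a = d then 1 else 0 := by
    intro a d
    have e := congrFun (congrFun (Matrix.nonsing_inv_mul (Matrix.of (rho c)) hu) a) d
    rw [Matrix.mul_apply, Matrix.one_apply] at e
    exact e
  refine ⟨(Matrix.of (rho c))⁻¹, ?_, hinv, fun a => ?_⟩
  · have := Matrix.isUnit_nonsing_inv_det (Matrix.of (rho c)) hu
    exact this.ne_zero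
  · calc ∑ b, ((Matrix.of (rho c))⁻¹) a b • c b
        = ∑ b, ((Matrix.of (rho c))⁻¹) a b • ∑ d, rho c b d • zz c d :=
          Finset.sum_congr rfl fun b _ => by rw [← h.c_eq b]
      _ = ∑ b, ∑ d, (((Matrix.of (rho c))⁻¹) a b * rho c b d) • zz c d := by
          refine Finset.sum_congr rfl fun b _ => ?_
          rw [Finset.smul_sum]
          exact Finset.sum_congr rfl fun d _ => by rw [smul_smul]
      _ = ∑ d, (∑ b, ((Matrix.of (rho c))⁻¹) a b * rho c b d) • zz c d := by
          rw [Finset.sum_comm]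
          exact Finset.sum_congr rfl fun d _ => by rw [Finset.sum_smul]
      _ = ∑ d, (if a = d then (1 : ℝ) else 0) • zz c d :=
          Finset.sum_congr rfl fun d _ => by rw [hinv a d]
      _ = zz c a := by
          simp only [ite_smul, one_smul, zero_smul, Finset.sum_ite_eq, Finset.mem_univ, if_true]

section Chf

variable {M : Type u} [TopologicalSpace M] [T2Space M] [CompactSpace M]
  [ChartedSpace E4 M] [IsManifold 𝓘(ℝ, E4) ∞ M]
  {m : ℕ} {K : KIn M m}
  {X : Type u} [TopologicalSpace X] [T2Space X] [CompactSpace X]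
  [ChartedSpace E4 X] [IsManifold 𝓘(ℝ, E4) ∞ X]

theorem chf_flat (O : KOut K X) {u : Trip X} {s : Fin 4 → F1 E4 X}
    (c : Fin 3 → Fin 4 → Fin 4 → ℝ)
    (hc : ∀ k x, val (u k) x = ∑ i, ∑ j, c k i j • wed (at1 (s i) x) (at1 (s j) x)) (i : Fin m)
    {Θ : E4 → E4}
    (hΘ : ∀ z ∈ Metric.ball (0:E4) 1, ∀ (v : E4) (j : Fin 4),
      (fderiv ℝ Θ z v) j = at1 (s j) (O.ch i z) (D1 E4 E4 (O.ch i) z v))
    {z : E4} (hz : z ∈ Metric.ball (0:E4) 1) (k : Fin 3) :
    KReal_604.chf O u i k z = pl (fderiv ℝ Θ z) (∑ a, ∑ b, c k a b • wed (dx a) (dx b)) := by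
  refine ContinuousLinearMap.ext fun v => ContinuousLinearMap.ext fun w => ?_
  have h := hΘ z hz
  unfold KReal_604.chf
  rw [hc k (O.ch i z), pl_apply, pl_apply]
  simp only [ContinuousLinearMap.sum_apply, ContinuousLinearMap.smul_apply, wed_apply, dx_apply,
    h]

end Chf

end

end Crest.Agent.R235.KFlat_129
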