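import Crest.Agent.R235.KUp_604
import Crest.Agent.R235.Pull_129
import Crest.Agent.R281.Poi_234

/-!
Row 235 (S0364), KUM (helper129 for helper604, leaf L5): odd coordinates at the new points of the
double cover `X`, given by odd closed one-forms.
-/

set_option autoImplicit false
set_option maxSynthPendingDepth 3
set_option linter.unusedSectionVars false

open Set Function Filter
open scoped Manifold ContDiff Topology

universe u

namespace Crest.Agent.R235.KTheta_129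

open Crest.Agent.R240 Crest.Agent.R240.Ch Crest.Agent.R235 Crest.Agent.R235.PB_604
  Crest.Agent.R235.KT_604 Crest.Agent.R235.KGlue_604 Crest.Agent.R235.KUp_604

noncomputable section

variable {M : Type u} [TopologicalSpace M] [ChartedSpace E4 M] [IsManifold 𝓘(ℝ, E4) ∞ M]
  {m : ℕ} {K : KIn M m}
variable {X : Type u} [TopologicalSpace X] [T2Space X] [ChartedSpace E4 X]
  [IsManifold 𝓘(ℝ, E4) ∞ X]

/-- closed one-forms have vanishing exterior derivative. -/
lemma dG_zero {s : F1 E4 X} (hs : Closed1 s) : dG s = 0 := by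
  funext x
  exact hs.2 x _ (mem_chart_target E4 x)

lemma dL_eq (f : E4 → X) (z : E4) : Pull_129.dL (E := E4) f z = D1 E4 E4 f z := rfl

/-- one odd coordinate. -/
lemma exists_coord (O : KOut K X) {s : F1 E4 X} (hc : Closed1 s) (ho : Odd1 O.io s) (i : Fin m) :
    ∃ θ : E4 → ℝ, (∀ z ∈ Metric.ball (0 : E4) 1, ContDiffAt ℝ ∞ θ z) ∧
      (∀ z, θ (-z) = - θ z) ∧ ∀ z ∈ Metric.ball (0 : E4) 1, ∀ v : E4,
        fderiv ℝ θ z v = at1 s (O.ch i z) (D1 E4 E4 (O.ch i) z v) := by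
  have hU : IsOpen (Metric.ball (0 : E4) 1) := Metric.isOpen_ball
  have hsm := O.ch_smooth i
  set t : E4 → E4 →L[ℝ] ℝ := Pull_129.pb1 (O.ch i) s with ht
  have htv : ∀ z v, t z v = at1 s (O.ch i z) (D1 E4 E4 (O.ch i) z v) := fun z v => rfl
  have hts : ContDiffOn ℝ ∞ t (Metric.ball 0 1) := Pull_129.pb1_contDiffOn hU hsm hc.1
  have htc : ∀ z ∈ Metric.ball (0 : E4) 1, ∀ v w, fderiv ℝ t z v w = fderiv ℝ t z w v := by
    intro z hz v w
    have h1 := Pull_129.d1_pb1 hU hsm hz hc.1 v w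
    rw [dG_zero hc] at h1
    have h2 : Pull_129.pb2 (O.ch i) (0 : F2 E4 X) z v w = 0 := rfl
    rw [h2, d1_apply] at h1
    linarith
  obtain ⟨F, hF⟩ := R281.Poi_234.poincare1 hU (convex_ball _ _) hts htc
  have hFs := R281.Poi_234.contDiffOn_of_hasFDerivAt hU hts hF
  -- `t` is even
  have hodd : ∀ z ∈ Metric.ball (0 : E4) 1, ∀ v, t (-z) v = t z v := by
    intro z hz v
    rw [htv, htv]
    have h1 := congrArg (fun A : E4 →L[ℝ] E4 => A v) (D1_io_ch O (i := i) hz)
    have h2 : D1 E4 E4 (O.ch i) (-z) v = - D1 E4 E4 O.io (O.ch i z) (D1 E4 E4 (O.ch i) z v) := by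
      have h3 : D1 E4 E4 O.io (O.ch i z) (D1 E4 E4 (O.ch i) z v) =
        - D1 E4 E4 (O.ch i) (-z) v := h1
      rw [h3, neg_neg]
    rw [h2, map_neg, ← O.io_ch i z hz, ← dself_io]
    have h4 := ho (O.ch i z) (D1 E4 E4 (O.ch i) z v)
    linarith
  have hneg : ∀ {z : E4}, z ∈ Metric.ball (0 : E4) 1 → -z ∈ Metric.ball (0 : E4) 1 := by
    intro z hz
    simpa using hz
  refine ⟨fun z => (F z - F (-z)) / 2, ?_, ?_, ?_⟩
  · intro z hz
    have h1 : ContDiffAt ℝ ∞ F z := hFs.contDiffAt (hU.mem_nhds hz)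
    have h2 : ContDiffAt ℝ ∞ F (-z) := hFs.contDiffAt (hU.mem_nhds (hneg hz))
    have h3 : ContDiffAt ℝ ∞ (fun z : E4 => F (-z)) z :=
      ContDiffAt.comp z (g := F) h2 contDiff_neg.contDiffAt
    exact (h1.sub h3).div_const 2
  · intro z
    simp only [neg_neg]
    ring
  · intro z hz v
    have h1 := hF z hz
    have h2 := hF (-z) (hneg hz)
    have h3 : HasFDerivAt (fun z : E4 => F (-z)) ((t (-z)).comp (-ContinuousLinearMap.id ℝ E4)) z :=
      h2.comp z (hasFDerivAt_id (𝕜 := ℝ) z).fun_neg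
    have h4 : HasFDerivAt (fun z : E4 => (F z - F (-z)) / 2)
        ((2 : ℝ)⁻¹ • (t z - (t (-z)).comp (-ContinuousLinearMap.id ℝ E4))) z := by
      have h5 := (h1.sub h3).const_smul (2 : ℝ)⁻¹
      refine h5.congr_of_eventuallyEq (Eventually.of_forall fun y => ?_)
      show (F y - F (-y)) / 2 = (2 : ℝ)⁻¹ • (F y - F (-y))
      rw [smul_eq_mul]
      ring
    rw [h4.fderiv, ← htv]
    have h6 := hodd z hz v
    simp only [smul_apply, sub_apply, ContinuousLinearMap.comp_apply, neg_apply,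
      ContinuousLinearMap.id_apply, map_neg, smul_eq_mul]
    rw [h6]
    ring

/-- **L5.** -/
theorem exists_theta (O : KOut K X) (s : Fin 4 → F1 E4 X) (hc : ∀ j, Closed1 (s j))
    (ho : ∀ j, Odd1 O.io (s j)) (i : Fin m) : ∃ Θ : E4 → E4,
      (∀ z ∈ Metric.ball (0 : E4) 1, ContDiffAt ℝ ∞ Θ z) ∧ (∀ z, Θ (-z) = - Θ z) ∧
      ∀ z ∈ Metric.ball (0 : E4) 1, ∀ (v : E4) (j : Fin 4),
        (fderiv ℝ Θ z v) j = at1 (s j) (O.ch i z) (D1 E4 E4 (O.ch i) z v) := by
  choose θ h1 h2 h3 using fun j => exists_coord O (hc j) (ho j) i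
  have hcd : ∀ z ∈ Metric.ball (0 : E4) 1,
      ContDiffAt ℝ ∞ (fun z => (WithLp.toLp 2 fun j => θ j z : E4)) z := by
    intro z hz
    rw [contDiffAt_euclidean]
    intro j
    exact h1 j z hz
  refine ⟨fun z => WithLp.toLp 2 fun j => θ j z, hcd, fun z => ?_, fun z hz v j => ?_⟩
  · ext j
    exact h2 j z
  · have h4 : HasFDerivAt (fun z => (WithLp.toLp 2 fun j => θ j z : E4))
        (fderiv ℝ (fun z => (WithLp.toLp 2 fun j => θ j z : E4)) z) z :=
      ((hcd z hz).differentiableAt (by simp)).hasFDerivAt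
    have h5 : HasFDerivAt (fun z => θ j z) ((EuclideanSpace.proj j : E4 →L[ℝ] ℝ).comp
        (fderiv ℝ (fun z => (WithLp.toLp 2 fun j => θ j z : E4)) z)) z :=
      (EuclideanSpace.proj j : E4 →L[ℝ] ℝ).hasFDerivAt.comp z h4
    have h6 := h5.fderiv
    rw [← h3 j z hz v]
    have h7 := congrArg (fun A : E4 →L[ℝ] ℝ => A v) h6
    exact h7.symm

end

end Crest.Agent.R235.KTheta_129
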