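import Crest.Agent.R235.KInit_604
import Crest.Agent.R235.KTheta_129
import Crest.Agent.R235.KFlat_129

/-!
Row 235, KUM-K5 (helper604): the last segment: the realisation of a flat triple with exact
algebraic relations.
-/

set_option autoImplicit false
set_option maxSynthPendingDepth 3
set_option linter.unusedSectionVars false

open Set Function Filter
open scoped Manifold ContDiff Topology RealInnerProductSpace

universe u

namespace Crest.Agent.R235.KFin_604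

open Crest.Agent.R240 Crest.Agent.R240.Ch Crest.Agent.R235 Crest.Agent.R235.PB_604
  Crest.Agent.R235.KLin_604 Crest.Agent.R235.KT_604 Crest.Agent.R235.KGlue_604
  Crest.Agent.R235.KForm_604 Crest.Agent.R235.K12_417 Crest.Agent.R235.KUp_604
  Crest.Agent.R235.KReal_604 Crest.Agent.R235.KState_604 Crest.Agent.R235.KSegm_604

noncomputable section

lemma norm_pl_sub (E : E4 →L[ℝ] E4) (b : Bil) (h : ‖E - ContinuousLinearMap.id ℝ E4‖ ≤ 1) :
    ‖pl E b - b‖ ≤ 3 * ‖E - ContinuousLinearMap.id ℝ E4‖ * ‖b‖ := by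
  set D := E - ContinuousLinearMap.id ℝ E4 with hD
  have hE : ∀ v, E v = v + D v := fun v => by
    rw [hD]
    show E v = v + (E v - v)
    abel
  refine ContinuousLinearMap.opNorm_le_bound₂ _ (by positivity) fun u v => ?_
  have h1 : (pl E b - b) u v = b u (D v) + b (D u) v + b (D u) (D v) := by
    show pl E b u v - b u v = _
    rw [pl_apply, hE, hE]
    simp only [map_add, add_apply]
    ring
  rw [h1]
  have e1 : ‖b u (D v)‖ ≤ ‖b‖ * ‖u‖ * (‖D‖ * ‖v‖) :=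
    (b.le_opNorm₂ _ _).trans (by gcongr; exact D.le_opNorm v)
  have e2 : ‖b (D u) v‖ ≤ ‖b‖ * (‖D‖ * ‖u‖) * ‖v‖ :=
    (b.le_opNorm₂ _ _).trans (by gcongr; exact D.le_opNorm u)
  have e3 : ‖b (D u) (D v)‖ ≤ ‖b‖ * (‖D‖ * ‖u‖) * (‖D‖ * ‖v‖) :=
    (b.le_opNorm₂ _ _).trans (by gcongr; exact D.le_opNorm u; exact D.le_opNorm v)
  have hd0 := norm_nonneg D
  have hb0 := norm_nonneg b
  have hu0 := norm_nonneg u
  have hv0 := norm_nonneg v
  have e4 : ‖b‖ * (‖D‖ * ‖u‖) * (‖D‖ * ‖v‖) ≤ ‖b‖ * (‖D‖ * ‖u‖) * (1 * ‖v‖) := by gcongr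
  calc ‖b u (D v) + b (D u) v + b (D u) (D v)‖ ≤ ‖b u (D v)‖ + ‖b (D u) v‖ + ‖b (D u) (D v)‖ :=
        norm_add₃_le
    _ ≤ ‖b‖ * ‖u‖ * (‖D‖ * ‖v‖) + ‖b‖ * (‖D‖ * ‖u‖) * ‖v‖ + ‖b‖ * (‖D‖ * ‖u‖) * (1 * ‖v‖) := by
        gcongr
        exact e3.trans e4
    _ = 3 * ‖D‖ * ‖b‖ * ‖u‖ * ‖v‖ := by ring

section Map

variable {m : ℕ} {g : Fin m → ℝ → ℝ} {C ε δ : ℝ} (P : Par g C ε δ)

/-- `z ↦ z + χ(z) (Θ z - z)`. -/
def TT (Θ : E4 → E4) (z : E4) : E4 := z + P.χ z • (Θ z - z)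

variable {P}

lemma TT_in {Θ : E4 → E4} {z : E4} (hz : ‖z‖ ≤ ε / 2) : TT P Θ z = z := by
  unfold TT
  rw [P.χ_0 z hz, zero_smul, add_zero]

lemma TT_odd {Θ : E4 → E4} (h : ∀ z, Θ (-z) = - Θ z) (z : E4) : TT P Θ (-z) = - TT P Θ z := by
  unfold TT
  rw [P.χ_even, h]
  module

lemma TT_cd {Θ : E4 → E4} {z : E4} (h : ContDiffAt ℝ ∞ Θ z) : ContDiffAt ℝ ∞ (TT P Θ) z := by
  unfold TT
  exact contDiffAt_id.add (P.χ_cd.contDiffAt.smul (h.sub contDiffAt_id))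

lemma fderiv_TT_in {Θ : E4 → E4} {z : E4} (h : ContDiffAt ℝ ∞ Θ z) (hz : ‖z‖ ≤ ε / 2) :
    fderiv ℝ (TT P Θ) z = ContinuousLinearMap.id ℝ E4 := by
  have h1 : HasFDerivAt P.χ (fderiv ℝ P.χ z) z :=
    (P.χ_cd.differentiable infty_ne_zero z).hasFDerivAt
  have h2 : HasFDerivAt (fun z => Θ z - z) (fderiv ℝ Θ z - ContinuousLinearMap.id ℝ E4) z :=
    ((h.differentiableAt infty_ne_zero).hasFDerivAt).fun_sub (hasFDerivAt_id z)
  have h3 : fderiv ℝ (TT P Θ) z = _ := ((hasFDerivAt_id z).fun_add (h1.fun_smul h2)).fderiv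
  rw [h3, P.χ_0 z hz, dchi_zero (P.χ_0 z hz)]
  ext v
  simp

lemma fderiv_TT_out {Θ : E4 → E4} {z : E4} (hz : ε < ‖z‖) :
    fderiv ℝ (TT P Θ) z = fderiv ℝ Θ z := by
  refine Filter.EventuallyEq.fderiv_eq ?_
  have h : ∀ᶠ y in 𝓝 z, ε < ‖y‖ := continuous_norm.continuousAt.eventually (Ioi_mem_nhds hz)
  filter_upwards [h] with y hy
  unfold TT
  rw [P.χ_1 y hy.le, one_smul]
  abel

/-- the differential of `A (s z) (T z)`. -/
lemma fderiv_AT {A : ℝ → E4 →L[ℝ] E4} (hA : ∀ s ∈ Icc (0 : ℝ) 1, ContDiffAt ℝ ∞ A s)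
    {T : E4 → E4} {z : E4} (hT : DifferentiableAt ℝ T z) (v : E4) :
    fderiv ℝ (fun z : E4 => A (P.s z) (T z)) z v =
      A (P.s z) (fderiv ℝ T z v) + fderiv ℝ P.s z v • (deriv A (P.s z)) (T z) := by
  have h1 : HasDerivAt A (deriv A (P.s z)) (P.s z) :=
    ((hA _ (s_Icc P z)).differentiableAt infty_ne_zero).hasDerivAt
  have h2 : HasFDerivAt P.s (fderiv ℝ P.s z) z :=
    (P.s_cd.differentiable infty_ne_zero z).hasFDerivAt
  have h3 : HasFDerivAt (fun z => A (P.s z))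
      ((ContinuousLinearMap.toSpanSingleton ℝ (deriv A (P.s z))).comp (fderiv ℝ P.s z)) z :=
    h1.hasFDerivAt.comp z h2
  have h4 := h3.clm_apply hT.hasFDerivAt
  have h5 : fderiv ℝ (fun z : E4 => A (P.s z) (T z)) z = _ := h4.fderiv
  rw [h5]
  simp

end Map

section Fin

variable {M : Type u} [TopologicalSpace M] [T2Space M] [CompactSpace M]
  [ChartedSpace E4 M] [IsManifold 𝓘(ℝ, E4) ∞ M]
  {m : ℕ} {σ : Fin m → E3 → M} {w : Trip M} {R r₀ : Fin m → ℝ} {g : Fin m → ℝ → ℝ}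
  {K : KIn M m}
  {X : Type u} [TopologicalSpace X] [T2Space X] [CompactSpace X]
  [ChartedSpace E4 X] [IsManifold 𝓘(ℝ, E4) ∞ X]
  {O : KOut K X} {C : ℝ} {u : Trip X}

lemma seg_self (u : Trip X) (t : ℝ) : seg u u t = u := by
  funext i
  show (1 - t) • u i + t • u i = u i
  module

/-- a map `Θ` with differential `1` at `0` which makes `u` constant. -/
structure Flat (O : KOut K X) (u : Trip X) (i : Fin m) (Θ : E4 → E4) : Prop where
  cd : ∀ z ∈ Metric.ball (0 : E4) 1, ContDiffAt ℝ ∞ Θ z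
  odd : ∀ z, Θ (-z) = - Θ z
  one : fderiv ℝ Θ 0 = ContinuousLinearMap.id ℝ E4
  eq : ∀ a, ∀ z ∈ Metric.ball (0 : E4) 1, chf O u i a z = pl (fderiv ℝ Θ z) (cc O u i a)

theorem exists_flat (O : KOut K X) {s : Fin 4 → F1 E4 X} (hf : FlatIn u s)
    (ho : ∀ i, Odd1 O.io (s i)) (i : Fin m) : ∃ Θ, Flat O u i Θ := by
  obtain ⟨hcl, hind, c, hc⟩ := hf
  obtain ⟨Θ0, h1, h2, h3⟩ := KTheta_129.exists_theta O s hcl ho i
  have h0m : (0 : E4) ∈ Metric.ball (0 : E4) 1 := by simp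
  have hinj : ∀ v, fderiv ℝ Θ0 0 v = 0 → v = 0 := by
    intro v hv
    refine O.ch_imm i 0 h0m v (hind (O.ch i 0) _ fun j => ?_)
    show at1 (s j) (O.ch i 0) (D1 E4 E4 (O.ch i) 0 v) = 0
    rw [← h3 0 h0m v j, hv]
    rfl
  set e := eqv (fderiv ℝ Θ0 0) hinj with he
  have hd : ∀ z ∈ Metric.ball (0 : E4) 1, fderiv ℝ (fun z => e.symm (Θ0 z)) z =
      (e.symm : E4 →L[ℝ] E4).comp (fderiv ℝ Θ0 z) := by
    intro z hz
    have h4 := ((h1 z hz).differentiableAt infty_ne_zero).hasFDerivAt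
    exact ((e.symm : E4 →L[ℝ] E4).hasFDerivAt.comp z h4).fderiv
  have hee : (fderiv ℝ Θ0 0).comp (e.symm : E4 →L[ℝ] E4) = ContinuousLinearMap.id ℝ E4 := by
    ext1 v
    exact e.apply_symm_apply v
  refine ⟨fun z => e.symm (Θ0 z), fun z hz => ?_, fun z => ?_, ?_, fun a z hz => ?_⟩
  · exact (e.symm : E4 →L[ℝ] E4).contDiff.contDiffAt.comp z (h1 z hz)
  · show e.symm (Θ0 (-z)) = - e.symm (Θ0 z)
    rw [h2, map_neg]
  · rw [hd 0 h0m]
    ext1 v
    exact e.symm_apply_apply v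
  · have h5 := fun z hz => KFlat_129.chf_flat O c hc i h3 (z := z) hz a
    rw [hd z hz]
    have h6 : cc O u i a = pl (fderiv ℝ Θ0 0) (∑ a_1, ∑ b, c a a_1 b • wed (dx a_1) (dx b)) :=
      h5 0 h0m
    rw [h6, h5 z hz, pl_pl, ← ContinuousLinearMap.comp_assoc, hee, ContinuousLinearMap.id_comp]

/-- **the last segment**. -/
theorem fin_step (hS : Std σ w K.phi 1 R r₀ g) (hw : Pos3 w) (hC : 0 < C)
    {A : Fin m → ℝ → E4 →L[ℝ] E4} (hst : St O u A) (hu : Pos3 u)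
    {th : Fin m → Fin 3 → E4 → E4 →L[ℝ] ℝ} (hp : Prim O u th) {Θ : Fin m → E4 → E4}
    (hΘ : ∀ i, Flat O u i (Θ i)) :
    Ev2 fun ε δ => ∀ P : Par g C ε δ, ∀ W : Trip M, Real w R O P u (rD O u) (FD P A) th W →
      ∃ (F : Fin m → E4 → E4) (V : Trip M), (∀ i, FOK P (F i)) ∧
        Real w R O P u (rD O u) F (fun _ _ _ => 0) V ∧ Seg W V := by
  have hself : Seg u u := fun t _ _ => by rw [seg_self]; exact hu
  obtain ⟨B, hB1, hB2, hB3⟩ := exists_states hst hst.even hself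
  have hnev := neck_ev (g := g) hC hst hst.even hself hp hp hB1 hB3
  -- constants
  have hcs : ∀ i a, ∃ C' : ℝ, 0 < C' ∧ ∀ ε : ℝ, 0 < ε → ε ≤ 1 / 2 → ∀ χ : E4 → ℝ,
      ContDiff ℝ ∞ χ →
      (∀ z, 0 ≤ χ z ∧ χ z ≤ 1) → (∀ z v, |fderiv ℝ χ z v| ≤ C / ε * ‖v‖) →
      ∀ z, ‖z‖ ≤ ε → ‖d1 (fun y => χ y • th i a y) z‖ ≤ C' * ε := by
    intro i a
    obtain ⟨D, hD, hb⟩ := hp.bd i a
    exact KInterp_856.cut_small (th i a)
      (fun z hz => ((hp.ok i a).cd z hz).differentiableAt infty_ne_zero) C D hC hD hb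
  choose C1 hC1 hC1' using hcs
  have hΘ0 : ∀ i, Θ i 0 = 0 := by
    intro i
    have h1 := (hΘ i).odd 0
    rw [neg_zero] at h1
    have h2 : (2 : ℝ) • Θ i 0 = 0 := by
      rw [two_smul]
      nth_rewrite 1 [h1]
      exact neg_add_cancel _
    exact (smul_eq_zero.1 h2).resolve_left two_ne_zero
  have hit := fun i => KInterp_856.exists_interp (Θ i) (hΘ i).cd (hΘ0 i) (hΘ i).one C hC
  choose C2 hC2 hC2' using hit
  have hmg : ∀ i, ∃ mg : ℝ, 0 < mg ∧ ∀ c' : Fin 3 → Bil, (∀ a, ‖c' a - cc O u i a‖ ≤ mg) →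
      PosB c' := by
    intro i
    obtain ⟨mg, h1, h2⟩ := KClose_57.pos_margin (T := {cc O u i}) isCompact_singleton
      (fun c hc => by
        rw [mem_singleton_iff] at hc
        rw [hc]
        exact posB_chf O hu i (by simp))
    exact ⟨mg, h1, fun c' hc' => h2 _ rfl c' hc'⟩
  choose mg hmg0 hmg' using hmg
  obtain ⟨ε1, hε1, hε1'⟩ := exists_small (ι := Fin m × Fin 3)
    (f := fun p => mg p.1 / (C1 p.1 p.2 + 3 * C2 p.1 * (‖cc O u p.1 p.2‖ + 1)))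
    (fun p => div_pos (hmg0 p.1) (by
      have := hC1 p.1 p.2
      have := hC2 p.1
      positivity))
  obtain ⟨ε2, hε2, hε2'⟩ := exists_small (ι := Fin m) (f := fun i => 1 / C2 i)
    (fun i => div_pos one_pos (hC2 i))
  have hsm : Ev2 fun ε _ => ε ≤ ε1 ∧ ε ≤ ε2 ∧ ε ≤ 1 / 2 :=
    ⟨min ε1 (min ε2 (1 / 2)), lt_min hε1 (lt_min hε2 (by norm_num)), fun ε _ hε' =>
      ⟨1, one_pos, fun δ _ _ => ⟨hε'.trans (min_le_left _ _),
        hε'.trans ((min_le_right _ _).trans (min_le_left _ _)),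
        hε'.trans ((min_le_right _ _).trans (min_le_right _ _))⟩⟩⟩
  refine (hnev.and hsm).mono ?_
  rintro ε δ ⟨hnev, hεa, hεb, hεc⟩ P W hW
  have hε := P.ε_pos
  have hr0 := P.r0_pos
  have hr1 := P.r0_lt
  have hA := fun i s hs => (hst.cd i s hs).1
  set F : Fin m → E4 → E4 := fun i z => A i (P.s z) (TT P (Θ i) z) with hF
  have hTd : ∀ i, ∀ z ∈ Metric.ball (0 : E4) 1, DifferentiableAt ℝ (TT P (Θ i)) z :=
    fun i z hz => (TT_cd ((hΘ i).cd z hz)).differentiableAt infty_ne_zero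
  have hFok : ∀ i, FOK P (F i) := by
    intro i
    refine ⟨fun z hz => ?_, fun z => ?_, fun z hz => ?_⟩
    · exact ((hA i _ (s_Icc P z)).comp z P.s_cd.contDiffAt).clm_apply
        (TT_cd ((hΘ i).cd z (PB_ball hz)))
    · show A i (P.s (-z)) (TT P (Θ i) (-z)) = - A i (P.s z) (TT P (Θ i) z)
      rw [P.s_even, TT_odd (hΘ i).odd, map_neg]
    · show A i (P.s z) (TT P (Θ i) z) = z
      rw [P.s_0 z hz, TT_in (by linarith), hst.zero]
      rfl
  -- the differential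
  have hFin : ∀ i, ∀ z ∈ PB 1, ‖z‖ ≤ ε / 2 → fderiv ℝ (F i) z = fderiv ℝ (FD P A i) z := by
    intro i z hz hz2
    ext1 v
    have h1 : fderiv ℝ (F i) z v = _ := fderiv_AT (P := P) (hA i) (hTd i z (PB_ball hz)) v
    have h2 : fderiv ℝ (FD P A i) z v = _ := fderiv_FD (P := P) (hA i) z v
    rw [h1, h2, fderiv_TT_in ((hΘ i).cd z (PB_ball hz)) hz2, TT_in hz2]
    rfl
  have hFout : ∀ i, ∀ z ∈ PB 1, ε / 2 ≤ ‖z‖ → fderiv ℝ (F i) z =
      (AA (cc O u i)).comp (fderiv ℝ (TT P (Θ i)) z) := by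
    intro i z hz hz2
    ext1 v
    have h1 : fderiv ℝ (F i) z v = _ := fderiv_AT (P := P) (hA i) (hTd i z (PB_ball hz)) v
    rw [h1, ds_one (P.s_1 z hz2), P.s_1 z hz2, hst.one]
    simp
  have hth0 : ∀ z : E4, d1 (fun y : E4 => P.χ y • (0 : E4 →L[ℝ] ℝ)) z = 0 := fun z =>
    d1_zero_of_ev (Eventually.of_forall fun _ => smul_zero _)
  -- the neck triple
  have hnout : ∀ i a, ∀ z ∈ PB 1, ε / 2 ≤ ‖z‖ → nu P i (rD O u i) (F i) (fun _ _ => 0) a z =
      pl (fderiv ℝ (TT P (Θ i)) z) (cc O u i a) := by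
    intro i a z hz hz2
    rw [KState_604.nu_out a hz hz2, hth0, add_zero, hFout i z hz hz2]
    conv_rhs => rw [(hst.def3 i).AA_spec (hst.nn i) a]
    rw [pl_sum]
    refine Finset.sum_congr rfl fun b _ => ?_
    rw [pl_pl]
    rfl
  have hout : ∀ i a, ∀ z ∈ PB 1, ε < ‖z‖ →
      nu P i (rD O u i) (F i) (fun _ _ => 0) a z = chf O u i a z := by
    intro i a z hz hz2
    rw [hnout i a z hz (by linarith), fderiv_TT_out hz2, (hΘ i).eq a z (PB_ball hz)]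
  obtain ⟨V, hV⟩ := Real.exists' (P := P) (u := u) (r := rD O u) (F := F)
    (th := fun _ _ _ => 0) hS hst.even hFok
    (fun i a => ⟨fun z _ => contDiffAt_const, fun z => neg_zero.symm⟩) hout
  refine ⟨F, V, hFok, hV, Real.seg hS hw hW hV (fun i => hst.fok i) hFok
    (fun i => rD_LT hst i) (fun i => rD_LT hst i) hself
    (fun i a z hz hz2 => hst.hout hp i a z hz hz2) hout fun i z hz1 hz2 τ hτ => ?_⟩
  have hz : z ∈ PB 1 := by
    refine ⟨fun h0 => ?_, by linarith⟩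
    rw [h0, norm_zero] at hz1
    linarith
  rcases le_total ‖z‖ (ε / 2) with h3 | h3
  · -- both triples agree
    have e1 : ∀ a, nu P i (rD O u i) (F i) (fun _ _ => 0) a z =
        nu P i (rD O u i) (FD P A i) (th i) a z := by
      intro a
      rw [nu_in (fun a => ⟨fun z _ => contDiffAt_const, fun z => neg_zero.symm⟩) a hz hz1 h3,
        nu_in (fun a => hp.ok i a) a hz hz1 h3, hFin i z hz h3]
    have e2 : (fun a => (1 - τ) • nu P i (rD O u i) (FD P A i) (th i) a z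
        + τ • nu P i (rD O u i) (F i) (fun _ _ => 0) a z) =
        fun a => nu P i (rD O u i) (FD P A i) (th i) a z := by
      funext a
      rw [e1]
      module
    rw [e2]
    have e3 := (hnev P i).1 0 ⟨le_rfl, zero_le_one⟩ z ⟨hz1, hz2⟩
    have e4 : (fun i s => B i ((0 : ℝ), s)) = A := by
      funext i s
      exact hB2 i s
    rw [seg_self, thD_zero, e4] at e3
    exact e3
  · refine hmg' i _ fun a => ?_
    have b0 := hε1' (i, a)
    have hk : 0 < C1 i a + 3 * C2 i * (‖cc O u i a‖ + 1) := by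
      have := hC1 i a
      have := hC2 i
      positivity
    rw [le_div_iff₀ hk] at b0
    have b1 := hC1' i a ε hε hεc P.χ P.χ_cd P.χ_mem P.χ_bd z hz2
    have b2 := hC2' i ε hε hεc P.χ P.χ_cd P.χ_mem P.χ_bd z hz2
    have b2' : ‖fderiv ℝ (TT P (Θ i)) z - ContinuousLinearMap.id ℝ E4‖ ≤ C2 i * ε := b2
    have b3 : C2 i * ε ≤ 1 := by
      have h4 := hε2' i
      rw [le_div_iff₀ (hC2 i)] at h4
      calc C2 i * ε ≤ C2 i * ε2 := mul_le_mul_of_nonneg_left hεb (hC2 i).le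
        _ ≤ 1 := by linarith
    have b4 := norm_pl_sub (fderiv ℝ (TT P (Θ i)) z) (cc O u i a) (b2'.trans b3)
    have e5 : (1 - τ) • nu P i (rD O u i) (FD P A i) (th i) a z
        + τ • nu P i (rD O u i) (F i) (fun _ _ => 0) a z - cc O u i a =
        (1 - τ) • d1 (fun y => P.χ y • th i a y) z +
          τ • (pl (fderiv ℝ (TT P (Θ i)) z) (cc O u i a) - cc O u i a) := by
      rw [hst.nu_out i a hz h3, hnout i a z hz h3]
      module
    have ht1 : 0 ≤ 1 - τ := by linarith [hτ.2]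
    have hn := norm_nonneg (cc O u i a)
    have hc2 := hC2 i
    show ‖(1 - τ) • nu P i (rD O u i) (FD P A i) (th i) a z
        + τ • nu P i (rD O u i) (F i) (fun _ _ => 0) a z - cc O u i a‖ ≤ mg i
    rw [e5]
    calc ‖(1 - τ) • d1 (fun y => P.χ y • th i a y) z +
          τ • (pl (fderiv ℝ (TT P (Θ i)) z) (cc O u i a) - cc O u i a)‖
        ≤ ‖(1 - τ) • d1 (fun y => P.χ y • th i a y) z‖ +
          ‖τ • (pl (fderiv ℝ (TT P (Θ i)) z) (cc O u i a) - cc O u i a)‖ := norm_add_le _ _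
      _ = (1 - τ) * ‖d1 (fun y => P.χ y • th i a y) z‖ +
          τ * ‖pl (fderiv ℝ (TT P (Θ i)) z) (cc O u i a) - cc O u i a‖ := by
          rw [norm_smul, norm_smul, Real.norm_of_nonneg ht1, Real.norm_of_nonneg hτ.1]
      _ ≤ 1 * (C1 i a * ε) + 1 * (3 * (C2 i * ε) * (‖cc O u i a‖ + 1)) := by
          gcongr
          · linarith [hτ.1]
          · exact hτ.2
          · refine b4.trans ?_
            gcongr
            linarith
      _ = ε * (C1 i a + 3 * C2 i * (‖cc O u i a‖ + 1)) := by ring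
      _ ≤ ε1 * (C1 i a + 3 * C2 i * (‖cc O u i a‖ + 1)) := by gcongr
      _ ≤ mg i := b0

end Fin

end

end Crest.Agent.R235.KFin_604
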