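import Crest.Agent.R235.KG_460

/-!
# Row 235, REG-B leaf L2 (helper52): almost every circle and almost every ray avoid `Z ∪ B`
-/

set_option autoImplicit false

namespace Crest.Agent.R235.KGL2_52

open Complex Metric Set MeasureTheory Filter Topology
open scoped ENNReal Real

noncomputable section

/-- polar point around `c` -/
def pt (c : ℂ) (r φ : ℝ) : ℂ := c + r * exp (φ * I)

theorem norm_exp_phi (φ : ℝ) : ‖exp (φ * I)‖ = 1 := norm_exp_ofReal_mul_I φ

theorem pt_sub (c : ℂ) (r φ : ℝ) : pt c r φ - c = r * exp (φ * I) := by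
  unfold pt; ring

theorem norm_pt_sub (c : ℂ) {r : ℝ} (hr : 0 ≤ r) (φ : ℝ) : ‖pt c r φ - c‖ = r := by
  rw [pt_sub, norm_mul, norm_exp_phi, mul_one, Complex.norm_real, Real.norm_eq_abs,
    abs_of_nonneg hr]

theorem continuous_pt2 (c : ℂ) : Continuous (fun p : ℝ × ℝ => pt c p.1 p.2) := by
  unfold pt; fun_prop

theorem lint_polar (c : ℂ) (F : ℂ → ℝ≥0∞) :
    ∫⁻ p in Ioi (0 : ℝ) ×ˢ Ioo (-π) π, ENNReal.ofReal p.1 * F (pt c p.1 p.2) = ∫⁻ z, F z := by
  have h := Complex.lintegral_comp_polarCoord_symm (fun z => F (c + z))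
  rw [lintegral_add_left_eq_self (fun z => F z) c] at h
  rw [← h]
  refine setLIntegral_congr_fun (measurableSet_Ioi.prod measurableSet_Ioo) fun p _ => ?_
  simp only [Complex.polarCoord_symm_apply, smul_eq_mul, pt]
  rw [exp_mul_I, ← ofReal_cos, ← ofReal_sin]

/-- the two one-dimensional measures -/
abbrev m1 : Measure ℝ := volume.restrict (Ioi 0)
abbrev m2 : Measure ℝ := volume.restrict (Ioo (-π) π)

theorem prod_eq : (volume : Measure (ℝ × ℝ)).restrict (Ioi (0 : ℝ) ×ˢ Ioo (-π) π) =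
    m1.prod m2 := by
  rw [Measure.volume_eq_prod, ← Measure.prod_restrict]

theorem null_prod {Z : Set ℂ} (hZ : volume Z = 0) (c : ℂ) :
    ∀ᵐ p ∂(m1.prod m2), pt c p.1 p.2 ∉ Z := by
  set Z' := toMeasurable volume Z with hZ'
  have hm : MeasurableSet Z' := measurableSet_toMeasurable _ _
  have h0 : volume Z' = 0 := by rw [hZ', measure_toMeasurable, hZ]
  have h1 := lint_polar c (Z'.indicator 1)
  rw [lintegral_indicator_one hm, h0, prod_eq] at h1
  have hmeas : Measurable fun p : ℝ × ℝ =>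
      ENNReal.ofReal p.1 * (Z'.indicator (1 : ℂ → ℝ≥0∞)) (pt c p.1 p.2) := by
    refine (ENNReal.measurable_ofReal.comp measurable_fst).mul ?_
    exact (measurable_one.indicator hm).comp (continuous_pt2 c).measurable
  rw [lintegral_eq_zero_iff hmeas] at h1
  have h2 : ∀ᵐ p ∂(m1.prod m2), (0 : ℝ) < p.1 := by
    rw [← prod_eq]
    filter_upwards [ae_restrict_mem (measurableSet_Ioi.prod measurableSet_Ioo)] with p hp
    exact hp.1
  filter_upwards [h1, h2] with p hp hp0 hpZ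
  have h3 : pt c p.1 p.2 ∈ Z' := subset_toMeasurable _ _ hpZ
  simp only [Pi.zero_apply, indicator_of_mem h3, Pi.one_apply, mul_one,
    ENNReal.ofReal_eq_zero] at hp
  linarith

theorem fin_prod {F : ℂ → ℝ≥0∞} (hF : Measurable F) (h : ∫⁻ z, F z ≠ ∞) (c : ℂ) :
    (∀ᵐ r ∂m1, ∫⁻ φ, ENNReal.ofReal r * F (pt c r φ) ∂m2 < ∞) ∧
    (∀ᵐ φ ∂m2, ∫⁻ r, ENNReal.ofReal r * F (pt c r φ) ∂m1 < ∞) := by
  have hmeas : Measurable fun p : ℝ × ℝ => ENNReal.ofReal p.1 * F (pt c p.1 p.2) :=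
    (ENNReal.measurable_ofReal.comp measurable_fst).mul (hF.comp (continuous_pt2 c).measurable)
  have h1 := lint_polar c F
  rw [prod_eq] at h1
  constructor
  · rw [lintegral_prod _ hmeas.aemeasurable] at h1
    exact ae_lt_top hmeas.lintegral_prod_right' (by rw [h1]; exact h)
  · rw [lintegral_prod_symm _ hmeas.aemeasurable] at h1
    exact ae_lt_top hmeas.lintegral_prod_left' (by rw [h1]; exact h)

/-! ### the one dimensional argument -/

/-- the integrand -/
def G (h : ℂ → ℝ) (U : Set ℂ) : ℂ → ℝ≥0∞ := U.indicator fun z => ENNReal.ofReal ‖fderiv ℝ h z‖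

theorem G_meas (h : ℂ → ℝ) {U : Set ℂ} (hU : IsOpen U) : Measurable (G h U) :=
  ((measurable_fderiv ℝ h).norm.ennreal_ofReal).indicator hU.measurableSet

theorem core_right {U : Set ℂ} (hU : IsOpen U) {h : ℂ → ℝ} (hh : ContDiffOn ℝ 1 h U)
    {γ γ' : ℝ → ℂ} (hγ : ∀ t, HasDerivAt γ (γ' t) t) (hγc : Continuous γ') {L : ℝ}
    (hL : ∀ t, ‖γ' t‖ ≤ L) {a b : ℝ}
    (hlim : ∀ t ∈ Icc a b, γ t ∉ U → Tendsto h (𝓝[U] (γ t)) atTop)
    (hint : ∫⁻ t in Ioo a b, G h U (γ t) ≠ ∞) {t1 t0 : ℝ} (ha : a ≤ t1) (h10 : t1 ≤ t0)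
    (hb : t0 ≤ b) (h1 : γ t1 ∈ U) : γ t0 ∈ U := by
  by_contra h0
  have hγcont : Continuous γ := continuous_iff_continuousAt.2 fun t => (hγ t).continuousAt
  set A : Set ℝ := Icc t1 t0 ∩ {t | γ t ∉ U} with hA
  have hAc : IsClosed A := isClosed_Icc.inter (hU.isClosed_compl.preimage hγcont)
  have hAne : A.Nonempty := ⟨t0, ⟨h10, le_rfl⟩, h0⟩
  have hAb : BddBelow A := ⟨t1, fun t ht => ht.1.1⟩
  set ts := sInf A with hts
  have hmem : ts ∈ A := hAc.csInf_mem hAne hAb
  have hin : ∀ t, t1 ≤ t → t < ts → γ t ∈ U := by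
    intro t ht htt
    by_contra hcon
    exact absurd (csInf_le hAb ⟨⟨ht, htt.le.trans hmem.1.2⟩, hcon⟩) (not_le.2 htt)
  have hlt : t1 < ts := by
    rcases hmem.1.1.eq_or_lt with h | h
    · exact absurd h1 (h ▸ hmem.2)
    · exact h
  have hL0 : 0 ≤ L := (norm_nonneg _).trans (hL 0)
  set C := L * (∫⁻ t in Ioo a b, G h U (γ t)).toReal with hC
  have hfd : ContinuousOn (fderiv ℝ h) U := hh.continuousOn_fderiv_of_isOpen hU le_rfl
  -- bound on `[t1, ts)`
  have hbd : ∀ t, t1 ≤ t → t < ts → h (γ t) ≤ h (γ t1) + C := by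
    intro t ht htt
    have hmaps : MapsTo γ (uIcc t1 t) U := by
      intro s hs
      rw [uIcc_of_le ht] at hs
      exact hin s hs.1 (hs.2.trans_lt htt)
    have hc1 : ContinuousOn (fun s => fderiv ℝ h (γ s)) (uIcc t1 t) :=
      hfd.comp hγcont.continuousOn hmaps
    have hc2 : ContinuousOn (fun s => fderiv ℝ h (γ s) (γ' s)) (uIcc t1 t) :=
      hc1.clm_apply hγc.continuousOn
    have hder : ∀ s ∈ uIcc t1 t, HasDerivAt (fun s => h (γ s)) (fderiv ℝ h (γ s) (γ' s)) s := by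
      intro s hs
      have hd : DifferentiableAt ℝ h (γ s) :=
        (hh.contDiffAt (hU.mem_nhds (hmaps hs))).differentiableAt (by norm_num)
      exact hd.hasFDerivAt.comp_hasDerivAt s (hγ s)
    have hFTC := intervalIntegral.integral_eq_sub_of_hasDerivAt hder hc2.intervalIntegrable
    have hle : ∫ s in t1..t, fderiv ℝ h (γ s) (γ' s) ≤ ∫ s in t1..t, L * ‖fderiv ℝ h (γ s)‖ := by
      refine intervalIntegral.integral_mono_on ht hc2.intervalIntegrable
        (hc1.norm.const_smul L).intervalIntegrable fun s _ => ?_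
      refine (le_abs_self _).trans ?_
      rw [← Real.norm_eq_abs, mul_comm]
      exact (ContinuousLinearMap.le_opNorm _ _).trans
        (mul_le_mul_of_nonneg_left (hL s) (norm_nonneg _))
    have hle2 : ∫ s in t1..t, L * ‖fderiv ℝ h (γ s)‖ ≤ C := by
      rw [intervalIntegral.integral_const_mul, hC]
      refine mul_le_mul_of_nonneg_left ?_ hL0
      rw [intervalIntegral.integral_of_le ht,
        integral_eq_lintegral_of_nonneg_ae (ae_of_all _ fun s => norm_nonneg _)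
          ((hc1.norm.mono (by rw [uIcc_of_le ht]; exact Ioc_subset_Icc_self)).aestronglyMeasurable
            measurableSet_Ioc)]
      refine ENNReal.toReal_mono hint ?_
      have hsub : Ioc t1 t ⊆ Ioo a b := fun s hs =>
        ⟨ha.trans_lt hs.1, hs.2.trans_lt (htt.trans_le (hmem.1.2.trans hb))⟩
      refine le_trans ?_ (lintegral_mono_set hsub)
      refine setLIntegral_mono' measurableSet_Ioc fun s hs => ?_
      unfold G
      rw [indicator_of_mem (hin s hs.1.le (hs.2.trans_lt htt))]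
    linarith
  -- but `h ∘ γ → ∞`
  have hT : Tendsto (fun t => h (γ t)) (𝓝[<] ts) atTop := by
    refine (hlim ts ⟨ha.trans hmem.1.1, hmem.1.2.trans hb⟩ hmem.2).comp ?_
    refine tendsto_nhdsWithin_iff.2 ⟨(hγcont.tendsto ts).mono_left nhdsWithin_le_nhds, ?_⟩
    filter_upwards [Ioo_mem_nhdsLT hlt] with t ht
    exact hin t ht.1.le ht.2
  have hev := hT.eventually (eventually_gt_atTop (h (γ t1) + C))
  obtain ⟨t, ht, ht2⟩ := (hev.and (Ioo_mem_nhdsLT hlt)).exists
  exact absurd (hbd t ht2.1.le ht2.2) (not_le.2 ht)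

theorem core {U : Set ℂ} (hU : IsOpen U) {h : ℂ → ℝ} (hh : ContDiffOn ℝ 1 h U)
    {γ γ' : ℝ → ℂ} (hγ : ∀ t, HasDerivAt γ (γ' t) t) (hγc : Continuous γ') {L : ℝ}
    (hL : ∀ t, ‖γ' t‖ ≤ L) {a b : ℝ}
    (hlim : ∀ t ∈ Icc a b, γ t ∉ U → Tendsto h (𝓝[U] (γ t)) atTop)
    (hint : ∫⁻ t in Ioo a b, G h U (γ t) ≠ ∞) {t1 t0 : ℝ} (ht1 : t1 ∈ Icc a b)
    (ht0 : t0 ∈ Icc a b) (h1 : γ t1 ∈ U) : γ t0 ∈ U := by
  rcases le_total t1 t0 with h10 | h10
  · exact core_right hU hh hγ hγc hL hlim hint ht1.1 h10 ht0.2 h1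
  · have hγ2 : ∀ t, HasDerivAt (fun t => γ (-t)) (-γ' (-t)) t := by
      intro t
      have := (hγ (-t)).scomp t (hasDerivAt_neg t)
      exact this.congr_deriv (by simp)
    have hint2 : ∫⁻ t in Ioo (-b) (-a), G h U (γ (-t)) ≠ ∞ := by
      have e := (Measure.measurePreserving_neg (volume : Measure ℝ)).setLIntegral_comp_preimage_emb
        (MeasurableEquiv.neg ℝ).measurableEmbedding (fun t => G h U (γ t)) (Ioo a b)
      have e2 : (Neg.neg ⁻¹' Ioo a b : Set ℝ) = Ioo (-b) (-a) := by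
        ext t; simp only [mem_preimage, mem_Ioo]; constructor
        · rintro ⟨h1, h2⟩; constructor <;> linarith
        · rintro ⟨h1, h2⟩; constructor <;> linarith
      rw [e2] at e
      rw [e]; exact hint
    have := core_right hU hh hγ2 (by fun_prop) (L := L) (fun t => by rw [norm_neg]; exact hL _)
      (a := -b) (b := -a) (fun t ht htU => hlim (-t) ⟨by linarith [ht.2], by linarith [ht.1]⟩ htU)
      hint2 (t1 := -t1) (t0 := -t0) (by linarith [ht1.2]) (by linarith) (by linarith [ht0.1])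
      (by simpa using h1)
    simpa using this

theorem hasDerivAt_circ (c : ℂ) (r t : ℝ) :
    HasDerivAt (fun t : ℝ => pt c r t) (r * (exp (t * I) * I)) t := by
  unfold pt
  have h1 : HasDerivAt (fun t : ℝ => (t : ℂ) * I) (1 * I) t :=
    (hasDerivAt_id t).ofReal_comp.mul_const I
  rw [one_mul] at h1
  exact (h1.cexp.const_mul (r : ℂ)).const_add c

theorem hasDerivAt_ray (c : ℂ) (φ t : ℝ) :
    HasDerivAt (fun t : ℝ => pt c t φ) (exp (φ * I)) t := by
  unfold pt
  have h1 : HasDerivAt (fun t : ℝ => (t : ℂ) * exp (φ * I)) (1 * exp (φ * I)) t :=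
    (hasDerivAt_id t).ofReal_comp.mul_const _
  rw [one_mul] at h1
  exact h1.const_add c

theorem exists_of_ae {a b : ℝ} (hab : a < b) {P : ℝ → Prop}
    (h : ∀ᵐ t ∂(volume.restrict (Ioo a b)), P t) : ∃ t ∈ Ioo a b, P t := by
  have h2 : ∀ᵐ t ∂(volume.restrict (Ioo a b)), t ∈ Ioo a b ∧ P t :=
    (ae_restrict_mem measurableSet_Ioo).and h
  have hne : NeBot (ae (volume.restrict (Ioo a b))) := by
    rw [ae_neBot]
    intro h0
    have := congrArg (fun m => m univ) h0
    simp only [Measure.restrict_apply_univ, Real.volume_Ioo, Measure.coe_zero, Pi.zero_apply,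
      ENNReal.ofReal_eq_zero] at this
    linarith
  exact h2.exists

theorem arg_pt (c : ℂ) {r φ : ℝ} (hr : 0 < r) (hφ : φ ∈ Ioo (-π) π) :
    arg (pt c r φ - c) = φ := by
  rw [pt_sub, arg_real_mul _ hr, arg_exp_mul_I, toIocMod_eq_self Real.two_pi_pos |>.2]
  exact ⟨hφ.1, by linarith [hφ.2]⟩

/-- **L2** -/
theorem l2 : KG_460.L2 := by
  intro D Z B h c R hUo hB hZ hh hlim hball hint
  set U : Set ℂ := ball c R \ (Z ∪ B) with hUdef
  have hUeq : U = ball c R ∩ (D \ (Z ∪ B)) := by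
    rw [hUdef]; ext z; simp only [Set.mem_sdiff, mem_inter_iff]
    exact ⟨fun hz => ⟨hz.1, hball hz.1, hz.2⟩, fun hz => ⟨hz.1, hz.2.2⟩⟩
  have hU : IsOpen U := by rw [hUeq]; exact isOpen_ball.inter hUo
  have hUsub : U ⊆ D \ (Z ∪ B) := by rw [hUeq]; exact inter_subset_right
  have hh' : ContDiffOn ℝ 1 h U := hh.mono hUsub
  have hlim' : ∀ p ∈ D ∩ Z, Tendsto h (𝓝[U] p) atTop := fun p hp =>
    (hlim p hp).mono_left (nhdsWithin_mono p hUsub)
  -- finite integral of the gradient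
  have hG : ∫⁻ z, G h U z ≠ ∞ := by
    unfold G
    rw [lintegral_indicator hU.measurableSet]
    have hfin : volume U ≠ ∞ := measure_ne_top_of_subset sdiff_subset measure_ball_lt_top.ne
    have : IsFiniteMeasure (volume.restrict U) := ⟨by
      rw [Measure.restrict_apply_univ]; exact lt_top_iff_ne_top.2 hfin⟩
    have hi : IntegrableOn (fun z => ‖fderiv ℝ h z‖) U := by
      refine ((integrable_const (1 : ℝ)).add hint).mono'
        (measurable_fderiv ℝ h).norm.aestronglyMeasurable (ae_of_all _ fun z => ?_)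
      rw [norm_norm, Pi.add_apply]
      nlinarith [sq_nonneg (‖fderiv ℝ h z‖ - 1), norm_nonneg (fderiv ℝ h z)]
    have := hi.2
    rw [hasFiniteIntegral_iff_norm] at this
    simp only [norm_norm] at this
    exact this.ne
  obtain ⟨hF1, hF2⟩ := fin_prod (G_meas h hU) hG c
  have hN := null_prod hZ c
  have hN1 : ∀ᵐ r ∂m1, ∀ᵐ φ ∂m2, pt c r φ ∉ Z := Measure.ae_ae_of_ae_prod hN
  have hN2 : ∀ᵐ φ ∂m2, ∀ᵐ r ∂m1, pt c r φ ∉ Z := by
    have := (Measure.measurePreserving_swap (μ := m2) (ν := m1)).quasiMeasurePreserving.ae hN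
    exact Measure.ae_ae_of_ae_prod this
  have hptball : ∀ {r φ : ℝ}, 0 < r → r < R → pt c r φ ∈ ball c R := by
    intro r φ hr hrR
    rw [mem_ball, dist_eq_norm, norm_pt_sub c hr.le]; exact hrR
  constructor
  · -- circles
    have hB1 : ∀ᵐ r : ℝ, r ∉ (fun b => ‖b - c‖) '' B := (hB.image _).ae_notMem volume
    have hsub : Ioo 0 R ⊆ Ioi (0 : ℝ) := fun r hr => hr.1
    filter_upwards [ae_restrict_of_ae hB1, ae_restrict_of_ae_restrict_of_subset hsub hF1,
      ae_restrict_of_ae_restrict_of_subset hsub hN1, ae_restrict_mem measurableSet_Ioo]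
      with r hrB hrF hrN hr
    rw [eq_empty_iff_forall_notMem]
    rintro z ⟨hz, hzZ⟩
    have hzn : ‖z - c‖ = r := by rwa [mem_sphere, dist_eq_norm] at hz
    have hnB : ∀ t : ℝ, pt c r t ∉ B := fun t ht =>
      hrB ⟨_, ht, norm_pt_sub c hr.1.le t⟩
    have hzZ' : z ∈ Z := by
      rcases hzZ with h1 | h1
      · exact h1
      · exact absurd ⟨z, h1, hzn⟩ hrB
    have hfin : ∫⁻ t in Ioo (-π) π, G h U (pt c r t) ≠ ∞ := by
      intro htop
      have e : ∫⁻ φ, ENNReal.ofReal r * G h U (pt c r φ) ∂m2 = ∞ := by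
        rw [lintegral_const_mul' _ _ ENNReal.ofReal_ne_top, htop]
        exact ENNReal.mul_top (by simpa using hr.1)
      rw [e] at hrF
      exact lt_irrefl _ hrF
    obtain ⟨t1, ht1, ht1Z⟩ := exists_of_ae (by linarith [Real.pi_pos] : (-π) < π) hrN
    have hzpt : z = pt c r (arg (z - c)) := by
      unfold pt
      rw [← hzn, norm_mul_exp_arg_mul_I]; ring
    have hres := core hU hh' (γ := fun t => pt c r t) (hasDerivAt_circ c r) (by fun_prop)
      (L := r) (fun t => by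
        rw [norm_mul, norm_mul, norm_exp_phi, norm_I, Complex.norm_real, Real.norm_eq_abs,
          abs_of_pos hr.1]; simp)
      (a := -π) (b := π) (fun t _ htU => hlim' _ ?_) hfin (t1 := t1)
      (t0 := arg (z - c)) ⟨ht1.1.le, ht1.2.le⟩ ⟨(neg_pi_lt_arg _).le, arg_le_pi _⟩
      ⟨hptball hr.1 hr.2, fun hcon => hcon.elim ht1Z (hnB t1)⟩
    · have hres' : pt c r (arg (z - c)) ∈ U := hres
      rw [← hzpt] at hres'
      exact hres'.2 (Or.inl hzZ')
    · have hb := hptball (φ := t) hr.1 hr.2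
      refine ⟨hball hb, ?_⟩
      by_contra hcon
      exact htU ⟨hb, fun h1 => h1.elim hcon (hnB t)⟩
  · -- rays
    have hB1 : ∀ᵐ φ : ℝ, φ ∉ (fun b => arg (b - c)) '' B := (hB.image _).ae_notMem volume
    filter_upwards [ae_restrict_of_ae hB1, hF2, hN2, ae_restrict_mem measurableSet_Ioo]
      with φ hφB hφF hφN hφ r hr
    have hnB : ∀ t : ℝ, 0 < t → pt c t φ ∉ B := fun t ht0 ht =>
      hφB ⟨_, ht, arg_pt c ht0 hφ⟩
    have ha0 : 0 < r / 2 := by linarith [hr.1]
    have hab : r / 2 < (r + R) / 2 := by linarith [hr.1, hr.2]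
    have hbR : (r + R) / 2 < R := by linarith [hr.2]
    have hsub : Ioo (r / 2) ((r + R) / 2) ⊆ Ioi 0 := fun t ht => ha0.trans ht.1
    have hfin : ∫⁻ t in Ioo (r / 2) ((r + R) / 2), G h U (pt c t φ) ≠ ∞ := by
      have h1 : ∫⁻ t in Ioo (r / 2) ((r + R) / 2), ENNReal.ofReal (r / 2) * G h U (pt c t φ) ≤
          ∫⁻ t, ENNReal.ofReal t * G h U (pt c t φ) ∂m1 := by
        refine le_trans ?_ (lintegral_mono_set hsub)
        exact setLIntegral_mono' measurableSet_Ioo fun t ht => by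
          gcongr
          exact ht.1.le
      intro htop
      rw [lintegral_const_mul' _ _ ENNReal.ofReal_ne_top, htop,
        ENNReal.mul_top (by simpa using hr.1)] at h1
      exact absurd (lt_of_le_of_lt h1 hφF) (lt_irrefl _)
    obtain ⟨t1, ht1, ht1Z⟩ := exists_of_ae hab (ae_restrict_of_ae_restrict_of_subset hsub hφN)
    have hres := core hU hh' (γ := fun t => pt c t φ) (hasDerivAt_ray c φ) (by fun_prop)
      (L := 1) (fun t => by rw [norm_exp_phi])
      (a := r / 2) (b := (r + R) / 2) (fun t ht htU => hlim' _ ?_) hfin (t1 := t1)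
      (t0 := r) ⟨ht1.1.le, ht1.2.le⟩ ⟨by linarith [hr.1], by linarith [hr.2]⟩
      ⟨hptball (ha0.trans ht1.1) (ht1.2.trans hbR),
        fun hcon => hcon.elim ht1Z (hnB t1 (ha0.trans ht1.1))⟩
    · exact hres.2
    · have hb := hptball (φ := φ) (ha0.trans_le ht.1) (ht.2.trans_lt hbR)
      refine ⟨hball hb, ?_⟩
      by_contra hcon
      exact htU ⟨hb, fun h1 => h1.elim hcon (hnB t (ha0.trans_le ht.1))⟩

end

end Crest.Agent.R235.KGL2_52
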