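import Mathlib

/-!
# Row 235, package REG-B: planar theory of k-valued graphs (definitions + leaf Props)

`KG k D` : a k-valued function on the open set `D ⊆ ℂ` (values `s z i`, `i : Fin k`, arbitrary
labelling, continuity up to permutations), which near every point with `k` distinct values is given
by `k` sheets of class `C²`; `A z i` is the real derivative of the sheet through `(z, s z i)`.
`Bad` = points with a repeated value, `Zs` = points where all values coincide.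
-/

namespace Crest.Agent.R235.KG_460

open Complex Metric Set MeasureTheory Filter Topology

/-- Wirtinger derivatives of a real linear map. -/
noncomputable def del (L : ℂ →L[ℝ] ℂ) : ℂ := (L 1 - I * L I) / 2
noncomputable def dbar (L : ℂ →L[ℝ] ℂ) : ℂ := (L 1 + I * L I) / 2

/-- wedge of two real covectors = coefficient of `dx ∧ dy`. -/
noncomputable def wedge (α β : ℂ →L[ℝ] ℝ) : ℝ := α 1 * β I - α I * β 1

/-- A k-valued graph over `D`. -/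
structure KG (k : ℕ) (D : Set ℂ) where
  s : ℂ → Fin k → ℂ
  A : ℂ → Fin k → (ℂ →L[ℝ] ℂ)
  cont : ∀ p ∈ D, ∀ ε > 0, ∀ᶠ z in 𝓝 p, ∃ τ : Equiv.Perm (Fin k), ∀ i, ‖s z (τ i) - s p i‖ < ε
  loc : ∀ p ∈ D, Function.Injective (s p) → ∃ r > 0, ∃ f : Fin k → ℂ → ℂ,
    (∀ i, ContDiffOn ℝ 2 (f i) (ball p r)) ∧
    ∀ z ∈ ball p r, ∃ τ : Equiv.Perm (Fin k), ∀ i, s z (τ i) = f i z ∧ A z (τ i) = fderiv ℝ (f i) z

variable {k : ℕ} {D : Set ℂ}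

/-- points with a repeated value -/
def KG.Bad (G : KG k D) : Set ℂ := {z | z ∈ D ∧ ¬ Function.Injective (G.s z)}

/-- points where all values coincide -/
def KG.Zs (G : KG k D) : Set ℂ := {z | z ∈ D ∧ ∀ i j, G.s z i = G.s z j}

/-- good points -/
def KG.U (G : KG k D) : Set ℂ := {z | z ∈ D ∧ Function.Injective (G.s z)}

/-- `v_ij = - log |ζ_i - ζ_j|` -/
noncomputable def KG.v (G : KG k D) (z : ℂ) (i j : Fin k) : ℝ := - Real.log ‖G.s z i - G.s z j‖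

/-- `ℓ_ij = d log (ζ_i - ζ_j)` -/
noncomputable def KG.l (G : KG k D) (z : ℂ) (i j : Fin k) : ℂ →L[ℝ] ℂ :=
  (G.s z i - G.s z j)⁻¹ • (G.A z i - G.A z j)

/-- `d v_ij` -/
noncomputable def KG.dv (G : KG k D) (z : ℂ) (i j : Fin k) : ℂ →L[ℝ] ℝ :=
  - reCLM.comp (G.l z i j)

/-- `d arg (ζ_i - ζ_j)` -/
noncomputable def KG.dth (G : KG k D) (z : ℂ) (i j : Fin k) : ℂ →L[ℝ] ℝ :=
  imCLM.comp (G.l z i j)

/-- sum over ordered pairs of distinct sheets -/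
noncomputable def psum (k : ℕ) (F : Fin k → Fin k → ℝ) : ℝ := ∑ i, ∑ j, if i = j then 0 else F i j

/-- energy density -/
noncomputable def KG.en (G : KG k D) (z : ℂ) : ℝ := ∑ i, ‖G.A z i‖ ^ 2

/-- The analytic hypotheses: `J`-equation with Lipschitz coefficients, bounded sheets, locally
finite energy, `Z` null, and (induction) bad points locally finite off `Z`. -/
structure Hyp (G : KG k D) (mu be : ℂ → ℂ → ℂ) (m Lam Mb : ℝ) : Prop where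
  openD : IsOpen D
  m_lt : m < 1
  mu_le : ∀ z ∈ D, ∀ i, ‖mu z (G.s z i)‖ ≤ m
  mu_lip : ∀ z ∈ D, ∀ z' ∈ D, ∀ i j,
    ‖mu z (G.s z i) - mu z' (G.s z' j)‖ ≤ Lam * (‖z - z'‖ + ‖G.s z i - G.s z' j‖)
  be_lip : ∀ z ∈ D, ∀ z' ∈ D, ∀ i j,
    ‖be z (G.s z i) - be z' (G.s z' j)‖ ≤ Lam * (‖z - z'‖ + ‖G.s z i - G.s z' j‖)
  bdd : ∀ z ∈ D, ∀ i, ‖G.s z i‖ ≤ Mb
  eqn : ∀ z ∈ G.U, ∀ i, dbar (G.A z i) = mu z (G.s z i) * del (G.A z i) - be z (G.s z i)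
  energy : ∀ K ⊆ D, IsCompact K → IntegrableOn G.en (K ∩ G.U)
  null : volume G.Zs = 0
  fin : ∀ K ⊆ D \ G.Zs, IsCompact K → (G.Bad ∩ K).Finite

/-- Hoelder continuity and energy decay at a point. -/
def Decay (G : KG k D) (p : ℂ) : Prop :=
  ∃ r0 > 0, ∃ C > 0, ∃ a > 0, ball p r0 ⊆ D ∧
    (∀ z ∈ ball p r0, ∃ τ : Equiv.Perm (Fin k), ∀ i, ‖G.s z (τ i) - G.s p i‖ ≤ C * ‖z - p‖ ^ a) ∧
    (∀ r ∈ Ioo 0 r0, ∫ z in ball p r ∩ G.U, G.en z ≤ C * r ^ (2 * a))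

/-- THEOREM I (output of REG-B): almost every circle avoids the bad points. -/
def CIRC : Prop := ∀ (k : ℕ) (D : Set ℂ) (G : KG k D) (mu be : ℂ → ℂ → ℂ) (m Lam Mb : ℝ),
  2 ≤ k → Hyp G mu be m Lam Mb → ∀ c R, closedBall c R ⊆ D →
    ∀ᵐ r : ℝ ∂(volume.restrict (Ioo 0 R)), sphere c r ∩ G.Bad = ∅

/-- THEOREM II (output of REG-B): the bad points are locally finite. -/
def FIN : Prop := ∀ (k : ℕ) (D : Set ℂ) (G : KG k D) (mu be : ℂ → ℂ → ℂ) (m Lam Mb : ℝ),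
  2 ≤ k → Hyp G mu be m Lam Mb → (∀ p ∈ D, Decay G p) →
    ∀ K ⊆ D, IsCompact K → (G.Bad ∩ K).Finite

/-! ### pure leaves -/

/-- L1: Stokes in the plane, `L²` one-forms do not see points. -/
def L1 : Prop := ∀ (B : Finset ℂ) (P Q : ℂ → ℝ), HasCompactSupport P → HasCompactSupport Q →
  (∀ z ∉ B, ContDiffAt ℝ 1 P z) → (∀ z ∉ B, ContDiffAt ℝ 1 Q z) →
  Integrable (fun z => P z ^ 2 + Q z ^ 2) →
  Integrable (fun z => fderiv ℝ Q z 1 - fderiv ℝ P z I) →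
  ∫ z, (fderiv ℝ Q z 1 - fderiv ℝ P z I) = 0

/-- L2: a function of finite energy which is `+∞` on a null set `Z`: almost every circle and almost
every ray around `c` avoid `Z ∪ B`. -/
def L2 : Prop := ∀ (D Z B : Set ℂ) (h : ℂ → ℝ) (c : ℂ) (R : ℝ),
  IsOpen (D \ (Z ∪ B)) → B.Countable → volume Z = 0 →
  ContDiffOn ℝ 1 h (D \ (Z ∪ B)) →
  (∀ p ∈ D ∩ Z, Tendsto h (𝓝[D \ (Z ∪ B)] p) atTop) →
  ball c R ⊆ D →
  IntegrableOn (fun z => ‖fderiv ℝ h z‖ ^ 2) (ball c R \ (Z ∪ B)) →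
  (∀ᵐ r : ℝ ∂(volume.restrict (Ioo 0 R)), sphere c r ∩ (Z ∪ B) = ∅) ∧
  (∀ᵐ φ : ℝ ∂(volume.restrict (Ioo (-Real.pi) Real.pi)), ∀ r ∈ Ioo 0 R,
    c + r * exp (φ * I) ∉ Z ∪ B)

/-- L3: winding number of a nonvanishing `C¹` function on an annulus, tested with radial cut-offs.-/
def L3 : Prop := ∀ (f : ℂ → ℂ) (c : ℂ) (r1 r2 : ℝ), 0 < r1 → r1 < r2 →
  (∀ z, r1 ≤ ‖z - c‖ → ‖z - c‖ ≤ r2 → ContDiffAt ℝ 1 f z ∧ f z ≠ 0) →
  ∃ N : ℤ, (∀ r ∈ Icc r1 r2, ∫ t in (-Real.pi)..Real.pi,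
      ((f (c + r * exp (t * I)))⁻¹ * fderiv ℝ f (c + r * exp (t * I)) (I * (r * exp (t * I)))) =
        2 * Real.pi * I * N) ∧
    ∀ eta : ℝ → ℝ, ContDiff ℝ 1 eta → (∀ t ≤ r1, eta t = 1) → (∀ t ≥ r2, eta t = 0) →
      ∫ z in {z | r1 < ‖z - c‖ ∧ ‖z - c‖ < r2},
        wedge (fderiv ℝ (fun w : ℂ => eta ‖w - c‖) z) (imCLM.comp ((f z)⁻¹ • fderiv ℝ f z)) =
      - (2 * Real.pi * N)

/-- L4: circle averages. -/
def L4 : Prop := ∀ (U : Set ℂ) (R C a : ℝ) (v g : ℂ → ℝ), 0 < R → 0 < a → IsOpen U →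
  ContDiffOn ℝ 1 v U →
  (∀ᵐ r : ℝ ∂(volume.restrict (Ioo 0 R)), sphere (0 : ℂ) r ⊆ U) →
  (∀ᵐ φ : ℝ ∂(volume.restrict (Ioo (-Real.pi) Real.pi)), ∀ r ∈ Ioo 0 R, (r * exp (φ * I) : ℂ) ∈ U) →
  IntegrableOn (fun z => ‖fderiv ℝ v z‖ ^ 2) (ball 0 R ∩ U) →
  (∀ z, 0 ≤ g z) → IntegrableOn (fun z => g z ^ 2) (ball 0 R ∩ U) →
  (∀ r ∈ Ioo 0 R, ∫ z in ball 0 r ∩ U, g z ^ 2 ≤ C * r ^ (2 * a)) →
  (∀ᵐ r : ℝ ∂(volume.restrict (Ioo 0 R)),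
    |∫ φ in (-Real.pi)..Real.pi, fderiv ℝ v (r * exp (φ * I)) (exp (φ * I))| ≤
      ∫ φ in (-Real.pi)..Real.pi, g (r * exp (φ * I))) →
  Tendsto v (𝓝[U] 0) atTop → False

end Crest.Agent.R235.KG_460
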