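import Mathlib
import Crest.Agent.R235.KG_460

/-!
# Row 235, package REG-B, leaf L3

Winding number of a nonvanishing `C¹` function on an annulus, tested with radial cut-offs.
Main theorem: `l3 : L3`.
-/

namespace Crest.Agent.R235.KGL3_847

open Complex Metric Set MeasureTheory Filter Topology
open Crest.Agent.R235.KG_460

/-- The log-derivative of a closed nonvanishing `C¹` loop integrates to a multiple of `2πi`. -/
theorem loop_int (g g' : ℝ → ℂ) (hg : ∀ t, HasDerivAt g (g' t) t) (hc : Continuous g')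
    (h0 : ∀ t, g t ≠ 0) (a b : ℝ) (hab : g a = g b) :
    ∃ n : ℤ, ∫ t in a..b, (g t)⁻¹ * g' t = n * (2 * Real.pi * I) := by
  have hgc : Continuous g := continuous_iff_continuousAt.2 fun t => (hg t).continuousAt
  have hq : Continuous fun t => (g t)⁻¹ * g' t := (hgc.inv₀ h0).mul hc
  set h : ℝ → ℂ := fun x => ∫ t in a..x, (g t)⁻¹ * g' t with hh
  have hd : ∀ x, HasDerivAt h ((g x)⁻¹ * g' x) x := fun x =>
    intervalIntegral.integral_hasDerivAt_right (hq.intervalIntegrable _ _)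
      (hq.stronglyMeasurableAtFilter _ _) hq.continuousAt
  have hk : ∀ x, HasDerivAt (fun x => g x * exp (-h x)) 0 x := by
    intro x
    have h1 := (hg x).mul ((hd x).neg.cexp)
    have h2 : g x * (g x)⁻¹ = 1 := mul_inv_cancel₀ (h0 x)
    refine h1.congr_deriv ?_
    linear_combination (-exp (-h x) * g' x) * h2
  have hconst : g b * exp (-h b) = g a * exp (-h a) := by
    have := is_const_of_deriv_eq_zero (f := fun x => g x * exp (-h x))
      (fun x => (hk x).differentiableAt) (fun x => (hk x).deriv) b a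
    exact this
  have ha : h a = 0 := by simp [hh]
  rw [ha, ← hab, neg_zero, exp_zero, mul_one] at hconst
  have he : exp (-h b) = 1 := by
    have := h0 a
    field_simp at hconst
    exact hconst
  obtain ⟨n, hn⟩ := Complex.exp_eq_one_iff.1 he
  refine ⟨-n, ?_⟩
  have : h b = -(n * (2 * Real.pi * I)) := by rw [← hn, neg_neg]
  rw [show (∫ t in a..b, (g t)⁻¹ * g' t) = h b from rfl, this]
  push_cast
  ring

/-- clamp to `[r1, r2]` -/
noncomputable def clamp (r1 r2 r : ℝ) : ℝ := max r1 (min r r2)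

theorem clamp_cont (r1 r2 : ℝ) : Continuous (clamp r1 r2) := by
  unfold clamp
  fun_prop

theorem clamp_ge (r1 r2 r : ℝ) : r1 ≤ clamp r1 r2 r := le_max_left _ _

theorem clamp_le {r1 r2 : ℝ} (h : r1 ≤ r2) (r : ℝ) : clamp r1 r2 r ≤ r2 :=
  max_le h (min_le_right _ _)

theorem clamp_eq {r1 r2 r : ℝ} (h1 : r1 ≤ r) (h2 : r ≤ r2) : clamp r1 r2 r = r := by
  unfold clamp
  rw [min_eq_left h2, max_eq_right h1]

/-- a point of the circle -/
noncomputable def pt (c : ℂ) (r t : ℝ) : ℂ := c + r * exp (t * I)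

theorem pt_norm (c : ℂ) {r : ℝ} (hr : 0 ≤ r) (t : ℝ) : ‖pt c r t - c‖ = r := by
  simp [pt, Complex.norm_exp_ofReal_mul_I, abs_of_nonneg hr]

/-- The angular integrand. -/
noncomputable def Fn (f : ℂ → ℂ) (c : ℂ) (r t : ℝ) : ℂ :=
  (f (pt c r t))⁻¹ * fderiv ℝ f (pt c r t) (I * (r * exp (t * I)))

section

variable {f : ℂ → ℂ} {c : ℂ} {r1 r2 : ℝ} (hr1 : 0 < r1) (h12 : r1 < r2)
  (hf : ∀ z, r1 ≤ ‖z - c‖ → ‖z - c‖ ≤ r2 → ContDiffAt ℝ 1 f z ∧ f z ≠ 0)

include hr1 h12 hf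

theorem pt_ok (r t : ℝ) : ContDiffAt ℝ 1 f (pt c (clamp r1 r2 r) t) ∧
    f (pt c (clamp r1 r2 r) t) ≠ 0 := by
  have h0 : 0 ≤ clamp r1 r2 r := hr1.le.trans (clamp_ge _ _ _)
  refine hf _ ?_ ?_
  · rw [pt_norm c h0]; exact clamp_ge _ _ _
  · rw [pt_norm c h0]; exact clamp_le h12.le _

theorem Fn_cont : Continuous (fun p : ℝ × ℝ => Fn f c (clamp r1 r2 p.1) p.2) := by
  have hp : Continuous fun p : ℝ × ℝ => pt c (clamp r1 r2 p.1) p.2 := by
    unfold pt
    have := clamp_cont r1 r2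
    fun_prop
  have hp2 : Continuous fun p : ℝ × ℝ =>
      (I * ((clamp r1 r2 p.1 : ℝ) * exp (p.2 * I)) : ℂ) := by
    have := clamp_cont r1 r2
    fun_prop
  refine continuous_iff_continuousAt.2 fun p => ?_
  obtain ⟨hd, hne⟩ := pt_ok hr1 h12 hf p.1 p.2
  have h1 : ContinuousAt (fun p : ℝ × ℝ => f (pt c (clamp r1 r2 p.1) p.2)) p :=
    ContinuousAt.comp (f := fun p : ℝ × ℝ => pt c (clamp r1 r2 p.1) p.2) hd.continuousAt
      hp.continuousAt
  have h2 : ContinuousAt (fun p : ℝ × ℝ => fderiv ℝ f (pt c (clamp r1 r2 p.1) p.2)) p :=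
    ContinuousAt.comp (f := fun p : ℝ × ℝ => pt c (clamp r1 r2 p.1) p.2)
      (hd.fderiv_right (m := 0) (by norm_num)).continuousAt hp.continuousAt
  exact (h1.inv₀ hne).mul (h2.clm_apply hp2.continuousAt)

theorem loop_circle (r : ℝ) : ∃ n : ℤ,
    ∫ t in (-Real.pi)..Real.pi, Fn f c (clamp r1 r2 r) t = n * (2 * Real.pi * I) := by
  set ρ := clamp r1 r2 r with hρ
  have hpt : ∀ t : ℝ, HasDerivAt (fun t : ℝ => pt c ρ t) (I * (ρ * exp (t * I))) t := by
    intro t
    have h1 : HasDerivAt (fun t : ℝ => ((t : ℂ) * I)) I t := by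
      simpa using (Complex.ofRealCLM.hasDerivAt (x := t)).mul_const I
    have h2 := (h1.cexp.const_mul (ρ : ℂ)).const_add c
    refine h2.congr_deriv ?_
    ring
  have h := loop_int (fun t => f (pt c ρ t)) (fun t => fderiv ℝ f (pt c ρ t) (I * (ρ * exp (t * I))))
    (fun t => ?_) ?_ (fun t => (pt_ok hr1 h12 hf r t).2) (-Real.pi) Real.pi ?_
  · exact h
  · have hfd := ((pt_ok hr1 h12 hf r t).1.differentiableAt (by norm_num)).hasFDerivAt
    exact hfd.comp_hasDerivAt t (hpt t)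
  · refine continuous_iff_continuousAt.2 fun t => ?_
    obtain ⟨hd, -⟩ := pt_ok hr1 h12 hf r t
    have hp : Continuous fun t : ℝ => pt c ρ t :=
      continuous_iff_continuousAt.2 fun t => (hpt t).continuousAt
    have h2 : ContinuousAt (fun t : ℝ => fderiv ℝ f (pt c ρ t)) t :=
      ContinuousAt.comp (f := fun t : ℝ => pt c ρ t)
        (hd.fderiv_right (m := 0) (by norm_num)).continuousAt hp.continuousAt
    exact h2.clm_apply (by fun_prop)
  · simp [pt, Complex.exp_neg, Complex.exp_pi_mul_I]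

theorem exists_N : ∃ N : ℤ, ∀ r : ℝ,
    ∫ t in (-Real.pi)..Real.pi, Fn f c (clamp r1 r2 r) t = N * (2 * Real.pi * I) := by
  choose n hn using loop_circle (f := f) (c := c) hr1 h12 hf
  have hcont : Continuous fun r : ℝ =>
      ∫ t in (-Real.pi)..Real.pi, Fn f c (clamp r1 r2 r) t :=
    intervalIntegral.continuous_parametric_intervalIntegral_of_continuous'
      (f := fun r t => Fn f c (clamp r1 r2 r) t) (Fn_cont hr1 h12 hf) _ _
  have hpi : (2 * Real.pi * I : ℂ) ≠ 0 := by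
    simp [Real.pi_ne_zero]
  have hnC : Continuous fun r : ℝ => ((n r : ℝ) : ℂ) := by
    have : (fun r : ℝ => ((n r : ℝ) : ℂ)) = fun r : ℝ =>
        (∫ t in (-Real.pi)..Real.pi, Fn f c (clamp r1 r2 r) t) * (2 * Real.pi * I)⁻¹ := by
      funext r
      rw [hn r, mul_assoc, mul_inv_cancel₀ hpi, mul_one]
      simp
    rw [this]
    exact hcont.mul continuous_const
  have hnR : Continuous fun r : ℝ => (n r : ℝ) := by
    have := Complex.continuous_re.comp hnC
    simpa [Function.comp_def] using this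
  have hnZ : Continuous n := Int.isClosedEmbedding_coe_real.isEmbedding.continuous_iff.2 hnR
  refine ⟨n 0, fun r => ?_⟩
  rw [hn r, PreconnectedSpace.constant (α := ℝ) inferInstance hnZ (x := r) (y := 0)]

end

theorem norm_hasFDerivAt {x : ℂ} (hx : x ≠ 0) :
    HasFDerivAt (fun x : ℂ => ‖x‖) ((‖x‖)⁻¹ • innerSL ℝ x) x := by
  have h1 : DifferentiableAt ℝ (fun x : ℂ => ‖x‖) x := (contDiffAt_norm ℝ hx).differentiableAt
    (n := 1) (by norm_num)
  have h2 := h1.hasFDerivAt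
  have h3 := h2.pow 2
  have h4 := (hasStrictFDerivAt_norm_sq x).hasFDerivAt
  have h5 := h3.unique h4
  have hn : ‖x‖ ≠ 0 := norm_ne_zero_iff.2 hx
  have h6 : fderiv ℝ (fun x : ℂ => ‖x‖) x = (‖x‖)⁻¹ • innerSL ℝ x := by
    ext v
    have h7 := congrArg (fun L : ℂ →L[ℝ] ℝ => L v) h5
    simp at h7 ⊢
    field_simp
    linarith
  rw [← h6]
  exact h2

/-- derivative of a radial function -/
theorem fderiv_radial (c : ℂ) (eta : ℝ → ℝ) (heta : ContDiff ℝ 1 eta) {r t : ℝ} (hr : 0 < r)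
    (v : ℂ) : fderiv ℝ (fun w : ℂ => eta ‖w - c‖) (pt c r t) v =
      deriv eta r * (v.re * Real.cos t + v.im * Real.sin t) := by
  have hne : (r : ℂ) * exp (t * I) ≠ 0 := by
    simp [hr.ne', Complex.exp_ne_zero]
  have hs : HasFDerivAt (fun w : ℂ => w - c) (ContinuousLinearMap.id ℝ ℂ) (pt c r t) :=
    (hasFDerivAt_id _).sub_const c
  have hps : pt c r t - c = (r : ℂ) * exp (t * I) := by simp [pt]
  have hn := norm_hasFDerivAt hne
  rw [← hps] at hn
  have h1 := HasFDerivAt.comp (g := fun x : ℂ => ‖x‖) (pt c r t) hn hs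
  have hr' : ‖pt c r t - c‖ = r := pt_norm c hr.le t
  have h2 : HasDerivAt eta (deriv eta r) ‖pt c r t - c‖ := by
    rw [hr']
    exact (heta.differentiable (by norm_num)).differentiableAt.hasDerivAt
  have h3 := HasDerivAt.comp_hasFDerivAt (f := (fun x : ℂ => ‖x‖) ∘ fun w => w - c)
    (pt c r t) h2 h1
  have h4 : fderiv ℝ (fun w : ℂ => eta ‖w - c‖) (pt c r t) = _ := h3.fderiv
  rw [h4]
  have e1 : (pt c r t).re = c.re + r * Real.cos t := by
    simp [pt, Complex.exp_ofReal_mul_I_re, Complex.exp_ofReal_mul_I_im]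
  have e2 : (pt c r t).im = c.im + r * Real.sin t := by
    simp [pt, Complex.exp_ofReal_mul_I_re, Complex.exp_ofReal_mul_I_im]
  have e3 : (deriv eta r • (‖pt c r t - c‖⁻¹ • (innerSL ℝ) (pt c r t - c)) ∘SL
      ContinuousLinearMap.id ℝ ℂ) v = deriv eta r * (r⁻¹ * (v.re * (pt c r t - c).re +
        v.im * (pt c r t - c).im)) := by
    rw [← hr']
    simp [Complex.inner, hr']
    ring_nf
    simp
  rw [e3, Complex.sub_re, Complex.sub_im, e1, e2]
  field_simp
  ring

theorem wedge_eq (f : ℂ → ℂ) (c : ℂ) (eta : ℝ → ℝ) (heta : ContDiff ℝ 1 eta) {r t : ℝ}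
    (hr : 0 < r) :
    wedge (fderiv ℝ (fun w : ℂ => eta ‖w - c‖) (pt c r t))
      (imCLM.comp ((f (pt c r t))⁻¹ • fderiv ℝ f (pt c r t))) =
      deriv eta r * (r⁻¹ * (Fn f c r t).im) := by
  unfold wedge
  rw [fderiv_radial c eta heta hr, fderiv_radial c eta heta hr]
  have hv : (I * (r * exp (t * I)) : ℂ) =
      (-(r * Real.sin t) : ℝ) • (1 : ℂ) + (r * Real.cos t : ℝ) • I := by
    rw [Complex.exp_mul_I, ← Complex.ofReal_cos, ← Complex.ofReal_sin]
    apply Complex.ext <;> simp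
  have hF : Fn f c r t = (-(r * Real.sin t) : ℝ) • ((f (pt c r t))⁻¹ * fderiv ℝ f (pt c r t) 1) +
      (r * Real.cos t : ℝ) • ((f (pt c r t))⁻¹ * fderiv ℝ f (pt c r t) I) := by
    unfold Fn
    rw [hv, map_add, map_smul, map_smul, mul_add, mul_smul_comm, mul_smul_comm]
  rw [hF]
  simp only [ContinuousLinearMap.comp_apply, _root_.smul_apply, imCLM_apply,
    smul_eq_mul, Complex.add_im, Complex.smul_im, Complex.one_re, Complex.one_im, Complex.I_re,
    Complex.I_im]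
  field_simp
  ring

/-- shift an annulus integral to the origin and pass to polar coordinates -/
theorem annulus_polar (W : ℂ → ℝ) (c : ℂ) {r1 r2 : ℝ} (hr1 : 0 < r1) :
    ∫ z in {z | r1 < ‖z - c‖ ∧ ‖z - c‖ < r2}, W z =
      ∫ p in Ioo r1 r2 ×ˢ Ioo (-Real.pi) Real.pi, p.1 * W (pt c p.1 p.2) := by
  have hmeas : MeasurableSet {z : ℂ | r1 < ‖z - c‖ ∧ ‖z - c‖ < r2} :=
    (IsOpen.inter (isOpen_lt continuous_const (continuous_id.sub continuous_const).norm)
      (isOpen_lt (continuous_id.sub continuous_const).norm continuous_const)).measurableSet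
  have h1 : ∫ z in {z | r1 < ‖z - c‖ ∧ ‖z - c‖ < r2}, W z =
      ∫ u : ℂ, {u : ℂ | r1 < ‖u‖ ∧ ‖u‖ < r2}.indicator (fun u => W (u + c)) u := by
    rw [← integral_indicator hmeas]
    rw [← integral_sub_right_eq_self
      ({u : ℂ | r1 < ‖u‖ ∧ ‖u‖ < r2}.indicator (fun u => W (u + c))) c]
    congr 1
    funext z
    by_cases h : r1 < ‖z - c‖ ∧ ‖z - c‖ < r2
    · have h' : z ∈ {z : ℂ | r1 < ‖z - c‖ ∧ ‖z - c‖ < r2} := h
      have h'' : z - c ∈ {u : ℂ | r1 < ‖u‖ ∧ ‖u‖ < r2} := h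
      rw [indicator_of_mem h', indicator_of_mem h'']
      simp only [sub_add_cancel]
    · have h' : z ∉ {z : ℂ | r1 < ‖z - c‖ ∧ ‖z - c‖ < r2} := h
      have h'' : z - c ∉ {u : ℂ | r1 < ‖u‖ ∧ ‖u‖ < r2} := h
      rw [indicator_of_notMem h', indicator_of_notMem h'']
  have h2 : ∀ p ∈ polarCoord.target,
      p.1 • {u : ℂ | r1 < ‖u‖ ∧ ‖u‖ < r2}.indicator (fun u => W (u + c))
        (Complex.polarCoord.symm p) =
      (Ioo r1 r2 ×ˢ univ).indicator
        (fun p : ℝ × ℝ => p.1 * W (pt c p.1 p.2)) p := by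
    rintro ⟨r, t⟩ hp
    rw [polarCoord_target] at hp
    have hr : 0 < r := hp.1
    have hpc : Complex.polarCoord.symm (r, t) = r * exp (t * I) := by
      rw [Complex.polarCoord_symm_apply, Complex.exp_mul_I]
      simp
    have hnorm : ‖Complex.polarCoord.symm (r, t)‖ = r := by
      rw [Complex.norm_polarCoord_symm]
      exact abs_of_pos hr
    by_cases h : r1 < r ∧ r < r2
    · have h' : Complex.polarCoord.symm (r, t) ∈ {u : ℂ | r1 < ‖u‖ ∧ ‖u‖ < r2} := by
        rw [mem_ofPred_eq, hnorm]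
        exact h
      have h'' : ((r, t) : ℝ × ℝ) ∈ Ioo r1 r2 ×ˢ (univ : Set ℝ) := ⟨h, mem_univ _⟩
      have e1 : Complex.polarCoord.symm (r, t) + c = pt c r t := by
        rw [hpc, pt, add_comm]
      rw [indicator_of_mem h', indicator_of_mem h'', e1, smul_eq_mul]
    · have h' : Complex.polarCoord.symm (r, t) ∉ {u : ℂ | r1 < ‖u‖ ∧ ‖u‖ < r2} := by
        rw [mem_ofPred_eq, hnorm]
        exact h
      have h'' : ((r, t) : ℝ × ℝ) ∉ Ioo r1 r2 ×ˢ (univ : Set ℝ) := fun hh => h hh.1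
      rw [indicator_of_notMem h', indicator_of_notMem h'', smul_zero]
  rw [h1, ← Complex.integral_comp_polarCoord_symm,
    setIntegral_congr_fun polarCoord.open_target.measurableSet h2,
    setIntegral_indicator (measurableSet_Ioo.prod MeasurableSet.univ)]
  have hset : polarCoord.target ∩ Ioo r1 r2 ×ˢ univ = Ioo r1 r2 ×ˢ Ioo (-Real.pi) Real.pi := by
    rw [polarCoord_target]
    ext ⟨r, t⟩
    simp only [mem_inter_iff, mem_prod, mem_Ioi, mem_Ioo, mem_univ, and_true]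
    constructor
    · rintro ⟨⟨-, h⟩, h'⟩
      exact ⟨h', h⟩
    · rintro ⟨h', h⟩
      exact ⟨⟨hr1.trans h'.1, h⟩, h'⟩
  rw [hset]

section

variable {f : ℂ → ℂ} {c : ℂ} {r1 r2 : ℝ} (hr1 : 0 < r1) (h12 : r1 < r2)
  (hf : ∀ z, r1 ≤ ‖z - c‖ → ‖z - c‖ ≤ r2 → ContDiffAt ℝ 1 f z ∧ f z ≠ 0)

include hr1 h12 hf

theorem inner_int (N : ℤ)
    (hN : ∀ r : ℝ, ∫ t in (-Real.pi)..Real.pi, Fn f c (clamp r1 r2 r) t = N * (2 * Real.pi * I))
    (r a : ℝ) : ∫ t in Ioo (-Real.pi) Real.pi,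
      a * (Fn f c (clamp r1 r2 r) t).im = a * (2 * Real.pi * N) := by
  have hFc : Continuous fun t => Fn f c (clamp r1 r2 r) t := by
    have hq : Continuous fun t : ℝ => ((r, t) : ℝ × ℝ) := by fun_prop
    have h := (Fn_cont hr1 h12 hf).comp hq
    simp only [Function.comp_def] at h
    exact h
  rw [integral_const_mul]
  congr 1
  rw [← integral_Ioc_eq_integral_Ioo,
    ← intervalIntegral.integral_of_le (by linarith [Real.pi_pos])]
  have e1 : ∫ t in (-Real.pi)..Real.pi, (Fn f c (clamp r1 r2 r) t).im =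
      (∫ t in (-Real.pi)..Real.pi, Fn f c (clamp r1 r2 r) t).im := by
    have h := ContinuousLinearMap.intervalIntegral_comp_comm (a := -Real.pi) (b := Real.pi)
      (μ := volume) imCLM (hFc.intervalIntegrable (-Real.pi) Real.pi)
    simpa only [imCLM_apply] using h
  rw [e1, hN r]
  simp
  ring

theorem polar_int (eta : ℝ → ℝ) (heta : ContDiff ℝ 1 eta) (N : ℤ)
    (hN : ∀ r : ℝ, ∫ t in (-Real.pi)..Real.pi, Fn f c (clamp r1 r2 r) t = N * (2 * Real.pi * I)) :
    ∫ z in {z | r1 < ‖z - c‖ ∧ ‖z - c‖ < r2},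
        wedge (fderiv ℝ (fun w : ℂ => eta ‖w - c‖) z) (imCLM.comp ((f z)⁻¹ • fderiv ℝ f z)) =
      (2 * Real.pi * N) * (eta r2 - eta r1) := by
  rw [annulus_polar _ c hr1]
  have hcont : Continuous fun p : ℝ × ℝ => deriv eta p.1 * (Fn f c (clamp r1 r2 p.1) p.2).im :=
    ((heta.continuous_deriv (by norm_num)).comp continuous_fst).mul
      (Complex.continuous_im.comp (Fn_cont hr1 h12 hf))
  have hint : IntegrableOn (fun p : ℝ × ℝ => deriv eta p.1 * (Fn f c (clamp r1 r2 p.1) p.2).im)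
      (Ioo r1 r2 ×ˢ Ioo (-Real.pi) Real.pi) (volume.prod volume) := by
    refine IntegrableOn.mono_set (t := Icc r1 r2 ×ˢ Icc (-Real.pi) Real.pi) ?_
      (prod_mono Ioo_subset_Icc_self Ioo_subset_Icc_self)
    exact hcont.continuousOn.integrableOn_compact (isCompact_Icc.prod isCompact_Icc)
  have h2 : ∀ p ∈ Ioo r1 r2 ×ˢ Ioo (-Real.pi) Real.pi,
      p.1 * wedge (fderiv ℝ (fun w : ℂ => eta ‖w - c‖) (pt c p.1 p.2))
        (imCLM.comp ((f (pt c p.1 p.2))⁻¹ • fderiv ℝ f (pt c p.1 p.2))) =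
      deriv eta p.1 * (Fn f c (clamp r1 r2 p.1) p.2).im := by
    rintro ⟨r, t⟩ ⟨⟨ha, hb⟩, -⟩
    have hr : 0 < r := hr1.trans ha
    rw [wedge_eq f c eta heta hr, clamp_eq ha.le hb.le]
    have : r ≠ 0 := hr.ne'
    simp only
    field_simp
  rw [setIntegral_congr_fun (measurableSet_Ioo.prod measurableSet_Ioo) h2,
    Measure.volume_eq_prod, setIntegral_prod _ hint]
  simp only [inner_int hr1 h12 hf N hN]
  rw [integral_mul_const, ← integral_Ioc_eq_integral_Ioo,
    ← intervalIntegral.integral_of_le h12.le,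
    intervalIntegral.integral_deriv_eq_sub' _ rfl
      (fun x _ => (heta.differentiable (by norm_num)).differentiableAt)
      (heta.continuous_deriv (by norm_num)).continuousOn]
  ring

end

/-- Leaf L3. -/
theorem l3 : L3 := by
  intro f c r1 r2 hr1 h12 hf
  obtain ⟨N, hN⟩ := exists_N (f := f) (c := c) hr1 h12 hf
  refine ⟨N, ?_, ?_⟩
  · intro r hr
    have h := hN r
    rw [clamp_eq hr.1 hr.2] at h
    calc _ = ∫ t in (-Real.pi)..Real.pi, Fn f c r t := rfl
      _ = _ := by rw [h]; ring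
  · intro eta heta h1 h2
    rw [polar_int hr1 h12 hf eta heta N hN, h1 r1 le_rfl, h2 r2 le_rfl]
    ring

end Crest.Agent.R235.KGL3_847
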