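import Crest.Agent.R235.KG_460

/-!
Row 235, package REG-B, leaf L4 (helper355): circle averages of a `C¹` function of finite energy
whose radial flux is dominated by a Morrey function are bounded, hence it cannot tend to `+∞` at `0`.
-/

set_option autoImplicit false

namespace Crest.Agent.R235.KGL4_355

open Complex Metric Set MeasureTheory Filter Topology
open Crest.Agent.R235.KG_460

/-- polar coordinates -/
noncomputable def pm (q : ℝ × ℝ) : ℂ := q.1 * exp (q.2 * I)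

lemma pm_eq (q : ℝ × ℝ) : Complex.polarCoord.symm q = pm q := by
  rw [Complex.polarCoord_symm_apply]
  unfold pm
  rw [exp_mul_I]
  push_cast
  ring

lemma pm_cont : Continuous pm := by
  unfold pm
  fun_prop

lemma pm_meas : Measurable pm := pm_cont.measurable

lemma norm_pm {q : ℝ × ℝ} (hq : 0 < q.1) : ‖pm q‖ = q.1 := by
  unfold pm
  rw [norm_mul, norm_exp_ofReal_mul_I, mul_one]
  simp [abs_of_pos hq]

/-- the open strip -/
def St : Set (ℝ × ℝ) := Ioi (0 : ℝ) ×ˢ Ioo (-Real.pi) Real.pi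

lemma polar (f : ℂ → ENNReal) :
    ∫⁻ q in St, ENNReal.ofReal q.1 * f (pm q) = ∫⁻ z, f z := by
  rw [← Complex.lintegral_comp_polarCoord_symm f]
  have : St = polarCoord.target := rfl
  rw [this]
  refine lintegral_congr fun q => ?_
  rw [pm_eq, smul_eq_mul]

lemma meas_St : MeasurableSet St := measurableSet_Ioi.prod measurableSet_Ioo

/-- null sets pull back to null sets -/
lemma qmp : Measure.QuasiMeasurePreserving pm (volume.restrict St) volume := by
  refine ⟨pm_meas, Measure.AbsolutelyContinuous.mk fun s hs h0 => ?_⟩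
  rw [Measure.map_apply pm_meas hs]
  have h1 := polar (s.indicator fun _ => 1)
  rw [lintegral_indicator_const hs, h0, mul_zero] at h1
  have hm : Measurable fun q : ℝ × ℝ => ENNReal.ofReal q.1 * s.indicator (fun _ => 1) (pm q) := by
    refine (ENNReal.measurable_ofReal.comp measurable_fst).mul ?_
    exact ((measurable_const.indicator hs).comp pm_meas)
  rw [lintegral_eq_zero_iff hm] at h1
  have h2 : ∀ᵐ q ∂(volume.restrict St), pm q ∉ s := by
    filter_upwards [h1, ae_restrict_mem meas_St] with q hq hqS hs'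
    simp only [indicator_of_mem hs', mul_one, Pi.zero_apply, ENNReal.ofReal_eq_zero] at hq
    have : 0 < q.1 := hqS.1
    linarith
  have h3 := ae_iff.1 h2
  simp only [not_not] at h3
  exact h3

/-- rectangle -/
def Rc (r1 r2 : ℝ) : Set (ℝ × ℝ) := Ioo r1 r2 ×ˢ Ioo (-Real.pi) Real.pi

lemma meas_Rc (r1 r2 : ℝ) : MeasurableSet (Rc r1 r2) := measurableSet_Ioo.prod measurableSet_Ioo

lemma Rc_sub {r1 r2 : ℝ} (h : 0 ≤ r1) : Rc r1 r2 ⊆ St := by
  intro q hq
  exact ⟨lt_of_le_of_lt h hq.1.1, hq.2⟩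

lemma Rc_prod (r1 r2 : ℝ) : (volume : Measure (ℝ × ℝ)).restrict (Rc r1 r2) =
    (volume.restrict (Ioo r1 r2)).prod (volume.restrict (Ioo (-Real.pi) Real.pi)) := by
  rw [Measure.prod_restrict]
  rfl

lemma Rc_fin (r1 r2 : ℝ) : volume (Rc r1 r2) < ⊤ := by
  have : (volume : Measure (ℝ × ℝ)) (Rc r1 r2) =
      volume (Ioo r1 r2) * volume (Ioo (-Real.pi) Real.pi) := by
    exact Measure.prod_prod _ _
  rw [this, Real.volume_Ioo, Real.volume_Ioo]
  exact ENNReal.mul_lt_top ENNReal.ofReal_lt_top ENNReal.ofReal_lt_top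

/-- **change of variables bound** -/
lemma polar_bound {h : ℂ → ℝ} (h0 : ∀ z, 0 ≤ h z) {A : Set ℂ} (hA : MeasurableSet A)
    (hi : IntegrableOn h A) {r1 r2 : ℝ} (hr1 : 0 < r1)
    (hQ : ∀ᵐ q ∂(volume.restrict (Rc r1 r2)), pm q ∈ A) :
    IntegrableOn (fun q => h (pm q)) (Rc r1 r2) ∧
      ∫ q in Rc r1 r2, h (pm q) ≤ 1 / r1 * ∫ z in A, h z := by
  have hsub := Rc_sub (r2 := r2) hr1.le
  set h1 : ℂ → ℝ := A.indicator h with hh1
  have hi1 : Integrable h1 := (integrable_indicator_iff hA).2 hi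
  have hm : AEStronglyMeasurable (fun q => h1 (pm q)) (volume.restrict St) :=
    hi1.aestronglyMeasurable.comp_quasiMeasurePreserving qmp
  have hm' : AEStronglyMeasurable (fun q => h1 (pm q)) (volume.restrict (Rc r1 r2)) :=
    hm.mono_measure (Measure.restrict_mono hsub le_rfl)
  have heq : (fun q => h (pm q)) =ᵐ[volume.restrict (Rc r1 r2)] fun q => h1 (pm q) := by
    filter_upwards [hQ] with q hq
    rw [hh1, indicator_of_mem hq]
  have h10 : ∀ z, 0 ≤ h1 z := fun z => by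
    rw [hh1]; exact indicator_nonneg (fun z _ => h0 z) z
  -- lintegral bound
  have key : ENNReal.ofReal r1 * ∫⁻ q in Rc r1 r2, ENNReal.ofReal (h1 (pm q)) ≤
      ENNReal.ofReal (∫ z in A, h z) := by
    have e1 : ENNReal.ofReal (∫ z in A, h z) = ∫⁻ z, ENNReal.ofReal (h1 z) := by
      rw [← integral_indicator hA, ← ofReal_integral_eq_lintegral_ofReal hi1
        (Eventually.of_forall h10)]
    rw [e1, ← polar (fun z => ENNReal.ofReal (h1 z)), ← lintegral_const_mul' _ _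
      ENNReal.ofReal_ne_top]
    calc ∫⁻ q in Rc r1 r2, ENNReal.ofReal r1 * ENNReal.ofReal (h1 (pm q))
        ≤ ∫⁻ q in Rc r1 r2, ENNReal.ofReal q.1 * ENNReal.ofReal (h1 (pm q)) := by
          refine lintegral_mono_ae ?_
          filter_upwards [ae_restrict_mem (meas_Rc r1 r2)] with q hq
          gcongr
          exact hq.1.1.le
      _ ≤ _ := lintegral_mono_set hsub
  have hfin : ∫⁻ q in Rc r1 r2, ENNReal.ofReal (h1 (pm q)) < ⊤ := by
    by_contra hcon
    push Not at hcon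
    rw [top_le_iff] at hcon
    rw [hcon, ENNReal.mul_top (by simpa using hr1)] at key
    exact absurd (top_le_iff.1 key) ENNReal.ofReal_ne_top
  have hint : IntegrableOn (fun q => h1 (pm q)) (Rc r1 r2) := by
    refine ⟨hm', ?_⟩
    rw [hasFiniteIntegral_iff_ofReal (Eventually.of_forall fun q => h10 _)]
    exact hfin
  refine ⟨hint.congr heq.symm, ?_⟩
  rw [integral_congr_ae heq]
  have e2 : ∫ q in Rc r1 r2, h1 (pm q) =
      (∫⁻ q in Rc r1 r2, ENNReal.ofReal (h1 (pm q))).toReal := by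
    rw [integral_eq_lintegral_of_nonneg_ae (Eventually.of_forall fun q => h10 _) hm']
  have h3 := ENNReal.toReal_mono ENNReal.ofReal_ne_top key
  rw [ENNReal.toReal_mul, ENNReal.toReal_ofReal hr1.le, ENNReal.toReal_ofReal
    (setIntegral_nonneg hA fun z _ => h0 z), ← e2] at h3
  rw [one_div, inv_mul_eq_div, le_div_iff₀ hr1]
  linarith

/-! ### circle averages -/

/-- circle integral of `v` -/
noncomputable def Mv (v : ℂ → ℝ) (r : ℝ) : ℝ := ∫ φ in (-Real.pi)..Real.pi, v (r * exp (φ * I))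

lemma pi_le : -Real.pi ≤ Real.pi := by linarith [Real.pi_pos]

lemma intJ (f : ℝ → ℝ) : ∫ φ in (-Real.pi)..Real.pi, f φ = ∫ φ in Ioo (-Real.pi) Real.pi, f φ := by
  rw [intervalIntegral.integral_of_le pi_le, integral_Ioc_eq_integral_Ioo]

/-- the radial derivative -/
noncomputable def Fr (v : ℂ → ℝ) (q : ℝ × ℝ) : ℝ := fderiv ℝ v (pm q) (exp (q.2 * I))

lemma Fr_meas (v : ℂ → ℝ) : Measurable (Fr v) := by
  unfold Fr
  have h1 : Measurable fun q : ℝ × ℝ => fderiv ℝ v (pm q) := (measurable_fderiv ℝ v).comp pm_meas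
  have h2 : Measurable fun q : ℝ × ℝ => (exp (q.2 * I) : ℂ) := by
    apply Continuous.measurable
    fun_prop
  exact ContinuousLinearMap.measurable_apply₂.comp (h1.prodMk h2)

lemma Fr_le (v : ℂ → ℝ) (q : ℝ × ℝ) : |Fr v q| ≤ ‖fderiv ℝ v (pm q)‖ := by
  unfold Fr
  have h1 := (fderiv ℝ v (pm q)).le_opNorm (exp (q.2 * I))
  rw [norm_exp_ofReal_mul_I, mul_one] at h1
  exact h1

/-- **the difference of two circle averages** -/
lemma diff_bound {U : Set ℂ} {R : ℝ} {v g : ℂ → ℝ} (hU : IsOpen U) (hv : ContDiffOn ℝ 1 v U)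
    (hs : ∀ᵐ r : ℝ ∂(volume.restrict (Ioo 0 R)), sphere (0 : ℂ) r ⊆ U)
    (hray : ∀ᵐ φ : ℝ ∂(volume.restrict (Ioo (-Real.pi) Real.pi)), ∀ r ∈ Ioo 0 R,
      (r * exp (φ * I) : ℂ) ∈ U)
    (hen : IntegrableOn (fun z => ‖fderiv ℝ v z‖ ^ 2) (ball 0 R ∩ U))
    (hg0 : ∀ z, 0 ≤ g z) (hg2 : IntegrableOn (fun z => g z ^ 2) (ball 0 R ∩ U))
    (hfl : ∀ᵐ r : ℝ ∂(volume.restrict (Ioo 0 R)),
      |∫ φ in (-Real.pi)..Real.pi, fderiv ℝ v (r * exp (φ * I)) (exp (φ * I))| ≤
        ∫ φ in (-Real.pi)..Real.pi, g (r * exp (φ * I)))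
    {r1 r2 : ℝ} (h1 : 0 < r1) (h12 : r1 < r2) (h2 : r2 < R) (hs1 : sphere (0 : ℂ) r1 ⊆ U)
    (hs2 : sphere (0 : ℂ) r2 ⊆ U) {lm : ℝ} (hlm : 0 < lm) :
    |Mv v r2 - Mv v r1| ≤ 1 / 2 * (lm * (1 / r1 * ∫ z in ball 0 r2 ∩ U, g z ^ 2)
      + lm⁻¹ * ((r2 - r1) * (2 * Real.pi))) := by
  have hpi := Real.pi_pos
  -- (a)
  have hs' : ∀ᵐ r : ℝ ∂(volume.restrict (Ioo r1 r2)), sphere (0 : ℂ) r ⊆ U :=
    ae_restrict_of_ae_restrict_of_subset (Ioo_subset_Ioo h1.le h2.le) hs
  have hQU : ∀ᵐ q ∂((volume : Measure (ℝ × ℝ)).restrict (Rc r1 r2)), pm q ∈ U := by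
    have h3 : ∀ᵐ q ∂((volume : Measure (ℝ × ℝ)).restrict (Rc r1 r2)), sphere (0 : ℂ) q.1 ⊆ U := by
      rw [Rc_prod]
      exact Measure.quasiMeasurePreserving_fst.ae hs'
    filter_upwards [h3, ae_restrict_mem (meas_Rc r1 r2)] with q hq hqR
    apply hq
    have : 0 < q.1 := h1.trans hqR.1.1
    simp [norm_pm this]
  have hQb : ∀ q ∈ Rc r1 r2, pm q ∈ ball (0 : ℂ) r2 := fun q hq => by
    have : 0 < q.1 := h1.trans hq.1.1
    simp only [mem_ball, dist_zero_right, norm_pm this]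
    exact hq.1.2
  have hQ2 : ∀ᵐ q ∂((volume : Measure (ℝ × ℝ)).restrict (Rc r1 r2)), pm q ∈ ball (0 : ℂ) r2 ∩ U := by
    filter_upwards [hQU, ae_restrict_mem (meas_Rc r1 r2)] with q hq hqR
    exact ⟨hQb q hqR, hq⟩
  have hQR : ∀ᵐ q ∂((volume : Measure (ℝ × ℝ)).restrict (Rc r1 r2)), pm q ∈ ball (0 : ℂ) R ∩ U := by
    filter_upwards [hQ2] with q hq
    exact ⟨ball_subset_ball h2.le hq.1, hq.2⟩
  have hsub : ball (0 : ℂ) r2 ∩ U ⊆ ball 0 R ∩ U := inter_subset_inter_left _ (ball_subset_ball h2.le)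
  -- (b), (c)
  obtain ⟨ig2, bg2⟩ := polar_bound (h := fun z => g z ^ 2) (fun z => sq_nonneg _)
    (measurableSet_ball.inter hU.measurableSet) (hg2.mono_set hsub) h1 hQ2
  obtain ⟨id2, -⟩ := polar_bound (h := fun z => ‖fderiv ℝ v z‖ ^ 2) (fun z => sq_nonneg _)
    (measurableSet_ball.inter hU.measurableSet) hen h1 hQR
  have hfinQ : (volume : Measure (ℝ × ℝ)) (Rc r1 r2) < ⊤ := Rc_fin r1 r2
  have ic : ∀ c : ℝ, IntegrableOn (fun _ : ℝ × ℝ => c) (Rc r1 r2) := fun c =>
    integrableOn_const hfinQ.ne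
  -- (d)
  have iF : IntegrableOn (Fr v) (Rc r1 r2) := by
    refine Integrable.mono' ((ic 1).add id2) (Fr_meas v).aestronglyMeasurable ?_
    refine Eventually.of_forall fun q => ?_
    have h3 := Fr_le v q
    simp only [Pi.add_apply]
    rw [Real.norm_eq_abs]
    nlinarith [sq_nonneg (‖fderiv ℝ v (pm q)‖ - 1), norm_nonneg (fderiv ℝ v (pm q))]
  -- (e)
  have eg : ∀ q : ℝ × ℝ, g (pm q) = Real.sqrt (g (pm q) ^ 2) := fun q => (Real.sqrt_sq (hg0 _)).symm
  have ig : IntegrableOn (fun q => g (pm q)) (Rc r1 r2) := by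
    refine Integrable.mono' ((ic 1).add ig2) ?_ ?_
    · have h3 := Real.continuous_sqrt.comp_aestronglyMeasurable ig2.aestronglyMeasurable
      refine h3.congr (Eventually.of_forall fun q => ?_)
      exact (eg q).symm
    · refine Eventually.of_forall fun q => ?_
      simp only [Pi.add_apply]
      rw [Real.norm_eq_abs, abs_of_nonneg (hg0 _)]
      nlinarith [sq_nonneg (g (pm q) - 1), hg0 (pm q)]
  have iF' : Integrable (Fr v) ((volume.restrict (Ioo r1 r2)).prod
      (volume.restrict (Ioo (-Real.pi) Real.pi))) := by rw [← Rc_prod]; exact iF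
  have ig' : Integrable (fun q => g (pm q)) ((volume.restrict (Ioo r1 r2)).prod
      (volume.restrict (Ioo (-Real.pi) Real.pi))) := by rw [← Rc_prod]; exact ig
  -- (f)
  have hcont : ∀ r, 0 < r → sphere (0 : ℂ) r ⊆ U → Continuous fun φ : ℝ => v (r * exp (φ * I)) := by
    intro r hr hrU
    refine hv.continuousOn.comp_continuous (by fun_prop) fun φ => hrU ?_
    simp [abs_of_pos hr]
  have hr2 : 0 < r2 := h1.trans h12
  have hMv : Mv v r2 - Mv v r1 = ∫ φ in Ioo (-Real.pi) Real.pi, ∫ r in Ioo r1 r2, Fr v (r, φ) := by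
    unfold Mv
    rw [← intervalIntegral.integral_sub ((hcont r2 hr2 hs2).intervalIntegrable _ _)
      ((hcont r1 h1 hs1).intervalIntegrable _ _), intJ]
    refine integral_congr_ae ?_
    filter_upwards [hray] with φ hφ
    have hd : ∀ r ∈ uIcc r1 r2, HasDerivAt (fun r : ℝ => v (r * exp (φ * I))) (Fr v (r, φ)) r := by
      intro r hr
      rw [uIcc_of_le h12.le] at hr
      have hrU : (r * exp (φ * I) : ℂ) ∈ U := hφ r ⟨h1.trans_le hr.1, hr.2.trans_lt h2⟩
      have hvd : HasFDerivAt v (fderiv ℝ v (r * exp (φ * I))) (r * exp (φ * I)) :=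
        ((hv.differentiableOn one_ne_zero).differentiableAt (hU.mem_nhds hrU)).hasFDerivAt
      have hl : HasDerivAt (fun r : ℝ => (r * exp (φ * I) : ℂ)) (exp (φ * I)) r := by
        have := (Complex.ofRealCLM.hasDerivAt (x := r)).mul_const (exp (φ * I))
        simpa using this
      exact hvd.comp_hasDerivAt r hl
    have hc : ContinuousOn (fun r : ℝ => Fr v (r, φ)) (uIcc r1 r2) := by
      rw [uIcc_of_le h12.le]
      unfold Fr
      have hfd : ContinuousOn (fderiv ℝ v) U := hv.continuousOn_fderiv_of_isOpen hU le_rfl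
      have h3 : ContinuousOn (fun r : ℝ => fderiv ℝ v (pm (r, φ))) (Icc r1 r2) := by
        refine hfd.comp (Continuous.continuousOn (pm_cont.comp (by fun_prop))) fun r hr => ?_
        exact hφ r ⟨h1.trans_le hr.1, hr.2.trans_lt h2⟩
      have h3' : ContinuousOn (fun _ : ℝ => (exp (φ * I) : ℂ)) (Icc r1 r2) := continuousOn_const
      exact h3.clm_apply h3'
    have h4 := intervalIntegral.integral_eq_sub_of_hasDerivAt hd (hc.intervalIntegrable)
    rw [← h4, intervalIntegral.integral_of_le h12.le, integral_Ioc_eq_integral_Ioo]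
  -- (g)
  have hsw := integral_integral_swap (f := fun (r φ : ℝ) => Fr v (r, φ)) iF'
  rw [hMv, ← hsw]
  -- (h)
  have hfl' : ∀ᵐ r : ℝ ∂(volume.restrict (Ioo r1 r2)),
      ‖∫ φ in Ioo (-Real.pi) Real.pi, Fr v (r, φ)‖ ≤
        ∫ φ in Ioo (-Real.pi) Real.pi, g (pm (r, φ)) := by
    have := ae_restrict_of_ae_restrict_of_subset (Ioo_subset_Ioo h1.le h2.le) hfl
    filter_upwards [this] with r hr
    rw [intJ, intJ] at hr
    exact hr
  have hstep : |∫ r in Ioo r1 r2, ∫ φ in Ioo (-Real.pi) Real.pi, Fr v (r, φ)| ≤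
      ∫ q in Rc r1 r2, g (pm q) := by
    rw [← Real.norm_eq_abs]
    refine (norm_integral_le_integral_norm _).trans ?_
    rw [Rc_prod, integral_prod _ ig']
    exact integral_mono_ae iF'.integral_prod_left.norm ig'.integral_prod_left hfl'
  refine hstep.trans ?_
  -- (j)
  have hli : 0 < lm⁻¹ := inv_pos.2 hlm
  have h5 : ∫ q in Rc r1 r2, g (pm q) ≤
      ∫ q in Rc r1 r2, (1 / 2 * (lm * g (pm q) ^ 2 + lm⁻¹)) := by
    refine integral_mono ig (((ig2.const_mul lm).add (ic lm⁻¹)).const_mul (1 / 2)) fun q => ?_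
    have h6 : 0 ≤ lm⁻¹ * (lm * g (pm q) - 1) ^ 2 := by positivity
    have h7 : lm⁻¹ * (lm * g (pm q) - 1) ^ 2 = lm * g (pm q) ^ 2 + lm⁻¹ - 2 * g (pm q) := by
      field_simp
      ring
    simp only
    linarith
  refine h5.trans ?_
  have h8 : ∫ q in Rc r1 r2, (1 / 2 * (lm * g (pm q) ^ 2 + lm⁻¹)) =
      1 / 2 * (lm * (∫ q in Rc r1 r2, g (pm q) ^ 2) + lm⁻¹ * ((r2 - r1) * (2 * Real.pi))) := by
    rw [integral_const_mul, integral_add (ig2.const_mul lm) (ic lm⁻¹), integral_const_mul,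
      setIntegral_const]
    have hvol : (volume : Measure (ℝ × ℝ)).real (Rc r1 r2) = (r2 - r1) * (2 * Real.pi) := by
      have e : (volume : Measure (ℝ × ℝ)) (Rc r1 r2) =
          volume (Ioo r1 r2) * volume (Ioo (-Real.pi) Real.pi) := Measure.prod_prod _ _
      rw [Measure.real, e, Real.volume_Ioo, Real.volume_Ioo, ENNReal.toReal_mul,
        ENNReal.toReal_ofReal (by linarith), ENNReal.toReal_ofReal (by linarith)]
      ring
    rw [hvol, smul_eq_mul]
    ring
  rw [h8]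
  have h9 := mul_le_mul_of_nonneg_left bg2 hlm.le
  linarith

/-- a good radius in every interval -/
lemma exists_good {U : Set ℂ} {R : ℝ}
    (hs : ∀ᵐ r : ℝ ∂(volume.restrict (Ioo 0 R)), sphere (0 : ℂ) r ⊆ U) {a b : ℝ} (ha : 0 ≤ a)
    (hab : a < b) (hb : b ≤ R) : ∃ r ∈ Ioo a b, sphere (0 : ℂ) r ⊆ U := by
  by_contra hcon
  push Not at hcon
  have h1 : ∀ᵐ r : ℝ ∂(volume.restrict (Ioo a b)), sphere (0 : ℂ) r ⊆ U :=
    ae_restrict_of_ae_restrict_of_subset (Ioo_subset_Ioo ha hb) hs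
  have h2 : ∀ᵐ r : ℝ ∂(volume.restrict (Ioo a b)), False := by
    filter_upwards [h1, ae_restrict_mem measurableSet_Ioo] with r hr hr2
    exact hcon r hr2 hr
  rw [ae_iff] at h2
  simp only [not_false_eq_true] at h2
  have h3 : volume (Ioo a b) = 0 := by
    rw [← Measure.restrict_apply_univ]
    exact measure_mono_null (fun x _ => trivial) h2
  rw [Real.volume_Ioo] at h3
  simp only [ENNReal.ofReal_eq_zero] at h3
  linarith

/-- **L4** -/
theorem l4 : L4 := by
  intro U R C a v g hR ha hU hv hs hray hen hg0 hg2 hmor hfl hlim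
  have hpi := Real.pi_pos
  -- good radii
  set ρ : ℕ → ℝ := fun j => R / 2 * (1 / 2) ^ j with hρ
  have hρ0 : ∀ j, 0 < ρ j := fun j => by rw [hρ]; positivity
  have hρs : ∀ j, ρ (j + 1) = ρ j / 2 := fun j => by rw [hρ]; simp only; rw [pow_succ]; ring
  have hρR : ∀ j, ρ j ≤ R / 2 := fun j => by
    rw [hρ]
    have : ((1:ℝ) / 2) ^ j ≤ 1 := pow_le_one₀ (by norm_num) (by norm_num)
    simp only
    nlinarith
  have hex : ∀ j, ∃ r ∈ Ioo (ρ (j + 1)) (ρ j), sphere (0 : ℂ) r ⊆ U := fun j =>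
    exists_good hs (hρ0 _).le (by rw [hρs]; linarith [hρ0 j]) (by linarith [hρR j])
  choose rr hrr hrU using hex
  have hr0 : ∀ j, 0 < rr j := fun j => (hρ0 _).trans (hrr j).1
  have hrR : ∀ j, rr j < R := fun j => by linarith [(hrr j).2, hρR j]
  have hC : 0 ≤ C := by
    have h1 := hmor (rr 0) ⟨hr0 0, hrR 0⟩
    have h2 : 0 ≤ ∫ z in ball 0 (rr 0) ∩ U, g z ^ 2 :=
      setIntegral_nonneg (measurableSet_ball.inter hU.measurableSet) fun z _ => sq_nonneg _
    have h3 : 0 < rr 0 ^ (2 * a) := Real.rpow_pos_of_pos (hr0 0) _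
    by_contra hcon
    push Not at hcon
    nlinarith [mul_neg_of_neg_of_pos hcon h3]
  -- one step
  have hstep : ∀ j, Mv v (rr (j + 1)) ≤ Mv v (rr j) + (2 * C + Real.pi) * ρ j ^ a := by
    intro j
    have hlt : rr (j + 1) < rr j := (hrr (j + 1)).2.trans (hrr j).1
    have hρa : 0 < ρ j ^ (1 - a) := Real.rpow_pos_of_pos (hρ0 j) _
    have h1 := diff_bound hU hv hs hray hen hg0 hg2 hfl (hr0 (j + 1)) hlt (hrR j) (hrU (j + 1))
      (hrU j) hρa
    have h2 := hmor (rr j) ⟨hr0 j, hrR j⟩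
    have h3 : rr j ^ (2 * a) ≤ ρ j ^ (2 * a) :=
      Real.rpow_le_rpow (hr0 j).le (hrr j).2.le (by positivity)
    have h4 : ∫ z in ball 0 (rr j) ∩ U, g z ^ 2 ≤ C * ρ j ^ (2 * a) :=
      h2.trans (mul_le_mul_of_nonneg_left h3 hC)
    have h5 : ρ j / 4 ≤ rr (j + 1) := by
      have := (hrr (j + 1)).1
      rw [hρs, hρs] at this
      linarith
    have h6 : 1 / rr (j + 1) ≤ 4 / ρ j := by
      rw [div_le_div_iff₀ (hr0 _) (hρ0 j)]
      linarith
    have h40 : 0 ≤ C * ρ j ^ (2 * a) := mul_nonneg hC (Real.rpow_pos_of_pos (hρ0 j) _).le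
    have h7 : 1 / rr (j + 1) * ∫ z in ball 0 (rr j) ∩ U, g z ^ 2 ≤
        4 / ρ j * (C * ρ j ^ (2 * a)) := by
      have h8 : 0 ≤ 1 / rr (j + 1) := by have := hr0 (j + 1); positivity
      exact (mul_le_mul_of_nonneg_left h4 h8).trans (mul_le_mul_of_nonneg_right h6 h40)
    have h9 : ρ j ^ (1 - a) * (4 / ρ j * (C * ρ j ^ (2 * a))) = 4 * C * ρ j ^ a := by
      have e1 : ρ j ^ (1 - a) * ρ j ^ (2 * a) = ρ j * ρ j ^ a := by
        rw [← Real.rpow_add (hρ0 j)]
        nth_rw 2 [← Real.rpow_one (ρ j)]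
        rw [← Real.rpow_add (hρ0 j)]
        congr 1
        ring
      have hne := (hρ0 j).ne'
      calc ρ j ^ (1 - a) * (4 / ρ j * (C * ρ j ^ (2 * a)))
          = 4 * C / ρ j * (ρ j ^ (1 - a) * ρ j ^ (2 * a)) := by ring
        _ = 4 * C * ρ j ^ a := by rw [e1]; field_simp
    have h10 : (ρ j ^ (1 - a))⁻¹ * ((rr j - rr (j + 1)) * (2 * Real.pi)) ≤
        2 * Real.pi * ρ j ^ a := by
      have h11 : rr j - rr (j + 1) ≤ ρ j := by linarith [(hrr j).2, hr0 (j + 1)]
      have e2 : (ρ j ^ (1 - a))⁻¹ * ρ j = ρ j ^ a := by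
        rw [← Real.rpow_neg (hρ0 j).le]
        nth_rw 2 [← Real.rpow_one (ρ j)]
        rw [← Real.rpow_add (hρ0 j)]
        congr 1
        ring
      have h12 : 0 < (ρ j ^ (1 - a))⁻¹ := inv_pos.2 hρa
      calc (ρ j ^ (1 - a))⁻¹ * ((rr j - rr (j + 1)) * (2 * Real.pi))
          ≤ (ρ j ^ (1 - a))⁻¹ * (ρ j * (2 * Real.pi)) := by
            apply mul_le_mul_of_nonneg_left _ h12.le
            exact mul_le_mul_of_nonneg_right h11 (by positivity)
        _ = 2 * Real.pi * ((ρ j ^ (1 - a))⁻¹ * ρ j) := by ring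
        _ = _ := by rw [e2]
    have h13 := mul_le_mul_of_nonneg_left h7 hρa.le
    rw [h9] at h13
    have h14 := (abs_le.1 h1).1
    linarith
  -- geometric sum
  set θ : ℝ := (1 / 2) ^ a with hθ
  have hθ0 : 0 < θ := Real.rpow_pos_of_pos (by norm_num) _
  have hθ1 : θ < 1 := Real.rpow_lt_one (by norm_num) (by norm_num) ha
  set K : ℝ := (2 * C + Real.pi) * (R / 2) ^ a with hK
  have hK0 : 0 < K := by positivity
  have hρθ : ∀ j, (2 * C + Real.pi) * ρ j ^ a = K * θ ^ j := by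
    intro j
    have e3 : ρ j ^ a = (R / 2) ^ a * θ ^ j := by
      rw [hρ]
      simp only
      rw [Real.mul_rpow (by positivity) (by positivity), hθ, ← Real.rpow_natCast,
        ← Real.rpow_natCast, ← Real.rpow_mul (by norm_num), ← Real.rpow_mul (by norm_num)]
      congr 2
      ring
    rw [e3, hK]; ring
  have hsum : ∀ j, Mv v (rr j) ≤ Mv v (rr 0) + K * (1 - θ ^ j) / (1 - θ) := by
    intro j
    induction j with
    | zero => simp
    | succ j ih =>
      have h1 := hstep j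
      rw [hρθ] at h1
      have h2 : 0 < 1 - θ := by linarith
      have e4 : K * (1 - θ ^ (j + 1)) / (1 - θ) = K * (1 - θ ^ j) / (1 - θ) + K * θ ^ j := by
        field_simp
        ring
      rw [e4]
      linarith
  have hbd : ∀ j, Mv v (rr j) ≤ Mv v (rr 0) + K / (1 - θ) := by
    intro j
    refine (hsum j).trans ?_
    have h2 : 0 < 1 - θ := by linarith
    have h3 : K * (1 - θ ^ j) / (1 - θ) ≤ K / (1 - θ) := by
      apply div_le_div_of_nonneg_right _ h2.le
      have := pow_pos hθ0 j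
      nlinarith
    linarith
  -- contradiction
  set B : ℝ := Mv v (rr 0) + K / (1 - θ) with hB
  have hB' : ∀ᶠ z in 𝓝[U] (0 : ℂ), (B + 1) / (2 * Real.pi) ≤ v z := hlim.eventually_ge_atTop _
  rw [eventually_nhdsWithin_iff, Metric.eventually_nhds_iff] at hB'
  obtain ⟨ε, hε, hball⟩ := hB'
  have hρlim : Tendsto ρ atTop (𝓝 0) := by
    rw [hρ]
    have := (tendsto_pow_atTop_nhds_zero_of_lt_one (r := (1/2 : ℝ)) (by norm_num)
      (by norm_num)).const_mul (R / 2)
    simpa using this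
  obtain ⟨j, hj⟩ := (hρlim.eventually (gt_mem_nhds hε)).exists
  have hrj : rr j < ε := (hrr j).2.trans hj
  have hcont : Continuous fun φ : ℝ => v (rr j * exp (φ * I)) := by
    refine hv.continuousOn.comp_continuous (by fun_prop) fun φ => hrU j ?_
    simp [abs_of_pos (hr0 j)]
  have hlow : B + 1 ≤ Mv v (rr j) := by
    have h1 : ∀ φ : ℝ, (B + 1) / (2 * Real.pi) ≤ v (rr j * exp (φ * I)) := by
      intro φ
      apply hball
      · simp [abs_of_pos (hr0 j), hrj]
      · apply hrU j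
        simp [abs_of_pos (hr0 j)]
    have h2 : ∫ φ in (-Real.pi)..Real.pi, (B + 1) / (2 * Real.pi) ≤ Mv v (rr j) := by
      unfold Mv
      apply intervalIntegral.integral_mono_on pi_le (by simp) (hcont.intervalIntegrable _ _)
      intro φ _
      exact h1 φ
    rw [intervalIntegral.integral_const, smul_eq_mul] at h2
    have e5 : (Real.pi - -Real.pi) * ((B + 1) / (2 * Real.pi)) = B + 1 := by field_simp; ring
    linarith
  linarith [hbd j]

end Crest.Agent.R235.KGL4_355
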