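import Mathlib

/-!
Row 235, REG-LOC (helper847): trace inequality in the plane.

`F` with upper gradient `g` (along almost every ray from every point), `g = 0` outside a disc, `μ` a measure
with `μ (B(x,r)) ≤ C0 r^{2b}`: then `∫ |F|^q dμ ≤ C (∫ g²)^{q/2}` for every `q > 2`.
-/

set_option autoImplicit false

namespace Crest.Agent.R235.Trace_847

open MeasureTheory Set Filter Topology Metric
open scoped ENNReal Real

noncomputable section

/-- unit vector -/
def dir (θ : ℝ) : ℂ := Real.cos θ + Real.sin θ * Complex.I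

/-- the kernel `|y - x|⁻¹` -/
def ker (x y : ℂ) : ℝ≥0∞ := (ENNReal.ofReal ‖y - x‖)⁻¹

lemma norm_dir (θ : ℝ) : ‖dir θ‖ = 1 := by
  have h : dir θ = Complex.exp (θ * Complex.I) := by
    rw [Complex.exp_mul_I, dir, Complex.ofReal_cos, Complex.ofReal_sin]
  rw [h, Complex.norm_exp_ofReal_mul_I]

lemma continuous_dir : Continuous dir := by
  unfold dir
  fun_prop

lemma measurable_ker : Measurable fun p : ℂ × ℂ => ker p.1 p.2 := by
  unfold ker
  exact ((measurable_snd.sub measurable_fst).norm.ennreal_ofReal).inv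

lemma ker_comm (x y : ℂ) : ker x y = ker y x := by
  unfold ker
  rw [norm_sub_rev]

/-- **average over the rays from `x`** -/
theorem ray_avg {g : ℂ → ℝ≥0∞} (hg : Measurable g) {x : ℂ} {a : ℝ≥0∞}
    (h : ∀ᵐ θ ∂(volume.restrict (Ioo (-π) π)), a ≤ ∫⁻ r in Ioi (0:ℝ), g (x + r * dir θ)) :
    ENNReal.ofReal (2 * π) * a ≤ ∫⁻ y, g y * ker x y := by
  have hm : Measurable fun p : ℝ × ℝ => g (x + p.1 * dir p.2) := by
    refine hg.comp ?_
    have h1 : Measurable fun p : ℝ × ℝ => (p.1 : ℂ) := Complex.measurable_ofReal.comp measurable_fst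
    exact (measurable_const.add (h1.mul (continuous_dir.measurable.comp measurable_snd)))
  have e1 : ∫⁻ y, g y * ker x y = ∫⁻ y, g (x + y) * (ENNReal.ofReal ‖y‖)⁻¹ := by
    rw [← lintegral_add_left_eq_self (fun y => g y * ker x y) x]
    refine lintegral_congr fun y => ?_
    unfold ker
    rw [add_sub_cancel_left]
  have e2 : ∫⁻ y, g (x + y) * (ENNReal.ofReal ‖y‖)⁻¹ =
      ∫⁻ p in polarCoord.target, g (x + p.1 * dir p.2) := by
    rw [← Complex.lintegral_comp_polarCoord_symm]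
    refine setLIntegral_congr_fun polarCoord.open_target.measurableSet fun p hp => ?_
    have hp0 : 0 < p.1 := by
      rw [polarCoord_target] at hp
      exact hp.1
    have h1 : Complex.polarCoord.symm p = p.1 * dir p.2 := by
      rw [Complex.polarCoord_symm_apply]
      unfold dir
      push_cast
      ring
    have h2 : ‖(p.1 : ℂ) * dir p.2‖ = p.1 := by
      rw [norm_mul, norm_dir, mul_one, Complex.norm_real, Real.norm_eq_abs, abs_of_pos hp0]
    simp only [smul_eq_mul]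
    rw [h1, h2, mul_comm (g _), ← mul_assoc, ENNReal.mul_inv_cancel, one_mul]
    · simpa using hp0
    · exact ENNReal.ofReal_ne_top
  rw [e1, e2, polarCoord_target, Measure.volume_eq_prod, ← Measure.prod_restrict,
    lintegral_prod_symm _ hm.aemeasurable]
  calc ENNReal.ofReal (2 * π) * a = ∫⁻ _ in Ioo (-π) π, a := by
        rw [lintegral_const, Measure.restrict_apply_univ, Real.volume_Ioo, mul_comm]
        congr 2
        ring
    _ ≤ ∫⁻ θ in Ioo (-π) π, ∫⁻ r in Ioi (0:ℝ), g (x + r * dir θ) := lintegral_mono_ae h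

/-- the local integral of `|y|^{-t}`, `t < 2`, is finite -/
theorem ker_int {t : ℝ} (ht : t < 2) (R : ℝ) :
    ∃ A : ℝ≥0∞, A ≠ ∞ ∧ ∀ x : ℂ, ∫⁻ y in closedBall x R, ker x y ^ t ≤ A := by
  refine ⟨∫⁻ y in closedBall (0:ℂ) R, (ENNReal.ofReal ‖y‖)⁻¹ ^ t, ?_, fun x => ?_⟩
  · -- polar coordinates
    have hms : MeasurableSet (closedBall (0:ℂ) R) := isClosed_closedBall.measurableSet
    rw [← lintegral_indicator hms, ← Complex.lintegral_comp_polarCoord_symm]
    have hle : ∫⁻ p in polarCoord.target, ENNReal.ofReal p.1 •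
        (closedBall (0:ℂ) R).indicator (fun y => (ENNReal.ofReal ‖y‖)⁻¹ ^ t)
          (Complex.polarCoord.symm p) ≤
        ∫⁻ p in Ioc (0:ℝ) R ×ˢ Ioo (-π) π, ENNReal.ofReal (p.1 ^ (1 - t)) := by
      rw [polarCoord_target, ← lintegral_indicator (measurableSet_Ioi.prod measurableSet_Ioo),
        ← lintegral_indicator (measurableSet_Ioc.prod measurableSet_Ioo)]
      refine lintegral_mono fun p => ?_
      simp only [indicator]
      by_cases h1 : p ∈ Ioi (0:ℝ) ×ˢ Ioo (-π) π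
      · rw [if_pos h1]
        have hp0 : 0 < p.1 := h1.1
        have hn : ‖Complex.polarCoord.symm p‖ = p.1 := by
          rw [Complex.norm_polarCoord_symm, abs_of_pos hp0]
        by_cases h2 : Complex.polarCoord.symm p ∈ closedBall (0:ℂ) R
        · rw [if_pos h2]
          have hR : p.1 ≤ R := by
            rw [mem_closedBall_zero_iff, hn] at h2
            exact h2
          rw [if_pos ⟨⟨hp0, hR⟩, h1.2⟩, hn, smul_eq_mul]
          rw [← ENNReal.ofReal_inv_of_pos hp0, ENNReal.ofReal_rpow_of_pos (inv_pos.2 hp0),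
            ← ENNReal.ofReal_mul hp0.le]
          refine (ENNReal.ofReal_le_ofReal ?_)
          rw [Real.inv_rpow hp0.le, ← Real.rpow_neg hp0.le, Real.rpow_sub hp0, Real.rpow_one,
            Real.rpow_neg hp0.le, div_eq_mul_inv]
        · rw [if_neg h2]; simp
      · rw [if_neg h1]; simp
    refine ne_top_of_le_ne_top ?_ hle
    rw [Measure.volume_eq_prod, ← Measure.prod_restrict, lintegral_prod _ (by fun_prop)]
    simp only [lintegral_const, Measure.restrict_apply_univ, Real.volume_Ioo]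
    rw [lintegral_mul_const _ (by fun_prop)]
    refine ENNReal.mul_ne_top ?_ ENNReal.ofReal_ne_top
    have hint : IntegrableOn (fun r : ℝ => r ^ (1 - t)) (Ioc 0 R) := by
      rcases le_or_gt R 0 with hR | hR
      · rw [Ioc_eq_empty (by simpa using hR)]; exact integrableOn_empty
      · have h1 : IntervalIntegrable (fun r : ℝ => r ^ (1 - t)) volume 0 R :=
          intervalIntegral.intervalIntegrable_rpow' (by linarith)
        rwa [intervalIntegrable_iff_integrableOn_Ioc_of_le hR.le] at h1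
    have h2 := hint.lintegral_lt_top
    exact h2.ne
  · -- translation
    have hms : MeasurableSet (closedBall x R) := isClosed_closedBall.measurableSet
    have hms' : MeasurableSet (closedBall (0:ℂ) R) := isClosed_closedBall.measurableSet
    rw [← lintegral_indicator hms, ← lintegral_indicator hms',
      ← lintegral_add_left_eq_self ((closedBall x R).indicator fun y => ker x y ^ t) x]
    refine (lintegral_congr fun y => ?_).le
    simp only [indicator]
    have h1 : x + y ∈ closedBall x R ↔ y ∈ closedBall (0:ℂ) R := by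
      simp [mem_closedBall, dist_eq_norm]
    by_cases h2 : y ∈ closedBall (0:ℂ) R
    · rw [if_pos (h1.2 h2), if_pos h2]
      unfold ker
      rw [add_sub_cancel_left]
    · rw [if_neg (fun h => h2 (h1.1 h)), if_neg h2]

/-- the potential of `μ` with kernel `|y|^{-s}`, `s < 2b`, is bounded (version at one point) -/
theorem ker_mu_pt {b C0 s R : ℝ} (hs : 0 ≤ s) (hsb : s < 2 * b) (hC0 : 0 ≤ C0) (hR : 0 < R) :
    ∃ B : ℝ≥0∞, B ≠ ∞ ∧ ∀ (μ : Measure ℂ) (y : ℂ),
      (∀ r, 0 < r → r ≤ R → μ (closedBall y r) ≤ ENNReal.ofReal (C0 * r ^ (2 * b))) →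
      ∫⁻ x in closedBall y R, ker x y ^ s ∂μ ≤ B := by
  set c : ℕ → ℝ := fun j => (R / 2 ^ (j + 1)) ^ (-s) with hc
  set ρ : ℝ := (2 : ℝ) ^ (-(2 * b - s)) with hρ
  have hρ0 : 0 < ρ := Real.rpow_pos_of_pos two_pos _
  have hρ1 : ρ < 1 := Real.rpow_lt_one_of_one_lt_of_neg one_lt_two (by linarith)
  have hterm : ∀ j : ℕ, c j * (C0 * (R / 2 ^ j) ^ (2 * b)) =
      (C0 * R ^ (2 * b - s) * 2 ^ s) * ρ ^ j := by
    intro j
    have h2 : (0:ℝ) < 2 ^ j := by positivity
    have e1 : (R / 2 ^ (j + 1)) ^ (-s) = R ^ (-s) * (2 : ℝ) ^ (s * (j + 1)) := by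
      rw [Real.div_rpow hR.le (by positivity), ← Real.rpow_natCast 2 (j + 1),
        ← Real.rpow_mul two_pos.le, div_eq_mul_inv, ← Real.rpow_neg two_pos.le]
      congr 2
      push_cast
      ring
    have e2 : (R / 2 ^ j) ^ (2 * b) = R ^ (2 * b) * (2 : ℝ) ^ (-(2 * b) * j) := by
      rw [Real.div_rpow hR.le h2.le, ← Real.rpow_natCast 2 j, ← Real.rpow_mul two_pos.le,
        div_eq_mul_inv, ← Real.rpow_neg two_pos.le]
      congr 2
      ring
    have e3 : ρ ^ j = (2 : ℝ) ^ (-(2 * b - s) * j) := by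
      rw [hρ, ← Real.rpow_natCast, ← Real.rpow_mul two_pos.le]
    have e4 : R ^ (2 * b - s) = R ^ (2 * b) * R ^ (-s) := by
      rw [← Real.rpow_add hR]; congr 1
    have e5 : (2 : ℝ) ^ (s * (j + 1)) * (2 : ℝ) ^ (-(2 * b) * j) =
        (2 : ℝ) ^ s * (2 : ℝ) ^ (-(2 * b - s) * j) := by
      rw [← Real.rpow_add two_pos, ← Real.rpow_add two_pos]
      congr 1
      ring
    rw [hc]
    simp only
    rw [e1, e2, e3, e4]
    calc R ^ (-s) * (2 : ℝ) ^ (s * (j + 1)) * (C0 * (R ^ (2 * b) * (2 : ℝ) ^ (-(2 * b) * j)))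
        = C0 * (R ^ (2 * b) * R ^ (-s)) * ((2 : ℝ) ^ (s * (j + 1)) * (2 : ℝ) ^ (-(2 * b) * j)) := by
          ring
      _ = _ := by rw [e5]; ring
  have hsum : Summable fun j : ℕ => c j * (C0 * (R / 2 ^ j) ^ (2 * b)) := by
    simp_rw [hterm]
    exact (summable_geometric_of_lt_one hρ0.le hρ1).mul_left _
  have hcpos : ∀ j, 0 < c j := fun j => Real.rpow_pos_of_pos (by positivity) _
  refine ⟨∑' j : ℕ, ENNReal.ofReal (c j * (C0 * (R / 2 ^ j) ^ (2 * b))), ?_, ?_⟩
  · rw [← ENNReal.ofReal_tsum_of_nonneg (fun j => ?_) hsum]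
    · exact ENNReal.ofReal_ne_top
    · exact mul_nonneg (hcpos j).le (by positivity)
  · intro μ y hμ
    have hle : ∀ x ∈ closedBall y R, ker x y ^ s ≤
        ∑' j : ℕ, (closedBall y (R / 2 ^ j)).indicator (fun _ => ENNReal.ofReal (c j)) x := by
      intro x hx
      rcases eq_or_ne x y with rfl | hxy
      · have h1 : ∑' j : ℕ, (closedBall x (R / 2 ^ j)).indicator
            (fun _ => ENNReal.ofReal (c j)) x = ∞ := by
          have h2 : ∀ j : ℕ, ENNReal.ofReal (c 0) ≤ (closedBall x (R / 2 ^ j)).indicator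
              (fun _ => ENNReal.ofReal (c j)) x := by
            intro j
            rw [indicator_of_mem (mem_closedBall_self (by positivity))]
            refine ENNReal.ofReal_le_ofReal ?_
            rw [hc]
            simp only
            refine Real.rpow_le_rpow_of_nonpos (by positivity) ?_ (by linarith)
            refine div_le_div_of_nonneg_left hR.le (by positivity) ?_
            exact pow_le_pow_right₀ one_le_two (by omega)
          refine top_unique ?_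
          have h3 : ∑' _ : ℕ, ENNReal.ofReal (c 0) = ∞ :=
            ENNReal.tsum_const_eq_top_of_ne_zero (by simpa using hcpos 0)
          rw [← h3]
          exact ENNReal.tsum_le_tsum h2
        rw [h1]
        exact le_top
      · have hd : 0 < ‖y - x‖ := norm_pos_iff.2 (sub_ne_zero.2 hxy.symm)
        have hdR : ‖y - x‖ ≤ R := by
          rw [mem_closedBall, dist_comm, dist_eq_norm] at hx
          exact hx
        -- dyadic scale
        obtain ⟨j, hj1, hj2⟩ : ∃ j : ℕ, R / 2 ^ (j + 1) < ‖y - x‖ ∧ ‖y - x‖ ≤ R / 2 ^ j := by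
          have h1 : ∃ j : ℕ, R / 2 ^ (j + 1) < ‖y - x‖ := by
            obtain ⟨j, hj⟩ := pow_unbounded_of_one_lt (R / ‖y - x‖) one_lt_two
            refine ⟨j, ?_⟩
            rw [div_lt_iff₀ (by positivity)]
            rw [div_lt_iff₀ hd] at hj
            have : (2:ℝ) ^ j ≤ 2 ^ (j + 1) := pow_le_pow_right₀ one_le_two (by omega)
            nlinarith
          classical
          refine ⟨Nat.find h1, Nat.find_spec h1, ?_⟩
          rcases Nat.eq_zero_or_pos (Nat.find h1) with h0 | h0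
          · rw [h0]; simpa using hdR
          · have := Nat.find_min h1 (m := Nat.find h1 - 1) (by omega)
            rw [not_lt] at this
            rwa [Nat.sub_add_cancel h0] at this
        have hmem : x ∈ closedBall y (R / 2 ^ j) := by
          rw [mem_closedBall, dist_comm, dist_eq_norm]; exact hj2
        refine le_trans ?_ (ENNReal.le_tsum j)
        rw [indicator_of_mem hmem]
        unfold ker
        rw [← ENNReal.ofReal_inv_of_pos hd, ENNReal.ofReal_rpow_of_pos (inv_pos.2 hd)]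
        refine ENNReal.ofReal_le_ofReal ?_
        rw [Real.inv_rpow hd.le, ← Real.rpow_neg hd.le]
        exact Real.rpow_le_rpow_of_nonpos (by positivity) hj1.le (by linarith)
    have hms : ∀ r, MeasurableSet (closedBall y r) := fun r => isClosed_closedBall.measurableSet
    calc ∫⁻ x in closedBall y R, ker x y ^ s ∂μ
        ≤ ∫⁻ x in closedBall y R, ∑' j : ℕ, (closedBall y (R / 2 ^ j)).indicator
            (fun _ => ENNReal.ofReal (c j)) x ∂μ := setLIntegral_mono' (hms R) hle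
      _ ≤ ∫⁻ x, ∑' j : ℕ, (closedBall y (R / 2 ^ j)).indicator
            (fun _ => ENNReal.ofReal (c j)) x ∂μ := setLIntegral_le_lintegral _ _
      _ = ∑' j : ℕ, ∫⁻ x, (closedBall y (R / 2 ^ j)).indicator
            (fun _ => ENNReal.ofReal (c j)) x ∂μ :=
          lintegral_tsum fun j => (measurable_const.indicator (hms _)).aemeasurable
      _ ≤ ∑' j : ℕ, ENNReal.ofReal (c j * (C0 * (R / 2 ^ j) ^ (2 * b))) := by
          refine ENNReal.tsum_le_tsum fun j => ?_
          rw [lintegral_indicator (hms _), lintegral_const, Measure.restrict_apply_univ,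
            ENNReal.ofReal_mul (hcpos j).le]
          refine mul_le_mul_right (hμ _ (by positivity) ?_) _
          exact div_le_self hR.le (one_le_pow₀ one_le_two)

/-- the potential of `μ` with kernel `|y|^{-s}`, `s < 2b`, is bounded -/
theorem ker_mu {b C0 s R : ℝ} (hs : 0 ≤ s) (hsb : s < 2 * b) (hC0 : 0 ≤ C0) (hR : 0 < R) :
    ∃ B : ℝ≥0∞, B ≠ ∞ ∧ ∀ μ : Measure ℂ,
      (∀ x r, 0 < r → r ≤ R → μ (closedBall x r) ≤ ENNReal.ofReal (C0 * r ^ (2 * b))) →
      ∀ y : ℂ, ∫⁻ x in closedBall y R, ker x y ^ s ∂μ ≤ B := by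
  obtain ⟨B, hB, h⟩ := ker_mu_pt hs hsb hC0 hR
  exact ⟨B, hB, fun μ hμ y => h μ y (hμ y)⟩

/-- Hölder with three factors -/
theorem holder3 {α : Type*} [MeasurableSpace α] (μ : Measure α) {f1 f2 f3 : α → ℝ≥0∞}
    (h1 : AEMeasurable f1 μ) (h2 : AEMeasurable f2 μ) (h3 : AEMeasurable f3 μ) {a b c : ℝ}
    (ha : 0 ≤ a) (hb : 0 ≤ b) (hc : 0 ≤ c) (h : a + b + c = 1) :
    ∫⁻ y, f1 y ^ a * f2 y ^ b * f3 y ^ c ∂μ ≤
      (∫⁻ y, f1 y ∂μ) ^ a * (∫⁻ y, f2 y ∂μ) ^ b * (∫⁻ y, f3 y ∂μ) ^ c := by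
  have h5 := ENNReal.lintegral_prod_norm_pow_le (μ := μ) (Finset.univ : Finset (Fin 3))
    (f := ![f1, f2, f3]) (p := ![a, b, c])
    (by intro i _; fin_cases i <;> assumption)
    (by simpa [Fin.sum_univ_three] using h)
    (by intro i _; fin_cases i <;> assumption)
  simpa [Fin.prod_univ_three] using h5

lemma sub_ball {x y : ℂ} {R : ℝ} (hx : x ∈ closedBall (0:ℂ) R) (hy : y ∈ closedBall (0:ℂ) R) :
    y ∈ closedBall x (2 * R) := by
  rw [mem_closedBall, dist_eq_norm]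
  rw [mem_closedBall_zero_iff] at hx hy
  calc ‖y - x‖ ≤ ‖y‖ + ‖x‖ := norm_sub_le _ _
    _ ≤ 2 * R := by linarith

lemma measurable_ker_left (x : ℂ) : Measurable fun y => ker x y := by
  unfold ker
  exact ((measurable_id.sub_const x).norm.ennreal_ofReal).inv

lemma measurable_ker_right (y : ℂ) : Measurable fun x => ker x y := by
  unfold ker
  exact ((measurable_id.const_sub y).norm.ennreal_ofReal).inv

/-- Hölder on the ball -/
theorem holder_ball {g : ℂ → ℝ≥0∞} (hg : Measurable g) {q s t : ℝ} (hq : 2 < q) (hs : 0 ≤ s)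
    (ht : 0 ≤ t) (hst : s * (1 / q) + t * (1 / 2) = 1) (x : ℂ) (R : ℝ) :
    ∫⁻ y in closedBall x R, g y * ker x y ≤
      (∫⁻ y, g y ^ (2:ℝ) * ker x y ^ s) ^ (1 / q) * (∫⁻ y, g y ^ (2:ℝ)) ^ (1 / 2 - 1 / q) *
        (∫⁻ y in closedBall x R, ker x y ^ t) ^ (1 / 2 : ℝ) := by
  have hq0 : 0 < q := by linarith
  have hq2 : 0 < 1 / 2 - 1 / q := by
    have : 1 / q < 1 / 2 := one_div_lt_one_div_of_lt two_pos hq
    linarith
  have hmk := measurable_ker_left x
  have h5 := holder3 (volume.restrict (closedBall x R))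
    (f1 := fun y => g y ^ (2:ℝ) * ker x y ^ s) (f2 := fun y => g y ^ (2:ℝ))
    (f3 := fun y => ker x y ^ t) ((hg.pow_const _).mul (hmk.pow_const _)).aemeasurable
    (hg.pow_const _).aemeasurable (hmk.pow_const _).aemeasurable
    (a := 1 / q) (b := 1 / 2 - 1 / q) (c := 1 / 2) (by positivity) hq2.le (by norm_num)
    (by ring)
  have h6 : (∫⁻ y in closedBall x R, g y ^ (2:ℝ) * ker x y ^ s) ^ (1 / q) *
      (∫⁻ y in closedBall x R, g y ^ (2:ℝ)) ^ (1 / 2 - 1 / q) *
        (∫⁻ y in closedBall x R, ker x y ^ t) ^ (1 / 2 : ℝ) ≤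
      (∫⁻ y, g y ^ (2:ℝ) * ker x y ^ s) ^ (1 / q) * (∫⁻ y, g y ^ (2:ℝ)) ^ (1 / 2 - 1 / q) *
        (∫⁻ y in closedBall x R, ker x y ^ t) ^ (1 / 2 : ℝ) := by
    refine mul_le_mul_left (mul_le_mul' (ENNReal.rpow_le_rpow (setLIntegral_le_lintegral _ _)
      (by positivity)) ?_) _
    exact ENNReal.rpow_le_rpow (setLIntegral_le_lintegral _ _) hq2.le
  refine le_trans (lintegral_mono fun y => ?_) (h5.trans h6)
  have e1 : (g y ^ (2:ℝ) * ker x y ^ s) ^ (1 / q) =
      g y ^ (2 * (1 / q)) * ker x y ^ (s * (1 / q)) := by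
    rw [ENNReal.mul_rpow_of_nonneg _ _ (by positivity), ← ENNReal.rpow_mul, ← ENNReal.rpow_mul]
  have e2 : (g y ^ (2:ℝ)) ^ (1 / 2 - 1 / q) = g y ^ (2 * (1 / 2 - 1 / q)) := by
    rw [← ENNReal.rpow_mul]
  have e3 : (ker x y ^ t) ^ (1 / 2 : ℝ) = ker x y ^ (t * (1 / 2)) := by
    rw [← ENNReal.rpow_mul]
  simp only
  rw [e1, e2, e3]
  have e4 : g y ^ (2 * (1 / q)) * ker x y ^ (s * (1 / q)) * g y ^ (2 * (1 / 2 - 1 / q)) *
      ker x y ^ (t * (1 / 2)) =
      (g y ^ (2 * (1 / q)) * g y ^ (2 * (1 / 2 - 1 / q))) *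
        (ker x y ^ (s * (1 / q)) * ker x y ^ (t * (1 / 2))) := by ring
  rw [e4, ← ENNReal.rpow_add_of_nonneg _ _ (by positivity) (by linarith),
    ← ENNReal.rpow_add_of_nonneg _ _ (by positivity) (by positivity)]
  have e5 : 2 * (1 / q) + 2 * (1 / 2 - 1 / q) = 1 := by ring
  rw [e5, hst, ENNReal.rpow_one, ENNReal.rpow_one]

/-- pointwise bound -/
theorem pt_bound {g : ℂ → ℝ≥0∞} (hg : Measurable g) {q s t R : ℝ} (hq : 2 < q) (hs : 0 ≤ s)
    (ht : 0 ≤ t) (hst : s * (1 / q) + t * (1 / 2) = 1) {A a : ℝ≥0∞}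
    (hg0 : ∀ x, x ∉ closedBall (0:ℂ) R → g x = 0) {x : ℂ} (hx : x ∈ closedBall (0:ℂ) R)
    (hA : ∫⁻ y in closedBall x (2 * R), ker x y ^ t ≤ A)
    (hray : ∀ᵐ θ ∂(volume.restrict (Ioo (-π) π)), a ≤ ∫⁻ r in Ioi (0:ℝ), g (x + r * dir θ)) :
    a ^ q ≤ (∫⁻ y, g y ^ (2:ℝ) * ker x y ^ s) *
      ((∫⁻ y, g y ^ (2:ℝ)) ^ (q / 2 - 1) * A ^ (q / 2)) := by
  have hq0 : 0 < q := by linarith
  set I : ℝ≥0∞ := ∫⁻ y, g y ^ (2:ℝ) with hI
  have h1 := ray_avg hg hray
  have h2 : a ≤ ENNReal.ofReal (2 * π) * a := by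
    have h3 : (1 : ℝ≥0∞) ≤ ENNReal.ofReal (2 * π) := by
      rw [ENNReal.one_le_ofReal]
      linarith [Real.pi_gt_three]
    calc a = 1 * a := (one_mul _).symm
      _ ≤ _ := mul_le_mul_left h3 _
  have hms : MeasurableSet (closedBall x (2 * R)) := isClosed_closedBall.measurableSet
  have h3 : ∫⁻ y, g y * ker x y = ∫⁻ y in closedBall x (2 * R), g y * ker x y := by
    rw [← lintegral_indicator hms]
    refine lintegral_congr fun y => ?_
    by_cases hy : y ∈ closedBall x (2 * R)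
    · rw [indicator_of_mem hy]
    · rw [indicator_of_notMem hy, hg0 y (fun h => hy (sub_ball hx h)), zero_mul]
  have h4 := holder_ball hg hq hs ht hst x (2 * R)
  have h6 : a ≤ (∫⁻ y, g y ^ (2:ℝ) * ker x y ^ s) ^ (1 / q) *
      I ^ (1 / 2 - 1 / q) * A ^ (1 / 2 : ℝ) := by
    refine h2.trans (h1.trans ?_)
    rw [h3]
    refine h4.trans ?_
    exact mul_le_mul_right (ENNReal.rpow_le_rpow hA (by norm_num)) _
  refine (ENNReal.rpow_le_rpow h6 hq0.le).trans (le_of_eq ?_)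
  rw [ENNReal.mul_rpow_of_nonneg _ _ hq0.le, ENNReal.mul_rpow_of_nonneg _ _ hq0.le,
    ← ENNReal.rpow_mul, ← ENNReal.rpow_mul, ← ENNReal.rpow_mul]
  have e1 : 1 / q * q = 1 := by field_simp
  have e2 : (1 / 2 - 1 / q) * q = q / 2 - 1 := by field_simp
  have e3 : 1 / 2 * q = q / 2 := by ring
  rw [e1, e2, e3, ENNReal.rpow_one, mul_assoc]

/-- Tonelli step -/
theorem tonelli_step {g : ℂ → ℝ≥0∞} (hg : Measurable g) {s R : ℝ} {B : ℝ≥0∞}
    (hg0 : ∀ x, x ∉ closedBall (0:ℂ) R → g x = 0) (μ : Measure ℂ) [SFinite μ]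
    (hB : ∀ y : ℂ, ∫⁻ x in closedBall y (2 * R), ker x y ^ s ∂μ ≤ B) :
    ∫⁻ x in closedBall (0:ℂ) R, ∫⁻ y, g y ^ (2:ℝ) * ker x y ^ s ∂volume ∂μ ≤
      (∫⁻ y, g y ^ (2:ℝ)) * B := by
  have hmm : Measurable fun p : ℂ × ℂ => g p.2 ^ (2:ℝ) * ker p.1 p.2 ^ s :=
    ((hg.comp measurable_snd).pow_const _).mul (measurable_ker.pow_const _)
  rw [lintegral_lintegral_swap hmm.aemeasurable, ← lintegral_mul_const _ (hg.pow_const _)]
  refine lintegral_mono fun y => ?_
  by_cases hy : y ∈ closedBall (0:ℂ) R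
  · have hmk' : Measurable fun x => ker x y ^ s := (measurable_ker_right y).pow_const _
    rw [lintegral_const_mul _ hmk']
    refine mul_le_mul_right ?_ _
    exact le_trans (lintegral_mono_set fun x hx => sub_ball hy hx) (hB y)
  · simp [hg0 y hy]

/-- **TRACE INEQUALITY** in the plane, ray form -/
theorem trace_of_ray {b C0 R q : ℝ} (hb : 0 < b) (hC0 : 0 ≤ C0) (hR : 0 < R) (hq : 2 < q) :
    ∃ C : ℝ≥0∞, C ≠ ∞ ∧ ∀ (μ : Measure ℂ) [SFinite μ],
      (∀ x r, 0 < r → r ≤ 2 * R → μ (closedBall x r) ≤ ENNReal.ofReal (C0 * r ^ (2 * b))) →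
      ∀ F g : ℂ → ℝ≥0∞, Measurable g → (∀ x, x ∉ closedBall (0:ℂ) R → F x = 0) →
      (∀ x, x ∉ closedBall (0:ℂ) R → g x = 0) →
      (∀ x ∈ closedBall (0:ℂ) R, ∀ᵐ θ ∂(volume.restrict (Ioo (-π) π)),
        F x ≤ ∫⁻ r in Ioi (0:ℝ), g (x + r * dir θ)) →
      ∫⁻ x, F x ^ q ∂μ ≤ C * (∫⁻ y, g y ^ (2:ℝ)) ^ (q / 2) := by
  have hq0 : 0 < q := by linarith
  obtain ⟨s, hs0, hsb, hs1⟩ : ∃ s : ℝ, 0 < s ∧ s < 2 * b ∧ s ≤ 1 :=
    ⟨min b 1, lt_min hb one_pos, (min_le_left _ _).trans_lt (by linarith), min_le_right _ _⟩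
  obtain ⟨t, ht0, ht2, hst⟩ : ∃ t : ℝ, 0 < t ∧ t < 2 ∧ s * (1 / q) + t * (1 / 2) = 1 := by
    have hsq : 0 < s / q := div_pos hs0 hq0
    have hsq1 : s / q < 1 := by rw [div_lt_one hq0]; linarith
    have e : s * (1 / q) = s / q := by ring
    exact ⟨2 - 2 * (s / q), by linarith, by linarith, by rw [e]; ring⟩
  obtain ⟨A, hA, hA'⟩ := ker_int ht2 (2 * R)
  obtain ⟨B, hB, hB'⟩ := ker_mu (b := b) (C0 := C0) hs0.le hsb hC0 (R := 2 * R) (by linarith)
  refine ⟨A ^ (q / 2) * B, ENNReal.mul_ne_top (ENNReal.rpow_ne_top_of_nonneg (by positivity) hA) hB,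
    ?_⟩
  intro μ _ hμ F g hg hF0 hg0 hray
  have hms0 : MeasurableSet (closedBall (0:ℂ) R) := isClosed_closedBall.measurableSet
  have hmm : Measurable fun p : ℂ × ℂ => g p.2 ^ (2:ℝ) * ker p.1 p.2 ^ s :=
    ((hg.comp measurable_snd).pow_const _).mul (measurable_ker.pow_const _)
  set I : ℝ≥0∞ := ∫⁻ y, g y ^ (2:ℝ) with hI
  have h1 : ∫⁻ x, F x ^ q ∂μ = ∫⁻ x in closedBall (0:ℂ) R, F x ^ q ∂μ := by
    rw [← lintegral_indicator hms0]
    refine lintegral_congr fun x => ?_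
    by_cases hx : x ∈ closedBall (0:ℂ) R
    · rw [indicator_of_mem hx]
    · rw [indicator_of_notMem hx, hF0 x hx, ENNReal.zero_rpow_of_pos hq0]
  have h2 : ∫⁻ x in closedBall (0:ℂ) R, F x ^ q ∂μ ≤
      ∫⁻ x in closedBall (0:ℂ) R, (∫⁻ y, g y ^ (2:ℝ) * ker x y ^ s) *
        (I ^ (q / 2 - 1) * A ^ (q / 2)) ∂μ :=
    setLIntegral_mono' hms0 fun x hx =>
      pt_bound hg hq hs0.le ht0.le hst hg0 hx (hA' x) (hray x hx)
  have h3 := tonelli_step (s := s) hg hg0 μ (fun y => hB' μ hμ y)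
  rw [lintegral_mul_const _ hmm.lintegral_prod_right'] at h2
  rw [h1]
  refine (h2.trans (mul_le_mul_left h3 _)).trans (le_of_eq ?_)
  have e1 : I ^ (q / 2) = I * I ^ (q / 2 - 1) := by
    conv_rhs => rw [← ENNReal.rpow_one I]
    rw [← ENNReal.rpow_mul, one_mul, ← ENNReal.rpow_add_of_nonneg _ _ zero_le_one (by linarith)]
    congr 1
    ring
  rw [e1, ← hI]
  ring

end

end Crest.Agent.R235.Trace_847
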