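import Crest.Agent.R235.KG_460
import Crest.Agent.R235.Trace_847

/-!
Row 235, REG-B (helper847): leaf `L4` of `KG_460`: circle averages of a function of finite energy whose
radial flux is controlled by a density with a power decay.
-/

set_option autoImplicit false

namespace Crest.Agent.R235.KGL4_847

open Complex Metric Set MeasureTheory Filter Topology
open Crest.Agent.R235.KG_460
open Crest.Agent.R235.Trace_847
open scoped ENNReal

noncomputable section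

def ann (r1 r2 : ℝ) : Set ℂ := {z | r1 < ‖z‖ ∧ ‖z‖ < r2}

def bx (r1 r2 : ℝ) : Set (ℝ × ℝ) := Ioo r1 r2 ×ˢ Ioo (-Real.pi) Real.pi

lemma ann_meas (r1 r2 : ℝ) : MeasurableSet (ann r1 r2) := by
  have h1 : Continuous fun z : ℂ => ‖z‖ := by fun_prop
  exact ((isOpen_lt (continuous_const (y := r1)) h1).inter
    (isOpen_lt h1 (continuous_const (y := r2)))).measurableSet

lemma bx_meas (r1 r2 : ℝ) : MeasurableSet (bx r1 r2) := measurableSet_Ioo.prod measurableSet_Ioo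

lemma symm_eq (p : ℝ × ℝ) : Complex.polarCoord.symm p = p.1 * exp (p.2 * I) := by
  rw [Complex.polarCoord_symm_apply, Complex.exp_mul_I]
  push_cast
  ring

lemma norm_pt {r : ℝ} (hr : 0 ≤ r) (φ : ℝ) : ‖(r * exp (φ * I) : ℂ)‖ = r := by
  rw [norm_mul, Complex.norm_exp_ofReal_mul_I, mul_one, Complex.norm_real, Real.norm_eq_abs,
    abs_of_nonneg hr]

lemma meas_pt : Measurable fun p : ℝ × ℝ => (p.1 * exp (p.2 * I) : ℂ) :=
  Continuous.measurable (by fun_prop)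

lemma mem_ann_pt {r1 r2 : ℝ} {p : ℝ × ℝ} (hp0 : 0 < p.1) :
    (p.1 * exp (p.2 * I) : ℂ) ∈ ann r1 r2 ↔ p.1 ∈ Ioo r1 r2 := by
  show r1 < ‖(p.1 * exp (p.2 * I) : ℂ)‖ ∧ ‖(p.1 * exp (p.2 * I) : ℂ)‖ < r2 ↔ _
  rw [norm_pt hp0.le]
  exact Iff.rfl

theorem polar_ann (h : ℂ → ℝ≥0∞) {r1 : ℝ} (r2 : ℝ) (h0 : 0 ≤ r1) :
    ∫⁻ p in bx r1 r2, h (p.1 * exp (p.2 * I)) =
      ∫⁻ z in ann r1 r2, h z * (ENNReal.ofReal ‖z‖)⁻¹ := by
  rw [← lintegral_indicator (ann_meas r1 r2), ← Complex.lintegral_comp_polarCoord_symm,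
    polarCoord_target, ← lintegral_indicator (measurableSet_Ioi.prod measurableSet_Ioo),
    ← lintegral_indicator (bx_meas r1 r2)]
  refine lintegral_congr fun p => ?_
  simp only [indicator]
  by_cases h1 : p ∈ Ioi (0:ℝ) ×ˢ Ioo (-Real.pi) Real.pi
  · have hp0 : 0 < p.1 := h1.1
    rw [if_pos h1, symm_eq]
    by_cases h2 : p ∈ bx r1 r2
    · have h3 : (p.1 * exp (p.2 * I) : ℂ) ∈ ann r1 r2 := (mem_ann_pt hp0).2 h2.1
      rw [if_pos h2, if_pos h3, norm_pt hp0.le, smul_eq_mul, mul_comm (h _), ← mul_assoc,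
        ENNReal.mul_inv_cancel (by simpa using hp0) ENNReal.ofReal_ne_top, one_mul]
    · have h3 : (p.1 * exp (p.2 * I) : ℂ) ∉ ann r1 r2 :=
        fun h => h2 ⟨(mem_ann_pt hp0).1 h, h1.2⟩
      rw [if_neg h2, if_neg h3, smul_zero]
  · have h2 : p ∉ bx r1 r2 := fun h => h1 ⟨h0.trans_lt h.1.1, h.2⟩
    rw [if_neg h1, if_neg h2]

theorem null_of_rays {U : Set ℂ} (hU : IsOpen U) {R : ℝ}
    (hφ : ∀ᵐ φ : ℝ ∂(volume.restrict (Ioo (-Real.pi) Real.pi)),
      ∀ r ∈ Ioo 0 R, (r * exp (φ * I) : ℂ) ∈ U) :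
    volume (ball 0 R \ U) = 0 := by
  have hNm : MeasurableSet (ball (0:ℂ) R \ U) := isOpen_ball.measurableSet.diff hU.measurableSet
  set N := ball (0:ℂ) R \ U with hN
  have hm : Measurable (N.indicator (fun _ => (1:ℝ≥0∞))) := measurable_const.indicator hNm
  have hm' : Measurable fun p : ℝ × ℝ =>
      N.indicator (fun _ => (1:ℝ≥0∞)) (p.1 * exp (p.2 * I) : ℂ) := hm.comp meas_pt
  have h1 : ∫⁻ p in bx 0 R, N.indicator (fun _ => (1:ℝ≥0∞)) (p.1 * exp (p.2 * I)) = 0 := by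
    rw [bx, Measure.volume_eq_prod, ← Measure.prod_restrict, lintegral_prod_symm _ hm'.aemeasurable]
    refine (lintegral_congr_ae ?_).trans lintegral_zero
    filter_upwards [hφ] with φ hφ
    refine (setLIntegral_congr_fun measurableSet_Ioo fun r hr => ?_).trans lintegral_zero
    exact indicator_of_notMem (fun h => h.2 (hφ r hr)) _
  rw [polar_ann _ _ le_rfl] at h1
  have hm2 : Measurable fun z : ℂ => N.indicator (fun _ => (1:ℝ≥0∞)) z * (ENNReal.ofReal ‖z‖)⁻¹ :=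
    hm.mul (measurable_norm.ennreal_ofReal).inv
  have h2 := (lintegral_eq_zero_iff hm2).1 h1
  have h2' := (ae_restrict_iff' (ann_meas 0 R)).1 h2
  have h3 : ∀ᵐ z : ℂ, z ≠ 0 := by
    have : volume ({0} : Set ℂ) = 0 := measure_singleton 0
    exact compl_mem_ae_iff.2 this
  rw [measure_eq_zero_iff_ae_notMem]
  filter_upwards [h2', h3] with z hz hz0 hzN
  have h4 := hz ⟨norm_pos_iff.2 hz0, by simpa using hzN.1⟩
  rw [indicator_of_mem hzN, one_mul, Pi.zero_apply, ENNReal.inv_eq_zero] at h4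
  exact ENNReal.ofReal_ne_top h4

theorem polar_ae {P : ℂ → Prop} {R : ℝ} (h : ∀ᵐ z ∂(volume.restrict (ball (0:ℂ) R)), P z) :
    ∀ᵐ r : ℝ ∂(volume.restrict (Ioo 0 R)), ∀ᵐ φ : ℝ ∂(volume.restrict (Ioo (-Real.pi) Real.pi)),
      P (r * exp (φ * I)) := by
  rw [ae_restrict_iff' isOpen_ball.measurableSet] at h
  set N := toMeasurable volume {z | ¬ (z ∈ ball (0:ℂ) R → P z)} with hN'
  have hN : volume N = 0 := by rw [measure_toMeasurable]; exact h
  have hNm : MeasurableSet N := measurableSet_toMeasurable _ _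
  have hm : Measurable (N.indicator (fun _ => (1:ℝ≥0∞))) := measurable_const.indicator hNm
  have h1 : ∫⁻ p in bx 0 R, N.indicator (fun _ => (1:ℝ≥0∞)) (p.1 * exp (p.2 * I)) = 0 := by
    rw [polar_ann _ _ le_rfl]
    refine (lintegral_congr_ae ?_).trans lintegral_zero
    refine ae_restrict_of_ae ?_
    filter_upwards [measure_eq_zero_iff_ae_notMem.1 hN] with z hz
    rw [indicator_of_notMem hz, zero_mul]
  have h2 := (lintegral_eq_zero_iff (hm.comp meas_pt)).1 h1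
  rw [bx, Measure.volume_eq_prod, ← Measure.prod_restrict] at h2
  have h3 := Measure.ae_ae_of_ae_prod h2
  filter_upwards [h3, ae_restrict_mem measurableSet_Ioo] with r hr hrR
  filter_upwards [hr] with φ hφ
  by_contra hP
  have hmem : (r * exp (φ * I) : ℂ) ∈ N := by
    refine subset_toMeasurable _ _ fun h => hP (h ?_)
    rw [mem_ball_zero_iff, norm_pt hrR.1.le]
    exact hrR.2
  simp only [Function.comp, indicator_of_mem hmem, Pi.zero_apply] at hφ
  exact one_ne_zero hφ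

/-- the radial derivative in polar coordinates -/
def Dr (v : ℂ → ℝ) (r φ : ℝ) : ℝ := fderiv ℝ v (r * exp (φ * I)) (exp (φ * I))

lemma Dr_meas (v : ℂ → ℝ) : Measurable fun p : ℝ × ℝ => Dr v p.1 p.2 := by
  have h1 : ∀ p : ℝ × ℝ, Dr v p.1 p.2 = (exp (p.2 * I)).re * fderiv ℝ v (p.1 * exp (p.2 * I)) 1 +
      (exp (p.2 * I)).im * fderiv ℝ v (p.1 * exp (p.2 * I)) I := by
    intro p
    unfold Dr
    have h0 : ∀ (L : ℂ →L[ℝ] ℝ) (w : ℂ), L w = w.re * L 1 + w.im * L I := by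
      intro L w
      have : w = w.re • (1 : ℂ) + w.im • I := by
        apply Complex.ext <;> simp
      conv_lhs => rw [this]
      rw [map_add, map_smul, map_smul, smul_eq_mul, smul_eq_mul]
    exact h0 _ _
  simp_rw [h1]
  have hc : Measurable fun p : ℝ × ℝ => (exp (p.2 * I)).re := Continuous.measurable (by fun_prop)
  have hs : Measurable fun p : ℝ × ℝ => (exp (p.2 * I)).im := Continuous.measurable (by fun_prop)
  exact (hc.mul ((measurable_fderiv_apply_const ℝ v 1).comp meas_pt)).add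
    (hs.mul ((measurable_fderiv_apply_const ℝ v I).comp meas_pt))

lemma ball_ae {U : Set ℂ} {R : ℝ} (hN : volume (ball 0 R \ U) = 0) :
    (ball (0:ℂ) R ∩ U : Set ℂ) =ᵐ[volume] ball (0:ℂ) R := by
  have h1 : (ball (0:ℂ) R ∩ U : Set ℂ) = ball 0 R \ (ball 0 R \ U) := by
    ext z; simp only [mem_inter_iff, Set.mem_sdiff]; tauto
  rw [h1]
  exact sdiff_null_ae_eq_self hN

theorem Dr_int {U : Set ℂ} {R : ℝ} {v : ℂ → ℝ} (hN : volume (ball 0 R \ U) = 0)
    (hE : IntegrableOn (fun z => ‖fderiv ℝ v z‖ ^ 2) (ball 0 R ∩ U)) {r r' : ℝ} (hr : 0 < r)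
    (hr' : r' < R) :
    IntegrableOn (fun p : ℝ × ℝ => Dr v p.1 p.2) (bx r r') := by
  have hE1 : ∫⁻ z in ball 0 R, ‖fderiv ℝ v z‖ₑ ^ 2 ≠ ∞ := by
    have h1 := hE.2
    rw [hasFiniteIntegral_iff_enorm] at h1
    rw [← Measure.restrict_congr_set (ball_ae hN)]
    refine ne_of_lt (lt_of_eq_of_lt ?_ h1)
    refine lintegral_congr fun z => ?_
    rw [enorm_pow, enorm_norm]
  have hE2 : ∫⁻ p in bx r r', ‖fderiv ℝ v (p.1 * exp (p.2 * I))‖ₑ ^ 2 ≠ ∞ := by
    rw [polar_ann (fun z => ‖fderiv ℝ v z‖ₑ ^ 2) r' hr.le]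
    have h2 : ∫⁻ z in ann r r', ‖fderiv ℝ v z‖ₑ ^ 2 * (ENNReal.ofReal ‖z‖)⁻¹ ≤
        ∫⁻ z in ball 0 R, ‖fderiv ℝ v z‖ₑ ^ 2 * (ENNReal.ofReal r)⁻¹ := by
      refine (setLIntegral_mono' (ann_meas r r') fun z hz => ?_).trans
        (lintegral_mono_set fun z hz => ?_)
      · exact mul_le_mul_right (ENNReal.inv_le_inv.2 (ENNReal.ofReal_le_ofReal hz.1.le)) _
      · rw [mem_ball_zero_iff]; exact hz.2.trans hr'
    refine ne_top_of_le_ne_top ?_ h2
    rw [lintegral_mul_const' _ _ (ENNReal.inv_ne_top.2 (by simpa using hr))]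
    exact ENNReal.mul_ne_top hE1 (ENNReal.inv_ne_top.2 (by simpa using hr))
  refine ⟨(Dr_meas v).aestronglyMeasurable, ?_⟩
  rw [hasFiniteIntegral_iff_enorm]
  have h3 : ∫⁻ p in bx r r', ‖Dr v p.1 p.2‖ₑ ≤
      ∫⁻ p in bx r r', (1 + ‖fderiv ℝ v (p.1 * exp (p.2 * I))‖ₑ ^ 2) := by
    refine lintegral_mono fun p => ?_
    have h4 : ‖Dr v p.1 p.2‖ₑ ≤ ‖fderiv ℝ v (p.1 * exp (p.2 * I))‖ₑ := by
      unfold Dr
      refine (ContinuousLinearMap.le_opENorm _ _).trans (le_of_eq ?_)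
      rw [← ofReal_norm (exp (p.2 * I)), Complex.norm_exp_ofReal_mul_I, ENNReal.ofReal_one, mul_one]
    refine h4.trans ?_
    set x := ‖fderiv ℝ v (p.1 * exp (p.2 * I))‖ₑ
    rcases le_total x 1 with hx | hx
    · exact hx.trans le_self_add
    · refine le_trans ?_ le_add_self
      calc x = x * 1 := (mul_one x).symm
        _ ≤ x * x := mul_le_mul_right hx _
        _ = x ^ 2 := (sq x).symm
  refine h3.trans_lt ?_
  rw [lintegral_add_left measurable_const]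
  refine ENNReal.add_lt_top.2 ⟨?_, hE2.lt_top⟩
  rw [lintegral_const, Measure.restrict_apply_univ, one_mul, bx, Measure.volume_eq_prod,
    Measure.prod_prod, Real.volume_Ioo, Real.volume_Ioo]
  exact ENNReal.mul_lt_top ENNReal.ofReal_lt_top ENNReal.ofReal_lt_top

/-- fundamental theorem of calculus along a ray inside `U` -/
theorem ray_ftc {U : Set ℂ} {R : ℝ} {v : ℂ → ℝ} (hU : IsOpen U) (hv : ContDiffOn ℝ 1 v U)
    {r r' φ : ℝ} (hr : 0 < r) (hrr : r ≤ r') (hr' : r' < R)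
    (h : ∀ ρ ∈ Ioo 0 R, (ρ * exp (φ * I) : ℂ) ∈ U) :
    ∫ ρ in Ioo r r', Dr v ρ φ = v (r' * exp (φ * I)) - v (r * exp (φ * I)) := by
  have hmem : ∀ ρ ∈ Icc r r', (ρ * exp (φ * I) : ℂ) ∈ U := fun ρ hρ =>
    h ρ ⟨hr.trans_le hρ.1, hρ.2.trans_lt hr'⟩
  have hd : ∀ ρ ∈ Icc r r', HasDerivAt (fun ρ : ℝ => v (ρ * exp (φ * I))) (Dr v ρ φ) ρ := by
    intro ρ hρ
    have h1 : HasFDerivAt v (fderiv ℝ v (ρ * exp (φ * I))) (ρ * exp (φ * I)) :=
      (((hv _ (hmem ρ hρ)).contDiffAt (hU.mem_nhds (hmem ρ hρ))).differentiableAt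
        (by norm_num)).hasFDerivAt
    have h2 : HasDerivAt (fun ρ : ℝ => (ρ * exp (φ * I) : ℂ)) (exp (φ * I)) ρ := by
      have := (Complex.ofRealCLM.hasDerivAt (x := ρ)).mul_const (exp (φ * I))
      simpa using this
    exact h1.comp_hasDerivAt ρ h2
  have hc : ContinuousOn (fun ρ : ℝ => Dr v ρ φ) (Icc r r') := by
    intro ρ hρ
    have h1 : ContinuousAt (fderiv ℝ v) (ρ * exp (φ * I)) :=
      (((hv _ (hmem ρ hρ)).contDiffAt (hU.mem_nhds (hmem ρ hρ))).fderiv_right (m := 0)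
        (by norm_num)).continuousAt
    have h2 : ContinuousAt (fun ρ : ℝ => (ρ * exp (φ * I) : ℂ)) ρ := by fun_prop
    refine ContinuousAt.continuousWithinAt ?_
    unfold Dr
    exact (ContinuousAt.comp (f := fun ρ : ℝ => (ρ * exp (φ * I) : ℂ)) h1 h2).clm_apply
      continuousAt_const
  rw [← integral_Ioc_eq_integral_Ioo, ← intervalIntegral.integral_of_le hrr]
  refine intervalIntegral.integral_eq_sub_of_hasDerivAt (f := fun ρ : ℝ => v (ρ * exp (φ * I)))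
    (f' := fun ρ => Dr v ρ φ) (fun ρ hρ => ?_) ?_
  · rw [uIcc_of_le hrr] at hρ; exact hd ρ hρ
  · exact (hc.mono (by rw [uIcc_of_le hrr])).intervalIntegrable

/-- circle integral -/
def Mc (v : ℂ → ℝ) (r : ℝ) : ℝ := ∫ φ in Ioo (-Real.pi) Real.pi, v (r * exp (φ * I))

lemma Mc_int {U : Set ℂ} {v : ℂ → ℝ} (hv : ContDiffOn ℝ 1 v U) {r : ℝ} (hr : 0 < r)
    (hs : sphere (0 : ℂ) r ⊆ U) :
    IntegrableOn (fun φ : ℝ => v (r * exp (φ * I))) (Ioo (-Real.pi) Real.pi) := by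
  have h1 : Continuous fun φ : ℝ => v (r * exp (φ * I)) := by
    rw [← continuousOn_univ]
    refine hv.continuousOn.comp (f := fun φ : ℝ => (r * exp (φ * I) : ℂ)) (by fun_prop) ?_
    intro φ _
    refine hs ?_
    rw [mem_sphere_zero_iff_norm, norm_pt hr.le]
  exact (h1.continuousOn.integrableOn_compact isCompact_Icc).mono_set Ioo_subset_Icc_self

theorem Mc_diff {U : Set ℂ} {R : ℝ} {v : ℂ → ℝ} (hU : IsOpen U) (hv : ContDiffOn ℝ 1 v U)
    (hφ : ∀ᵐ φ : ℝ ∂(volume.restrict (Ioo (-Real.pi) Real.pi)),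
      ∀ r ∈ Ioo 0 R, (r * exp (φ * I) : ℂ) ∈ U)
    (hE : IntegrableOn (fun z => ‖fderiv ℝ v z‖ ^ 2) (ball 0 R ∩ U)) {r r' : ℝ} (hr : 0 < r)
    (hrr : r ≤ r') (hr' : r' < R) (hs : sphere (0 : ℂ) r ⊆ U) (hs' : sphere (0 : ℂ) r' ⊆ U) :
    Mc v r' - Mc v r = ∫ ρ in Ioo r r', ∫ φ in Ioo (-Real.pi) Real.pi, Dr v ρ φ := by
  unfold Mc
  rw [← integral_sub (Mc_int hv (hr.trans_le hrr) hs') (Mc_int hv hr hs)]
  have h1 : ∫ φ in Ioo (-Real.pi) Real.pi, (v (r' * exp (φ * I)) - v (r * exp (φ * I))) =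
      ∫ φ in Ioo (-Real.pi) Real.pi, ∫ ρ in Ioo r r', Dr v ρ φ := by
    refine integral_congr_ae ?_
    filter_upwards [hφ] with φ hφ
    exact (ray_ftc hU hv hr hrr hr' hφ).symm
  rw [h1]
  have h2 := Dr_int (null_of_rays hU hφ) hE hr hr'
  rw [bx, IntegrableOn, Measure.volume_eq_prod, ← Measure.prod_restrict] at h2
  exact (integral_integral_swap (f := fun ρ φ => Dr v ρ φ) h2).symm

/-- Hölder: a density with a power decay is integrable against `|z|⁻¹` -/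
theorem K_fin {G : ℂ → ℝ≥0∞} (hG : Measurable G) {R C a : ℝ} (hR : 0 < R) (ha : 0 < a)
    (hC0 : 0 ≤ C)
    (hC : ∀ r, 0 < r → r ≤ R →
      ∫⁻ z in closedBall (0:ℂ) r, G z ^ (2:ℝ) ≤ ENNReal.ofReal (C * r ^ (2 * a))) :
    ∫⁻ z in closedBall (0:ℂ) R, G z * (ENNReal.ofReal ‖z‖)⁻¹ ≠ ∞ := by
  obtain ⟨s, hs0, hsa, hs1⟩ : ∃ s : ℝ, 0 < s ∧ s < 2 * a ∧ s ≤ 1 :=
    ⟨min a 1, lt_min ha one_pos, (min_le_left _ _).trans_lt (by linarith), min_le_right _ _⟩
  have hk1 : ∀ z : ℂ, Trace_847.ker z 0 = (ENNReal.ofReal ‖z‖)⁻¹ := by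
    intro z; unfold Trace_847.ker; rw [zero_sub, norm_neg]
  have hk2 : ∀ z : ℂ, Trace_847.ker 0 z = (ENNReal.ofReal ‖z‖)⁻¹ := by
    intro z; unfold Trace_847.ker; rw [sub_zero]
  obtain ⟨A, hA, hA'⟩ := ker_int (t := 2 - s) (by linarith) R
  obtain ⟨B, hB, hB'⟩ := ker_mu_pt (b := a) (C0 := C) hs0.le hsa hC0 (R := R) hR
  have hms : ∀ r, MeasurableSet (closedBall (0:ℂ) r) := fun r => isClosed_closedBall.measurableSet
  have hkm : Measurable fun z : ℂ => (ENNReal.ofReal ‖z‖)⁻¹ := (measurable_norm.ennreal_ofReal).inv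
  have hG2 : Measurable fun z => G z ^ (2:ℝ) := hG.pow_const _
  have h1 : ∫⁻ z in closedBall (0:ℂ) R, G z ^ (2:ℝ) * (ENNReal.ofReal ‖z‖)⁻¹ ^ s ≤ B := by
    have h2 := hB' (volume.withDensity fun z => G z ^ (2:ℝ)) 0 (fun r hr hrR => by
      rw [withDensity_apply _ (hms r)]; exact hC r hr hrR)
    simp_rw [hk1] at h2
    rw [setLIntegral_withDensity_eq_setLIntegral_mul _ hG2 (hkm.pow_const _) (hms R)] at h2
    exact h2
  have h2 : ∫⁻ z in closedBall (0:ℂ) R, (ENNReal.ofReal ‖z‖)⁻¹ ^ (2 - s) ≤ A := by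
    have h3 := hA' 0
    simp_rw [hk2] at h3
    exact h3
  have h3 := holder3 (volume.restrict (closedBall (0:ℂ) R))
    (f1 := fun z => G z ^ (2:ℝ) * (ENNReal.ofReal ‖z‖)⁻¹ ^ s)
    (f2 := fun z => (ENNReal.ofReal ‖z‖)⁻¹ ^ (2 - s)) (f3 := fun _ => 1)
    (hG2.mul (hkm.pow_const _)).aemeasurable (hkm.pow_const _).aemeasurable aemeasurable_const
    (a := 1 / 2) (b := 1 / 2) (c := 0) (by norm_num) (by norm_num) le_rfl (by norm_num)
  have h4 : ∀ z : ℂ, (G z ^ (2:ℝ) * (ENNReal.ofReal ‖z‖)⁻¹ ^ s) ^ (1 / 2 : ℝ) *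
      ((ENNReal.ofReal ‖z‖)⁻¹ ^ (2 - s)) ^ (1 / 2 : ℝ) * (1 : ℝ≥0∞) ^ (0:ℝ) =
      G z * (ENNReal.ofReal ‖z‖)⁻¹ := by
    intro z
    set k := (ENNReal.ofReal ‖z‖)⁻¹
    rw [ENNReal.mul_rpow_of_nonneg _ _ (by norm_num), ← ENNReal.rpow_mul, ← ENNReal.rpow_mul,
      ← ENNReal.rpow_mul, ENNReal.rpow_zero, mul_one, mul_assoc,
      ← ENNReal.rpow_add_of_nonneg _ _ (by positivity) (by
        refine mul_nonneg (by linarith) (by norm_num))]
    have e1 : s * (1 / 2) + (2 - s) * (1 / 2) = 1 := by ring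
    have e2 : (2:ℝ) * (1 / 2) = 1 := by norm_num
    rw [e1, e2, ENNReal.rpow_one, ENNReal.rpow_one]
  simp_rw [h4] at h3
  refine ne_top_of_le_ne_top ?_ h3
  rw [ENNReal.rpow_zero, mul_one]
  exact ENNReal.mul_ne_top
    (ENNReal.rpow_ne_top_of_nonneg (by norm_num) (ne_top_of_le_ne_top hB h1))
    (ENNReal.rpow_ne_top_of_nonneg (by norm_num) (ne_top_of_le_ne_top hA h2))

/-- a radius with a good property -/
lemma good_rad {P : ℝ → Prop} {R : ℝ} (h : ∀ᵐ r : ℝ ∂(volume.restrict (Ioo 0 R)), P r) {x y : ℝ}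
    (hx : 0 ≤ x) (hxy : x < y) (hy : y ≤ R) : ∃ r ∈ Ioo x y, P r := by
  have h1 : ∀ᵐ r : ℝ ∂(volume.restrict (Ioo x y)), P r :=
    ae_restrict_of_ae_restrict_of_subset (Ioo_subset_Ioo hx hy) h
  have : (ae (volume.restrict (Ioo x y))).NeBot := by
    rw [ae_restrict_neBot]
    rw [Real.volume_Ioo]
    simpa using hxy
  obtain ⟨r, hr1, hr2⟩ := ((ae_restrict_mem (measurableSet_Ioo (a := x) (b := y))).and h1).exists
  exact ⟨r, hr1, hr2⟩

lemma ofReal_int_le {α : Type*} [MeasurableSpace α] {μ : Measure α} {f : α → ℝ} (hf : ∀ x, 0 ≤ f x) :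
    ENNReal.ofReal (∫ x, f x ∂μ) ≤ ∫⁻ x, ENNReal.ofReal (f x) ∂μ := by
  by_cases h : Integrable f μ
  · rw [ofReal_integral_eq_lintegral_ofReal h (Eventually.of_forall hf)]
  · rw [integral_undef h, ENNReal.ofReal_zero]
    exact zero_le

/-- **L4** -/
theorem l4 : L4 := by
  intro U R C a v g hR ha hU hv hS hφ hE hg0 hg2 hC hM hT
  have hN := null_of_rays hU hφ
  have hgm : AEMeasurable (fun z => ENNReal.ofReal (g z)) (volume.restrict (ball (0:ℂ) R)) := by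
    rw [← Measure.restrict_congr_set (ball_ae hN)]
    have h1 : AEMeasurable (fun z => g z ^ 2) (volume.restrict (ball (0:ℂ) R ∩ U)) :=
      hg2.1.aemeasurable
    have h2 : (fun z => ENNReal.ofReal (g z)) = fun z => ENNReal.ofReal (Real.sqrt (g z ^ 2)) := by
      funext z; rw [Real.sqrt_sq (hg0 z)]
    rw [h2]
    exact (Real.continuous_sqrt.measurable.comp_aemeasurable h1).ennreal_ofReal
  obtain ⟨G, hG, hGg⟩ := hgm
  have hR0 : 0 < R / 3 := by linarith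
  have hdec : ∀ r, 0 < r → r ≤ R / 3 → ∫⁻ z in closedBall (0:ℂ) r, G z ^ (2:ℝ) ≤
      ENNReal.ofReal ((|C| * 2 ^ (2 * a)) * r ^ (2 * a)) := by
    intro r hr hrR
    have h2r : 2 * r ∈ Ioo 0 R := ⟨by linarith, by linarith⟩
    have hsub : ball (0:ℂ) (2 * r) ⊆ ball 0 R := ball_subset_ball h2r.2.le
    have hN2 : volume (ball (0:ℂ) (2 * r) \ U) = 0 :=
      measure_mono_null (sdiff_subset_sdiff_left hsub) hN
    have h2 : ∫⁻ z in ball (0:ℂ) (2 * r), G z ^ (2:ℝ) =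
        ∫⁻ z in ball (0:ℂ) (2 * r) ∩ U, ENNReal.ofReal (g z ^ 2) := by
      rw [Measure.restrict_congr_set (ball_ae hN2)]
      refine lintegral_congr_ae ?_
      filter_upwards [ae_restrict_of_ae_restrict_of_subset hsub hGg] with z hz
      rw [← hz, ENNReal.ofReal_rpow_of_nonneg (hg0 z) (by norm_num)]
      norm_num
    have h3 : ∫⁻ z in ball (0:ℂ) (2 * r) ∩ U, ENNReal.ofReal (g z ^ 2) =
        ENNReal.ofReal (∫ z in ball (0:ℂ) (2 * r) ∩ U, g z ^ 2) := by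
      refine (ofReal_integral_eq_lintegral_ofReal ?_ ?_).symm
      · exact hg2.mono_set (inter_subset_inter_left _ hsub)
      · exact Eventually.of_forall fun z => sq_nonneg _
    calc ∫⁻ z in closedBall (0:ℂ) r, G z ^ (2:ℝ) ≤ ∫⁻ z in ball (0:ℂ) (2 * r), G z ^ (2:ℝ) :=
          lintegral_mono_set (closedBall_subset_ball (by linarith))
      _ = ENNReal.ofReal (∫ z in ball (0:ℂ) (2 * r) ∩ U, g z ^ 2) := by rw [h2, h3]
      _ ≤ ENNReal.ofReal ((|C| * 2 ^ (2 * a)) * r ^ (2 * a)) := by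
          refine ENNReal.ofReal_le_ofReal ((hC (2 * r) h2r).trans ?_)
          rw [Real.mul_rpow two_pos.le hr.le, ← mul_assoc]
          have h4 : 0 ≤ (2:ℝ) ^ (2 * a) := by positivity
          have h5 : 0 ≤ r ^ (2 * a) := by positivity
          exact mul_le_mul_of_nonneg_right (mul_le_mul_of_nonneg_right (le_abs_self C) h4) h5
  have hK := K_fin hG hR0 ha (by positivity) hdec
  set K := ∫⁻ z in closedBall (0:ℂ) (R / 3), G z * (ENNReal.ofReal ‖z‖)⁻¹ with hKdef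
  have hbd : ∀ r r', 0 < r → r ≤ r' → r' ≤ R / 3 → sphere (0 : ℂ) r ⊆ U → sphere (0 : ℂ) r' ⊆ U →
      ‖Mc v r' - Mc v r‖ₑ ≤ K := by
    intro r r' hr hrr hr' hs hs'
    rw [Mc_diff hU hv hφ hE hr hrr (by linarith) hs hs']
    refine (enorm_integral_le_lintegral_enorm _).trans ?_
    have hsubI : Ioo r r' ⊆ Ioo 0 R := Ioo_subset_Ioo hr.le (by linarith)
    have h1 : ∫⁻ ρ in Ioo r r', ‖∫ φ in Ioo (-Real.pi) Real.pi, Dr v ρ φ‖ₑ ≤
        ∫⁻ ρ in Ioo r r', ∫⁻ φ in Ioo (-Real.pi) Real.pi, G (ρ * exp (φ * I)) := by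
      refine lintegral_mono_ae ?_
      filter_upwards [ae_restrict_of_ae_restrict_of_subset hsubI hM,
        ae_restrict_of_ae_restrict_of_subset hsubI (polar_ae hGg)] with ρ h2 h3
      rw [intervalIntegral.integral_of_le (by linarith [Real.pi_pos]),
        intervalIntegral.integral_of_le (by linarith [Real.pi_pos]),
        integral_Ioc_eq_integral_Ioo, integral_Ioc_eq_integral_Ioo] at h2
      rw [← ofReal_norm, Real.norm_eq_abs]
      refine (ENNReal.ofReal_le_ofReal h2).trans ((ofReal_int_le fun φ => hg0 _).trans ?_)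
      exact (lintegral_congr_ae h3).le
    refine h1.trans ?_
    have hm : Measurable fun p : ℝ × ℝ => G (p.1 * exp (p.2 * I) : ℂ) := hG.comp meas_pt
    have h2 : ∫⁻ ρ in Ioo r r', ∫⁻ φ in Ioo (-Real.pi) Real.pi, G (ρ * exp (φ * I)) =
        ∫⁻ p in bx r r', G (p.1 * exp (p.2 * I)) := by
      rw [bx, Measure.volume_eq_prod, ← Measure.prod_restrict, lintegral_prod _ hm.aemeasurable]
    rw [h2, polar_ann G r' hr.le]
    refine lintegral_mono_set fun z hz => ?_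
    rw [mem_closedBall_zero_iff]
    exact hz.2.le.trans hr'
  obtain ⟨r', hr', hs'⟩ := good_rad hS le_rfl hR0 (by linarith)
  set B1 := Mc v r' + K.toReal with hB1
  have hev : ∀ᶠ z in 𝓝[U] (0:ℂ), (B1 + 1) / (2 * Real.pi) ≤ v z := hT.eventually_ge_atTop _
  rw [eventually_nhdsWithin_iff, Metric.eventually_nhds_iff] at hev
  obtain ⟨δ, hδ, hv1⟩ := hev
  obtain ⟨r, hr, hs⟩ := good_rad hS le_rfl (y := min δ r') (lt_min hδ hr'.1)
    ((min_le_right _ _).trans (by linarith [hr'.2]))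
  have hr0 : 0 < r := hr.1
  have h1 := hbd r r' hr0 (hr.2.le.trans (min_le_right _ _)) hr'.2.le hs hs'
  have h2 : |Mc v r' - Mc v r| ≤ K.toReal := by
    have h3 := ENNReal.toReal_mono hK h1
    rwa [toReal_enorm, Real.norm_eq_abs] at h3
  have h3 : B1 + 1 ≤ Mc v r := by
    have h4 : ∫ _ in Ioo (-Real.pi) Real.pi, (B1 + 1) / (2 * Real.pi) ≤ Mc v r := by
      refine integral_mono (integrable_const _) (Mc_int hv hr0 hs) fun φ => ?_
      refine hv1 ?_ ?_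
      · rw [dist_zero_right, norm_pt hr0.le]
        exact hr.2.trans_le (min_le_left _ _)
      · refine hs ?_
        rw [mem_sphere_zero_iff_norm, norm_pt hr0.le]
    rw [integral_const, measureReal_restrict_apply_univ, Real.volume_real_Ioo_of_le
      (by linarith [Real.pi_pos]), smul_eq_mul] at h4
    have h5 : (Real.pi - -Real.pi) * ((B1 + 1) / (2 * Real.pi)) = B1 + 1 := by
      have := Real.pi_pos.ne'
      field_simp
      ring
    rwa [h5] at h4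
  have h4 := (abs_le.1 h2).1
  linarith

end

end Crest.Agent.R235.KGL4_847
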