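import Crest.Agent.R235.KG_460

/-! # REG-B: basics of k-valued graphs and Stokes for pair sums -/

namespace Crest.Agent.R235.KGa_460

open Complex Metric Set MeasureTheory Filter Topology
open Crest.Agent.R235.KG_460

variable {k : ℕ} {D : Set ℂ}

theorem psum_perm (F : Fin k → Fin k → ℝ) (τ : Equiv.Perm (Fin k)) :
    psum k (fun i j => F (τ i) (τ j)) = psum k F := by
  unfold psum
  rw [← Equiv.sum_comp τ (fun i => ∑ j, if i = j then 0 else F i j)]
  refine Finset.sum_congr rfl fun i _ => ?_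
  rw [← Equiv.sum_comp τ (fun j => if τ i = j then 0 else F (τ i) j)]
  refine Finset.sum_congr rfl fun j _ => ?_
  simp [τ.injective.eq_iff]

theorem sum_perm (F : Fin k → ℝ) (τ : Equiv.Perm (Fin k)) :
    ∑ i, F (τ i) = ∑ i, F i := Equiv.sum_comp τ F

/-- nice local sheets. -/
theorem sheets (G : KG k D) (hD : IsOpen D) {p : ℂ} (hp : p ∈ G.U) :
    ∃ r > 0, ball p r ⊆ G.U ∧ ∃ f : Fin k → ℂ → ℂ,
      (∀ i, ContDiffOn ℝ 2 (f i) (ball p r)) ∧
      (∀ z ∈ ball p r, Function.Injective (fun i => f i z)) ∧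
      ∀ z ∈ ball p r, ∃ τ : Equiv.Perm (Fin k), ∀ i, G.s z (τ i) = f i z ∧
        G.A z (τ i) = fderiv ℝ (f i) z := by
  obtain ⟨r0, hr0, f, hf, hs⟩ := G.loc p hp.1 hp.2
  have hinj : Function.Injective (fun i => f i p) := by
    obtain ⟨τ, hτ⟩ := hs p (mem_ball_self hr0)
    intro i j hij
    have : G.s p (τ i) = G.s p (τ j) := by rw [(hτ i).1, (hτ j).1]; exact hij
    exact τ.injective (hp.2 this)
  have hcont : ∀ i, ContinuousAt (f i) p := fun i =>
    ((hf i).continuousOn).continuousAt (ball_mem_nhds p hr0)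
  have hev : ∀ᶠ z in 𝓝 p, ∀ i j, i ≠ j → f i z ≠ f j z := by
    rw [eventually_all]; intro i
    rw [eventually_all]; intro j
    by_cases hij : i = j
    · exact Eventually.of_forall fun z h => absurd hij h
    · have : f i p ≠ f j p := fun h => hij (hinj h)
      exact (((hcont i).sub (hcont j)).eventually_ne (sub_ne_zero.2 this)).mono fun z hz _ h =>
        hz (sub_eq_zero.2 h)
  have hDn : ∀ᶠ z in 𝓝 p, z ∈ D := hD.mem_nhds hp.1
  obtain ⟨r1, hr1, h1⟩ := Metric.eventually_nhds_iff_ball.1 (hev.and hDn)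
  refine ⟨min r0 r1, lt_min hr0 hr1, ?_, f, ?_, ?_, ?_⟩
  · intro z hz
    have hz0 : z ∈ ball p r0 := ball_subset_ball (min_le_left _ _) hz
    have hz1 := h1 z (ball_subset_ball (min_le_right _ _) hz)
    refine ⟨hz1.2, ?_⟩
    obtain ⟨τ, hτ⟩ := hs z hz0
    intro i j hij
    by_contra hne
    have h2 : f (τ.symm i) z = f (τ.symm j) z := by
      rw [← (hτ (τ.symm i)).1, ← (hτ (τ.symm j)).1]; simpa using hij
    exact hz1.1 _ _ (fun h => hne (τ.symm.injective h)) h2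
  · exact fun i => (hf i).mono (ball_subset_ball (min_le_left _ _))
  · intro z hz i j hij
    by_contra hne
    exact (h1 z (ball_subset_ball (min_le_right _ _) hz)).1 i j hne hij
  · exact fun z hz => hs z (ball_subset_ball (min_le_left _ _) hz)

theorem isOpen_U (G : KG k D) (hD : IsOpen D) : IsOpen G.U := by
  rw [Metric.isOpen_iff]
  intro p hp
  obtain ⟨r, hr, hU, -⟩ := sheets G hD hp
  exact ⟨r, hr, hU⟩

theorem bad_eq (G : KG k D) : G.Bad = D \ G.U := by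
  ext z
  simp only [KG.Bad, KG.U, mem_ofPred_eq, Set.mem_sdiff]
  tauto

theorem U_eq (G : KG k D) : G.U = D \ G.Bad := by
  ext z
  simp only [KG.Bad, KG.U, mem_ofPred_eq, Set.mem_sdiff]
  tauto

theorem zs_sub_bad (hk : 2 ≤ k) (G : KG k D) : G.Zs ⊆ G.Bad := by
  intro z hz
  refine ⟨hz.1, fun hinj => ?_⟩
  have h := hz.2 ⟨0, by omega⟩ ⟨1, by omega⟩
  have h2 := hinj h
  simp [Fin.ext_iff] at h2

/-- evaluation of pair sums with local sheets. -/
theorem psum_local (G : KG k D) {z : ℂ} {f : Fin k → ℂ → ℂ}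
    (h : ∃ τ : Equiv.Perm (Fin k), ∀ i, G.s z (τ i) = f i z ∧ G.A z (τ i) = fderiv ℝ (f i) z)
    (Φ : ℂ → ℂ → (ℂ →L[ℝ] ℂ) → (ℂ →L[ℝ] ℂ) → ℝ) :
    psum k (fun i j => Φ (G.s z i) (G.s z j) (G.A z i) (G.A z j)) =
      psum k (fun i j => Φ (f i z) (f j z) (fderiv ℝ (f i) z) (fderiv ℝ (f j) z)) := by
  obtain ⟨τ, hτ⟩ := h
  rw [← psum_perm _ τ]
  simp only [(hτ _).1, (hτ _).2]

theorem sum_local (G : KG k D) {z : ℂ} {f : Fin k → ℂ → ℂ}
    (h : ∃ τ : Equiv.Perm (Fin k), ∀ i, G.s z (τ i) = f i z ∧ G.A z (τ i) = fderiv ℝ (f i) z)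
    (Φ : ℂ → (ℂ →L[ℝ] ℂ) → ℝ) :
    ∑ i, Φ (G.s z i) (G.A z i) = ∑ i, Φ (f i z) (fderiv ℝ (f i) z) := by
  obtain ⟨τ, hτ⟩ := h
  rw [← sum_perm _ τ]
  simp only [(hτ _).1, (hτ _).2]

/-- pair sums of continuous expressions are continuous on `U`. -/
theorem contOn_psum (G : KG k D) (hD : IsOpen D)
    (Φ : ℂ → ℂ → ℂ → (ℂ →L[ℝ] ℂ) → (ℂ →L[ℝ] ℂ) → ℝ)
    (hΦ : ∀ z w w' : ℂ, ∀ A A' : ℂ →L[ℝ] ℂ, w ≠ w' →
      ContinuousAt (fun x : ℂ × ℂ × ℂ × (ℂ →L[ℝ] ℂ) × (ℂ →L[ℝ] ℂ) =>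
        Φ x.1 x.2.1 x.2.2.1 x.2.2.2.1 x.2.2.2.2) (z, w, w', A, A')) :
    ContinuousOn (fun z => psum k (fun i j => Φ z (G.s z i) (G.s z j) (G.A z i) (G.A z j)))
      G.U := by
  intro p hp
  obtain ⟨r, hr, hU, f, hf, hinj, hs⟩ := sheets G hD hp
  have hEq : (fun z => psum k (fun i j => Φ z (G.s z i) (G.s z j) (G.A z i) (G.A z j))) =ᶠ[𝓝 p]
      fun z => psum k (fun i j => Φ z (f i z) (f j z) (fderiv ℝ (f i) z) (fderiv ℝ (f j) z)) := by
    filter_upwards [ball_mem_nhds p hr] with z hz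
    exact psum_local G (hs z hz) (Φ z)
  refine ContinuousAt.continuousWithinAt (ContinuousAt.congr ?_ hEq.symm)
  have hfc : ∀ i, ContinuousAt (f i) p := fun i =>
    ((hf i).continuousOn).continuousAt (ball_mem_nhds p hr)
  have hfd : ∀ i, ContinuousAt (fderiv ℝ (f i)) p := fun i =>
    ((hf i).continuousOn_fderiv_of_isOpen isOpen_ball (by norm_num)).continuousAt
      (ball_mem_nhds p hr)
  unfold psum
  refine tendsto_finsetSum _ fun i _ => tendsto_finsetSum _ fun j _ => ?_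
  by_cases hij : i = j
  · simp [hij]
  · simp only [hij, if_false]
    have hne : f i p ≠ f j p := fun h => hij (hinj p (mem_ball_self hr) h)
    exact ContinuousAt.comp (f := fun z => (z, f i z, f j z, fderiv ℝ (f i) z, fderiv ℝ (f j) z))
      (hΦ p (f i p) (f j p) _ _ hne)
      (continuousAt_id.prodMk ((hfc i).prodMk ((hfc j).prodMk ((hfd i).prodMk (hfd j)))))

theorem contOn_sum (G : KG k D) (hD : IsOpen D)
    (Φ : ℂ → ℂ → (ℂ →L[ℝ] ℂ) → ℝ)
    (hΦ : Continuous (fun x : ℂ × ℂ × (ℂ →L[ℝ] ℂ) => Φ x.1 x.2.1 x.2.2)) :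
    ContinuousOn (fun z => ∑ i, Φ z (G.s z i) (G.A z i)) G.U := by
  intro p hp
  obtain ⟨r, hr, hU, f, hf, hinj, hs⟩ := sheets G hD hp
  have hEq : (fun z => ∑ i, Φ z (G.s z i) (G.A z i)) =ᶠ[𝓝 p]
      fun z => ∑ i, Φ z (f i z) (fderiv ℝ (f i) z) := by
    filter_upwards [ball_mem_nhds p hr] with z hz
    exact sum_local G (hs z hz) (Φ z)
  refine ContinuousAt.continuousWithinAt (ContinuousAt.congr ?_ hEq.symm)
  have hfc : ∀ i, ContinuousAt (f i) p := fun i =>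
    ((hf i).continuousOn).continuousAt (ball_mem_nhds p hr)
  have hfd : ∀ i, ContinuousAt (fderiv ℝ (f i)) p := fun i =>
    ((hf i).continuousOn_fderiv_of_isOpen isOpen_ball (by norm_num)).continuousAt
      (ball_mem_nhds p hr)
  refine tendsto_finsetSum _ fun i _ => ?_
  exact hΦ.continuousAt.comp (f := fun z => (z, f i z, fderiv ℝ (f i) z))
    (continuousAt_id.prodMk ((hfc i).prodMk (hfd i)))

theorem en_contOn (G : KG k D) (hD : IsOpen D) : ContinuousOn G.en G.U :=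
  contOn_sum G hD (fun _ _ A => ‖A‖ ^ 2) (by fun_prop)

/-- near a point of `Zs` all `v_ij` are large. -/
theorem v_large (G : KG k D) {p : ℂ} (hp : p ∈ G.Zs) (N : ℝ) :
    ∀ᶠ z in 𝓝 p, z ∈ G.U → ∀ i j, i ≠ j → N ≤ G.v z i j := by
  have he : 0 < Real.exp (-N) / 2 := by positivity
  filter_upwards [G.cont p hp.1 _ he] with z hz hzU i j hij
  obtain ⟨τ, hτ⟩ := hz
  have hi := hτ (τ.symm i)
  have hj := hτ (τ.symm j)
  rw [Equiv.apply_symm_apply] at hi hj
  rw [hp.2 (τ.symm j) (τ.symm i)] at hj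
  have hne : G.s z i - G.s z j ≠ 0 := sub_ne_zero.2 fun h => hij (hzU.2 h)
  have h1 : ‖G.s z i - G.s z j‖ ≤ Real.exp (-N) := by
    calc ‖G.s z i - G.s z j‖ = ‖(G.s z i - G.s p (τ.symm i)) - (G.s z j - G.s p (τ.symm i))‖ := by
          congr 1; ring
      _ ≤ ‖G.s z i - G.s p (τ.symm i)‖ + ‖G.s z j - G.s p (τ.symm i)‖ := norm_sub_le _ _
      _ ≤ Real.exp (-N) := by linarith
  unfold KG.v
  have h2 : Real.log ‖G.s z i - G.s z j‖ ≤ -N := by
    calc Real.log ‖G.s z i - G.s z j‖ ≤ Real.log (Real.exp (-N)) :=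
          Real.log_le_log (norm_pos_iff.2 hne) h1
      _ = -N := Real.log_exp _
  linarith

end Crest.Agent.R235.KGa_460
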