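import Crest.Agent.R235.KGa_460

/-! # REG-B: the closed one-form `d arg (ζ_i - ζ_j)` and one pair -/

namespace Crest.Agent.R235.KGb_460

open Complex Metric Set MeasureTheory Filter Topology
open Crest.Agent.R235.KG_460

theorem hasFDerivAt_neglog {δ : ℂ → ℂ} {p : ℂ} {δ' : ℂ →L[ℝ] ℂ} (hδ : HasFDerivAt δ δ' p)
    (h0 : δ p ≠ 0) :
    HasFDerivAt (fun z => - Real.log ‖δ z‖) (-(reCLM.comp ((δ p)⁻¹ • δ'))) p := by
  have hn0 : normSq (δ p) ≠ 0 := by simpa [normSq_eq_zero] using h0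
  have hre : HasFDerivAt (fun z => (δ z).re) (reCLM.comp δ') p := reCLM.hasFDerivAt.comp p hδ
  have him : HasFDerivAt (fun z => (δ z).im) (imCLM.comp δ') p := imCLM.hasFDerivAt.comp p hδ
  have h1 : HasFDerivAt (fun z => (δ z).re * (δ z).re + (δ z).im * (δ z).im) _ p :=
    (hre.mul hre).add (him.mul him)
  have h2 : (fun z => - Real.log ‖δ z‖) =
      fun z => -(1 / 2) * Real.log ((δ z).re * (δ z).re + (δ z).im * (δ z).im) := by
    funext z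
    have : ‖δ z‖ = Real.sqrt ((δ z).re * (δ z).re + (δ z).im * (δ z).im) := by
      rw [Complex.norm_def, normSq_apply]
    rw [this, Real.log_sqrt (by nlinarith [mul_self_nonneg (δ z).re, mul_self_nonneg (δ z).im])]
    ring
  rw [h2]
  have hpos : (δ p).re * (δ p).re + (δ p).im * (δ p).im ≠ 0 := by
    rw [← normSq_apply]; exact hn0
  have h3 := (h1.log hpos).const_mul (-(1 / 2) : ℝ)
  refine h3.congr_fderiv ?_
  ext w
  simp only [_root_.smul_apply, _root_.add_apply,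
    ContinuousLinearMap.comp_apply, reCLM_apply, imCLM_apply, smul_eq_mul,
    _root_.neg_apply, mul_re, inv_re, inv_im, normSq_apply]
  field_simp
  ring

theorem contDiffAt_neglog {δ : ℂ → ℂ} {p : ℂ} {n : ℕ∞} (hδ : ContDiffAt ℝ n δ p)
    (h0 : δ p ≠ 0) : ContDiffAt ℝ n (fun z => - Real.log ‖δ z‖) p :=
  ((hδ.norm ℝ h0).log (norm_ne_zero_iff.2 h0)).neg

/-- one pair -/
theorem one_pair {δ : ℂ → ℂ} {p : ℂ} (hδ : ContDiffAt ℝ 2 δ p) (h0 : δ p ≠ 0)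
    {T T' : ℝ → ℝ} (hT : ∀ t, HasDerivAt T (T' t) t) (hT' : Continuous T') :
    (∀ w, ContDiffAt ℝ 1 (fun z => T (- Real.log ‖δ z‖) * ((δ z)⁻¹ * fderiv ℝ δ z w).im) p) ∧
    fderiv ℝ (fun z => T (- Real.log ‖δ z‖) * ((δ z)⁻¹ * fderiv ℝ δ z I).im) p 1 -
      fderiv ℝ (fun z => T (- Real.log ‖δ z‖) * ((δ z)⁻¹ * fderiv ℝ δ z 1).im) p I =
      T' (- Real.log ‖δ p‖) * wedge (-(reCLM.comp ((δ p)⁻¹ • fderiv ℝ δ p)))
        (imCLM.comp ((δ p)⁻¹ • fderiv ℝ δ p)) := by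
  have hTd : Differentiable ℝ T := fun t => (hT t).differentiableAt
  have hTc : ContDiff ℝ 1 T := by
    rw [show (1 : WithTop ℕ∞) = 0 + 1 from rfl, contDiff_succ_iff_deriv]
    refine ⟨hTd, by simp, ?_⟩
    have : deriv T = T' := funext fun t => (hT t).deriv
    rw [this]; exact contDiff_zero.2 hT'
  have hδ1 : ContDiffAt ℝ 1 δ p := hδ.of_le (by norm_num)
  have hV : ContDiffAt ℝ 1 (fun z => - Real.log ‖δ z‖) p := contDiffAt_neglog (n := 1) hδ1 h0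
  have hTV : ContDiffAt ℝ 1 (fun z => T (- Real.log ‖δ z‖)) p := hTc.contDiffAt.comp p hV
  have hinv : ContDiffAt ℝ 1 (fun z => (δ z)⁻¹) p := hδ1.inv h0
  have hfd : ContDiffAt ℝ 1 (fderiv ℝ δ) p := hδ.fderiv_right (m := 1) (by norm_num)
  have hfw : ∀ w : ℂ, ContDiffAt ℝ 1 (fun z => fderiv ℝ δ z w) p := fun w =>
    hfd.clm_apply contDiffAt_const
  have hTh : ∀ w : ℂ, ContDiffAt ℝ 1 (fun z => ((δ z)⁻¹ * fderiv ℝ δ z w).im) p := fun w =>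
    imCLM.contDiff.contDiffAt.comp p (hinv.mul (hfw w))
  refine ⟨fun w => hTV.mul (hTh w), ?_⟩
  -- derivatives
  have hδd : HasFDerivAt δ (fderiv ℝ δ p) p := (hδ1.differentiableAt (by norm_num)).hasFDerivAt
  have hVd := hasFDerivAt_neglog hδd h0
  have hTVd : HasFDerivAt (fun z => T (- Real.log ‖δ z‖))
      (T' (- Real.log ‖δ p‖) • (-(reCLM.comp ((δ p)⁻¹ • fderiv ℝ δ p)))) p :=
    (hT _).comp_hasFDerivAt p hVd
  have hDD : HasFDerivAt (fderiv ℝ δ) (fderiv ℝ (fderiv ℝ δ) p) p :=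
    (hfd.differentiableAt (by norm_num)).hasFDerivAt
  have hsym : IsSymmSndFDerivAt ℝ δ p := hδ.isSymmSndFDerivAt (by simp)
  have hinvd : HasFDerivAt (fun z => (δ z)⁻¹) (-((δ p) ^ 2)⁻¹ • fderiv ℝ δ p) p := by
    have h := ((hasDerivAt_inv h0).hasFDerivAt.restrictScalars ℝ).comp p hδd
    refine h.congr_fderiv ?_
    ext w
    simp [mul_comm]
  have hThd : ∀ w : ℂ, ∃ L : ℂ →L[ℝ] ℝ, HasFDerivAt (fun z => ((δ z)⁻¹ * fderiv ℝ δ z w).im) L p ∧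
      ∀ u, L u = (-((δ p) ^ 2)⁻¹ * fderiv ℝ δ p u * fderiv ℝ δ p w +
        (δ p)⁻¹ * fderiv ℝ (fderiv ℝ δ) p u w).im := by
    intro w
    have h1 : HasFDerivAt (fun z => fderiv ℝ δ z w)
        ((ContinuousLinearMap.apply ℝ ℂ w).comp (fderiv ℝ (fderiv ℝ δ) p)) p :=
      (ContinuousLinearMap.apply ℝ ℂ w).hasFDerivAt.comp p hDD
    have h2 := imCLM.hasFDerivAt.comp p (hinvd.mul h1)
    refine ⟨_, h2, fun u => ?_⟩
    simp only [ContinuousLinearMap.comp_apply, _root_.add_apply,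
      _root_.smul_apply, ContinuousLinearMap.apply_apply, imCLM_apply, smul_eq_mul]
    congr 1; ring
  obtain ⟨L1, hL1, hL1'⟩ := hThd 1
  obtain ⟨LI, hLI, hLI'⟩ := hThd I
  have e1 : fderiv ℝ (fun z => T (- Real.log ‖δ z‖) * ((δ z)⁻¹ * fderiv ℝ δ z I).im) p = _ :=
    (hTVd.mul hLI).fderiv
  have e2 : fderiv ℝ (fun z => T (- Real.log ‖δ z‖) * ((δ z)⁻¹ * fderiv ℝ δ z 1).im) p = _ :=
    (hTVd.mul hL1).fderiv
  rw [e1, e2]
  have hs : fderiv ℝ (fderiv ℝ δ) p 1 I = fderiv ℝ (fderiv ℝ δ) p I 1 := hsym 1 I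
  simp only [wedge, _root_.add_apply, _root_.smul_apply,
    ContinuousLinearMap.comp_apply, _root_.neg_apply, reCLM_apply, imCLM_apply,
    smul_eq_mul, hL1', hLI', hs]
  have : (-((δ p) ^ 2)⁻¹ * fderiv ℝ δ p 1 * fderiv ℝ δ p I + (δ p)⁻¹ * fderiv ℝ (fderiv ℝ δ) p I 1)
      = (-((δ p) ^ 2)⁻¹ * fderiv ℝ δ p I * fderiv ℝ δ p 1 +
        (δ p)⁻¹ * fderiv ℝ (fderiv ℝ δ) p I 1) := by ring
  rw [this]
  ring

end Crest.Agent.R235.KGb_460
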