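import Crest.Agent.R235.KGb_460

/-! # REG-B: Stokes for pair sums (SP) -/

namespace Crest.Agent.R235.KGc_460

open Complex Metric Set MeasureTheory Filter Topology
open Crest.Agent.R235.KG_460 Crest.Agent.R235.KGa_460 Crest.Agent.R235.KGb_460

variable {k : ℕ} {D : Set ℂ}

theorem wedge_le (α β : ℂ →L[ℝ] ℝ) : |wedge α β| ≤ 2 * (‖α‖ * ‖β‖) := by
  unfold wedge
  have h1 : |α 1| ≤ ‖α‖ := by simpa using α.le_opNorm 1
  have h2 : |α I| ≤ ‖α‖ := by simpa using α.le_opNorm I
  have h3 : |β 1| ≤ ‖β‖ := by simpa using β.le_opNorm 1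
  have h4 : |β I| ≤ ‖β‖ := by simpa using β.le_opNorm I
  calc |α 1 * β I - α I * β 1| ≤ |α 1 * β I| + |α I * β 1| := abs_sub _ _
    _ = |α 1| * |β I| + |α I| * |β 1| := by rw [abs_mul, abs_mul]
    _ ≤ ‖α‖ * ‖β‖ + ‖α‖ * ‖β‖ := by gcongr
    _ = 2 * (‖α‖ * ‖β‖) := by ring

theorem psum_le {F : Fin k → Fin k → ℝ} {c : ℝ} (hc : 0 ≤ c) (h : ∀ i j, i ≠ j → |F i j| ≤ c) :
    |psum k F| ≤ (k : ℝ) ^ 2 * c := by
  unfold psum
  calc |∑ i, ∑ j, if i = j then 0 else F i j| ≤ ∑ i : Fin k, |∑ j, if i = j then 0 else F i j| :=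
        Finset.abs_sum_le_sum_abs _ _
    _ ≤ ∑ i : Fin k, ∑ j : Fin k, c := by
        refine Finset.sum_le_sum fun i _ => ?_
        refine (Finset.abs_sum_le_sum_abs _ _).trans (Finset.sum_le_sum fun j _ => ?_)
        by_cases hij : i = j
        · simpa [hij] using hc
        · simpa [hij] using h i j hij
    _ = (k : ℝ) ^ 2 * c := by simp; ring

theorem psum_congr {F H : Fin k → Fin k → ℝ} (h : ∀ i j, i ≠ j → F i j = H i j) :
    psum k F = psum k H := by
  unfold psum
  refine Finset.sum_congr rfl fun i _ => Finset.sum_congr rfl fun j _ => ?_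
  by_cases hij : i = j
  · simp [hij]
  · simp [hij, h i j hij]

theorem psum_zero {F : Fin k → Fin k → ℝ} (h : ∀ i j, i ≠ j → F i j = 0) : psum k F = 0 := by
  rw [psum_congr h]
  simp [psum]

theorem psum_add (F H : Fin k → Fin k → ℝ) :
    psum k (fun i j => F i j + H i j) = psum k F + psum k H := by
  unfold psum
  rw [← Finset.sum_add_distrib]
  refine Finset.sum_congr rfl fun i _ => ?_
  rw [← Finset.sum_add_distrib]
  refine Finset.sum_congr rfl fun j _ => ?_
  by_cases hij : i = j <;> simp [hij]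

theorem psum_sub (F H : Fin k → Fin k → ℝ) :
    psum k (fun i j => F i j - H i j) = psum k F - psum k H := by
  unfold psum
  rw [← Finset.sum_sub_distrib]
  refine Finset.sum_congr rfl fun i _ => ?_
  rw [← Finset.sum_sub_distrib]
  refine Finset.sum_congr rfl fun j _ => ?_
  by_cases hij : i = j <;> simp [hij]

theorem psum_mul (c : ℝ) (F : Fin k → Fin k → ℝ) :
    psum k (fun i j => c * F i j) = c * psum k F := by
  unfold psum
  rw [Finset.mul_sum]
  refine Finset.sum_congr rfl fun i _ => ?_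
  rw [Finset.mul_sum]
  refine Finset.sum_congr rfl fun j _ => ?_
  by_cases hij : i = j <;> simp [hij]

theorem psum_mono {F H : Fin k → Fin k → ℝ} (h : ∀ i j, i ≠ j → F i j ≤ H i j) :
    psum k F ≤ psum k H := by
  unfold psum
  refine Finset.sum_le_sum fun i _ => Finset.sum_le_sum fun j _ => ?_
  by_cases hij : i = j
  · simp [hij]
  · simp [hij, h i j hij]

theorem psum_nonneg {F : Fin k → Fin k → ℝ} (h : ∀ i j, i ≠ j → 0 ≤ F i j) : 0 ≤ psum k F := by
  rw [← psum_zero (k := k) (F := fun _ _ => 0) (fun _ _ _ => rfl)]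
  exact psum_mono h

/-- integrability of expressions bounded by the energy density. -/
theorem intOn (G : KG k D) (hD : IsOpen D)
    (hen : ∀ K ⊆ D, IsCompact K → IntegrableOn G.en (K ∩ G.U)) {F : ℂ → ℝ}
    (hF : ContinuousOn F G.U) {K : Set ℂ} (hK : IsCompact K) (hKD : K ⊆ D)
    (hF0 : ∀ z ∉ K, F z = 0) {C : ℝ} (hC : ∀ z ∈ G.U, |F z| ≤ C * (1 + G.en z)) :
    IntegrableOn F G.U := by
  have hUm : MeasurableSet G.U := (isOpen_U G hD).measurableSet
  have hKU : MeasurableSet (K ∩ G.U) := hK.measurableSet.inter hUm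
  have h1 : IntegrableOn F (K ∩ G.U) := by
    have hb : IntegrableOn (fun z => C * (1 + G.en z)) (K ∩ G.U) := by
      refine Integrable.const_mul ?_ C
      refine Integrable.add ?_ (hen K hKD hK)
      have : IntegrableOn (fun _ : ℂ => (1 : ℝ)) (K ∩ G.U) :=
        integrableOn_const (ne_of_lt (lt_of_le_of_lt (measure_mono inter_subset_left)
          hK.measure_lt_top)) (by simp)
      exact this
    refine Integrable.mono' hb ?_ ?_
    · exact (hF.mono inter_subset_right).aestronglyMeasurable hKU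
    · refine (ae_restrict_iff' hKU).2 (Eventually.of_forall fun z hz => ?_)
      rw [Real.norm_eq_abs]; exact hC z hz.2
  refine h1.of_forall_sdiff_eq_zero hUm fun z hz => hF0 z fun hzK => hz.2 ⟨hzK, hz.1⟩

theorem norm_A_le (G : KG k D) (z : ℂ) (i : Fin k) : ‖G.A z i‖ ≤ Real.sqrt (1 + G.en z) := by
  refine Real.le_sqrt_of_sq_le ?_
  have : ‖G.A z i‖ ^ 2 ≤ G.en z := by
    unfold KG.en
    exact Finset.single_le_sum (f := fun i => ‖G.A z i‖ ^ 2) (fun i _ => by positivity)
      (Finset.mem_univ i)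
  linarith

theorem en_nonneg (G : KG k D) (z : ℂ) : 0 ≤ G.en z := by
  unfold KG.en; positivity

theorem norm_l_le (G : KG k D) {z : ℂ} (hz : z ∈ G.U) {i j : Fin k} (hij : i ≠ j) {N0 : ℝ}
    (hv : G.v z i j ≤ N0) : ‖G.l z i j‖ ≤ 2 * Real.exp N0 * Real.sqrt (1 + G.en z) := by
  have hne : G.s z i - G.s z j ≠ 0 := sub_ne_zero.2 fun h => hij (hz.2 h)
  have h1 : ‖(G.s z i - G.s z j)⁻¹‖ ≤ Real.exp N0 := by
    rw [norm_inv]
    have : Real.exp (G.v z i j) = ‖G.s z i - G.s z j‖⁻¹ := by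
      unfold KG.v
      rw [Real.exp_neg, Real.exp_log (norm_pos_iff.2 hne)]
    rw [← this]
    exact Real.exp_le_exp.2 hv
  unfold KG.l
  rw [norm_smul]
  calc ‖(G.s z i - G.s z j)⁻¹‖ * ‖G.A z i - G.A z j‖
      ≤ Real.exp N0 * (‖G.A z i‖ + ‖G.A z j‖) := by
        gcongr; exact norm_sub_le _ _
    _ ≤ Real.exp N0 * (Real.sqrt (1 + G.en z) + Real.sqrt (1 + G.en z)) := by
        gcongr
        · exact norm_A_le G z i
        · exact norm_A_le G z j
    _ = 2 * Real.exp N0 * Real.sqrt (1 + G.en z) := by ring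

theorem norm_dth_le (G : KG k D) (z : ℂ) (i j : Fin k) : ‖G.dth z i j‖ ≤ ‖G.l z i j‖ := by
  unfold KG.dth
  calc ‖imCLM.comp (G.l z i j)‖ ≤ ‖imCLM‖ * ‖G.l z i j‖ := ContinuousLinearMap.opNorm_comp_le _ _
    _ = ‖G.l z i j‖ := by rw [imCLM_norm, one_mul]

theorem norm_dv_le (G : KG k D) (z : ℂ) (i j : Fin k) : ‖G.dv z i j‖ ≤ ‖G.l z i j‖ := by
  unfold KG.dv
  calc ‖- reCLM.comp (G.l z i j)‖ = ‖reCLM.comp (G.l z i j)‖ := norm_neg _
    _ ≤ ‖reCLM‖ * ‖G.l z i j‖ := ContinuousLinearMap.opNorm_comp_le _ _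
    _ = ‖G.l z i j‖ := by rw [reCLM_norm, one_mul]

theorem dth_apply (G : KG k D) (z : ℂ) (i j : Fin k) (w : ℂ) :
    G.dth z i j w = ((G.s z i - G.s z j)⁻¹ * (G.A z i w - G.A z j w)).im := by
  simp [KG.dth, KG.l]

/-- local structure of the pair sums at a good point. -/
theorem local_curl (G : KG k D) (hD : IsOpen D) {T T' : ℝ → ℝ}
    (hT : ∀ t, HasDerivAt T (T' t) t) (hT' : Continuous T') {p : ℂ} (hp : p ∈ G.U) :
    (∀ w : ℂ, ContDiffAt ℝ 1 (fun z => psum k fun i j => T (G.v z i j) * G.dth z i j w) p) ∧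
    fderiv ℝ (fun z => psum k fun i j => T (G.v z i j) * G.dth z i j I) p 1 -
      fderiv ℝ (fun z => psum k fun i j => T (G.v z i j) * G.dth z i j 1) p I =
      psum k fun i j => T' (G.v p i j) * wedge (G.dv p i j) (G.dth p i j) := by
  obtain ⟨r, hr, hU, f, hf, hinj, hs⟩ := sheets G hD hp
  have hball := ball_mem_nhds p hr
  have hfd : ∀ i, ∀ z ∈ ball p r, DifferentiableAt ℝ (f i) z := fun i z hz =>
    ((hf i).differentiableOn (by norm_num)).differentiableAt (isOpen_ball.mem_nhds hz)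
  have hfderiv : ∀ i j, ∀ z ∈ ball p r, fderiv ℝ (fun z => f i z - f j z) z =
      fderiv ℝ (f i) z - fderiv ℝ (f j) z := fun i j z hz =>
    ((hfd i z hz).hasFDerivAt.sub (hfd j z hz).hasFDerivAt).fderiv
  set a : Fin k → Fin k → ℂ → ℂ → ℝ := fun i j w z =>
    T (- Real.log ‖(fun z => f i z - f j z) z‖) *
      (((fun z => f i z - f j z) z)⁻¹ * fderiv ℝ (fun z => f i z - f j z) z w).im with ha
  have hEq : ∀ w : ℂ, (fun z => psum k fun i j => T (G.v z i j) * G.dth z i j w) =ᶠ[𝓝 p]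
      fun z => psum k fun i j => a i j w z := by
    intro w
    filter_upwards [hball] with z hz
    have h1 := psum_local G (hs z hz) (fun w1 w2 A1 A2 =>
      T (- Real.log ‖w1 - w2‖) * ((w1 - w2)⁻¹ * (A1 w - A2 w)).im)
    simp only [dth_apply, KG.v]
    rw [h1]
    simp only [ha, hfderiv _ _ z hz, _root_.sub_apply]
  have hδ : ∀ i j, ContDiffAt ℝ 2 (fun z => f i z - f j z) p := fun i j =>
    ((hf i).contDiffAt hball).sub ((hf j).contDiffAt hball)
  have hδ0 : ∀ i j, i ≠ j → (fun z => f i z - f j z) p ≠ 0 := fun i j hij =>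
    sub_ne_zero.2 fun h => hij (hinj p (mem_ball_self hr) h)
  have hone : ∀ i j, i ≠ j → _ := fun i j hij => one_pair (hδ i j) (hδ0 i j hij) hT hT'
  have hcd : ∀ w : ℂ, ContDiffAt ℝ 1 (fun z => psum k fun i j => a i j w z) p := by
    intro w
    unfold psum
    refine ContDiffAt.sum fun i _ => ContDiffAt.sum fun j _ => ?_
    by_cases hij : i = j
    · simp only [hij, if_true]; exact contDiffAt_const
    · simp only [hij, if_false]; exact (hone i j hij).1 w
  refine ⟨fun w => (hcd w).congr_of_eventuallyEq (hEq w), ?_⟩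
  rw [(hEq I).fderiv_eq, (hEq 1).fderiv_eq]
  have hfd2 : ∀ w : ℂ, fderiv ℝ (fun z => psum k fun i j => a i j w z) p =
      ∑ i, ∑ j, if i = j then 0 else fderiv ℝ (a i j w) p := by
    intro w
    refine HasFDerivAt.fderiv ?_
    unfold psum
    refine HasFDerivAt.fun_sum fun i _ => HasFDerivAt.fun_sum fun j _ => ?_
    by_cases hij : i = j
    · simp only [hij, if_true]; exact hasFDerivAt_const _ _
    · simp only [hij, if_false]
      exact (((hone i j hij).1 w).differentiableAt (by norm_num)).hasFDerivAt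
  rw [hfd2 I, hfd2 1]
  have hpp : p ∈ ball p r := mem_ball_self hr
  have h2 := psum_local G (hs p hpp) (fun w1 w2 A1 A2 =>
      T' (- Real.log ‖w1 - w2‖) * wedge (-(reCLM.comp ((w1 - w2)⁻¹ • (A1 - A2))))
        (imCLM.comp ((w1 - w2)⁻¹ • (A1 - A2))))
  have h3 : (psum k fun i j => T' (G.v p i j) * wedge (G.dv p i j) (G.dth p i j)) =
      psum k fun i j => T' (- Real.log ‖f i p - f j p‖) *
        wedge (-(reCLM.comp ((f i p - f j p)⁻¹ • (fderiv ℝ (f i) p - fderiv ℝ (f j) p))))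
        (imCLM.comp ((f i p - f j p)⁻¹ • (fderiv ℝ (f i) p - fderiv ℝ (f j) p))) := h2
  rw [h3]
  unfold psum
  simp only [_root_.sum_apply]
  rw [← Finset.sum_sub_distrib]
  refine Finset.sum_congr rfl fun i _ => ?_
  rw [← Finset.sum_sub_distrib]
  refine Finset.sum_congr rfl fun j _ => ?_
  by_cases hij : i = j
  · simp [hij]
  · simp only [hij, if_false]
    have := (hone i j hij).2
    rw [hfderiv i j p hpp] at this
    exact this

end Crest.Agent.R235.KGc_460
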