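import Crest.Agent.R235.KGc_460

/-! # REG-B: theorem (SP) -/

namespace Crest.Agent.R235.KGd_460

open Complex Metric Set MeasureTheory Filter Topology
open Crest.Agent.R235.KG_460 Crest.Agent.R235.KGa_460 Crest.Agent.R235.KGb_460
open Crest.Agent.R235.KGc_460

variable {k : ℕ} {D : Set ℂ}

/-- a function `T` of class `C¹` with support bounded above, is bounded on `[c0, ∞)`. -/
theorem bound_T {T : ℝ → ℝ} (hT : Continuous T) {N0 : ℝ} (hT0 : ∀ t ≥ N0, T t = 0) (c0 : ℝ) :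
    ∃ C ≥ 0, ∀ t ≥ c0, |T t| ≤ C := by
  obtain ⟨C, hC⟩ := (isCompact_Icc (a := c0) (b := N0)).exists_bound_of_continuousOn
    (f := T) hT.continuousOn
  refine ⟨max C 0, le_max_right _ _, fun t ht => ?_⟩
  by_cases h : t ≤ N0
  · exact (hC t ⟨ht, h⟩).trans (le_max_left _ _)
  · rw [hT0 t (by linarith), abs_zero]; exact le_max_right _ _

theorem v_ge (G : KG k D) {Mb : ℝ} (hbdd : ∀ z ∈ D, ∀ i, ‖G.s z i‖ ≤ Mb) {z : ℂ} (hz : z ∈ G.U)
    {i j : Fin k} (hij : i ≠ j) : - Real.log (2 * Mb) ≤ G.v z i j := by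
  have hne : G.s z i - G.s z j ≠ 0 := sub_ne_zero.2 fun h => hij (hz.2 h)
  unfold KG.v
  have h1 : ‖G.s z i - G.s z j‖ ≤ 2 * Mb := by
    calc ‖G.s z i - G.s z j‖ ≤ ‖G.s z i‖ + ‖G.s z j‖ := norm_sub_le _ _
      _ ≤ 2 * Mb := by linarith [hbdd z hz.1 i, hbdd z hz.1 j]
  linarith [Real.log_le_log (norm_pos_iff.2 hne) h1]

/-- continuity on `U` of the pair sums which occur. -/
theorem cont_S (G : KG k D) (hD : IsOpen D) {T : ℝ → ℝ} (hT : Continuous T) (w : ℂ) :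
    ContinuousOn (fun z => psum k fun i j => T (G.v z i j) * G.dth z i j w) G.U := by
  have h := contOn_psum G hD (fun _ w1 w2 A1 A2 =>
      T (- Real.log ‖w1 - w2‖) * ((w1 - w2)⁻¹ * (A1 w - A2 w)).im) ?_
  · refine h.congr fun z _ => ?_
    simp only [dth_apply, KG.v]
  · intro z w1 w2 A A' hne
    have hs : w1 - w2 ≠ 0 := sub_ne_zero.2 hne
    have c1 : ContinuousAt (fun x : ℂ × ℂ × ℂ × (ℂ →L[ℝ] ℂ) × (ℂ →L[ℝ] ℂ) => x.2.1 - x.2.2.1)
        (z, w1, w2, A, A') := by fun_prop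
    have c2 := (c1.norm).log (norm_ne_zero_iff.2 hs)
    have c3 := c1.inv₀ hs
    have c4 : ContinuousAt (fun x : ℂ × ℂ × ℂ × (ℂ →L[ℝ] ℂ) × (ℂ →L[ℝ] ℂ) =>
        x.2.2.2.1 w - x.2.2.2.2 w) (z, w1, w2, A, A') := by fun_prop
    exact (hT.continuousAt.comp c2.neg).mul (continuous_im.continuousAt.comp (c3.mul c4))

theorem cont_W (G : KG k D) (hD : IsOpen D) {T : ℝ → ℝ} (hT : Continuous T) :
    ContinuousOn (fun z => psum k fun i j => T (G.v z i j) * wedge (G.dv z i j) (G.dth z i j))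
      G.U := by
  have h := contOn_psum G hD (fun _ w1 w2 A1 A2 =>
      T (- Real.log ‖w1 - w2‖) * wedge (-(reCLM.comp ((w1 - w2)⁻¹ • (A1 - A2))))
        (imCLM.comp ((w1 - w2)⁻¹ • (A1 - A2)))) ?_
  · exact h
  · intro z w1 w2 A A' hne
    have hs : w1 - w2 ≠ 0 := sub_ne_zero.2 hne
    have c1 : ContinuousAt (fun x : ℂ × ℂ × ℂ × (ℂ →L[ℝ] ℂ) × (ℂ →L[ℝ] ℂ) => x.2.1 - x.2.2.1)
        (z, w1, w2, A, A') := by fun_prop
    have c2 := (c1.norm).log (norm_ne_zero_iff.2 hs)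
    have c3 := c1.inv₀ hs
    have c4 : ∀ w : ℂ, ContinuousAt (fun x : ℂ × ℂ × ℂ × (ℂ →L[ℝ] ℂ) × (ℂ →L[ℝ] ℂ) =>
        x.2.2.2.1 w - x.2.2.2.2 w) (z, w1, w2, A, A') := fun w => by fun_prop
    refine (hT.continuousAt.comp c2.neg).mul ?_
    unfold wedge
    simp only [ContinuousLinearMap.comp_apply, _root_.neg_apply, _root_.smul_apply,
      _root_.sub_apply, reCLM_apply, imCLM_apply, smul_eq_mul]
    have c5 : ∀ w : ℂ, ContinuousAt (fun x : ℂ × ℂ × ℂ × (ℂ →L[ℝ] ℂ) × (ℂ →L[ℝ] ℂ) =>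
        ((x.2.1 - x.2.2.1)⁻¹ * (x.2.2.2.1 w - x.2.2.2.2 w)).re) (z, w1, w2, A, A') := fun w =>
      continuous_re.continuousAt.comp (c3.mul (c4 w))
    have c6 : ∀ w : ℂ, ContinuousAt (fun x : ℂ × ℂ × ℂ × (ℂ →L[ℝ] ℂ) × (ℂ →L[ℝ] ℂ) =>
        ((x.2.1 - x.2.2.1)⁻¹ * (x.2.2.2.1 w - x.2.2.2.2 w)).im) (z, w1, w2, A, A') := fun w =>
      continuous_im.continuousAt.comp (c3.mul (c4 w))
    exact (((c5 1).neg.mul (c6 I)).sub ((c5 I).neg.mul (c6 1)))

theorem psum_wedge (G : KG k D) (z : ℂ) (α : ℂ →L[ℝ] ℝ) (T : ℝ → ℝ) :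
    (psum k fun i j => T (G.v z i j) * wedge α (G.dth z i j)) =
      α 1 * (psum k fun i j => T (G.v z i j) * G.dth z i j I) -
        α I * (psum k fun i j => T (G.v z i j) * G.dth z i j 1) := by
  rw [← psum_mul, ← psum_mul, ← psum_sub]
  refine psum_congr fun i j _ => ?_
  unfold wedge; ring

/-- (SP): Stokes for pair sums. -/
theorem sp (hL1 : L1) (G : KG k D) (hD : IsOpen D) {Mb : ℝ}
    (hbdd : ∀ z ∈ D, ∀ i, ‖G.s z i‖ ≤ Mb)
    (hen : ∀ K ⊆ D, IsCompact K → IntegrableOn G.en (K ∩ G.U))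
    (hfin : ∀ K ⊆ D \ G.Zs, IsCompact K → (G.Bad ∩ K).Finite)
    {T T' : ℝ → ℝ} (hT : ∀ t, HasDerivAt T (T' t) t) (hT' : Continuous T')
    {N0 : ℝ} (hT0 : ∀ t ≥ N0, T t = 0) (hT0' : ∀ t ≥ N0, T' t = 0)
    {φ : ℂ → ℝ} (hφ : ContDiff ℝ 1 φ) (hφc : HasCompactSupport φ) (hφD : tsupport φ ⊆ D) :
    IntegrableOn (fun z => psum k fun i j => T (G.v z i j) * wedge (fderiv ℝ φ z) (G.dth z i j))
      G.U ∧
    IntegrableOn (fun z => φ z * psum k fun i j =>
      T' (G.v z i j) * wedge (G.dv z i j) (G.dth z i j)) G.U ∧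
    (∫ z in G.U, psum k fun i j => T (G.v z i j) * wedge (fderiv ℝ φ z) (G.dth z i j)) +
      (∫ z in G.U, φ z * psum k fun i j =>
        T' (G.v z i j) * wedge (G.dv z i j) (G.dth z i j)) = 0 := by
  have hUo : IsOpen G.U := isOpen_U G hD
  have hUm : MeasurableSet G.U := hUo.measurableSet
  have hTc : Continuous T := continuous_iff_continuousAt.2 fun t => (hT t).continuousAt
  obtain ⟨CT, hCT0, hCT⟩ := bound_T hTc hT0 (- Real.log (2 * Mb))
  obtain ⟨CT', hCT0', hCT'⟩ := bound_T hT' hT0' (- Real.log (2 * Mb))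
  obtain ⟨Cφ, hCφ⟩ : ∃ C, ∀ z, ‖φ z‖ ≤ C := hφ.continuous.bounded_above_of_compact_support hφc
  have hφd : Continuous (fderiv ℝ φ) := hφ.continuous_fderiv (by norm_num)
  obtain ⟨Cφ', hCφ'⟩ : ∃ C, ∀ z, ‖fderiv ℝ φ z‖ ≤ C :=
    hφd.bounded_above_of_compact_support (hφc.fderiv (𝕜 := ℝ))
  have hCφ0 : 0 ≤ Cφ := (norm_nonneg _).trans (hCφ 0)
  have hCφ0' : 0 ≤ Cφ' := (norm_nonneg _).trans (hCφ' 0)
  set EN : ℝ := 2 * Real.exp N0 with hEN
  have hEN0 : 0 ≤ EN := by positivity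
  -- pointwise bounds
  have b1 : ∀ z ∈ G.U, ∀ i j, i ≠ j → |T (G.v z i j)| * ‖G.l z i j‖ ≤
      CT * (EN * Real.sqrt (1 + G.en z)) := by
    intro z hz i j hij
    by_cases hv : G.v z i j ≤ N0
    · exact mul_le_mul (hCT _ (v_ge G hbdd hz hij)) (norm_l_le G hz hij hv) (norm_nonneg _) hCT0
    · rw [hT0 _ (by linarith), abs_zero, zero_mul]; positivity
  have b2 : ∀ z ∈ G.U, ∀ i j, i ≠ j → |T' (G.v z i j)| * ‖G.l z i j‖ ^ 2 ≤
      CT' * (EN ^ 2 * (1 + G.en z)) := by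
    intro z hz i j hij
    have hen0 := en_nonneg G z
    by_cases hv : G.v z i j ≤ N0
    · have h := norm_l_le G hz hij hv
      have h2 : ‖G.l z i j‖ ^ 2 ≤ EN ^ 2 * (1 + G.en z) := by
        calc ‖G.l z i j‖ ^ 2 ≤ (EN * Real.sqrt (1 + G.en z)) ^ 2 := by gcongr
          _ = EN ^ 2 * (1 + G.en z) := by rw [mul_pow, Real.sq_sqrt (by linarith)]
      exact mul_le_mul (hCT' _ (v_ge G hbdd hz hij)) h2 (by positivity) hCT0'
    · rw [hT0' _ (by linarith), abs_zero, zero_mul]; positivity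
  set S : ℂ → ℂ → ℝ := fun w z => psum k fun i j => T (G.v z i j) * G.dth z i j w with hS
  set W : ℂ → ℝ := fun z => psum k fun i j =>
    T' (G.v z i j) * wedge (G.dv z i j) (G.dth z i j) with hW
  have bS : ∀ z ∈ G.U, ∀ w, ‖w‖ = 1 → |S w z| ≤ (k : ℝ) ^ 2 * (CT * (EN * Real.sqrt (1 + G.en z))) := by
    intro z hz w hw
    refine psum_le (by positivity) fun i j hij => ?_
    rw [abs_mul]
    have h1 : |G.dth z i j w| ≤ ‖G.l z i j‖ := by
      have := (G.dth z i j).le_opNorm w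
      rw [hw, mul_one] at this
      exact this.trans (norm_dth_le G z i j)
    exact (mul_le_mul_of_nonneg_left h1 (abs_nonneg _)).trans (b1 z hz i j hij)
  have bW : ∀ z ∈ G.U, |W z| ≤ (k : ℝ) ^ 2 * (2 * (CT' * (EN ^ 2 * (1 + G.en z)))) := by
    intro z hz
    have hen0 := en_nonneg G z
    refine psum_le (by positivity) fun i j hij => ?_
    rw [abs_mul]
    have h1 : |wedge (G.dv z i j) (G.dth z i j)| ≤ 2 * ‖G.l z i j‖ ^ 2 := by
      refine (wedge_le _ _).trans ?_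
      have := norm_dv_le G z i j
      have := norm_dth_le G z i j
      calc 2 * (‖G.dv z i j‖ * ‖G.dth z i j‖) ≤ 2 * (‖G.l z i j‖ * ‖G.l z i j‖) := by gcongr
        _ = 2 * ‖G.l z i j‖ ^ 2 := by ring
    calc |T' (G.v z i j)| * |wedge (G.dv z i j) (G.dth z i j)|
        ≤ |T' (G.v z i j)| * (2 * ‖G.l z i j‖ ^ 2) := by gcongr
      _ = 2 * (|T' (G.v z i j)| * ‖G.l z i j‖ ^ 2) := by ring
      _ ≤ 2 * (CT' * (EN ^ 2 * (1 + G.en z))) := by
          have := b2 z hz i j hij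
          linarith
  have hsq : ∀ z, Real.sqrt (1 + G.en z) ≤ 1 + G.en z := by
    intro z
    have hen0 := en_nonneg G z
    rw [Real.sqrt_le_left (by linarith)]
    nlinarith
  have contS : ∀ w, ContinuousOn (S w) G.U := fun w => cont_S G hD hTc w
  have contW : ContinuousOn W G.U := cont_W G hD hT'
  have hφz : ∀ z ∉ tsupport φ, φ z = 0 := fun z hz => image_eq_zero_of_notMem_tsupport hz
  have hφz' : ∀ z ∉ tsupport φ, fderiv ℝ φ z = 0 := fun z hz =>
    image_eq_zero_of_notMem_tsupport fun h => hz (tsupport_fderiv_subset ℝ h)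
  have hKc : IsCompact (tsupport φ) := hφc
  -- integrand pieces
  have hI1 : (fun z => psum k fun i j => T (G.v z i j) * wedge (fderiv ℝ φ z) (G.dth z i j)) =
      fun z => fderiv ℝ φ z 1 * S I z - fderiv ℝ φ z I * S 1 z := by
    funext z; exact psum_wedge G z _ T
  have int1 : IntegrableOn (fun z => fderiv ℝ φ z 1 * S I z - fderiv ℝ φ z I * S 1 z) G.U := by
    refine intOn G hD hen (K := tsupport φ) ?_ hKc hφD ?_
      (C := 2 * (Cφ' * ((k : ℝ) ^ 2 * (CT * EN)))) ?_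
    · exact (((hφd.clm_apply continuous_const).continuousOn).mul (contS I)).sub
        (((hφd.clm_apply continuous_const).continuousOn).mul (contS 1))
    · intro z hz; simp [hφz' z hz]
    · intro z hz
      have e1 : |fderiv ℝ φ z 1| ≤ Cφ' := by
        have := (fderiv ℝ φ z).le_opNorm 1
        simp only [norm_one, mul_one] at this
        exact this.trans (hCφ' z)
      have e2 : |fderiv ℝ φ z I| ≤ Cφ' := by
        have := (fderiv ℝ φ z).le_opNorm I
        simp only [norm_I, mul_one] at this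
        exact this.trans (hCφ' z)
      have e3 := bS z hz I norm_I
      have e4 := bS z hz 1 norm_one
      have hs := hsq z
      calc |fderiv ℝ φ z 1 * S I z - fderiv ℝ φ z I * S 1 z|
          ≤ |fderiv ℝ φ z 1| * |S I z| + |fderiv ℝ φ z I| * |S 1 z| := by
            rw [← abs_mul, ← abs_mul]; exact abs_sub _ _
        _ ≤ Cφ' * ((k : ℝ) ^ 2 * (CT * (EN * Real.sqrt (1 + G.en z)))) +
            Cφ' * ((k : ℝ) ^ 2 * (CT * (EN * Real.sqrt (1 + G.en z)))) := by gcongr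
        _ = 2 * (Cφ' * ((k : ℝ) ^ 2 * (CT * EN))) * Real.sqrt (1 + G.en z) := by ring
        _ ≤ 2 * (Cφ' * ((k : ℝ) ^ 2 * (CT * EN))) * (1 + G.en z) := by gcongr
  have int2 : IntegrableOn (fun z => φ z * W z) G.U := by
    refine intOn G hD hen (K := tsupport φ) ?_ hKc hφD ?_
      (C := Cφ * ((k : ℝ) ^ 2 * (2 * (CT' * EN ^ 2)))) ?_
    · exact hφ.continuous.continuousOn.mul contW
    · intro z hz; simp [hφz z hz]
    · intro z hz
      rw [abs_mul]
      calc |φ z| * |W z| ≤ Cφ * ((k : ℝ) ^ 2 * (2 * (CT' * (EN ^ 2 * (1 + G.en z))))) :=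
            mul_le_mul (hCφ z) (bW z hz) (abs_nonneg _) hCφ0
        _ = Cφ * ((k : ℝ) ^ 2 * (2 * (CT' * EN ^ 2))) * (1 + G.en z) := by ring
  rw [hI1]
  refine ⟨int1, int2, ?_⟩
  -- the one-form
  set P : ℂ → ℂ → ℝ := fun w => G.U.indicator fun z => φ z * S w z with hP
  -- the set where everything vanishes near Zs
  set O : Set ℂ := {z | ∀ᶠ z' in 𝓝 z, z' ∈ G.U → ∀ i j, i ≠ j → N0 ≤ G.v z' i j} with hO
  have hOo : IsOpen O := by
    rw [isOpen_iff_eventually]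
    intro z hz
    exact eventually_eventually_nhds.2 hz
  have hZO : G.Zs ⊆ O := fun z hz => v_large G hz N0
  set K' : Set ℂ := tsupport φ \ O with hK'
  have hK'c : IsCompact K' := hKc.diff hOo
  have hK'D : K' ⊆ D \ G.Zs := fun z hz => ⟨hφD hz.1, fun h => hz.2 (hZO h)⟩
  have hBf := hfin K' hK'D hK'c
  set B : Finset ℂ := hBf.toFinset with hB
  have hS0 : ∀ z ∈ O, ∀ w, ∀ᶠ z' in 𝓝 z, P w z' = 0 := by
    intro z hz w
    filter_upwards [show ∀ᶠ z' in 𝓝 z, z' ∈ G.U → ∀ i j, i ≠ j → N0 ≤ G.v z' i j from hz]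
      with z' hz'
    by_cases hU : z' ∈ G.U
    · simp only [hP, indicator_of_mem hU]
      have : S w z' = 0 := psum_zero fun i j hij => by rw [hT0 _ (hz' hU i j hij), zero_mul]
      rw [this, mul_zero]
    · simp only [hP, indicator_of_notMem hU]
  have hφ0 : ∀ z ∉ tsupport φ, ∀ w, ∀ᶠ z' in 𝓝 z, P w z' = 0 := by
    intro z hz w
    have : (tsupport φ)ᶜ ∈ 𝓝 z := (isClosed_tsupport φ).isOpen_compl.mem_nhds hz
    filter_upwards [this] with z' hz'
    by_cases hU : z' ∈ G.U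
    · simp only [hP, indicator_of_mem hU, hφz z' hz', zero_mul]
    · simp only [hP, indicator_of_notMem hU]
  have hPU : ∀ z ∈ G.U, ∀ w, P w =ᶠ[𝓝 z] fun z => φ z * S w z := by
    intro z hz w
    filter_upwards [hUo.mem_nhds hz] with z' hz'
    simp only [hP, indicator_of_mem hz']
  have htri : ∀ z ∉ B, z ∉ G.U → ∀ w, ∀ᶠ z' in 𝓝 z, P w z' = 0 := by
    intro z hzB hzU w
    by_cases hzs : z ∈ tsupport φ
    · by_cases hzO : z ∈ O
      · exact hS0 z hzO w
      · exfalso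
        apply hzB
        rw [hB, Set.Finite.mem_toFinset]
        refine ⟨?_, hzs, hzO⟩
        rw [bad_eq]
        exact ⟨hφD hzs, hzU⟩
    · exact hφ0 z hzs w
  have hSd : ∀ z ∈ G.U, ∀ w : ℂ, ContDiffAt ℝ 1 (S w) z := fun z hz =>
    (local_curl G hD hT hT' hz).1
  have hPd : ∀ w, ∀ z ∉ B, ContDiffAt ℝ 1 (P w) z := by
    intro w z hz
    by_cases hU : z ∈ G.U
    · exact (hφ.contDiffAt.mul (hSd z hU w)).congr_of_eventuallyEq (hPU z hU w)
    · exact (contDiffAt_const (c := (0 : ℝ))).congr_of_eventuallyEq (htri z hz hU w)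
  have hPc : ∀ w, HasCompactSupport (P w) := by
    intro w
    refine HasCompactSupport.intro hKc fun z hz => ?_
    exact (hφ0 z hz w).self_of_nhds
  -- curl
  have hcurlU : ∀ z ∈ G.U, fderiv ℝ (P I) z 1 - fderiv ℝ (P 1) z I =
      (fderiv ℝ φ z 1 * S I z - fderiv ℝ φ z I * S 1 z) + φ z * W z := by
    intro z hz
    have hc := (local_curl G hD hT hT' hz).2
    have hφz1 : HasFDerivAt φ (fderiv ℝ φ z) z :=
      ((hφ.differentiable (by norm_num)) z).hasFDerivAt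
    have hSI : HasFDerivAt (S I) (fderiv ℝ (S I) z) z :=
      ((hSd z hz I).differentiableAt (by norm_num)).hasFDerivAt
    have hS1 : HasFDerivAt (S 1) (fderiv ℝ (S 1) z) z :=
      ((hSd z hz 1).differentiableAt (by norm_num)).hasFDerivAt
    rw [(hPU z hz I).fderiv_eq, (hPU z hz 1).fderiv_eq]
    have e1 : fderiv ℝ (fun z => φ z * S I z) z = _ := (hφz1.mul hSI).fderiv
    have e2 : fderiv ℝ (fun z => φ z * S 1 z) z = _ := (hφz1.mul hS1).fderiv
    rw [e1, e2]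
    simp only [_root_.add_apply, _root_.smul_apply, smul_eq_mul]
    have : fderiv ℝ (S I) z 1 - fderiv ℝ (S 1) z I = W z := hc
    rw [← this]; ring
  have hcurl0 : ∀ z ∉ B, z ∉ G.U → fderiv ℝ (P I) z 1 - fderiv ℝ (P 1) z I = 0 := by
    intro z hzB hzU
    have h1 : P I =ᶠ[𝓝 z] fun _ => 0 := htri z hzB hzU I
    have h2 : P 1 =ᶠ[𝓝 z] fun _ => 0 := htri z hzB hzU 1
    rw [h1.fderiv_eq, h2.fderiv_eq]; simp
  set R : ℂ → ℝ := G.U.indicator fun z =>
    (fderiv ℝ φ z 1 * S I z - fderiv ℝ φ z I * S 1 z) + φ z * W z with hR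
  have hBae : ∀ᵐ z : ℂ, z ∉ B := by
    have : volume (B : Set ℂ) = 0 := B.finite_toSet.measure_zero _
    rw [measure_eq_zero_iff_ae_notMem] at this
    simpa using this
  have hae : (fun z => fderiv ℝ (P I) z 1 - fderiv ℝ (P 1) z I) =ᵐ[volume] R := by
    filter_upwards [hBae] with z hz
    by_cases hU : z ∈ G.U
    · rw [hcurlU z hU, hR, indicator_of_mem hU]
    · rw [hcurl0 z hz hU, hR, indicator_of_notMem hU]
  have hRi : Integrable R := by
    rw [hR, integrable_indicator_iff hUm]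
    exact int1.add int2
  have hci : Integrable (fun z => fderiv ℝ (P I) z 1 - fderiv ℝ (P 1) z I) := hRi.congr hae.symm
  have hPi : Integrable (fun z => P 1 z ^ 2 + P I z ^ 2) := by
    have h2 : ∀ w, ‖w‖ = 1 → IntegrableOn (fun z => (φ z * S w z) ^ 2) G.U := by
      intro w hw
      refine intOn G hD hen (K := tsupport φ) ?_ hKc hφD ?_
        (C := (Cφ * ((k : ℝ) ^ 2 * (CT * EN))) ^ 2) ?_
      · exact (hφ.continuous.continuousOn.mul (contS w)).pow 2
      · intro z hz; simp [hφz z hz]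
      · intro z hz
        have hen0 := en_nonneg G z
        rw [abs_of_nonneg (sq_nonneg _), ← sq_abs, abs_mul]
        calc (|φ z| * |S w z|) ^ 2
            ≤ (Cφ * ((k : ℝ) ^ 2 * (CT * (EN * Real.sqrt (1 + G.en z))))) ^ 2 := by
              have e1 : |φ z| ≤ Cφ := hCφ z
              have e2 := bS z hz w hw
              gcongr
          _ = (Cφ * ((k : ℝ) ^ 2 * (CT * EN))) ^ 2 * Real.sqrt (1 + G.en z) ^ 2 := by ring
          _ = (Cφ * ((k : ℝ) ^ 2 * (CT * EN))) ^ 2 * (1 + G.en z) := by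
              rw [Real.sq_sqrt (by linarith)]
    have h3 : (fun z => P 1 z ^ 2 + P I z ^ 2) = G.U.indicator fun z =>
        (φ z * S 1 z) ^ 2 + (φ z * S I z) ^ 2 := by
      funext z
      by_cases hU : z ∈ G.U
      · simp only [hP, indicator_of_mem hU]
      · simp [hP, indicator_of_notMem hU]
    rw [h3, integrable_indicator_iff hUm]
    exact (h2 1 norm_one).add (h2 I norm_I)
  have hmain := hL1 B (P 1) (P I) (hPc 1) (hPc I) (hPd 1) (hPd I) hPi hci
  rw [integral_congr_ae hae, hR, integral_indicator hUm, integral_add int1 int2] at hmain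
  exact hmain

end Crest.Agent.R235.KGd_460
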