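import Crest.Agent.R235.KSegm_604

/-!
Row 235, KUM-K5 (helper604): the first segment: from the standardised triple to the realisation of
its lift.
-/

set_option autoImplicit false
set_option maxSynthPendingDepth 3
set_option linter.unusedSectionVars false

open Set Function Filter
open scoped Manifold ContDiff Topology RealInnerProductSpace

universe u

namespace Crest.Agent.R235.KInit_604

open Crest.Agent.R240 Crest.Agent.R240.Ch Crest.Agent.R235 Crest.Agent.R235.PB_604
  Crest.Agent.R235.KLin_604 Crest.Agent.R235.KT_604 Crest.Agent.R235.KGlue_604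
  Crest.Agent.R235.KForm_604 Crest.Agent.R235.K12_417 Crest.Agent.R235.KUp_604
  Crest.Agent.R235.KReal_604 Crest.Agent.R235.KState_604 Crest.Agent.R235.KSegm_604

noncomputable section

lemma posB_diag {c : Fin 3 → Bil} (hc : PosB c) {k : Fin 3 → ℝ} (hk : ∀ a, 0 < k a) :
    PosB fun a => k a • c a := by
  intro x hx
  have h1 : ∑ i, x i • k i • c i = ∑ i, (x i * k i) • c i := by
    simp only [smul_smul]
  rw [h1]
  refine hc _ fun h0 => hx (funext fun i => ?_)
  have := congrFun h0 i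
  exact (mul_eq_zero.1 this).resolve_right (hk i).ne'

section Init

variable {M : Type u} [TopologicalSpace M] [T2Space M] [CompactSpace M]
  [ChartedSpace E4 M] [IsManifold 𝓘(ℝ, E4) ∞ M]
  {m : ℕ} {σ : Fin m → E3 → M} {w : Trip M} {R r₀ : Fin m → ℝ} {g : Fin m → ℝ → ℝ}
  {K : KIn M m}
  {X : Type u} [TopologicalSpace X] [T2Space X] [CompactSpace X]
  [ChartedSpace E4 X] [IsManifold 𝓘(ℝ, E4) ∞ X]
  {O : KOut K X} {C : ℝ} {u : Trip X}

lemma chf_init (hl : LiftT w O R r₀ u) (i : Fin m) (a : Fin 3) {z : E4}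
    (hz : z ∈ Metric.ball (0 : E4) 1) : chf O u i a z = R i • et a := by
  ext v v'
  show pl (D1 E4 E4 (O.ch i) z) (val (u a) (O.ch i z)) v v' = R i * et a v v'
  rw [pl_apply]
  fin_cases a
  · exact (hl.flat0 i z hz v v').trans (by rw [← et_qI]; rfl)
  · exact (hl.flat1 i z hz v v').trans (by rw [← et_qJ]; rfl)
  · exact (hl.flat2 i z hz v v').trans (by rw [← et_qK]; rfl)

lemma cc_init (hl : LiftT w O R r₀ u) (i : Fin m) : cc O u i = ket (R i) :=
  funext fun a => chf_init hl i a (by simp)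

lemma st_init (hS : Std σ w K.phi 1 R r₀ g) (hl : LiftT w O R r₀ u) :
    St O u fun _ _ => ContinuousLinearMap.id ℝ E4 := by
  refine ⟨hl.even, fun i => ?_, fun i => ?_, fun i s _ => ⟨contDiffAt_const, fun v hv => hv⟩,
    fun i => rfl, fun i => ?_⟩
  · rw [cc_init hl]; exact ket_def3 (hS.R_pos i)
  · rw [cc_init hl]; exact NN_ket (hS.R_pos i)
  · show ContinuousLinearMap.id ℝ E4 = AA (cc O u i)
    rw [cc_init hl, AA_ket (hS.R_pos i)]

lemma prim_init (hl : LiftT w O R r₀ u) : Prim O u fun _ _ _ => 0 := by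
  refine ⟨fun i a => ⟨fun z _ => contDiffAt_const, fun z => neg_zero.symm⟩, fun i a z hz => ?_,
    fun i a => ⟨0, le_rfl, fun z _ => ⟨by simp, ?_⟩⟩⟩
  · rw [chf_init hl i a hz, chf_init hl i a (by simp), sub_self]
    exact d1_zero_of_ev (Eventually.of_forall fun _ => rfl)
  · have h : fderiv ℝ (fun _ : E4 => (0 : E4 →L[ℝ] ℝ)) z = 0 := fderiv_const_apply 0
    rw [h]; simp

lemma nu_init {ε δ : ℝ} (P : Par g C ε δ) (hS : Std σ w K.phi 1 R r₀ g)
    (hl : LiftT w O R r₀ u) (i : Fin m) (a : Fin 3) (z : E4) :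
    nu P i (rD O u i) (FD P (fun _ _ => ContinuousLinearMap.id ℝ E4) i) (fun _ _ => 0) a z =
      R i • neckT (P.gd i) z a := by
  have h1 : fderiv ℝ (FD P (fun _ _ => ContinuousLinearMap.id ℝ E4) i) z =
      ContinuousLinearMap.id ℝ E4 := (ContinuousLinearMap.id ℝ E4).fderiv
  have h2 : d1 (fun y : E4 => P.χ y • (0 : E4 →L[ℝ] ℝ)) z = 0 :=
    d1_zero_of_ev (Eventually.of_forall fun _ => smul_zero _)
  have h3 : ∀ a b, rD O u i a b = if a = b then R i else 0 := by
    intro a b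
    show rho (cc O u i) a b = _
    rw [cc_init hl, rho_ket (hS.R_pos i)]
  unfold nu
  rw [h1, h2, add_zero, Fin.sum_univ_three, pl_id, pl_id, pl_id, h3, h3, h3]
  fin_cases a
  · show (R i • et 0 + (0 : ℝ) • et 1 + (0 : ℝ) • et 2) + R i • (d1 (lg (P.gd i)) z - et 0) =
      R i • d1 (lg (P.gd i)) z
    module
  · show ((0 : ℝ) • et 0 + R i • et 1 + (0 : ℝ) • et 2) + (0 : ℝ) • (d1 (lg (P.gd i)) z - et 0) =
      R i • et 1
    module
  · show ((0 : ℝ) • et 0 + (0 : ℝ) • et 1 + R i • et 2) + (0 : ℝ) • (d1 (lg (P.gd i)) z - et 0) =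
      R i • et 2
    module

lemma neckT_comb {g k : ℝ → ℝ} {z : E4} (hz : z ≠ 0) (hg : DifferentiableAt ℝ g (‖z‖ ^ 2))
    (hk : DifferentiableAt ℝ k (‖z‖ ^ 2)) (τ : ℝ) (a : Fin 3) :
    neckT (fun t => (1 - τ) * g t + τ * k t) z a = (1 - τ) • neckT g z a + τ • neckT k z a := by
  fin_cases a
  · exact d1_lg_comb hz hg hk (1 - τ) τ
  · show et 1 = (1 - τ) • et 1 + τ • et 1
    module
  · show et 2 = (1 - τ) • et 2 + τ • et 2
    module

lemma comb_pos {a b τ : ℝ} (ha : 0 < a) (hb : 0 < b) (h0 : 0 ≤ τ) (h1 : τ ≤ 1) :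
    0 < (1 - τ) * a + τ * b := by
  rcases eq_or_lt_of_le h0 with h2 | h2
  · rw [← h2]; simpa using ha
  · have := mul_pos h2 hb
    have h3 : 0 ≤ (1 - τ) * a := mul_nonneg (by linarith) ha.le
    linarith

/-- **the first segment**. -/
theorem init_step {ε δ : ℝ} (P : Par g C ε δ) (hS : Std σ w K.phi 1 R r₀ g) (hw : Pos3 w)
    (hu : Pos3 u) (hl : LiftT w O R r₀ u) {W0 : Trip M}
    (hW : Real w R O P u (rD O u) (FD P fun _ _ => ContinuousLinearMap.id ℝ E4)
      (fun _ _ _ => 0) W0) : Seg w W0 := by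
  intro τ h0 h1 y
  show PosB (fun a => (1 - τ) • val (w a) y + τ • val (W0 a) y)
  have halt : ∀ y a, Alt ((1 - τ) • val (w a) y + τ • val (W0 a) y) := by
    intro y a v
    show (1 - τ) * val (w a) y v v + τ * val (W0 a) y v v = 0
    rw [alt_val _ _ v, alt_val _ _ v]; ring
  have h3 : ∀ i a b, rD O u i a b = if a = b then R i else 0 := by
    intro i a b
    show rho (cc O u i) a b = _
    rw [cc_init hl, rho_ket (hS.R_pos i)]
  obtain ⟨r, hr1, hr, hrε⟩ : ∃ r : ℝ, r < 1 ∧ (∀ i, r₀ i ≤ r) ∧ ε ≤ r := by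
    have h1 : ∀ᶠ r in 𝓝[<] (1 : ℝ), ∀ i, r₀ i ≤ r := by
      refine eventually_all.2 fun i => ?_
      filter_upwards [Ioo_mem_nhdsLT (hS.r_pos i).2] with r hr
      exact hr.1.le
    have h2 : ∀ᶠ r in 𝓝[<] (1 : ℝ), ε ≤ r := by
      filter_upwards [Ioo_mem_nhdsLT P.ε_lt] with r hr
      exact hr.1.le
    obtain ⟨r, ⟨hr, hr3⟩, hr'⟩ := ((h1.and h2).and self_mem_nhdsWithin).exists
    exact ⟨r, hr', hr, hr3⟩
  rcases cases_M O hr1 y with ⟨i, hi⟩ | ⟨i, z, hz, rfl⟩ | ⟨x, hx, hx2, rfl⟩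
  · have h4 : ∀ a, val (W0 a) y = P.mu i a • val (w a) y := by
      intro a
      rw [hW.c i a y hi, Finset.sum_eq_single a]
      · rw [h3, if_pos rfl]
        congr 1
        have := (hS.R_pos i).ne'
        field_simp
      · intro b _ hb
        rw [h3, if_neg hb.symm, zero_mul, zero_smul]
      · intro h; exact absurd (Finset.mem_univ a) h
    have h5 : (fun a => (1 - τ) • val (w a) y + τ • val (W0 a) y) =
        fun a => ((1 - τ) * 1 + τ * P.mu i a) • val (w a) y := by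
      funext a
      rw [h4]
      module
    rw [h5]
    exact posB_diag (hw y) fun a => comb_pos one_pos (P.mu_pos i a) h0 h1
  · have hg := std_df hS i hz.1
    have hk := gd_df P i hz.1
    have hn := nsq_pos hz.1
    have hn1 := nsq_lt hz
    refine posB_of_pl (halt _) (K.imm i z hz)
      (c := fun a => R i • neckT (fun t => (1 - τ) * g i t + τ * P.gd i t) z a) (fun a => ?_) ?_
    · show pl (D1 E4 E4 (K.phi i) z) ((1 - τ) • val (w a) (K.phi i z)
        + τ • val (W0 a) (K.phi i z)) = _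
      rw [pl_add, pl_smul, pl_smul, std_pl hS i hz a, hW.n i a z hz]
      show _ + τ • nu P i (rD O u i) (FD P (fun _ _ => ContinuousLinearMap.id ℝ E4) i)
        (fun _ _ => 0) a z = _
      rw [nu_init P hS hl, neckT_comb hz.1 hg hk]
      module
    · refine posB_diag ?_ fun _ => hS.R_pos i
      have hd : HasDerivAt (fun t => (1 - τ) * g i t + τ * P.gd i t)
          ((1 - τ) * deriv (g i) (‖z‖ ^ 2) + τ * deriv (P.gd i) (‖z‖ ^ 2)) (‖z‖ ^ 2) :=
        (hg.hasDerivAt.const_mul _).fun_add (hk.hasDerivAt.const_mul _)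
      refine posB_neck hz.1 hd.differentiableAt ?_ ?_
      · exact comb_pos (hS.g_pos i _ hn hn1).1 (P.gd_pos i _ hn hn1).1 h0 h1
      · rw [hd.deriv]
        exact comb_pos (hS.g_pos i _ hn hn1).2 (P.gd_pos i _ hn hn1).2 h0 h1
  · refine posB_of_pl (halt _) (O.pr_imm x hx) (c := fun a => val (u a) x) (fun a => ?_) (hu x)
    show pl (D1 E4 E4 O.pr x) ((1 - τ) • val (w a) (O.pr x) + τ • val (W0 a) (O.pr x)) = _
    have e1 : pl (D1 E4 E4 O.pr x) (val (w a) (O.pr x)) = val (u a) x := by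
      ext v v'
      rw [pl_apply]
      refine (hl.pull a x (fun i hi => ?_) v v').symm
      obtain ⟨z, hz, hzx⟩ := hi
      refine hx2 i z ?_ hzx.symm
      have h4 : ‖z‖ < r₀ i := by simpa using hz
      exact h4.le.trans (hr i)
    rw [pl_add, pl_smul, pl_smul, e1, hW.o a x hx fun i z hz => hx2 i z (hz.trans hrε)]
    module

end Init

end

end Crest.Agent.R235.KInit_604
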