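import Crest.Agent.R240.Lin1
import Crest.Agent.R240.Ch3

/-!
Row 235 (S0364), package KUM, KDOWN leaf L6 (helper856): interpolation with the identity and
cut-off of a small primitive.
-/

set_option autoImplicit false
set_option maxSynthPendingDepth 3

open Set Function Filter Metric
open scoped ContDiff Topology

namespace Crest.Agent.R235.KInterp_856

open Crest.Agent.R240 Crest.Agent.R240.Ch

noncomputable section

theorem exists_interp (Θ : E4 → E4) (hΘ : ∀ z ∈ Metric.ball (0:E4) 1, ContDiffAt ℝ ∞ Θ z)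
    (h0 : Θ 0 = 0) (h1 : fderiv ℝ Θ 0 = ContinuousLinearMap.id ℝ E4) (C : ℝ) (hC : 0 < C) :
    ∃ C' : ℝ, 0 < C' ∧ ∀ ε : ℝ, 0 < ε → ε ≤ 1 / 2 → ∀ χ : E4 → ℝ, ContDiff ℝ ∞ χ →
      (∀ z, 0 ≤ χ z ∧ χ z ≤ 1) → (∀ z v, |fderiv ℝ χ z v| ≤ C / ε * ‖v‖) →
      ∀ z, ‖z‖ ≤ ε →
        ‖fderiv ℝ (fun y : E4 => y + χ y • (Θ y - y)) z - ContinuousLinearMap.id ℝ E4‖ ≤
          C' * ε := by
  set f : E4 → E4 := fun y => Θ y - y with hf
  have h0m : (0 : E4) ∈ ball (0 : E4) 1 := mem_ball_self one_pos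
  have hΘs : ContDiffOn ℝ ∞ Θ (ball 0 1) := fun z hz => (hΘ z hz).contDiffWithinAt
  have hfs : ContDiffOn ℝ ∞ f (ball 0 1) := hΘs.sub contDiff_id.contDiffOn
  have hfd : ∀ z ∈ ball (0 : E4) 1, DifferentiableAt ℝ f z := fun z hz =>
    (hfs.differentiableOn (by simp)).differentiableAt (isOpen_ball.mem_nhds hz)
  have hf0 : f 0 = 0 := by simp [hf, h0]
  have hfd0 : fderiv ℝ f 0 = 0 := by
    have h2 : HasFDerivAt f (fderiv ℝ Θ 0 - ContinuousLinearMap.id ℝ E4) 0 :=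
      ((hΘs.differentiableOn (by simp)).differentiableAt
        (isOpen_ball.mem_nhds h0m)).hasFDerivAt.sub (hasFDerivAt_id _)
    rw [h2.fderiv, h1, sub_self]
  have hf1 : ContDiffOn ℝ ∞ (fderiv ℝ f) (ball 0 1) :=
    hfs.fderiv_of_isOpen isOpen_ball (by simp)
  have hf2 : ContinuousOn (fderiv ℝ (fderiv ℝ f)) (ball 0 1) :=
    hf1.continuousOn_fderiv_of_isOpen isOpen_ball (by simp)
  have hsub : closedBall (0 : E4) (1 / 2) ⊆ ball 0 1 := closedBall_subset_ball (by norm_num)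
  obtain ⟨K, hK⟩ := (isCompact_closedBall (0 : E4) (1 / 2)).exists_bound_of_continuousOn
    (hf2.mono hsub)
  have hK0 : 0 ≤ K := (norm_nonneg _).trans (hK 0 (mem_closedBall_self (by norm_num)))
  have hb1 : ∀ z, ‖z‖ ≤ 1 / 2 → ‖fderiv ℝ f z‖ ≤ K * ‖z‖ := by
    intro z hz
    have h1 := (convex_closedBall (0 : E4) (1 / 2)).norm_image_sub_le_of_norm_fderiv_le (𝕜 := ℝ)
      (f := fderiv ℝ f) (C := K)
      (fun y hy => (hf1.differentiableOn (by simp)).differentiableAt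
        (isOpen_ball.mem_nhds (hsub hy))) hK
      (mem_closedBall_self (by norm_num)) (mem_closedBall_zero_iff.2 hz)
    rwa [hfd0, sub_zero, sub_zero] at h1
  have hb2 : ∀ z, ‖z‖ ≤ 1 / 2 → ‖f z‖ ≤ K * ‖z‖ * ‖z‖ := by
    intro z hz
    have h1 := (convex_closedBall (0 : E4) ‖z‖).norm_image_sub_le_of_norm_fderiv_le (𝕜 := ℝ)
      (f := f) (C := K * ‖z‖)
      (fun y hy => hfd y (hsub (closedBall_subset_closedBall hz hy)))
      (fun y hy => (hb1 y ((mem_closedBall_zero_iff.1 hy).trans hz)).trans (by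
        gcongr; exact mem_closedBall_zero_iff.1 hy))
      (mem_closedBall_self (norm_nonneg _)) (mem_closedBall_zero_iff.2 le_rfl)
    rwa [hf0, sub_zero, sub_zero] at h1
  refine ⟨K * (1 + C) + 1, by positivity, fun ε hε hε2 χ hχ hχb hχd z hz => ?_⟩
  have hz2 : ‖z‖ ≤ 1 / 2 := hz.trans hε2
  have hzb : z ∈ ball (0 : E4) 1 := hsub (mem_closedBall_zero_iff.2 hz2)
  have hd : HasFDerivAt (fun y : E4 => y + χ y • (Θ y - y))
      (ContinuousLinearMap.id ℝ E4 + (χ z • fderiv ℝ f z + (fderiv ℝ χ z).smulRight (f z))) z :=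
    (hasFDerivAt_id z).add
      (((hχ.differentiable (by simp)) z).hasFDerivAt.smul (hfd z hzb).hasFDerivAt)
  rw [hd.fderiv, add_sub_cancel_left]
  have e1 : ‖fderiv ℝ χ z‖ ≤ C / ε :=
    ContinuousLinearMap.opNorm_le_bound _ (by positivity) fun v => hχd z v
  have e2 : ‖χ z • fderiv ℝ f z‖ ≤ K * ε := by
    rw [norm_smul, Real.norm_of_nonneg (hχb z).1]
    calc χ z * ‖fderiv ℝ f z‖ ≤ 1 * (K * ‖z‖) := by
          have := (hχb z).2
          have := hb1 z hz2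
          gcongr
      _ ≤ K * ε := by rw [one_mul]; gcongr
  have e3 : ‖(fderiv ℝ χ z).smulRight (f z)‖ ≤ K * C * ε := by
    rw [ContinuousLinearMap.norm_smulRight_apply]
    calc ‖fderiv ℝ χ z‖ * ‖f z‖ ≤ C / ε * (K * ‖z‖ * ‖z‖) := by
          have := hb2 z hz2
          gcongr
      _ ≤ C / ε * (K * ε * ε) := by gcongr
      _ = K * C * ε := by field_simp
  calc _ ≤ ‖χ z • fderiv ℝ f z‖ + ‖(fderiv ℝ χ z).smulRight (f z)‖ := norm_add_le _ _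
    _ ≤ K * ε + K * C * ε := add_le_add e2 e3
    _ ≤ (K * (1 + C) + 1) * ε := by nlinarith

theorem norm_d1_le (s : E4 → E4 →L[ℝ] ℝ) (z : E4) : ‖d1 s z‖ ≤ 2 * ‖fderiv ℝ s z‖ := by
  unfold d1
  refine (norm_sub_le _ _).trans ?_
  rw [ContinuousLinearMap.opNorm_flip]
  linarith

theorem cut_small (th : E4 → E4 →L[ℝ] ℝ)
    (hth : ∀ z ∈ Metric.ball (0:E4) 1, DifferentiableAt ℝ th z) (C D : ℝ) (hC : 0 < C)
    (hD : 0 ≤ D)
    (hb : ∀ z : E4, ‖z‖ ≤ 1 / 2 → ‖th z‖ ≤ D * ‖z‖ ^ 2 ∧ ‖fderiv ℝ th z‖ ≤ D * ‖z‖) :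
    ∃ C' : ℝ, 0 < C' ∧ ∀ ε : ℝ, 0 < ε → ε ≤ 1 / 2 → ∀ χ : E4 → ℝ, ContDiff ℝ ∞ χ →
      (∀ z, 0 ≤ χ z ∧ χ z ≤ 1) → (∀ z v, |fderiv ℝ χ z v| ≤ C / ε * ‖v‖) →
      ∀ z, ‖z‖ ≤ ε → ‖d1 (fun y => χ y • th y) z‖ ≤ C' * ε := by
  have hsub : closedBall (0 : E4) (1 / 2) ⊆ ball 0 1 := closedBall_subset_ball (by norm_num)
  refine ⟨2 * (D * (1 + C)) + 1, by positivity, fun ε hε hε2 χ hχ hχb hχd z hz => ?_⟩
  have hz2 : ‖z‖ ≤ 1 / 2 := hz.trans hε2
  have hzb : z ∈ ball (0 : E4) 1 := hsub (mem_closedBall_zero_iff.2 hz2)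
  have hd : HasFDerivAt (fun y : E4 => χ y • th y)
      (χ z • fderiv ℝ th z + (fderiv ℝ χ z).smulRight (th z)) z :=
    ((hχ.differentiable (by simp)) z).hasFDerivAt.smul (hth z hzb).hasFDerivAt
  refine (norm_d1_le _ _).trans ?_
  rw [hd.fderiv]
  have e1 : ‖fderiv ℝ χ z‖ ≤ C / ε :=
    ContinuousLinearMap.opNorm_le_bound _ (by positivity) fun v => hχd z v
  obtain ⟨b1, b2⟩ := hb z hz2
  have e2 : ‖χ z • fderiv ℝ th z‖ ≤ D * ε := by
    rw [norm_smul, Real.norm_of_nonneg (hχb z).1]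
    calc χ z * ‖fderiv ℝ th z‖ ≤ 1 * (D * ‖z‖) := by
          have := (hχb z).2
          gcongr
      _ ≤ D * ε := by rw [one_mul]; gcongr
  have e3 : ‖(fderiv ℝ χ z).smulRight (th z)‖ ≤ D * C * ε := by
    rw [ContinuousLinearMap.norm_smulRight_apply]
    calc ‖fderiv ℝ χ z‖ * ‖th z‖ ≤ C / ε * (D * ‖z‖ ^ 2) := by gcongr
      _ ≤ C / ε * (D * ε ^ 2) := by gcongr
      _ = D * C * ε := by field_simp
  have e4 : ‖χ z • fderiv ℝ th z + (fderiv ℝ χ z).smulRight (th z)‖ ≤ D * ε + D * C * ε :=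
    (norm_add_le _ _).trans (add_le_add e2 e3)
  nlinarith

end

end Crest.Agent.R235.KInterp_856
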