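import Crest.Agent.R235.PB_604

/-!
Row 235, KUM-K4 (helper604): linear algebra of positive triples of constant two-forms on `E4`.

`et 0, et 1, et 2` the standard self-dual forms; for a positive triple `c`:
`c a = ∑ b, rho c a b • (AA c)^* (et b)`, `rho c` lower triangular with positive diagonal,
`AA c` invertible; both are smooth in `c`.
-/

set_option autoImplicit false
set_option maxSynthPendingDepth 3

open Set Function Filter
open scoped ContDiff Topology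

namespace Crest.Agent.R235.KLin_604

open Crest.Agent.R240 Crest.Agent.R235.PB_604

noncomputable section

/-- coordinate covectors. -/
def dx (i : Fin 4) : E4 →L[ℝ] ℝ := EuclideanSpace.proj i

@[simp] lemma dx_apply (i : Fin 4) (v : E4) : dx i v = v i := rfl

/-- the standard self-dual forms. -/
def et (a : Fin 3) : Bil :=
  ![wed (dx 0) (dx 1) + wed (dx 2) (dx 3), wed (dx 0) (dx 2) + wed (dx 3) (dx 1),
    wed (dx 0) (dx 3) + wed (dx 1) (dx 2)] a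

lemma et0_apply (u v : E4) : et 0 u v = u 0 * v 1 - u 1 * v 0 + (u 2 * v 3 - u 3 * v 2) := by
  show wed (dx 0) (dx 1) u v + wed (dx 2) (dx 3) u v = _
  simp only [wed_apply, dx_apply]

lemma et1_apply (u v : E4) : et 1 u v = u 0 * v 2 - u 2 * v 0 + (u 3 * v 1 - u 1 * v 3) := by
  show wed (dx 0) (dx 2) u v + wed (dx 3) (dx 1) u v = _
  simp only [wed_apply, dx_apply]

lemma et2_apply (u v : E4) : et 2 u v = u 0 * v 3 - u 3 * v 0 + (u 1 * v 2 - u 2 * v 1) := by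
  show wed (dx 0) (dx 3) u v + wed (dx 1) (dx 2) u v = _
  simp only [wed_apply, dx_apply]

lemma alt_et (a : Fin 3) : Alt (et a) := by
  intro v
  fin_cases a
  · show et 0 v v = 0
    rw [et0_apply]; ring
  · show et 1 v v = 0
    rw [et1_apply]; ring
  · show et 2 v v = 0
    rw [et2_apply]; ring

/-! ### smoothness of the entries -/

def entL (i j : Fin 4) : Bil →L[ℝ] ℝ :=
  (ContinuousLinearMap.apply ℝ ℝ (ee j)).comp (ContinuousLinearMap.apply ℝ (E4 →L[ℝ] ℝ) (ee i))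

lemma entL_apply (i j : Fin 4) (b : Bil) : entL i j b = ent b i j := rfl

section Smooth

variable {G : Type*} [NormedAddCommGroup G] [NormedSpace ℝ G] {n : WithTop ℕ∞} {y : G}

lemma contDiffAt_ent {b : G → Bil} (hb : ContDiffAt ℝ n b y) (i j : Fin 4) :
    ContDiffAt ℝ n (fun z => ent (b z) i j) y :=
  (entL i j).contDiff.contDiffAt.comp y hb

lemma contDiffAt_W {b c : G → Bil} (hb : ContDiffAt ℝ n b y) (hc : ContDiffAt ℝ n c y) :
    ContDiffAt ℝ n (fun z => W (b z) (c z)) y := by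
  unfold W
  have h := fun i j => contDiffAt_ent hb i j
  have h' := fun i j => contDiffAt_ent hc i j
  exact ((((((h 0 1).mul (h' 2 3)).sub ((h 0 2).mul (h' 1 3))).add ((h 0 3).mul (h' 1 2))).add
    ((h 1 2).mul (h' 0 3))).sub ((h 1 3).mul (h' 0 2))).add ((h 2 3).mul (h' 0 1))

lemma continuousAt_ent {X : Type*} [TopologicalSpace X] {x : X} {b : X → Bil}
    (hb : ContinuousAt b x) (i j : Fin 4) : ContinuousAt (fun z => ent (b z) i j) x :=
  (entL i j).continuous.continuousAt.comp (f := b) hb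

lemma continuous_ent (i j : Fin 4) : Continuous (fun b : Bil => ent b i j) :=
  (entL i j).continuous

lemma continuous_W : Continuous (fun p : Bil × Bil => W p.1 p.2) := by
  unfold W
  have h := fun i j => (continuous_ent i j).comp (continuous_fst (X := Bil) (Y := Bil))
  have h' := fun i j => (continuous_ent i j).comp (continuous_snd (X := Bil) (Y := Bil))
  exact ((((((h 0 1).mul (h' 2 3)).sub ((h 0 2).mul (h' 1 3))).add ((h 0 3).mul (h' 1 2))).add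
    ((h 1 2).mul (h' 0 3))).sub ((h 1 3).mul (h' 0 2))).add ((h 2 3).mul (h' 0 1))

end Smooth

/-! ### Gram-Schmidt -/

/-- half of the wedge product. -/
def g (b c : Bil) : ℝ := W b c / 2

lemma g_comm (b c : Bil) : g b c = g c b := by unfold g; rw [W_comm]
lemma g_add_left (a b c : Bil) : g (a + b) c = g a c + g b c := by unfold g; rw [W_add_left]; ring
lemma g_sub_left (a b c : Bil) : g (a - b) c = g a c - g b c := by unfold g; rw [W_sub_left]; ring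
lemma g_smul_left (r : ℝ) (b c : Bil) : g (r • b) c = r * g b c := by
  unfold g; rw [W_smul_left]; ring
lemma g_add_right (a b c : Bil) : g a (b + c) = g a b + g a c := by unfold g; rw [W_add_right]; ring
lemma g_sub_right (a b c : Bil) : g a (b - c) = g a b - g a c := by unfold g; rw [W_sub_right]; ring
lemma g_smul_right (r : ℝ) (b c : Bil) : g b (r • c) = r * g b c := by
  unfold g; rw [W_smul_right]; ring

variable (c : Fin 3 → Bil)

def s0 : ℝ := Real.sqrt (g (c 0) (c 0))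
def z0 : Bil := (s0 c)⁻¹ • c 0
def e1 : Bil := c 1 - g (c 1) (z0 c) • z0 c
def s1 : ℝ := Real.sqrt (g (e1 c) (e1 c))
def z1 : Bil := (s1 c)⁻¹ • e1 c
def e2 : Bil := c 2 - g (c 2) (z0 c) • z0 c - g (c 2) (z1 c) • z1 c
def s2 : ℝ := Real.sqrt (g (e2 c) (e2 c))
def z2 : Bil := (s2 c)⁻¹ • e2 c

/-- the lower triangular matrix. -/
def rho (a b : Fin 3) : ℝ :=
  ![![s0 c, 0, 0], ![g (c 1) (z0 c), s1 c, 0], ![g (c 2) (z0 c), g (c 2) (z1 c), s2 c]] a b

/-- the orthonormal triple. -/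
def zz (a : Fin 3) : Bil := ![z0 c, z1 c, z2 c] a

/-- a definite triple (of alternating forms). -/
structure Def3 (c : Fin 3 → Bil) : Prop where
  alt : ∀ a, Alt (c a)
  pos : ∀ x : Fin 3 → ℝ, x ≠ 0 → 0 < W (∑ i, x i • c i) (∑ i, x i • c i)

variable {c}

lemma Def3.g_pos (h : Def3 c) (x y z : ℝ) (hne : x ≠ 0 ∨ y ≠ 0 ∨ z ≠ 0) :
    0 < g (x • c 0 + y • c 1 + z • c 2) (x • c 0 + y • c 1 + z • c 2) := by
  have h1 := h.pos ![x, y, z] (by
    intro h0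
    rcases hne with h1 | h1 | h1
    · exact h1 (congrFun h0 0)
    · exact h1 (congrFun h0 1)
    · exact h1 (congrFun h0 2))
  rw [Fin.sum_univ_three] at h1
  have h2 : (![x, y, z] : Fin 3 → ℝ) 0 = x := rfl
  have h3 : (![x, y, z] : Fin 3 → ℝ) 1 = y := rfl
  have h4 : (![x, y, z] : Fin 3 → ℝ) 2 = z := rfl
  rw [h2, h3, h4] at h1
  unfold g
  linarith

lemma Def3.g0 (h : Def3 c) : 0 < g (c 0) (c 0) := by
  have := h.g_pos 1 0 0 (Or.inl one_ne_zero)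
  simpa using this

lemma Def3.s0_pos (h : Def3 c) : 0 < s0 c := Real.sqrt_pos.2 h.g0

lemma Def3.s0_sq (h : Def3 c) : s0 c * s0 c = g (c 0) (c 0) := Real.mul_self_sqrt h.g0.le

lemma e1_eq (c : Fin 3 → Bil) : ∃ x : ℝ, e1 c = x • c 0 + (1 : ℝ) • c 1 + (0 : ℝ) • c 2 := by
  refine ⟨-(g (c 1) (z0 c) * (s0 c)⁻¹), ?_⟩
  unfold e1
  rw [show g (c 1) (z0 c) • z0 c = (g (c 1) (z0 c) * (s0 c)⁻¹) • c 0 by
    conv_lhs => arg 2; rw [z0]
    rw [smul_smul]]
  module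

lemma Def3.g1 (h : Def3 c) : 0 < g (e1 c) (e1 c) := by
  obtain ⟨x, hx⟩ := e1_eq c
  rw [hx]
  exact h.g_pos _ _ _ (Or.inr (Or.inl one_ne_zero))

lemma Def3.s1_pos (h : Def3 c) : 0 < s1 c := Real.sqrt_pos.2 h.g1

lemma Def3.s1_sq (h : Def3 c) : s1 c * s1 c = g (e1 c) (e1 c) := Real.mul_self_sqrt h.g1.le

lemma e2_eq (c : Fin 3 → Bil) : ∃ x y : ℝ, e2 c = x • c 0 + y • c 1 + (1 : ℝ) • c 2 := by
  obtain ⟨x, hx⟩ := e1_eq c
  refine ⟨-(g (c 2) (z0 c) * (s0 c)⁻¹) - g (c 2) (z1 c) * (s1 c)⁻¹ * x,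
    - (g (c 2) (z1 c) * (s1 c)⁻¹), ?_⟩
  unfold e2
  rw [show g (c 2) (z0 c) • z0 c = (g (c 2) (z0 c) * (s0 c)⁻¹) • c 0 by
    conv_lhs => arg 2; rw [z0]
    rw [smul_smul],
    show g (c 2) (z1 c) • z1 c = (g (c 2) (z1 c) * (s1 c)⁻¹) • e1 c by
    conv_lhs => arg 2; rw [z1]
    rw [smul_smul], hx]
  module

lemma Def3.g2 (h : Def3 c) : 0 < g (e2 c) (e2 c) := by
  obtain ⟨x, y, hx⟩ := e2_eq c
  rw [hx]
  exact h.g_pos _ _ _ (Or.inr (Or.inr one_ne_zero))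

lemma Def3.s2_pos (h : Def3 c) : 0 < s2 c := Real.sqrt_pos.2 h.g2

lemma Def3.s2_sq (h : Def3 c) : s2 c * s2 c = g (e2 c) (e2 c) := Real.mul_self_sqrt h.g2.le

lemma Def3.g_z0_z0 (h : Def3 c) : g (z0 c) (z0 c) = 1 := by
  unfold z0
  rw [g_smul_left, g_smul_right, ← h.s0_sq]
  have := h.s0_pos.ne'
  field_simp

lemma Def3.g_e1_z0 (h : Def3 c) : g (e1 c) (z0 c) = 0 := by
  unfold e1
  rw [g_sub_left, g_smul_left, h.g_z0_z0]; ring

lemma Def3.g_z1_z0 (h : Def3 c) : g (z1 c) (z0 c) = 0 := by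
  unfold z1
  rw [g_smul_left, h.g_e1_z0]; ring

lemma Def3.g_z1_z1 (h : Def3 c) : g (z1 c) (z1 c) = 1 := by
  unfold z1
  rw [g_smul_left, g_smul_right, ← h.s1_sq]
  have := h.s1_pos.ne'
  field_simp

lemma Def3.g_e2_z0 (h : Def3 c) : g (e2 c) (z0 c) = 0 := by
  unfold e2
  rw [g_sub_left, g_sub_left, g_smul_left, g_smul_left, h.g_z0_z0, h.g_z1_z0]; ring

lemma Def3.g_e2_z1 (h : Def3 c) : g (e2 c) (z1 c) = 0 := by
  unfold e2
  rw [g_sub_left, g_sub_left, g_smul_left, g_smul_left, h.g_z1_z1, g_comm (z0 c) (z1 c),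
    h.g_z1_z0]; ring

lemma Def3.g_z2_z0 (h : Def3 c) : g (z2 c) (z0 c) = 0 := by
  unfold z2
  rw [g_smul_left, h.g_e2_z0]; ring

lemma Def3.g_z2_z1 (h : Def3 c) : g (z2 c) (z1 c) = 0 := by
  unfold z2
  rw [g_smul_left, h.g_e2_z1]; ring

lemma Def3.g_z2_z2 (h : Def3 c) : g (z2 c) (z2 c) = 1 := by
  unfold z2
  rw [g_smul_left, g_smul_right, ← h.s2_sq]
  have := h.s2_pos.ne'
  field_simp

lemma Def3.alt_z0 (h : Def3 c) : Alt (z0 c) := by
  intro v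
  show (s0 c)⁻¹ * c 0 v v = 0
  rw [h.alt 0 v, mul_zero]

lemma Def3.alt_z1 (h : Def3 c) : Alt (z1 c) := by
  intro v
  show (s1 c)⁻¹ * (c 1 v v - g (c 1) (z0 c) * z0 c v v) = 0
  rw [h.alt 1 v, h.alt_z0 v]; ring

lemma Def3.alt_z2 (h : Def3 c) : Alt (z2 c) := by
  intro v
  show (s2 c)⁻¹ * (c 2 v v - g (c 2) (z0 c) * z0 c v v - g (c 2) (z1 c) * z1 c v v) = 0
  rw [h.alt 2 v, h.alt_z0 v, h.alt_z1 v]; ring

lemma Def3.c0_eq (h : Def3 c) : c 0 = s0 c • z0 c := by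
  unfold z0
  rw [smul_smul, mul_inv_cancel₀ h.s0_pos.ne', one_smul]

lemma Def3.c1_eq (h : Def3 c) : c 1 = g (c 1) (z0 c) • z0 c + s1 c • z1 c := by
  have h1 : s1 c • z1 c = e1 c := by
    unfold z1
    rw [smul_smul, mul_inv_cancel₀ h.s1_pos.ne', one_smul]
  rw [h1]
  unfold e1
  module

lemma Def3.c2_eq (h : Def3 c) :
    c 2 = g (c 2) (z0 c) • z0 c + g (c 2) (z1 c) • z1 c + s2 c • z2 c := by
  have h1 : s2 c • z2 c = e2 c := by
    unfold z2
    rw [smul_smul, mul_inv_cancel₀ h.s2_pos.ne', one_smul]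
  rw [h1]
  unfold e2
  module

lemma Def3.c_eq (h : Def3 c) (a : Fin 3) : c a = ∑ b, rho c a b • zz c b := by
  rw [Fin.sum_univ_three]
  fin_cases a
  · show c 0 = s0 c • z0 c + (0 : ℝ) • z1 c + (0 : ℝ) • z2 c
    rw [zero_smul, zero_smul, add_zero, add_zero]; exact h.c0_eq
  · show c 1 = g (c 1) (z0 c) • z0 c + s1 c • z1 c + (0 : ℝ) • z2 c
    rw [zero_smul, add_zero]; exact h.c1_eq
  · exact h.c2_eq

/-! ### the endomorphism -/

section End

variable (z : Fin 3 → Bil)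

/-- `det` of the electric parts. -/
def NN : ℝ :=
  ent (z 0) 0 1 * (ent (z 1) 0 2 * ent (z 2) 0 3 - ent (z 1) 0 3 * ent (z 2) 0 2) -
    ent (z 0) 0 2 * (ent (z 1) 0 1 * ent (z 2) 0 3 - ent (z 1) 0 3 * ent (z 2) 0 1) +
    ent (z 0) 0 3 * (ent (z 1) 0 1 * ent (z 2) 0 2 - ent (z 1) 0 2 * ent (z 2) 0 1)

/-- magnetic part of `a` times electric part of `b`. -/
def qp (a b : Fin 3) : ℝ :=
  ent (z a) 2 3 * ent (z b) 0 1 - ent (z a) 1 3 * ent (z b) 0 2 + ent (z a) 1 2 * ent (z b) 0 3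

def rr (k : Fin 4) : ℝ :=
  (qp z 1 2 * ent (z 0) 0 k + qp z 2 0 * ent (z 1) 0 k + qp z 0 1 * ent (z 2) 0 k) / NN z

/-- entries of `A`. -/
def Ae (z : Fin 3 → Bil) (i j : Fin 4) : ℝ :=
  ![![Real.sqrt (NN z), Real.sqrt (NN z) * rr z 1, Real.sqrt (NN z) * rr z 2,
      Real.sqrt (NN z) * rr z 3],
    ![0, ent (z 0) 0 1 / Real.sqrt (NN z), ent (z 0) 0 2 / Real.sqrt (NN z),
      ent (z 0) 0 3 / Real.sqrt (NN z)],
    ![0, ent (z 1) 0 1 / Real.sqrt (NN z), ent (z 1) 0 2 / Real.sqrt (NN z),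
      ent (z 1) 0 3 / Real.sqrt (NN z)],
    ![0, ent (z 2) 0 1 / Real.sqrt (NN z), ent (z 2) 0 2 / Real.sqrt (NN z),
      ent (z 2) 0 3 / Real.sqrt (NN z)]] i j

/-- elementary endomorphisms. -/
def EE (i j : Fin 4) : E4 →L[ℝ] E4 := (dx j).smulRight (ee i)

/-- the endomorphism of an orthonormal triple. -/
def Aend : E4 →L[ℝ] E4 := ∑ i, ∑ j, Ae z i j • EE i j

lemma Aend_apply (v : E4) (k : Fin 4) :
    Aend z v k = Ae z k 0 * v 0 + Ae z k 1 * v 1 + Ae z k 2 * v 2 + Ae z k 3 * v 3 := by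
  unfold Aend
  simp only [Fin.sum_univ_four]
  fin_cases k <;> simp [EE]

lemma Aend_ee (j k : Fin 4) : Aend z (ee j) k = Ae z k j := by
  rw [Aend_apply]
  fin_cases j <;> simp

variable {z}

/-- the algebraic identity. -/
lemma alg (a1 a2 a3 b1 b2 b3 c1 c2 c3 x1 x2 x3 y1 y2 y3 w1 w2 w3 N : ℝ)
    (hN : N = a1 * (b2 * c3 - b3 * c2) - a2 * (b1 * c3 - b3 * c1) + a3 * (b1 * c2 - b2 * c1))
    (h1 : x1 * a1 + x2 * a2 + x3 * a3 = 1)
    (h2 : (x1 * c1 + x2 * c2 + x3 * c3) + (w1 * a1 + w2 * a2 + w3 * a3) = 0) :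
    N * x1 = ((y1 * c1 + y2 * c2 + y3 * c3) * a2 + (w1 * a1 + w2 * a2 + w3 * a3) * b2
        + (x1 * b1 + x2 * b2 + x3 * b3) * c2) * a3
      - ((y1 * c1 + y2 * c2 + y3 * c3) * a3 + (w1 * a1 + w2 * a2 + w3 * a3) * b3
        + (x1 * b1 + x2 * b2 + x3 * b3) * c3) * a2 + (b2 * c3 - b3 * c2) := by
  rw [hN]
  linear_combination (b2 * c3 - b3 * c2) * h1 + (a2 * b3 - a3 * b2) * h2


lemma comp_aux {s N x a2 a3 b2 b3 c2 c3 q2 q3 : ℝ} (hs : s * s = N) (hs0 : s ≠ 0)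
    (h : N * x = (N * q2) * a3 - (N * q3) * a2 + (b2 * c3 - b3 * c2)) :
    x = s * q2 * (a3 / s) - (a2 / s) * (s * q3) + ((b2 / s) * (c3 / s) - (c2 / s) * (b3 / s)) := by
  have h1 : x = (s * s)⁻¹ * (s * s * x) := by field_simp
  rw [h1, hs, h, ← hs]
  field_simp

lemma Aend_spec (halt : ∀ a, Alt (z a)) (h00 : g (z 0) (z 0) = 1) (h11 : g (z 1) (z 1) = 1)
    (h22 : g (z 2) (z 2) = 1) (h10 : g (z 1) (z 0) = 0) (h20 : g (z 2) (z 0) = 0)
    (h21 : g (z 2) (z 1) = 0) (hN : 0 < NN z) (a : Fin 3) : z a = pl (Aend z) (et a) := by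
  have hs : Real.sqrt (NN z) * Real.sqrt (NN z) = NN z := Real.mul_self_sqrt hN.le
  have hs0 : Real.sqrt (NN z) ≠ 0 := (Real.sqrt_pos.2 hN).ne'
  have k00 : qp z 0 0 = 1 := by rw [← h00]; unfold g W qp; ring
  have k11 : qp z 1 1 = 1 := by rw [← h11]; unfold g W qp; ring
  have k22 : qp z 2 2 = 1 := by rw [← h22]; unfold g W qp; ring
  have k01 : qp z 1 0 + qp z 0 1 = 0 := by
    have : qp z 1 0 + qp z 0 1 = 2 * g (z 1) (z 0) := by unfold g W qp; ring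
    rw [this, h10, mul_zero]
  have k02 : qp z 0 2 + qp z 2 0 = 0 := by
    have : qp z 0 2 + qp z 2 0 = 2 * g (z 2) (z 0) := by unfold g W qp; ring
    rw [this, h20, mul_zero]
  have k12 : qp z 2 1 + qp z 1 2 = 0 := by
    have : qp z 2 1 + qp z 1 2 = 2 * g (z 2) (z 1) := by unfold g W qp; ring
    rw [this, h21, mul_zero]
  have hNe := hN.ne'
  have er : ∀ k, NN z * rr z k = qp z 1 2 * ent (z 0) 0 k + qp z 2 0 * ent (z 1) 0 k
      + qp z 0 1 * ent (z 2) 0 k := by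
    intro k
    unfold rr
    field_simp
  have hND : NN z = ent (z 0) 0 1 * (ent (z 1) 0 2 * ent (z 2) 0 3 - ent (z 1) 0 3 * ent (z 2) 0 2) -
    ent (z 0) 0 2 * (ent (z 1) 0 1 * ent (z 2) 0 3 - ent (z 1) 0 3 * ent (z 2) 0 1) +
    ent (z 0) 0 3 * (ent (z 1) 0 1 * ent (z 2) 0 2 - ent (z 1) 0 2 * ent (z 2) 0 1) := rfl
  have r1 := er 1
  have r2 := er 2
  have r3 := er 3
  have A00 : ∀ j, Ae z 0 j = ![Real.sqrt (NN z), Real.sqrt (NN z) * rr z 1,
      Real.sqrt (NN z) * rr z 2, Real.sqrt (NN z) * rr z 3] j := fun j => rfl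
  have A1 : ∀ j, Ae z 1 j = ![0, ent (z 0) 0 1 / Real.sqrt (NN z), ent (z 0) 0 2 / Real.sqrt (NN z),
      ent (z 0) 0 3 / Real.sqrt (NN z)] j := fun j => rfl
  have A2 : ∀ j, Ae z 2 j = ![0, ent (z 1) 0 1 / Real.sqrt (NN z), ent (z 1) 0 2 / Real.sqrt (NN z),
      ent (z 1) 0 3 / Real.sqrt (NN z)] j := fun j => rfl
  have A3 : ∀ j, Ae z 3 j = ![0, ent (z 2) 0 1 / Real.sqrt (NN z), ent (z 2) 0 2 / Real.sqrt (NN z),
      ent (z 2) 0 3 / Real.sqrt (NN z)] j := fun j => rfl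
  unfold qp at k00 k11 k22 k01 k02 k12 r1 r2 r3
  generalize Real.sqrt (NN z) = s at *
  generalize rr z 1 = q1 at *
  generalize rr z 2 = q2 at *
  generalize rr z 3 = q3 at *
  generalize NN z = N at *
  have hz0 := halt 0
  have hz1 := halt 1
  have hz2 := halt 2
  have X1 := alg (a1 := ent (z 0) 0 1) (a2 := ent (z 0) 0 2) (a3 := ent (z 0) 0 3)
    (b1 := ent (z 1) 0 1) (b2 := ent (z 1) 0 2) (b3 := ent (z 1) 0 3) (c1 := ent (z 2) 0 1)
    (c2 := ent (z 2) 0 2) (c3 := ent (z 2) 0 3) (x1 := ent (z 0) 2 3) (x2 := - ent (z 0) 1 3)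
    (x3 := ent (z 0) 1 2) (y1 := ent (z 1) 2 3) (y2 := - ent (z 1) 1 3) (y3 := ent (z 1) 1 2)
    (w1 := ent (z 2) 2 3) (w2 := - ent (z 2) 1 3) (w3 := ent (z 2) 1 2) (N := N)
    (by rw [hND]) (by linear_combination k00) (by linear_combination k02)
  have X2 := alg (a1 := ent (z 0) 0 2) (a2 := ent (z 0) 0 3) (a3 := ent (z 0) 0 1)
    (b1 := ent (z 1) 0 2) (b2 := ent (z 1) 0 3) (b3 := ent (z 1) 0 1) (c1 := ent (z 2) 0 2)
    (c2 := ent (z 2) 0 3) (c3 := ent (z 2) 0 1) (x1 := - ent (z 0) 1 3) (x2 := ent (z 0) 1 2)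
    (x3 := ent (z 0) 2 3) (y1 := - ent (z 1) 1 3) (y2 := ent (z 1) 1 2) (y3 := ent (z 1) 2 3)
    (w1 := - ent (z 2) 1 3) (w2 := ent (z 2) 1 2) (w3 := ent (z 2) 2 3) (N := N)
    (by rw [hND]; ring) (by linear_combination k00) (by linear_combination k02)
  have X3 := alg (a1 := ent (z 0) 0 3) (a2 := ent (z 0) 0 1) (a3 := ent (z 0) 0 2)
    (b1 := ent (z 1) 0 3) (b2 := ent (z 1) 0 1) (b3 := ent (z 1) 0 2) (c1 := ent (z 2) 0 3)
    (c2 := ent (z 2) 0 1) (c3 := ent (z 2) 0 2) (x1 := ent (z 0) 1 2) (x2 := ent (z 0) 2 3)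
    (x3 := - ent (z 0) 1 3) (y1 := ent (z 1) 1 2) (y2 := ent (z 1) 2 3) (y3 := - ent (z 1) 1 3)
    (w1 := ent (z 2) 1 2) (w2 := ent (z 2) 2 3) (w3 := - ent (z 2) 1 3) (N := N)
    (by rw [hND]; ring) (by linear_combination k00) (by linear_combination k02)
  have Y1 := alg (a1 := ent (z 1) 0 1) (a2 := ent (z 1) 0 2) (a3 := ent (z 1) 0 3)
    (b1 := ent (z 2) 0 1) (b2 := ent (z 2) 0 2) (b3 := ent (z 2) 0 3) (c1 := ent (z 0) 0 1)
    (c2 := ent (z 0) 0 2) (c3 := ent (z 0) 0 3) (x1 := ent (z 1) 2 3) (x2 := - ent (z 1) 1 3)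
    (x3 := ent (z 1) 1 2) (y1 := ent (z 2) 2 3) (y2 := - ent (z 2) 1 3) (y3 := ent (z 2) 1 2)
    (w1 := ent (z 0) 2 3) (w2 := - ent (z 0) 1 3) (w3 := ent (z 0) 1 2) (N := N)
    (by rw [hND]; ring) (by linear_combination k11) (by linear_combination k01)
  have Y2 := alg (a1 := ent (z 1) 0 2) (a2 := ent (z 1) 0 3) (a3 := ent (z 1) 0 1)
    (b1 := ent (z 2) 0 2) (b2 := ent (z 2) 0 3) (b3 := ent (z 2) 0 1) (c1 := ent (z 0) 0 2)
    (c2 := ent (z 0) 0 3) (c3 := ent (z 0) 0 1) (x1 := - ent (z 1) 1 3) (x2 := ent (z 1) 1 2)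
    (x3 := ent (z 1) 2 3) (y1 := - ent (z 2) 1 3) (y2 := ent (z 2) 1 2) (y3 := ent (z 2) 2 3)
    (w1 := - ent (z 0) 1 3) (w2 := ent (z 0) 1 2) (w3 := ent (z 0) 2 3) (N := N)
    (by rw [hND]; ring) (by linear_combination k11) (by linear_combination k01)
  have Y3 := alg (a1 := ent (z 1) 0 3) (a2 := ent (z 1) 0 1) (a3 := ent (z 1) 0 2)
    (b1 := ent (z 2) 0 3) (b2 := ent (z 2) 0 1) (b3 := ent (z 2) 0 2) (c1 := ent (z 0) 0 3)
    (c2 := ent (z 0) 0 1) (c3 := ent (z 0) 0 2) (x1 := ent (z 1) 1 2) (x2 := ent (z 1) 2 3)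
    (x3 := - ent (z 1) 1 3) (y1 := ent (z 2) 1 2) (y2 := ent (z 2) 2 3) (y3 := - ent (z 2) 1 3)
    (w1 := ent (z 0) 1 2) (w2 := ent (z 0) 2 3) (w3 := - ent (z 0) 1 3) (N := N)
    (by rw [hND]; ring) (by linear_combination k11) (by linear_combination k01)
  have Z1 := alg (a1 := ent (z 2) 0 1) (a2 := ent (z 2) 0 2) (a3 := ent (z 2) 0 3)
    (b1 := ent (z 0) 0 1) (b2 := ent (z 0) 0 2) (b3 := ent (z 0) 0 3) (c1 := ent (z 1) 0 1)
    (c2 := ent (z 1) 0 2) (c3 := ent (z 1) 0 3) (x1 := ent (z 2) 2 3) (x2 := - ent (z 2) 1 3)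
    (x3 := ent (z 2) 1 2) (y1 := ent (z 0) 2 3) (y2 := - ent (z 0) 1 3) (y3 := ent (z 0) 1 2)
    (w1 := ent (z 1) 2 3) (w2 := - ent (z 1) 1 3) (w3 := ent (z 1) 1 2) (N := N)
    (by rw [hND]; ring) (by linear_combination k22) (by linear_combination k12)
  have Z2 := alg (a1 := ent (z 2) 0 2) (a2 := ent (z 2) 0 3) (a3 := ent (z 2) 0 1)
    (b1 := ent (z 0) 0 2) (b2 := ent (z 0) 0 3) (b3 := ent (z 0) 0 1) (c1 := ent (z 1) 0 2)
    (c2 := ent (z 1) 0 3) (c3 := ent (z 1) 0 1) (x1 := - ent (z 2) 1 3) (x2 := ent (z 2) 1 2)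
    (x3 := ent (z 2) 2 3) (y1 := - ent (z 0) 1 3) (y2 := ent (z 0) 1 2) (y3 := ent (z 0) 2 3)
    (w1 := - ent (z 1) 1 3) (w2 := ent (z 1) 1 2) (w3 := ent (z 1) 2 3) (N := N)
    (by rw [hND]; ring) (by linear_combination k22) (by linear_combination k12)
  have Z3 := alg (a1 := ent (z 2) 0 3) (a2 := ent (z 2) 0 1) (a3 := ent (z 2) 0 2)
    (b1 := ent (z 0) 0 3) (b2 := ent (z 0) 0 1) (b3 := ent (z 0) 0 2) (c1 := ent (z 1) 0 3)
    (c2 := ent (z 1) 0 1) (c3 := ent (z 1) 0 2) (x1 := ent (z 2) 1 2) (x2 := ent (z 2) 2 3)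
    (x3 := - ent (z 2) 1 3) (y1 := ent (z 0) 1 2) (y2 := ent (z 0) 2 3) (y3 := - ent (z 0) 1 3)
    (w1 := ent (z 1) 1 2) (w2 := ent (z 1) 2 3) (w3 := - ent (z 1) 1 3) (N := N)
    (by rw [hND]; ring) (by linear_combination k22) (by linear_combination k12)
  clear hND er
  fin_cases a
  · show z 0 = pl (Aend z) (et 0)
    refine alt_ext hz0 ((alt_et 0).pull _) ?_ ?_ ?_ ?_ ?_ ?_
    · show _ = et 0 (Aend z (ee 0)) (Aend z (ee 1))
      rw [et0_apply]; simp only [Aend_ee, A00, A1, A2, A3]; simp; field_simp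
    · show _ = et 0 (Aend z (ee 0)) (Aend z (ee 2))
      rw [et0_apply]; simp only [Aend_ee, A00, A1, A2, A3]; simp; field_simp
    · show _ = et 0 (Aend z (ee 0)) (Aend z (ee 3))
      rw [et0_apply]; simp only [Aend_ee, A00, A1, A2, A3]; simp; field_simp
    · show _ = et 0 (Aend z (ee 1)) (Aend z (ee 2))
      rw [et0_apply]; simp only [Aend_ee, A00, A1, A2, A3]
      refine comp_aux hs hs0 ?_
      rw [r1, r2]; linear_combination X3
    · show _ = et 0 (Aend z (ee 1)) (Aend z (ee 3))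
      rw [et0_apply]; simp only [Aend_ee, A00, A1, A2, A3]
      refine comp_aux hs hs0 ?_
      rw [r1, r3]; linear_combination -X2
    · show _ = et 0 (Aend z (ee 2)) (Aend z (ee 3))
      rw [et0_apply]; simp only [Aend_ee, A00, A1, A2, A3]
      refine comp_aux hs hs0 ?_
      rw [r2, r3]; linear_combination X1
  · show z 1 = pl (Aend z) (et 1)
    refine alt_ext hz1 ((alt_et 1).pull _) ?_ ?_ ?_ ?_ ?_ ?_
    · show _ = et 1 (Aend z (ee 0)) (Aend z (ee 1))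
      rw [et1_apply]; simp only [Aend_ee, A00, A1, A2, A3]; simp; field_simp
    · show _ = et 1 (Aend z (ee 0)) (Aend z (ee 2))
      rw [et1_apply]; simp only [Aend_ee, A00, A1, A2, A3]; simp; field_simp
    · show _ = et 1 (Aend z (ee 0)) (Aend z (ee 3))
      rw [et1_apply]; simp only [Aend_ee, A00, A1, A2, A3]; simp; field_simp
    · show _ = et 1 (Aend z (ee 1)) (Aend z (ee 2))
      rw [et1_apply]; simp only [Aend_ee, A00, A1, A2, A3]
      refine comp_aux hs hs0 ?_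
      rw [r1, r2]; linear_combination Y3
    · show _ = et 1 (Aend z (ee 1)) (Aend z (ee 3))
      rw [et1_apply]; simp only [Aend_ee, A00, A1, A2, A3]
      refine comp_aux hs hs0 ?_
      rw [r1, r3]; linear_combination -Y2
    · show _ = et 1 (Aend z (ee 2)) (Aend z (ee 3))
      rw [et1_apply]; simp only [Aend_ee, A00, A1, A2, A3]
      refine comp_aux hs hs0 ?_
      rw [r2, r3]; linear_combination Y1
  · show z 2 = pl (Aend z) (et 2)
    refine alt_ext hz2 ((alt_et 2).pull _) ?_ ?_ ?_ ?_ ?_ ?_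
    · show _ = et 2 (Aend z (ee 0)) (Aend z (ee 1))
      rw [et2_apply]; simp only [Aend_ee, A00, A1, A2, A3]; simp; field_simp
    · show _ = et 2 (Aend z (ee 0)) (Aend z (ee 2))
      rw [et2_apply]; simp only [Aend_ee, A00, A1, A2, A3]; simp; field_simp
    · show _ = et 2 (Aend z (ee 0)) (Aend z (ee 3))
      rw [et2_apply]; simp only [Aend_ee, A00, A1, A2, A3]; simp; field_simp
    · show _ = et 2 (Aend z (ee 1)) (Aend z (ee 2))
      rw [et2_apply]; simp only [Aend_ee, A00, A1, A2, A3]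
      refine comp_aux hs hs0 ?_
      rw [r1, r2]; linear_combination Z3
    · show _ = et 2 (Aend z (ee 1)) (Aend z (ee 3))
      rw [et2_apply]; simp only [Aend_ee, A00, A1, A2, A3]
      refine comp_aux hs hs0 ?_
      rw [r1, r3]; linear_combination -Z2
    · show _ = et 2 (Aend z (ee 2)) (Aend z (ee 3))
      rw [et2_apply]; simp only [Aend_ee, A00, A1, A2, A3]
      refine comp_aux hs hs0 ?_
      rw [r2, r3]; linear_combination Z1


lemma W_et (a : Fin 3) : W (et a) (et a) = 2 := by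
  have h : ∀ i j, ent (et a) i j = et a (ee i) (ee j) := fun i j => rfl
  unfold W
  simp only [h]
  fin_cases a
  · show et 0 _ _ * et 0 _ _ - et 0 _ _ * et 0 _ _ + et 0 _ _ * et 0 _ _ + et 0 _ _ * et 0 _ _
      - et 0 _ _ * et 0 _ _ + et 0 _ _ * et 0 _ _ = 2
    simp [et0_apply]
    norm_num
  · show et 1 _ _ * et 1 _ _ - et 1 _ _ * et 1 _ _ + et 1 _ _ * et 1 _ _ + et 1 _ _ * et 1 _ _
      - et 1 _ _ * et 1 _ _ + et 1 _ _ * et 1 _ _ = 2
    simp [et1_apply]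
    norm_num
  · show et 2 _ _ * et 2 _ _ - et 2 _ _ * et 2 _ _ + et 2 _ _ * et 2 _ _ + et 2 _ _ * et 2 _ _
      - et 2 _ _ * et 2 _ _ + et 2 _ _ * et 2 _ _ = 2
    simp [et2_apply]
    norm_num

/-- an endomorphism of determinant `≠ 0` is injective. -/
lemma inj_of_det {A : E4 →L[ℝ] E4} (h : LinearMap.det (A : E4 →ₗ[ℝ] E4) ≠ 0) (v : E4)
    (hv : A v = 0) : v = 0 := by
  by_contra hne
  refine h ?_
  refine LinearMap.det_eq_zero_iff_ker_ne_bot.2 ?_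
  intro hk
  have : v ∈ LinearMap.ker (A : E4 →ₗ[ℝ] E4) := hv
  rw [hk] at this
  exact hne (by simpa using this)

lemma det_of_inj {A : E4 →L[ℝ] E4} (h : ∀ v, A v = 0 → v = 0) :
    LinearMap.det (A : E4 →ₗ[ℝ] E4) ≠ 0 := by
  intro h0
  refine LinearMap.det_eq_zero_iff_ker_ne_bot.1 h0 ?_
  refine LinearMap.ker_eq_bot'.2 fun v hv => h v hv

end End

/-! ### the decomposition -/

section Dec

variable (c)

/-- the endomorphism of a positive triple. -/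
def AA : E4 →L[ℝ] E4 := Aend (zz c)

variable {c}

lemma Def3.alt_zz (h : Def3 c) (a : Fin 3) : Alt (zz c a) := by
  fin_cases a
  · exact h.alt_z0
  · exact h.alt_z1
  · exact h.alt_z2

lemma Def3.NN_eq (h : Def3 c) : NN c = s0 c * s1 c * s2 c * NN (zz c) := by
  have e : ∀ k, ent (c 0) 0 k = s0 c * ent (z0 c) 0 k := fun k => by
    conv_lhs => rw [h.c0_eq]
    rw [ent_smul]
  have e' : ∀ k, ent (c 1) 0 k = g (c 1) (z0 c) * ent (z0 c) 0 k + s1 c * ent (z1 c) 0 k :=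
    fun k => by
    conv_lhs => rw [h.c1_eq]
    rw [ent_add, ent_smul, ent_smul]
  have e'' : ∀ k, ent (c 2) 0 k = g (c 2) (z0 c) * ent (z0 c) 0 k
      + g (c 2) (z1 c) * ent (z1 c) 0 k + s2 c * ent (z2 c) 0 k :=
    fun k => by
    conv_lhs => rw [h.c2_eq]
    rw [ent_add, ent_add, ent_smul, ent_smul, ent_smul]
  have h0 : zz c 0 = z0 c := rfl
  have h1 : zz c 1 = z1 c := rfl
  have h2 : zz c 2 = z2 c := rfl
  unfold NN
  rw [h0, h1, h2]
  simp only [e, e', e'']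
  ring

lemma Def3.NN_zz (h : Def3 c) (hN : 0 < NN c) : 0 < NN (zz c) := by
  have h1 := h.NN_eq
  have h2 := mul_pos (mul_pos h.s0_pos h.s1_pos) h.s2_pos
  rw [h1] at hN
  exact (pos_iff_pos_of_mul_pos hN).1 h2

lemma Def3.NN_ne (h : Def3 c) : NN c ≠ 0 := by
  intro h0
  set m : Matrix (Fin 3) (Fin 3) ℝ := Matrix.of fun a k => ent (c a) 0 k.succ with hm
  have hdet : m.det = 0 := by
    rw [Matrix.det_fin_three]
    have : ∀ a k, m a k = ent (c a) 0 k.succ := fun a k => rfl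
    simp only [this]
    rw [← h0]
    unfold NN
    simp only [Fin.succ_zero_eq_one, Fin.succ_one_eq_two, show (Fin.succ 2 : Fin 4) = 3 from rfl]
    ring
  obtain ⟨x, hx, hxm⟩ := Matrix.exists_vecMul_eq_zero_iff.2 hdet
  have hk : ∀ k : Fin 3, x 0 * ent (c 0) 0 k.succ + x 1 * ent (c 1) 0 k.succ
      + x 2 * ent (c 2) 0 k.succ = 0 := by
    intro k
    have := congrFun hxm k
    simp only [Matrix.vecMul, dotProduct, Fin.sum_univ_three] at this
    exact this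
  have hp := h.pos x hx
  rw [Fin.sum_univ_three] at hp
  have he : ∀ i j, ent (x 0 • c 0 + x 1 • c 1 + x 2 • c 2) i j =
      x 0 * ent (c 0) i j + x 1 * ent (c 1) i j + x 2 * ent (c 2) i j := by
    intro i j
    rw [ent_add, ent_add, ent_smul, ent_smul, ent_smul]
  have e1 : ent (x 0 • c 0 + x 1 • c 1 + x 2 • c 2) 0 1 = 0 := by rw [he]; exact hk 0
  have e2 : ent (x 0 • c 0 + x 1 • c 1 + x 2 • c 2) 0 2 = 0 := by rw [he]; exact hk 1
  have e3 : ent (x 0 • c 0 + x 1 • c 1 + x 2 • c 2) 0 3 = 0 := by rw [he]; exact hk 2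
  unfold W at hp
  rw [e1, e2, e3] at hp
  simp at hp

lemma Def3.zz_spec (h : Def3 c) (hN : 0 < NN c) (b : Fin 3) : zz c b = pl (AA c) (et b) :=
  Aend_spec (z := zz c) h.alt_zz h.g_z0_z0 h.g_z1_z1 h.g_z2_z2 h.g_z1_z0 h.g_z2_z0 h.g_z2_z1
    (h.NN_zz hN) b

theorem Def3.AA_spec (h : Def3 c) (hN : 0 < NN c) (a : Fin 3) :
    c a = ∑ b, rho c a b • pl (AA c) (et b) := by
  rw [h.c_eq a]
  exact Finset.sum_congr rfl fun b _ => by rw [← h.zz_spec hN]

theorem Def3.AA_det (h : Def3 c) (hN : 0 < NN c) :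
    LinearMap.det (AA c : E4 →ₗ[ℝ] E4) = 1 := by
  have h1 := h.g_z0_z0
  have h2 := W_pull (alt_et 0) (alt_et 0) (AA c)
  rw [W_et] at h2
  have h3 : pull (AA c) (et 0) = z0 c := (h.zz_spec hN 0).symm
  rw [h3] at h2
  unfold g at h1
  linarith

theorem Def3.AA_inj (h : Def3 c) (hN : 0 < NN c) (v : E4) (hv : AA c v = 0) : v = 0 :=
  inj_of_det (by rw [h.AA_det hN]; exact one_ne_zero) v hv

lemma rho_upper {a b : Fin 3} (hab : a < b) : rho c a b = 0 := by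
  fin_cases a <;> fin_cases b <;> first | rfl | exact absurd hab (by decide)

lemma Def3.rho_diag (h : Def3 c) (a : Fin 3) : 0 < rho c a a := by
  fin_cases a
  · exact h.s0_pos
  · exact h.s1_pos
  · exact h.s2_pos

/-- lower triangular matrices with positive diagonal are invertible. -/
lemma lt_inj {r : Fin 3 → Fin 3 → ℝ} (h : ∀ a b, a < b → r a b = 0) (hd : ∀ a, 0 < r a a)
    {x : Fin 3 → ℝ} (hx : x ≠ 0) : (fun b => ∑ a, x a * r a b) ≠ 0 := by
  intro h0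
  have h2 := congrFun h0 2
  have h1 := congrFun h0 1
  have h00 := congrFun h0 0
  simp only [Fin.sum_univ_three, Pi.zero_apply] at h2 h1 h00
  rw [h 0 2 (by decide), h 1 2 (by decide)] at h2
  rw [h 0 1 (by decide)] at h1
  have x2 : x 2 = 0 := by
    have : x 2 * r 2 2 = 0 := by linarith
    exact (mul_eq_zero.1 this).resolve_right (hd 2).ne'
  rw [x2] at h1 h00
  have x1 : x 1 = 0 := by
    have : x 1 * r 1 1 = 0 := by linarith
    exact (mul_eq_zero.1 this).resolve_right (hd 1).ne'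
  rw [x1] at h00
  have x0 : x 0 = 0 := by
    have : x 0 * r 0 0 = 0 := by linarith
    exact (mul_eq_zero.1 this).resolve_right (hd 0).ne'
  refine hx (funext fun i => ?_)
  fin_cases i
  · exact x0
  · exact x1
  · exact x2

/-! ### smoothness in the triple -/

lemma cd_c (a : Fin 3) (c₀ : Fin 3 → Bil) : ContDiffAt ℝ ∞ (fun c : Fin 3 → Bil => c a) c₀ :=
  (contDiff_apply (𝕜 := ℝ) (E := Bil) (n := ∞) a).contDiffAt

lemma cd_g {b d : (Fin 3 → Bil) → Bil} {c₀ : Fin 3 → Bil} (hb : ContDiffAt ℝ ∞ b c₀)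
    (hd : ContDiffAt ℝ ∞ d c₀) : ContDiffAt ℝ ∞ (fun c => g (b c) (d c)) c₀ := by
  unfold g
  exact (contDiffAt_W hb hd).div_const 2

lemma Def3.cd_s0 (h : Def3 c) : ContDiffAt ℝ ∞ s0 c :=
  (cd_g (cd_c 0 c) (cd_c 0 c)).sqrt h.g0.ne'

lemma Def3.cd_z0 (h : Def3 c) : ContDiffAt ℝ ∞ z0 c :=
  (h.cd_s0.inv h.s0_pos.ne').smul (cd_c 0 c)

lemma Def3.cd_e1 (h : Def3 c) : ContDiffAt ℝ ∞ e1 c :=
  (cd_c 1 c).sub ((cd_g (cd_c 1 c) h.cd_z0).smul h.cd_z0)

lemma Def3.cd_s1 (h : Def3 c) : ContDiffAt ℝ ∞ s1 c :=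
  (cd_g h.cd_e1 h.cd_e1).sqrt h.g1.ne'

lemma Def3.cd_z1 (h : Def3 c) : ContDiffAt ℝ ∞ z1 c :=
  (h.cd_s1.inv h.s1_pos.ne').smul h.cd_e1

lemma Def3.cd_e2 (h : Def3 c) : ContDiffAt ℝ ∞ e2 c :=
  ((cd_c 2 c).sub ((cd_g (cd_c 2 c) h.cd_z0).smul h.cd_z0)).sub
    ((cd_g (cd_c 2 c) h.cd_z1).smul h.cd_z1)

lemma Def3.cd_s2 (h : Def3 c) : ContDiffAt ℝ ∞ s2 c :=
  (cd_g h.cd_e2 h.cd_e2).sqrt h.g2.ne'

lemma Def3.cd_z2 (h : Def3 c) : ContDiffAt ℝ ∞ z2 c :=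
  (h.cd_s2.inv h.s2_pos.ne').smul h.cd_e2

lemma Def3.cd_zz (h : Def3 c) (a : Fin 3) : ContDiffAt ℝ ∞ (fun c => zz c a) c := by
  fin_cases a
  · exact h.cd_z0
  · exact h.cd_z1
  · exact h.cd_z2

lemma Def3.cd_rho (h : Def3 c) (a b : Fin 3) : ContDiffAt ℝ ∞ (fun c => rho c a b) c := by
  fin_cases a <;> fin_cases b
  · exact h.cd_s0
  · exact contDiffAt_const
  · exact contDiffAt_const
  · exact cd_g (cd_c 1 c) h.cd_z0
  · exact h.cd_s1
  · exact contDiffAt_const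
  · exact cd_g (cd_c 2 c) h.cd_z0
  · exact cd_g (cd_c 2 c) h.cd_z1
  · exact h.cd_s2

lemma Def3.cd_NN (h : Def3 c) : ContDiffAt ℝ ∞ (fun c => NN (zz c)) c := by
  unfold NN
  have e := fun a i j => contDiffAt_ent (h.cd_zz a) i j
  exact (((e 0 0 1).mul (((e 1 0 2).mul (e 2 0 3)).sub ((e 1 0 3).mul (e 2 0 2)))).sub
    ((e 0 0 2).mul (((e 1 0 1).mul (e 2 0 3)).sub ((e 1 0 3).mul (e 2 0 1))))).add
    ((e 0 0 3).mul (((e 1 0 1).mul (e 2 0 2)).sub ((e 1 0 2).mul (e 2 0 1))))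

lemma Def3.cd_qp (h : Def3 c) (a b : Fin 3) : ContDiffAt ℝ ∞ (fun c => qp (zz c) a b) c := by
  unfold qp
  have e := fun a i j => contDiffAt_ent (h.cd_zz a) i j
  exact (((e a 2 3).mul (e b 0 1)).sub ((e a 1 3).mul (e b 0 2))).add ((e a 1 2).mul (e b 0 3))

lemma Def3.cd_rr (h : Def3 c) (hN : 0 < NN c) (k : Fin 4) :
    ContDiffAt ℝ ∞ (fun c => rr (zz c) k) c := by
  unfold rr
  have e := fun a i j => contDiffAt_ent (h.cd_zz a) i j
  exact ((((h.cd_qp 1 2).mul (e 0 0 k)).add ((h.cd_qp 2 0).mul (e 1 0 k))).add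
    ((h.cd_qp 0 1).mul (e 2 0 k))).div h.cd_NN (h.NN_zz hN).ne'

lemma Def3.cd_Ae (h : Def3 c) (hN : 0 < NN c) (i j : Fin 4) :
    ContDiffAt ℝ ∞ (fun c => Ae (zz c) i j) c := by
  have e := fun a i j => contDiffAt_ent (h.cd_zz a) i j
  have hs : ContDiffAt ℝ ∞ (fun c => Real.sqrt (NN (zz c))) c := h.cd_NN.sqrt (h.NN_zz hN).ne'
  have hs0 : Real.sqrt (NN (zz c)) ≠ 0 := (Real.sqrt_pos.2 (h.NN_zz hN)).ne'
  fin_cases i <;> fin_cases j
  · exact hs
  · exact hs.mul (h.cd_rr hN 1)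
  · exact hs.mul (h.cd_rr hN 2)
  · exact hs.mul (h.cd_rr hN 3)
  · exact contDiffAt_const
  · exact (e 0 0 1).div hs hs0
  · exact (e 0 0 2).div hs hs0
  · exact (e 0 0 3).div hs hs0
  · exact contDiffAt_const
  · exact (e 1 0 1).div hs hs0
  · exact (e 1 0 2).div hs hs0
  · exact (e 1 0 3).div hs hs0
  · exact contDiffAt_const
  · exact (e 2 0 1).div hs hs0
  · exact (e 2 0 2).div hs hs0
  · exact (e 2 0 3).div hs hs0

theorem Def3.cd_AA (h : Def3 c) (hN : 0 < NN c) : ContDiffAt ℝ ∞ AA c := by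
  unfold AA Aend
  refine ContDiffAt.sum fun i _ => ContDiffAt.sum fun j _ => ?_
  exact (h.cd_Ae hN i j).smul contDiffAt_const

/-! ### special values -/

lemma ent_et (a : Fin 3) (i j : Fin 4) : ent (et a) i j = et a (ee i) (ee j) := rfl

lemma g_et (a b : Fin 3) : g (et a) (et b) = if a = b then 1 else 0 := by
  unfold g W
  simp only [ent_et]
  fin_cases a <;> fin_cases b <;>
    simp [et0_apply, et1_apply, et2_apply]

/-- the standard triple, scaled. -/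
def ket (κ : ℝ) : Fin 3 → Bil := fun a => κ • et a

lemma ket_def3 {κ : ℝ} (hκ : 0 < κ) : Def3 (ket κ) := by
  refine ⟨fun a v => ?_, fun x hx => ?_⟩
  · show κ * et a v v = 0
    rw [alt_et a v, mul_zero]
  · have h1 : W (∑ i, x i • ket κ i) (∑ i, x i • ket κ i) =
        2 * κ ^ 2 * (x 0 ^ 2 + x 1 ^ 2 + x 2 ^ 2) := by
      have h2 : ∀ a b, W (et a) (et b) = 2 * (if a = b then 1 else 0) := fun a b => by
        rw [← g_et]; unfold g; ring
      rw [Fin.sum_univ_three]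
      simp only [ket, smul_smul, W_add_left, W_add_right, W_smul_left, W_smul_right, h2]
      simp
      ring
    rw [h1]
    have h3 : 0 < x 0 ^ 2 + x 1 ^ 2 + x 2 ^ 2 := by
      by_contra hcon
      have e0 := sq_nonneg (x 0)
      have e1 := sq_nonneg (x 1)
      have e2 := sq_nonneg (x 2)
      have h0 : x 0 ^ 2 = 0 := by linarith
      have h1 : x 1 ^ 2 = 0 := by linarith
      have h2 : x 2 ^ 2 = 0 := by linarith
      refine hx (funext fun i => ?_)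
      fin_cases i
      · exact pow_eq_zero_iff (two_ne_zero) |>.1 h0
      · exact pow_eq_zero_iff (two_ne_zero) |>.1 h1
      · exact pow_eq_zero_iff (two_ne_zero) |>.1 h2
    positivity

lemma s0_ket {κ : ℝ} (hκ : 0 < κ) : s0 (ket κ) = κ := by
  unfold s0 ket
  rw [g_smul_left, g_smul_right, g_et, if_pos rfl, mul_one, Real.sqrt_mul_self hκ.le]

lemma z0_ket {κ : ℝ} (hκ : 0 < κ) : z0 (ket κ) = et 0 := by
  unfold z0
  rw [s0_ket hκ]
  show κ⁻¹ • (κ • et 0) = et 0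
  rw [smul_smul, inv_mul_cancel₀ hκ.ne', one_smul]

lemma g1_ket {κ : ℝ} (hκ : 0 < κ) : g (ket κ 1) (z0 (ket κ)) = 0 := by
  rw [z0_ket hκ]
  show g (κ • et 1) (et 0) = 0
  rw [g_smul_left, g_et, if_neg (by decide), mul_zero]

lemma e1_ket {κ : ℝ} (hκ : 0 < κ) : e1 (ket κ) = κ • et 1 := by
  unfold e1
  rw [g1_ket hκ, zero_smul, sub_zero]
  rfl

lemma s1_ket {κ : ℝ} (hκ : 0 < κ) : s1 (ket κ) = κ := by
  unfold s1
  rw [e1_ket hκ, g_smul_left, g_smul_right, g_et, if_pos rfl, mul_one, Real.sqrt_mul_self hκ.le]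

lemma z1_ket {κ : ℝ} (hκ : 0 < κ) : z1 (ket κ) = et 1 := by
  unfold z1
  rw [s1_ket hκ, e1_ket hκ, smul_smul, inv_mul_cancel₀ hκ.ne', one_smul]

lemma g2_ket {κ : ℝ} (hκ : 0 < κ) : g (ket κ 2) (z0 (ket κ)) = 0 := by
  rw [z0_ket hκ]
  show g (κ • et 2) (et 0) = 0
  rw [g_smul_left, g_et, if_neg (by decide), mul_zero]

lemma g21_ket {κ : ℝ} (hκ : 0 < κ) : g (ket κ 2) (z1 (ket κ)) = 0 := by
  rw [z1_ket hκ]
  show g (κ • et 2) (et 1) = 0
  rw [g_smul_left, g_et, if_neg (by decide), mul_zero]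

lemma e2_ket {κ : ℝ} (hκ : 0 < κ) : e2 (ket κ) = κ • et 2 := by
  unfold e2
  rw [g2_ket hκ, g21_ket hκ, zero_smul, zero_smul, sub_zero, sub_zero]
  rfl

lemma s2_ket {κ : ℝ} (hκ : 0 < κ) : s2 (ket κ) = κ := by
  unfold s2
  rw [e2_ket hκ, g_smul_left, g_smul_right, g_et, if_pos rfl, mul_one, Real.sqrt_mul_self hκ.le]

lemma z2_ket {κ : ℝ} (hκ : 0 < κ) : z2 (ket κ) = et 2 := by
  unfold z2
  rw [s2_ket hκ, e2_ket hκ, smul_smul, inv_mul_cancel₀ hκ.ne', one_smul]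

lemma zz_ket {κ : ℝ} (hκ : 0 < κ) : zz (ket κ) = et := by
  funext a
  fin_cases a
  · exact z0_ket hκ
  · exact z1_ket hκ
  · exact z2_ket hκ

lemma rho_ket {κ : ℝ} (hκ : 0 < κ) (a b : Fin 3) : rho (ket κ) a b = if a = b then κ else 0 := by
  fin_cases a <;> fin_cases b
  · exact s0_ket hκ
  · rfl
  · rfl
  · exact g1_ket hκ
  · exact s1_ket hκ
  · rfl
  · exact g2_ket hκ
  · exact g21_ket hκ
  · exact s2_ket hκ

lemma NN_et : NN et = 1 := by
  unfold NN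
  simp only [ent_et]
  simp [et0_apply, et1_apply, et2_apply]

lemma AA_ket {κ : ℝ} (hκ : 0 < κ) : AA (ket κ) = ContinuousLinearMap.id ℝ E4 := by
  unfold AA
  rw [zz_ket hκ]
  have hq : qp et 1 2 = 0 ∧ qp et 2 0 = 0 ∧ qp et 0 1 = 0 := by
    refine ⟨?_, ?_, ?_⟩ <;>
    · unfold qp
      simp only [ent_et]
      simp [et0_apply, et1_apply, et2_apply]
  have hr : ∀ k, rr et k = 0 := by
    intro k
    unfold rr
    rw [hq.1, hq.2.1, hq.2.2]
    simp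
  ext v k
  rw [Aend_apply]
  fin_cases k
  · show Real.sqrt (NN et) * v 0 + Real.sqrt (NN et) * rr et 1 * v 1
      + Real.sqrt (NN et) * rr et 2 * v 2 + Real.sqrt (NN et) * rr et 3 * v 3 = v 0
    rw [NN_et, hr, hr, hr]
    simp
  · show 0 * v 0 + ent (et 0) 0 1 / Real.sqrt (NN et) * v 1
      + ent (et 0) 0 2 / Real.sqrt (NN et) * v 2 + ent (et 0) 0 3 / Real.sqrt (NN et) * v 3 = v 1
    rw [NN_et]
    simp only [ent_et]
    simp [et0_apply]
  · show 0 * v 0 + ent (et 1) 0 1 / Real.sqrt (NN et) * v 1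
      + ent (et 1) 0 2 / Real.sqrt (NN et) * v 2 + ent (et 1) 0 3 / Real.sqrt (NN et) * v 3 = v 2
    rw [NN_et]
    simp only [ent_et]
    simp [et1_apply]
  · show 0 * v 0 + ent (et 2) 0 1 / Real.sqrt (NN et) * v 1
      + ent (et 2) 0 2 / Real.sqrt (NN et) * v 2 + ent (et 2) 0 3 / Real.sqrt (NN et) * v 3 = v 3
    rw [NN_et]
    simp only [ent_et]
    simp [et2_apply]

lemma NN_ket {κ : ℝ} (hκ : 0 < κ) : 0 < NN (ket κ) := by
  rw [(ket_def3 hκ).NN_eq, zz_ket hκ, NN_et, s0_ket hκ, s1_ket hκ, s2_ket hκ]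
  positivity

/-- an orthogonal triple has a diagonal matrix. -/
lemma Def3.rho_orth (h : Def3 c) (h10 : W (c 1) (c 0) = 0) (h20 : W (c 2) (c 0) = 0)
    (h21 : W (c 2) (c 1) = 0) (h12 : W (c 1) (c 1) = W (c 2) (c 2)) :
    rho c 1 0 = 0 ∧ rho c 2 0 = 0 ∧ rho c 2 1 = 0 ∧ rho c 1 1 = rho c 2 2 := by
  have e1 : g (c 1) (z0 c) = 0 := by
    unfold z0 g
    rw [W_smul_right, h10]; simp
  have e2 : g (c 2) (z0 c) = 0 := by
    unfold z0 g
    rw [W_smul_right, h20]; simp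
  have e3 : Crest.Agent.R235.KLin_604.e1 c = c 1 := by
    unfold Crest.Agent.R235.KLin_604.e1
    rw [e1, zero_smul, sub_zero]
  have e4 : g (c 2) (z1 c) = 0 := by
    unfold z1 g
    rw [W_smul_right, e3, h21]; simp
  have e5 : Crest.Agent.R235.KLin_604.e2 c = c 2 := by
    unfold Crest.Agent.R235.KLin_604.e2
    rw [e2, e4, zero_smul, zero_smul, sub_zero, sub_zero]
  refine ⟨e1, e2, e4, ?_⟩
  show s1 c = s2 c
  unfold s1 s2
  rw [e3, e5]
  unfold g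
  rw [h12]

end Dec

end

end Crest.Agent.R235.KLin_604
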