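import Crest.Agent.R240.Lin1
import Crest.Agent.R240.Ch3
import Crest.Agent.R281.Poi_234

/-!
Row 235 (S0364), package KUM, KDOWN leaf L2 (helper856): an even closed two-form on the unit ball
minus its value at `0` has an odd primitive which vanishes to second order at `0`.
-/

set_option autoImplicit false
set_option maxSynthPendingDepth 3

open Set Function Filter Metric
open scoped ContDiff Topology

namespace Crest.Agent.R235.KPrim_856

open Crest.Agent.R240 Crest.Agent.R240.Ch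

noncomputable section

theorem dd_swap {om : E4 → Bil} (hs : ContDiffOn ℝ ∞ om (ball 0 1))
    (ha : ∀ z ∈ ball (0 : E4) 1, ∀ v, om z v v = 0) {z : E4} (hz : z ∈ ball (0 : E4) 1)
    (u v w : E4) : fderiv ℝ om z u v w = - fderiv ℝ om z u w v := by
  have hd : DifferentiableAt ℝ om z :=
    (hs.differentiableOn (by simp)).differentiableAt (isOpen_ball.mem_nhds hz)
  have h0 : ∀ v : E4, fderiv ℝ om z u v v = 0 := by
    intro v
    have h1 : HasFDerivAt (fun y => om y v v)
        (((ContinuousLinearMap.apply ℝ ℝ v).comp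
          (ContinuousLinearMap.apply ℝ (E4 →L[ℝ] ℝ) v)).comp (fderiv ℝ om z)) z := by
      have h2 := ((ContinuousLinearMap.apply ℝ ℝ v).comp
          (ContinuousLinearMap.apply ℝ (E4 →L[ℝ] ℝ) v)).hasFDerivAt (x := om z)
      exact h2.comp z hd.hasFDerivAt
    have h3 : (fun y => om y v v) =ᶠ[𝓝 z] fun _ => (0 : ℝ) := by
      filter_upwards [isOpen_ball.mem_nhds hz] with y hy
      exact ha y hy v
    have h4 := h1.fderiv
    rw [h3.fderiv_eq, fderiv_fun_const] at h4
    have h5 := DFunLike.congr_fun h4 u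
    simpa using h5.symm
  have h1 := h0 (v + w)
  have h2 := h0 v
  have h3 := h0 w
  simp only [map_add, _root_.add_apply] at h1
  linarith

theorem exists_prim (om : E4 → Bil) (hs : ContDiffOn ℝ ∞ om (Metric.ball 0 1))
    (ha : ∀ z ∈ Metric.ball (0:E4) 1, ∀ v, om z v v = 0)
    (hc : ∀ z ∈ Metric.ball (0:E4) 1, ∀ u v w, dd om z u v w = 0)
    (he : ∀ z ∈ Metric.ball (0:E4) 1, om (-z) = om z) :
    ∃ (th : E4 → E4 →L[ℝ] ℝ) (C : ℝ), 0 ≤ C ∧ ContDiffOn ℝ ∞ th (Metric.ball 0 1) ∧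
      (∀ z, th (-z) = - th z) ∧
      (∀ z ∈ Metric.ball (0:E4) 1, ∀ u v, d1 th z u v = om z u v - om 0 u v) ∧
      ∀ z, ‖z‖ ≤ 1 / 2 → ‖th z‖ ≤ C * ‖z‖ ^ 2 ∧ ‖fderiv ℝ th z‖ ≤ C * ‖z‖ := by
  have h0m : (0 : E4) ∈ ball (0 : E4) 1 := mem_ball_self one_pos
  have hneg : ∀ z ∈ ball (0 : E4) 1, -z ∈ ball (0 : E4) 1 := fun z hz => by
    rw [mem_ball_zero_iff, norm_neg]; exact mem_ball_zero_iff.1 hz
  -- the form minus its value at zero
  have hs' : ContDiffOn ℝ ∞ (fun z => om z - om 0) (ball 0 1) := hs.sub contDiffOn_const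
  have hf' : ∀ z, fderiv ℝ (fun z => om z - om 0) z = fderiv ℝ om z := fun z => by
    rw [fderiv_sub_const]
  obtain ⟨t, ht, hdt⟩ := Crest.Agent.R281.Poi_234.poincare2 (U := ball (0 : E4) 1) isOpen_ball
    (convex_ball _ _) (om := fun z => om z - om 0) hs'
    (fun z hz v => by
      simp only [_root_.sub_apply]
      rw [ha z hz, ha 0 h0m, sub_zero])
    (fun z hz u v w => by
      rw [hf']
      have h1 := hc z hz u v w
      unfold dd at h1
      have h2 := dd_swap hs ha hz v w u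
      linarith)
  have htd : ∀ z ∈ ball (0 : E4) 1, DifferentiableAt ℝ t z := fun z hz =>
    (ht.differentiableOn (by simp)).differentiableAt (isOpen_ball.mem_nhds hz)
  set L : E4 →L[ℝ] E4 →L[ℝ] ℝ := fderiv ℝ t 0 with hL
  have hLs : ∀ u v, L u v = L v u := fun u v => by
    have := hdt 0 h0m u v
    simp only [sub_self, _root_.zero_apply] at this
    linarith
  set t1 : E4 → E4 →L[ℝ] ℝ := fun z => t z - t 0 - L z with ht1
  have ht1s : ContDiffOn ℝ ∞ t1 (ball 0 1) :=
    (ht.sub contDiffOn_const).sub L.contDiff.contDiffOn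
  have ht1d : ∀ z ∈ ball (0 : E4) 1, HasFDerivAt t1 (fderiv ℝ t z - L) z := fun z hz =>
    ((htd z hz).hasFDerivAt.sub_const _).sub L.hasFDerivAt
  set th : E4 → E4 →L[ℝ] ℝ := fun z => (1 / 2 : ℝ) • (t1 z - t1 (-z)) with hth
  have hms : ContDiffOn ℝ ∞ (fun z => t1 (-z)) (ball 0 1) :=
    ht1s.comp contDiff_neg.contDiffOn hneg
  have hths : ContDiffOn ℝ ∞ th (ball 0 1) := (ht1s.sub hms).const_smul (1 / 2 : ℝ)
  have hthd : ∀ z ∈ ball (0 : E4) 1, HasFDerivAt th
      ((1 / 2 : ℝ) • ((fderiv ℝ t z - L) + (fderiv ℝ t (-z) - L))) z := fun z hz => by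
    have h1 := ht1d z hz
    have h2 := (ht1d (-z) (hneg z hz)).comp z (hasFDerivAt_id z).neg
    have h3 := (h1.sub h2).const_smul (1 / 2 : ℝ)
    refine h3.congr_fderiv ?_
    ext u v
    simp only [_root_.smul_apply, _root_.add_apply, _root_.sub_apply, smul_eq_mul,
      ContinuousLinearMap.comp_apply, _root_.neg_apply, ContinuousLinearMap.id_apply, map_neg]
    ring
  have hth0 : th 0 = 0 := by simp [hth]
  have hfd0 : fderiv ℝ th 0 = 0 := by
    rw [(hthd 0 h0m).fderiv]
    simp [hL]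
  -- the bound
  have hf1 : ContDiffOn ℝ ∞ (fderiv ℝ th) (ball 0 1) :=
    hths.fderiv_of_isOpen isOpen_ball (by simp)
  have hf2 : ContinuousOn (fderiv ℝ (fderiv ℝ th)) (ball 0 1) :=
    hf1.continuousOn_fderiv_of_isOpen isOpen_ball (by simp)
  have hsub : closedBall (0 : E4) (1 / 2) ⊆ ball 0 1 := closedBall_subset_ball (by norm_num)
  obtain ⟨C, hC⟩ := (isCompact_closedBall (0 : E4) (1 / 2)).exists_bound_of_continuousOn
    (hf2.mono hsub)
  have hC0 : 0 ≤ C := (norm_nonneg _).trans (hC 0 (mem_closedBall_self (by norm_num)))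
  have hb1 : ∀ z, ‖z‖ ≤ 1 / 2 → ‖fderiv ℝ th z‖ ≤ C * ‖z‖ := by
    intro z hz
    have h1 := (convex_closedBall (0 : E4) (1 / 2)).norm_image_sub_le_of_norm_fderiv_le (𝕜 := ℝ)
      (f := fderiv ℝ th) (C := C)
      (fun y hy => (hf1.differentiableOn (by simp)).differentiableAt
        (isOpen_ball.mem_nhds (hsub hy))) hC
      (mem_closedBall_self (by norm_num)) (mem_closedBall_zero_iff.2 hz)
    rwa [hfd0, sub_zero, sub_zero] at h1
  refine ⟨th, C, hC0, hths, fun z => ?_, fun z hz u v => ?_, fun z hz => ⟨?_, hb1 z hz⟩⟩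
  · simp only [hth, neg_neg]
    rw [← smul_neg, neg_sub]
  · rw [d1_apply, (hthd z hz).fderiv]
    have h1 := hdt z hz u v
    have h2 := hdt (-z) (hneg z hz) u v
    rw [he z hz] at h2
    have h3 := hLs u v
    simp only [_root_.smul_apply, _root_.add_apply, _root_.sub_apply, smul_eq_mul] at h1 h2 ⊢
    linarith
  · have h1 := (convex_closedBall (0 : E4) ‖z‖).norm_image_sub_le_of_norm_fderiv_le (𝕜 := ℝ)
      (f := th) (C := C * ‖z‖)
      (fun y hy => (hthd y (hsub (closedBall_subset_closedBall hz hy))).differentiableAt)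
      (fun y hy => (hb1 y ((mem_closedBall_zero_iff.1 hy).trans hz)).trans (by
        gcongr; exact mem_closedBall_zero_iff.1 hy))
      (mem_closedBall_self (norm_nonneg _)) (mem_closedBall_zero_iff.2 le_rfl)
    rw [hth0, sub_zero, sub_zero] at h1
    linarith [h1, (by ring : C * ‖z‖ * ‖z‖ = C * ‖z‖ ^ 2)]

end

end Crest.Agent.R235.KPrim_856
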