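import Crest.Agent.R235.KUp_604
import Crest.Agent.R235.KCut_129
import Crest.Agent.R235.KClose_57

/-!
Row 235, KUM-K5 (helper604): triples on `M` from triples on `X` and neck data.
-/

set_option autoImplicit false
set_option maxSynthPendingDepth 3
set_option linter.unusedSectionVars false

open Set Function Filter
open scoped Manifold ContDiff Topology RealInnerProductSpace

universe u

namespace Crest.Agent.R235.KReal_604

open Crest.Agent.R240 Crest.Agent.R240.Ch Crest.Agent.R235 Crest.Agent.R235.PB_604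
  Crest.Agent.R235.KLin_604 Crest.Agent.R235.KT_604 Crest.Agent.R235.KGlue_604
  Crest.Agent.R235.KForm_604 Crest.Agent.R235.K12_417 Crest.Agent.R235.KUp_604

noncomputable section

/-! ### parameters -/

/-- cut-off functions and profiles. -/
structure Par {m : ℕ} (g : Fin m → ℝ → ℝ) (C ε δ : ℝ) where
  χ : E4 → ℝ
  s : E4 → ℝ
  r0 : ℝ
  q0 : ℝ
  μ : Fin m → ℝ
  gd : Fin m → ℝ → ℝ
  ε_pos : 0 < ε
  ε_lt : ε < 1
  χ_cd : ContDiff ℝ ∞ χ
  χ_even : ∀ z, χ (-z) = χ z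
  χ_mem : ∀ z, 0 ≤ χ z ∧ χ z ≤ 1
  χ_0 : ∀ z, ‖z‖ ≤ ε / 2 → χ z = 0
  χ_1 : ∀ z, ε ≤ ‖z‖ → χ z = 1
  χ_bd : ∀ z v, |fderiv ℝ χ z v| ≤ C / ε * ‖v‖
  s_cd : ContDiff ℝ ∞ s
  s_even : ∀ z, s (-z) = s z
  s_mem : ∀ z, 0 ≤ s z ∧ s z ≤ 1
  s_0 : ∀ z, ‖z‖ ≤ r0 → s z = 0
  s_1 : ∀ z, ε / 2 ≤ ‖z‖ → s z = 1
  s_bd : ∀ z v, |fderiv ℝ s z v| * ‖z‖ ≤ δ * ‖v‖
  r0_pos : 0 < r0
  r0_lt : r0 < ε / 2
  q0_pos : 0 < q0
  q0_lt : q0 < r0
  μ_pos : ∀ i, 0 < μ i
  gd_cd : ∀ i, ContDiffOn ℝ ∞ (gd i) (Ioi 0)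
  gd_pos : ∀ i t, 0 < t → t < 1 → 0 < gd i t ∧ 0 < deriv (gd i) t
  gd_0 : ∀ i t, t < q0 ^ 2 → gd i t = μ i * g i t
  gd_1 : ∀ i t, r0 ^ 2 ≤ t → gd i t = t

theorem exists_par {m : ℕ} (g : Fin m → ℝ → ℝ) (hg : ∀ i, ContDiffOn ℝ ∞ (g i) (Ioi 0))
    (hp : ∀ i t, 0 < t → t < 1 → 0 < g i t ∧ 0 < deriv (g i) t) :
    ∃ C : ℝ, 0 < C ∧ ∀ ε δ : ℝ, 0 < ε → ε < 1 → 0 < δ → Nonempty (Par g C ε δ) := by
  obtain ⟨C, hC, hχ⟩ := KCut_129.exists_cut
  refine ⟨C, hC, fun ε δ hε hε1 hδ => ?_⟩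
  obtain ⟨χ, χ1, χ2, χ3, χ4, χ5, χ6⟩ := hχ ε hε
  obtain ⟨r0, s, hr0, hr1, s1, s2, s3, s4, s5, s6⟩ :=
    KCut_129.exists_logcut (ε / 2) δ (half_pos hε) hδ
  have hr2 : r0 < 1 := by linarith
  have hr3 : r0 ^ 2 < 1 := by nlinarith
  have key := fun i => KCut_129.exists_prof (g i) (hg i) (hp i) (r0 ^ 2) (by positivity) hr3
  choose μ t0 gd k1 k2 k3 k4 k5 k6 k7 k8 using key
  obtain ⟨q0, hq1, hq2, hq3⟩ : ∃ q0 : ℝ, 0 < q0 ∧ q0 < r0 ∧ ∀ i, q0 ^ 2 ≤ t0 i := by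
    have h1 : ∀ᶠ q in 𝓝[>] (0 : ℝ), ∀ i, q ^ 2 ≤ t0 i := by
      refine eventually_all.2 fun i => ?_
      have h2 : Tendsto (fun q : ℝ => q ^ 2) (𝓝[>] 0) (𝓝 0) := by
        have h3 : Tendsto (fun q : ℝ => q ^ 2) (𝓝 0) (𝓝 (0 ^ 2)) := (continuous_pow 2).tendsto 0
        rw [zero_pow two_ne_zero] at h3
        exact h3.mono_left nhdsWithin_le_nhds
      exact h2.eventually (Iic_mem_nhds (k3 i))
    have h2 : ∀ᶠ q in 𝓝[>] (0 : ℝ), q ∈ Ioo 0 r0 := Ioo_mem_nhdsGT hr0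
    obtain ⟨q, hq, hq'⟩ := (h1.and h2).exists
    exact ⟨q, hq'.1, hq'.2, hq⟩
  exact ⟨⟨χ, s, r0, q0, μ, gd, hε, hε1, χ1, χ2, χ3, χ4, χ5, χ6, s1, s2, s3, s4, s5, s6, hr0, hr1,
    hq1, hq2, k1, k5, k6, fun i t ht => k7 i t (ht.le.trans (hq3 i)), k8⟩⟩

section Neck

variable {m : ℕ} {g : Fin m → ℝ → ℝ} {C ε δ : ℝ} (P : Par g C ε δ)

/-- the weights of the resolved triple. -/
def Par.mu (i : Fin m) (b : Fin 3) : ℝ := ![P.μ i, 1, 1] b

lemma Par.mu_pos (i : Fin m) (b : Fin 3) : 0 < P.mu i b := by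
  fin_cases b
  · exact P.μ_pos i
  · exact one_pos
  · exact one_pos

/-- the triple on the neck. -/
def nu (i : Fin m) (r : Fin 3 → Fin 3 → ℝ) (F : E4 → E4) (th : Fin 3 → E4 → E4 →L[ℝ] ℝ)
    (a : Fin 3) (z : E4) : Bil :=
  ∑ b, r a b • pl (fderiv ℝ F z) (et b) + r a 0 • (d1 (lg (P.gd i)) z - et 0)
    + d1 (fun y => P.χ y • th a y) z

/-- conditions on the map. -/
structure FOK (F : E4 → E4) : Prop where
  cd : ∀ z ∈ PB 1, ContDiffAt ℝ ∞ F z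
  odd : ∀ z, F (-z) = - F z
  id0 : ∀ z, ‖z‖ ≤ P.r0 → F z = z

/-- conditions on the primitives. -/
structure ThOK (th : E4 → E4 →L[ℝ] ℝ) : Prop where
  cd : ∀ z ∈ Metric.ball (0 : E4) 1, ContDiffAt ℝ ∞ th z
  odd : ∀ z, th (-z) = - th z

variable {P}

lemma PB_in_ball {z : E4} (hz : z ∈ PB 1) : z ∈ Metric.ball (0 : E4) 1 := PB_ball hz

lemma gd_cdAt (P : Par g C ε δ) (i : Fin m) {z : E4} (hz : z ≠ 0) :
    ContDiffAt ℝ ∞ (P.gd i) (‖z‖ ^ 2) := (P.gd_cd i).contDiffAt (Ioi_mem_nhds (nsq_pos hz))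

lemma gd_df (P : Par g C ε δ) (i : Fin m) {z : E4} (hz : z ≠ 0) :
    DifferentiableAt ℝ (P.gd i) (‖z‖ ^ 2) := (gd_cdAt P i hz).differentiableAt infty_ne_zero

lemma chith_cd {th : E4 → E4 →L[ℝ] ℝ} (h : ThOK th) {z : E4} (hz : z ∈ Metric.ball (0 : E4) 1) :
    ContDiffAt ℝ ∞ (fun y => P.χ y • th y) z := (P.χ_cd.contDiffAt).smul (h.cd z hz)

lemma chith_odd {th : E4 → E4 →L[ℝ] ℝ} (h : ThOK th) (z : E4) :
    P.χ (-z) • th (-z) = - (P.χ z • th z) := by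
  rw [P.χ_even, h.odd, smul_neg]

/-- `nu` is smooth and closed. -/
lemma z2At_nu {i : Fin m} {r : Fin 3 → Fin 3 → ℝ} {F : E4 → E4}
    {th : Fin 3 → E4 → E4 →L[ℝ] ℝ} (hF : FOK P F) (ht : ∀ a, ThOK (th a)) (a : Fin 3) {z : E4}
    (hz : z ∈ PB 1) : Z2At ((fun z => nu P i r F th a z) : F2 E4 E4) z := by
  have h1 : Z2At (fun y => ∑ b ∈ (Finset.univ : Finset (Fin 3)),
      at2 ((fun y => r a b • pl (fderiv ℝ F y) (et b)) : F2 E4 E4) y : F2 E4 E4) z :=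
    z2At_sum _ fun b _ => (z2At_pl (hF.cd z hz) (alt_et b)).smul (r a b)
  have h2 := ((z2At_d1 (contDiffAt_lg hz.1 (gd_cdAt P i hz.1))).add
    ((z2At_const (alt_et 0) z).smul (-1))).smul (r a 0)
  have h3 := z2At_d1 (chith_cd (P := P) (ht a) (PB_in_ball hz))
  refine ((h1.add h2).add h3).congr (Eventually.of_forall fun y => ?_)
  show (∑ b, r a b • pl (fderiv ℝ F y) (et b) + r a 0 • (d1 (lg (P.gd i)) y + (-1 : ℝ) • et 0))
    + d1 (fun y => P.χ y • th a y) y = nu P i r F th a y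
  unfold nu
  rw [neg_one_smul, ← sub_eq_add_neg]

lemma nu_even {i : Fin m} {r : Fin 3 → Fin 3 → ℝ} {F : E4 → E4}
    {th : Fin 3 → E4 → E4 →L[ℝ] ℝ} (hF : FOK P F) (ht : ∀ a, ThOK (th a)) (a : Fin 3) (z : E4) :
    nu P i r F th a (-z) = nu P i r F th a z := by
  unfold nu
  rw [fderiv_odd hF.odd, d1_lg_neg, d1_odd (chith_odd (P := P) (ht a))]

/-- `χ θ` vanishes near points of norm `< ε/2`. -/
lemma d1_chith_zero {th : E4 → E4 →L[ℝ] ℝ} {z : E4} (hz : ‖z‖ < ε / 2) :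
    d1 (fun y => P.χ y • th y) z = 0 := by
  refine d1_zero_of_ev ?_
  have h : ∀ᶠ y in 𝓝 z, ‖y‖ < ε / 2 := continuous_norm.continuousAt.eventually (Iio_mem_nhds hz)
  filter_upwards [h] with y hy
  rw [P.χ_0 y hy.le, zero_smul]

lemma fderiv_id0 {F : E4 → E4} (hF : FOK P F) {z : E4} (hz : ‖z‖ < P.r0) :
    fderiv ℝ F z = ContinuousLinearMap.id ℝ E4 := by
  have h : ∀ᶠ y in 𝓝 z, ‖y‖ < P.r0 := continuous_norm.continuousAt.eventually (Iio_mem_nhds hz)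
  have h2 : F =ᶠ[𝓝 z] id := h.mono fun y hy => hF.id0 y hy.le
  rw [h2.fderiv_eq, fderiv_id]

/-- the core of the neck. -/
lemma nu_core {i : Fin m} {r : Fin 3 → Fin 3 → ℝ} {F : E4 → E4}
    {th : Fin 3 → E4 → E4 →L[ℝ] ℝ} (hF : FOK P F) (a : Fin 3) {z : E4} (hz : ‖z‖ < P.r0) :
    nu P i r F th a z = ∑ b, r a b • neckT (P.gd i) z b := by
  unfold nu
  have h1 := P.r0_lt
  rw [fderiv_id0 hF hz, d1_chith_zero (by linarith), add_zero, Fin.sum_univ_three,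
    Fin.sum_univ_three, pl_id, pl_id, pl_id]
  show _ = r a 0 • d1 (lg (P.gd i)) z + r a 1 • et 1 + r a 2 • et 2
  module

lemma neckT_gd {i : Fin m} {z : E4} (hz : z ≠ 0) (hg : DifferentiableAt ℝ (g i) (‖z‖ ^ 2))
    (hq : ‖z‖ < P.q0) (b : Fin 3) : neckT (P.gd i) z b = P.mu i b • neckT (g i) z b := by
  fin_cases b
  · show d1 (lg (P.gd i)) z = P.μ i • d1 (lg (g i)) z
    have h1 : ‖z‖ ^ 2 < P.q0 ^ 2 := by
      have := norm_nonneg z
      gcongr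
    have h2 : P.gd i =ᶠ[𝓝 (‖z‖ ^ 2)] fun t => P.μ i * g i t := by
      filter_upwards [Iio_mem_nhds h1] with t ht
      exact P.gd_0 i t ht
    rw [d1_lg_congr h2, d1_lg_smul hz hg]
  · show et 1 = (1 : ℝ) • et 1
    rw [one_smul]
  · show et 2 = (1 : ℝ) • et 2
    rw [one_smul]

lemma posB_core {i : Fin m} {z : E4} (hz : z ∈ PB 1) : PosB (neckT (P.gd i) z) :=
  posB_neck hz.1 (gd_df P i hz.1) (P.gd_pos i _ (nsq_pos hz.1) (nsq_lt hz)).1
    (P.gd_pos i _ (nsq_pos hz.1) (nsq_lt hz)).2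

/-- lower triangular with positive diagonal. -/
def LT (r : Fin 3 → Fin 3 → ℝ) : Prop := (∀ a b, a < b → r a b = 0) ∧ ∀ a, 0 < r a a

lemma LT.inj {r : Fin 3 → Fin 3 → ℝ} (h : LT r) {x : Fin 3 → ℝ} (hx : x ≠ 0) :
    (fun b => ∑ a, x a * r a b) ≠ 0 := lt_inj h.1 h.2 hx

lemma LT.comb {r r' : Fin 3 → Fin 3 → ℝ} (h : LT r) (h' : LT r') {t : ℝ} (h0 : 0 ≤ t)
    (h1 : t ≤ 1) : LT fun a b => (1 - t) * r a b + t * r' a b := by
  refine ⟨fun a b hab => ?_, fun a => ?_⟩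
  · show (1 - t) * r a b + t * r' a b = 0
    rw [h.1 a b hab, h'.1 a b hab]; ring
  · show 0 < (1 - t) * r a a + t * r' a a
    have e1 := h.2 a
    have e2 := h'.2 a
    rcases eq_or_lt_of_le h0 with h2 | h2
    · rw [← h2]; simpa using e1
    · have := mul_pos h2 e2
      have h3 : 0 ≤ (1 - t) * r a a := mul_nonneg (by linarith) e1.le
      linarith

lemma LT.scale {r : Fin 3 → Fin 3 → ℝ} (h : LT r) {k : Fin 3 → ℝ} (hk : ∀ b, 0 < k b) :
    LT fun a b => r a b * k b := by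
  refine ⟨fun a b hab => ?_, fun a => mul_pos (h.2 a) (hk a)⟩
  show r a b * k b = 0
  rw [h.1 a b hab, zero_mul]

end Neck

/-! ### realisations -/

section Real

variable {M : Type u} [TopologicalSpace M] [T2Space M] [CompactSpace M]
  [ChartedSpace E4 M] [IsManifold 𝓘(ℝ, E4) ∞ M]
  {m : ℕ} {σ : Fin m → E3 → M} {w : Trip M} {R r₀ : Fin m → ℝ} {g : Fin m → ℝ → ℝ}
  {K : KIn M m}
  {X : Type u} [TopologicalSpace X] [T2Space X] [CompactSpace X]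
  [ChartedSpace E4 X] [IsManifold 𝓘(ℝ, E4) ∞ X]

/-- the form `u a` in the chart at the `i`-th new point. -/
def chf (O : KOut K X) (u : Trip X) (i : Fin m) (a : Fin 3) (z : E4) : Bil :=
  pl (D1 E4 E4 (O.ch i) z) (val (u a) (O.ch i z))

/-- `W` is the triple on `M` with the given data. -/
structure Real (w : Trip M) (R : Fin m → ℝ) {C ε δ : ℝ} (O : KOut K X) (P : Par g C ε δ)
    (u : Trip X)
    (r : Fin m → Fin 3 → Fin 3 → ℝ) (F : Fin m → E4 → E4)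
    (th : Fin m → Fin 3 → E4 → E4 →L[ℝ] ℝ) (W : Trip M) : Prop where
  c : ∀ i a, ∀ y ∈ K.C i, val (W a) y = ∑ b, (r i a b * (P.mu i b / R i)) • val (w b) y
  n : ∀ i a, ∀ z ∈ PB 1, pl (D1 E4 E4 (K.phi i) z) (val (W a) (K.phi i z)) =
    nu P i (r i) (F i) (th i) a z
  o : ∀ a, ∀ x ∈ Reg O, (∀ i, ∀ z, ‖z‖ ≤ ε → x ≠ O.ch i z) →
    pl (D1 E4 E4 O.pr x) (val (W a) (O.pr x)) = val (u a) x

variable {C ε δ : ℝ} {O : KOut K X} {P : Par g C ε δ}
  {u : Trip X} {r : Fin m → Fin 3 → Fin 3 → ℝ} {F : Fin m → E4 → E4}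
  {th : Fin m → Fin 3 → E4 → E4 →L[ℝ] ℝ}

/-- the points of `M`. -/
lemma cases_M (O : KOut K X) (hε : ε < 1) (y : M) : (∃ i, y ∈ K.C i) ∨
    (∃ i, ∃ z ∈ PB 1, K.phi i z = y) ∨
    (∃ x ∈ Reg O, (∀ i, ∀ z, ‖z‖ ≤ ε → x ≠ O.ch i z) ∧ O.pr x = y) := by
  by_cases h : ∃ i, y ∈ K.C i
  · exact Or.inl h
  · refine Or.inr ?_
    obtain ⟨x, hx, rfl⟩ := O.pr_surj y fun i hi => h ⟨i, hi⟩
    by_cases h2 : ∃ i, ∃ z, ‖z‖ ≤ ε ∧ x = O.ch i z
    · obtain ⟨i, z, hz, rfl⟩ := h2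
      have hz0 : z ≠ 0 := by
        rintro rfl
        exact hx i rfl
      have hzP : z ∈ PB 1 := ⟨hz0, lt_of_le_of_lt hz hε⟩
      exact Or.inl ⟨i, z, hzP, (O.pr_ch i z hzP).symm⟩
    · push Not at h2
      exact Or.inr ⟨x, hx, h2, rfl⟩

theorem Real.unique {W W' : Trip M} (h : Real w R O P u r F th W) (h' : Real w R O P u r F th W') :
    W = W' := by
  funext a
  refine ext_Z2 fun y => ?_
  rcases cases_M O P.ε_lt y with ⟨i, hi⟩ | ⟨i, z, hz, rfl⟩ | ⟨x, hx, hx2, rfl⟩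
  · rw [h.c i a y hi, h'.c i a y hi]
  · refine pl_inj (A := D1 E4 E4 (K.phi i) z) (K.imm i z hz) ?_
    rw [h.n i a z hz, h'.n i a z hz]
  · refine pl_inj (A := D1 E4 E4 O.pr x) (O.pr_imm x hx) ?_
    rw [h.o a x hx hx2, h'.o a x hx hx2]

/-- existence. -/
theorem Real.exists' (hS : Std σ w K.phi 1 R r₀ g) (hu : EvenT O.io u) (hF : ∀ i, FOK P (F i))
    (ht : ∀ i a, ThOK (th i a))
    (hout : ∀ i a, ∀ z ∈ PB 1, ε < ‖z‖ → nu P i (r i) (F i) (th i) a z = chf O u i a z) :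
    ∃ W : Trip M, Real w R O P u r F th W := by
  have key : ∀ a : Fin 3, ∃ c : F2 E4 M, (∀ y, Z2At c y) ∧
      (∀ i, ∀ y ∈ K.C i, at2 c y = at2 ((fun y => ∑ b, (r i a b * (P.mu i b / R i)) •
        val (w b) y) : F2 E4 M) y) ∧
      (∀ i, ∀ z ∈ PB 1, pl (D1 E4 E4 (K.phi i) z) (at2 c (K.phi i z)) =
        at2 ((fun z => nu P i (r i) (F i) (th i) a z) : F2 E4 E4) z) ∧
      (∀ x ∈ Reg O, (∀ i, ∀ z, ‖z‖ ≤ ε → x ≠ O.ch i z) →
        pl (D1 E4 E4 O.pr x) (at2 c (O.pr x)) = at2 ((u a).1.1 : F2 E4 X) x) := by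
    intro a
    refine down O ((u a).1.1 : F2 E4 X) (fun x _ => z2At_val (u a) x)
      (fun x _ => (evenT_iff.1 hu) a x)
      (fun i => ((fun z => nu P i (r i) (F i) (th i) a z) : F2 E4 E4))
      (fun i z hz => z2At_nu (hF i) (ht i) a hz) (fun i z _ => nu_even (hF i) (ht i) a z)
      ε P.ε_lt (fun i z hz hr => (hout i a z hz hr).symm)
      (fun i => ((fun y => ∑ b, (r i a b * (P.mu i b / R i)) • val (w b) y) : F2 E4 M))
      P.q0 P.q0_pos ?_ (fun i y _ => ?_) fun i z hz => ?_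
    · have h1 := P.q0_lt
      have h2 := P.r0_lt
      have h3 := P.ε_lt
      have h4 := P.ε_pos
      linarith
    · have h1 : Z2At (fun y => ∑ b ∈ (Finset.univ : Finset (Fin 3)),
          at2 ((fun y => (r i a b * (P.mu i b / R i)) • val (w b) y) : F2 E4 M) y : F2 E4 M) y :=
        z2At_sum _ fun b _ => (z2At_val (w b) y).smul _
      exact h1
    · have h1 := P.q0_lt
      have h2 := P.r0_lt
      have h3 := P.ε_lt
      have h4 := P.ε_pos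
      have hz1 : z ∈ PB 1 := PB_mono (by linarith) hz
      rw [at2_pb2]
      show pl (D1 E4 E4 (K.phi i) z) (∑ b, (r i a b * (P.mu i b / R i)) •
        val (w b) (K.phi i z)) = nu P i (r i) (F i) (th i) a z
      rw [nu_core (hF i) a (hz.2.trans h1), pl_sum]
      refine Finset.sum_congr rfl fun b _ => ?_
      rw [std_pl hS i hz1 b, neckT_gd hz.1 (std_df hS i hz.1) hz.2 b, smul_smul, smul_smul]
      congr 1
      have h5 := (hS.R_pos i).ne'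
      field_simp
  choose c hc0 hc1 hc2 hc3 using key
  exact ⟨fun a => mkZ (c a) (hc0 a), fun i a y hy => hc1 a i y hy, fun i a z hz => hc2 a i z hz,
    fun a x hx hx2 => hc3 a x hx hx2⟩

/-- positivity of a combination of realisations. -/
theorem Real.seg (hS : Std σ w K.phi 1 R r₀ g) (hw : Pos3 w) {u' : Trip X}
    {r' : Fin m → Fin 3 → Fin 3 → ℝ} {F' : Fin m → E4 → E4}
    {th' : Fin m → Fin 3 → E4 → E4 →L[ℝ] ℝ} {W W' : Trip M}
    (h : Real w R O P u r F th W) (h' : Real w R O P u' r' F' th' W')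
    (hF : ∀ i, FOK P (F i)) (hF' : ∀ i, FOK P (F' i))
    (hr : ∀ i, LT (r i)) (hr' : ∀ i, LT (r' i)) (hu : Seg u u')
    (hout : ∀ i a, ∀ z ∈ PB 1, ε < ‖z‖ → nu P i (r i) (F i) (th i) a z = chf O u i a z)
    (hout' : ∀ i a, ∀ z ∈ PB 1, ε < ‖z‖ →
      nu P i (r' i) (F' i) (th' i) a z = chf O u' i a z)
    (hmid : ∀ i, ∀ z, P.r0 ≤ ‖z‖ → ‖z‖ ≤ ε → ∀ τ ∈ Icc (0 : ℝ) 1,
      PosB (fun a => (1 - τ) • nu P i (r i) (F i) (th i) a z
        + τ • nu P i (r' i) (F' i) (th' i) a z)) : Seg W W' := by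
  intro τ h0 h1 y
  show PosB (fun a => (1 - τ) • val (W a) y + τ • val (W' a) y)
  have halt : ∀ y a, Alt ((1 - τ) • val (W a) y + τ • val (W' a) y) := by
    intro y a v
    show (1 - τ) * val (W a) y v v + τ * val (W' a) y v v = 0
    rw [alt_val _ _ v, alt_val _ _ v]; ring
  rcases cases_M O P.ε_lt y with ⟨i, hi⟩ | ⟨i, z, hz, rfl⟩ | ⟨x, hx, hx2, rfl⟩
  · -- on the spheres
    have hk : ∀ b, 0 < P.mu i b / R i := fun b => div_pos (P.mu_pos i b) (hS.R_pos i)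
    have h2 := posB_comb (hw y) (r := fun a b => ((1 - τ) * r i a b + τ * r' i a b) *
      (P.mu i b / R i)) fun x hx => (((hr i).comb (hr' i) h0 h1).scale hk).inj hx
    have h3 : (fun a => (1 - τ) • val (W a) y + τ • val (W' a) y) =
        fun a => ∑ b, (((1 - τ) * r i a b + τ * r' i a b) * (P.mu i b / R i)) •
          val (w b) y := by
      funext a
      rw [h.c i a y hi, h'.c i a y hi, Finset.smul_sum, Finset.smul_sum,
        ← Finset.sum_add_distrib]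
      refine Finset.sum_congr rfl fun b _ => ?_
      module
    rw [h3]; exact h2
  · -- on the necks
    refine posB_of_pl (halt _) (K.imm i z hz)
      (c := fun a => (1 - τ) • nu P i (r i) (F i) (th i) a z
        + τ • nu P i (r' i) (F' i) (th' i) a z) (fun a => ?_) ?_
    · show pl (D1 E4 E4 (K.phi i) z) ((1 - τ) • val (W a) (K.phi i z)
        + τ • val (W' a) (K.phi i z)) = _
      rw [pl_add, pl_smul, pl_smul, h.n i a z hz, h'.n i a z hz]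
    · rcases lt_or_ge ‖z‖ P.r0 with hz1 | hz1
      · have h2 := posB_comb (posB_core (P := P) (i := i) hz) (r := fun a b =>
          (1 - τ) * r i a b + τ * r' i a b) fun x hx => ((hr i).comb (hr' i) h0 h1).inj hx
        have h3 : (fun a => (1 - τ) • nu P i (r i) (F i) (th i) a z
            + τ • nu P i (r' i) (F' i) (th' i) a z) =
            fun a => ∑ b, ((1 - τ) * r i a b + τ * r' i a b) • neckT (P.gd i) z b := by
          funext a
          rw [nu_core (hF i) a hz1, nu_core (hF' i) a hz1, Finset.smul_sum, Finset.smul_sum,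
            ← Finset.sum_add_distrib]
          refine Finset.sum_congr rfl fun b _ => ?_
          module
        rw [h3]; exact h2
      · rcases le_or_gt ‖z‖ ε with hz2 | hz2
        · exact hmid i z hz1 hz2 τ ⟨h0, h1⟩
        · have h2 := hu τ h0 h1 (O.ch i z)
          have h2' : PosB (fun a => (1 - τ) • val (u a) (O.ch i z)
            + τ • val (u' a) (O.ch i z)) := h2
          refine posB_of_eq_pl (b := fun a => (1 - τ) • val (u a) (O.ch i z)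
            + τ • val (u' a) (O.ch i z)) (fun a v => ?_) (O.ch_imm i z (PB_ball hz))
            (fun a => ?_) h2'
          · show (1 - τ) * val (u a) (O.ch i z) v v + τ * val (u' a) (O.ch i z) v v = 0
            rw [alt_val _ _ v, alt_val _ _ v]; ring
          · show _ = pl (D1 E4 E4 (O.ch i) z) ((1 - τ) • val (u a) (O.ch i z)
              + τ • val (u' a) (O.ch i z))
            rw [hout i a z hz hz2, hout' i a z hz hz2, pl_add, pl_smul, pl_smul]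
            rfl
  · -- outside
    have h2 : PosB (fun a => (1 - τ) • val (u a) x + τ • val (u' a) x) := hu τ h0 h1 x
    refine posB_of_pl (halt _) (O.pr_imm x hx) (fun a => ?_) h2
    show pl (D1 E4 E4 O.pr x) ((1 - τ) • val (W a) (O.pr x) + τ • val (W' a) (O.pr x)) = _
    rw [pl_add, pl_smul, pl_smul, h.o a x hx hx2, h'.o a x hx hx2]

end Real

end

end Crest.Agent.R235.KReal_604
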