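import Crest.Agent.R235.KState_604
import Crest.Agent.R235.KFam_57

/-!
Row 235, KUM-K4/K5 (helper604): one segment of the path on `X` gives a polygonal path on `M`.
-/

set_option autoImplicit false
set_option maxSynthPendingDepth 3
set_option linter.unusedSectionVars false

open Set Function Filter
open scoped Manifold ContDiff Topology RealInnerProductSpace

universe u

namespace Crest.Agent.R235.KSegm_604

open Crest.Agent.R240 Crest.Agent.R240.Ch Crest.Agent.R235 Crest.Agent.R235.PB_604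
  Crest.Agent.R235.KLin_604 Crest.Agent.R235.KT_604 Crest.Agent.R235.KGlue_604
  Crest.Agent.R235.KForm_604 Crest.Agent.R235.K12_417 Crest.Agent.R235.KUp_604
  Crest.Agent.R235.KReal_604 Crest.Agent.R235.KState_604

noncomputable section

/-- for all small `ε`, for all small `δ` (depending on `ε`). -/
def Ev2 (p : ℝ → ℝ → Prop) : Prop :=
  ∃ ε0 : ℝ, 0 < ε0 ∧ ∀ ε, 0 < ε → ε ≤ ε0 → ∃ δ0 : ℝ, 0 < δ0 ∧ ∀ δ, 0 < δ → δ ≤ δ0 → p ε δ

lemma Ev2.mono {p q : ℝ → ℝ → Prop} (h : Ev2 p) (hpq : ∀ ε δ, p ε δ → q ε δ) : Ev2 q := by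
  obtain ⟨ε0, h0, h1⟩ := h
  refine ⟨ε0, h0, fun ε hε hε' => ?_⟩
  obtain ⟨δ0, h2, h3⟩ := h1 ε hε hε'
  exact ⟨δ0, h2, fun δ hδ hδ' => hpq _ _ (h3 δ hδ hδ')⟩

lemma Ev2.and {p q : ℝ → ℝ → Prop} (h : Ev2 p) (h' : Ev2 q) :
    Ev2 fun ε δ => p ε δ ∧ q ε δ := by
  obtain ⟨ε0, h0, h1⟩ := h
  obtain ⟨ε0', h0', h1'⟩ := h'
  refine ⟨min ε0 ε0', lt_min h0 h0', fun ε hε hε' => ?_⟩
  obtain ⟨δ0, h2, h3⟩ := h1 ε hε (hε'.trans (min_le_left _ _))
  obtain ⟨δ0', h2', h3'⟩ := h1' ε hε (hε'.trans (min_le_right _ _))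
  refine ⟨min δ0 δ0', lt_min h2 h2', fun δ hδ hδ' => ⟨?_, ?_⟩⟩
  · exact h3 δ hδ (hδ'.trans (min_le_left _ _))
  · exact h3' δ hδ (hδ'.trans (min_le_right _ _))

lemma Ev2.of_forall {p : ℝ → ℝ → Prop} (h : ∀ ε δ, 0 < ε → ε ≤ 1 / 2 → 0 < δ → p ε δ) : Ev2 p :=
  ⟨1 / 2, by norm_num, fun ε hε hε' => ⟨1, one_pos, fun δ hδ _ => h ε δ hε hε' hδ⟩⟩

lemma Ev2.exists {p : ℝ → ℝ → Prop} (h : Ev2 p) : ∃ ε δ, 0 < ε ∧ ε < 1 ∧ 0 < δ ∧ p ε δ := by
  obtain ⟨ε0, h0, h1⟩ := h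
  have h2 : 0 < min ε0 (1 / 2) := lt_min h0 (by norm_num)
  obtain ⟨δ0, h3, h4⟩ := h1 (min ε0 (1 / 2)) h2 (min_le_left _ _)
  exact ⟨_, δ0, h2, lt_of_le_of_lt (min_le_right _ _) (by norm_num), h3, h4 δ0 h3 le_rfl⟩

/-- a positive number below finitely many positive numbers. -/
lemma exists_small {ι : Type*} [Finite ι] {f : ι → ℝ} (hf : ∀ i, 0 < f i) :
    ∃ x : ℝ, 0 < x ∧ ∀ i, x ≤ f i := by
  have h1 : ∀ᶠ x in 𝓝[>] (0 : ℝ), ∀ i, x ≤ f i :=
    eventually_all.2 fun i => mem_of_superset (Ioo_mem_nhdsGT (hf i)) fun x hx => hx.2.le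
  obtain ⟨x, hx, hx'⟩ := (h1.and self_mem_nhdsWithin).exists
  exact ⟨x, hx', hx⟩

lemma continuous_pl (b : Bil) : Continuous fun A : E4 →L[ℝ] E4 => pl A b := by
  refine continuous_iff_continuousAt.2 fun A => ?_
  exact (contDiffAt_pl (n := 0) (G := E4 →L[ℝ] E4) contDiffAt_id contDiffAt_const).continuousAt

section Step

variable {M : Type u} [TopologicalSpace M] [T2Space M] [CompactSpace M]
  [ChartedSpace E4 M] [IsManifold 𝓘(ℝ, E4) ∞ M]
  {m : ℕ} {σ : Fin m → E3 → M} {w : Trip M} {R r₀ : Fin m → ℝ} {g : Fin m → ℝ → ℝ}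
  {K : KIn M m}
  {X : Type u} [TopologicalSpace X] [T2Space X] [CompactSpace X]
  [ChartedSpace E4 X] [IsManifold 𝓘(ℝ, E4) ∞ X]
  {O : KOut K X} {C : ℝ} {u u' : Trip X}

/-- `d(χ θ_t)` is affine in `t`. -/
lemma d1_chi_thD {ε δ : ℝ} {P : Par g C ε δ} {th th' : Fin m → Fin 3 → E4 → E4 →L[ℝ] ℝ}
    (hp : Prim O u th) (hp' : Prim O u' th') (t : ℝ) (i : Fin m) (a : Fin 3) {z : E4}
    (hz : z ∈ Metric.ball (0 : E4) 1) :
    d1 (fun y => P.χ y • thD th th' t i a y) z =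
      (1 - t) • d1 (fun y => P.χ y • th i a y) z + t • d1 (fun y => P.χ y • th' i a y) z := by
  have h1 := ((hp.ok i a).cd z hz).differentiableAt infty_ne_zero
  have h2 := ((hp'.ok i a).cd z hz).differentiableAt infty_ne_zero
  have h3 := P.χ_cd.differentiable infty_ne_zero z
  have h4 : DifferentiableAt ℝ (thD th th' t i a) z :=
    (h1.fun_const_smul (1 - t)).fun_add (h2.fun_const_smul t)
  have h5 := fderiv_thD h1 h2 t
  ext v v'
  show _ = (1 - t) * d1 (fun y => P.χ y • th i a y) z v v' +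
    t * d1 (fun y => P.χ y • th' i a y) z v v'
  rw [d1_smul h3 h4, d1_smul h3 h1, d1_smul h3 h2, d1_apply, h5]
  show fderiv ℝ P.χ z v * ((1 - t) * th i a z v' + t * th' i a z v') -
    fderiv ℝ P.χ z v' * ((1 - t) * th i a z v + t * th' i a z v) +
    P.χ z * (((1 - t) * fderiv ℝ (th i a) z v v' + t * fderiv ℝ (th' i a) z v v') -
      ((1 - t) * fderiv ℝ (th i a) z v' v + t * fderiv ℝ (th' i a) z v' v)) = _
  rw [d1_apply, d1_apply]
  ring

lemma cc_cont (O : KOut K X) (u u' : Trip X) (i : Fin m) :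
    Continuous fun t : ℝ => cc O (seg u u' t) i := by
  have h : (fun t : ℝ => cc O (seg u u' t) i) =
      fun t : ℝ => fun a => (1 - t) • cc O u i a + t • cc O u' i a :=
    funext fun t => cc_seg O u u' t i
  rw [h]
  refine continuous_pi fun a => ?_
  exact ((continuous_const.sub continuous_id).smul continuous_const).add
    (continuous_id.smul continuous_const)

/-- the new states along a segment. -/
theorem exists_states {A : Fin m → ℝ → E4 →L[ℝ] E4} (hst : St O u A) (hu' : EvenT O.io u')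
    (hseg : Seg u u') : ∃ B : Fin m → ℝ × ℝ → E4 →L[ℝ] E4,
      (∀ i, ∀ p ∈ Icc (0 : ℝ) 1 ×ˢ Icc (0 : ℝ) 1, ContDiffAt ℝ ∞ (B i) p ∧
        ∀ v, B i p v = 0 → v = 0) ∧
      (∀ i s, B i (0, s) = A i s) ∧
      ∀ t ∈ Icc (0 : ℝ) 1, St O (seg u u' t) fun i s => B i (t, s) := by
  have hd : ∀ i, ∀ t ∈ Icc (0 : ℝ) 1, Def3 (cc O (seg u u' t) i) ∧
      0 < NN (cc O (seg u u' t) i) := by
    intro i
    refine KFam_57.path_def3 (fun t => cc O (seg u u' t) i) (cc_cont O u u' i).continuousOn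
      (fun t _ a => chf_alt O _ i a 0) (fun t ht => ?_) ?_ ?_
    · exact posB_chf O (hseg t ht.1 ht.2) i (by simp)
    · rw [seg_zero]; exact hst.def3 i
    · rw [seg_zero]; exact hst.nn i
  have key := fun i => KFam_57.fam (cc O u i) (cc O u' i)
    (fun t ht => by rw [← cc_seg]; exact hd i t ht) (A i) (hst.cd i) (hst.zero i) (hst.one i)
  choose B hB1 hB2 hB3 hB4 using key
  refine ⟨B, hB1, hB4, fun t ht => ⟨even_seg O hst.even hu' t, fun i => (hd i t ht).1,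
    fun i => (hd i t ht).2, fun i s hs => ⟨?_, ?_⟩, fun i => hB2 i t, fun i => ?_⟩⟩
  · have h1 : ContDiffAt ℝ ∞ (fun s : ℝ => (t, s)) s := contDiffAt_const.prodMk contDiffAt_id
    exact ((hB1 i (t, s) ⟨ht, hs⟩).1).comp s h1
  · exact (hB1 i (t, s) ⟨ht, hs⟩).2
  · show B i (t, 1) = _
    rw [hB3 i t ht, cc_seg]

/-- the existence of realisations of states. -/
theorem exists_real (hS : Std σ w K.phi 1 R r₀ g) {ε δ : ℝ} (P : Par g C ε δ)
    {A : Fin m → ℝ → E4 →L[ℝ] E4} (hst : St O u A) {th : Fin m → Fin 3 → E4 → E4 →L[ℝ] ℝ}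
    (hp : Prim O u th) : ∃ W : Trip M, Real w R O P u (rD O u) (FD P A) th W :=
  Real.exists' hS hst.even (fun i => hst.fok i) hp.ok fun i a z hz hz2 => hst.hout hp i a z hz hz2


/-- positivity and continuity of the neck triples along a segment, for small parameters. -/
theorem neck_ev (hC : 0 < C) {A : Fin m → ℝ → E4 →L[ℝ] E4} (hst : St O u A)
    (hu' : EvenT O.io u') (hseg : Seg u u') {th th' : Fin m → Fin 3 → E4 → E4 →L[ℝ] ℝ}
    (hp : Prim O u th) (hp' : Prim O u' th') {B : Fin m → ℝ × ℝ → E4 →L[ℝ] E4}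
    (hB : ∀ i, ∀ p ∈ Icc (0 : ℝ) 1 ×ˢ Icc (0 : ℝ) 1, ContDiffAt ℝ ∞ (B i) p ∧
        ∀ v, B i p v = 0 → v = 0)
    (hBst : ∀ t ∈ Icc (0 : ℝ) 1, St O (seg u u' t) fun i s => B i (t, s)) :
    Ev2 fun ε δ => ∀ P : Par g C ε δ, ∀ i,
      (∀ t ∈ Icc (0 : ℝ) 1, ∀ z ∈ {z : E4 | P.r0 ≤ ‖z‖ ∧ ‖z‖ ≤ ε},
        PosB (fun a => nu P i (rD O (seg u u' t) i) (FD P (fun i s => B i (t, s)) i)
          (thD th th' t i) a z)) ∧
      ContinuousOn (fun p : ℝ × E4 => fun a => nu P i (rD O (seg u u' p.1) i)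
        (FD P (fun i s => B i (p.1, s)) i) (thD th th' p.1 i) a p.2)
        (Icc (0 : ℝ) 1 ×ˢ {z : E4 | P.r0 ≤ ‖z‖ ∧ ‖z‖ ≤ ε}) := by
  -- margins
  have hm := fun i => KClose_57.pos_margin
    (T := (fun t : ℝ => cc O (seg u u' t) i) '' Icc (0 : ℝ) 1)
    (isCompact_Icc.image (cc_cont O u u' i)) (by
      rintro c ⟨t, ht, rfl⟩
      exact posB_chf O (hseg t ht.1 ht.2) i (by simp))
  choose mg hmg0 hmg using hm
  have hcs : ∀ (th : Fin m → Fin 3 → E4 → E4 →L[ℝ] ℝ) (u : Trip X), Prim O u th →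
      ∀ i a, ∃ C' : ℝ, 0 < C' ∧ ∀ ε : ℝ, 0 < ε → ε ≤ 1 / 2 → ∀ χ : E4 → ℝ, ContDiff ℝ ∞ χ →
      (∀ z, 0 ≤ χ z ∧ χ z ≤ 1) → (∀ z v, |fderiv ℝ χ z v| ≤ C / ε * ‖v‖) →
      ∀ z, ‖z‖ ≤ ε → ‖d1 (fun y => χ y • th i a y) z‖ ≤ C' * ε := by
    intro th u hp i a
    obtain ⟨D, hD, hb⟩ := hp.bd i a
    exact KInterp_856.cut_small (th i a)
      (fun z hz => ((hp.ok i a).cd z hz).differentiableAt infty_ne_zero) C D hC hD hb
  choose C1 hC1 hC1' using hcs th u hp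
  choose C2 hC2 hC2' using hcs th' u' hp'
  -- radius
  obtain ⟨ε1, hε1, hε1'⟩ := exists_small (ι := Fin m × Fin 3)
    (f := fun p => mg p.1 / (C1 p.1 p.2 + C2 p.1 p.2))
    (fun p => div_pos (hmg0 p.1) (add_pos (hC1 _ _) (hC2 _ _)))
  -- slow variation
  have hfm := fun i => KFam_57.fam_map (B i) (hB i)
  choose δ1 hδ1 hδ1' using hfm
  obtain ⟨δ2, hδ2, hδ2'⟩ := exists_small hδ1
  refine ⟨min ε1 (1 / 2), lt_min hε1 (by norm_num), fun ε hε hε' => ⟨δ2, hδ2,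
    fun δ hδ hδ' P i => ?_⟩⟩
  have hεa : ε ≤ ε1 := hε'.trans (min_le_left _ _)
  have hεb : ε ≤ 1 / 2 := hε'.trans (min_le_right _ _)
  obtain ⟨f1, f2, f3⟩ := hδ1' i P.s P.s_cd P.s_mem fun z v =>
    (P.s_bd z v).trans (mul_le_mul_of_nonneg_right (hδ'.trans (hδ2' i)) (norm_nonneg v))
  have hr0 := P.r0_pos
  have hr1 := P.r0_lt
  have hP1 : ∀ z : E4, P.r0 ≤ ‖z‖ → ‖z‖ ≤ ε → z ∈ PB 1 := by
    intro z h1 h2
    refine ⟨fun h0 => ?_, by linarith⟩
    rw [h0, norm_zero] at h1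
    linarith
  constructor
  · rintro t ht z ⟨h1, h2⟩
    have hz := hP1 z h1 h2
    rcases le_total ‖z‖ (ε / 2) with h3 | h3
    · have e1 : (fun a => nu P i (rD O (seg u u' t) i) (FD P (fun i s => B i (t, s)) i)
          (thD th th' t i) a z) = fun a => ∑ b, rD O (seg u u' t) i a b •
          pl (fderiv ℝ (FD P (fun i s => B i (t, s)) i) z) (et b) :=
        funext fun a => nu_in (fun a => ((hp.thD hp' ht.1 ht.2).ok i a)) a hz h1 h3
      rw [e1]
      have e2 : PosB fun b => pl (fderiv ℝ (FD P (fun i s => B i (t, s)) i) z) (et b) :=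
        (posB_pl alt_et (f2 t ht z)).2 posB_et
      exact posB_comb e2 fun x hx => (rD_LT (hBst t ht) i).inj hx
    · refine hmg i (cc O (seg u u' t) i) ⟨t, ht, rfl⟩ _ fun a => ?_
      rw [(hBst t ht).nu_out i a hz h3, add_sub_cancel_left, d1_chi_thD hp hp' t i a (PB_ball hz)]
      have b1 := hC1' i a ε hε hεb P.χ P.χ_cd P.χ_mem P.χ_bd z h2
      have b2 := hC2' i a ε hε hεb P.χ P.χ_cd P.χ_mem P.χ_bd z h2
      have b3 := hε1' (i, a)
      have hc := add_pos (hC1 i a) (hC2 i a)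
      rw [le_div_iff₀ hc] at b3
      have ht1 : 0 ≤ 1 - t := by linarith [ht.2]
      calc ‖(1 - t) • d1 (fun y => P.χ y • th i a y) z + t • d1 (fun y => P.χ y • th' i a y) z‖
          ≤ ‖(1 - t) • d1 (fun y => P.χ y • th i a y) z‖
            + ‖t • d1 (fun y => P.χ y • th' i a y) z‖ := norm_add_le _ _
        _ = (1 - t) * ‖d1 (fun y => P.χ y • th i a y) z‖
            + t * ‖d1 (fun y => P.χ y • th' i a y) z‖ := by
            rw [norm_smul, norm_smul, Real.norm_of_nonneg ht1, Real.norm_of_nonneg ht.1]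
        _ ≤ 1 * (C1 i a * ε) + 1 * (C2 i a * ε) := by
            gcongr
            · linarith [ht.1]
            · exact ht.2
        _ = ε * (C1 i a + C2 i a) := by ring
        _ ≤ ε1 * (C1 i a + C2 i a) := by gcongr
        _ ≤ mg i := b3
  · refine continuousOn_pi.2 fun a => ?_
    have hmem : ∀ p ∈ Icc (0 : ℝ) 1 ×ˢ {z : E4 | P.r0 ≤ ‖z‖ ∧ ‖z‖ ≤ ε}, p.2 ∈ PB 1 :=
      fun p hp => hP1 p.2 hp.2.1 hp.2.2
    have c1 : ∀ a b, ContinuousOn (fun p : ℝ × E4 => rD O (seg u u' p.1) i a b)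
        (Icc (0 : ℝ) 1 ×ˢ {z : E4 | P.r0 ≤ ‖z‖ ∧ ‖z‖ ≤ ε}) := by
      intro a b p hp
      have h1 : ContinuousAt (fun c => rho c a b) (cc O (seg u u' p.1) i) :=
        (((hBst p.1 hp.1).def3 i).cd_rho a b).continuousAt
      have h2 : ContinuousAt (fun p : ℝ × E4 => cc O (seg u u' p.1) i) p :=
        ((cc_cont O u u' i).comp continuous_fst).continuousAt
      exact (ContinuousAt.comp (f := fun p : ℝ × E4 => cc O (seg u u' p.1) i) h1
        h2).continuousWithinAt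
    have c2 : ∀ b, ContinuousOn (fun p : ℝ × E4 =>
        pl (fderiv ℝ (FD P (fun i s => B i (p.1, s)) i) p.2) (et b))
        (Icc (0 : ℝ) 1 ×ˢ {z : E4 | P.r0 ≤ ‖z‖ ∧ ‖z‖ ≤ ε}) := fun b =>
      (continuous_pl (et b)).comp_continuousOn (f3.mono (prod_mono_right (subset_univ _)))
    have c3 : ContinuousOn (fun p : ℝ × E4 => d1 (lg (P.gd i)) p.2 - et 0)
        (Icc (0 : ℝ) 1 ×ˢ {z : E4 | P.r0 ≤ ‖z‖ ∧ ‖z‖ ≤ ε}) := by
      intro p hp
      have h1 : ContinuousAt (d1 (lg (P.gd i))) p.2 :=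
        (d1_contDiffAt (contDiffAt_lg (hmem p hp).1 (gd_cdAt P i (hmem p hp).1))).continuousAt
      exact ((ContinuousAt.comp (f := fun p : ℝ × E4 => p.2) h1 continuousAt_snd).sub
        continuousAt_const).continuousWithinAt
    have c4 : ∀ (th : Fin m → Fin 3 → E4 → E4 →L[ℝ] ℝ), (∀ i a, ThOK (th i a)) →
        ContinuousOn (fun p : ℝ × E4 => d1 (fun y => P.χ y • th i a y) p.2)
        (Icc (0 : ℝ) 1 ×ˢ {z : E4 | P.r0 ≤ ‖z‖ ∧ ‖z‖ ≤ ε}) := by
      intro th hth p hp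
      have h1 : ContinuousAt (d1 (fun y => P.χ y • th i a y)) p.2 :=
        (d1_contDiffAt (chith_cd (P := P) (hth i a) (PB_ball (hmem p hp)))).continuousAt
      exact (ContinuousAt.comp (f := fun p : ℝ × E4 => p.2) h1
        continuousAt_snd).continuousWithinAt
    have c5 : ContinuousOn (fun p : ℝ × E4 => d1 (fun y => P.χ y • thD th th' p.1 i a y) p.2)
        (Icc (0 : ℝ) 1 ×ˢ {z : E4 | P.r0 ≤ ‖z‖ ∧ ‖z‖ ≤ ε}) := by
      have h1 := ((continuousOn_const (c := (1 : ℝ))).sub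
        (continuous_fst (X := ℝ) (Y := E4)).continuousOn).smul (c4 th hp.ok)
      have h2 := (continuous_fst (X := ℝ) (Y := E4)).continuousOn.smul (c4 th' hp'.ok)
      refine (h1.add h2).congr fun p hp1 => ?_
      exact d1_chi_thD hp hp' p.1 i a (PB_ball (hmem p hp1))
    unfold nu
    exact ((continuousOn_finsetSum _ fun b _ => (c1 a b).smul (c2 b)).add
      ((c1 a 0).smul c3)).add c5

/-- **one segment**. -/
theorem seg_step (hS : Std σ w K.phi 1 R r₀ g) (hw : Pos3 w) (hC : 0 < C)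
    {A : Fin m → ℝ → E4 →L[ℝ] E4} (hst : St O u A) (hu' : EvenT O.io u') (hseg : Seg u u')
    {th th' : Fin m → Fin 3 → E4 → E4 →L[ℝ] ℝ} (hp : Prim O u th) (hp' : Prim O u' th') :
    ∃ A' : Fin m → ℝ → E4 →L[ℝ] E4, St O u' A' ∧ Ev2 fun ε δ => ∀ P : Par g C ε δ,
      ∀ W W' : Trip M, Real w R O P u (rD O u) (FD P A) th W →
        Real w R O P u' (rD O u') (FD P A') th' W' → PL W W' := by
  obtain ⟨B, hB1, hB2, hB3⟩ := exists_states hst hu' hseg
  have hst' : St O u' fun i s => B i (1, s) := by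
    have := hB3 1 ⟨zero_le_one, le_rfl⟩
    rwa [seg_one] at this
  refine ⟨fun i s => B i (1, s), hst', ?_⟩
  refine (neck_ev (g := g) hC hst hu' hseg hp hp' hB1 hB3).mono fun ε δ hev P W W' hW hW' => ?_
  -- closeness
  have hK : IsCompact {z : E4 | P.r0 ≤ ‖z‖ ∧ ‖z‖ ≤ ε} := by
    have h1 : {z : E4 | P.r0 ≤ ‖z‖ ∧ ‖z‖ ≤ ε} =
        Metric.closedBall (0 : E4) ε ∩ {z : E4 | P.r0 ≤ ‖z‖} := by
      ext z; simp [and_comm]
    rw [h1]
    exact (isCompact_closedBall _ _).inter_right (isClosed_le continuous_const continuous_norm)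
  have hsc := fun i => KClose_57.seg_close hK
    (fun t z a => nu P i (rD O (seg u u' t) i) (FD P (fun i s => B i (t, s)) i)
      (thD th th' t i) a z) (hev P i).2 (hev P i).1
  choose η hη0 hη using hsc
  obtain ⟨η0, hη1, hη2⟩ := exists_small hη0
  -- realisations
  have hex : ∀ t : ℝ, ∃ V : Trip M, t ∈ Icc (0 : ℝ) 1 → Real w R O P (seg u u' t)
      (rD O (seg u u' t)) (FD P fun i s => B i (t, s)) (thD th th' t) V := by
    intro t
    by_cases ht : t ∈ Icc (0 : ℝ) 1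
    · obtain ⟨V, hV⟩ := exists_real hS P (hB3 t ht) (hp.thD hp' ht.1 ht.2)
      exact ⟨V, fun _ => hV⟩
    · exact ⟨w, fun h => absurd h ht⟩
  choose V hV using hex
  have hstep : ∀ t ∈ Icc (0 : ℝ) 1, ∀ t' ∈ Icc (0 : ℝ) 1, |t - t'| < η0 →
      Seg (V t) (V t') := by
    intro t ht t' ht' htt
    refine Real.seg hS hw (hV t ht) (hV t' ht') (fun i => (hB3 t ht).fok i)
      (fun i => (hB3 t' ht').fok i) (fun i => rD_LT (hB3 t ht) i) (fun i => rD_LT (hB3 t' ht') i)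
      ?_ (fun i a z hz hz2 => (hB3 t ht).hout (hp.thD hp' ht.1 ht.2) i a z hz hz2)
      (fun i a z hz hz2 => (hB3 t' ht').hout (hp.thD hp' ht'.1 ht'.2) i a z hz hz2)
      fun i z hz1 hz2 τ hτ => ?_
    · intro τ h0 h1
      rw [seg_seg]
      refine hseg _ ?_ ?_
      · have := mul_nonneg (sub_nonneg.2 h1) ht.1
        have := mul_nonneg h0 ht'.1
        linarith
      · have h2 := mul_le_mul_of_nonneg_left ht.2 (sub_nonneg.2 h1)
        have h3 := mul_le_mul_of_nonneg_left ht'.2 h0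
        linarith
    · exact hη i t ht t' ht' (htt.trans_le (hη2 i)) z ⟨hz1, hz2⟩ τ hτ
  -- the chain
  obtain ⟨N, hN⟩ := exists_nat_one_div_lt hη1
  have hN0 : (0 : ℝ) < (N : ℝ) + 1 := by positivity
  have hchain : ∀ j : ℕ, j ≤ N + 1 → PL (V 0) (V ((j : ℝ) / ((N : ℝ) + 1))) := by
    intro j
    induction j with
    | zero =>
      intro _
      rw [Nat.cast_zero, zero_div]
      exact Relation.ReflTransGen.refl
    | succ j ih =>
      intro hj
      refine (ih (by omega)).tail (hstep _ ?_ _ ?_ ?_)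
      · have h2 : (j : ℝ) ≤ (N : ℝ) + 1 := by
          have : j ≤ N + 1 := by omega
          exact_mod_cast this
        exact ⟨by positivity, (div_le_one hN0).2 h2⟩
      · have h2 : ((j + 1 : ℕ) : ℝ) ≤ (N : ℝ) + 1 := by exact_mod_cast hj
        exact ⟨by positivity, (div_le_one hN0).2 h2⟩
      · have h2 : (j : ℝ) / ((N : ℝ) + 1) - ((j + 1 : ℕ) : ℝ) / ((N : ℝ) + 1) =
            - (1 / ((N : ℝ) + 1)) := by
          push_cast
          field_simp
          ring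
        rw [h2, abs_neg, abs_of_pos (by positivity)]
        exact hN
  have h1 := hchain (N + 1) le_rfl
  have h2 : ((N + 1 : ℕ) : ℝ) / ((N : ℝ) + 1) = 1 := by
    push_cast
    exact div_self hN0.ne'
  rw [h2] at h1
  have e0 : V 0 = W := by
    have h3 := hV 0 ⟨le_rfl, zero_le_one⟩
    have h4 : (fun i s => B i ((0 : ℝ), s)) = A := by
      funext i s
      exact hB2 i s
    rw [seg_zero, thD_zero, h4] at h3
    exact h3.unique hW
  have e1 : V 1 = W' := by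
    have h3 := hV 1 ⟨zero_le_one, le_rfl⟩
    rw [seg_one, thD_one] at h3
    exact h3.unique hW'
  rw [e0, e1] at h1
  exact h1

/-- **the chain**. -/
theorem chain (hS : Std σ w K.phi 1 R r₀ g) (hw : Pos3 w) (hC : 0 < C)
    {A : Fin m → ℝ → E4 →L[ℝ] E4} (hst : St O u A)
    {th : Fin m → Fin 3 → E4 → E4 →L[ℝ] ℝ} (hp : Prim O u th) (hple : PLE O.io u u') :
    ∃ (A' : Fin m → ℝ → E4 →L[ℝ] E4) (th' : Fin m → Fin 3 → E4 → E4 →L[ℝ] ℝ),
      St O u' A' ∧ Prim O u' th' ∧ Ev2 fun ε δ => ∀ P : Par g C ε δ,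
      ∀ W W' : Trip M, Real w R O P u (rD O u) (FD P A) th W →
        Real w R O P u' (rD O u') (FD P A') th' W' → PL W W' := by
  induction hple with
  | refl =>
    exact ⟨A, th, hst, hp, Ev2.of_forall fun ε δ _ _ _ P W W' hW hW' => by
      rw [hW.unique hW']
      exact Relation.ReflTransGen.refl⟩
  | @tail v v' _ hvv ih =>
    obtain ⟨A1, th1, hst1, hp1, hev1⟩ := ih
    obtain ⟨hseg, _, hev'⟩ := hvv
    obtain ⟨th2, hp2⟩ := exists_prim O hev'
    obtain ⟨A2, hst2, hev2⟩ := seg_step hS hw hC hst1 hev' hseg hp1 hp2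
    refine ⟨A2, th2, hst2, hp2, (hev1.and hev2).mono ?_⟩
    rintro ε δ ⟨h1, h2⟩ P W W' hW hW'
    obtain ⟨V, hV⟩ := exists_real hS P hst1 hp1
    exact (h1 P W V hW hV).trans (h2 P V W' hV hW')

end Step

end

end Crest.Agent.R235.KSegm_604
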