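import Crest.Agent.R235.KReal_604
import Crest.Agent.R235.KPrim_856
import Crest.Agent.R235.KInterp_856

/-!
Row 235, KUM-K4 (helper604): states of the path on `X` (value at the new points, primitives, path
of endomorphisms) and the formulas for the neck triple in the zones.
-/

set_option autoImplicit false
set_option maxSynthPendingDepth 3
set_option linter.unusedSectionVars false

open Set Function Filter
open scoped Manifold ContDiff Topology RealInnerProductSpace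

universe u

namespace Crest.Agent.R235.KState_604

open Crest.Agent.R240 Crest.Agent.R240.Ch Crest.Agent.R235 Crest.Agent.R235.PB_604
  Crest.Agent.R235.KLin_604 Crest.Agent.R235.KT_604 Crest.Agent.R235.KGlue_604
  Crest.Agent.R235.KForm_604 Crest.Agent.R235.K12_417 Crest.Agent.R235.KUp_604
  Crest.Agent.R235.KReal_604

noncomputable section

/-! ### forms in the charts -/

lemma z2At_model_iff {b : E4 → Bil} {z : E4} (h : Z2At (b : F2 E4 E4) z) :
    (∀ v, b z v v = 0) ∧ ContDiffAt ℝ ∞ b z ∧ ∀ u v w, dd b z u v w = 0 := by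
  have h1 : rep z (b : F2 E4 E4) = b := funext fun y => rep_model z b y
  refine ⟨h.alt, ?_, ?_⟩
  · have := h.sm
    rw [h1] at this
    exact this
  · have := h.cl
    rw [h1] at this
    exact this

section Chart

variable {M : Type u} [TopologicalSpace M] [T2Space M] [CompactSpace M]
  [ChartedSpace E4 M] [IsManifold 𝓘(ℝ, E4) ∞ M]
  {m : ℕ} {K : KIn M m}
  {X : Type u} [TopologicalSpace X] [T2Space X] [CompactSpace X]
  [ChartedSpace E4 X] [IsManifold 𝓘(ℝ, E4) ∞ X]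

lemma chf_z2 (O : KOut K X) (u : Trip X) (i : Fin m) (a : Fin 3) {z : E4}
    (hz : z ∈ Metric.ball (0 : E4) 1) : Z2At (chf O u i a : F2 E4 E4) z :=
  (z2At_val (u a) (O.ch i z)).pb2 (KOut.ch_at O hz)

lemma chf_alt (O : KOut K X) (u : Trip X) (i : Fin m) (a : Fin 3) (z : E4) :
    Alt (chf O u i a z) := (alt_val (u a) (O.ch i z)).pull _

lemma chf_cd (O : KOut K X) (u : Trip X) (i : Fin m) (a : Fin 3) {z : E4}
    (hz : z ∈ Metric.ball (0 : E4) 1) : ContDiffAt ℝ ∞ (chf O u i a) z :=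
  (z2At_model_iff (chf_z2 O u i a hz)).2.1

lemma chf_even (O : KOut K X) {u : Trip X} (hu : EvenT O.io u) (i : Fin m) (a : Fin 3) {z : E4}
    (hz : z ∈ Metric.ball (0 : E4) 1) : chf O u i a (-z) = chf O u i a z :=
  even_ch O ((evenT_iff.1 hu) a) hz

lemma chf_seg (O : KOut K X) (u u' : Trip X) (t : ℝ) (i : Fin m) (a : Fin 3) (z : E4) :
    chf O (seg u u' t) i a z = (1 - t) • chf O u i a z + t • chf O u' i a z := by
  show pl _ ((1 - t) • val (u a) (O.ch i z) + t • val (u' a) (O.ch i z)) = _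
  rw [pl_add, pl_smul, pl_smul]
  rfl

/-- the constant triples. -/
def cc (O : KOut K X) (u : Trip X) (i : Fin m) : Fin 3 → Bil := fun a => chf O u i a 0

lemma cc_seg (O : KOut K X) (u u' : Trip X) (t : ℝ) (i : Fin m) :
    cc O (seg u u' t) i = fun a => (1 - t) • cc O u i a + t • cc O u' i a :=
  funext fun a => chf_seg O u u' t i a 0

lemma posB_chf (O : KOut K X) {u : Trip X} (hu : Pos3 u) (i : Fin m) {z : E4}
    (hz : z ∈ Metric.ball (0 : E4) 1) : PosB (fun a => chf O u i a z) :=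
  posB_of_eq_pl (b := fun a => val (u a) (O.ch i z)) (fun a => alt_val _ _) (O.ch_imm i z hz)
    (fun a => rfl) (hu (O.ch i z))

lemma seg_zero (u u' : Trip X) : seg u u' 0 = u := by
  funext i
  show (1 - (0 : ℝ)) • u i + (0 : ℝ) • u' i = u i
  rw [sub_zero, one_smul, zero_smul, add_zero]

lemma seg_one (u u' : Trip X) : seg u u' 1 = u' := by
  funext i
  show (1 - (1 : ℝ)) • u i + (1 : ℝ) • u' i = u' i
  rw [sub_self, one_smul, zero_smul, zero_add]

lemma seg_seg (u u' : Trip X) (t t' τ : ℝ) :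
    seg (seg u u' t) (seg u u' t') τ = seg u u' ((1 - τ) * t + τ * t') := by
  funext i
  show (1 - τ) • ((1 - t) • u i + t • u' i) + τ • ((1 - t') • u i + t' • u' i) =
    (1 - ((1 - τ) * t + τ * t')) • u i + ((1 - τ) * t + τ * t') • u' i
  module

lemma even_seg (O : KOut K X) {u u' : Trip X} (h : EvenT O.io u) (h' : EvenT O.io u') (t : ℝ) :
    EvenT O.io (seg u u' t) := by
  intro k x v v'
  show (1 - t) * val (u k) (O.io x) (dself O.io x v) (dself O.io x v')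
    + t * val (u' k) (O.io x) (dself O.io x v) (dself O.io x v') =
    (1 - t) * val (u k) x v v' + t * val (u' k) x v v'
  rw [h k x v v', h' k x v v']

/-! ### primitives -/

/-- primitives of `u - u(P_i)` in the charts. -/
structure Prim (O : KOut K X) (u : Trip X) (th : Fin m → Fin 3 → E4 → E4 →L[ℝ] ℝ) : Prop where
  ok : ∀ i a, ThOK (th i a)
  d : ∀ i a, ∀ z ∈ Metric.ball (0 : E4) 1, d1 (th i a) z = chf O u i a z - chf O u i a 0
  bd : ∀ i a, ∃ D : ℝ, 0 ≤ D ∧ ∀ z, ‖z‖ ≤ 1 / 2 →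
    ‖th i a z‖ ≤ D * ‖z‖ ^ 2 ∧ ‖fderiv ℝ (th i a) z‖ ≤ D * ‖z‖

theorem exists_prim (O : KOut K X) {u : Trip X} (hu : EvenT O.io u) : ∃ th, Prim O u th := by
  have key : ∀ (i : Fin m) (a : Fin 3), ∃ th : E4 → E4 →L[ℝ] ℝ, ThOK th ∧
      (∀ z ∈ Metric.ball (0 : E4) 1, d1 th z = chf O u i a z - chf O u i a 0) ∧
      ∃ D : ℝ, 0 ≤ D ∧ ∀ z, ‖z‖ ≤ 1 / 2 → ‖th z‖ ≤ D * ‖z‖ ^ 2 ∧
        ‖fderiv ℝ th z‖ ≤ D * ‖z‖ := by
    intro i a
    obtain ⟨th, D, hD, h1, h2, h3, h4⟩ := KPrim_856.exists_prim (chf O u i a)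
      (fun z hz => (chf_cd O u i a hz).contDiffWithinAt)
      (fun z _ v => chf_alt O u i a z v)
      (fun z hz => (z2At_model_iff (chf_z2 O u i a hz)).2.2)
      (fun z hz => chf_even O hu i a hz)
    refine ⟨th, ⟨fun z hz => h1.contDiffAt (Metric.isOpen_ball.mem_nhds hz), h2⟩,
      fun z hz => ?_, D, hD, h4⟩
    ext v v'
    exact h3 z hz v v'
  choose th h1 h2 h3 using key
  exact ⟨th, h1, h2, h3⟩

/-- the convex combination of primitives. -/
def thD (th th' : Fin m → Fin 3 → E4 → E4 →L[ℝ] ℝ) (t : ℝ) :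
    Fin m → Fin 3 → E4 → E4 →L[ℝ] ℝ := fun i a z => (1 - t) • th i a z + t • th' i a z

lemma thD_zero (th th' : Fin m → Fin 3 → E4 → E4 →L[ℝ] ℝ) : thD th th' 0 = th := by
  funext i a z
  show (1 - (0 : ℝ)) • th i a z + (0 : ℝ) • th' i a z = th i a z
  rw [sub_zero, one_smul, zero_smul, add_zero]

lemma thD_one (th th' : Fin m → Fin 3 → E4 → E4 →L[ℝ] ℝ) : thD th th' 1 = th' := by
  funext i a z
  show (1 - (1 : ℝ)) • th i a z + (1 : ℝ) • th' i a z = th' i a z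
  rw [sub_self, one_smul, zero_smul, zero_add]

lemma fderiv_thD {th th' : Fin m → Fin 3 → E4 → E4 →L[ℝ] ℝ} {i : Fin m} {a : Fin 3} {z : E4}
    (h : DifferentiableAt ℝ (th i a) z) (h' : DifferentiableAt ℝ (th' i a) z) (t : ℝ) :
    fderiv ℝ (thD th th' t i a) z = (1 - t) • fderiv ℝ (th i a) z + t • fderiv ℝ (th' i a) z := by
  show fderiv ℝ (fun z => (1 - t) • th i a z + t • th' i a z) z = _
  rw [fderiv_fun_add (h.fun_const_smul _) (h'.fun_const_smul _), fderiv_fun_const_smul h,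
    fderiv_fun_const_smul h']

lemma Prim.thD {O : KOut K X} {u u' : Trip X} {th th' : Fin m → Fin 3 → E4 → E4 →L[ℝ] ℝ}
    (h : Prim O u th) (h' : Prim O u' th') {t : ℝ} (h0 : 0 ≤ t) (h1 : t ≤ 1) :
    Prim O (seg u u' t) (thD th th' t) := by
  have hd : ∀ i a, ∀ z ∈ Metric.ball (0 : E4) 1, fderiv ℝ (KState_604.thD th th' t i a) z =
      (1 - t) • fderiv ℝ (th i a) z + t • fderiv ℝ (th' i a) z := fun i a z hz =>
    fderiv_thD (((h.ok i a).cd z hz).differentiableAt infty_ne_zero)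
      (((h'.ok i a).cd z hz).differentiableAt infty_ne_zero) t
  refine ⟨fun i a => ⟨fun z hz => ?_, fun z => ?_⟩, fun i a z hz => ?_, fun i a => ?_⟩
  · exact (((h.ok i a).cd z hz).const_smul _).add (((h'.ok i a).cd z hz).const_smul _)
  · show (1 - t) • th i a (-z) + t • th' i a (-z) = -((1 - t) • th i a z + t • th' i a z)
    rw [(h.ok i a).odd, (h'.ok i a).odd]
    module
  · have e1 := h.d i a z hz
    have e2 := h'.d i a z hz
    rw [chf_seg, chf_seg]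
    have e3 : d1 (KState_604.thD th th' t i a) z = (1 - t) • d1 (th i a) z + t • d1 (th' i a) z := by
      ext v v'
      show fderiv ℝ (KState_604.thD th th' t i a) z v v' -
        fderiv ℝ (KState_604.thD th th' t i a) z v' v = (1 - t) * (fderiv ℝ (th i a) z v v' -
          fderiv ℝ (th i a) z v' v) + t * (fderiv ℝ (th' i a) z v v' - fderiv ℝ (th' i a) z v' v)
      rw [hd i a z hz]
      show (1 - t) * fderiv ℝ (th i a) z v v' + t * fderiv ℝ (th' i a) z v v' -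
        ((1 - t) * fderiv ℝ (th i a) z v' v + t * fderiv ℝ (th' i a) z v' v) = _
      ring
    rw [e3, e1, e2]
    module
  · obtain ⟨D, hD, hb⟩ := h.bd i a
    obtain ⟨D', hD', hb'⟩ := h'.bd i a
    refine ⟨D + D', by positivity, fun z hz => ?_⟩
    obtain ⟨b1, b2⟩ := hb z hz
    obtain ⟨b3, b4⟩ := hb' z hz
    have hz1 : z ∈ Metric.ball (0 : E4) 1 := by
      simp only [Metric.mem_ball, dist_zero_right]; linarith
    have ht : 0 ≤ 1 - t := by linarith
    have hn := norm_nonneg z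
    have hD1 : 0 ≤ D * ‖z‖ ^ 2 := by positivity
    have hD2 : 0 ≤ D' * ‖z‖ ^ 2 := by positivity
    have hD3 : 0 ≤ D * ‖z‖ := by positivity
    have hD4 : 0 ≤ D' * ‖z‖ := by positivity
    constructor
    · show ‖(1 - t) • th i a z + t • th' i a z‖ ≤ _
      calc ‖(1 - t) • th i a z + t • th' i a z‖ ≤ ‖(1 - t) • th i a z‖ + ‖t • th' i a z‖ :=
            norm_add_le _ _
        _ = (1 - t) * ‖th i a z‖ + t * ‖th' i a z‖ := by
            rw [norm_smul, norm_smul, Real.norm_of_nonneg ht, Real.norm_of_nonneg h0]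
        _ ≤ 1 * (D * ‖z‖ ^ 2) + 1 * (D' * ‖z‖ ^ 2) := by
            gcongr
            linarith
        _ = (D + D') * ‖z‖ ^ 2 := by ring
    · rw [hd i a z hz1]
      calc ‖(1 - t) • fderiv ℝ (th i a) z + t • fderiv ℝ (th' i a) z‖
          ≤ ‖(1 - t) • fderiv ℝ (th i a) z‖ + ‖t • fderiv ℝ (th' i a) z‖ := norm_add_le _ _
        _ = (1 - t) * ‖fderiv ℝ (th i a) z‖ + t * ‖fderiv ℝ (th' i a) z‖ := by
            rw [norm_smul, norm_smul, Real.norm_of_nonneg ht, Real.norm_of_nonneg h0]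
        _ ≤ 1 * (D * ‖z‖) + 1 * (D' * ‖z‖) := by
            gcongr
            linarith
        _ = (D + D') * ‖z‖ := by ring

/-! ### states -/

/-- the state at a vertex: `A i` is a path from `1` to `AA (cc O u i)`. -/
structure St (O : KOut K X) (u : Trip X) (A : Fin m → ℝ → E4 →L[ℝ] E4) : Prop where
  even : EvenT O.io u
  def3 : ∀ i, Def3 (cc O u i)
  nn : ∀ i, 0 < NN (cc O u i)
  cd : ∀ i, ∀ s ∈ Icc (0 : ℝ) 1, ContDiffAt ℝ ∞ (A i) s ∧ ∀ v, A i s v = 0 → v = 0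
  zero : ∀ i, A i 0 = ContinuousLinearMap.id ℝ E4
  one : ∀ i, A i 1 = AA (cc O u i)

/-- the matrices. -/
def rD (O : KOut K X) (u : Trip X) : Fin m → Fin 3 → Fin 3 → ℝ := fun i => rho (cc O u i)

lemma rD_LT {O : KOut K X} {u : Trip X} {A : Fin m → ℝ → E4 →L[ℝ] E4} (h : St O u A)
    (i : Fin m) : LT (rD O u i) := ⟨fun _ _ hab => rho_upper hab, (h.def3 i).rho_diag⟩

end Chart

/-! ### the map `z ↦ A (s z) z` -/

section Maps

variable {m : ℕ} {g : Fin m → ℝ → ℝ} {C ε δ : ℝ} (P : Par g C ε δ)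

/-- `z ↦ A (s z) z`. -/
def FD (A : Fin m → ℝ → E4 →L[ℝ] E4) : Fin m → E4 → E4 := fun i z => A i (P.s z) z

variable {P}

lemma s_Icc (P : Par g C ε δ) (z : E4) : P.s z ∈ Icc (0 : ℝ) 1 := P.s_mem z

lemma FD_cd {A : ℝ → E4 →L[ℝ] E4} (hA : ∀ s ∈ Icc (0 : ℝ) 1, ContDiffAt ℝ ∞ A s) (z : E4) :
    ContDiffAt ℝ ∞ (fun z : E4 => A (P.s z) z) z :=
  ((hA _ (s_Icc P z)).comp z P.s_cd.contDiffAt).clm_apply contDiffAt_id

lemma FOK_FD {A : ℝ → E4 →L[ℝ] E4} (hA : ∀ s ∈ Icc (0 : ℝ) 1, ContDiffAt ℝ ∞ A s)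
    (h0 : A 0 = ContinuousLinearMap.id ℝ E4) : FOK P fun z : E4 => A (P.s z) z := by
  refine ⟨fun z _ => FD_cd hA z, fun z => ?_, fun z hz => ?_⟩
  · show A (P.s (-z)) (-z) = - A (P.s z) z
    rw [P.s_even, map_neg]
  · show A (P.s z) z = z
    rw [P.s_0 z hz, h0]
    rfl

/-- `ds = 0` where `s = 1`. -/
lemma ds_one {z : E4} (hz : P.s z = 1) : fderiv ℝ P.s z = 0 := by
  have h : IsLocalMax P.s z := by
    refine Filter.Eventually.of_forall fun y => ?_
    show P.s y ≤ P.s z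
    rw [hz]
    exact (P.s_mem y).2
  exact h.fderiv_eq_zero

/-- `dχ = 0` where `χ = 0`. -/
lemma dchi_zero {z : E4} (hz : P.χ z = 0) : fderiv ℝ P.χ z = 0 := by
  have h : IsLocalMin P.χ z := by
    refine Filter.Eventually.of_forall fun y => ?_
    show P.χ z ≤ P.χ y
    rw [hz]
    exact (P.χ_mem y).1
  exact h.fderiv_eq_zero

lemma fderiv_FD {A : ℝ → E4 →L[ℝ] E4} (hA : ∀ s ∈ Icc (0 : ℝ) 1, ContDiffAt ℝ ∞ A s) (z v : E4) :
    fderiv ℝ (fun z : E4 => A (P.s z) z) z v =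
      A (P.s z) v + fderiv ℝ P.s z v • (deriv A (P.s z)) z := by
  have h1 : HasDerivAt A (deriv A (P.s z)) (P.s z) :=
    ((hA _ (s_Icc P z)).differentiableAt infty_ne_zero).hasDerivAt
  have h2 : HasFDerivAt P.s (fderiv ℝ P.s z) z :=
    (P.s_cd.differentiable infty_ne_zero z).hasFDerivAt
  have h3 : HasFDerivAt (fun z => A (P.s z))
      ((ContinuousLinearMap.toSpanSingleton ℝ (deriv A (P.s z))).comp (fderiv ℝ P.s z)) z :=
    h1.hasFDerivAt.comp z h2
  have h4 := h3.clm_apply (hasFDerivAt_id z)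
  have h5 : fderiv ℝ (fun z : E4 => A (P.s z) z) z = _ := h4.fderiv
  rw [h5]
  simp

/-- outside the ball of radius `ε/2` the differential is `A 1`. -/
lemma fderiv_FD_one {A : ℝ → E4 →L[ℝ] E4} (hA : ∀ s ∈ Icc (0 : ℝ) 1, ContDiffAt ℝ ∞ A s) {z : E4}
    (hz : ε / 2 ≤ ‖z‖) : fderiv ℝ (fun z : E4 => A (P.s z) z) z = A 1 := by
  ext1 v
  rw [fderiv_FD hA, ds_one (P.s_1 z hz), P.s_1 z hz]
  simp

/-- `d(χ θ) = 0` on the ball of radius `ε/2`. -/
lemma d1_chith_zero' {th : E4 → E4 →L[ℝ] ℝ} (h : ThOK th) {z : E4}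
    (hz1 : z ∈ Metric.ball (0 : E4) 1) (hz : ‖z‖ ≤ ε / 2) :
    d1 (fun y => P.χ y • th y) z = 0 := by
  ext v v'
  rw [d1_smul (P.χ_cd.differentiable infty_ne_zero z)
    ((h.cd z hz1).differentiableAt infty_ne_zero), P.χ_0 z hz, dchi_zero (P.χ_0 z hz)]
  simp

lemma gd_one (P : Par g C ε δ) (i : Fin m) {z : E4} (hz : z ∈ PB 1) (hr : P.r0 ≤ ‖z‖) :
    d1 (lg (P.gd i)) z = et 0 := by
  have h0 := P.r0_pos
  have h1 : P.r0 ^ 2 ≤ ‖z‖ ^ 2 := by gcongr
  exact d1_lg_id hz.1 (P.gd_1 i _ h1)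
    (g_hasDeriv_one (P.gd_cd i) h0 (fun t ht _ => P.gd_1 i t ht) h1 (nsq_lt hz))

/-- the zone `r0 ≤ ‖z‖ ≤ ε/2`. -/
lemma nu_in {i : Fin m} {r : Fin 3 → Fin 3 → ℝ} {F : E4 → E4}
    {th : Fin 3 → E4 → E4 →L[ℝ] ℝ} (ht : ∀ a, ThOK (th a)) (a : Fin 3) {z : E4} (hz : z ∈ PB 1)
    (h1 : P.r0 ≤ ‖z‖) (h2 : ‖z‖ ≤ ε / 2) :
    nu P i r F th a z = ∑ b, r a b • pl (fderiv ℝ F z) (et b) := by
  unfold nu
  rw [gd_one P i hz h1, sub_self, smul_zero, add_zero, d1_chith_zero' (ht a) (PB_ball hz) h2,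
    add_zero]

/-- the zone `ε/2 ≤ ‖z‖`. -/
lemma nu_out {i : Fin m} {r : Fin 3 → Fin 3 → ℝ} {F : E4 → E4}
    {th : Fin 3 → E4 → E4 →L[ℝ] ℝ} (a : Fin 3) {z : E4} (hz : z ∈ PB 1)
    (h2 : ε / 2 ≤ ‖z‖) :
    nu P i r F th a z = ∑ b, r a b • pl (fderiv ℝ F z) (et b) +
      d1 (fun y => P.χ y • th a y) z := by
  unfold nu
  rw [gd_one P i hz (P.r0_lt.le.trans h2), sub_self, smul_zero, add_zero]

/-- `d(χ θ) = dθ` outside the ball of radius `ε`. -/
lemma d1_chith_one {th : E4 → E4 →L[ℝ] ℝ} {z : E4} (hz : ε < ‖z‖) :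
    d1 (fun y => P.χ y • th y) z = d1 th z := by
  refine d1_congr ?_
  have h : ∀ᶠ y in 𝓝 z, ε < ‖y‖ := continuous_norm.continuousAt.eventually (Ioi_mem_nhds hz)
  filter_upwards [h] with y hy
  rw [P.χ_1 y hy.le, one_smul]

end Maps

section Chart2

variable {M : Type u} [TopologicalSpace M] [T2Space M] [CompactSpace M]
  [ChartedSpace E4 M] [IsManifold 𝓘(ℝ, E4) ∞ M]
  {m : ℕ} {K : KIn M m}
  {X : Type u} [TopologicalSpace X] [T2Space X] [CompactSpace X]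
  [ChartedSpace E4 X] [IsManifold 𝓘(ℝ, E4) ∞ X]
  {g : Fin m → ℝ → ℝ} {C ε δ : ℝ} {P : Par g C ε δ} {O : KOut K X} {u : Trip X}
  {A : Fin m → ℝ → E4 →L[ℝ] E4} {th : Fin m → Fin 3 → E4 → E4 →L[ℝ] ℝ}

lemma St.fok (h : St O u A) (i : Fin m) : FOK P (FD P A i) :=
  FOK_FD (fun s hs => (h.cd i s hs).1) (h.zero i)

/-- the constant part of the triple of a state. -/
lemma St.sum_eq (h : St O u A) (i : Fin m) (a : Fin 3) {z : E4} (hz : ε / 2 ≤ ‖z‖) :
    ∑ b, rD O u i a b • pl (fderiv ℝ (FD P A i) z) (et b) = cc O u i a := by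
  have h1 : fderiv ℝ (FD P A i) z = AA (cc O u i) := by
    rw [← h.one i]
    exact fderiv_FD_one (fun s hs => (h.cd i s hs).1) hz
  rw [h1]
  exact ((h.def3 i).AA_spec (h.nn i) a).symm

lemma St.nu_out (h : St O u A) (i : Fin m) (a : Fin 3) {z : E4} (hz1 : z ∈ PB 1)
    (hz : ε / 2 ≤ ‖z‖) : nu P i (rD O u i) (FD P A i) (th i) a z =
      cc O u i a + d1 (fun y => P.χ y • th i a y) z := by
  rw [KState_604.nu_out a hz1 hz, h.sum_eq i a hz]

lemma St.hout (h : St O u A) (hp : Prim O u th) (i : Fin m) (a : Fin 3) (z : E4)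
    (hz1 : z ∈ PB 1) (hz : ε < ‖z‖) :
    nu P i (rD O u i) (FD P A i) (th i) a z = chf O u i a z := by
  have := P.ε_pos
  rw [h.nu_out i a hz1 (by linarith), d1_chith_one hz, hp.d i a z (PB_ball hz1)]
  show chf O u i a 0 + (chf O u i a z - chf O u i a 0) = _
  abel

end Chart2

end

end Crest.Agent.R235.KState_604
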