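import Crest.Agent.R235.KT_604
import Crest.Agent.R235.Dm_61

/-!
Row 235 (S0364), package KUM, step K3 (helper172), part A: the space `X K` (the double cover of
`M` minus the removed sets, with `m` points added), its topology, projection, involution, sheets.
-/

set_option autoImplicit false
set_option maxSynthPendingDepth 3
set_option linter.unusedSectionVars false

open Set Function Filter Topology
open scoped Manifold ContDiff Topology

universe u

namespace Crest.Agent.R235.KTA_172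

open Crest.Agent.R240 Crest.Agent.R240.Ch Crest.Agent.R235 Crest.Agent.R235.KT_604

noncomputable section

/-! ### the punctured ball -/

lemma isOpen_PB (r : ℝ) : IsOpen (PB r) := by
  have : PB r = {z : E4 | z ≠ 0} ∩ Metric.ball 0 r := by
    ext z; simp [PB]
  rw [this]
  exact isOpen_ne.inter Metric.isOpen_ball

lemma PB_mono {r s : ℝ} (h : r ≤ s) : PB r ⊆ PB s := fun _ hz => ⟨hz.1, hz.2.trans_le h⟩

lemma PB_ball {r : ℝ} {z : E4} (hz : z ∈ PB r) : z ∈ Metric.ball (0 : E4) r := by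
  simpa using hz.2

lemma neg_mem_PB {r : ℝ} {z : E4} (hz : z ∈ PB r) : -z ∈ PB r :=
  ⟨neg_ne_zero.2 hz.1, by rw [norm_neg]; exact hz.2⟩

lemma zero_nmem_PB {r : ℝ} : (0 : E4) ∉ PB r := fun h => h.1 rfl

lemma ball_PB {r : ℝ} {z : E4} (hz : z ∈ Metric.ball (0 : E4) r) : z = 0 ∨ z ∈ PB r := by
  by_cases h : z = 0
  · exact Or.inl h
  · exact Or.inr ⟨h, by simpa using hz⟩

section Open

variable {M : Type u} [TopologicalSpace M] [ChartedSpace E4 M] [IsManifold 𝓘(ℝ, E4) ∞ M]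

/-- an immersion between four-manifolds is a local homeomorphism. -/
lemma map_nhds_of_imm {f : E4 → M} {z : E4} (hf : ContMDiffAt 𝓘(ℝ, E4) 𝓘(ℝ, E4) ∞ f z)
    (hi : ∀ v, dmap f z v = 0 → v = 0) : map f (𝓝 z) = 𝓝 (f z) := by
  set e := chartAt E4 (f z) with he
  have hz : f z ∈ e.source := mem_chart_source E4 (f z)
  have hcd : ContDiffAt ℝ ∞ (fun y => e (f y)) z := Dm_61.contDiffAt_chart hf hz
  have hst := hcd.hasStrictFDerivAt (by simp)
  set f' := fderiv ℝ (fun y => e (f y)) z with hf'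
  have hinj : Function.Injective f' := by
    rw [injective_iff_map_eq_zero]
    exact fun v hv => hi v hv
  let L : E4 ≃L[ℝ] E4 := (LinearEquiv.ofInjectiveEndo (f' : E4 →ₗ[ℝ] E4) hinj).toContinuousLinearEquiv
  have hL : (L : E4 →L[ℝ] E4) = f' := by
    ext v
    rfl
  rw [← hL] at hst
  have h1 := hst.map_nhds_eq_of_equiv
  have h2 : f =ᶠ[𝓝 z] fun y => e.symm (e (f y)) := by
    filter_upwards [hf.continuousAt.preimage_mem_nhds (e.open_source.mem_nhds hz)] with y hy
    exact (e.left_inv hy).symm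
  have h3 : map (fun y => e.symm (e (f y))) (𝓝 z) = map e.symm (map (fun y => e (f y)) (𝓝 z)) :=
    (Filter.map_map (m := fun y => e (f y)) (m' := e.symm)).symm
  rw [Filter.map_congr h2, h3, h1, e.symm_map_nhds_eq hz]

end Open

section Space

variable {M : Type u} [TopologicalSpace M] [ChartedSpace E4 M] {m : ℕ} (K : KIn M m)

/-- the valid pairs. -/
def Vd : Set (M × CN K.N) := {p | (∀ i, p.1 ∉ K.C i) ∧ p.2 ∈ K.tw p.1}

/-- the new manifold. -/
inductive X : Type u
  | pt (p : Vd K) : X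
  | en (i : Fin m) : X

lemma mem_Vd {i : Fin m} {z : E4} (hz : z ∈ PB 1) : (K.phi i z, K.psi i z) ∈ Vd K :=
  ⟨fun j => K.out i j z hz, K.psi_mem i z hz⟩

open Classical in
/-- the charts round the new points. -/
def ch (i : Fin m) (z : E4) : X K :=
  if h : z ∈ PB 1 then X.pt ⟨(K.phi i z, K.psi i z), mem_Vd K h⟩ else X.en i

variable {K}

lemma ch_pt {i : Fin m} {z : E4} (hz : z ∈ PB 1) :
    ch K i z = X.pt ⟨(K.phi i z, K.psi i z), mem_Vd K hz⟩ := dif_pos hz

lemma ch_en {i : Fin m} {z : E4} (hz : z ∉ PB 1) : ch K i z = X.en i := dif_neg hz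

lemma ch_zero (i : Fin m) : ch K i 0 = X.en i := ch_en zero_nmem_PB

variable (K) in
/-- the topology. -/
instance : TopologicalSpace (X K) where
  IsOpen U := IsOpen (X.pt ⁻¹' U) ∧
    ∀ i, X.en i ∈ U → ∃ r : ℝ, 0 < r ∧ r ≤ 1 ∧ ∀ z ∈ PB r, ch K i z ∈ U
  isOpen_univ := ⟨isOpen_univ, fun i _ => ⟨1, one_pos, le_rfl, fun _ _ => mem_univ _⟩⟩
  isOpen_inter U V hU hV := by
    refine ⟨hU.1.inter hV.1, fun i hi => ?_⟩
    obtain ⟨r, hr, hr1, h⟩ := hU.2 i hi.1
    obtain ⟨s, hs, hs1, h'⟩ := hV.2 i hi.2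
    exact ⟨min r s, lt_min hr hs, (min_le_left _ _).trans hr1,
      fun z hz => ⟨h z (PB_mono (min_le_left _ _) hz), h' z (PB_mono (min_le_right _ _) hz)⟩⟩
  isOpen_sUnion S hS := by
    refine ⟨?_, ?_⟩
    · rw [preimage_sUnion]
      exact isOpen_biUnion fun U hU => (hS U hU).1
    · rintro i ⟨U, hU, hi⟩
      obtain ⟨r, hr, hr1, h⟩ := (hS U hU).2 i hi
      exact ⟨r, hr, hr1, fun z hz => ⟨U, hU, h z hz⟩⟩

lemma isOpen_X {U : Set (X K)} : IsOpen U ↔ IsOpen (X.pt ⁻¹' U) ∧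
    ∀ i, X.en i ∈ U → ∃ r : ℝ, 0 < r ∧ r ≤ 1 ∧ ∀ z ∈ PB r, ch K i z ∈ U := Iff.rfl

lemma pt_inj : Function.Injective (X.pt : Vd K → X K) := fun _ _ h => by injection h

lemma openEmb_pt : IsOpenEmbedding (X.pt : Vd K → X K) := by
  refine IsOpenEmbedding.of_continuous_injective_isOpenMap ?_ pt_inj ?_
  · exact continuous_def.2 fun U hU => hU.1
  · intro V hV
    refine isOpen_X.2 ⟨?_, ?_⟩
    · rwa [preimage_image_eq _ pt_inj]
    · rintro i ⟨p, _, hp⟩
      cases hp

variable (K) in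
/-- the projection. -/
def pr : X K → M
  | X.pt p => p.1.1
  | X.en i => K.phi i 0

variable (K) in
/-- the lift of the double-valued function. -/
def lf : X K → CN K.N
  | X.pt p => p.1.2
  | X.en _ => 0

@[simp] lemma pr_pt (p : Vd K) : pr K (X.pt p) = p.1.1 := rfl
@[simp] lemma lf_pt (p : Vd K) : lf K (X.pt p) = p.1.2 := rfl
@[simp] lemma lf_en (i : Fin m) : lf K (X.en i) = 0 := rfl

lemma tw_eq {p : M × CN K.N} (hp : p ∈ Vd K) : p.2 ≠ 0 ∧ K.tw p.1 = {p.2, - p.2} := by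
  obtain ⟨U, hU, v, _, h⟩ := K.tw_loc p.1 hp.1
  obtain ⟨h0, h1⟩ := h p.1 (mem_of_mem_nhds hU)
  have h2 := hp.2
  rw [h1] at h2
  rcases h2 with h2 | h2
  · rw [h2]; exact ⟨h0, h1⟩
  · rw [mem_singleton_iff] at h2
    rw [h2, neg_neg, h1]
    exact ⟨neg_ne_zero.2 h0, pair_comm _ _⟩

lemma neg_mem_Vd {p : M × CN K.N} (hp : p ∈ Vd K) : (p.1, - p.2) ∈ Vd K := by
  refine ⟨hp.1, ?_⟩
  show - p.2 ∈ K.tw p.1
  rw [(tw_eq hp).2]
  exact Or.inr rfl

variable (K) in
/-- the involution. -/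
def io : X K → X K
  | X.pt p => X.pt ⟨(p.1.1, - p.1.2), neg_mem_Vd p.2⟩
  | X.en i => X.en i

@[simp] lemma io_pt (p : Vd K) : io K (X.pt p) = X.pt ⟨(p.1.1, - p.1.2), neg_mem_Vd p.2⟩ := rfl
@[simp] lemma io_en (i : Fin m) : io K (X.en i) = X.en i := rfl

lemma io_io (x : X K) : io K (io K x) = x := by
  cases x with
  | pt p => simp
  | en i => rfl

lemma lf_io (x : X K) : lf K (io K x) = - lf K x := by
  cases x with
  | pt p => rfl
  | en i => simp

lemma pr_io (x : X K) : pr K (io K x) = pr K x := by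
  cases x with
  | pt p => rfl
  | en i => rfl

lemma io_ch (i : Fin m) (z : E4) : io K (ch K i z) = ch K i (-z) := by
  by_cases hz : z ∈ PB 1
  · rw [ch_pt hz, ch_pt (neg_mem_PB hz), io_pt]
    congr 1
    apply Subtype.ext
    exact Prod.ext (K.even i z hz).symm (K.psi_odd i z hz).symm
  · have hz' : -z ∉ PB 1 := fun h => hz (by simpa using neg_mem_PB h)
    rw [ch_en hz, ch_en hz', io_en]

lemma pr_ch {i : Fin m} {z : E4} (hz : z ∈ PB 1) : pr K (ch K i z) = K.phi i z := by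
  rw [ch_pt hz]; rfl

lemma lf_ch {i : Fin m} {z : E4} (hz : z ∈ PB 1) : lf K (ch K i z) = K.psi i z := by
  rw [ch_pt hz]; rfl

lemma ch_ne_en {i j : Fin m} {z : E4} (hz : z ∈ PB 1) : ch K i z ≠ X.en j := by
  rw [ch_pt hz]
  intro h
  cases h

lemma ext_pt {x y : X K} (hx : ∀ i, x ≠ X.en i) (hy : ∀ i, y ≠ X.en i) (h1 : pr K x = pr K y)
    (h2 : lf K x = lf K y) : x = y := by
  cases x with
  | en i => exact absurd rfl (hx i)
  | pt p =>
    cases y with
    | en i => exact absurd rfl (hy i)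
    | pt q =>
      congr 1
      exact Subtype.ext (Prod.ext h1 h2)

lemma ch_injOn (i : Fin m) : InjOn (ch K i) (Metric.ball 0 1) := by
  intro z hz w hw h
  rcases ball_PB hz with rfl | hz
  · rcases ball_PB hw with rfl | hw
    · rfl
    · rw [ch_zero] at h
      exact absurd h.symm (ch_ne_en hw)
  · rcases ball_PB hw with rfl | hw
    · rw [ch_zero] at h
      exact absurd h (ch_ne_en hz)
    · have h1 : K.phi i z = K.phi i w := by rw [← pr_ch hz, ← pr_ch hw, h]
      have h2 : K.psi i z = K.psi i w := by rw [← lf_ch hz, ← lf_ch hw, h]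
      rcases K.inj i z hz w hw h1 with h3 | h3
      · exact h3.symm
      · rw [h3, K.psi_odd i z hz] at h2
        have h4 : K.psi i z ≠ 0 := (tw_eq (mem_Vd K hz)).1
        have h5 : (2 : ℂ) • K.psi i z = 0 := by
          rw [two_smul]
          nth_rewrite 1 [h2]
          simp
        exact absurd ((smul_eq_zero.1 h5).resolve_left two_ne_zero) h4

lemma ch_sep {i j : Fin m} (hij : i ≠ j) {z w : E4} (hz : z ∈ Metric.ball (0 : E4) 1)
    (hw : w ∈ Metric.ball (0 : E4) 1) : ch K i z ≠ ch K j w := by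
  intro h
  rcases ball_PB hz with rfl | hz
  · rcases ball_PB hw with rfl | hw
    · rw [ch_zero, ch_zero] at h
      injection h with h
      exact hij h
    · rw [ch_zero] at h
      exact absurd h.symm (ch_ne_en hw)
  · rcases ball_PB hw with rfl | hw
    · rw [ch_zero] at h
      exact absurd h (ch_ne_en hz)
    · exact K.sep i j hij z hz w hw (by rw [← pr_ch hz, ← pr_ch hw, h])

/-! ### continuity -/

lemma nhds_pt (p : Vd K) : 𝓝 (X.pt p : X K) = map X.pt (𝓝 p) := (openEmb_pt.map_nhds_eq p).symm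

lemma continuousAt_pr_pt (p : Vd K) : ContinuousAt (pr K) (X.pt p) := by
  refine openEmb_pt.continuousAt_iff.1 ?_
  exact (continuous_fst.comp continuous_subtype_val).continuousAt

lemma continuousAt_lf_pt (p : Vd K) : ContinuousAt (lf K) (X.pt p) := by
  refine openEmb_pt.continuousAt_iff.1 ?_
  exact (continuous_snd.comp continuous_subtype_val).continuousAt

lemma exists_pt {x : X K} (hx : ∀ i, x ≠ X.en i) : ∃ p : Vd K, x = X.pt p := by
  cases x with
  | en i => exact absurd rfl (hx i)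
  | pt p => exact ⟨p, rfl⟩

lemma continuousAt_pr {x : X K} (hx : ∀ i, x ≠ X.en i) : ContinuousAt (pr K) x := by
  obtain ⟨p, rfl⟩ := exists_pt hx
  exact continuousAt_pr_pt p

lemma continuousAt_lf {x : X K} (hx : ∀ i, x ≠ X.en i) : ContinuousAt (lf K) x := by
  obtain ⟨p, rfl⟩ := exists_pt hx
  exact continuousAt_lf_pt p

/-- continuity of a map into `X` at a regular point. -/
lemma continuousAt_of {A : Type*} [TopologicalSpace A] {g : A → X K} {a : A}
    (hr : ∀ᶠ b in 𝓝 a, ∀ i, g b ≠ X.en i) (h1 : ContinuousAt (fun b => pr K (g b)) a)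
    (h2 : ContinuousAt (fun b => lf K (g b)) a) : ContinuousAt g a := by
  obtain ⟨p, hp⟩ := exists_pt hr.self_of_nhds
  intro O hO
  rw [hp, nhds_pt] at hO
  have hO' : X.pt ⁻¹' O ∈ 𝓝 p := hO
  rw [nhds_subtype_eq_comap] at hO'
  obtain ⟨V, hV, hVO⟩ := hO'
  have h3 : ContinuousAt (fun b => (pr K (g b), lf K (g b))) a := h1.prodMk h2
  have h4 : (pr K (g a), lf K (g a)) = p.1 := by rw [hp]; rfl
  have h5 : ∀ᶠ b in 𝓝 a, (pr K (g b), lf K (g b)) ∈ V := by
    apply h3
    show V ∈ 𝓝 (pr K (g a), lf K (g a))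
    rw [h4]
    exact hV
  rw [mem_map]
  filter_upwards [hr, h5] with b hb1 hb2
  obtain ⟨q, hq⟩ := exists_pt hb1
  rw [hq] at hb2
  show g b ∈ O
  rw [hq]
  exact hVO hb2

lemma psi_at {i : Fin m} {z : E4} (hz : z ∈ PB 1) : ContinuousAt (K.psi i) z :=
  (K.psi_cont i).continuousAt ((isOpen_PB 1).mem_nhds hz)

lemma phi_at {i : Fin m} {z : E4} (hz : z ∈ PB 1) :
    ContMDiffAt 𝓘(ℝ, E4) 𝓘(ℝ, E4) ∞ (K.phi i) z :=
  (K.smooth i).contMDiffAt ((isOpen_PB 1).mem_nhds hz)

lemma ch_cont (i : Fin m) {z : E4} (hz : z ∈ Metric.ball (0 : E4) 1) : ContinuousAt (ch K i) z := by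
  rcases ball_PB hz with rfl | hz
  · intro O hO
    rw [ch_zero] at hO
    obtain ⟨O', hO', ho, hm⟩ := mem_nhds_iff.1 hO
    obtain ⟨r, hr, hr1, h⟩ := (isOpen_X.1 ho).2 i hm
    rw [mem_map]
    filter_upwards [Metric.ball_mem_nhds (0 : E4) hr] with w hw
    show ch K i w ∈ O
    rcases ball_PB hw with rfl | hw
    · rw [ch_zero]; exact hO' hm
    · exact hO' (h w hw)
  · have h0 : ∀ᶠ w in 𝓝 z, w ∈ PB 1 := (isOpen_PB 1).mem_nhds hz
    refine continuousAt_of ?_ ?_ ?_
    · filter_upwards [h0] with w hw j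
      exact ch_ne_en hw
    · refine (phi_at (K := K) (i := i) hz).continuousAt.congr ?_
      filter_upwards [h0] with w hw
      exact (pr_ch hw).symm
    · refine (psi_at (K := K) (i := i) hz).congr ?_
      filter_upwards [h0] with w hw
      exact (lf_ch hw).symm

end Space

end

end Crest.Agent.R235.KTA_172
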