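import Crest.Agent.R235.KTA_172

/-!
Row 235 (S0364), package KUM, step K3 (helper172), part B: sheets of `X K`, openness of the charts
round the new points, `X K` is Hausdorff, compact and connected.
-/

set_option autoImplicit false
set_option maxSynthPendingDepth 3
set_option linter.unusedSectionVars false

open Set Function Filter Topology
open scoped Manifold ContDiff Topology

universe u

namespace Crest.Agent.R235.KTA_172

open Crest.Agent.R240 Crest.Agent.R240.Ch Crest.Agent.R235 Crest.Agent.R235.KT_604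

noncomputable section

section Sheets

variable {M : Type u} [TopologicalSpace M] [ChartedSpace E4 M] {m : ℕ} {K : KIn M m}

lemma eventually_reg {x : X K} (hx : ∀ i, x ≠ X.en i) : ∀ᶠ y in 𝓝 x, ∀ i, y ≠ X.en i := by
  obtain ⟨p, rfl⟩ := exists_pt hx
  filter_upwards [(openEmb_pt (K := K)).isOpen_range.mem_nhds ⟨p, rfl⟩] with y hy i
  obtain ⟨q, rfl⟩ := hy
  intro h
  cases h

lemma reg_mem {x : X K} (hx : ∀ i, x ≠ X.en i) : (pr K x, lf K x) ∈ Vd K := by
  obtain ⟨p, rfl⟩ := exists_pt hx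
  exact p.2

variable (K) in
/-- a local section of the double-valued function. -/
structure Sheet where
  U : Set M
  op : IsOpen U
  v : M → CN K.N
  cont : ContinuousOn v U
  val : ∀ y ∈ U, (y, v y) ∈ Vd K
  b : M
  hb : b ∈ U

namespace Sheet

variable (s : Sheet K)

open Classical in
/-- the section. -/
def inv (y : M) : X K :=
  if h : y ∈ s.U then X.pt ⟨(y, s.v y), s.val y h⟩ else X.pt ⟨(s.b, s.v s.b), s.val s.b s.hb⟩

lemma inv_of {y : M} (h : y ∈ s.U) : s.inv y = X.pt ⟨(y, s.v y), s.val y h⟩ := dif_pos h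

lemma inv_ne_en (y : M) (i : Fin m) : s.inv y ≠ X.en i := by
  by_cases h : y ∈ s.U
  · rw [s.inv_of h]; intro h; cases h
  · rw [show s.inv y = _ from dif_neg h]; intro h; cases h

lemma pr_inv {y : M} (h : y ∈ s.U) : pr K (s.inv y) = y := by rw [s.inv_of h]; rfl

lemma lf_inv {y : M} (h : y ∈ s.U) : lf K (s.inv y) = s.v y := by rw [s.inv_of h]; rfl

lemma inv_cont {y : M} (h : y ∈ s.U) : ContinuousAt s.inv y := by
  have h0 : ∀ᶠ y' in 𝓝 y, y' ∈ s.U := s.op.mem_nhds h
  refine continuousAt_of ?_ ?_ ?_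
  · exact Eventually.of_forall fun y' i => s.inv_ne_en y' i
  · refine continuousAt_id.congr ?_
    filter_upwards [h0] with y' hy'
    exact (s.pr_inv hy').symm
  · refine ((s.cont).continuousAt (s.op.mem_nhds h)).congr ?_
    filter_upwards [h0] with y' hy'
    exact (s.lf_inv hy').symm

lemma mem_iff {x : X K} : x ∈ s.inv '' s.U ↔
    (∀ i, x ≠ X.en i) ∧ pr K x ∈ s.U ∧ lf K x = s.v (pr K x) := by
  constructor
  · rintro ⟨y, hy, rfl⟩
    refine ⟨s.inv_ne_en y, ?_, ?_⟩
    · rw [s.pr_inv hy]; exact hy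
    · rw [s.lf_inv hy, s.pr_inv hy]
  · rintro ⟨h1, h2, h3⟩
    refine ⟨pr K x, h2, ?_⟩
    exact ext_pt (s.inv_ne_en _) h1 (s.pr_inv h2) (by rw [s.lf_inv h2, h3])

lemma isOpen_image : IsOpen (s.inv '' s.U) := by
  rw [isOpen_iff_mem_nhds]
  intro x hx
  obtain ⟨h1, h2, h3⟩ := s.mem_iff.1 hx
  have hpr := continuousAt_pr h1
  have hlf := continuousAt_lf h1
  have hv : ContinuousAt (fun x => s.v (pr K x)) x :=
    ContinuousAt.comp (f := pr K) (g := s.v) ((s.cont).continuousAt (s.op.mem_nhds h2)) hpr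
  have h0 : s.v (pr K x) ≠ 0 := (tw_eq (s.val _ h2)).1
  have h4 : ‖lf K x - s.v (pr K x)‖ < ‖lf K x + s.v (pr K x)‖ := by
    rw [h3, sub_self, norm_zero, norm_pos_iff]
    intro h5
    rw [← two_smul ℂ] at h5
    exact h0 ((smul_eq_zero.1 h5).resolve_left two_ne_zero)
  have h5 : ∀ᶠ y in 𝓝 x, ‖lf K y - s.v (pr K y)‖ < ‖lf K y + s.v (pr K y)‖ :=
    (hlf.sub hv).norm.eventually_lt (hlf.add hv).norm h4
  filter_upwards [eventually_reg h1, hpr.preimage_mem_nhds (s.op.mem_nhds h2), h5] with y hy1 hy2 hy3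
  refine s.mem_iff.2 ⟨hy1, hy2, ?_⟩
  have h6 := (reg_mem hy1).2
  rw [(tw_eq (s.val _ hy2)).2] at h6
  rcases h6 with h6 | h6
  · exact h6
  · rw [mem_singleton_iff] at h6
    have h6' : lf K y = - s.v (pr K y) := h6
    rw [h6', neg_add_cancel, norm_zero] at hy3
    exact absurd hy3 (not_lt.2 (norm_nonneg _))

/-- the local homeomorphism. -/
def hom : OpenPartialHomeomorph (X K) M where
  toFun := pr K
  invFun := s.inv
  source := s.inv '' s.U
  target := s.U
  map_source' := by
    rintro _ ⟨y, hy, rfl⟩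
    rwa [s.pr_inv hy]
  map_target' := fun y hy => mem_image_of_mem _ hy
  left_inv' := by
    rintro _ ⟨y, hy, rfl⟩
    rw [s.pr_inv hy]
  right_inv' := fun y hy => s.pr_inv hy
  open_source := s.isOpen_image
  open_target := s.op
  continuousOn_toFun := by
    intro x hx
    exact (continuousAt_pr (s.mem_iff.1 hx).1).continuousWithinAt
  continuousOn_invFun := fun y hy => (s.inv_cont hy).continuousWithinAt

@[simp] lemma hom_apply (x : X K) : s.hom x = pr K x := rfl
@[simp] lemma hom_symm (y : M) : s.hom.symm y = s.inv y := rfl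
@[simp] lemma hom_source : s.hom.source = s.inv '' s.U := rfl
@[simp] lemma hom_target : s.hom.target = s.U := rfl

end Sheet

variable [T2Space M]

lemma isOpen_off : IsOpen {y : M | ∀ i, y ∉ K.C i} := by
  have : {y : M | ∀ i, y ∉ K.C i} = ⋂ i, (K.C i)ᶜ := by
    ext y; simp
  rw [this]
  exact isOpen_iInter_of_finite fun i => (K.cpt i).isClosed.isOpen_compl

lemma exists_sheet (p : M × CN K.N) (hp : p ∈ Vd K) :
    ∃ s : Sheet K, s.b = p.1 ∧ s.v p.1 = p.2 := by
  obtain ⟨U, hU, v, hv, h⟩ := K.tw_loc p.1 hp.1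
  have hUo : IsOpen (interior U ∩ {y : M | ∀ i, y ∉ K.C i}) := isOpen_interior.inter isOpen_off
  have hp1 : p.1 ∈ interior U ∩ {y : M | ∀ i, y ∉ K.C i} :=
    ⟨mem_interior_iff_mem_nhds.2 hU, hp.1⟩
  have hsub : interior U ∩ {y : M | ∀ i, y ∉ K.C i} ⊆ U := fun y hy => interior_subset hy.1
  have h2 := hp.2
  rw [(h p.1 (mem_of_mem_nhds hU)).2] at h2
  rcases h2 with h2 | h2
  · refine ⟨⟨_, hUo, v, hv.mono hsub, fun y hy => ⟨hy.2, ?_⟩, p.1, hp1⟩, rfl, h2.symm⟩
    rw [(h y (hsub hy)).2]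
    exact Or.inl rfl
  · rw [mem_singleton_iff] at h2
    refine ⟨⟨_, hUo, fun y => - v y, (hv.mono hsub).neg, fun y hy => ⟨hy.2, ?_⟩, p.1, hp1⟩, rfl,
      h2.symm⟩
    rw [(h y (hsub hy)).2]
    exact Or.inr rfl

/-- the sheet through a point. -/
def sh (p : Vd K) : Sheet K := (exists_sheet p.1 p.2).choose

lemma sh_b (p : Vd K) : (sh p).b = p.1.1 := (exists_sheet p.1 p.2).choose_spec.1

lemma sh_v (p : Vd K) : (sh p).v p.1.1 = p.1.2 := (exists_sheet p.1 p.2).choose_spec.2

lemma sh_mem (p : Vd K) : p.1.1 ∈ (sh p).U := by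
  have := (sh p).hb
  rwa [sh_b] at this

lemma mem_sh (p : Vd K) : X.pt p ∈ (sh p).inv '' (sh p).U := by
  rw [Sheet.mem_iff]
  refine ⟨fun i h => (by cases h), sh_mem p, ?_⟩
  exact (sh_v p).symm

lemma map_pr (p : Vd K) : map (pr K) (𝓝 (X.pt p)) = 𝓝 p.1.1 :=
  (sh p).hom.map_nhds_eq (mem_sh p)

variable [IsManifold 𝓘(ℝ, E4) ∞ M]

lemma map_phi {i : Fin m} {z : E4} (hz : z ∈ PB 1) : map (K.phi i) (𝓝 z) = 𝓝 (K.phi i z) :=
  map_nhds_of_imm (phi_at hz) (K.imm i z hz)

lemma map_ch_PB {i : Fin m} {z : E4} (hz : z ∈ PB 1) : map (ch K i) (𝓝 z) = 𝓝 (ch K i z) := by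
  have hzb := PB_ball hz
  set p : Vd K := ⟨(K.phi i z, K.psi i z), mem_Vd K hz⟩ with hp
  have hx : ch K i z = X.pt p := ch_pt hz
  set e := (sh p).hom with he
  have hxe : ch K i z ∈ e.source := by rw [hx]; exact mem_sh p
  have h1 : ch K i =ᶠ[𝓝 z] fun w => e.symm (K.phi i w) := by
    filter_upwards [(ch_cont i hzb).preimage_mem_nhds (e.open_source.mem_nhds hxe),
      (isOpen_PB 1).mem_nhds hz] with w hw1 hw2
    have h2 : e (ch K i w) = K.phi i w := pr_ch hw2
    rw [← h2]
    exact (e.left_inv hw1).symm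
  have h2 : map (fun w => e.symm (K.phi i w)) (𝓝 z) = map e.symm (map (K.phi i) (𝓝 z)) :=
    (Filter.map_map (m := K.phi i) (m' := e.symm)).symm
  have h3 : K.phi i z = e (ch K i z) := (pr_ch hz).symm
  rw [Filter.map_congr h1, h2, map_phi hz, h3, e.symm_map_nhds_eq hxe]

lemma isOpen_ch_image (i : Fin m) {B : Set E4} (hB : IsOpen B) (hB1 : B ⊆ Metric.ball 0 1) :
    IsOpen (ch K i '' B) := by
  refine isOpen_X.2 ⟨?_, ?_⟩
  · rw [isOpen_iff_mem_nhds]
    rintro p ⟨z, hz, hzp⟩
    have hz1 : z ∈ PB 1 := by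
      rcases ball_PB (hB1 hz) with h | h
      · rw [h, ch_zero] at hzp; cases hzp
      · exact h
    have h1 : ch K i '' B ∈ 𝓝 (ch K i z) := by
      rw [← map_ch_PB hz1]
      exact image_mem_map (hB.mem_nhds hz)
    rw [hzp, nhds_pt] at h1
    exact h1
  · rintro j ⟨z, hz, hzj⟩
    rcases ball_PB (hB1 hz) with h | h
    · subst h
      rw [ch_zero] at hzj
      injection hzj with hij
      subst hij
      obtain ⟨r, hr, hrB⟩ := Metric.isOpen_iff.1 hB 0 hz
      refine ⟨min r 1, lt_min hr one_pos, min_le_right _ _, fun w hw => ⟨w, ?_, rfl⟩⟩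
      exact hrB (Metric.ball_subset_ball (min_le_left _ _) (PB_ball hw))
    · exact absurd hzj (ch_ne_en h)

lemma map_ch {i : Fin m} {z : E4} (hz : z ∈ Metric.ball (0 : E4) 1) :
    map (ch K i) (𝓝 z) = 𝓝 (ch K i z) := by
  refine le_antisymm (ch_cont i hz) ?_
  intro O hO
  rw [mem_map] at hO
  obtain ⟨B, hB, hBo, hzB⟩ := mem_nhds_iff.1 (inter_mem hO (Metric.isOpen_ball.mem_nhds hz))
  refine mem_of_superset ((isOpen_ch_image i hBo fun w hw => (hB hw).2).mem_nhds
    (mem_image_of_mem _ hzB)) ?_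
  rintro _ ⟨w, hw, rfl⟩
  exact (hB hw).1

lemma nhds_en (i : Fin m) : 𝓝 (X.en i : X K) = map (ch K i) (𝓝 0) := by
  rw [map_ch (by simp), ch_zero]

/-- the parametrisation round a new point. -/
def par (i : Fin m) : OpenPartialHomeomorph E4 (X K) :=
  OpenPartialHomeomorph.ofContinuousOpenRestrict
    ((ch_injOn (K := K) i).toPartialEquiv (ch K i) (Metric.ball 0 1))
    (fun _ hz => (ch_cont i hz).continuousWithinAt)
    (by
      intro B hB
      have : (Metric.ball (0 : E4) 1).domRestrict (ch K i) '' B =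
          ch K i '' (Subtype.val '' B) := by
        rw [image_image]; rfl
      show IsOpen ((Metric.ball (0 : E4) 1).domRestrict (ch K i) '' B)
      rw [this]
      refine isOpen_ch_image i (Metric.isOpen_ball.isOpenMap_subtype_val _ hB) ?_
      rintro _ ⟨z, _, rfl⟩
      exact z.2)
    Metric.isOpen_ball

@[simp] lemma par_apply (i : Fin m) (z : E4) : par (K := K) i z = ch K i z := rfl
@[simp] lemma par_source (i : Fin m) : (par (K := K) i).source = Metric.ball 0 1 := rfl

lemma par_target (i : Fin m) : (par (K := K) i).target = ch K i '' Metric.ball 0 1 := rfl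

lemma continuous_io : Continuous (io K) := by
  rw [continuous_iff_continuousAt]
  intro x
  cases x with
  | pt p =>
    have hx : ∀ i, (X.pt p : X K) ≠ X.en i := fun i h => by cases h
    refine continuousAt_of ?_ ?_ ?_
    · filter_upwards [eventually_reg hx] with y hy i h
      have := congrArg (io K) h
      rw [io_io, io_en] at this
      exact hy i this
    · refine (continuousAt_pr hx).congr (Eventually.of_forall fun y => (pr_io y).symm)
    · refine (continuousAt_lf hx).neg.congr (Eventually.of_forall fun y => (lf_io y).symm)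
  | en i =>
    show Tendsto (io K) (𝓝 (X.en i)) (𝓝 (X.en i))
    rw [nhds_en, tendsto_map'_iff]
    have h1 : io K ∘ ch K i = ch K i ∘ fun z : E4 => -z := funext fun z => io_ch i z
    rw [h1]
    have h2 : Tendsto (fun z : E4 => -z) (𝓝 0) (𝓝 0) := by
      have := (continuous_neg (G := E4)).tendsto 0
      rwa [neg_zero] at this
    exact tendsto_map.comp h2

theorem t2X : T2Space (X K) := by
  have hmix : ∀ (p : Vd K) (i : Fin m), ∃ u v : Set (X K), IsOpen u ∧ IsOpen v ∧
      X.pt p ∈ u ∧ X.en i ∈ v ∧ Disjoint u v := by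
    intro p i
    have hd : Disjoint ({p.1.1} : Set M) (K.C i) := by
      rw [disjoint_singleton_left]
      exact p.2.1 i
    obtain ⟨U, V, hU, hV, hpU, hCV, hUV⟩ := SeparatedNhds.of_isCompact_isCompact isCompact_singleton (K.cpt i) hd
    obtain ⟨r, hr, hr1, hrV⟩ := K.shrink i V hV hCV
    refine ⟨X.pt '' {q : Vd K | q.1.1 ∈ U}, ch K i '' Metric.ball 0 r, ?_, ?_, ?_, ?_, ?_⟩
    · exact openEmb_pt.isOpenMap _
        (hU.preimage (continuous_fst.comp continuous_subtype_val))
    · exact isOpen_ch_image i Metric.isOpen_ball (Metric.ball_subset_ball hr1)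
    · exact ⟨p, hpU rfl, rfl⟩
    · exact ⟨0, by simpa using hr, ch_zero i⟩
    · rw [Set.disjoint_left]
      rintro _ ⟨q, hq, rfl⟩ ⟨z, hz, hzq⟩
      rcases ball_PB hz with h | h
      · rw [h, ch_zero] at hzq; cases hzq
      · have h1 : K.phi i z = q.1.1 := by
          rw [← pr_ch (PB_mono hr1 h), hzq]; rfl
        have h2 : q.1.1 ∈ V := by
          rw [← h1]
          exact hrV (mem_image_of_mem _ h)
        exact Set.disjoint_left.1 hUV hq h2
  refine ⟨fun x y hxy => ?_⟩
  cases x with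
  | pt p =>
    cases y with
    | pt q =>
      have hpq : p ≠ q := fun h => hxy (by rw [h])
      obtain ⟨U, V, hU, hV, hpU, hqV, hUV⟩ := t2_separation hpq
      refine ⟨X.pt '' U, X.pt '' V, openEmb_pt.isOpenMap _ hU, openEmb_pt.isOpenMap _ hV,
        mem_image_of_mem _ hpU, mem_image_of_mem _ hqV, ?_⟩
      exact (disjoint_image_iff pt_inj).2 hUV
    | en i => exact hmix p i
  | en i =>
    cases y with
    | pt q =>
      obtain ⟨u, v, h1, h2, h3, h4, h5⟩ := hmix q i
      exact ⟨v, u, h2, h1, h4, h3, h5.symm⟩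
    | en j =>
      have hij : i ≠ j := fun h => hxy (by rw [h])
      refine ⟨ch K i '' Metric.ball 0 1, ch K j '' Metric.ball 0 1,
        isOpen_ch_image i Metric.isOpen_ball subset_rfl,
        isOpen_ch_image j Metric.isOpen_ball subset_rfl, ⟨0, by simp, ch_zero i⟩,
        ⟨0, by simp, ch_zero j⟩, ?_⟩
      rw [Set.disjoint_left]
      rintro _ ⟨z, hz, rfl⟩ ⟨w, hw, h⟩
      exact ch_sep hij.symm hw hz h

lemma pt_phi {p : Vd K} {i : Fin m} {z : E4} (hz : z ∈ PB 1) (h : K.phi i z = p.1.1) :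
    X.pt p = ch K i z ∨ X.pt p = ch K i (-z) := by
  have h1 := p.2.2
  rw [← h, (tw_eq (mem_Vd K hz)).2] at h1
  have hreg : ∀ j, (X.pt p : X K) ≠ X.en j := fun j h => by cases h
  rcases h1 with h1 | h1
  · left
    refine ext_pt hreg (fun j => ch_ne_en hz) ?_ ?_
    · rw [pr_ch hz]; exact h.symm
    · rw [lf_ch hz]; exact h1
  · right
    rw [mem_singleton_iff] at h1
    have hz' := neg_mem_PB hz
    refine ext_pt hreg (fun j => ch_ne_en hz') ?_ ?_
    · rw [pr_ch hz', K.even i z hz]; exact h.symm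
    · rw [lf_ch hz', K.psi_odd i z hz]; exact h1

theorem compactX [CompactSpace M] : CompactSpace (X K) := by
  have key : ∀ s : Set M, IsCompact s → (∀ y ∈ s, ∀ i, y ∉ K.C i) →
      ∃ L : Set (X K), IsCompact L ∧ ∀ p : Vd K, p.1.1 ∈ s → X.pt p ∈ L := by
    intro s hs hoff
    refine hs.induction_on (p := fun t => ∃ L : Set (X K), IsCompact L ∧
      ∀ p : Vd K, p.1.1 ∈ t → X.pt p ∈ L) ?_ ?_ ?_ ?_
    · exact ⟨∅, isCompact_empty, fun p hp => absurd hp (notMem_empty _)⟩
    · rintro t t' htt' ⟨L, hL, h⟩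
      exact ⟨L, hL, fun p hp => h p (htt' hp)⟩
    · rintro t t' ⟨L, hL, h⟩ ⟨L', hL', h'⟩
      refine ⟨L ∪ L', hL.union hL', fun p hp => ?_⟩
      rcases hp with hp | hp
      · exact Or.inl (h p hp)
      · exact Or.inr (h' p hp)
    · intro y hy
      obtain ⟨U, hU, v, _, hv⟩ := K.tw_loc y (hoff y hy)
      have hyv : (y, v y) ∈ Vd K := by
        refine ⟨hoff y hy, ?_⟩
        rw [(hv y (mem_of_mem_nhds hU)).2]
        exact Or.inl rfl
      obtain ⟨s', hb, _⟩ := exists_sheet (K := K) (y, v y) hyv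
      have hyU : y ∈ s'.U := by
        have := s'.hb
        rwa [hb] at this
      obtain ⟨N, hN, hyN, hNU⟩ := exists_compact_subset s'.op hyU
      have hc : IsCompact (s'.inv '' N) :=
        hN.image_of_continuousOn fun w hw => (s'.inv_cont (hNU hw)).continuousWithinAt
      refine ⟨N, mem_nhdsWithin_of_mem_nhds (mem_interior_iff_mem_nhds.1 hyN),
        s'.inv '' N ∪ io K '' (s'.inv '' N), hc.union (hc.image continuous_io), ?_⟩
      intro p hp
      have h1 := p.2.2
      rw [(tw_eq (s'.val _ (hNU hp))).2] at h1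
      have hreg : ∀ j, (X.pt p : X K) ≠ X.en j := fun j h => by cases h
      rcases h1 with h1 | h1
      · left
        refine ⟨p.1.1, hp, ?_⟩
        exact ext_pt (s'.inv_ne_en _) hreg (s'.pr_inv (hNU hp)) (by rw [s'.lf_inv (hNU hp)]; exact h1.symm)
      · right
        rw [mem_singleton_iff] at h1
        refine ⟨_, ⟨p.1.1, hp, rfl⟩, ?_⟩
        refine ext_pt ?_ hreg ?_ ?_
        · intro j h
          have := congrArg (io K) h
          rw [io_io, io_en] at this
          exact s'.inv_ne_en _ _ this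
        · rw [pr_io, s'.pr_inv (hNU hp)]; rfl
        · rw [lf_io, s'.lf_inv (hNU hp)]; exact h1.symm
  set A : Set M := {y | ∀ i, y ∉ K.C i ∪ K.phi i '' PB (1 / 2)} with hA
  have hAc : IsCompact A := by
    have h1 : A = ⋂ i, (K.C i ∪ K.phi i '' PB (1 / 2))ᶜ := by
      ext y; simp [hA]
    rw [h1]
    exact (isClosed_iInter fun i => (K.nbh i (1 / 2) (by norm_num)
      (by norm_num)).isClosed_compl).isCompact
  obtain ⟨L, hL, hLA⟩ := key A hAc fun y hy i hi => hy i (Or.inl hi)
  have huniv : (univ : Set (X K)) = L ∪ ⋃ i, ch K i '' Metric.closedBall 0 (1 / 2) := by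
    symm
    rw [eq_univ_iff_forall]
    intro x
    cases x with
    | en i =>
      right
      rw [mem_iUnion]
      exact ⟨i, 0, by simp, ch_zero i⟩
    | pt p =>
      by_cases hp : p.1.1 ∈ A
      · exact Or.inl (hLA p hp)
      · right
        change ¬ ∀ i, p.1.1 ∉ K.C i ∪ K.phi i '' PB (1 / 2) at hp
        push Not at hp
        obtain ⟨i, hi⟩ := hp
        rw [mem_iUnion]
        refine ⟨i, ?_⟩
        rcases hi with hi | ⟨z, hz, hzp⟩
        · exact absurd hi (p.2.1 i)
        · have hz1 : z ∈ PB 1 := PB_mono (by norm_num) hz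
          have hz2 : ‖z‖ ≤ 1 / 2 := hz.2.le
          rcases pt_phi hz1 hzp with h | h
          · exact ⟨z, by simpa using hz2, h.symm⟩
          · exact ⟨-z, by simpa using hz2, h.symm⟩
  refine ⟨?_⟩
  rw [huniv]
  refine hL.union (isCompact_iUnion fun i => ?_)
  refine (isCompact_closedBall _ _).image_of_continuousOn fun z hz => ?_
  refine (ch_cont i ?_).continuousWithinAt
  exact Metric.closedBall_subset_ball (by norm_num) hz

/-! ### connectedness -/

/-- the trace on `M` of an invariant set. -/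
def tr (T : Set (X K)) : Set M :=
  (pr K '' (T ∩ range X.pt)) ∪ ⋃ i : {i : Fin m // X.en i ∈ T}, K.C i.1

lemma ch_subset {T : Set (X K)} (hT : IsClopen T) {i : Fin m} {z w : E4}
    (hz : z ∈ Metric.ball (0 : E4) 1) (hw : w ∈ Metric.ball (0 : E4) 1) (h : ch K i z ∈ T) :
    ch K i w ∈ T := by
  have hp : IsPreconnected (ch K i '' Metric.ball 0 1) :=
    (convex_ball (0 : E4) 1).isPreconnected.image _
      fun z hz => (ch_cont i hz).continuousWithinAt
  exact hp.subset_isClopen hT ⟨_, mem_image_of_mem _ hz, h⟩ (mem_image_of_mem _ hw)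

lemma isOpen_tr {T : Set (X K)} (hT : IsClopen T) : IsOpen (tr T) := by
  rw [isOpen_iff_mem_nhds]
  rintro y (⟨x, ⟨hx, p, rfl⟩, rfl⟩ | hy)
  · have h1 : pr K '' (T ∩ range X.pt) ∈ 𝓝 (p.1.1) := by
      rw [← map_pr p]
      exact image_mem_map ((hT.isOpen.inter openEmb_pt.isOpen_range).mem_nhds ⟨hx, p, rfl⟩)
    exact mem_of_superset h1 subset_union_left
  · rw [mem_iUnion] at hy
    obtain ⟨⟨i, hi⟩, hy⟩ := hy
    refine mem_of_superset ((K.nbh i 1 one_pos le_rfl).mem_nhds (Or.inl hy)) ?_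
    rintro y' (hy' | ⟨z, hz, rfl⟩)
    · right
      rw [mem_iUnion]
      exact ⟨⟨i, hi⟩, hy'⟩
    · left
      refine ⟨ch K i z, ⟨?_, ?_⟩, pr_ch hz⟩
      · refine ch_subset hT (z := 0) (by simp) (PB_ball hz) ?_
        rw [ch_zero]; exact hi
      · rw [ch_pt hz]; exact mem_range_self _

lemma exists_PB : ∃ z : E4, z ∈ PB 1 := by
  refine ⟨EuclideanSpace.single 0 (1 / 2), ?_, ?_⟩
  · intro h
    have := congrArg (fun w : E4 => w 0) h
    simp at this
  · rw [PiLp.norm_single]
    norm_num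

lemma tr_univ [ConnectedSpace M] {T : Set (X K)} (hT : IsClopen T)
    (hio : ∀ x, x ∈ T → io K x ∈ T) {i : Fin m} (hi : X.en i ∈ T) : T = univ := by
  obtain ⟨z, hz⟩ := exists_PB
  have hio' : ∀ x, x ∈ Tᶜ → io K x ∈ Tᶜ := by
    intro x hx h
    have := hio _ h
    rw [io_io] at this
    exact hx this
  have hdisj : Disjoint (tr T) (tr Tᶜ) := by
    rw [Set.disjoint_left]
    rintro y (⟨x, ⟨hx, p, rfl⟩, rfl⟩ | hy) hy'
    · rcases hy' with ⟨x', ⟨hx', q, rfl⟩, hq⟩ | hy'
      · have hreg : ∀ j, (X.pt p : X K) ≠ X.en j := fun j h => by cases h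
        have hreg' : ∀ j, (X.pt q : X K) ≠ X.en j := fun j h => by cases h
        have h1 := q.2.2
        have hq' : q.1.1 = p.1.1 := hq
        rw [hq', (tw_eq p.2).2] at h1
        rcases h1 with h1 | h1
        · exact hx' (by rwa [ext_pt hreg' hreg hq h1])
        · rw [mem_singleton_iff] at h1
          have h2 : X.pt q = io K (X.pt p) := by
            refine ext_pt hreg' ?_ (by rw [pr_io]; exact hq) (by rw [lf_io]; exact h1)
            intro j h
            cases h
          exact hx' (by rw [h2]; exact hio _ hx)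
      · rw [mem_iUnion] at hy'
        obtain ⟨⟨j, hj⟩, hy'⟩ := hy'
        exact p.2.1 j hy'
    · rw [mem_iUnion] at hy
      obtain ⟨⟨j, hj⟩, hy⟩ := hy
      rcases hy' with ⟨x', ⟨hx', q, rfl⟩, rfl⟩ | hy'
      · exact q.2.1 j hy
      · rw [mem_iUnion] at hy'
        obtain ⟨⟨k, hk⟩, hy'⟩ := hy'
        have hjk : j = k := by
          by_contra hne
          exact Set.disjoint_left.1 (K.disj j k hne) hy hy'
        subst hjk
        exact hk hj
  have hunion : tr T ∪ tr Tᶜ = univ := by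
    rw [eq_univ_iff_forall]
    intro y
    by_cases hy : ∀ i, y ∉ K.C i
    · obtain ⟨U, hU, v, _, hv⟩ := K.tw_loc y hy
      have hyv : (y, v y) ∈ Vd K := by
        refine ⟨hy, ?_⟩
        rw [(hv y (mem_of_mem_nhds hU)).2]
        exact Or.inl rfl
      by_cases h : (X.pt ⟨(y, v y), hyv⟩ : X K) ∈ T
      · exact Or.inl (Or.inl ⟨_, ⟨h, mem_range_self _⟩, rfl⟩)
      · exact Or.inr (Or.inl ⟨_, ⟨h, mem_range_self _⟩, rfl⟩)
    · push Not at hy
      obtain ⟨j, hj⟩ := hy
      by_cases h : (X.en j : X K) ∈ T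
      · exact Or.inl (Or.inr (mem_iUnion.2 ⟨⟨j, h⟩, hj⟩))
      · exact Or.inr (Or.inr (mem_iUnion.2 ⟨⟨j, h⟩, hj⟩))
  have hcl : IsClopen (tr T) := by
    refine ⟨?_, isOpen_tr hT⟩
    have : (tr T)ᶜ = tr Tᶜ := by
      ext y
      constructor
      · intro hy
        have : y ∈ tr T ∪ tr Tᶜ := by rw [hunion]; exact mem_univ _
        exact this.resolve_left hy
      · intro hy hy'
        exact Set.disjoint_left.1 hdisj hy' hy
    rw [← isOpen_compl_iff, this]
    exact isOpen_tr hT.compl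
  have hne : (tr T).Nonempty := by
    refine ⟨K.phi i z, Or.inl ⟨ch K i z, ⟨?_, ?_⟩, pr_ch hz⟩⟩
    · refine ch_subset hT (z := 0) (by simp) (PB_ball hz) ?_
      rw [ch_zero]; exact hi
    · rw [ch_pt hz]; exact mem_range_self _
  have hall : tr T = univ := by
    rcases isClopen_iff.1 hcl with h | h
    · rw [h] at hne
      exact absurd hne not_nonempty_empty
    · exact h
  have hpt : ∀ p : Vd K, X.pt p ∈ T := by
    intro p
    by_contra h
    have h1 : p.1.1 ∈ tr Tᶜ := Or.inl ⟨_, ⟨h, mem_range_self _⟩, rfl⟩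
    have h2 : p.1.1 ∈ tr T := by rw [hall]; exact mem_univ _
    exact Set.disjoint_left.1 hdisj h2 h1
  rw [eq_univ_iff_forall]
  intro x
  cases x with
  | pt p => exact hpt p
  | en j =>
    rw [← ch_zero]
    refine ch_subset hT (z := z) (PB_ball hz) (by simp) ?_
    rw [ch_pt hz]
    exact hpt _

theorem connX [ConnectedSpace M] (hm : 0 < m) : ConnectedSpace (X K) := by
  have hpre : PreconnectedSpace (X K) := by
    rw [preconnectedSpace_iff_clopen]
    intro s hs
    have key : ∀ s : Set (X K), IsClopen s → X.en ⟨0, hm⟩ ∈ s → s = univ := by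
      intro s hs h0
      have hT : IsClopen (s ∩ io K ⁻¹' s) := hs.inter (hs.preimage continuous_io)
      have h1 : s ∩ io K ⁻¹' s = univ := by
        refine tr_univ hT ?_ (i := ⟨0, hm⟩) ⟨h0, h0⟩
        rintro x ⟨hx, hx'⟩
        refine ⟨hx', ?_⟩
        show io K (io K x) ∈ s
        rwa [io_io]
      rw [eq_univ_iff_forall] at h1 ⊢
      exact fun x => (h1 x).1
    by_cases h0 : (X.en ⟨0, hm⟩ : X K) ∈ s
    · exact Or.inr (key s hs h0)
    · left
      have := key sᶜ hs.compl h0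
      rwa [compl_univ_iff] at this
  exact { toNonempty := ⟨X.en ⟨0, hm⟩⟩ }

end Sheets

end

end Crest.Agent.R235.KTA_172
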