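import Crest.Agent.R235.EvenR_510
import Crest.Agent.R235.KumDefs_152

/-!
Row 235 (S0364), package KUM, node EVMOVE (helper152), by helper510:
`EXJ, CONE, LATTR ⇒ EVMOVE`.
-/

set_option autoImplicit false
set_option maxSynthPendingDepth 3
set_option linter.unusedSectionVars false

open Set Function Filter MeasureTheory
open scoped Manifold ContDiff Topology

universe u

namespace Crest.Agent.R235.TorMin_510

open Crest.Agent.R235 Crest.Agent.R240 Crest.Agent.R240.Ch

section Basic

variable {M : Type u} [TopologicalSpace M] [T2Space M] [CompactSpace M]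
  [ChartedSpace E4 M] [IsManifold 𝓘(ℝ, E4) ∞ M]

theorem evenT_of_invol {w : Trip M} {τ : M → M} (h : Invol w τ) :
    EvenT τ w := h.pres

theorem invol_of_evenT {w w' : Trip M} {τ : M → M} (h : Invol w τ)
    (h' : EvenT τ w') : Invol w' τ := ⟨h.smooth, h.inv, h'⟩

theorem ple_of_evSeg {τ : M → M} {u v : Trip M} (h : Relation.ReflTransGen (EvSeg τ) u v) :
    PLE τ u v :=
  Relation.ReflTransGen.mono (fun _ _ h => ⟨h.1, h.2.1.pres, h.2.2.pres⟩) _ _ h

end Basic

/-- EVMOVE. -/
theorem evmove (hex : EXJ.{u}) (hcone : CONE.{u}) (hLT : LATTR.{u}) : EVMOVE.{u} := by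
  intro X _ _ _ _ _ _ w τ hw hT hi hm
  have hT' : T4R (w 0) := by
    first
      | exact hT
      | exact T4RLem_510.of_t4 (hw.vol 0) hT
  obtain ⟨w', e, h1, h2, h3, h4, h5⟩ := even_torpos hex hcone hLT hw hT' hi hm
  refine ⟨e, w', h5, ple_of_evSeg h3, h1.1, h2.pres, ?_⟩
  first
    | exact h4
    | (rw [T4Type_congr (h1.2.pI_eq (hw.vol 0) (h1.1.vol 0))]; exact hT)

end Crest.Agent.R235.TorMin_510
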