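import Crest.Agent.R235.K12Ext_168

/-!
Row 235 (S0364), package KUM, node NECKTH (a) (helper785), part A:

* `s2 G U B` : a closed two-form on `TS r` with support in `{|p| ≤ r'}`, `r' < r`, extended by
  zero to a closed two-form `thZ` of `M`; `s2_pull` : its pull-backs;
* `bas_P2` : the pull-back of a closed two-form of `M` to the tube is basic;
* `val_zero_of_P2` : a form vanishes where its pull-back to the tube vanishes.
-/

set_option autoImplicit false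
set_option maxSynthPendingDepth 3
set_option linter.unusedSectionVars false

open Set Function Filter MeasureTheory
open scoped Manifold ContDiff Topology RealInnerProductSpace

universe u

namespace Crest.Agent.R235.KumThA_785

open Crest.Agent.R240 Crest.Agent.R240.Ch Crest.Agent.R235 Crest.Agent.R235.K12_417
  Crest.Agent.R235.PB_604 Crest.Agent.R235.K12Ext_168

noncomputable section

variable {M : Type u} [TopologicalSpace M] [T2Space M] [CompactSpace M]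
  [ChartedSpace E4 M] [IsManifold 𝓘(ℝ, E4) ∞ M]

variable {σ : E3 → M} {r : ℝ} {Ps : E6 → M} {G : M → E6} {U : Set M}

open Classical in
/-- the extension by zero of a two-form. -/
def s2 (G : M → E6) (U : Set M) (B : E6 → B6) : F2 E4 M :=
  fun x => if x ∈ U then pb2 (E := E4) (F := E6) (X := M) (M := E6) G B x else 0

lemma s2_of_mem {B : E6 → B6} {x : M} (hx : x ∈ U) :
    at2 (s2 G U B) x = at2 (pb2 (E := E4) (F := E6) (X := M) (M := E6) G B) x := by
  show s2 G U B x = _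
  unfold s2
  rw [if_pos hx]
  rfl

lemma s2_zero (h : Tube σ r Ps G U) {B : E6 → B6} {r' : ℝ}
    (hB : ∀ z ∈ TS r, r' ≤ ‖z.2‖ → B z = 0) {x : M} (hx : x ∉ KK r' Ps) :
    at2 (s2 G U B) x = 0 := by
  by_cases hU : x ∈ U
  · rw [s2_of_mem hU, at2_pb2]
    have h1 := h.mapsG x hU
    have h2 : B (G x) = 0 := by
      refine hB _ h1 ?_
      by_contra hc
      exact hx ⟨G x, ⟨h1.1, h1.2.1, (not_le.1 hc).le⟩, h.left x hU⟩
    show pl _ (B (G x)) = 0
    rw [h2]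
    ext u v
    simp
  · show s2 G U B x = _
    unfold s2
    rw [if_neg hU]

lemma z2At_zero (x : M) : Z2At (0 : F2 E4 M) x :=
  z2At_of_mem (0 : Z2 M).1.2 (0 : Z2 M).2 x

theorem z2At_s2 (h : Tube σ r Ps G U) {B : E6 → B6} {r' : ℝ} (hr : r' < r)
    (hs : ∀ z ∈ TS r, Z2At (E := E6) (X := E6) B z) (hB : ∀ z ∈ TS r, r' ≤ ‖z.2‖ → B z = 0)
    (x : M) : Z2At (s2 G U B) x := by
  by_cases hx : x ∈ U
  · refine (Z2At.pb2 (hs (G x) (h.mapsG x hx)) (smoothGAt h hx)).congr ?_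
    filter_upwards [h.openU.mem_nhds hx] with y hy
    exact (s2_of_mem hy).symm
  · have hK : x ∉ KK r' Ps := fun hc => hx (KK_subset h hr hc)
    refine (z2At_zero x).congr ?_
    filter_upwards [(isClosed_KK h hr).isOpen_compl.mem_nhds hK] with y hy
    rw [s2_zero h hB hy]
    rfl

/-- the extension as a closed form. -/
def thZ (h : Tube σ r Ps G U) {B : E6 → B6} {r' : ℝ} (hr : r' < r)
    (hs : ∀ z ∈ TS r, Z2At (E := E6) (X := E6) B z) (hB : ∀ z ∈ TS r, r' ≤ ‖z.2‖ → B z = 0) :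
    Z2 M :=
  ⟨⟨s2 G U B, smooth2_of_z2At (z2At_s2 h hr hs hB)⟩, closed2_of_z2At (z2At_s2 h hr hs hB)⟩

lemma val_thZ (h : Tube σ r Ps G U) {B : E6 → B6} {r' : ℝ} (hr : r' < r)
    (hs : ∀ z ∈ TS r, Z2At (E := E6) (X := E6) B z) (hB : ∀ z ∈ TS r, r' ≤ ‖z.2‖ → B z = 0)
    (x : M) : val (thZ h hr hs hB) x = at2 (s2 G U B) x := rfl

/-- `dmap` is `D1`. -/
lemma dmap_eq {V : Type} [NormedAddCommGroup V] [NormedSpace ℝ V] (f : V → M) (y v : V) :
    dmap f y v = D1 V E4 f y v := rfl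

/-- the pull-back of the extension under a map `f` into `U` with `G ∘ f = g`. -/
theorem s2_pull (h : Tube σ r Ps G U) {B : E6 → B6} {V : Type} [NormedAddCommGroup V]
    [NormedSpace ℝ V] {f : V → M} {g : V → E6} {y : V}
    (hf : ContMDiffAt 𝓘(ℝ, V) 𝓘(ℝ, E4) ∞ f y) (hU : f y ∈ U)
    (hg : ∀ᶠ x in 𝓝 y, G (f x) = g x) (u v : V) :
    at2 (s2 G U B) (f y) (dmap f y u) (dmap f y v) =
      B (g y) (fderiv ℝ g y u) (fderiv ℝ g y v) := by
  have hf1 : ContMDiffAt 𝓘(ℝ, V) 𝓘(ℝ, E4) 1 f y := hf.of_le one_le_infty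
  have hG1 : ContMDiffAt 𝓘(ℝ, E4) 𝓘(ℝ, E6) 1 G (f y) := (smoothGAt h hU).of_le one_le_infty
  rw [s2_of_mem hU, at2_pb2, pl_apply, dmap_eq, dmap_eq]
  have h1 := D1_comp (E := V) (F := E4) (G := E6) (X := V) (M := M) (N := E6) hf1 hG1
  have h2 : D1 V E6 (G ∘ f) y = fderiv ℝ g y := by
    rw [D1_congr (show G ∘ f =ᶠ[𝓝 y] g from hg)]
    rfl
  have h3 : ∀ w : V, D1 E4 E6 G (f y) (D1 V E4 f y w) = fderiv ℝ g y w := by
    intro w
    rw [← h2, h1]
    rfl
  rw [h3, h3]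
  have h4 : G (f y) = g y := hg.self_of_nhds
  show B (G (f y)) _ _ = _
  rw [h4]

/-! ### pull-backs to the tube -/

/-- a form of `M` vanishes at a point of the tube where its pull-back vanishes. -/
theorem at2_zero_of_P2 (h : Tube σ r Ps G U) (a : F2 E4 M) {x : M} (hx : x ∈ U)
    (h0 : P2 Ps a (G x) = 0) : at2 a x = 0 := by
  have hG1 : ContMDiffAt 𝓘(ℝ, E4) 𝓘(ℝ, E6) 1 G x := (smoothGAt h hx).of_le one_le_infty
  have hP1 : ContMDiffAt 𝓘(ℝ, E6) 𝓘(ℝ, E4) 1 Ps (G x) :=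
    (smoothAt h (TS_subset_OS r (h.mapsG x hx))).of_le one_le_infty
  have h1 := D1_comp (E := E4) (F := E6) (G := E4) (X := M) (M := E6) (N := M) hG1 hP1
  have h2 : (D1 E4 E4 (Ps ∘ G) x : E4 →L[ℝ] E4) = ContinuousLinearMap.id ℝ E4 := by
    have h3 : Ps ∘ G =ᶠ[𝓝 x] (id : M → M) := by
      filter_upwards [h.openU.mem_nhds hx] with y hy
      exact h.left y hy
    rw [D1_congr h3, D1_id]
  have h4 : ∀ w : E4, D1 E6 E4 Ps (G x) (D1 E4 E6 G x w) = w := by
    intro w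
    have := congrArg (fun L : E4 →L[ℝ] E4 => L w) h1
    simp only [ContinuousLinearMap.comp_apply] at this
    rw [← this]
    have h5 := congrArg (fun L : E4 →L[ℝ] E4 => L w) h2
    exact h5
  have h6 : P2 Ps a (G x) = pl (D1 E6 E4 Ps (G x)) (at2 a (Ps (G x))) := rfl
  ext u v
  have h7 : P2 Ps a (G x) (D1 E4 E6 G x u) (D1 E4 E6 G x v) = 0 := by rw [h0]; rfl
  rw [h6, pl_apply, h4, h4, h.left x hx] at h7
  rw [h7]; rfl

theorem bas_P2 (h : Tube σ r Ps G U) (b : Z2 M) : Bas r (P2 Ps (b.1.1 : F2 E4 M)) := by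
  have hz : ∀ z ∈ OS r, Z2At (E := E6) (X := E6)
      (pb2 (E := E6) (F := E4) (X := E6) (M := M) Ps (b.1.1 : F2 E4 M)) z := by
    intro z hz
    exact (z2At_of_mem b.1.2 b.2 (Ps z)).pb2 (smoothAt h hz)
  refine ⟨?_, ?_, ?_, ?_⟩
  · intro z hz'
    have h1 := (hz z hz').sm
    have h2 : rep z (pb2 (E := E6) (F := E4) (X := E6) (M := M) Ps (b.1.1 : F2 E4 M)) =
        P2 Ps (b.1.1 : F2 E4 M) := by
      funext y
      exact rep_model z _ y
    rw [h2] at h1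
    exact h1.contDiffWithinAt
  · intro z hz' U
    exact (hz z hz').alt U
  · intro z hz' U V Y
    have h1 := (hz z hz').cl U V Y
    have h2 : rep z (pb2 (E := E6) (F := E4) (X := E6) (M := M) Ps (b.1.1 : F2 E4 M)) =
        P2 Ps (b.1.1 : F2 E4 M) := by
      funext y
      exact rep_model z _ y
    rw [h2] at h1
    exact h1
  · intro z hz' U V
    have hP1 : ContMDiffAt 𝓘(ℝ, E6) 𝓘(ℝ, E4) 1 Ps (Pi z) :=
      (smoothAt h (TS_subset_OS r (Pi_mem_TS hz'))).of_le one_le_infty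
    have hPi : ContMDiffAt 𝓘(ℝ, E6) 𝓘(ℝ, E6) 1 Pi z :=
      ((contDiffAt_Pi hz'.1).contMDiffAt).of_le one_le_infty
    have h1 := D1_comp (E := E6) (F := E6) (G := E4) (X := E6) (M := E6) (N := M) hPi hP1
    have h3 : Ps ∘ Pi =ᶠ[𝓝 z] Ps := by
      filter_upwards [(isOpen_OS r).mem_nhds hz'] with y hy
      exact h.fac y hy
    have h2 : (D1 E6 E4 Ps z : E6 →L[ℝ] E4) = (D1 E6 E4 Ps (Pi z)).comp (fderiv ℝ Pi z) := by
      rw [← D1_congr h3, h1]
      rfl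
    show at2 (b.1.1 : F2 E4 M) (Ps z) (D1 E6 E4 Ps z U) (D1 E6 E4 Ps z V) =
      at2 (b.1.1 : F2 E4 M) (Ps (Pi z)) (D1 E6 E4 Ps (Pi z) (fderiv ℝ Pi z U))
        (D1 E6 E4 Ps (Pi z) (fderiv ℝ Pi z V))
    rw [h2, h.fac z hz']
    rfl

end

end Crest.Agent.R235.KumThA_785
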