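import Crest.Agent.R235.KumThA_785
import Crest.Agent.R235.KumThB_785
import Crest.Agent.R235.Ip_288

/-!
Row 235 (S0364), package KUM, node NECKTH (a) (helper785), part C: a closed form of `M` whose
integral over the sphere vanishes is cohomologous to a form vanishing near the sphere.
-/

set_option autoImplicit false
set_option maxSynthPendingDepth 3
set_option linter.unusedSectionVars false

open Set Function Filter MeasureTheory
open scoped Manifold ContDiff Topology RealInnerProductSpace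

universe u

namespace Crest.Agent.R235.KumThC_785

open Crest.Agent.R240 Crest.Agent.R240.Ch Crest.Agent.R235 Crest.Agent.R235.K12_417
  Crest.Agent.R235.PB_604 Crest.Agent.R235.K12Ext_168 Crest.Agent.R235.KumThA_785
  Crest.Agent.R235.KumThB_785

noncomputable section

variable {r : ℝ}

/-! ### the normalisation map of `E3` -/

/-- `y / |y|`. -/
def sn (y : E3) : E3 := ‖y‖⁻¹ • y

/-- `(y / |y|, 0)`. -/
def gy (y : E3) : E6 := (sn y, 0)

lemma contDiffAt_sn {y : E3} (hy : y ≠ 0) : ContDiffAt ℝ ∞ sn y :=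
  ((contDiffAt_id.norm ℝ hy).inv (norm_ne_zero_iff.2 hy)).smul contDiffAt_id

lemma contDiffAt_gy {y : E3} (hy : y ≠ 0) : ContDiffAt ℝ ∞ gy y :=
  (contDiffAt_sn hy).prodMk contDiffAt_const

lemma norm_sn {y : E3} (hy : y ≠ 0) : ‖sn y‖ = 1 := by
  unfold sn
  rw [norm_smul, norm_inv, norm_norm, inv_mul_cancel₀ (norm_ne_zero_iff.2 hy)]

lemma sn_of_norm {y : E3} (hy : ‖y‖ = 1) : sn y = y := by
  unfold sn; rw [hy, inv_one, one_smul]

lemma sn_smul {t : ℝ} (ht : 0 < t) (y : E3) : sn (t • y) = sn y := by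
  unfold sn
  rw [norm_smul, Real.norm_of_nonneg ht.le, smul_smul, mul_inv, mul_comm t⁻¹, mul_assoc,
    inv_mul_cancel₀ ht.ne', mul_one]

lemma ne_of_norm {y : E3} (hy : ‖y‖ = 1) : y ≠ 0 := by
  intro h; rw [h, norm_zero] at hy; exact zero_ne_one hy

lemma fderiv_sn {y : E3} (hy : ‖y‖ = 1) (u : E3) : fderiv ℝ sn y u = u - ⟪y, u⟫ • y := by
  have hy0 := ne_of_norm hy
  have h1 : HasFDerivAt (fun y : E3 => ‖y‖) (innerSL ℝ y) y := by
    have h2 : HasFDerivAt (fun y : E3 => ‖y‖ ^ 2) (2 • innerSL ℝ y) y :=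
      (hasStrictFDerivAt_norm_sq y).hasFDerivAt
    have h3 : DifferentiableAt ℝ (fun y : E3 => ‖y‖) y :=
      (contDiffAt_id.norm ℝ hy0).differentiableAt infty_ne_zero
    have h4 := h3.hasFDerivAt.pow 2
    have h5 := h2.unique h4
    have h6 : fderiv ℝ (fun y : E3 => ‖y‖) y = innerSL ℝ y := by
      refine ContinuousLinearMap.ext fun v => ?_
      have h7 := congrArg (fun L : E3 →L[ℝ] ℝ => L v) h5
      simp [hy] at h7
      simpa using h7.symm
    rw [← h6]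
    exact h3.hasFDerivAt
  have h8 : HasFDerivAt (fun y : E3 => ‖y‖⁻¹) (-(innerSL ℝ y)) y := by
    have h := (hasDerivAt_inv (norm_ne_zero_iff.2 hy0)).comp_hasFDerivAt y h1
    refine HasFDerivAt.congr_fderiv h ?_
    rw [hy]; simp
  have h9 := h8.smul (hasFDerivAt_id y)
  have h10 : fderiv ℝ sn y = _ := h9.fderiv
  rw [h10]
  simp [hy]
  abel

lemma fderiv_gy {y : E3} (hy : y ≠ 0) (u : E3) : fderiv ℝ gy y u = (fderiv ℝ sn y u, 0) := by
  have h := ((contDiffAt_sn hy).differentiableAt infty_ne_zero).hasFDerivAt.prodMk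
    (hasFDerivAt_const (0 : E3) y)
  rw [show gy = fun y => (sn y, (0 : E3)) from rfl, h.fderiv]
  rfl

lemma gy_mem_TS {r : ℝ} (hr : 0 < r) {y : E3} (hy : y ≠ 0) : gy y ∈ TS r :=
  ⟨norm_sn hy, by show ⟪sn y, (0 : E3)⟫ = 0; rw [inner_zero_right], by
    show ‖(0 : E3)‖ < r; rw [norm_zero]; exact hr⟩

/-! ### area -/

/-- the cross product of two vectors orthogonal to `q`. -/
lemma cr_eq {q u v : E3} (hq : ‖q‖ = 1) (hu : ⟪q, u⟫ = 0) (hv : ⟪q, v⟫ = 0) :
    cr u v = ⟪q, cr u v⟫ • q := by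
  have a1 : q 0 ^ 2 + q 1 ^ 2 + q 2 ^ 2 = 1 := by rw [← norm_sq3, hq]; norm_num
  rw [in3] at hu hv ⊢
  ext i
  fin_cases i
  · simp only [cr_0, cr_1, cr_2]
    simp
    linear_combination (-(u 1 * v 2 - u 2 * v 1)) * a1 + (q 1 * v 2 - q 2 * v 1) * hu -
      (q 1 * u 2 - q 2 * u 1) * hv
  · simp only [cr_0, cr_1, cr_2]
    simp
    linear_combination (-(u 2 * v 0 - u 0 * v 2)) * a1 + (q 2 * v 0 - q 0 * v 2) * hu -
      (q 2 * u 0 - q 0 * u 2) * hv
  · simp only [cr_0, cr_1, cr_2]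
    simp
    linear_combination (-(u 0 * v 1 - u 1 * v 0)) * a1 + (q 0 * v 1 - q 1 * v 0) * hu -
      (q 0 * u 1 - q 1 * u 0) * hv

/-- the coefficient of an alternating form on `q^⊥`. -/
def cf (w : E3 → E3 → ℝ) (q : E3) : ℝ :=
  q 2 * w (EuclideanSpace.single 0 1) (EuclideanSpace.single 1 1) +
    q 0 * w (EuclideanSpace.single 1 1) (EuclideanSpace.single 2 1) +
    q 1 * w (EuclideanSpace.single 2 1) (EuclideanSpace.single 0 1)

lemma single3 (v : E3) : v = v 0 • EuclideanSpace.single 0 (1 : ℝ) +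
    v 1 • EuclideanSpace.single 1 (1 : ℝ) + v 2 • EuclideanSpace.single 2 (1 : ℝ) := by
  ext i; fin_cases i <;> simp

lemma cf_spec (w : E3 →L[ℝ] E3 →L[ℝ] ℝ) (hw : ∀ u, w u u = 0) {q u v : E3} (hq : ‖q‖ = 1)
    (hu : ⟪q, u⟫ = 0) (hv : ⟪q, v⟫ = 0) :
    w u v = cf (fun a b => w a b) q * ⟪q, cr u v⟫ := by
  have hsw : ∀ a b, w a b = - w b a := fun a b => alt_swap hw a b
  have h1 : w u v = w (EuclideanSpace.single 1 1) (EuclideanSpace.single 2 1) * cr u v 0 +
      w (EuclideanSpace.single 2 1) (EuclideanSpace.single 0 1) * cr u v 1 +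
      w (EuclideanSpace.single 0 1) (EuclideanSpace.single 1 1) * cr u v 2 := by
    conv_lhs => rw [single3 u, single3 v]
    simp only [map_add, map_smul, add_apply, smul_apply, smul_eq_mul, hw,
      hsw (EuclideanSpace.single 1 1) (EuclideanSpace.single 0 1),
      hsw (EuclideanSpace.single 0 1) (EuclideanSpace.single 2 1),
      hsw (EuclideanSpace.single 2 1) (EuclideanSpace.single 1 1), cr_0, cr_1, cr_2]
    ring
  have h2 := cr_eq hq hu hv
  have c0 : cr u v 0 = ⟪q, cr u v⟫ * q 0 := congrArg (fun x : E3 => x 0) h2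
  have c1 : cr u v 1 = ⟪q, cr u v⟫ * q 1 := congrArg (fun x : E3 => x 1) h2
  have c2 : cr u v 2 = ⟪q, cr u v⟫ * q 2 := congrArg (fun x : E3 => x 2) h2
  rw [h1, c0, c1, c2]
  unfold cf
  ring

lemma cr_proj {q u v : E3} :
    ⟪q, cr (u - ⟪q, u⟫ • q) (v - ⟪q, v⟫ • q)⟫ = ⟪q, cr u v⟫ := by
  simp only [in3, cr_0, cr_1, cr_2, PiLp.sub_apply, PiLp.smul_apply, smul_eq_mul]
  ring

lemma inner_proj {q u : E3} (hq : ‖q‖ = 1) : ⟪q, u - ⟪q, u⟫ • q⟫ = 0 := by
  rw [inner_sub_right, inner_smul_right, real_inner_self_eq_norm_sq, hq]; ring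

lemma cr_single : cr (EuclideanSpace.single 0 1) (EuclideanSpace.single 1 1) =
      EuclideanSpace.single 2 1 ∧
    cr (EuclideanSpace.single 1 1) (EuclideanSpace.single 2 1) = EuclideanSpace.single 0 1 ∧
    cr (EuclideanSpace.single 2 1) (EuclideanSpace.single 0 1) = EuclideanSpace.single 1 1 := by
  refine ⟨?_, ?_, ?_⟩ <;> (ext i; fin_cases i <;> simp [cr])

lemma cf_area {c : ℝ} {q : E3} (hq : ‖q‖ = 1) (w : E3 → E3 → ℝ)
    (hw : ∀ u v, w u v = c * ⟪q, cr u v⟫) : cf w q = c := by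
  obtain ⟨h1, h2, h3⟩ := cr_single
  unfold cf
  rw [hw, hw, hw, h1, h2, h3, in3, in3, in3]
  simp
  have a1 : q 0 ^ 2 + q 1 ^ 2 + q 2 ^ 2 = 1 := by rw [← norm_sq3, hq]; norm_num
  linear_combination c * a1

section Man

variable {M : Type u} [TopologicalSpace M] [T2Space M] [CompactSpace M]
  [ChartedSpace E4 M] [IsManifold 𝓘(ℝ, E4) ∞ M]

variable {σ : E3 → M} {Ps : E6 → M} {G : M → E6} {U : Set M}

/-- the pull-back of a form under a map which factors through the tube. -/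
theorem pull_Ps (h : Tube σ r Ps G U) (a : F2 E4 M) {V : Type} [NormedAddCommGroup V]
    [NormedSpace ℝ V] {f : V → M} {g : V → E6} {y : V} (hg : ContDiffAt ℝ ∞ g y)
    (hy : g y ∈ OS r) (hf : ∀ᶠ x in 𝓝 y, f x = Ps (g x)) (u v : V) :
    at2 a (f y) (dmap f y u) (dmap f y v) = P2 Ps a (g y) (fderiv ℝ g y u) (fderiv ℝ g y v) := by
  have hP1 : ContMDiffAt 𝓘(ℝ, E6) 𝓘(ℝ, E4) 1 Ps (g y) := (smoothAt h hy).of_le one_le_infty
  have hg1 : ContMDiffAt 𝓘(ℝ, V) 𝓘(ℝ, E6) 1 g y := hg.contMDiffAt.of_le one_le_infty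
  have h1 := D1_comp (E := V) (F := E6) (G := E4) (X := V) (M := E6) (N := M) hg1 hP1
  have h2 : (D1 V E4 f y : V →L[ℝ] E4) = D1 V E4 (Ps ∘ g) y :=
    D1_congr (show f =ᶠ[𝓝 y] Ps ∘ g from hf)
  have h3 : ∀ w, dmap f y w = D1 E6 E4 Ps (g y) (fderiv ℝ g y w) := by
    intro w
    rw [dmap_eq, h2, h1]
    rfl
  have h4 : f y = Ps (g y) := hf.self_of_nhds
  have h5 : P2 Ps a (g y) = pl (D1 E6 E4 Ps (g y)) (at2 a (Ps (g y))) := rfl
  rw [h3, h3, h5, pl_apply, h4]

/-- near the unit sphere `σ = Ps ∘ gy`. -/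
lemma sigma_ev (h : Tube σ r Ps G U) (hσ : EmbS σ) {y : E3} (hy : y ≠ 0) :
    ∀ᶠ x in 𝓝 y, σ x = Ps (gy x) := by
  filter_upwards [isOpen_ne.mem_nhds hy] with x hx
  have hx0 : x ≠ 0 := hx
  have h1 : Ps (gy x) = σ (sn x) := h.zero (sn x) (norm_sn hx0)
  rw [h1]
  exact (hσ.hom _ _ (inv_pos.2 (norm_pos_iff.2 hx0)) hx0).symm

/-- the restriction of `W` to the zero section. -/
def rW (W : E6 → B6) (q : E3) (u v : E3) : ℝ := W (q, 0) (u, 0) (v, 0)

/-- the coefficient function of the restriction of `W` to the sphere. -/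
def fW (W : E6 → B6) (q : E3) : ℝ := cf (rW W (sn q)) (sn q)

lemma sphI_eq (h : Tube σ r Ps G U) (hσ : EmbS σ) (a : F2 E4 M)
    (halt : ∀ z ∈ OS r, ∀ U, P2 Ps a z U U = 0) :
    sphI σ a = ∫ y : Metric.sphere (0 : E3) 1, fW (P2 Ps a) y ∂((volume : Measure E3).toSphere) := by
  unfold sphI
  refine integral_congr_ae (Eventually.of_forall fun y => ?_)
  have hy : ‖(y : E3)‖ = 1 := by simp
  have hy0 := ne_of_norm hy
  have hmem : gy (y : E3) ∈ OS r := TS_subset_OS r (gy_mem_TS h.r_pos hy0)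
  have hp := fun u v => pull_Ps h a (contDiffAt_gy hy0) hmem (sigma_ev h hσ hy0) u v
  have hgy : gy (y : E3) = ((y : E3), 0) := by unfold gy; rw [sn_of_norm hy]
  simp only [hp, fderiv_gy hy0, fderiv_sn hy]
  rw [hgy]
  -- the alternating form on `E3`
  let w : E3 →L[ℝ] E3 →L[ℝ] ℝ := pl (ContinuousLinearMap.inl ℝ E3 E3) (P2 Ps a ((y : E3), 0))
  have hw : ∀ u v, P2 Ps a ((y : E3), 0) (u, 0) (v, 0) = w u v := by
    intro u v
    show _ = pl (ContinuousLinearMap.inl ℝ E3 E3) (P2 Ps a ((y : E3), 0)) u v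
    rw [pl_apply]; rfl
  have hwa : ∀ u, w u u = 0 := by
    intro u
    rw [← hw]
    rw [hgy] at hmem
    exact halt _ hmem _
  have hspec : ∀ u v : E3, w (u - ⟪(y : E3), u⟫ • (y : E3)) (v - ⟪(y : E3), v⟫ • (y : E3)) =
      cf (fun a b => w a b) y * ⟪(y : E3), cr u v⟫ := by
    intro u v
    rw [cf_spec w hwa hy (inner_proj hy) (inner_proj hy), cr_proj]
  simp only [hw, hspec]
  have h1 : fW (P2 Ps a) (y : E3) = cf (fun a b => w a b) y := by
    unfold fW
    rw [sn_of_norm hy]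
    congr 1
  rw [h1]
  exact cf_area hy (fun u v => cf (fun a b => w a b) y * ⟪(y : E3), cr u v⟫) fun u v => rfl

lemma hom0_fW {W : E6 → B6} (hr : 0 < r) (hW : ContDiffOn ℝ ∞ W (OS r)) : Hom0 (fW W) := by
  constructor
  · intro q hq
    have hq0 : q ≠ 0 := hq
    have h1 : ContDiffAt ℝ ∞ (fun q => W (gy q)) q :=
      (hW.contDiffAt ((isOpen_OS r).mem_nhds (TS_subset_OS r (gy_mem_TS hr hq0)))).comp q
        (contDiffAt_gy hq0)
    have h2 : ∀ u v : E3, ContDiffAt ℝ ∞ (fun q => rW W (sn q) u v) q := by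
      intro u v
      exact (h1.clm_apply contDiffAt_const).clm_apply contDiffAt_const
    have h3 : ∀ i : Fin 3, ContDiffAt ℝ ∞ (fun q => sn q i) q := by
      intro i
      exact ((EuclideanSpace.proj (𝕜 := ℝ) i : E3 →L[ℝ] ℝ).contDiff.contDiffAt).comp q
        (contDiffAt_sn hq0)
    have h4 : ContDiffAt ℝ ∞ (fW W) q := by
      unfold fW cf
      exact (((h3 2).mul (h2 _ _)).add ((h3 0).mul (h2 _ _))).add ((h3 1).mul (h2 _ _))
    exact h4.contDiffWithinAt
  · intro t q ht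
    unfold fW
    rw [sn_smul ht]

end Man

/-! ### basic one-forms -/

lemma Pi_ev_mem {r : ℝ} {z : E6} (hz : z ∈ OS r) : ∀ᶠ w in 𝓝 z, w ∈ OS r :=
  (isOpen_OS r).mem_nhds hz

/-- the differential of a basic one-form is basic. -/
theorem bas_d1 {β : E6 → E6 →L[ℝ] ℝ} (h : Bas1 r β) : Bas r (d1 β) := by
  have hs : ∀ z ∈ OS r, ContDiffAt ℝ ∞ β z := fun z hz =>
    h.smooth.contDiffAt ((isOpen_OS r).mem_nhds hz)
  refine ⟨?_, ?_, ?_, ?_⟩
  · intro z hz
    have h1 : ContDiffAt ℝ ∞ (fderiv ℝ β) z := (hs z hz).fderiv_right (m := ∞) (by simp)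
    have h2 : d1 β = fun y => fderiv ℝ β y -
        (ContinuousLinearMap.flipₗᵢ ℝ E6 E6 ℝ) (fderiv ℝ β y) := rfl
    rw [h2]
    exact (h1.sub ((ContinuousLinearMap.flipₗᵢ ℝ E6 E6 ℝ).contDiff.contDiffAt.comp z
      h1)).contDiffWithinAt
  · intro z _ U
    rw [d1_apply, sub_self]
  · intro z hz U V Y
    exact dd_d1 (hs z hz) U V Y
  · intro z hz U V
    refine d1_pullback' (contDiffAt_Pi hz.1)
      ((hs _ (TS_subset_OS r (Pi_mem_TS hz))).differentiableAt infty_ne_zero) ?_ U V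
    filter_upwards [Pi_ev_mem hz] with w hw
    refine ContinuousLinearMap.ext fun X => ?_
    exact h.bas w hw X

lemma bas_sub {W W' : E6 → B6} (h : Bas r W) (h' : Bas r W') : Bas r (fun z => W z - W' z) := by
  have hs : ∀ z ∈ OS r, DifferentiableAt ℝ W z := fun z hz =>
    (h.smooth.contDiffAt ((isOpen_OS r).mem_nhds hz)).differentiableAt infty_ne_zero
  have hs' : ∀ z ∈ OS r, DifferentiableAt ℝ W' z := fun z hz =>
    (h'.smooth.contDiffAt ((isOpen_OS r).mem_nhds hz)).differentiableAt infty_ne_zero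
  refine ⟨h.smooth.sub h'.smooth, ?_, ?_, ?_⟩
  · intro z hz U
    show W z U U - W' z U U = 0
    rw [h.alt z hz, h'.alt z hz, sub_zero]
  · intro z hz U V Y
    have h1 := h.closed z hz U V Y
    have h2 := h'.closed z hz U V Y
    unfold dd at h1 h2 ⊢
    have h3 : fderiv ℝ (fun z => W z - W' z) z = fderiv ℝ W z - fderiv ℝ W' z :=
      fderiv_fun_sub (hs z hz) (hs' z hz)
    rw [h3]
    simp only [sub_apply]
    linear_combination h1 - h2
  · intro z hz U V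
    show W z U V - W' z U V = W (Pi z) _ _ - W' (Pi z) _ _
    rw [h.bas z hz, h'.bas z hz]

lemma bas1_add {β β' : E6 → E6 →L[ℝ] ℝ} (h : Bas1 r β) (h' : Bas1 r β') :
    Bas1 r (fun z => β z + β' z) where
  smooth := h.smooth.add h'.smooth
  bas z hz U := by
    show β z U + β' z U = β (Pi z) _ + β' (Pi z) _
    rw [h.bas z hz, h'.bas z hz]

/-- the pull-back of a homogeneous one-form of `E3 ∖ 0`. -/
lemma bas1_fst {γ : E3 → E3 →L[ℝ] ℝ} (h1 : ContDiffOn ℝ ∞ γ {0}ᶜ) (h2 : ∀ q, γ q q = 0)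
    (h3 : ∀ (t : ℝ) (q : E3), 0 < t → q ≠ 0 → γ (t • q) = t⁻¹ • γ q) :
    Bas1 r (fun z : E6 => (γ z.1).comp (ContinuousLinearMap.fst ℝ E3 E3)) where
  smooth := by
    intro z hz
    have h4 : ContDiffAt ℝ ∞ (fun z : E6 => γ z.1) z :=
      (h1.contDiffAt (isOpen_ne.mem_nhds hz.1)).comp z contDiffAt_fst
    exact (h4.clm_comp contDiffAt_const).contDiffWithinAt
  bas z hz U := by
    have hn : ‖z.1‖ ≠ 0 := norm_ne_zero_iff.2 hz.1
    show γ z.1 U.1 = γ (‖z.1‖⁻¹ • z.1) ((fderiv ℝ Pi z U).1)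
    rw [h3 _ _ (inv_pos.2 (norm_pos_iff.2 hz.1)) hz.1, inv_inv]
    -- the first component of `dPi`
    have e1 : (fderiv ℝ Pi z U).1 = fderiv ℝ sn z.1 U.1 := by
      rw [← fderiv_nn hz.1]
      have h5 : nn = fun z : E6 => sn z.1 := rfl
      rw [h5]
      have h6 := ((contDiffAt_sn hz.1).differentiableAt infty_ne_zero).hasFDerivAt.comp z
        (hasFDerivAt_fst (𝕜 := ℝ) (E := E3) (F := E3) (p := z))
      have h7 : fderiv ℝ (fun z : E6 => sn z.1) z = _ := h6.fderiv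
      rw [h7]; rfl
    have e2 : ∃ c : ℝ, fderiv ℝ sn z.1 U.1 = ‖z.1‖⁻¹ • U.1 + c • z.1 := by
      have h8 : HasFDerivAt (fun y : E3 => ‖y‖⁻¹) (fderiv ℝ (fun y : E3 => ‖y‖⁻¹) z.1) z.1 :=
        (((contDiffAt_id.norm ℝ hz.1).inv hn).differentiableAt infty_ne_zero).hasFDerivAt
      have h9 := h8.smul (hasFDerivAt_id z.1)
      refine ⟨fderiv ℝ (fun y : E3 => ‖y‖⁻¹) z.1 U.1, ?_⟩
      have h10 : fderiv ℝ sn z.1 = _ := h9.fderiv
      rw [h10]
      simp
    obtain ⟨c, hc⟩ := e2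
    rw [e1, hc, smul_apply, map_add, map_smul, map_smul, h2]
    simp only [smul_eq_mul, mul_zero, add_zero]
    rw [← mul_assoc, mul_inv_cancel₀ hn, one_mul]

/-- a basic closed two-form with integral zero over the zero section is exact. -/
theorem exists_prim (hS : S2PRIM) (hR : RPRIM) (hr : 0 < r) {W : E6 → B6} (hW : Bas r W)
    (h0 : ∫ y : Metric.sphere (0 : E3) 1, fW W y ∂((volume : Measure E3).toSphere) = 0) :
    ∃ β : E6 → E6 →L[ℝ] ℝ, Bas1 r β ∧ ∀ z ∈ OS r, d1 β z = W z := by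
  obtain ⟨γ, g1, g2, g3, g4⟩ := hS (fW W) (hom0_fW hr hW.smooth) h0
  have hb1 : Bas1 r (fun z : E6 => (γ z.1).comp (ContinuousLinearMap.fst ℝ E3 E3)) :=
    bas1_fst g1 g2 g3
  have hd : ∀ z ∈ OS r, ∀ u v : E6, d1 (fun z : E6 => (γ z.1).comp
      (ContinuousLinearMap.fst ℝ E3 E3)) z u v = d1 γ z.1 u.1 v.1 := by
    intro z hz u v
    have hf : ∀ w : E6, fderiv ℝ (fun z : E6 => z.1) w = ContinuousLinearMap.fst ℝ E3 E3 :=
      fun w => (hasFDerivAt_fst (𝕜 := ℝ) (E := E3) (F := E3) (p := w)).fderiv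
    have h1 := d1_pullback' (s := γ)
      (t := fun z : E6 => (γ z.1).comp (ContinuousLinearMap.fst ℝ E3 E3))
      (φ := fun z : E6 => z.1) (y := z) contDiffAt_fst
      ((g1.contDiffAt (isOpen_ne.mem_nhds hz.1)).differentiableAt infty_ne_zero)
      (Eventually.of_forall fun w => by rw [hf w]) u v
    rw [h1, hf z]
    rfl
  have hW' := bas_sub hW (bas_d1 hb1)
  obtain ⟨β2, k1, k2, -, -⟩ := hR r _ hr hW' (by
    intro q u v hq hu hv
    have hmem : ((q, 0) : E6) ∈ OS r := by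
      have := TS_subset_OS r (gy_mem_TS hr (ne_of_norm hq))
      unfold gy at this
      rwa [sn_of_norm hq] at this
    show W (q, 0) (u, 0) (v, 0) - d1 _ (q, 0) (u, 0) (v, 0) = 0
    rw [hd _ hmem, g4 q u v hq hu hv]
    let w : E3 →L[ℝ] E3 →L[ℝ] ℝ := pl (ContinuousLinearMap.inl ℝ E3 E3) (W (q, 0))
    have hw : ∀ u v, W (q, 0) (u, 0) (v, 0) = w u v := by
      intro u v
      show _ = pl (ContinuousLinearMap.inl ℝ E3 E3) (W (q, 0)) u v
      rw [pl_apply]; rfl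
    have hwa : ∀ u, w u u = 0 := by
      intro u
      rw [← hw]
      exact hW.alt _ hmem _
    rw [hw, cf_spec w hwa hq hu hv]
    have h1 : fW W q = cf (fun a b => w a b) q := by
      unfold fW
      rw [sn_of_norm hq]
      congr 1
    rw [h1, sub_self])
  refine ⟨_, bas1_add hb1 k1, fun z hz => ?_⟩
  have s1 : DifferentiableAt ℝ (fun z : E6 => (γ z.1).comp (ContinuousLinearMap.fst ℝ E3 E3)) z :=
    (hb1.smooth.contDiffAt ((isOpen_OS r).mem_nhds hz)).differentiableAt infty_ne_zero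
  have s2 : DifferentiableAt ℝ β2 z :=
    (k1.smooth.contDiffAt ((isOpen_OS r).mem_nhds hz)).differentiableAt infty_ne_zero
  have h3 := fderiv_fun_add s1 s2
  refine ContinuousLinearMap.ext fun u => ContinuousLinearMap.ext fun v => ?_
  have h4 : d1 β2 z u v = W z u v - d1 (fun z : E6 => (γ z.1).comp
      (ContinuousLinearMap.fst ℝ E3 E3)) z u v := by
    rw [k2 z hz]; rfl
  rw [d1_apply, h3]
  rw [d1_apply, d1_apply] at h4
  simp only [add_apply]
  linarith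

/-! ### cutting off -/

/-- the cut-off function. -/
def ch (t s : ℝ) : ℝ := Real.smoothTransition ((t - s) / (t / 2))

lemma contDiff_ch (t : ℝ) : ContDiff ℝ ∞ (ch t) :=
  Real.smoothTransition.contDiff.comp ((contDiff_const.sub contDiff_id).div_const _)

lemma ch_one {t s : ℝ} (ht : 0 < t) (hs : s ≤ t / 2) : ch t s = 1 := by
  unfold ch
  apply Real.smoothTransition.one_of_one_le
  rw [le_div_iff₀ (by linarith)]
  linarith

lemma ch_zero {t s : ℝ} (ht : 0 < t) (hs : t ≤ s) : ch t s = 0 := by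
  unfold ch
  apply Real.smoothTransition.zero_of_nonpos
  exact div_nonpos_of_nonpos_of_nonneg (by linarith) (by linarith)

lemma bas1_cut {β : E6 → E6 →L[ℝ] ℝ} (h : Bas1 r β) {t : ℝ} (ht : 0 < t) :
    Bas1 r (fun z => ch t ‖(Pi z).2‖ • β z) where
  smooth := by
    intro z hz
    have hb : ContDiffAt ℝ ∞ β z := h.smooth.contDiffAt ((isOpen_OS r).mem_nhds hz)
    have hc : ContDiffAt ℝ ∞ (fun z => ch t ‖(Pi z).2‖) z := by
      by_cases hp : (Pi z).2 = 0
      · have h1 : (fun z => ch t ‖(Pi z).2‖) =ᶠ[𝓝 z] fun _ => 1 := by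
          have h2 : ‖(Pi z).2‖ < t / 2 := by rw [hp, norm_zero]; linarith
          filter_upwards [((contDiffAt_Pi hz.1).continuousAt.snd.norm).eventually_lt_const h2]
            with w hw
          exact ch_one ht hw.le
        exact contDiffAt_const.congr_of_eventuallyEq h1
      · exact (contDiff_ch t).contDiffAt.comp z ((contDiffAt_Pi hz.1).snd.norm ℝ hp)
    exact (hc.smul hb).contDiffWithinAt
  bas z hz U := by
    show ch t _ * β z U = ch t _ * β (Pi z) _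
    rw [h.bas z hz U, Pi_of_TS (Pi_mem_TS hz)]

section Man2

variable {M : Type u} [TopologicalSpace M] [T2Space M] [CompactSpace M]
  [ChartedSpace E4 M] [IsManifold 𝓘(ℝ, E4) ∞ M]

variable {σ : E3 → M} {Ps : E6 → M} {G : M → E6} {U : Set M}

/-- a closed form with integral zero over the sphere can be made to vanish near the sphere. -/
theorem kill (hS : S2PRIM) (hR : RPRIM) (h : Tube σ r Ps G U) (hσ : EmbS σ) {t : ℝ} (ht : 0 < t)
    (htr : t < r) (b : Z2 M) (h0 : sphI σ (b.1.1 : F2 E4 M) = 0) :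
    ∃ b' : Z2 M, cls b' = cls b ∧ ∀ x ∈ U, ‖(G x).2‖ < t / 2 → val b' x = 0 := by
  have hB := bas_P2 h b
  rw [sphI_eq h hσ _ hB.alt] at h0
  obtain ⟨β, h1, h2⟩ := exists_prim hS hR h.r_pos hB h0
  obtain ⟨a, ⟨s, hs, has⟩, -, ha⟩ := K12Ext_168.ext M σ r Ps G U h _ t htr (bas1_cut h1 ht)
    (fun z hz hzt => by
      show ch t ‖(Pi z).2‖ • β z = 0
      rw [Pi_of_TS hz, ch_zero ht hzt, zero_smul])
  refine ⟨b - a, ?_, fun x hx hxt => ?_⟩
  · rw [cls_eq]
    have e : b - a - b = -a := by abel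
    rw [e]
    refine isEx_iff.2 ⟨(-1 : ℝ) • s, hs.smul _, ?_⟩
    rw [dG_smul _ hs, ← has]
    show -(a.1.1 : F2 E4 M) = (-1 : ℝ) • (a.1.1 : F2 E4 M)
    rw [neg_smul, one_smul]
  · refine at2_zero_of_P2 h ((b - a : Z2 M).1.1 : F2 E4 M) hx ?_
    have hT := h.mapsG x hx
    have hO := TS_subset_OS r hT
    have e1 : P2 Ps ((b - a : Z2 M).1.1 : F2 E4 M) (G x) =
        P2 Ps (b.1.1 : F2 E4 M) (G x) - P2 Ps (a.1.1 : F2 E4 M) (G x) := by
      refine ContinuousLinearMap.ext fun u => ContinuousLinearMap.ext fun v => ?_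
      rfl
    rw [e1, ha _ hO, ← h2 _ hO]
    have hev : (fun z => ch t ‖(Pi z).2‖ • β z) =ᶠ[𝓝 (G x)] β := by
      have h3 : ‖(Pi (G x)).2‖ < t / 2 := by rw [Pi_of_TS hT]; exact hxt
      filter_upwards [((contDiffAt_Pi hO.1).continuousAt.snd.norm).eventually_lt_const h3]
        with w hw
      rw [ch_one ht hw.le, one_smul]
    rw [d1_congr hev, sub_self]

end Man2

end

end Crest.Agent.R235.KumThC_785
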