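import Crest.Agent.R235.KumTwM_387

/-!
# Row 235, KUM-KTW, TFORM: the connection form `T` on `M ∖ ⋃ C` from the Thom forms
-/

set_option autoImplicit false
set_option linter.unusedSectionVars false
set_option maxSynthPendingDepth 3

open Set Function Filter Topology Complex
open scoped ContDiff ComplexConjugate Matrix Manifold

universe u

namespace Crest.Agent.R235.KumTwT_387

open Crest.Agent.R240 Crest.Agent.R240.Ch Crest.Agent.R235 Crest.Agent.R235.KT_604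
  Crest.Agent.R235.Pull_129 Crest.Agent.R235.Par_387
  Crest.Agent.R235.Mono_387 Crest.Agent.R235.Loc_524 Crest.Agent.R235.KumTwM_387

noncomputable section

variable {M : Type u} [TopologicalSpace M] [ChartedSpace E4 M] [IsManifold 𝓘(ℝ, E4) ∞ M]
variable {m : ℕ}

theorem phi_smooth (K : Neck M m) (i : Fin m) {z : E4} (hz : z ∈ PB 1) :
    ContMDiffAt 𝓘(ℝ, E4) 𝓘(ℝ, E4) ∞ (K.phi i) z :=
  (K.smooth i).contMDiffAt ((isOpen_PB 1).mem_nhds hz)

theorem dL_bij (K : Neck M m) (i : Fin m) {z : E4} (hz : z ∈ PB 1) :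
    Bijective (dL (E := E4) (K.phi i) z) := by
  have hinj : Injective (dL (E := E4) (K.phi i) z) := by
    rw [injective_iff_map_eq_zero]
    intro v hv
    exact K.imm i z hz v hv
  exact ⟨hinj, LinearMap.surjective_of_injective
    (f := (dL (E := E4) (K.phi i) z : E4 →ₗ[ℝ] E4)) hinj⟩

theorem dL_neg (K : Neck M m) (i : Fin m) {z : E4} (hz : z ∈ PB 1) (u : E4) :
    dL (E := E4) (K.phi i) (-z) (-u) = dL (E := E4) (K.phi i) z u := by
  have h0 := phi_smooth K i (neg_mem_PB hz)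
  have hneg : HasFDerivAt (fun y : E4 => -y) (-(ContinuousLinearMap.id ℝ E4)) z :=
    (hasFDerivAt_id z).neg
  have h1 : dL (E := E4) (fun y => K.phi i (-y)) z =
      (dL (E := E4) (K.phi i) (-z)).comp (fderiv ℝ (fun y : E4 => -y) z) :=
    dL_comp (g := fun y : E4 => -y) h0 hneg.differentiableAt
  have h2 : (fun y => K.phi i (-y)) =ᶠ[𝓝 z] K.phi i := by
    filter_upwards [(isOpen_PB 1).mem_nhds hz] with y hy using K.even i y hy
  rw [dL_congr h2, hneg.fderiv] at h1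
  have h3 := congrArg (fun A => A u) h1
  simp only [ContinuousLinearMap.comp_apply, neg_apply, ContinuousLinearMap.id_apply] at h3
  rw [h3]

/-- the push-forward of an odd form on the punctured ball. -/
def pf (K : Neck M m) (i : Fin m) (θ : E4 → E4 →L[ℝ] ℝ) : F1 E4 M := by
  classical
  exact fun x => (if h : ∃ z, z ∈ PB 1 ∧ K.phi i z = x then
    (θ h.choose).comp (dL (E := E4) (K.phi i) h.choose).inverse else 0 : E4 →L[ℝ] ℝ)

theorem inverse_apply {A : E4 →L[ℝ] E4} (hA : Bijective A) (u : E4) : A.inverse (A u) = u := by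
  let e : E4 ≃L[ℝ] E4 := ContinuousLinearEquiv.ofBijective A
    (LinearMap.ker_eq_bot.2 hA.1) (LinearMap.range_eq_top.2 hA.2)
  have he : (e : E4 →L[ℝ] E4) = A := rfl
  rw [← he, ContinuousLinearMap.inverse_equiv]
  exact e.symm_apply_apply u

theorem pb1_pf (K : Neck M m) (i : Fin m) {θ : E4 → E4 →L[ℝ] ℝ}
    (hθ : ∀ z ∈ PB 1, θ (-z) = - θ z) {z : E4} (hz : z ∈ PB 1) :
    pb1 (K.phi i) (pf K i θ) z = θ z := by
  ext u
  have hex : ∃ w, w ∈ PB 1 ∧ K.phi i w = K.phi i z := ⟨z, hz, rfl⟩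
  have h1 : at1 (pf K i θ) (K.phi i z) =
      (θ hex.choose).comp (dL (E := E4) (K.phi i) hex.choose).inverse := by
    show (pf K i θ (K.phi i z) : E4 →L[ℝ] ℝ) = _
    unfold pf
    rw [dif_pos hex]
  rw [pb1_apply, h1, ContinuousLinearMap.comp_apply]
  rcases K.inj i _ hz _ hex.choose_spec.1 hex.choose_spec.2.symm with h | h
  · rw [h, inverse_apply (dL_bij K i hz)]
  · rw [h, ← dL_neg K i hz u, inverse_apply (dL_bij K i (neg_mem_PB hz)), hθ z hz]
    simp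

theorem pf_off (K : Neck M m) (i : Fin m) (θ : E4 → E4 →L[ℝ] ℝ) {x : M}
    (hx : ∀ z ∈ PB 1, K.phi i z ≠ x) : at1 (pf K i θ) x = 0 := by
  show (pf K i θ x : E4 →L[ℝ] ℝ) = _
  unfold pf
  rw [dif_neg]
  rintro ⟨z, hz, h⟩
  exact hx z hz h

/-- the closed half tube. -/
def ht (K : Neck M m) (i : Fin m) : Set M := K.C i ∪ K.phi i '' {z | z ≠ 0 ∧ ‖z‖ ≤ 1 / 2}

theorem isClosed_ht [T2Space M] (K : Neck M m) (i : Fin m) : IsClosed (ht K i) := by
  rw [← isOpen_compl_iff, isOpen_iff_mem_nhds]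
  intro x hx
  have hxC : x ∉ K.C i := fun h => hx (Or.inl h)
  obtain ⟨U, V, hU, hV, hxU, hCV, hd⟩ :=
    SeparatedNhds.of_isCompact_isCompact (isCompact_singleton (x := x)) (K.cpt i)
      (by simpa using hxC)
  obtain ⟨r, hr, hr1, hrV⟩ := K.shrink i V hV hCV
  have hR : IsCompact (K.phi i '' {z : E4 | r / 2 ≤ ‖z‖ ∧ ‖z‖ ≤ 1 / 2}) := by
    have h1 : IsCompact {z : E4 | r / 2 ≤ ‖z‖ ∧ ‖z‖ ≤ 1 / 2} := by
      have h2 : {z : E4 | r / 2 ≤ ‖z‖ ∧ ‖z‖ ≤ 1 / 2} =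
          Metric.closedBall 0 (1 / 2) ∩ {z : E4 | r / 2 ≤ ‖z‖} := by
        ext z
        simp only [mem_ofPred_eq, mem_inter_iff, Metric.mem_closedBall, dist_zero_right]
        tauto
      rw [h2]
      exact (isCompact_closedBall _ _).inter_right (isClosed_le continuous_const continuous_norm)
    refine h1.image_of_continuousOn fun z hz => ?_
    refine (phi_smooth K i ⟨?_, ?_⟩).continuousAt.continuousWithinAt
    · rintro rfl
      have := hz.1
      rw [norm_zero] at this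
      linarith
    · linarith [hz.2]
  have hxR : x ∉ K.phi i '' {z : E4 | r / 2 ≤ ‖z‖ ∧ ‖z‖ ≤ 1 / 2} := by
    rintro ⟨z, ⟨h1, h2⟩, rfl⟩
    refine hx (Or.inr ⟨z, ⟨?_, h2⟩, rfl⟩)
    rintro rfl
    rw [norm_zero] at h1
    linarith
  filter_upwards [hU.mem_nhds (hxU (mem_singleton x)), hR.isClosed.isOpen_compl.mem_nhds hxR]
    with y hyU hyR
  rintro (hy | ⟨z, ⟨hz0, hz⟩, rfl⟩)
  · exact (disjoint_left.1 hd hyU) (hCV hy)
  · by_cases h : ‖z‖ < r
    · exact (disjoint_left.1 hd hyU) (hrV ⟨z, ⟨hz0, h⟩, rfl⟩)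
    · exact hyR ⟨z, ⟨by linarith, hz⟩, rfl⟩

/-- a form which is zero near `x`. -/
theorem zero_near {s : F1 E4 M} {x : M} (h : ∀ᶠ y in 𝓝 x, at1 s y = 0) :
    SmAt1 s x ∧ at2 (dG s) x = 0 := by
  have h0 : s =ᶠ[𝓝 x] (0 : F1 E4 M) := h
  have h1 : SmAt1 (0 : F1 E4 M) x := smAt1_of_smooth smooth1_zero x
  refine ⟨h1.congr h0, ?_⟩
  rw [dG_congr h0]
  have h2 := dG_sub_at h1 h1
  rw [sub_self, sub_self] at h2
  exact h2

theorem pf_zero_near [T2Space M] (K : Neck M m) (i : Fin m) {θ : E4 → E4 →L[ℝ] ℝ}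
    (hθ : ∀ z ∈ PB 1, θ (-z) = - θ z) (hs : ∀ z ∈ PB 1, 1 / 2 < ‖z‖ → θ z = 0) {x : M}
    (hx : x ∉ ht K i) : ∀ᶠ y in 𝓝 x, at1 (pf K i θ) y = 0 := by
  filter_upwards [(isClosed_ht K i).isOpen_compl.mem_nhds hx] with y hy
  by_cases h : ∃ z ∈ PB 1, K.phi i z = y
  · obtain ⟨z, hz, rfl⟩ := h
    have h1 : 1 / 2 < ‖z‖ := by
      by_contra hcon
      exact hy (Or.inr ⟨z, ⟨hz.1, not_lt.1 hcon⟩, rfl⟩)
    ext v
    obtain ⟨u, rfl⟩ := (dL_bij K i hz).2 v
    rw [← pb1_apply, pb1_pf K i hθ hz, hs z hz h1]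
    rfl
  · push Not at h
    exact pf_off K i θ h

/-- smoothness and exterior derivative on the tube. -/
theorem pf_on (K : Neck M m) (i : Fin m) {θ : E4 → E4 →L[ℝ] ℝ}
    (hθ : ∀ z ∈ PB 1, θ (-z) = - θ z) (hsm : ∀ z ∈ PB 1, ContDiffAt ℝ ∞ θ z) {z : E4}
    (hz : z ∈ PB 1) : SmAt1 (pf K i θ) (K.phi i z) ∧
      ∀ u v, at2 (dG (pf K i θ)) (K.phi i z) (dL (E := E4) (K.phi i) z u)
        (dL (E := E4) (K.phi i) z v) = d1 θ z u v := by
  have hev : pb1 (K.phi i) (pf K i θ) =ᶠ[𝓝 z] θ := by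
    filter_upwards [(isOpen_PB 1).mem_nhds hz] with y hy using pb1_pf K i hθ hy
  have hx := mem_chart_source E4 (K.phi i z)
  have h1 : SmAt1 (pf K i θ) (K.phi i z) :=
    rep1_contDiffAt (isOpen_PB 1) (K.smooth i) (fun w hw => dL_bij K i hw) hz hx
      ((hsm z hz).congr_of_eventuallyEq hev)
  refine ⟨h1, fun u v => ?_⟩
  have h0 := phi_smooth K i hz
  have h2 : d1 (pb1 (K.phi i) (pf K i θ)) z u v = pb2 (K.phi i) (dG (pf K i θ)) z u v := by
    rw [d1_pull (inC_contDiffAt h0 hx) (SmAt1.chart h1 hx |>.differentiableAt (by simp))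
      (pb1_chart_ev (isOpen_PB 1) (K.smooth i) hz hx _), pb2_chart h0 hx]
    have h3 : rep (K.phi i z) (dG (pf K i θ)) (inC (K.phi i z) (K.phi i) z) =
        d1 (rep1 (K.phi i z) (pf K i θ)) (inC (K.phi i z) (K.phi i) z) := rep_dG_at' hx h1
    rw [h3]
  rw [pb2_apply] at h2
  rw [← h2, d1_apply, d1_apply, hev.fderiv_eq]

/-! ### the connection form `θ` -/

/-- `qi` as a linear map -/
def qiL : E4 →ₗ[ℝ] E4 where
  toFun := qi
  map_add' := KumTwB_303.qi_add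
  map_smul' := KumTwB_303.qi_smul

theorem smooth_qi : ContDiff ℝ ∞ qi := qiL.toContinuousLinearMap.contDiff

theorem thL_neg (z : E4) : thL (-z) = - thL z := by
  unfold thL
  have h : qi (-z) = - qi z := by
    have := KumTwB_303.qi_smul (-1) z
    simpa using this
  rw [norm_neg, h, map_neg, smul_neg]

theorem smooth_thL {z : E4} (hz : z ≠ 0) : ContDiffAt ℝ ∞ thL z := by
  have h1 : ContDiffAt ℝ ∞ (fun z : E4 => 2 / ‖z‖ ^ 2) z :=
    contDiffAt_const.div (contDiff_norm_sq ℝ).contDiffAt (by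
      have := norm_pos_iff.2 hz
      positivity)
  have h2 : ContDiffAt ℝ ∞ (fun z : E4 => innerSL ℝ (qi z)) z :=
    ((innerSL ℝ : E4 →L[ℝ] _).contDiff.comp smooth_qi).contDiffAt
  exact h1.smul h2

/-- the form `f(|z|²) θ` -/
def fth (f : ℝ → ℝ) (y : E4) : E4 →L[ℝ] ℝ := f (‖y‖ ^ 2) • thL y

theorem fth_neg (f : ℝ → ℝ) (z : E4) : fth f (-z) = - fth f z := by
  unfold fth
  rw [norm_neg, thL_neg, smul_neg]

theorem smooth_fth {f : ℝ → ℝ} (hf : ContDiff ℝ ∞ f) {z : E4} (hz : z ≠ 0) :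
    ContDiffAt ℝ ∞ (fth f) z :=
  ((hf.comp (contDiff_norm_sq ℝ)).contDiffAt).smul (smooth_thL hz)

section Closed

variable [T2Space M] [CompactSpace M]

/-- the primitive of the Thom form off the removed sphere -/
theorem thom_prim {K : Neck M m} {i : Fin m} {d : H2 M} {Th : Z2 M} (h : IsThom K i d Th) :
    ∃ (τ : F1 E4 M) (r : ℝ), 0 < r ∧ r ≤ 1 ∧
      (∀ x, x ∉ K.C i → SmAt1 τ x ∧ at2 (dG τ) x = val Th x) ∧
      (∀ z ∈ PB r, ∀ v, pb1 (K.phi i) τ z v = -1 / (2 * Real.pi) * thL z v) ∧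
      ∀ x, (∀ z ∈ PB 1, K.phi i z ≠ x) → at1 τ x = 0 := by
  obtain ⟨-, hsupp, f, hf, ⟨r₀, hr₀, hfr⟩, hf0, hpull⟩ := h
  have hodd : ∀ z ∈ PB 1, fth f (-z) = - fth f z := fun z _ => fth_neg f z
  have hsm : ∀ z ∈ PB 1, ContDiffAt ℝ ∞ (fth f) z := fun z hz => smooth_fth hf hz.1
  have hzero : ∀ z ∈ PB 1, 1 / 2 < ‖z‖ → fth f z = 0 := by
    intro z _ hz
    unfold fth
    rw [hf0 _ (by nlinarith [norm_nonneg z]), zero_smul]
  refine ⟨pf K i (fth f), min 1 (min r₀ 1), by positivity, min_le_left _ _, ?_, ?_, ?_⟩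
  · intro x hx
    by_cases hex : ∃ z ∈ PB 1, K.phi i z = x
    · obtain ⟨z, hz, rfl⟩ := hex
      obtain ⟨h1, h2⟩ := pf_on K i hodd hsm hz
      refine ⟨h1, ?_⟩
      ext u v
      obtain ⟨u, rfl⟩ := (dL_bij K i hz).2 u
      obtain ⟨v, rfl⟩ := (dL_bij K i hz).2 v
      rw [h2]
      exact (hpull z hz u v).symm
    · push Not at hex
      have hxt : x ∉ ht K i := by
        rintro (h | ⟨z, ⟨hz0, hz⟩, rfl⟩)
        · exact hx h
        · exact hex z ⟨hz0, by linarith⟩ rfl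
      obtain ⟨h1, h2⟩ := zero_near (pf_zero_near K i hodd hzero hxt)
      refine ⟨h1, ?_⟩
      rw [h2, hsupp x hx (fun z hz h => hex z ⟨hz.1, by linarith [hz.2]⟩ h.symm)]
  · intro z hz v
    have hz1 : z ∈ PB 1 := ⟨hz.1, hz.2.trans_le (min_le_left _ _)⟩
    rw [pb1_pf K i hodd hz1]
    have h1 : ‖z‖ ^ 2 < r₀ := by
      have h2 : ‖z‖ < r₀ := hz.2.trans_le ((min_le_right _ _).trans (min_le_left _ _))
      have h3 : ‖z‖ < 1 := hz1.2
      nlinarith [norm_nonneg z]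
    unfold fth
    rw [hfr _ h1]
    rfl
  · intro x hx
    exact pf_off K i _ hx

theorem smAt1_sum {ι : Type*} (s : Finset ι) {t : ι → F1 E4 M} {x : M}
    (h : ∀ i ∈ s, SmAt1 (t i) x) : SmAt1 (∑ i ∈ s, t i) x ∧
      at2 (dG (∑ i ∈ s, t i)) x = ∑ i ∈ s, at2 (dG (t i)) x := by
  classical
  induction s using Finset.induction_on with
  | empty =>
    simp only [Finset.sum_empty]
    exact zero_near (Filter.Eventually.of_forall fun _ => rfl)
  | insert a s ha ih =>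
    obtain ⟨h1, h2⟩ := ih fun i hi => h i (Finset.mem_insert_of_mem hi)
    have h3 := h a (Finset.mem_insert_self a s)
    rw [Finset.sum_insert ha, Finset.sum_insert ha]
    refine ⟨h3.add h1, ?_⟩
    have h4 : SmAt1 ((-1 : ℝ) • ∑ i ∈ s, t i) x := h1.smul (-1)
    have h5 : t a + ∑ i ∈ s, t i = t a - (0 - ∑ i ∈ s, t i) := by rw [zero_sub, sub_neg_eq_add]
    have h0 := zero_near (s := (0 : F1 E4 M)) (x := x) (Filter.Eventually.of_forall fun _ => rfl)
    rw [h5, dG_sub_at h3 (h0.1.sub h1), dG_sub_at h0.1 h1, h0.2, h2]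
    simp

theorem dG_smul_at {s : F1 E4 M} {x : M} (c : ℝ) (hs : SmAt1 s x) :
    at2 (dG (c • s)) x = c • at2 (dG s) x := by
  have hd := ContDiffAt.differentiableAt hs infty_ne_zero
  show d1 (fun y => c • rep1 x s y) (chartAt E4 x x) = c • d1 (rep1 x s) (chartAt E4 x x)
  ext u v
  simp only [d1_apply, smul_apply]
  rw [fderiv_fun_const_smul hd]
  simp only [smul_apply, smul_eq_mul]
  ring

/-- **TFORM**: the potential of minus the Chern form on `M ∖ ⋃ C`. -/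
theorem tform {K : Neck M m} {d : Fin m → H2 M} (hN : NeckT K d) (I : Finset (Fin m)) {a : Z2 M}
    (ha : cls a = ((1 : ℝ) / 2) • ∑ i ∈ I, d i) :
    ∃ (T A₀ : F1 E4 M) (r : ℝ), 0 < r ∧ r ≤ 1 ∧ Smooth1 A₀ ∧
      (∀ x, (∀ i, x ∉ K.C i) → SmAt1 T x ∧ at2 (dG T) x = - val a x) ∧
      ∀ i, ∀ z ∈ PB r, ∀ v, pb1 (K.phi i) T z v = pb1 (K.phi i) A₀ z v +
        (if i ∈ I then (1 : ℝ) else 0) / (4 * Real.pi) * thL z v := by
  classical
  choose Th hTh using hN.thom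
  choose τ r hr hr1 hτ hτz hτ0 using fun i => thom_prim (hTh i)
  -- the exact form
  have hcls : cls (a - ((1 : ℝ) / 2) • ∑ i ∈ I, Th i) = 0 := by
    rw [map_sub, map_smul, map_sum, ha]
    have : ∀ i ∈ I, cls (Th i) = d i := fun i _ => (hTh i).1
    rw [Finset.sum_congr rfl this, sub_self]
  have hmem : a - ((1 : ℝ) / 2) • ∑ i ∈ I, Th i ∈ B2 M := by
    unfold cls at hcls
    rwa [Submodule.mkQ_apply, Submodule.Quotient.mk_eq_zero] at hcls
  obtain ⟨s₀, hs₀, hs₀e⟩ := isEx_iff.1 (show IsEx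
    ((a - ((1 : ℝ) / 2) • ∑ i ∈ I, Th i).1.1 : F2 E4 M) from hmem)
  have hval : ∀ x, at2 (dG s₀) x = val a x - ((1 : ℝ) / 2) • ∑ i ∈ I, val (Th i) x := by
    intro x
    rw [← hs₀e]
    have h1 : ∀ (J : Finset (Fin m)), val (∑ i ∈ J, Th i) x = ∑ i ∈ J, val (Th i) x := by
      intro J
      induction J using Finset.induction_on with
      | empty => simp only [Finset.sum_empty]; rfl
      | insert b J hb ih =>
        rw [Finset.sum_insert hb, Finset.sum_insert hb, ← ih]; rfl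
    rw [← h1]
    rfl
  let ρ : ℝ := if h : (Finset.univ : Finset (Fin m)).Nonempty then Finset.univ.inf' h r else 1
  have hρ : 0 < ρ ∧ ρ ≤ 1 ∧ ∀ i, ρ ≤ r i := by
    by_cases h : (Finset.univ : Finset (Fin m)).Nonempty
    · have e : ρ = Finset.univ.inf' h r := dif_pos h
      have h2 : ∀ i, ρ ≤ r i := fun i => by rw [e]; exact Finset.inf'_le r (Finset.mem_univ i)
      refine ⟨?_, ?_, h2⟩
      · rw [e, Finset.lt_inf'_iff]; exact fun i _ => hr i
      · obtain ⟨i, _⟩ := h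
        exact (h2 i).trans (hr1 i)
    · have e : ρ = 1 := dif_neg h
      refine ⟨by rw [e]; exact one_pos, e.le, fun i => absurd ⟨i, Finset.mem_univ i⟩ h⟩
  refine ⟨(-1 : ℝ) • s₀ - ((1 : ℝ) / 2) • ∑ i ∈ I, τ i, (-1 : ℝ) • s₀, ρ, hρ.1, hρ.2.1,
    hs₀.smul _, ?_, ?_⟩
  · intro x hx
    have h1 : SmAt1 s₀ x := smAt1_of_smooth hs₀ x
    obtain ⟨h2, h3⟩ := smAt1_sum I (t := τ) (x := x) fun i _ => (hτ i x (hx i)).1
    refine ⟨(h1.smul _).sub (h2.smul _), ?_⟩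
    rw [dG_sub_at (h1.smul _) (h2.smul _), dG_smul_at _ h1, dG_smul_at _ h2, h3, hval,
      Finset.sum_congr rfl fun i _ => (hτ i x (hx i)).2]
    module
  · intro i z hz v
    have hz1 : z ∈ PB 1 := ⟨hz.1, hz.2.trans_le hρ.2.1⟩
    have hzi : z ∈ PB (r i) := ⟨hz.1, hz.2.trans_le (hρ.2.2 i)⟩
    have h1 : ∀ J : Finset (Fin m), pb1 (K.phi i) (∑ j ∈ J, τ j) z v =
        ∑ j ∈ J, pb1 (K.phi i) (τ j) z v := by
      intro J
      induction J using Finset.induction_on with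
      | empty => simp only [Finset.sum_empty]; rfl
      | insert b J hb ih =>
        rw [Finset.sum_insert hb, Finset.sum_insert hb, ← ih]; rfl
    have h2 : ∀ j, pb1 (K.phi i) (τ j) z v =
        if j = i then -1 / (2 * Real.pi) * thL z v else 0 := by
      intro j
      split_ifs with h
      · subst h; exact hτz j z hzi v
      · rw [pb1_apply, hτ0 j _ (fun w hw => K.sep j i h w hw z hz1)]
        rfl
    have h3 : pb1 (K.phi i) ((-1 : ℝ) • s₀ - ((1 : ℝ) / 2) • ∑ j ∈ I, τ j) z v =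
        pb1 (K.phi i) ((-1 : ℝ) • s₀) z v - (1 / 2) * pb1 (K.phi i) (∑ j ∈ I, τ j) z v := rfl
    rw [h3, h1, Finset.sum_congr rfl fun j _ => h2 j, Finset.sum_ite_eq']
    split_ifs
    · have := Real.pi_ne_zero
      field_simp
      ring
    · simp

end Closed

end

end Crest.Agent.R235.KumTwT_387
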