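import Crest.Agent.R235.Br281f_819
import Crest.Agent.R235.Top_837

/-!
# R235, BRIDGE 281 (helper819), Y2: a triple whose third form is orthogonal to a normalised pair is
joined, inside its classes, to a hyperkaehler triple (Yau)

* `inv_of_orth` : `w` positive, `J` its structure, `w 0` pointwise orthogonal to `w 1`, `w 2`
  ==> `w 0` is `J`-invariant
* `y2` : `EXJ ==> ( W11 = W22, W12 = W01 = W02 = 0 ==> exists a', cls a' = cls (w 0),
  Seg w (update w 0 a'), HK (update w 0 a') )`
-/

set_option autoImplicit false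
set_option maxSynthPendingDepth 3

open Set Filter Topology Function
open scoped Manifold ContDiff

namespace Crest.Agent.R235.Y2_819

open Crest.Agent.R240 Crest.Agent.R240.Ch Crest.Agent.R235 Crest.Agent.R235.Br281_819
open Crest.Agent.R235.Br281d_819 Crest.Agent.R235.Br281e_819 Crest.Agent.R235.Br281f_819

noncomputable section

section Pointwise

variable {J : E4 →L[ℝ] E4} {F b c : Bil}

/-- an anti-invariant form orthogonal to a nondegenerate anti-invariant plane vanishes -/
theorem anti_zero {A : E4 ≃L[ℝ] E4} (hA : ∀ v, J (A v) = A (J0 v)) (hF : Alt F) (hb : Alt b)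
    (hc : Alt c) (aF : ∀ u v, F (J u) (J v) = - F u v) (ab : ∀ u v, b (J u) (J v) = - b u v)
    (ac : ∀ u v, c (J u) (J v) = - c u v)
    (hpair : ∀ r s : ℝ, (r ≠ 0 ∨ s ≠ 0) → W (r • b + s • c) (r • b + s • c) ≠ 0)
    (h1 : W F b = 0) (h2 : W F c = 0) : F = 0 := by
  have e1 := W_anti hA hF hb aF ab
  have e2 := W_anti hA hF hc aF ac
  have e3 := W_anti hA hF hF aF aF
  obtain ⟨f1, f2, f3, f4⟩ := anti_ent hA hF aF
  rw [h1, mul_zero] at e1
  rw [h2, mul_zero] at e2
  set p := ent (pull (A : E4 →L[ℝ] E4) F) 0 2 with hp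
  set q := ent (pull (A : E4 →L[ℝ] E4) F) 0 3 with hq
  set p1 := ent (pull (A : E4 →L[ℝ] E4) b) 0 2 with hp1
  set q1 := ent (pull (A : E4 →L[ℝ] E4) b) 0 3 with hq1
  set p2 := ent (pull (A : E4 →L[ℝ] E4) c) 0 2 with hp2
  set q2 := ent (pull (A : E4 →L[ℝ] E4) c) 0 3 with hq2
  -- the coefficients of the pair are independent
  have hind : p1 * q2 - q1 * p2 ≠ 0 := by
    intro h0
    -- a combination with vanishing square
    have key : ∀ r s : ℝ, r * p1 + s * p2 = 0 → r * q1 + s * q2 = 0 → r = 0 ∧ s = 0 := by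
      intro r s g1 g2
      by_contra hrs
      have hrs' : r ≠ 0 ∨ s ≠ 0 := by
        by_contra h
        push Not at h
        exact hrs h
      apply hpair r s hrs'
      have hcb : Alt (r • b + s • c) := fun u => by
        show r • b u u + s • c u u = 0
        rw [hb u, hc u, smul_zero, smul_zero, add_zero]
      have acb : ∀ u v, (r • b + s • c) (J u) (J v) = - (r • b + s • c) u v := by
        intro u v
        show r • b _ _ + s • c _ _ = - (r • b u v + s • c u v)
        rw [ab, ac, smul_neg, smul_neg]; ring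
      have e4 := W_anti hA hcb hcb acb acb
      have k1 : ent (pull (A : E4 →L[ℝ] E4) (r • b + s • c)) 0 2 = r * p1 + s * p2 := by
        rw [hp1, hp2]; simp [ent, pull_apply]
      have k2 : ent (pull (A : E4 →L[ℝ] E4) (r • b + s • c)) 0 3 = r * q1 + s * q2 := by
        rw [hq1, hq2]; simp [ent, pull_apply]
      rw [k1, k2, g1, g2, mul_zero, add_zero, mul_zero] at e4
      exact (mul_eq_zero.1 e4).resolve_left (Br281d_819.det_ne A)
    have g := key p2 (-p1) (by ring) (by linarith)
    have g' := key q2 (-q1) (by linarith) (by ring)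
    have p10 : p1 = 0 := by linarith [g.2]
    have q10 : q1 = 0 := by linarith [g'.2]
    have := key 1 0 (by rw [p10]; ring) (by rw [q10]; ring)
    exact one_ne_zero this.1
  have k1 : p * p1 + q * q1 = 0 := by linarith
  have k2 : p * p2 + q * q2 = 0 := by linarith
  have hp0 : p = 0 := by
    have : p * (p1 * q2 - q1 * p2) = 0 := by linear_combination q2 * k1 - q1 * k2
    exact (mul_eq_zero.1 this).resolve_right hind
  have hq0 : q = 0 := by
    have : q * (p1 * q2 - q1 * p2) = 0 := by linear_combination p1 * k2 - p2 * k1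
    exact (mul_eq_zero.1 this).resolve_right hind
  -- all entries of the pull-back vanish
  have hz : pull (A : E4 →L[ℝ] E4) F = 0 := by
    have hal : Alt (pull (A : E4 →L[ℝ] E4) F) := hF.pull A
    have hN : N0 (pull (A : E4 →L[ℝ] E4) F) = 0 := by
      unfold N0
      rw [f1, f2, f3, f4, ← hp, ← hq, hp0, hq0]
      norm_num
    have := norm_sq_le_N0 hal
    rw [hN] at this
    have h0 : ‖pull (A : E4 →L[ℝ] E4) F‖ = 0 := by
      have := sq_nonneg ‖pull (A : E4 →L[ℝ] E4) F‖
      exact pow_eq_zero_iff (two_ne_zero) |>.1 (le_antisymm ‹_› this)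
    exact norm_eq_zero.1 h0
  ext u v
  have := congrArg (fun G : Bil => G (A.symm u) (A.symm v)) hz
  simpa [pull_apply] using this

end Pointwise

variable {M : Type} [TopologicalSpace M] [ChartedSpace E4 M] [IsManifold 𝓘(ℝ, E4) ∞ M]

/-- `w 0` is `J`-invariant if it is pointwise orthogonal to the pair -/
theorem inv_of_orth {w : Trip M} {J : EndF E4 M} (hw : Pos3 w) (hJ : IsJ w J)
    (h01 : ∀ x, W (val (w 0) x) (val (w 1) x) = 0) (h02 : ∀ x, W (val (w 0) x) (val (w 2) x) = 0) :
    JInv J (w 0) := by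
  intro x
  have hS := inv_spos (hJ.sq x) (alt_val (w 0) x) (hJ.tame x)
  obtain ⟨A, hA⟩ := exists_frame (hJ.sq x) hS
  have hne : W (invp (atJ J x) (val (w 0) x)) (invp (atJ J x) (val (w 0) x)) ≠ 0 :=
    hA.W_ne hS.alt
  have hz : antip (atJ J x) (val (w 0) x) = 0 := by
    have halt : Alt (antip (atJ J x) (val (w 0) x)) := (alt_val (w 0) x).antip _
    have hant := antip_anti (hJ.sq x) (val (w 0) x)
    have hsp : ∀ b : Bil, W (val (w 0) x) b =
        W (invp (atJ J x) (val (w 0) x)) b + W (antip (atJ J x) (val (w 0) x)) b := by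
      intro b
      rw [← W_add_left, invp_add_antip]
    have k1 : W (antip (atJ J x) (val (w 0) x)) (val (w 1) x) = 0 := by
      have e := hsp (val (w 1) x)
      rw [h01, W_inv_anti hS.alt (alt_val _ x) hS.inv (hJ.anti1 x) hne, zero_add] at e
      exact e.symm
    have k2 : W (antip (atJ J x) (val (w 0) x)) (val (w 2) x) = 0 := by
      have e := hsp (val (w 2) x)
      rw [h02, W_inv_anti hS.alt (alt_val _ x) hS.inv (hJ.anti2 x) hne, zero_add] at e
      exact e.symm
    refine anti_zero hA.cplx halt (alt_val (w 1) x) (alt_val (w 2) x) hant (hJ.anti1 x)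
      (hJ.anti2 x) ?_ k1 k2
    intro r s hrs
    have h := hw x ![0, r, s] (by
      intro h
      have h1 : r = 0 := by simpa using congrFun h 1
      have h2 : s = 0 := by simpa using congrFun h 2
      rcases hrs with hr | hs
      · exact hr h1
      · exact hs h2)
    rw [Fin.sum_univ_three] at h
    simpa using h
  intro u v
  have h1 : val (w 0) x = invp (atJ J x) (val (w 0) x) := by
    conv_lhs => rw [← invp_add_antip (atJ J x) (val (w 0) x), hz, add_zero]
  rw [h1]
  exact hS.inv u v

variable [T2Space M] [CompactSpace M] [ConnectedSpace M]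

/-- Y2, given the structure `J`: the pair is normalised, `a` is Kaehler for `J` -/
theorem y2J {w : Trip M} {J : EndF E4 M} (hw : Pos3 w) (hJ : IsJ w J)
    (h11 : ∀ x, W (val (w 1) x) (val (w 1) x) = W (val (w 2) x) (val (w 2) x))
    (h12 : ∀ x, W (val (w 1) x) (val (w 2) x) = 0)
    {a : Z2 M} (hi : JInv J a) (hp : JPos J a) :
    ∃ a' : Z2 M, cls a' = cls a ∧ JInv J a' ∧ JPos J a' ∧ Seg w (update w 0 a') ∧
      HK (update w 0 a') ∧ IsJ (update w 0 a') J := by
  have hF : SmoothF E4 (fun _ : M => (0 : ℝ)) := fun p => contDiffOn_const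
  obtain ⟨a', c, hc, ht, hpo, hW, h1, h2⟩ := yau hJ h11 h12 (fun x => Pos3.ne w hw 1 x) hi hp hF
  have ha' : Tame J a' := hpo
  refine ⟨a', hc, ht, hpo, seg_of_isJ hw hJ ha', ?_, isJ_update hJ ha'⟩
  refine ⟨_, posDef_block (Matrix.PosDef.one (n := Fin 3) (R := ℝ)) (Real.exp_pos c), fun x => ?_⟩
  set s := W (val (w 1) x) (val (w 1) x) with hs
  have u0 : (update w 0 a') 0 = a' := update_self _ _ _
  have ui : ∀ i : Fin 3, i ≠ 0 → (update w 0 a') i = w i := fun i hi => update_of_ne hi _ _
  have hz : ∀ i : Fin 3, i ≠ 0 → W (val a' x) (val (w i) x) = 0 := by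
    intro i hi
    fin_cases i
    · exact absurd rfl hi
    · exact h1 x
    · exact h2 x
  have hp : ∀ i j : Fin 3, i ≠ 0 → j ≠ 0 → W (val (w i) x) (val (w j) x) =
      s * (1 : Matrix (Fin 3) (Fin 3) ℝ) i j := by
    intro i j hi hj
    fin_cases i <;> fin_cases j
    · exact absurd rfl hi
    · exact absurd rfl hi
    · exact absurd rfl hi
    · exact absurd rfl hj
    · rw [Matrix.one_apply, if_pos rfl, mul_one]; exact hs.symm
    · rw [Matrix.one_apply, if_neg (by decide), mul_zero]; exact h12 x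
    · exact absurd rfl hj
    · rw [Matrix.one_apply, if_neg (by decide), mul_zero, W_comm]; exact h12 x
    · rw [Matrix.one_apply, if_pos rfl, mul_one]
      exact (h11 x).symm
  refine ⟨s, fun i j => ?_⟩
  by_cases hi : i = 0
  · subst hi
    by_cases hj : j = 0
    · subst hj
      rw [u0, hW x, zero_add, Matrix.of_apply, if_pos rfl, if_pos rfl, mul_comm]
    · rw [u0, ui j hj, hz j hj, Matrix.of_apply, if_pos rfl, if_neg hj, mul_zero]
  · by_cases hj : j = 0
    · subst hj
      rw [u0, ui i hi, W_comm, hz i hi, Matrix.of_apply, if_neg hi, if_pos rfl, mul_zero]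
    · rw [ui i hi, ui j hj, hp i j hi hj, Matrix.of_apply, if_neg hi, if_neg hj]

/-- **Y2** -/
theorem y2 (hE : EXJ.{0}) {w : Trip M} (hw : Pos3 w)
    (h11 : ∀ x, W (val (w 1) x) (val (w 1) x) = W (val (w 2) x) (val (w 2) x))
    (h12 : ∀ x, W (val (w 1) x) (val (w 2) x) = 0)
    (h01 : ∀ x, W (val (w 0) x) (val (w 1) x) = 0) (h02 : ∀ x, W (val (w 0) x) (val (w 2) x) = 0) :
    ∃ a' : Z2 M, cls a' = cls (w 0) ∧ Seg w (update w 0 a') ∧ HK (update w 0 a') := by
  obtain ⟨J, hJ⟩ := hE M w hw
  obtain ⟨a', hc, -, -, hs, hk, -⟩ :=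
    y2J hw hJ h11 h12 (inv_of_orth hw hJ h01 h02) (fun x v hv => hJ.tame x v hv)
  exact ⟨a', hc, hs, hk⟩

end

end Crest.Agent.R235.Y2_819
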