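import Crest.Agent.R235.KumDefs_152
import Crest.Agent.R235.Y2_819

/-!
Row 235 (S0364), PACKAGE KUM (helper152): `YAUK.{0}` from `EXJ.{0}` (helper819's `y2`).
-/

set_option autoImplicit false
set_option maxSynthPendingDepth 3

open Set Function Filter MeasureTheory
open scoped Manifold ContDiff Topology

namespace Crest.Agent.R235.KumYau_152

open Crest.Agent.R240 Crest.Agent.R240.Ch Crest.Agent.R235

noncomputable section

/-- YAUK from `EXJ` (helper819). -/
theorem yauk (hE : EXJ.{0}) : YAUK.{0} := by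
  intro M _ _ _ _ _ _ w hw h
  obtain ⟨a', -, hs, hk⟩ := Y2_819.y2 hE hw (fun x => (h x).1) (fun x => (h x).2.1)
    (fun x => (h x).2.2.1) (fun x => (h x).2.2.2)
  exact ⟨_, hs, hk⟩

end

end Crest.Agent.R235.KumYau_152
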