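import Crest.Agent.R235.Cpt_755
import Crest.Agent.R235.Dns_433
import Crest.Agent.R235.W12b_109

/-!
# Row 235, SW-FS (helper433): smooth matrix multipliers on `W^{1,2}(E)`, the `L⁴` calculus

`A A' : AD S κ`, `m : κ → κ → X → ℝ` test functions (bounded), `p' m = m`:
* `mulW : A.WE →L[ℝ] A'.WE`, `i1_mulW : A'.i1 (mulW w) = matF m (A.i1 w)`, `mulW_D` (gradient);
* `mulW_secW` : on smooth sections it is the smooth section `m u`.
`j : W →L[ℝ] HH μ κ` with `Emb4 j` (755):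
* `e4 h a : W →L[ℝ] Lp ℝ 4 μ`, `coe_e4`;  `p42 μ : L⁴ →L L⁴ →L L²`, `coe_p42` (the product);
* `nab4` : `(nab4 α u)_y = ∑_{A y'} (α_A u_{y'}) • c A y y'` in `GG F μ κ'`, jointly continuous.
-/

set_option autoImplicit false
set_option linter.unusedSectionVars false
set_option maxSynthPendingDepth 3
open scoped ContDiff ENNReal NNReal Topology Manifold Bundle RealInnerProductSpace
open MeasureTheory Set Filter Metric Bundle

noncomputable section
namespace Crest.Agent.R235.L4_433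

open Crest.Agent.R247.Dir593 Crest.Agent.R247.Ms322 Crest.Agent.R247.Frd657
open Crest.Agent.R249.Tv57 Crest.Agent.R235.Dens_433 Crest.Agent.R235.Fs4_546
open Crest.Agent.R235.CptC_755 Crest.Agent.R235.Cpt_755
open Crest.Agent.R247.Dir593.GradS

/-! ### smooth multipliers -/

section mul

variable {X : Type*} [MetricSpace X] [MeasurableSpace X] [BorelSpace X] {F : Type*}
  [NormedAddCommGroup F] [InnerProductSpace ℝ F] {μ : Measure X} [IsFiniteMeasureOnCompacts μ]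
  {S : GradS X F μ} {κ : Type} [Fintype κ]

theorem mulF_mem {p : X → ℝ} (hp : BM μ p) (hT : IsT p) {u : Lp ℝ 2 μ} (hu : u ∈ S.V) :
    mulF hp u ∈ S.V ∧ (S.D (mulF hp u) : X → F) =ᵐ[μ] fun x => p x • S.D u x + u x • S.G p x :=
  S.D_mul_test hu hT (by
    filter_upwards [coe_mulF hp u] with x hx
    rw [hx, smul_eq_mul, mul_comm])

theorem matF_mem {m : κ → κ → X → ℝ} (hm : ∀ a b, BM μ (m a b)) (hT : ∀ a b, IsT (m a b))
    {u : HH μ κ} (hu : ∀ b, u b ∈ S.V) (a : κ) : (matF hm u) a ∈ S.V ∧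
      ∀ᵐ x ∂μ, (S.D (matF hm u a) : X → F) x =
        ∑ b, (m a b x • S.D (u b) x + u b x • S.G (m a b) x) := by
  have h1 : ∀ b, mulF (hm a b) (u b) ∈ S.V ∧ (S.D (mulF (hm a b) (u b)) : X → F) =ᵐ[μ]
      fun x => m a b x • S.D (u b) x + u b x • S.G (m a b) x := fun b => mulF_mem (hm a b) (hT a b) (hu b)
  have h2 : matF hm u a = ∑ b, mulF (hm a b) (u b) := matF_apply hm u a
  have h3 : ∀ s : Finset κ, (∑ b ∈ s, mulF (hm a b) (u b)) ∈ S.V ∧
      S.D (∑ b ∈ s, mulF (hm a b) (u b)) = ∑ b ∈ s, S.D (mulF (hm a b) (u b)) := by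
    classical
    intro s
    induction s using Finset.induction_on with
    | empty => exact ⟨by simp, by simpa using S.D_zero⟩
    | insert b t hb ih =>
      rw [Finset.sum_insert hb, Finset.sum_insert hb]
      exact ⟨S.V.add_mem (h1 b).1 ih.1, by rw [S.D_add (h1 b).1 ih.1, ih.2]⟩
  rw [h2]
  refine ⟨(h3 Finset.univ).1, ?_⟩
  rw [(h3 Finset.univ).2]
  have h4 : ∀ᵐ x ∂μ, ∀ b, (S.D (mulF (hm a b) (u b)) : X → F) x =
      m a b x • S.D (u b) x + u b x • S.G (m a b) x := ae_all_iff.2 fun b => (h1 b).2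
  filter_upwards [h4, Lp.coeFn_fun_finsetSum Finset.univ (fun b => S.D (mulF (hm a b) (u b)))]
    with x e1 e2
  rw [e2]
  exact Finset.sum_congr rfl fun b _ => e1 b

variable (A A' : AD S κ) {m : κ → κ → X → ℝ} (hm : ∀ a b, BM μ (m a b))
  (hT : ∀ a b, IsT (m a b)) (hp : ∀ a b x, ∑ c, A'.p a c x * m c b x = m a b x)

include hp in
theorem P_matF (u : HH μ κ) : A'.P (matF hm u) = matF hm u := by
  ext a
  filter_upwards [A'.coe_P (matF hm u), coe_matF hm u] with x e1 e2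
  rw [e1 a, e2 a]
  simp only [e2, smul_eq_mul, Finset.mul_sum]
  rw [Finset.sum_comm]
  refine Finset.sum_congr rfl fun b _ => ?_
  rw [← hp a b x, Finset.mul_sum]
  exact Finset.sum_congr rfl fun c _ => by ring

/-- the multiplier, as a linear map -/
def mulWl : A.WE →ₗ[ℝ] A'.WE where
  toFun w := A'.mkW (matF hm (A.i1 w))
    (fun a => (matF_mem hm hT (fun b => S.mem_V.2 ⟨_, w.2.1 b⟩) a).1) (P_matF A' hm hp _)
  map_add' u v := A'.jj_injective (Subtype.ext (by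
    show matF hm (A.i1 (u + v)) = matF hm (A.i1 u) + matF hm (A.i1 v)
    rw [map_add, map_add]))
  map_smul' c u := A'.jj_injective (Subtype.ext (by
    show matF hm (A.i1 (c • u)) = c • matF hm (A.i1 u)
    rw [map_smul, map_smul]))

theorem i1_mulWl (w : A.WE) : A'.i1 (mulWl A A' hm hT hp w) = matF hm (A.i1 w) := rfl

/-- **smooth matrix multipliers act on `W^{1,2}(E)`** -/
def mulW [CompleteSpace F] : A.WE →L[ℝ] A'.WE where
  toLinearMap := mulWl A A' hm hT hp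
  cont := by
    refine LinearMap.continuous_of_seq_closed_graph _ fun u x y hu hy => ?_
    refine i1_injective A' ?_
    rw [i1_mulWl]
    have h1 : Tendsto (fun n => A'.i1 (mulWl A A' hm hT hp (u n))) atTop (𝓝 (A'.i1 y)) :=
      (A'.i1.continuous.tendsto _).comp hy
    have h2 : Tendsto (fun n => A'.i1 (mulWl A A' hm hT hp (u n))) atTop
        (𝓝 (matF hm (A.i1 x))) := by
      simp only [i1_mulWl]
      exact ((matF hm).continuous.tendsto _).comp ((A.i1.continuous.tendsto _).comp hu)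
    exact tendsto_nhds_unique h1 h2

theorem i1_mulW [CompleteSpace F] (w : A.WE) :
    A'.i1 (mulW A A' hm hT hp w) = matF hm (A.i1 w) := rfl

theorem coe_mulW [CompleteSpace F] (w : A.WE) : ∀ᵐ x ∂μ, ∀ a,
    (A'.i1 (mulW A A' hm hT hp w) a : X → ℝ) x = ∑ b, m a b x * (A.i1 w b : X → ℝ) x := by
  filter_upwards [coe_matF hm (A.i1 w)] with x e1 a
  rw [i1_mulW, e1 a]
  exact Finset.sum_congr rfl fun b _ => by rw [smul_eq_mul, mul_comm]

theorem mulW_D [CompleteSpace F] (w : A.WE) : ∀ᵐ x ∂μ, ∀ a,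
    (S.D (A'.i1 (mulW A A' hm hT hp w) a) : X → F) x =
      ∑ b, (m a b x • S.D (A.i1 w b) x + (A.i1 w b : X → ℝ) x • S.G (m a b) x) :=
  ae_all_iff.2 fun a => (matF_mem hm hT (fun b => S.mem_V.2 ⟨_, w.2.1 b⟩) a).2

end mul

/-! ### the `L⁴` calculus -/

section L4

variable {X : Type*} [MeasurableSpace X] {μ : Measure X} {κ κ' ν : Type} [Fintype κ] [Fintype κ']
  [Fintype ν] {W V : Type*} [NormedAddCommGroup W] [NormedSpace ℝ W] [NormedAddCommGroup V]
  [NormedSpace ℝ V] {F : Type*} [NormedAddCommGroup F] [InnerProductSpace ℝ F]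

instance fact14 : Fact ((1:ℝ≥0∞) ≤ 4) := ⟨by norm_num⟩

theorem mem4 {j : W →L[ℝ] HH μ κ} (h : Emb4 j) (w : W) (a : κ) : MemLp (j w a : X → ℝ) 4 μ := by
  obtain ⟨C, -, hC⟩ := h
  exact (hC w a).1

/-- the components in `L⁴` -/
def e4 {j : W →L[ℝ] HH μ κ} (h : Emb4 j) (a : κ) : W →L[ℝ] Lp ℝ 4 μ :=
  LinearMap.mkContinuousOfExistsBound
    { toFun := fun w => (mem4 h w a).toLp _
      map_add' := fun u v => by
        ext1
        have e : j (u + v) a = j u a + j v a := by rw [map_add]; rfl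
        filter_upwards [(mem4 h (u + v) a).coeFn_toLp,
          (mem4 h u a).coeFn_toLp, (mem4 h v a).coeFn_toLp,
          Lp.coeFn_add ((mem4 h u a).toLp _) ((mem4 h v a).toLp _),
          Lp.coeFn_add (j u a) (j v a)] with x e1 e2 e3 e4 e5
        rw [e1, e4, Pi.add_apply, e2, e3, e, e5, Pi.add_apply]
      map_smul' := fun c u => by
        ext1
        have e : j (c • u) a = c • j u a := by rw [map_smul]; rfl
        filter_upwards [(mem4 h (c • u) a).coeFn_toLp,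
          (mem4 h u a).coeFn_toLp,
          Lp.coeFn_smul c ((mem4 h u a).toLp _),
          Lp.coeFn_smul c (j u a)] with x e1 e2 e4 e5
        simp only [RingHom.id_apply]
        rw [e1, e4, Pi.smul_apply, e2, e, e5, Pi.smul_apply] }
    (by
      obtain ⟨C, -, hC⟩ := h
      refine ⟨C, fun w => ?_⟩
      simp only [LinearMap.coe_mk, AddHom.coe_mk]
      rw [Lp.norm_toLp]
      exact (hC w a).2)

theorem coe_e4 {j : W →L[ℝ] HH μ κ} (h : Emb4 j) (a : κ) (w : W) :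
    (e4 h a w : X → ℝ) =ᵐ[μ] (j w a : X → ℝ) := (mem4 h w a).coeFn_toLp

variable (μ) in
/-- the product `L⁴ × L⁴ → L²` -/
def p42 : Lp ℝ 4 μ →L[ℝ] Lp ℝ 4 μ →L[ℝ] Lp ℝ 2 μ :=
  (ContinuousLinearMap.mul ℝ ℝ).holderL μ 4 4 2

theorem coe_p42 (f g : Lp ℝ 4 μ) : (p42 μ f g : X → ℝ) =ᵐ[μ] fun x => f x * g x :=
  ContinuousLinearMap.coeFn_holder (ContinuousLinearMap.mul ℝ ℝ) f g

/-- a product of two components, in `L²` -/
def pr4 {j : W →L[ℝ] HH μ κ} (h : Emb4 j) {j' : V →L[ℝ] HH μ κ'} (h' : Emb4 j') (a : κ) (b : κ')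
    (w : W) (v : V) : Lp ℝ 2 μ := p42 μ (e4 h a w) (e4 h' b v)

theorem coe_pr4 {j : W →L[ℝ] HH μ κ} (h : Emb4 j) {j' : V →L[ℝ] HH μ κ'} (h' : Emb4 j') (a : κ)
    (b : κ') (w : W) (v : V) :
    (pr4 h h' a b w v : X → ℝ) =ᵐ[μ] fun x => (j w a : X → ℝ) x * (j' v b : X → ℝ) x := by
  filter_upwards [coe_p42 (e4 h a w) (e4 h' b v), coe_e4 h a w, coe_e4 h' b v] with x e1 e2 e3
  rw [pr4, e1, e2, e3]

theorem continuous_pr4 {j : W →L[ℝ] HH μ κ} (h : Emb4 j) {j' : V →L[ℝ] HH μ κ'} (h' : Emb4 j')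
    (a : κ) (b : κ') : Continuous fun q : W × V => pr4 h h' a b q.1 q.2 := by
  unfold pr4
  fun_prop

/-- the zeroth order term `∑ (α_A u_y) • c` of a perturbed connection -/
def nab4 {j : W →L[ℝ] HH μ κ} (h : Emb4 j) {j' : V →L[ℝ] HH μ κ'} (h' : Emb4 j')
    {c : κ → ν → κ' → X → F} (hc : ∀ A y y', BM μ (c A y y')) (w : W) (v : V) : GG F μ ν :=
  WithLp.toLp 2 fun y => ∑ A, ∑ y', mulF (hc A y y') (pr4 h h' A y' w v)

theorem continuous_nab4 {j : W →L[ℝ] HH μ κ} (h : Emb4 j) {j' : V →L[ℝ] HH μ κ'} (h' : Emb4 j')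
    {c : κ → ν → κ' → X → F} (hc : ∀ A y y', BM μ (c A y y')) :
    Continuous fun q : W × V => nab4 h h' hc q.1 q.2 := by
  unfold nab4
  refine (PiLp.continuous_toLp 2 _).comp (continuous_pi fun y => ?_)
  refine continuous_finsetSum _ fun A _ => continuous_finsetSum _ fun y' _ => ?_
  exact (mulF (hc A y y')).continuous.comp (continuous_pr4 h h' A y')

theorem coe_nab4 {j : W →L[ℝ] HH μ κ} (h : Emb4 j) {j' : V →L[ℝ] HH μ κ'} (h' : Emb4 j')
    {c : κ → ν → κ' → X → F} (hc : ∀ A y y', BM μ (c A y y')) (w : W) (v : V) :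
    ∀ᵐ x ∂μ, ∀ y, (nab4 h h' hc w v y : X → F) x =
      ∑ A, ∑ y', ((j w A : X → ℝ) x * (j' v y' : X → ℝ) x) • c A y y' x := by
  rw [ae_all_iff]
  intro y
  have h1 : ∀ᵐ x ∂μ, ∀ A, ∀ y', (mulF (hc A y y') (pr4 h h' A y' w v) : X → F) x =
      (pr4 h h' A y' w v : X → ℝ) x • c A y y' x :=
    ae_all_iff.2 fun A => ae_all_iff.2 fun y' => coe_mulF _ _
  have h2 : ∀ᵐ x ∂μ, ∀ A, ∀ y', (pr4 h h' A y' w v : X → ℝ) x =
      (j w A : X → ℝ) x * (j' v y' : X → ℝ) x :=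
    ae_all_iff.2 fun A => ae_all_iff.2 fun y' => coe_pr4 h h' A y' w v
  have h3 : ∀ᵐ x ∂μ, ∀ A, (∑ y', mulF (hc A y y') (pr4 h h' A y' w v) : Lp F 2 μ) x =
      ∑ y', (mulF (hc A y y') (pr4 h h' A y' w v) : X → F) x :=
    ae_all_iff.2 fun A => Lp.coeFn_fun_finsetSum Finset.univ _
  filter_upwards [h1, h2, h3, Lp.coeFn_fun_finsetSum Finset.univ
    (fun A => ∑ y', mulF (hc A y y') (pr4 h h' A y' w v))] with x e1 e2 e3 e4
  show (∑ A, ∑ y', mulF (hc A y y') (pr4 h h' A y' w v) : Lp F 2 μ) x = _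
  rw [e4]
  refine Finset.sum_congr rfl fun A _ => ?_
  rw [e3 A]
  refine Finset.sum_congr rfl fun y' _ => ?_
  rw [e1 A y', e2 A y']

end L4

/-! ### smooth sections -/

section dat
variable {n : ℕ} {M : Type*} [MetricSpace M] [CompactSpace M]
    [ChartedSpace (EuclideanSpace ℝ (Fin n)) M]
    [IsManifold (𝓡 n) ∞ M]
    [RiemannianBundle (fun p : M => TangentSpace (𝓡 n) p)]
    [IsContMDiffRiemannianBundle (𝓡 n) ∞ (EuclideanSpace ℝ (Fin n))
      (fun p : M => TangentSpace (𝓡 n) p)]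
    [IsRiemannianManifold (𝓡 n) M]
    [MeasurableSpace M] [BorelSpace M] [SecondCountableTopology M] [Nonempty M]
    [IsFiniteMeasureOnCompacts (μHE[n] : Measure M)]
    {κ : Type} [Fintype κ] (D D' : Dat n M κ)

/-- a smooth multiplier -/
def mulS {m : κ → κ → M → ℝ} (hm : ∀ a b, ContMDiff (𝓡 n) 𝓘(ℝ, ℝ) ∞ (m a b))
    (hp : ∀ a b x, ∑ c, D'.p a c x * m c b x = m a b x) : D.toAD.WE →L[ℝ] D'.toAD.WE :=
  mulW D.toAD D'.toAD (fun a b => bm_smooth (hm a b)) (fun a b => isT_smooth (hm a b)) hp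

theorem coe_mulS {m : κ → κ → M → ℝ} (hm : ∀ a b, ContMDiff (𝓡 n) 𝓘(ℝ, ℝ) ∞ (m a b))
    (hp : ∀ a b x, ∑ c, D'.p a c x * m c b x = m a b x) (w : D.toAD.WE) :
    ∀ᵐ x ∂(μHE[n] : Measure M), ∀ a,
    (D'.toAD.i1 (mulS D D' hm hp w) a : M → ℝ) x = ∑ b, m a b x * (D.toAD.i1 w b : M → ℝ) x :=
  coe_mulW _ _ _ _ _ w

/-- the smooth section `m u` -/
theorem mulS_secW {m : κ → κ → M → ℝ} (hm : ∀ a b, ContMDiff (𝓡 n) 𝓘(ℝ, ℝ) ∞ (m a b))
    (hp : ∀ a b x, ∑ c, D'.p a c x * m c b x = m a b x) {u : κ → M → ℝ}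
    (hu : SmV (n := n) u) (hs : D.Sec u) :
    ∃ (h1 : SmV (n := n) fun a z => ∑ b, m a b z * u b z)
      (h2 : D'.Sec fun a z => ∑ b, m a b z * u b z),
      secW D' h1 h2 = mulS D D' hm hp (secW D hu hs) := by
  have h1 : SmV (n := n) fun a z => ∑ b, m a b z * u b z := fun a =>
    contMDiff_finsetSum fun b _ => (hm a b).mul (hu b)
  refine ⟨h1, exists_secW D' h1 ?_⟩
  filter_upwards [coe_mulS D D' hm hp (secW D hu hs), coe_secW D hu hs] with z e1 e2 a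
  rw [e1 a]
  exact Finset.sum_congr rfl fun b _ => by rw [e2 b]

end dat

end Crest.Agent.R235.L4_433
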