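import Mathlib

/-!
Row 235, helper453, L-twist part A: algebra.

`p`, `J` real matrices with `p² = p`, `pJ = Jp = J`, `J² = -p` over a commutative ring `S`.
* `Phi p J R I = p ⊗ R + J ⊗ I` is multiplicative in the complex matrix `R + i I`;
* `Psi J j v w = v ⊗ j + w ⊗ J j`, the frame of the tensor product with the section `v + i w`.
-/

set_option autoImplicit false
set_option linter.unusedSectionVars false

open Matrix
open scoped Kronecker

namespace Crest.Agent.R235.LTw_453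

noncomputable section

section alg

variable {S : Type*} [CommRing S] {κ ν ι : Type*} [Fintype κ] [Fintype ν]

/-- the real form of a complex matrix acting on `κ × ν`. -/
def Phi (p J : Matrix κ κ S) (R I : Matrix ν ν S) : Matrix (κ × ν) (κ × ν) S :=
  p ⊗ₖ R + J ⊗ₖ I

theorem Phi_apply (p J : Matrix κ κ S) (R I : Matrix ν ν S) (x y : κ × ν) :
    Phi p J R I x y = p x.1 y.1 * R x.2 y.2 + J x.1 y.1 * I x.2 y.2 := rfl

theorem Phi_add (p J : Matrix κ κ S) (R I R' I' : Matrix ν ν S) :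
    Phi p J R I + Phi p J R' I' = Phi p J (R + R') (I + I') := by
  rw [Phi, Phi, Phi, kronecker_add, kronecker_add]
  abel

theorem Phi_neg (p J : Matrix κ κ S) (R I : Matrix ν ν S) :
    - Phi p J R I = Phi p J (-R) (-I) := by
  ext x y
  simp only [Matrix.neg_apply, Phi_apply]
  ring

theorem Phi_sub (p J : Matrix κ κ S) (R I R' I' : Matrix ν ν S) :
    Phi p J R I - Phi p J R' I' = Phi p J (R - R') (I - I') := by
  ext x y
  simp only [Matrix.sub_apply, Phi_apply]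
  ring

theorem Phi_mul {p J : Matrix κ κ S} (hpp : p * p = p) (hpJ : p * J = J) (hJp : J * p = J)
    (hJJ : J * J = -p) (R I R' I' : Matrix ν ν S) :
    Phi p J R I * Phi p J R' I' = Phi p J (R * R' - I * I') (R * I' + I * R') := by
  rw [Phi, Phi, Phi, add_mul, mul_add, mul_add, ← mul_kronecker_mul, ← mul_kronecker_mul,
    ← mul_kronecker_mul, ← mul_kronecker_mul, hpp, hpJ, hJp, hJJ]
  ext x y
  simp only [Matrix.add_apply, Matrix.sub_apply, Matrix.neg_apply, kroneckerMap_apply]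
  ring

/-- the twisted frame. -/
def Psi (J : Matrix κ κ S) (j : Matrix κ ι S) (v w : ν → S) : Matrix (κ × ν) ι S :=
  fun x i => v x.2 * j x.1 i + w x.2 * (J * j) x.1 i

theorem Psi_apply (J : Matrix κ κ S) (j : Matrix κ ι S) (v w : ν → S) (x : κ × ν) (i : ι) :
    Psi J j v w x i = v x.2 * j x.1 i + w x.2 * (J * j) x.1 i := rfl

theorem Phi_Psi {p J : Matrix κ κ S} {j : Matrix κ ι S} (hpj : p * j = j) (hpJ : p * J = J)
    (hJJ : J * J = -p) (R I : Matrix ν ν S) (v w : ν → S) :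
    Phi p J R I * Psi J j v w = Psi J j (R *ᵥ v - I *ᵥ w) (R *ᵥ w + I *ᵥ v) := by
  have e1 : ∀ a i, ∑ b, p a b * j b i = j a i := fun a i => congrFun (congrFun hpj a) i
  have e2 : ∀ a i, ∑ b, p a b * (J * j) b i = (J * j) a i := fun a i => by
    have h := congrFun (congrFun (Matrix.mul_assoc p J j) a) i
    rw [hpJ] at h
    exact h.symm
  have e3 : ∀ a i, ∑ b, J a b * j b i = (J * j) a i := fun a i => rfl
  have e4 : ∀ a i, ∑ b, J a b * (J * j) b i = - j a i := fun a i => by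
    have h := congrFun (congrFun (Matrix.mul_assoc J J j) a) i
    rw [hJJ, Matrix.neg_mul, hpj] at h
    exact h.symm
  ext x i
  rw [Matrix.mul_apply, Fintype.sum_prod_type]
  simp only [Phi_apply, Psi_apply, Pi.sub_apply, Pi.add_apply, Matrix.mulVec, dotProduct]
  have h1 : ∀ b k, (p x.1 b * R x.2 k + J x.1 b * I x.2 k) * (v k * j b i + w k * (J * j) b i) =
      (R x.2 k * v k) * (p x.1 b * j b i) + (R x.2 k * w k) * (p x.1 b * (J * j) b i) +
      ((I x.2 k * v k) * (J x.1 b * j b i) + (I x.2 k * w k) * (J x.1 b * (J * j) b i)) := by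
    intro b k
    ring
  simp only [h1, Finset.sum_add_distrib]
  have h2 : ∀ (f : ν → S) (g : κ → S), ∑ b, ∑ k, f k * g b = (∑ k, f k) * ∑ b, g b := by
    intro f g
    rw [Finset.sum_mul_sum, Finset.sum_comm]
  rw [h2 (fun k => R x.2 k * v k), h2 (fun k => R x.2 k * w k), h2 (fun k => I x.2 k * v k),
    h2 (fun k => I x.2 k * w k), e1, e2, e3, e4]
  ring

theorem Psi_add (J : Matrix κ κ S) (j : Matrix κ ι S) (v w v' w' : ν → S) :
    Psi J j v w + Psi J j v' w' = Psi J j (v + v') (w + w') := by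
  ext x i
  simp only [Matrix.add_apply, Psi_apply, Pi.add_apply]
  ring

/-- the product `Psiᵀ Psi` in terms of `U = jᵀ J j`. -/
theorem Psi_tr_mul [DecidableEq ι] {p J : Matrix κ κ S} {j : Matrix κ ι S} (hj : jᵀ * j = 1)
    (hpj : p * j = j) (hJt : Jᵀ = -J) (hJJ : J * J = -p) (v w v' w' : ν → S) :
    (Psi J j v w)ᵀ * Psi J j v' w' =
      (∑ k, (v k * v' k + w k * w' k)) • (1 : Matrix ι ι S) +
      (∑ k, (v k * w' k - w k * v' k)) • (jᵀ * J * j) := by
  have e2 : jᵀ * (J * j) = jᵀ * J * j := (Matrix.mul_assoc _ _ _).symm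
  have e3 : (J * j)ᵀ * j = - (jᵀ * J * j) := by
    rw [Matrix.transpose_mul, hJt, Matrix.mul_neg, Matrix.neg_mul]
  have e4 : (J * j)ᵀ * (J * j) = 1 := by
    rw [Matrix.transpose_mul, hJt, Matrix.mul_neg, Matrix.neg_mul, Matrix.mul_assoc,
      ← Matrix.mul_assoc J J j, hJJ, Matrix.neg_mul, hpj, Matrix.mul_neg, neg_neg, hj]
  ext i i'
  have f1 : ∑ a, j a i * j a i' = (1 : Matrix ι ι S) i i' := congrFun (congrFun hj i) i'
  have f2 : ∑ a, j a i * (J * j) a i' = (jᵀ * J * j) i i' := congrFun (congrFun e2 i) i'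
  have f3 : ∑ a, (J * j) a i * j a i' = - (jᵀ * J * j) i i' := congrFun (congrFun e3 i) i'
  have f4 : ∑ a, (J * j) a i * (J * j) a i' = (1 : Matrix ι ι S) i i' := congrFun (congrFun e4 i) i'
  rw [Matrix.mul_apply, Fintype.sum_prod_type]
  simp only [Matrix.transpose_apply, Psi_apply]
  have h1 : ∀ a k, (v k * j a i + w k * (J * j) a i) * (v' k * j a i' + w' k * (J * j) a i') =
      (v k * v' k) * (j a i * j a i') + (v k * w' k) * (j a i * (J * j) a i') +
      ((w k * v' k) * ((J * j) a i * j a i') + (w k * w' k) * ((J * j) a i * (J * j) a i')) := by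
    intro a k
    ring
  simp only [h1, Finset.sum_add_distrib]
  have h2 : ∀ (f : ν → S) (g : κ → S), ∑ b, ∑ k, f k * g b = (∑ k, f k) * ∑ b, g b := by
    intro f g
    rw [Finset.sum_mul_sum, Finset.sum_comm]
  rw [h2 (fun k => v k * v' k), h2 (fun k => v k * w' k), h2 (fun k => w k * v' k),
    h2 (fun k => w k * w' k), f1, f2, f3, f4]
  simp only [Matrix.add_apply, Matrix.smul_apply, smul_eq_mul, Finset.sum_sub_distrib]
  ring

/-- `Psi Psiᵀ = Phi`. -/
theorem Psi_mul_tr [Fintype ι] {p J : Matrix κ κ S} {j : Matrix κ ι S} (hjj : j * jᵀ = p)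
    (hpJ : p * J = J) (hJp : J * p = J) (hJt : Jᵀ = -J) (hJJ : J * J = -p) (v w : ν → S) :
    Psi J j v w * (Psi J j v w)ᵀ =
      Phi p J (fun k l => v k * v l + w k * w l) (fun k l => w k * v l - v k * w l) := by
  have e2 : j * (J * j)ᵀ = - J := by
    rw [Matrix.transpose_mul, hJt, Matrix.mul_neg, Matrix.mul_neg, ← Matrix.mul_assoc, hjj, hpJ]
  have e3 : (J * j) * jᵀ = J := by rw [Matrix.mul_assoc, hjj, hJp]
  have e4 : (J * j) * (J * j)ᵀ = p := by
    rw [Matrix.mul_assoc, e2, Matrix.mul_neg, hJJ, neg_neg]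
  ext x y
  have f1 : ∑ i, j x.1 i * j y.1 i = p x.1 y.1 := congrFun (congrFun hjj x.1) y.1
  have f2 : ∑ i, j x.1 i * (J * j) y.1 i = - J x.1 y.1 := congrFun (congrFun e2 x.1) y.1
  have f3 : ∑ i, (J * j) x.1 i * j y.1 i = J x.1 y.1 := congrFun (congrFun e3 x.1) y.1
  have f4 : ∑ i, (J * j) x.1 i * (J * j) y.1 i = p x.1 y.1 := congrFun (congrFun e4 x.1) y.1
  show _ = p x.1 y.1 * (v x.2 * v y.2 + w x.2 * w y.2) +
    J x.1 y.1 * (w x.2 * v y.2 - v x.2 * w y.2)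
  rw [Matrix.mul_apply]
  simp only [Matrix.transpose_apply, Psi_apply]
  have h1 : ∀ i, (v x.2 * j x.1 i + w x.2 * (J * j) x.1 i) *
      (v y.2 * j y.1 i + w y.2 * (J * j) y.1 i) =
      (v x.2 * v y.2) * (j x.1 i * j y.1 i) + (v x.2 * w y.2) * (j x.1 i * (J * j) y.1 i) +
      ((w x.2 * v y.2) * ((J * j) x.1 i * j y.1 i) +
        (w x.2 * w y.2) * ((J * j) x.1 i * (J * j) y.1 i)) := by
    intro i
    ring
  simp only [h1, Finset.sum_add_distrib, ← Finset.mul_sum, f1, f2, f3, f4]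
  ring

/-- `Psi Psi'ᵀ = Phi`, four vectors. -/
theorem Psi_mul_tr' [Fintype ι] {p J : Matrix κ κ S} {j : Matrix κ ι S} (hjj : j * jᵀ = p)
    (hpJ : p * J = J) (hJp : J * p = J) (hJt : Jᵀ = -J) (hJJ : J * J = -p) (v w v' w' : ν → S) :
    Psi J j v w * (Psi J j v' w')ᵀ =
      Phi p J (fun k l => v k * v' l + w k * w' l) (fun k l => w k * v' l - v k * w' l) := by
  have e2 : j * (J * j)ᵀ = - J := by
    rw [Matrix.transpose_mul, hJt, Matrix.mul_neg, Matrix.mul_neg, ← Matrix.mul_assoc, hjj, hpJ]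
  have e3 : (J * j) * jᵀ = J := by rw [Matrix.mul_assoc, hjj, hJp]
  have e4 : (J * j) * (J * j)ᵀ = p := by
    rw [Matrix.mul_assoc, e2, Matrix.mul_neg, hJJ, neg_neg]
  ext x y
  have f1 : ∑ i, j x.1 i * j y.1 i = p x.1 y.1 := congrFun (congrFun hjj x.1) y.1
  have f2 : ∑ i, j x.1 i * (J * j) y.1 i = - J x.1 y.1 := congrFun (congrFun e2 x.1) y.1
  have f3 : ∑ i, (J * j) x.1 i * j y.1 i = J x.1 y.1 := congrFun (congrFun e3 x.1) y.1
  have f4 : ∑ i, (J * j) x.1 i * (J * j) y.1 i = p x.1 y.1 := congrFun (congrFun e4 x.1) y.1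
  show _ = p x.1 y.1 * (v x.2 * v' y.2 + w x.2 * w' y.2) +
    J x.1 y.1 * (w x.2 * v' y.2 - v x.2 * w' y.2)
  rw [Matrix.mul_apply]
  simp only [Matrix.transpose_apply, Psi_apply]
  have h1 : ∀ i, (v x.2 * j x.1 i + w x.2 * (J * j) x.1 i) *
      (v' y.2 * j y.1 i + w' y.2 * (J * j) y.1 i) =
      (v x.2 * v' y.2) * (j x.1 i * j y.1 i) + (v x.2 * w' y.2) * (j x.1 i * (J * j) y.1 i) +
      ((w x.2 * v' y.2) * ((J * j) x.1 i * j y.1 i) +
        (w x.2 * w' y.2) * ((J * j) x.1 i * (J * j) y.1 i)) := by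
    intro i
    ring
  simp only [h1, Finset.sum_add_distrib, ← Finset.mul_sum, f1, f2, f3, f4]
  ring

theorem kron_one_Psi [DecidableEq ν] (J W : Matrix κ κ S) (j : Matrix κ ι S) (v w : ν → S) :
    W ⊗ₖ (1 : Matrix ν ν S) * Psi J j v w =
      fun x i => v x.2 * (W * j) x.1 i + w x.2 * (W * (J * j)) x.1 i := by
  ext x i
  rw [Matrix.mul_apply, Fintype.sum_prod_type]
  simp only [kroneckerMap_apply, Psi_apply, Matrix.one_apply]
  have h1 : ∀ a, ∑ k, W x.1 a * (if x.2 = k then 1 else 0) * (v k * j a i + w k * (J * j) a i) =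
      W x.1 a * (v x.2 * j a i + w x.2 * (J * j) a i) := by
    intro a
    simp
  simp only [h1]
  show _ = v x.2 * (W * j) x.1 i + w x.2 * (W * (J * j)) x.1 i
  rw [Matrix.mul_apply, Matrix.mul_apply, Finset.mul_sum, Finset.mul_sum,
    ← Finset.sum_add_distrib]
  exact Finset.sum_congr rfl fun a _ => by ring

theorem Psi_mul [Fintype ι] {ι' : Type*} (J : Matrix κ κ S) (j : Matrix κ ι S) (v w : ν → S)
    (a : Matrix ι ι' S) : Psi J j v w * a = Psi J (j * a) v w := by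
  ext x i
  rw [Matrix.mul_apply, Psi_apply, ← Matrix.mul_assoc J j a, Matrix.mul_apply, Matrix.mul_apply,
    Finset.mul_sum, Finset.mul_sum, ← Finset.sum_add_distrib]
  exact Finset.sum_congr rfl fun a _ => by rw [Psi_apply]; ring

/-- `Psi` is linear for the right action of `U`. -/
theorem Psi_mul_U [Fintype ι] {p J : Matrix κ κ S} {j : Matrix κ ι S} (hjj : j * jᵀ = p)
    (hpJ : p * J = J) (hpj : p * j = j) (hJJ : J * J = -p) (v w : ν → S) :
    Psi J j v w * (jᵀ * J * j) = Psi J j (-w) v := by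
  have e1 : j * (jᵀ * J * j) = J * j := by
    rw [← Matrix.mul_assoc, ← Matrix.mul_assoc, hjj, hpJ]
  have e2 : (J * j) * (jᵀ * J * j) = - j := by
    rw [Matrix.mul_assoc, e1, ← Matrix.mul_assoc, hJJ, Matrix.neg_mul, hpj]
  ext x i
  have f1 : ∑ i', j x.1 i' * (jᵀ * J * j) i' i = (J * j) x.1 i := congrFun (congrFun e1 x.1) i
  have f2 : ∑ i', (J * j) x.1 i' * (jᵀ * J * j) i' i = - j x.1 i :=
    congrFun (congrFun e2 x.1) i
  rw [Matrix.mul_apply]
  simp only [Psi_apply, Pi.neg_apply]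
  have h1 : ∀ i', (v x.2 * j x.1 i' + w x.2 * (J * j) x.1 i') * (jᵀ * J * j) i' i =
      v x.2 * (j x.1 i' * (jᵀ * J * j) i' i) + w x.2 * ((J * j) x.1 i' * (jᵀ * J * j) i' i) := by
    intro i'
    ring
  simp only [h1, Finset.sum_add_distrib, ← Finset.mul_sum, f1, f2]
  ring

/-- the frame `Psi` with the symbol `c` in between. -/
theorem Psi_c_Psi {κ' ι' : Type*} [Fintype κ'] [Fintype ι] [Fintype ι'] {J0 : Matrix κ κ S}
    {J1 p1 : Matrix κ' κ' S}
    {j0 : Matrix κ ι S} {j1 : Matrix κ' ι' S} {c : Matrix ι' ι S} {cc : Matrix κ' κ S}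
    (hcc : j1 * c * j0ᵀ = cc) (hJt : J0ᵀ = -J0) (hcJ : J1 * cc = cc * J0)
    (hJJ : J1 * J1 = -p1) (hpc : p1 * cc = cc) (v w : ν → S) :
    Psi J1 j1 v w * c * (Psi J0 j0 v w)ᵀ = fun x y =>
      (v x.2 * v y.2 + w x.2 * w y.2) * cc x.1 y.1 +
        (w x.2 * v y.2 - v x.2 * w y.2) * (J1 * cc) x.1 y.1 := by
  have e2 : j1 * c * (J0 * j0)ᵀ = - (J1 * cc) := by
    rw [Matrix.transpose_mul, hJt, Matrix.mul_neg, Matrix.mul_neg, ← Matrix.mul_assoc, hcc, hcJ]
  have e3 : J1 * j1 * c * j0ᵀ = J1 * cc := by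
    rw [← hcc]
    simp only [Matrix.mul_assoc]
  have e4 : J1 * j1 * c * (J0 * j0)ᵀ = cc := by
    have : J1 * j1 * c * (J0 * j0)ᵀ = J1 * (j1 * c * (J0 * j0)ᵀ) := by
      simp only [Matrix.mul_assoc]
    rw [this, e2, Matrix.mul_neg, ← Matrix.mul_assoc, hJJ, Matrix.neg_mul, hpc, neg_neg]
  ext x y
  have f1 : ∑ i, (j1 * c) x.1 i * j0 y.1 i = cc x.1 y.1 := congrFun (congrFun hcc x.1) y.1
  have f2 : ∑ i, (j1 * c) x.1 i * (J0 * j0) y.1 i = - (J1 * cc) x.1 y.1 :=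
    congrFun (congrFun e2 x.1) y.1
  have f3 : ∑ i, (J1 * j1 * c) x.1 i * j0 y.1 i = (J1 * cc) x.1 y.1 :=
    congrFun (congrFun e3 x.1) y.1
  have f4 : ∑ i, (J1 * j1 * c) x.1 i * (J0 * j0) y.1 i = cc x.1 y.1 :=
    congrFun (congrFun e4 x.1) y.1
  have g : ∀ i, (Psi J1 j1 v w * c) x i = v x.2 * (j1 * c) x.1 i + w x.2 * (J1 * j1 * c) x.1 i := by
    intro i
    rw [Matrix.mul_apply, Matrix.mul_apply, Matrix.mul_apply, Finset.mul_sum, Finset.mul_sum,
      ← Finset.sum_add_distrib]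
    refine Finset.sum_congr rfl fun i' _ => ?_
    rw [Psi_apply]
    ring
  rw [Matrix.mul_apply]
  simp only [Matrix.transpose_apply, g, Psi_apply]
  have h1 : ∀ i, (v x.2 * (j1 * c) x.1 i + w x.2 * (J1 * j1 * c) x.1 i) *
      (v y.2 * j0 y.1 i + w y.2 * (J0 * j0) y.1 i) =
      (v x.2 * v y.2) * ((j1 * c) x.1 i * j0 y.1 i) +
      (v x.2 * w y.2) * ((j1 * c) x.1 i * (J0 * j0) y.1 i) +
      ((w x.2 * v y.2) * ((J1 * j1 * c) x.1 i * j0 y.1 i) +
        (w x.2 * w y.2) * ((J1 * j1 * c) x.1 i * (J0 * j0) y.1 i)) := by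
    intro i
    ring
  simp only [h1, Finset.sum_add_distrib, ← Finset.mul_sum, f1, f2, f3, f4]
  ring

/-- outer product. -/
def oo (u v : ν → S) : Matrix ν ν S := fun k l => u k * v l

theorem oo_mulVec (u v w : ν → S) : oo u v *ᵥ w = (v ⬝ᵥ w) • u := by
  ext k
  simp only [Matrix.mulVec, dotProduct, oo, Pi.smul_apply, smul_eq_mul, Finset.sum_mul]
  exact Finset.sum_congr rfl fun l _ => by ring

/-- the connection of a line bundle in a unit frame `v + i w`. -/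
theorem unit_alg (v w dv dw : ν → S) (hP : v ⬝ᵥ v + w ⬝ᵥ w = 1)
    (hB : v ⬝ᵥ dv + w ⬝ᵥ dw = 0) {r s dr ds : Matrix ν ν S}
    (hr : r = oo v v + oo w w) (hs : s = oo w v - oo v w)
    (hdr : dr = oo dv v + oo v dv + (oo dw w + oo w dw))
    (hds : ds = oo dw v + oo w dv - (oo dv w + oo v dw)) :
    (dv + (((r * dr - s * ds) - (dr * r - ds * s)) *ᵥ v -
        ((r * ds + s * dr) - (dr * s + ds * r)) *ᵥ w) = -((v ⬝ᵥ dw - w ⬝ᵥ dv) • w)) ∧
      (dw + (((r * dr - s * ds) - (dr * r - ds * s)) *ᵥ w +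
        ((r * ds + s * dr) - (dr * s + ds * r)) *ᵥ v) = (v ⬝ᵥ dw - w ⬝ᵥ dv) • v) := by
  have c1 : w ⬝ᵥ v = v ⬝ᵥ w := dotProduct_comm _ _
  have c2 : dv ⬝ᵥ v = v ⬝ᵥ dv := dotProduct_comm _ _
  have c3 : dw ⬝ᵥ w = w ⬝ᵥ dw := dotProduct_comm _ _
  have c4 : dv ⬝ᵥ w = w ⬝ᵥ dv := dotProduct_comm _ _
  have c5 : dw ⬝ᵥ v = v ⬝ᵥ dw := dotProduct_comm _ _
  have h1 : r *ᵥ v - s *ᵥ w = v := by
    rw [hr, hs, add_mulVec, sub_mulVec, oo_mulVec, oo_mulVec, oo_mulVec, oo_mulVec, c1]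
    ext k
    simp only [Pi.add_apply, Pi.sub_apply, Pi.smul_apply, smul_eq_mul]
    linear_combination (v k) * hP
  have h2 : s *ᵥ v + r *ᵥ w = w := by
    rw [hr, hs, add_mulVec, sub_mulVec, oo_mulVec, oo_mulVec, oo_mulVec, oo_mulVec, c1]
    ext k
    simp only [Pi.add_apply, Pi.sub_apply, Pi.smul_apply, smul_eq_mul]
    linear_combination (w k) * hP
  have h3 : dr *ᵥ v - ds *ᵥ w = dv + (v ⬝ᵥ dw - w ⬝ᵥ dv) • w := by
    rw [hdr, hds, add_mulVec, add_mulVec, add_mulVec, sub_mulVec, add_mulVec, add_mulVec]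
    simp only [oo_mulVec, c1, c2, c3, c4, c5]
    ext k
    simp only [Pi.add_apply, Pi.sub_apply, Pi.smul_apply, smul_eq_mul]
    linear_combination (dv k) * hP + (v k) * hB
  have h4 : ds *ᵥ v + dr *ᵥ w = dw - (v ⬝ᵥ dw - w ⬝ᵥ dv) • v := by
    rw [hdr, hds, add_mulVec, add_mulVec, add_mulVec, sub_mulVec, add_mulVec, add_mulVec]
    simp only [oo_mulVec, c1, c2, c3, c4, c5]
    ext k
    simp only [Pi.add_apply, Pi.sub_apply, Pi.smul_apply, smul_eq_mul]
    linear_combination (dw k) * hP + (w k) * hB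
  have h5 : r *ᵥ dv - s *ᵥ dw = - ((v ⬝ᵥ dw - w ⬝ᵥ dv) • w) := by
    rw [hr, hs, add_mulVec, sub_mulVec, oo_mulVec, oo_mulVec, oo_mulVec, oo_mulVec]
    ext k
    simp only [Pi.add_apply, Pi.sub_apply, Pi.smul_apply, Pi.neg_apply, smul_eq_mul]
    linear_combination (v k) * hB
  have h6 : s *ᵥ dv + r *ᵥ dw = (v ⬝ᵥ dw - w ⬝ᵥ dv) • v := by
    rw [hr, hs, add_mulVec, sub_mulVec, oo_mulVec, oo_mulVec, oo_mulVec, oo_mulVec]
    ext k
    simp only [Pi.add_apply, Pi.sub_apply, Pi.smul_apply, smul_eq_mul]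
    linear_combination (w k) * hB
  set al := v ⬝ᵥ dw - w ⬝ᵥ dv with hal
  constructor
  · have e1 : ((r * dr - s * ds) - (dr * r - ds * s)) *ᵥ v -
        ((r * ds + s * dr) - (dr * s + ds * r)) *ᵥ w =
        (r *ᵥ (dr *ᵥ v - ds *ᵥ w) - s *ᵥ (ds *ᵥ v + dr *ᵥ w)) -
          (dr *ᵥ (r *ᵥ v - s *ᵥ w) - ds *ᵥ (s *ᵥ v + r *ᵥ w)) := by
      simp only [sub_mulVec, add_mulVec, mulVec_sub, mulVec_add, mulVec_mulVec]
      abel
    rw [e1, h1, h2, h3, h4]
    have e2 : r *ᵥ (dv + al • w) - s *ᵥ (dw - al • v) =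
        (r *ᵥ dv - s *ᵥ dw) + al • (s *ᵥ v + r *ᵥ w) := by
      simp only [mulVec_sub, mulVec_add, mulVec_smul, smul_add]
      abel
    rw [e2, h5, h2]
    abel
  · have e1 : ((r * dr - s * ds) - (dr * r - ds * s)) *ᵥ w +
        ((r * ds + s * dr) - (dr * s + ds * r)) *ᵥ v =
        (r *ᵥ (ds *ᵥ v + dr *ᵥ w) + s *ᵥ (dr *ᵥ v - ds *ᵥ w)) -
          (dr *ᵥ (s *ᵥ v + r *ᵥ w) + ds *ᵥ (r *ᵥ v - s *ᵥ w)) := by
      simp only [sub_mulVec, add_mulVec, mulVec_sub, mulVec_add, mulVec_mulVec]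
      abel
    rw [e1, h1, h2, h3, h4]
    have e2 : r *ᵥ (dw - al • v) + s *ᵥ (dv + al • w) =
        (s *ᵥ dv + r *ᵥ dw) - al • (r *ᵥ v - s *ᵥ w) := by
      simp only [mulVec_sub, mulVec_add, mulVec_smul, smul_sub]
      abel
    have e3 : dr *ᵥ w + ds *ᵥ v = dw - al • v := by rw [← h4]; abel
    rw [e2, h6, h1, e3]
    abel

end alg

/-- `[q dq - dq q, q] = - dq` in any ring. -/
theorem comm_proj {R : Type*} [Ring R] {q d : R} (hq : q * q = q) (hd : d = d * q + q * d) :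
    (q * d - d * q) * q - q * (q * d - d * q) = - d := by
  have h1 : q * d * q = 0 := by
    have h := congrArg (fun t => q * t) hd
    simp only [mul_add, ← mul_assoc, hq] at h
    have h2 : q * d * q + q * d = q * d := h.symm
    exact add_eq_right.1 h2
  have e1 : (q * d - d * q) * q = q * d * q - d * q := by
    rw [sub_mul, mul_assoc d q q, hq]
  have e2 : q * (q * d - d * q) = q * d - q * d * q := by
    rw [mul_sub, ← mul_assoc, hq, ← mul_assoc]
  rw [e1, e2, h1]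
  conv_rhs => rw [hd]
  abel

end

end Crest.Agent.R235.LTw_453
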