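import Crest.Agent.R235.LTwB_453

/-!
Row 235, helper453, L-twist part C: local frames of the twisted bundle.

For a local frame `LF D h a j` of `D` and germs `vr + i vi` of a unit section of `L`
(`Unit L z vr vi`): `LF (twB D J hJ L) h (a + α U) (Psi J j vr vi)`, `U = jᵀ J j`,
`α_k = ∑ vr D_k vi - vi D_k vr`.
-/

set_option autoImplicit false
set_option maxSynthPendingDepth 3
set_option linter.unusedSectionVars false

open Filter Topology Set Bundle Manifold Matrix
open scoped ContDiff Kronecker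
open Crest.GeometryTopology.CoordMetric Crest.GeometryTopology.ChartCurvature
  Crest.GeometryTopology.PointedLimit
open Crest.Agent.R202.Tens Crest.Agent.R247.Bo84 Crest.Agent.R249.FrmB_285 Crest.Agent.R249.Vf281
  Crest.Agent.R249.Tz1_805 Crest.Agent.R249.Tz2_805
open Crest.Agent.R249.Fr129 Crest.Agent.R249.C2_198
open Crest.Agent.R249.Sg129 hiding fg fg_add fg_sub fg_mul fg_const fg_sum ev_fg contMDiff_inner VSm_mCov
open Crest.Agent.R249.Tz805
open Crest.Agent.R235.Ind167 (PJ PJ.pmul)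

noncomputable section

namespace Crest.Agent.R235.LTw_453

variable {n : ℕ} {M : Type*} [TopologicalSpace M] [ChartedSpace (EuclideanSpace ℝ (Fin n)) M]
  [IsManifold 𝓘(ℝ, EuclideanSpace ℝ (Fin n)) ∞ M]
  [RiemannianBundle (fun x : M => TangentSpace 𝓘(ℝ, EuclideanSpace ℝ (Fin n)) x)]
  [IsContMDiffRiemannianBundle 𝓘(ℝ, EuclideanSpace ℝ (Fin n)) ∞ (EuclideanSpace ℝ (Fin n))
      (fun x : M => TangentSpace 𝓘(ℝ, EuclideanSpace ℝ (Fin n)) x)]

local notation "𝔼" => EuclideanSpace ℝ (Fin n)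
local notation "𝓘E" => 𝓘(ℝ, EuclideanSpace ℝ (Fin n))

/-- matrix of germs. -/
def gmat {κ κ' : Type} (z : M) (f : κ → κ' → M → ℝ) : Matrix κ κ' (SG (chartCentre n M z)) :=
  Matrix.of fun x y => fg (n := n) z (f x y)

/-- matrix of germs of vector fields. -/
def gvec {κ κ' : Type} (z : M) (e : Fin n → EuclideanSpace ℝ (Fin n) → EuclideanSpace ℝ (Fin n))
    (W : κ → κ' → (p : M) → TangentSpace 𝓘(ℝ, EuclideanSpace ℝ (Fin n)) p) (k : Fin n) :
    Matrix κ κ' (SG (chartCentre n M z)) :=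
  Matrix.of fun x y => vg z e (W x y) k

/-- germs of a unit section of the line bundle. -/
structure USec {N : ℕ} (L : LD n M N) (z : M) (vr vi : Fin N → SG (chartCentre n M z)) : Prop where
  re : ∀ k l, vr k * vr l + vi k * vi l = fg (n := n) z (L.r k l)
  im : ∀ k l, vi k * vr l - vr k * vi l = fg (n := n) z (L.s k l)

theorem exists_isqrt {c : EuclideanSpace ℝ (Fin n)} (x : SG c) (hx : 0 < ev x) :
    ∃ t : SG c, t * t * x = 1 := by
  obtain ⟨f, hf, rfl⟩ := exists_germ x
  have hfc : 0 < f c := by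
    have := ev_germ hf
    rwa [this] at hx
  have h1 : ContDiffAt ℝ ∞ (fun y => (√(f y))⁻¹) c :=
    (hf.sqrt hfc.ne').inv (Real.sqrt_ne_zero'.2 hfc)
  refine ⟨germ _ h1, ?_⟩
  rw [germ_mul, germ_mul, ← germ_one]
  refine germ_eq ?_
  have h2 : ∀ᶠ y in 𝓝 c, 0 < f y := hf.continuousAt.eventually (lt_mem_nhds hfc)
  filter_upwards [h2] with y hy
  have h3 : √(f y) * √(f y) = f y := Real.mul_self_sqrt hy.le
  have h4 : √(f y) ≠ 0 := (Real.sqrt_pos.2 hy).ne'
  rw [← mul_inv, h3, inv_mul_cancel₀ hy.ne']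

theorem exists_usec {N : ℕ} (L : LD n M N) (z : M) : ∃ vr vi, USec L z vr vi := by
  obtain ⟨m, hm⟩ : ∃ m, 0 < L.r m m z := by
    by_contra hcon
    push Not at hcon
    have h1 := L.tr z
    have h2 : ∑ a, L.r a a z ≤ 0 := Finset.sum_nonpos fun a _ => hcon a
    linarith
  have hev : ev (fg (n := n) z (L.r m m)) = L.r m m z := ev_fg (L.smr m m)
  obtain ⟨t, ht⟩ := exists_isqrt (fg (n := n) z (L.r m m)) (by rw [hev]; exact hm)
  have k1 : ∀ k l, fg (n := n) z (L.r k m) * fg (n := n) z (L.r l m) +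
      fg (n := n) z (L.s k m) * fg (n := n) z (L.s l m) =
      fg (n := n) z (L.r m m) * fg (n := n) z (L.r k l) := by
    intro k l
    have e1 : fg (n := n) z (fun q => L.r k m q * L.r l m q + L.s k m q * L.s l m q) =
        fg (n := n) z (fun q => L.r k m q * L.r l m q) +
          fg (n := n) z (fun q => L.s k m q * L.s l m q) :=
      fg_add ((L.smr k m).mul (L.smr l m)) ((L.sms k m).mul (L.sms l m))
    rw [fg_mul (L.smr k m) (L.smr l m), fg_mul (L.sms k m) (L.sms l m)] at e1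
    rw [← e1, ← fg_mul (L.smr m m) (L.smr k l)]
    congr 1
    funext q
    exact L.rk1 k l m q
  have k2 : ∀ k l, fg (n := n) z (L.s k m) * fg (n := n) z (L.r l m) -
      fg (n := n) z (L.r k m) * fg (n := n) z (L.s l m) =
      fg (n := n) z (L.r m m) * fg (n := n) z (L.s k l) := by
    intro k l
    have e1 : fg (n := n) z (fun q => L.s k m q * L.r l m q - L.r k m q * L.s l m q) =
        fg (n := n) z (fun q => L.s k m q * L.r l m q) -
          fg (n := n) z (fun q => L.r k m q * L.s l m q) :=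
      fg_sub ((L.sms k m).mul (L.smr l m)) ((L.smr k m).mul (L.sms l m))
    rw [fg_mul (L.sms k m) (L.smr l m), fg_mul (L.smr k m) (L.sms l m)] at e1
    rw [← e1, ← fg_mul (L.smr m m) (L.sms k l)]
    congr 1
    funext q
    exact L.rk2 k l m q
  refine ⟨fun k => t * fg (n := n) z (L.r k m), fun k => t * fg (n := n) z (L.s k m),
    ⟨fun k l => ?_, fun k l => ?_⟩⟩
  · linear_combination (t * t) * k1 k l + fg (n := n) z (L.r k l) * ht
  · linear_combination (t * t) * k2 k l + fg (n := n) z (L.s k l) * ht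

namespace USec

variable {N : ℕ} {L : LD n M N} {z : M} {vr vi : Fin N → SG (chartCentre n M z)}

theorem one (U : USec L z vr vi) : ∑ k, (vr k * vr k + vi k * vi k) = 1 := by
  have h1 : ∀ k, vr k * vr k + vi k * vi k = fg (n := n) z (L.r k k) := fun k => U.re k k
  simp only [h1]
  rw [← fg_sum Finset.univ (F := fun k => L.r k k) (fun k => L.smr k k), ← fg_one (n := n) z]
  congr 1
  funext q
  exact L.tr q

end USec

/-- the connection form of `L` in the frame `v`. -/
def alf {N : ℕ} {z : M} {e : Fin n → EuclideanSpace ℝ (Fin n) → EuclideanSpace ℝ (Fin n)}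
    (h : ONF (chartMetric n M z) (chartAt (EuclideanSpace ℝ (Fin n)) z).target
      (chartCentre n M z) e)
    (vr vi : Fin N → SG (chartCentre n M z)) (k : Fin n) : SG (chartCentre n M z) :=
  ∑ m, (vr m * h.frameOf.D k (vi m) - vi m * h.frameOf.D k (vr m))

section local_

variable {κ : Type} [Fintype κ] {N : ℕ} {D : Bun n M κ} {J : κ → κ → M → ℝ}
variable {z : M} {e : Fin n → EuclideanSpace ℝ (Fin n) → EuclideanSpace ℝ (Fin n)}
  (h : ONF (chartMetric n M z) (chartAt (EuclideanSpace ℝ (Fin n)) z).target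
      (chartCentre n M z) e)

theorem g_pJ (hJ : PJ D J) (z : M) : gmat (n := n) z D.p * gmat (n := n) z J = gmat (n := n) z J := by
  ext a b
  show ∑ c, fg (n := n) z (D.p a c) * fg (n := n) z (J c b) = fg (n := n) z (J a b)
  have h1 : ∀ c, fg (n := n) z (D.p a c) * fg (n := n) z (J c b) =
      fg (n := n) z (fun q => D.p a c q * J c b q) := fun c => (fg_mul (D.smp a c) (hJ.sm c b)).symm
  simp only [h1]
  rw [← fg_sum Finset.univ (F := fun c q => D.p a c q * J c b q)
    (fun c => (D.smp a c).mul (hJ.sm c b))]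
  congr 1
  funext q
  exact hJ.pmul a b q

theorem g_Jp (hJ : PJ D J) (z : M) : gmat (n := n) z J * gmat (n := n) z D.p = gmat (n := n) z J := by
  ext a b
  show ∑ c, fg (n := n) z (J a c) * fg (n := n) z (D.p c b) = fg (n := n) z (J a b)
  have h1 : ∀ c, fg (n := n) z (J a c) * fg (n := n) z (D.p c b) =
      fg (n := n) z (fun q => J a c q * D.p c b q) := fun c => (fg_mul (hJ.sm a c) (D.smp c b)).symm
  simp only [h1]
  rw [← fg_sum Finset.univ (F := fun c q => J a c q * D.p c b q)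
    (fun c => (hJ.sm a c).mul (D.smp c b))]
  congr 1
  funext q
  exact hJ.mulp a b q

theorem g_JJ (hJ : PJ D J) (z : M) : gmat (n := n) z J * gmat (n := n) z J = - gmat (n := n) z D.p := by
  ext a b
  show ∑ c, fg (n := n) z (J a c) * fg (n := n) z (J c b) = - fg (n := n) z (D.p a b)
  have h1 : ∀ c, fg (n := n) z (J a c) * fg (n := n) z (J c b) =
      fg (n := n) z (fun q => J a c q * J c b q) := fun c => (fg_mul (hJ.sm a c) (hJ.sm c b)).symm
  simp only [h1]
  rw [← fg_sum Finset.univ (F := fun c q => J a c q * J c b q)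
    (fun c => (hJ.sm a c).mul (hJ.sm c b)), ← fg_neg (D.smp a b)]
  congr 1
  funext q
  exact hJ.sq a b q

theorem g_Jt (hJ : PJ D J) (z : M) : (gmat (n := n) z J)ᵀ = - gmat (n := n) z J := by
  ext a b
  show fg (n := n) z (J b a) = - fg (n := n) z (J a b)
  rw [← fg_neg (hJ.sm a b)]
  congr 1
  funext q
  exact hJ.skew b a q

/-- derivative of `J` in a frame. -/
theorem g_dJ (hJ : PJ D J) (k : Fin n) :
    dM (h.frameOf.D k) (gmat (n := n) z J) =
      - (gvec z e D.W k * gmat (n := n) z J - gmat (n := n) z J * gvec z e D.W k) := by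
  ext a b
  show h.frameOf.D k (fg (n := n) z (J a b)) = -(∑ c, vg z e (D.W a c) k * fg (n := n) z (J c b) -
    ∑ c, fg (n := n) z (J a c) * vg z e (D.W c b) k)
  rw [← vg_mgrad h (hJ.sm a b) k, ← Finset.sum_sub_distrib]
  have e1 : mgrad n (J a b) = fun q => - ∑ c, (J c b q • D.W a c q - J a c q • D.W c b q) := by
    funext q
    exact eq_neg_of_add_eq_zero_left (hJ.par a b q)
  have s1 : ∀ c q, VSm n ∞ (fun q => J c b q • D.W a c q) q := fun c q =>
    VSm.smul le_rfl (hJ.sm c b q) (D.smW a c q)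
  have s2 : ∀ c q, VSm n ∞ (fun q => J a c q • D.W c b q) q := fun c q =>
    VSm.smul le_rfl (hJ.sm a c q) (D.smW c b q)
  have s3 : ∀ c q, VSm n ∞ (fun q => J c b q • D.W a c q - J a c q • D.W c b q) q := fun c q =>
    (s1 c q).sub' (s2 c q)
  rw [e1, vg_neg h (fun q => VSm.sum Finset.univ fun c _ => s3 c q),
    vg_sum h Finset.univ (F := fun c q => J c b q • D.W a c q - J a c q • D.W c b q) s3]
  congr 1
  refine Finset.sum_congr rfl fun c _ => ?_
  rw [vg_sub h (s1 c) (s2 c), vg_smul h (hJ.sm c b) (D.smW a c), vg_smul h (hJ.sm a c) (D.smW c b)]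
  ring

/-- germ of `[q, dq]`, real part. -/
theorem g_AR (L : LD n M N) (k : Fin n) :
    gvec z e L.AR k =
      (gmat (n := n) z L.r * dM (h.frameOf.D k) (gmat (n := n) z L.r) -
        gmat (n := n) z L.s * dM (h.frameOf.D k) (gmat (n := n) z L.s)) -
      (dM (h.frameOf.D k) (gmat (n := n) z L.r) * gmat (n := n) z L.r -
        dM (h.frameOf.D k) (gmat (n := n) z L.s) * gmat (n := n) z L.s) := by
  ext a b
  have e0 : vg z e (L.AR a b) k = ∑ c, vg z e (fun q =>
      ((L.r a c q • mgrad n (L.r c b) q - L.s a c q • mgrad n (L.s c b) q) -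
      (L.r c b q • mgrad n (L.r a c) q - L.s c b q • mgrad n (L.s a c) q))) k :=
    vg_sum h Finset.univ (F := fun c q =>
      ((L.r a c q • mgrad n (L.r c b) q - L.s a c q • mgrad n (L.s c b) q) -
      (L.r c b q • mgrad n (L.r a c) q - L.s c b q • mgrad n (L.s a c) q)))
      (fun c q => L.smARt a b c q) k
  show vg z e (L.AR a b) k = _
  rw [e0]
  simp only [Matrix.sub_apply, Matrix.mul_apply]
  rw [← Finset.sum_sub_distrib, ← Finset.sum_sub_distrib, ← Finset.sum_sub_distrib]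
  refine Finset.sum_congr rfl fun c _ => ?_
  rw [vg_sub h (X := fun q => L.r a c q • mgrad n (L.r c b) q - L.s a c q • mgrad n (L.s c b) q)
    (Y := fun q => L.r c b q • mgrad n (L.r a c) q - L.s c b q • mgrad n (L.s a c) q)
    (fun q => (L.sm1 a c c b q).sub' (L.sm4 a c c b q))
    (fun q => (L.sm1 c b a c q).sub' (L.sm4 c b a c q)),
    vg_sub h (L.sm1 a c c b) (L.sm4 a c c b), vg_sub h (L.sm1 c b a c) (L.sm4 c b a c),
    vg_smul h (L.smr a c) (L.smg_r c b), vg_smul h (L.sms a c) (L.smg_s c b),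
    vg_smul h (L.smr c b) (L.smg_r a c), vg_smul h (L.sms c b) (L.smg_s a c),
    vg_mgrad h (L.smr c b), vg_mgrad h (L.sms c b), vg_mgrad h (L.smr a c), vg_mgrad h (L.sms a c)]
  simp only [Crest.Agent.R249.Sg129.dM, gmat, Matrix.of_apply]
  ring

/-- germ of `[q, dq]`, imaginary part. -/
theorem g_AI (L : LD n M N) (k : Fin n) :
    gvec z e L.AI k =
      (gmat (n := n) z L.r * dM (h.frameOf.D k) (gmat (n := n) z L.s) +
        gmat (n := n) z L.s * dM (h.frameOf.D k) (gmat (n := n) z L.r)) -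
      (dM (h.frameOf.D k) (gmat (n := n) z L.r) * gmat (n := n) z L.s +
        dM (h.frameOf.D k) (gmat (n := n) z L.s) * gmat (n := n) z L.r) := by
  ext a b
  have e0 : vg z e (L.AI a b) k = ∑ c, vg z e (fun q =>
      ((L.r a c q • mgrad n (L.s c b) q + L.s a c q • mgrad n (L.r c b) q) -
      (L.s c b q • mgrad n (L.r a c) q + L.r c b q • mgrad n (L.s a c) q))) k :=
    vg_sum h Finset.univ (F := fun c q =>
      ((L.r a c q • mgrad n (L.s c b) q + L.s a c q • mgrad n (L.r c b) q) -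
      (L.s c b q • mgrad n (L.r a c) q + L.r c b q • mgrad n (L.s a c) q)))
      (fun c q => L.smAIt a b c q) k
  show vg z e (L.AI a b) k = _
  rw [e0]
  simp only [Matrix.sub_apply, Matrix.add_apply, Matrix.mul_apply]
  rw [← Finset.sum_add_distrib, ← Finset.sum_add_distrib, ← Finset.sum_sub_distrib]
  refine Finset.sum_congr rfl fun c _ => ?_
  rw [vg_sub h (X := fun q => L.r a c q • mgrad n (L.s c b) q + L.s a c q • mgrad n (L.r c b) q)
    (Y := fun q => L.s c b q • mgrad n (L.r a c) q + L.r c b q • mgrad n (L.s a c) q)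
    (fun q => (L.sm2 a c c b q).add (L.sm3 a c c b q))
    (fun q => (L.sm3 c b a c q).add (L.sm2 c b a c q)),
    vg_add h (L.sm2 a c c b) (L.sm3 a c c b), vg_add h (L.sm3 c b a c) (L.sm2 c b a c),
    vg_smul h (L.smr a c) (L.smg_s c b), vg_smul h (L.sms a c) (L.smg_r c b),
    vg_smul h (L.sms c b) (L.smg_r a c), vg_smul h (L.smr c b) (L.smg_s a c),
    vg_mgrad h (L.smr c b), vg_mgrad h (L.sms c b), vg_mgrad h (L.smr a c), vg_mgrad h (L.sms a c)]
  simp only [Crest.Agent.R249.Sg129.dM, gmat, Matrix.of_apply]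
  ring

/-- germ of the projection of the tensor product. -/
theorem g_pT (hJ : PJ D J) (L : LD n M N) (z : M) :
    gmat (n := n) z (pT D J L) = Phi (gmat (n := n) z D.p) (gmat (n := n) z J) (gmat (n := n) z L.r) (gmat (n := n) z L.s) := by
  ext x y
  show fg (n := n) z (pT D J L x y) = fg (n := n) z (D.p x.1 y.1) * fg (n := n) z (L.r x.2 y.2) +
    fg (n := n) z (J x.1 y.1) * fg (n := n) z (L.s x.2 y.2)
  rw [← fg_mul (D.smp _ _) (L.smr _ _), ← fg_mul (hJ.sm _ _) (L.sms _ _)]
  exact fg_add ((D.smp x.1 y.1).mul (L.smr x.2 y.2)) ((hJ.sm x.1 y.1).mul (L.sms x.2 y.2))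

include h in
/-- germ of the connection form of the tensor product. -/
theorem g_WT (hJ : PJ D J) (L : LD n M N) (k : Fin n) :
    gvec z e (WT D J L) k = gvec z e D.W k ⊗ₖ
      (1 : Matrix (Fin N) (Fin N) (SG (chartCentre n M z))) +
      Phi (gmat (n := n) z D.p) (gmat (n := n) z J) (gvec z e L.AR k) (gvec z e L.AI k) := by
  ext x y
  have s1 : ∀ q, VSm n ∞ (fun q => if x.2 = y.2 then D.W x.1 y.1 q else 0) q := fun q => by
    by_cases h : x.2 = y.2
    · simp only [h, if_true]; exact D.smW _ _ q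
    · simp only [h, if_false]; exact VSm_zero q
  have s2 : ∀ q, VSm n ∞ (fun q => D.p x.1 y.1 q • L.AR x.2 y.2 q) q := fun q =>
    VSm.smul le_rfl (D.smp _ _ q) (L.smAR _ _ q)
  have s3 : ∀ q, VSm n ∞ (fun q => J x.1 y.1 q • L.AI x.2 y.2 q) q := fun q =>
    VSm.smul le_rfl (hJ.sm _ _ q) (L.smAI _ _ q)
  have e1 : vg z e (WT D J L x y) k =
      vg z e (fun q => if x.2 = y.2 then D.W x.1 y.1 q else 0) k +
        vg z e (fun q => D.p x.1 y.1 q • L.AR x.2 y.2 q + J x.1 y.1 q • L.AI x.2 y.2 q) k :=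
    vg_add h s1 (fun q => (s2 q).add (s3 q)) k
  show vg z e (WT D J L x y) k = vg z e (D.W x.1 y.1) k *
    (1 : Matrix (Fin N) (Fin N) (SG (chartCentre n M z))) x.2 y.2 +
    (fg (n := n) z (D.p x.1 y.1) * vg z e (L.AR x.2 y.2) k +
      fg (n := n) z (J x.1 y.1) * vg z e (L.AI x.2 y.2) k)
  rw [e1, vg_add h s2 s3, vg_smul h (D.smp _ _) (L.smAR _ _), vg_smul h (hJ.sm _ _) (L.smAI _ _),
    Matrix.one_apply]
  congr 1
  by_cases hxy : x.2 = y.2
  · simp only [hxy, if_true, mul_one]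
  · simp only [hxy, if_false, mul_zero]
    exact vg_zero h k

theorem LF.pj {ι : Type} [Fintype ι] [DecidableEq ι]
    {a : Fin n → Matrix ι ι (SG (chartCentre n M z))} {j : Matrix κ ι (SG (chartCentre n M z))}
    (hL : LF D h a j) : gmat (n := n) z D.p * j = j := by
  have h1 : gmat (n := n) z D.p = j * jᵀ := hL.jjt.symm
  rw [h1, Matrix.mul_assoc, hL.jtj, Matrix.mul_one]

variable {L : LD n M N} {vr vi : Fin N → SG (chartCentre n M z)}

theorem USec.rg (U : USec L z vr vi) : gmat (n := n) z L.r = oo vr vr + oo vi vi := by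
  ext k l
  exact (U.re k l).symm

theorem USec.sg (U : USec L z vr vi) : gmat (n := n) z L.s = oo vi vr - oo vr vi := by
  ext k l
  exact (U.im k l).symm

theorem dM_oo {S : Type*} [CommRing S] [Algebra ℝ S] {ν : Type*} [Fintype ν]
    (δ : Derivation ℝ S S) (u v : ν → S) :
    dM δ (oo u v) = oo (fun k => δ (u k)) v + oo u (fun k => δ (v k)) := by
  ext k l
  show δ (u k * v l) = δ (u k) * v l + u k * δ (v l)
  rw [Derivation.leibniz, smul_eq_mul, smul_eq_mul]
  ring

theorem USec.hP (U : USec L z vr vi) : vr ⬝ᵥ vr + vi ⬝ᵥ vi = 1 := by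
  rw [← U.one, Finset.sum_add_distrib]
  rfl

theorem USec.hB (U : USec L z vr vi) (δ : Derivation ℝ (SG (chartCentre n M z))
    (SG (chartCentre n M z))) :
    vr ⬝ᵥ (fun k => δ (vr k)) + vi ⬝ᵥ (fun k => δ (vi k)) = 0 := by
  have h1 := congrArg δ U.one
  rw [Derivation.map_one_eq_zero, map_sum] at h1
  have h2 : ∀ k, δ (vr k * vr k + vi k * vi k) = 2 * (vr k * δ (vr k) + vi k * δ (vi k)) := by
    intro k
    rw [map_add, Derivation.leibniz, Derivation.leibniz]
    simp only [smul_eq_mul]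
    ring
  simp only [h2, ← Finset.mul_sum, Finset.sum_add_distrib] at h1
  have h3 : (Frame.half : SG (chartCentre n M z)) * 2 = 1 := by
    rw [mul_comm]
    exact Frame.two_half
  show ∑ k, vr k * δ (vr k) + ∑ k, vi k * δ (vi k) = 0
  calc ∑ k, vr k * δ (vr k) + ∑ k, vi k * δ (vi k) = (Frame.half * 2) *
      (∑ k, vr k * δ (vr k) + ∑ k, vi k * δ (vi k)) := by rw [h3, one_mul]
    _ = Frame.half * (2 * (∑ k, vr k * δ (vr k) + ∑ k, vi k * δ (vi k))) := by ring
    _ = 0 := by rw [h1, mul_zero]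

theorem alf_eq (k : Fin n) : alf h vr vi k =
    vr ⬝ᵥ (fun m => h.frameOf.D k (vi m)) - vi ⬝ᵥ (fun m => h.frameOf.D k (vr m)) := by
  rw [alf, Finset.sum_sub_distrib]
  rfl

/-- covariant derivative of the unit section. -/
theorem USec.cov (U : USec L z vr vi) (k : Fin n) :
    ((fun m => h.frameOf.D k (vr m)) + (gvec z e L.AR k *ᵥ vr - gvec z e L.AI k *ᵥ vi) =
      -(alf h vr vi k • vi)) ∧
    ((fun m => h.frameOf.D k (vi m)) + (gvec z e L.AR k *ᵥ vi + gvec z e L.AI k *ᵥ vr) =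
      alf h vr vi k • vr) := by
  rw [g_AR h L k, g_AI h L k, alf_eq h k]
  refine unit_alg vr vi _ _ U.hP (U.hB (h.frameOf.D k)) U.rg U.sg ?_ ?_
  · rw [U.rg, Crest.Agent.R249.Sg129.dM_add, dM_oo, dM_oo]
  · rw [U.sg, Crest.Agent.R249.Sg129.dM_sub, dM_oo, dM_oo]

/-- **local frames of the twisted bundle**. -/
theorem lf_tw {ι : Type} [Fintype ι] [DecidableEq ι]
    {a : Fin n → Matrix ι ι (SG (chartCentre n M z))} {j : Matrix κ ι (SG (chartCentre n M z))}
    (hL : LF D h a j) (hJ : PJ D J) (U : USec L z vr vi) :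
    LF (twB D J hJ L) h (fun k => a k + alf h vr vi k • (jᵀ * gmat (n := n) z J * j))
      (Psi (gmat (n := n) z J) j vr vi) where
  jtj := by
    have h1 := Psi_tr_mul (p := gmat (n := n) z D.p) (J := gmat (n := n) z J) hL.jtj (LF.pj h hL) (g_Jt hJ z)
      (g_JJ hJ z) vr vi vr vi
    rw [h1, U.one, one_smul]
    have h2 : ∑ k, (vr k * vi k - vi k * vr k) = 0 :=
      Finset.sum_eq_zero fun k _ => by ring
    rw [h2, zero_smul, add_zero]
  jjt := by
    have hjj : j * jᵀ = gmat (n := n) z D.p := hL.jjt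
    rw [Psi_mul_tr hjj (g_pJ hJ z) (g_Jp hJ z) (g_Jt hJ z) (g_JJ hJ z) vr vi]
    have h1 := g_pT hJ L z
    rw [U.rg, U.sg] at h1
    exact h1.symm
  dj k := by
    have hjj : j * jᵀ = gmat (n := n) z D.p := hL.jjt
    have hd : dM (h.frameOf.D k) j = j * a k - gvec z e D.W k * j := eq_sub_of_add_eq (hL.dj k)
    have hdJj : dM (h.frameOf.D k) (gmat (n := n) z J * j) =
        gmat (n := n) z J * (j * a k) - gvec z e D.W k * (gmat (n := n) z J * j) := by
      rw [Crest.Agent.R249.Sg129.dM_mul, g_dJ h hJ k, hd, Matrix.mul_sub, Matrix.neg_mul, Matrix.sub_mul,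
        Matrix.mul_assoc, Matrix.mul_assoc]
      abel
    have e1 : dM (h.frameOf.D k) (Psi (gmat (n := n) z J) j vr vi) =
        Psi (gmat (n := n) z J) j (fun m => h.frameOf.D k (vr m)) (fun m => h.frameOf.D k (vi m)) +
          Psi (gmat (n := n) z J) j vr vi * a k -
          gvec z e D.W k ⊗ₖ (1 : Matrix (Fin N) (Fin N) (SG (chartCentre n M z))) *
            Psi (gmat (n := n) z J) j vr vi := by
      rw [kron_one_Psi, Psi_mul]
      ext x i
      have f1 : h.frameOf.D k (j x.1 i) = (j * a k - gvec z e D.W k * j) x.1 i :=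
        congrFun (congrFun hd x.1) i
      have f2 : h.frameOf.D k ((gmat (n := n) z J * j) x.1 i) =
          (gmat (n := n) z J * (j * a k) - gvec z e D.W k * (gmat (n := n) z J * j)) x.1 i :=
        congrFun (congrFun hdJj x.1) i
      show h.frameOf.D k (vr x.2 * j x.1 i + vi x.2 * (gmat (n := n) z J * j) x.1 i) =
        (h.frameOf.D k (vr x.2) * j x.1 i + h.frameOf.D k (vi x.2) * (gmat (n := n) z J * j) x.1 i) +
        (vr x.2 * (j * a k) x.1 i + vi x.2 * (gmat (n := n) z J * (j * a k)) x.1 i) -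
        (vr x.2 * (gvec z e D.W k * j) x.1 i + vi x.2 * (gvec z e D.W k * (gmat (n := n) z J * j)) x.1 i)
      rw [map_add, Derivation.leibniz, Derivation.leibniz, f1, f2]
      simp only [Matrix.sub_apply, smul_eq_mul]
      ring
    have e2 : (Matrix.of fun x y => vg z e ((twB D J hJ L).W x y) k) = gvec z e (WT D J L) k := rfl
    obtain ⟨c1, c2⟩ := U.cov h k
    rw [e2, g_WT h hJ L k, Matrix.add_mul, e1, Phi_Psi (LF.pj h hL) (g_pJ hJ z) (g_JJ hJ z),
      Matrix.mul_add, Matrix.mul_smul, Psi_mul_U hjj (g_pJ hJ z) (LF.pj h hL) (g_JJ hJ z)]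
    have e3 : Psi (gmat (n := n) z J) j (fun m => h.frameOf.D k (vr m)) (fun m => h.frameOf.D k (vi m)) +
        Psi (gmat (n := n) z J) j (gvec z e L.AR k *ᵥ vr - gvec z e L.AI k *ᵥ vi)
          (gvec z e L.AR k *ᵥ vi + gvec z e L.AI k *ᵥ vr) =
        alf h vr vi k • Psi (gmat (n := n) z J) j (-vi) vr := by
      rw [Psi_add, c1, c2]
      ext x i
      simp only [Psi_apply, Matrix.smul_apply, Pi.neg_apply, Pi.smul_apply, smul_eq_mul]
      ring
    rw [← e3]
    abel

end local_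

end Crest.Agent.R235.LTw_453
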