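import Crest.Agent.R235.LTwB_453
import Crest.Agent.R249.DicC_129

/-!
Row 235, helper774, L-twist: germs of a local unit section of a complex line bundle `L : LD n M N`.
-/

set_option autoImplicit false
set_option maxSynthPendingDepth 3
set_option linter.unusedSectionVars false

open Filter Topology Set Bundle Manifold
open scoped ContDiff
open Crest.GeometryTopology.CoordMetric Crest.GeometryTopology.ChartCurvature
  Crest.GeometryTopology.PointedLimit
open Crest.Agent.R202.Tens Crest.Agent.R247.Bo84 Crest.Agent.R249.Vf281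
open Crest.Agent.R249.Fr129
open Crest.Agent.R249.Sg129 hiding fg ev_fg ev_fg_at fg_congr fg_eq_iff_at fg_const fg_zero fg_one
  fg_add_at fg_sub_at fg_neg_at fg_mul_at fg_smul_at fg_sum_at fg_add fg_sub fg_neg fg_mul fg_smul
  fg_sum
open Crest.Agent.R249.Tz805

noncomputable section

namespace Crest.Agent.R235.LTwSec_774

open Crest.Agent.R235.LTw_453

variable {n : ℕ} {M : Type*} [TopologicalSpace M] [ChartedSpace (EuclideanSpace ℝ (Fin n)) M]
  [IsManifold 𝓘(ℝ, EuclideanSpace ℝ (Fin n)) ∞ M]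
  [RiemannianBundle (fun x : M => TangentSpace 𝓘(ℝ, EuclideanSpace ℝ (Fin n)) x)]
  [IsContMDiffRiemannianBundle 𝓘(ℝ, EuclideanSpace ℝ (Fin n)) ∞ (EuclideanSpace ℝ (Fin n))
      (fun x : M => TangentSpace 𝓘(ℝ, EuclideanSpace ℝ (Fin n)) x)]

local notation "𝔼" => EuclideanSpace ℝ (Fin n)
local notation "𝓘E" => 𝓘(ℝ, EuclideanSpace ℝ (Fin n))

/-- the inverse square root of a positive function, as a germ. -/
theorem exists_rsqrt {z : M} {f : M → ℝ} (hf : ContMDiff 𝓘E 𝓘(ℝ, ℝ) ∞ f) (hp : 0 < f z) :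
    ∃ q : SG (chartCentre n M z), q * q * fg z f = 1 := by
  have h1 : ContDiffAt ℝ ∞ (inCh n z f) (chartCentre n M z) := sf (centre_mem z) hf
  have h2 : 0 < inCh n z f (chartCentre n M z) := by rw [inCh_centre]; exact hp
  have h3 : ContDiffAt ℝ ∞ (fun y => (Real.sqrt (inCh n z f y))⁻¹) (chartCentre n M z) :=
    (h1.sqrt h2.ne').inv (Real.sqrt_pos.2 h2).ne'
  refine ⟨germ _ h3, ?_⟩
  have h4 : (fg z f : SG (chartCentre n M z)) = germ (inCh n z f) h1 := tg_eq h1
  rw [h4, germ_mul h3 h3, germ_mul _ h1, ← germ_one, germ_eq_iff]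
  have h5 : ∀ᶠ y in 𝓝 (chartCentre n M z), 0 < inCh n z f y :=
    h1.continuousAt.eventually (lt_mem_nhds h2)
  filter_upwards [h5] with y hy
  have h6 : Real.sqrt (inCh n z f y) ≠ 0 := (Real.sqrt_pos.2 hy).ne'
  have h7 : Real.sqrt (inCh n z f y) * Real.sqrt (inCh n z f y) = inCh n z f y :=
    Real.mul_self_sqrt hy.le
  rw [← mul_inv, h7]
  exact inv_mul_cancel₀ hy.ne'

/-- **a germ of a unit section `v + i w` of the line bundle.** -/
theorem exists_sec {N : ℕ} (L : LD n M N) (z : M) :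
    ∃ v w : Fin N → SG (chartCentre n M z), ∑ a, (v a * v a + w a * w a) = 1 ∧
      (∀ a b, fg z (L.r a b) = v a * v b + w a * w b) ∧
      (∀ a b, fg z (L.s a b) = w a * v b - v a * w b) := by
  obtain ⟨m, hm⟩ : ∃ m, 0 < L.r m m z := by
    by_contra hc
    push Not at hc
    have h1 := L.tr z
    have h2 : ∑ a, L.r a a z ≤ 0 := Finset.sum_nonpos fun a _ => hc a
    linarith
  obtain ⟨q, hq⟩ := exists_rsqrt (L.smr m m) hm
  have e1 : ∀ a b, (fg z (L.r a m) : SG (chartCentre n M z)) * fg z (L.r b m) +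
      fg z (L.s a m) * fg z (L.s b m) = fg z (L.r m m) * fg z (L.r a b) := by
    intro a b
    rw [← fg_mul (L.smr _ _) (L.smr _ _), ← fg_mul (L.sms _ _) (L.sms _ _),
      ← fg_mul (L.smr _ _) (L.smr _ _)]
    have h1 : (fg z (fun x => L.r a m x * L.r b m x + L.s a m x * L.s b m x) :
        SG (chartCentre n M z)) = fg z (fun x => L.r a m x * L.r b m x) +
        fg z (fun x => L.s a m x * L.s b m x) :=
      fg_add ((L.smr _ _).mul (L.smr _ _)) ((L.sms _ _).mul (L.sms _ _))
    rw [← h1]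
    congr 1
    funext x
    exact L.rk1 a b m x
  have e2 : ∀ a b, (fg z (L.s a m) : SG (chartCentre n M z)) * fg z (L.r b m) -
      fg z (L.r a m) * fg z (L.s b m) = fg z (L.r m m) * fg z (L.s a b) := by
    intro a b
    rw [← fg_mul (L.sms _ _) (L.smr _ _), ← fg_mul (L.smr _ _) (L.sms _ _),
      ← fg_mul (L.smr _ _) (L.sms _ _)]
    have h1 : (fg z (fun x => L.s a m x * L.r b m x - L.r a m x * L.s b m x) :
        SG (chartCentre n M z)) = fg z (fun x => L.s a m x * L.r b m x) -
        fg z (fun x => L.r a m x * L.s b m x) :=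
      fg_sub ((L.sms _ _).mul (L.smr _ _)) ((L.smr _ _).mul (L.sms _ _))
    rw [← h1]
    congr 1
    funext x
    exact L.rk2 a b m x
  refine ⟨fun a => q * fg z (L.r a m), fun a => q * fg z (L.s a m), ?_, fun a b => ?_,
    fun a b => ?_⟩
  · have e3 : ∀ a, q * fg z (L.r a m) * (q * fg z (L.r a m)) +
        q * fg z (L.s a m) * (q * fg z (L.s a m)) = (fg z (L.r a a) : SG (chartCentre n M z)) := by
      intro a
      linear_combination (q * q) * e1 a a + fg z (L.r a a) * hq
    simp only [e3]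
    rw [← fg_sum Finset.univ fun a => L.smr a a, ← fg_one]
    congr 1
    funext x
    exact L.tr x
  · beta_reduce
    linear_combination (-(q * q)) * e1 a b - fg z (L.r a b) * hq
  · beta_reduce
    linear_combination (-(q * q)) * e2 a b - fg z (L.s a b) * hq

end Crest.Agent.R235.LTwSec_774
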