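import Crest.Agent.R235.Clif4_723

/-!
Row 235 (S0364), block FAM / RC, leaf LA4 (helper291; text by helper820): the alternating sum of four
Clifford multiplications of an abstract rank-four Clifford module is a multiple of the projection.
-/

set_option autoImplicit false
set_option linter.unusedSectionVars false

open Matrix

namespace Crest.Agent.R235.La4_291

section core

variable {κ : Type*} [Fintype κ] [DecidableEq κ]

theorem dot_mv (M : Matrix κ κ ℝ) (a b : κ → ℝ) : (M *ᵥ a) ⬝ᵥ b = a ⬝ᵥ (Mᵀ *ᵥ b) := by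
  rw [Matrix.dotProduct_mulVec, Matrix.vecMul_transpose]

theorem dot_skew {M : Matrix κ κ ℝ} (h : Mᵀ = -M) (u : κ → ℝ) : u ⬝ᵥ (M *ᵥ u) = 0 := by
  have h1 : (M *ᵥ u) ⬝ᵥ u = u ⬝ᵥ (Mᵀ *ᵥ u) := dot_mv M u u
  rw [h, Matrix.neg_mulVec, dotProduct_neg, dotProduct_comm] at h1
  linarith

theorem exists_unit {P : Matrix κ κ ℝ} (hPP : P * P = P) (h0 : P ≠ 0) :
    ∃ u : κ → ℝ, P *ᵥ u = u ∧ u ⬝ᵥ u = 1 := by
  have h1 : ∃ v, P *ᵥ v ≠ 0 := by
    by_contra hc
    push Not at hc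
    apply h0
    apply Matrix.ext_of_mulVec_single
    intro i
    rw [hc, Matrix.zero_mulVec]
  obtain ⟨v, hv⟩ := h1
  set w := P *ᵥ v with hw
  have h2 : 0 < w ⬝ᵥ w := by
    rcases (show 0 ≤ w ⬝ᵥ w from Finset.sum_nonneg fun i _ => mul_self_nonneg (w i)).lt_or_eq with
      h | h
    · exact h
    · exact absurd (dotProduct_self_eq_zero.1 h.symm) hv
  refine ⟨(Real.sqrt (w ⬝ᵥ w))⁻¹ • w, ?_, ?_⟩
  · rw [Matrix.mulVec_smul, hw, Matrix.mulVec_mulVec, hPP]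
  · rw [smul_dotProduct, dotProduct_smul, smul_eq_mul, smul_eq_mul, ← mul_assoc,
      ← mul_inv, Real.mul_self_sqrt h2.le, inv_mul_cancel₀ h2.ne']

theorem proj_zero {R : Matrix κ κ ℝ} (hT : Rᵀ = R) (hR : R * R = R) (ht : R.trace = 0) : R = 0 := by
  have h : (Rᴴ * R).trace = 0 := by
    rw [Matrix.conjTranspose_eq_transpose_of_trivial, hT, hR, ht]
  exact Matrix.trace_conjTranspose_mul_self_eq_zero_iff.1 h

/-- the projection to the span of an orthonormal family. -/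
def qq (v : Fin 4 → κ → ℝ) : Matrix κ κ ℝ := ∑ k, Matrix.vecMulVec (v k) (v k)

theorem qq_T (v : Fin 4 → κ → ℝ) : (qq v)ᵀ = qq v := by
  unfold qq
  rw [Matrix.transpose_sum]
  exact Finset.sum_congr rfl fun k _ => by rw [Matrix.transpose_vecMulVec]

theorem qq_mul (v : Fin 4 → κ → ℝ) (hv : ∀ k l, v k ⬝ᵥ v l = if k = l then 1 else 0) :
    qq v * qq v = qq v := by
  unfold qq
  rw [Finset.sum_mul]
  refine Finset.sum_congr rfl fun k _ => ?_
  rw [Finset.mul_sum, Finset.sum_eq_single k]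
  · rw [Matrix.vecMulVec_mul_vecMulVec, hv, if_pos rfl, one_smul]
  · intro l _ hl
    rw [Matrix.vecMulVec_mul_vecMulVec, hv, if_neg (Ne.symm hl), zero_smul]
    simp
  · intro h
    exact absurd (Finset.mem_univ _) h

theorem qq_trace (v : Fin 4 → κ → ℝ) (hv : ∀ k l, v k ⬝ᵥ v l = if k = l then 1 else 0) :
    (qq v).trace = 4 := by
  unfold qq
  rw [Matrix.trace_sum]
  rw [Finset.sum_congr rfl fun k _ => by rw [Matrix.trace_vecMulVec, hv, if_pos rfl]]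
  simp

theorem qq_left (M : Matrix κ κ ℝ) (v : Fin 4 → κ → ℝ) (c : ℝ) (h : ∀ k, M *ᵥ v k = c • v k) :
    M * qq v = c • qq v := by
  unfold qq
  rw [Finset.mul_sum, Finset.smul_sum]
  refine Finset.sum_congr rfl fun k _ => ?_
  rw [Matrix.mul_vecMulVec, h, Matrix.smul_vecMulVec]

theorem qq_mv (v : Fin 4 → κ → ℝ) (x : κ → ℝ) : qq v *ᵥ x = ∑ k, (v k ⬝ᵥ x) • v k := by
  unfold qq
  rw [Matrix.sum_mulVec]
  refine Finset.sum_congr rfl fun k _ => ?_
  rw [Matrix.vecMulVec_mulVec]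
  simp

/-- the quaternionic core: a rank four projection, three anticommuting complex structures. -/
theorem quat {P I J K : Matrix κ κ ℝ} (hPT : Pᵀ = P) (hPP : P * P = P) (ht : P.trace = 4)
    (IT : Iᵀ = -I) (JT : Jᵀ = -J) (KT : Kᵀ = -K) (II : I * I = -P) (JJ : J * J = -P)
    (KK : K * K = -P) (IP : I * P = I) (PI : P * I = I) (JP : J * P = J) (PJ : P * J = J)
    (KP : K * P = K) (PK : P * K = K) (IJ : I * J = -(J * I)) (JK : J * K = -(K * J))
    (IK : I * K = -(K * I)) : ∃ r : ℝ, I * J * K = r • P := by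
  have P0 : P ≠ 0 := by
    intro h
    rw [h, Matrix.trace_zero] at ht
    norm_num at ht
  obtain ⟨u, hu, huu⟩ := exists_unit hPP P0
  have JI : J * I = -(I * J) := by rw [IJ, neg_neg]
  have KJ : K * J = -(J * K) := by rw [JK, neg_neg]
  have KI : K * I = -(I * K) := by rw [IK, neg_neg]
  -- the volume element
  set ω : Matrix κ κ ℝ := I * J * K with hω
  have ωT : ωᵀ = ω := by
    rw [hω, Matrix.transpose_mul, Matrix.transpose_mul, IT, JT, KT]
    calc -K * (-J * -I) = -(K * J * I) := by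
          simp only [Matrix.neg_mul, Matrix.mul_neg, neg_neg, Matrix.mul_assoc]
      _ = I * J * K := by
          rw [KJ, Matrix.neg_mul, neg_neg, Matrix.mul_assoc, KI, Matrix.mul_neg, ← Matrix.mul_assoc,
            JI, Matrix.neg_mul, neg_neg]
  have ωI : ω * I = I * ω := by
    calc ω * I = I * J * (K * I) := by rw [hω, Matrix.mul_assoc]
      _ = -(I * (J * I) * K) := by
          rw [KI, Matrix.mul_neg]
          simp only [Matrix.mul_assoc]
      _ = I * ω := by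
          rw [JI, Matrix.mul_neg, Matrix.neg_mul, neg_neg, hω]
          simp only [Matrix.mul_assoc]
  have ωJ : ω * J = J * ω := by
    calc ω * J = I * J * (K * J) := by rw [hω, Matrix.mul_assoc]
      _ = -(I * J * J * K) := by
          rw [KJ, Matrix.mul_neg]
          simp only [Matrix.mul_assoc]
      _ = J * ω := by
          rw [IJ, Matrix.neg_mul, Matrix.neg_mul, neg_neg, hω]
          simp only [Matrix.mul_assoc]
  have ωK : ω * K = K * ω := by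
    calc ω * K = I * J * K * K := by rw [hω]
      _ = K * ω := by
          rw [hω, ← Matrix.mul_assoc, ← Matrix.mul_assoc, KI, Matrix.neg_mul, Matrix.neg_mul,
            Matrix.mul_assoc I K J, KJ, Matrix.mul_neg, Matrix.neg_mul, neg_neg]
          simp only [Matrix.mul_assoc]
  have ωP : ω * P = ω := by rw [hω, Matrix.mul_assoc, KP]
  have Pω : P * ω = ω := by
    rw [hω, ← Matrix.mul_assoc, ← Matrix.mul_assoc, PI]
  -- skew products
  have sIJ : (I * J)ᵀ = -(I * J) := by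
    rw [Matrix.transpose_mul, IT, JT, Matrix.neg_mul, Matrix.mul_neg, neg_neg, JI]
  have sIK : (I * K)ᵀ = -(I * K) := by
    rw [Matrix.transpose_mul, IT, KT, Matrix.neg_mul, Matrix.mul_neg, neg_neg, KI]
  have sJK : (J * K)ᵀ = -(J * K) := by
    rw [Matrix.transpose_mul, JT, KT, Matrix.neg_mul, Matrix.mul_neg, neg_neg, KJ]
  have sIω : (I * ω)ᵀ = -(I * ω) := by
    rw [Matrix.transpose_mul, IT, ωT, Matrix.mul_neg, ωI]
  have sJω : (J * ω)ᵀ = -(J * ω) := by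
    rw [Matrix.transpose_mul, JT, ωT, Matrix.mul_neg, ωJ]
  have sKω : (K * ω)ᵀ = -(K * ω) := by
    rw [Matrix.transpose_mul, KT, ωT, Matrix.mul_neg, ωK]
  -- dot products
  have key : ∀ {A B : Matrix κ κ ℝ}, Aᵀ = -A → (A *ᵥ u) ⬝ᵥ (B *ᵥ u) = -(u ⬝ᵥ ((A * B) *ᵥ u)) := by
    intro A B hA
    rw [dot_mv, hA, Matrix.neg_mulVec, dotProduct_neg, Matrix.mulVec_mulVec]
  have uI : u ⬝ᵥ (I *ᵥ u) = 0 := dot_skew IT u
  have uJ : u ⬝ᵥ (J *ᵥ u) = 0 := dot_skew JT u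
  have uK : u ⬝ᵥ (K *ᵥ u) = 0 := dot_skew KT u
  have dII : (I *ᵥ u) ⬝ᵥ (I *ᵥ u) = 1 := by
    rw [key IT, II, Matrix.neg_mulVec, dotProduct_neg, neg_neg, hu, huu]
  have dJJ : (J *ᵥ u) ⬝ᵥ (J *ᵥ u) = 1 := by
    rw [key JT, JJ, Matrix.neg_mulVec, dotProduct_neg, neg_neg, hu, huu]
  have dKK : (K *ᵥ u) ⬝ᵥ (K *ᵥ u) = 1 := by
    rw [key KT, KK, Matrix.neg_mulVec, dotProduct_neg, neg_neg, hu, huu]
  have dIJ : (I *ᵥ u) ⬝ᵥ (J *ᵥ u) = 0 := by rw [key IT, dot_skew sIJ, neg_zero]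
  have dIK : (I *ᵥ u) ⬝ᵥ (K *ᵥ u) = 0 := by rw [key IT, dot_skew sIK, neg_zero]
  have dJK : (J *ᵥ u) ⬝ᵥ (K *ᵥ u) = 0 := by rw [key JT, dot_skew sJK, neg_zero]
  set v : Fin 4 → κ → ℝ := ![u, I *ᵥ u, J *ᵥ u, K *ᵥ u] with hv
  have hon : ∀ k l, v k ⬝ᵥ v l = if k = l then 1 else 0 := by
    intro k l
    fin_cases k <;> fin_cases l
    · simpa [hv] using huu
    · simpa [hv] using uI
    · simpa [hv] using uJ
    · simpa [hv] using uK
    · simpa [hv, dotProduct_comm] using uI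
    · simpa [hv] using dII
    · simpa [hv] using dIJ
    · simpa [hv] using dIK
    · simpa [hv, dotProduct_comm] using uJ
    · simpa [hv, dotProduct_comm] using dIJ
    · simpa [hv] using dJJ
    · simpa [hv] using dJK
    · simpa [hv, dotProduct_comm] using uK
    · simpa [hv, dotProduct_comm] using dIK
    · simpa [hv, dotProduct_comm] using dJK
    · simpa [hv] using dKK
  have hPv : ∀ k, P *ᵥ v k = (1 : ℝ) • v k := by
    intro k
    rw [one_smul]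
    fin_cases k
    · simpa [hv] using hu
    · simp [hv, Matrix.mulVec_mulVec, PI]
    · simp [hv, Matrix.mulVec_mulVec, PJ]
    · simp [hv, Matrix.mulVec_mulVec, PK]
  have Pq : P * qq v = qq v := by rw [qq_left P v 1 hPv, one_smul]
  have qP : qq v * P = qq v := by
    have := congrArg Matrix.transpose Pq
    rwa [Matrix.transpose_mul, qq_T, hPT] at this
  have hq : P = qq v := by
    have hz : P - qq v = 0 := by
      apply proj_zero
      · rw [Matrix.transpose_sub, hPT, qq_T]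
      · rw [Matrix.sub_mul, Matrix.mul_sub, Matrix.mul_sub, hPP, Pq, qP, qq_mul v hon, sub_self,
          sub_zero]
      · rw [Matrix.trace_sub, ht, qq_trace v hon, sub_self]
    exact sub_eq_zero.1 hz
  -- ω u = λ u
  set r : ℝ := u ⬝ᵥ (ω *ᵥ u) with hr
  have hωu : ω *ᵥ u = r • u := by
    have h1 : ω *ᵥ u = qq v *ᵥ (ω *ᵥ u) := by
      rw [← hq, Matrix.mulVec_mulVec, Pω]
    rw [h1, qq_mv, Fin.sum_univ_four]
    have e1 : v 1 ⬝ᵥ (ω *ᵥ u) = 0 := by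
      have : v 1 = I *ᵥ u := by simp [hv]
      rw [this, key IT, dot_skew sIω, neg_zero]
    have e2 : v 2 ⬝ᵥ (ω *ᵥ u) = 0 := by
      have : v 2 = J *ᵥ u := by simp [hv]
      rw [this, key JT, dot_skew sJω, neg_zero]
    have e3 : v 3 ⬝ᵥ (ω *ᵥ u) = 0 := by
      have : v 3 = K *ᵥ u := by simp [hv]
      rw [this, key KT, dot_skew sKω, neg_zero]
    have e0 : v 0 = u := by simp [hv]
    rw [e1, e2, e3, e0]
    simp [hr]
  have hωv : ∀ k, ω *ᵥ v k = r • v k := by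
    intro k
    fin_cases k
    · simpa [hv] using hωu
    · have : ω *ᵥ (I *ᵥ u) = r • (I *ᵥ u) := by
        rw [Matrix.mulVec_mulVec, ωI, ← Matrix.mulVec_mulVec, hωu, Matrix.mulVec_smul]
      simpa [hv] using this
    · have : ω *ᵥ (J *ᵥ u) = r • (J *ᵥ u) := by
        rw [Matrix.mulVec_mulVec, ωJ, ← Matrix.mulVec_mulVec, hωu, Matrix.mulVec_smul]
      simpa [hv] using this
    · have : ω *ᵥ (K *ᵥ u) = r • (K *ᵥ u) := by
        rw [Matrix.mulVec_mulVec, ωK, ← Matrix.mulVec_mulVec, hωu, Matrix.mulVec_smul]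
      simpa [hv] using this
  refine ⟨r, ?_⟩
  calc ω = ω * P := ωP.symm
    _ = ω * qq v := by rw [← hq]
    _ = r • qq v := qq_left ω v r hωv
    _ = r • P := by rw [← hq]

end core

section cliff

variable {κ0 κ1 : Type*} [Fintype κ0] [DecidableEq κ0] [Fintype κ1] [DecidableEq κ1]

theorem vol {C : Fin 4 → Matrix κ1 κ0 ℝ} {p0 : Matrix κ0 κ0 ℝ} {p1 : Matrix κ1 κ1 ℝ}
    (s0 : p0ᵀ = p0) (s1 : p1ᵀ = p1) (i0 : p0 * p0 = p0) (cp : ∀ i, C i * p0 = C i)
    (pc : ∀ i, p1 * C i = C i) (h0 : ∀ i, (C i)ᵀ * C i = p0) (h1 : ∀ i, C i * (C i)ᵀ = p1)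
    (a0 : ∀ i j, i ≠ j → (C i)ᵀ * C j = -((C j)ᵀ * C i))
    (a1 : ∀ i j, i ≠ j → C i * (C j)ᵀ = -(C j * (C i)ᵀ)) (t0 : p0.trace = 4) :
    ∃ r : ℝ, (C 0)ᵀ * C 1 * (C 2)ᵀ * C 3 = r • p0 ∧ C 0 * (C 1)ᵀ * C 2 * (C 3)ᵀ = (-r) • p1 := by
  have pD : ∀ i, p0 * (C i)ᵀ = (C i)ᵀ := by
    intro i
    have := congrArg Matrix.transpose (cp i)
    rwa [Matrix.transpose_mul, s0] at this
  have Dp : ∀ i, (C i)ᵀ * p1 = (C i)ᵀ := by
    intro i
    have := congrArg Matrix.transpose (pc i)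
    rwa [Matrix.transpose_mul, s1] at this
  have AT : ∀ i, i ≠ 0 → ((C 0)ᵀ * C i)ᵀ = -((C 0)ᵀ * C i) := by
    intro i hi
    rw [Matrix.transpose_mul, Matrix.transpose_transpose, a0 i 0 hi]
  have AB : ∀ i j, i ≠ 0 → ((C 0)ᵀ * C i) * ((C 0)ᵀ * C j) = -((C i)ᵀ * C j) := by
    intro i j hi
    calc ((C 0)ᵀ * C i) * ((C 0)ᵀ * C j) = (C 0)ᵀ * (C i * (C 0)ᵀ) * C j := by
          simp only [Matrix.mul_assoc]
      _ = -((C 0)ᵀ * C 0 * (C i)ᵀ * C j) := by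
          rw [a1 i 0 hi]
          simp only [Matrix.mul_assoc, Matrix.mul_neg, Matrix.neg_mul]
      _ = -((C i)ᵀ * C j) := by rw [h0, pD]
  have AA : ∀ i, i ≠ 0 → ((C 0)ᵀ * C i) * ((C 0)ᵀ * C i) = -p0 := by
    intro i hi
    rw [AB i i hi, h0]
  have AN : ∀ i j, i ≠ 0 → j ≠ 0 → i ≠ j → ((C 0)ᵀ * C i) * ((C 0)ᵀ * C j) =
      -(((C 0)ᵀ * C j) * ((C 0)ᵀ * C i)) := by
    intro i j hi hj hij
    rw [AB i j hi, AB j i hj, a0 i j hij]
  obtain ⟨r, hr⟩ := quat (P := p0) (I := (C 0)ᵀ * C 1) (J := (C 0)ᵀ * C 2) (K := (C 0)ᵀ * C 3)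
    s0 i0 t0 (AT 1 (by decide)) (AT 2 (by decide)) (AT 3 (by decide)) (AA 1 (by decide))
    (AA 2 (by decide)) (AA 3 (by decide)) (by rw [Matrix.mul_assoc, cp])
    (by rw [← Matrix.mul_assoc, pD]) (by rw [Matrix.mul_assoc, cp])
    (by rw [← Matrix.mul_assoc, pD]) (by rw [Matrix.mul_assoc, cp])
    (by rw [← Matrix.mul_assoc, pD]) (AN 1 2 (by decide) (by decide) (by decide))
    (AN 2 3 (by decide) (by decide) (by decide)) (AN 1 3 (by decide) (by decide) (by decide))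
  have hω : (C 0)ᵀ * C 1 * (C 2)ᵀ * C 3 = (-r) • p0 := by
    rw [neg_smul, ← hr, Matrix.mul_assoc ((C 0)ᵀ * C 1) ((C 0)ᵀ * C 2), AB 2 3 (by decide),
      Matrix.mul_neg, neg_neg]
    simp only [Matrix.mul_assoc]
  refine ⟨-r, hω, ?_⟩
  -- `C 3 * ω = - ω₁ * C 3`
  have e : C 3 * ((C 0)ᵀ * C 1 * (C 2)ᵀ * C 3) = -(C 0 * (C 1)ᵀ * C 2 * (C 3)ᵀ * C 3) := by
    calc C 3 * ((C 0)ᵀ * C 1 * (C 2)ᵀ * C 3) = C 3 * (C 0)ᵀ * C 1 * (C 2)ᵀ * C 3 := by
          simp only [Matrix.mul_assoc]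
      _ = -(C 0 * ((C 3)ᵀ * C 1) * (C 2)ᵀ * C 3) := by
          rw [a1 3 0 (by decide)]
          simp only [Matrix.mul_assoc, Matrix.neg_mul]
      _ = C 0 * (C 1)ᵀ * (C 3 * (C 2)ᵀ) * C 3 := by
          rw [a0 3 1 (by decide)]
          simp only [Matrix.mul_assoc, Matrix.neg_mul, Matrix.mul_neg, neg_neg]
      _ = -(C 0 * (C 1)ᵀ * C 2 * (C 3)ᵀ * C 3) := by
          rw [a1 3 2 (by decide)]
          simp only [Matrix.mul_assoc, Matrix.neg_mul, Matrix.mul_neg]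
  rw [hω, Matrix.mul_smul, cp] at e
  have e2 := congrArg (fun X => X * (C 3)ᵀ) e
  simp only [Matrix.smul_mul, Matrix.neg_mul] at e2
  rw [h1, Matrix.mul_assoc (C 0 * (C 1)ᵀ * C 2 * (C 3)ᵀ), h1,
    Matrix.mul_assoc (C 0 * (C 1)ᵀ * C 2) (C 3)ᵀ p1, Dp] at e2
  rw [neg_smul, e2, neg_neg]

end cliff

section main

open Crest.Agent.R235.RC7_723

variable {κ0 κ1 : Type*} [Fintype κ0] [DecidableEq κ0] [Fintype κ1] [DecidableEq κ1]

/-- **LA4** (text by helper820). -/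
theorem la4 (c : EuclideanSpace ℝ (Fin 4) →ₗ[ℝ] Matrix κ1 κ0 ℝ)
    (p0 : Matrix κ0 κ0 ℝ) (p1 : Matrix κ1 κ1 ℝ) (s0 : p0ᵀ = p0) (s1 : p1ᵀ = p1)
    (i0 : p0 * p0 = p0) (i1 : p1 * p1 = p1) (cp : ∀ X, c X * p0 = c X)
    (pc : ∀ X, p1 * c X = c X)
    (cl0 : ∀ X Y, (c X)ᵀ * c Y + (c Y)ᵀ * c X = (2 * inner ℝ X Y) • p0)
    (cl1 : ∀ X Y, c X * (c Y)ᵀ + c Y * (c X)ᵀ = (2 * inner ℝ X Y) • p1)
    (t0 : p0.trace = 4) (X : Fin 4 → EuclideanSpace ℝ (Fin 4)) :
    ∃ r : ℝ, (∑ σ : Equiv.Perm (Fin 4), ((Equiv.Perm.sign σ : ℤ) : ℝ) •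
        ((c (X (σ 0)))ᵀ * c (X (σ 1)) * (c (X (σ 2)))ᵀ * c (X (σ 3)))) = r • p0 ∧
      (∑ σ : Equiv.Perm (Fin 4), ((Equiv.Perm.sign σ : ℤ) : ℝ) •
        (c (X (σ 0)) * (c (X (σ 1)))ᵀ * c (X (σ 2)) * (c (X (σ 3)))ᵀ)) = (-r) • p1 := by
  set C : Fin 4 → Matrix κ1 κ0 ℝ := fun i => c (EuclideanSpace.single i (1 : ℝ)) with hC
  have hin : ∀ i j : Fin 4, inner ℝ (EuclideanSpace.single i (1 : ℝ) : EuclideanSpace ℝ (Fin 4))
      (EuclideanSpace.single j (1 : ℝ)) = if i = j then 1 else 0 := by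
    intro i j
    simp [EuclideanSpace.inner_single_left, Pi.single_apply]
  have hX : ∀ i, c (X i) = dd C (fun k => X i k) := by
    intro i
    have : X i = ∑ k, X i k • (EuclideanSpace.single k (1 : ℝ) : EuclideanSpace ℝ (Fin 4)) := by
      ext l
      simp [Pi.single_apply]
    conv_lhs => rw [this]
    rw [map_sum]
    unfold dd
    exact Finset.sum_congr rfl fun k _ => by rw [map_smul]
  have hXT : ∀ i, (c (X i))ᵀ = dd (fun i => (C i)ᵀ) (fun k => X i k) := by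
    intro i
    rw [hX]
    unfold dd
    rw [Matrix.transpose_sum]
    exact Finset.sum_congr rfl fun k _ => by rw [Matrix.transpose_smul]
  have h0 : ∀ i, (C i)ᵀ * C i = p0 := by
    intro i
    have := cl0 (EuclideanSpace.single i (1 : ℝ)) (EuclideanSpace.single i (1 : ℝ))
    rw [hin, if_pos rfl, ← two_smul ℝ, mul_one] at this
    exact smul_right_injective _ (two_ne_zero' ℝ) this
  have h1 : ∀ i, C i * (C i)ᵀ = p1 := by
    intro i
    have := cl1 (EuclideanSpace.single i (1 : ℝ)) (EuclideanSpace.single i (1 : ℝ))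
    rw [hin, if_pos rfl, ← two_smul ℝ, mul_one] at this
    exact smul_right_injective _ (two_ne_zero' ℝ) this
  have a0 : ∀ i j, i ≠ j → (C i)ᵀ * C j = -((C j)ᵀ * C i) := by
    intro i j hij
    have := cl0 (EuclideanSpace.single i (1 : ℝ)) (EuclideanSpace.single j (1 : ℝ))
    rw [hin, if_neg hij, mul_zero, zero_smul] at this
    exact eq_neg_of_add_eq_zero_left this
  have a1 : ∀ i j, i ≠ j → C i * (C j)ᵀ = -(C j * (C i)ᵀ) := by
    intro i j hij
    have := cl1 (EuclideanSpace.single i (1 : ℝ)) (EuclideanSpace.single j (1 : ℝ))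
    rw [hin, if_neg hij, mul_zero, zero_smul] at this
    exact eq_neg_of_add_eq_zero_left this
  have hv : ∀ σ : Equiv.Perm (Fin 4), ∃ r : ℝ,
      (C (σ 0))ᵀ * C (σ 1) * (C (σ 2))ᵀ * C (σ 3) = r • p0 ∧
      C (σ 0) * (C (σ 1))ᵀ * C (σ 2) * (C (σ 3))ᵀ = (-r) • p1 := fun σ =>
    vol (C := fun i => C (σ i)) s0 s1 i0 (fun i => cp _) (fun i => pc _) (fun i => h0 _)
      (fun i => h1 _) (fun i j hij => a0 _ _ fun h => hij (σ.injective h))
      (fun i j hij => a1 _ _ fun h => hij (σ.injective h)) t0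
  choose r hr0 hr1 using hv
  refine ⟨(Matrix.of fun i k => X i k).det * ∑ σ : Equiv.Perm (Fin 4),
    ((Equiv.Perm.sign σ : ℤ) : ℝ) * r σ, ?_, ?_⟩
  · have e := alt4_dd (fun i => (C i)ᵀ) C (fun i k => X i k)
    simp only [← hX, ← hXT] at e
    unfold alt4 at e
    refine e.trans ?_
    rw [mul_smul]
    congr 1
    rw [Finset.sum_smul]
    refine Finset.sum_congr rfl fun σ _ => ?_
    rw [mul_smul, ← hr0]
  · have e := alt4_dd C (fun i => (C i)ᵀ) (fun i k => X i k)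
    simp only [← hX, ← hXT] at e
    unfold alt4 at e
    refine e.trans ?_
    rw [← mul_neg, mul_smul]
    congr 1
    rw [← Finset.sum_neg_distrib, Finset.sum_smul]
    refine Finset.sum_congr rfl fun σ _ => ?_
    rw [← mul_neg, mul_smul, ← hr1]

end main

end Crest.Agent.R235.La4_291
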