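import Mathlib

/-!
Row 235, package LAT, file A: metabolic symmetric bilinear forms over a field.
-/

open Module

namespace Crest.Agent.R235.LatA_283

open LinearMap (BilinForm)

variable {K : Type*} [Field K]
variable {V : Type*} [AddCommGroup V] [Module K V]
variable {V' : Type*} [AddCommGroup V'] [Module K V']
variable {V'' : Type*} [AddCommGroup V''] [Module K V'']

/-- `B` has a Lagrangian subspace. -/
def Met (B : BilinForm K V) : Prop :=
  ∃ N : Submodule K V, 2 * finrank K N = finrank K V ∧ ∀ x ∈ N, ∀ y ∈ N, B x y = 0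

/-- orthogonal sum -/
def oplus (B : BilinForm K V) (B' : BilinForm K V') : BilinForm K (V × V') :=
  LinearMap.mk₂ K (fun x y => B x.1 y.1 + B' x.2 y.2)
    (by intros; simp; ring) (by intros; simp; ring)
    (by intros; simp; ring) (by intros; simp; ring)

@[simp] lemma oplus_apply (B : BilinForm K V) (B' : BilinForm K V') (x y : V × V') :
    oplus B B' x y = B x.1 y.1 + B' x.2 y.2 := rfl

/-- diagonal form -/
def diagB {ι : Type*} [Fintype ι] (d : ι → K) : BilinForm K (ι → K) :=
  LinearMap.mk₂ K (fun x y => ∑ i, d i * x i * y i)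
    (by intros; simp [mul_add, add_mul, Finset.sum_add_distrib])
    (by intros; simp [Finset.mul_sum]; refine Finset.sum_congr rfl fun i _ => by ring)
    (by intros; simp [mul_add, Finset.sum_add_distrib])
    (by intros; simp [Finset.mul_sum]; refine Finset.sum_congr rfl fun i _ => by ring)

@[simp] lemma diagB_apply {ι : Type*} [Fintype ι] (d : ι → K) (x y : ι → K) :
    diagB d x y = ∑ i, d i * x i * y i := rfl

/-- isometry -/
def Iso (B : BilinForm K V) (B' : BilinForm K V') : Prop :=
  ∃ e : V ≃ₗ[K] V', ∀ x y, B' (e x) (e y) = B x y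

lemma Iso.refl (B : BilinForm K V) : Iso B B := ⟨LinearEquiv.refl K V, fun _ _ => rfl⟩

lemma Iso.symm {B : BilinForm K V} {B' : BilinForm K V'} (h : Iso B B') : Iso B' B := by
  obtain ⟨e, he⟩ := h
  exact ⟨e.symm, fun x y => by rw [← he]; simp⟩

lemma Iso.trans {B : BilinForm K V} {B' : BilinForm K V'} {B'' : BilinForm K V''}
    (h : Iso B B') (h' : Iso B' B'') : Iso B B'' := by
  obtain ⟨e, he⟩ := h
  obtain ⟨f, hf⟩ := h'
  exact ⟨e.trans f, fun x y => by simp [hf, he]⟩

lemma Met.iso {B : BilinForm K V} {B' : BilinForm K V'} (h : Met B) (e : Iso B B') : Met B' := by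
  obtain ⟨N, hN, hB⟩ := h
  obtain ⟨e, he⟩ := e
  refine ⟨N.map (e : V →ₗ[K] V'), ?_, ?_⟩
  · rw [LinearEquiv.finrank_map_eq, hN, LinearEquiv.finrank_eq e]
  · rintro _ ⟨x, hx, rfl⟩ _ ⟨y, hy, rfl⟩
    simpa [he] using hB x hx y hy

lemma finrank_sprod [FiniteDimensional K V] [FiniteDimensional K V']
    (N : Submodule K V) (N' : Submodule K V') :
    finrank K (N.prod N') = finrank K N + finrank K N' := by
  have h : N.prod N' = LinearMap.range (N.subtype.prodMap N'.subtype) := by
    rw [LinearMap.range_prodMap]; simp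
  rw [h, LinearMap.finrank_range_of_inj, finrank_prod]
  exact Prod.map_injective.2 ⟨N.subtype_injective, N'.subtype_injective⟩

lemma Met.oplus [FiniteDimensional K V] [FiniteDimensional K V']
    {B : BilinForm K V} {B' : BilinForm K V'} (h : Met B) (h' : Met B') :
    Met (oplus B B') := by
  obtain ⟨N, hN, hB⟩ := h
  obtain ⟨N', hN', hB'⟩ := h'
  refine ⟨N.prod N', ?_, ?_⟩
  · rw [finrank_sprod, finrank_prod]; omega
  · rintro x ⟨hx1, hx2⟩ y ⟨hy1, hy2⟩
    simp [hB _ hx1 _ hy1, hB' _ hx2 _ hy2]

lemma oplus_symm {B : BilinForm K V} {B' : BilinForm K V'} (h : B.IsSymm) (h' : B'.IsSymm) :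
    (LatA_283.oplus B B').IsSymm :=
  ⟨fun x y => by simp [h.eq x.1 y.1, h'.eq x.2 y.2]⟩

lemma diagB_symm {ι : Type*} [Fintype ι] (d : ι → K) : (diagB d).IsSymm :=
  ⟨fun x y => by simp; exact Finset.sum_congr rfl fun i _ => by ring⟩

/-- left-nondegeneracy, elementary form -/
def ND (B : BilinForm K V) : Prop := ∀ x, (∀ y, B x y = 0) → x = 0

lemma ND.nondegenerate {B : BilinForm K V} (h : ND B) (hs : B.IsSymm) : B.Nondegenerate :=
  ⟨h, fun y hy => h y fun x => by rw [← hs.eq]; exact hy x⟩

lemma ND.oplus {B : BilinForm K V} {B' : BilinForm K V'} (h : ND B) (h' : ND B') :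
    ND (LatA_283.oplus B B') := by
  intro x hx
  ext
  · exact h _ fun y => by simpa using hx (y, 0)
  · exact h' _ fun y => by simpa using hx (0, y)

lemma diagB_nd {ι : Type*} [Fintype ι] (d : ι → K) (hd : ∀ i, d i ≠ 0) : ND (diagB d) := by
  classical
  intro x hx
  ext i
  have := hx (Pi.single i 1)
  simp [Pi.single_apply] at this
  rcases this with h | h
  · exact absurd h (hd i)
  · simpa using h

/-- Lagrangian = its own orthogonal -/
lemma orth_eq [FiniteDimensional K V] {B : BilinForm K V} (hs : B.IsSymm) (hn : ND B)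
    {N : Submodule K V} (hN : 2 * finrank K N = finrank K V)
    (h : ∀ x ∈ N, ∀ y ∈ N, B x y = 0) : B.orthogonal N = N := by
  symm
  apply Submodule.eq_of_le_of_finrank_eq
  · intro x hx y hy
    exact h y hy x hx
  · rw [LinearMap.BilinForm.finrank_orthogonal (hn.nondegenerate hs)]; omega

/-- isotropic subspaces have at most half the dimension -/
lemma isotropic_le [FiniteDimensional K V] {B : BilinForm K V} (hs : B.IsSymm) (hn : ND B)
    {N : Submodule K V} 
    (h : ∀ x ∈ N, ∀ y ∈ N, B x y = 0) : 2 * finrank K N ≤ finrank K V := by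
  have h1 : N ≤ B.orthogonal N := fun x hx y hy => h y hy x hx
  have h2 := Submodule.finrank_mono h1
  rw [LinearMap.BilinForm.finrank_orthogonal (hn.nondegenerate hs)] at h2
  have := Submodule.finrank_le N
  omega

/-- **Cancellation** of metabolic summands. -/
lemma Met.cancel [FiniteDimensional K V] [FiniteDimensional K V']
    {B : BilinForm K V} {B' : BilinForm K V'} (hs : B.IsSymm) (hn : ND B)
    (hs' : B'.IsSymm) (hn' : ND B')
    (h : Met (LatA_283.oplus B B')) (h' : Met B') : Met B := by
  obtain ⟨L, hL, hLB⟩ := h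
  obtain ⟨N, hN, hNB⟩ := h'
  set C := LatA_283.oplus B B' with hC
  have hCs : C.IsSymm := oplus_symm hs hs'
  have hCn : ND C := hn.oplus hn'
  -- N embedded
  set N0 : Submodule K (V × V') := Submodule.prod ⊥ N with hN0
  set N1 : Submodule K (V × V') := Submodule.prod ⊤ N with hN1
  have hfp : finrank K (V × V') = finrank K V + finrank K V' := finrank_prod
  have e0 : finrank K N0 = finrank K N := by rw [hN0, finrank_sprod]; simp
  have e1 : finrank K N1 = finrank K V + finrank K N := by rw [hN1, finrank_sprod]; simp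
  have hLo : C.orthogonal L = L := orth_eq hCs hCn hL hLB
  have hNo : C.orthogonal N0 = N1 := by
    symm
    apply Submodule.eq_of_le_of_finrank_eq
    · rintro x ⟨-, hx⟩ y ⟨hy1, hy2⟩
      have hy1' : y.1 = 0 := by simpa using hy1
      show C y x = 0
      simp [hC, hy1', hNB _ hy2 _ hx]
    · rw [LinearMap.BilinForm.finrank_orthogonal (hCn.nondegenerate hCs), e1, e0]; omega
  have hsup : C.orthogonal (L ⊔ N0) = L ⊓ N1 := by
    apply le_antisymm
    · refine le_inf ?_ ?_
      · conv_rhs => rw [← hLo]
        exact LinearMap.BilinForm.orthogonal_le le_sup_left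
      · rw [← hNo]
        exact LinearMap.BilinForm.orthogonal_le le_sup_right
    · intro x hx y hy
      obtain ⟨a, ha, b, hb, rfl⟩ := Submodule.mem_sup.1 hy
      have h1 : C a x = 0 := hLB a ha x hx.1
      have h2 : x ∈ C.orthogonal N0 := by rw [hNo]; exact hx.2
      have h3 : C b x = 0 := h2 b hb
      show C (a + b) x = 0
      rw [map_add, LinearMap.add_apply, h1, h3, add_zero]
  -- the projection
  set P : Submodule K V := (L ⊓ N1).map (LinearMap.fst K V V') with hP
  refine ⟨P, ?_, ?_⟩
  · -- dimension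
    have hker : finrank K (L ⊓ N1 : Submodule K (V × V')) = finrank K P + finrank K (L ⊓ N0 : Submodule K (V × V')) := by
      have := LinearMap.finrank_range_add_finrank_ker ((LinearMap.fst K V V').domRestrict (L ⊓ N1))
      have hr : LinearMap.range ((LinearMap.fst K V V').domRestrict (L ⊓ N1)) = P := by
        rw [LinearMap.range_domRestrict]
      have hk : finrank K (LinearMap.ker ((LinearMap.fst K V V').domRestrict (L ⊓ N1))) = finrank K (L ⊓ N0 : Submodule K (V × V')) := by
        have hset : L ⊓ N1 ⊓ LinearMap.ker (LinearMap.fst K V V') = L ⊓ N0 := by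
          ext x
          simp [hN0, hN1, Submodule.mem_prod]
          tauto
        rw [LinearMap.ker_domRestrict, ← Submodule.finrank_map_subtype_eq, Submodule.map_comap_subtype, hset]
      rw [hr, hk] at this
      omega
    have h1 := LinearMap.BilinForm.finrank_orthogonal (hCn.nondegenerate hCs) (L ⊔ N0)
    rw [hsup] at h1
    have h2 := Submodule.finrank_sup_add_finrank_inf_eq L N0
    have h3 := Submodule.finrank_le (L ⊔ N0)
    omega
  · rintro _ ⟨x, hx, rfl⟩ _ ⟨y, hy, rfl⟩
    have h1 : C x y = 0 := hLB x hx.1 y hy.1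
    have h2 : B' x.2 y.2 = 0 := hNB _ hx.2.2 _ hy.2.2
    simpa [hC, h2] using h1

end Crest.Agent.R235.LatA_283
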