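import Crest.Agent.R235.LatA_283

/-!
Row 235, package LAT, file B: the Witt group of diagonal forms over a field (as a quotient of the
free abelian group on the units by metabolic differences).
-/

open Module

namespace Crest.Agent.R235.LatB_283

open LinearMap (BilinForm)
open LatA_283

variable {K : Type} [Field K]
variable {V : Type} [AddCommGroup V] [Module K V]

/-- diagonal form with unit entries -/
noncomputable def D {ι : Type} [Fintype ι] (d : ι → Kˣ) : BilinForm K (ι → K) :=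
  diagB (fun i => (d i : K))

lemma D_apply {ι : Type} [Fintype ι] (d : ι → Kˣ) (x y : ι → K) :
    D d x y = ∑ i, (d i : K) * x i * y i := rfl

lemma D_symm {ι : Type} [Fintype ι] (d : ι → Kˣ) : (D d).IsSymm := diagB_symm _

lemma D_nd {ι : Type} [Fintype ι] (d : ι → Kˣ) : ND (D d) := diagB_nd _ fun i => (d i).ne_zero

lemma D_sum {ι κ : Type} [Fintype ι] [Fintype κ] (d : ι → Kˣ) (e : κ → Kˣ) :
    Iso (oplus (D d) (D e)) (D (Sum.elim d e)) := by
  refine ⟨(LinearEquiv.sumArrowLequivProdArrow ι κ K K).symm, fun x y => ?_⟩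
  simp [D_apply]
  rfl

lemma D_equiv {ι κ : Type} [Fintype ι] [Fintype κ] (σ : ι ≃ κ) (d : ι → Kˣ) (e : κ → Kˣ)
    (h : ∀ i, e (σ i) = d i) : Iso (D d) (D e) := by
  refine ⟨LinearEquiv.funCongrLeft K K σ.symm, fun x y => ?_⟩
  simp only [D_apply]
  rw [← Equiv.sum_comp σ]
  refine Finset.sum_congr rfl fun i _ => ?_
  simp [h]

lemma Iso.oplus_congr {V1 V2 V3 V4 : Type} [AddCommGroup V1] [Module K V1]
    [AddCommGroup V2] [Module K V2] [AddCommGroup V3] [Module K V3] [AddCommGroup V4] [Module K V4]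
    {B1 : BilinForm K V1} {B2 : BilinForm K V2} {B3 : BilinForm K V3} {B4 : BilinForm K V4}
    (h : Iso B1 B3) (h' : Iso B2 B4) : Iso (oplus B1 B2) (oplus B3 B4) := by
  obtain ⟨e, he⟩ := h
  obtain ⟨f, hf⟩ := h'
  exact ⟨e.prodCongr f, fun x y => by simp [he, hf]⟩

lemma Iso.oplus_comm {V1 V2 : Type} [AddCommGroup V1] [Module K V1]
    [AddCommGroup V2] [Module K V2]
    (B1 : BilinForm K V1) (B2 : BilinForm K V2) : Iso (oplus B1 B2) (oplus B2 B1) :=
  ⟨LinearEquiv.prodComm K V1 V2, fun x y => by simp [add_comm]⟩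

lemma Iso.oplus_assoc {V1 V2 V3 : Type} [AddCommGroup V1] [Module K V1]
    [AddCommGroup V2] [Module K V2] [AddCommGroup V3] [Module K V3]
    (B1 : BilinForm K V1) (B2 : BilinForm K V2) (B3 : BilinForm K V3) :
    Iso (oplus (oplus B1 B2) B3) (oplus B1 (oplus B2 B3)) :=
  ⟨LinearEquiv.prodAssoc K V1 V2 V3, fun x y => by simp [add_assoc]⟩

/-- (1+2)+(3+4) = (1+4)+(3+2) -/
lemma Iso.shuffle {V1 V2 V3 V4 : Type} [AddCommGroup V1] [Module K V1]
    [AddCommGroup V2] [Module K V2] [AddCommGroup V3] [Module K V3] [AddCommGroup V4] [Module K V4]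
    (B1 : BilinForm K V1) (B2 : BilinForm K V2) (B3 : BilinForm K V3) (B4 : BilinForm K V4) :
    Iso (oplus (oplus B1 B2) (oplus B3 B4)) (oplus (oplus B1 B4) (oplus B3 B2)) :=
  ⟨{ toFun := fun x => ((x.1.1, x.2.2), (x.2.1, x.1.2))
     map_add' := fun _ _ => rfl
     map_smul' := fun _ _ => rfl
     invFun := fun x => ((x.1.1, x.2.2), (x.2.1, x.1.2))
     left_inv := fun _ => rfl
     right_inv := fun _ => rfl }, fun x y => by simp; ring⟩

/-- hyperbolic: `d + (-d)` -/
lemma met_neg {ι : Type} [Fintype ι] (d : ι → Kˣ) : Met (oplus (D d) (D (fun i => -(d i)))) := by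
  refine ⟨LinearMap.range (LinearMap.prod LinearMap.id LinearMap.id : (ι → K) →ₗ[K] _), ?_, ?_⟩
  · rw [LinearMap.finrank_range_of_inj, finrank_prod]
    · ring
    · intro x y h
      simpa using h
  · rintro _ ⟨x, rfl⟩ _ ⟨y, rfl⟩
    simp [D_apply]

/-! ### the group -/

/-- class of a diagonal form in the free group -/
noncomputable def cls {ι : Type} [Fintype ι] (d : ι → Kˣ) : Kˣ →₀ ℤ :=
  ∑ i, Finsupp.single (d i) 1

lemma cls_sum {ι κ : Type} [Fintype ι] [Fintype κ] (d : ι → Kˣ) (e : κ → Kˣ) :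
    cls (Sum.elim d e) = cls d + cls e := by
  simp [cls]

lemma cls_equiv {ι κ : Type} [Fintype ι] [Fintype κ] (σ : ι ≃ κ) (d : ι → Kˣ) (e : κ → Kˣ)
    (h : ∀ i, e (σ i) = d i) : cls d = cls e := by
  unfold cls
  rw [← Equiv.sum_comp σ (fun j => Finsupp.single (e j) (1 : ℤ))]
  exact Finset.sum_congr rfl fun i _ => by rw [h]

open Classical in
lemma cls_apply {ι : Type} [Fintype ι] (d : ι → Kˣ) (a : Kˣ) :
    cls d a = (Fintype.card {i // d i = a} : ℤ) := by
  unfold cls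
  rw [Finsupp.finsetSum_apply, Fintype.card_subtype]
  simp [Finsupp.single_apply]

lemma exists_equiv_of_cls {ι κ : Type} [Fintype ι] [Fintype κ] (d : ι → Kˣ) (e : κ → Kˣ)
    (h : cls d = cls e) : ∃ σ : ι ≃ κ, ∀ i, e (σ i) = d i := by
  classical
  have key : ∀ a : Kˣ, Fintype.card {i // d i = a} = Fintype.card {i // e i = a} := by
    intro a
    have := congrArg (fun f => f a) h
    simp only [cls_apply] at this
    exact_mod_cast this
  let E : ∀ a : Kˣ, {i // d i = a} ≃ {i // e i = a} := fun a => Fintype.equivOfCardEq (key a)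
  exact ⟨Equiv.ofFiberEquiv E, fun i => Equiv.ofFiberEquiv_map E i⟩

/-- equivalence of diagonal forms: difference metabolic -/
def Eqv {ι κ : Type} [Fintype ι] [Fintype κ] (d : ι → Kˣ) (e : κ → Kˣ) : Prop :=
  Met (oplus (D d) (D (fun i => -(e i))))

lemma neg_symm {V1 : Type} [AddCommGroup V1] [Module K V1] {B : BilinForm K V1} (h : Met B) :
    Met (-B) := by
  obtain ⟨N, hN, hB⟩ := h
  exact ⟨N, hN, fun x hx y hy => by simp [hB x hx y hy]⟩

lemma Eqv.symm {ι κ : Type} [Fintype ι] [Fintype κ] {d : ι → Kˣ} {e : κ → Kˣ} (h : Eqv d e) :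
    Eqv e d := by
  have h1 := neg_symm h
  refine (h1.iso ?_).iso (Iso.oplus_comm _ _)
  refine ⟨LinearEquiv.refl K _, fun x y => ?_⟩
  simp [D_apply]
  ring

lemma Eqv.sum {ι κ ι' κ' : Type} [Fintype ι] [Fintype κ] [Fintype ι'] [Fintype κ']
    {d : ι → Kˣ} {e : κ → Kˣ} {d' : ι' → Kˣ} {e' : κ' → Kˣ} (h : Eqv d e) (h' : Eqv d' e') :
    Eqv (Sum.elim d d') (Sum.elim e e') := by
  have h1 := (Met.oplus h (h'.iso (Iso.oplus_comm _ _))).iso (Iso.shuffle _ _ _ _)
  refine h1.iso (Iso.oplus_congr (D_sum d d') ?_)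
  refine (Iso.oplus_comm _ _).trans ((D_sum _ _).trans ?_)
  refine D_equiv (Equiv.refl _) _ _ ?_
  rintro (i | i) <;> rfl

lemma Eqv.equiv {ι κ ι' κ' : Type} [Fintype ι] [Fintype κ] [Fintype ι'] [Fintype κ']
    {d : ι → Kˣ} {e : κ → Kˣ} {d' : ι' → Kˣ} {e' : κ' → Kˣ} (h : Eqv d e)
    (σ : ι ≃ ι') (τ : κ ≃ κ') (hσ : ∀ i, d' (σ i) = d i) (hτ : ∀ i, e' (τ i) = e i) :
    Eqv d' e' :=
  Met.iso h (Iso.oplus_congr (D_equiv σ _ _ hσ) (D_equiv τ _ _ fun i => by simp [hτ]))

lemma Eqv.refl {ι : Type} [Fintype ι] (d : ι → Kˣ) : Eqv d d := met_neg d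

/-- transfer: if `A - d` is metabolic and `d ~ e` then `A - e` is metabolic -/
lemma Met.transfer [FiniteDimensional K V] {A : BilinForm K V} (hA : A.IsSymm) (hn : ND A)
    {ι κ : Type} [Fintype ι] [Fintype κ] {d : ι → Kˣ} {e : κ → Kˣ}
    (h : Met (oplus A (D (fun i => -(d i))))) (he : Eqv d e) :
    Met (oplus A (D (fun i => -(e i)))) := by
  have h1 := (Met.oplus h he).iso (Iso.shuffle _ _ _ _)
  refine Met.cancel (oplus_symm hA (D_symm _)) (hn.oplus (D_nd _)) ?_ ?_ h1 (met_neg d)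
  · exact oplus_symm (D_symm _) (D_symm _)
  · exact (D_nd _).oplus (D_nd _)

lemma Eqv.trans {ι κ l : Type} [Fintype ι] [Fintype κ] [Fintype l]
    {d : ι → Kˣ} {e : κ → Kˣ} {f : l → Kˣ} (h : Eqv d e) (h' : Eqv e f) : Eqv d f :=
  Met.transfer (D_symm d) (D_nd d) h h'

/-- cancellation for equivalences -/
lemma Eqv.cancel {ι κ l m : Type} [Fintype ι] [Fintype κ] [Fintype l] [Fintype m]
    {d : ι → Kˣ} {e : κ → Kˣ} {f : l → Kˣ} {g : m → Kˣ}
    (h : Eqv (Sum.elim d f) (Sum.elim e g)) (h' : Eqv f g) : Eqv d e := by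
  have h0 : Met (oplus (oplus (D d) (D fun i => -(e i))) (oplus (D f) (D fun i => -(g i)))) := by
    have h1 : Met (oplus (oplus (D d) (D f)) (oplus (D fun i => -(g i)) (D fun i => -(e i)))) := by
      refine Met.iso h (Iso.oplus_congr (D_sum d f).symm ?_)
      refine Iso.trans ?_ (Iso.oplus_comm _ _)
      refine Iso.trans ?_ (D_sum _ _).symm
      refine D_equiv (Equiv.refl _) _ _ ?_
      rintro (i | i) <;> rfl
    exact (h1.iso (Iso.shuffle _ _ _ _)).iso (Iso.oplus_congr (Iso.refl _) (Iso.oplus_comm _ _))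
  exact Met.cancel (oplus_symm (D_symm _) (D_symm _)) ((D_nd _).oplus (D_nd _))
    (oplus_symm (D_symm _) (D_symm _)) ((D_nd _).oplus (D_nd _)) h0 h'

/-- relation subgroup -/
def N0 (K : Type) [Field K] : AddSubgroup (Kˣ →₀ ℤ) where
  carrier := {f | ∃ (n m : ℕ) (d : Fin n → Kˣ) (e : Fin m → Kˣ), f = cls d - cls e ∧ Eqv d e}
  zero_mem' := by
    refine ⟨0, 0, Fin.elim0, Fin.elim0, by simp [cls], ?_⟩
    refine ⟨⊥, ?_, ?_⟩
    · simp
    · intro x hx y hy
      simp only [Submodule.mem_bot] at hx hy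
      simp [hx]
  add_mem' := by
    rintro f g ⟨n, m, d, e, rfl, h⟩ ⟨n', m', d', e', rfl, h'⟩
    refine ⟨n + n', m + m', Sum.elim d d' ∘ finSumFinEquiv.symm,
      Sum.elim e e' ∘ finSumFinEquiv.symm, ?_, ?_⟩
    · rw [← cls_equiv finSumFinEquiv (Sum.elim d d') _ (by simp),
        ← cls_equiv finSumFinEquiv (Sum.elim e e') _ (by simp), cls_sum, cls_sum]
      abel
    · exact (h.sum h').equiv finSumFinEquiv finSumFinEquiv (by simp) (by simp)
  neg_mem' := by
    rintro f ⟨n, m, d, e, rfl, h⟩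
    exact ⟨m, n, e, d, by abel, h.symm⟩

/-- the Witt group -/
abbrev W (K : Type) [Field K] := (Kˣ →₀ ℤ) ⧸ N0 K

/-- class of a unit -/
noncomputable def w (a : Kˣ) : W K := QuotientAddGroup.mk (Finsupp.single a 1)

lemma mk_cls {ι : Type} [Fintype ι] (d : ι → Kˣ) :
    (QuotientAddGroup.mk (cls d) : W K) = ∑ i, w (d i) := by
  unfold cls w
  exact map_sum (QuotientAddGroup.mk' (N0 K)) _ _

lemma sum_w_eq_iff {ι κ : Type} [Fintype ι] [Fintype κ] (d : ι → Kˣ) (e : κ → Kˣ) :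
    ∑ i, w (d i) = ∑ i, w (e i) ↔ Eqv d e := by
  rw [← mk_cls, ← mk_cls, QuotientAddGroup.eq_iff_sub_mem]
  constructor
  · rintro ⟨n, m, d', e', h, h'⟩
    have h1 : cls (Sum.elim d e') = cls (Sum.elim e d') := by
      rw [cls_sum, cls_sum]
      have := sub_eq_sub_iff_add_eq_add.1 h
      rw [this]; abel
    obtain ⟨σ, hσ⟩ := exists_equiv_of_cls _ _ h1
    -- `d + e' = e + d'`
    refine Eqv.cancel (f := e') (g := d') ?_ h'.symm
    exact (Eqv.refl (Sum.elim d e')).equiv (Equiv.refl _) σ (fun _ => rfl) hσ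
  · intro h
    refine ⟨Fintype.card ι, Fintype.card κ, d ∘ (Fintype.equivFin ι).symm,
      e ∘ (Fintype.equivFin κ).symm, ?_, ?_⟩
    · rw [← cls_equiv (Fintype.equivFin ι) d _ (by simp),
        ← cls_equiv (Fintype.equivFin κ) e _ (by simp)]
    · exact h.equiv (Fintype.equivFin ι) (Fintype.equivFin κ) (by simp) (by simp)

/-- `x` is the class of `A` -/
def Rep (A : BilinForm K V) (x : W K) : Prop :=
  ∃ (n : ℕ) (d : Fin n → Kˣ), x = ∑ i, w (d i) ∧ Met (oplus A (D (fun i => -(d i))))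

lemma Rep.met [FiniteDimensional K V] {A : BilinForm K V} (hA : A.IsSymm) (hn : ND A) {x : W K}
    (h : Rep A x) {κ : Type} [Fintype κ] (e : κ → Kˣ) (hx : x = ∑ i, w (e i)) :
    Met (oplus A (D (fun i => -(e i)))) := by
  obtain ⟨n, d, h1, h2⟩ := h
  exact Met.transfer hA hn h2 ((sum_w_eq_iff d e).1 (h1 ▸ hx))

/-! ### relations -/

lemma w_eq_of_eqv {a b : Kˣ} (h : Eqv (fun _ : Unit => a) (fun _ : Unit => b)) : w a = w b := by
  have := (sum_w_eq_iff _ _).2 h
  simpa using this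

lemma w_neg (a : Kˣ) : w (-a) = -w a := by
  have h : Eqv (Sum.elim (fun _ : Unit => a) (fun _ : Unit => -a)) (fun i : Empty => i.elim) := by
    have h0 := (met_neg (fun _ : Unit => a)).iso (D_sum _ _)
    obtain ⟨N, hN, hB⟩ := h0
    refine Met.iso ⟨N, hN, hB⟩ ?_
    refine ⟨{ toFun := fun x => (x, 0), map_add' := fun _ _ => by simp, map_smul' := fun _ _ => by simp,
              invFun := fun x => x.1, left_inv := fun _ => rfl,
              right_inv := fun x => Prod.ext rfl (Subsingleton.elim _ _) }, fun x y => ?_⟩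
    simp [D_apply]
  have := (sum_w_eq_iff _ _).2 h
  simp at this
  exact eq_neg_of_add_eq_zero_right this

lemma w_sq (a c : Kˣ) : w (a * c ^ 2) = w a := by
  refine w_eq_of_eqv ?_
  refine Met.iso (met_neg (fun _ : Unit => a)) (Iso.oplus_congr ?_ (Iso.refl _))
  refine ⟨LinearEquiv.smulOfNeZero K _ ((c : K)⁻¹) (inv_ne_zero c.ne_zero), fun x y => ?_⟩
  have := c.ne_zero
  simp [D_apply]
  field_simp

/-- Witt's relation -/
lemma w_add (a b s : Kˣ) (hs : (s : K) = a + b) : w a + w b = w s + w (a * b * s) := by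
  have hs0 : (a : K) + b ≠ 0 := hs ▸ s.ne_zero
  have h : Eqv (Sum.elim (fun _ : Unit => a) (fun _ : Unit => b))
      (Sum.elim (fun _ : Unit => s) (fun _ : Unit => a * b * s)) := by
    have h0 := met_neg (Sum.elim (fun _ : Unit => a) (fun _ : Unit => b))
    refine (Met.iso h0 (Iso.oplus_congr (Iso.refl _) ?_))
    refine ⟨{ toFun := fun x => Sum.elim (fun _ => (a * x (Sum.inl ()) + b * x (Sum.inr ())) / s)
                (fun _ => (x (Sum.inl ()) - x (Sum.inr ())) / s),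
              map_add' := fun x y => ?_, map_smul' := fun c x => ?_,
              invFun := fun x => Sum.elim (fun _ => x (Sum.inl ()) + b * x (Sum.inr ()))
                (fun _ => x (Sum.inl ()) - a * x (Sum.inr ())),
              left_inv := fun x => ?_,
              right_inv := fun x => ?_ }, fun x y => ?_⟩
    · ext (i | i) <;> simp <;> ring
    · ext (i | i) <;> simp <;> ring
    · ext (i | i) <;> simp <;> rw [hs] <;> field_simp <;> ring
    · ext (i | i) <;> simp <;> rw [hs] <;> field_simp <;> ring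
    · simp [D_apply]
      rw [hs]
      field_simp
      ring
  have := (sum_w_eq_iff _ _).2 h
  simpa using this

end Crest.Agent.R235.LatB_283
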