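import Crest.Agent.R235.LatW_283

/-!
Row 235, package LAT, file C: lattices (free `ℤ`-modules with a symmetric unimodular form),
splitting of unimodular sublattices, classification of odd indefinite unimodular lattices.
-/

open Module

namespace Crest.Agent.R235.LatC_283

open LinearMap (BilinForm)

variable {L : Type} [AddCommGroup L] {L' : Type} [AddCommGroup L'] {L'' : Type} [AddCommGroup L'']

/-- symmetric -/
def Sy (B : BilinForm ℤ L) : Prop := ∀ x y, B x y = B y x

/-- unimodular -/
def Uni (B : BilinForm ℤ L) : Prop := Function.Bijective (fun x : L => (B x : L →ₗ[ℤ] ℤ))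

/-- indefinite -/
def Indef (B : BilinForm ℤ L) : Prop := (∃ x, 0 < B x x) ∧ (∃ x, B x x < 0)

/-- isometric lattices -/
def IsoZ (B : BilinForm ℤ L) (B' : BilinForm ℤ L') : Prop :=
  ∃ e : L ≃ₗ[ℤ] L', ∀ x y, B' (e x) (e y) = B x y

lemma IsoZ.refl (B : BilinForm ℤ L) : IsoZ B B := ⟨LinearEquiv.refl ℤ L, fun _ _ => rfl⟩

lemma IsoZ.symm {B : BilinForm ℤ L} {B' : BilinForm ℤ L'} (h : IsoZ B B') : IsoZ B' B := by
  obtain ⟨e, he⟩ := h
  exact ⟨e.symm, fun x y => by rw [← he]; simp⟩

lemma IsoZ.trans {B : BilinForm ℤ L} {B' : BilinForm ℤ L'} {B'' : BilinForm ℤ L''}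
    (h : IsoZ B B') (h' : IsoZ B' B'') : IsoZ B B'' := by
  obtain ⟨e, he⟩ := h
  obtain ⟨f, hf⟩ := h'
  exact ⟨e.trans f, fun x y => by simp [hf, he]⟩

/-- orthogonal sum -/
def osum (B : BilinForm ℤ L) (B' : BilinForm ℤ L') : BilinForm ℤ (L × L') :=
  LinearMap.mk₂ ℤ (fun x y => B x.1 y.1 + B' x.2 y.2)
    (by intros; simp; ring) (by intros; simp; ring)
    (by intros; simp; ring) (by intros; simp; ring)

@[simp] lemma osum_apply (B : BilinForm ℤ L) (B' : BilinForm ℤ L') (x y : L × L') :
    osum B B' x y = B x.1 y.1 + B' x.2 y.2 := rfl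

lemma IsoZ.osum_congr {M M' : Type} [AddCommGroup M] [AddCommGroup M']
    {B : BilinForm ℤ L} {B' : BilinForm ℤ L'} {C : BilinForm ℤ M} {C' : BilinForm ℤ M'}
    (h : IsoZ B B') (h' : IsoZ C C') : IsoZ (osum B C) (osum B' C') := by
  obtain ⟨e, he⟩ := h
  obtain ⟨f, hf⟩ := h'
  exact ⟨e.prodCongr f, fun x y => by simp [he, hf]⟩

lemma IsoZ.osum_comm (B : BilinForm ℤ L) (B' : BilinForm ℤ L') :
    IsoZ (osum B B') (osum B' B) :=
  ⟨LinearEquiv.prodComm ℤ L L', fun x y => by simp [add_comm]⟩

lemma IsoZ.osum_assoc (B : BilinForm ℤ L) (B' : BilinForm ℤ L') (B'' : BilinForm ℤ L'') :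
    IsoZ (osum (osum B B') B'') (osum B (osum B' B'')) :=
  ⟨LinearEquiv.prodAssoc ℤ L L' L'', fun x y => by simp [add_assoc]⟩

lemma Sy.osum {B : BilinForm ℤ L} {B' : BilinForm ℤ L'} (h : Sy B) (h' : Sy B') :
    Sy (LatC_283.osum B B') := fun x y => by simp [h x.1 y.1, h' x.2 y.2]

lemma Uni.osum {B : BilinForm ℤ L} {B' : BilinForm ℤ L'} (h : Uni B) (h' : Uni B') :
    Uni (LatC_283.osum B B') := by
  constructor
  · intro x y hxy
    ext
    · apply h.1
      ext z
      simpa using LinearMap.congr_fun hxy (z, 0)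
    · apply h'.1
      ext z
      simpa using LinearMap.congr_fun hxy (0, z)
  · intro φ
    obtain ⟨a, ha⟩ := h.2 (φ ∘ₗ LinearMap.inl ℤ L L')
    obtain ⟨b, hb⟩ := h'.2 (φ ∘ₗ LinearMap.inr ℤ L L')
    refine ⟨(a, b), ?_⟩
    ext z
    · have := LinearMap.congr_fun ha z
      simpa using this
    · have := LinearMap.congr_fun hb z
      simpa using this

lemma Sy.iso {B : BilinForm ℤ L} {B' : BilinForm ℤ L'} (h : Sy B) (e : IsoZ B B') : Sy B' := by
  obtain ⟨e, he⟩ := e.symm
  intro x y
  rw [← he, ← he, h]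

lemma Uni.iso {B : BilinForm ℤ L} {B' : BilinForm ℤ L'} (h : Uni B) (e : IsoZ B B') : Uni B' := by
  obtain ⟨e, he⟩ := e
  constructor
  · intro x y hxy
    apply e.symm.injective
    apply h.1
    ext z
    have := LinearMap.congr_fun hxy (e z)
    simp only at this
    rw [← e.apply_symm_apply x, ← e.apply_symm_apply y, he, he] at this
    simpa using this
  · intro φ
    obtain ⟨a, ha⟩ := h.2 (φ ∘ₗ (e : L →ₗ[ℤ] L'))
    refine ⟨e a, ?_⟩
    ext z
    have := LinearMap.congr_fun ha (e.symm z)
    simp only [LinearMap.comp_apply, LinearEquiv.coe_coe, LinearEquiv.apply_symm_apply] at this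
    rw [← this, ← he, LinearEquiv.apply_symm_apply]

/-! ### splitting -/

/-- restriction of a form to a submodule -/
def res (B : BilinForm ℤ L) (F : Submodule ℤ L) : BilinForm ℤ F :=
  B.compl₁₂ F.subtype F.subtype

@[simp] lemma res_apply (B : BilinForm ℤ L) (F : Submodule ℤ L) (x y : F) :
    res B F x y = B (x : L) (y : L) := rfl

/-- **Splitting of a unimodular sublattice.** -/
theorem split {M : Type} [AddCommGroup M] {BM : BilinForm ℤ M} (hM : Uni BM)
    {B : BilinForm ℤ L} (hs : Sy B) (hB : Uni B) (s : M →ₗ[ℤ] L)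
    (h : ∀ a b, B (s a) (s b) = BM a b) :
    ∃ F : Submodule ℤ L, Uni (res B F) ∧ IsoZ B (osum BM (res B F)) := by
  -- the inverse of BM
  let e : M ≃ₗ[ℤ] (M →ₗ[ℤ] ℤ) := LinearEquiv.ofBijective BM hM
  let α : L →ₗ[ℤ] M := e.symm.toLinearMap ∘ₗ (LinearMap.lcomp ℤ ℤ s) ∘ₗ B
  have hα : ∀ z b, BM (α z) b = B z (s b) := by
    intro z b
    have : e (α z) = (LinearMap.lcomp ℤ ℤ s) (B z) := by simp [α]
    have h2 := LinearMap.congr_fun this b
    exact h2
  have hαs : ∀ m, α (s m) = m := by
    intro m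
    apply hM.1
    ext b
    simp only
    rw [hα, h]
  refine ⟨LinearMap.ker α, ?_, ?_⟩
  · constructor
    · intro x y hxy
      apply Subtype.ext
      apply hB.1
      ext z
      have h1 : ∀ f : LinearMap.ker α, B (f : L) z = B (f : L) (z - s (α z)) := by
        intro f
        rw [map_sub, ← hα, LinearMap.mem_ker.1 f.2]
        simp
      have h2 : z - s (α z) ∈ LinearMap.ker α := by
        rw [LinearMap.mem_ker, map_sub, hαs, sub_self]
      have := LinearMap.congr_fun hxy ⟨_, h2⟩
      simp only [res_apply] at this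
      simp only
      rw [h1 x, h1 y, this]
    · intro φ
      let π : L →ₗ[ℤ] LinearMap.ker α :=
        (LinearMap.id - s ∘ₗ α).codRestrict _ (fun z => by
          rw [LinearMap.mem_ker]; simp [hαs])
      obtain ⟨w, hw⟩ := hB.2 (φ ∘ₗ π)
      refine ⟨π w, ?_⟩
      ext f
      have h1 : B ((π w : LinearMap.ker α) : L) (f : L) = B w f := by
        show B (w - s (α w)) (f : L) = B w f
        rw [map_sub, LinearMap.sub_apply, hs (s (α w)), ← hα, LinearMap.mem_ker.1 f.2]
        simp
      have h2 : π (f : L) = f := by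
        apply Subtype.ext
        show (f : L) - s (α (f : L)) = f
        rw [LinearMap.mem_ker.1 f.2]; simp
      have h3 := LinearMap.congr_fun hw (f : L)
      simp only [LinearMap.comp_apply, h2] at h3
      simp only [res_apply]
      rw [h1, h3]
  · refine IsoZ.symm ⟨{ toFun := fun x => s x.1 + (x.2 : L)
                        map_add' := fun x y => by simp; abel
                        map_smul' := fun c x => by simp
                        invFun := fun z => (α z, ⟨z - s (α z), by
                          rw [LinearMap.mem_ker, map_sub, hαs, sub_self]⟩)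
                        left_inv := fun x => ?_
                        right_inv := fun z => by simp }, fun x y => ?_⟩
    · have h1 : α (s x.1 + (x.2 : L)) = x.1 := by
        rw [map_add, hαs, LinearMap.mem_ker.1 x.2.2, add_zero]
      refine Prod.ext h1 (Subtype.ext ?_)
      simp only
      rw [h1]; abel
    · simp only [LinearEquiv.coe_mk, LinearMap.coe_mk, AddHom.coe_mk, map_add, LinearMap.add_apply,
        osum_apply, res_apply, h]
      have h1 : B (x.2 : L) (s y.1) = 0 := by rw [← hα, LinearMap.mem_ker.1 x.2.2]; simp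
      have h2 : B (s x.1) (y.2 : L) = 0 := by rw [hs, ← hα, LinearMap.mem_ker.1 y.2.2]; simp
      rw [h1, h2]; ring

end Crest.Agent.R235.LatC_283
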