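import Mathlib

/-!
Row 235 (S0364), package LAT, helper723: roots of an integral lattice near a compact family of
positive subspaces (discreteness, local uniformity, generic choices).  Pure linear algebra.
-/

set_option autoImplicit false
set_option linter.unusedSectionVars false

open Filter Topology Set

namespace Crest.Agent.R235.LatD_723

/-! ### integer vectors -/

section Coord

variable {ι : Type*} [Fintype ι]

/-- integer vectors -/
def IntV (x : ι → ℝ) : Prop := ∃ n : ι → ℤ, ∀ i, x i = n i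

theorem intV_finite (R : ℝ) : {x : ι → ℝ | IntV x ∧ ‖x‖ ≤ R}.Finite := by
  classical
  have hfin : (Set.pi univ (fun _ : ι => (Set.Icc (-⌈R⌉) ⌈R⌉ : Set ℤ))).Finite :=
    Set.Finite.pi fun _ => Set.finite_Icc _ _
  refine (hfin.image (fun n : ι → ℤ => fun i => (n i : ℝ))).subset ?_
  rintro x ⟨⟨n, hn⟩, hx⟩
  refine ⟨n, ?_, funext fun i => (hn i).symm⟩
  intro i _
  have h1 : |x i| ≤ R := by
    have := (norm_le_pi_norm x i).trans hx
    rwa [Real.norm_eq_abs] at this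
  rw [hn i] at h1
  have h2 : |(n i : ℝ)| ≤ (⌈R⌉ : ℝ) := h1.trans (Int.le_ceil R)
  have h3 : |n i| ≤ ⌈R⌉ := by exact_mod_cast h2
  exact ⟨(abs_le.1 h3).1, (abs_le.1 h3).2⟩

theorem intV_norm {x : ι → ℝ} (hx : IntV x) (h0 : x ≠ 0) : 1 ≤ ‖x‖ := by
  obtain ⟨n, hn⟩ := hx
  obtain ⟨i, hi⟩ : ∃ i, x i ≠ 0 := by
    by_contra hcon
    push Not at hcon
    exact h0 (funext hcon)
  have h1 : n i ≠ 0 := by
    intro h
    exact hi (by rw [hn i, h]; simp)
  have h2 : (1 : ℤ) ≤ |n i| := Int.one_le_abs h1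
  have h3 : (1 : ℝ) ≤ |(n i : ℝ)| := by exact_mod_cast h2
  calc (1 : ℝ) ≤ |(n i : ℝ)| := h3
    _ = ‖x i‖ := by rw [hn i, Real.norm_eq_abs]
    _ ≤ ‖x‖ := norm_le_pi_norm x i

/-- normalised limits of integer vectors -/
theorem intV_seq (d : ℕ → ι → ℝ) (hd : ∀ n, IntV (d n)) (h0 : ∀ n, d n ≠ 0) :
    ∃ (φ : ℕ → ℕ) (t : ℕ → ℝ) (x : ι → ℝ), StrictMono φ ∧ (∀ n, 0 < t n ∧ t n ≤ 1) ∧ x ≠ 0 ∧
      Tendsto (fun n => t n • d (φ n)) atTop (𝓝 x) ∧
      ((∀ n, d (φ n) = x ∧ t n = 1) ∨ Tendsto t atTop (𝓝 0)) := by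
  classical
  by_cases hb : ∃ R : ℝ, ∃ᶠ n in atTop, ‖d n‖ ≤ R
  · obtain ⟨R, hR⟩ := hb
    have hfin := intV_finite (ι := ι) R
    have hex : ∃ x ∈ {x : ι → ℝ | IntV x ∧ ‖x‖ ≤ R}, ∃ᶠ n in atTop, d n = x := by
      by_contra hcon
      push Not at hcon
      have h1 : ∀ᶠ n in atTop, ∀ x ∈ {x : ι → ℝ | IntV x ∧ ‖x‖ ≤ R}, d n ≠ x := by
        rw [Filter.eventually_all_finite hfin]
        intro x hx
        exact hcon x hx
      obtain ⟨n, hn1, hn2⟩ := (hR.and_eventually h1).exists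
      exact hn2 (d n) ⟨hd n, hn1⟩ rfl
    obtain ⟨x, hx, hfr⟩ := hex
    obtain ⟨φ, hφ, hφx⟩ := Filter.extraction_of_frequently_atTop hfr
    refine ⟨φ, fun _ => 1, x, hφ, fun _ => ⟨one_pos, le_rfl⟩, ?_, ?_,
      Or.inl fun n => ⟨hφx n, rfl⟩⟩
    · rw [← hφx 0]; exact h0 _
    · simp only [one_smul, hφx]
      exact tendsto_const_nhds
  · push Not at hb
    have hinf : Tendsto (fun n => ‖d n‖) atTop atTop := by
      rw [Filter.tendsto_atTop]
      intro R
      exact (hb R).mono fun n hn => hn.le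
    have hsph : ∀ n, (‖d n‖⁻¹ • d n) ∈ Metric.sphere (0 : ι → ℝ) 1 := by
      intro n
      rw [mem_sphere_zero_iff_norm, norm_smul, norm_inv, norm_norm,
        inv_mul_cancel₀ (norm_ne_zero_iff.2 (h0 n))]
    obtain ⟨x, hx, φ, hφ, hlim⟩ := (isCompact_sphere (0 : ι → ℝ) 1).tendsto_subseq hsph
    refine ⟨φ, fun n => ‖d (φ n)‖⁻¹, x, hφ, fun n => ⟨inv_pos.2 (norm_pos_iff.2 (h0 _)),
      inv_le_one_of_one_le₀ (intV_norm (hd _) (h0 _))⟩, ?_, hlim, Or.inr ?_⟩
    · rintro rfl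
      simp at hx
    · exact (tendsto_inv_atTop_zero.comp hinf).comp hφ.tendsto_atTop

/-- the basic compactness principle: parameters `s n` in a compact space, integer vectors `d n`
with `Q (d n) = -2`; a normalised limit `x` exists, and it is a root or isotropic. -/
theorem core_seq {T : Type*} [TopologicalSpace T] [CompactSpace T] [FirstCountableTopology T]
    (Q : (ι → ℝ) → ℝ) (hQ : Continuous Q) (hQ2 : ∀ (t : ℝ) x, Q (t • x) = t ^ 2 * Q x)
    (d : ℕ → ι → ℝ) (hd : ∀ n, IntV (d n)) (hd2 : ∀ n, Q (d n) = -2) (s : ℕ → T) :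
    ∃ (φ : ℕ → ℕ) (t : ℕ → ℝ) (x : ι → ℝ) (u : T), StrictMono φ ∧
      (∀ n, 0 < t n ∧ t n ≤ 1) ∧ x ≠ 0 ∧
      Tendsto (fun n => t n • d (φ n)) atTop (𝓝 x) ∧ Tendsto (fun n => s (φ n)) atTop (𝓝 u) ∧
      ((IntV x ∧ Q x = -2) ∨ Q x = 0) := by
  have hQ0 : Q 0 = 0 := by simpa using hQ2 0 0
  have h0 : ∀ n, d n ≠ 0 := by
    intro n hn
    have := hd2 n
    rw [hn, hQ0] at this
    norm_num at this
  obtain ⟨φ, t, x, hφ, ht, hx, hlim, halt⟩ := intV_seq d hd h0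
  obtain ⟨u, _, ψ, hψ, hu⟩ := (isCompact_univ (X := T)).tendsto_subseq
    (x := fun n => s (φ n)) (fun n => mem_univ _)
  refine ⟨φ ∘ ψ, t ∘ ψ, x, u, hφ.comp hψ, fun n => ht _, hx, hlim.comp hψ.tendsto_atTop, hu, ?_⟩
  rcases halt with h | h
  · left
    obtain ⟨h1, _⟩ := h 0
    exact ⟨h1 ▸ hd _, h1 ▸ hd2 _⟩
  · right
    have h1 : Tendsto (fun n => Q (t n • d (φ n))) atTop (𝓝 (Q x)) := (hQ.tendsto x).comp hlim
    have h2 : Tendsto (fun n => Q (t n • d (φ n))) atTop (𝓝 0) := by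
      have h3 : (fun n => Q (t n • d (φ n))) = fun n => (t n) ^ 2 * (-2) := by
        funext n
        rw [hQ2, hd2]
      rw [h3]
      have := (h.pow 2).mul_const (-2)
      simpa using this
    exact tendsto_nhds_unique h1 h2

theorem abs_dot_le (x y : ι → ℝ) : |x ⬝ᵥ y| ≤ Fintype.card ι * ‖x‖ * ‖y‖ := by
  unfold dotProduct
  calc |∑ i, x i * y i| ≤ ∑ i, |x i * y i| := Finset.abs_sum_le_sum_abs _ _
    _ ≤ ∑ _i : ι, ‖x‖ * ‖y‖ := by
        refine Finset.sum_le_sum fun i _ => ?_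
        rw [abs_mul]
        have h1 : |x i| ≤ ‖x‖ := by simpa [Real.norm_eq_abs] using norm_le_pi_norm x i
        have h2 : |y i| ≤ ‖y‖ := by simpa [Real.norm_eq_abs] using norm_le_pi_norm y i
        exact mul_le_mul h1 h2 (abs_nonneg _) (norm_nonneg _)
    _ = Fintype.card ι * ‖x‖ * ‖y‖ := by
        rw [Finset.sum_const, Finset.card_univ, nsmul_eq_mul, mul_assoc]

theorem tendsto_dot {x : ℕ → ι → ℝ} {y : ℕ → ι → ℝ} {a b : ι → ℝ}
    (hx : Tendsto x atTop (𝓝 a)) (hy : Tendsto y atTop (𝓝 b)) :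
    Tendsto (fun n => x n ⬝ᵥ y n) atTop (𝓝 (a ⬝ᵥ b)) := by
  unfold dotProduct
  refine tendsto_finsetSum _ fun i _ => ?_
  exact ((tendsto_pi_nhds.1 hx) i).mul ((tendsto_pi_nhds.1 hy) i)

variable {κ : Type*} [Fintype κ] {T : Type*}

/-- the uniform lower bound `η`. -/
theorem eta_core [TopologicalSpace T] [CompactSpace T] [FirstCountableTopology T]
    (Q : (ι → ℝ) → ℝ) (hQ : Continuous Q) (hQ2 : ∀ (t : ℝ) x, Q (t • x) = t ^ 2 * Q x)
    (f : T → κ → ι → ℝ) (hf : Continuous f)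
    (hneg : ∀ t x, x ≠ 0 → (∀ i, x ⬝ᵥ f t i = 0) → Q x < 0)
    (hgood : ∀ t x, IntV x → Q x = -2 → ¬ ∀ i, x ⬝ᵥ f t i = 0) :
    ∃ η : ℝ, 0 < η ∧ ∀ t x, IntV x → Q x = -2 → ∃ i, η * (1 + ‖x‖) ≤ |x ⬝ᵥ f t i| := by
  by_contra hcon
  push Not at hcon
  have h1 : ∀ n : ℕ, ∃ (t : T) (x : ι → ℝ), IntV x ∧ Q x = -2 ∧
      ∀ i, |x ⬝ᵥ f t i| < (1 / ((n : ℝ) + 1)) * (1 + ‖x‖) :=
    fun n => hcon _ Nat.one_div_pos_of_nat
  choose s d hd hd2 hs using h1
  obtain ⟨φ, t, x, u, hφ, ht, hx, hlim, hu, halt⟩ := core_seq Q hQ hQ2 d hd hd2 s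
  have hzero : ∀ i, x ⬝ᵥ f u i = 0 := by
    intro i
    have hfi : Tendsto (fun n => f (s (φ n)) i) atTop (𝓝 (f u i)) :=
      (((continuous_apply i).comp hf).tendsto u).comp hu
    have ha : Tendsto (fun n => |(t n • d (φ n)) ⬝ᵥ f (s (φ n)) i|) atTop (𝓝 |x ⬝ᵥ f u i|) :=
      (tendsto_dot hlim hfi).abs
    have hb : Tendsto (fun n => (1 / ((φ n : ℝ) + 1)) * (1 + ‖t n • d (φ n)‖)) atTop
        (𝓝 (0 * (1 + ‖x‖))) := by
      refine Tendsto.mul ?_ (tendsto_const_nhds.add hlim.norm)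
      exact tendsto_one_div_add_atTop_nhds_zero_nat.comp hφ.tendsto_atTop
    have hle : ∀ n, |(t n • d (φ n)) ⬝ᵥ f (s (φ n)) i| ≤
        (1 / ((φ n : ℝ) + 1)) * (1 + ‖t n • d (φ n)‖) := by
      intro n
      rw [smul_dotProduct, smul_eq_mul, abs_mul, abs_of_pos (ht n).1, norm_smul,
        Real.norm_of_nonneg (ht n).1.le]
      have h2 := (hs (φ n) i).le
      have h3 : (0 : ℝ) ≤ 1 / ((φ n : ℝ) + 1) := Nat.one_div_pos_of_nat.le
      calc t n * |d (φ n) ⬝ᵥ f (s (φ n)) i|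
          ≤ t n * ((1 / ((φ n : ℝ) + 1)) * (1 + ‖d (φ n)‖)) :=
            mul_le_mul_of_nonneg_left h2 (ht n).1.le
        _ = (1 / ((φ n : ℝ) + 1)) * (t n + t n * ‖d (φ n)‖) := by ring
        _ ≤ (1 / ((φ n : ℝ) + 1)) * (1 + t n * ‖d (φ n)‖) := by
            refine mul_le_mul_of_nonneg_left ?_ h3
            linarith [(ht n).2]
    have h4 := le_of_tendsto_of_tendsto' ha hb hle
    rw [zero_mul] at h4
    exact abs_nonpos_iff.1 h4
  rcases halt with ⟨ha, hb⟩ | hb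
  · exact hgood u x ha hb hzero
  · have := hneg u x hx hzero
    rw [hb] at this
    exact lt_irrefl _ this

/-- finiteness, uniformly over the parameter space. -/
theorem fin_core [TopologicalSpace T] [CompactSpace T] [FirstCountableTopology T]
    (Q : (ι → ℝ) → ℝ) (hQ : Continuous Q) (hQ2 : ∀ (t : ℝ) x, Q (t • x) = t ^ 2 * Q x)
    (f : T → κ → ι → ℝ) (hf : Continuous f)
    (hneg : ∀ t x, x ≠ 0 → (∀ i, x ⬝ᵥ f t i = 0) → Q x < 0) (R : ℝ) :
    {x : ι → ℝ | IntV x ∧ -R ≤ Q x ∧ ∃ t, ∀ i, |x ⬝ᵥ f t i| ≤ R}.Finite := by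
  by_cases hb : ∃ C : ℝ, ∀ x ∈ {x : ι → ℝ | IntV x ∧ -R ≤ Q x ∧ ∃ t, ∀ i, |x ⬝ᵥ f t i| ≤ R},
      ‖x‖ ≤ C
  · obtain ⟨C, hC⟩ := hb
    exact (intV_finite C).subset fun x hx => ⟨hx.1, hC x hx⟩
  · exfalso
    push Not at hb
    have h1 : ∀ n : ℕ, ∃ x ∈ {x : ι → ℝ | IntV x ∧ -R ≤ Q x ∧ ∃ t, ∀ i, |x ⬝ᵥ f t i| ≤ R},
        ((n : ℝ) + 1) < ‖x‖ := fun n => hb _
    choose d hd hdn using h1
    choose hd1 hd2 s hs using hd
    have h0 : ∀ n, 0 < ‖d n‖ := fun n => by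
      have := hdn n
      have h2 : (0 : ℝ) ≤ n := Nat.cast_nonneg n
      linarith
    have hsph : ∀ n, (‖d n‖⁻¹ • d n) ∈ Metric.sphere (0 : ι → ℝ) 1 := by
      intro n
      rw [mem_sphere_zero_iff_norm, norm_smul, norm_inv, norm_norm,
        inv_mul_cancel₀ (h0 n).ne']
    obtain ⟨x, hx, φ, hφ, hlim⟩ := (isCompact_sphere (0 : ι → ℝ) 1).tendsto_subseq hsph
    obtain ⟨u, _, ψ, hψ, hu⟩ := (isCompact_univ (X := T)).tendsto_subseq
      (x := fun n => s (φ n)) (fun n => mem_univ _)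
    have hlim' : Tendsto (fun n => ‖d (φ (ψ n))‖⁻¹ • d (φ (ψ n))) atTop (𝓝 x) :=
      hlim.comp hψ.tendsto_atTop
    have hx0 : x ≠ 0 := by
      rintro rfl
      simp at hx
    have hinv : Tendsto (fun n => ‖d (φ (ψ n))‖⁻¹) atTop (𝓝 0) := by
      have h2 : Tendsto (fun n : ℕ => 1 / ((φ (ψ n) : ℝ) + 1)) atTop (𝓝 0) :=
        tendsto_one_div_add_atTop_nhds_zero_nat.comp (hφ.comp hψ).tendsto_atTop
      refine squeeze_zero (fun n => inv_nonneg.2 (h0 _).le) (fun n => ?_) h2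
      rw [one_div]
      exact inv_anti₀ (by positivity) (hdn _).le
    have hzero : ∀ i, x ⬝ᵥ f u i = 0 := by
      intro i
      have hfi : Tendsto (fun n => f (s (φ (ψ n))) i) atTop (𝓝 (f u i)) :=
        (((continuous_apply i).comp hf).tendsto u).comp hu
      have ha : Tendsto (fun n => |(‖d (φ (ψ n))‖⁻¹ • d (φ (ψ n))) ⬝ᵥ f (s (φ (ψ n))) i|) atTop
          (𝓝 |x ⬝ᵥ f u i|) := (tendsto_dot hlim' hfi).abs
      have hb2 : Tendsto (fun n => ‖d (φ (ψ n))‖⁻¹ * R) atTop (𝓝 (0 * R)) :=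
        hinv.mul_const R
      have h4 := le_of_tendsto_of_tendsto' ha hb2 (fun n => by
        rw [smul_dotProduct, smul_eq_mul, abs_mul, abs_of_nonneg (inv_nonneg.2 (h0 _).le)]
        exact mul_le_mul_of_nonneg_left (hs _ i) (inv_nonneg.2 (h0 _).le))
      rw [zero_mul] at h4
      exact abs_nonpos_iff.1 h4
    have h5 : 0 ≤ Q x := by
      have ha : Tendsto (fun n => Q (‖d (φ (ψ n))‖⁻¹ • d (φ (ψ n)))) atTop (𝓝 (Q x)) :=
        (hQ.tendsto x).comp hlim'
      have hb2 : Tendsto (fun n => (‖d (φ (ψ n))‖⁻¹) ^ 2 * (-R)) atTop (𝓝 (0 ^ 2 * (-R))) :=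
        (hinv.pow 2).mul_const (-R)
      have h4 := le_of_tendsto_of_tendsto' hb2 ha (fun n => by
        rw [hQ2]
        exact mul_le_mul_of_nonneg_left (hd2 _) (sq_nonneg _))
      simpa using h4
    exact absurd (hneg u x hx0 hzero) (not_lt.2 h5)

/-- condition (CC ii) is stable, uniformly along a compact family. -/
theorem cc_core [PseudoMetricSpace T] [CompactSpace T]
    (Q : (ι → ℝ) → ℝ) (hQ : Continuous Q) (hQ2 : ∀ (t : ℝ) x, Q (t • x) = t ^ 2 * Q x)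
    (f : T → κ → ι → ℝ) (hf : Continuous f)
    (hneg : ∀ t x, x ≠ 0 → (∀ i, x ⬝ᵥ f t i = 0) → Q x < 0)
    (hgood : ∀ t x, IntV x → Q x = -2 → ¬ ∀ i, x ⬝ᵥ f t i = 0) :
    ∃ δ : ℝ, 0 < δ ∧ ∀ (r : κ → T) (s : T), (∀ i, dist (r i) s < δ) → ∀ (k : κ) (x : ι → ℝ),
      IntV x → Q x = -2 → (∀ i, i ≠ k → x ⬝ᵥ f (r i) i = 0) → 0 < x ⬝ᵥ f (r k) k →
        0 < x ⬝ᵥ f s k := by
  obtain ⟨η, hη, h⟩ := eta_core Q hQ hQ2 f hf hneg hgood
  have hunif : UniformContinuous f := CompactSpace.uniformContinuous_of_continuous hf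
  set D : ℝ := (Fintype.card ι : ℝ) with hD
  have hD0 : 0 ≤ D := Nat.cast_nonneg _
  have hε : 0 < η / (D + 1) := by positivity
  obtain ⟨δ, hδ, hδ2⟩ := Metric.uniformContinuous_iff.1 hunif _ hε
  refine ⟨δ, hδ, ?_⟩
  intro r s hrs k x hx hx2 hxi hxk
  have hclose : ∀ i, |x ⬝ᵥ f s i - x ⬝ᵥ f (r i) i| < η * (1 + ‖x‖) := by
    intro i
    have h1 : ‖f s i - f (r i) i‖ ≤ η / (D + 1) := by
      have h2 := hδ2 (hrs i)
      rw [dist_comm, dist_eq_norm] at h2
      exact (norm_le_pi_norm (f s - f (r i)) i).trans h2.le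
    rw [← dotProduct_sub]
    calc |x ⬝ᵥ (f s i - f (r i) i)| ≤ D * ‖x‖ * ‖f s i - f (r i) i‖ := abs_dot_le _ _
      _ ≤ D * ‖x‖ * (η / (D + 1)) := mul_le_mul_of_nonneg_left h1 (by positivity)
      _ = (D / (D + 1)) * (η * ‖x‖) := by field_simp
      _ ≤ 1 * (η * ‖x‖) := by
          refine mul_le_mul_of_nonneg_right ?_ (by positivity)
          rw [div_le_one (by positivity)]
          linarith
      _ < η * (1 + ‖x‖) := by linarith
  obtain ⟨i, hi⟩ := h s x hx hx2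
  by_cases hik : i = k
  · subst hik
    have h1 := hclose i
    rw [abs_lt] at h1
    by_contra hcon
    push Not at hcon
    rw [abs_of_nonpos hcon] at hi
    linarith [h1.1]
  · exfalso
    have h1 := hclose i
    rw [hxi i hik, sub_zero] at h1
    linarith

end Coord

/-! ### module version -/

section Mod

variable {ι : Type*} [Fintype ι] {V : Type*} [AddCommGroup V] [Module ℝ V]

/-- the lattice spanned by a basis -/
def Lat (e : Module.Basis ι ℝ V) : Set V := {x | ∃ n : ι → ℤ, x = ∑ i, (n i : ℝ) • e i}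

theorem mem_Lat_iff (e : Module.Basis ι ℝ V) (x : V) : x ∈ Lat e ↔ IntV (e.equivFun x) := by
  constructor
  · rintro ⟨n, rfl⟩
    refine ⟨n, fun i => ?_⟩
    have h : e.equivFun (∑ i, (n i : ℝ) • e i) = fun i => (n i : ℝ) := by
      rw [← e.equivFun_symm_apply, LinearEquiv.apply_symm_apply]
    rw [h]
  · rintro ⟨n, hn⟩
    refine ⟨n, ?_⟩
    conv_lhs => rw [← e.sum_equivFun x]
    exact Finset.sum_congr rfl fun i _ => by rw [hn i]

variable (e : Module.Basis ι ℝ V) (B : LinearMap.BilinForm ℝ V)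

theorem pair_eq (x y : V) : B x y = (e.equivFun x) ⬝ᵥ (fun j => B (e j) y) := by
  conv_lhs => rw [← e.sum_equivFun x]
  rw [map_sum, LinearMap.sum_apply]
  unfold dotProduct
  exact Finset.sum_congr rfl fun i _ => by rw [map_smul, LinearMap.smul_apply, smul_eq_mul]

theorem cont_Q : Continuous fun x : ι → ℝ => B (e.equivFun.symm x) (e.equivFun.symm x) := by
  have h : (fun x : ι → ℝ => B (e.equivFun.symm x) (e.equivFun.symm x)) =
      fun x : ι → ℝ => ∑ i, x i * ∑ j, x j * B (e i) (e j) := by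
    funext x
    simp only [Module.Basis.equivFun_symm_apply, map_sum, LinearMap.sum_apply, map_smul,
      LinearMap.smul_apply, smul_eq_mul]
    simp only [Finset.mul_sum]
    rw [Finset.sum_comm]
    refine Finset.sum_congr rfl fun i _ => Finset.sum_congr rfl fun j _ => by ring
  rw [h]
  fun_prop

variable {κ : Type*} [Fintype κ] {T : Type*}

/-- the uniform lower bound `η` (the norm is the sup norm of the coordinates). -/
theorem eta [TopologicalSpace T] [CompactSpace T] [FirstCountableTopology T]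
    (c : T → κ → V) (hc : ∀ x i, Continuous fun t => B x (c t i))
    (hneg : ∀ t x, x ≠ 0 → (∀ i, B x (c t i) = 0) → B x x < 0)
    (hgood : ∀ t, ∀ x ∈ Lat e, B x x = -2 → ¬ ∀ i, B x (c t i) = 0) :
    ∃ η : ℝ, 0 < η ∧ ∀ t, ∀ x ∈ Lat e, B x x = -2 →
      ∃ i, η * (1 + ‖e.equivFun x‖) ≤ |B x (c t i)| := by
  obtain ⟨η, hη, h⟩ := eta_core (fun x : ι → ℝ => B (e.equivFun.symm x) (e.equivFun.symm x))
    (cont_Q e B) (fun t x => by
      simp only [map_smul, LinearMap.smul_apply, smul_eq_mul]; ring)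
    (fun t i j => B (e j) (c t i))
    (continuous_pi fun i => continuous_pi fun j => hc _ _)
    (fun t x hx h => by
      refine hneg t (e.equivFun.symm x) (fun h0 => hx ?_) fun i => ?_
      · exact (LinearEquiv.map_eq_zero_iff _).1 h0
      · rw [pair_eq e B, LinearEquiv.apply_symm_apply]
        exact h i)
    (fun t x hx h2 h => by
      refine hgood t (e.equivFun.symm x) ((mem_Lat_iff e _).2 (by
        rwa [LinearEquiv.apply_symm_apply])) h2 fun i => ?_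
      rw [pair_eq e B, LinearEquiv.apply_symm_apply]
      exact h i)
  refine ⟨η, hη, fun t x hx hx2 => ?_⟩
  obtain ⟨i, hi⟩ := h t (e.equivFun x) ((mem_Lat_iff e x).1 hx) (by
    simpa only [LinearEquiv.symm_apply_apply] using hx2)
  exact ⟨i, by rwa [← pair_eq e B] at hi⟩

/-- finiteness, uniformly over the parameter space. -/
theorem fin_roots [TopologicalSpace T] [CompactSpace T] [FirstCountableTopology T]
    (c : T → κ → V) (hc : ∀ x i, Continuous fun t => B x (c t i))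
    (hneg : ∀ t x, x ≠ 0 → (∀ i, B x (c t i) = 0) → B x x < 0) (R : ℝ) :
    {x : V | x ∈ Lat e ∧ -R ≤ B x x ∧ ∃ t, ∀ i, |B x (c t i)| ≤ R}.Finite := by
  have h := fin_core (fun x : ι → ℝ => B (e.equivFun.symm x) (e.equivFun.symm x))
    (cont_Q e B) (fun t x => by
      simp only [map_smul, LinearMap.smul_apply, smul_eq_mul]; ring)
    (fun t i j => B (e j) (c t i))
    (continuous_pi fun i => continuous_pi fun j => hc _ _)
    (fun t x hx h => by
      refine hneg t (e.equivFun.symm x) (fun h0 => hx ?_) fun i => ?_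
      · exact (LinearEquiv.map_eq_zero_iff _).1 h0
      · rw [pair_eq e B, LinearEquiv.apply_symm_apply]
        exact h i) R
  refine (h.image e.equivFun.symm).subset ?_
  rintro x ⟨hx, hx2, t, ht⟩
  refine ⟨e.equivFun x, ⟨(mem_Lat_iff e x).1 hx, ?_, t, fun i => ?_⟩,
    LinearEquiv.symm_apply_apply _ _⟩
  · simpa only [LinearEquiv.symm_apply_apply] using hx2
  · rw [← pair_eq e B]
    exact ht i

/-- condition (CC ii) is stable, uniformly along a compact family. -/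
theorem cc_unif [PseudoMetricSpace T] [CompactSpace T]
    (c : T → κ → V) (hc : ∀ x i, Continuous fun t => B x (c t i))
    (hneg : ∀ t x, x ≠ 0 → (∀ i, B x (c t i) = 0) → B x x < 0)
    (hgood : ∀ t, ∀ x ∈ Lat e, B x x = -2 → ¬ ∀ i, B x (c t i) = 0) :
    ∃ δ : ℝ, 0 < δ ∧ ∀ (r : κ → T) (s : T), (∀ i, dist (r i) s < δ) → ∀ (k : κ), ∀ x ∈ Lat e,
      B x x = -2 → (∀ i, i ≠ k → B x (c (r i) i) = 0) → 0 < B x (c (r k) k) →
        0 < B x (c s k) := by
  obtain ⟨δ, hδ, h⟩ := cc_core (fun x : ι → ℝ => B (e.equivFun.symm x) (e.equivFun.symm x))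
    (cont_Q e B) (fun t x => by
      simp only [map_smul, LinearMap.smul_apply, smul_eq_mul]; ring)
    (fun t i j => B (e j) (c t i))
    (continuous_pi fun i => continuous_pi fun j => hc _ _)
    (fun t x hx h => by
      refine hneg t (e.equivFun.symm x) (fun h0 => hx ?_) fun i => ?_
      · exact (LinearEquiv.map_eq_zero_iff _).1 h0
      · rw [pair_eq e B, LinearEquiv.apply_symm_apply]
        exact h i)
    (fun t x hx h2 h => by
      refine hgood t (e.equivFun.symm x) ((mem_Lat_iff e _).2 (by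
        rwa [LinearEquiv.apply_symm_apply])) h2 fun i => ?_
      rw [pair_eq e B, LinearEquiv.apply_symm_apply]
      exact h i)
  refine ⟨δ, hδ, fun r s hrs k x hx hx2 hi hk => ?_⟩
  have h1 := h r s hrs k (e.equivFun x) ((mem_Lat_iff e x).1 hx) (by
    simpa only [LinearEquiv.symm_apply_apply] using hx2)
    (fun i hik => by rw [← pair_eq e B]; exact hi i hik) (by rw [← pair_eq e B]; exact hk)
  rwa [← pair_eq e B] at h1

end Mod

end Crest.Agent.R235.LatD_723
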