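import Crest.Agent.R235.LatO_283

/-!
Row 235, package LAT, file E: even indefinite unimodular lattices with the same rank and the same
positive index are isometric.
-/

open Module

namespace Crest.Agent.R235.LatE_283

open LinearMap (BilinForm)
open LatC_283 LatO_283

variable {L : Type} [AddCommGroup L] {L' : Type} [AddCommGroup L'] {L'' : Type} [AddCommGroup L'']

/-- there are `k` vectors spanning a positive definite sublattice of rank `k` -/
def Pos (B : BilinForm ℤ L) (k : ℕ) : Prop :=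
  ∃ f : Fin k → L, ∀ c : Fin k → ℤ, c ≠ 0 → 0 < B (∑ i, c i • f i) (∑ i, c i • f i)

lemma Pos.map {B : BilinForm ℤ L} {B' : BilinForm ℤ L'} (T : L →ₗ[ℤ] L') {m : ℤ} (hm : 0 < m)
    (h : ∀ x, B' (T x) (T x) = m * B x x) {k : ℕ} (hk : Pos B k) : Pos B' k := by
  obtain ⟨f, hf⟩ := hk
  refine ⟨fun i => T (f i), fun c hc => ?_⟩
  have : ∑ i, c i • T (f i) = T (∑ i, c i • f i) := by simp
  rw [this, h]
  exact mul_pos hm (hf c hc)

lemma Pos.iso {B : BilinForm ℤ L} {B' : BilinForm ℤ L'} (e : IsoZ B B') {k : ℕ} :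
    Pos B k ↔ Pos B' k := by
  constructor
  · intro h
    obtain ⟨e, he⟩ := e
    exact h.map (e : L →ₗ[ℤ] L') one_pos (fun x => by simp [he])
  · intro h
    obtain ⟨e, he⟩ := e.symm
    exact h.map (e : L' →ₗ[ℤ] L) one_pos (fun x => by simp [he])

/-- hyperbolic plane -/
def U : BilinForm ℤ (ℤ × ℤ) :=
  LinearMap.mk₂ ℤ (fun x y => x.1 * y.2 + x.2 * y.1)
    (by intros; simp; ring) (by intros; simp; ring)
    (by intros; simp; ring) (by intros; simp; ring)

@[simp] lemma U_apply (x y : ℤ × ℤ) : U x y = x.1 * y.2 + x.2 * y.1 := rfl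

lemma U_uni : Uni U := by
  constructor
  · intro x y hxy
    have h1 := LinearMap.congr_fun hxy (1, 0)
    have h2 := LinearMap.congr_fun hxy (0, 1)
    ext
    · simpa using h2
    · simpa using h1
  · intro φ
    refine ⟨(φ (0, 1), φ (1, 0)), ?_⟩
    ext <;> simp

lemma U_sy : Sy U := fun x y => by simp; ring

/-- `<1> + <-1>` -/
def H1 : BilinForm ℤ (ℤ × ℤ) := osum (one 1) (one (-1))

@[simp] lemma H1_apply (x y : ℤ × ℤ) : H1 x y = x.1 * y.1 - x.2 * y.2 := by
  simp [H1]; ring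

lemma H1_uni : Uni H1 := (one_uni (by norm_num)).osum (one_uni (by norm_num))

lemma H1_sy : Sy H1 := (one_sy 1).osum (one_sy (-1))

/-- splitting off `U` from an even indefinite unimodular lattice -/
lemma even_split [Module.Free ℤ L] [Module.Finite ℤ L] {B : BilinForm ℤ L} (hs : Sy B)
    (hB : Uni B) (hi : Indef B) (he : ∀ t, Even (B t t)) :
    ∃ F : Submodule ℤ L, Uni (res B F) ∧ IsoZ B (osum U (res B F)) := by
  obtain ⟨x, y, hxx, hxy⟩ := exists_prim hs hB hi
  obtain ⟨m, hm⟩ := he y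
  have hyx : B y x = 1 := by rw [hs]; exact hxy
  set e₂ := y - m • x with he₂
  have h22 : B e₂ e₂ = 0 := by
    simp only [he₂, map_sub, map_smul, LinearMap.sub_apply, LinearMap.smul_apply, smul_eq_mul,
      hxx, hxy, hyx, hm]; ring
  have h12 : B x e₂ = 1 := by simp only [he₂, map_sub, map_smul, smul_eq_mul, hxx, hxy]; ring
  have h21 : B e₂ x = 1 := by rw [hs]; exact h12
  let s : ℤ × ℤ →ₗ[ℤ] L := (LinearMap.toSpanSingleton ℤ L x).coprod (LinearMap.toSpanSingleton ℤ L e₂)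
  have hsa : ∀ a, s a = a.1 • x + a.2 • e₂ := fun a => by simp [s]
  refine split (BM := U) U_uni hs hB s fun a b => ?_
  rw [hsa, hsa]
  simp only [map_add, map_smul, LinearMap.add_apply, LinearMap.smul_apply, smul_eq_mul, hxx, h22,
    h12, h21, U_apply]
  ring

/-! ### positive index of the standard odd form -/

lemma pos_Ipq (p q : ℕ) : Pos (Ipq p q) p := by
  classical
  refine ⟨fun i => (Pi.single i 1, 0), fun c hc => ?_⟩
  have h1 : (∑ i, c i • ((Pi.single i 1, 0) : (Fin p → ℤ) × (Fin q → ℤ))) = (c, 0) := by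
    refine Prod.ext ?_ ?_
    · rw [Prod.fst_sum]
      ext j
      simp [Finset.sum_apply, Pi.single_apply]
    · rw [Prod.snd_sum]; simp
  rw [h1]
  simp only [Ipq, osum_apply, dg_apply, one_mul, Pi.zero_apply, mul_zero, Finset.sum_const_zero,
    add_zero]
  obtain ⟨i, hi⟩ := Function.ne_iff.1 hc
  refine Finset.sum_pos' (fun j _ => mul_self_nonneg _) ⟨i, Finset.mem_univ i, ?_⟩
  exact mul_self_pos.2 hi

lemma le_of_pos_Ipq {p q k : ℕ} (h : Pos (Ipq p q) k) : k ≤ p := by
  obtain ⟨f, hf⟩ := h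
  by_contra hlt
  push Not at hlt
  have hdep : ¬ LinearIndependent ℤ (fun i => (f i).1) := by
    intro hli
    have := hli.fintype_card_le_finrank
    simp at this
    omega
  rw [Fintype.not_linearIndependent_iff] at hdep
  obtain ⟨c, hc, i, hi⟩ := hdep
  have h1 := hf c (fun h => hi (by rw [h]; rfl))
  have h2 : (∑ i, c i • f i).1 = 0 := by rw [Prod.fst_sum]; exact hc
  simp only [Ipq, osum_apply, dg_apply] at h1
  rw [h2] at h1
  simp only [Pi.zero_apply, mul_zero, Finset.sum_const_zero, zero_add, neg_mul, one_mul] at h1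
  have h3 : 0 ≤ ∑ j, (∑ i, c i • f i).2 j * (∑ i, c i • f i).2 j :=
    Finset.sum_nonneg fun j _ => mul_self_nonneg _
  linarith

/-! ### from `<1>+<-1>+F` to `U + F` -/

/-- the scaling map `U + F → H1 + F`, multiplies the form by 4 -/
def TU (F : Type) [AddCommGroup F] : (ℤ × ℤ) × F →ₗ[ℤ] (ℤ × ℤ) × F where
  toFun := fun x => ((x.1.1 + 2 * x.1.2, x.1.1 - 2 * x.1.2), (2 : ℤ) • x.2)
  map_add' := fun x y => by ext <;> simp <;> ring
  map_smul' := fun c x => by
    refine Prod.ext (Prod.ext ?_ ?_) ?_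
    · simp; ring
    · simp; ring
    · simp only [Prod.smul_snd, RingHom.id_apply]; rw [smul_comm]

lemma TU_apply (F : Type) [AddCommGroup F] (x : (ℤ × ℤ) × F) :
    TU F x = ((x.1.1 + 2 * x.1.2, x.1.1 - 2 * x.1.2), (2 : ℤ) • x.2) := rfl

lemma TU_form (B : BilinForm ℤ L) (x y : (ℤ × ℤ) × L) :
    osum H1 B (TU L x) (TU L y) = 4 * osum U B x y := by
  simp only [osum_apply, TU_apply, H1_apply, U_apply, map_smul, LinearMap.smul_apply, smul_eq_mul]
  ring

/-- the scaling map `H1 + F → U + F`, multiplies the form by 4 -/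
def TH (F : Type) [AddCommGroup F] : (ℤ × ℤ) × F →ₗ[ℤ] (ℤ × ℤ) × F where
  toFun := fun x => ((2 * (x.1.1 + x.1.2), x.1.1 - x.1.2), (2 : ℤ) • x.2)
  map_add' := fun x y => by ext <;> simp <;> ring
  map_smul' := fun c x => by
    refine Prod.ext (Prod.ext ?_ ?_) ?_
    · simp; ring
    · simp; ring
    · simp only [Prod.smul_snd, RingHom.id_apply]; rw [smul_comm]

lemma TH_apply (F : Type) [AddCommGroup F] (x : (ℤ × ℤ) × F) :
    TH F x = ((2 * (x.1.1 + x.1.2), x.1.1 - x.1.2), (2 : ℤ) • x.2) := rfl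

lemma TH_form (B : BilinForm ℤ L) (x y : (ℤ × ℤ) × L) :
    osum U B (TH L x) (TH L y) = 4 * osum H1 B x y := by
  simp only [osum_apply, TH_apply, H1_apply, U_apply, map_smul, LinearMap.smul_apply, smul_eq_mul]
  ring

lemma pos_U_iff (B : BilinForm ℤ L) (k : ℕ) : Pos (osum U B) k ↔ Pos (osum H1 B) k :=
  ⟨fun h => h.map (TU L) (by norm_num : (0 : ℤ) < 4) (fun x => TU_form B x x),
   fun h => h.map (TH L) (by norm_num : (0 : ℤ) < 4) (fun x => TH_form B x x)⟩

/-- image of `TU` -/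
lemma exists_TU {F : Type} [AddCommGroup F] {z : (ℤ × ℤ) × F} (h1 : (4 : ℤ) ∣ z.1.1 - z.1.2)
    (h2 : ∃ y, z.2 = (2 : ℤ) • y) : ∃ x, TU F x = z := by
  obtain ⟨v, hv⟩ := h1
  obtain ⟨y, hy⟩ := h2
  refine ⟨((z.1.1 - 2 * v, v), y), ?_⟩
  rw [TU_apply]
  refine Prod.ext (Prod.ext ?_ ?_) hy.symm
  · simp
  · simp only; omega

/-- a linear isometric embedding between unimodular lattices of the same rank is bijective -/
lemma iso_of_embed [Module.Free ℤ L'] [Module.Finite ℤ L'] {B : BilinForm ℤ L}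
    {B' : BilinForm ℤ L'} (hB : Uni B) (hs' : Sy B') (hB' : Uni B') (hr : finrank ℤ L = finrank ℤ L')
    [Module.Free ℤ L] [Module.Finite ℤ L]
    (T : L →ₗ[ℤ] L') (h : ∀ x y, B' (T x) (T y) = B x y) : IsoZ B B' := by
  obtain ⟨F, hF, hiso⟩ := split hB hs' hB' T h
  have h0 : finrank ℤ F = 0 := by
    obtain ⟨e, -⟩ := hiso
    have := e.finrank_eq
    rw [finrank_prod] at this
    omega
  have hsub : Subsingleton F := Module.finrank_zero_iff.1 h0
  refine IsoZ.trans ?_ hiso.symm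
  exact ⟨{ toFun := fun x => (x, 0)
           map_add' := fun x y => by simp
           map_smul' := fun c x => by simp
           invFun := fun x => x.1
           left_inv := fun x => rfl
           right_inv := fun x => Prod.ext rfl (Subsingleton.elim _ _) }, fun x y => by simp⟩

/-- neighbour step -/
theorem U_of_H1 {F F' : Type} [AddCommGroup F] [AddCommGroup F'] [Module.Free ℤ F]
    [Module.Finite ℤ F] [Module.Free ℤ F'] [Module.Finite ℤ F']
    {B : BilinForm ℤ F} {B' : BilinForm ℤ F'} (hs : Sy B) (hB : Uni B) (hs' : Sy B') (hB' : Uni B')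
    (he : ∀ t, Even (B t t)) (he' : ∀ t, Even (B' t t))
    (h : IsoZ (osum H1 B) (osum H1 B')) : IsoZ (osum U B) (osum U B') := by
  obtain ⟨g, hg⟩ := h
  have hr : finrank ℤ ((ℤ × ℤ) × F) = finrank ℤ ((ℤ × ℤ) × F') := g.finrank_eq
  -- parity functional
  have hpar : ∀ z : (ℤ × ℤ) × F', (2 : ℤ) ∣ osum H1 B' z z - (z.1.1 - z.1.2) := by
    intro z
    obtain ⟨k, hk⟩ := he' z.2
    obtain ⟨a, ha⟩ := Int.even_mul_pred_self z.1.1
    obtain ⟨b, hb⟩ := Int.even_mul_pred_self z.1.2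
    refine ⟨a - b + k, ?_⟩
    simp only [osum_apply, H1_apply, hk]
    linarith
  have hpar1 : ∀ z : (ℤ × ℤ) × F, (2 : ℤ) ∣ osum H1 B z z - (z.1.1 - z.1.2) := by
    intro z
    obtain ⟨k, hk⟩ := he z.2
    obtain ⟨a, ha⟩ := Int.even_mul_pred_self z.1.1
    obtain ⟨b, hb⟩ := Int.even_mul_pred_self z.1.2
    refine ⟨a - b + k, ?_⟩
    simp only [osum_apply, H1_apply, hk]
    linarith
  -- image of the characteristic vector
  set c := g ((1, 1), 0) with hc
  have hchar : ∀ z, (2 : ℤ) ∣ osum H1 B' (c - ((1, 1), 0)) z := by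
    intro z
    have h1 : osum H1 B' c z = osum H1 B ((1, 1), 0) (g.symm z) := by
      rw [hc, ← hg, LinearEquiv.apply_symm_apply]
    have h2 := hpar1 (g.symm z)
    have h3 := hpar z
    have h4 : osum H1 B' z z = osum H1 B (g.symm z) (g.symm z) := by
      rw [← hg, LinearEquiv.apply_symm_apply]
    have h5 : osum H1 B ((1, 1), 0) (g.symm z) = (g.symm z).1.1 - (g.symm z).1.2 := by simp
    have h6 : osum H1 B' ((1, 1), 0) z = z.1.1 - z.1.2 := by simp
    rw [map_sub, LinearMap.sub_apply, h1, h5, h6]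
    rw [← h4] at h2
    obtain ⟨a, ha⟩ := h2
    obtain ⟨b, hb⟩ := h3
    exact ⟨b - a, by linarith⟩
  have hU' : Uni (osum H1 B') := H1_uni.osum hB'
  have hS' : Sy (osum H1 B') := H1_sy.osum hs'
  obtain ⟨w, hw⟩ : ∃ w, c - ((1, 1), 0) = (2 : ℤ) • w := by
    let ψ : (ℤ × ℤ) × F' →ₗ[ℤ] ℤ :=
      { toFun := fun z => osum H1 B' (c - ((1, 1), 0)) z / 2
        map_add' := fun a b => by rw [map_add, Int.add_ediv_of_dvd_left (hchar a)]
        map_smul' := fun r a => by
          rw [map_smul, smul_eq_mul, Int.mul_ediv_assoc _ (hchar a)]; simp }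
    obtain ⟨w, hw⟩ := hU'.2 ψ
    refine ⟨w, ?_⟩
    apply hU'.1
    refine LinearMap.ext fun z => ?_
    have h1 : osum H1 B' w z = osum H1 B' (c - ((1, 1), 0)) z / 2 := LinearMap.congr_fun hw z
    simp only [map_smul, LinearMap.smul_apply, smul_eq_mul]
    rw [h1, Int.mul_ediv_cancel' (hchar z)]
  have hcw : c = ((1 + 2 * w.1.1, 1 + 2 * w.1.2), (2 : ℤ) • w.2) := by
    have : c = ((1, 1), 0) + (2 : ℤ) • w := by rw [← hw]; abel
    rw [this]
    refine Prod.ext (Prod.ext ?_ ?_) ?_ <;> simp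
  -- general image
  have hgen : ∀ x : (ℤ × ℤ) × F, ∃ e : (ℤ × ℤ) × F', (2 : ℤ) ∣ e.1.1 - e.1.2 ∧
      g (TU F x) = x.1.1 • c + (2 : ℤ) • e := by
    intro x
    refine ⟨g ((x.1.2, -x.1.2), x.2), ?_, ?_⟩
    · have h1 := hpar (g ((x.1.2, -x.1.2), x.2))
      rw [hg] at h1
      obtain ⟨k, hk⟩ := he x.2
      simp only [osum_apply, H1_apply, hk] at h1
      obtain ⟨r, hr⟩ := h1
      exact ⟨k - r, by linarith⟩
    · rw [hc, ← map_smul, ← map_smul, ← map_add]
      congr 1
      rw [TU_apply]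
      refine Prod.ext (Prod.ext ?_ ?_) ?_
      · simp
      · simp; ring
      · simp
  -- reflection of the second coordinate
  let ρ : ((ℤ × ℤ) × F') ≃ₗ[ℤ] ((ℤ × ℤ) × F') :=
    { toFun := fun x => ((x.1.1, -x.1.2), x.2)
      map_add' := fun x y => by
        refine Prod.ext (Prod.ext ?_ ?_) ?_ <;> simp; ring
      map_smul' := fun r x => by
        refine Prod.ext (Prod.ext ?_ ?_) ?_ <;> simp
      invFun := fun x => ((x.1.1, -x.1.2), x.2)
      left_inv := fun x => by simp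
      right_inv := fun x => by simp }
  have hρ : ∀ x y, osum H1 B' (ρ x) (ρ y) = osum H1 B' x y := fun x y => by
    simp only [osum_apply, H1_apply, ρ, LinearEquiv.coe_mk, LinearMap.coe_mk, AddHom.coe_mk]
    ring
  -- choose the right isometry
  obtain ⟨g', hg', him⟩ : ∃ g' : ((ℤ × ℤ) × F) ≃ₗ[ℤ] ((ℤ × ℤ) × F'),
      (∀ x y, osum H1 B' (g' x) (g' y) = osum H1 B x y) ∧ ∀ x, ∃ y, TU F' y = g' (TU F x) := by
    rcases Int.even_or_odd (w.1.1 - w.1.2) with hev | hodd
    · refine ⟨g, hg, fun x => exists_TU ?_ ?_⟩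
      · obtain ⟨e, he1, he2⟩ := hgen x
        obtain ⟨r, hr⟩ := hev
        obtain ⟨r', hr'⟩ := he1
        rw [he2, hcw]
        simp only [Prod.fst_add, Prod.snd_add, Prod.smul_fst, Prod.smul_snd, smul_eq_mul]
        refine ⟨x.1.1 * r + r', ?_⟩
        have e1 : w.1.1 = r + r + w.1.2 := by omega
        have e2 : e.1.1 = 2 * r' + e.1.2 := by omega
        rw [e1, e2]; ring
      · obtain ⟨e, -, he2⟩ := hgen x
        refine ⟨x.1.1 • w.2 + e.2, ?_⟩
        rw [he2, hcw]
        simp only [Prod.snd_add, Prod.smul_snd, smul_add]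
        rw [smul_comm]
    · refine ⟨g.trans ρ, fun x y => by simp only [LinearEquiv.trans_apply]; rw [hρ, hg],
        fun x => exists_TU ?_ ?_⟩
      · obtain ⟨e, he1, he2⟩ := hgen x
        obtain ⟨r, hr⟩ := hodd
        obtain ⟨r', hr'⟩ := he1
        rw [LinearEquiv.trans_apply, he2, hcw]
        simp only [ρ, LinearEquiv.coe_mk, LinearMap.coe_mk, AddHom.coe_mk, Prod.fst_add,
          Prod.snd_add, Prod.smul_fst, Prod.smul_snd, smul_eq_mul]
        refine ⟨x.1.1 * (r + 1 + w.1.2) + r' + e.1.2, ?_⟩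
        have e1 : w.1.1 = 2 * r + 1 + w.1.2 := by omega
        have e2 : e.1.1 = 2 * r' + e.1.2 := by omega
        rw [e1, e2]; ring
      · obtain ⟨e, -, he2⟩ := hgen x
        refine ⟨x.1.1 • w.2 + e.2, ?_⟩
        rw [LinearEquiv.trans_apply, he2, hcw]
        simp only [ρ, LinearEquiv.coe_mk, LinearMap.coe_mk, AddHom.coe_mk, Prod.snd_add,
          Prod.smul_snd, smul_add]
        rw [smul_comm]
  -- divide
  have hinj : Function.Injective (TU F') := by
    intro x y hxy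
    have h1 := TU_form B' x
    apply (U_uni.osum hB').1
    refine LinearMap.ext fun z => ?_
    have h2 := TU_form B' x z
    have h3 := TU_form B' y z
    rw [hxy, h3] at h2
    simp only
    omega
  choose k hk using him
  let T : ((ℤ × ℤ) × F) →ₗ[ℤ] ((ℤ × ℤ) × F') :=
    { toFun := k
      map_add' := fun x y => hinj (by rw [hk, map_add, map_add, map_add, hk, hk])
      map_smul' := fun r x => hinj (by rw [hk, map_smul, map_smul, RingHom.id_apply, map_smul, hk]) }
  refine iso_of_embed (U_uni.osum hB) (U_sy.osum hs') (U_uni.osum hB') hr T fun x y => ?_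
  have h1 := TU_form B' (k x) (k y)
  rw [hk, hk, hg', TU_form] at h1
  show osum U B' (k x) (k y) = _
  omega

/-- **Even indefinite unimodular lattices are determined by rank and positive index.** -/
theorem even_class (L L' : Type) [AddCommGroup L] [Module.Free ℤ L] [Module.Finite ℤ L]
    [AddCommGroup L'] [Module.Free ℤ L'] [Module.Finite ℤ L']
    (B : BilinForm ℤ L) (B' : BilinForm ℤ L') (hs : Sy B) (hB : Uni B) (hi : Indef B)
    (he : ∀ t, Even (B t t)) (hs' : Sy B') (hB' : Uni B') (hi' : Indef B')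
    (he' : ∀ t, Even (B' t t)) (hr : finrank ℤ L = finrank ℤ L') (hp : ∀ k, Pos B k ↔ Pos B' k) :
    IsoZ B B' := by
  obtain ⟨F, hF, h1⟩ := even_split hs hB hi he
  obtain ⟨F', hF', h1'⟩ := even_split hs' hB' hi' he'
  have hFs : Sy (res B F) := fun x y => hs _ _
  have hFs' : Sy (res B' F') := fun x y => hs' _ _
  have r1 : finrank ℤ L = 2 + finrank ℤ F := by
    obtain ⟨e, -⟩ := h1
    rw [e.finrank_eq, finrank_prod, finrank_prod, finrank_self]
  have r2 : finrank ℤ L' = 2 + finrank ℤ F' := by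
    obtain ⟨e, -⟩ := h1'
    rw [e.finrank_eq, finrank_prod, finrank_prod, finrank_self]
  obtain ⟨p, q, h2⟩ := odd_class _ ((ℤ × ℤ) × F) (osum H1 (res B F)) rfl (H1_sy.osum hFs)
    (H1_uni.osum hF) ⟨⟨((1, 0), 0), by simp⟩, ⟨((0, 1), 0), by simp⟩⟩ ⟨((1, 0), 0), by simp⟩
  obtain ⟨p', q', h2'⟩ := odd_class _ ((ℤ × ℤ) × F') (osum H1 (res B' F')) rfl (H1_sy.osum hFs')
    (H1_uni.osum hF') ⟨⟨((1, 0), 0), by simp⟩, ⟨((0, 1), 0), by simp⟩⟩ ⟨((1, 0), 0), by simp⟩
  have hpp : ∀ k, Pos (Ipq p q) k ↔ Pos (Ipq p' q') k := fun k => by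
    rw [← Pos.iso h2, ← Pos.iso h2', ← pos_U_iff, ← pos_U_iff, ← Pos.iso h1, ← Pos.iso h1', hp]
  have e1 : p = p' := le_antisymm (le_of_pos_Ipq ((hpp p).1 (pos_Ipq p q)))
    (le_of_pos_Ipq ((hpp p').2 (pos_Ipq p' q')))
  have e2 : q = q' := by
    obtain ⟨e, -⟩ := h2
    obtain ⟨e', -⟩ := h2'
    have a1 := e.finrank_eq
    have a2 := e'.finrank_eq
    simp only [finrank_prod, finrank_self, finrank_pi, Fintype.card_fin] at a1 a2
    omega
  subst e1 e2
  have h3 : IsoZ (osum H1 (res B F)) (osum H1 (res B' F')) := h2.trans h2'.symm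
  have h4 := U_of_H1 hFs hF hFs' hF' (fun t => he _) (fun t => he' _) h3
  exact h1.trans (h4.trans h1'.symm)

end Crest.Agent.R235.LatE_283
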