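import Crest.Agent.R235.LatS_283

/-!
Row 235, package LAT, file F: a metabolic diagonal form over `F_p` has trivial class.
-/

open Module

namespace Crest.Agent.R235.LatF_283

open LinearMap (BilinForm)
open LatA_283 LatB_283 LatS_283
open Matrix

lemma det_rot {K : Type} [Field K] (l : ℕ) :
    (fromBlocks 0 1 (-1) 0 : Matrix (Fin l ⊕ Fin l) (Fin l ⊕ Fin l) K).det = 1 := by
  have h : (fromBlocks 0 1 (-1) 0 : Matrix (Fin l ⊕ Fin l) (Fin l ⊕ Fin l) K) =
      fromBlocks 1 1 0 1 * fromBlocks 1 0 (-1) 1 * fromBlocks 1 1 0 1 := by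
    simp [fromBlocks_multiply]
  rw [h, det_mul, det_mul]
  simp

lemma det_hyp {K : Type} [Field K] (l : ℕ) (Y Z : Matrix (Fin l) (Fin l) K) :
    (fromBlocks 0 Y Yᵀ Z).det = (-1) ^ l * Y.det ^ 2 := by
  have h : (fromBlocks 0 Y Yᵀ Z) * fromBlocks 0 1 (-1) 0 = fromBlocks (-Y) 0 (-Z) Yᵀ := by
    simp [fromBlocks_multiply]
  have h2 := congrArg Matrix.det h
  rw [det_mul, det_rot, mul_one, det_fromBlocks_zero₁₂, det_neg, det_transpose] at h2
  rw [h2]; simp; ring

/-- discriminant of a metabolic diagonal form -/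
lemma disc {K : Type} [Field K] {κ : Type} [Fintype κ] (m : κ → K)
    (h : Met (diagB m)) : ∃ l : ℕ, Fintype.card κ = 2 * l ∧ IsSquare ((-1) ^ l * ∏ j, m j) := by
  classical
  obtain ⟨N, hN, hB⟩ := h
  rw [finrank_pi] at hN
  set l := finrank K N with hl
  refine ⟨l, hN.symm, ?_⟩
  -- complement
  obtain ⟨N', hN'⟩ := N.exists_isCompl
  have hl' : finrank K N' = l := by
    have := Submodule.finrank_add_eq_of_isCompl hN'
    rw [finrank_pi] at this
    omega
  let b : Basis (Fin l) K N := finBasis K N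
  let b' : Basis (Fin l) K N' := finBasisOfFinrankEq K N' hl'
  let e := Submodule.prodEquivOfIsCompl N N' hN'
  let B : Basis (Fin l ⊕ Fin l) K (κ → K) := (b.prod b').map e
  have hcard : Fintype.card κ = Fintype.card (Fin l ⊕ Fin l) := by simp; omega
  let σ : Fin l ⊕ Fin l ≃ κ := Fintype.equivOfCardEq hcard.symm
  let B2 := B.reindex σ
  let Q : Matrix κ κ K := (Pi.basisFun K κ).toMatrix B2
  have hQ : Q.det ≠ 0 := by
    let _ := (Pi.basisFun K κ).invertibleToMatrix B2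
    exact (Matrix.isUnit_det_of_invertible Q).ne_zero
  let G : Matrix κ κ K := Qᵀ * diagonal m * Q
  have hG : ∀ a c, G a c = diagB m (B2 a) (B2 c) := by
    intro a c
    simp only [G]
    rw [Matrix.mul_apply, diagB_apply]
    refine Finset.sum_congr rfl fun i _ => ?_
    rw [Matrix.mul_diagonal]
    simp only [Q, Basis.toMatrix_apply, Pi.basisFun_repr, Matrix.transpose_apply]
    ring
  have hGd : G.det = Q.det ^ 2 * ∏ j, m j := by
    simp only [G, det_mul, det_transpose, det_diagonal]; ring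
  let Y : Matrix (Fin l) (Fin l) K := Matrix.of fun i j => diagB m (B (Sum.inl i)) (B (Sum.inr j))
  let Z : Matrix (Fin l) (Fin l) K := Matrix.of fun i j => diagB m (B (Sum.inr i)) (B (Sum.inr j))
  have hBl : ∀ i, B (Sum.inl i) ∈ N := by
    intro i
    simp [B, e]
  have hblk : G.submatrix σ σ = fromBlocks 0 Y Yᵀ Z := by
    ext (i | i) (j | j)
    · simp only [submatrix_apply, hG, fromBlocks_apply₁₁, Matrix.zero_apply]
      simp only [B2, Basis.reindex_apply, Equiv.symm_apply_apply]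
      exact hB _ (hBl i) _ (hBl j)
    · simp only [submatrix_apply, hG, fromBlocks_apply₁₂]
      simp only [B2, Basis.reindex_apply, Equiv.symm_apply_apply]
      rfl
    · simp only [submatrix_apply, hG, fromBlocks_apply₂₁]
      simp only [B2, Basis.reindex_apply, Equiv.symm_apply_apply]
      exact (diagB_symm m).eq _ _ |>.symm
    · simp only [submatrix_apply, hG, fromBlocks_apply₂₂]
      simp only [B2, Basis.reindex_apply, Equiv.symm_apply_apply]
      rfl
  have hdet : G.det = (-1) ^ l * Y.det ^ 2 := by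
    rw [← det_submatrix_equiv_self σ G, hblk, det_hyp]
  refine ⟨Y.det / Q.det, ?_⟩
  have h1 : (-1 : K) ^ l * ((-1) ^ l) = 1 := by rw [← mul_pow]; simp
  rw [hGd] at hdet
  field_simp
  calc (-1 : K) ^ l * (∏ j, m j) * Q.det ^ 2 = (-1) ^ l * (Q.det ^ 2 * ∏ j, m j) := by ring
    _ = (-1 : K) ^ l * ((-1) ^ l) * Y.det ^ 2 := by rw [hdet]; ring
    _ = Y.det ^ 2 := by rw [h1, one_mul]

/-- abstract vanishing of the class of a metabolic form over `F_p`, `p` odd -/
lemma sum_phi_zero {p : ℕ} [hp : Fact p.Prime] {G : Type} [AddCommGroup G]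
    (φ : ZMod p → G) (hneg : ∀ x, φ (-x) = -φ x) (hsq : ∀ x y, y ≠ 0 → φ (x * y ^ 2) = φ x)
    (htwo : ∀ x, x ≠ 0 → φ x + φ x = φ 1 + φ 1) {κ : Type} [Fintype κ] (m : κ → ZMod p)
    (hm : ∀ j, m j ≠ 0) (h : Met (diagB m)) : ∑ j, φ (m j) = 0 := by
  classical
  obtain ⟨l, hl, hsqr⟩ := disc m h
  set ψ : ZMod p → G := fun x => φ x - φ 1 with hψ
  have hψsq : ∀ x y, x ≠ 0 → IsSquare x → ψ (x * y) = ψ y := by
    rintro x y hx ⟨z, rfl⟩
    have hz : z ≠ 0 := fun h => hx (by simp [h])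
    have := hsq y z hz
    simp only [hψ]
    rw [← this]
    congr 2
    ring
  have hψ1 : ψ 1 = 0 := by simp [hψ]
  have hψs : ∀ x, x ≠ 0 → IsSquare x → ψ x = 0 := by
    intro x hx hs
    have := hψsq x 1 hx hs
    rwa [mul_one, hψ1] at this
  have hψ2 : ∀ x, x ≠ 0 → ψ x + ψ x = 0 := by
    intro x hx
    have := htwo x hx
    simp only [hψ]
    rw [show φ x - φ 1 + (φ x - φ 1) = (φ x + φ x) - (φ 1 + φ 1) by abel, this, sub_self]
  have hprod : ∀ x y : ZMod p, x ≠ 0 → y ≠ 0 → ¬ IsSquare x → ¬ IsSquare y → IsSquare (x * y) := by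
    intro x y hx hy h1 h2
    rw [← quadraticChar_one_iff_isSquare (mul_ne_zero hx hy), map_mul,
      quadraticChar_neg_one_iff_not_isSquare.2 h1, quadraticChar_neg_one_iff_not_isSquare.2 h2]
    norm_num
  have hψmul : ∀ x y, x ≠ 0 → y ≠ 0 → ψ (x * y) = ψ x + ψ y := by
    intro x y hx hy
    by_cases h1 : IsSquare x
    · rw [hψsq x y hx h1, hψs x hx h1, zero_add]
    by_cases h2 : IsSquare y
    · rw [mul_comm, hψsq y x hy h2, hψs y hy h2, add_zero]
    have h3 := hprod x y hx hy h1 h2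
    rw [hψs _ (mul_ne_zero hx hy) h3]
    have h4 : ψ y = ψ x := by
      have h5 := hψsq (x * y) y (mul_ne_zero hx hy) h3
      rw [← h5, show x * y * y = (y * y) * x by ring, hψsq (y * y) x (mul_ne_zero hy hy) ⟨y, rfl⟩]
    rw [h4, hψ2 x hx]
  have hψprod : ∀ s : Finset κ, ψ (∏ j ∈ s, m j) = ∑ j ∈ s, ψ (m j) := by
    intro s
    induction s using Finset.induction_on with
    | empty => simp [hψ1]
    | insert a s ha ih =>
      rw [Finset.prod_insert ha, Finset.sum_insert ha, hψmul _ _ (hm a)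
        (Finset.prod_ne_zero_iff.2 fun j _ => hm j), ih]
  have hψpow : ∀ n : ℕ, ψ ((-1) ^ n) = n • ψ (-1) := by
    intro n
    induction n with
    | zero => simp [hψ1]
    | succ n ih =>
      rw [pow_succ, hψmul _ _ (pow_ne_zero _ (neg_ne_zero.2 one_ne_zero)) (neg_ne_zero.2 one_ne_zero),
        ih, succ_nsmul]
  have hP : ∏ j, m j ≠ 0 := Finset.prod_ne_zero_iff.2 fun j _ => hm j
  have hn1 : ((-1 : ZMod p)) ^ l ≠ 0 := pow_ne_zero _ (neg_ne_zero.2 one_ne_zero)
  have h0 := hψs _ (mul_ne_zero hn1 hP) hsqr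
  rw [hψmul _ _ hn1 hP, hψprod, hψpow] at h0
  have hm1 : ψ (-1) = -(φ 1 + φ 1) := by simp only [hψ]; rw [hneg]; abel
  have h4 := hψ2 (-1) (neg_ne_zero.2 one_ne_zero)
  have hsum : ∑ j, ψ (m j) = ∑ j, φ (m j) - (2 * l) • φ 1 := by
    simp only [hψ, Finset.sum_sub_distrib]
    simp [hl]
  have h5 : l • (ψ (-1) + ψ (-1)) = 0 := by rw [h4, smul_zero]
  rw [hsum] at h0
  have h6 : ∑ j, φ (m j) = (2 * l) • φ 1 - l • ψ (-1) := by
    rw [eq_sub_iff_add_eq]
    rw [← sub_eq_zero]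
    rw [← h0]; abel
  rw [h6]
  have h7 : (2 * l) • φ 1 = - (l • ψ (-1)) := by
    rw [hm1, smul_neg, neg_neg, smul_add, mul_comm, mul_smul, two_smul, smul_add]
  rw [h7, ← h5, smul_add]
  rw [smul_add] at h5
  rw [h5]
  have h8 : l • ψ (-1) = - (l • ψ (-1)) := eq_neg_of_add_eq_zero_left h5
  rw [← h8]
  abel

end Crest.Agent.R235.LatF_283
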