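import Crest.Agent.R235.LatE_283
import Crest.Agent.R235.LatKz_766

/-!
Row 235, package LAT, file G: an even unimodular lattice of rank 22 with positive index 3 is the K3
lattice `gK3` (for lattices given by a real basis with integral Gram matrix).
-/

open Module

namespace Crest.Agent.R235.LatG_283

open LinearMap (BilinForm)
open LatC_283 LatO_283 LatE_283
open Matrix Filter

/-! ### the form of a matrix -/

/-- integral bilinear form of a matrix -/
def matZ {n : Type} [Fintype n] (A : Matrix n n ℤ) : BilinForm ℤ (n → ℤ) :=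
  LinearMap.mk₂ ℤ (fun x y => x ⬝ᵥ (A *ᵥ y))
    (by intros; simp [add_dotProduct]) (by intros; rw [smul_dotProduct])
    (by intros; simp [mulVec_add, dotProduct_add]) (by intros; rw [mulVec_smul, dotProduct_smul])

@[simp] lemma matZ_apply {n : Type} [Fintype n] (A : Matrix n n ℤ) (x y : n → ℤ) :
    matZ A x y = x ⬝ᵥ (A *ᵥ y) := rfl

lemma matZ_sy {n : Type} [Fintype n] {A : Matrix n n ℤ} (h : A.IsSymm) : Sy (matZ A) := by
  intro x y
  simp only [matZ_apply]
  rw [dotProduct_comm, dotProduct_mulVec, ← mulVec_transpose, h.eq, dotProduct_comm]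

lemma matZ_uni {n : Type} [Fintype n] [DecidableEq n] {A : Matrix n n ℤ} (h : IsUnit A.det) :
    Uni (matZ A) := by
  constructor
  · intro x y hxy
    have h1 : (x - y) ᵥ* A = 0 := by
      ext j
      have := LinearMap.congr_fun hxy (Pi.single j 1)
      simp only [matZ_apply, dotProduct_mulVec] at this
      rw [sub_vecMul, Pi.sub_apply]
      simpa [sub_eq_zero] using this
    have := eq_zero_of_vecMul_eq_zero h.ne_zero h1
    exact sub_eq_zero.1 this
  · intro φ
    refine ⟨(fun j => φ (Pi.single j 1)) ᵥ* A⁻¹, ?_⟩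
    refine LinearMap.pi_ext' fun j => ?_
    ext
    simp only [LinearMap.coe_comp, Function.comp_apply, LinearMap.coe_single, matZ_apply]
    rw [dotProduct_mulVec, vecMul_vecMul, nonsing_inv_mul A h, vecMul_one]
    simp

lemma even_form {n : Type} [Fintype n] [DecidableEq n] {A : Matrix n n ℤ} (hs : A.IsSymm)
    (h : ∀ i, Even (A i i)) (x : n → ℤ) : Even (matZ A x x) := by
  -- additivity modulo two
  have hadd : ∀ x y, Even (matZ A x x) → Even (matZ A y y) → Even (matZ A (x + y) (x + y)) := by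
    intro x y hx hy
    have : matZ A (x + y) (x + y) = matZ A x x + matZ A y y + 2 * matZ A x y := by
      simp only [map_add, LinearMap.add_apply]
      rw [matZ_sy hs y x]; ring
    rw [this]
    exact (hx.add hy).add (even_two_mul _)
  have hx : x = ∑ i, x i • (Pi.single i 1 : n → ℤ) := by
    ext j; simp [Finset.sum_apply, Pi.single_apply]
  rw [hx]
  have : ∀ s : Finset n, Even (matZ A (∑ i ∈ s, x i • (Pi.single i 1 : n → ℤ))
      (∑ i ∈ s, x i • (Pi.single i 1 : n → ℤ))) := by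
    intro s
    induction s using Finset.induction_on with
    | empty => simp
    | insert a s ha ih =>
      rw [Finset.sum_insert ha]
      refine hadd _ _ ?_ ih
      simp only [map_smul, LinearMap.smul_apply, smul_eq_mul]
      refine (Even.mul_left ?_ _).mul_left _
      have : matZ A (Pi.single a 1) (Pi.single a 1) = A a a := by simp
      rw [this]; exact h a
  exact this _

/-! ### real signature -/

lemma tendsto_floor_div (x : ℝ) :
    Tendsto (fun N : ℕ => ((⌊(N : ℝ) * x⌋ : ℤ) : ℝ) / N) atTop (nhds x) := by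
  have h0 : Tendsto (fun N : ℕ => (N : ℝ)⁻¹) atTop (nhds 0) := tendsto_inv_atTop_nhds_zero_nat
  rw [tendsto_iff_dist_tendsto_zero]
  refine squeeze_zero' (Eventually.of_forall fun _ => dist_nonneg) ?_ h0
  filter_upwards [eventually_gt_atTop 0] with N hN
  have hN' : (0 : ℝ) < N := by exact_mod_cast hN
  rw [Real.dist_eq, abs_le]
  have h1 := Int.floor_le ((N : ℝ) * x)
  have h2 := Int.lt_floor_add_one ((N : ℝ) * x)
  have h3 : ((⌊(N : ℝ) * x⌋ : ℤ) : ℝ) / N - x = (((⌊(N : ℝ) * x⌋ : ℤ) : ℝ) - N * x) * (N : ℝ)⁻¹ := by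
    field_simp
  rw [h3]
  have hi : (0 : ℝ) < (N : ℝ)⁻¹ := by positivity
  constructor <;> nlinarith

lemma Pos.mono {L : Type} [AddCommGroup L] {B : BilinForm ℤ L} {k l : ℕ} (h : Pos B l)
    (hkl : k ≤ l) : Pos B k := by
  obtain ⟨f, hf⟩ := h
  refine ⟨fun i => f (Fin.castLE hkl i), fun c hc => ?_⟩
  let c' : Fin l → ℤ := fun j => if hj : (j : ℕ) < k then c ⟨j, hj⟩ else 0
  have hc' : c' ≠ 0 := by
    intro h
    apply hc
    ext i
    have := congrFun h (Fin.castLE hkl i)
    simpa [c'] using this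
  have h1 : ∑ i, c i • f (Fin.castLE hkl i) = ∑ j, c' j • f j := by
    have h2 : ∀ j, j ∉ Set.range (Fin.castLE hkl) → c' j • f j = 0 := by
      intro j hj
      have : ¬ (j : ℕ) < k := fun h => hj ⟨⟨j, h⟩, rfl⟩
      simp [c', this]
    rw [← Fintype.sum_of_injective (Fin.castLE hkl) (Fin.castLE_injective hkl)
      (fun i => c i • f (Fin.castLE hkl i)) (fun j => c' j • f j) h2 (fun i => by simp [c'])]
  rw [h1]
  exact hf c' hc'

section real

variable {V : Type*} [AddCommGroup V] [Module ℝ V] (b : BilinForm ℝ V)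
variable {ι : Type} [Fintype ι] (e : Basis ι ℝ V)

/-- real vector of an integral vector -/
noncomputable def rv (x : ι → ℤ) : V := ∑ i, (x i : ℝ) • e i

lemma rv_sum {κ : Type} [Fintype κ] (f : κ → ι → ℤ) (c : κ → ℤ) :
    rv e (∑ i, c i • f i) = ∑ i, (c i : ℝ) • rv e (f i) := by
  simp only [rv, Finset.smul_sum]
  rw [Finset.sum_comm]
  refine Finset.sum_congr rfl fun j _ => ?_
  rw [Finset.sum_apply]
  push_cast
  rw [Finset.sum_smul]
  refine Finset.sum_congr rfl fun i _ => ?_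
  simp [smul_smul]

variable {b e}

lemma b_rv [DecidableEq ι] {G : Matrix ι ι ℤ} (hG : ∀ i j, b (e i) (e j) = G i j) (x y : ι → ℤ) :
    b (rv e x) (rv e y) = ((matZ G x y : ℤ) : ℝ) := by
  simp only [rv, map_sum, LinearMap.sum_apply, map_smul, LinearMap.smul_apply, smul_eq_mul, hG,
    matZ_apply, dotProduct, mulVec]
  push_cast
  simp only [Finset.mul_sum]
  rw [Finset.sum_comm]
  refine Finset.sum_congr rfl fun i _ => Finset.sum_congr rfl fun j _ => by ring

lemma sum_form {k : ℕ} (F : Fin k → V) (c d : Fin k → ℝ) :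
    b (∑ i, c i • F i) (∑ i, d i • F i) = c ⬝ᵥ ((Matrix.of fun i j => b (F i) (F j)) *ᵥ d) := by
  simp only [map_sum, LinearMap.sum_apply, map_smul, LinearMap.smul_apply, smul_eq_mul,
    dotProduct, mulVec, Matrix.of_apply, Finset.mul_sum]
  rw [Finset.sum_comm]
  refine Finset.sum_congr rfl fun i _ => Finset.sum_congr rfl fun j _ => by ring

/-- upper bound of the positive index -/
lemma le_of_pos [DecidableEq ι] {G : Matrix ι ι ℤ}
    (hG : ∀ i j, b (e i) (e j) = G i j) {k₀ : ℕ} (p : Fin k₀ → V)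
    (hneg : ∀ v, v ≠ 0 → (∀ i, b v (p i) = 0) → b v v < 0) {k : ℕ} (h : Pos (matZ G) k) :
    k ≤ k₀ := by
  obtain ⟨f, hf⟩ := h
  by_contra hlt
  push Not at hlt
  set F : Fin k → V := fun i => rv e (f i) with hF
  -- integral Gram matrix
  let H : Matrix (Fin k) (Fin k) ℤ := Matrix.of fun i j => matZ G (f i) (f j)
  have hHR : (Matrix.of fun i j => b (F i) (F j)) = H.map (Int.cast : ℤ → ℝ) := by
    ext i j; simp only [Matrix.of_apply, Matrix.map_apply, hF, b_rv hG, H]
  have hval : ∀ c : Fin k → ℤ, ((matZ G (∑ i, c i • f i) (∑ i, c i • f i) : ℤ) : ℝ) =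
      b (∑ i, (c i : ℝ) • F i) (∑ i, (c i : ℝ) • F i) := by
    intro c
    rw [← rv_sum, b_rv hG]
  have hdet : H.det ≠ 0 := by
    intro h0
    obtain ⟨c, hc0, hc⟩ := Matrix.exists_mulVec_eq_zero_iff.2 h0
    have h1 := hf c hc0
    have h2 := hval c
    rw [sum_form, hHR] at h2
    have h3 : (H.map (Int.cast : ℤ → ℝ)) *ᵥ (fun i => (c i : ℝ)) = 0 := by
      ext i
      have := congrFun hc i
      simp only [mulVec, dotProduct, Pi.zero_apply, Matrix.map_apply] at this ⊢
      exact_mod_cast this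
    rw [h3, dotProduct_zero] at h2
    have : matZ G (∑ i, c i • f i) (∑ i, c i • f i) = 0 := by exact_mod_cast h2
    omega
  -- positivity on real combinations
  have hpsd : ∀ c : Fin k → ℝ, 0 ≤ b (∑ i, c i • F i) (∑ i, c i • F i) := by
    have hcont : Continuous (fun c : Fin k → ℝ => b (∑ i, c i • F i) (∑ i, c i • F i)) := by
      simp only [sum_form]
      unfold dotProduct mulVec dotProduct
      fun_prop
    have hint : ∀ c : Fin k → ℤ, 0 ≤ b (∑ i, (c i : ℝ) • F i) (∑ i, (c i : ℝ) • F i) := by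
      intro c
      rw [← hval]
      by_cases hc : c = 0
      · subst hc; simp
      · exact_mod_cast (hf c hc).le
    intro c
    -- approximate by `⌊N c⌋ / N`
    have hlim : Tendsto (fun N : ℕ => (fun i => ((⌊(N : ℝ) * c i⌋ : ℤ) : ℝ) / N : Fin k → ℝ)) atTop (nhds c) := by
      rw [tendsto_pi_nhds]
      intro i
      exact tendsto_floor_div (c i)
    have hl2 := (hcont.tendsto c).comp hlim
    refine ge_of_tendsto hl2 (Eventually.of_forall fun N => ?_)
    show 0 ≤ b (∑ i, (((⌊(N : ℝ) * c i⌋ : ℤ) : ℝ) / N) • F i) (∑ i, (((⌊(N : ℝ) * c i⌋ : ℤ) : ℝ) / N) • F i)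
    have h3 : ∑ i, (((⌊(N : ℝ) * c i⌋ : ℤ) : ℝ) / N) • F i =
        ((N : ℝ)⁻¹) • ∑ i, ((⌊(N : ℝ) * c i⌋ : ℤ) : ℝ) • F i := by
      rw [Finset.smul_sum]
      refine Finset.sum_congr rfl fun i _ => ?_
      rw [smul_smul, div_eq_inv_mul]
    rw [h3]
    simp only [map_smul, LinearMap.smul_apply, smul_eq_mul]
    have h4 := hint (fun i => ⌊(N : ℝ) * c i⌋)
    positivity
  -- a real combination orthogonal to the frame
  let Φ : (Fin k → ℝ) →ₗ[ℝ] (Fin k₀ → ℝ) :=
    LinearMap.pi fun j => (b.flip (p j)) ∘ₗ (Fintype.linearCombination ℝ F)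
  have hker := LinearMap.ker_ne_bot_of_finrank_lt (f := Φ) (by simpa using hlt)
  obtain ⟨c, hc, hc0⟩ := (Submodule.ne_bot_iff _).1 hker
  have hc1 : ∀ j, b (∑ i, c i • F i) (p j) = 0 := by
    intro j
    have := congrFun (LinearMap.mem_ker.1 hc) j
    simpa [Φ, Fintype.linearCombination_apply] using this
  have hne : ∑ i, c i • F i ≠ 0 := by
    intro h0
    have h1 : (H.map (Int.cast : ℤ → ℝ)) *ᵥ c = 0 := by
      ext i
      have h2 : b (F i) (∑ j, c j • F j) = 0 := by rw [h0, map_zero]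
      rw [← hHR]
      simp only [mulVec, dotProduct, Matrix.of_apply, Pi.zero_apply]
      rw [map_sum] at h2
      rw [← h2]
      exact Finset.sum_congr rfl fun j _ => by rw [map_smul, smul_eq_mul, mul_comm]
    have h3 : (H.map (Int.cast : ℤ → ℝ)).det ≠ 0 := by
      have : (H.map (Int.cast : ℤ → ℝ)).det = (H.det : ℝ) := (Int.cast_det H).symm
      rw [this]; exact_mod_cast hdet
    exact hc0 (eq_zero_of_mulVec_eq_zero h3 h1)
  exact absurd (hneg _ hne hc1) (not_lt.2 (hpsd c))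

/-- positive definite Gram matrices are open -/
lemma posdef_near {k : ℕ} (H : Matrix (Fin k) (Fin k) ℝ) (hH : ∀ c, c ≠ 0 → 0 < c ⬝ᵥ (H *ᵥ c)) :
    ∃ ε > 0, ∀ H' : Matrix (Fin k) (Fin k) ℝ, (∀ i j, |H' i j - H i j| < ε) →
      ∀ c, c ≠ 0 → 0 < c ⬝ᵥ (H' *ᵥ c) := by
  have hcont : Continuous (fun c : Fin k → ℝ => c ⬝ᵥ (H *ᵥ c)) := by
    unfold dotProduct mulVec dotProduct; fun_prop
  have hcomp : IsCompact (Metric.sphere (0 : Fin k → ℝ) 1) := isCompact_sphere _ _
  rcases (Metric.sphere (0 : Fin k → ℝ) 1).eq_empty_or_nonempty with hemp | hne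
  · refine ⟨1, one_pos, fun H' _ c hc => ?_⟩
    exfalso
    have : (‖c‖⁻¹ • c) ∈ Metric.sphere (0 : Fin k → ℝ) 1 := by
      rw [mem_sphere_zero_iff_norm, norm_smul, norm_inv, norm_norm]
      exact inv_mul_cancel₀ (norm_ne_zero_iff.2 hc)
    rw [hemp] at this
    exact this
  obtain ⟨c₀, hc₀, hmin⟩ := hcomp.exists_isMinOn hne hcont.continuousOn
  have hm : 0 < c₀ ⬝ᵥ (H *ᵥ c₀) := hH c₀ (by
    rintro rfl; simp at hc₀)
  set m := c₀ ⬝ᵥ (H *ᵥ c₀) with hm'
  refine ⟨m / (k ^ 2 + 1), by positivity, fun H' hH' c hc => ?_⟩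
  have hn : 0 < ‖c‖ := norm_pos_iff.2 hc
  set u := ‖c‖⁻¹ • c with hu
  have hus : u ∈ Metric.sphere (0 : Fin k → ℝ) 1 := by
    rw [mem_sphere_zero_iff_norm, norm_smul, norm_inv, norm_norm]
    exact inv_mul_cancel₀ hn.ne'
  have hun : ∀ i, |u i| ≤ 1 := by
    intro i
    have := norm_le_pi_norm u i
    rw [mem_sphere_zero_iff_norm.1 hus] at this
    simpa using this
  have h1 : m ≤ u ⬝ᵥ (H *ᵥ u) := hmin hus
  have h2 : |u ⬝ᵥ (H' *ᵥ u) - u ⬝ᵥ (H *ᵥ u)| ≤ (k : ℝ) ^ 2 * (m / (k ^ 2 + 1)) := by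
    rw [← dotProduct_sub, ← sub_mulVec]
    simp only [dotProduct, mulVec]
    calc |∑ i, u i * ∑ j, (H' - H) i j * u j| ≤ ∑ i, |u i * ∑ j, (H' - H) i j * u j| :=
          Finset.abs_sum_le_sum_abs _ _
      _ ≤ ∑ i : Fin k, ∑ j : Fin k, m / (k ^ 2 + 1) := by
          refine Finset.sum_le_sum fun i _ => ?_
          rw [abs_mul]
          calc |u i| * |∑ j, (H' - H) i j * u j| ≤ 1 * |∑ j, (H' - H) i j * u j| :=
                mul_le_mul_of_nonneg_right (hun i) (abs_nonneg _)
            _ = |∑ j, (H' - H) i j * u j| := one_mul _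
            _ ≤ ∑ j, |(H' - H) i j * u j| := Finset.abs_sum_le_sum_abs _ _
            _ ≤ ∑ j : Fin k, m / (k ^ 2 + 1) := by
                refine Finset.sum_le_sum fun j _ => ?_
                rw [abs_mul]
                have h3 := (hH' i j).le
                calc |(H' - H) i j| * |u j| ≤ |(H' - H) i j| * 1 :=
                      mul_le_mul_of_nonneg_left (hun j) (abs_nonneg _)
                  _ ≤ m / (k ^ 2 + 1) := by rw [mul_one]; exact h3
      _ = (k : ℝ) ^ 2 * (m / (k ^ 2 + 1)) := by simp; ring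
  have h4 : (k : ℝ) ^ 2 * (m / (k ^ 2 + 1)) < m := by
    rw [mul_div_assoc', div_lt_iff₀ (by positivity)]
    nlinarith
  have h5 : 0 < u ⬝ᵥ (H' *ᵥ u) := by
    have := abs_le.1 h2
    linarith
  have h6 : c = ‖c‖ • u := by rw [hu, smul_smul, mul_inv_cancel₀ hn.ne', one_smul]
  rw [h6, mulVec_smul, smul_dotProduct, dotProduct_smul, smul_eq_mul, smul_eq_mul]
  positivity

/-- lower bound of the positive index -/
lemma pos_of_frame [DecidableEq ι] {G : Matrix ι ι ℤ}
    (hG : ∀ i j, b (e i) (e j) = G i j) {k : ℕ} (p : Fin k → V)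
    (hp : ∀ a : Fin k → ℝ, a ≠ 0 → 0 < b (∑ i, a i • p i) (∑ i, a i • p i)) :
    Pos (matZ G) k := by
  set x : Fin k → ι → ℝ := fun i j => e.repr (p i) j with hx
  have hxp : ∀ i, p i = ∑ j, x i j • e j := fun i => (e.sum_repr (p i)).symm
  let g : (Fin k → ι → ℝ) → Matrix (Fin k) (Fin k) ℝ := fun y =>
    Matrix.of fun i i' => ∑ j, ∑ l, y i j * y i' l * (G j l : ℝ)
  have hg : ∀ y : Fin k → ι → ℝ, g y =
      Matrix.of fun i i' => b (∑ j, y i j • e j) (∑ j, y i' j • e j) := by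
    intro y
    ext i i'
    simp only [g, Matrix.of_apply, map_sum, LinearMap.sum_apply, map_smul, LinearMap.smul_apply,
      smul_eq_mul, hG, Finset.mul_sum]
    rw [Finset.sum_comm]
    refine Finset.sum_congr rfl fun j _ => Finset.sum_congr rfl fun l _ => by ring
  obtain ⟨ε, hε, hnear⟩ := posdef_near (g x) (by
    intro c hc
    rw [hg, ← sum_form]
    simp only [← hxp]
    exact hp c hc)
  have hlim : Tendsto (fun N : ℕ => (fun i j => ((⌊(N : ℝ) * x i j⌋ : ℤ) : ℝ) / N : Fin k → ι → ℝ))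
      atTop (nhds x) := by
    rw [tendsto_pi_nhds]
    intro i
    rw [tendsto_pi_nhds]
    intro j
    exact tendsto_floor_div (x i j)
  have hgc : ∀ i i', Continuous (fun y => g y i i') := by
    intro i i'
    simp only [g, Matrix.of_apply]
    fun_prop
  have hev : ∀ᶠ N : ℕ in atTop, ∀ i i', |g (fun i j => ((⌊(N : ℝ) * x i j⌋ : ℤ) : ℝ) / N) i i' - g x i i'| < ε := by
    rw [eventually_all]
    intro i
    rw [eventually_all]
    intro i'
    have h1 := ((hgc i i').tendsto x).comp hlim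
    have h2 := h1 (Metric.ball_mem_nhds _ hε)
    filter_upwards [h2] with N hN
    simpa [Real.dist_eq] using hN
  obtain ⟨N, hN, hN0⟩ := (hev.and (eventually_gt_atTop 0)).exists
  have hpd := hnear _ hN
  refine ⟨fun i j => ⌊(N : ℝ) * x i j⌋, fun c hc => ?_⟩
  have hc' : (fun i => (c i : ℝ)) ≠ 0 := by
    intro h
    apply hc
    ext i
    have := congrFun h i
    simpa using this
  have h1 := hpd _ hc'
  rw [hg, ← sum_form] at h1
  have h2 : ∀ i, ∑ j, (((⌊(N : ℝ) * x i j⌋ : ℤ) : ℝ) / N) • e j =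
      (N : ℝ)⁻¹ • rv e (fun j => ⌊(N : ℝ) * x i j⌋) := by
    intro i
    rw [rv, Finset.smul_sum]
    refine Finset.sum_congr rfl fun j _ => ?_
    rw [smul_smul, div_eq_inv_mul]
  simp only [h2] at h1
  have h3 : ∑ i, (c i : ℝ) • (N : ℝ)⁻¹ • rv e (fun j => ⌊(N : ℝ) * x i j⌋) =
      (N : ℝ)⁻¹ • rv e (∑ i, c i • (fun j => ⌊(N : ℝ) * x i j⌋)) := by
    rw [rv_sum, Finset.smul_sum]
    refine Finset.sum_congr rfl fun i _ => ?_
    rw [smul_comm]
  rw [h3] at h1
  simp only [map_smul, LinearMap.smul_apply, smul_eq_mul, b_rv hG] at h1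
  have hNi : (0 : ℝ) < (N : ℝ)⁻¹ := by positivity
  have h4 : (0 : ℝ) < ((matZ G (∑ i, c i • (fun j => ⌊(N : ℝ) * x i j⌋))
      (∑ i, c i • (fun j => ⌊(N : ℝ) * x i j⌋)) : ℤ) : ℝ) := by
    by_contra hcon
    push Not at hcon
    have : (N : ℝ)⁻¹ * ((N : ℝ)⁻¹ * ((matZ G (∑ i, c i • (fun j => ⌊(N : ℝ) * x i j⌋))
      (∑ i, c i • (fun j => ⌊(N : ℝ) * x i j⌋)) : ℤ) : ℝ)) ≤ 0 :=
      mul_nonpos_of_nonneg_of_nonpos hNi.le (mul_nonpos_of_nonneg_of_nonpos hNi.le hcon)
    linarith
  exact_mod_cast h4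

lemma pos_iff [DecidableEq ι] {G : Matrix ι ι ℤ}
    (hG : ∀ i j, b (e i) (e j) = G i j) {k₀ : ℕ} (p : Fin k₀ → V)
    (hp : ∀ a : Fin k₀ → ℝ, a ≠ 0 → 0 < b (∑ i, a i • p i) (∑ i, a i • p i))
    (hneg : ∀ v, v ≠ 0 → (∀ i, b v (p i) = 0) → b v v < 0) (k : ℕ) :
    Pos (matZ G) k ↔ k ≤ k₀ :=
  ⟨fun h => le_of_pos hG p hneg h, fun h => Pos.mono (pos_of_frame hG p hp) h⟩

end real

/-! ### the K3 lattice -/

open LatKx_766

/-- inverse of the Cartan matrix `E₈` -/
def e8i : Matrix (Fin 8) (Fin 8) ℤ :=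
  !![4, 5, 7, 10, 8, 6, 4, 2;
     5, 8, 10, 15, 12, 9, 6, 3;
     7, 10, 14, 20, 16, 12, 8, 4;
     10, 15, 20, 30, 24, 18, 12, 6;
     8, 12, 16, 24, 20, 15, 10, 5;
     6, 9, 12, 18, 15, 12, 8, 4;
     4, 6, 8, 12, 10, 8, 6, 3;
     2, 3, 4, 6, 5, 4, 3, 2]

/-- inverse of `gK3` -/
def gK3i : Matrix IK IK ℤ :=
  fun a b => match a, b with
    | Sum.inl (i, s), Sum.inl (j, t) => if i = j ∧ s ≠ t then 1 else 0
    | Sum.inr (i, s), Sum.inr (j, t) => if i = j then - e8i s t else 0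
    | _, _ => 0

lemma gK3_mul : ∀ i j, (∑ k, gK3 i k * gK3i k j) = if i = j then 1 else 0 := by
  decide +kernel

lemma gK3_unit : IsUnit gK3.det := by
  have h : gK3 * gK3i = 1 := by
    ext i j
    rw [Matrix.mul_apply, gK3_mul, Matrix.one_apply]
  have h2 := congrArg Matrix.det h
  rw [det_mul, det_one] at h2
  exact IsUnit.of_mul_eq_one _ h2

lemma gK3_symm : (gK3).IsSymm := by
  have h : ∀ i j : IK, gK3 i j - gK3 j i = 0 := by decide +kernel
  ext i j
  exact sub_eq_zero.1 (h j i)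

lemma gK3_even : ∀ i, Even (gK3 i i) := by
  have h : ∀ i : IK, gK3 i i % 2 = 0 := by decide +kernel
  intro i
  exact Int.even_iff.2 (h i)

lemma B_single (i j : IK) : LatKz_766.B (Pi.single i 1) (Pi.single j 1) = (gK3 i j : ℝ) := by
  rw [LatKz_766.B_apply, ← qf_eq]
  rw [Finset.sum_eq_single i, Finset.sum_eq_single j]
  · simp
  · intro k _ hk; simp [hk]
  · simp
  · intro k _ hk
    refine Finset.sum_eq_zero fun l _ => ?_
    simp [hk]
  · simp

lemma pos_gK3 (k : ℕ) : Pos (matZ gK3) k ↔ k ≤ 3 := by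
  have hframe : ∀ a : Fin 3 → ℝ, a ≠ 0 →
      0 < LatKz_766.B (∑ i, a i • LatKz_766.S i) (∑ i, a i • LatKz_766.S i) := by
    intro a ha
    have h1 : LatKz_766.B (∑ i, a i • LatKz_766.S i) (∑ i, a i • LatKz_766.S i) = 4 * ∑ i, a i ^ 2 := by
      simp [Fin.sum_univ_three, LatKz_766.B_SS]
      ring
    rw [h1]
    obtain ⟨i, hi⟩ := Function.ne_iff.1 ha
    have : 0 < ∑ i, a i ^ 2 :=
      Finset.sum_pos' (fun j _ => sq_nonneg _) ⟨i, Finset.mem_univ i, by
        have : a i ≠ 0 := hi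
        positivity⟩
    linarith
  refine pos_iff (b := LatKz_766.B) (e := Pi.basisFun ℝ IK) (fun i j => ?_) LatKz_766.S hframe
    (fun v hv h => LatKz_766.neg _ hframe v hv h) k
  rw [Pi.basisFun_apply, Pi.basisFun_apply, B_single]

/-- **K3 lattice in real coordinates.** A real quadratic space with a basis of 22 vectors with
integral, even, unimodular Gram matrix and signature `(3, 19)` has a basis spanning the same
lattice with Gram matrix `gK3`. -/
theorem k3_basis {V : Type*} [AddCommGroup V] [Module ℝ V] (b : BilinForm ℝ V) {m : ℕ}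
    (hm : m = 22) (e : Basis (Fin m) ℝ V) (G : Matrix (Fin m) (Fin m) ℤ)
    (hG : ∀ i j, b (e i) (e j) = G i j) (hs : G.IsSymm) (hu : IsUnit G.det)
    (hev : ∀ i, Even (G i i)) (p : Fin 3 → V)
    (hp : ∀ a : Fin 3 → ℝ, a ≠ 0 → 0 < b (∑ i, a i • p i) (∑ i, a i • p i))
    (hneg : ∀ v, v ≠ 0 → (∀ i, b v (p i) = 0) → b v v < 0) :
    ∃ e' : Basis IK ℝ V, (∀ i j, b (e' i) (e' j) = gK3 i j) ∧
      {c : V | ∃ n : Fin m → ℤ, c = ∑ i, (n i : ℝ) • e i} =
      {c : V | ∃ n : IK → ℤ, c = ∑ i, (n i : ℝ) • e' i} := by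
  have hposG : ∀ k, Pos (matZ G) k ↔ k ≤ 3 := fun k => pos_iff hG p hp hneg k
  have hi : Indef (matZ G) := by
    constructor
    · obtain ⟨f, hf⟩ := (hposG 1).2 (by norm_num)
      have := hf (fun _ => 1) (by
        intro h
        have := congrFun h 0
        simp at this)
      exact ⟨_, this⟩
    · by_contra hcon
      push Not at hcon
      -- positive semidefinite and unimodular: positive definite of rank 22
      have hpd : ∀ x, x ≠ 0 → 0 < matZ G x x := by
        intro x hx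
        rcases (hcon x).lt_or_eq with h | h
        · exact h
        · exfalso
          apply hx
          apply (matZ_uni hu).1
          refine LinearMap.ext fun y => ?_
          -- Cauchy-Schwarz by hand
          by_contra hne
          have hne' : matZ G x y ≠ 0 := by simpa using hne
          have h1 := hcon ((-(matZ G x y) * (matZ G y y + 1)) • x + y)
          have h2 := hcon y
          simp only [map_add, map_smul, LinearMap.add_apply, LinearMap.smul_apply, smul_eq_mul] at h1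
          rw [matZ_sy hs y x, ← h] at h1
          have h3 : 0 < (matZ G x y) ^ 2 := by positivity
          nlinarith
      have h22 : Pos (matZ G) m := by
        refine ⟨fun i => Pi.single i 1, fun c hc => ?_⟩
        have : ∑ i, c i • (Pi.single i 1 : Fin m → ℤ) = c := by
          ext j; simp [Finset.sum_apply, Pi.single_apply]
        rw [this]
        exact hpd c hc
      have := (hposG m).1 h22
      omega
  have hi' : Indef (matZ gK3) := by
    constructor
    · exact ⟨Pi.single (Sum.inl (0, 0)) 1 + Pi.single (Sum.inl (0, 1)) 1, by decide +kernel⟩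
    · exact ⟨Pi.single (Sum.inr (0, 0)) 1, by decide +kernel⟩
  obtain ⟨g, hg⟩ := even_class (IK → ℤ) (Fin m → ℤ) (matZ gK3) (matZ G) (matZ_sy gK3_symm)
    (matZ_uni gK3_unit) hi' (even_form gK3_symm gK3_even) (matZ_sy hs) (matZ_uni hu) hi
    (even_form hs hev) (by simp [hm]) (fun k => by rw [pos_gK3, hposG])
  -- the new vectors
  let e₀ : IK → V := fun k => rv e (g (Pi.single k 1))
  have hrep : ∀ n : IK → ℤ, ∑ k, (n k : ℝ) • e₀ k = rv e (g n) := by
    intro n
    have h1 : n = ∑ k, n k • (Pi.single k 1 : IK → ℤ) := by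
      ext j; simp [Finset.sum_apply, Pi.single_apply]
    conv_rhs => rw [h1, map_sum]
    simp only [map_smul]
    rw [rv_sum]
  have hgram : ∀ i j, b (e₀ i) (e₀ j) = gK3 i j := by
    intro i j
    rw [b_rv hG, hg]
    simp
  have hli : LinearIndependent ℝ e₀ := by
    rw [Fintype.linearIndependent_iff]
    intro a ha
    have h1 : (gK3.map (Int.cast : ℤ → ℝ)) *ᵥ a = 0 := by
      ext i
      have h2 : b (e₀ i) (∑ j, a j • e₀ j) = 0 := by rw [ha, map_zero]
      simp only [mulVec, dotProduct, Matrix.map_apply, Pi.zero_apply]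
      rw [map_sum] at h2
      rw [← h2]
      exact Finset.sum_congr rfl fun j _ => by rw [map_smul, smul_eq_mul, hgram, mul_comm]
    have h3 : (gK3.map (Int.cast : ℤ → ℝ)).det ≠ 0 := by
      have : (gK3.map (Int.cast : ℤ → ℝ)).det = (gK3.det : ℝ) := (Int.cast_det gK3).symm
      rw [this]; exact_mod_cast gK3_unit.ne_zero
    exact fun i => congrFun (eq_zero_of_mulVec_eq_zero h3 h1) i
  have hcard : Fintype.card IK = finrank ℝ V := by
    rw [finrank_eq_card_basis e]
    simp [hm]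
  have : Nonempty IK := ⟨Sum.inl (0, 0)⟩
  refine ⟨basisOfLinearIndependentOfCardEqFinrank hli hcard, ?_, ?_⟩
  · intro i j
    rw [coe_basisOfLinearIndependentOfCardEqFinrank]
    exact hgram i j
  · ext c
    simp only [Set.mem_ofPred_eq, coe_basisOfLinearIndependentOfCardEqFinrank]
    constructor
    · rintro ⟨n, rfl⟩
      refine ⟨g.symm n, ?_⟩
      rw [hrep, LinearEquiv.apply_symm_apply]
      rfl
    · rintro ⟨n, rfl⟩
      exact ⟨g n, by rw [hrep]; rfl⟩

end Crest.Agent.R235.LatG_283
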