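import Crest.Agent.R235.LatKx_766

/-!
Row 235 (S0364), package LAT, helper766: the code of the sixteen roots of `LatKx_766` (weights
`0, 8, 16`): the only roots of the Kummer lattice are the sixteen ones up to sign.
-/

set_option autoImplicit false

open Finset

namespace Crest.Agent.R235.LatKy_766

open Crest.Agent.R235.LatKx_766

theorem r0 {m : Fin 16 → ℤ} (hm : ∀ k, (∑ j, m j * dv j k) % 2 = 0) :
    (m 10 + m 11 + m 14 + m 15) % 2 = 0 := by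
  have h := hm (Sum.inl (0, 0))
  simp only [Fin.sum_univ_succ, Fin.sum_univ_zero] at h
  simp [dv, dl, vec] at h
  omega

theorem r2 {m : Fin 16 → ℤ} (hm : ∀ k, (∑ j, m j * dv j k) % 2 = 0) :
    (m 12 + m 13 + m 14 + m 15) % 2 = 0 := by
  have h := hm (Sum.inl (1, 0))
  simp only [Fin.sum_univ_succ, Fin.sum_univ_zero] at h
  simp [dv, dl, vec] at h
  omega

theorem r4 {m : Fin 16 → ℤ} (hm : ∀ k, (∑ j, m j * dv j k) % 2 = 0) :
    (m 6 + m 7 + m 14 + m 15) % 2 = 0 := by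
  have h := hm (Sum.inl (2, 0))
  simp only [Fin.sum_univ_succ, Fin.sum_univ_zero] at h
  simp [dv, dl, vec] at h
  omega

theorem r6 {m : Fin 16 → ℤ} (hm : ∀ k, (∑ j, m j * dv j k) % 2 = 0) :
    (m 3 + m 7 + m 9 + m 13) % 2 = 0 := by
  have h := hm (Sum.inr (0, 0))
  simp only [Fin.sum_univ_succ, Fin.sum_univ_zero] at h
  simp [dv, dl, vec] at h
  omega

theorem r7 {m : Fin 16 → ℤ} (hm : ∀ k, (∑ j, m j * dv j k) % 2 = 0) :
    (m 1 + m 7 + m 9 + m 15) % 2 = 0 := by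
  have h := hm (Sum.inr (0, 1))
  simp only [Fin.sum_univ_succ, Fin.sum_univ_zero] at h
  simp [dv, dl, vec] at h
  omega

theorem r8 {m : Fin 16 → ℤ} (hm : ∀ k, (∑ j, m j * dv j k) % 2 = 0) :
    (m 1 + m 5 + m 11 + m 15) % 2 = 0 := by
  have h := hm (Sum.inr (0, 2))
  simp only [Fin.sum_univ_succ, Fin.sum_univ_zero] at h
  simp [dv, dl, vec] at h
  omega

theorem r11 {m : Fin 16 → ℤ} (hm : ∀ k, (∑ j, m j * dv j k) % 2 = 0) :
    (m 1 + m 7 + m 11 + m 13) % 2 = 0 := by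
  have h := hm (Sum.inr (0, 5))
  simp only [Fin.sum_univ_succ, Fin.sum_univ_zero] at h
  simp [dv, dl, vec] at h
  omega

theorem r14 {m : Fin 16 → ℤ} (hm : ∀ k, (∑ j, m j * dv j k) % 2 = 0) :
    (m 4 + m 6 + m 8 + m 10) % 2 = 0 := by
  have h := hm (Sum.inr (1, 0))
  simp only [Fin.sum_univ_succ, Fin.sum_univ_zero] at h
  simp [dv, dl, vec] at h
  omega

theorem r15 {m : Fin 16 → ℤ} (hm : ∀ k, (∑ j, m j * dv j k) % 2 = 0) :
    (m 2 + m 6 + m 8 + m 12) % 2 = 0 := by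
  have h := hm (Sum.inr (1, 1))
  simp only [Fin.sum_univ_succ, Fin.sum_univ_zero] at h
  simp [dv, dl, vec] at h
  omega

theorem r16 {m : Fin 16 → ℤ} (hm : ∀ k, (∑ j, m j * dv j k) % 2 = 0) :
    (m 0 + m 2 + m 12 + m 14) % 2 = 0 := by
  have h := hm (Sum.inr (1, 2))
  simp only [Fin.sum_univ_succ, Fin.sum_univ_zero] at h
  simp [dv, dl, vec] at h
  omega

theorem r18 {m : Fin 16 → ℤ} (hm : ∀ k, (∑ j, m j * dv j k) % 2 = 0) :
    (m 0 + m 2 + m 8 + m 10) % 2 = 0 := by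
  have h := hm (Sum.inr (1, 4))
  simp only [Fin.sum_univ_succ, Fin.sum_univ_zero] at h
  simp [dv, dl, vec] at h
  omega

theorem r19 {m : Fin 16 → ℤ} (hm : ∀ k, (∑ j, m j * dv j k) % 2 = 0) :
    (m 2 + m 4 + m 10 + m 12) % 2 = 0 := by
  have h := hm (Sum.inr (1, 5))
  simp only [Fin.sum_univ_succ, Fin.sum_univ_zero] at h
  simp [dv, dl, vec] at h
  omega

theorem r20 {m : Fin 16 → ℤ} (hm : ∀ k, (∑ j, m j * dv j k) % 2 = 0) :
    (m 0 + m 4 + m 8 + m 12) % 2 = 0 := by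
  have h := hm (Sum.inr (1, 6))
  simp only [Fin.sum_univ_succ, Fin.sum_univ_zero] at h
  simp [dv, dl, vec] at h
  omega

/-- the parities form an affine function on `𝔽₂⁴`. -/
theorem par {m : Fin 16 → ℤ} (hm : ∀ k, (∑ j, m j * dv j k) % 2 = 0) :
    (m 0 + m 1 + m 2 + m 3) % 2 = 0 ∧
    (m 0 + m 1 + m 4 + m 5) % 2 = 0 ∧
    (m 0 + m 2 + m 4 + m 6) % 2 = 0 ∧
    (m 1 + m 2 + m 4 + m 7) % 2 = 0 ∧
    (m 0 + m 1 + m 8 + m 9) % 2 = 0 ∧
    (m 0 + m 2 + m 8 + m 10) % 2 = 0 ∧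
    (m 1 + m 2 + m 8 + m 11) % 2 = 0 ∧
    (m 0 + m 4 + m 8 + m 12) % 2 = 0 ∧
    (m 1 + m 4 + m 8 + m 13) % 2 = 0 ∧
    (m 2 + m 4 + m 8 + m 14) % 2 = 0 ∧
    (m 0 + m 1 + m 2 + m 4 + m 8 + m 15) % 2 = 0 := by
  have h0 := r0 hm
  have h2 := r2 hm
  have h4 := r4 hm
  have h6 := r6 hm
  have h7 := r7 hm
  have h8 := r8 hm
  have h11 := r11 hm
  have h14 := r14 hm
  have h15 := r15 hm
  have h16 := r16 hm
  have h18 := r18 hm
  have h19 := r19 hm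
  have h20 := r20 hm
  refine ⟨?_, ?_, ?_, ?_, ?_, ?_, ?_, ?_, ?_, ?_, ?_⟩
  · clear h0 h4 h8 h11 h14 h15 h18 h19 h20
    omega
  · clear h2 h4 h6 h7 h11 h14 h15 h18 h20
    omega
  · clear h0 h2 h4 h6 h7 h8 h11 h15 h16 h19 h20
    omega
  · clear h4 h6 h7 h8 h14 h15 h16 h18 h20
    omega
  · clear h0 h2 h6 h8 h11 h14 h18 h19 h20
    omega
  · clear h0 h2 h4 h6 h7 h8 h11 h14 h15 h16 h19 h20
    omega
  · clear h0 h6 h7 h8 h14 h16 h18 h19 h20
    omega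
  · clear h0 h2 h4 h6 h7 h8 h11 h14 h15 h16 h18 h19
    omega
  · clear h2 h6 h7 h8 h15 h16 h18 h19 h20
    omega
  · clear h0 h2 h4 h6 h7 h8 h11 h14 h15 h18 h19
    omega
  · clear h6 h7 h8 h15 h18 h19 h20
    omega

theorem sq_par (n : ℤ) : n % 2 ≤ n ^ 2 := by
  rcases Int.emod_two_eq_zero_or_one n with h | h
  · rw [h]; positivity
  · rw [h]
    have h1 : n ≠ 0 := by rintro rfl; simp at h
    have : 0 < n ^ 2 := by positivity
    omega

theorem dd {a p : ℤ} (hp : p = 0 ∨ p = 1) (h : (a + p) % 2 = 0) : p = a % 2 := by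
  rcases hp with rfl | rfl <;> omega

theorem pc {p0 p1 p2 p4 p8 : ℤ} (h0 : p0 = 0 ∨ p0 = 1) (h1 : p1 = 0 ∨ p1 = 1)
    (h2 : p2 = 0 ∨ p2 = 1) (h4 : p4 = 0 ∨ p4 = 1) (h8 : p8 = 0 ∨ p8 = 1)
    (hs : p0 + p1 + p2 + p4 + p8 + (p0 + p1 + p2) % 2 + (p0 + p1 + p4) % 2 + (p0 + p2 + p4) % 2 +
      (p1 + p2 + p4) % 2 + (p0 + p1 + p8) % 2 + (p0 + p2 + p8) % 2 + (p1 + p2 + p8) % 2 +
      (p0 + p4 + p8) % 2 + (p1 + p4 + p8) % 2 + (p2 + p4 + p8) % 2 +
      (p0 + p1 + p2 + p4 + p8) % 2 ≤ 4) :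
    p0 = 0 ∧ p1 = 0 ∧ p2 = 0 ∧ p4 = 0 ∧ p8 = 0 := by
  rcases h0 with rfl | rfl <;> rcases h1 with rfl | rfl <;> rcases h2 with rfl | rfl <;>
  rcases h4 with rfl | rfl <;> rcases h8 with rfl | rfl <;> simp at hs ⊢

theorem sum16 (f : Fin 16 → ℤ) : ∑ j, f j = f 0 + f 1 + f 2 + f 3 + f 4 + f 5 + f 6 + f 7 + f 8 +
    f 9 + f 10 + f 11 + f 12 + f 13 + f 14 + f 15 := by
  simp only [Fin.sum_univ_succ, Fin.sum_univ_zero]
  simp
  ring

/-- all parities vanish. -/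
theorem even_of {m : Fin 16 → ℤ} (hm : ∀ k, (∑ j, m j * dv j k) % 2 = 0)
    (h4 : ∑ j, m j ^ 2 = 4) : ∀ j, m j % 2 = 0 := by
  have hs : ∑ j, m j % 2 ≤ 4 := h4 ▸ Finset.sum_le_sum fun j _ => sq_par (m j)
  rw [sum16] at hs
  obtain ⟨a3, a5, a6, a7, a9, a10, a11, a12, a13, a14, a15⟩ := par hm
  have hp : ∀ j, m j % 2 = 0 ∨ m j % 2 = 1 := fun j => Int.emod_two_eq_zero_or_one (m j)
  have b3 : m 3 % 2 = (m 0 % 2 + m 1 % 2 + m 2 % 2) % 2 := by clear * - a3; omega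
  have b5 : m 5 % 2 = (m 0 % 2 + m 1 % 2 + m 4 % 2) % 2 := by clear * - a5; omega
  have b6 : m 6 % 2 = (m 0 % 2 + m 2 % 2 + m 4 % 2) % 2 := by clear * - a6; omega
  have b7 : m 7 % 2 = (m 1 % 2 + m 2 % 2 + m 4 % 2) % 2 := by clear * - a7; omega
  have b9 : m 9 % 2 = (m 0 % 2 + m 1 % 2 + m 8 % 2) % 2 := by clear * - a9; omega
  have b10 : m 10 % 2 = (m 0 % 2 + m 2 % 2 + m 8 % 2) % 2 := by clear * - a10; omega
  have b11 : m 11 % 2 = (m 1 % 2 + m 2 % 2 + m 8 % 2) % 2 := by clear * - a11; omega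
  have b12 : m 12 % 2 = (m 0 % 2 + m 4 % 2 + m 8 % 2) % 2 := by clear * - a12; omega
  have b13 : m 13 % 2 = (m 1 % 2 + m 4 % 2 + m 8 % 2) % 2 := by clear * - a13; omega
  have b14 : m 14 % 2 = (m 2 % 2 + m 4 % 2 + m 8 % 2) % 2 := by clear * - a14; omega
  have b15 : m 15 % 2 = (m 0 % 2 + m 1 % 2 + m 2 % 2 + m 4 % 2 + m 8 % 2) % 2 := by
    clear * - a15; omega
  rw [b3, b5, b6, b7, b9, b10, b11, b12, b13, b14, b15] at hs
  obtain ⟨c0, c1, c2, c4, c8⟩ := pc (hp 0) (hp 1) (hp 2) (hp 4) (hp 8) (by linarith)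
  rw [c0, c1, c2] at b3
  rw [c0, c1, c4] at b5
  rw [c0, c2, c4] at b6
  rw [c1, c2, c4] at b7
  rw [c0, c1, c8] at b9
  rw [c0, c2, c8] at b10
  rw [c1, c2, c8] at b11
  rw [c0, c4, c8] at b12
  rw [c1, c4, c8] at b13
  rw [c2, c4, c8] at b14
  rw [c0, c1, c2, c4, c8] at b15
  intro j
  fin_cases j
  exacts [c0, c1, c2, b3, c4, b5, b6, b7, c8, b9, b10, b11, b12, b13, b14, b15]

theorem code {m : Fin 16 → ℤ} (hm : ∀ k, (∑ j, m j * dv j k) % 2 = 0)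
    (h4 : ∑ j, m j ^ 2 = 4) : ∃ i, (m i = 2 ∨ m i = -2) ∧ ∀ j, j ≠ i → m j = 0 := by
  have he := even_of hm h4
  have hne : ∃ i, m i ≠ 0 := by
    by_contra h
    push Not at h
    simp [h] at h4
  obtain ⟨i, hi⟩ := hne
  have h5 : m i ^ 2 + ∑ j ∈ Finset.univ.erase i, m j ^ 2 = 4 := by
    rw [Finset.add_sum_erase _ (fun j => m j ^ 2) (Finset.mem_univ i), h4]
  have h6 : 0 ≤ ∑ j ∈ Finset.univ.erase i, m j ^ 2 := Finset.sum_nonneg fun j _ => sq_nonneg _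
  have h7 : m i = 2 ∨ m i = -2 := by
    have h8 : m i ^ 2 ≤ 4 := by linarith
    have h9 : -2 ≤ m i := by nlinarith
    have h10 : m i ≤ 2 := by nlinarith
    have := he i
    omega
  refine ⟨i, h7, fun j hj => ?_⟩
  have h8 : m i ^ 2 = 4 := by rcases h7 with h | h <;> rw [h] <;> norm_num
  have h9 : ∑ j ∈ Finset.univ.erase i, m j ^ 2 = 0 := by linarith
  have h10 := (Finset.sum_eq_zero_iff_of_nonneg fun j _ => sq_nonneg (m j)).1 h9 j
    (Finset.mem_erase.2 ⟨hj, Finset.mem_univ j⟩)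
  exact pow_eq_zero_iff (two_ne_zero) |>.1 h10

/-- the integer vectors of square `-2` in the real span of the sixteen roots. -/
theorem roots {n : IK → ℤ} (hq : qf n n = -2)
    (hn : ∀ k, 2 * n k + ∑ j, qf n (dv j) * dv j k = 0) : ∃ i, n = dv i ∨ n = -dv i := by
  set m : Fin 16 → ℤ := fun j => qf n (dv j) with hmd
  have hm : ∀ k, (∑ j, m j * dv j k) % 2 = 0 := fun k => by
    have h : 2 * n k + ∑ j, m j * dv j k = 0 := hn k
    omega
  have hvec : (2 : ℤ) • n = - ∑ j, m j • dv j := by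
    funext k
    have := hn k
    simp only [Pi.smul_apply, smul_eq_mul, Pi.neg_apply, Finset.sum_apply]
    linarith
  have h4 : ∑ j, m j ^ 2 = 4 := by
    have h5 : qf ((2 : ℤ) • n) n = -4 := by rw [qf_smul, hq]; norm_num
    have h6 : qf (- ∑ j, m j • dv j) n = - ∑ j, m j ^ 2 := by
      have h7 : ∀ s : Finset (Fin 16), qf (∑ j ∈ s, m j • dv j) n = ∑ j ∈ s, m j ^ 2 := by
        intro s
        induction s using Finset.induction_on with
        | empty => simp [qf, hy, e8]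
        | insert a s ha ih =>
          rw [Finset.sum_insert ha, Finset.sum_insert ha, qf_add, ih, qf_smul, qf_comm, sq]
      have h8 : (- ∑ j, m j • dv j) = (-1 : ℤ) • ∑ j, m j • dv j := by simp
      rw [h8, qf_smul, h7]
      ring
    rw [hvec, h6] at h5
    linarith
  obtain ⟨i, hi, hj⟩ := code hm h4
  refine ⟨i, ?_⟩
  have h5 : (2 : ℤ) • n = - (m i • dv i) := by
    rw [hvec, Finset.sum_eq_single i (fun j _ h => by rw [hj j h, zero_smul])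
      (fun h => absurd (Finset.mem_univ i) h)]
  have h6 : ∀ k, 2 * n k = - (m i * dv i k) := fun k => by
    have := congrFun h5 k
    simpa using this
  rcases hi with h | h
  · right
    funext k
    have := h6 k
    rw [h] at this
    simp only [Pi.neg_apply]
    linarith
  · left
    funext k
    have := h6 k
    rw [h] at this
    linarith

end Crest.Agent.R235.LatKy_766
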