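import Crest.Agent.R235.LatC_283

/-!
Row 235, package LAT, file O: odd indefinite unimodular lattices are `<1>^p + <-1>^q`.
-/

open Module

namespace Crest.Agent.R235.LatO_283

open LinearMap (BilinForm)
open LatC_283
open Matrix

variable {L : Type} [AddCommGroup L] {L' : Type} [AddCommGroup L'] {L'' : Type} [AddCommGroup L'']

/-- Gram matrix -/
def gram {n : Type} (B : BilinForm ℤ L) (b : n → L) : Matrix n n ℤ :=
  Matrix.of fun i j => B (b i) (b j)

lemma gram_unit {n : Type} [Fintype n] [DecidableEq n] {B : BilinForm ℤ L} (hB : Uni B)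
    (b : Basis n ℤ L) : IsUnit (gram B b).det := by
  have h : ∀ j, ∃ w, B w = b.coord j := fun j => hB.2 (b.coord j)
  choose w hw using h
  let C : Matrix n n ℤ := Matrix.of fun j i => b.repr (w j) i
  have h1 : C * gram B b = 1 := by
    ext j k
    rw [Matrix.mul_apply]
    have h2 : B (w j) (b k) = b.coord j (b k) := by rw [hw]
    rw [← b.sum_repr (w j)] at h2
    simp only [map_sum, LinearMap.sum_apply, map_smul, LinearMap.smul_apply, smul_eq_mul] at h2
    simp only [C, gram, Matrix.of_apply]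
    rw [h2, Basis.coord_apply, Basis.repr_self, Finsupp.single_apply, Matrix.one_apply]
    simp [eq_comm]
  have h2 := congrArg Matrix.det h1
  rw [det_mul, det_one] at h2
  exact IsUnit.of_mul_eq_one_right _ h2

lemma gram_apply_sum {n : Type} [Fintype n] (B : BilinForm ℤ L) (b : n → L) (v w : n → ℤ) :
    B (∑ i, v i • b i) (∑ i, w i • b i) = v ⬝ᵥ ((gram B b) *ᵥ w) := by
  simp only [map_sum, LinearMap.sum_apply, map_smul, LinearMap.smul_apply, smul_eq_mul,
    dotProduct, mulVec, gram, Matrix.of_apply, Finset.mul_sum]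
  rw [Finset.sum_comm]
  refine Finset.sum_congr rfl fun i _ => Finset.sum_congr rfl fun j _ => by ring

/-- isotropic vectors, module form -/
lemma exists_isotropic [Module.Free ℤ L] [Module.Finite ℤ L] {B : BilinForm ℤ L} (hs : Sy B)
    (hB : Uni B) (hi : Indef B) : ∃ v, v ≠ 0 ∧ B v v = 0 := by
  classical
  let b := Module.finBasis ℤ L
  obtain ⟨⟨x, hx⟩, ⟨y, hy⟩⟩ := hi
  have hrep : ∀ z : L, B z z = (b.repr z) ⬝ᵥ ((gram B b) *ᵥ (b.repr z)) := by
    intro z
    rw [← gram_apply_sum, b.sum_repr]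
  obtain ⟨v, hv0, hv⟩ := LatW_283.iso (gram B b) (by
      ext i j; simp only [gram, Matrix.transpose_apply, Matrix.of_apply]; exact hs _ _)
    (gram_unit hB b) ⟨b.repr x, by rw [← hrep]; exact hx⟩ ⟨b.repr y, by rw [← hrep]; exact hy⟩
  refine ⟨∑ i, v i • b i, ?_, ?_⟩
  · intro h
    apply hv0
    ext i
    exact Fintype.linearIndependent_iff.1 b.linearIndependent v h i
  · rw [gram_apply_sum, hv]

/-- primitive isotropic vector with a dual vector -/
lemma exists_prim [Module.Free ℤ L] [Module.Finite ℤ L] {B : BilinForm ℤ L} (hs : Sy B)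
    (hB : Uni B) (hi : Indef B) : ∃ x y, B x x = 0 ∧ B x y = 1 := by
  obtain ⟨v, hv0, hv⟩ := exists_isotropic hs hB hi
  obtain ⟨g, hg⟩ := (IsPrincipalIdealRing.principal (LinearMap.range (B v)) : (LinearMap.range (B v)).IsPrincipal)
  have hgd : ∀ z, g ∣ B v z := by
    intro z
    have : B v z ∈ LinearMap.range (B v) := ⟨z, rfl⟩
    rw [hg] at this
    exact Ideal.mem_span_singleton.1 this
  obtain ⟨y, hy⟩ : g ∈ LinearMap.range (B v) := by
    rw [hg]; exact Submodule.mem_span_singleton_self g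
  have hg0 : g ≠ 0 := by
    intro h
    apply hv0
    apply hB.1
    ext z
    have := hgd z
    rw [h, zero_dvd_iff] at this
    simpa using this
  let ψ : L →ₗ[ℤ] ℤ :=
    { toFun := fun z => B v z / g
      map_add' := fun a b => by rw [map_add, Int.add_ediv_of_dvd_left (hgd a)]
      map_smul' := fun c a => by
        rw [map_smul, smul_eq_mul, Int.mul_ediv_assoc _ (hgd a)]; simp }
  have hψ : ∀ z, B v z = g * ψ z := fun z => (Int.mul_ediv_cancel' (hgd z)).symm
  obtain ⟨x, hx⟩ := hB.2 ψ
  have hvx : v = g • x := by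
    apply hB.1
    ext z
    simp only [map_smul, LinearMap.smul_apply, smul_eq_mul]
    rw [hψ]
    congr 1
    exact (LinearMap.congr_fun hx z).symm
  refine ⟨x, y, ?_, ?_⟩
  · rw [hvx] at hv
    simp only [map_smul, LinearMap.smul_apply, smul_eq_mul] at hv
    have := (mul_eq_zero.1 ((mul_eq_zero.1 hv).resolve_left hg0)).resolve_left hg0
    exact this
  · have h1 := hψ y
    rw [hy] at h1
    have h2 : ψ y = 1 := by
      have : g * 1 = g * ψ y := by rw [mul_one]; exact h1
      exact (mul_left_cancel₀ hg0 this).symm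
    rw [← h2]
    exact LinearMap.congr_fun hx y

/-- rank one form -/
def one (ε : ℤ) : BilinForm ℤ ℤ := ε • LinearMap.mul ℤ ℤ

@[simp] lemma one_apply (ε x y : ℤ) : one ε x y = ε * (x * y) := rfl

/-- diagonal form -/
def dg (n : ℕ) (ε : ℤ) : BilinForm ℤ (Fin n → ℤ) :=
  LinearMap.mk₂ ℤ (fun x y => ε * ∑ i, x i * y i)
    (by intros; simp [add_mul, Finset.sum_add_distrib, mul_add])
    (by intros; simp [Finset.mul_sum]; exact Finset.sum_congr rfl fun i _ => by ring)
    (by intros; simp [mul_add, Finset.sum_add_distrib])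
    (by intros; simp [Finset.mul_sum]; exact Finset.sum_congr rfl fun i _ => by ring)

@[simp] lemma dg_apply (n : ℕ) (ε : ℤ) (x y : Fin n → ℤ) : dg n ε x y = ε * ∑ i, x i * y i := rfl

lemma dg_succ (n : ℕ) (ε : ℤ) : IsoZ (osum (one ε) (dg n ε)) (dg (n + 1) ε) := by
  refine ⟨Fin.consLinearEquiv ℤ (fun _ : Fin (n + 1) => ℤ), fun x y => ?_⟩
  simp [Fin.sum_univ_succ]
  ring

/-- the standard odd form -/
def Ipq (p q : ℕ) : BilinForm ℤ ((Fin p → ℤ) × (Fin q → ℤ)) := osum (dg p 1) (dg q (-1))

lemma Ipq_succ_left (p q : ℕ) : IsoZ (osum (one 1) (Ipq p q)) (Ipq (p + 1) q) :=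
  (IsoZ.osum_assoc _ _ _).symm.trans (IsoZ.osum_congr (dg_succ p 1) (IsoZ.refl _))

lemma Ipq_succ_right (p q : ℕ) : IsoZ (osum (one (-1)) (Ipq p q)) (Ipq p (q + 1)) := by
  refine (IsoZ.osum_comm _ _).trans ((IsoZ.osum_assoc _ _ _).trans (IsoZ.osum_congr (IsoZ.refl _) ?_))
  exact (IsoZ.osum_comm _ _).trans (dg_succ q (-1))

lemma one_uni {ε : ℤ} (h : ε * ε = 1) : Uni (one ε) := by
  have h0 : ε ≠ 0 := by rintro rfl; simp at h
  constructor
  · intro x y hxy
    have := LinearMap.congr_fun hxy 1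
    simpa [h0] using this
  · intro φ
    refine ⟨ε * φ 1, ?_⟩
    ext
    simp only [one_apply, mul_one]
    rw [← mul_assoc, h, one_mul]

lemma one_sy (ε : ℤ) : Sy (one ε) := fun x y => by simp [mul_comm]

/-- splitting off `<1> + <-1>` from an odd indefinite unimodular lattice -/
lemma odd_split [Module.Free ℤ L] [Module.Finite ℤ L] {B : BilinForm ℤ L} (hs : Sy B)
    (hB : Uni B) (hi : Indef B) (ho : ∃ t, ¬ Even (B t t)) :
    ∃ F : Submodule ℤ L, Uni (res B F) ∧ IsoZ B (osum (osum (one 1) (one (-1))) (res B F)) := by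
  obtain ⟨x, y, hxx, hxy⟩ := exists_prim hs hB hi
  -- make `y.y` odd
  obtain ⟨y, hxy, hyy⟩ : ∃ y, B x y = 1 ∧ ¬ Even (B y y) := by
    by_cases hy : Even (B y y)
    · obtain ⟨t, ht⟩ := ho
      refine ⟨t + (1 - B x t) • y, ?_, ?_⟩
      · simp [hxy]
      · have e : B (t + (1 - B x t) • y) (t + (1 - B x t) • y) =
            B t t + 2 * ((1 - B x t) * B t y) + (1 - B x t) ^ 2 * B y y := by
          simp only [map_add, map_smul, LinearMap.add_apply, LinearMap.smul_apply, smul_eq_mul]
          rw [hs y t]; ring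
        rw [e]
        intro h
        apply ht
        have h2 : Even ((1 - B x t) ^ 2 * B y y) := hy.mul_left _
        have h3 : Even (2 * ((1 - B x t) * B t y)) := even_two_mul _
        rw [Int.even_add, Int.even_add] at h
        tauto
    · exact ⟨y, hxy, hy⟩
  obtain ⟨m, hm⟩ := Int.not_even_iff_odd.1 hyy
  have hyx : B y x = 1 := by rw [hs]; exact hxy
  set e₁ := y - m • x with he₁
  set e₂ := x - e₁ with he₂
  have h11 : B e₁ e₁ = 1 := by
    simp only [he₁, map_sub, map_smul, LinearMap.sub_apply, LinearMap.smul_apply, smul_eq_mul,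
      hxx, hxy, hyx, hm]; ring
  have hx1 : B x e₁ = 1 := by
    simp only [he₁, map_sub, map_smul, smul_eq_mul, hxx, hxy]; ring
  have h1x : B e₁ x = 1 := by rw [hs]; exact hx1
  have h22 : B e₂ e₂ = -1 := by
    simp only [he₂, map_sub, LinearMap.sub_apply, hxx, hx1, h1x, h11]; ring
  have h12 : B e₁ e₂ = 0 := by simp only [he₂, map_sub, h1x, h11]; ring
  have h21 : B e₂ e₁ = 0 := by rw [hs]; exact h12
  let s : ℤ × ℤ →ₗ[ℤ] L := (LinearMap.toSpanSingleton ℤ L e₁).coprod (LinearMap.toSpanSingleton ℤ L e₂)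
  have hsa : ∀ a, s a = a.1 • e₁ + a.2 • e₂ := fun a => by simp [s]
  refine split (BM := osum (one 1) (one (-1)))
    ((one_uni (by norm_num)).osum (one_uni (by norm_num))) hs hB s fun a b => ?_
  rw [hsa, hsa]
  simp only [map_add, map_smul, LinearMap.add_apply, LinearMap.smul_apply, smul_eq_mul, h11, h22,
    h12, h21, osum_apply, one_apply]
  ring

/-- a nonzero unimodular lattice has a vector of nonzero norm -/
lemma exists_norm_ne [Nontrivial L] {B : BilinForm ℤ L} (hs : Sy B) (hB : Uni B) :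
    ∃ f, B f f ≠ 0 := by
  by_contra hcon
  push Not at hcon
  obtain ⟨x, hx⟩ := exists_ne (0 : L)
  apply hx
  apply hB.1
  ext y
  have h1 := hcon (x + y)
  simp only [map_add, LinearMap.add_apply, hcon x, hcon y] at h1
  have := hs x y
  simp only [map_zero, LinearMap.zero_apply]
  omega

/-- **Odd indefinite unimodular lattices.** -/
theorem odd_class (n : ℕ) : ∀ (L : Type) [AddCommGroup L] [Module.Free ℤ L] [Module.Finite ℤ L]
    (B : BilinForm ℤ L), finrank ℤ L = n → Sy B → Uni B → Indef B → (∃ t, ¬ Even (B t t)) →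
    ∃ p q : ℕ, IsoZ B (Ipq p q) := by
  induction n using Nat.strong_induction_on with
  | _ n ih =>
    intro L _ _ _ B hn hs hB hi ho
    obtain ⟨F, hF, hiso⟩ := odd_split hs hB hi ho
    have hrank : finrank ℤ L = 2 + finrank ℤ F := by
      obtain ⟨e, -⟩ := hiso
      rw [e.finrank_eq, finrank_prod, finrank_prod, finrank_self]
    have hFs : Sy (res B F) := fun x y => hs _ _
    rcases subsingleton_or_nontrivial F with hsub | hnon
    · refine ⟨1, 1, hiso.trans ?_⟩
      refine ⟨{ toFun := fun x => (fun _ => x.1.1, fun _ => x.1.2)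
                map_add' := fun x y => rfl
                map_smul' := fun c x => rfl
                invFun := fun x => ((x.1 0, x.2 0), 0)
                left_inv := fun x => Prod.ext rfl (Subsingleton.elim _ _)
                right_inv := fun x => by
                  refine Prod.ext (funext fun i => ?_) (funext fun i => ?_) <;>
                    rw [Subsingleton.elim i 0] }, fun x y => ?_⟩
      have h0 : (x.2 : L) = 0 := by rw [Subsingleton.elim x.2 0]; rfl
      simp [Ipq, h0]
    · obtain ⟨f, hf⟩ := exists_norm_ne hFs hF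
      rcases lt_or_gt_of_ne hf with hf | hf
      · -- negative: `<1> + F` indefinite
        obtain ⟨p, q, h1⟩ := ih (1 + finrank ℤ F) (by omega) (ℤ × F) (osum (one 1) (res B F))
          (by rw [finrank_prod, finrank_self]) ((one_sy 1).osum hFs)
          ((one_uni (by norm_num)).osum hF)
          ⟨⟨(1, 0), by simp⟩, ⟨(0, f), by simpa using hf⟩⟩ ⟨(1, 0), by simp⟩
        refine ⟨p, q + 1, hiso.trans ?_⟩
        refine IsoZ.trans ?_ (Ipq_succ_right p q)
        refine IsoZ.trans ?_ (IsoZ.osum_congr (IsoZ.refl _) h1)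
        exact (IsoZ.osum_congr (IsoZ.osum_comm _ _) (IsoZ.refl _)).trans (IsoZ.osum_assoc _ _ _)
      · obtain ⟨p, q, h1⟩ := ih (1 + finrank ℤ F) (by omega) (ℤ × F) (osum (one (-1)) (res B F))
          (by rw [finrank_prod, finrank_self]) ((one_sy (-1)).osum hFs)
          ((one_uni (by norm_num)).osum hF)
          ⟨⟨(0, f), by simpa using hf⟩, ⟨(1, 0), by simp⟩⟩ ⟨(1, 0), by simp⟩
        refine ⟨p + 1, q, hiso.trans ?_⟩
        refine IsoZ.trans ?_ (Ipq_succ_left p q)
        refine IsoZ.trans ?_ (IsoZ.osum_congr (IsoZ.refl _) h1)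
        exact IsoZ.osum_assoc _ _ _

end Crest.Agent.R235.LatO_283
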