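import Crest.Agent.R235.LatB_283

/-!
Row 235, package LAT, file R: reduction modulo `p` of a Lagrangian (residue lemma).
-/

open Module

namespace Crest.Agent.R235.LatR_283

open LinearMap (BilinForm)
open LatA_283 LatB_283
open Matrix

/-- bilinear form of a matrix -/
def matB {K : Type*} [Field K] {ι : Type*} [Fintype ι] (A : Matrix ι ι K) : BilinForm K (ι → K) :=
  LinearMap.mk₂ K (fun x y => x ⬝ᵥ (A *ᵥ y))
    (by intros; simp [add_dotProduct]) (by intros; simp)
    (by intros; simp [mulVec_add, dotProduct_add]) (by intros; simp [mulVec_smul])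

@[simp] lemma matB_apply {K : Type*} [Field K] {ι : Type*} [Fintype ι] (A : Matrix ι ι K)
    (x y : ι → K) : matB A x y = x ⬝ᵥ (A *ᵥ y) := rfl

lemma matB_symm {K : Type*} [Field K] {ι : Type*} [Fintype ι] {A : Matrix ι ι K}
    (h : A.IsSymm) : (matB A).IsSymm :=
  ⟨fun x y => by
    simp only [matB_apply]
    rw [dotProduct_comm, dotProduct_mulVec, ← mulVec_transpose, h.eq, dotProduct_comm,
      ← dotProduct_comm]⟩

lemma matB_nd {K : Type*} [Field K] {ι : Type*} [Fintype ι] [DecidableEq ι] {A : Matrix ι ι K}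
    (h : A.det ≠ 0) : ND (matB A) := by
  intro x hx
  refine eq_zero_of_vecMul_eq_zero h ?_
  ext j
  have := hx (Pi.single j 1)
  rw [matB_apply, dotProduct_mulVec] at this
  simpa using this

variable {τ : Type} [Fintype τ] (p : ℕ) [hp : Fact p.Prime]

/-- integral points of a rational subspace -/
def intPts (N : Submodule ℚ (τ → ℚ)) : Submodule ℤ (τ → ℤ) where
  carrier := {z | (fun i => (z i : ℚ)) ∈ N}
  zero_mem' := by
    have h : (fun i : τ => (((0 : τ → ℤ) i : ℤ) : ℚ)) = 0 := by ext; simp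
    show (fun i : τ => (((0 : τ → ℤ) i : ℤ) : ℚ)) ∈ N
    rw [h]; exact N.zero_mem
  add_mem' := by
    intro a b ha hb
    have h : (fun i : τ => (((a + b) i : ℤ) : ℚ)) = (fun i => (a i : ℚ)) + (fun i => (b i : ℚ)) := by
      ext; simp
    show (fun i : τ => (((a + b) i : ℤ) : ℚ)) ∈ N
    rw [h]; exact N.add_mem ha hb
  smul_mem' := by
    intro c x hx
    have h : (fun i : τ => (((c • x) i : ℤ) : ℚ)) = (c : ℚ) • (fun i => (x i : ℚ)) := by
      ext; simp
    show (fun i : τ => (((c • x) i : ℤ) : ℚ)) ∈ N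
    rw [h]; exact N.smul_mem _ hx

omit [Fintype τ] in
lemma mem_intPts {N : Submodule ℚ (τ → ℚ)} {z : τ → ℤ} :
    z ∈ intPts N ↔ (fun i => (z i : ℚ)) ∈ N := Iff.rfl

/-- reduction modulo `p` of a rational subspace -/
def redu (N : Submodule ℚ (τ → ℚ)) : Submodule (ZMod p) (τ → ZMod p) where
  carrier := {y | ∃ z ∈ intPts N, y = fun i => (z i : ZMod p)}
  zero_mem' := ⟨0, Submodule.zero_mem _, by ext; simp⟩
  add_mem' := by
    rintro _ _ ⟨z, hz, rfl⟩ ⟨z', hz', rfl⟩
    exact ⟨z + z', Submodule.add_mem _ hz hz', by ext; simp⟩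
  smul_mem' := by
    rintro c _ ⟨z, hz, rfl⟩
    refine ⟨(c.val : ℤ) • z, Submodule.smul_mem _ _ hz, ?_⟩
    ext i; simp

/-- common denominator -/
lemma exists_clear (x : τ → ℚ) : ∃ (d : ℤ) (z : τ → ℤ), d ≠ 0 ∧ ∀ i, (d : ℚ) * x i = z i := by
  classical
  refine ⟨∏ i, ((x i).den : ℤ), fun i => (∏ j ∈ Finset.univ.erase i, ((x j).den : ℤ)) * (x i).num, ?_, fun i => ?_⟩
  · exact Finset.prod_ne_zero_iff.2 fun i _ => by exact_mod_cast (x i).den_ne_zero
  · rw [← Finset.prod_erase_mul _ _ (Finset.mem_univ i)]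
    push_cast
    rw [mul_assoc]
    congr 1
    exact_mod_cast Rat.den_mul_eq_num (x i)

lemma finrank_le_redu (N : Submodule ℚ (τ → ℚ)) : finrank ℚ N ≤ finrank (ZMod p) (redu p N) := by
  classical
  obtain ⟨k, b⟩ := Submodule.basisOfPid (Pi.basisFun ℤ τ) (intPts N)
  have h1 : finrank ℚ N ≤ k := by
    have hle : N ≤ Submodule.span ℚ (Set.range fun j : Fin k => (fun i => ((b j : τ → ℤ) i : ℚ))) := by
      intro x hx
      obtain ⟨d, z, hd, hz⟩ := exists_clear x
      have hzN : z ∈ intPts N := by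
        rw [mem_intPts]
        have := N.smul_mem (d : ℚ) hx
        convert this using 1
        ext i; simp [hz]
      have hd' : (d : ℚ) ≠ 0 := by exact_mod_cast hd
      have hx' : x = (d : ℚ)⁻¹ • (fun i => (z i : ℚ)) := by
        ext i; simp only [Pi.smul_apply, smul_eq_mul, ← hz]; field_simp
      rw [hx']
      refine Submodule.smul_mem _ _ ?_
      have hrep := b.sum_repr ⟨z, hzN⟩
      have hz2 : (fun i => (z i : ℚ)) = ∑ j, (b.repr ⟨z, hzN⟩ j : ℚ) • (fun i => ((b j : τ → ℤ) i : ℚ)) := by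
        ext i
        have := congrArg (fun y : intPts N => ((y : τ → ℤ) i)) hrep
        simp only [Submodule.coe_sum, Finset.sum_apply, Submodule.coe_smul, Pi.smul_apply, smul_eq_mul] at this
        simp only [Finset.sum_apply, Pi.smul_apply, smul_eq_mul]
        exact_mod_cast this.symm
      rw [hz2]
      exact Submodule.sum_mem _ fun j _ => Submodule.smul_mem _ _ (Submodule.subset_span ⟨j, rfl⟩)
    calc finrank ℚ N ≤ finrank ℚ (Submodule.span ℚ (Set.range fun j : Fin k => (fun i => ((b j : τ → ℤ) i : ℚ)))) := Submodule.finrank_mono hle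
      _ ≤ (Set.range fun j : Fin k => (fun i => ((b j : τ → ℤ) i : ℚ))).toFinset.card := finrank_span_le_card _
      _ ≤ k := by
        rw [Set.toFinset_range]
        exact Finset.card_image_le.trans (by simp)
  refine h1.trans ?_
  -- linear independence modulo p
  let v : Fin k → redu p N := fun j => ⟨fun i => ((b j : τ → ℤ) i : ZMod p), ⟨_, (b j).2, rfl⟩⟩
  have hv : LinearIndependent (ZMod p) v := by
    rw [Fintype.linearIndependent_iff]
    intro g hg j
    have hg' : ∀ i, ((∑ j, ((g j).val : ℤ) • (b j : τ → ℤ)) i : ZMod p) = 0 := by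
      intro i
      have := congrArg (fun y : redu p N => (y : τ → ZMod p) i) hg
      simp only [v, Submodule.coe_sum, Finset.sum_apply, Submodule.coe_smul, Pi.smul_apply, smul_eq_mul,
        Submodule.coe_zero, Pi.zero_apply] at this
      rw [← this]
      simp only [Finset.sum_apply, Pi.smul_apply, smul_eq_mul]
      push_cast
      exact Finset.sum_congr rfl fun x _ => by rw [ZMod.natCast_zmod_val]
    have hdiv : ∀ i, ∃ y : ℤ, (∑ j, ((g j).val : ℤ) • (b j : τ → ℤ)) i = p * y := by
      intro i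
      exact (ZMod.intCast_zmod_eq_zero_iff_dvd _ p).1 (hg' i)
    choose y hy using hdiv
    have hyN : y ∈ intPts N := by
      rw [mem_intPts]
      have hmem : (∑ j, ((g j).val : ℤ) • (b j : τ → ℤ)) ∈ intPts N :=
        Submodule.sum_mem _ fun j _ => Submodule.smul_mem _ _ (b j).2
      rw [mem_intPts] at hmem
      have := N.smul_mem ((p : ℚ)⁻¹) hmem
      convert this using 1
      ext i
      simp only [Pi.smul_apply, smul_eq_mul]
      rw [hy i]
      have : (p : ℚ) ≠ 0 := by exact_mod_cast hp.out.ne_zero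
      push_cast
      field_simp
    have heq : ∑ j, ((g j).val : ℤ) • b j = ∑ j, ((p : ℤ) * b.repr ⟨y, hyN⟩ j) • b j := by
      have h1 : ∑ j, ((p : ℤ) * b.repr ⟨y, hyN⟩ j) • b j = (p : ℤ) • (⟨y, hyN⟩ : intPts N) := by
        rw [← b.sum_repr ⟨y, hyN⟩, Finset.smul_sum]
        refine Finset.sum_congr rfl fun j _ => ?_
        rw [b.sum_repr, mul_smul]
      rw [h1]
      apply Subtype.ext
      ext i
      have := hy i
      simpa [Submodule.coe_sum] using this
    have hcoef : ∀ j, ((g j).val : ℤ) = (p : ℤ) * b.repr ⟨y, hyN⟩ j := by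
      have := (Fintype.linearIndependent_iff.1 b.linearIndependent)
        (fun j => ((g j).val : ℤ) - (p : ℤ) * b.repr ⟨y, hyN⟩ j)
        (by simp only [sub_smul, Finset.sum_sub_distrib]; rw [heq, sub_self])
      intro j
      have := this j
      linarith
    have h2 : (((g j).val : ℤ) : ZMod p) = 0 := by rw [hcoef j]; simp
    simpa using h2
  simpa using hv.fintype_card_le_finrank

/-- **Residue lemma.** If `A` is unimodular at `p` and `A + p <m_1,..,m_k>` is metabolic over `ℚ`
then `<m_1,..,m_k>` is metabolic over `F_p`. -/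
theorem residue {ι κ : Type} [Fintype ι] [DecidableEq ι] [Fintype κ]
    (A : Matrix ι ι ℤ) (hA : A.IsSymm) (hdet : (A.det : ZMod p) ≠ 0) (m : κ → ℤ)
    (hm : ∀ j, (m j : ZMod p) ≠ 0)
    (h : Met (oplus (matB (A.map (Int.cast : ℤ → ℚ))) (diagB (fun j => ((p * m j : ℤ) : ℚ))))) :
    Met (diagB (fun j => (m j : ZMod p))) := by
  classical
  -- transport to functions on the sum
  obtain ⟨N0, hN0, hB0⟩ := h
  let e := (LinearEquiv.sumArrowLequivProdArrow ι κ ℚ ℚ).symm
  set N : Submodule ℚ (ι ⊕ κ → ℚ) := N0.map (e : _ →ₗ[ℚ] _) with hN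
  have hNf : 2 * finrank ℚ N = Fintype.card ι + Fintype.card κ := by
    rw [hN, LinearEquiv.finrank_map_eq, hN0]; simp
  have hNB : ∀ x ∈ N, ∀ y ∈ N, (∑ i, ∑ j, x (Sum.inl i) * (A i j : ℚ) * y (Sum.inl j))
      + ∑ j, (p * m j : ℚ) * x (Sum.inr j) * y (Sum.inr j) = 0 := by
    rintro _ ⟨x, hx, rfl⟩ _ ⟨y, hy, rfl⟩
    have := hB0 x hx y hy
    simp only [oplus_apply, matB_apply, diagB_apply, dotProduct, mulVec, Finset.mul_sum,
      Matrix.map_apply] at this
    push_cast at this
    rw [← this]
    congr 1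
    refine Finset.sum_congr rfl fun i _ => Finset.sum_congr rfl fun j _ => ?_
    show x.1 i * (A i j : ℚ) * y.1 j = x.1 i * ((A i j : ℚ) * y.1 j)
    ring
  have hZ : ∀ x ∈ intPts N, ∀ y ∈ intPts N, (∑ i, ∑ j, x (Sum.inl i) * A i j * y (Sum.inl j))
      + p * ∑ j, m j * x (Sum.inr j) * y (Sum.inr j) = 0 := by
    intro x hx y hy
    have := hNB _ hx _ hy
    have h2 : (((∑ i, ∑ j, x (Sum.inl i) * A i j * y (Sum.inl j))
      + p * ∑ j, m j * x (Sum.inr j) * y (Sum.inr j) : ℤ) : ℚ) = 0 := by
      rw [← this]; push_cast; congr 1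
      rw [Finset.mul_sum]
      exact Finset.sum_congr rfl fun j _ => by ring
    exact_mod_cast h2
  have hdim := finrank_le_redu p N
  set R := redu p N with hR
  -- projection to the first block
  let π : (ι ⊕ κ → ZMod p) →ₗ[ZMod p] (ι → ZMod p) := LinearMap.funLeft (ZMod p) (ZMod p) Sum.inl
  let σ : (κ → ZMod p) →ₗ[ZMod p] (ι ⊕ κ → ZMod p) :=
    (LinearEquiv.sumArrowLequivProdArrow ι κ (ZMod p) (ZMod p)).symm.toLinearMap ∘ₗ LinearMap.inr _ _ _
  have hσl : ∀ c i, σ c (Sum.inl i) = 0 := fun c i => rfl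
  have hσr : ∀ c j, σ c (Sum.inr j) = c j := fun c j => rfl
  set T : Submodule (ZMod p) (κ → ZMod p) := R.comap σ with hT
  set I : Submodule (ZMod p) (ι → ZMod p) := R.map π with hI
  -- I isotropic
  have hAs : (A.map (Int.cast : ℤ → ZMod p)).IsSymm := by
    ext i j
    simp only [Matrix.transpose_apply, Matrix.map_apply]
    rw [hA.apply]
  have hAd : (A.map (Int.cast : ℤ → ZMod p)).det ≠ 0 := by
    have : (A.map (Int.cast : ℤ → ZMod p)).det = (A.det : ZMod p) := by
      exact (Int.cast_det A).symm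
    rwa [this]
  have hIiso : 2 * finrank (ZMod p) I ≤ Fintype.card ι := by
    have := isotropic_le (matB_symm hAs) (matB_nd hAd) (N := I) (by
      rintro _ ⟨_, ⟨x, hx, rfl⟩, rfl⟩ _ ⟨_, ⟨y, hy, rfl⟩, rfl⟩
      have h1 := hZ x hx y hy
      have h2 := congrArg (Int.cast : ℤ → ZMod p) h1
      push_cast at h2
      simp only [CharP.cast_eq_zero, zero_mul, add_zero] at h2
      rw [← h2]
      simp only [matB_apply, dotProduct, mulVec, Finset.mul_sum, Matrix.map_apply]
      refine Finset.sum_congr rfl fun i _ => Finset.sum_congr rfl fun j _ => ?_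
      show (x (Sum.inl i) : ZMod p) * ((A i j : ZMod p) * (y (Sum.inl j) : ZMod p)) = _
      ring)
    simpa using this
  -- dimension of T
  have hTdim : finrank (ZMod p) R ≤ finrank (ZMod p) I + finrank (ZMod p) T := by
    have h1 := LinearMap.finrank_range_add_finrank_ker (π.domRestrict R)
    rw [LinearMap.range_domRestrict, ← hI] at h1
    have h2 : finrank (ZMod p) (LinearMap.ker (π.domRestrict R)) ≤ finrank (ZMod p) T := by
      let f : LinearMap.ker (π.domRestrict R) →ₗ[ZMod p] T :=
        { toFun := fun x => ⟨fun j => (x : R).1 (Sum.inr j), by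
            have h0 : ∀ i, (x : R).1 (Sum.inl i) = 0 := fun i => by
              have := x.2
              rw [LinearMap.mem_ker] at this
              exact congrFun this i
            show σ (fun j => (x : R).1 (Sum.inr j)) ∈ R
            have : σ (fun j => (x : R).1 (Sum.inr j)) = (x : R).1 := by
              ext (i | j)
              · rw [hσl, h0]
              · rw [hσr]
            rw [this]
            exact (x : R).2⟩
          map_add' := fun x y => rfl
          map_smul' := fun c x => rfl }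
      refine LinearMap.finrank_le_finrank_of_injective (f := f) ?_
      rw [injective_iff_map_eq_zero]
      intro x hx
      apply Subtype.ext
      apply Subtype.ext
      ext (i | j)
      · have := x.2
        rw [LinearMap.mem_ker] at this
        exact congrFun this i
      · exact congrFun (congrArg Subtype.val hx) j
    omega
  have hmd : ND (diagB (fun j => (m j : ZMod p))) := diagB_nd _ hm
  have hTiso : ∀ x ∈ T, ∀ y ∈ T, diagB (fun j => (m j : ZMod p)) x y = 0 := by
    rintro c ⟨x, hx, hcx⟩ c' ⟨y, hy, hcy⟩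
    have hx0 : ∀ i, ∃ a : ℤ, x (Sum.inl i) = p * a := fun i => by
      refine (ZMod.intCast_zmod_eq_zero_iff_dvd _ p).1 ?_
      exact (congrFun hcx (Sum.inl i)).symm
    have hy0 : ∀ i, ∃ a : ℤ, y (Sum.inl i) = p * a := fun i => by
      refine (ZMod.intCast_zmod_eq_zero_iff_dvd _ p).1 ?_
      exact (congrFun hcy (Sum.inl i)).symm
    choose a ha using hx0
    choose b hb using hy0
    have h1 := hZ x hx y hy
    have h3 : (∑ j, m j * x (Sum.inr j) * y (Sum.inr j)) = - (p * ∑ i, ∑ j, a i * A i j * b j) := by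
      have hp0 : (p : ℤ) ≠ 0 := by exact_mod_cast hp.out.ne_zero
      apply mul_left_cancel₀ hp0
      have h4 : (∑ i, ∑ j, x (Sum.inl i) * A i j * y (Sum.inl j)) = p * (p * ∑ i, ∑ j, a i * A i j * b j) := by
        simp only [Finset.mul_sum, ha, hb]
        exact Finset.sum_congr rfl fun i _ => Finset.sum_congr rfl fun j _ => by ring
      rw [h4] at h1
      linarith
    have h5 := congrArg (Int.cast : ℤ → ZMod p) h3
    push_cast at h5
    simp only [CharP.cast_eq_zero, zero_mul, neg_zero] at h5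
    rw [← h5]
    simp only [diagB_apply]
    refine Finset.sum_congr rfl fun j _ => ?_
    have e1 : c j = (x (Sum.inr j) : ZMod p) := by
      have := congrFun hcx (Sum.inr j)
      simpa [hσr] using this
    have e2 : c' j = (y (Sum.inr j) : ZMod p) := by
      have := congrFun hcy (Sum.inr j)
      simpa [hσr] using this
    rw [e1, e2]
  have hle := isotropic_le (diagB_symm _) hmd hTiso
  refine ⟨T, ?_, hTiso⟩
  rw [finrank_pi] at hle ⊢
  omega

end Crest.Agent.R235.LatR_283
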