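import Crest.Agent.R235.LatB_283

/-!
Row 235, package LAT, file S: the filtration `L k` of the Witt group of `ℚ` and the map
`φ : F_p → W(ℚ)/L (p-1)`, `x ↦ <p x>`.
-/

open Module

namespace Crest.Agent.R235.LatS_283

open LinearMap (BilinForm)
open LatA_283 LatB_283

/-- class of an integer (0 for 0) -/
noncomputable def wz (a : ℤ) : W ℚ :=
  if h : (a : ℚ) ≠ 0 then w (Units.mk0 (a : ℚ) h) else 0

lemma wz_zero : wz 0 = 0 := by simp [wz]

lemma wz_of_ne {a : ℤ} (h : (a : ℚ) ≠ 0) : wz a = w (Units.mk0 (a : ℚ) h) := by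
  rw [wz, dif_pos h]

lemma wz_neg (a : ℤ) : wz (-a) = -wz a := by
  by_cases h : a = 0
  · simp [h, wz_zero]
  · have h1 : (a : ℚ) ≠ 0 := by exact_mod_cast h
    have h2 : ((-a : ℤ) : ℚ) ≠ 0 := by exact_mod_cast neg_ne_zero.2 h
    rw [wz_of_ne h1, wz_of_ne h2, ← w_neg]
    congr 1
    ext; simp

lemma wz_sq (a : ℤ) {c : ℤ} (hc : c ≠ 0) : wz (a * c ^ 2) = wz a := by
  by_cases h : a = 0
  · simp [h]
  · have h1 : (a : ℚ) ≠ 0 := by exact_mod_cast h
    have h2 : ((a * c ^ 2 : ℤ) : ℚ) ≠ 0 := by exact_mod_cast mul_ne_zero h (pow_ne_zero 2 hc)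
    have h3 : (c : ℚ) ≠ 0 := by exact_mod_cast hc
    rw [wz_of_ne h1, wz_of_ne h2, ← w_sq (Units.mk0 (a : ℚ) h1) (Units.mk0 (c : ℚ) h3)]
    congr 1
    ext; simp

lemma wz_add (a b : ℤ) : wz a + wz b = wz (a + b) + wz (a * b * (a + b)) := by
  by_cases ha : a = 0
  · simp [ha, wz_zero]
  by_cases hb : b = 0
  · simp [hb, wz_zero]
  by_cases hab : a + b = 0
  · have : b = -a := by omega
    subst this
    simp [wz_neg, wz_zero]
  have ha' : (a : ℚ) ≠ 0 := by exact_mod_cast ha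
  have hb' : (b : ℚ) ≠ 0 := by exact_mod_cast hb
  have hab' : ((a + b : ℤ) : ℚ) ≠ 0 := by exact_mod_cast hab
  have hp : ((a * b * (a + b) : ℤ) : ℚ) ≠ 0 := by
    exact_mod_cast mul_ne_zero (mul_ne_zero ha hb) hab
  rw [wz_of_ne ha', wz_of_ne hb', wz_of_ne hab', wz_of_ne hp,
    w_add (Units.mk0 (a : ℚ) ha') (Units.mk0 (b : ℚ) hb') (Units.mk0 ((a + b : ℤ) : ℚ) hab') (by simp)]
  congr 2
  ext; simp

/-! ### multiplication -/

lemma cls_mul {ι : Type} [Fintype ι] {K : Type} [Field K] (c : Kˣ) (d : ι → Kˣ) :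
    Finsupp.mapDomain (fun a => c * a) (cls d) = cls (fun i => c * d i) := by
  unfold cls
  rw [Finsupp.mapDomain_finsetSum]
  simp [Finsupp.mapDomain_single]

lemma Eqv.mul {ι κ : Type} [Fintype ι] [Fintype κ] {K : Type} [Field K] (c : Kˣ)
    {d : ι → Kˣ} {e : κ → Kˣ}
    (h : Eqv d e) : Eqv (fun i => c * d i) (fun i => c * e i) := by
  obtain ⟨N, hN, hB⟩ := h
  refine ⟨N, hN, fun x hx y hy => ?_⟩
  have := hB x hx y hy
  simp only [oplus_apply, D_apply] at this ⊢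
  have h2 : (∑ i, ((c * d i : Kˣ) : K) * x.1 i * y.1 i) + (∑ i, ((-(c * e i) : Kˣ) : K) * x.2 i * y.2 i)
      = c * ((∑ i, (d i : K) * x.1 i * y.1 i) + (∑ i, ((-(e i) : Kˣ) : K) * x.2 i * y.2 i)) := by
    rw [mul_add, Finset.mul_sum, Finset.mul_sum]
    congr 1
    · exact Finset.sum_congr rfl fun i _ => by push_cast; ring
    · exact Finset.sum_congr rfl fun i _ => by push_cast; ring
  rw [h2, this, mul_zero]

/-- scaling of classes -/
noncomputable def mu (c : ℚˣ) : W ℚ →+ W ℚ :=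
  QuotientAddGroup.map (N0 ℚ) (N0 ℚ) (Finsupp.mapDomain.addMonoidHom (fun a => c * a)) (by
    rintro _ ⟨n, m, d, e, rfl, h⟩
    refine ⟨n, m, fun i => c * d i, fun i => c * e i, ?_, Eqv.mul c h⟩
    rw [map_sub]
    show Finsupp.mapDomain (fun a => c * a) (cls d) - Finsupp.mapDomain (fun a => c * a) (cls e) = _
    rw [cls_mul, cls_mul])

lemma mu_w (c a : ℚˣ) : mu c (w a) = w (c * a) := by
  unfold mu w
  rw [QuotientAddGroup.map_mk]
  congr 1
  show Finsupp.mapDomain (fun a => c * a) (Finsupp.single a 1) = _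
  rw [Finsupp.mapDomain_single]

lemma mu_wz {c : ℤ} (hc : (c : ℚ) ≠ 0) (a : ℤ) : mu (Units.mk0 (c : ℚ) hc) (wz a) = wz (c * a) := by
  by_cases ha : a = 0
  · simp [ha, wz_zero]
  have ha' : (a : ℚ) ≠ 0 := by exact_mod_cast ha
  have hca : ((c * a : ℤ) : ℚ) ≠ 0 := by push_cast; exact mul_ne_zero hc ha'
  rw [wz_of_ne ha', wz_of_ne hca, mu_w]
  congr 1
  ext; simp

/-! ### filtration -/

/-- all prime factors are `≤ k` (or the number is `0`) -/
def Sm (k : ℕ) (a : ℤ) : Prop := a = 0 ∨ ∀ q : ℕ, q.Prime → (q : ℤ) ∣ a → q ≤ k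

lemma Sm.mul {k : ℕ} {a b : ℤ} (ha : Sm k a) (hb : Sm k b) : Sm k (a * b) := by
  rcases ha with rfl | ha
  · left; simp
  rcases hb with rfl | hb
  · left; simp
  right
  intro q hq hd
  rcases (Nat.prime_iff_prime_int.1 hq).dvd_mul.1 hd with h | h
  · exact ha q hq h
  · exact hb q hq h

lemma Sm.neg {k : ℕ} {a : ℤ} (ha : Sm k a) : Sm k (-a) := by
  rcases ha with rfl | ha
  · left; simp
  right; intro q hq hd; exact ha q hq (by simpa using hd)

lemma Sm.of_abs {k : ℕ} {a : ℤ} (h : |a| ≤ k) : Sm k a := by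
  by_cases ha : a = 0
  · exact Or.inl ha
  right
  intro q hq hd
  have := Int.le_of_dvd (abs_pos.2 ha) ((dvd_abs _ _).2 hd)
  omega

lemma Sm.mono {k l : ℕ} (h : k ≤ l) {a : ℤ} (ha : Sm k a) : Sm l a := by
  rcases ha with rfl | ha
  · left; rfl
  right; intro q hq hd; exact (ha q hq hd).trans h

/-- the filtration -/
noncomputable def L (k : ℕ) : AddSubgroup (W ℚ) := AddSubgroup.closure (wz '' {a | Sm k a})

lemma mem_L {k : ℕ} {a : ℤ} (h : Sm k a) : wz a ∈ L k :=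
  AddSubgroup.subset_closure ⟨a, h, rfl⟩

lemma L_mono {k l : ℕ} (h : k ≤ l) : L k ≤ L l :=
  AddSubgroup.closure_mono (Set.image_mono fun _ ha => Sm.mono h ha)

lemma mu_mem_L {k : ℕ} {c : ℤ} (hc : (c : ℚ) ≠ 0) (hs : Sm k c) {x : W ℚ} (hx : x ∈ L k) :
    mu (Units.mk0 (c : ℚ) hc) x ∈ L k := by
  induction hx using AddSubgroup.closure_induction with
  | mem x hx =>
    obtain ⟨a, ha, rfl⟩ := hx
    rw [mu_wz]
    exact mem_L (hs.mul ha)
  | zero => simp
  | add x y _ _ hx hy => rw [map_add]; exact add_mem hx hy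
  | neg x _ hx => rw [map_neg]; exact neg_mem hx

/-! ### the two factor lemma -/

variable (p : ℕ) [hp : Fact p.Prime]

lemma two_factor {n₁ n₂ l r : ℤ} (h1 : |n₁| ≤ (p - 1 : ℕ)) (h2 : |n₂| ≤ (p - 1 : ℕ))
    (hl : |l| ≤ (p - 1 : ℕ)) (hr : |r| ≤ (p - 1 : ℕ)) (h : n₁ * n₂ = p * l + r) :
    wz (p * r) - wz (p * (n₁ * n₂)) ∈ L (p - 1) := by
  have hp0 : (p : ℤ) ≠ 0 := by exact_mod_cast hp.out.ne_zero
  have h3 := wz_add (p * (p * l)) (p * r)
  have e1 : (p : ℤ) * (p * l) + p * r = p * (n₁ * n₂) := by rw [h]; ring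
  have e2 : (p : ℤ) * (p * l) * (p * r) * (p * (p * l) + p * r) =
      (l * r * (n₁ * n₂)) * ((p : ℤ) ^ 2) ^ 2 := by rw [h]; ring
  have e3 : (p : ℤ) * (p * l) = l * (p : ℤ) ^ 2 := by ring
  rw [e2, e1, wz_sq _ (pow_ne_zero 2 hp0), e3, wz_sq _ hp0] at h3
  have h4 : wz (p * r) - wz (p * (n₁ * n₂)) = wz (l * r * (n₁ * n₂)) - wz l := by
    have := h3
    rw [sub_eq_sub_iff_add_eq_add, add_comm, this]; abel
  rw [h4]
  exact sub_mem (mem_L (((Sm.of_abs hl).mul (Sm.of_abs hr)).mul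
    ((Sm.of_abs h1).mul (Sm.of_abs h2)))) (mem_L (Sm.of_abs hl))

lemma Sm.of_dvd {k : ℕ} {a b : ℤ} (h : Sm k b) (hb : b ≠ 0) (hab : a ∣ b) : Sm k a := by
  rcases h with h | h
  · exact absurd h hb
  right
  intro q hq hd
  exact h q hq (hd.trans hab)

/-- two naturals below `p`, not zero modulo `p` -/
lemma two_factor_nat {a b : ℕ} (ha : a < p) (hb : b < p) :
    wz (p * ((a * b % p : ℕ) : ℤ)) - wz (p * ((a : ℤ) * b)) ∈ L (p - 1) := by
  have hp2 := hp.out.two_le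
  have hlt := Nat.mod_lt (a * b) hp.out.pos
  have hdiv : a * b / p < p := by
    rw [Nat.div_lt_iff_lt_mul hp.out.pos]
    exact Nat.mul_lt_mul'' ha hb
  refine two_factor p (l := ((a * b / p : ℕ) : ℤ)) ?_ ?_ ?_ ?_ ?_
  · rw [Nat.abs_cast]; exact_mod_cast (by omega)
  · rw [Nat.abs_cast]; exact_mod_cast (by omega)
  · rw [Nat.abs_cast]; exact_mod_cast (by omega)
  · rw [Nat.abs_cast]; exact_mod_cast (by omega)
  · exact_mod_cast (Nat.div_add_mod (a * b) p).symm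

lemma nat_case (n : ℕ) (hn : Sm (p - 1) (n : ℤ)) (hn0 : n ≠ 0) :
    wz (p * (n : ℤ)) - wz (p * ((n % p : ℕ) : ℤ)) ∈ L (p - 1) := by
  have hp2 := hp.out.two_le
  induction n using Nat.recOnMul with
  | zero => exact absurd rfl hn0
  | one =>
    rw [Nat.mod_eq_of_lt (by omega), sub_self]
    exact zero_mem _
  | prime q hq =>
    have hq' : q ≤ p - 1 := by
      rcases hn with h | h
      · exact absurd (by exact_mod_cast h) hn0
      · exact h q hq dvd_rfl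
    rw [Nat.mod_eq_of_lt (by omega), sub_self]
    exact zero_mem _
  | mul a b iha ihb =>
    have ha0 : a ≠ 0 := fun h => hn0 (by simp [h])
    have hb0 : b ≠ 0 := fun h => hn0 (by simp [h])
    have hne : ((a * b : ℕ) : ℤ) ≠ 0 := by exact_mod_cast hn0
    have hSa : Sm (p - 1) (a : ℤ) := hn.of_dvd hne (by push_cast; exact dvd_mul_right _ _)
    have hSb : Sm (p - 1) (b : ℤ) := hn.of_dvd hne (by push_cast; exact dvd_mul_left _ _)
    have h1 := iha hSa ha0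
    have h2 := ihb hSb hb0
    have hbq : ((b : ℤ) : ℚ) ≠ 0 := by exact_mod_cast hb0
    have hra : a % p < p := Nat.mod_lt _ hp.out.pos
    have hrb : b % p < p := Nat.mod_lt _ hp.out.pos
    -- p ∤ a
    have hra0 : a % p ≠ 0 := by
      intro h
      have hd : (p : ℤ) ∣ (a : ℤ) := by exact_mod_cast Nat.dvd_of_mod_eq_zero h
      rcases hSa with h' | h'
      · exact ha0 (by exact_mod_cast h')
      · have := h' p hp.out hd
        omega
    have hraq : (((a % p : ℕ) : ℤ) : ℚ) ≠ 0 := by exact_mod_cast hra0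
    have h3 := mu_mem_L hbq hSb h1
    have h4 := mu_mem_L hraq (Sm.of_abs (by rw [Nat.abs_cast]; exact_mod_cast (by omega))) h2
    rw [map_sub, mu_wz, mu_wz] at h3 h4
    have h5 := two_factor_nat p hra hrb
    rw [← Nat.mul_mod] at h5
    have h6 := sub_mem (add_mem h3 h4) h5
    convert h6 using 1
    have e1 : (b : ℤ) * (p * (a : ℤ)) = p * ((a * b : ℕ) : ℤ) := by push_cast; ring
    have e2 : (b : ℤ) * (p * ((a % p : ℕ) : ℤ)) = ((a % p : ℕ) : ℤ) * (p * (b : ℤ)) := by ring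
    have e3 : ((a % p : ℕ) : ℤ) * (p * ((b % p : ℕ) : ℤ)) = p * (((a % p : ℕ) : ℤ) * ((b % p : ℕ) : ℤ)) := by ring
    rw [e1, e2, e3]
    abel

/-- the map `x ↦ <p x>` modulo `L (p-1)` -/
noncomputable def phi (x : ZMod p) : W ℚ ⧸ L (p - 1) :=
  QuotientAddGroup.mk (wz (p * ((x.val : ℕ) : ℤ)))

lemma phi_zero : phi p 0 = 0 := by simp [phi, wz_zero]

lemma phi_nat (n : ℕ) (hn : Sm (p - 1) (n : ℤ)) :
    (QuotientAddGroup.mk (wz (p * (n : ℤ))) : W ℚ ⧸ L (p - 1)) = phi p (n : ZMod p) := by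
  by_cases hn0 : n = 0
  · subst hn0; simp [phi, wz_zero]
  unfold phi
  rw [QuotientAddGroup.eq_iff_sub_mem, ZMod.val_natCast]
  exact nat_case p n hn hn0

lemma phi_neg (x : ZMod p) : phi p (-x) = -phi p x := by
  by_cases hx : x = 0
  · simp [hx, phi_zero]
  have hp2 := hp.out.two_le
  have hv := ZMod.val_lt x
  have hv0 : x.val ≠ 0 := fun h => hx ((ZMod.val_eq_zero x).1 h)
  unfold phi
  rw [← QuotientAddGroup.mk_neg, QuotientAddGroup.eq_iff_sub_mem, ← wz_neg]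
  have : NeZero x := ⟨hx⟩
  have h1 : (-x).val = p - x.val := ZMod.val_neg_of_ne_zero x
  have h2 := two_factor p (n₁ := -1) (n₂ := (x.val : ℤ)) (l := -1) (r := ((p - x.val : ℕ) : ℤ))
    (by simp; omega) (by rw [Nat.abs_cast]; exact_mod_cast (by omega)) (by simp; omega)
    (by rw [Nat.abs_cast]; exact_mod_cast (by omega)) (by
      rw [Nat.cast_sub hv.le]; ring)
  rw [h1]
  convert h2 using 3
  ring

lemma phi_int (a : ℤ) (ha : Sm (p - 1) a) :
    (QuotientAddGroup.mk (wz (p * a)) : W ℚ ⧸ L (p - 1)) = phi p (a : ZMod p) := by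
  obtain ⟨n, rfl | rfl⟩ := Int.eq_nat_or_neg a
  · rw [phi_nat p n ha]; simp
  · have : (p : ℤ) * -(n : ℤ) = -(p * n) := by ring
    rw [this, wz_neg, QuotientAddGroup.mk_neg, phi_nat p n (by simpa using ha.neg)]
    push_cast
    rw [phi_neg]

lemma Sm_val (x : ZMod p) : Sm (p - 1) ((x.val : ℕ) : ℤ) := by
  have hv := ZMod.val_lt x
  exact Sm.of_abs (by rw [Nat.abs_cast]; exact_mod_cast (by omega))

lemma phi_mul_sq (x : ZMod p) {y : ZMod p} (hy : y ≠ 0) : phi p (x * y ^ 2) = phi p x := by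
  have hv0 : (y.val : ℤ) ≠ 0 := by exact_mod_cast fun h => hy ((ZMod.val_eq_zero y).1 h)
  have h := phi_int p ((x.val : ℤ) * (y.val : ℤ) ^ 2)
    ((Sm_val p x).mul (by rw [pow_two]; exact (Sm_val p y).mul (Sm_val p y)))
  have e : (((x.val : ℤ) * (y.val : ℤ) ^ 2 : ℤ) : ZMod p) = x * y ^ 2 := by
    push_cast
    rw [ZMod.natCast_zmod_val, ZMod.natCast_zmod_val]
  rw [← mul_assoc, wz_sq _ hv0, e] at h
  rw [← h]
  rfl

lemma phi_add (hp3 : p ≠ 2) (x y : ZMod p) :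
    phi p x + phi p y = phi p (x + y) + phi p (x * y * (x + y)) := by
  have hp0 : (p : ℤ) ≠ 0 := by exact_mod_cast hp.out.ne_zero
  have hodd := hp.out.eq_two_or_odd.resolve_left hp3
  set a := x.valMinAbs with ha
  set b := y.valMinAbs with hb
  have hxa : (a : ZMod p) = x := ZMod.coe_valMinAbs x
  have hyb : (b : ZMod p) = y := ZMod.coe_valMinAbs y
  have ha2 : |a| ≤ ((p - 1) / 2 : ℕ) := by
    have := ZMod.natAbs_valMinAbs_le x
    rw [Int.abs_eq_natAbs]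
    exact_mod_cast (by omega)
  have hb2 : |b| ≤ ((p - 1) / 2 : ℕ) := by
    have := ZMod.natAbs_valMinAbs_le y
    rw [Int.abs_eq_natAbs]
    exact_mod_cast (by omega)
  have hab : |a + b| ≤ (p - 1 : ℕ) := by
    have := abs_add_le a b
    omega
  have hSa : Sm (p - 1) a := Sm.of_abs (ha2.trans (by exact_mod_cast Nat.div_le_self _ _))
  have hSb : Sm (p - 1) b := Sm.of_abs (hb2.trans (by exact_mod_cast Nat.div_le_self _ _))
  have hSab : Sm (p - 1) (a + b) := Sm.of_abs hab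
  have h := wz_add (p * a) (p * b)
  have e1 : (p : ℤ) * a * (p * b) * (p * a + p * b) = (p * (a * b * (a + b))) * (p : ℤ) ^ 2 := by ring
  have e2 : (p : ℤ) * a + p * b = p * (a + b) := by ring
  rw [e1, e2, wz_sq _ hp0] at h
  have h' := congrArg (QuotientAddGroup.mk : W ℚ → W ℚ ⧸ L (p - 1)) h
  rw [QuotientAddGroup.mk_add, QuotientAddGroup.mk_add, phi_int p a hSa, phi_int p b hSb,
    phi_int p _ hSab, phi_int p _ ((hSa.mul hSb).mul hSab)] at h'
  push_cast at h'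
  rw [hxa, hyb] at h'
  exact h'

lemma phi_sq {y : ZMod p} (hy : y ≠ 0) : phi p (y ^ 2) = phi p 1 := by
  have := phi_mul_sq p 1 hy
  rwa [one_mul] at this

lemma two_phi (hp3 : p ≠ 2) {x : ZMod p} (hx : x ≠ 0) : phi p x + phi p x = phi p 1 + phi p 1 := by
  obtain ⟨a, b, hab⟩ := ZMod.sq_add_sq p x
  by_cases ha : a = 0
  · have hb : b ≠ 0 := fun h => hx (by rw [← hab, ha, h]; ring)
    have : x = b ^ 2 := by rw [← hab, ha]; ring
    rw [this, phi_sq p hb]
  by_cases hb : b = 0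
  · have : x = a ^ 2 := by rw [← hab, hb]; ring
    rw [this, phi_sq p ha]
  have h := phi_add p hp3 (a ^ 2) (b ^ 2)
  rw [hab, phi_sq p ha, phi_sq p hb] at h
  have e : a ^ 2 * b ^ 2 * x = x * (a * b) ^ 2 := by ring
  rw [e, phi_mul_sq p x (mul_ne_zero ha hb)] at h
  exact h.symm

end Crest.Agent.R235.LatS_283
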