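import Crest.Agent.R235.LatF_283
import Crest.Agent.R235.LatR_283

/-!
Row 235, package LAT, file W: every indefinite unimodular symmetric form over `ℤ` is isotropic
(the image of the Witt group of `ℤ` in the Witt group of `ℚ` is generated by `<1>`).
-/

open Module

namespace Crest.Agent.R235.LatW_283

open LinearMap (BilinForm)
open LatA_283 LatB_283 LatS_283 LatF_283 LatR_283
open Matrix

/-- normal form of an element of `L p` -/
def NF (p : ℕ) (x : W ℚ) : Prop :=
  ∃ (ι κ : Type) (_ : Fintype ι) (_ : Fintype κ) (_ : DecidableEq ι) (s : ι → ℤ) (m : κ → ℤ),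
    (∀ i, s i ≠ 0 ∧ Sm (p - 1) (s i)) ∧ (∀ j, m j ≠ 0 ∧ Sm (p - 1) (m j)) ∧
    x = ∑ i, wz (s i) + ∑ j, wz (p * m j)

lemma nf_zero (p : ℕ) : NF p 0 :=
  ⟨Empty, Empty, inferInstance, inferInstance, inferInstance, fun i => i.elim, fun i => i.elim,
    fun i => i.elim, fun i => i.elim, by simp⟩

lemma nf_add {p : ℕ} {x y : W ℚ} (hx : NF p x) (hy : NF p y) : NF p (x + y) := by
  obtain ⟨ι, κ, _, _, _, s, m, hs, hm, rfl⟩ := hx
  obtain ⟨ι', κ', _, _, _, s', m', hs', hm', rfl⟩ := hy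
  refine ⟨ι ⊕ ι', κ ⊕ κ', inferInstance, inferInstance, inferInstance, Sum.elim s s',
    Sum.elim m m', ?_, ?_, ?_⟩
  · rintro (i | i)
    · exact hs i
    · exact hs' i
  · rintro (i | i)
    · exact hm i
    · exact hm' i
  · simp
    abel

lemma nf_neg {p : ℕ} {x : W ℚ} (hx : NF p x) : NF p (-x) := by
  obtain ⟨ι, κ, _, _, _, s, m, hs, hm, rfl⟩ := hx
  refine ⟨ι, κ, inferInstance, inferInstance, inferInstance, fun i => -s i, fun j => -m j,
    fun i => ⟨neg_ne_zero.2 (hs i).1, (hs i).2.neg⟩, fun i => ⟨neg_ne_zero.2 (hm i).1, (hm i).2.neg⟩, ?_⟩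
  simp only [wz_neg, mul_neg, Finset.sum_neg_distrib]
  abel

lemma nf_wz {p : ℕ} [hp : Fact p.Prime] {a : ℤ} (ha : Sm p a) : NF p (wz a) := by
  by_cases ha0 : a = 0
  · subst ha0; rw [wz_zero]; exact nf_zero p
  have hpu : ¬ IsUnit (p : ℤ) := (Nat.prime_iff_prime_int.1 hp.out).not_isUnit
  have hfin : FiniteMultiplicity (p : ℤ) a := Int.finiteMultiplicity_iff.2 ⟨by
    simpa using hp.out.ne_one, ha0⟩
  obtain ⟨b, hb, hnd⟩ := hfin.exists_eq_pow_mul_and_not_dvd
  set v := multiplicity (p : ℤ) a with hv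
  have hb0 : b ≠ 0 := fun h => ha0 (by rw [hb, h, mul_zero])
  have hp0 : (p : ℤ) ≠ 0 := by exact_mod_cast hp.out.ne_zero
  have hbS : Sm (p - 1) b := by
    right
    intro q hq hqb
    have h1 : (q : ℤ) ∣ a := by rw [hb]; exact hqb.mul_left _
    have h2 : q ≤ p := by
      rcases ha with h | h
      · exact absurd h ha0
      · exact h q hq h1
    have h3 : q ≠ p := fun h => hnd (h ▸ hqb)
    omega
  rcases Nat.even_or_odd' v with ⟨j, hj | hj⟩
  · have : a = b * ((p : ℤ) ^ j) ^ 2 := by rw [hb, hj]; ring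
    rw [this, wz_sq _ (pow_ne_zero _ hp0)]
    exact ⟨Unit, Empty, inferInstance, inferInstance, inferInstance, fun _ => b, fun i => i.elim,
      fun _ => ⟨hb0, hbS⟩, fun i => i.elim, by simp⟩
  · have : a = (p * b) * ((p : ℤ) ^ j) ^ 2 := by rw [hb, hj]; ring
    rw [this, wz_sq _ (pow_ne_zero _ hp0)]
    exact ⟨Empty, Unit, inferInstance, inferInstance, inferInstance, fun i => i.elim, fun _ => b,
      fun i => i.elim, fun _ => ⟨hb0, hbS⟩, by simp⟩

lemma nf_of_mem {p : ℕ} [hp : Fact p.Prime] {x : W ℚ} (hx : x ∈ L p) : NF p x := by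
  induction hx using AddSubgroup.closure_induction with
  | mem x hx =>
    obtain ⟨a, ha, rfl⟩ := hx
    exact nf_wz ha
  | zero => exact nf_zero p
  | add x y _ _ hx hy => exact nf_add hx hy
  | neg x _ hx => exact nf_neg hx

lemma not_dvd_of_Sm {p : ℕ} [hp : Fact p.Prime] {a : ℤ} (h0 : a ≠ 0) (h : Sm (p - 1) a) :
    ((a : ℤ) : ZMod p) ≠ 0 := by
  intro h1
  have h2 := (ZMod.intCast_zmod_eq_zero_iff_dvd a p).1 h1
  rcases h with h | h
  · exact h0 h
  · have := h p hp.out h2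
    have := hp.out.two_le
    omega

/-- regrouping equivalence -/
def blockE (n ι κ : Type) :
    ((n → ℚ) × (ι ⊕ κ → ℚ)) ≃ₗ[ℚ] ((n ⊕ ι → ℚ) × (κ → ℚ)) where
  toFun := fun y => (Sum.elim y.1 (fun i => y.2 (Sum.inl i)), fun j => y.2 (Sum.inr j))
  map_add' := fun x y => by
    refine Prod.ext (funext fun i => ?_) (funext fun j => rfl)
    cases i <;> rfl
  map_smul' := fun c x => by
    refine Prod.ext (funext fun i => ?_) (funext fun j => rfl)
    cases i <;> rfl
  invFun := fun y => (fun i => y.1 (Sum.inl i), Sum.elim (fun i => y.1 (Sum.inr i)) y.2)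
  left_inv := fun y => by
    refine Prod.ext (funext fun i => rfl) (funext fun j => ?_)
    cases j <;> rfl
  right_inv := fun y => by
    refine Prod.ext (funext fun i => ?_) (funext fun j => rfl)
    cases i <;> rfl

lemma blockE_apply {n ι κ : Type} (y : (n → ℚ) × (ι ⊕ κ → ℚ)) :
    blockE n ι κ y = (Sum.elim y.1 (fun i => y.2 (Sum.inl i)), fun j => y.2 (Sum.inr j)) := rfl

lemma iso_block {n ι κ : Type} [Fintype n] [Fintype ι] [Fintype κ] [DecidableEq n] [DecidableEq ι]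
    (A : Matrix n n ℤ) (s : ι → ℤ) (m : κ → ℤ) (d : ι ⊕ κ → ℚˣ)
    (h1 : ∀ i, ((d (Sum.inl i) : ℚˣ) : ℚ) = s i) (h2 : ∀ j, ((d (Sum.inr j) : ℚˣ) : ℚ) = m j) :
    Iso (oplus (matB (A.map (Int.cast : ℤ → ℚ))) (D (fun i => -(d i))))
      (oplus (matB ((fromBlocks A 0 0 (diagonal fun i => -s i)).map (Int.cast : ℤ → ℚ)))
        (diagB (fun j => ((-m j : ℤ) : ℚ)))) := by
  refine ⟨blockE n ι κ, fun x y => ?_⟩
  rw [blockE_apply, blockE_apply]
  simp only [oplus_apply, matB_apply, diagB_apply, D_apply, Fintype.sum_sum_type]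
  rw [fromBlocks_map, fromBlocks_mulVec, sumElim_dotProduct_sumElim, add_assoc]
  simp only [Function.comp_def, Sum.elim_inl, Sum.elim_inr]
  have e1 : (x.1 ⬝ᵥ (((A.map (Int.cast : ℤ → ℚ)) *ᵥ fun x => y.1 x) +
      (Matrix.map (0 : Matrix n ι ℤ) (Int.cast : ℤ → ℚ)) *ᵥ fun x => y.2 (Sum.inl x))) =
      x.1 ⬝ᵥ ((A.map (Int.cast : ℤ → ℚ)) *ᵥ y.1) := by
    congr 1
    ext i
    simp [mulVec, dotProduct]
  have e2 : ((fun i => x.2 (Sum.inl i)) ⬝ᵥ
      (((Matrix.map (0 : Matrix ι n ℤ) (Int.cast : ℤ → ℚ)) *ᵥ fun x => y.1 x) +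
      (Matrix.map (diagonal fun i => -s i) (Int.cast : ℤ → ℚ)) *ᵥ fun x => y.2 (Sum.inl x))) =
      ∑ i, ((-(d (Sum.inl i)) : ℚˣ) : ℚ) * x.2 (Sum.inl i) * y.2 (Sum.inl i) := by
    simp only [dotProduct, Pi.add_apply]
    refine Finset.sum_congr rfl fun i _ => ?_
    rw [Units.val_neg, h1]
    have : ((Matrix.map (diagonal fun i => -s i) (Int.cast : ℤ → ℚ)) *ᵥ fun x => y.2 (Sum.inl x)) i =
        -(s i : ℚ) * y.2 (Sum.inl i) := by
      rw [mulVec, dotProduct, Finset.sum_eq_single i]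
      · simp
      · intro b _ hb
        simp [diagonal_apply_ne _ (Ne.symm hb)]
      · simp
    rw [this]
    simp [mulVec, dotProduct]
    ring
  rw [e1, e2]
  congr 2
  refine Finset.sum_congr rfl fun i _ => ?_
  rw [Units.val_neg, h2]
  push_cast
  rfl

theorem descent {n : Type} [Fintype n] [DecidableEq n] (A : Matrix n n ℤ) (hA : A.IsSymm)
    (hu : IsUnit A.det) {x : W ℚ} (hRep : Rep (matB (A.map (Int.cast : ℤ → ℚ))) x) (p : ℕ)
    [hp : Fact p.Prime] (hx : x ∈ L p) : x ∈ L (p - 1) := by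
  obtain ⟨ι, κ, _, _, _, s, m, hs, hm, hxe⟩ := nf_of_mem hx
  have hs0 : ∀ i, ((s i : ℤ) : ℚ) ≠ 0 := fun i => by exact_mod_cast (hs i).1
  have hp0 : (p : ℤ) ≠ 0 := by exact_mod_cast hp.out.ne_zero
  have hm0 : ∀ j, ((p * m j : ℤ) : ℚ) ≠ 0 := fun j => by exact_mod_cast mul_ne_zero hp0 (hm j).1
  have hAs : (A.map (Int.cast : ℤ → ℚ)).IsSymm := by
    ext i j
    simp only [Matrix.transpose_apply, Matrix.map_apply]
    rw [hA.apply]
  have hAd : (A.map (Int.cast : ℤ → ℚ)).det ≠ 0 := by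
    have : (A.map (Int.cast : ℤ → ℚ)).det = (A.det : ℚ) := (Int.cast_det A).symm
    rw [this]
    exact_mod_cast hu.ne_zero
  have h1 := hRep.met (matB_symm hAs) (matB_nd hAd)
    (Sum.elim (fun i => Units.mk0 _ (hs0 i)) (fun j => Units.mk0 _ (hm0 j))) (by
      rw [hxe]
      simp [wz_of_ne (hs0 _), wz_of_ne (hm0 _)])
  let A' : Matrix (n ⊕ ι) (n ⊕ ι) ℤ := fromBlocks A 0 0 (diagonal fun i => -s i)
  have hA' : A'.IsSymm := by
    have : A'ᵀ = A' := by
      simp only [A', fromBlocks_transpose, hA.eq, transpose_zero, diagonal_transpose]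
    exact this
  have hdet : (A'.det : ZMod p) ≠ 0 := by
    have : A'.det = A.det * ∏ i, (-s i) := by
      simp only [A', det_fromBlocks_zero₂₁, det_diagonal]
    rw [this, Int.cast_mul, Int.cast_prod]
    refine mul_ne_zero ?_ (Finset.prod_ne_zero_iff.2 fun i _ => ?_)
    · have := hu.map (Int.castRingHom (ZMod p))
      exact this.ne_zero
    · rw [Int.cast_neg]
      exact neg_ne_zero.2 (not_dvd_of_Sm (hs i).1 (hs i).2)
  have h2 : Met (oplus (matB (A'.map (Int.cast : ℤ → ℚ))) (diagB (fun j => ((p * (-m j) : ℤ) : ℚ)))) := by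
    have := h1.iso (iso_block A s (fun j => p * m j) _ (fun i => rfl) (fun j => rfl))
    simpa only [mul_neg] using this
  have h3 := residue p A' hA' hdet (fun j => -m j) (fun j => by
    push_cast; exact neg_ne_zero.2 (not_dvd_of_Sm (hm j).1 (hm j).2)) h2
  have h4 : ∑ j, wz (p * m j) ∈ L (p - 1) := by
    by_cases hp2 : p = 2
    · subst hp2
      obtain ⟨l, hl, -⟩ := disc _ h3
      have e0 : wz 2 + wz 2 = wz 1 + wz 1 := by
        have := wz_add 1 1
        norm_num at this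
        exact this.symm
      have e1 : wz 1 ∈ L 1 := mem_L (Sm.of_abs (by norm_num))
      have e2 : ∀ j, wz (2 * m j) - wz 2 ∈ L 1 := by
        intro j
        have hj : m j = 1 ∨ m j = -1 := by
          have : (m j).natAbs = 1 := by
            by_contra hne
            obtain ⟨q, hq, hqd⟩ := Nat.exists_prime_and_dvd hne
            rcases (hm j).2 with h | h
            · exact (hm j).1 h
            · have := h q hq (Int.natCast_dvd.2 hqd)
              have := hq.two_le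
              omega
          omega
        rcases hj with h | h
        · rw [h, mul_one, sub_self]; exact zero_mem _
        · rw [h]
          have : wz (2 * -1) - wz 2 = -(wz 1 + wz 1) := by
            rw [← e0, show (2 * -1 : ℤ) = -2 by norm_num, wz_neg]; abel
          rw [this]
          exact neg_mem (add_mem e1 e1)
      have e3 : ∑ j, wz (2 * m j) = ∑ j, (wz (2 * m j) - wz 2) + l • (wz 1 + wz 1) := by
        rw [Finset.sum_sub_distrib, Finset.sum_const, Finset.card_univ, hl, ← e0, ← two_nsmul,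
          ← mul_nsmul]
        abel
      show ∑ j, wz (2 * m j) ∈ L 1
      rw [e3]
      exact add_mem (sum_mem fun j _ => e2 j) (nsmul_mem (add_mem e1 e1) _)
    · have h5 := sum_phi_zero (phi p) (phi_neg p) (fun x y hy => phi_mul_sq p x hy)
        (fun x hx => two_phi p hp2 hx) (fun j => ((-m j : ℤ) : ZMod p)) (fun j => by
          push_cast; exact neg_ne_zero.2 (not_dvd_of_Sm (hm j).1 (hm j).2)) h3
      rw [← QuotientAddGroup.eq_zero_iff]
      have h6 : (QuotientAddGroup.mk (∑ j, wz (p * m j)) : W ℚ ⧸ L (p - 1)) = ∑ j, phi p (m j : ZMod p) := by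
        have := map_sum (QuotientAddGroup.mk' (L (p - 1))) (fun j => wz (p * m j)) Finset.univ
        refine this.trans (Finset.sum_congr rfl fun j _ => ?_)
        exact phi_int p (m j) (hm j).2
      rw [h6]
      simp only [Int.cast_neg, phi_neg, Finset.sum_neg_distrib, neg_eq_zero] at h5
      exact h5
  rw [hxe]
  exact add_mem (sum_mem fun i _ => mem_L (hs i).2) h4

/-! ### down to `L 1` -/

theorem descent_all {n : Type} [Fintype n] [DecidableEq n] (A : Matrix n n ℤ) (hA : A.IsSymm)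
    (hu : IsUnit A.det) {x : W ℚ} (hRep : Rep (matB (A.map (Int.cast : ℤ → ℚ))) x) (k : ℕ)
    (hx : x ∈ L k) : x ∈ L 1 := by
  induction k with
  | zero => exact L_mono (by norm_num) hx
  | succ k ih =>
    by_cases hp : (k + 1).Prime
    · have : Fact (k + 1).Prime := ⟨hp⟩
      exact ih (descent A hA hu hRep (k + 1) hx)
    · refine ih (AddSubgroup.closure_mono (Set.image_mono ?_) hx)
      rintro a (h | h)
      · exact Or.inl h
      · right
        intro q hq hd
        have h1 := h q hq hd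
        rcases Nat.lt_or_ge k q with h2 | h2
        · exact absurd (by omega : q = k + 1) (fun h => hp (h ▸ hq))
        · exact h2

lemma mem_L_one {x : W ℚ} (hx : x ∈ L 1) : ∃ c : ℤ, x = c • wz 1 := by
  induction hx using AddSubgroup.closure_induction with
  | mem x hx =>
    obtain ⟨a, ha, rfl⟩ := hx
    rcases ha with rfl | ha
    · exact ⟨0, by rw [wz_zero, zero_zsmul]⟩
    · have : a.natAbs = 1 := by
        by_contra hne
        obtain ⟨q, hq, hqd⟩ := Nat.exists_prime_and_dvd hne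
        have := ha q hq (Int.natCast_dvd.2 hqd)
        have := hq.two_le
        omega
      have h : a = 1 ∨ a = -1 := by omega
      rcases h with rfl | rfl
      · exact ⟨1, by rw [one_zsmul]⟩
      · exact ⟨-1, by rw [wz_neg, neg_zsmul, one_zsmul]⟩
  | zero => exact ⟨0, by rw [zero_zsmul]⟩
  | add x y _ _ hx hy =>
    obtain ⟨c, rfl⟩ := hx
    obtain ⟨d, rfl⟩ := hy
    exact ⟨c + d, by rw [add_zsmul]⟩
  | neg x _ hx =>
    obtain ⟨c, rfl⟩ := hx
    exact ⟨-c, by rw [neg_zsmul]⟩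

lemma w_eq_wz (a : ℚˣ) : w a = wz ((a : ℚ).num * ((a : ℚ).den : ℤ)) := by
  have hn : (a : ℚ).num ≠ 0 := Rat.num_ne_zero.2 a.ne_zero
  have hd : ((a : ℚ).den : ℚ) ≠ 0 := by exact_mod_cast (a : ℚ).den_ne_zero
  have h : (((a : ℚ).num * ((a : ℚ).den : ℤ) : ℤ) : ℚ) ≠ 0 := by
    push_cast
    exact mul_ne_zero (by exact_mod_cast hn) hd
  rw [wz_of_ne h, ← w_sq a (Units.mk0 ((a : ℚ).den : ℚ) hd)]
  congr 1
  ext
  have h2 := Rat.mul_den_eq_num (a : ℚ)
  simp only [Units.val_mul, Units.val_pow_eq_pow_val, Units.val_mk0]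
  push_cast
  rw [pow_two, ← mul_assoc, h2]

lemma exists_L (A : Type) [Fintype A] (d : A → ℚˣ) : ∃ k, ∑ i, w (d i) ∈ L k := by
  classical
  let k : ℕ := ∑ i, ((d i : ℚ).num * ((d i : ℚ).den : ℤ)).natAbs
  refine ⟨k, sum_mem fun i _ => ?_⟩
  rw [w_eq_wz]
  refine mem_L (Sm.of_abs ?_)
  rw [Int.abs_eq_natAbs]
  have : ((d i : ℚ).num * ((d i : ℚ).den : ℤ)).natAbs ≤ k :=
    Finset.single_le_sum (f := fun i => ((d i : ℚ).num * ((d i : ℚ).den : ℤ)).natAbs)
      (fun _ _ => Nat.zero_le _) (Finset.mem_univ i)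
  exact_mod_cast this

/-- diagonalisation: every nondegenerate symmetric form over `ℚ` has a class -/
lemma exists_rep {V : Type} [AddCommGroup V] [Module ℚ V] [FiniteDimensional ℚ V]
    (B : BilinForm ℚ V) (hs : B.IsSymm) (hn : ND B) : ∃ x, Rep B x := by
  classical
  obtain ⟨v, hv⟩ := LinearMap.BilinForm.exists_orthogonal_basis (B := B)
    ⟨fun x y => hs.eq x y⟩
  have hne : ∀ i, B (v i) (v i) ≠ 0 := by
    intro i h
    refine v.ne_zero i (hn _ fun y => ?_)
    rw [← v.sum_repr y, map_sum]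
    refine Finset.sum_eq_zero fun j _ => ?_
    rw [map_smul]
    by_cases hij : i = j
    · subst hij; rw [h, smul_zero]
    · rw [hv hij, smul_zero]
  let d : Fin (finrank ℚ V) → ℚˣ := fun i => Units.mk0 _ (hne i)
  refine ⟨∑ i, w (d i), _, d, rfl, ?_⟩
  refine (met_neg d).iso (Iso.oplus_congr ?_ (Iso.refl _))
  refine ⟨v.equivFun.symm, fun x y => ?_⟩
  rw [Basis.equivFun_symm_apply, Basis.equivFun_symm_apply, D_apply]
  simp only [map_sum, LinearMap.sum_apply, map_smul, LinearMap.smul_apply, smul_eq_mul]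
  refine Finset.sum_congr rfl fun i _ => ?_
  rw [Finset.sum_eq_single i]
  · show y i * (x i * B (v i) (v i)) = B (v i) (v i) * x i * y i
    ring
  · intro j _ hj
    rw [hv hj, mul_zero]
  · simp

/-- class of a unimodular form -/
theorem exists_sigma {n : Type} [Fintype n] [DecidableEq n] (A : Matrix n n ℤ) (hA : A.IsSymm)
    (hu : IsUnit A.det) : ∃ (c : ℕ) (ε : ℚˣ), (ε = 1 ∨ ε = -1) ∧
      Met (oplus (matB (A.map (Int.cast : ℤ → ℚ))) (D (fun _ : Fin c => -ε))) := by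
  have hAs : (A.map (Int.cast : ℤ → ℚ)).IsSymm := by
    ext i j
    simp only [Matrix.transpose_apply, Matrix.map_apply]
    rw [hA.apply]
  have hAd : (A.map (Int.cast : ℤ → ℚ)).det ≠ 0 := by
    have : (A.map (Int.cast : ℤ → ℚ)).det = (A.det : ℚ) := (Int.cast_det A).symm
    rw [this]
    exact_mod_cast hu.ne_zero
  obtain ⟨x, hx⟩ := exists_rep _ (matB_symm hAs) (matB_nd hAd)
  have hx' := hx
  obtain ⟨m, d, hd, -⟩ := hx'
  obtain ⟨k, hk⟩ := exists_L _ d
  obtain ⟨c, hc⟩ := mem_L_one (descent_all A hA hu hx k (hd ▸ hk))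
  have h1 : wz 1 = w (1 : ℚˣ) := by
    rw [wz_of_ne (by norm_num)]; congr 1; ext; simp
  obtain ⟨c', rfl | rfl⟩ := Int.eq_nat_or_neg c
  · refine ⟨c', 1, Or.inl rfl, hx.met (matB_symm hAs) (matB_nd hAd) (fun _ => 1) ?_⟩
    rw [hc, h1]; simp
  · refine ⟨c', -1, Or.inr rfl, hx.met (matB_symm hAs) (matB_nd hAd) (fun _ => -1) ?_⟩
    rw [hc, h1, w_neg]; simp

/-! ### isotropic vectors -/

/-- from a Lagrangian of `B + c<-1>` and a negative vector of `B` to an isotropic vector -/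
lemma isotropic_of_met {V : Type} [AddCommGroup V] [Module ℚ V] [FiniteDimensional ℚ V]
    (B : BilinForm ℚ V) (c : ℕ) (h : Met (oplus B (D (fun _ : Fin c => (-1 : ℚˣ)))))
    (y : V) (hy : B y y < 0) : ∃ v, v ≠ 0 ∧ B v v = 0 := by
  obtain ⟨N, hN, hB⟩ := h
  rw [finrank_prod, finrank_pi, Fintype.card_fin] at hN
  have hy0 : y ≠ 0 := by rintro rfl; simp at hy
  -- negative definite subspace
  let S : Submodule ℚ (V × (Fin c → ℚ)) := Submodule.prod (ℚ ∙ y) ⊤
  have hS : finrank ℚ S = 1 + c := by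
    rw [finrank_sprod, finrank_span_singleton hy0]; simp
  have hdisj : N ⊓ S = ⊥ := by
    rw [eq_bot_iff]
    rintro ⟨a, b⟩ ⟨h1, h2, -⟩
    obtain ⟨t, rfl⟩ := Submodule.mem_span_singleton.1 h2
    have h3 := hB _ h1 _ h1
    simp only [oplus_apply, D_apply, map_smul, LinearMap.smul_apply, smul_eq_mul] at h3
    have h4 : t * (t * B y y) = t ^ 2 * B y y := by ring
    have h5 : ∑ i, (((-1 : ℚˣ)) : ℚ) * b i * b i = - ∑ i, b i ^ 2 := by
      rw [← Finset.sum_neg_distrib]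
      exact Finset.sum_congr rfl fun i _ => by simp; ring
    rw [h4, h5] at h3
    have h6 : 0 ≤ ∑ i, b i ^ 2 := Finset.sum_nonneg fun i _ => sq_nonneg _
    have h7 : t ^ 2 * B y y ≤ 0 := mul_nonpos_of_nonneg_of_nonpos (sq_nonneg _) hy.le
    have h8 : t ^ 2 * B y y = 0 := by linarith
    have h9 : ∑ i, b i ^ 2 = 0 := by linarith
    have ht : t = 0 := by
      rcases mul_eq_zero.1 h8 with h | h
      · exact pow_eq_zero_iff (two_ne_zero) |>.1 h
      · exact absurd h hy.ne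
    have hb : b = 0 := by
      ext i
      have := (Finset.sum_eq_zero_iff_of_nonneg (fun i _ => sq_nonneg (b i))).1 h9 i (Finset.mem_univ i)
      simpa using this
    simp [ht, hb]
  have h1 := Submodule.finrank_sup_add_finrank_inf_eq N S
  have h2 := Submodule.finrank_le (N ⊔ S)
  rw [hdisj, finrank_bot, hS] at h1
  rw [finrank_prod, finrank_pi, Fintype.card_fin] at h2
  -- intersect with V
  let T : Submodule ℚ (V × (Fin c → ℚ)) := Submodule.prod ⊤ ⊥
  have hT : finrank ℚ T = finrank ℚ V := by rw [finrank_sprod]; simp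
  have h3 := Submodule.finrank_sup_add_finrank_inf_eq N T
  have h4 := Submodule.finrank_le (N ⊔ T)
  rw [finrank_prod, finrank_pi, Fintype.card_fin] at h4
  have h5 : 0 < finrank ℚ (N ⊓ T : Submodule ℚ (V × (Fin c → ℚ))) := by omega
  rw [Module.finrank_pos_iff] at h5
  obtain ⟨⟨⟨a, b⟩, h6, h7, h8⟩, h9⟩ := exists_ne (0 : (N ⊓ T : Submodule ℚ (V × (Fin c → ℚ))))
  have hb : b = 0 := by simpa using h8
  subst hb
  refine ⟨a, ?_, ?_⟩
  · rintro rfl
    exact h9 rfl
  · have := hB _ h6 _ h6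
    simpa [D_apply] using this

/-- **Indefinite unimodular forms over `ℤ` are isotropic.** -/
theorem iso {n : Type} [Fintype n] [DecidableEq n] (A : Matrix n n ℤ) (hA : A.IsSymm)
    (hu : IsUnit A.det) (hp : ∃ x : n → ℤ, 0 < x ⬝ᵥ (A *ᵥ x)) (hn : ∃ x : n → ℤ, x ⬝ᵥ (A *ᵥ x) < 0) :
    ∃ v : n → ℤ, v ≠ 0 ∧ v ⬝ᵥ (A *ᵥ v) = 0 := by
  obtain ⟨x, hx⟩ := hp
  obtain ⟨y, hy⟩ := hn
  obtain ⟨c, ε, hε, hM⟩ := exists_sigma A hA hu
  have hcast : ∀ z : n → ℤ, (fun i => (z i : ℚ)) ⬝ᵥ ((A.map (Int.cast : ℤ → ℚ)) *ᵥ (fun i => (z i : ℚ))) =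
      ((z ⬝ᵥ (A *ᵥ z) : ℤ) : ℚ) := by
    intro z
    simp [dotProduct, mulVec]
  have key : ∃ v : n → ℚ, v ≠ 0 ∧ matB (A.map (Int.cast : ℤ → ℚ)) v v = 0 := by
    rcases hε with rfl | rfl
    · refine isotropic_of_met _ c hM (fun i => (y i : ℚ)) ?_
      rw [matB_apply, hcast]
      exact_mod_cast hy
    · have h1 := neg_symm hM
      have h2 : Met (oplus (-(matB (A.map (Int.cast : ℤ → ℚ)))) (D (fun _ : Fin c => (-1 : ℚˣ)))) := by
        refine h1.iso ⟨LinearEquiv.refl ℚ _, fun x y => ?_⟩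
        simp [D_apply]
        ring
      obtain ⟨v, hv0, hv⟩ := isotropic_of_met _ c h2 (fun i => (x i : ℚ)) (by
        rw [LinearMap.neg_apply, LinearMap.neg_apply, matB_apply, hcast]
        have : (0 : ℚ) < ((x ⬝ᵥ (A *ᵥ x) : ℤ) : ℚ) := by exact_mod_cast hx
        linarith)
      exact ⟨v, hv0, by simpa using hv⟩
  obtain ⟨v, hv0, hv⟩ := key
  obtain ⟨d, z, hd, hz⟩ := exists_clear v
  have hd' : (d : ℚ) ≠ 0 := by exact_mod_cast hd
  have hz' : (fun i => (z i : ℚ)) = (d : ℚ) • v := by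
    ext i; simp [hz]
  refine ⟨z, ?_, ?_⟩
  · rintro rfl
    apply hv0
    ext i
    have := hz i
    simp only [Pi.zero_apply, Int.cast_zero, mul_eq_zero] at this
    exact this.resolve_left hd'
  · have h1 := hcast z
    rw [hz'] at h1
    have h2 : ((d : ℚ) • v) ⬝ᵥ ((A.map (Int.cast : ℤ → ℚ)) *ᵥ ((d : ℚ) • v)) = 0 := by
      rw [mulVec_smul, smul_dotProduct, dotProduct_smul]
      rw [matB_apply] at hv
      rw [hv]; simp
    rw [h2] at h1
    exact_mod_cast h1.symm

end Crest.Agent.R235.LatW_283
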