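import Mathlib
import Crest.Agent.R235.LocDef_607

/-!
Row 235 (S0364), PACKAGE REG, sub-block LOC, helper437 (task 214):
`offz : CLUS → OFFZ` and the assembly
`loc_of : CLUS → OFFZ → CUT → FLUX → WIND → NONZ → SUPER → (∃ χ, Chi χ) → LOC`,
plus `exists_chi : ∃ χ, Chi χ`.
-/

set_option autoImplicit false

open MeasureTheory Metric Set Filter Complex
open scoped ContDiff Topology

namespace Crest.Agent.R235.LocAsm_437

open Crest.Agent.R235.Loc

/-- restriction of a `k`-valued graph to a smaller ball. -/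
theorem KG.restrict {μ β : ℂ × ℂ → ℂ} {c : ℂ} {R : ℝ} {k : ℕ} {S : ℂ → Multiset ℂ} {e : ℂ → ℝ}
    (h : KG μ β c R k S e) {c' : ℂ} {R' : ℝ} (hb : ball c' R' ⊆ ball c R) :
    KG μ β c' R' k S e where
  card z hz := h.card z (hb hz)
  cont z hz := h.cont z (hb hz)
  null := by
    refine measure_mono_null ?_ h.null
    rintro z ⟨hz1, hz2⟩
    exact ⟨hb hz1, hz2⟩
  smooth V w hV hw := h.smooth V w (hV.trans hb) hw
  pde V w hV hw := h.pde V w (hV.trans hb) hw
  e0 := h.e0
  eint := h.eint.mono_set hb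
  ebd V w hV hw := h.ebd V w (hV.trans hb) hw
  morrey p hp := by
    obtain ⟨C, a, r₀, hC, ha, hr, hs, hm⟩ := h.morrey p (hb hp)
    obtain ⟨δ, hδ, hδ'⟩ := Metric.isOpen_iff.1 isOpen_ball p hp
    refine ⟨C, a, min r₀ δ, hC, ha, lt_min hr hδ,
      (ball_subset_ball (min_le_right _ _)).trans hδ', fun r h0 h1 => ?_⟩
    exact hm r h0 (h1.trans (min_le_left _ _))
  hold p hp := by
    obtain ⟨C, a, r₀, hC, ha, hr, hs, hm⟩ := h.hold p (hb hp)
    obtain ⟨δ, hδ, hδ'⟩ := Metric.isOpen_iff.1 isOpen_ball p hp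
    refine ⟨C, a, min r₀ δ, hC, ha, lt_min hr hδ,
      (ball_subset_ball (min_le_right _ _)).trans hδ', fun z hz => ?_⟩
    exact hm z (ball_subset_ball (min_le_left _ _) hz)

/-- a positive lower bound for finitely many positive numbers. -/
theorem exists_pos_le {α : Type*} (s : Finset α) (f : α → ℝ) (hf : ∀ a ∈ s, 0 < f a) :
    ∃ ε > 0, ∀ a ∈ s, ε ≤ f a := by
  classical
  induction s using Finset.induction_on with
  | empty => exact ⟨1, one_pos, by simp⟩
  | insert a s ha ih =>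
    obtain ⟨ε, hε, h⟩ := ih fun b hb => hf b (Finset.mem_insert_of_mem hb)
    refine ⟨min ε (f a), lt_min hε (hf a (Finset.mem_insert_self a s)), fun b hb => ?_⟩
    rcases Finset.mem_insert.1 hb with rfl | hb
    · exact min_le_right _ _
    · exact (min_le_left _ _).trans (h b hb)

/-- **LOC-2b.** -/
theorem offz (hC : CLUS) : OFFZ := by
  intro μ β κ L hB c R k S e hK IH p hp hne
  have hcard : (S p).card = k := hK.card p hp
  have hcount : ∀ a ∈ S p, (S p).count a < k := by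
    intro a _
    rw [← hcard]
    refine lt_of_le_of_ne (Multiset.count_le_card a (S p)) fun h => hne ?_
    have h1 := Multiset.count_eq_card.1 h
    intro x hx y hy
    rw [← h1 x hx, ← h1 y hy]
  have key : ∀ a ∈ (S p).toFinset, ∃ ε : ℝ, 0 < ε ∧
      ∀ᶠ z in 𝓝[≠] p, ((S z).filter (fun b => dist b a < ε)).Nodup := by
    intro a ha
    rw [Multiset.mem_toFinset] at ha
    obtain ⟨ε, r, hε, -, hr, -, hKG, -⟩ := hC μ β κ L hB c R k S e hK p hp a ha 1 one_pos
    exact ⟨ε, hε, IH p r _ _ e (hcount a ha) hKG p (mem_ball_self hr)⟩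
  choose! ε hε hev using key
  obtain ⟨ε', hε', hle⟩ := exists_pos_le (S p).toFinset ε hε
  have h1 : ∀ᶠ z in 𝓝[≠] p, Near ε' (S p) (S z) :=
    (hK.cont p hp ε' hε').filter_mono nhdsWithin_le_nhds
  have h2 : ∀ᶠ z in 𝓝[≠] p, ∀ a ∈ (S p).toFinset,
      ((S z).filter (fun b => dist b a < ε a)).Nodup :=
    (Finset.eventually_all _).2 hev
  filter_upwards [h1, h2] with z hz hz'
  rw [Multiset.nodup_iff_count_le_one]
  intro b
  by_cases hb : b ∈ S z
  · obtain ⟨a, ha, hab⟩ := Multiset.exists_mem_of_rel_of_mem (Multiset.rel_flip.2 hz) hb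
    have ha' : a ∈ (S p).toFinset := Multiset.mem_toFinset.2 ha
    have hd : dist b a < ε a := by
      rw [dist_comm]
      exact lt_of_lt_of_le hab (hle a ha')
    have h3 := Multiset.nodup_iff_count_le_one.1 (hz' a ha') b
    rwa [Multiset.count_filter_of_pos (p := fun b => dist b a < ε a) hd] at h3
  · rw [Multiset.count_eq_zero_of_notMem hb]
    exact Nat.zero_le _

/-- existence of the fixed truncation. -/
theorem exists_chi : ∃ χ : ℝ → ℝ, Chi χ := by
  refine ⟨fun t => Real.smoothTransition (2 - t), ?_, ?_, ?_, ?_⟩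
  · exact Real.smoothTransition.contDiff.comp (contDiff_const.sub contDiff_id)
  · intro t ht
    exact Real.smoothTransition.one_of_one_le (by linarith)
  · intro t ht
    exact Real.smoothTransition.zero_of_nonpos (by linarith)
  · intro s t hst
    exact Real.smoothTransition.monotone (by linarith)

theorem loc_aux (h1 : CLUS) (h2 : OFFZ) (h3 : CUT) (h4 : FLUX) (h5 : WIND) (h6 : NONZ)
    (h7 : SUPER) {χ : ℝ → ℝ} (hχ : Chi χ) {μ β : ℂ × ℂ → ℂ} {κ L : ℝ} (hB : BoxD μ β κ L)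
    (k : ℕ)
    (IH : ∀ k' < k, ∀ (c' : ℂ) (R' : ℝ) (S' : ℂ → Multiset ℂ) (e' : ℂ → ℝ),
      KG μ β c' R' k' S' e' → ∀ p ∈ ball c' R', ∀ᶠ z in 𝓝[≠] p, (S' z).Nodup)
    (c : ℂ) (R : ℝ) (S : ℂ → Multiset ℂ) (e : ℂ → ℝ) (hK : KG μ β c R k S e)
    (p : ℂ) (hp : p ∈ ball c R) : ∀ᶠ z in 𝓝[≠] p, (S z).Nodup := by
  -- `DiscOff` for every graph with at most `k` sheets
  have hoff : ∀ k' ≤ k, ∀ (c' : ℂ) (R' : ℝ) (S' : ℂ → Multiset ℂ) (e' : ℂ → ℝ),
      KG μ β c' R' k' S' e' → DiscOff c' R' S' := fun k' hk' c' R' S' e' hK' =>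
    h2 μ β κ L hB c' R' k' S' e' hK' fun c'' R'' k'' S'' e'' hk'' hK'' =>
      IH k'' (hk''.trans_le hk') c'' R'' S'' e'' hK''
  by_cases hall : AllEq S p
  swap
  · exact hoff k le_rfl c R S e hK p hp hall
  have hcard : (S p).card = k := hK.card p hp
  have hnhds : ball c R ∈ 𝓝 p := isOpen_ball.mem_nhds hp
  rcases lt_or_ge k 2 with hk | hk
  · have : ∀ᶠ z in 𝓝[≠] p, z ∈ ball c R := mem_nhdsWithin_of_mem_nhds hnhds
    filter_upwards [this] with z hz
    rw [Multiset.nodup_iff_count_le_one]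
    intro a
    have := Multiset.count_le_card a (S z)
    rw [hK.card z hz] at this
    omega
  -- all `k ≥ 2` sheets coincide at `p`
  obtain ⟨a, ha⟩ : ∃ a, a ∈ S p := by
    refine Multiset.card_pos_iff_exists_mem.1 ?_
    omega
  have hcnt : (S p).count a = k := by
    rw [← hcard]
    exact Multiset.count_eq_card.2 fun x hx => hall a ha x hx
  have hexp : 0 < Real.exp (-1) / 2 := by positivity
  obtain ⟨ε, r, hε, hε₀, hr, hsub, hKG, -, -, -, hfull⟩ :=
    h1 μ β κ L hB c R k S e hK p hp a ha _ hexp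
  have hfull' := hfull hcnt
  rw [hcnt] at hKG
  set S' : ℂ → Multiset ℂ := fun z => (S z).filter (fun b => dist b a < ε) with hS'
  have hD' : DiscOff p r S' := hoff k le_rfl p r S' e hKG
  -- distances
  have hdist : ∀ (T : ℂ → Multiset ℂ) (x : ℂ) (δ : ℝ), δ ≤ Real.exp (-1) / 2 → ∀ z,
      ∀ b ∈ (T z).filter (fun b => dist b x < δ), ∀ b' ∈ (T z).filter (fun b => dist b x < δ),
        ‖b - b'‖ ≤ Real.exp (-1) := by
    intro T x δ hδ z b hb b' hb'
    have hb1 := (Multiset.mem_filter.1 hb).2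
    have hb2 := (Multiset.mem_filter.1 hb').2
    rw [← dist_eq_norm]
    have := dist_triangle_right b b' x
    linarith
  obtain ⟨R₁, R₂, η, hR₂, hcut⟩ := h3 μ β κ L hB p r k S' e hKG hD'
    (fun z _ => hdist S a ε hε₀ z) r hr le_rfl
  -- finiteness in the inner disc
  have hfin : (Del p r S' ∩ ball p R₁).Finite := by
    refine h7 μ β κ L hB p r k S' e hKG hD' R₁ R₂ η hcut ?_
    rintro q ⟨hq, hqn⟩ - r₀ hr₀
    obtain ⟨a', ha'⟩ : ∃ a', 2 ≤ (S' q).count a' := by
      by_contra hcon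
      push Not at hcon
      exact hqn (Multiset.nodup_iff_count_le_one.2 fun x => by
        have := hcon x
        omega)
    have ha'm : a' ∈ S' q := Multiset.count_pos.1 (by omega)
    have hk'k : (S' q).count a' ≤ k := by
      rw [← hKG.card q hq]
      exact Multiset.count_le_card a' (S' q)
    obtain ⟨ε', r', hε', hε₀', hr', hsub', hKG', hrep, -, hslope, -⟩ :=
      h1 μ β κ L hB p r k S' e hKG q hq a' ha'm _ hexp
    set S'' : ℂ → Multiset ℂ := fun z => (S' z).filter (fun b => dist b a' < ε') with hS''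
    set r'' : ℝ := min r' (r₀ / 2) with hr''
    have hr''0 : 0 < r'' := lt_min hr' (by positivity)
    have hbb : ball q r'' ⊆ ball q r' := ball_subset_ball (min_le_left _ _)
    have hKG'' : KG μ β q r'' ((S' q).count a') S'' e := KG.restrict hKG' hbb
    have hD'' : DiscOff q r'' S'' := hoff _ hk'k q r'' S'' e hKG''
    obtain ⟨R₁', R₂', η', hR₂', hcut'⟩ := h3 μ β κ L hB q r'' _ S'' e hKG'' hD''
      (fun z _ => hdist S' a' ε' hε₀' z) r'' hr''0 le_rfl
    have hAll : AllEq S'' q := by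
      intro x hx y hy
      have e1 : S'' q = Multiset.replicate ((S' q).count a') a' := hrep
      rw [e1] at hx hy
      rw [Multiset.eq_of_mem_replicate hx, Multiset.eq_of_mem_replicate hy]
    have hflux0 : 0 ≤ flux S'' η' :=
      (h4 χ hχ μ β κ L hB q r'' _ S'' e hKG'' hD'' R₁' R₂' η' hcut').2.2
    have hfluxne : flux S'' η' ≠ 0 :=
      h6 μ β κ L hB q r'' _ S'' e hKG'' hD'' hr''0 hAll ha' R₁' R₂' η' hcut'
    obtain ⟨N, hN⟩ := h5 μ β κ L hB q r'' _ S'' e hKG'' R₁' R₂' η' hcut'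
    have hpos : 0 < flux S'' η' := lt_of_le_of_ne hflux0 (Ne.symm hfluxne)
    have hN1 : (1 : ℝ) ≤ N := by
      rw [hN] at hpos
      have : (0 : ℝ) < N := by
        by_contra hcon
        push Not at hcon
        have := mul_nonpos_of_nonneg_of_nonpos (by positivity : (0 : ℝ) ≤ 2 * Real.pi) hcon
        linarith
      exact_mod_cast this
    refine ⟨a', ε', r'', R₁', R₂', (S' q).count a', η', hε', hr''0, ?_, hbb.trans hsub', hKG'',
      hD'', fun z hz hn b hb => hslope z (hbb hz) hn b hb, hcut', ?_⟩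
    · exact (min_le_right _ _).trans_lt (by linarith)
    · change 2 * Real.pi ≤ flux S'' η'
      rw [hN]
      have := mul_le_mul_of_nonneg_left hN1 (by positivity : (0 : ℝ) ≤ 2 * Real.pi)
      linarith
  -- conclusion
  have hcl : IsClosed ((Del p r S' ∩ ball p R₁) \ {p}) := (hfin.subset sdiff_subset).isClosed
  have hnot : ((Del p r S' ∩ ball p R₁) \ {p})ᶜ ∈ 𝓝 p :=
    hcl.isOpen_compl.mem_nhds (by simp)
  have hb1 : ball p r ∈ 𝓝 p := ball_mem_nhds p hr
  have hb2 : ball p R₁ ∈ 𝓝 p := ball_mem_nhds p hcut.pos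
  filter_upwards [mem_nhdsWithin_of_mem_nhds hnot, mem_nhdsWithin_of_mem_nhds hb1,
    mem_nhdsWithin_of_mem_nhds hb2, self_mem_nhdsWithin] with z hz1 hz2 hz3 hz4
  have hz5 : (S' z).Nodup := by
    by_contra hcon
    exact hz1 ⟨⟨⟨hz2, hcon⟩, hz3⟩, hz4⟩
  have hz6 : S' z = S z := hfull' z hz2
  rwa [hz6] at hz5

/-- **assembly of THEOREM LOC.** -/
theorem loc_of (h1 : CLUS) (h2 : OFFZ) (h3 : CUT) (h4 : FLUX) (h5 : WIND) (h6 : NONZ)
    (h7 : SUPER) (hχ : ∃ χ : ℝ → ℝ, Chi χ) : LOC := by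
  obtain ⟨χ, hχ⟩ := hχ
  intro μ β κ L hB c R k
  induction k using Nat.strong_induction_on generalizing c R with
  | _ k IH =>
    intro S e hK p hp
    exact loc_aux h1 h2 h3 h4 h5 h6 h7 hχ hB k
      (fun k' hk' c' R' S' e' hK' => IH k' hk' c' R' S' e' hK') c R S e hK p hp

end Crest.Agent.R235.LocAsm_437
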