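import Crest.Agent.R235.NoZero_504
import Crest.Agent.R281.Mc2_673

/-!
# Row 235, FIB-B1c (helper504), part 2: `nozero` in the format of `R281.Mc673`
-/

set_option autoImplicit false

open Set Filter MeasureTheory Topology Real
open scoped ContDiff

namespace Crest.Agent.R235.NoZeroT_504

open Crest.Agent.R281.Mc673
open Crest.Agent.R238.Sch (ee)
open Crest.Agent.R235.NoZero_504 (en jac)

noncomputable section

/-- pointwise algebra: `α r + 2 β s + γ t = τ`, the form `(α, β, γ)` is at least `l`, then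
`s² - r t` is coercive up to `τ²` -/
theorem alg {α β γ l L r s t τ : ℝ} (hl : 0 < l) (hα : l ≤ α) (hγ : l ≤ γ) (hαL : α ≤ L)
    (hγL : γ ≤ L) (hf : ∀ x y : ℝ, l * (x ^ 2 + y ^ 2) ≤ α * x ^ 2 + 2 * β * x * y + γ * y ^ 2)
    (h : α * r + 2 * β * s + γ * t = τ) :
    l / (4 * L) * (r ^ 2 + s ^ 2 + s ^ 2 + t ^ 2) ≤ s ^ 2 - r * t + τ ^ 2 / (2 * l ^ 2) := by
  have hα0 : 0 < α := hl.trans_le hα
  have hγ0 : 0 < γ := hl.trans_le hγ
  have hL0 : 0 < L := hα0.trans_le hαL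
  -- first
  have h1 : l / 2 * (s ^ 2 + t ^ 2) / L ≤ s ^ 2 - r * t + τ ^ 2 / (2 * l ^ 2) := by
    have e1 : α * (s ^ 2 - r * t) = α * s ^ 2 + 2 * β * s * t + γ * t ^ 2 - τ * t := by
      rw [← h]; ring
    have e2 := hf s t
    have e3 : τ * t ≤ l / 2 * t ^ 2 + τ ^ 2 / (2 * l) := by
      have : 0 ≤ (l * t - τ) ^ 2 / (2 * l) := by positivity
      have e4 : (l * t - τ) ^ 2 / (2 * l) = l / 2 * t ^ 2 + τ ^ 2 / (2 * l) - τ * t := by
        field_simp
        ring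
      linarith
    have e5 : l / 2 * (s ^ 2 + t ^ 2) ≤ α * (s ^ 2 - r * t) + τ ^ 2 / (2 * l) := by
      nlinarith [mul_nonneg hl.le (sq_nonneg s)]
    have e6 : τ ^ 2 / (2 * l) ≤ α * (τ ^ 2 / (2 * l ^ 2)) := by
      have : α * (τ ^ 2 / (2 * l ^ 2)) - τ ^ 2 / (2 * l) = (α - l) * (τ ^ 2 / (2 * l ^ 2)) := by
        field_simp
      have h0 : 0 ≤ (α - l) * (τ ^ 2 / (2 * l ^ 2)) := mul_nonneg (by linarith) (by positivity)
      linarith
    have e7 : l / 2 * (s ^ 2 + t ^ 2) ≤ α * (s ^ 2 - r * t + τ ^ 2 / (2 * l ^ 2)) := by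
      linarith
    have e8 : 0 ≤ s ^ 2 - r * t + τ ^ 2 / (2 * l ^ 2) := by
      have : 0 ≤ α * (s ^ 2 - r * t + τ ^ 2 / (2 * l ^ 2)) := le_trans (by positivity) e7
      exact nonneg_of_mul_nonneg_right this hα0
    rw [div_le_iff₀ hL0]
    nlinarith
  have h2 : l / 2 * (r ^ 2 + s ^ 2) / L ≤ s ^ 2 - r * t + τ ^ 2 / (2 * l ^ 2) := by
    have e1 : γ * (s ^ 2 - r * t) = α * r ^ 2 + 2 * β * r * s + γ * s ^ 2 - τ * r := by
      rw [← h]; ring
    have e2 := hf r s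
    have e3 : τ * r ≤ l / 2 * r ^ 2 + τ ^ 2 / (2 * l) := by
      have : 0 ≤ (l * r - τ) ^ 2 / (2 * l) := by positivity
      have e4 : (l * r - τ) ^ 2 / (2 * l) = l / 2 * r ^ 2 + τ ^ 2 / (2 * l) - τ * r := by
        field_simp
        ring
      linarith
    have e5 : l / 2 * (r ^ 2 + s ^ 2) ≤ γ * (s ^ 2 - r * t) + τ ^ 2 / (2 * l) := by
      nlinarith [mul_nonneg hl.le (sq_nonneg s)]
    have e6 : τ ^ 2 / (2 * l) ≤ γ * (τ ^ 2 / (2 * l ^ 2)) := by
      have : γ * (τ ^ 2 / (2 * l ^ 2)) - τ ^ 2 / (2 * l) = (γ - l) * (τ ^ 2 / (2 * l ^ 2)) := by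
        field_simp
      have h0 : 0 ≤ (γ - l) * (τ ^ 2 / (2 * l ^ 2)) := mul_nonneg (by linarith) (by positivity)
      linarith
    have e7 : l / 2 * (r ^ 2 + s ^ 2) ≤ γ * (s ^ 2 - r * t + τ ^ 2 / (2 * l ^ 2)) := by
      linarith
    have e8 : 0 ≤ s ^ 2 - r * t + τ ^ 2 / (2 * l ^ 2) := by
      have : 0 ≤ γ * (s ^ 2 - r * t + τ ^ 2 / (2 * l ^ 2)) := le_trans (by positivity) e7
      exact nonneg_of_mul_nonneg_right this hγ0
    rw [div_le_iff₀ hL0]
    nlinarith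
  have e : l / (4 * L) * (r ^ 2 + s ^ 2 + s ^ 2 + t ^ 2) =
      (l / 2 * (s ^ 2 + t ^ 2) / L + l / 2 * (r ^ 2 + s ^ 2) / L) / 2 := by
    field_simp
    ring
  rw [e]
  linarith

/-- `ℝ × ℝ → V 2` -/
def pe : ℝ × ℝ →L[ℝ] V 2 :=
  (PiLp.continuousLinearEquiv 2 ℝ (fun _ : Fin 2 => ℝ)).symm.toContinuousLinearMap.comp
    (ContinuousLinearMap.pi ![ContinuousLinearMap.fst ℝ ℝ ℝ, ContinuousLinearMap.snd ℝ ℝ ℝ])

theorem pe_apply (y : ℝ × ℝ) : pe y = WithLp.toLp 2 ![y.1, y.2] := by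
  ext i
  fin_cases i <;> simp [pe]

theorem pe_e0 : pe (1, 0) = (ee 0 : V 2) := by
  rw [pe_apply]
  ext i
  fin_cases i <;> simp [ee]

theorem pe_e1 : pe (0, 1) = (ee 1 : V 2) := by
  rw [pe_apply]
  ext i
  fin_cases i <;> simp [ee]

theorem pe_surj (x : V 2) : pe (x 0, x 1) = x := by
  rw [pe_apply]
  ext i
  fin_cases i <;> simp

theorem per_pe {f : V 2 → ℝ} (hf : Per f) : NoZero_504.Per (fun y => f (pe y)) := by
  intro y m n
  have : pe (y + ((m : ℝ), (n : ℝ))) = pe y + kv ![m, n] := by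
    rw [map_add]
    congr 1
    rw [pe_apply, kv]
    ext i
    fin_cases i <;> simp
  simp only [this]
  exact hf _ _

theorem fd_pe {f : V 2 → ℝ} (hf : SP f) (y : ℝ × ℝ) :
    fderiv ℝ (fun y => f (pe y)) y (1, 0) = dr 0 f (pe y) ∧
    fderiv ℝ (fun y => f (pe y)) y (0, 1) = dr 1 f (pe y) := by
  have h := ((hf.diff (pe y)).hasFDerivAt.comp y (pe.hasFDerivAt (x := y))).fderiv
  have h' : fderiv ℝ (fun y => f (pe y)) y = (fderiv ℝ f (pe y)).comp pe := h
  rw [h']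
  exact ⟨by rw [ContinuousLinearMap.comp_apply, pe_e0]; rfl,
    by rw [ContinuousLinearMap.comp_apply, pe_e1]; rfl⟩

/-- **NOZERO**: closed one-forms `η` on the two-torus with `A η` closed (`A` elliptic) have no
zeros unless they vanish identically. -/
theorem nozero (A : V 2 → Matrix (Fin 2) (Fin 2) ℝ) (hA : ∀ i j, SP fun x => A x i j)
    (hpos : ∀ x, ∀ v : Fin 2 → ℝ, v ≠ 0 → 0 < v 0 * (A x).mulVec v 1 - v 1 * (A x).mulVec v 0)
    (eta : V 2 → Fin 2 → ℝ) (heta : ∀ i, SP fun x => eta x i)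
    (h1 : ∀ x, dr 0 (fun x => eta x 1) x = dr 1 (fun x => eta x 0) x)
    (h2 : ∀ x, dr 0 (fun x => (A x).mulVec (eta x) 1) x = dr 1 (fun x => (A x).mulVec (eta x) 0) x)
    (x0 : V 2) (h0 : eta x0 = 0) : ∀ x, eta x = 0 := by
  -- coefficients
  set α : V 2 → ℝ := fun x => A x 1 0 with hα
  set γ : V 2 → ℝ := fun x => - A x 0 1 with hγ
  set β : V 2 → ℝ := fun x => (A x 1 1 - A x 0 0) / 2 with hβ
  have sα : SP α := hA 1 0
  have sγ : SP γ := (hA 0 1).neg
  have sβ : SP β := by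
    have := ((hA 1 1).sub (hA 0 0)).smul (2⁻¹ : ℝ)
    refine ⟨by simpa [hβ, div_eq_inv_mul] using this.sm, fun k x => ?_⟩
    have e1 := (hA 1 1).per k x
    have e0 := (hA 0 0).per k x
    beta_reduce at e1 e0
    show (A (x + kv k) 1 1 - A (x + kv k) 0 0) / 2 = (A x 1 1 - A x 0 0) / 2
    rw [e1, e0]
  have hq : ∀ x (p q : ℝ), ¬ (p = 0 ∧ q = 0) → 0 < α x * p ^ 2 + 2 * β x * p * q + γ x * q ^ 2 := by
    intro x p q hpq
    have hne : (![p, q] : Fin 2 → ℝ) ≠ 0 := by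
      intro h
      exact hpq ⟨by simpa using congrFun h 0, by simpa using congrFun h 1⟩
    have := hpos x ![p, q] hne
    simp only [Matrix.mulVec, dotProduct, Fin.sum_univ_two, Matrix.cons_val_zero,
      Matrix.cons_val_one] at this
    simp only [hα, hβ, hγ]
    linarith
  have pα : ∀ x, 0 < α x := fun x => by
    have := hq x 1 0 (by simp)
    simpa using this
  have pγ : ∀ x, 0 < γ x := fun x => by
    have := hq x 0 1 (by simp)
    simpa using this
  have pD : ∀ x, 0 < α x * γ x - β x ^ 2 := fun x => by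
    have h3 := hq x (-β x) (α x) (by rintro ⟨_, h⟩; exact (pα x).ne' h)
    have h4 : α x * (-β x) ^ 2 + 2 * β x * (-β x) * α x + γ x * α x ^ 2 =
        α x * (α x * γ x - β x ^ 2) := by ring
    rw [h4] at h3
    exact (mul_pos_iff_of_pos_left (pα x)).1 h3
  -- the lower bound
  obtain ⟨l, hl, hll⟩ : ∃ l : ℝ, 0 < l ∧ ∀ x, l ≤ (α x * γ x - β x ^ 2) / (α x + γ x) := by
    have hper : Per (fun x => -((α x * γ x - β x ^ 2) / (α x + γ x))) := by
      intro k x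
      simp only [sα.per k x, sβ.per k x, sγ.per k x]
    have hc : Continuous (fun x => -((α x * γ x - β x ^ 2) / (α x + γ x))) :=
      (((sα.cont.mul sγ.cont).sub (sβ.cont.pow 2)).div (sα.cont.add sγ.cont)
        fun x => (add_pos (pα x) (pγ x)).ne').neg
    obtain ⟨x1, hx1⟩ := hper.exists_max hc
    refine ⟨(α x1 * γ x1 - β x1 ^ 2) / (α x1 + γ x1), div_pos (pD x1)
      (add_pos (pα x1) (pγ x1)), fun x => ?_⟩
    have := hx1 x
    linarith
  obtain ⟨L1, hL1, hL1'⟩ := sα.per.bdd sα.cont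
  obtain ⟨L2, hL2, hL2'⟩ := sγ.per.bdd sγ.cont
  set L := max L1 L2 with hL
  have hαL : ∀ x, α x ≤ L := fun x => (le_abs_self _).trans ((hL1' x).trans (le_max_left _ _))
  have hγL : ∀ x, γ x ≤ L := fun x => (le_abs_self _).trans ((hL2' x).trans (le_max_right _ _))
  have hlα : ∀ x, l ≤ α x := fun x => (hll x).trans (by
    rw [div_le_iff₀ (add_pos (pα x) (pγ x))]
    nlinarith [sq_nonneg (α x), sq_nonneg (β x)])
  have hlγ : ∀ x, l ≤ γ x := fun x => (hll x).trans (by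
    rw [div_le_iff₀ (add_pos (pα x) (pγ x))]
    nlinarith [sq_nonneg (γ x), sq_nonneg (β x)])
  have hform : ∀ x, ∀ p q : ℝ, l * (p ^ 2 + q ^ 2) ≤ α x * p ^ 2 + 2 * β x * p * q + γ x * q ^ 2 := by
    intro x p q
    set m := (α x * γ x - β x ^ 2) / (α x + γ x) with hm
    have hs := add_pos (pα x) (pγ x)
    have hmm : m * (α x + γ x) = α x * γ x - β x ^ 2 := by
      rw [hm]; field_simp
    have h5 : 0 < α x - m := by
      have : (α x - m) * (α x + γ x) = α x ^ 2 + β x ^ 2 := by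
        rw [sub_mul, hmm]; ring
      have h6 : 0 < α x ^ 2 + β x ^ 2 := by have := pα x; positivity
      rw [← this] at h6
      exact (mul_pos_iff_of_pos_right hs).1 h6
    have h7 : (α x - m) * (α x * p ^ 2 + 2 * β x * p * q + γ x * q ^ 2 - m * (p ^ 2 + q ^ 2)) =
        ((α x - m) * p + β x * q) ^ 2 + m ^ 2 * q ^ 2 := by
      have h8 : (α x - m) * (γ x - m) - β x ^ 2 = m ^ 2 := by nlinarith
      linear_combination q ^ 2 * h8
    have h9 : 0 ≤ α x * p ^ 2 + 2 * β x * p * q + γ x * q ^ 2 - m * (p ^ 2 + q ^ 2) := by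
      have : 0 ≤ (α x - m) * (α x * p ^ 2 + 2 * β x * p * q + γ x * q ^ 2 - m * (p ^ 2 + q ^ 2)) := by
        rw [h7]; positivity
      exact nonneg_of_mul_nonneg_right this h5
    have h10 : l * (p ^ 2 + q ^ 2) ≤ m * (p ^ 2 + q ^ 2) :=
      mul_le_mul_of_nonneg_right (hll x) (by positivity)
    linarith
  -- the lower order term
  obtain ⟨K, hK0, hK⟩ : ∃ K : ℝ, 0 ≤ K ∧ ∀ x, |α x * dr 0 (fun x => eta x 0) x +
      2 * β x * dr 0 (fun x => eta x 1) x + γ x * dr 1 (fun x => eta x 1) x| ≤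
      K * (|eta x 0| + |eta x 1|) := by
    obtain ⟨K1, k1, hK1⟩ := ((hA 1 0).dr 0).per.bdd ((hA 1 0).dr 0).cont
    obtain ⟨K2, k2, hK2⟩ := ((hA 1 1).dr 0).per.bdd ((hA 1 1).dr 0).cont
    obtain ⟨K3, k3, hK3⟩ := ((hA 0 0).dr 1).per.bdd ((hA 0 0).dr 1).cont
    obtain ⟨K4, k4, hK4⟩ := ((hA 0 1).dr 1).per.bdd ((hA 0 1).dr 1).cont
    refine ⟨K1 + K2 + K3 + K4, by positivity, fun x => ?_⟩
    have e1 : dr 0 (fun x => (A x).mulVec (eta x) 1) x =
        dr 0 (fun x => A x 1 0) x * eta x 0 + A x 1 0 * dr 0 (fun x => eta x 0) x +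
        (dr 0 (fun x => A x 1 1) x * eta x 1 + A x 1 1 * dr 0 (fun x => eta x 1) x) := by
      have : (fun x => (A x).mulVec (eta x) 1) =
          fun x => A x 1 0 * eta x 0 + A x 1 1 * eta x 1 := by
        funext x; simp [Matrix.mulVec, dotProduct, Fin.sum_univ_two]
      rw [this, dr_add ((hA 1 0).mul (heta 0)) ((hA 1 1).mul (heta 1)),
        dr_mul (hA 1 0) (heta 0), dr_mul (hA 1 1) (heta 1)]
    have e2 : dr 1 (fun x => (A x).mulVec (eta x) 0) x =
        dr 1 (fun x => A x 0 0) x * eta x 0 + A x 0 0 * dr 1 (fun x => eta x 0) x +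
        (dr 1 (fun x => A x 0 1) x * eta x 1 + A x 0 1 * dr 1 (fun x => eta x 1) x) := by
      have : (fun x => (A x).mulVec (eta x) 0) =
          fun x => A x 0 0 * eta x 0 + A x 0 1 * eta x 1 := by
        funext x; simp [Matrix.mulVec, dotProduct, Fin.sum_univ_two]
      rw [this, dr_add ((hA 0 0).mul (heta 0)) ((hA 0 1).mul (heta 1)),
        dr_mul (hA 0 0) (heta 0), dr_mul (hA 0 1) (heta 1)]
    have e3 := h2 x
    rw [e1, e2] at e3
    have e4 : α x * dr 0 (fun x => eta x 0) x + 2 * β x * dr 0 (fun x => eta x 1) x +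
        γ x * dr 1 (fun x => eta x 1) x =
        -(dr 0 (fun x => A x 1 0) x * eta x 0) - dr 0 (fun x => A x 1 1) x * eta x 1 +
        dr 1 (fun x => A x 0 0) x * eta x 0 + dr 1 (fun x => A x 0 1) x * eta x 1 := by
      have e5 := h1 x
      simp only [hα, hβ, hγ]
      rw [← e5] at e3
      linarith
    rw [e4]
    have a1 := hK1 x
    have a2 := hK2 x
    have a3 := hK3 x
    have a4 := hK4 x
    rw [Real.norm_eq_abs] at a1 a2 a3 a4
    have b1 : |dr 0 (fun x => A x 1 0) x * eta x 0| ≤ K1 * |eta x 0| := by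
      rw [abs_mul]; exact mul_le_mul_of_nonneg_right a1 (abs_nonneg _)
    have b2 : |dr 0 (fun x => A x 1 1) x * eta x 1| ≤ K2 * |eta x 1| := by
      rw [abs_mul]; exact mul_le_mul_of_nonneg_right a2 (abs_nonneg _)
    have b3 : |dr 1 (fun x => A x 0 0) x * eta x 0| ≤ K3 * |eta x 0| := by
      rw [abs_mul]; exact mul_le_mul_of_nonneg_right a3 (abs_nonneg _)
    have b4 : |dr 1 (fun x => A x 0 1) x * eta x 1| ≤ K4 * |eta x 1| := by
      rw [abs_mul]; exact mul_le_mul_of_nonneg_right a4 (abs_nonneg _)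
    have c1 := abs_nonneg (eta x 0)
    have c2 := abs_nonneg (eta x 1)
    rw [abs_le] at b1 b2 b3 b4 ⊢
    constructor <;> nlinarith [b1.1, b1.2, b2.1, b2.2, b3.1, b3.2, b4.1, b4.2]
  -- the core
  set a : ℝ × ℝ → ℝ := fun y => eta (pe y) 0 with ha
  set b : ℝ × ℝ → ℝ := fun y => eta (pe y) 1 with hb
  have ca : ContDiff ℝ 2 a := ((heta 0).sm.comp pe.contDiff).of_le (by norm_cast)
  have cb : ContDiff ℝ 2 b := ((heta 1).sm.comp pe.contDiff).of_le (by norm_cast)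
  have key : ∀ y, l / (4 * L) * en a b y ≤ -jac a b y + K ^ 2 / l ^ 2 * (a y ^ 2 + b y ^ 2) := by
    intro y
    obtain ⟨a1, a2⟩ := fd_pe (heta 0) y
    obtain ⟨b1, b2⟩ := fd_pe (heta 1) y
    have e := h1 (pe y)
    have h3 := alg hl (hlα (pe y)) (hlγ (pe y)) (hαL (pe y)) (hγL (pe y)) (hform (pe y))
      (rfl : α (pe y) * dr 0 (fun x => eta x 0) (pe y) + 2 * β (pe y) *
        dr 0 (fun x => eta x 1) (pe y) + γ (pe y) * dr 1 (fun x => eta x 1) (pe y) = _)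
    have h4 := hK (pe y)
    set τ := α (pe y) * dr 0 (fun x => eta x 0) (pe y) + 2 * β (pe y) *
        dr 0 (fun x => eta x 1) (pe y) + γ (pe y) * dr 1 (fun x => eta x 1) (pe y)
    have h5 : τ ^ 2 ≤ K ^ 2 * (2 * (a y ^ 2 + b y ^ 2)) := by
      have : |τ| ^ 2 ≤ (K * (|a y| + |b y|)) ^ 2 := pow_le_pow_left₀ (abs_nonneg _) h4 2
      rw [sq_abs] at this
      refine this.trans ?_
      rw [mul_pow]
      refine mul_le_mul_of_nonneg_left ?_ (sq_nonneg K)
      nlinarith [sq_abs (a y), sq_abs (b y), sq_nonneg (|a y| - |b y|)]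
    have h6 : τ ^ 2 / (2 * l ^ 2) ≤ K ^ 2 / l ^ 2 * (a y ^ 2 + b y ^ 2) := by
      rw [div_le_iff₀ (by positivity)]
      have : K ^ 2 / l ^ 2 * (a y ^ 2 + b y ^ 2) * (2 * l ^ 2) =
          K ^ 2 * (2 * (a y ^ 2 + b y ^ 2)) := by field_simp
      rw [this]
      exact h5
    have h7 : en a b y = dr 0 (fun x => eta x 0) (pe y) ^ 2 + dr 0 (fun x => eta x 1) (pe y) ^ 2 +
        dr 0 (fun x => eta x 1) (pe y) ^ 2 + dr 1 (fun x => eta x 1) (pe y) ^ 2 := by
      simp only [en, ha, hb]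
      rw [a1, a2, b1, b2, e]
    have h8 : jac a b y = dr 0 (fun x => eta x 0) (pe y) * dr 1 (fun x => eta x 1) (pe y) -
        dr 0 (fun x => eta x 1) (pe y) ^ 2 := by
      simp only [jac, ha, hb]
      rw [a1, a2, b1, b2, e]
      ring
    rw [h7, h8]
    linarith
  have hL0 : 0 < L := (pα 0).trans_le (hαL 0)
  have hz := NoZero_504.core ca cb (per_pe (heta 0).per) (per_pe (heta 1).per)
    (c := l / (4 * L)) (C := K ^ 2 / l ^ 2) (by positivity) (by positivity) key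
    (z := (x0 0, x0 1)) (by simp only [ha, pe_surj, h0]; rfl) (by simp only [hb, pe_surj, h0]; rfl)
  intro x
  have := hz (x 0, x 1)
  simp only [ha, hb, pe_surj] at this
  funext i
  fin_cases i
  · exact this.1
  · exact this.2

end

end Crest.Agent.R235.NoZeroT_504
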