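import Crest.Agent.R281.Mc6_673

/-!
# Row 235 (S0364), TOR / FIB-B1b (helper384): the statement of FAM

Coordinates: `W 2 = V 2 × V 2`, first factor the torus variable, second the normal variable.
-/

set_option autoImplicit false
set_option maxSynthPendingDepth 3

open Set Metric Filter Topology
open scoped ContDiff

namespace Crest.Agent.R235.TorFam_384

open Crest.Agent.R281.Mc673

noncomputable section

/-- the hypotheses on the two pulled back forms (with `TubeT` of helper153: `x = pbF T (w 1)`,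
`y = pbF T (w 2)`) -/
structure FamH (r : ℝ) (x y : Fo 2) : Prop where
  pos : 0 < r
  clx : ClF r x
  cly : ClF r y
  horx : ∀ θ u v : V 2, x (θ, 0) (u, 0) (v, 0) = 0
  hory : ∀ θ u v : V 2, y (θ, 0) (u, 0) (v, 0) = 0
  norm : ∀ θ u v : V 2, x (θ, 0) (0, v) (u, 0) = inner ℝ v u
  nondeg : ∀ p ∈ tube 2 r, ∀ c d : ℝ, (c ≠ 0 ∨ d ≠ 0) → ∀ u,
    (∀ v, c * x p u v + d * y p u v = 0) → u = 0

/-- the family of lagrangian graphs -/
structure FamT (r : ℝ) (x y : Fo 2) (δ : ℝ) (a : W 2 → V 2) : Prop where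
  pos : 0 < δ
  smooth : ContDiffOn ℝ ∞ a (tube 2 δ)
  per : ∀ (k : Fin 2 → ℤ) (p : W 2), a (p.1 + kv k, p.2) = a p
  zero : ∀ θ, a (θ, 0) = 0
  small : ∀ p ∈ tube 2 δ, ‖a p‖ < r
  lagx : ∀ p ∈ tube 2 δ, ∀ u v : V 2,
    x (p.1, a p) (u, fderiv ℝ a p (u, 0)) (v, fderiv ℝ a p (v, 0)) = 0
  lagy : ∀ p ∈ tube 2 δ, ∀ u v : V 2,
    y (p.1, a p) (u, fderiv ℝ a p (u, 0)) (v, fderiv ℝ a p (v, 0)) = 0
  inj : ∀ p ∈ tube 2 δ, ∀ u : V 2, fderiv ℝ a p (0, u) = 0 → u = 0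

/-- **FAM** -/
def FAM : Prop := ∀ (r : ℝ) (x y : Fo 2), FamH r x y → ∃ (δ : ℝ) (a : W 2 → V 2), FamT r x y δ a

end

end Crest.Agent.R235.TorFam_384
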